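import Vale.Agent.Lib.P154.Chain.D4.R1_0

set_option linter.all false

namespace Vale.Agent.Lib.P154.Chain.D4.S2

noncomputable def pc0 : PT := (PT.nd (nat_lit 550464) (PT.nd (nat_lit 279368) (PT.nd (nat_lit 98888) (PT.nd (nat_lit 53580) (PT.nd (nat_lit 8460) (PT.nd (nat_lit 8366) PT.nil (PT.lf (nat_lit 84) (nat_lit 6) (nat_lit 1) (nat_lit 3) (nat_lit 89) (nat_lit 0) (nat_lit 91))) (PT.nd (nat_lit 94) (PT.lf (nat_lit 168) (nat_lit 3) (nat_lit 2) (nat_lit 1) (nat_lit 90) (nat_lit 0) (nat_lit 90)) (PT.lf (nat_lit 84) (nat_lit 6) (nat_lit 1) (nat_lit 1) (nat_lit 91) (nat_lit 0) (nat_lit 89)))) (PT.nd (nat_lit 45120) (PT.nd (nat_lit 94) (PT.lf (nat_lit 252) (nat_lit 6) (nat_lit 3) (nat_lit 3) (nat_lit 89) (nat_lit 1) (nat_lit 90)) (PT.lf (nat_lit 252) (nat_lit 6) (nat_lit 3) (nat_lit 1) (nat_lit 90) (nat_lit 1) (nat_lit 89))) (PT.nd (nat_lit 94) (PT.lf (nat_lit 336) (nat_lit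 6) (nat_lit 4) (nat_lit 3) (nat_lit 88) (nat_lit 2) (nat_lit 90)) (PT.lf (nat_lit 420) (nat_lit 3) (nat_lit 5) (nat_lit 1) (nat_lit 89) (nat_lit 2) (nat_lit 89))))) (PT.nd (nat_lit 90240) (PT.nd (nat_lit 45120) (PT.nd (nat_lit 45026) (PT.lf (nat_lit 336) (nat_lit 6) (nat_lit 4) (nat_lit 1) (nat_lit 90) (nat_lit 2) (nat_lit 88)) (PT.lf (nat_lit 504) (nat_lit 6) (nat_lit 6) (nat_lit 3) (nat_lit 88) (nat_lit 3) (nat_lit 89))) (PT.nd (nat_lit 45026) (PT.lf (nat_lit 504) (nat_lit 6) (nat_lit 6) (nat_lit 1) (nat_lit 89) (nat_lit 3) (nat_lit 88)) (PT.lf (nat_lit 588) (nat_lit 6) (nat_lit 7) (nat_lit 3) (nat_lit 87) (nat_lit 4) (nat_lit 89)))) (PT.nd (nat_lit 45120) (PT.nd (nat_lit 94) (PT.lf (nat_lit 672) (nat_lit 3) (nat_lit 8) (nat_lit 1) (nat_lit 88) (nat_lit 4) (nat_lit 88)) (PT.lf (nat_lit 588) (nat_lit 6) (nat_lit 7) (nat_lit 1) (nat_lit 89) (nat_lit 4) (nat_lit 87))) (PT.nd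 (nat_lit 94) (PT.lf (nat_lit 756) (nat_lit 6) (nat_lit 9) (nat_lit 3) (nat_lit 87) (nat_lit 5) (nat_lit 88)) (PT.lf (nat_lit 756) (nat_lit 6) (nat_lit 9) (nat_lit 1) (nat_lit 88) (nat_lit 5) (nat_lit 87)))))) (PT.nd (nat_lit 135548) (PT.nd (nat_lit 45308) (PT.nd (nat_lit 188) (PT.nd (nat_lit 94) (PT.lf (nat_lit 840) (nat_lit 6) (nat_lit 10) (nat_lit 3) (nat_lit 86) (nat_lit 6) (nat_lit 88)) (PT.lf (nat_lit 924) (nat_lit 3) (nat_lit 11) (nat_lit 1) (nat_lit 87) (nat_lit 6) (nat_lit 87))) (PT.nd (nat_lit 45026) (PT.lf (nat_lit 840) (nat_lit 6) (nat_lit 10) (nat_lit 1) (nat_lit 88) (nat_lit 6) (nat_lit 86)) (PT.lf (nat_lit 1008) (nat_lit 6) (nat_lit 12) (nat_lit 3) (nat_lit 86) (nat_lit 7) (nat_lit 87)))) (PT.nd (nat_lit 45120) (PT.nd (nat_lit 45026) (PT.lf (nat_lit 1008) (nat_lit 6) (nat_lit 12) (nat_lit 1) (nat_lit 87) (nat_lit 7) (nat_lit 86)) (PT.lf (nat_lit 1092) (nat_lit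 6) (nat_lit 13) (nat_lit 3) (nat_lit 85) (nat_lit 8) (nat_lit 87))) (PT.nd (nat_lit 94) (PT.lf (nat_lit 1176) (nat_lit 3) (nat_lit 14) (nat_lit 1) (nat_lit 86) (nat_lit 8) (nat_lit 86)) (PT.lf (nat_lit 1092) (nat_lit 6) (nat_lit 13) (nat_lit 1) (nat_lit 87) (nat_lit 8) (nat_lit 85))))) (PT.nd (nat_lit 45308) (PT.nd (nat_lit 45120) (PT.nd (nat_lit 94) (PT.lf (nat_lit 1260) (nat_lit 6) (nat_lit 15) (nat_lit 3) (nat_lit 85) (nat_lit 9) (nat_lit 86)) (PT.lf (nat_lit 1260) (nat_lit 6) (nat_lit 15) (nat_lit 1) (nat_lit 86) (nat_lit 9) (nat_lit 85))) (PT.nd (nat_lit 94) (PT.lf (nat_lit 1344) (nat_lit 6) (nat_lit 16) (nat_lit 3) (nat_lit 84) (nat_lit 10) (nat_lit 86)) (PT.lf (nat_lit 1428) (nat_lit 3) (nat_lit 17) (nat_lit 1) (nat_lit 85) (nat_lit 10) (nat_lit 85)))) (PT.nd (nat_lit 45120) (PT.nd (nat_lit 45026) (PT.lf (nat_lit 1344) (nat_lit 6) (nat_lit 16) (nat_lit 1) (nat_lit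 86) (nat_lit 10) (nat_lit 84)) (PT.lf (nat_lit 1512) (nat_lit 6) (nat_lit 18) (nat_lit 3) (nat_lit 84) (nat_lit 11) (nat_lit 85))) (PT.nd (nat_lit 45026) (PT.lf (nat_lit 1512) (nat_lit 6) (nat_lit 18) (nat_lit 1) (nat_lit 85) (nat_lit 11) (nat_lit 84)) (PT.lf (nat_lit 1596) (nat_lit 6) (nat_lit 19) (nat_lit 3) (nat_lit 83) (nat_lit 12) (nat_lit 85))))))) (PT.nd (nat_lit 271096) (PT.nd (nat_lit 135548) (PT.nd (nat_lit 90240) (PT.nd (nat_lit 45120) (PT.nd (nat_lit 94) (PT.lf (nat_lit 1680) (nat_lit 3) (nat_lit 20) (nat_lit 1) (nat_lit 84) (nat_lit 12) (nat_lit 84)) (PT.lf (nat_lit 1596) (nat_lit 6) (nat_lit 19) (nat_lit 1) (nat_lit 85) (nat_lit 12) (nat_lit 83))) (PT.nd (nat_lit 94) (PT.lf (nat_lit 1764) (nat_lit 6) (nat_lit 21) (nat_lit 3) (nat_lit 83) (nat_lit 13) (nat_lit 84)) (PT.lf (nat_lit 1764) (nat_lit 6) (nat_lit 21) (nat_lit 1) (nat_lit 84) (nat_lit 13) (nat_lit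 83)))) (PT.nd (nat_lit 188) (PT.nd (nat_lit 94) (PT.lf (nat_lit 1848) (nat_lit 6) (nat_lit 22) (nat_lit 3) (nat_lit 82) (nat_lit 14) (nat_lit 84)) (PT.lf (nat_lit 1932) (nat_lit 3) (nat_lit 23) (nat_lit 1) (nat_lit 83) (nat_lit 14) (nat_lit 83))) (PT.nd (nat_lit 45026) (PT.lf (nat_lit 1848) (nat_lit 6) (nat_lit 22) (nat_lit 1) (nat_lit 84) (nat_lit 14) (nat_lit 82)) (PT.lf (nat_lit 2016) (nat_lit 6) (nat_lit 24) (nat_lit 3) (nat_lit 82) (nat_lit 15) (nat_lit 83))))) (PT.nd (nat_lit 90240) (PT.nd (nat_lit 45120) (PT.nd (nat_lit 45026) (PT.lf (nat_lit 2016) (nat_lit 6) (nat_lit 24) (nat_lit 1) (nat_lit 83) (nat_lit 15) (nat_lit 82)) (PT.lf (nat_lit 2100) (nat_lit 6) (nat_lit 25) (nat_lit 3) (nat_lit 81) (nat_lit 16) (nat_lit 83))) (PT.nd (nat_lit 94) (PT.lf (nat_lit 2184) (nat_lit 3) (nat_lit 26) (nat_lit 1) (nat_lit 82) (nat_lit 16) (nat_lit 82)) (PT.lf (nat_lit 2100) (nat_lit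 6) (nat_lit 25) (nat_lit 1) (nat_lit 83) (nat_lit 16) (nat_lit 81)))) (PT.nd (nat_lit 45120) (PT.nd (nat_lit 94) (PT.lf (nat_lit 2268) (nat_lit 6) (nat_lit 27) (nat_lit 3) (nat_lit 81) (nat_lit 17) (nat_lit 82)) (PT.lf (nat_lit 2268) (nat_lit 6) (nat_lit 27) (nat_lit 1) (nat_lit 82) (nat_lit 17) (nat_lit 81))) (PT.nd (nat_lit 94) (PT.lf (nat_lit 2352) (nat_lit 6) (nat_lit 28) (nat_lit 3) (nat_lit 80) (nat_lit 18) (nat_lit 82)) (PT.lf (nat_lit 2436) (nat_lit 3) (nat_lit 29) (nat_lit 1) (nat_lit 81) (nat_lit 18) (nat_lit 81)))))) (PT.nd (nat_lit 135266) (PT.nd (nat_lit 45214) (PT.nd (nat_lit 45026) (PT.nd (nat_lit 44932) (PT.lf (nat_lit 2352) (nat_lit 6) (nat_lit 28) (nat_lit 1) (nat_lit 82) (nat_lit 18) (nat_lit 80)) (PT.lf (nat_lit 2520) (nat_lit 6) (nat_lit 30) (nat_lit 3) (nat_lit 79) (nat_lit 19) (nat_lit 82))) (PT.nd (nat_lit 94) (PT.lf (nat_lit 2604) (nat_lit 6) (nat_lit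 31) (nat_lit 3) (nat_lit 80) (nat_lit 19) (nat_lit 81)) (PT.lf (nat_lit 2604) (nat_lit 6) (nat_lit 31) (nat_lit 1) (nat_lit 81) (nat_lit 19) (nat_lit 80)))) (PT.nd (nat_lit 45026) (PT.nd (nat_lit 44932) (PT.lf (nat_lit 2520) (nat_lit 6) (nat_lit 30) (nat_lit 1) (nat_lit 82) (nat_lit 19) (nat_lit 79)) (PT.lf (nat_lit 2688) (nat_lit 6) (nat_lit 32) (nat_lit 3) (nat_lit 79) (nat_lit 20) (nat_lit 81))) (PT.nd (nat_lit 94) (PT.lf (nat_lit 2772) (nat_lit 3) (nat_lit 33) (nat_lit 1) (nat_lit 80) (nat_lit 20) (nat_lit 80)) (PT.lf (nat_lit 2688) (nat_lit 6) (nat_lit 32) (nat_lit 1) (nat_lit 81) (nat_lit 20) (nat_lit 79))))) (PT.nd (nat_lit 45214) (PT.nd (nat_lit 188) (PT.nd (nat_lit 94) (PT.lf (nat_lit 2856) (nat_lit 6) (nat_lit 34) (nat_lit 3) (nat_lit 78) (nat_lit 21) (nat_lit 81)) (PT.lf (nat_lit 2940) (nat_lit 6) (nat_lit 35) (nat_lit 3) (nat_lit 79) (nat_lit 21) (nat_lit 80)))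 (PT.nd (nat_lit 94) (PT.lf (nat_lit 2940) (nat_lit 6) (nat_lit 35) (nat_lit 1) (nat_lit 80) (nat_lit 21) (nat_lit 79)) (PT.lf (nat_lit 2856) (nat_lit 6) (nat_lit 34) (nat_lit 1) (nat_lit 81) (nat_lit 21) (nat_lit 78)))) (PT.nd (nat_lit 188) (PT.nd (nat_lit 94) (PT.lf (nat_lit 3024) (nat_lit 6) (nat_lit 36) (nat_lit 3) (nat_lit 78) (nat_lit 22) (nat_lit 80)) (PT.lf (nat_lit 3108) (nat_lit 3) (nat_lit 37) (nat_lit 1) (nat_lit 79) (nat_lit 22) (nat_lit 79))) (PT.nd (nat_lit 44932) (PT.lf (nat_lit 3024) (nat_lit 6) (nat_lit 36) (nat_lit 1) (nat_lit 80) (nat_lit 22) (nat_lit 78)) (PT.lf (nat_lit 3192) (nat_lit 6) (nat_lit 38) (nat_lit 3) (nat_lit 77) (nat_lit 23) (nat_lit 80))))))))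
noncomputable def pc1 : PT := (PT.nd (nat_lit 361524) (PT.nd (nat_lit 180856) (PT.nd (nat_lit 90428) (PT.nd (nat_lit 45214) (PT.nd (nat_lit 188) (PT.nd (nat_lit 94) (PT.lf (nat_lit 3276) (nat_lit 6) (nat_lit 39) (nat_lit 3) (nat_lit 78) (nat_lit 23) (nat_lit 79)) (PT.lf (nat_lit 3276) (nat_lit 6) (nat_lit 39) (nat_lit 1) (nat_lit 79) (nat_lit 23) (nat_lit 78))) (PT.nd (nat_lit 44932) (PT.lf (nat_lit 3192) (nat_lit 6) (nat_lit 38) (nat_lit 1) (nat_lit 80) (nat_lit 23) (nat_lit 77)) (PT.lf (nat_lit 3360) (nat_lit 6) (nat_lit 40) (nat_lit 3) (nat_lit 77) (nat_lit 24) (nat_lit 79)))) (PT.nd (nat_lit 45026) (PT.nd (nat_lit 94) (PT.lf (nat_lit 3444) (nat_lit 3) (nat_lit 41) (nat_lit 1) (nat_lit 78) (nat_lit 24) (nat_lit 78)) (PT.lf (nat_lit 3360) (nat_lit 6) (nat_lit 40) (nat_lit 1) (nat_lit 79) (nat_lit 24) (nat_lit 77))) (PT.nd (nat_lit 94) (PT.lf (nat_lit 3528) (nat_lit 6)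 (nat_lit 42) (nat_lit 3) (nat_lit 76) (nat_lit 25) (nat_lit 79)) (PT.lf (nat_lit 3612) (nat_lit 6) (nat_lit 43) (nat_lit 3) (nat_lit 77) (nat_lit 25) (nat_lit 78))))) (PT.nd (nat_lit 45214) (PT.nd (nat_lit 45026) (PT.nd (nat_lit 94) (PT.lf (nat_lit 3612) (nat_lit 6) (nat_lit 43) (nat_lit 1) (nat_lit 78) (nat_lit 25) (nat_lit 77)) (PT.lf (nat_lit 3528) (nat_lit 6) (nat_lit 42) (nat_lit 1) (nat_lit 79) (nat_lit 25) (nat_lit 76))) (PT.nd (nat_lit 94) (PT.lf (nat_lit 3696) (nat_lit 6) (nat_lit 44) (nat_lit 3) (nat_lit 76) (nat_lit 26) (nat_lit 78)) (PT.lf (nat_lit 3780) (nat_lit 3) (nat_lit 45) (nat_lit 1) (nat_lit 77) (nat_lit 26) (nat_lit 77)))) (PT.nd (nat_lit 45026) (PT.nd (nat_lit 44932) (PT.lf (nat_lit 3696) (nat_lit 6) (nat_lit 44) (nat_lit 1) (nat_lit 78) (nat_lit 26) (nat_lit 76)) (PT.lf (nat_lit 3864) (nat_lit 6) (nat_lit 46) (nat_lit 3) (nat_lit 75) (nat_lit 27) (nat_lit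 78))) (PT.nd (nat_lit 94) (PT.lf (nat_lit 3948) (nat_lit 6) (nat_lit 47) (nat_lit 3) (nat_lit 76) (nat_lit 27) (nat_lit 77)) (PT.lf (nat_lit 3948) (nat_lit 6) (nat_lit 47) (nat_lit 1) (nat_lit 77) (nat_lit 27) (nat_lit 76)))))) (PT.nd (nat_lit 135172) (PT.nd (nat_lit 90052) (PT.nd (nat_lit 45026) (PT.nd (nat_lit 44932) (PT.lf (nat_lit 3864) (nat_lit 6) (nat_lit 46) (nat_lit 1) (nat_lit 78) (nat_lit 27) (nat_lit 75)) (PT.lf (nat_lit 4032) (nat_lit 6) (nat_lit 48) (nat_lit 3) (nat_lit 75) (nat_lit 28) (nat_lit 77))) (PT.nd (nat_lit 94) (PT.lf (nat_lit 4116) (nat_lit 3) (nat_lit 49) (nat_lit 1) (nat_lit 76) (nat_lit 28) (nat_lit 76)) (PT.lf (nat_lit 4032) (nat_lit 6) (nat_lit 48) (nat_lit 1) (nat_lit 77) (nat_lit 28) (nat_lit 75)))) (PT.nd (nat_lit 188) (PT.nd (nat_lit 94) (PT.lf (nat_lit 4200) (nat_lit 6) (nat_lit 50) (nat_lit 3) (nat_lit 74) (nat_lit 29) (nat_lit 77)) (PT.lf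 (nat_lit 4284) (nat_lit 6) (nat_lit 51) (nat_lit 3) (nat_lit 75) (nat_lit 29) (nat_lit 76))) (PT.nd (nat_lit 94) (PT.lf (nat_lit 4284) (nat_lit 6) (nat_lit 51) (nat_lit 1) (nat_lit 76) (nat_lit 29) (nat_lit 75)) (PT.lf (nat_lit 4200) (nat_lit 6) (nat_lit 50) (nat_lit 1) (nat_lit 77) (nat_lit 29) (nat_lit 74))))) (PT.nd (nat_lit 376) (PT.nd (nat_lit 188) (PT.nd (nat_lit 94) (PT.lf (nat_lit 4368) (nat_lit 6) (nat_lit 52) (nat_lit 3) (nat_lit 73) (nat_lit 30) (nat_lit 77)) (PT.lf (nat_lit 4452) (nat_lit 6) (nat_lit 53) (nat_lit 3) (nat_lit 74) (nat_lit 30) (nat_lit 76))) (PT.nd (nat_lit 94) (PT.lf (nat_lit 4536) (nat_lit 3) (nat_lit 54) (nat_lit 1) (nat_lit 75) (nat_lit 30) (nat_lit 75)) (PT.lf (nat_lit 4452) (nat_lit 6) (nat_lit 53) (nat_lit 1) (nat_lit 76) (nat_lit 30) (nat_lit 74)))) (PT.nd (nat_lit 44932) (PT.nd (nat_lit 44838) (PT.lf (nat_lit 4368) (nat_lit 6) (nat_lit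 52) (nat_lit 1) (nat_lit 77) (nat_lit 30) (nat_lit 73)) (PT.lf (nat_lit 4620) (nat_lit 6) (nat_lit 55) (nat_lit 3) (nat_lit 73) (nat_lit 31) (nat_lit 76))) (PT.nd (nat_lit 94) (PT.lf (nat_lit 4704) (nat_lit 6) (nat_lit 56) (nat_lit 3) (nat_lit 74) (nat_lit 31) (nat_lit 75)) (PT.lf (nat_lit 4704) (nat_lit 6) (nat_lit 56) (nat_lit 1) (nat_lit 75) (nat_lit 31) (nat_lit 74))))))) (PT.nd (nat_lit 180386) (PT.nd (nat_lit 90240) (PT.nd (nat_lit 45120) (PT.nd (nat_lit 44932) (PT.nd (nat_lit 44838) (PT.lf (nat_lit 4620) (nat_lit 6) (nat_lit 55) (nat_lit 1) (nat_lit 76) (nat_lit 31) (nat_lit 73)) (PT.lf (nat_lit 4788) (nat_lit 6) (nat_lit 57) (nat_lit 3) (nat_lit 72) (nat_lit 32) (nat_lit 76))) (PT.nd (nat_lit 94) (PT.lf (nat_lit 4872) (nat_lit 6) (nat_lit 58) (nat_lit 3) (nat_lit 73) (nat_lit 32) (nat_lit 75)) (PT.lf (nat_lit 4956) (nat_lit 3) (nat_lit 59) (nat_lit 1) (nat_lit 74)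 (nat_lit 32) (nat_lit 74)))) (PT.nd (nat_lit 44932) (PT.nd (nat_lit 94) (PT.lf (nat_lit 4872) (nat_lit 6) (nat_lit 58) (nat_lit 1) (nat_lit 75) (nat_lit 32) (nat_lit 73)) (PT.lf (nat_lit 4788) (nat_lit 6) (nat_lit 57) (nat_lit 1) (nat_lit 76) (nat_lit 32) (nat_lit 72))) (PT.nd (nat_lit 94) (PT.lf (nat_lit 5040) (nat_lit 6) (nat_lit 60) (nat_lit 3) (nat_lit 72) (nat_lit 33) (nat_lit 75)) (PT.lf (nat_lit 5124) (nat_lit 6) (nat_lit 61) (nat_lit 3) (nat_lit 73) (nat_lit 33) (nat_lit 74))))) (PT.nd (nat_lit 45120) (PT.nd (nat_lit 44932) (PT.nd (nat_lit 94) (PT.lf (nat_lit 5124) (nat_lit 6) (nat_lit 61) (nat_lit 1) (nat_lit 74) (nat_lit 33) (nat_lit 73)) (PT.lf (nat_lit 5040) (nat_lit 6) (nat_lit 60) (nat_lit 1) (nat_lit 75) (nat_lit 33) (nat_lit 72))) (PT.nd (nat_lit 94) (PT.lf (nat_lit 5208) (nat_lit 6) (nat_lit 62) (nat_lit 3) (nat_lit 71) (nat_lit 34) (nat_lit 75)) (PT.lf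 (nat_lit 5292) (nat_lit 6) (nat_lit 63) (nat_lit 3) (nat_lit 72) (nat_lit 34) (nat_lit 74)))) (PT.nd (nat_lit 188) (PT.nd (nat_lit 94) (PT.lf (nat_lit 5376) (nat_lit 3) (nat_lit 64) (nat_lit 1) (nat_lit 73) (nat_lit 34) (nat_lit 73)) (PT.lf (nat_lit 5292) (nat_lit 6) (nat_lit 63) (nat_lit 1) (nat_lit 74) (nat_lit 34) (nat_lit 72))) (PT.nd (nat_lit 44744) (PT.lf (nat_lit 5208) (nat_lit 6) (nat_lit 62) (nat_lit 1) (nat_lit 75) (nat_lit 34) (nat_lit 71)) (PT.lf (nat_lit 5460) (nat_lit 6) (nat_lit 65) (nat_lit 3) (nat_lit 70) (nat_lit 35) (nat_lit 75)))))) (PT.nd (nat_lit 45402) (PT.nd (nat_lit 376) (PT.nd (nat_lit 188) (PT.nd (nat_lit 94) (PT.lf (nat_lit 5544) (nat_lit 6) (nat_lit 66) (nat_lit 3) (nat_lit 71) (nat_lit 35) (nat_lit 74)) (PT.lf (nat_lit 5628) (nat_lit 6) (nat_lit 67) (nat_lit 3) (nat_lit 72) (nat_lit 35) (nat_lit 73))) (PT.nd (nat_lit 94) (PT.lf (nat_lit 5628)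 (nat_lit 6) (nat_lit 67) (nat_lit 1) (nat_lit 73) (nat_lit 35) (nat_lit 72)) (PT.lf (nat_lit 5544) (nat_lit 6) (nat_lit 66) (nat_lit 1) (nat_lit 74) (nat_lit 35) (nat_lit 71)))) (PT.nd (nat_lit 44838) (PT.nd (nat_lit 44744) (PT.lf (nat_lit 5460) (nat_lit 6) (nat_lit 65) (nat_lit 1) (nat_lit 75) (nat_lit 35) (nat_lit 70)) (PT.lf (nat_lit 5712) (nat_lit 6) (nat_lit 68) (nat_lit 3) (nat_lit 70) (nat_lit 36) (nat_lit 74))) (PT.nd (nat_lit 94) (PT.lf (nat_lit 5796) (nat_lit 6) (nat_lit 69) (nat_lit 3) (nat_lit 71) (nat_lit 36) (nat_lit 73)) (PT.lf (nat_lit 5880) (nat_lit 3) (nat_lit 70) (nat_lit 1) (nat_lit 72) (nat_lit 36) (nat_lit 72))))) (PT.nd (nat_lit 45026) (PT.nd (nat_lit 44838) (PT.nd (nat_lit 94) (PT.lf (nat_lit 5796) (nat_lit 6) (nat_lit 69) (nat_lit 1) (nat_lit 73) (nat_lit 36) (nat_lit 71)) (PT.lf (nat_lit 5712) (nat_lit 6) (nat_lit 68) (nat_lit 1) (nat_lit 74) (nat_lit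 36) (nat_lit 70))) (PT.nd (nat_lit 94) (PT.lf (nat_lit 5964) (nat_lit 6) (nat_lit 71) (nat_lit 3) (nat_lit 69) (nat_lit 37) (nat_lit 74)) (PT.lf (nat_lit 6048) (nat_lit 6) (nat_lit 72) (nat_lit 3) (nat_lit 70) (nat_lit 37) (nat_lit 73)))) (PT.nd (nat_lit 188) (PT.nd (nat_lit 94) (PT.lf (nat_lit 6132) (nat_lit 6) (nat_lit 73) (nat_lit 3) (nat_lit 71) (nat_lit 37) (nat_lit 72)) (PT.lf (nat_lit 6132) (nat_lit 6) (nat_lit 73) (nat_lit 1) (nat_lit 72) (nat_lit 37) (nat_lit 71))) (PT.nd (nat_lit 94) (PT.lf (nat_lit 6048) (nat_lit 6) (nat_lit 72) (nat_lit 1) (nat_lit 73) (nat_lit 37) (nat_lit 70)) (PT.lf (nat_lit 5964) (nat_lit 6) (nat_lit 71) (nat_lit 1) (nat_lit 74) (nat_lit 37) (nat_lit 69))))))))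
noncomputable def pc2 : PT := (PT.nd (nat_lit 180950) (PT.nd (nat_lit 90522) (PT.nd (nat_lit 45214) (PT.nd (nat_lit 282) (PT.nd (nat_lit 94) (PT.lf (nat_lit 6216) (nat_lit 6) (nat_lit 74) (nat_lit 3) (nat_lit 68) (nat_lit 38) (nat_lit 74)) (PT.nd (nat_lit 94) (PT.lf (nat_lit 6300) (nat_lit 6) (nat_lit 75) (nat_lit 3) (nat_lit 69) (nat_lit 38) (nat_lit 73)) (PT.lf (nat_lit 6384) (nat_lit 6) (nat_lit 76) (nat_lit 3) (nat_lit 70) (nat_lit 38) (nat_lit 72)))) (PT.nd (nat_lit 188) (PT.nd (nat_lit 94) (PT.lf (nat_lit 6468) (nat_lit 3) (nat_lit 77) (nat_lit 1) (nat_lit 71) (nat_lit 38) (nat_lit 71)) (PT.lf (nat_lit 6384) (nat_lit 6) (nat_lit 76) (nat_lit 1) (nat_lit 72) (nat_lit 38) (nat_lit 70))) (PT.nd (nat_lit 94) (PT.lf (nat_lit 6300) (nat_lit 6) (nat_lit 75) (nat_lit 1) (nat_lit 73) (nat_lit 38) (nat_lit 69)) (PT.lf (nat_lit 6216) (nat_lit 6) (nat_lit 74) (nat_lit 1) (nat_lit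 74) (nat_lit 38) (nat_lit 68))))) (PT.nd (nat_lit 376) (PT.nd (nat_lit 188) (PT.nd (nat_lit 94) (PT.lf (nat_lit 6552) (nat_lit 6) (nat_lit 78) (nat_lit 3) (nat_lit 68) (nat_lit 39) (nat_lit 73)) (PT.lf (nat_lit 6636) (nat_lit 6) (nat_lit 79) (nat_lit 3) (nat_lit 69) (nat_lit 39) (nat_lit 72))) (PT.nd (nat_lit 94) (PT.lf (nat_lit 6720) (nat_lit 6) (nat_lit 80) (nat_lit 3) (nat_lit 70) (nat_lit 39) (nat_lit 71)) (PT.lf (nat_lit 6720) (nat_lit 6) (nat_lit 80) (nat_lit 1) (nat_lit 71) (nat_lit 39) (nat_lit 70)))) (PT.nd (nat_lit 44744) (PT.nd (nat_lit 94) (PT.lf (nat_lit 6636) (nat_lit 6) (nat_lit 79) (nat_lit 1) (nat_lit 72) (nat_lit 39) (nat_lit 69)) (PT.lf (nat_lit 6552) (nat_lit 6) (nat_lit 78) (nat_lit 1) (nat_lit 73) (nat_lit 39) (nat_lit 68))) (PT.nd (nat_lit 94) (PT.lf (nat_lit 6804) (nat_lit 6) (nat_lit 81) (nat_lit 3) (nat_lit 67) (nat_lit 40) (nat_lit 73)) (PT.lf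 (nat_lit 6888) (nat_lit 6) (nat_lit 82) (nat_lit 3) (nat_lit 68) (nat_lit 40) (nat_lit 72)))))) (PT.nd (nat_lit 45214) (PT.nd (nat_lit 376) (PT.nd (nat_lit 188) (PT.nd (nat_lit 94) (PT.lf (nat_lit 6972) (nat_lit 6) (nat_lit 83) (nat_lit 3) (nat_lit 69) (nat_lit 40) (nat_lit 71)) (PT.lf (nat_lit 7056) (nat_lit 3) (nat_lit 84) (nat_lit 1) (nat_lit 70) (nat_lit 40) (nat_lit 70))) (PT.nd (nat_lit 94) (PT.lf (nat_lit 6972) (nat_lit 6) (nat_lit 83) (nat_lit 1) (nat_lit 71) (nat_lit 40) (nat_lit 69)) (PT.lf (nat_lit 6888) (nat_lit 6) (nat_lit 82) (nat_lit 1) (nat_lit 72) (nat_lit 40) (nat_lit 68)))) (PT.nd (nat_lit 44650) (PT.nd (nat_lit 44556) (PT.lf (nat_lit 6804) (nat_lit 6) (nat_lit 81) (nat_lit 1) (nat_lit 73) (nat_lit 40) (nat_lit 67)) (PT.lf (nat_lit 7140) (nat_lit 6) (nat_lit 85) (nat_lit 3) (nat_lit 66) (nat_lit 41) (nat_lit 73))) (PT.nd (nat_lit 94) (PT.lf (nat_lit 7224)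 (nat_lit 6) (nat_lit 86) (nat_lit 3) (nat_lit 67) (nat_lit 41) (nat_lit 72)) (PT.lf (nat_lit 7308) (nat_lit 6) (nat_lit 87) (nat_lit 3) (nat_lit 68) (nat_lit 41) (nat_lit 71))))) (PT.nd (nat_lit 376) (PT.nd (nat_lit 188) (PT.nd (nat_lit 94) (PT.lf (nat_lit 7392) (nat_lit 6) (nat_lit 88) (nat_lit 3) (nat_lit 69) (nat_lit 41) (nat_lit 70)) (PT.lf (nat_lit 7392) (nat_lit 6) (nat_lit 88) (nat_lit 1) (nat_lit 70) (nat_lit 41) (nat_lit 69))) (PT.nd (nat_lit 94) (PT.lf (nat_lit 7308) (nat_lit 6) (nat_lit 87) (nat_lit 1) (nat_lit 71) (nat_lit 41) (nat_lit 68)) (PT.lf (nat_lit 7224) (nat_lit 6) (nat_lit 86) (nat_lit 1) (nat_lit 72) (nat_lit 41) (nat_lit 67)))) (PT.nd (nat_lit 44650) (PT.nd (nat_lit 44556) (PT.lf (nat_lit 7140) (nat_lit 6) (nat_lit 85) (nat_lit 1) (nat_lit 73) (nat_lit 41) (nat_lit 66)) (PT.lf (nat_lit 7476) (nat_lit 6) (nat_lit 89) (nat_lit 3) (nat_lit 66) (nat_lit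 42) (nat_lit 72))) (PT.nd (nat_lit 94) (PT.lf (nat_lit 7560) (nat_lit 6) (nat_lit 90) (nat_lit 3) (nat_lit 67) (nat_lit 42) (nat_lit 71)) (PT.lf (nat_lit 7644) (nat_lit 6) (nat_lit 91) (nat_lit 3) (nat_lit 68) (nat_lit 42) (nat_lit 70))))))) (PT.nd (nat_lit 90334) (PT.nd (nat_lit 45214) (PT.nd (nat_lit 44838) (PT.nd (nat_lit 188) (PT.nd (nat_lit 94) (PT.lf (nat_lit 7728) (nat_lit 3) (nat_lit 92) (nat_lit 1) (nat_lit 69) (nat_lit 42) (nat_lit 69)) (PT.lf (nat_lit 7644) (nat_lit 6) (nat_lit 91) (nat_lit 1) (nat_lit 70) (nat_lit 42) (nat_lit 68))) (PT.nd (nat_lit 94) (PT.lf (nat_lit 7560) (nat_lit 6) (nat_lit 90) (nat_lit 1) (nat_lit 71) (nat_lit 42) (nat_lit 67)) (PT.lf (nat_lit 7476) (nat_lit 6) (nat_lit 89) (nat_lit 1) (nat_lit 72) (nat_lit 42) (nat_lit 66)))) (PT.nd (nat_lit 188) (PT.nd (nat_lit 94) (PT.lf (nat_lit 7812) (nat_lit 6) (nat_lit 93) (nat_lit 3) (nat_lit 65)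 (nat_lit 43) (nat_lit 72)) (PT.lf (nat_lit 7896) (nat_lit 6) (nat_lit 94) (nat_lit 3) (nat_lit 66) (nat_lit 43) (nat_lit 71))) (PT.nd (nat_lit 94) (PT.lf (nat_lit 7980) (nat_lit 6) (nat_lit 95) (nat_lit 3) (nat_lit 67) (nat_lit 43) (nat_lit 70)) (PT.lf (nat_lit 8064) (nat_lit 6) (nat_lit 96) (nat_lit 3) (nat_lit 68) (nat_lit 43) (nat_lit 69))))) (PT.nd (nat_lit 44744) (PT.nd (nat_lit 188) (PT.nd (nat_lit 94) (PT.lf (nat_lit 8064) (nat_lit 6) (nat_lit 96) (nat_lit 1) (nat_lit 69) (nat_lit 43) (nat_lit 68)) (PT.lf (nat_lit 7980) (nat_lit 6) (nat_lit 95) (nat_lit 1) (nat_lit 70) (nat_lit 43) (nat_lit 67))) (PT.nd (nat_lit 94) (PT.lf (nat_lit 7896) (nat_lit 6) (nat_lit 94) (nat_lit 1) (nat_lit 71) (nat_lit 43) (nat_lit 66)) (PT.lf (nat_lit 7812) (nat_lit 6) (nat_lit 93) (nat_lit 1) (nat_lit 72) (nat_lit 43) (nat_lit 65)))) (PT.nd (nat_lit 188) (PT.nd (nat_lit 94) (PT.lf (nat_lit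 8148) (nat_lit 6) (nat_lit 97) (nat_lit 3) (nat_lit 64) (nat_lit 44) (nat_lit 72)) (PT.lf (nat_lit 8232) (nat_lit 6) (nat_lit 98) (nat_lit 3) (nat_lit 65) (nat_lit 44) (nat_lit 71))) (PT.nd (nat_lit 94) (PT.lf (nat_lit 8316) (nat_lit 6) (nat_lit 99) (nat_lit 3) (nat_lit 66) (nat_lit 44) (nat_lit 70)) (PT.lf (nat_lit 8400) (nat_lit 6) (nat_lit 100) (nat_lit 3) (nat_lit 67) (nat_lit 44) (nat_lit 69)))))) (PT.nd (nat_lit 45120) (PT.nd (nat_lit 376) (PT.nd (nat_lit 188) (PT.nd (nat_lit 94) (PT.lf (nat_lit 8484) (nat_lit 3) (nat_lit 101) (nat_lit 1) (nat_lit 68) (nat_lit 44) (nat_lit 68)) (PT.lf (nat_lit 8400) (nat_lit 6) (nat_lit 100) (nat_lit 1) (nat_lit 69) (nat_lit 44) (nat_lit 67))) (PT.nd (nat_lit 94) (PT.lf (nat_lit 8316) (nat_lit 6) (nat_lit 99) (nat_lit 1) (nat_lit 70) (nat_lit 44) (nat_lit 66)) (PT.lf (nat_lit 8232) (nat_lit 6) (nat_lit 98) (nat_lit 1) (nat_lit 71)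 (nat_lit 44) (nat_lit 65)))) (PT.nd (nat_lit 44556) (PT.nd (nat_lit 44462) (PT.lf (nat_lit 8148) (nat_lit 6) (nat_lit 97) (nat_lit 1) (nat_lit 72) (nat_lit 44) (nat_lit 64)) (PT.lf (nat_lit 8568) (nat_lit 6) (nat_lit 102) (nat_lit 3) (nat_lit 64) (nat_lit 45) (nat_lit 71))) (PT.nd (nat_lit 94) (PT.lf (nat_lit 8652) (nat_lit 6) (nat_lit 103) (nat_lit 3) (nat_lit 65) (nat_lit 45) (nat_lit 70)) (PT.lf (nat_lit 8736) (nat_lit 6) (nat_lit 104) (nat_lit 3) (nat_lit 66) (nat_lit 45) (nat_lit 69))))) (PT.nd (nat_lit 376) (PT.nd (nat_lit 188) (PT.nd (nat_lit 94) (PT.lf (nat_lit 8820) (nat_lit 6) (nat_lit 105) (nat_lit 3) (nat_lit 67) (nat_lit 45) (nat_lit 68)) (PT.lf (nat_lit 8820) (nat_lit 6) (nat_lit 105) (nat_lit 1) (nat_lit 68) (nat_lit 45) (nat_lit 67))) (PT.nd (nat_lit 94) (PT.lf (nat_lit 8736) (nat_lit 6) (nat_lit 104) (nat_lit 1) (nat_lit 69) (nat_lit 45) (nat_lit 66)) (PT.lf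 (nat_lit 8652) (nat_lit 6) (nat_lit 103) (nat_lit 1) (nat_lit 70) (nat_lit 45) (nat_lit 65)))) (PT.nd (nat_lit 44556) (PT.nd (nat_lit 44462) (PT.lf (nat_lit 8568) (nat_lit 6) (nat_lit 102) (nat_lit 1) (nat_lit 71) (nat_lit 45) (nat_lit 64)) (PT.lf (nat_lit 8904) (nat_lit 6) (nat_lit 106) (nat_lit 3) (nat_lit 63) (nat_lit 46) (nat_lit 71))) (PT.nd (nat_lit 94) (PT.lf (nat_lit 8988) (nat_lit 6) (nat_lit 107) (nat_lit 3) (nat_lit 64) (nat_lit 46) (nat_lit 70)) (PT.lf (nat_lit 9072) (nat_lit 6) (nat_lit 108) (nat_lit 3) (nat_lit 65) (nat_lit 46) (nat_lit 69))))))))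
noncomputable def pc3 : PT := (PT.nd (nat_lit 135548) (PT.nd (nat_lit 89958) (PT.nd (nat_lit 45026) (PT.nd (nat_lit 376) (PT.nd (nat_lit 188) (PT.nd (nat_lit 94) (PT.lf (nat_lit 9156) (nat_lit 6) (nat_lit 109) (nat_lit 3) (nat_lit 66) (nat_lit 46) (nat_lit 68)) (PT.lf (nat_lit 9240) (nat_lit 3) (nat_lit 110) (nat_lit 1) (nat_lit 67) (nat_lit 46) (nat_lit 67))) (PT.nd (nat_lit 94) (PT.lf (nat_lit 9156) (nat_lit 6) (nat_lit 109) (nat_lit 1) (nat_lit 68) (nat_lit 46) (nat_lit 66)) (PT.lf (nat_lit 9072) (nat_lit 6) (nat_lit 108) (nat_lit 1) (nat_lit 69) (nat_lit 46) (nat_lit 65)))) (PT.nd (nat_lit 44462) (PT.nd (nat_lit 94) (PT.lf (nat_lit 8988) (nat_lit 6) (nat_lit 107) (nat_lit 1) (nat_lit 70) (nat_lit 46) (nat_lit 64)) (PT.lf (nat_lit 8904) (nat_lit 6) (nat_lit 106) (nat_lit 1) (nat_lit 71) (nat_lit 46) (nat_lit 63))) (PT.nd (nat_lit 94) (PT.lf (nat_lit 9324) (nat_lit 6)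 (nat_lit 111) (nat_lit 3) (nat_lit 62) (nat_lit 47) (nat_lit 71)) (PT.lf (nat_lit 9408) (nat_lit 6) (nat_lit 112) (nat_lit 3) (nat_lit 63) (nat_lit 47) (nat_lit 70))))) (PT.nd (nat_lit 376) (PT.nd (nat_lit 188) (PT.nd (nat_lit 94) (PT.lf (nat_lit 9492) (nat_lit 6) (nat_lit 113) (nat_lit 3) (nat_lit 64) (nat_lit 47) (nat_lit 69)) (PT.lf (nat_lit 9576) (nat_lit 6) (nat_lit 114) (nat_lit 3) (nat_lit 65) (nat_lit 47) (nat_lit 68))) (PT.nd (nat_lit 94) (PT.lf (nat_lit 9660) (nat_lit 6) (nat_lit 115) (nat_lit 3) (nat_lit 66) (nat_lit 47) (nat_lit 67)) (PT.lf (nat_lit 9660) (nat_lit 6) (nat_lit 115) (nat_lit 1) (nat_lit 67) (nat_lit 47) (nat_lit 66)))) (PT.nd (nat_lit 188) (PT.nd (nat_lit 94) (PT.lf (nat_lit 9576) (nat_lit 6) (nat_lit 114) (nat_lit 1) (nat_lit 68) (nat_lit 47) (nat_lit 65)) (PT.lf (nat_lit 9492) (nat_lit 6) (nat_lit 113) (nat_lit 1) (nat_lit 69) (nat_lit 47) (nat_lit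 64))) (PT.nd (nat_lit 94) (PT.lf (nat_lit 9408) (nat_lit 6) (nat_lit 112) (nat_lit 1) (nat_lit 70) (nat_lit 47) (nat_lit 63)) (PT.lf (nat_lit 9324) (nat_lit 6) (nat_lit 111) (nat_lit 1) (nat_lit 71) (nat_lit 47) (nat_lit 62)))))) (PT.nd (nat_lit 752) (PT.nd (nat_lit 376) (PT.nd (nat_lit 188) (PT.nd (nat_lit 94) (PT.lf (nat_lit 9744) (nat_lit 6) (nat_lit 116) (nat_lit 3) (nat_lit 61) (nat_lit 48) (nat_lit 71)) (PT.lf (nat_lit 9828) (nat_lit 6) (nat_lit 117) (nat_lit 3) (nat_lit 62) (nat_lit 48) (nat_lit 70))) (PT.nd (nat_lit 94) (PT.lf (nat_lit 9912) (nat_lit 6) (nat_lit 118) (nat_lit 3) (nat_lit 63) (nat_lit 48) (nat_lit 69)) (PT.lf (nat_lit 9996) (nat_lit 6) (nat_lit 119) (nat_lit 3) (nat_lit 64) (nat_lit 48) (nat_lit 68)))) (PT.nd (nat_lit 188) (PT.nd (nat_lit 94) (PT.lf (nat_lit 10080) (nat_lit 6) (nat_lit 120) (nat_lit 3) (nat_lit 65) (nat_lit 48) (nat_lit 67)) (PT.lf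 (nat_lit 10164) (nat_lit 3) (nat_lit 121) (nat_lit 1) (nat_lit 66) (nat_lit 48) (nat_lit 66))) (PT.nd (nat_lit 94) (PT.lf (nat_lit 10080) (nat_lit 6) (nat_lit 120) (nat_lit 1) (nat_lit 67) (nat_lit 48) (nat_lit 65)) (PT.lf (nat_lit 9996) (nat_lit 6) (nat_lit 119) (nat_lit 1) (nat_lit 68) (nat_lit 48) (nat_lit 64))))) (PT.nd (nat_lit 44462) (PT.nd (nat_lit 188) (PT.nd (nat_lit 94) (PT.lf (nat_lit 9912) (nat_lit 6) (nat_lit 118) (nat_lit 1) (nat_lit 69) (nat_lit 48) (nat_lit 63)) (PT.lf (nat_lit 9828) (nat_lit 6) (nat_lit 117) (nat_lit 1) (nat_lit 70) (nat_lit 48) (nat_lit 62))) (PT.nd (nat_lit 44180) (PT.lf (nat_lit 9744) (nat_lit 6) (nat_lit 116) (nat_lit 1) (nat_lit 71) (nat_lit 48) (nat_lit 61)) (PT.lf (nat_lit 10248) (nat_lit 6) (nat_lit 122) (nat_lit 3) (nat_lit 60) (nat_lit 49) (nat_lit 71)))) (PT.nd (nat_lit 188) (PT.nd (nat_lit 94) (PT.lf (nat_lit 10332) (nat_lit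 6) (nat_lit 123) (nat_lit 3) (nat_lit 61) (nat_lit 49) (nat_lit 70)) (PT.lf (nat_lit 10416) (nat_lit 6) (nat_lit 124) (nat_lit 3) (nat_lit 62) (nat_lit 49) (nat_lit 69))) (PT.nd (nat_lit 94) (PT.lf (nat_lit 10500) (nat_lit 6) (nat_lit 125) (nat_lit 3) (nat_lit 63) (nat_lit 49) (nat_lit 68)) (PT.lf (nat_lit 10584) (nat_lit 6) (nat_lit 126) (nat_lit 3) (nat_lit 64) (nat_lit 49) (nat_lit 67))))))) (PT.nd (nat_lit 45590) (PT.nd (nat_lit 44838) (PT.nd (nat_lit 376) (PT.nd (nat_lit 188) (PT.nd (nat_lit 94) (PT.lf (nat_lit 10668) (nat_lit 6) (nat_lit 127) (nat_lit 3) (nat_lit 65) (nat_lit 49) (nat_lit 66)) (PT.lf (nat_lit 10668) (nat_lit 6) (nat_lit 127) (nat_lit 1) (nat_lit 66) (nat_lit 49) (nat_lit 65))) (PT.nd (nat_lit 94) (PT.lf (nat_lit 10584) (nat_lit 6) (nat_lit 126) (nat_lit 1) (nat_lit 67) (nat_lit 49) (nat_lit 64)) (PT.lf (nat_lit 10500) (nat_lit 6) (nat_lit 125) (nat_lit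 1) (nat_lit 68) (nat_lit 49) (nat_lit 63)))) (PT.nd (nat_lit 188) (PT.nd (nat_lit 94) (PT.lf (nat_lit 10416) (nat_lit 6) (nat_lit 124) (nat_lit 1) (nat_lit 69) (nat_lit 49) (nat_lit 62)) (PT.lf (nat_lit 10332) (nat_lit 6) (nat_lit 123) (nat_lit 1) (nat_lit 70) (nat_lit 49) (nat_lit 61))) (PT.nd (nat_lit 44180) (PT.lf (nat_lit 10248) (nat_lit 6) (nat_lit 122) (nat_lit 1) (nat_lit 71) (nat_lit 49) (nat_lit 60)) (PT.lf (nat_lit 11172) (nat_lit 6) (nat_lit 133) (nat_lit 3) (nat_lit 60) (nat_lit 50) (nat_lit 70))))) (PT.nd (nat_lit 376) (PT.nd (nat_lit 188) (PT.nd (nat_lit 94) (PT.lf (nat_lit 11256) (nat_lit 6) (nat_lit 134) (nat_lit 3) (nat_lit 61) (nat_lit 50) (nat_lit 69)) (PT.lf (nat_lit 11340) (nat_lit 6) (nat_lit 135) (nat_lit 3) (nat_lit 62) (nat_lit 50) (nat_lit 68))) (PT.nd (nat_lit 94) (PT.lf (nat_lit 11424) (nat_lit 6) (nat_lit 136) (nat_lit 3) (nat_lit 63) (nat_lit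 50) (nat_lit 67)) (PT.lf (nat_lit 11508) (nat_lit 6) (nat_lit 137) (nat_lit 3) (nat_lit 64) (nat_lit 50) (nat_lit 66)))) (PT.nd (nat_lit 188) (PT.nd (nat_lit 94) (PT.lf (nat_lit 11592) (nat_lit 3) (nat_lit 138) (nat_lit 1) (nat_lit 65) (nat_lit 50) (nat_lit 65)) (PT.lf (nat_lit 11508) (nat_lit 6) (nat_lit 137) (nat_lit 1) (nat_lit 66) (nat_lit 50) (nat_lit 64))) (PT.nd (nat_lit 94) (PT.lf (nat_lit 11424) (nat_lit 6) (nat_lit 136) (nat_lit 1) (nat_lit 67) (nat_lit 50) (nat_lit 63)) (PT.lf (nat_lit 11340) (nat_lit 6) (nat_lit 135) (nat_lit 1) (nat_lit 68) (nat_lit 50) (nat_lit 62)))))) (PT.nd (nat_lit 44838) (PT.nd (nat_lit 44462) (PT.nd (nat_lit 44274) (PT.nd (nat_lit 94) (PT.lf (nat_lit 11256) (nat_lit 6) (nat_lit 134) (nat_lit 1) (nat_lit 69) (nat_lit 50) (nat_lit 61)) (PT.lf (nat_lit 11172) (nat_lit 6) (nat_lit 133) (nat_lit 1) (nat_lit 70) (nat_lit 50) (nat_lit 60)))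 (PT.nd (nat_lit 94) (PT.lf (nat_lit 11088) (nat_lit 6) (nat_lit 132) (nat_lit 3) (nat_lit 59) (nat_lit 51) (nat_lit 70)) (PT.lf (nat_lit 12012) (nat_lit 6) (nat_lit 143) (nat_lit 3) (nat_lit 60) (nat_lit 51) (nat_lit 69)))) (PT.nd (nat_lit 188) (PT.nd (nat_lit 94) (PT.lf (nat_lit 12096) (nat_lit 6) (nat_lit 144) (nat_lit 3) (nat_lit 61) (nat_lit 51) (nat_lit 68)) (PT.lf (nat_lit 12180) (nat_lit 6) (nat_lit 145) (nat_lit 3) (nat_lit 62) (nat_lit 51) (nat_lit 67))) (PT.nd (nat_lit 94) (PT.lf (nat_lit 12264) (nat_lit 6) (nat_lit 146) (nat_lit 3) (nat_lit 63) (nat_lit 51) (nat_lit 66)) (PT.lf (nat_lit 12348) (nat_lit 6) (nat_lit 147) (nat_lit 3) (nat_lit 64) (nat_lit 51) (nat_lit 65))))) (PT.nd (nat_lit 376) (PT.nd (nat_lit 188) (PT.nd (nat_lit 94) (PT.lf (nat_lit 12348) (nat_lit 6) (nat_lit 147) (nat_lit 1) (nat_lit 65) (nat_lit 51) (nat_lit 64)) (PT.lf (nat_lit 12264) (nat_lit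 6) (nat_lit 146) (nat_lit 1) (nat_lit 66) (nat_lit 51) (nat_lit 63))) (PT.nd (nat_lit 94) (PT.lf (nat_lit 12180) (nat_lit 6) (nat_lit 145) (nat_lit 1) (nat_lit 67) (nat_lit 51) (nat_lit 62)) (PT.lf (nat_lit 12096) (nat_lit 6) (nat_lit 144) (nat_lit 1) (nat_lit 68) (nat_lit 51) (nat_lit 61)))) (PT.nd (nat_lit 44180) (PT.nd (nat_lit 94) (PT.lf (nat_lit 12012) (nat_lit 6) (nat_lit 143) (nat_lit 1) (nat_lit 69) (nat_lit 51) (nat_lit 60)) (PT.lf (nat_lit 11088) (nat_lit 6) (nat_lit 132) (nat_lit 1) (nat_lit 70) (nat_lit 51) (nat_lit 59))) (PT.nd (nat_lit 94) (PT.lf (nat_lit 11004) (nat_lit 6) (nat_lit 131) (nat_lit 3) (nat_lit 58) (nat_lit 52) (nat_lit 70)) (PT.lf (nat_lit 11928) (nat_lit 6) (nat_lit 142) (nat_lit 3) (nat_lit 59) (nat_lit 52) (nat_lit 69))))))))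
noncomputable def pc4 : PT := (PT.nd (nat_lit 90616) (PT.nd (nat_lit 45308) (PT.nd (nat_lit 658) (PT.nd (nat_lit 282) (PT.nd (nat_lit 94) (PT.lf (nat_lit 12768) (nat_lit 6) (nat_lit 152) (nat_lit 3) (nat_lit 60) (nat_lit 52) (nat_lit 68)) (PT.nd (nat_lit 94) (PT.lf (nat_lit 12852) (nat_lit 6) (nat_lit 153) (nat_lit 3) (nat_lit 61) (nat_lit 52) (nat_lit 67)) (PT.lf (nat_lit 12936) (nat_lit 6) (nat_lit 154) (nat_lit 3) (nat_lit 62) (nat_lit 52) (nat_lit 66)))) (PT.nd (nat_lit 188) (PT.nd (nat_lit 94) (PT.lf (nat_lit 13020) (nat_lit 6) (nat_lit 155) (nat_lit 3) (nat_lit 63) (nat_lit 52) (nat_lit 65)) (PT.lf (nat_lit 13104) (nat_lit 3) (nat_lit 156) (nat_lit 1) (nat_lit 64) (nat_lit 52) (nat_lit 64))) (PT.nd (nat_lit 94) (PT.lf (nat_lit 13020) (nat_lit 6) (nat_lit 155) (nat_lit 1) (nat_lit 65) (nat_lit 52) (nat_lit 63)) (PT.lf (nat_lit 12936) (nat_lit 6) (nat_lit 154) (nat_lit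 1) (nat_lit 66) (nat_lit 52) (nat_lit 62))))) (PT.nd (nat_lit 44274) (PT.nd (nat_lit 188) (PT.nd (nat_lit 94) (PT.lf (nat_lit 12852) (nat_lit 6) (nat_lit 153) (nat_lit 1) (nat_lit 67) (nat_lit 52) (nat_lit 61)) (PT.lf (nat_lit 12768) (nat_lit 6) (nat_lit 152) (nat_lit 1) (nat_lit 68) (nat_lit 52) (nat_lit 60))) (PT.nd (nat_lit 94) (PT.lf (nat_lit 11928) (nat_lit 6) (nat_lit 142) (nat_lit 1) (nat_lit 69) (nat_lit 52) (nat_lit 59)) (PT.lf (nat_lit 11004) (nat_lit 6) (nat_lit 131) (nat_lit 1) (nat_lit 70) (nat_lit 52) (nat_lit 58)))) (PT.nd (nat_lit 188) (PT.nd (nat_lit 94) (PT.lf (nat_lit 10920) (nat_lit 6) (nat_lit 130) (nat_lit 3) (nat_lit 57) (nat_lit 53) (nat_lit 70)) (PT.lf (nat_lit 11844) (nat_lit 6) (nat_lit 141) (nat_lit 3) (nat_lit 58) (nat_lit 53) (nat_lit 69))) (PT.nd (nat_lit 94) (PT.lf (nat_lit 12684) (nat_lit 6) (nat_lit 151) (nat_lit 3) (nat_lit 59) (nat_lit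 53) (nat_lit 68)) (PT.lf (nat_lit 13440) (nat_lit 6) (nat_lit 160) (nat_lit 3) (nat_lit 60) (nat_lit 53) (nat_lit 67)))))) (PT.nd (nat_lit 752) (PT.nd (nat_lit 376) (PT.nd (nat_lit 188) (PT.nd (nat_lit 94) (PT.lf (nat_lit 13524) (nat_lit 6) (nat_lit 161) (nat_lit 3) (nat_lit 61) (nat_lit 53) (nat_lit 66)) (PT.lf (nat_lit 13608) (nat_lit 6) (nat_lit 162) (nat_lit 3) (nat_lit 62) (nat_lit 53) (nat_lit 65))) (PT.nd (nat_lit 94) (PT.lf (nat_lit 13692) (nat_lit 6) (nat_lit 163) (nat_lit 3) (nat_lit 63) (nat_lit 53) (nat_lit 64)) (PT.lf (nat_lit 13692) (nat_lit 6) (nat_lit 163) (nat_lit 1) (nat_lit 64) (nat_lit 53) (nat_lit 63)))) (PT.nd (nat_lit 188) (PT.nd (nat_lit 94) (PT.lf (nat_lit 13608) (nat_lit 6) (nat_lit 162) (nat_lit 1) (nat_lit 65) (nat_lit 53) (nat_lit 62)) (PT.lf (nat_lit 13524) (nat_lit 6) (nat_lit 161) (nat_lit 1) (nat_lit 66) (nat_lit 53) (nat_lit 61))) (PT.nd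 (nat_lit 94) (PT.lf (nat_lit 13440) (nat_lit 6) (nat_lit 160) (nat_lit 1) (nat_lit 67) (nat_lit 53) (nat_lit 60)) (PT.lf (nat_lit 12684) (nat_lit 6) (nat_lit 151) (nat_lit 1) (nat_lit 68) (nat_lit 53) (nat_lit 59))))) (PT.nd (nat_lit 44180) (PT.nd (nat_lit 43992) (PT.nd (nat_lit 94) (PT.lf (nat_lit 11844) (nat_lit 6) (nat_lit 141) (nat_lit 1) (nat_lit 69) (nat_lit 53) (nat_lit 58)) (PT.lf (nat_lit 10920) (nat_lit 6) (nat_lit 130) (nat_lit 1) (nat_lit 70) (nat_lit 53) (nat_lit 57))) (PT.nd (nat_lit 94) (PT.lf (nat_lit 10836) (nat_lit 6) (nat_lit 129) (nat_lit 3) (nat_lit 56) (nat_lit 54) (nat_lit 70)) (PT.lf (nat_lit 11760) (nat_lit 6) (nat_lit 140) (nat_lit 3) (nat_lit 57) (nat_lit 54) (nat_lit 69)))) (PT.nd (nat_lit 188) (PT.nd (nat_lit 94) (PT.lf (nat_lit 12600) (nat_lit 6) (nat_lit 150) (nat_lit 3) (nat_lit 58) (nat_lit 54) (nat_lit 68)) (PT.lf (nat_lit 13356) (nat_lit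 6) (nat_lit 159) (nat_lit 3) (nat_lit 59) (nat_lit 54) (nat_lit 67))) (PT.nd (nat_lit 94) (PT.lf (nat_lit 14028) (nat_lit 6) (nat_lit 167) (nat_lit 3) (nat_lit 60) (nat_lit 54) (nat_lit 66)) (PT.lf (nat_lit 14112) (nat_lit 6) (nat_lit 168) (nat_lit 3) (nat_lit 61) (nat_lit 54) (nat_lit 65))))))) (PT.nd (nat_lit 45214) (PT.nd (nat_lit 752) (PT.nd (nat_lit 376) (PT.nd (nat_lit 188) (PT.nd (nat_lit 94) (PT.lf (nat_lit 14196) (nat_lit 6) (nat_lit 169) (nat_lit 3) (nat_lit 62) (nat_lit 54) (nat_lit 64)) (PT.lf (nat_lit 14280) (nat_lit 3) (nat_lit 170) (nat_lit 1) (nat_lit 63) (nat_lit 54) (nat_lit 63))) (PT.nd (nat_lit 94) (PT.lf (nat_lit 14196) (nat_lit 6) (nat_lit 169) (nat_lit 1) (nat_lit 64) (nat_lit 54) (nat_lit 62)) (PT.lf (nat_lit 14112) (nat_lit 6) (nat_lit 168) (nat_lit 1) (nat_lit 65) (nat_lit 54) (nat_lit 61)))) (PT.nd (nat_lit 188) (PT.nd (nat_lit 94) (PT.lf (nat_lit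 14028) (nat_lit 6) (nat_lit 167) (nat_lit 1) (nat_lit 66) (nat_lit 54) (nat_lit 60)) (PT.lf (nat_lit 13356) (nat_lit 6) (nat_lit 159) (nat_lit 1) (nat_lit 67) (nat_lit 54) (nat_lit 59))) (PT.nd (nat_lit 94) (PT.lf (nat_lit 12600) (nat_lit 6) (nat_lit 150) (nat_lit 1) (nat_lit 68) (nat_lit 54) (nat_lit 58)) (PT.lf (nat_lit 11760) (nat_lit 6) (nat_lit 140) (nat_lit 1) (nat_lit 69) (nat_lit 54) (nat_lit 57))))) (PT.nd (nat_lit 44086) (PT.nd (nat_lit 43898) (PT.nd (nat_lit 43804) (PT.lf (nat_lit 10836) (nat_lit 6) (nat_lit 129) (nat_lit 1) (nat_lit 70) (nat_lit 54) (nat_lit 56)) (PT.lf (nat_lit 10752) (nat_lit 3) (nat_lit 128) (nat_lit 3) (nat_lit 55) (nat_lit 55) (nat_lit 70))) (PT.nd (nat_lit 94) (PT.lf (nat_lit 11676) (nat_lit 6) (nat_lit 139) (nat_lit 3) (nat_lit 56) (nat_lit 55) (nat_lit 69)) (PT.lf (nat_lit 12516) (nat_lit 6) (nat_lit 149) (nat_lit 3) (nat_lit 57) (nat_lit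 55) (nat_lit 68)))) (PT.nd (nat_lit 188) (PT.nd (nat_lit 94) (PT.lf (nat_lit 13272) (nat_lit 6) (nat_lit 158) (nat_lit 3) (nat_lit 58) (nat_lit 55) (nat_lit 67)) (PT.lf (nat_lit 13944) (nat_lit 6) (nat_lit 166) (nat_lit 3) (nat_lit 59) (nat_lit 55) (nat_lit 66))) (PT.nd (nat_lit 94) (PT.lf (nat_lit 14532) (nat_lit 6) (nat_lit 173) (nat_lit 3) (nat_lit 60) (nat_lit 55) (nat_lit 65)) (PT.lf (nat_lit 14616) (nat_lit 6) (nat_lit 174) (nat_lit 3) (nat_lit 61) (nat_lit 55) (nat_lit 64)))))) (PT.nd (nat_lit 752) (PT.nd (nat_lit 376) (PT.nd (nat_lit 188) (PT.nd (nat_lit 94) (PT.lf (nat_lit 14700) (nat_lit 6) (nat_lit 175) (nat_lit 3) (nat_lit 62) (nat_lit 55) (nat_lit 63)) (PT.lf (nat_lit 14700) (nat_lit 6) (nat_lit 175) (nat_lit 1) (nat_lit 63) (nat_lit 55) (nat_lit 62))) (PT.nd (nat_lit 94) (PT.lf (nat_lit 14616) (nat_lit 6) (nat_lit 174) (nat_lit 1) (nat_lit 64) (nat_lit 55)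 (nat_lit 61)) (PT.lf (nat_lit 14532) (nat_lit 6) (nat_lit 173) (nat_lit 1) (nat_lit 65) (nat_lit 55) (nat_lit 60)))) (PT.nd (nat_lit 188) (PT.nd (nat_lit 94) (PT.lf (nat_lit 13944) (nat_lit 6) (nat_lit 166) (nat_lit 1) (nat_lit 66) (nat_lit 55) (nat_lit 59)) (PT.lf (nat_lit 13272) (nat_lit 6) (nat_lit 158) (nat_lit 1) (nat_lit 67) (nat_lit 55) (nat_lit 58))) (PT.nd (nat_lit 94) (PT.lf (nat_lit 12516) (nat_lit 6) (nat_lit 149) (nat_lit 1) (nat_lit 68) (nat_lit 55) (nat_lit 57)) (PT.lf (nat_lit 11676) (nat_lit 6) (nat_lit 139) (nat_lit 1) (nat_lit 69) (nat_lit 55) (nat_lit 56))))) (PT.nd (nat_lit 43992) (PT.nd (nat_lit 43804) (PT.nd (nat_lit 43710) (PT.lf (nat_lit 10752) (nat_lit 3) (nat_lit 128) (nat_lit 0) (nat_lit 70) (nat_lit 55) (nat_lit 55)) (PT.lf (nat_lit 10836) (nat_lit 6) (nat_lit 129) (nat_lit 5) (nat_lit 54) (nat_lit 56) (nat_lit 70))) (PT.nd (nat_lit 94) (PT.lf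 (nat_lit 11676) (nat_lit 6) (nat_lit 139) (nat_lit 5) (nat_lit 55) (nat_lit 56) (nat_lit 69)) (PT.lf (nat_lit 12432) (nat_lit 3) (nat_lit 148) (nat_lit 3) (nat_lit 56) (nat_lit 56) (nat_lit 68)))) (PT.nd (nat_lit 188) (PT.nd (nat_lit 94) (PT.lf (nat_lit 13188) (nat_lit 6) (nat_lit 157) (nat_lit 3) (nat_lit 57) (nat_lit 56) (nat_lit 67)) (PT.lf (nat_lit 13860) (nat_lit 6) (nat_lit 165) (nat_lit 3) (nat_lit 58) (nat_lit 56) (nat_lit 66))) (PT.nd (nat_lit 94) (PT.lf (nat_lit 14448) (nat_lit 6) (nat_lit 172) (nat_lit 3) (nat_lit 59) (nat_lit 56) (nat_lit 65)) (PT.lf (nat_lit 14952) (nat_lit 6) (nat_lit 178) (nat_lit 3) (nat_lit 60) (nat_lit 56) (nat_lit 64))))))))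
noncomputable def pc5 : PT := (PT.nd (nat_lit 89958) (PT.nd (nat_lit 45026) (PT.nd (nat_lit 752) (PT.nd (nat_lit 376) (PT.nd (nat_lit 188) (PT.nd (nat_lit 94) (PT.lf (nat_lit 15036) (nat_lit 6) (nat_lit 179) (nat_lit 3) (nat_lit 61) (nat_lit 56) (nat_lit 63)) (PT.lf (nat_lit 15120) (nat_lit 3) (nat_lit 180) (nat_lit 1) (nat_lit 62) (nat_lit 56) (nat_lit 62))) (PT.nd (nat_lit 94) (PT.lf (nat_lit 15036) (nat_lit 6) (nat_lit 179) (nat_lit 1) (nat_lit 63) (nat_lit 56) (nat_lit 61)) (PT.lf (nat_lit 14952) (nat_lit 6) (nat_lit 178) (nat_lit 1) (nat_lit 64) (nat_lit 56) (nat_lit 60)))) (PT.nd (nat_lit 188) (PT.nd (nat_lit 94) (PT.lf (nat_lit 14448) (nat_lit 6) (nat_lit 172) (nat_lit 1) (nat_lit 65) (nat_lit 56) (nat_lit 59)) (PT.lf (nat_lit 13860) (nat_lit 6) (nat_lit 165) (nat_lit 1) (nat_lit 66) (nat_lit 56) (nat_lit 58))) (PT.nd (nat_lit 94) (PT.lf (nat_lit 13188) (nat_lit 6)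 (nat_lit 157) (nat_lit 1) (nat_lit 67) (nat_lit 56) (nat_lit 57)) (PT.lf (nat_lit 12432) (nat_lit 3) (nat_lit 148) (nat_lit 0) (nat_lit 68) (nat_lit 56) (nat_lit 56))))) (PT.nd (nat_lit 43898) (PT.nd (nat_lit 43710) (PT.nd (nat_lit 94) (PT.lf (nat_lit 11676) (nat_lit 6) (nat_lit 139) (nat_lit 0) (nat_lit 69) (nat_lit 56) (nat_lit 55)) (PT.lf (nat_lit 10836) (nat_lit 6) (nat_lit 129) (nat_lit 0) (nat_lit 70) (nat_lit 56) (nat_lit 54))) (PT.nd (nat_lit 94) (PT.lf (nat_lit 10920) (nat_lit 6) (nat_lit 130) (nat_lit 5) (nat_lit 53) (nat_lit 57) (nat_lit 70)) (PT.lf (nat_lit 11760) (nat_lit 6) (nat_lit 140) (nat_lit 5) (nat_lit 54) (nat_lit 57) (nat_lit 69)))) (PT.nd (nat_lit 188) (PT.nd (nat_lit 94) (PT.lf (nat_lit 12516) (nat_lit 6) (nat_lit 149) (nat_lit 5) (nat_lit 55) (nat_lit 57) (nat_lit 68)) (PT.lf (nat_lit 13188) (nat_lit 6) (nat_lit 157) (nat_lit 5) (nat_lit 56) (nat_lit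 57) (nat_lit 67))) (PT.nd (nat_lit 94) (PT.lf (nat_lit 13776) (nat_lit 3) (nat_lit 164) (nat_lit 3) (nat_lit 57) (nat_lit 57) (nat_lit 66)) (PT.lf (nat_lit 14364) (nat_lit 6) (nat_lit 171) (nat_lit 3) (nat_lit 58) (nat_lit 57) (nat_lit 65)))))) (PT.nd (nat_lit 752) (PT.nd (nat_lit 376) (PT.nd (nat_lit 188) (PT.nd (nat_lit 94) (PT.lf (nat_lit 14868) (nat_lit 6) (nat_lit 177) (nat_lit 3) (nat_lit 59) (nat_lit 57) (nat_lit 64)) (PT.lf (nat_lit 15288) (nat_lit 6) (nat_lit 182) (nat_lit 3) (nat_lit 60) (nat_lit 57) (nat_lit 63))) (PT.nd (nat_lit 94) (PT.lf (nat_lit 15372) (nat_lit 6) (nat_lit 183) (nat_lit 3) (nat_lit 61) (nat_lit 57) (nat_lit 62)) (PT.lf (nat_lit 15372) (nat_lit 6) (nat_lit 183) (nat_lit 1) (nat_lit 62) (nat_lit 57) (nat_lit 61)))) (PT.nd (nat_lit 188) (PT.nd (nat_lit 94) (PT.lf (nat_lit 15288) (nat_lit 6) (nat_lit 182) (nat_lit 1) (nat_lit 63) (nat_lit 57)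 (nat_lit 60)) (PT.lf (nat_lit 14868) (nat_lit 6) (nat_lit 177) (nat_lit 1) (nat_lit 64) (nat_lit 57) (nat_lit 59))) (PT.nd (nat_lit 94) (PT.lf (nat_lit 14364) (nat_lit 6) (nat_lit 171) (nat_lit 1) (nat_lit 65) (nat_lit 57) (nat_lit 58)) (PT.lf (nat_lit 13776) (nat_lit 3) (nat_lit 164) (nat_lit 0) (nat_lit 66) (nat_lit 57) (nat_lit 57))))) (PT.nd (nat_lit 43804) (PT.nd (nat_lit 188) (PT.nd (nat_lit 94) (PT.lf (nat_lit 13188) (nat_lit 6) (nat_lit 157) (nat_lit 0) (nat_lit 67) (nat_lit 57) (nat_lit 56)) (PT.lf (nat_lit 12516) (nat_lit 6) (nat_lit 149) (nat_lit 0) (nat_lit 68) (nat_lit 57) (nat_lit 55))) (PT.nd (nat_lit 94) (PT.lf (nat_lit 11760) (nat_lit 6) (nat_lit 140) (nat_lit 0) (nat_lit 69) (nat_lit 57) (nat_lit 54)) (PT.lf (nat_lit 10920) (nat_lit 6) (nat_lit 130) (nat_lit 0) (nat_lit 70) (nat_lit 57) (nat_lit 53)))) (PT.nd (nat_lit 188) (PT.nd (nat_lit 94) (PT.lf (nat_lit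 11004) (nat_lit 6) (nat_lit 131) (nat_lit 5) (nat_lit 52) (nat_lit 58) (nat_lit 70)) (PT.lf (nat_lit 11844) (nat_lit 6) (nat_lit 141) (nat_lit 5) (nat_lit 53) (nat_lit 58) (nat_lit 69))) (PT.nd (nat_lit 94) (PT.lf (nat_lit 12600) (nat_lit 6) (nat_lit 150) (nat_lit 5) (nat_lit 54) (nat_lit 58) (nat_lit 68)) (PT.lf (nat_lit 13272) (nat_lit 6) (nat_lit 158) (nat_lit 5) (nat_lit 55) (nat_lit 58) (nat_lit 67))))))) (PT.nd (nat_lit 44838) (PT.nd (nat_lit 752) (PT.nd (nat_lit 376) (PT.nd (nat_lit 188) (PT.nd (nat_lit 94) (PT.lf (nat_lit 13860) (nat_lit 6) (nat_lit 165) (nat_lit 5) (nat_lit 56) (nat_lit 58) (nat_lit 66)) (PT.lf (nat_lit 14364) (nat_lit 6) (nat_lit 171) (nat_lit 5) (nat_lit 57) (nat_lit 58) (nat_lit 65))) (PT.nd (nat_lit 94) (PT.lf (nat_lit 14784) (nat_lit 3) (nat_lit 176) (nat_lit 3) (nat_lit 58) (nat_lit 58) (nat_lit 64)) (PT.lf (nat_lit 15204) (nat_lit 6) (nat_lit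 181) (nat_lit 3) (nat_lit 59) (nat_lit 58) (nat_lit 63)))) (PT.nd (nat_lit 188) (PT.nd (nat_lit 94) (PT.lf (nat_lit 15540) (nat_lit 6) (nat_lit 185) (nat_lit 3) (nat_lit 60) (nat_lit 58) (nat_lit 62)) (PT.lf (nat_lit 15624) (nat_lit 3) (nat_lit 186) (nat_lit 1) (nat_lit 61) (nat_lit 58) (nat_lit 61))) (PT.nd (nat_lit 94) (PT.lf (nat_lit 15540) (nat_lit 6) (nat_lit 185) (nat_lit 1) (nat_lit 62) (nat_lit 58) (nat_lit 60)) (PT.lf (nat_lit 15204) (nat_lit 6) (nat_lit 181) (nat_lit 1) (nat_lit 63) (nat_lit 58) (nat_lit 59))))) (PT.nd (nat_lit 376) (PT.nd (nat_lit 188) (PT.nd (nat_lit 94) (PT.lf (nat_lit 14784) (nat_lit 3) (nat_lit 176) (nat_lit 0) (nat_lit 64) (nat_lit 58) (nat_lit 58)) (PT.lf (nat_lit 14364) (nat_lit 6) (nat_lit 171) (nat_lit 0) (nat_lit 65) (nat_lit 58) (nat_lit 57))) (PT.nd (nat_lit 94) (PT.lf (nat_lit 13860) (nat_lit 6) (nat_lit 165) (nat_lit 0) (nat_lit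 66) (nat_lit 58) (nat_lit 56)) (PT.lf (nat_lit 13272) (nat_lit 6) (nat_lit 158) (nat_lit 0) (nat_lit 67) (nat_lit 58) (nat_lit 55)))) (PT.nd (nat_lit 188) (PT.nd (nat_lit 94) (PT.lf (nat_lit 12600) (nat_lit 6) (nat_lit 150) (nat_lit 0) (nat_lit 68) (nat_lit 58) (nat_lit 54)) (PT.lf (nat_lit 11844) (nat_lit 6) (nat_lit 141) (nat_lit 0) (nat_lit 69) (nat_lit 58) (nat_lit 53))) (PT.nd (nat_lit 43428) (PT.lf (nat_lit 11004) (nat_lit 6) (nat_lit 131) (nat_lit 0) (nat_lit 70) (nat_lit 58) (nat_lit 52)) (PT.lf (nat_lit 11088) (nat_lit 6) (nat_lit 132) (nat_lit 5) (nat_lit 51) (nat_lit 59) (nat_lit 70)))))) (PT.nd (nat_lit 752) (PT.nd (nat_lit 376) (PT.nd (nat_lit 188) (PT.nd (nat_lit 94) (PT.lf (nat_lit 11928) (nat_lit 6) (nat_lit 142) (nat_lit 5) (nat_lit 52) (nat_lit 59) (nat_lit 69)) (PT.lf (nat_lit 12684) (nat_lit 6) (nat_lit 151) (nat_lit 5) (nat_lit 53) (nat_lit 59) (nat_lit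 68))) (PT.nd (nat_lit 94) (PT.lf (nat_lit 13356) (nat_lit 6) (nat_lit 159) (nat_lit 5) (nat_lit 54) (nat_lit 59) (nat_lit 67)) (PT.lf (nat_lit 13944) (nat_lit 6) (nat_lit 166) (nat_lit 5) (nat_lit 55) (nat_lit 59) (nat_lit 66)))) (PT.nd (nat_lit 188) (PT.nd (nat_lit 94) (PT.lf (nat_lit 14448) (nat_lit 6) (nat_lit 172) (nat_lit 5) (nat_lit 56) (nat_lit 59) (nat_lit 65)) (PT.lf (nat_lit 14868) (nat_lit 6) (nat_lit 177) (nat_lit 5) (nat_lit 57) (nat_lit 59) (nat_lit 64))) (PT.nd (nat_lit 94) (PT.lf (nat_lit 15204) (nat_lit 6) (nat_lit 181) (nat_lit 5) (nat_lit 58) (nat_lit 59) (nat_lit 63)) (PT.lf (nat_lit 15456) (nat_lit 3) (nat_lit 184) (nat_lit 3) (nat_lit 59) (nat_lit 59) (nat_lit 62))))) (PT.nd (nat_lit 376) (PT.nd (nat_lit 188) (PT.nd (nat_lit 94) (PT.lf (nat_lit 15708) (nat_lit 6) (nat_lit 187) (nat_lit 3) (nat_lit 60) (nat_lit 59) (nat_lit 61)) (PT.lf (nat_lit 15708)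 (nat_lit 6) (nat_lit 187) (nat_lit 1) (nat_lit 61) (nat_lit 59) (nat_lit 60))) (PT.nd (nat_lit 94) (PT.lf (nat_lit 15456) (nat_lit 3) (nat_lit 184) (nat_lit 0) (nat_lit 62) (nat_lit 59) (nat_lit 59)) (PT.lf (nat_lit 15204) (nat_lit 6) (nat_lit 181) (nat_lit 0) (nat_lit 63) (nat_lit 59) (nat_lit 58)))) (PT.nd (nat_lit 188) (PT.nd (nat_lit 94) (PT.lf (nat_lit 14868) (nat_lit 6) (nat_lit 177) (nat_lit 0) (nat_lit 64) (nat_lit 59) (nat_lit 57)) (PT.lf (nat_lit 14448) (nat_lit 6) (nat_lit 172) (nat_lit 0) (nat_lit 65) (nat_lit 59) (nat_lit 56))) (PT.nd (nat_lit 94) (PT.lf (nat_lit 13944) (nat_lit 6) (nat_lit 166) (nat_lit 0) (nat_lit 66) (nat_lit 59) (nat_lit 55)) (PT.lf (nat_lit 13356) (nat_lit 6) (nat_lit 159) (nat_lit 0) (nat_lit 67) (nat_lit 59) (nat_lit 54))))))))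
noncomputable def pc6 : PT := (PT.nd (nat_lit 89112) (PT.nd (nat_lit 44650) (PT.nd (nat_lit 43898) (PT.nd (nat_lit 43522) (PT.nd (nat_lit 188) (PT.nd (nat_lit 94) (PT.lf (nat_lit 12684) (nat_lit 6) (nat_lit 151) (nat_lit 0) (nat_lit 68) (nat_lit 59) (nat_lit 53)) (PT.lf (nat_lit 11928) (nat_lit 6) (nat_lit 142) (nat_lit 0) (nat_lit 69) (nat_lit 59) (nat_lit 52))) (PT.nd (nat_lit 43240) (PT.lf (nat_lit 11088) (nat_lit 6) (nat_lit 132) (nat_lit 0) (nat_lit 70) (nat_lit 59) (nat_lit 51)) (PT.lf (nat_lit 10248) (nat_lit 6) (nat_lit 122) (nat_lit 5) (nat_lit 49) (nat_lit 60) (nat_lit 71)))) (PT.nd (nat_lit 188) (PT.nd (nat_lit 94) (PT.lf (nat_lit 11172) (nat_lit 6) (nat_lit 133) (nat_lit 5) (nat_lit 50) (nat_lit 60) (nat_lit 70)) (PT.lf (nat_lit 12012) (nat_lit 6) (nat_lit 143) (nat_lit 5) (nat_lit 51) (nat_lit 60) (nat_lit 69))) (PT.nd (nat_lit 94) (PT.lf (nat_lit 12768) (nat_lit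 6) (nat_lit 152) (nat_lit 5) (nat_lit 52) (nat_lit 60) (nat_lit 68)) (PT.lf (nat_lit 13440) (nat_lit 6) (nat_lit 160) (nat_lit 5) (nat_lit 53) (nat_lit 60) (nat_lit 67))))) (PT.nd (nat_lit 376) (PT.nd (nat_lit 188) (PT.nd (nat_lit 94) (PT.lf (nat_lit 14028) (nat_lit 6) (nat_lit 167) (nat_lit 5) (nat_lit 54) (nat_lit 60) (nat_lit 66)) (PT.lf (nat_lit 14532) (nat_lit 6) (nat_lit 173) (nat_lit 5) (nat_lit 55) (nat_lit 60) (nat_lit 65))) (PT.nd (nat_lit 94) (PT.lf (nat_lit 14952) (nat_lit 6) (nat_lit 178) (nat_lit 5) (nat_lit 56) (nat_lit 60) (nat_lit 64)) (PT.lf (nat_lit 15288) (nat_lit 6) (nat_lit 182) (nat_lit 5) (nat_lit 57) (nat_lit 60) (nat_lit 63)))) (PT.nd (nat_lit 188) (PT.nd (nat_lit 94) (PT.lf (nat_lit 15540) (nat_lit 6) (nat_lit 185) (nat_lit 5) (nat_lit 58) (nat_lit 60) (nat_lit 62)) (PT.lf (nat_lit 15708) (nat_lit 6) (nat_lit 187) (nat_lit 5) (nat_lit 59) (nat_lit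 60) (nat_lit 61))) (PT.nd (nat_lit 94) (PT.lf (nat_lit 15792) (nat_lit 1) (nat_lit 188) (nat_lit 0) (nat_lit 60) (nat_lit 60) (nat_lit 60)) (PT.lf (nat_lit 15708) (nat_lit 6) (nat_lit 187) (nat_lit 0) (nat_lit 61) (nat_lit 60) (nat_lit 59)))))) (PT.nd (nat_lit 752) (PT.nd (nat_lit 376) (PT.nd (nat_lit 188) (PT.nd (nat_lit 94) (PT.lf (nat_lit 15540) (nat_lit 6) (nat_lit 185) (nat_lit 0) (nat_lit 62) (nat_lit 60) (nat_lit 58)) (PT.lf (nat_lit 15288) (nat_lit 6) (nat_lit 182) (nat_lit 0) (nat_lit 63) (nat_lit 60) (nat_lit 57))) (PT.nd (nat_lit 94) (PT.lf (nat_lit 14952) (nat_lit 6) (nat_lit 178) (nat_lit 0) (nat_lit 64) (nat_lit 60) (nat_lit 56)) (PT.lf (nat_lit 14532) (nat_lit 6) (nat_lit 173) (nat_lit 0) (nat_lit 65) (nat_lit 60) (nat_lit 55)))) (PT.nd (nat_lit 188) (PT.nd (nat_lit 94) (PT.lf (nat_lit 14028) (nat_lit 6) (nat_lit 167) (nat_lit 0) (nat_lit 66) (nat_lit 60)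 (nat_lit 54)) (PT.lf (nat_lit 13440) (nat_lit 6) (nat_lit 160) (nat_lit 0) (nat_lit 67) (nat_lit 60) (nat_lit 53))) (PT.nd (nat_lit 94) (PT.lf (nat_lit 12768) (nat_lit 6) (nat_lit 152) (nat_lit 0) (nat_lit 68) (nat_lit 60) (nat_lit 52)) (PT.lf (nat_lit 12012) (nat_lit 6) (nat_lit 143) (nat_lit 0) (nat_lit 69) (nat_lit 60) (nat_lit 51))))) (PT.nd (nat_lit 43334) (PT.nd (nat_lit 43146) (PT.nd (nat_lit 94) (PT.lf (nat_lit 11172) (nat_lit 6) (nat_lit 133) (nat_lit 0) (nat_lit 70) (nat_lit 60) (nat_lit 50)) (PT.lf (nat_lit 10248) (nat_lit 6) (nat_lit 122) (nat_lit 0) (nat_lit 71) (nat_lit 60) (nat_lit 49))) (PT.nd (nat_lit 94) (PT.lf (nat_lit 9744) (nat_lit 6) (nat_lit 116) (nat_lit 5) (nat_lit 48) (nat_lit 61) (nat_lit 71)) (PT.lf (nat_lit 10332) (nat_lit 6) (nat_lit 123) (nat_lit 5) (nat_lit 49) (nat_lit 61) (nat_lit 70)))) (PT.nd (nat_lit 188) (PT.nd (nat_lit 94) (PT.lf (nat_lit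 11256) (nat_lit 6) (nat_lit 134) (nat_lit 5) (nat_lit 50) (nat_lit 61) (nat_lit 69)) (PT.lf (nat_lit 12096) (nat_lit 6) (nat_lit 144) (nat_lit 5) (nat_lit 51) (nat_lit 61) (nat_lit 68))) (PT.nd (nat_lit 94) (PT.lf (nat_lit 12852) (nat_lit 6) (nat_lit 153) (nat_lit 5) (nat_lit 52) (nat_lit 61) (nat_lit 67)) (PT.lf (nat_lit 13524) (nat_lit 6) (nat_lit 161) (nat_lit 5) (nat_lit 53) (nat_lit 61) (nat_lit 66))))))) (PT.nd (nat_lit 1504) (PT.nd (nat_lit 752) (PT.nd (nat_lit 376) (PT.nd (nat_lit 188) (PT.nd (nat_lit 94) (PT.lf (nat_lit 14112) (nat_lit 6) (nat_lit 168) (nat_lit 5) (nat_lit 54) (nat_lit 61) (nat_lit 65)) (PT.lf (nat_lit 14616) (nat_lit 6) (nat_lit 174) (nat_lit 5) (nat_lit 55) (nat_lit 61) (nat_lit 64))) (PT.nd (nat_lit 94) (PT.lf (nat_lit 15036) (nat_lit 6) (nat_lit 179) (nat_lit 5) (nat_lit 56) (nat_lit 61) (nat_lit 63)) (PT.lf (nat_lit 15372) (nat_lit 6) (nat_lit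 183) (nat_lit 5) (nat_lit 57) (nat_lit 61) (nat_lit 62)))) (PT.nd (nat_lit 188) (PT.nd (nat_lit 94) (PT.lf (nat_lit 15624) (nat_lit 3) (nat_lit 186) (nat_lit 4) (nat_lit 58) (nat_lit 61) (nat_lit 61)) (PT.lf (nat_lit 15708) (nat_lit 6) (nat_lit 187) (nat_lit 4) (nat_lit 59) (nat_lit 61) (nat_lit 60))) (PT.nd (nat_lit 94) (PT.lf (nat_lit 15708) (nat_lit 6) (nat_lit 187) (nat_lit 2) (nat_lit 60) (nat_lit 61) (nat_lit 59)) (PT.lf (nat_lit 15624) (nat_lit 3) (nat_lit 186) (nat_lit 0) (nat_lit 61) (nat_lit 61) (nat_lit 58))))) (PT.nd (nat_lit 376) (PT.nd (nat_lit 188) (PT.nd (nat_lit 94) (PT.lf (nat_lit 15372) (nat_lit 6) (nat_lit 183) (nat_lit 0) (nat_lit 62) (nat_lit 61) (nat_lit 57)) (PT.lf (nat_lit 15036) (nat_lit 6) (nat_lit 179) (nat_lit 0) (nat_lit 63) (nat_lit 61) (nat_lit 56))) (PT.nd (nat_lit 94) (PT.lf (nat_lit 14616) (nat_lit 6) (nat_lit 174) (nat_lit 0) (nat_lit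 64) (nat_lit 61) (nat_lit 55)) (PT.lf (nat_lit 14112) (nat_lit 6) (nat_lit 168) (nat_lit 0) (nat_lit 65) (nat_lit 61) (nat_lit 54)))) (PT.nd (nat_lit 188) (PT.nd (nat_lit 94) (PT.lf (nat_lit 13524) (nat_lit 6) (nat_lit 161) (nat_lit 0) (nat_lit 66) (nat_lit 61) (nat_lit 53)) (PT.lf (nat_lit 12852) (nat_lit 6) (nat_lit 153) (nat_lit 0) (nat_lit 67) (nat_lit 61) (nat_lit 52))) (PT.nd (nat_lit 94) (PT.lf (nat_lit 12096) (nat_lit 6) (nat_lit 144) (nat_lit 0) (nat_lit 68) (nat_lit 61) (nat_lit 51)) (PT.lf (nat_lit 11256) (nat_lit 6) (nat_lit 134) (nat_lit 0) (nat_lit 69) (nat_lit 61) (nat_lit 50)))))) (PT.nd (nat_lit 43616) (PT.nd (nat_lit 43240) (PT.nd (nat_lit 43052) (PT.nd (nat_lit 94) (PT.lf (nat_lit 10332) (nat_lit 6) (nat_lit 123) (nat_lit 0) (nat_lit 70) (nat_lit 61) (nat_lit 49)) (PT.lf (nat_lit 9744) (nat_lit 6) (nat_lit 116) (nat_lit 0) (nat_lit 71) (nat_lit 61) (nat_lit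 48))) (PT.nd (nat_lit 94) (PT.lf (nat_lit 9324) (nat_lit 6) (nat_lit 111) (nat_lit 5) (nat_lit 47) (nat_lit 62) (nat_lit 71)) (PT.lf (nat_lit 9828) (nat_lit 6) (nat_lit 117) (nat_lit 5) (nat_lit 48) (nat_lit 62) (nat_lit 70)))) (PT.nd (nat_lit 188) (PT.nd (nat_lit 94) (PT.lf (nat_lit 10416) (nat_lit 6) (nat_lit 124) (nat_lit 5) (nat_lit 49) (nat_lit 62) (nat_lit 69)) (PT.lf (nat_lit 11340) (nat_lit 6) (nat_lit 135) (nat_lit 5) (nat_lit 50) (nat_lit 62) (nat_lit 68))) (PT.nd (nat_lit 94) (PT.lf (nat_lit 12180) (nat_lit 6) (nat_lit 145) (nat_lit 5) (nat_lit 51) (nat_lit 62) (nat_lit 67)) (PT.lf (nat_lit 12936) (nat_lit 6) (nat_lit 154) (nat_lit 5) (nat_lit 52) (nat_lit 62) (nat_lit 66))))) (PT.nd (nat_lit 376) (PT.nd (nat_lit 188) (PT.nd (nat_lit 94) (PT.lf (nat_lit 13608) (nat_lit 6) (nat_lit 162) (nat_lit 5) (nat_lit 53) (nat_lit 62) (nat_lit 65)) (PT.lf (nat_lit 14196)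 (nat_lit 6) (nat_lit 169) (nat_lit 5) (nat_lit 54) (nat_lit 62) (nat_lit 64))) (PT.nd (nat_lit 94) (PT.lf (nat_lit 14700) (nat_lit 6) (nat_lit 175) (nat_lit 5) (nat_lit 55) (nat_lit 62) (nat_lit 63)) (PT.lf (nat_lit 15120) (nat_lit 3) (nat_lit 180) (nat_lit 4) (nat_lit 56) (nat_lit 62) (nat_lit 62)))) (PT.nd (nat_lit 188) (PT.nd (nat_lit 94) (PT.lf (nat_lit 15372) (nat_lit 6) (nat_lit 183) (nat_lit 4) (nat_lit 57) (nat_lit 62) (nat_lit 61)) (PT.lf (nat_lit 15540) (nat_lit 6) (nat_lit 185) (nat_lit 4) (nat_lit 58) (nat_lit 62) (nat_lit 60))) (PT.nd (nat_lit 94) (PT.lf (nat_lit 15456) (nat_lit 3) (nat_lit 184) (nat_lit 2) (nat_lit 59) (nat_lit 62) (nat_lit 59)) (PT.lf (nat_lit 15540) (nat_lit 6) (nat_lit 185) (nat_lit 2) (nat_lit 60) (nat_lit 62) (nat_lit 58))))))))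
noncomputable def pc7 : PT := (PT.nd (nat_lit 45778) (PT.nd (nat_lit 44274) (PT.nd (nat_lit 752) (PT.nd (nat_lit 376) (PT.nd (nat_lit 188) (PT.nd (nat_lit 94) (PT.lf (nat_lit 15372) (nat_lit 6) (nat_lit 183) (nat_lit 2) (nat_lit 61) (nat_lit 62) (nat_lit 57)) (PT.lf (nat_lit 15120) (nat_lit 3) (nat_lit 180) (nat_lit 0) (nat_lit 62) (nat_lit 62) (nat_lit 56))) (PT.nd (nat_lit 94) (PT.lf (nat_lit 14700) (nat_lit 6) (nat_lit 175) (nat_lit 0) (nat_lit 63) (nat_lit 62) (nat_lit 55)) (PT.lf (nat_lit 14196) (nat_lit 6) (nat_lit 169) (nat_lit 0) (nat_lit 64) (nat_lit 62) (nat_lit 54)))) (PT.nd (nat_lit 188) (PT.nd (nat_lit 94) (PT.lf (nat_lit 13608) (nat_lit 6) (nat_lit 162) (nat_lit 0) (nat_lit 65) (nat_lit 62) (nat_lit 53)) (PT.lf (nat_lit 12936) (nat_lit 6) (nat_lit 154) (nat_lit 0) (nat_lit 66) (nat_lit 62) (nat_lit 52))) (PT.nd (nat_lit 94) (PT.lf (nat_lit 12180) (nat_lit 6)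 (nat_lit 145) (nat_lit 0) (nat_lit 67) (nat_lit 62) (nat_lit 51)) (PT.lf (nat_lit 11340) (nat_lit 6) (nat_lit 135) (nat_lit 0) (nat_lit 68) (nat_lit 62) (nat_lit 50))))) (PT.nd (nat_lit 43146) (PT.nd (nat_lit 188) (PT.nd (nat_lit 94) (PT.lf (nat_lit 10416) (nat_lit 6) (nat_lit 124) (nat_lit 0) (nat_lit 69) (nat_lit 62) (nat_lit 49)) (PT.lf (nat_lit 9828) (nat_lit 6) (nat_lit 117) (nat_lit 0) (nat_lit 70) (nat_lit 62) (nat_lit 48))) (PT.nd (nat_lit 42864) (PT.lf (nat_lit 9324) (nat_lit 6) (nat_lit 111) (nat_lit 0) (nat_lit 71) (nat_lit 62) (nat_lit 47)) (PT.lf (nat_lit 8904) (nat_lit 6) (nat_lit 106) (nat_lit 5) (nat_lit 46) (nat_lit 63) (nat_lit 71)))) (PT.nd (nat_lit 188) (PT.nd (nat_lit 94) (PT.lf (nat_lit 9408) (nat_lit 6) (nat_lit 112) (nat_lit 5) (nat_lit 47) (nat_lit 63) (nat_lit 70)) (PT.lf (nat_lit 9912) (nat_lit 6) (nat_lit 118) (nat_lit 5) (nat_lit 48) (nat_lit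 63) (nat_lit 69))) (PT.nd (nat_lit 94) (PT.lf (nat_lit 10500) (nat_lit 6) (nat_lit 125) (nat_lit 5) (nat_lit 49) (nat_lit 63) (nat_lit 68)) (PT.lf (nat_lit 11424) (nat_lit 6) (nat_lit 136) (nat_lit 5) (nat_lit 50) (nat_lit 63) (nat_lit 67)))))) (PT.nd (nat_lit 752) (PT.nd (nat_lit 376) (PT.nd (nat_lit 188) (PT.nd (nat_lit 94) (PT.lf (nat_lit 12264) (nat_lit 6) (nat_lit 146) (nat_lit 5) (nat_lit 51) (nat_lit 63) (nat_lit 66)) (PT.lf (nat_lit 13020) (nat_lit 6) (nat_lit 155) (nat_lit 5) (nat_lit 52) (nat_lit 63) (nat_lit 65))) (PT.nd (nat_lit 94) (PT.lf (nat_lit 13692) (nat_lit 6) (nat_lit 163) (nat_lit 5) (nat_lit 53) (nat_lit 63) (nat_lit 64)) (PT.lf (nat_lit 14280) (nat_lit 3) (nat_lit 170) (nat_lit 4) (nat_lit 54) (nat_lit 63) (nat_lit 63)))) (PT.nd (nat_lit 188) (PT.nd (nat_lit 94) (PT.lf (nat_lit 14700) (nat_lit 6) (nat_lit 175) (nat_lit 4) (nat_lit 55) (nat_lit 63)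 (nat_lit 62)) (PT.lf (nat_lit 15036) (nat_lit 6) (nat_lit 179) (nat_lit 4) (nat_lit 56) (nat_lit 63) (nat_lit 61))) (PT.nd (nat_lit 94) (PT.lf (nat_lit 15288) (nat_lit 6) (nat_lit 182) (nat_lit 4) (nat_lit 57) (nat_lit 63) (nat_lit 60)) (PT.lf (nat_lit 15204) (nat_lit 6) (nat_lit 181) (nat_lit 4) (nat_lit 58) (nat_lit 63) (nat_lit 59))))) (PT.nd (nat_lit 376) (PT.nd (nat_lit 188) (PT.nd (nat_lit 94) (PT.lf (nat_lit 15204) (nat_lit 6) (nat_lit 181) (nat_lit 2) (nat_lit 59) (nat_lit 63) (nat_lit 58)) (PT.lf (nat_lit 15288) (nat_lit 6) (nat_lit 182) (nat_lit 2) (nat_lit 60) (nat_lit 63) (nat_lit 57))) (PT.nd (nat_lit 94) (PT.lf (nat_lit 15036) (nat_lit 6) (nat_lit 179) (nat_lit 2) (nat_lit 61) (nat_lit 63) (nat_lit 56)) (PT.lf (nat_lit 14700) (nat_lit 6) (nat_lit 175) (nat_lit 2) (nat_lit 62) (nat_lit 63) (nat_lit 55)))) (PT.nd (nat_lit 188) (PT.nd (nat_lit 94) (PT.lf (nat_lit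 14280) (nat_lit 3) (nat_lit 170) (nat_lit 0) (nat_lit 63) (nat_lit 63) (nat_lit 54)) (PT.lf (nat_lit 13692) (nat_lit 6) (nat_lit 163) (nat_lit 0) (nat_lit 64) (nat_lit 63) (nat_lit 53))) (PT.nd (nat_lit 94) (PT.lf (nat_lit 13020) (nat_lit 6) (nat_lit 155) (nat_lit 0) (nat_lit 65) (nat_lit 63) (nat_lit 52)) (PT.lf (nat_lit 12264) (nat_lit 6) (nat_lit 146) (nat_lit 0) (nat_lit 66) (nat_lit 63) (nat_lit 51))))))) (PT.nd (nat_lit 44086) (PT.nd (nat_lit 43334) (PT.nd (nat_lit 376) (PT.nd (nat_lit 188) (PT.nd (nat_lit 94) (PT.lf (nat_lit 11424) (nat_lit 6) (nat_lit 136) (nat_lit 0) (nat_lit 67) (nat_lit 63) (nat_lit 50)) (PT.lf (nat_lit 10500) (nat_lit 6) (nat_lit 125) (nat_lit 0) (nat_lit 68) (nat_lit 63) (nat_lit 49))) (PT.nd (nat_lit 94) (PT.lf (nat_lit 9912) (nat_lit 6) (nat_lit 118) (nat_lit 0) (nat_lit 69) (nat_lit 63) (nat_lit 48)) (PT.lf (nat_lit 9408) (nat_lit 6) (nat_lit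 112) (nat_lit 0) (nat_lit 70) (nat_lit 63) (nat_lit 47)))) (PT.nd (nat_lit 42770) (PT.nd (nat_lit 42676) (PT.lf (nat_lit 8904) (nat_lit 6) (nat_lit 106) (nat_lit 0) (nat_lit 71) (nat_lit 63) (nat_lit 46)) (PT.lf (nat_lit 8148) (nat_lit 6) (nat_lit 97) (nat_lit 5) (nat_lit 44) (nat_lit 64) (nat_lit 72))) (PT.nd (nat_lit 94) (PT.lf (nat_lit 8568) (nat_lit 6) (nat_lit 102) (nat_lit 5) (nat_lit 45) (nat_lit 64) (nat_lit 71)) (PT.lf (nat_lit 8988) (nat_lit 6) (nat_lit 107) (nat_lit 5) (nat_lit 46) (nat_lit 64) (nat_lit 70))))) (PT.nd (nat_lit 376) (PT.nd (nat_lit 188) (PT.nd (nat_lit 94) (PT.lf (nat_lit 9492) (nat_lit 6) (nat_lit 113) (nat_lit 5) (nat_lit 47) (nat_lit 64) (nat_lit 69)) (PT.lf (nat_lit 9996) (nat_lit 6) (nat_lit 119) (nat_lit 5) (nat_lit 48) (nat_lit 64) (nat_lit 68))) (PT.nd (nat_lit 94) (PT.lf (nat_lit 10584) (nat_lit 6) (nat_lit 126) (nat_lit 5) (nat_lit 49)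 (nat_lit 64) (nat_lit 67)) (PT.lf (nat_lit 11508) (nat_lit 6) (nat_lit 137) (nat_lit 5) (nat_lit 50) (nat_lit 64) (nat_lit 66)))) (PT.nd (nat_lit 188) (PT.nd (nat_lit 94) (PT.lf (nat_lit 12348) (nat_lit 6) (nat_lit 147) (nat_lit 5) (nat_lit 51) (nat_lit 64) (nat_lit 65)) (PT.lf (nat_lit 13104) (nat_lit 3) (nat_lit 156) (nat_lit 4) (nat_lit 52) (nat_lit 64) (nat_lit 64))) (PT.nd (nat_lit 94) (PT.lf (nat_lit 13692) (nat_lit 6) (nat_lit 163) (nat_lit 4) (nat_lit 53) (nat_lit 64) (nat_lit 63)) (PT.lf (nat_lit 14196) (nat_lit 6) (nat_lit 169) (nat_lit 4) (nat_lit 54) (nat_lit 64) (nat_lit 62)))))) (PT.nd (nat_lit 752) (PT.nd (nat_lit 376) (PT.nd (nat_lit 188) (PT.nd (nat_lit 94) (PT.lf (nat_lit 14616) (nat_lit 6) (nat_lit 174) (nat_lit 4) (nat_lit 55) (nat_lit 64) (nat_lit 61)) (PT.lf (nat_lit 14952) (nat_lit 6) (nat_lit 178) (nat_lit 4) (nat_lit 56) (nat_lit 64) (nat_lit 60)))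 (PT.nd (nat_lit 94) (PT.lf (nat_lit 14868) (nat_lit 6) (nat_lit 177) (nat_lit 4) (nat_lit 57) (nat_lit 64) (nat_lit 59)) (PT.lf (nat_lit 14784) (nat_lit 3) (nat_lit 176) (nat_lit 2) (nat_lit 58) (nat_lit 64) (nat_lit 58)))) (PT.nd (nat_lit 188) (PT.nd (nat_lit 94) (PT.lf (nat_lit 14868) (nat_lit 6) (nat_lit 177) (nat_lit 2) (nat_lit 59) (nat_lit 64) (nat_lit 57)) (PT.lf (nat_lit 14952) (nat_lit 6) (nat_lit 178) (nat_lit 2) (nat_lit 60) (nat_lit 64) (nat_lit 56))) (PT.nd (nat_lit 94) (PT.lf (nat_lit 14616) (nat_lit 6) (nat_lit 174) (nat_lit 2) (nat_lit 61) (nat_lit 64) (nat_lit 55)) (PT.lf (nat_lit 14196) (nat_lit 6) (nat_lit 169) (nat_lit 2) (nat_lit 62) (nat_lit 64) (nat_lit 54))))) (PT.nd (nat_lit 376) (PT.nd (nat_lit 188) (PT.nd (nat_lit 94) (PT.lf (nat_lit 13692) (nat_lit 6) (nat_lit 163) (nat_lit 2) (nat_lit 63) (nat_lit 64) (nat_lit 53)) (PT.lf (nat_lit 13104) (nat_lit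 3) (nat_lit 156) (nat_lit 0) (nat_lit 64) (nat_lit 64) (nat_lit 52))) (PT.nd (nat_lit 94) (PT.lf (nat_lit 12348) (nat_lit 6) (nat_lit 147) (nat_lit 0) (nat_lit 65) (nat_lit 64) (nat_lit 51)) (PT.lf (nat_lit 11508) (nat_lit 6) (nat_lit 137) (nat_lit 0) (nat_lit 66) (nat_lit 64) (nat_lit 50)))) (PT.nd (nat_lit 188) (PT.nd (nat_lit 94) (PT.lf (nat_lit 10584) (nat_lit 6) (nat_lit 126) (nat_lit 0) (nat_lit 67) (nat_lit 64) (nat_lit 49)) (PT.lf (nat_lit 9996) (nat_lit 6) (nat_lit 119) (nat_lit 0) (nat_lit 68) (nat_lit 64) (nat_lit 48))) (PT.nd (nat_lit 94) (PT.lf (nat_lit 9492) (nat_lit 6) (nat_lit 113) (nat_lit 0) (nat_lit 69) (nat_lit 64) (nat_lit 47)) (PT.lf (nat_lit 8988) (nat_lit 6) (nat_lit 107) (nat_lit 0) (nat_lit 70) (nat_lit 64) (nat_lit 46))))))))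
noncomputable def pc8 : PT := (PT.nd (nat_lit 45308) (PT.nd (nat_lit 43804) (PT.nd (nat_lit 43052) (PT.nd (nat_lit 42676) (PT.nd (nat_lit 94) (PT.lf (nat_lit 8568) (nat_lit 6) (nat_lit 102) (nat_lit 0) (nat_lit 71) (nat_lit 64) (nat_lit 45)) (PT.nd (nat_lit 42488) (PT.lf (nat_lit 8148) (nat_lit 6) (nat_lit 97) (nat_lit 0) (nat_lit 72) (nat_lit 64) (nat_lit 44)) (PT.lf (nat_lit 7812) (nat_lit 6) (nat_lit 93) (nat_lit 5) (nat_lit 43) (nat_lit 65) (nat_lit 72)))) (PT.nd (nat_lit 188) (PT.nd (nat_lit 94) (PT.lf (nat_lit 8232) (nat_lit 6) (nat_lit 98) (nat_lit 5) (nat_lit 44) (nat_lit 65) (nat_lit 71)) (PT.lf (nat_lit 8652) (nat_lit 6) (nat_lit 103) (nat_lit 5) (nat_lit 45) (nat_lit 65) (nat_lit 70))) (PT.nd (nat_lit 94) (PT.lf (nat_lit 9072) (nat_lit 6) (nat_lit 108) (nat_lit 5) (nat_lit 46) (nat_lit 65) (nat_lit 69)) (PT.lf (nat_lit 9576) (nat_lit 6) (nat_lit 114) (nat_lit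 5) (nat_lit 47) (nat_lit 65) (nat_lit 68))))) (PT.nd (nat_lit 376) (PT.nd (nat_lit 188) (PT.nd (nat_lit 94) (PT.lf (nat_lit 10080) (nat_lit 6) (nat_lit 120) (nat_lit 5) (nat_lit 48) (nat_lit 65) (nat_lit 67)) (PT.lf (nat_lit 10668) (nat_lit 6) (nat_lit 127) (nat_lit 5) (nat_lit 49) (nat_lit 65) (nat_lit 66))) (PT.nd (nat_lit 94) (PT.lf (nat_lit 11592) (nat_lit 3) (nat_lit 138) (nat_lit 4) (nat_lit 50) (nat_lit 65) (nat_lit 65)) (PT.lf (nat_lit 12348) (nat_lit 6) (nat_lit 147) (nat_lit 4) (nat_lit 51) (nat_lit 65) (nat_lit 64)))) (PT.nd (nat_lit 188) (PT.nd (nat_lit 94) (PT.lf (nat_lit 13020) (nat_lit 6) (nat_lit 155) (nat_lit 4) (nat_lit 52) (nat_lit 65) (nat_lit 63)) (PT.lf (nat_lit 13608) (nat_lit 6) (nat_lit 162) (nat_lit 4) (nat_lit 53) (nat_lit 65) (nat_lit 62))) (PT.nd (nat_lit 94) (PT.lf (nat_lit 14112) (nat_lit 6) (nat_lit 168) (nat_lit 4) (nat_lit 54) (nat_lit 65)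 (nat_lit 61)) (PT.lf (nat_lit 14532) (nat_lit 6) (nat_lit 173) (nat_lit 4) (nat_lit 55) (nat_lit 65) (nat_lit 60)))))) (PT.nd (nat_lit 752) (PT.nd (nat_lit 376) (PT.nd (nat_lit 188) (PT.nd (nat_lit 94) (PT.lf (nat_lit 14448) (nat_lit 6) (nat_lit 172) (nat_lit 4) (nat_lit 56) (nat_lit 65) (nat_lit 59)) (PT.lf (nat_lit 14364) (nat_lit 6) (nat_lit 171) (nat_lit 4) (nat_lit 57) (nat_lit 65) (nat_lit 58))) (PT.nd (nat_lit 94) (PT.lf (nat_lit 14364) (nat_lit 6) (nat_lit 171) (nat_lit 2) (nat_lit 58) (nat_lit 65) (nat_lit 57)) (PT.lf (nat_lit 14448) (nat_lit 6) (nat_lit 172) (nat_lit 2) (nat_lit 59) (nat_lit 65) (nat_lit 56)))) (PT.nd (nat_lit 188) (PT.nd (nat_lit 94) (PT.lf (nat_lit 14532) (nat_lit 6) (nat_lit 173) (nat_lit 2) (nat_lit 60) (nat_lit 65) (nat_lit 55)) (PT.lf (nat_lit 14112) (nat_lit 6) (nat_lit 168) (nat_lit 2) (nat_lit 61) (nat_lit 65) (nat_lit 54))) (PT.nd (nat_lit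 94) (PT.lf (nat_lit 13608) (nat_lit 6) (nat_lit 162) (nat_lit 2) (nat_lit 62) (nat_lit 65) (nat_lit 53)) (PT.lf (nat_lit 13020) (nat_lit 6) (nat_lit 155) (nat_lit 2) (nat_lit 63) (nat_lit 65) (nat_lit 52))))) (PT.nd (nat_lit 376) (PT.nd (nat_lit 188) (PT.nd (nat_lit 94) (PT.lf (nat_lit 12348) (nat_lit 6) (nat_lit 147) (nat_lit 2) (nat_lit 64) (nat_lit 65) (nat_lit 51)) (PT.lf (nat_lit 11592) (nat_lit 3) (nat_lit 138) (nat_lit 0) (nat_lit 65) (nat_lit 65) (nat_lit 50))) (PT.nd (nat_lit 94) (PT.lf (nat_lit 10668) (nat_lit 6) (nat_lit 127) (nat_lit 0) (nat_lit 66) (nat_lit 65) (nat_lit 49)) (PT.lf (nat_lit 10080) (nat_lit 6) (nat_lit 120) (nat_lit 0) (nat_lit 67) (nat_lit 65) (nat_lit 48)))) (PT.nd (nat_lit 188) (PT.nd (nat_lit 94) (PT.lf (nat_lit 9576) (nat_lit 6) (nat_lit 114) (nat_lit 0) (nat_lit 68) (nat_lit 65) (nat_lit 47)) (PT.lf (nat_lit 9072) (nat_lit 6) (nat_lit 108)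 (nat_lit 0) (nat_lit 69) (nat_lit 65) (nat_lit 46))) (PT.nd (nat_lit 94) (PT.lf (nat_lit 8652) (nat_lit 6) (nat_lit 103) (nat_lit 0) (nat_lit 70) (nat_lit 65) (nat_lit 45)) (PT.lf (nat_lit 8232) (nat_lit 6) (nat_lit 98) (nat_lit 0) (nat_lit 71) (nat_lit 65) (nat_lit 44))))))) (PT.nd (nat_lit 43710) (PT.nd (nat_lit 42958) (PT.nd (nat_lit 42582) (PT.nd (nat_lit 42394) (PT.nd (nat_lit 42300) (PT.lf (nat_lit 7812) (nat_lit 6) (nat_lit 93) (nat_lit 0) (nat_lit 72) (nat_lit 65) (nat_lit 43)) (PT.lf (nat_lit 7140) (nat_lit 6) (nat_lit 85) (nat_lit 5) (nat_lit 41) (nat_lit 66) (nat_lit 73))) (PT.nd (nat_lit 94) (PT.lf (nat_lit 7476) (nat_lit 6) (nat_lit 89) (nat_lit 5) (nat_lit 42) (nat_lit 66) (nat_lit 72)) (PT.lf (nat_lit 7896) (nat_lit 6) (nat_lit 94) (nat_lit 5) (nat_lit 43) (nat_lit 66) (nat_lit 71)))) (PT.nd (nat_lit 188) (PT.nd (nat_lit 94) (PT.lf (nat_lit 8316) (nat_lit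 6) (nat_lit 99) (nat_lit 5) (nat_lit 44) (nat_lit 66) (nat_lit 70)) (PT.lf (nat_lit 8736) (nat_lit 6) (nat_lit 104) (nat_lit 5) (nat_lit 45) (nat_lit 66) (nat_lit 69))) (PT.nd (nat_lit 94) (PT.lf (nat_lit 9156) (nat_lit 6) (nat_lit 109) (nat_lit 5) (nat_lit 46) (nat_lit 66) (nat_lit 68)) (PT.lf (nat_lit 9660) (nat_lit 6) (nat_lit 115) (nat_lit 5) (nat_lit 47) (nat_lit 66) (nat_lit 67))))) (PT.nd (nat_lit 376) (PT.nd (nat_lit 188) (PT.nd (nat_lit 94) (PT.lf (nat_lit 10164) (nat_lit 3) (nat_lit 121) (nat_lit 4) (nat_lit 48) (nat_lit 66) (nat_lit 66)) (PT.lf (nat_lit 10668) (nat_lit 6) (nat_lit 127) (nat_lit 4) (nat_lit 49) (nat_lit 66) (nat_lit 65))) (PT.nd (nat_lit 94) (PT.lf (nat_lit 11508) (nat_lit 6) (nat_lit 137) (nat_lit 4) (nat_lit 50) (nat_lit 66) (nat_lit 64)) (PT.lf (nat_lit 12264) (nat_lit 6) (nat_lit 146) (nat_lit 4) (nat_lit 51) (nat_lit 66) (nat_lit 63)))) (PT.nd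 (nat_lit 188) (PT.nd (nat_lit 94) (PT.lf (nat_lit 12936) (nat_lit 6) (nat_lit 154) (nat_lit 4) (nat_lit 52) (nat_lit 66) (nat_lit 62)) (PT.lf (nat_lit 13524) (nat_lit 6) (nat_lit 161) (nat_lit 4) (nat_lit 53) (nat_lit 66) (nat_lit 61))) (PT.nd (nat_lit 94) (PT.lf (nat_lit 14028) (nat_lit 6) (nat_lit 167) (nat_lit 4) (nat_lit 54) (nat_lit 66) (nat_lit 60)) (PT.lf (nat_lit 13944) (nat_lit 6) (nat_lit 166) (nat_lit 4) (nat_lit 55) (nat_lit 66) (nat_lit 59)))))) (PT.nd (nat_lit 752) (PT.nd (nat_lit 376) (PT.nd (nat_lit 188) (PT.nd (nat_lit 94) (PT.lf (nat_lit 13860) (nat_lit 6) (nat_lit 165) (nat_lit 4) (nat_lit 56) (nat_lit 66) (nat_lit 58)) (PT.lf (nat_lit 13776) (nat_lit 3) (nat_lit 164) (nat_lit 2) (nat_lit 57) (nat_lit 66) (nat_lit 57))) (PT.nd (nat_lit 94) (PT.lf (nat_lit 13860) (nat_lit 6) (nat_lit 165) (nat_lit 2) (nat_lit 58) (nat_lit 66) (nat_lit 56)) (PT.lf (nat_lit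 13944) (nat_lit 6) (nat_lit 166) (nat_lit 2) (nat_lit 59) (nat_lit 66) (nat_lit 55)))) (PT.nd (nat_lit 188) (PT.nd (nat_lit 94) (PT.lf (nat_lit 14028) (nat_lit 6) (nat_lit 167) (nat_lit 2) (nat_lit 60) (nat_lit 66) (nat_lit 54)) (PT.lf (nat_lit 13524) (nat_lit 6) (nat_lit 161) (nat_lit 2) (nat_lit 61) (nat_lit 66) (nat_lit 53))) (PT.nd (nat_lit 94) (PT.lf (nat_lit 12936) (nat_lit 6) (nat_lit 154) (nat_lit 2) (nat_lit 62) (nat_lit 66) (nat_lit 52)) (PT.lf (nat_lit 12264) (nat_lit 6) (nat_lit 146) (nat_lit 2) (nat_lit 63) (nat_lit 66) (nat_lit 51))))) (PT.nd (nat_lit 376) (PT.nd (nat_lit 188) (PT.nd (nat_lit 94) (PT.lf (nat_lit 11508) (nat_lit 6) (nat_lit 137) (nat_lit 2) (nat_lit 64) (nat_lit 66) (nat_lit 50)) (PT.lf (nat_lit 10668) (nat_lit 6) (nat_lit 127) (nat_lit 2) (nat_lit 65) (nat_lit 66) (nat_lit 49))) (PT.nd (nat_lit 94) (PT.lf (nat_lit 10164) (nat_lit 3) (nat_lit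 121) (nat_lit 0) (nat_lit 66) (nat_lit 66) (nat_lit 48)) (PT.lf (nat_lit 9660) (nat_lit 6) (nat_lit 115) (nat_lit 0) (nat_lit 67) (nat_lit 66) (nat_lit 47)))) (PT.nd (nat_lit 188) (PT.nd (nat_lit 94) (PT.lf (nat_lit 9156) (nat_lit 6) (nat_lit 109) (nat_lit 0) (nat_lit 68) (nat_lit 66) (nat_lit 46)) (PT.lf (nat_lit 8736) (nat_lit 6) (nat_lit 104) (nat_lit 0) (nat_lit 69) (nat_lit 66) (nat_lit 45))) (PT.nd (nat_lit 94) (PT.lf (nat_lit 8316) (nat_lit 6) (nat_lit 99) (nat_lit 0) (nat_lit 70) (nat_lit 66) (nat_lit 44)) (PT.lf (nat_lit 7896) (nat_lit 6) (nat_lit 94) (nat_lit 0) (nat_lit 71) (nat_lit 66) (nat_lit 43))))))))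
noncomputable def pc9 : PT := (PT.nd (nat_lit 45026) (PT.nd (nat_lit 43522) (PT.nd (nat_lit 42770) (PT.nd (nat_lit 42394) (PT.nd (nat_lit 42206) (PT.nd (nat_lit 94) (PT.lf (nat_lit 7476) (nat_lit 6) (nat_lit 89) (nat_lit 0) (nat_lit 72) (nat_lit 66) (nat_lit 42)) (PT.lf (nat_lit 7140) (nat_lit 6) (nat_lit 85) (nat_lit 0) (nat_lit 73) (nat_lit 66) (nat_lit 41))) (PT.nd (nat_lit 94) (PT.lf (nat_lit 6804) (nat_lit 6) (nat_lit 81) (nat_lit 5) (nat_lit 40) (nat_lit 67) (nat_lit 73)) (PT.lf (nat_lit 7224) (nat_lit 6) (nat_lit 86) (nat_lit 5) (nat_lit 41) (nat_lit 67) (nat_lit 72)))) (PT.nd (nat_lit 188) (PT.nd (nat_lit 94) (PT.lf (nat_lit 7560) (nat_lit 6) (nat_lit 90) (nat_lit 5) (nat_lit 42) (nat_lit 67) (nat_lit 71)) (PT.lf (nat_lit 7980) (nat_lit 6) (nat_lit 95) (nat_lit 5) (nat_lit 43) (nat_lit 67) (nat_lit 70))) (PT.nd (nat_lit 94) (PT.lf (nat_lit 8400) (nat_lit 6) (nat_lit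 100) (nat_lit 5) (nat_lit 44) (nat_lit 67) (nat_lit 69)) (PT.lf (nat_lit 8820) (nat_lit 6) (nat_lit 105) (nat_lit 5) (nat_lit 45) (nat_lit 67) (nat_lit 68))))) (PT.nd (nat_lit 376) (PT.nd (nat_lit 188) (PT.nd (nat_lit 94) (PT.lf (nat_lit 9240) (nat_lit 3) (nat_lit 110) (nat_lit 4) (nat_lit 46) (nat_lit 67) (nat_lit 67)) (PT.lf (nat_lit 9660) (nat_lit 6) (nat_lit 115) (nat_lit 4) (nat_lit 47) (nat_lit 67) (nat_lit 66))) (PT.nd (nat_lit 94) (PT.lf (nat_lit 10080) (nat_lit 6) (nat_lit 120) (nat_lit 4) (nat_lit 48) (nat_lit 67) (nat_lit 65)) (PT.lf (nat_lit 10584) (nat_lit 6) (nat_lit 126) (nat_lit 4) (nat_lit 49) (nat_lit 67) (nat_lit 64)))) (PT.nd (nat_lit 188) (PT.nd (nat_lit 94) (PT.lf (nat_lit 11424) (nat_lit 6) (nat_lit 136) (nat_lit 4) (nat_lit 50) (nat_lit 67) (nat_lit 63)) (PT.lf (nat_lit 12180) (nat_lit 6) (nat_lit 145) (nat_lit 4) (nat_lit 51) (nat_lit 67) (nat_lit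 62))) (PT.nd (nat_lit 94) (PT.lf (nat_lit 12852) (nat_lit 6) (nat_lit 153) (nat_lit 4) (nat_lit 52) (nat_lit 67) (nat_lit 61)) (PT.lf (nat_lit 13440) (nat_lit 6) (nat_lit 160) (nat_lit 4) (nat_lit 53) (nat_lit 67) (nat_lit 60)))))) (PT.nd (nat_lit 752) (PT.nd (nat_lit 376) (PT.nd (nat_lit 188) (PT.nd (nat_lit 94) (PT.lf (nat_lit 13356) (nat_lit 6) (nat_lit 159) (nat_lit 4) (nat_lit 54) (nat_lit 67) (nat_lit 59)) (PT.lf (nat_lit 13272) (nat_lit 6) (nat_lit 158) (nat_lit 4) (nat_lit 55) (nat_lit 67) (nat_lit 58))) (PT.nd (nat_lit 94) (PT.lf (nat_lit 13188) (nat_lit 6) (nat_lit 157) (nat_lit 4) (nat_lit 56) (nat_lit 67) (nat_lit 57)) (PT.lf (nat_lit 13188) (nat_lit 6) (nat_lit 157) (nat_lit 2) (nat_lit 57) (nat_lit 67) (nat_lit 56)))) (PT.nd (nat_lit 188) (PT.nd (nat_lit 94) (PT.lf (nat_lit 13272) (nat_lit 6) (nat_lit 158) (nat_lit 2) (nat_lit 58) (nat_lit 67) (nat_lit 55))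 (PT.lf (nat_lit 13356) (nat_lit 6) (nat_lit 159) (nat_lit 2) (nat_lit 59) (nat_lit 67) (nat_lit 54))) (PT.nd (nat_lit 94) (PT.lf (nat_lit 13440) (nat_lit 6) (nat_lit 160) (nat_lit 2) (nat_lit 60) (nat_lit 67) (nat_lit 53)) (PT.lf (nat_lit 12852) (nat_lit 6) (nat_lit 153) (nat_lit 2) (nat_lit 61) (nat_lit 67) (nat_lit 52))))) (PT.nd (nat_lit 376) (PT.nd (nat_lit 188) (PT.nd (nat_lit 94) (PT.lf (nat_lit 12180) (nat_lit 6) (nat_lit 145) (nat_lit 2) (nat_lit 62) (nat_lit 67) (nat_lit 51)) (PT.lf (nat_lit 11424) (nat_lit 6) (nat_lit 136) (nat_lit 2) (nat_lit 63) (nat_lit 67) (nat_lit 50))) (PT.nd (nat_lit 94) (PT.lf (nat_lit 10584) (nat_lit 6) (nat_lit 126) (nat_lit 2) (nat_lit 64) (nat_lit 67) (nat_lit 49)) (PT.lf (nat_lit 10080) (nat_lit 6) (nat_lit 120) (nat_lit 2) (nat_lit 65) (nat_lit 67) (nat_lit 48)))) (PT.nd (nat_lit 188) (PT.nd (nat_lit 94) (PT.lf (nat_lit 9660) (nat_lit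 6) (nat_lit 115) (nat_lit 2) (nat_lit 66) (nat_lit 67) (nat_lit 47)) (PT.lf (nat_lit 9240) (nat_lit 3) (nat_lit 110) (nat_lit 0) (nat_lit 67) (nat_lit 67) (nat_lit 46))) (PT.nd (nat_lit 94) (PT.lf (nat_lit 8820) (nat_lit 6) (nat_lit 105) (nat_lit 0) (nat_lit 68) (nat_lit 67) (nat_lit 45)) (PT.lf (nat_lit 8400) (nat_lit 6) (nat_lit 100) (nat_lit 0) (nat_lit 69) (nat_lit 67) (nat_lit 44))))))) (PT.nd (nat_lit 43334) (PT.nd (nat_lit 42582) (PT.nd (nat_lit 42206) (PT.nd (nat_lit 188) (PT.nd (nat_lit 94) (PT.lf (nat_lit 7980) (nat_lit 6) (nat_lit 95) (nat_lit 0) (nat_lit 70) (nat_lit 67) (nat_lit 43)) (PT.lf (nat_lit 7560) (nat_lit 6) (nat_lit 90) (nat_lit 0) (nat_lit 71) (nat_lit 67) (nat_lit 42))) (PT.nd (nat_lit 94) (PT.lf (nat_lit 7224) (nat_lit 6) (nat_lit 86) (nat_lit 0) (nat_lit 72) (nat_lit 67) (nat_lit 41)) (PT.lf (nat_lit 6804) (nat_lit 6) (nat_lit 81) (nat_lit 0) (nat_lit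 73) (nat_lit 67) (nat_lit 40)))) (PT.nd (nat_lit 188) (PT.nd (nat_lit 94) (PT.lf (nat_lit 6216) (nat_lit 6) (nat_lit 74) (nat_lit 5) (nat_lit 38) (nat_lit 68) (nat_lit 74)) (PT.lf (nat_lit 6552) (nat_lit 6) (nat_lit 78) (nat_lit 5) (nat_lit 39) (nat_lit 68) (nat_lit 73))) (PT.nd (nat_lit 94) (PT.lf (nat_lit 6888) (nat_lit 6) (nat_lit 82) (nat_lit 5) (nat_lit 40) (nat_lit 68) (nat_lit 72)) (PT.lf (nat_lit 7308) (nat_lit 6) (nat_lit 87) (nat_lit 5) (nat_lit 41) (nat_lit 68) (nat_lit 71))))) (PT.nd (nat_lit 376) (PT.nd (nat_lit 188) (PT.nd (nat_lit 94) (PT.lf (nat_lit 7644) (nat_lit 6) (nat_lit 91) (nat_lit 5) (nat_lit 42) (nat_lit 68) (nat_lit 70)) (PT.lf (nat_lit 8064) (nat_lit 6) (nat_lit 96) (nat_lit 5) (nat_lit 43) (nat_lit 68) (nat_lit 69))) (PT.nd (nat_lit 94) (PT.lf (nat_lit 8484) (nat_lit 3) (nat_lit 101) (nat_lit 4) (nat_lit 44) (nat_lit 68) (nat_lit 68)) (PT.lf (nat_lit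 8820) (nat_lit 6) (nat_lit 105) (nat_lit 4) (nat_lit 45) (nat_lit 68) (nat_lit 67)))) (PT.nd (nat_lit 188) (PT.nd (nat_lit 94) (PT.lf (nat_lit 9156) (nat_lit 6) (nat_lit 109) (nat_lit 4) (nat_lit 46) (nat_lit 68) (nat_lit 66)) (PT.lf (nat_lit 9576) (nat_lit 6) (nat_lit 114) (nat_lit 4) (nat_lit 47) (nat_lit 68) (nat_lit 65))) (PT.nd (nat_lit 94) (PT.lf (nat_lit 9996) (nat_lit 6) (nat_lit 119) (nat_lit 4) (nat_lit 48) (nat_lit 68) (nat_lit 64)) (PT.lf (nat_lit 10500) (nat_lit 6) (nat_lit 125) (nat_lit 4) (nat_lit 49) (nat_lit 68) (nat_lit 63)))))) (PT.nd (nat_lit 752) (PT.nd (nat_lit 376) (PT.nd (nat_lit 188) (PT.nd (nat_lit 94) (PT.lf (nat_lit 11340) (nat_lit 6) (nat_lit 135) (nat_lit 4) (nat_lit 50) (nat_lit 68) (nat_lit 62)) (PT.lf (nat_lit 12096) (nat_lit 6) (nat_lit 144) (nat_lit 4) (nat_lit 51) (nat_lit 68) (nat_lit 61))) (PT.nd (nat_lit 94) (PT.lf (nat_lit 12768) (nat_lit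 6) (nat_lit 152) (nat_lit 4) (nat_lit 52) (nat_lit 68) (nat_lit 60)) (PT.lf (nat_lit 12684) (nat_lit 6) (nat_lit 151) (nat_lit 4) (nat_lit 53) (nat_lit 68) (nat_lit 59)))) (PT.nd (nat_lit 188) (PT.nd (nat_lit 94) (PT.lf (nat_lit 12600) (nat_lit 6) (nat_lit 150) (nat_lit 4) (nat_lit 54) (nat_lit 68) (nat_lit 58)) (PT.lf (nat_lit 12516) (nat_lit 6) (nat_lit 149) (nat_lit 4) (nat_lit 55) (nat_lit 68) (nat_lit 57))) (PT.nd (nat_lit 94) (PT.lf (nat_lit 12432) (nat_lit 3) (nat_lit 148) (nat_lit 2) (nat_lit 56) (nat_lit 68) (nat_lit 56)) (PT.lf (nat_lit 12516) (nat_lit 6) (nat_lit 149) (nat_lit 2) (nat_lit 57) (nat_lit 68) (nat_lit 55))))) (PT.nd (nat_lit 376) (PT.nd (nat_lit 188) (PT.nd (nat_lit 94) (PT.lf (nat_lit 12600) (nat_lit 6) (nat_lit 150) (nat_lit 2) (nat_lit 58) (nat_lit 68) (nat_lit 54)) (PT.lf (nat_lit 12684) (nat_lit 6) (nat_lit 151) (nat_lit 2) (nat_lit 59) (nat_lit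 68) (nat_lit 53))) (PT.nd (nat_lit 94) (PT.lf (nat_lit 12768) (nat_lit 6) (nat_lit 152) (nat_lit 2) (nat_lit 60) (nat_lit 68) (nat_lit 52)) (PT.lf (nat_lit 12096) (nat_lit 6) (nat_lit 144) (nat_lit 2) (nat_lit 61) (nat_lit 68) (nat_lit 51)))) (PT.nd (nat_lit 188) (PT.nd (nat_lit 94) (PT.lf (nat_lit 11340) (nat_lit 6) (nat_lit 135) (nat_lit 2) (nat_lit 62) (nat_lit 68) (nat_lit 50)) (PT.lf (nat_lit 10500) (nat_lit 6) (nat_lit 125) (nat_lit 2) (nat_lit 63) (nat_lit 68) (nat_lit 49))) (PT.nd (nat_lit 94) (PT.lf (nat_lit 9996) (nat_lit 6) (nat_lit 119) (nat_lit 2) (nat_lit 64) (nat_lit 68) (nat_lit 48)) (PT.lf (nat_lit 9576) (nat_lit 6) (nat_lit 114) (nat_lit 2) (nat_lit 65) (nat_lit 68) (nat_lit 47))))))))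
noncomputable def pc10 : PT := (PT.nd (nat_lit 44556) (PT.nd (nat_lit 43052) (PT.nd (nat_lit 658) (PT.nd (nat_lit 282) (PT.nd (nat_lit 94) (PT.lf (nat_lit 9156) (nat_lit 6) (nat_lit 109) (nat_lit 2) (nat_lit 66) (nat_lit 68) (nat_lit 46)) (PT.nd (nat_lit 94) (PT.lf (nat_lit 8820) (nat_lit 6) (nat_lit 105) (nat_lit 2) (nat_lit 67) (nat_lit 68) (nat_lit 45)) (PT.lf (nat_lit 8484) (nat_lit 3) (nat_lit 101) (nat_lit 0) (nat_lit 68) (nat_lit 68) (nat_lit 44)))) (PT.nd (nat_lit 188) (PT.nd (nat_lit 94) (PT.lf (nat_lit 8064) (nat_lit 6) (nat_lit 96) (nat_lit 0) (nat_lit 69) (nat_lit 68) (nat_lit 43)) (PT.lf (nat_lit 7644) (nat_lit 6) (nat_lit 91) (nat_lit 0) (nat_lit 70) (nat_lit 68) (nat_lit 42))) (PT.nd (nat_lit 94) (PT.lf (nat_lit 7308) (nat_lit 6) (nat_lit 87) (nat_lit 0) (nat_lit 71) (nat_lit 68) (nat_lit 41)) (PT.lf (nat_lit 6888) (nat_lit 6) (nat_lit 82) (nat_lit 0) (nat_lit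 72) (nat_lit 68) (nat_lit 40))))) (PT.nd (nat_lit 42018) (PT.nd (nat_lit 41830) (PT.nd (nat_lit 94) (PT.lf (nat_lit 6552) (nat_lit 6) (nat_lit 78) (nat_lit 0) (nat_lit 73) (nat_lit 68) (nat_lit 39)) (PT.lf (nat_lit 6216) (nat_lit 6) (nat_lit 74) (nat_lit 0) (nat_lit 74) (nat_lit 68) (nat_lit 38))) (PT.nd (nat_lit 94) (PT.lf (nat_lit 5964) (nat_lit 6) (nat_lit 71) (nat_lit 5) (nat_lit 37) (nat_lit 69) (nat_lit 74)) (PT.lf (nat_lit 6300) (nat_lit 6) (nat_lit 75) (nat_lit 5) (nat_lit 38) (nat_lit 69) (nat_lit 73)))) (PT.nd (nat_lit 188) (PT.nd (nat_lit 94) (PT.lf (nat_lit 6636) (nat_lit 6) (nat_lit 79) (nat_lit 5) (nat_lit 39) (nat_lit 69) (nat_lit 72)) (PT.lf (nat_lit 6972) (nat_lit 6) (nat_lit 83) (nat_lit 5) (nat_lit 40) (nat_lit 69) (nat_lit 71))) (PT.nd (nat_lit 94) (PT.lf (nat_lit 7392) (nat_lit 6) (nat_lit 88) (nat_lit 5) (nat_lit 41) (nat_lit 69) (nat_lit 70)) (PT.lf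 (nat_lit 7728) (nat_lit 3) (nat_lit 92) (nat_lit 4) (nat_lit 42) (nat_lit 69) (nat_lit 69)))))) (PT.nd (nat_lit 752) (PT.nd (nat_lit 376) (PT.nd (nat_lit 188) (PT.nd (nat_lit 94) (PT.lf (nat_lit 8064) (nat_lit 6) (nat_lit 96) (nat_lit 4) (nat_lit 43) (nat_lit 69) (nat_lit 68)) (PT.lf (nat_lit 8400) (nat_lit 6) (nat_lit 100) (nat_lit 4) (nat_lit 44) (nat_lit 69) (nat_lit 67))) (PT.nd (nat_lit 94) (PT.lf (nat_lit 8736) (nat_lit 6) (nat_lit 104) (nat_lit 4) (nat_lit 45) (nat_lit 69) (nat_lit 66)) (PT.lf (nat_lit 9072) (nat_lit 6) (nat_lit 108) (nat_lit 4) (nat_lit 46) (nat_lit 69) (nat_lit 65)))) (PT.nd (nat_lit 188) (PT.nd (nat_lit 94) (PT.lf (nat_lit 9492) (nat_lit 6) (nat_lit 113) (nat_lit 4) (nat_lit 47) (nat_lit 69) (nat_lit 64)) (PT.lf (nat_lit 9912) (nat_lit 6) (nat_lit 118) (nat_lit 4) (nat_lit 48) (nat_lit 69) (nat_lit 63))) (PT.nd (nat_lit 94) (PT.lf (nat_lit 10416)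 (nat_lit 6) (nat_lit 124) (nat_lit 4) (nat_lit 49) (nat_lit 69) (nat_lit 62)) (PT.lf (nat_lit 11256) (nat_lit 6) (nat_lit 134) (nat_lit 4) (nat_lit 50) (nat_lit 69) (nat_lit 61))))) (PT.nd (nat_lit 376) (PT.nd (nat_lit 188) (PT.nd (nat_lit 94) (PT.lf (nat_lit 12012) (nat_lit 6) (nat_lit 143) (nat_lit 4) (nat_lit 51) (nat_lit 69) (nat_lit 60)) (PT.lf (nat_lit 11928) (nat_lit 6) (nat_lit 142) (nat_lit 4) (nat_lit 52) (nat_lit 69) (nat_lit 59))) (PT.nd (nat_lit 94) (PT.lf (nat_lit 11844) (nat_lit 6) (nat_lit 141) (nat_lit 4) (nat_lit 53) (nat_lit 69) (nat_lit 58)) (PT.lf (nat_lit 11760) (nat_lit 6) (nat_lit 140) (nat_lit 4) (nat_lit 54) (nat_lit 69) (nat_lit 57)))) (PT.nd (nat_lit 188) (PT.nd (nat_lit 94) (PT.lf (nat_lit 11676) (nat_lit 6) (nat_lit 139) (nat_lit 4) (nat_lit 55) (nat_lit 69) (nat_lit 56)) (PT.lf (nat_lit 11676) (nat_lit 6) (nat_lit 139) (nat_lit 2) (nat_lit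 56) (nat_lit 69) (nat_lit 55))) (PT.nd (nat_lit 94) (PT.lf (nat_lit 11760) (nat_lit 6) (nat_lit 140) (nat_lit 2) (nat_lit 57) (nat_lit 69) (nat_lit 54)) (PT.lf (nat_lit 11844) (nat_lit 6) (nat_lit 141) (nat_lit 2) (nat_lit 58) (nat_lit 69) (nat_lit 53))))))) (PT.nd (nat_lit 42958) (PT.nd (nat_lit 752) (PT.nd (nat_lit 376) (PT.nd (nat_lit 188) (PT.nd (nat_lit 94) (PT.lf (nat_lit 11928) (nat_lit 6) (nat_lit 142) (nat_lit 2) (nat_lit 59) (nat_lit 69) (nat_lit 52)) (PT.lf (nat_lit 12012) (nat_lit 6) (nat_lit 143) (nat_lit 2) (nat_lit 60) (nat_lit 69) (nat_lit 51))) (PT.nd (nat_lit 94) (PT.lf (nat_lit 11256) (nat_lit 6) (nat_lit 134) (nat_lit 2) (nat_lit 61) (nat_lit 69) (nat_lit 50)) (PT.lf (nat_lit 10416) (nat_lit 6) (nat_lit 124) (nat_lit 2) (nat_lit 62) (nat_lit 69) (nat_lit 49)))) (PT.nd (nat_lit 188) (PT.nd (nat_lit 94) (PT.lf (nat_lit 9912) (nat_lit 6) (nat_lit 118) (nat_lit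 2) (nat_lit 63) (nat_lit 69) (nat_lit 48)) (PT.lf (nat_lit 9492) (nat_lit 6) (nat_lit 113) (nat_lit 2) (nat_lit 64) (nat_lit 69) (nat_lit 47))) (PT.nd (nat_lit 94) (PT.lf (nat_lit 9072) (nat_lit 6) (nat_lit 108) (nat_lit 2) (nat_lit 65) (nat_lit 69) (nat_lit 46)) (PT.lf (nat_lit 8736) (nat_lit 6) (nat_lit 104) (nat_lit 2) (nat_lit 66) (nat_lit 69) (nat_lit 45))))) (PT.nd (nat_lit 376) (PT.nd (nat_lit 188) (PT.nd (nat_lit 94) (PT.lf (nat_lit 8400) (nat_lit 6) (nat_lit 100) (nat_lit 2) (nat_lit 67) (nat_lit 69) (nat_lit 44)) (PT.lf (nat_lit 8064) (nat_lit 6) (nat_lit 96) (nat_lit 2) (nat_lit 68) (nat_lit 69) (nat_lit 43))) (PT.nd (nat_lit 94) (PT.lf (nat_lit 7728) (nat_lit 3) (nat_lit 92) (nat_lit 0) (nat_lit 69) (nat_lit 69) (nat_lit 42)) (PT.lf (nat_lit 7392) (nat_lit 6) (nat_lit 88) (nat_lit 0) (nat_lit 70) (nat_lit 69) (nat_lit 41)))) (PT.nd (nat_lit 188) (PT.nd (nat_lit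 94) (PT.lf (nat_lit 6972) (nat_lit 6) (nat_lit 83) (nat_lit 0) (nat_lit 71) (nat_lit 69) (nat_lit 40)) (PT.lf (nat_lit 6636) (nat_lit 6) (nat_lit 79) (nat_lit 0) (nat_lit 72) (nat_lit 69) (nat_lit 39))) (PT.nd (nat_lit 94) (PT.lf (nat_lit 6300) (nat_lit 6) (nat_lit 75) (nat_lit 0) (nat_lit 73) (nat_lit 69) (nat_lit 38)) (PT.lf (nat_lit 5964) (nat_lit 6) (nat_lit 71) (nat_lit 0) (nat_lit 74) (nat_lit 69) (nat_lit 37)))))) (PT.nd (nat_lit 752) (PT.nd (nat_lit 376) (PT.nd (nat_lit 188) (PT.nd (nat_lit 94) (PT.lf (nat_lit 5460) (nat_lit 6) (nat_lit 65) (nat_lit 5) (nat_lit 35) (nat_lit 70) (nat_lit 75)) (PT.lf (nat_lit 5712) (nat_lit 6) (nat_lit 68) (nat_lit 5) (nat_lit 36) (nat_lit 70) (nat_lit 74))) (PT.nd (nat_lit 94) (PT.lf (nat_lit 6048) (nat_lit 6) (nat_lit 72) (nat_lit 5) (nat_lit 37) (nat_lit 70) (nat_lit 73)) (PT.lf (nat_lit 6384) (nat_lit 6) (nat_lit 76) (nat_lit 5)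 (nat_lit 38) (nat_lit 70) (nat_lit 72)))) (PT.nd (nat_lit 188) (PT.nd (nat_lit 94) (PT.lf (nat_lit 6720) (nat_lit 6) (nat_lit 80) (nat_lit 5) (nat_lit 39) (nat_lit 70) (nat_lit 71)) (PT.lf (nat_lit 7056) (nat_lit 3) (nat_lit 84) (nat_lit 4) (nat_lit 40) (nat_lit 70) (nat_lit 70))) (PT.nd (nat_lit 94) (PT.lf (nat_lit 7392) (nat_lit 6) (nat_lit 88) (nat_lit 4) (nat_lit 41) (nat_lit 70) (nat_lit 69)) (PT.lf (nat_lit 7644) (nat_lit 6) (nat_lit 91) (nat_lit 4) (nat_lit 42) (nat_lit 70) (nat_lit 68))))) (PT.nd (nat_lit 376) (PT.nd (nat_lit 188) (PT.nd (nat_lit 94) (PT.lf (nat_lit 7980) (nat_lit 6) (nat_lit 95) (nat_lit 4) (nat_lit 43) (nat_lit 70) (nat_lit 67)) (PT.lf (nat_lit 8316) (nat_lit 6) (nat_lit 99) (nat_lit 4) (nat_lit 44) (nat_lit 70) (nat_lit 66))) (PT.nd (nat_lit 94) (PT.lf (nat_lit 8652) (nat_lit 6) (nat_lit 103) (nat_lit 4) (nat_lit 45) (nat_lit 70) (nat_lit 65))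 (PT.lf (nat_lit 8988) (nat_lit 6) (nat_lit 107) (nat_lit 4) (nat_lit 46) (nat_lit 70) (nat_lit 64)))) (PT.nd (nat_lit 188) (PT.nd (nat_lit 94) (PT.lf (nat_lit 9408) (nat_lit 6) (nat_lit 112) (nat_lit 4) (nat_lit 47) (nat_lit 70) (nat_lit 63)) (PT.lf (nat_lit 9828) (nat_lit 6) (nat_lit 117) (nat_lit 4) (nat_lit 48) (nat_lit 70) (nat_lit 62))) (PT.nd (nat_lit 94) (PT.lf (nat_lit 10332) (nat_lit 6) (nat_lit 123) (nat_lit 4) (nat_lit 49) (nat_lit 70) (nat_lit 61)) (PT.lf (nat_lit 11172) (nat_lit 6) (nat_lit 133) (nat_lit 4) (nat_lit 50) (nat_lit 70) (nat_lit 60))))))))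
noncomputable def pc11 : PT := (PT.nd (nat_lit 44274) (PT.nd (nat_lit 1504) (PT.nd (nat_lit 752) (PT.nd (nat_lit 376) (PT.nd (nat_lit 188) (PT.nd (nat_lit 94) (PT.lf (nat_lit 11088) (nat_lit 6) (nat_lit 132) (nat_lit 4) (nat_lit 51) (nat_lit 70) (nat_lit 59)) (PT.lf (nat_lit 11004) (nat_lit 6) (nat_lit 131) (nat_lit 4) (nat_lit 52) (nat_lit 70) (nat_lit 58))) (PT.nd (nat_lit 94) (PT.lf (nat_lit 10920) (nat_lit 6) (nat_lit 130) (nat_lit 4) (nat_lit 53) (nat_lit 70) (nat_lit 57)) (PT.lf (nat_lit 10836) (nat_lit 6) (nat_lit 129) (nat_lit 4) (nat_lit 54) (nat_lit 70) (nat_lit 56)))) (PT.nd (nat_lit 188) (PT.nd (nat_lit 94) (PT.lf (nat_lit 10752) (nat_lit 3) (nat_lit 128) (nat_lit 2) (nat_lit 55) (nat_lit 70) (nat_lit 55)) (PT.lf (nat_lit 10836) (nat_lit 6) (nat_lit 129) (nat_lit 2) (nat_lit 56) (nat_lit 70) (nat_lit 54))) (PT.nd (nat_lit 94) (PT.lf (nat_lit 10920) (nat_lit 6)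 (nat_lit 130) (nat_lit 2) (nat_lit 57) (nat_lit 70) (nat_lit 53)) (PT.lf (nat_lit 11004) (nat_lit 6) (nat_lit 131) (nat_lit 2) (nat_lit 58) (nat_lit 70) (nat_lit 52))))) (PT.nd (nat_lit 376) (PT.nd (nat_lit 188) (PT.nd (nat_lit 94) (PT.lf (nat_lit 11088) (nat_lit 6) (nat_lit 132) (nat_lit 2) (nat_lit 59) (nat_lit 70) (nat_lit 51)) (PT.lf (nat_lit 11172) (nat_lit 6) (nat_lit 133) (nat_lit 2) (nat_lit 60) (nat_lit 70) (nat_lit 50))) (PT.nd (nat_lit 94) (PT.lf (nat_lit 10332) (nat_lit 6) (nat_lit 123) (nat_lit 2) (nat_lit 61) (nat_lit 70) (nat_lit 49)) (PT.lf (nat_lit 9828) (nat_lit 6) (nat_lit 117) (nat_lit 2) (nat_lit 62) (nat_lit 70) (nat_lit 48)))) (PT.nd (nat_lit 188) (PT.nd (nat_lit 94) (PT.lf (nat_lit 9408) (nat_lit 6) (nat_lit 112) (nat_lit 2) (nat_lit 63) (nat_lit 70) (nat_lit 47)) (PT.lf (nat_lit 8988) (nat_lit 6) (nat_lit 107) (nat_lit 2) (nat_lit 64) (nat_lit 70)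 (nat_lit 46))) (PT.nd (nat_lit 94) (PT.lf (nat_lit 8652) (nat_lit 6) (nat_lit 103) (nat_lit 2) (nat_lit 65) (nat_lit 70) (nat_lit 45)) (PT.lf (nat_lit 8316) (nat_lit 6) (nat_lit 99) (nat_lit 2) (nat_lit 66) (nat_lit 70) (nat_lit 44)))))) (PT.nd (nat_lit 752) (PT.nd (nat_lit 376) (PT.nd (nat_lit 188) (PT.nd (nat_lit 94) (PT.lf (nat_lit 7980) (nat_lit 6) (nat_lit 95) (nat_lit 2) (nat_lit 67) (nat_lit 70) (nat_lit 43)) (PT.lf (nat_lit 7644) (nat_lit 6) (nat_lit 91) (nat_lit 2) (nat_lit 68) (nat_lit 70) (nat_lit 42))) (PT.nd (nat_lit 94) (PT.lf (nat_lit 7392) (nat_lit 6) (nat_lit 88) (nat_lit 2) (nat_lit 69) (nat_lit 70) (nat_lit 41)) (PT.lf (nat_lit 7056) (nat_lit 3) (nat_lit 84) (nat_lit 0) (nat_lit 70) (nat_lit 70) (nat_lit 40)))) (PT.nd (nat_lit 188) (PT.nd (nat_lit 94) (PT.lf (nat_lit 6720) (nat_lit 6) (nat_lit 80) (nat_lit 0) (nat_lit 71) (nat_lit 70) (nat_lit 39)) (PT.lf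 (nat_lit 6384) (nat_lit 6) (nat_lit 76) (nat_lit 0) (nat_lit 72) (nat_lit 70) (nat_lit 38))) (PT.nd (nat_lit 94) (PT.lf (nat_lit 6048) (nat_lit 6) (nat_lit 72) (nat_lit 0) (nat_lit 73) (nat_lit 70) (nat_lit 37)) (PT.lf (nat_lit 5712) (nat_lit 6) (nat_lit 68) (nat_lit 0) (nat_lit 74) (nat_lit 70) (nat_lit 36))))) (PT.nd (nat_lit 41642) (PT.nd (nat_lit 41454) (PT.nd (nat_lit 41360) (PT.lf (nat_lit 5460) (nat_lit 6) (nat_lit 65) (nat_lit 0) (nat_lit 75) (nat_lit 70) (nat_lit 35)) (PT.lf (nat_lit 5208) (nat_lit 6) (nat_lit 62) (nat_lit 5) (nat_lit 34) (nat_lit 71) (nat_lit 75))) (PT.nd (nat_lit 94) (PT.lf (nat_lit 5544) (nat_lit 6) (nat_lit 66) (nat_lit 5) (nat_lit 35) (nat_lit 71) (nat_lit 74)) (PT.lf (nat_lit 5796) (nat_lit 6) (nat_lit 69) (nat_lit 5) (nat_lit 36) (nat_lit 71) (nat_lit 73)))) (PT.nd (nat_lit 188) (PT.nd (nat_lit 94) (PT.lf (nat_lit 6132) (nat_lit 6) (nat_lit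 73) (nat_lit 5) (nat_lit 37) (nat_lit 71) (nat_lit 72)) (PT.lf (nat_lit 6468) (nat_lit 3) (nat_lit 77) (nat_lit 4) (nat_lit 38) (nat_lit 71) (nat_lit 71))) (PT.nd (nat_lit 94) (PT.lf (nat_lit 6720) (nat_lit 6) (nat_lit 80) (nat_lit 4) (nat_lit 39) (nat_lit 71) (nat_lit 70)) (PT.lf (nat_lit 6972) (nat_lit 6) (nat_lit 83) (nat_lit 4) (nat_lit 40) (nat_lit 71) (nat_lit 69))))))) (PT.nd (nat_lit 2444) (PT.nd (nat_lit 752) (PT.nd (nat_lit 376) (PT.nd (nat_lit 188) (PT.nd (nat_lit 94) (PT.lf (nat_lit 7308) (nat_lit 6) (nat_lit 87) (nat_lit 4) (nat_lit 41) (nat_lit 71) (nat_lit 68)) (PT.lf (nat_lit 7560) (nat_lit 6) (nat_lit 90) (nat_lit 4) (nat_lit 42) (nat_lit 71) (nat_lit 67))) (PT.nd (nat_lit 94) (PT.lf (nat_lit 7896) (nat_lit 6) (nat_lit 94) (nat_lit 4) (nat_lit 43) (nat_lit 71) (nat_lit 66)) (PT.lf (nat_lit 8232) (nat_lit 6) (nat_lit 98) (nat_lit 4) (nat_lit 44) (nat_lit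 71) (nat_lit 65)))) (PT.nd (nat_lit 188) (PT.nd (nat_lit 94) (PT.lf (nat_lit 8568) (nat_lit 6) (nat_lit 102) (nat_lit 4) (nat_lit 45) (nat_lit 71) (nat_lit 64)) (PT.lf (nat_lit 8904) (nat_lit 6) (nat_lit 106) (nat_lit 4) (nat_lit 46) (nat_lit 71) (nat_lit 63))) (PT.nd (nat_lit 94) (PT.lf (nat_lit 9324) (nat_lit 6) (nat_lit 111) (nat_lit 4) (nat_lit 47) (nat_lit 71) (nat_lit 62)) (PT.lf (nat_lit 9744) (nat_lit 6) (nat_lit 116) (nat_lit 4) (nat_lit 48) (nat_lit 71) (nat_lit 61))))) (PT.nd (nat_lit 1316) (PT.nd (nat_lit 1128) (PT.nd (nat_lit 1034) (PT.lf (nat_lit 10248) (nat_lit 6) (nat_lit 122) (nat_lit 4) (nat_lit 49) (nat_lit 71) (nat_lit 60)) (PT.lf (nat_lit 10248) (nat_lit 6) (nat_lit 122) (nat_lit 2) (nat_lit 60) (nat_lit 71) (nat_lit 49))) (PT.nd (nat_lit 94) (PT.lf (nat_lit 9744) (nat_lit 6) (nat_lit 116) (nat_lit 2) (nat_lit 61) (nat_lit 71) (nat_lit 48)) (PT.lf (nat_lit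 9324) (nat_lit 6) (nat_lit 111) (nat_lit 2) (nat_lit 62) (nat_lit 71) (nat_lit 47)))) (PT.nd (nat_lit 188) (PT.nd (nat_lit 94) (PT.lf (nat_lit 8904) (nat_lit 6) (nat_lit 106) (nat_lit 2) (nat_lit 63) (nat_lit 71) (nat_lit 46)) (PT.lf (nat_lit 8568) (nat_lit 6) (nat_lit 102) (nat_lit 2) (nat_lit 64) (nat_lit 71) (nat_lit 45))) (PT.nd (nat_lit 94) (PT.lf (nat_lit 8232) (nat_lit 6) (nat_lit 98) (nat_lit 2) (nat_lit 65) (nat_lit 71) (nat_lit 44)) (PT.lf (nat_lit 7896) (nat_lit 6) (nat_lit 94) (nat_lit 2) (nat_lit 66) (nat_lit 71) (nat_lit 43)))))) (PT.nd (nat_lit 752) (PT.nd (nat_lit 376) (PT.nd (nat_lit 188) (PT.nd (nat_lit 94) (PT.lf (nat_lit 7560) (nat_lit 6) (nat_lit 90) (nat_lit 2) (nat_lit 67) (nat_lit 71) (nat_lit 42)) (PT.lf (nat_lit 7308) (nat_lit 6) (nat_lit 87) (nat_lit 2) (nat_lit 68) (nat_lit 71) (nat_lit 41))) (PT.nd (nat_lit 94) (PT.lf (nat_lit 6972) (nat_lit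 6) (nat_lit 83) (nat_lit 2) (nat_lit 69) (nat_lit 71) (nat_lit 40)) (PT.lf (nat_lit 6720) (nat_lit 6) (nat_lit 80) (nat_lit 2) (nat_lit 70) (nat_lit 71) (nat_lit 39)))) (PT.nd (nat_lit 188) (PT.nd (nat_lit 94) (PT.lf (nat_lit 6468) (nat_lit 3) (nat_lit 77) (nat_lit 0) (nat_lit 71) (nat_lit 71) (nat_lit 38)) (PT.lf (nat_lit 6132) (nat_lit 6) (nat_lit 73) (nat_lit 0) (nat_lit 72) (nat_lit 71) (nat_lit 37))) (PT.nd (nat_lit 94) (PT.lf (nat_lit 5796) (nat_lit 6) (nat_lit 69) (nat_lit 0) (nat_lit 73) (nat_lit 71) (nat_lit 36)) (PT.lf (nat_lit 5544) (nat_lit 6) (nat_lit 66) (nat_lit 0) (nat_lit 74) (nat_lit 71) (nat_lit 35))))) (PT.nd (nat_lit 41454) (PT.nd (nat_lit 41266) (PT.nd (nat_lit 41172) (PT.lf (nat_lit 5208) (nat_lit 6) (nat_lit 62) (nat_lit 0) (nat_lit 75) (nat_lit 71) (nat_lit 34)) (PT.lf (nat_lit 4788) (nat_lit 6) (nat_lit 57) (nat_lit 5) (nat_lit 32) (nat_lit 72)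 (nat_lit 76))) (PT.nd (nat_lit 94) (PT.lf (nat_lit 5040) (nat_lit 6) (nat_lit 60) (nat_lit 5) (nat_lit 33) (nat_lit 72) (nat_lit 75)) (PT.lf (nat_lit 5292) (nat_lit 6) (nat_lit 63) (nat_lit 5) (nat_lit 34) (nat_lit 72) (nat_lit 74)))) (PT.nd (nat_lit 188) (PT.nd (nat_lit 94) (PT.lf (nat_lit 5628) (nat_lit 6) (nat_lit 67) (nat_lit 5) (nat_lit 35) (nat_lit 72) (nat_lit 73)) (PT.lf (nat_lit 5880) (nat_lit 3) (nat_lit 70) (nat_lit 4) (nat_lit 36) (nat_lit 72) (nat_lit 72))) (PT.nd (nat_lit 94) (PT.lf (nat_lit 6132) (nat_lit 6) (nat_lit 73) (nat_lit 4) (nat_lit 37) (nat_lit 72) (nat_lit 71)) (PT.lf (nat_lit 6384) (nat_lit 6) (nat_lit 76) (nat_lit 4) (nat_lit 38) (nat_lit 72) (nat_lit 70))))))))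
noncomputable def pc12 : PT := (PT.nd (nat_lit 47752) (PT.nd (nat_lit 3196) (PT.nd (nat_lit 2444) (PT.nd (nat_lit 282) (PT.nd (nat_lit 94) (PT.lf (nat_lit 6636) (nat_lit 6) (nat_lit 79) (nat_lit 4) (nat_lit 39) (nat_lit 72) (nat_lit 69)) (PT.nd (nat_lit 94) (PT.lf (nat_lit 6888) (nat_lit 6) (nat_lit 82) (nat_lit 4) (nat_lit 40) (nat_lit 72) (nat_lit 68)) (PT.lf (nat_lit 7224) (nat_lit 6) (nat_lit 86) (nat_lit 4) (nat_lit 41) (nat_lit 72) (nat_lit 67)))) (PT.nd (nat_lit 188) (PT.nd (nat_lit 94) (PT.lf (nat_lit 7476) (nat_lit 6) (nat_lit 89) (nat_lit 4) (nat_lit 42) (nat_lit 72) (nat_lit 66)) (PT.lf (nat_lit 7812) (nat_lit 6) (nat_lit 93) (nat_lit 4) (nat_lit 43) (nat_lit 72) (nat_lit 65))) (PT.nd (nat_lit 1880) (PT.lf (nat_lit 8148) (nat_lit 6) (nat_lit 97) (nat_lit 4) (nat_lit 44) (nat_lit 72) (nat_lit 64)) (PT.lf (nat_lit 8148) (nat_lit 6) (nat_lit 97) (nat_lit 2) (nat_lit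 64) (nat_lit 72) (nat_lit 44))))) (PT.nd (nat_lit 376) (PT.nd (nat_lit 188) (PT.nd (nat_lit 94) (PT.lf (nat_lit 7812) (nat_lit 6) (nat_lit 93) (nat_lit 2) (nat_lit 65) (nat_lit 72) (nat_lit 43)) (PT.lf (nat_lit 7476) (nat_lit 6) (nat_lit 89) (nat_lit 2) (nat_lit 66) (nat_lit 72) (nat_lit 42))) (PT.nd (nat_lit 94) (PT.lf (nat_lit 7224) (nat_lit 6) (nat_lit 86) (nat_lit 2) (nat_lit 67) (nat_lit 72) (nat_lit 41)) (PT.lf (nat_lit 6888) (nat_lit 6) (nat_lit 82) (nat_lit 2) (nat_lit 68) (nat_lit 72) (nat_lit 40)))) (PT.nd (nat_lit 188) (PT.nd (nat_lit 94) (PT.lf (nat_lit 6636) (nat_lit 6) (nat_lit 79) (nat_lit 2) (nat_lit 69) (nat_lit 72) (nat_lit 39)) (PT.lf (nat_lit 6384) (nat_lit 6) (nat_lit 76) (nat_lit 2) (nat_lit 70) (nat_lit 72) (nat_lit 38))) (PT.nd (nat_lit 94) (PT.lf (nat_lit 6132) (nat_lit 6) (nat_lit 73) (nat_lit 2) (nat_lit 71) (nat_lit 72) (nat_lit 37)) (PT.lf (nat_lit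 5880) (nat_lit 3) (nat_lit 70) (nat_lit 0) (nat_lit 72) (nat_lit 72) (nat_lit 36)))))) (PT.nd (nat_lit 41548) (PT.nd (nat_lit 41172) (PT.nd (nat_lit 188) (PT.nd (nat_lit 94) (PT.lf (nat_lit 5628) (nat_lit 6) (nat_lit 67) (nat_lit 0) (nat_lit 73) (nat_lit 72) (nat_lit 35)) (PT.lf (nat_lit 5292) (nat_lit 6) (nat_lit 63) (nat_lit 0) (nat_lit 74) (nat_lit 72) (nat_lit 34))) (PT.nd (nat_lit 94) (PT.lf (nat_lit 5040) (nat_lit 6) (nat_lit 60) (nat_lit 0) (nat_lit 75) (nat_lit 72) (nat_lit 33)) (PT.lf (nat_lit 4788) (nat_lit 6) (nat_lit 57) (nat_lit 0) (nat_lit 76) (nat_lit 72) (nat_lit 32)))) (PT.nd (nat_lit 188) (PT.nd (nat_lit 94) (PT.lf (nat_lit 4368) (nat_lit 6) (nat_lit 52) (nat_lit 5) (nat_lit 30) (nat_lit 73) (nat_lit 77)) (PT.lf (nat_lit 4620) (nat_lit 6) (nat_lit 55) (nat_lit 5) (nat_lit 31) (nat_lit 73) (nat_lit 76))) (PT.nd (nat_lit 94) (PT.lf (nat_lit 4872) (nat_lit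 6) (nat_lit 58) (nat_lit 5) (nat_lit 32) (nat_lit 73) (nat_lit 75)) (PT.lf (nat_lit 5124) (nat_lit 6) (nat_lit 61) (nat_lit 5) (nat_lit 33) (nat_lit 73) (nat_lit 74))))) (PT.nd (nat_lit 376) (PT.nd (nat_lit 188) (PT.nd (nat_lit 94) (PT.lf (nat_lit 5376) (nat_lit 3) (nat_lit 64) (nat_lit 4) (nat_lit 34) (nat_lit 73) (nat_lit 73)) (PT.lf (nat_lit 5628) (nat_lit 6) (nat_lit 67) (nat_lit 4) (nat_lit 35) (nat_lit 73) (nat_lit 72))) (PT.nd (nat_lit 94) (PT.lf (nat_lit 5796) (nat_lit 6) (nat_lit 69) (nat_lit 4) (nat_lit 36) (nat_lit 73) (nat_lit 71)) (PT.lf (nat_lit 6048) (nat_lit 6) (nat_lit 72) (nat_lit 4) (nat_lit 37) (nat_lit 73) (nat_lit 70)))) (PT.nd (nat_lit 188) (PT.nd (nat_lit 94) (PT.lf (nat_lit 6300) (nat_lit 6) (nat_lit 75) (nat_lit 4) (nat_lit 38) (nat_lit 73) (nat_lit 69)) (PT.lf (nat_lit 6552) (nat_lit 6) (nat_lit 78) (nat_lit 4) (nat_lit 39) (nat_lit 73) (nat_lit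 68))) (PT.nd (nat_lit 94) (PT.lf (nat_lit 6804) (nat_lit 6) (nat_lit 81) (nat_lit 4) (nat_lit 40) (nat_lit 73) (nat_lit 67)) (PT.lf (nat_lit 7140) (nat_lit 6) (nat_lit 85) (nat_lit 4) (nat_lit 41) (nat_lit 73) (nat_lit 66))))))) (PT.nd (nat_lit 42112) (PT.nd (nat_lit 752) (PT.nd (nat_lit 376) (PT.nd (nat_lit 188) (PT.nd (nat_lit 94) (PT.lf (nat_lit 7140) (nat_lit 6) (nat_lit 85) (nat_lit 2) (nat_lit 66) (nat_lit 73) (nat_lit 41)) (PT.lf (nat_lit 6804) (nat_lit 6) (nat_lit 81) (nat_lit 2) (nat_lit 67) (nat_lit 73) (nat_lit 40))) (PT.nd (nat_lit 94) (PT.lf (nat_lit 6552) (nat_lit 6) (nat_lit 78) (nat_lit 2) (nat_lit 68) (nat_lit 73) (nat_lit 39)) (PT.lf (nat_lit 6300) (nat_lit 6) (nat_lit 75) (nat_lit 2) (nat_lit 69) (nat_lit 73) (nat_lit 38)))) (PT.nd (nat_lit 188) (PT.nd (nat_lit 94) (PT.lf (nat_lit 6048) (nat_lit 6) (nat_lit 72) (nat_lit 2) (nat_lit 70) (nat_lit 73) (nat_lit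 37)) (PT.lf (nat_lit 5796) (nat_lit 6) (nat_lit 69) (nat_lit 2) (nat_lit 71) (nat_lit 73) (nat_lit 36))) (PT.nd (nat_lit 94) (PT.lf (nat_lit 5628) (nat_lit 6) (nat_lit 67) (nat_lit 2) (nat_lit 72) (nat_lit 73) (nat_lit 35)) (PT.lf (nat_lit 5376) (nat_lit 3) (nat_lit 64) (nat_lit 0) (nat_lit 73) (nat_lit 73) (nat_lit 34))))) (PT.nd (nat_lit 40984) (PT.nd (nat_lit 188) (PT.nd (nat_lit 94) (PT.lf (nat_lit 5124) (nat_lit 6) (nat_lit 61) (nat_lit 0) (nat_lit 74) (nat_lit 73) (nat_lit 33)) (PT.lf (nat_lit 4872) (nat_lit 6) (nat_lit 58) (nat_lit 0) (nat_lit 75) (nat_lit 73) (nat_lit 32))) (PT.nd (nat_lit 94) (PT.lf (nat_lit 4620) (nat_lit 6) (nat_lit 55) (nat_lit 0) (nat_lit 76) (nat_lit 73) (nat_lit 31)) (PT.lf (nat_lit 4368) (nat_lit 6) (nat_lit 52) (nat_lit 0) (nat_lit 77) (nat_lit 73) (nat_lit 30)))) (PT.nd (nat_lit 188) (PT.nd (nat_lit 94) (PT.lf (nat_lit 4200) (nat_lit 6)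 (nat_lit 50) (nat_lit 5) (nat_lit 29) (nat_lit 74) (nat_lit 77)) (PT.lf (nat_lit 4452) (nat_lit 6) (nat_lit 53) (nat_lit 5) (nat_lit 30) (nat_lit 74) (nat_lit 76))) (PT.nd (nat_lit 94) (PT.lf (nat_lit 4704) (nat_lit 6) (nat_lit 56) (nat_lit 5) (nat_lit 31) (nat_lit 74) (nat_lit 75)) (PT.lf (nat_lit 4956) (nat_lit 3) (nat_lit 59) (nat_lit 4) (nat_lit 32) (nat_lit 74) (nat_lit 74)))))) (PT.nd (nat_lit 3478) (PT.nd (nat_lit 376) (PT.nd (nat_lit 188) (PT.nd (nat_lit 94) (PT.lf (nat_lit 5124) (nat_lit 6) (nat_lit 61) (nat_lit 4) (nat_lit 33) (nat_lit 74) (nat_lit 73)) (PT.lf (nat_lit 5292) (nat_lit 6) (nat_lit 63) (nat_lit 4) (nat_lit 34) (nat_lit 74) (nat_lit 72))) (PT.nd (nat_lit 94) (PT.lf (nat_lit 5544) (nat_lit 6) (nat_lit 66) (nat_lit 4) (nat_lit 35) (nat_lit 74) (nat_lit 71)) (PT.lf (nat_lit 5712) (nat_lit 6) (nat_lit 68) (nat_lit 4) (nat_lit 36) (nat_lit 74) (nat_lit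 70)))) (PT.nd (nat_lit 2914) (PT.nd (nat_lit 94) (PT.lf (nat_lit 5964) (nat_lit 6) (nat_lit 71) (nat_lit 4) (nat_lit 37) (nat_lit 74) (nat_lit 69)) (PT.lf (nat_lit 6216) (nat_lit 6) (nat_lit 74) (nat_lit 4) (nat_lit 38) (nat_lit 74) (nat_lit 68))) (PT.nd (nat_lit 94) (PT.lf (nat_lit 6216) (nat_lit 6) (nat_lit 74) (nat_lit 2) (nat_lit 68) (nat_lit 74) (nat_lit 38)) (PT.lf (nat_lit 5964) (nat_lit 6) (nat_lit 71) (nat_lit 2) (nat_lit 69) (nat_lit 74) (nat_lit 37))))) (PT.nd (nat_lit 376) (PT.nd (nat_lit 188) (PT.nd (nat_lit 94) (PT.lf (nat_lit 5712) (nat_lit 6) (nat_lit 68) (nat_lit 2) (nat_lit 70) (nat_lit 74) (nat_lit 36)) (PT.lf (nat_lit 5544) (nat_lit 6) (nat_lit 66) (nat_lit 2) (nat_lit 71) (nat_lit 74) (nat_lit 35))) (PT.nd (nat_lit 94) (PT.lf (nat_lit 5292) (nat_lit 6) (nat_lit 63) (nat_lit 2) (nat_lit 72) (nat_lit 74) (nat_lit 34)) (PT.lf (nat_lit 5124) (nat_lit 6)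 (nat_lit 61) (nat_lit 2) (nat_lit 73) (nat_lit 74) (nat_lit 33)))) (PT.nd (nat_lit 188) (PT.nd (nat_lit 94) (PT.lf (nat_lit 4956) (nat_lit 3) (nat_lit 59) (nat_lit 0) (nat_lit 74) (nat_lit 74) (nat_lit 32)) (PT.lf (nat_lit 4704) (nat_lit 6) (nat_lit 56) (nat_lit 0) (nat_lit 75) (nat_lit 74) (nat_lit 31))) (PT.nd (nat_lit 94) (PT.lf (nat_lit 4452) (nat_lit 6) (nat_lit 53) (nat_lit 0) (nat_lit 76) (nat_lit 74) (nat_lit 30)) (PT.lf (nat_lit 4200) (nat_lit 6) (nat_lit 50) (nat_lit 0) (nat_lit 77) (nat_lit 74) (nat_lit 29))))))))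
noncomputable def pc13 : PT := (PT.nd (nat_lit 50008) (PT.nd (nat_lit 4700) (PT.nd (nat_lit 752) (PT.nd (nat_lit 376) (PT.nd (nat_lit 188) (PT.nd (nat_lit 94) (PT.lf (nat_lit 3864) (nat_lit 6) (nat_lit 46) (nat_lit 5) (nat_lit 27) (nat_lit 75) (nat_lit 78)) (PT.lf (nat_lit 4032) (nat_lit 6) (nat_lit 48) (nat_lit 5) (nat_lit 28) (nat_lit 75) (nat_lit 77))) (PT.nd (nat_lit 94) (PT.lf (nat_lit 4284) (nat_lit 6) (nat_lit 51) (nat_lit 5) (nat_lit 29) (nat_lit 75) (nat_lit 76)) (PT.lf (nat_lit 4536) (nat_lit 3) (nat_lit 54) (nat_lit 4) (nat_lit 30) (nat_lit 75) (nat_lit 75)))) (PT.nd (nat_lit 188) (PT.nd (nat_lit 94) (PT.lf (nat_lit 4704) (nat_lit 6) (nat_lit 56) (nat_lit 4) (nat_lit 31) (nat_lit 75) (nat_lit 74)) (PT.lf (nat_lit 4872) (nat_lit 6) (nat_lit 58) (nat_lit 4) (nat_lit 32) (nat_lit 75) (nat_lit 73))) (PT.nd (nat_lit 94) (PT.lf (nat_lit 5040) (nat_lit 6) (nat_lit 60)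 (nat_lit 4) (nat_lit 33) (nat_lit 75) (nat_lit 72)) (PT.lf (nat_lit 5208) (nat_lit 6) (nat_lit 62) (nat_lit 4) (nat_lit 34) (nat_lit 75) (nat_lit 71))))) (PT.nd (nat_lit 3572) (PT.nd (nat_lit 3384) (PT.nd (nat_lit 3290) (PT.lf (nat_lit 5460) (nat_lit 6) (nat_lit 65) (nat_lit 4) (nat_lit 35) (nat_lit 75) (nat_lit 70)) (PT.lf (nat_lit 5460) (nat_lit 6) (nat_lit 65) (nat_lit 2) (nat_lit 70) (nat_lit 75) (nat_lit 35))) (PT.nd (nat_lit 94) (PT.lf (nat_lit 5208) (nat_lit 6) (nat_lit 62) (nat_lit 2) (nat_lit 71) (nat_lit 75) (nat_lit 34)) (PT.lf (nat_lit 5040) (nat_lit 6) (nat_lit 60) (nat_lit 2) (nat_lit 72) (nat_lit 75) (nat_lit 33)))) (PT.nd (nat_lit 188) (PT.nd (nat_lit 94) (PT.lf (nat_lit 4872) (nat_lit 6) (nat_lit 58) (nat_lit 2) (nat_lit 73) (nat_lit 75) (nat_lit 32)) (PT.lf (nat_lit 4704) (nat_lit 6) (nat_lit 56) (nat_lit 2) (nat_lit 74) (nat_lit 75) (nat_lit 31))) (PT.nd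 (nat_lit 94) (PT.lf (nat_lit 4536) (nat_lit 3) (nat_lit 54) (nat_lit 0) (nat_lit 75) (nat_lit 75) (nat_lit 30)) (PT.lf (nat_lit 4284) (nat_lit 6) (nat_lit 51) (nat_lit 0) (nat_lit 76) (nat_lit 75) (nat_lit 29)))))) (PT.nd (nat_lit 40890) (PT.nd (nat_lit 40514) (PT.nd (nat_lit 40326) (PT.nd (nat_lit 94) (PT.lf (nat_lit 4032) (nat_lit 6) (nat_lit 48) (nat_lit 0) (nat_lit 77) (nat_lit 75) (nat_lit 28)) (PT.lf (nat_lit 3864) (nat_lit 6) (nat_lit 46) (nat_lit 0) (nat_lit 78) (nat_lit 75) (nat_lit 27))) (PT.nd (nat_lit 94) (PT.lf (nat_lit 3528) (nat_lit 6) (nat_lit 42) (nat_lit 5) (nat_lit 25) (nat_lit 76) (nat_lit 79)) (PT.lf (nat_lit 3696) (nat_lit 6) (nat_lit 44) (nat_lit 5) (nat_lit 26) (nat_lit 76) (nat_lit 78)))) (PT.nd (nat_lit 188) (PT.nd (nat_lit 94) (PT.lf (nat_lit 3948) (nat_lit 6) (nat_lit 47) (nat_lit 5) (nat_lit 27) (nat_lit 76) (nat_lit 77)) (PT.lf (nat_lit 4116)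 (nat_lit 3) (nat_lit 49) (nat_lit 4) (nat_lit 28) (nat_lit 76) (nat_lit 76))) (PT.nd (nat_lit 94) (PT.lf (nat_lit 4284) (nat_lit 6) (nat_lit 51) (nat_lit 4) (nat_lit 29) (nat_lit 76) (nat_lit 75)) (PT.lf (nat_lit 4452) (nat_lit 6) (nat_lit 53) (nat_lit 4) (nat_lit 30) (nat_lit 76) (nat_lit 74))))) (PT.nd (nat_lit 4042) (PT.nd (nat_lit 3854) (PT.nd (nat_lit 94) (PT.lf (nat_lit 4620) (nat_lit 6) (nat_lit 55) (nat_lit 4) (nat_lit 31) (nat_lit 76) (nat_lit 73)) (PT.lf (nat_lit 4788) (nat_lit 6) (nat_lit 57) (nat_lit 4) (nat_lit 32) (nat_lit 76) (nat_lit 72))) (PT.nd (nat_lit 94) (PT.lf (nat_lit 4788) (nat_lit 6) (nat_lit 57) (nat_lit 2) (nat_lit 72) (nat_lit 76) (nat_lit 32)) (PT.lf (nat_lit 4620) (nat_lit 6) (nat_lit 55) (nat_lit 2) (nat_lit 73) (nat_lit 76) (nat_lit 31)))) (PT.nd (nat_lit 188) (PT.nd (nat_lit 94) (PT.lf (nat_lit 4452) (nat_lit 6) (nat_lit 53) (nat_lit 2) (nat_lit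 74) (nat_lit 76) (nat_lit 30)) (PT.lf (nat_lit 4284) (nat_lit 6) (nat_lit 51) (nat_lit 2) (nat_lit 75) (nat_lit 76) (nat_lit 29))) (PT.nd (nat_lit 94) (PT.lf (nat_lit 4116) (nat_lit 3) (nat_lit 49) (nat_lit 0) (nat_lit 76) (nat_lit 76) (nat_lit 28)) (PT.lf (nat_lit 3948) (nat_lit 6) (nat_lit 47) (nat_lit 0) (nat_lit 77) (nat_lit 76) (nat_lit 27))))))) (PT.nd (nat_lit 45308) (PT.nd (nat_lit 40608) (PT.nd (nat_lit 40232) (PT.nd (nat_lit 40044) (PT.nd (nat_lit 94) (PT.lf (nat_lit 3696) (nat_lit 6) (nat_lit 44) (nat_lit 0) (nat_lit 78) (nat_lit 76) (nat_lit 26)) (PT.lf (nat_lit 3528) (nat_lit 6) (nat_lit 42) (nat_lit 0) (nat_lit 79) (nat_lit 76) (nat_lit 25))) (PT.nd (nat_lit 94) (PT.lf (nat_lit 3192) (nat_lit 6) (nat_lit 38) (nat_lit 5) (nat_lit 23) (nat_lit 77) (nat_lit 80)) (PT.lf (nat_lit 3360) (nat_lit 6) (nat_lit 40) (nat_lit 5) (nat_lit 24) (nat_lit 77) (nat_lit 79))))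 (PT.nd (nat_lit 188) (PT.nd (nat_lit 94) (PT.lf (nat_lit 3612) (nat_lit 6) (nat_lit 43) (nat_lit 5) (nat_lit 25) (nat_lit 77) (nat_lit 78)) (PT.lf (nat_lit 3780) (nat_lit 3) (nat_lit 45) (nat_lit 4) (nat_lit 26) (nat_lit 77) (nat_lit 77))) (PT.nd (nat_lit 94) (PT.lf (nat_lit 3948) (nat_lit 6) (nat_lit 47) (nat_lit 4) (nat_lit 27) (nat_lit 77) (nat_lit 76)) (PT.lf (nat_lit 4032) (nat_lit 6) (nat_lit 48) (nat_lit 4) (nat_lit 28) (nat_lit 77) (nat_lit 75))))) (PT.nd (nat_lit 4324) (PT.nd (nat_lit 4136) (PT.nd (nat_lit 94) (PT.lf (nat_lit 4200) (nat_lit 6) (nat_lit 50) (nat_lit 4) (nat_lit 29) (nat_lit 77) (nat_lit 74)) (PT.lf (nat_lit 4368) (nat_lit 6) (nat_lit 52) (nat_lit 4) (nat_lit 30) (nat_lit 77) (nat_lit 73))) (PT.nd (nat_lit 94) (PT.lf (nat_lit 4368) (nat_lit 6) (nat_lit 52) (nat_lit 2) (nat_lit 73) (nat_lit 77) (nat_lit 30)) (PT.lf (nat_lit 4200) (nat_lit 6) (nat_lit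 50) (nat_lit 2) (nat_lit 74) (nat_lit 77) (nat_lit 29)))) (PT.nd (nat_lit 188) (PT.nd (nat_lit 94) (PT.lf (nat_lit 4032) (nat_lit 6) (nat_lit 48) (nat_lit 2) (nat_lit 75) (nat_lit 77) (nat_lit 28)) (PT.lf (nat_lit 3948) (nat_lit 6) (nat_lit 47) (nat_lit 2) (nat_lit 76) (nat_lit 77) (nat_lit 27))) (PT.nd (nat_lit 94) (PT.lf (nat_lit 3780) (nat_lit 3) (nat_lit 45) (nat_lit 0) (nat_lit 77) (nat_lit 77) (nat_lit 26)) (PT.lf (nat_lit 3612) (nat_lit 6) (nat_lit 43) (nat_lit 0) (nat_lit 78) (nat_lit 77) (nat_lit 25)))))) (PT.nd (nat_lit 40326) (PT.nd (nat_lit 39950) (PT.nd (nat_lit 39762) (PT.nd (nat_lit 94) (PT.lf (nat_lit 3360) (nat_lit 6) (nat_lit 40) (nat_lit 0) (nat_lit 79) (nat_lit 77) (nat_lit 24)) (PT.lf (nat_lit 3192) (nat_lit 6) (nat_lit 38) (nat_lit 0) (nat_lit 80) (nat_lit 77) (nat_lit 23))) (PT.nd (nat_lit 94) (PT.lf (nat_lit 2856) (nat_lit 6) (nat_lit 34) (nat_lit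 5) (nat_lit 21) (nat_lit 78) (nat_lit 81)) (PT.lf (nat_lit 3024) (nat_lit 6) (nat_lit 36) (nat_lit 5) (nat_lit 22) (nat_lit 78) (nat_lit 80)))) (PT.nd (nat_lit 188) (PT.nd (nat_lit 94) (PT.lf (nat_lit 3276) (nat_lit 6) (nat_lit 39) (nat_lit 5) (nat_lit 23) (nat_lit 78) (nat_lit 79)) (PT.lf (nat_lit 3444) (nat_lit 3) (nat_lit 41) (nat_lit 4) (nat_lit 24) (nat_lit 78) (nat_lit 78))) (PT.nd (nat_lit 94) (PT.lf (nat_lit 3612) (nat_lit 6) (nat_lit 43) (nat_lit 4) (nat_lit 25) (nat_lit 78) (nat_lit 77)) (PT.lf (nat_lit 3696) (nat_lit 6) (nat_lit 44) (nat_lit 4) (nat_lit 26) (nat_lit 78) (nat_lit 76))))) (PT.nd (nat_lit 4794) (PT.nd (nat_lit 4606) (PT.nd (nat_lit 4512) (PT.lf (nat_lit 3864) (nat_lit 6) (nat_lit 46) (nat_lit 4) (nat_lit 27) (nat_lit 78) (nat_lit 75)) (PT.lf (nat_lit 3864) (nat_lit 6) (nat_lit 46) (nat_lit 2) (nat_lit 75) (nat_lit 78) (nat_lit 27))) (PT.nd (nat_lit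 94) (PT.lf (nat_lit 3696) (nat_lit 6) (nat_lit 44) (nat_lit 2) (nat_lit 76) (nat_lit 78) (nat_lit 26)) (PT.lf (nat_lit 3612) (nat_lit 6) (nat_lit 43) (nat_lit 2) (nat_lit 77) (nat_lit 78) (nat_lit 25)))) (PT.nd (nat_lit 188) (PT.nd (nat_lit 94) (PT.lf (nat_lit 3444) (nat_lit 3) (nat_lit 41) (nat_lit 0) (nat_lit 78) (nat_lit 78) (nat_lit 24)) (PT.lf (nat_lit 3276) (nat_lit 6) (nat_lit 39) (nat_lit 0) (nat_lit 79) (nat_lit 78) (nat_lit 23))) (PT.nd (nat_lit 94) (PT.lf (nat_lit 3024) (nat_lit 6) (nat_lit 36) (nat_lit 0) (nat_lit 80) (nat_lit 78) (nat_lit 22)) (PT.lf (nat_lit 2856) (nat_lit 6) (nat_lit 34) (nat_lit 0) (nat_lit 81) (nat_lit 78) (nat_lit 21))))))))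
noncomputable def pc14 : PT := (PT.nd (nat_lit 95974) (PT.nd (nat_lit 45308) (PT.nd (nat_lit 5452) (PT.nd (nat_lit 376) (PT.nd (nat_lit 188) (PT.nd (nat_lit 94) (PT.lf (nat_lit 2520) (nat_lit 6) (nat_lit 30) (nat_lit 5) (nat_lit 19) (nat_lit 79) (nat_lit 82)) (PT.lf (nat_lit 2688) (nat_lit 6) (nat_lit 32) (nat_lit 5) (nat_lit 20) (nat_lit 79) (nat_lit 81))) (PT.nd (nat_lit 94) (PT.lf (nat_lit 2940) (nat_lit 6) (nat_lit 35) (nat_lit 5) (nat_lit 21) (nat_lit 79) (nat_lit 80)) (PT.lf (nat_lit 3108) (nat_lit 3) (nat_lit 37) (nat_lit 4) (nat_lit 22) (nat_lit 79) (nat_lit 79)))) (PT.nd (nat_lit 188) (PT.nd (nat_lit 94) (PT.lf (nat_lit 3276) (nat_lit 6) (nat_lit 39) (nat_lit 4) (nat_lit 23) (nat_lit 79) (nat_lit 78)) (PT.lf (nat_lit 3360) (nat_lit 6) (nat_lit 40) (nat_lit 4) (nat_lit 24) (nat_lit 79) (nat_lit 77))) (PT.nd (nat_lit 4794) (PT.lf (nat_lit 3528) (nat_lit 6) (nat_lit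 42) (nat_lit 4) (nat_lit 25) (nat_lit 79) (nat_lit 76)) (PT.lf (nat_lit 3528) (nat_lit 6) (nat_lit 42) (nat_lit 2) (nat_lit 76) (nat_lit 79) (nat_lit 25))))) (PT.nd (nat_lit 376) (PT.nd (nat_lit 188) (PT.nd (nat_lit 94) (PT.lf (nat_lit 3360) (nat_lit 6) (nat_lit 40) (nat_lit 2) (nat_lit 77) (nat_lit 79) (nat_lit 24)) (PT.lf (nat_lit 3276) (nat_lit 6) (nat_lit 39) (nat_lit 2) (nat_lit 78) (nat_lit 79) (nat_lit 23))) (PT.nd (nat_lit 94) (PT.lf (nat_lit 3108) (nat_lit 3) (nat_lit 37) (nat_lit 0) (nat_lit 79) (nat_lit 79) (nat_lit 22)) (PT.lf (nat_lit 2940) (nat_lit 6) (nat_lit 35) (nat_lit 0) (nat_lit 80) (nat_lit 79) (nat_lit 21)))) (PT.nd (nat_lit 39292) (PT.nd (nat_lit 94) (PT.lf (nat_lit 2688) (nat_lit 6) (nat_lit 32) (nat_lit 0) (nat_lit 81) (nat_lit 79) (nat_lit 20)) (PT.lf (nat_lit 2520) (nat_lit 6) (nat_lit 30) (nat_lit 0) (nat_lit 82) (nat_lit 79) (nat_lit 19))) (PT.nd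 (nat_lit 94) (PT.lf (nat_lit 2352) (nat_lit 6) (nat_lit 28) (nat_lit 5) (nat_lit 18) (nat_lit 80) (nat_lit 82)) (PT.lf (nat_lit 2604) (nat_lit 6) (nat_lit 31) (nat_lit 5) (nat_lit 19) (nat_lit 80) (nat_lit 81)))))) (PT.nd (nat_lit 5734) (PT.nd (nat_lit 5358) (PT.nd (nat_lit 188) (PT.nd (nat_lit 94) (PT.lf (nat_lit 2772) (nat_lit 3) (nat_lit 33) (nat_lit 4) (nat_lit 20) (nat_lit 80) (nat_lit 80)) (PT.lf (nat_lit 2940) (nat_lit 6) (nat_lit 35) (nat_lit 4) (nat_lit 21) (nat_lit 80) (nat_lit 79))) (PT.nd (nat_lit 94) (PT.lf (nat_lit 3024) (nat_lit 6) (nat_lit 36) (nat_lit 4) (nat_lit 22) (nat_lit 80) (nat_lit 78)) (PT.lf (nat_lit 3192) (nat_lit 6) (nat_lit 38) (nat_lit 4) (nat_lit 23) (nat_lit 80) (nat_lit 77)))) (PT.nd (nat_lit 188) (PT.nd (nat_lit 94) (PT.lf (nat_lit 3192) (nat_lit 6) (nat_lit 38) (nat_lit 2) (nat_lit 77) (nat_lit 80) (nat_lit 23)) (PT.lf (nat_lit 3024) (nat_lit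 6) (nat_lit 36) (nat_lit 2) (nat_lit 78) (nat_lit 80) (nat_lit 22))) (PT.nd (nat_lit 94) (PT.lf (nat_lit 2940) (nat_lit 6) (nat_lit 35) (nat_lit 2) (nat_lit 79) (nat_lit 80) (nat_lit 21)) (PT.lf (nat_lit 2772) (nat_lit 3) (nat_lit 33) (nat_lit 0) (nat_lit 80) (nat_lit 80) (nat_lit 20))))) (PT.nd (nat_lit 39292) (PT.nd (nat_lit 39104) (PT.nd (nat_lit 94) (PT.lf (nat_lit 2604) (nat_lit 6) (nat_lit 31) (nat_lit 0) (nat_lit 81) (nat_lit 80) (nat_lit 19)) (PT.lf (nat_lit 2352) (nat_lit 6) (nat_lit 28) (nat_lit 0) (nat_lit 82) (nat_lit 80) (nat_lit 18))) (PT.nd (nat_lit 94) (PT.lf (nat_lit 2100) (nat_lit 6) (nat_lit 25) (nat_lit 5) (nat_lit 16) (nat_lit 81) (nat_lit 83)) (PT.lf (nat_lit 2268) (nat_lit 6) (nat_lit 27) (nat_lit 5) (nat_lit 17) (nat_lit 81) (nat_lit 82)))) (PT.nd (nat_lit 188) (PT.nd (nat_lit 94) (PT.lf (nat_lit 2436) (nat_lit 3) (nat_lit 29) (nat_lit 4) (nat_lit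 18) (nat_lit 81) (nat_lit 81)) (PT.lf (nat_lit 2604) (nat_lit 6) (nat_lit 31) (nat_lit 4) (nat_lit 19) (nat_lit 81) (nat_lit 80))) (PT.nd (nat_lit 94) (PT.lf (nat_lit 2688) (nat_lit 6) (nat_lit 32) (nat_lit 4) (nat_lit 20) (nat_lit 81) (nat_lit 79)) (PT.lf (nat_lit 2856) (nat_lit 6) (nat_lit 34) (nat_lit 4) (nat_lit 21) (nat_lit 81) (nat_lit 78))))))) (PT.nd (nat_lit 45684) (PT.nd (nat_lit 39386) (PT.nd (nat_lit 376) (PT.nd (nat_lit 188) (PT.nd (nat_lit 94) (PT.lf (nat_lit 2856) (nat_lit 6) (nat_lit 34) (nat_lit 2) (nat_lit 78) (nat_lit 81) (nat_lit 21)) (PT.lf (nat_lit 2688) (nat_lit 6) (nat_lit 32) (nat_lit 2) (nat_lit 79) (nat_lit 81) (nat_lit 20))) (PT.nd (nat_lit 94) (PT.lf (nat_lit 2604) (nat_lit 6) (nat_lit 31) (nat_lit 2) (nat_lit 80) (nat_lit 81) (nat_lit 19)) (PT.lf (nat_lit 2436) (nat_lit 3) (nat_lit 29) (nat_lit 0) (nat_lit 81) (nat_lit 81) (nat_lit 18)))) (PT.nd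 (nat_lit 38822) (PT.nd (nat_lit 94) (PT.lf (nat_lit 2268) (nat_lit 6) (nat_lit 27) (nat_lit 0) (nat_lit 82) (nat_lit 81) (nat_lit 17)) (PT.lf (nat_lit 2100) (nat_lit 6) (nat_lit 25) (nat_lit 0) (nat_lit 83) (nat_lit 81) (nat_lit 16))) (PT.nd (nat_lit 94) (PT.lf (nat_lit 1848) (nat_lit 6) (nat_lit 22) (nat_lit 5) (nat_lit 14) (nat_lit 82) (nat_lit 84)) (PT.lf (nat_lit 2016) (nat_lit 6) (nat_lit 24) (nat_lit 5) (nat_lit 15) (nat_lit 82) (nat_lit 83))))) (PT.nd (nat_lit 5922) (PT.nd (nat_lit 188) (PT.nd (nat_lit 94) (PT.lf (nat_lit 2184) (nat_lit 3) (nat_lit 26) (nat_lit 4) (nat_lit 16) (nat_lit 82) (nat_lit 82)) (PT.lf (nat_lit 2268) (nat_lit 6) (nat_lit 27) (nat_lit 4) (nat_lit 17) (nat_lit 82) (nat_lit 81))) (PT.nd (nat_lit 94) (PT.lf (nat_lit 2352) (nat_lit 6) (nat_lit 28) (nat_lit 4) (nat_lit 18) (nat_lit 82) (nat_lit 80)) (PT.lf (nat_lit 2520) (nat_lit 6) (nat_lit 30)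 (nat_lit 4) (nat_lit 19) (nat_lit 82) (nat_lit 79)))) (PT.nd (nat_lit 188) (PT.nd (nat_lit 94) (PT.lf (nat_lit 2520) (nat_lit 6) (nat_lit 30) (nat_lit 2) (nat_lit 79) (nat_lit 82) (nat_lit 19)) (PT.lf (nat_lit 2352) (nat_lit 6) (nat_lit 28) (nat_lit 2) (nat_lit 80) (nat_lit 82) (nat_lit 18))) (PT.nd (nat_lit 94) (PT.lf (nat_lit 2268) (nat_lit 6) (nat_lit 27) (nat_lit 2) (nat_lit 81) (nat_lit 82) (nat_lit 17)) (PT.lf (nat_lit 2184) (nat_lit 3) (nat_lit 26) (nat_lit 0) (nat_lit 82) (nat_lit 82) (nat_lit 16)))))) (PT.nd (nat_lit 45120) (PT.nd (nat_lit 38728) (PT.nd (nat_lit 38540) (PT.nd (nat_lit 94) (PT.lf (nat_lit 2016) (nat_lit 6) (nat_lit 24) (nat_lit 0) (nat_lit 83) (nat_lit 82) (nat_lit 15)) (PT.lf (nat_lit 1848) (nat_lit 6) (nat_lit 22) (nat_lit 0) (nat_lit 84) (nat_lit 82) (nat_lit 14))) (PT.nd (nat_lit 94) (PT.lf (nat_lit 1596) (nat_lit 6) (nat_lit 19) (nat_lit 5)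 (nat_lit 12) (nat_lit 83) (nat_lit 85)) (PT.lf (nat_lit 1764) (nat_lit 6) (nat_lit 21) (nat_lit 5) (nat_lit 13) (nat_lit 83) (nat_lit 84)))) (PT.nd (nat_lit 188) (PT.nd (nat_lit 94) (PT.lf (nat_lit 1932) (nat_lit 3) (nat_lit 23) (nat_lit 4) (nat_lit 14) (nat_lit 83) (nat_lit 83)) (PT.lf (nat_lit 2016) (nat_lit 6) (nat_lit 24) (nat_lit 4) (nat_lit 15) (nat_lit 83) (nat_lit 82))) (PT.nd (nat_lit 6110) (PT.lf (nat_lit 2100) (nat_lit 6) (nat_lit 25) (nat_lit 4) (nat_lit 16) (nat_lit 83) (nat_lit 81)) (PT.lf (nat_lit 2100) (nat_lit 6) (nat_lit 25) (nat_lit 2) (nat_lit 81) (nat_lit 83) (nat_lit 16))))) (PT.nd (nat_lit 38446) (PT.nd (nat_lit 188) (PT.nd (nat_lit 94) (PT.lf (nat_lit 2016) (nat_lit 6) (nat_lit 24) (nat_lit 2) (nat_lit 82) (nat_lit 83) (nat_lit 15)) (PT.lf (nat_lit 1932) (nat_lit 3) (nat_lit 23) (nat_lit 0) (nat_lit 83) (nat_lit 83) (nat_lit 14))) (PT.nd (nat_lit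 94) (PT.lf (nat_lit 1764) (nat_lit 6) (nat_lit 21) (nat_lit 0) (nat_lit 84) (nat_lit 83) (nat_lit 13)) (PT.lf (nat_lit 1596) (nat_lit 6) (nat_lit 19) (nat_lit 0) (nat_lit 85) (nat_lit 83) (nat_lit 12)))) (PT.nd (nat_lit 188) (PT.nd (nat_lit 94) (PT.lf (nat_lit 1344) (nat_lit 6) (nat_lit 16) (nat_lit 5) (nat_lit 10) (nat_lit 84) (nat_lit 86)) (PT.lf (nat_lit 1512) (nat_lit 6) (nat_lit 18) (nat_lit 5) (nat_lit 11) (nat_lit 84) (nat_lit 85))) (PT.nd (nat_lit 94) (PT.lf (nat_lit 1680) (nat_lit 3) (nat_lit 20) (nat_lit 4) (nat_lit 12) (nat_lit 84) (nat_lit 84)) (PT.lf (nat_lit 1764) (nat_lit 6) (nat_lit 21) (nat_lit 4) (nat_lit 13) (nat_lit 84) (nat_lit 83))))))))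
noncomputable def pc15 : PT := (PT.nd (nat_lit 142410) (PT.nd (nat_lit 89676) (PT.nd (nat_lit 44838) (PT.nd (nat_lit 6674) (PT.nd (nat_lit 6486) (PT.nd (nat_lit 6392) (PT.lf (nat_lit 1848) (nat_lit 6) (nat_lit 22) (nat_lit 4) (nat_lit 14) (nat_lit 84) (nat_lit 82)) (PT.lf (nat_lit 1848) (nat_lit 6) (nat_lit 22) (nat_lit 2) (nat_lit 82) (nat_lit 84) (nat_lit 14))) (PT.nd (nat_lit 94) (PT.lf (nat_lit 1764) (nat_lit 6) (nat_lit 21) (nat_lit 2) (nat_lit 83) (nat_lit 84) (nat_lit 13)) (PT.lf (nat_lit 1680) (nat_lit 3) (nat_lit 20) (nat_lit 0) (nat_lit 84) (nat_lit 84) (nat_lit 12)))) (PT.nd (nat_lit 37976) (PT.nd (nat_lit 94) (PT.lf (nat_lit 1512) (nat_lit 6) (nat_lit 18) (nat_lit 0) (nat_lit 85) (nat_lit 84) (nat_lit 11)) (PT.lf (nat_lit 1344) (nat_lit 6) (nat_lit 16) (nat_lit 0) (nat_lit 86) (nat_lit 84) (nat_lit 10))) (PT.nd (nat_lit 94) (PT.lf (nat_lit 1092) (nat_lit 6) (nat_lit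 13) (nat_lit 5) (nat_lit 8) (nat_lit 85) (nat_lit 87)) (PT.lf (nat_lit 1260) (nat_lit 6) (nat_lit 15) (nat_lit 5) (nat_lit 9) (nat_lit 85) (nat_lit 86))))) (PT.nd (nat_lit 6956) (PT.nd (nat_lit 188) (PT.nd (nat_lit 94) (PT.lf (nat_lit 1428) (nat_lit 3) (nat_lit 17) (nat_lit 4) (nat_lit 10) (nat_lit 85) (nat_lit 85)) (PT.lf (nat_lit 1512) (nat_lit 6) (nat_lit 18) (nat_lit 4) (nat_lit 11) (nat_lit 85) (nat_lit 84))) (PT.nd (nat_lit 6674) (PT.lf (nat_lit 1596) (nat_lit 6) (nat_lit 19) (nat_lit 4) (nat_lit 12) (nat_lit 85) (nat_lit 83)) (PT.lf (nat_lit 1596) (nat_lit 6) (nat_lit 19) (nat_lit 2) (nat_lit 83) (nat_lit 85) (nat_lit 12)))) (PT.nd (nat_lit 188) (PT.nd (nat_lit 94) (PT.lf (nat_lit 1512) (nat_lit 6) (nat_lit 18) (nat_lit 2) (nat_lit 84) (nat_lit 85) (nat_lit 11)) (PT.lf (nat_lit 1428) (nat_lit 3) (nat_lit 17) (nat_lit 0) (nat_lit 85) (nat_lit 85) (nat_lit 10))) (PT.nd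 (nat_lit 94) (PT.lf (nat_lit 1260) (nat_lit 6) (nat_lit 15) (nat_lit 0) (nat_lit 86) (nat_lit 85) (nat_lit 9)) (PT.lf (nat_lit 1092) (nat_lit 6) (nat_lit 13) (nat_lit 0) (nat_lit 87) (nat_lit 85) (nat_lit 8)))))) (PT.nd (nat_lit 7614) (PT.nd (nat_lit 376) (PT.nd (nat_lit 188) (PT.nd (nat_lit 94) (PT.lf (nat_lit 840) (nat_lit 6) (nat_lit 10) (nat_lit 5) (nat_lit 6) (nat_lit 86) (nat_lit 88)) (PT.lf (nat_lit 1008) (nat_lit 6) (nat_lit 12) (nat_lit 5) (nat_lit 7) (nat_lit 86) (nat_lit 87))) (PT.nd (nat_lit 94) (PT.lf (nat_lit 1176) (nat_lit 3) (nat_lit 14) (nat_lit 4) (nat_lit 8) (nat_lit 86) (nat_lit 86)) (PT.lf (nat_lit 1260) (nat_lit 6) (nat_lit 15) (nat_lit 4) (nat_lit 9) (nat_lit 86) (nat_lit 85)))) (PT.nd (nat_lit 7050) (PT.nd (nat_lit 6956) (PT.lf (nat_lit 1344) (nat_lit 6) (nat_lit 16) (nat_lit 4) (nat_lit 10) (nat_lit 86) (nat_lit 84)) (PT.lf (nat_lit 1344) (nat_lit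 6) (nat_lit 16) (nat_lit 2) (nat_lit 84) (nat_lit 86) (nat_lit 10))) (PT.nd (nat_lit 94) (PT.lf (nat_lit 1260) (nat_lit 6) (nat_lit 15) (nat_lit 2) (nat_lit 85) (nat_lit 86) (nat_lit 9)) (PT.lf (nat_lit 1176) (nat_lit 3) (nat_lit 14) (nat_lit 0) (nat_lit 86) (nat_lit 86) (nat_lit 8))))) (PT.nd (nat_lit 37600) (PT.nd (nat_lit 37412) (PT.nd (nat_lit 94) (PT.lf (nat_lit 1008) (nat_lit 6) (nat_lit 12) (nat_lit 0) (nat_lit 87) (nat_lit 86) (nat_lit 7)) (PT.lf (nat_lit 840) (nat_lit 6) (nat_lit 10) (nat_lit 0) (nat_lit 88) (nat_lit 86) (nat_lit 6))) (PT.nd (nat_lit 94) (PT.lf (nat_lit 588) (nat_lit 6) (nat_lit 7) (nat_lit 5) (nat_lit 4) (nat_lit 87) (nat_lit 89)) (PT.lf (nat_lit 756) (nat_lit 6) (nat_lit 9) (nat_lit 5) (nat_lit 5) (nat_lit 87) (nat_lit 88)))) (PT.nd (nat_lit 188) (PT.nd (nat_lit 94) (PT.lf (nat_lit 924) (nat_lit 3) (nat_lit 11) (nat_lit 4) (nat_lit 6) (nat_lit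 87) (nat_lit 87)) (PT.lf (nat_lit 1008) (nat_lit 6) (nat_lit 12) (nat_lit 4) (nat_lit 7) (nat_lit 87) (nat_lit 86))) (PT.nd (nat_lit 7238) (PT.lf (nat_lit 1092) (nat_lit 6) (nat_lit 13) (nat_lit 4) (nat_lit 8) (nat_lit 87) (nat_lit 85)) (PT.lf (nat_lit 1092) (nat_lit 6) (nat_lit 13) (nat_lit 2) (nat_lit 85) (nat_lit 87) (nat_lit 8))))))) (PT.nd (nat_lit 82532) (PT.nd (nat_lit 37694) (PT.nd (nat_lit 37318) (PT.nd (nat_lit 188) (PT.nd (nat_lit 94) (PT.lf (nat_lit 1008) (nat_lit 6) (nat_lit 12) (nat_lit 2) (nat_lit 86) (nat_lit 87) (nat_lit 7)) (PT.lf (nat_lit 924) (nat_lit 3) (nat_lit 11) (nat_lit 0) (nat_lit 87) (nat_lit 87) (nat_lit 6))) (PT.nd (nat_lit 94) (PT.lf (nat_lit 756) (nat_lit 6) (nat_lit 9) (nat_lit 0) (nat_lit 88) (nat_lit 87) (nat_lit 5)) (PT.lf (nat_lit 588) (nat_lit 6) (nat_lit 7) (nat_lit 0) (nat_lit 89) (nat_lit 87) (nat_lit 4)))) (PT.nd (nat_lit 188) (PT.nd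 (nat_lit 94) (PT.lf (nat_lit 336) (nat_lit 6) (nat_lit 4) (nat_lit 5) (nat_lit 2) (nat_lit 88) (nat_lit 90)) (PT.lf (nat_lit 504) (nat_lit 6) (nat_lit 6) (nat_lit 5) (nat_lit 3) (nat_lit 88) (nat_lit 89))) (PT.nd (nat_lit 94) (PT.lf (nat_lit 672) (nat_lit 3) (nat_lit 8) (nat_lit 4) (nat_lit 4) (nat_lit 88) (nat_lit 88)) (PT.lf (nat_lit 756) (nat_lit 6) (nat_lit 9) (nat_lit 4) (nat_lit 5) (nat_lit 88) (nat_lit 87))))) (PT.nd (nat_lit 7802) (PT.nd (nat_lit 7614) (PT.nd (nat_lit 7520) (PT.lf (nat_lit 840) (nat_lit 6) (nat_lit 10) (nat_lit 4) (nat_lit 6) (nat_lit 88) (nat_lit 86)) (PT.lf (nat_lit 840) (nat_lit 6) (nat_lit 10) (nat_lit 2) (nat_lit 86) (nat_lit 88) (nat_lit 6))) (PT.nd (nat_lit 94) (PT.lf (nat_lit 756) (nat_lit 6) (nat_lit 9) (nat_lit 2) (nat_lit 87) (nat_lit 88) (nat_lit 5)) (PT.lf (nat_lit 672) (nat_lit 3) (nat_lit 8) (nat_lit 0) (nat_lit 88) (nat_lit 88) (nat_lit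 4)))) (PT.nd (nat_lit 36848) (PT.nd (nat_lit 94) (PT.lf (nat_lit 504) (nat_lit 6) (nat_lit 6) (nat_lit 0) (nat_lit 89) (nat_lit 88) (nat_lit 3)) (PT.lf (nat_lit 336) (nat_lit 6) (nat_lit 4) (nat_lit 0) (nat_lit 90) (nat_lit 88) (nat_lit 2))) (PT.nd (nat_lit 94) (PT.lf (nat_lit 84) (nat_lit 6) (nat_lit 1) (nat_lit 5) (nat_lit 0) (nat_lit 89) (nat_lit 91)) (PT.lf (nat_lit 252) (nat_lit 6) (nat_lit 3) (nat_lit 5) (nat_lit 1) (nat_lit 89) (nat_lit 90)))))) (PT.nd (nat_lit 45026) (PT.nd (nat_lit 8084) (PT.nd (nat_lit 188) (PT.nd (nat_lit 94) (PT.lf (nat_lit 420) (nat_lit 3) (nat_lit 5) (nat_lit 4) (nat_lit 2) (nat_lit 89) (nat_lit 89)) (PT.lf (nat_lit 504) (nat_lit 6) (nat_lit 6) (nat_lit 4) (nat_lit 3) (nat_lit 89) (nat_lit 88))) (PT.nd (nat_lit 7802) (PT.lf (nat_lit 588) (nat_lit 6) (nat_lit 7) (nat_lit 4) (nat_lit 4) (nat_lit 89) (nat_lit 87)) (PT.lf (nat_lit 588) (nat_lit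 6) (nat_lit 7) (nat_lit 2) (nat_lit 87) (nat_lit 89) (nat_lit 4)))) (PT.nd (nat_lit 188) (PT.nd (nat_lit 94) (PT.lf (nat_lit 504) (nat_lit 6) (nat_lit 6) (nat_lit 2) (nat_lit 88) (nat_lit 89) (nat_lit 3)) (PT.lf (nat_lit 420) (nat_lit 3) (nat_lit 5) (nat_lit 0) (nat_lit 89) (nat_lit 89) (nat_lit 2))) (PT.nd (nat_lit 94) (PT.lf (nat_lit 252) (nat_lit 6) (nat_lit 3) (nat_lit 0) (nat_lit 90) (nat_lit 89) (nat_lit 1)) (PT.lf (nat_lit 84) (nat_lit 6) (nat_lit 1) (nat_lit 0) (nat_lit 91) (nat_lit 89) (nat_lit 0))))) (PT.nd (nat_lit 8366) (PT.nd (nat_lit 188) (PT.nd (nat_lit 94) (PT.lf (nat_lit 168) (nat_lit 3) (nat_lit 2) (nat_lit 4) (nat_lit 0) (nat_lit 90) (nat_lit 90)) (PT.lf (nat_lit 252) (nat_lit 6) (nat_lit 3) (nat_lit 4) (nat_lit 1) (nat_lit 90) (nat_lit 89))) (PT.nd (nat_lit 8084) (PT.lf (nat_lit 336) (nat_lit 6) (nat_lit 4) (nat_lit 4) (nat_lit 2) (nat_lit 90) (nat_lit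 88)) (PT.lf (nat_lit 336) (nat_lit 6) (nat_lit 4) (nat_lit 2) (nat_lit 88) (nat_lit 90) (nat_lit 2)))) (PT.nd (nat_lit 36848) (PT.nd (nat_lit 94) (PT.lf (nat_lit 252) (nat_lit 6) (nat_lit 3) (nat_lit 2) (nat_lit 89) (nat_lit 90) (nat_lit 1)) (PT.lf (nat_lit 168) (nat_lit 3) (nat_lit 2) (nat_lit 0) (nat_lit 90) (nat_lit 90) (nat_lit 0))) (PT.nd (nat_lit 8366) (PT.lf (nat_lit 84) (nat_lit 6) (nat_lit 1) (nat_lit 4) (nat_lit 0) (nat_lit 91) (nat_lit 89)) (PT.lf (nat_lit 84) (nat_lit 6) (nat_lit 1) (nat_lit 2) (nat_lit 89) (nat_lit 91) (nat_lit 0))))))))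
noncomputable def xc0 : XT := (XT.nd (nat_lit 135266) (nat_lit 0) (nat_lit 0) (XT.nd (nat_lit 90052) (nat_lit 0) (nat_lit 0) (XT.nd (nat_lit 45120) (nat_lit 0) (nat_lit 0) (XT.nd (nat_lit 188) (nat_lit 0) (nat_lit 0) (XT.nd (nat_lit 94) (nat_lit 0) (nat_lit 0) (XT.lf (nat_lit 0) (nat_lit 154172575510) (nat_lit 0) (nat_lit 0) (nat_lit 0) (nat_lit 0) (nat_lit 0) (nat_lit 0) (nat_lit 1) (nat_lit 0) (nat_lit 1) (nat_lit 0) (nat_lit 356) (nat_lit 182) (nat_lit 182)) (XT.lf (nat_lit 0) (nat_lit 323753053160) (nat_lit 0) (nat_lit 0) (nat_lit 0) (nat_lit 0) (nat_lit 0) (nat_lit 0) (nat_lit 1) (nat_lit 0) (nat_lit 1) (nat_lit 0) (nat_lit 357) (nat_lit 182) (nat_lit 181))) (XT.nd (nat_lit 44838) (nat_lit 0) (nat_lit 0) (XT.lf (nat_lit 0) (nat_lit 339931645008) (nat_lit 0) (nat_lit 0) (nat_lit 0) (nat_lit 0) (nat_lit 0) (nat_lit 0) (nat_lit 1) (nat_lit 0) (nat_lit 1) (nat_lit 0) (nat_lit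 358) (nat_lit 182) (nat_lit 180)) (XT.lf (nat_lit 0) (nat_lit 139848131568) (nat_lit 0) (nat_lit 0) (nat_lit 0) (nat_lit 0) (nat_lit 0) (nat_lit 0) (nat_lit 1) (nat_lit 0) (nat_lit 1) (nat_lit 0) (nat_lit 354) (nat_lit 183) (nat_lit 183)))) (XT.nd (nat_lit 188) (nat_lit 0) (nat_lit 0) (XT.nd (nat_lit 94) (nat_lit 0) (nat_lit 0) (XT.lf (nat_lit 0) (nat_lit 293671253110) (nat_lit 0) (nat_lit 0) (nat_lit 0) (nat_lit 0) (nat_lit 0) (nat_lit 0) (nat_lit 1) (nat_lit 0) (nat_lit 1) (nat_lit 0) (nat_lit 355) (nat_lit 183) (nat_lit 182)) (XT.lf (nat_lit 0) (nat_lit 308345301915) (nat_lit 0) (nat_lit 0) (nat_lit 0) (nat_lit 0) (nat_lit 0) (nat_lit 0) (nat_lit 1) (nat_lit 0) (nat_lit 1) (nat_lit 0) (nat_lit 356) (nat_lit 183) (nat_lit 181))) (XT.nd (nat_lit 94) (nat_lit 0) (nat_lit 0) (XT.lf (nat_lit 0) (nat_lit 323753347762) (nat_lit 0) (nat_lit 0) (nat_lit 0) (nat_lit 0) (nat_lit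 0) (nat_lit 0) (nat_lit 1) (nat_lit 0) (nat_lit 1) (nat_lit 0) (nat_lit 357) (nat_lit 183) (nat_lit 180)) (XT.lf (nat_lit 0) (nat_lit 339932076476) (nat_lit 0) (nat_lit 0) (nat_lit 0) (nat_lit 0) (nat_lit 0) (nat_lit 0) (nat_lit 1) (nat_lit 0) (nat_lit 1) (nat_lit 0) (nat_lit 358) (nat_lit 183) (nat_lit 179))))) (XT.nd (nat_lit 376) (nat_lit 0) (nat_lit 0) (XT.nd (nat_lit 188) (nat_lit 0) (nat_lit 0) (XT.nd (nat_lit 94) (nat_lit 0) (nat_lit 0) (XT.lf (nat_lit 0) (nat_lit 126855891690) (nat_lit 0) (nat_lit 0) (nat_lit 0) (nat_lit 0) (nat_lit 0) (nat_lit 0) (nat_lit 1) (nat_lit 0) (nat_lit 1) (nat_lit 0) (nat_lit 352) (nat_lit 184) (nat_lit 184)) (XT.lf (nat_lit 0) (nat_lit 266387058207) (nat_lit 0) (nat_lit 0) (nat_lit 0) (nat_lit 0) (nat_lit 0) (nat_lit 0) (nat_lit 1) (nat_lit 0) (nat_lit 1) (nat_lit 0) (nat_lit 353) (nat_lit 184) (nat_lit 183))) (XT.nd (nat_lit 94) (nat_lit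 0) (nat_lit 0) (XT.lf (nat_lit 0) (nat_lit 279696421574) (nat_lit 0) (nat_lit 0) (nat_lit 0) (nat_lit 0) (nat_lit 0) (nat_lit 0) (nat_lit 1) (nat_lit 0) (nat_lit 1) (nat_lit 0) (nat_lit 354) (nat_lit 184) (nat_lit 182)) (XT.lf (nat_lit 0) (nat_lit 293671562442) (nat_lit 0) (nat_lit 0) (nat_lit 0) (nat_lit 0) (nat_lit 0) (nat_lit 0) (nat_lit 1) (nat_lit 0) (nat_lit 1) (nat_lit 0) (nat_lit 355) (nat_lit 184) (nat_lit 181)))) (XT.nd (nat_lit 44650) (nat_lit 0) (nat_lit 0) (XT.nd (nat_lit 94) (nat_lit 0) (nat_lit 0) (XT.lf (nat_lit 0) (nat_lit 308345754956) (nat_lit 0) (nat_lit 0) (nat_lit 0) (nat_lit 0) (nat_lit 0) (nat_lit 0) (nat_lit 1) (nat_lit 0) (nat_lit 1) (nat_lit 0) (nat_lit 356) (nat_lit 184) (nat_lit 180)) (XT.lf (nat_lit 0) (nat_lit 323753937668) (nat_lit 0) (nat_lit 0) (nat_lit 0) (nat_lit 0) (nat_lit 0) (nat_lit 0) (nat_lit 1) (nat_lit 0) (nat_lit 1) (nat_lit 0)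 (nat_lit 357) (nat_lit 184) (nat_lit 179))) (XT.nd (nat_lit 94) (nat_lit 0) (nat_lit 0) (XT.lf (nat_lit 0) (nat_lit 115072022822) (nat_lit 0) (nat_lit 0) (nat_lit 0) (nat_lit 0) (nat_lit 0) (nat_lit 0) (nat_lit 1) (nat_lit 0) (nat_lit 1) (nat_lit 0) (nat_lit 350) (nat_lit 185) (nat_lit 185)) (XT.lf (nat_lit 0) (nat_lit 241640417867) (nat_lit 0) (nat_lit 0) (nat_lit 0) (nat_lit 0) (nat_lit 0) (nat_lit 0) (nat_lit 1) (nat_lit 0) (nat_lit 1) (nat_lit 0) (nat_lit 351) (nat_lit 185) (nat_lit 184)))))) (XT.nd (nat_lit 45026) (nat_lit 0) (nat_lit 0) (XT.nd (nat_lit 376) (nat_lit 0) (nat_lit 0) (XT.nd (nat_lit 188) (nat_lit 0) (nat_lit 0) (XT.nd (nat_lit 94) (nat_lit 0) (nat_lit 0) (XT.lf (nat_lit 0) (nat_lit 253711949740) (nat_lit 0) (nat_lit 0) (nat_lit 0) (nat_lit 0) (nat_lit 0) (nat_lit 0) (nat_lit 1) (nat_lit 0) (nat_lit 1) (nat_lit 0) (nat_lit 352) (nat_lit 185) (nat_lit 183))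 (XT.lf (nat_lit 0) (nat_lit 266387383006) (nat_lit 0) (nat_lit 0) (nat_lit 0) (nat_lit 0) (nat_lit 0) (nat_lit 0) (nat_lit 1) (nat_lit 0) (nat_lit 1) (nat_lit 0) (nat_lit 353) (nat_lit 185) (nat_lit 182))) (XT.nd (nat_lit 94) (nat_lit 0) (nat_lit 0) (XT.lf (nat_lit 0) (nat_lit 279696897267) (nat_lit 0) (nat_lit 0) (nat_lit 0) (nat_lit 0) (nat_lit 0) (nat_lit 0) (nat_lit 1) (nat_lit 0) (nat_lit 1) (nat_lit 0) (nat_lit 354) (nat_lit 185) (nat_lit 181)) (XT.lf (nat_lit 0) (nat_lit 293672181843) (nat_lit 0) (nat_lit 0) (nat_lit 0) (nat_lit 0) (nat_lit 0) (nat_lit 0) (nat_lit 1) (nat_lit 0) (nat_lit 1) (nat_lit 0) (nat_lit 355) (nat_lit 185) (nat_lit 180)))) (XT.nd (nat_lit 44462) (nat_lit 0) (nat_lit 0) (XT.nd (nat_lit 94) (nat_lit 0) (nat_lit 0) (XT.lf (nat_lit 0) (nat_lit 308346511222) (nat_lit 0) (nat_lit 0) (nat_lit 0) (nat_lit 0) (nat_lit 0) (nat_lit 0) (nat_lit 1) (nat_lit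 0) (nat_lit 1) (nat_lit 0) (nat_lit 356) (nat_lit 185) (nat_lit 179)) (XT.lf (nat_lit 0) (nat_lit 323754824282) (nat_lit 0) (nat_lit 0) (nat_lit 0) (nat_lit 0) (nat_lit 0) (nat_lit 0) (nat_lit 1) (nat_lit 0) (nat_lit 1) (nat_lit 0) (nat_lit 357) (nat_lit 185) (nat_lit 178))) (XT.nd (nat_lit 94) (nat_lit 0) (nat_lit 0) (XT.lf (nat_lit 0) (nat_lit 104384205865) (nat_lit 0) (nat_lit 0) (nat_lit 0) (nat_lit 0) (nat_lit 0) (nat_lit 0) (nat_lit 1) (nat_lit 0) (nat_lit 1) (nat_lit 0) (nat_lit 348) (nat_lit 186) (nat_lit 186)) (XT.lf (nat_lit 0) (nat_lit 219195460756) (nat_lit 0) (nat_lit 0) (nat_lit 0) (nat_lit 0) (nat_lit 0) (nat_lit 0) (nat_lit 1) (nat_lit 0) (nat_lit 1) (nat_lit 0) (nat_lit 349) (nat_lit 186) (nat_lit 185))))) (XT.nd (nat_lit 376) (nat_lit 0) (nat_lit 0) (XT.nd (nat_lit 188) (nat_lit 0) (nat_lit 0) (XT.nd (nat_lit 94) (nat_lit 0) (nat_lit 0) (XT.lf (nat_lit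 0) (nat_lit 230144220322) (nat_lit 0) (nat_lit 0) (nat_lit 0) (nat_lit 0) (nat_lit 0) (nat_lit 0) (nat_lit 1) (nat_lit 0) (nat_lit 1) (nat_lit 0) (nat_lit 350) (nat_lit 186) (nat_lit 184)) (XT.lf (nat_lit 0) (nat_lit 241640758906) (nat_lit 0) (nat_lit 0) (nat_lit 0) (nat_lit 0) (nat_lit 0) (nat_lit 0) (nat_lit 1) (nat_lit 0) (nat_lit 1) (nat_lit 0) (nat_lit 351) (nat_lit 186) (nat_lit 183))) (XT.nd (nat_lit 94) (nat_lit 0) (nat_lit 0) (XT.lf (nat_lit 0) (nat_lit 253712449218) (nat_lit 0) (nat_lit 0) (nat_lit 0) (nat_lit 0) (nat_lit 0) (nat_lit 0) (nat_lit 1) (nat_lit 0) (nat_lit 1) (nat_lit 0) (nat_lit 352) (nat_lit 186) (nat_lit 182)) (XT.lf (nat_lit 0) (nat_lit 266388033377) (nat_lit 0) (nat_lit 0) (nat_lit 0) (nat_lit 0) (nat_lit 0) (nat_lit 0) (nat_lit 1) (nat_lit 0) (nat_lit 1) (nat_lit 0) (nat_lit 353) (nat_lit 186) (nat_lit 181)))) (XT.nd (nat_lit 188) (nat_lit 0)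 (nat_lit 0) (XT.nd (nat_lit 94) (nat_lit 0) (nat_lit 0) (XT.lf (nat_lit 0) (nat_lit 279697691346) (nat_lit 0) (nat_lit 0) (nat_lit 0) (nat_lit 0) (nat_lit 0) (nat_lit 0) (nat_lit 1) (nat_lit 0) (nat_lit 1) (nat_lit 0) (nat_lit 354) (nat_lit 186) (nat_lit 180)) (XT.lf (nat_lit 0) (nat_lit 293673112788) (nat_lit 0) (nat_lit 0) (nat_lit 0) (nat_lit 0) (nat_lit 0) (nat_lit 0) (nat_lit 1) (nat_lit 0) (nat_lit 1) (nat_lit 0) (nat_lit 355) (nat_lit 186) (nat_lit 179))) (XT.nd (nat_lit 94) (nat_lit 0) (nat_lit 0) (XT.lf (nat_lit 0) (nat_lit 308347572514) (nat_lit 0) (nat_lit 0) (nat_lit 0) (nat_lit 0) (nat_lit 0) (nat_lit 0) (nat_lit 1) (nat_lit 0) (nat_lit 1) (nat_lit 0) (nat_lit 356) (nat_lit 186) (nat_lit 178)) (XT.nd (nat_lit 44180) (nat_lit 0) (nat_lit 0) (XT.lf (nat_lit 0) (nat_lit 323756009714) (nat_lit 0) (nat_lit 0) (nat_lit 0) (nat_lit 0) (nat_lit 0) (nat_lit 0) (nat_lit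 1) (nat_lit 0) (nat_lit 1) (nat_lit 0) (nat_lit 357) (nat_lit 186) (nat_lit 177)) (XT.lf (nat_lit 0) (nat_lit 94690565276) (nat_lit 0) (nat_lit 0) (nat_lit 0) (nat_lit 0) (nat_lit 0) (nat_lit 0) (nat_lit 1) (nat_lit 0) (nat_lit 1) (nat_lit 0) (nat_lit 346) (nat_lit 187) (nat_lit 187))))))))
noncomputable def xc1 : XT := (XT.nd (nat_lit 45590) (nat_lit 0) (nat_lit 0) (XT.nd (nat_lit 752) (nat_lit 0) (nat_lit 0) (XT.nd (nat_lit 376) (nat_lit 0) (nat_lit 0) (XT.nd (nat_lit 188) (nat_lit 0) (nat_lit 0) (XT.nd (nat_lit 94) (nat_lit 0) (nat_lit 0) (XT.lf (nat_lit 0) (nat_lit 198838246941) (nat_lit 0) (nat_lit 0) (nat_lit 0) (nat_lit 0) (nat_lit 0) (nat_lit 0) (nat_lit 1) (nat_lit 0) (nat_lit 1) (nat_lit 0) (nat_lit 347) (nat_lit 187) (nat_lit 186)) (XT.lf (nat_lit 0) (nat_lit 208768595143) (nat_lit 0) (nat_lit 0) (nat_lit 0) (nat_lit 0) (nat_lit 0) (nat_lit 0) (nat_lit 1) (nat_lit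 0) (nat_lit 1) (nat_lit 0) (nat_lit 348) (nat_lit 187) (nat_lit 185))) (XT.nd (nat_lit 94) (nat_lit 0) (nat_lit 0) (XT.lf (nat_lit 0) (nat_lit 219195818846) (nat_lit 0) (nat_lit 0) (nat_lit 0) (nat_lit 0) (nat_lit 0) (nat_lit 0) (nat_lit 1) (nat_lit 0) (nat_lit 1) (nat_lit 0) (nat_lit 349) (nat_lit 187) (nat_lit 184)) (XT.lf (nat_lit 0) (nat_lit 230144744773) (nat_lit 0) (nat_lit 0) (nat_lit 0) (nat_lit 0) (nat_lit 0) (nat_lit 0) (nat_lit 1) (nat_lit 0) (nat_lit 1) (nat_lit 0) (nat_lit 350) (nat_lit 187) (nat_lit 183)))) (XT.nd (nat_lit 188) (nat_lit 0) (nat_lit 0) (XT.nd (nat_lit 94) (nat_lit 0) (nat_lit 0) (XT.lf (nat_lit 0) (nat_lit 241641441795) (nat_lit 0) (nat_lit 0) (nat_lit 0) (nat_lit 0) (nat_lit 0) (nat_lit 0) (nat_lit 1) (nat_lit 0) (nat_lit 1) (nat_lit 0) (nat_lit 351) (nat_lit 187) (nat_lit 182)) (XT.lf (nat_lit 0) (nat_lit 253713283001) (nat_lit 0) (nat_lit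 0) (nat_lit 0) (nat_lit 0) (nat_lit 0) (nat_lit 0) (nat_lit 1) (nat_lit 0) (nat_lit 1) (nat_lit 0) (nat_lit 352) (nat_lit 187) (nat_lit 181))) (XT.nd (nat_lit 94) (nat_lit 0) (nat_lit 0) (XT.lf (nat_lit 0) (nat_lit 266389010868) (nat_lit 0) (nat_lit 0) (nat_lit 0) (nat_lit 0) (nat_lit 0) (nat_lit 0) (nat_lit 1) (nat_lit 0) (nat_lit 1) (nat_lit 0) (nat_lit 353) (nat_lit 187) (nat_lit 180)) (XT.lf (nat_lit 0) (nat_lit 279698805703) (nat_lit 0) (nat_lit 0) (nat_lit 0) (nat_lit 0) (nat_lit 0) (nat_lit 0) (nat_lit 1) (nat_lit 0) (nat_lit 1) (nat_lit 0) (nat_lit 354) (nat_lit 187) (nat_lit 179))))) (XT.nd (nat_lit 44368) (nat_lit 0) (nat_lit 0) (XT.nd (nat_lit 44180) (nat_lit 0) (nat_lit 0) (XT.nd (nat_lit 94) (nat_lit 0) (nat_lit 0) (XT.lf (nat_lit 0) (nat_lit 293674357492) (nat_lit 0) (nat_lit 0) (nat_lit 0) (nat_lit 0) (nat_lit 0) (nat_lit 0) (nat_lit 1) (nat_lit 0) (nat_lit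 1) (nat_lit 0) (nat_lit 355) (nat_lit 187) (nat_lit 178)) (XT.lf (nat_lit 0) (nat_lit 308348941359) (nat_lit 0) (nat_lit 0) (nat_lit 0) (nat_lit 0) (nat_lit 0) (nat_lit 0) (nat_lit 1) (nat_lit 0) (nat_lit 1) (nat_lit 0) (nat_lit 356) (nat_lit 187) (nat_lit 177))) (XT.nd (nat_lit 94) (nat_lit 0) (nat_lit 0) (XT.lf (nat_lit 0) (nat_lit 85898698182) (nat_lit 0) (nat_lit 0) (nat_lit 0) (nat_lit 0) (nat_lit 0) (nat_lit 0) (nat_lit 1) (nat_lit 0) (nat_lit 1) (nat_lit 0) (nat_lit 344) (nat_lit 188) (nat_lit 188)) (XT.lf (nat_lit 0) (nat_lit 180374729036) (nat_lit 0) (nat_lit 0) (nat_lit 0) (nat_lit 0) (nat_lit 0) (nat_lit 0) (nat_lit 1) (nat_lit 0) (nat_lit 1) (nat_lit 0) (nat_lit 345) (nat_lit 188) (nat_lit 187)))) (XT.nd (nat_lit 188) (nat_lit 0) (nat_lit 0) (XT.nd (nat_lit 94) (nat_lit 0) (nat_lit 0) (XT.lf (nat_lit 0) (nat_lit 189381323136) (nat_lit 0) (nat_lit 0) (nat_lit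 0) (nat_lit 0) (nat_lit 0) (nat_lit 0) (nat_lit 1) (nat_lit 0) (nat_lit 1) (nat_lit 0) (nat_lit 346) (nat_lit 188) (nat_lit 186)) (XT.lf (nat_lit 0) (nat_lit 198838622936) (nat_lit 0) (nat_lit 0) (nat_lit 0) (nat_lit 0) (nat_lit 0) (nat_lit 0) (nat_lit 1) (nat_lit 0) (nat_lit 1) (nat_lit 0) (nat_lit 347) (nat_lit 188) (nat_lit 185))) (XT.nd (nat_lit 94) (nat_lit 0) (nat_lit 0) (XT.lf (nat_lit 0) (nat_lit 208769145817) (nat_lit 0) (nat_lit 0) (nat_lit 0) (nat_lit 0) (nat_lit 0) (nat_lit 0) (nat_lit 1) (nat_lit 0) (nat_lit 1) (nat_lit 0) (nat_lit 348) (nat_lit 188) (nat_lit 184)) (XT.nd (nat_lit 94) (nat_lit 0) (nat_lit 0) (XT.lf (nat_lit 0) (nat_lit 219196535880) (nat_lit 0) (nat_lit 0) (nat_lit 0) (nat_lit 0) (nat_lit 0) (nat_lit 0) (nat_lit 1) (nat_lit 0) (nat_lit 1) (nat_lit 0) (nat_lit 349) (nat_lit 188) (nat_lit 183)) (XT.lf (nat_lit 0) (nat_lit 230145620246) (nat_lit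 0) (nat_lit 0) (nat_lit 0) (nat_lit 0) (nat_lit 0) (nat_lit 0) (nat_lit 1) (nat_lit 0) (nat_lit 1) (nat_lit 0) (nat_lit 350) (nat_lit 188) (nat_lit 182))))))) (XT.nd (nat_lit 44556) (nat_lit 0) (nat_lit 0) (XT.nd (nat_lit 376) (nat_lit 0) (nat_lit 0) (XT.nd (nat_lit 188) (nat_lit 0) (nat_lit 0) (XT.nd (nat_lit 94) (nat_lit 0) (nat_lit 0) (XT.lf (nat_lit 0) (nat_lit 241642468161) (nat_lit 0) (nat_lit 0) (nat_lit 0) (nat_lit 0) (nat_lit 0) (nat_lit 0) (nat_lit 1) (nat_lit 0) (nat_lit 1) (nat_lit 0) (nat_lit 351) (nat_lit 188) (nat_lit 181)) (XT.lf (nat_lit 0) (nat_lit 253714453075) (nat_lit 0) (nat_lit 0) (nat_lit 0) (nat_lit 0) (nat_lit 0) (nat_lit 0) (nat_lit 1) (nat_lit 0) (nat_lit 1) (nat_lit 0) (nat_lit 352) (nat_lit 188) (nat_lit 180))) (XT.nd (nat_lit 94) (nat_lit 0) (nat_lit 0) (XT.lf (nat_lit 0) (nat_lit 266390317808) (nat_lit 0) (nat_lit 0) (nat_lit 0) (nat_lit 0)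 (nat_lit 0) (nat_lit 0) (nat_lit 1) (nat_lit 0) (nat_lit 1) (nat_lit 0) (nat_lit 353) (nat_lit 188) (nat_lit 179)) (XT.lf (nat_lit 0) (nat_lit 279700242990) (nat_lit 0) (nat_lit 0) (nat_lit 0) (nat_lit 0) (nat_lit 0) (nat_lit 0) (nat_lit 1) (nat_lit 0) (nat_lit 1) (nat_lit 0) (nat_lit 354) (nat_lit 188) (nat_lit 178)))) (XT.nd (nat_lit 43992) (nat_lit 0) (nat_lit 0) (XT.nd (nat_lit 94) (nat_lit 0) (nat_lit 0) (XT.lf (nat_lit 0) (nat_lit 293675918920) (nat_lit 0) (nat_lit 0) (nat_lit 0) (nat_lit 0) (nat_lit 0) (nat_lit 0) (nat_lit 1) (nat_lit 0) (nat_lit 1) (nat_lit 0) (nat_lit 355) (nat_lit 188) (nat_lit 177)) (XT.lf (nat_lit 0) (nat_lit 308350621016) (nat_lit 0) (nat_lit 0) (nat_lit 0) (nat_lit 0) (nat_lit 0) (nat_lit 0) (nat_lit 1) (nat_lit 0) (nat_lit 1) (nat_lit 0) (nat_lit 356) (nat_lit 188) (nat_lit 176))) (XT.nd (nat_lit 94) (nat_lit 0) (nat_lit 0) (XT.lf (nat_lit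 0) (nat_lit 77924793764) (nat_lit 0) (nat_lit 0) (nat_lit 0) (nat_lit 0) (nat_lit 0) (nat_lit 0) (nat_lit 1) (nat_lit 0) (nat_lit 1) (nat_lit 0) (nat_lit 342) (nat_lit 189) (nat_lit 189)) (XT.lf (nat_lit 0) (nat_lit 163628902902) (nat_lit 0) (nat_lit 0) (nat_lit 0) (nat_lit 0) (nat_lit 0) (nat_lit 0) (nat_lit 1) (nat_lit 0) (nat_lit 1) (nat_lit 0) (nat_lit 343) (nat_lit 189) (nat_lit 188))))) (XT.nd (nat_lit 376) (nat_lit 0) (nat_lit 0) (XT.nd (nat_lit 188) (nat_lit 0) (nat_lit 0) (XT.nd (nat_lit 94) (nat_lit 0) (nat_lit 0) (XT.lf (nat_lit 0) (nat_lit 171797598577) (nat_lit 0) (nat_lit 0) (nat_lit 0) (nat_lit 0) (nat_lit 0) (nat_lit 0) (nat_lit 1) (nat_lit 0) (nat_lit 1) (nat_lit 0) (nat_lit 344) (nat_lit 189) (nat_lit 187)) (XT.lf (nat_lit 0) (nat_lit 180375123831) (nat_lit 0) (nat_lit 0) (nat_lit 0) (nat_lit 0) (nat_lit 0) (nat_lit 0) (nat_lit 1) (nat_lit 0) (nat_lit 1)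 (nat_lit 0) (nat_lit 345) (nat_lit 189) (nat_lit 186))) (XT.nd (nat_lit 94) (nat_lit 0) (nat_lit 0) (XT.lf (nat_lit 0) (nat_lit 189381901343) (nat_lit 0) (nat_lit 0) (nat_lit 0) (nat_lit 0) (nat_lit 0) (nat_lit 0) (nat_lit 1) (nat_lit 0) (nat_lit 1) (nat_lit 0) (nat_lit 346) (nat_lit 189) (nat_lit 185)) (XT.lf (nat_lit 0) (nat_lit 198839375822) (nat_lit 0) (nat_lit 0) (nat_lit 0) (nat_lit 0) (nat_lit 0) (nat_lit 0) (nat_lit 1) (nat_lit 0) (nat_lit 1) (nat_lit 0) (nat_lit 347) (nat_lit 189) (nat_lit 184)))) (XT.nd (nat_lit 188) (nat_lit 0) (nat_lit 0) (XT.nd (nat_lit 94) (nat_lit 0) (nat_lit 0) (XT.lf (nat_lit 0) (nat_lit 208770065063) (nat_lit 0) (nat_lit 0) (nat_lit 0) (nat_lit 0) (nat_lit 0) (nat_lit 0) (nat_lit 1) (nat_lit 0) (nat_lit 1) (nat_lit 0) (nat_lit 348) (nat_lit 189) (nat_lit 183)) (XT.lf (nat_lit 0) (nat_lit 219197613565) (nat_lit 0) (nat_lit 0) (nat_lit 0)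 (nat_lit 0) (nat_lit 0) (nat_lit 0) (nat_lit 1) (nat_lit 0) (nat_lit 1) (nat_lit 0) (nat_lit 349) (nat_lit 189) (nat_lit 182))) (XT.nd (nat_lit 94) (nat_lit 0) (nat_lit 0) (XT.lf (nat_lit 0) (nat_lit 230146848824) (nat_lit 0) (nat_lit 0) (nat_lit 0) (nat_lit 0) (nat_lit 0) (nat_lit 0) (nat_lit 1) (nat_lit 0) (nat_lit 1) (nat_lit 0) (nat_lit 350) (nat_lit 189) (nat_lit 181)) (XT.nd (nat_lit 94) (nat_lit 0) (nat_lit 0) (XT.lf (nat_lit 0) (nat_lit 241643840448) (nat_lit 0) (nat_lit 0) (nat_lit 0) (nat_lit 0) (nat_lit 0) (nat_lit 0) (nat_lit 1) (nat_lit 0) (nat_lit 1) (nat_lit 0) (nat_lit 351) (nat_lit 189) (nat_lit 180)) (XT.lf (nat_lit 0) (nat_lit 253715962227) (nat_lit 0) (nat_lit 0) (nat_lit 0) (nat_lit 0) (nat_lit 0) (nat_lit 0) (nat_lit 1) (nat_lit 0) (nat_lit 1) (nat_lit 0) (nat_lit 352) (nat_lit 189) (nat_lit 179))))))))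
noncomputable def xc2 : XT := (XT.nd (nat_lit 45308) (nat_lit 0) (nat_lit 0) (XT.nd (nat_lit 44462) (nat_lit 0) (nat_lit 0) (XT.nd (nat_lit 44086) (nat_lit 0) (nat_lit 0) (XT.nd (nat_lit 188) (nat_lit 0) (nat_lit 0) (XT.nd (nat_lit 94) (nat_lit 0) (nat_lit 0) (XT.lf (nat_lit 0) (nat_lit 266391957307) (nat_lit 0) (nat_lit 0) (nat_lit 0) (nat_lit 0) (nat_lit 0) (nat_lit 0) (nat_lit 1) (nat_lit 0) (nat_lit 1) (nat_lit 0) (nat_lit 353) (nat_lit 189) (nat_lit 178)) (XT.lf (nat_lit 0) (nat_lit 279702006630) (nat_lit 0) (nat_lit 0) (nat_lit 0) (nat_lit 0) (nat_lit 0) (nat_lit 0) (nat_lit 1) (nat_lit 0) (nat_lit 1) (nat_lit 0) (nat_lit 354) (nat_lit 189) (nat_lit 177))) (XT.nd (nat_lit 43804) (nat_lit 0) (nat_lit 0) (XT.lf (nat_lit 0) (nat_lit 293677800789) (nat_lit 0) (nat_lit 0) (nat_lit 0) (nat_lit 0) (nat_lit 0) (nat_lit 0) (nat_lit 1) (nat_lit 0) (nat_lit 1) (nat_lit 0) (nat_lit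 355) (nat_lit 189) (nat_lit 176)) (XT.lf (nat_lit 0) (nat_lit 70692834517) (nat_lit 0) (nat_lit 0) (nat_lit 0) (nat_lit 0) (nat_lit 0) (nat_lit 0) (nat_lit 1) (nat_lit 0) (nat_lit 1) (nat_lit 0) (nat_lit 340) (nat_lit 190) (nat_lit 190)))) (XT.nd (nat_lit 188) (nat_lit 0) (nat_lit 0) (XT.nd (nat_lit 94) (nat_lit 0) (nat_lit 0) (XT.lf (nat_lit 0) (nat_lit 148441130281) (nat_lit 0) (nat_lit 0) (nat_lit 0) (nat_lit 0) (nat_lit 0) (nat_lit 0) (nat_lit 1) (nat_lit 0) (nat_lit 1) (nat_lit 0) (nat_lit 341) (nat_lit 190) (nat_lit 189)) (XT.lf (nat_lit 0) (nat_lit 155849799852) (nat_lit 0) (nat_lit 0) (nat_lit 0) (nat_lit 0) (nat_lit 0) (nat_lit 0) (nat_lit 1) (nat_lit 0) (nat_lit 1) (nat_lit 0) (nat_lit 342) (nat_lit 190) (nat_lit 188))) (XT.nd (nat_lit 94) (nat_lit 0) (nat_lit 0) (XT.lf (nat_lit 0) (nat_lit 163629317436) (nat_lit 0) (nat_lit 0) (nat_lit 0) (nat_lit 0) (nat_lit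 0) (nat_lit 0) (nat_lit 1) (nat_lit 0) (nat_lit 1) (nat_lit 0) (nat_lit 343) (nat_lit 190) (nat_lit 187)) (XT.lf (nat_lit 0) (nat_lit 171798205695) (nat_lit 0) (nat_lit 0) (nat_lit 0) (nat_lit 0) (nat_lit 0) (nat_lit 0) (nat_lit 1) (nat_lit 0) (nat_lit 1) (nat_lit 0) (nat_lit 344) (nat_lit 190) (nat_lit 186))))) (XT.nd (nat_lit 376) (nat_lit 0) (nat_lit 0) (XT.nd (nat_lit 188) (nat_lit 0) (nat_lit 0) (XT.nd (nat_lit 94) (nat_lit 0) (nat_lit 0) (XT.lf (nat_lit 0) (nat_lit 180375914361) (nat_lit 0) (nat_lit 0) (nat_lit 0) (nat_lit 0) (nat_lit 0) (nat_lit 0) (nat_lit 1) (nat_lit 0) (nat_lit 1) (nat_lit 0) (nat_lit 345) (nat_lit 190) (nat_lit 185)) (XT.lf (nat_lit 0) (nat_lit 189382866552) (nat_lit 0) (nat_lit 0) (nat_lit 0) (nat_lit 0) (nat_lit 0) (nat_lit 0) (nat_lit 1) (nat_lit 0) (nat_lit 1) (nat_lit 0) (nat_lit 346) (nat_lit 190) (nat_lit 184))) (XT.nd (nat_lit 94) (nat_lit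 0) (nat_lit 0) (XT.lf (nat_lit 0) (nat_lit 198840507390) (nat_lit 0) (nat_lit 0) (nat_lit 0) (nat_lit 0) (nat_lit 0) (nat_lit 0) (nat_lit 1) (nat_lit 0) (nat_lit 1) (nat_lit 0) (nat_lit 347) (nat_lit 190) (nat_lit 183)) (XT.lf (nat_lit 0) (nat_lit 208771355070) (nat_lit 0) (nat_lit 0) (nat_lit 0) (nat_lit 0) (nat_lit 0) (nat_lit 0) (nat_lit 1) (nat_lit 0) (nat_lit 1) (nat_lit 0) (nat_lit 348) (nat_lit 190) (nat_lit 182)))) (XT.nd (nat_lit 188) (nat_lit 0) (nat_lit 0) (XT.nd (nat_lit 94) (nat_lit 0) (nat_lit 0) (XT.lf (nat_lit 0) (nat_lit 219199054465) (nat_lit 0) (nat_lit 0) (nat_lit 0) (nat_lit 0) (nat_lit 0) (nat_lit 0) (nat_lit 1) (nat_lit 0) (nat_lit 1) (nat_lit 0) (nat_lit 349) (nat_lit 190) (nat_lit 181)) (XT.lf (nat_lit 0) (nat_lit 230148433433) (nat_lit 0) (nat_lit 0) (nat_lit 0) (nat_lit 0) (nat_lit 0) (nat_lit 0) (nat_lit 1) (nat_lit 0) (nat_lit 1) (nat_lit 0)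 (nat_lit 350) (nat_lit 190) (nat_lit 180))) (XT.nd (nat_lit 94) (nat_lit 0) (nat_lit 0) (XT.lf (nat_lit 0) (nat_lit 241645561922) (nat_lit 0) (nat_lit 0) (nat_lit 0) (nat_lit 0) (nat_lit 0) (nat_lit 0) (nat_lit 1) (nat_lit 0) (nat_lit 1) (nat_lit 0) (nat_lit 351) (nat_lit 190) (nat_lit 179)) (XT.nd (nat_lit 94) (nat_lit 0) (nat_lit 0) (XT.lf (nat_lit 0) (nat_lit 253717814049) (nat_lit 0) (nat_lit 0) (nat_lit 0) (nat_lit 0) (nat_lit 0) (nat_lit 0) (nat_lit 1) (nat_lit 0) (nat_lit 1) (nat_lit 0) (nat_lit 352) (nat_lit 190) (nat_lit 178)) (XT.lf (nat_lit 0) (nat_lit 266393933270) (nat_lit 0) (nat_lit 0) (nat_lit 0) (nat_lit 0) (nat_lit 0) (nat_lit 0) (nat_lit 1) (nat_lit 0) (nat_lit 1) (nat_lit 0) (nat_lit 353) (nat_lit 190) (nat_lit 177))))))) (XT.nd (nat_lit 44274) (nat_lit 0) (nat_lit 0) (XT.nd (nat_lit 43898) (nat_lit 0) (nat_lit 0) (XT.nd (nat_lit 43710) (nat_lit 0) (nat_lit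 0) (XT.nd (nat_lit 94) (nat_lit 0) (nat_lit 0) (XT.lf (nat_lit 0) (nat_lit 279704100822) (nat_lit 0) (nat_lit 0) (nat_lit 0) (nat_lit 0) (nat_lit 0) (nat_lit 0) (nat_lit 1) (nat_lit 0) (nat_lit 1) (nat_lit 0) (nat_lit 354) (nat_lit 190) (nat_lit 176)) (XT.lf (nat_lit 0) (nat_lit 293680007580) (nat_lit 0) (nat_lit 0) (nat_lit 0) (nat_lit 0) (nat_lit 0) (nat_lit 0) (nat_lit 1) (nat_lit 0) (nat_lit 1) (nat_lit 0) (nat_lit 355) (nat_lit 190) (nat_lit 175))) (XT.nd (nat_lit 94) (nat_lit 0) (nat_lit 0) (XT.lf (nat_lit 0) (nat_lit 64133871766) (nat_lit 0) (nat_lit 0) (nat_lit 0) (nat_lit 0) (nat_lit 0) (nat_lit 0) (nat_lit 1) (nat_lit 0) (nat_lit 1) (nat_lit 0) (nat_lit 338) (nat_lit 191) (nat_lit 191)) (XT.lf (nat_lit 0) (nat_lit 134666617393) (nat_lit 0) (nat_lit 0) (nat_lit 0) (nat_lit 0) (nat_lit 0) (nat_lit 0) (nat_lit 1) (nat_lit 0) (nat_lit 1) (nat_lit 0) (nat_lit 339) (nat_lit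 191) (nat_lit 190)))) (XT.nd (nat_lit 188) (nat_lit 0) (nat_lit 0) (XT.nd (nat_lit 94) (nat_lit 0) (nat_lit 0) (XT.lf (nat_lit 0) (nat_lit 141385891973) (nat_lit 0) (nat_lit 0) (nat_lit 0) (nat_lit 0) (nat_lit 0) (nat_lit 0) (nat_lit 1) (nat_lit 0) (nat_lit 1) (nat_lit 0) (nat_lit 340) (nat_lit 191) (nat_lit 189)) (XT.lf (nat_lit 0) (nat_lit 148441565543) (nat_lit 0) (nat_lit 0) (nat_lit 0) (nat_lit 0) (nat_lit 0) (nat_lit 0) (nat_lit 1) (nat_lit 0) (nat_lit 1) (nat_lit 0) (nat_lit 341) (nat_lit 191) (nat_lit 188))) (XT.nd (nat_lit 94) (nat_lit 0) (nat_lit 0) (XT.lf (nat_lit 0) (nat_lit 155850437326) (nat_lit 0) (nat_lit 0) (nat_lit 0) (nat_lit 0) (nat_lit 0) (nat_lit 0) (nat_lit 1) (nat_lit 0) (nat_lit 1) (nat_lit 0) (nat_lit 342) (nat_lit 191) (nat_lit 187)) (XT.lf (nat_lit 0) (nat_lit 163630147493) (nat_lit 0) (nat_lit 0) (nat_lit 0) (nat_lit 0) (nat_lit 0) (nat_lit 0)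 (nat_lit 1) (nat_lit 0) (nat_lit 1) (nat_lit 0) (nat_lit 343) (nat_lit 191) (nat_lit 186))))) (XT.nd (nat_lit 376) (nat_lit 0) (nat_lit 0) (XT.nd (nat_lit 188) (nat_lit 0) (nat_lit 0) (XT.nd (nat_lit 94) (nat_lit 0) (nat_lit 0) (XT.lf (nat_lit 0) (nat_lit 171799219163) (nat_lit 0) (nat_lit 0) (nat_lit 0) (nat_lit 0) (nat_lit 0) (nat_lit 0) (nat_lit 1) (nat_lit 0) (nat_lit 1) (nat_lit 0) (nat_lit 344) (nat_lit 191) (nat_lit 185)) (XT.lf (nat_lit 0) (nat_lit 180377102508) (nat_lit 0) (nat_lit 0) (nat_lit 0) (nat_lit 0) (nat_lit 0) (nat_lit 0) (nat_lit 1) (nat_lit 0) (nat_lit 1) (nat_lit 0) (nat_lit 345) (nat_lit 191) (nat_lit 184))) (XT.nd (nat_lit 94) (nat_lit 0) (nat_lit 0) (XT.lf (nat_lit 0) (nat_lit 189384221059) (nat_lit 0) (nat_lit 0) (nat_lit 0) (nat_lit 0) (nat_lit 0) (nat_lit 0) (nat_lit 1) (nat_lit 0) (nat_lit 1) (nat_lit 0) (nat_lit 346) (nat_lit 191) (nat_lit 183))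 (XT.lf (nat_lit 0) (nat_lit 198842020336) (nat_lit 0) (nat_lit 0) (nat_lit 0) (nat_lit 0) (nat_lit 0) (nat_lit 0) (nat_lit 1) (nat_lit 0) (nat_lit 1) (nat_lit 0) (nat_lit 347) (nat_lit 191) (nat_lit 182)))) (XT.nd (nat_lit 188) (nat_lit 0) (nat_lit 0) (XT.nd (nat_lit 94) (nat_lit 0) (nat_lit 0) (XT.lf (nat_lit 0) (nat_lit 208773018909) (nat_lit 0) (nat_lit 0) (nat_lit 0) (nat_lit 0) (nat_lit 0) (nat_lit 0) (nat_lit 1) (nat_lit 0) (nat_lit 1) (nat_lit 0) (nat_lit 348) (nat_lit 191) (nat_lit 181)) (XT.lf (nat_lit 0) (nat_lit 219200862013) (nat_lit 0) (nat_lit 0) (nat_lit 0) (nat_lit 0) (nat_lit 0) (nat_lit 0) (nat_lit 1) (nat_lit 0) (nat_lit 1) (nat_lit 0) (nat_lit 349) (nat_lit 191) (nat_lit 180))) (XT.nd (nat_lit 94) (nat_lit 0) (nat_lit 0) (XT.lf (nat_lit 0) (nat_lit 230150377846) (nat_lit 0) (nat_lit 0) (nat_lit 0) (nat_lit 0) (nat_lit 0) (nat_lit 0) (nat_lit 1) (nat_lit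 0) (nat_lit 1) (nat_lit 0) (nat_lit 350) (nat_lit 191) (nat_lit 179)) (XT.nd (nat_lit 94) (nat_lit 0) (nat_lit 0) (XT.lf (nat_lit 0) (nat_lit 241647636683) (nat_lit 0) (nat_lit 0) (nat_lit 0) (nat_lit 0) (nat_lit 0) (nat_lit 0) (nat_lit 1) (nat_lit 0) (nat_lit 1) (nat_lit 0) (nat_lit 351) (nat_lit 191) (nat_lit 178)) (XT.lf (nat_lit 0) (nat_lit 253720012950) (nat_lit 0) (nat_lit 0) (nat_lit 0) (nat_lit 0) (nat_lit 0) (nat_lit 0) (nat_lit 1) (nat_lit 0) (nat_lit 1) (nat_lit 0) (nat_lit 352) (nat_lit 191) (nat_lit 177))))))))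
noncomputable def xc3 : XT := (XT.nd (nat_lit 45026) (nat_lit 0) (nat_lit 0) (XT.nd (nat_lit 44180) (nat_lit 0) (nat_lit 0) (XT.nd (nat_lit 43804) (nat_lit 0) (nat_lit 0) (XT.nd (nat_lit 43616) (nat_lit 0) (nat_lit 0) (XT.nd (nat_lit 94) (nat_lit 0) (nat_lit 0) (XT.lf (nat_lit 0) (nat_lit 266396250400) (nat_lit 0) (nat_lit 0) (nat_lit 0) (nat_lit 0) (nat_lit 0) (nat_lit 0) (nat_lit 1) (nat_lit 0) (nat_lit 1) (nat_lit 0) (nat_lit 353) (nat_lit 191) (nat_lit 176)) (XT.lf (nat_lit 0) (nat_lit 279706530551) (nat_lit 0) (nat_lit 0) (nat_lit 0) (nat_lit 0) (nat_lit 0) (nat_lit 0) (nat_lit 1) (nat_lit 0) (nat_lit 1) (nat_lit 0) (nat_lit 354) (nat_lit 191) (nat_lit 175))) (XT.nd (nat_lit 94) (nat_lit 0) (nat_lit 0) (XT.lf (nat_lit 0) (nat_lit 58185368549) (nat_lit 0) (nat_lit 0) (nat_lit 0) (nat_lit 0) (nat_lit 0) (nat_lit 0) (nat_lit 1) (nat_lit 0) (nat_lit 1) (nat_lit 0) (nat_lit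 336) (nat_lit 192) (nat_lit 192)) (XT.lf (nat_lit 0) (nat_lit 122174034973) (nat_lit 0) (nat_lit 0) (nat_lit 0) (nat_lit 0) (nat_lit 0) (nat_lit 0) (nat_lit 1) (nat_lit 0) (nat_lit 1) (nat_lit 0) (nat_lit 337) (nat_lit 192) (nat_lit 191)))) (XT.nd (nat_lit 188) (nat_lit 0) (nat_lit 0) (XT.nd (nat_lit 94) (nat_lit 0) (nat_lit 0) (XT.lf (nat_lit 0) (nat_lit 128267977617) (nat_lit 0) (nat_lit 0) (nat_lit 0) (nat_lit 0) (nat_lit 0) (nat_lit 0) (nat_lit 1) (nat_lit 0) (nat_lit 1) (nat_lit 0) (nat_lit 338) (nat_lit 192) (nat_lit 190)) (XT.lf (nat_lit 0) (nat_lit 134667074418) (nat_lit 0) (nat_lit 0) (nat_lit 0) (nat_lit 0) (nat_lit 0) (nat_lit 0) (nat_lit 1) (nat_lit 0) (nat_lit 1) (nat_lit 0) (nat_lit 339) (nat_lit 192) (nat_lit 189))) (XT.nd (nat_lit 94) (nat_lit 0) (nat_lit 0) (XT.lf (nat_lit 0) (nat_lit 141386561320) (nat_lit 0) (nat_lit 0) (nat_lit 0) (nat_lit 0) (nat_lit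 0) (nat_lit 0) (nat_lit 1) (nat_lit 0) (nat_lit 1) (nat_lit 0) (nat_lit 340) (nat_lit 192) (nat_lit 188)) (XT.lf (nat_lit 0) (nat_lit 148442437102) (nat_lit 0) (nat_lit 0) (nat_lit 0) (nat_lit 0) (nat_lit 0) (nat_lit 0) (nat_lit 1) (nat_lit 0) (nat_lit 1) (nat_lit 0) (nat_lit 341) (nat_lit 192) (nat_lit 187))))) (XT.nd (nat_lit 376) (nat_lit 0) (nat_lit 0) (XT.nd (nat_lit 188) (nat_lit 0) (nat_lit 0) (XT.nd (nat_lit 94) (nat_lit 0) (nat_lit 0) (XT.lf (nat_lit 0) (nat_lit 155851501468) (nat_lit 0) (nat_lit 0) (nat_lit 0) (nat_lit 0) (nat_lit 0) (nat_lit 0) (nat_lit 1) (nat_lit 0) (nat_lit 1) (nat_lit 0) (nat_lit 342) (nat_lit 192) (nat_lit 186)) (XT.lf (nat_lit 0) (nat_lit 163631395047) (nat_lit 0) (nat_lit 0) (nat_lit 0) (nat_lit 0) (nat_lit 0) (nat_lit 0) (nat_lit 1) (nat_lit 0) (nat_lit 1) (nat_lit 0) (nat_lit 343) (nat_lit 192) (nat_lit 185))) (XT.nd (nat_lit 94) (nat_lit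 0) (nat_lit 0) (XT.lf (nat_lit 0) (nat_lit 171800641396) (nat_lit 0) (nat_lit 0) (nat_lit 0) (nat_lit 0) (nat_lit 0) (nat_lit 0) (nat_lit 1) (nat_lit 0) (nat_lit 1) (nat_lit 0) (nat_lit 344) (nat_lit 192) (nat_lit 184)) (XT.lf (nat_lit 0) (nat_lit 180378691101) (nat_lit 0) (nat_lit 0) (nat_lit 0) (nat_lit 0) (nat_lit 0) (nat_lit 0) (nat_lit 1) (nat_lit 0) (nat_lit 1) (nat_lit 0) (nat_lit 345) (nat_lit 192) (nat_lit 183)))) (XT.nd (nat_lit 188) (nat_lit 0) (nat_lit 0) (XT.nd (nat_lit 94) (nat_lit 0) (nat_lit 0) (XT.lf (nat_lit 0) (nat_lit 189385968091) (nat_lit 0) (nat_lit 0) (nat_lit 0) (nat_lit 0) (nat_lit 0) (nat_lit 0) (nat_lit 1) (nat_lit 0) (nat_lit 1) (nat_lit 0) (nat_lit 346) (nat_lit 192) (nat_lit 182)) (XT.lf (nat_lit 0) (nat_lit 198843918262) (nat_lit 0) (nat_lit 0) (nat_lit 0) (nat_lit 0) (nat_lit 0) (nat_lit 0) (nat_lit 1) (nat_lit 0) (nat_lit 1) (nat_lit 0)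 (nat_lit 347) (nat_lit 192) (nat_lit 181))) (XT.nd (nat_lit 94) (nat_lit 0) (nat_lit 0) (XT.lf (nat_lit 0) (nat_lit 208775060543) (nat_lit 0) (nat_lit 0) (nat_lit 0) (nat_lit 0) (nat_lit 0) (nat_lit 0) (nat_lit 1) (nat_lit 0) (nat_lit 1) (nat_lit 0) (nat_lit 348) (nat_lit 192) (nat_lit 180)) (XT.nd (nat_lit 94) (nat_lit 0) (nat_lit 0) (XT.lf (nat_lit 0) (nat_lit 219203040512) (nat_lit 0) (nat_lit 0) (nat_lit 0) (nat_lit 0) (nat_lit 0) (nat_lit 0) (nat_lit 1) (nat_lit 0) (nat_lit 1) (nat_lit 0) (nat_lit 349) (nat_lit 192) (nat_lit 179)) (XT.lf (nat_lit 0) (nat_lit 230152686692) (nat_lit 0) (nat_lit 0) (nat_lit 0) (nat_lit 0) (nat_lit 0) (nat_lit 0) (nat_lit 1) (nat_lit 0) (nat_lit 1) (nat_lit 0) (nat_lit 350) (nat_lit 192) (nat_lit 178))))))) (XT.nd (nat_lit 43992) (nat_lit 0) (nat_lit 0) (XT.nd (nat_lit 43616) (nat_lit 0) (nat_lit 0) (XT.nd (nat_lit 188) (nat_lit 0) (nat_lit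 0) (XT.nd (nat_lit 94) (nat_lit 0) (nat_lit 0) (XT.lf (nat_lit 0) (nat_lit 241650069670) (nat_lit 0) (nat_lit 0) (nat_lit 0) (nat_lit 0) (nat_lit 0) (nat_lit 0) (nat_lit 1) (nat_lit 0) (nat_lit 1) (nat_lit 0) (nat_lit 351) (nat_lit 192) (nat_lit 177)) (XT.lf (nat_lit 0) (nat_lit 253722564166) (nat_lit 0) (nat_lit 0) (nat_lit 0) (nat_lit 0) (nat_lit 0) (nat_lit 0) (nat_lit 1) (nat_lit 0) (nat_lit 1) (nat_lit 0) (nat_lit 352) (nat_lit 192) (nat_lit 176))) (XT.nd (nat_lit 94) (nat_lit 0) (nat_lit 0) (XT.lf (nat_lit 0) (nat_lit 266398914216) (nat_lit 0) (nat_lit 0) (nat_lit 0) (nat_lit 0) (nat_lit 0) (nat_lit 0) (nat_lit 1) (nat_lit 0) (nat_lit 1) (nat_lit 0) (nat_lit 353) (nat_lit 192) (nat_lit 175)) (XT.lf (nat_lit 0) (nat_lit 279709301604) (nat_lit 0) (nat_lit 0) (nat_lit 0) (nat_lit 0) (nat_lit 0) (nat_lit 0) (nat_lit 1) (nat_lit 0) (nat_lit 1) (nat_lit 0) (nat_lit 354)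 (nat_lit 192) (nat_lit 174)))) (XT.nd (nat_lit 188) (nat_lit 0) (nat_lit 0) (XT.nd (nat_lit 94) (nat_lit 0) (nat_lit 0) (XT.lf (nat_lit 0) (nat_lit 52790603594) (nat_lit 0) (nat_lit 0) (nat_lit 0) (nat_lit 0) (nat_lit 0) (nat_lit 0) (nat_lit 1) (nat_lit 0) (nat_lit 1) (nat_lit 0) (nat_lit 334) (nat_lit 193) (nat_lit 193)) (XT.lf (nat_lit 0) (nat_lit 110844266618) (nat_lit 0) (nat_lit 0) (nat_lit 0) (nat_lit 0) (nat_lit 0) (nat_lit 0) (nat_lit 1) (nat_lit 0) (nat_lit 1) (nat_lit 0) (nat_lit 335) (nat_lit 193) (nat_lit 192))) (XT.nd (nat_lit 94) (nat_lit 0) (nat_lit 0) (XT.lf (nat_lit 0) (nat_lit 116370982889) (nat_lit 0) (nat_lit 0) (nat_lit 0) (nat_lit 0) (nat_lit 0) (nat_lit 0) (nat_lit 1) (nat_lit 0) (nat_lit 1) (nat_lit 0) (nat_lit 336) (nat_lit 193) (nat_lit 191)) (XT.lf (nat_lit 0) (nat_lit 122174514849) (nat_lit 0) (nat_lit 0) (nat_lit 0) (nat_lit 0) (nat_lit 0) (nat_lit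 0) (nat_lit 1) (nat_lit 0) (nat_lit 1) (nat_lit 0) (nat_lit 337) (nat_lit 193) (nat_lit 190))))) (XT.nd (nat_lit 376) (nat_lit 0) (nat_lit 0) (XT.nd (nat_lit 188) (nat_lit 0) (nat_lit 0) (XT.nd (nat_lit 94) (nat_lit 0) (nat_lit 0) (XT.lf (nat_lit 0) (nat_lit 128268680432) (nat_lit 0) (nat_lit 0) (nat_lit 0) (nat_lit 0) (nat_lit 0) (nat_lit 0) (nat_lit 1) (nat_lit 0) (nat_lit 1) (nat_lit 0) (nat_lit 338) (nat_lit 193) (nat_lit 189)) (XT.lf (nat_lit 0) (nat_lit 134667989555) (nat_lit 0) (nat_lit 0) (nat_lit 0) (nat_lit 0) (nat_lit 0) (nat_lit 0) (nat_lit 1) (nat_lit 0) (nat_lit 1) (nat_lit 0) (nat_lit 339) (nat_lit 193) (nat_lit 188))) (XT.nd (nat_lit 94) (nat_lit 0) (nat_lit 0) (XT.lf (nat_lit 0) (nat_lit 141387678669) (nat_lit 0) (nat_lit 0) (nat_lit 0) (nat_lit 0) (nat_lit 0) (nat_lit 0) (nat_lit 1) (nat_lit 0) (nat_lit 1) (nat_lit 0) (nat_lit 340) (nat_lit 193) (nat_lit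 187)) (XT.lf (nat_lit 0) (nat_lit 148443747034) (nat_lit 0) (nat_lit 0) (nat_lit 0) (nat_lit 0) (nat_lit 0) (nat_lit 0) (nat_lit 1) (nat_lit 0) (nat_lit 1) (nat_lit 0) (nat_lit 341) (nat_lit 193) (nat_lit 186)))) (XT.nd (nat_lit 188) (nat_lit 0) (nat_lit 0) (XT.nd (nat_lit 94) (nat_lit 0) (nat_lit 0) (XT.lf (nat_lit 0) (nat_lit 155852994812) (nat_lit 0) (nat_lit 0) (nat_lit 0) (nat_lit 0) (nat_lit 0) (nat_lit 0) (nat_lit 1) (nat_lit 0) (nat_lit 1) (nat_lit 0) (nat_lit 342) (nat_lit 193) (nat_lit 185)) (XT.lf (nat_lit 0) (nat_lit 163633063070) (nat_lit 0) (nat_lit 0) (nat_lit 0) (nat_lit 0) (nat_lit 0) (nat_lit 0) (nat_lit 1) (nat_lit 0) (nat_lit 1) (nat_lit 0) (nat_lit 343) (nat_lit 193) (nat_lit 184))) (XT.nd (nat_lit 94) (nat_lit 0) (nat_lit 0) (XT.lf (nat_lit 0) (nat_lit 171802475779) (nat_lit 0) (nat_lit 0) (nat_lit 0) (nat_lit 0) (nat_lit 0) (nat_lit 0) (nat_lit 1)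 (nat_lit 0) (nat_lit 1) (nat_lit 0) (nat_lit 344) (nat_lit 193) (nat_lit 183)) (XT.nd (nat_lit 94) (nat_lit 0) (nat_lit 0) (XT.lf (nat_lit 0) (nat_lit 180380683923) (nat_lit 0) (nat_lit 0) (nat_lit 0) (nat_lit 0) (nat_lit 0) (nat_lit 0) (nat_lit 1) (nat_lit 0) (nat_lit 1) (nat_lit 0) (nat_lit 345) (nat_lit 193) (nat_lit 182)) (XT.lf (nat_lit 0) (nat_lit 189388111806) (nat_lit 0) (nat_lit 0) (nat_lit 0) (nat_lit 0) (nat_lit 0) (nat_lit 0) (nat_lit 1) (nat_lit 0) (nat_lit 1) (nat_lit 0) (nat_lit 346) (nat_lit 193) (nat_lit 181))))))))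
noncomputable def xc4 : XT := (XT.nd (nat_lit 44556) (nat_lit 0) (nat_lit 0) (XT.nd (nat_lit 43804) (nat_lit 0) (nat_lit 0) (XT.nd (nat_lit 376) (nat_lit 0) (nat_lit 0) (XT.nd (nat_lit 188) (nat_lit 0) (nat_lit 0) (XT.nd (nat_lit 94) (nat_lit 0) (nat_lit 0) (XT.lf (nat_lit 0) (nat_lit 198846205685) (nat_lit 0) (nat_lit 0) (nat_lit 0) (nat_lit 0) (nat_lit 0) (nat_lit 0) (nat_lit 1) (nat_lit 0) (nat_lit 1) (nat_lit 0) (nat_lit 347) (nat_lit 193) (nat_lit 180)) (XT.lf (nat_lit 0) (nat_lit 208777484832) (nat_lit 0) (nat_lit 0) (nat_lit 0) (nat_lit 0) (nat_lit 0) (nat_lit 0) (nat_lit 1) (nat_lit 0) (nat_lit 1) (nat_lit 0) (nat_lit 348) (nat_lit 193) (nat_lit 179))) (XT.nd (nat_lit 94) (nat_lit 0) (nat_lit 0) (XT.lf (nat_lit 0) (nat_lit 219205595148) (nat_lit 0) (nat_lit 0) (nat_lit 0) (nat_lit 0) (nat_lit 0) (nat_lit 0) (nat_lit 1) (nat_lit 0) (nat_lit 1) (nat_lit 0) (nat_lit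 349) (nat_lit 193) (nat_lit 178)) (XT.lf (nat_lit 0) (nat_lit 230155365469) (nat_lit 0) (nat_lit 0) (nat_lit 0) (nat_lit 0) (nat_lit 0) (nat_lit 0) (nat_lit 1) (nat_lit 0) (nat_lit 1) (nat_lit 0) (nat_lit 350) (nat_lit 193) (nat_lit 177)))) (XT.nd (nat_lit 188) (nat_lit 0) (nat_lit 0) (XT.nd (nat_lit 94) (nat_lit 0) (nat_lit 0) (XT.lf (nat_lit 0) (nat_lit 241652866676) (nat_lit 0) (nat_lit 0) (nat_lit 0) (nat_lit 0) (nat_lit 0) (nat_lit 0) (nat_lit 1) (nat_lit 0) (nat_lit 1) (nat_lit 0) (nat_lit 351) (nat_lit 193) (nat_lit 176)) (XT.lf (nat_lit 0) (nat_lit 253725473772) (nat_lit 0) (nat_lit 0) (nat_lit 0) (nat_lit 0) (nat_lit 0) (nat_lit 0) (nat_lit 1) (nat_lit 0) (nat_lit 1) (nat_lit 0) (nat_lit 352) (nat_lit 193) (nat_lit 175))) (XT.nd (nat_lit 94) (nat_lit 0) (nat_lit 0) (XT.lf (nat_lit 0) (nat_lit 266401931058) (nat_lit 0) (nat_lit 0) (nat_lit 0) (nat_lit 0) (nat_lit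 0) (nat_lit 0) (nat_lit 1) (nat_lit 0) (nat_lit 1) (nat_lit 0) (nat_lit 353) (nat_lit 193) (nat_lit 174)) (XT.lf (nat_lit 0) (nat_lit 279712420578) (nat_lit 0) (nat_lit 0) (nat_lit 0) (nat_lit 0) (nat_lit 0) (nat_lit 0) (nat_lit 1) (nat_lit 0) (nat_lit 1) (nat_lit 0) (nat_lit 354) (nat_lit 193) (nat_lit 173))))) (XT.nd (nat_lit 376) (nat_lit 0) (nat_lit 0) (XT.nd (nat_lit 188) (nat_lit 0) (nat_lit 0) (XT.nd (nat_lit 94) (nat_lit 0) (nat_lit 0) (XT.lf (nat_lit 0) (nat_lit 47898130705) (nat_lit 0) (nat_lit 0) (nat_lit 0) (nat_lit 0) (nat_lit 0) (nat_lit 0) (nat_lit 1) (nat_lit 0) (nat_lit 1) (nat_lit 0) (nat_lit 332) (nat_lit 194) (nat_lit 194)) (XT.lf (nat_lit 0) (nat_lit 100569273505) (nat_lit 0) (nat_lit 0) (nat_lit 0) (nat_lit 0) (nat_lit 0) (nat_lit 0) (nat_lit 1) (nat_lit 0) (nat_lit 1) (nat_lit 0) (nat_lit 333) (nat_lit 194) (nat_lit 193))) (XT.nd (nat_lit 94) (nat_lit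 0) (nat_lit 0) (XT.lf (nat_lit 0) (nat_lit 105581465268) (nat_lit 0) (nat_lit 0) (nat_lit 0) (nat_lit 0) (nat_lit 0) (nat_lit 0) (nat_lit 1) (nat_lit 0) (nat_lit 1) (nat_lit 0) (nat_lit 334) (nat_lit 194) (nat_lit 192)) (XT.lf (nat_lit 0) (nat_lit 110844770487) (nat_lit 0) (nat_lit 0) (nat_lit 0) (nat_lit 0) (nat_lit 0) (nat_lit 0) (nat_lit 1) (nat_lit 0) (nat_lit 1) (nat_lit 0) (nat_lit 335) (nat_lit 194) (nat_lit 191)))) (XT.nd (nat_lit 188) (nat_lit 0) (nat_lit 0) (XT.nd (nat_lit 94) (nat_lit 0) (nat_lit 0) (XT.lf (nat_lit 0) (nat_lit 116371720844) (nat_lit 0) (nat_lit 0) (nat_lit 0) (nat_lit 0) (nat_lit 0) (nat_lit 0) (nat_lit 1) (nat_lit 0) (nat_lit 1) (nat_lit 0) (nat_lit 336) (nat_lit 194) (nat_lit 190)) (XT.lf (nat_lit 0) (nat_lit 122175475743) (nat_lit 0) (nat_lit 0) (nat_lit 0) (nat_lit 0) (nat_lit 0) (nat_lit 0) (nat_lit 1) (nat_lit 0) (nat_lit 1) (nat_lit 0)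 (nat_lit 337) (nat_lit 194) (nat_lit 189))) (XT.nd (nat_lit 94) (nat_lit 0) (nat_lit 0) (XT.lf (nat_lit 0) (nat_lit 128269853648) (nat_lit 0) (nat_lit 0) (nat_lit 0) (nat_lit 0) (nat_lit 0) (nat_lit 0) (nat_lit 1) (nat_lit 0) (nat_lit 1) (nat_lit 0) (nat_lit 338) (nat_lit 194) (nat_lit 188)) (XT.lf (nat_lit 0) (nat_lit 134669364984) (nat_lit 0) (nat_lit 0) (nat_lit 0) (nat_lit 0) (nat_lit 0) (nat_lit 0) (nat_lit 1) (nat_lit 0) (nat_lit 1) (nat_lit 0) (nat_lit 339) (nat_lit 194) (nat_lit 187)))))) (XT.nd (nat_lit 752) (nat_lit 0) (nat_lit 0) (XT.nd (nat_lit 376) (nat_lit 0) (nat_lit 0) (XT.nd (nat_lit 188) (nat_lit 0) (nat_lit 0) (XT.nd (nat_lit 94) (nat_lit 0) (nat_lit 0) (XT.lf (nat_lit 0) (nat_lit 141389246681) (nat_lit 0) (nat_lit 0) (nat_lit 0) (nat_lit 0) (nat_lit 0) (nat_lit 0) (nat_lit 1) (nat_lit 0) (nat_lit 1) (nat_lit 0) (nat_lit 340) (nat_lit 194) (nat_lit 186))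 (XT.lf (nat_lit 0) (nat_lit 148445498458) (nat_lit 0) (nat_lit 0) (nat_lit 0) (nat_lit 0) (nat_lit 0) (nat_lit 0) (nat_lit 1) (nat_lit 0) (nat_lit 1) (nat_lit 0) (nat_lit 341) (nat_lit 194) (nat_lit 185))) (XT.nd (nat_lit 94) (nat_lit 0) (nat_lit 0) (XT.lf (nat_lit 0) (nat_lit 155854920914) (nat_lit 0) (nat_lit 0) (nat_lit 0) (nat_lit 0) (nat_lit 0) (nat_lit 0) (nat_lit 1) (nat_lit 0) (nat_lit 1) (nat_lit 0) (nat_lit 342) (nat_lit 194) (nat_lit 184)) (XT.lf (nat_lit 0) (nat_lit 163635155533) (nat_lit 0) (nat_lit 0) (nat_lit 0) (nat_lit 0) (nat_lit 0) (nat_lit 0) (nat_lit 1) (nat_lit 0) (nat_lit 1) (nat_lit 0) (nat_lit 343) (nat_lit 194) (nat_lit 183)))) (XT.nd (nat_lit 188) (nat_lit 0) (nat_lit 0) (XT.nd (nat_lit 94) (nat_lit 0) (nat_lit 0) (XT.lf (nat_lit 0) (nat_lit 171804726680) (nat_lit 0) (nat_lit 0) (nat_lit 0) (nat_lit 0) (nat_lit 0) (nat_lit 0) (nat_lit 1) (nat_lit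 0) (nat_lit 1) (nat_lit 0) (nat_lit 344) (nat_lit 194) (nat_lit 182)) (XT.lf (nat_lit 0) (nat_lit 180383085718) (nat_lit 0) (nat_lit 0) (nat_lit 0) (nat_lit 0) (nat_lit 0) (nat_lit 0) (nat_lit 1) (nat_lit 0) (nat_lit 1) (nat_lit 0) (nat_lit 345) (nat_lit 194) (nat_lit 181))) (XT.nd (nat_lit 94) (nat_lit 0) (nat_lit 0) (XT.lf (nat_lit 0) (nat_lit 189390657309) (nat_lit 0) (nat_lit 0) (nat_lit 0) (nat_lit 0) (nat_lit 0) (nat_lit 0) (nat_lit 1) (nat_lit 0) (nat_lit 1) (nat_lit 0) (nat_lit 346) (nat_lit 194) (nat_lit 180)) (XT.lf (nat_lit 0) (nat_lit 198848888053) (nat_lit 0) (nat_lit 0) (nat_lit 0) (nat_lit 0) (nat_lit 0) (nat_lit 0) (nat_lit 1) (nat_lit 0) (nat_lit 1) (nat_lit 0) (nat_lit 347) (nat_lit 194) (nat_lit 179))))) (XT.nd (nat_lit 376) (nat_lit 0) (nat_lit 0) (XT.nd (nat_lit 188) (nat_lit 0) (nat_lit 0) (XT.nd (nat_lit 94) (nat_lit 0) (nat_lit 0) (XT.lf (nat_lit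 0) (nat_lit 208780297548) (nat_lit 0) (nat_lit 0) (nat_lit 0) (nat_lit 0) (nat_lit 0) (nat_lit 0) (nat_lit 1) (nat_lit 0) (nat_lit 1) (nat_lit 0) (nat_lit 348) (nat_lit 194) (nat_lit 178)) (XT.lf (nat_lit 0) (nat_lit 219208532005) (nat_lit 0) (nat_lit 0) (nat_lit 0) (nat_lit 0) (nat_lit 0) (nat_lit 0) (nat_lit 1) (nat_lit 0) (nat_lit 1) (nat_lit 0) (nat_lit 349) (nat_lit 194) (nat_lit 177))) (XT.nd (nat_lit 94) (nat_lit 0) (nat_lit 0) (XT.lf (nat_lit 0) (nat_lit 230158420555) (nat_lit 0) (nat_lit 0) (nat_lit 0) (nat_lit 0) (nat_lit 0) (nat_lit 0) (nat_lit 1) (nat_lit 0) (nat_lit 1) (nat_lit 0) (nat_lit 350) (nat_lit 194) (nat_lit 176)) (XT.lf (nat_lit 0) (nat_lit 241656034361) (nat_lit 0) (nat_lit 0) (nat_lit 0) (nat_lit 0) (nat_lit 0) (nat_lit 0) (nat_lit 1) (nat_lit 0) (nat_lit 1) (nat_lit 0) (nat_lit 351) (nat_lit 194) (nat_lit 175)))) (XT.nd (nat_lit 43146) (nat_lit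 0) (nat_lit 0) (XT.nd (nat_lit 94) (nat_lit 0) (nat_lit 0) (XT.lf (nat_lit 0) (nat_lit 253728748694) (nat_lit 0) (nat_lit 0) (nat_lit 0) (nat_lit 0) (nat_lit 0) (nat_lit 0) (nat_lit 1) (nat_lit 0) (nat_lit 1) (nat_lit 0) (nat_lit 352) (nat_lit 194) (nat_lit 174)) (XT.lf (nat_lit 0) (nat_lit 266405308112) (nat_lit 0) (nat_lit 0) (nat_lit 0) (nat_lit 0) (nat_lit 0) (nat_lit 0) (nat_lit 1) (nat_lit 0) (nat_lit 1) (nat_lit 0) (nat_lit 353) (nat_lit 194) (nat_lit 173))) (XT.nd (nat_lit 94) (nat_lit 0) (nat_lit 0) (XT.lf (nat_lit 0) (nat_lit 43461288426) (nat_lit 0) (nat_lit 0) (nat_lit 0) (nat_lit 0) (nat_lit 0) (nat_lit 0) (nat_lit 1) (nat_lit 0) (nat_lit 1) (nat_lit 0) (nat_lit 330) (nat_lit 195) (nat_lit 195)) (XT.nd (nat_lit 94) (nat_lit 0) (nat_lit 0) (XT.lf (nat_lit 0) (nat_lit 91251064669) (nat_lit 0) (nat_lit 0) (nat_lit 0) (nat_lit 0) (nat_lit 0) (nat_lit 0) (nat_lit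 1) (nat_lit 0) (nat_lit 1) (nat_lit 0) (nat_lit 331) (nat_lit 195) (nat_lit 194)) (XT.lf (nat_lit 0) (nat_lit 95796532394) (nat_lit 0) (nat_lit 0) (nat_lit 0) (nat_lit 0) (nat_lit 0) (nat_lit 0) (nat_lit 1) (nat_lit 0) (nat_lit 1) (nat_lit 0) (nat_lit 332) (nat_lit 195) (nat_lit 193))))))))
noncomputable def xc5 : XT := (XT.nd (nat_lit 1598) (nat_lit 0) (nat_lit 0) (XT.nd (nat_lit 752) (nat_lit 0) (nat_lit 0) (XT.nd (nat_lit 376) (nat_lit 0) (nat_lit 0) (XT.nd (nat_lit 188) (nat_lit 0) (nat_lit 0) (XT.nd (nat_lit 94) (nat_lit 0) (nat_lit 0) (XT.lf (nat_lit 0) (nat_lit 100569802568) (nat_lit 0) (nat_lit 0) (nat_lit 0) (nat_lit 0) (nat_lit 0) (nat_lit 0) (nat_lit 1) (nat_lit 0) (nat_lit 1) (nat_lit 0) (nat_lit 333) (nat_lit 195) (nat_lit 192)) (XT.lf (nat_lit 0) (nat_lit 105582240121) (nat_lit 0) (nat_lit 0) (nat_lit 0) (nat_lit 0) (nat_lit 0) (nat_lit 0) (nat_lit 1) (nat_lit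 0) (nat_lit 1) (nat_lit 0) (nat_lit 334) (nat_lit 195) (nat_lit 191))) (XT.nd (nat_lit 94) (nat_lit 0) (nat_lit 0) (XT.lf (nat_lit 0) (nat_lit 110845779426) (nat_lit 0) (nat_lit 0) (nat_lit 0) (nat_lit 0) (nat_lit 0) (nat_lit 0) (nat_lit 1) (nat_lit 0) (nat_lit 1) (nat_lit 0) (nat_lit 335) (nat_lit 195) (nat_lit 190)) (XT.lf (nat_lit 0) (nat_lit 116372952722) (nat_lit 0) (nat_lit 0) (nat_lit 0) (nat_lit 0) (nat_lit 0) (nat_lit 0) (nat_lit 1) (nat_lit 0) (nat_lit 1) (nat_lit 0) (nat_lit 336) (nat_lit 195) (nat_lit 189)))) (XT.nd (nat_lit 188) (nat_lit 0) (nat_lit 0) (XT.nd (nat_lit 94) (nat_lit 0) (nat_lit 0) (XT.lf (nat_lit 0) (nat_lit 122176919943) (nat_lit 0) (nat_lit 0) (nat_lit 0) (nat_lit 0) (nat_lit 0) (nat_lit 0) (nat_lit 1) (nat_lit 0) (nat_lit 1) (nat_lit 0) (nat_lit 337) (nat_lit 195) (nat_lit 188)) (XT.lf (nat_lit 0) (nat_lit 128271500061) (nat_lit 0) (nat_lit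 0) (nat_lit 0) (nat_lit 0) (nat_lit 0) (nat_lit 0) (nat_lit 1) (nat_lit 0) (nat_lit 1) (nat_lit 0) (nat_lit 338) (nat_lit 195) (nat_lit 187))) (XT.nd (nat_lit 94) (nat_lit 0) (nat_lit 0) (XT.lf (nat_lit 0) (nat_lit 134671203979) (nat_lit 0) (nat_lit 0) (nat_lit 0) (nat_lit 0) (nat_lit 0) (nat_lit 0) (nat_lit 1) (nat_lit 0) (nat_lit 1) (nat_lit 0) (nat_lit 339) (nat_lit 195) (nat_lit 186)) (XT.lf (nat_lit 0) (nat_lit 141391269088) (nat_lit 0) (nat_lit 0) (nat_lit 0) (nat_lit 0) (nat_lit 0) (nat_lit 0) (nat_lit 1) (nat_lit 0) (nat_lit 1) (nat_lit 0) (nat_lit 340) (nat_lit 195) (nat_lit 185))))) (XT.nd (nat_lit 376) (nat_lit 0) (nat_lit 0) (XT.nd (nat_lit 188) (nat_lit 0) (nat_lit 0) (XT.nd (nat_lit 94) (nat_lit 0) (nat_lit 0) (XT.lf (nat_lit 0) (nat_lit 148447695544) (nat_lit 0) (nat_lit 0) (nat_lit 0) (nat_lit 0) (nat_lit 0) (nat_lit 0) (nat_lit 1) (nat_lit 0) (nat_lit 1)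 (nat_lit 0) (nat_lit 341) (nat_lit 195) (nat_lit 184)) (XT.lf (nat_lit 0) (nat_lit 155857284361) (nat_lit 0) (nat_lit 0) (nat_lit 0) (nat_lit 0) (nat_lit 0) (nat_lit 0) (nat_lit 1) (nat_lit 0) (nat_lit 1) (nat_lit 0) (nat_lit 342) (nat_lit 195) (nat_lit 183))) (XT.nd (nat_lit 94) (nat_lit 0) (nat_lit 0) (XT.lf (nat_lit 0) (nat_lit 163637677417) (nat_lit 0) (nat_lit 0) (nat_lit 0) (nat_lit 0) (nat_lit 0) (nat_lit 0) (nat_lit 1) (nat_lit 0) (nat_lit 1) (nat_lit 0) (nat_lit 343) (nat_lit 195) (nat_lit 182)) (XT.lf (nat_lit 0) (nat_lit 171807399459) (nat_lit 0) (nat_lit 0) (nat_lit 0) (nat_lit 0) (nat_lit 0) (nat_lit 0) (nat_lit 1) (nat_lit 0) (nat_lit 1) (nat_lit 0) (nat_lit 344) (nat_lit 195) (nat_lit 181)))) (XT.nd (nat_lit 188) (nat_lit 0) (nat_lit 0) (XT.nd (nat_lit 94) (nat_lit 0) (nat_lit 0) (XT.lf (nat_lit 0) (nat_lit 180385902204) (nat_lit 0) (nat_lit 0) (nat_lit 0)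 (nat_lit 0) (nat_lit 0) (nat_lit 0) (nat_lit 1) (nat_lit 0) (nat_lit 1) (nat_lit 0) (nat_lit 345) (nat_lit 195) (nat_lit 180)) (XT.lf (nat_lit 0) (nat_lit 189393610661) (nat_lit 0) (nat_lit 0) (nat_lit 0) (nat_lit 0) (nat_lit 0) (nat_lit 0) (nat_lit 1) (nat_lit 0) (nat_lit 1) (nat_lit 0) (nat_lit 346) (nat_lit 195) (nat_lit 179))) (XT.nd (nat_lit 94) (nat_lit 0) (nat_lit 0) (XT.lf (nat_lit 0) (nat_lit 198851971753) (nat_lit 0) (nat_lit 0) (nat_lit 0) (nat_lit 0) (nat_lit 0) (nat_lit 0) (nat_lit 1) (nat_lit 0) (nat_lit 1) (nat_lit 0) (nat_lit 347) (nat_lit 195) (nat_lit 178)) (XT.nd (nat_lit 94) (nat_lit 0) (nat_lit 0) (XT.lf (nat_lit 0) (nat_lit 208783505388) (nat_lit 0) (nat_lit 0) (nat_lit 0) (nat_lit 0) (nat_lit 0) (nat_lit 0) (nat_lit 1) (nat_lit 0) (nat_lit 1) (nat_lit 0) (nat_lit 348) (nat_lit 195) (nat_lit 177)) (XT.lf (nat_lit 0) (nat_lit 219211858074) (nat_lit 0)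 (nat_lit 0) (nat_lit 0) (nat_lit 0) (nat_lit 0) (nat_lit 0) (nat_lit 1) (nat_lit 0) (nat_lit 1) (nat_lit 0) (nat_lit 349) (nat_lit 195) (nat_lit 176))))))) (XT.nd (nat_lit 43522) (nat_lit 0) (nat_lit 0) (XT.nd (nat_lit 43146) (nat_lit 0) (nat_lit 0) (XT.nd (nat_lit 188) (nat_lit 0) (nat_lit 0) (XT.nd (nat_lit 94) (nat_lit 0) (nat_lit 0) (XT.lf (nat_lit 0) (nat_lit 230161859224) (nat_lit 0) (nat_lit 0) (nat_lit 0) (nat_lit 0) (nat_lit 0) (nat_lit 0) (nat_lit 1) (nat_lit 0) (nat_lit 1) (nat_lit 0) (nat_lit 350) (nat_lit 195) (nat_lit 175)) (XT.lf (nat_lit 0) (nat_lit 241659580267) (nat_lit 0) (nat_lit 0) (nat_lit 0) (nat_lit 0) (nat_lit 0) (nat_lit 0) (nat_lit 1) (nat_lit 0) (nat_lit 1) (nat_lit 0) (nat_lit 351) (nat_lit 195) (nat_lit 174))) (XT.nd (nat_lit 94) (nat_lit 0) (nat_lit 0) (XT.lf (nat_lit 0) (nat_lit 253732396731) (nat_lit 0) (nat_lit 0) (nat_lit 0) (nat_lit 0)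 (nat_lit 0) (nat_lit 0) (nat_lit 1) (nat_lit 0) (nat_lit 1) (nat_lit 0) (nat_lit 352) (nat_lit 195) (nat_lit 173)) (XT.lf (nat_lit 0) (nat_lit 266409053416) (nat_lit 0) (nat_lit 0) (nat_lit 0) (nat_lit 0) (nat_lit 0) (nat_lit 0) (nat_lit 1) (nat_lit 0) (nat_lit 1) (nat_lit 0) (nat_lit 353) (nat_lit 195) (nat_lit 172)))) (XT.nd (nat_lit 188) (nat_lit 0) (nat_lit 0) (XT.nd (nat_lit 94) (nat_lit 0) (nat_lit 0) (XT.lf (nat_lit 0) (nat_lit 39437755282) (nat_lit 0) (nat_lit 0) (nat_lit 0) (nat_lit 0) (nat_lit 0) (nat_lit 0) (nat_lit 1) (nat_lit 0) (nat_lit 1) (nat_lit 0) (nat_lit 328) (nat_lit 196) (nat_lit 196)) (XT.lf (nat_lit 0) (nat_lit 82800763018) (nat_lit 0) (nat_lit 0) (nat_lit 0) (nat_lit 0) (nat_lit 0) (nat_lit 0) (nat_lit 1) (nat_lit 0) (nat_lit 1) (nat_lit 0) (nat_lit 329) (nat_lit 196) (nat_lit 195))) (XT.nd (nat_lit 94) (nat_lit 0) (nat_lit 0) (XT.lf (nat_lit 0)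 (nat_lit 86922861384) (nat_lit 0) (nat_lit 0) (nat_lit 0) (nat_lit 0) (nat_lit 0) (nat_lit 0) (nat_lit 1) (nat_lit 0) (nat_lit 1) (nat_lit 0) (nat_lit 330) (nat_lit 196) (nat_lit 194)) (XT.lf (nat_lit 0) (nat_lit 91251620186) (nat_lit 0) (nat_lit 0) (nat_lit 0) (nat_lit 0) (nat_lit 0) (nat_lit 0) (nat_lit 1) (nat_lit 0) (nat_lit 1) (nat_lit 0) (nat_lit 331) (nat_lit 196) (nat_lit 193))))) (XT.nd (nat_lit 376) (nat_lit 0) (nat_lit 0) (XT.nd (nat_lit 188) (nat_lit 0) (nat_lit 0) (XT.nd (nat_lit 94) (nat_lit 0) (nat_lit 0) (XT.lf (nat_lit 0) (nat_lit 95797345990) (nat_lit 0) (nat_lit 0) (nat_lit 0) (nat_lit 0) (nat_lit 0) (nat_lit 0) (nat_lit 1) (nat_lit 0) (nat_lit 1) (nat_lit 0) (nat_lit 332) (nat_lit 196) (nat_lit 192)) (XT.lf (nat_lit 0) (nat_lit 100570861954) (nat_lit 0) (nat_lit 0) (nat_lit 0) (nat_lit 0) (nat_lit 0) (nat_lit 0) (nat_lit 1) (nat_lit 0) (nat_lit 1) (nat_lit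 0) (nat_lit 333) (nat_lit 196) (nat_lit 191))) (XT.nd (nat_lit 94) (nat_lit 0) (nat_lit 0) (XT.lf (nat_lit 0) (nat_lit 105583533592) (nat_lit 0) (nat_lit 0) (nat_lit 0) (nat_lit 0) (nat_lit 0) (nat_lit 0) (nat_lit 1) (nat_lit 0) (nat_lit 1) (nat_lit 0) (nat_lit 334) (nat_lit 196) (nat_lit 190)) (XT.lf (nat_lit 0) (nat_lit 110847295836) (nat_lit 0) (nat_lit 0) (nat_lit 0) (nat_lit 0) (nat_lit 0) (nat_lit 0) (nat_lit 1) (nat_lit 0) (nat_lit 1) (nat_lit 0) (nat_lit 335) (nat_lit 196) (nat_lit 189)))) (XT.nd (nat_lit 188) (nat_lit 0) (nat_lit 0) (XT.nd (nat_lit 94) (nat_lit 0) (nat_lit 0) (XT.lf (nat_lit 0) (nat_lit 116374681454) (nat_lit 0) (nat_lit 0) (nat_lit 0) (nat_lit 0) (nat_lit 0) (nat_lit 0) (nat_lit 1) (nat_lit 0) (nat_lit 1) (nat_lit 0) (nat_lit 336) (nat_lit 196) (nat_lit 188)) (XT.lf (nat_lit 0) (nat_lit 122178850888) (nat_lit 0) (nat_lit 0) (nat_lit 0) (nat_lit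 0) (nat_lit 0) (nat_lit 0) (nat_lit 1) (nat_lit 0) (nat_lit 1) (nat_lit 0) (nat_lit 337) (nat_lit 196) (nat_lit 187))) (XT.nd (nat_lit 94) (nat_lit 0) (nat_lit 0) (XT.lf (nat_lit 0) (nat_lit 128273623588) (nat_lit 0) (nat_lit 0) (nat_lit 0) (nat_lit 0) (nat_lit 0) (nat_lit 0) (nat_lit 1) (nat_lit 0) (nat_lit 1) (nat_lit 0) (nat_lit 338) (nat_lit 196) (nat_lit 186)) (XT.nd (nat_lit 94) (nat_lit 0) (nat_lit 0) (XT.lf (nat_lit 0) (nat_lit 134673510919) (nat_lit 0) (nat_lit 0) (nat_lit 0) (nat_lit 0) (nat_lit 0) (nat_lit 0) (nat_lit 1) (nat_lit 0) (nat_lit 1) (nat_lit 0) (nat_lit 339) (nat_lit 196) (nat_lit 185)) (XT.lf (nat_lit 0) (nat_lit 141393750707) (nat_lit 0) (nat_lit 0) (nat_lit 0) (nat_lit 0) (nat_lit 0) (nat_lit 0) (nat_lit 1) (nat_lit 0) (nat_lit 1) (nat_lit 0) (nat_lit 340) (nat_lit 196) (nat_lit 184))))))))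
noncomputable def xc6 : XT := (XT.nd (nat_lit 44274) (nat_lit 0) (nat_lit 0) (XT.nd (nat_lit 752) (nat_lit 0) (nat_lit 0) (XT.nd (nat_lit 376) (nat_lit 0) (nat_lit 0) (XT.nd (nat_lit 188) (nat_lit 0) (nat_lit 0) (XT.nd (nat_lit 94) (nat_lit 0) (nat_lit 0) (XT.lf (nat_lit 0) (nat_lit 148450343522) (nat_lit 0) (nat_lit 0) (nat_lit 0) (nat_lit 0) (nat_lit 0) (nat_lit 0) (nat_lit 1) (nat_lit 0) (nat_lit 1) (nat_lit 0) (nat_lit 341) (nat_lit 196) (nat_lit 183)) (XT.lf (nat_lit 0) (nat_lit 155860090778) (nat_lit 0) (nat_lit 0) (nat_lit 0) (nat_lit 0) (nat_lit 0) (nat_lit 0) (nat_lit 1) (nat_lit 0) (nat_lit 1) (nat_lit 0) (nat_lit 342) (nat_lit 196) (nat_lit 182))) (XT.nd (nat_lit 94) (nat_lit 0) (nat_lit 0) (XT.lf (nat_lit 0) (nat_lit 163640634728) (nat_lit 0) (nat_lit 0) (nat_lit 0) (nat_lit 0) (nat_lit 0) (nat_lit 0) (nat_lit 1) (nat_lit 0) (nat_lit 1) (nat_lit 0) (nat_lit 343)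 (nat_lit 196) (nat_lit 181)) (XT.lf (nat_lit 0) (nat_lit 171810500478) (nat_lit 0) (nat_lit 0) (nat_lit 0) (nat_lit 0) (nat_lit 0) (nat_lit 0) (nat_lit 1) (nat_lit 0) (nat_lit 1) (nat_lit 0) (nat_lit 344) (nat_lit 196) (nat_lit 180)))) (XT.nd (nat_lit 188) (nat_lit 0) (nat_lit 0) (XT.nd (nat_lit 94) (nat_lit 0) (nat_lit 0) (XT.lf (nat_lit 0) (nat_lit 180389140089) (nat_lit 0) (nat_lit 0) (nat_lit 0) (nat_lit 0) (nat_lit 0) (nat_lit 0) (nat_lit 1) (nat_lit 0) (nat_lit 1) (nat_lit 0) (nat_lit 345) (nat_lit 196) (nat_lit 179)) (XT.lf (nat_lit 0) (nat_lit 189396978893) (nat_lit 0) (nat_lit 0) (nat_lit 0) (nat_lit 0) (nat_lit 0) (nat_lit 0) (nat_lit 1) (nat_lit 0) (nat_lit 1) (nat_lit 0) (nat_lit 346) (nat_lit 196) (nat_lit 178))) (XT.nd (nat_lit 94) (nat_lit 0) (nat_lit 0) (XT.lf (nat_lit 0) (nat_lit 198855464125) (nat_lit 0) (nat_lit 0) (nat_lit 0) (nat_lit 0) (nat_lit 0) (nat_lit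 0) (nat_lit 1) (nat_lit 0) (nat_lit 1) (nat_lit 0) (nat_lit 347) (nat_lit 196) (nat_lit 177)) (XT.lf (nat_lit 0) (nat_lit 208787115990) (nat_lit 0) (nat_lit 0) (nat_lit 0) (nat_lit 0) (nat_lit 0) (nat_lit 0) (nat_lit 1) (nat_lit 0) (nat_lit 1) (nat_lit 0) (nat_lit 348) (nat_lit 196) (nat_lit 176))))) (XT.nd (nat_lit 43052) (nat_lit 0) (nat_lit 0) (XT.nd (nat_lit 188) (nat_lit 0) (nat_lit 0) (XT.nd (nat_lit 94) (nat_lit 0) (nat_lit 0) (XT.lf (nat_lit 0) (nat_lit 219215581275) (nat_lit 0) (nat_lit 0) (nat_lit 0) (nat_lit 0) (nat_lit 0) (nat_lit 0) (nat_lit 1) (nat_lit 0) (nat_lit 1) (nat_lit 0) (nat_lit 349) (nat_lit 196) (nat_lit 175)) (XT.lf (nat_lit 0) (nat_lit 230165689662) (nat_lit 0) (nat_lit 0) (nat_lit 0) (nat_lit 0) (nat_lit 0) (nat_lit 0) (nat_lit 1) (nat_lit 0) (nat_lit 1) (nat_lit 0) (nat_lit 350) (nat_lit 196) (nat_lit 174))) (XT.nd (nat_lit 94) (nat_lit 0) (nat_lit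 0) (XT.lf (nat_lit 0) (nat_lit 241663512836) (nat_lit 0) (nat_lit 0) (nat_lit 0) (nat_lit 0) (nat_lit 0) (nat_lit 0) (nat_lit 1) (nat_lit 0) (nat_lit 1) (nat_lit 0) (nat_lit 351) (nat_lit 196) (nat_lit 173)) (XT.lf (nat_lit 0) (nat_lit 253736426567) (nat_lit 0) (nat_lit 0) (nat_lit 0) (nat_lit 0) (nat_lit 0) (nat_lit 0) (nat_lit 1) (nat_lit 0) (nat_lit 1) (nat_lit 0) (nat_lit 352) (nat_lit 196) (nat_lit 172)))) (XT.nd (nat_lit 188) (nat_lit 0) (nat_lit 0) (XT.nd (nat_lit 94) (nat_lit 0) (nat_lit 0) (XT.lf (nat_lit 0) (nat_lit 35789146389) (nat_lit 0) (nat_lit 0) (nat_lit 0) (nat_lit 0) (nat_lit 0) (nat_lit 0) (nat_lit 1) (nat_lit 0) (nat_lit 1) (nat_lit 0) (nat_lit 326) (nat_lit 197) (nat_lit 197)) (XT.lf (nat_lit 0) (nat_lit 75137758188) (nat_lit 0) (nat_lit 0) (nat_lit 0) (nat_lit 0) (nat_lit 0) (nat_lit 0) (nat_lit 1) (nat_lit 0) (nat_lit 1) (nat_lit 0) (nat_lit 327)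 (nat_lit 197) (nat_lit 196))) (XT.nd (nat_lit 94) (nat_lit 0) (nat_lit 0) (XT.lf (nat_lit 0) (nat_lit 78875809325) (nat_lit 0) (nat_lit 0) (nat_lit 0) (nat_lit 0) (nat_lit 0) (nat_lit 0) (nat_lit 1) (nat_lit 0) (nat_lit 1) (nat_lit 0) (nat_lit 328) (nat_lit 197) (nat_lit 195)) (XT.nd (nat_lit 94) (nat_lit 0) (nat_lit 0) (XT.lf (nat_lit 0) (nat_lit 82801346309) (nat_lit 0) (nat_lit 0) (nat_lit 0) (nat_lit 0) (nat_lit 0) (nat_lit 0) (nat_lit 1) (nat_lit 0) (nat_lit 1) (nat_lit 0) (nat_lit 329) (nat_lit 197) (nat_lit 194)) (XT.lf (nat_lit 0) (nat_lit 86923715660) (nat_lit 0) (nat_lit 0) (nat_lit 0) (nat_lit 0) (nat_lit 0) (nat_lit 0) (nat_lit 1) (nat_lit 0) (nat_lit 1) (nat_lit 0) (nat_lit 330) (nat_lit 197) (nat_lit 193))))))) (XT.nd (nat_lit 752) (nat_lit 0) (nat_lit 0) (XT.nd (nat_lit 376) (nat_lit 0) (nat_lit 0) (XT.nd (nat_lit 188) (nat_lit 0) (nat_lit 0) (XT.nd (nat_lit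 94) (nat_lit 0) (nat_lit 0) (XT.lf (nat_lit 0) (nat_lit 91252732541) (nat_lit 0) (nat_lit 0) (nat_lit 0) (nat_lit 0) (nat_lit 0) (nat_lit 0) (nat_lit 1) (nat_lit 0) (nat_lit 1) (nat_lit 0) (nat_lit 331) (nat_lit 197) (nat_lit 192)) (XT.lf (nat_lit 0) (nat_lit 95798704135) (nat_lit 0) (nat_lit 0) (nat_lit 0) (nat_lit 0) (nat_lit 0) (nat_lit 0) (nat_lit 1) (nat_lit 0) (nat_lit 1) (nat_lit 0) (nat_lit 332) (nat_lit 197) (nat_lit 191))) (XT.nd (nat_lit 94) (nat_lit 0) (nat_lit 0) (XT.lf (nat_lit 0) (nat_lit 100572454185) (nat_lit 0) (nat_lit 0) (nat_lit 0) (nat_lit 0) (nat_lit 0) (nat_lit 0) (nat_lit 1) (nat_lit 0) (nat_lit 1) (nat_lit 0) (nat_lit 333) (nat_lit 197) (nat_lit 190)) (XT.lf (nat_lit 0) (nat_lit 105585348761) (nat_lit 0) (nat_lit 0) (nat_lit 0) (nat_lit 0) (nat_lit 0) (nat_lit 0) (nat_lit 1) (nat_lit 0) (nat_lit 1) (nat_lit 0) (nat_lit 334) (nat_lit 197) (nat_lit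 189)))) (XT.nd (nat_lit 188) (nat_lit 0) (nat_lit 0) (XT.nd (nat_lit 94) (nat_lit 0) (nat_lit 0) (XT.lf (nat_lit 0) (nat_lit 110849323328) (nat_lit 0) (nat_lit 0) (nat_lit 0) (nat_lit 0) (nat_lit 0) (nat_lit 0) (nat_lit 1) (nat_lit 0) (nat_lit 1) (nat_lit 0) (nat_lit 335) (nat_lit 197) (nat_lit 188)) (XT.lf (nat_lit 0) (nat_lit 116376911159) (nat_lit 0) (nat_lit 0) (nat_lit 0) (nat_lit 0) (nat_lit 0) (nat_lit 0) (nat_lit 1) (nat_lit 0) (nat_lit 1) (nat_lit 0) (nat_lit 336) (nat_lit 197) (nat_lit 187))) (XT.nd (nat_lit 94) (nat_lit 0) (nat_lit 0) (XT.lf (nat_lit 0) (nat_lit 122181273175) (nat_lit 0) (nat_lit 0) (nat_lit 0) (nat_lit 0) (nat_lit 0) (nat_lit 0) (nat_lit 1) (nat_lit 0) (nat_lit 1) (nat_lit 0) (nat_lit 337) (nat_lit 197) (nat_lit 186)) (XT.lf (nat_lit 0) (nat_lit 128276229288) (nat_lit 0) (nat_lit 0) (nat_lit 0) (nat_lit 0) (nat_lit 0) (nat_lit 0) (nat_lit 1)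 (nat_lit 0) (nat_lit 1) (nat_lit 0) (nat_lit 338) (nat_lit 197) (nat_lit 185))))) (XT.nd (nat_lit 376) (nat_lit 0) (nat_lit 0) (XT.nd (nat_lit 188) (nat_lit 0) (nat_lit 0) (XT.nd (nat_lit 94) (nat_lit 0) (nat_lit 0) (XT.lf (nat_lit 0) (nat_lit 134676291297) (nat_lit 0) (nat_lit 0) (nat_lit 0) (nat_lit 0) (nat_lit 0) (nat_lit 0) (nat_lit 1) (nat_lit 0) (nat_lit 1) (nat_lit 0) (nat_lit 339) (nat_lit 197) (nat_lit 184)) (XT.lf (nat_lit 0) (nat_lit 141396697445) (nat_lit 0) (nat_lit 0) (nat_lit 0) (nat_lit 0) (nat_lit 0) (nat_lit 0) (nat_lit 1) (nat_lit 0) (nat_lit 1) (nat_lit 0) (nat_lit 340) (nat_lit 197) (nat_lit 183))) (XT.nd (nat_lit 94) (nat_lit 0) (nat_lit 0) (XT.lf (nat_lit 0) (nat_lit 148453448699) (nat_lit 0) (nat_lit 0) (nat_lit 0) (nat_lit 0) (nat_lit 0) (nat_lit 0) (nat_lit 1) (nat_lit 0) (nat_lit 1) (nat_lit 0) (nat_lit 341) (nat_lit 197) (nat_lit 182)) (XT.lf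 (nat_lit 0) (nat_lit 155863346848) (nat_lit 0) (nat_lit 0) (nat_lit 0) (nat_lit 0) (nat_lit 0) (nat_lit 0) (nat_lit 1) (nat_lit 0) (nat_lit 1) (nat_lit 0) (nat_lit 342) (nat_lit 197) (nat_lit 181)))) (XT.nd (nat_lit 188) (nat_lit 0) (nat_lit 0) (XT.nd (nat_lit 94) (nat_lit 0) (nat_lit 0) (XT.lf (nat_lit 0) (nat_lit 163644034507) (nat_lit 0) (nat_lit 0) (nat_lit 0) (nat_lit 0) (nat_lit 0) (nat_lit 0) (nat_lit 1) (nat_lit 0) (nat_lit 1) (nat_lit 0) (nat_lit 343) (nat_lit 197) (nat_lit 180)) (XT.lf (nat_lit 0) (nat_lit 171814037122) (nat_lit 0) (nat_lit 0) (nat_lit 0) (nat_lit 0) (nat_lit 0) (nat_lit 0) (nat_lit 1) (nat_lit 0) (nat_lit 1) (nat_lit 0) (nat_lit 344) (nat_lit 197) (nat_lit 179))) (XT.nd (nat_lit 94) (nat_lit 0) (nat_lit 0) (XT.lf (nat_lit 0) (nat_lit 180392807080) (nat_lit 0) (nat_lit 0) (nat_lit 0) (nat_lit 0) (nat_lit 0) (nat_lit 0) (nat_lit 1) (nat_lit 0) (nat_lit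 1) (nat_lit 0) (nat_lit 345) (nat_lit 197) (nat_lit 178)) (XT.nd (nat_lit 94) (nat_lit 0) (nat_lit 0) (XT.lf (nat_lit 0) (nat_lit 189400770025) (nat_lit 0) (nat_lit 0) (nat_lit 0) (nat_lit 0) (nat_lit 0) (nat_lit 0) (nat_lit 1) (nat_lit 0) (nat_lit 1) (nat_lit 0) (nat_lit 346) (nat_lit 197) (nat_lit 177)) (XT.lf (nat_lit 0) (nat_lit 198859373487) (nat_lit 0) (nat_lit 0) (nat_lit 0) (nat_lit 0) (nat_lit 0) (nat_lit 0) (nat_lit 1) (nat_lit 0) (nat_lit 1) (nat_lit 0) (nat_lit 347) (nat_lit 197) (nat_lit 176))))))))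
noncomputable def xc7 : XT := (XT.nd (nat_lit 44086) (nat_lit 0) (nat_lit 0) (XT.nd (nat_lit 43240) (nat_lit 0) (nat_lit 0) (XT.nd (nat_lit 376) (nat_lit 0) (nat_lit 0) (XT.nd (nat_lit 188) (nat_lit 0) (nat_lit 0) (XT.nd (nat_lit 94) (nat_lit 0) (nat_lit 0) (XT.lf (nat_lit 0) (nat_lit 208791137950) (nat_lit 0) (nat_lit 0) (nat_lit 0) (nat_lit 0) (nat_lit 0) (nat_lit 0) (nat_lit 1) (nat_lit 0) (nat_lit 1) (nat_lit 0) (nat_lit 348) (nat_lit 197) (nat_lit 175)) (XT.lf (nat_lit 0) (nat_lit 219219710473) (nat_lit 0) (nat_lit 0) (nat_lit 0) (nat_lit 0) (nat_lit 0) (nat_lit 0) (nat_lit 1) (nat_lit 0) (nat_lit 1) (nat_lit 0) (nat_lit 349) (nat_lit 197) (nat_lit 174))) (XT.nd (nat_lit 94) (nat_lit 0) (nat_lit 0) (XT.lf (nat_lit 0) (nat_lit 230169920991) (nat_lit 0) (nat_lit 0) (nat_lit 0) (nat_lit 0) (nat_lit 0) (nat_lit 0) (nat_lit 1) (nat_lit 0) (nat_lit 1) (nat_lit 0) (nat_lit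 350) (nat_lit 197) (nat_lit 173)) (XT.lf (nat_lit 0) (nat_lit 241667841432) (nat_lit 0) (nat_lit 0) (nat_lit 0) (nat_lit 0) (nat_lit 0) (nat_lit 0) (nat_lit 1) (nat_lit 0) (nat_lit 1) (nat_lit 0) (nat_lit 351) (nat_lit 197) (nat_lit 172)))) (XT.nd (nat_lit 42676) (nat_lit 0) (nat_lit 0) (XT.nd (nat_lit 42582) (nat_lit 0) (nat_lit 0) (XT.lf (nat_lit 0) (nat_lit 253740847799) (nat_lit 0) (nat_lit 0) (nat_lit 0) (nat_lit 0) (nat_lit 0) (nat_lit 0) (nat_lit 1) (nat_lit 0) (nat_lit 1) (nat_lit 0) (nat_lit 352) (nat_lit 197) (nat_lit 171)) (XT.lf (nat_lit 0) (nat_lit 32480647557) (nat_lit 0) (nat_lit 0) (nat_lit 0) (nat_lit 0) (nat_lit 0) (nat_lit 0) (nat_lit 1) (nat_lit 0) (nat_lit 1) (nat_lit 0) (nat_lit 324) (nat_lit 198) (nat_lit 198))) (XT.nd (nat_lit 94) (nat_lit 0) (nat_lit 0) (XT.lf (nat_lit 0) (nat_lit 68188938180) (nat_lit 0) (nat_lit 0) (nat_lit 0) (nat_lit 0) (nat_lit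 0) (nat_lit 0) (nat_lit 1) (nat_lit 0) (nat_lit 1) (nat_lit 0) (nat_lit 325) (nat_lit 198) (nat_lit 197)) (XT.lf (nat_lit 0) (nat_lit 71578606477) (nat_lit 0) (nat_lit 0) (nat_lit 0) (nat_lit 0) (nat_lit 0) (nat_lit 0) (nat_lit 1) (nat_lit 0) (nat_lit 1) (nat_lit 0) (nat_lit 326) (nat_lit 198) (nat_lit 196))))) (XT.nd (nat_lit 376) (nat_lit 0) (nat_lit 0) (XT.nd (nat_lit 188) (nat_lit 0) (nat_lit 0) (XT.nd (nat_lit 94) (nat_lit 0) (nat_lit 0) (XT.lf (nat_lit 0) (nat_lit 75138370645) (nat_lit 0) (nat_lit 0) (nat_lit 0) (nat_lit 0) (nat_lit 0) (nat_lit 0) (nat_lit 1) (nat_lit 0) (nat_lit 1) (nat_lit 0) (nat_lit 327) (nat_lit 198) (nat_lit 195)) (XT.lf (nat_lit 0) (nat_lit 78876706314) (nat_lit 0) (nat_lit 0) (nat_lit 0) (nat_lit 0) (nat_lit 0) (nat_lit 0) (nat_lit 1) (nat_lit 0) (nat_lit 1) (nat_lit 0) (nat_lit 328) (nat_lit 198) (nat_lit 194))) (XT.nd (nat_lit 94) (nat_lit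 0) (nat_lit 0) (XT.lf (nat_lit 0) (nat_lit 82802514282) (nat_lit 0) (nat_lit 0) (nat_lit 0) (nat_lit 0) (nat_lit 0) (nat_lit 0) (nat_lit 1) (nat_lit 0) (nat_lit 1) (nat_lit 0) (nat_lit 329) (nat_lit 198) (nat_lit 193)) (XT.lf (nat_lit 0) (nat_lit 86925141712) (nat_lit 0) (nat_lit 0) (nat_lit 0) (nat_lit 0) (nat_lit 0) (nat_lit 0) (nat_lit 1) (nat_lit 0) (nat_lit 1) (nat_lit 0) (nat_lit 330) (nat_lit 198) (nat_lit 192)))) (XT.nd (nat_lit 188) (nat_lit 0) (nat_lit 0) (XT.nd (nat_lit 94) (nat_lit 0) (nat_lit 0) (XT.lf (nat_lit 0) (nat_lit 91254404383) (nat_lit 0) (nat_lit 0) (nat_lit 0) (nat_lit 0) (nat_lit 0) (nat_lit 0) (nat_lit 1) (nat_lit 0) (nat_lit 1) (nat_lit 0) (nat_lit 331) (nat_lit 198) (nat_lit 191)) (XT.lf (nat_lit 0) (nat_lit 95800610063) (nat_lit 0) (nat_lit 0) (nat_lit 0) (nat_lit 0) (nat_lit 0) (nat_lit 0) (nat_lit 1) (nat_lit 0) (nat_lit 1) (nat_lit 0) (nat_lit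 332) (nat_lit 198) (nat_lit 190))) (XT.nd (nat_lit 94) (nat_lit 0) (nat_lit 0) (XT.lf (nat_lit 0) (nat_lit 100574583051) (nat_lit 0) (nat_lit 0) (nat_lit 0) (nat_lit 0) (nat_lit 0) (nat_lit 0) (nat_lit 1) (nat_lit 0) (nat_lit 1) (nat_lit 0) (nat_lit 333) (nat_lit 198) (nat_lit 189)) (XT.nd (nat_lit 94) (nat_lit 0) (nat_lit 0) (XT.lf (nat_lit 0) (nat_lit 105587689951) (nat_lit 0) (nat_lit 0) (nat_lit 0) (nat_lit 0) (nat_lit 0) (nat_lit 0) (nat_lit 1) (nat_lit 0) (nat_lit 1) (nat_lit 0) (nat_lit 334) (nat_lit 198) (nat_lit 188)) (XT.lf (nat_lit 0) (nat_lit 110851866730) (nat_lit 0) (nat_lit 0) (nat_lit 0) (nat_lit 0) (nat_lit 0) (nat_lit 0) (nat_lit 1) (nat_lit 0) (nat_lit 1) (nat_lit 0) (nat_lit 335) (nat_lit 198) (nat_lit 187))))))) (XT.nd (nat_lit 752) (nat_lit 0) (nat_lit 0) (XT.nd (nat_lit 376) (nat_lit 0) (nat_lit 0) (XT.nd (nat_lit 188) (nat_lit 0) (nat_lit 0) (XT.nd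 (nat_lit 94) (nat_lit 0) (nat_lit 0) (XT.lf (nat_lit 0) (nat_lit 116379647143) (nat_lit 0) (nat_lit 0) (nat_lit 0) (nat_lit 0) (nat_lit 0) (nat_lit 0) (nat_lit 1) (nat_lit 0) (nat_lit 1) (nat_lit 0) (nat_lit 336) (nat_lit 198) (nat_lit 186)) (XT.lf (nat_lit 0) (nat_lit 122184192572) (nat_lit 0) (nat_lit 0) (nat_lit 0) (nat_lit 0) (nat_lit 0) (nat_lit 0) (nat_lit 1) (nat_lit 0) (nat_lit 1) (nat_lit 0) (nat_lit 337) (nat_lit 198) (nat_lit 185))) (XT.nd (nat_lit 94) (nat_lit 0) (nat_lit 0) (XT.lf (nat_lit 0) (nat_lit 128279323363) (nat_lit 0) (nat_lit 0) (nat_lit 0) (nat_lit 0) (nat_lit 0) (nat_lit 0) (nat_lit 1) (nat_lit 0) (nat_lit 1) (nat_lit 0) (nat_lit 338) (nat_lit 198) (nat_lit 184)) (XT.lf (nat_lit 0) (nat_lit 134679551732) (nat_lit 0) (nat_lit 0) (nat_lit 0) (nat_lit 0) (nat_lit 0) (nat_lit 0) (nat_lit 1) (nat_lit 0) (nat_lit 1) (nat_lit 0) (nat_lit 339) (nat_lit 198)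 (nat_lit 183)))) (XT.nd (nat_lit 188) (nat_lit 0) (nat_lit 0) (XT.nd (nat_lit 94) (nat_lit 0) (nat_lit 0) (XT.lf (nat_lit 0) (nat_lit 141400116318) (nat_lit 0) (nat_lit 0) (nat_lit 0) (nat_lit 0) (nat_lit 0) (nat_lit 0) (nat_lit 1) (nat_lit 0) (nat_lit 1) (nat_lit 0) (nat_lit 340) (nat_lit 198) (nat_lit 182)) (XT.lf (nat_lit 0) (nat_lit 148457018466) (nat_lit 0) (nat_lit 0) (nat_lit 0) (nat_lit 0) (nat_lit 0) (nat_lit 0) (nat_lit 1) (nat_lit 0) (nat_lit 1) (nat_lit 0) (nat_lit 341) (nat_lit 198) (nat_lit 181))) (XT.nd (nat_lit 94) (nat_lit 0) (nat_lit 0) (XT.lf (nat_lit 0) (nat_lit 155867060324) (nat_lit 0) (nat_lit 0) (nat_lit 0) (nat_lit 0) (nat_lit 0) (nat_lit 0) (nat_lit 1) (nat_lit 0) (nat_lit 1) (nat_lit 0) (nat_lit 342) (nat_lit 198) (nat_lit 180)) (XT.lf (nat_lit 0) (nat_lit 163647884848) (nat_lit 0) (nat_lit 0) (nat_lit 0) (nat_lit 0) (nat_lit 0) (nat_lit 0) (nat_lit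 1) (nat_lit 0) (nat_lit 1) (nat_lit 0) (nat_lit 343) (nat_lit 198) (nat_lit 179))))) (XT.nd (nat_lit 376) (nat_lit 0) (nat_lit 0) (XT.nd (nat_lit 188) (nat_lit 0) (nat_lit 0) (XT.nd (nat_lit 94) (nat_lit 0) (nat_lit 0) (XT.lf (nat_lit 0) (nat_lit 171818017810) (nat_lit 0) (nat_lit 0) (nat_lit 0) (nat_lit 0) (nat_lit 0) (nat_lit 0) (nat_lit 1) (nat_lit 0) (nat_lit 1) (nat_lit 0) (nat_lit 344) (nat_lit 198) (nat_lit 178)) (XT.lf (nat_lit 0) (nat_lit 180396911909) (nat_lit 0) (nat_lit 0) (nat_lit 0) (nat_lit 0) (nat_lit 0) (nat_lit 0) (nat_lit 1) (nat_lit 0) (nat_lit 1) (nat_lit 0) (nat_lit 345) (nat_lit 198) (nat_lit 177))) (XT.nd (nat_lit 94) (nat_lit 0) (nat_lit 0) (XT.lf (nat_lit 0) (nat_lit 189404993083) (nat_lit 0) (nat_lit 0) (nat_lit 0) (nat_lit 0) (nat_lit 0) (nat_lit 0) (nat_lit 1) (nat_lit 0) (nat_lit 1) (nat_lit 0) (nat_lit 346) (nat_lit 198) (nat_lit 176)) (XT.lf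 (nat_lit 0) (nat_lit 198863709144) (nat_lit 0) (nat_lit 0) (nat_lit 0) (nat_lit 0) (nat_lit 0) (nat_lit 0) (nat_lit 1) (nat_lit 0) (nat_lit 1) (nat_lit 0) (nat_lit 347) (nat_lit 198) (nat_lit 175)))) (XT.nd (nat_lit 188) (nat_lit 0) (nat_lit 0) (XT.nd (nat_lit 94) (nat_lit 0) (nat_lit 0) (XT.lf (nat_lit 0) (nat_lit 208795580845) (nat_lit 0) (nat_lit 0) (nat_lit 0) (nat_lit 0) (nat_lit 0) (nat_lit 0) (nat_lit 1) (nat_lit 0) (nat_lit 1) (nat_lit 0) (nat_lit 348) (nat_lit 198) (nat_lit 174)) (XT.lf (nat_lit 0) (nat_lit 219224255499) (nat_lit 0) (nat_lit 0) (nat_lit 0) (nat_lit 0) (nat_lit 0) (nat_lit 0) (nat_lit 1) (nat_lit 0) (nat_lit 1) (nat_lit 0) (nat_lit 349) (nat_lit 198) (nat_lit 173))) (XT.nd (nat_lit 94) (nat_lit 0) (nat_lit 0) (XT.lf (nat_lit 0) (nat_lit 230174563284) (nat_lit 0) (nat_lit 0) (nat_lit 0) (nat_lit 0) (nat_lit 0) (nat_lit 0) (nat_lit 1) (nat_lit 0) (nat_lit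 1) (nat_lit 0) (nat_lit 350) (nat_lit 198) (nat_lit 172)) (XT.nd (nat_lit 42488) (nat_lit 0) (nat_lit 0) (XT.lf (nat_lit 0) (nat_lit 241672576361) (nat_lit 0) (nat_lit 0) (nat_lit 0) (nat_lit 0) (nat_lit 0) (nat_lit 0) (nat_lit 1) (nat_lit 0) (nat_lit 1) (nat_lit 0) (nat_lit 351) (nat_lit 198) (nat_lit 171)) (XT.lf (nat_lit 0) (nat_lit 29480683426) (nat_lit 0) (nat_lit 0) (nat_lit 0) (nat_lit 0) (nat_lit 0) (nat_lit 0) (nat_lit 1) (nat_lit 0) (nat_lit 1) (nat_lit 0) (nat_lit 322) (nat_lit 199) (nat_lit 199))))))))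
noncomputable def xc8 : XT := (XT.nd (nat_lit 1504) (nat_lit 0) (nat_lit 0) (XT.nd (nat_lit 752) (nat_lit 0) (nat_lit 0) (XT.nd (nat_lit 376) (nat_lit 0) (nat_lit 0) (XT.nd (nat_lit 188) (nat_lit 0) (nat_lit 0) (XT.nd (nat_lit 94) (nat_lit 0) (nat_lit 0) (XT.lf (nat_lit 0) (nat_lit 61887992419) (nat_lit 0) (nat_lit 0) (nat_lit 0) (nat_lit 0) (nat_lit 0) (nat_lit 0) (nat_lit 1) (nat_lit 0) (nat_lit 1) (nat_lit 0) (nat_lit 323) (nat_lit 199) (nat_lit 198)) (XT.lf (nat_lit 0) (nat_lit 64961624497) (nat_lit 0) (nat_lit 0) (nat_lit 0) (nat_lit 0) (nat_lit 0) (nat_lit 0) (nat_lit 1) (nat_lit 0) (nat_lit 1) (nat_lit 0) (nat_lit 324) (nat_lit 199) (nat_lit 197))) (XT.nd (nat_lit 94) (nat_lit 0) (nat_lit 0) (XT.lf (nat_lit 0) (nat_lit 68189581259) (nat_lit 0) (nat_lit 0) (nat_lit 0) (nat_lit 0) (nat_lit 0) (nat_lit 0) (nat_lit 1) (nat_lit 0) (nat_lit 1) (nat_lit 0) (nat_lit 325)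 (nat_lit 199) (nat_lit 196)) (XT.lf (nat_lit 0) (nat_lit 71579548315) (nat_lit 0) (nat_lit 0) (nat_lit 0) (nat_lit 0) (nat_lit 0) (nat_lit 0) (nat_lit 1) (nat_lit 0) (nat_lit 1) (nat_lit 0) (nat_lit 326) (nat_lit 199) (nat_lit 195)))) (XT.nd (nat_lit 188) (nat_lit 0) (nat_lit 0) (XT.nd (nat_lit 94) (nat_lit 0) (nat_lit 0) (XT.lf (nat_lit 0) (nat_lit 75139597016) (nat_lit 0) (nat_lit 0) (nat_lit 0) (nat_lit 0) (nat_lit 0) (nat_lit 0) (nat_lit 1) (nat_lit 0) (nat_lit 1) (nat_lit 0) (nat_lit 327) (nat_lit 199) (nat_lit 194)) (XT.lf (nat_lit 0) (nat_lit 78878203669) (nat_lit 0) (nat_lit 0) (nat_lit 0) (nat_lit 0) (nat_lit 0) (nat_lit 0) (nat_lit 1) (nat_lit 0) (nat_lit 1) (nat_lit 0) (nat_lit 328) (nat_lit 199) (nat_lit 193))) (XT.nd (nat_lit 94) (nat_lit 0) (nat_lit 0) (XT.lf (nat_lit 0) (nat_lit 82804269716) (nat_lit 0) (nat_lit 0) (nat_lit 0) (nat_lit 0) (nat_lit 0) (nat_lit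 0) (nat_lit 1) (nat_lit 0) (nat_lit 1) (nat_lit 0) (nat_lit 329) (nat_lit 199) (nat_lit 192)) (XT.lf (nat_lit 0) (nat_lit 86927142936) (nat_lit 0) (nat_lit 0) (nat_lit 0) (nat_lit 0) (nat_lit 0) (nat_lit 0) (nat_lit 1) (nat_lit 0) (nat_lit 1) (nat_lit 0) (nat_lit 330) (nat_lit 199) (nat_lit 191))))) (XT.nd (nat_lit 376) (nat_lit 0) (nat_lit 0) (XT.nd (nat_lit 188) (nat_lit 0) (nat_lit 0) (XT.nd (nat_lit 94) (nat_lit 0) (nat_lit 0) (XT.lf (nat_lit 0) (nat_lit 91256639693) (nat_lit 0) (nat_lit 0) (nat_lit 0) (nat_lit 0) (nat_lit 0) (nat_lit 0) (nat_lit 1) (nat_lit 0) (nat_lit 1) (nat_lit 0) (nat_lit 331) (nat_lit 199) (nat_lit 190)) (XT.lf (nat_lit 0) (nat_lit 95803068312) (nat_lit 0) (nat_lit 0) (nat_lit 0) (nat_lit 0) (nat_lit 0) (nat_lit 0) (nat_lit 1) (nat_lit 0) (nat_lit 1) (nat_lit 0) (nat_lit 332) (nat_lit 199) (nat_lit 189))) (XT.nd (nat_lit 94) (nat_lit 0) (nat_lit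 0) (XT.lf (nat_lit 0) (nat_lit 100577253623) (nat_lit 0) (nat_lit 0) (nat_lit 0) (nat_lit 0) (nat_lit 0) (nat_lit 0) (nat_lit 1) (nat_lit 0) (nat_lit 1) (nat_lit 0) (nat_lit 333) (nat_lit 199) (nat_lit 188)) (XT.lf (nat_lit 0) (nat_lit 105590562734) (nat_lit 0) (nat_lit 0) (nat_lit 0) (nat_lit 0) (nat_lit 0) (nat_lit 0) (nat_lit 1) (nat_lit 0) (nat_lit 1) (nat_lit 0) (nat_lit 334) (nat_lit 199) (nat_lit 187)))) (XT.nd (nat_lit 188) (nat_lit 0) (nat_lit 0) (XT.nd (nat_lit 94) (nat_lit 0) (nat_lit 0) (XT.lf (nat_lit 0) (nat_lit 110854932096) (nat_lit 0) (nat_lit 0) (nat_lit 0) (nat_lit 0) (nat_lit 0) (nat_lit 0) (nat_lit 1) (nat_lit 0) (nat_lit 1) (nat_lit 0) (nat_lit 335) (nat_lit 199) (nat_lit 186)) (XT.lf (nat_lit 0) (nat_lit 116382895922) (nat_lit 0) (nat_lit 0) (nat_lit 0) (nat_lit 0) (nat_lit 0) (nat_lit 0) (nat_lit 1) (nat_lit 0) (nat_lit 1) (nat_lit 0) (nat_lit 336)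 (nat_lit 199) (nat_lit 185))) (XT.nd (nat_lit 94) (nat_lit 0) (nat_lit 0) (XT.lf (nat_lit 0) (nat_lit 122187616029) (nat_lit 0) (nat_lit 0) (nat_lit 0) (nat_lit 0) (nat_lit 0) (nat_lit 0) (nat_lit 1) (nat_lit 0) (nat_lit 1) (nat_lit 0) (nat_lit 337) (nat_lit 199) (nat_lit 184)) (XT.lf (nat_lit 0) (nat_lit 128282913180) (nat_lit 0) (nat_lit 0) (nat_lit 0) (nat_lit 0) (nat_lit 0) (nat_lit 0) (nat_lit 1) (nat_lit 0) (nat_lit 1) (nat_lit 0) (nat_lit 338) (nat_lit 199) (nat_lit 183)))))) (XT.nd (nat_lit 752) (nat_lit 0) (nat_lit 0) (XT.nd (nat_lit 376) (nat_lit 0) (nat_lit 0) (XT.nd (nat_lit 188) (nat_lit 0) (nat_lit 0) (XT.nd (nat_lit 94) (nat_lit 0) (nat_lit 0) (XT.lf (nat_lit 0) (nat_lit 134683299988) (nat_lit 0) (nat_lit 0) (nat_lit 0) (nat_lit 0) (nat_lit 0) (nat_lit 0) (nat_lit 1) (nat_lit 0) (nat_lit 1) (nat_lit 0) (nat_lit 339) (nat_lit 199) (nat_lit 182)) (XT.lf (nat_lit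 0) (nat_lit 141404015468) (nat_lit 0) (nat_lit 0) (nat_lit 0) (nat_lit 0) (nat_lit 0) (nat_lit 0) (nat_lit 1) (nat_lit 0) (nat_lit 1) (nat_lit 0) (nat_lit 340) (nat_lit 199) (nat_lit 181))) (XT.nd (nat_lit 94) (nat_lit 0) (nat_lit 0) (XT.lf (nat_lit 0) (nat_lit 148461061324) (nat_lit 0) (nat_lit 0) (nat_lit 0) (nat_lit 0) (nat_lit 0) (nat_lit 0) (nat_lit 1) (nat_lit 0) (nat_lit 1) (nat_lit 0) (nat_lit 341) (nat_lit 199) (nat_lit 180)) (XT.lf (nat_lit 0) (nat_lit 155871240047) (nat_lit 0) (nat_lit 0) (nat_lit 0) (nat_lit 0) (nat_lit 0) (nat_lit 0) (nat_lit 1) (nat_lit 0) (nat_lit 1) (nat_lit 0) (nat_lit 342) (nat_lit 199) (nat_lit 179)))) (XT.nd (nat_lit 188) (nat_lit 0) (nat_lit 0) (XT.nd (nat_lit 94) (nat_lit 0) (nat_lit 0) (XT.lf (nat_lit 0) (nat_lit 163652194918) (nat_lit 0) (nat_lit 0) (nat_lit 0) (nat_lit 0) (nat_lit 0) (nat_lit 0) (nat_lit 1) (nat_lit 0) (nat_lit 1)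 (nat_lit 0) (nat_lit 343) (nat_lit 199) (nat_lit 178)) (XT.lf (nat_lit 0) (nat_lit 171822452022) (nat_lit 0) (nat_lit 0) (nat_lit 0) (nat_lit 0) (nat_lit 0) (nat_lit 0) (nat_lit 1) (nat_lit 0) (nat_lit 1) (nat_lit 0) (nat_lit 344) (nat_lit 199) (nat_lit 177))) (XT.nd (nat_lit 94) (nat_lit 0) (nat_lit 0) (XT.lf (nat_lit 0) (nat_lit 180401464350) (nat_lit 0) (nat_lit 0) (nat_lit 0) (nat_lit 0) (nat_lit 0) (nat_lit 0) (nat_lit 1) (nat_lit 0) (nat_lit 1) (nat_lit 0) (nat_lit 345) (nat_lit 199) (nat_lit 176)) (XT.lf (nat_lit 0) (nat_lit 189409658123) (nat_lit 0) (nat_lit 0) (nat_lit 0) (nat_lit 0) (nat_lit 0) (nat_lit 0) (nat_lit 1) (nat_lit 0) (nat_lit 1) (nat_lit 0) (nat_lit 346) (nat_lit 199) (nat_lit 175))))) (XT.nd (nat_lit 376) (nat_lit 0) (nat_lit 0) (XT.nd (nat_lit 188) (nat_lit 0) (nat_lit 0) (XT.nd (nat_lit 94) (nat_lit 0) (nat_lit 0) (XT.lf (nat_lit 0) (nat_lit 198868481421)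 (nat_lit 0) (nat_lit 0) (nat_lit 0) (nat_lit 0) (nat_lit 0) (nat_lit 0) (nat_lit 1) (nat_lit 0) (nat_lit 1) (nat_lit 0) (nat_lit 347) (nat_lit 199) (nat_lit 174)) (XT.lf (nat_lit 0) (nat_lit 208800455253) (nat_lit 0) (nat_lit 0) (nat_lit 0) (nat_lit 0) (nat_lit 0) (nat_lit 0) (nat_lit 1) (nat_lit 0) (nat_lit 1) (nat_lit 0) (nat_lit 348) (nat_lit 199) (nat_lit 173))) (XT.nd (nat_lit 94) (nat_lit 0) (nat_lit 0) (XT.lf (nat_lit 0) (nat_lit 219229227174) (nat_lit 0) (nat_lit 0) (nat_lit 0) (nat_lit 0) (nat_lit 0) (nat_lit 0) (nat_lit 1) (nat_lit 0) (nat_lit 1) (nat_lit 0) (nat_lit 349) (nat_lit 199) (nat_lit 172)) (XT.lf (nat_lit 0) (nat_lit 230179627595) (nat_lit 0) (nat_lit 0) (nat_lit 0) (nat_lit 0) (nat_lit 0) (nat_lit 0) (nat_lit 1) (nat_lit 0) (nat_lit 1) (nat_lit 0) (nat_lit 350) (nat_lit 199) (nat_lit 171)))) (XT.nd (nat_lit 42394) (nat_lit 0) (nat_lit 0) (XT.nd (nat_lit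 42300) (nat_lit 0) (nat_lit 0) (XT.lf (nat_lit 0) (nat_lit 241677728897) (nat_lit 0) (nat_lit 0) (nat_lit 0) (nat_lit 0) (nat_lit 0) (nat_lit 0) (nat_lit 1) (nat_lit 0) (nat_lit 1) (nat_lit 0) (nat_lit 351) (nat_lit 199) (nat_lit 170)) (XT.lf (nat_lit 0) (nat_lit 26760616455) (nat_lit 0) (nat_lit 0) (nat_lit 0) (nat_lit 0) (nat_lit 0) (nat_lit 0) (nat_lit 1) (nat_lit 0) (nat_lit 1) (nat_lit 0) (nat_lit 320) (nat_lit 200) (nat_lit 200))) (XT.nd (nat_lit 94) (nat_lit 0) (nat_lit 0) (XT.lf (nat_lit 0) (nat_lit 56174779641) (nat_lit 0) (nat_lit 0) (nat_lit 0) (nat_lit 0) (nat_lit 0) (nat_lit 0) (nat_lit 1) (nat_lit 0) (nat_lit 1) (nat_lit 0) (nat_lit 321) (nat_lit 200) (nat_lit 199)) (XT.nd (nat_lit 94) (nat_lit 0) (nat_lit 0) (XT.lf (nat_lit 0) (nat_lit 58961712703) (nat_lit 0) (nat_lit 0) (nat_lit 0) (nat_lit 0) (nat_lit 0) (nat_lit 0) (nat_lit 1) (nat_lit 0) (nat_lit 1) (nat_lit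 0) (nat_lit 322) (nat_lit 200) (nat_lit 198)) (XT.lf (nat_lit 0) (nat_lit 61888667652) (nat_lit 0) (nat_lit 0) (nat_lit 0) (nat_lit 0) (nat_lit 0) (nat_lit 0) (nat_lit 1) (nat_lit 0) (nat_lit 1) (nat_lit 0) (nat_lit 323) (nat_lit 200) (nat_lit 197))))))))
noncomputable def xc9 : XT := (XT.nd (nat_lit 1598) (nat_lit 0) (nat_lit 0) (XT.nd (nat_lit 752) (nat_lit 0) (nat_lit 0) (XT.nd (nat_lit 376) (nat_lit 0) (nat_lit 0) (XT.nd (nat_lit 188) (nat_lit 0) (nat_lit 0) (XT.nd (nat_lit 94) (nat_lit 0) (nat_lit 0) (XT.lf (nat_lit 0) (nat_lit 64962613428) (nat_lit 0) (nat_lit 0) (nat_lit 0) (nat_lit 0) (nat_lit 0) (nat_lit 0) (nat_lit 1) (nat_lit 0) (nat_lit 1) (nat_lit 0) (nat_lit 324) (nat_lit 200) (nat_lit 196)) (XT.lf (nat_lit 0) (nat_lit 68190868949) (nat_lit 0) (nat_lit 0) (nat_lit 0) (nat_lit 0) (nat_lit 0) (nat_lit 0) (nat_lit 1) (nat_lit 0) (nat_lit 1) (nat_lit 0) (nat_lit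 325) (nat_lit 200) (nat_lit 195))) (XT.nd (nat_lit 94) (nat_lit 0) (nat_lit 0) (XT.lf (nat_lit 0) (nat_lit 71581120538) (nat_lit 0) (nat_lit 0) (nat_lit 0) (nat_lit 0) (nat_lit 0) (nat_lit 0) (nat_lit 1) (nat_lit 0) (nat_lit 1) (nat_lit 0) (nat_lit 326) (nat_lit 200) (nat_lit 194)) (XT.lf (nat_lit 0) (nat_lit 75141440222) (nat_lit 0) (nat_lit 0) (nat_lit 0) (nat_lit 0) (nat_lit 0) (nat_lit 0) (nat_lit 1) (nat_lit 0) (nat_lit 1) (nat_lit 0) (nat_lit 327) (nat_lit 200) (nat_lit 193)))) (XT.nd (nat_lit 188) (nat_lit 0) (nat_lit 0) (XT.nd (nat_lit 94) (nat_lit 0) (nat_lit 0) (XT.lf (nat_lit 0) (nat_lit 78880304954) (nat_lit 0) (nat_lit 0) (nat_lit 0) (nat_lit 0) (nat_lit 0) (nat_lit 0) (nat_lit 1) (nat_lit 0) (nat_lit 1) (nat_lit 0) (nat_lit 328) (nat_lit 200) (nat_lit 192)) (XT.lf (nat_lit 0) (nat_lit 82806616792) (nat_lit 0) (nat_lit 0) (nat_lit 0) (nat_lit 0) (nat_lit 0)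 (nat_lit 0) (nat_lit 1) (nat_lit 0) (nat_lit 1) (nat_lit 0) (nat_lit 329) (nat_lit 200) (nat_lit 191))) (XT.nd (nat_lit 94) (nat_lit 0) (nat_lit 0) (XT.lf (nat_lit 0) (nat_lit 86929724098) (nat_lit 0) (nat_lit 0) (nat_lit 0) (nat_lit 0) (nat_lit 0) (nat_lit 0) (nat_lit 1) (nat_lit 0) (nat_lit 1) (nat_lit 0) (nat_lit 330) (nat_lit 200) (nat_lit 190)) (XT.lf (nat_lit 0) (nat_lit 91259443793) (nat_lit 0) (nat_lit 0) (nat_lit 0) (nat_lit 0) (nat_lit 0) (nat_lit 0) (nat_lit 1) (nat_lit 0) (nat_lit 1) (nat_lit 0) (nat_lit 331) (nat_lit 200) (nat_lit 189))))) (XT.nd (nat_lit 376) (nat_lit 0) (nat_lit 0) (XT.nd (nat_lit 188) (nat_lit 0) (nat_lit 0) (XT.nd (nat_lit 94) (nat_lit 0) (nat_lit 0) (XT.lf (nat_lit 0) (nat_lit 95806084734) (nat_lit 0) (nat_lit 0) (nat_lit 0) (nat_lit 0) (nat_lit 0) (nat_lit 0) (nat_lit 1) (nat_lit 0) (nat_lit 1) (nat_lit 0) (nat_lit 332) (nat_lit 200) (nat_lit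 188)) (XT.lf (nat_lit 0) (nat_lit 100580472258) (nat_lit 0) (nat_lit 0) (nat_lit 0) (nat_lit 0) (nat_lit 0) (nat_lit 0) (nat_lit 1) (nat_lit 0) (nat_lit 1) (nat_lit 0) (nat_lit 333) (nat_lit 200) (nat_lit 187))) (XT.nd (nat_lit 94) (nat_lit 0) (nat_lit 0) (XT.lf (nat_lit 0) (nat_lit 105593973952) (nat_lit 0) (nat_lit 0) (nat_lit 0) (nat_lit 0) (nat_lit 0) (nat_lit 0) (nat_lit 1) (nat_lit 0) (nat_lit 1) (nat_lit 0) (nat_lit 334) (nat_lit 200) (nat_lit 186)) (XT.lf (nat_lit 0) (nat_lit 110858526726) (nat_lit 0) (nat_lit 0) (nat_lit 0) (nat_lit 0) (nat_lit 0) (nat_lit 0) (nat_lit 1) (nat_lit 0) (nat_lit 1) (nat_lit 0) (nat_lit 335) (nat_lit 200) (nat_lit 185)))) (XT.nd (nat_lit 188) (nat_lit 0) (nat_lit 0) (XT.nd (nat_lit 94) (nat_lit 0) (nat_lit 0) (XT.lf (nat_lit 0) (nat_lit 116386665230) (nat_lit 0) (nat_lit 0) (nat_lit 0) (nat_lit 0) (nat_lit 0) (nat_lit 0) (nat_lit 1)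 (nat_lit 0) (nat_lit 1) (nat_lit 0) (nat_lit 336) (nat_lit 200) (nat_lit 184)) (XT.lf (nat_lit 0) (nat_lit 122191551698) (nat_lit 0) (nat_lit 0) (nat_lit 0) (nat_lit 0) (nat_lit 0) (nat_lit 0) (nat_lit 1) (nat_lit 0) (nat_lit 1) (nat_lit 0) (nat_lit 337) (nat_lit 200) (nat_lit 183))) (XT.nd (nat_lit 94) (nat_lit 0) (nat_lit 0) (XT.lf (nat_lit 0) (nat_lit 128287007287) (nat_lit 0) (nat_lit 0) (nat_lit 0) (nat_lit 0) (nat_lit 0) (nat_lit 0) (nat_lit 1) (nat_lit 0) (nat_lit 1) (nat_lit 0) (nat_lit 338) (nat_lit 200) (nat_lit 182)) (XT.nd (nat_lit 94) (nat_lit 0) (nat_lit 0) (XT.lf (nat_lit 0) (nat_lit 134687544989) (nat_lit 0) (nat_lit 0) (nat_lit 0) (nat_lit 0) (nat_lit 0) (nat_lit 0) (nat_lit 1) (nat_lit 0) (nat_lit 1) (nat_lit 0) (nat_lit 339) (nat_lit 200) (nat_lit 181)) (XT.lf (nat_lit 0) (nat_lit 141408404177) (nat_lit 0) (nat_lit 0) (nat_lit 0) (nat_lit 0) (nat_lit 0)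 (nat_lit 0) (nat_lit 1) (nat_lit 0) (nat_lit 1) (nat_lit 0) (nat_lit 340) (nat_lit 200) (nat_lit 180))))))) (XT.nd (nat_lit 752) (nat_lit 0) (nat_lit 0) (XT.nd (nat_lit 376) (nat_lit 0) (nat_lit 0) (XT.nd (nat_lit 188) (nat_lit 0) (nat_lit 0) (XT.nd (nat_lit 94) (nat_lit 0) (nat_lit 0) (XT.lf (nat_lit 0) (nat_lit 148465586899) (nat_lit 0) (nat_lit 0) (nat_lit 0) (nat_lit 0) (nat_lit 0) (nat_lit 0) (nat_lit 1) (nat_lit 0) (nat_lit 1) (nat_lit 0) (nat_lit 341) (nat_lit 200) (nat_lit 179)) (XT.lf (nat_lit 0) (nat_lit 155875895969) (nat_lit 0) (nat_lit 0) (nat_lit 0) (nat_lit 0) (nat_lit 0) (nat_lit 0) (nat_lit 1) (nat_lit 0) (nat_lit 1) (nat_lit 0) (nat_lit 342) (nat_lit 200) (nat_lit 178))) (XT.nd (nat_lit 94) (nat_lit 0) (nat_lit 0) (XT.lf (nat_lit 0) (nat_lit 163656974981) (nat_lit 0) (nat_lit 0) (nat_lit 0) (nat_lit 0) (nat_lit 0) (nat_lit 0) (nat_lit 1) (nat_lit 0) (nat_lit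 1) (nat_lit 0) (nat_lit 343) (nat_lit 200) (nat_lit 177)) (XT.lf (nat_lit 0) (nat_lit 171827350313) (nat_lit 0) (nat_lit 0) (nat_lit 0) (nat_lit 0) (nat_lit 0) (nat_lit 0) (nat_lit 1) (nat_lit 0) (nat_lit 1) (nat_lit 0) (nat_lit 344) (nat_lit 200) (nat_lit 176)))) (XT.nd (nat_lit 188) (nat_lit 0) (nat_lit 0) (XT.nd (nat_lit 94) (nat_lit 0) (nat_lit 0) (XT.lf (nat_lit 0) (nat_lit 180406475241) (nat_lit 0) (nat_lit 0) (nat_lit 0) (nat_lit 0) (nat_lit 0) (nat_lit 0) (nat_lit 1) (nat_lit 0) (nat_lit 1) (nat_lit 0) (nat_lit 345) (nat_lit 200) (nat_lit 175)) (XT.lf (nat_lit 0) (nat_lit 189414776251) (nat_lit 0) (nat_lit 0) (nat_lit 0) (nat_lit 0) (nat_lit 0) (nat_lit 0) (nat_lit 1) (nat_lit 0) (nat_lit 1) (nat_lit 0) (nat_lit 346) (nat_lit 200) (nat_lit 174))) (XT.nd (nat_lit 94) (nat_lit 0) (nat_lit 0) (XT.lf (nat_lit 0) (nat_lit 198873701681) (nat_lit 0) (nat_lit 0) (nat_lit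 0) (nat_lit 0) (nat_lit 0) (nat_lit 0) (nat_lit 1) (nat_lit 0) (nat_lit 1) (nat_lit 0) (nat_lit 347) (nat_lit 200) (nat_lit 173)) (XT.lf (nat_lit 0) (nat_lit 208805772780) (nat_lit 0) (nat_lit 0) (nat_lit 0) (nat_lit 0) (nat_lit 0) (nat_lit 0) (nat_lit 1) (nat_lit 0) (nat_lit 1) (nat_lit 0) (nat_lit 348) (nat_lit 200) (nat_lit 172))))) (XT.nd (nat_lit 42488) (nat_lit 0) (nat_lit 0) (XT.nd (nat_lit 42300) (nat_lit 0) (nat_lit 0) (XT.nd (nat_lit 94) (nat_lit 0) (nat_lit 0) (XT.lf (nat_lit 0) (nat_lit 219234637337) (nat_lit 0) (nat_lit 0) (nat_lit 0) (nat_lit 0) (nat_lit 0) (nat_lit 0) (nat_lit 1) (nat_lit 0) (nat_lit 1) (nat_lit 0) (nat_lit 349) (nat_lit 200) (nat_lit 171)) (XT.lf (nat_lit 0) (nat_lit 230185125982) (nat_lit 0) (nat_lit 0) (nat_lit 0) (nat_lit 0) (nat_lit 0) (nat_lit 0) (nat_lit 1) (nat_lit 0) (nat_lit 1) (nat_lit 0) (nat_lit 350) (nat_lit 200) (nat_lit 170)))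 (XT.nd (nat_lit 94) (nat_lit 0) (nat_lit 0) (XT.lf (nat_lit 0) (nat_lit 24294473906) (nat_lit 0) (nat_lit 0) (nat_lit 0) (nat_lit 0) (nat_lit 0) (nat_lit 0) (nat_lit 1) (nat_lit 0) (nat_lit 1) (nat_lit 0) (nat_lit 318) (nat_lit 201) (nat_lit 201)) (XT.lf (nat_lit 0) (nat_lit 50994754542) (nat_lit 0) (nat_lit 0) (nat_lit 0) (nat_lit 0) (nat_lit 0) (nat_lit 0) (nat_lit 1) (nat_lit 0) (nat_lit 1) (nat_lit 0) (nat_lit 319) (nat_lit 201) (nat_lit 200)))) (XT.nd (nat_lit 188) (nat_lit 0) (nat_lit 0) (XT.nd (nat_lit 94) (nat_lit 0) (nat_lit 0) (XT.lf (nat_lit 0) (nat_lit 53521596054) (nat_lit 0) (nat_lit 0) (nat_lit 0) (nat_lit 0) (nat_lit 0) (nat_lit 0) (nat_lit 1) (nat_lit 0) (nat_lit 1) (nat_lit 0) (nat_lit 320) (nat_lit 201) (nat_lit 199)) (XT.lf (nat_lit 0) (nat_lit 56175488636) (nat_lit 0) (nat_lit 0) (nat_lit 0) (nat_lit 0) (nat_lit 0) (nat_lit 0) (nat_lit 1) (nat_lit 0)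 (nat_lit 1) (nat_lit 0) (nat_lit 321) (nat_lit 201) (nat_lit 198))) (XT.nd (nat_lit 94) (nat_lit 0) (nat_lit 0) (XT.lf (nat_lit 0) (nat_lit 58962751080) (nat_lit 0) (nat_lit 0) (nat_lit 0) (nat_lit 0) (nat_lit 0) (nat_lit 0) (nat_lit 1) (nat_lit 0) (nat_lit 1) (nat_lit 0) (nat_lit 322) (nat_lit 201) (nat_lit 197)) (XT.nd (nat_lit 94) (nat_lit 0) (nat_lit 0) (XT.lf (nat_lit 0) (nat_lit 61890019727) (nat_lit 0) (nat_lit 0) (nat_lit 0) (nat_lit 0) (nat_lit 0) (nat_lit 0) (nat_lit 1) (nat_lit 0) (nat_lit 1) (nat_lit 0) (nat_lit 323) (nat_lit 201) (nat_lit 196)) (XT.lf (nat_lit 0) (nat_lit 64964264261) (nat_lit 0) (nat_lit 0) (nat_lit 0) (nat_lit 0) (nat_lit 0) (nat_lit 0) (nat_lit 1) (nat_lit 0) (nat_lit 1) (nat_lit 0) (nat_lit 324) (nat_lit 201) (nat_lit 195))))))))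
noncomputable def xc10 : XT := (XT.nd (nat_lit 1598) (nat_lit 0) (nat_lit 0) (XT.nd (nat_lit 752) (nat_lit 0) (nat_lit 0) (XT.nd (nat_lit 376) (nat_lit 0) (nat_lit 0) (XT.nd (nat_lit 188) (nat_lit 0) (nat_lit 0) (XT.nd (nat_lit 94) (nat_lit 0) (nat_lit 0) (XT.lf (nat_lit 0) (nat_lit 68192804315) (nat_lit 0) (nat_lit 0) (nat_lit 0) (nat_lit 0) (nat_lit 0) (nat_lit 0) (nat_lit 1) (nat_lit 0) (nat_lit 1) (nat_lit 0) (nat_lit 325) (nat_lit 201) (nat_lit 194)) (XT.lf (nat_lit 0) (nat_lit 71583326888) (nat_lit 0) (nat_lit 0) (nat_lit 0) (nat_lit 0) (nat_lit 0) (nat_lit 0) (nat_lit 1) (nat_lit 0) (nat_lit 1) (nat_lit 0) (nat_lit 326) (nat_lit 201) (nat_lit 193))) (XT.nd (nat_lit 94) (nat_lit 0) (nat_lit 0) (XT.lf (nat_lit 0) (nat_lit 75143904652) (nat_lit 0) (nat_lit 0) (nat_lit 0) (nat_lit 0) (nat_lit 0) (nat_lit 0) (nat_lit 1) (nat_lit 0) (nat_lit 1) (nat_lit 0) (nat_lit 327)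 (nat_lit 201) (nat_lit 192)) (XT.lf (nat_lit 0) (nat_lit 78883015173) (nat_lit 0) (nat_lit 0) (nat_lit 0) (nat_lit 0) (nat_lit 0) (nat_lit 0) (nat_lit 1) (nat_lit 0) (nat_lit 1) (nat_lit 0) (nat_lit 328) (nat_lit 201) (nat_lit 191)))) (XT.nd (nat_lit 188) (nat_lit 0) (nat_lit 0) (XT.nd (nat_lit 94) (nat_lit 0) (nat_lit 0) (XT.lf (nat_lit 0) (nat_lit 82809561097) (nat_lit 0) (nat_lit 0) (nat_lit 0) (nat_lit 0) (nat_lit 0) (nat_lit 0) (nat_lit 1) (nat_lit 0) (nat_lit 1) (nat_lit 0) (nat_lit 329) (nat_lit 201) (nat_lit 190)) (XT.lf (nat_lit 0) (nat_lit 86932891341) (nat_lit 0) (nat_lit 0) (nat_lit 0) (nat_lit 0) (nat_lit 0) (nat_lit 0) (nat_lit 1) (nat_lit 0) (nat_lit 1) (nat_lit 0) (nat_lit 330) (nat_lit 201) (nat_lit 189))) (XT.nd (nat_lit 94) (nat_lit 0) (nat_lit 0) (XT.lf (nat_lit 0) (nat_lit 91262823359) (nat_lit 0) (nat_lit 0) (nat_lit 0) (nat_lit 0) (nat_lit 0) (nat_lit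 0) (nat_lit 1) (nat_lit 0) (nat_lit 1) (nat_lit 0) (nat_lit 331) (nat_lit 201) (nat_lit 188)) (XT.lf (nat_lit 0) (nat_lit 95809666513) (nat_lit 0) (nat_lit 0) (nat_lit 0) (nat_lit 0) (nat_lit 0) (nat_lit 0) (nat_lit 1) (nat_lit 0) (nat_lit 1) (nat_lit 0) (nat_lit 332) (nat_lit 201) (nat_lit 187))))) (XT.nd (nat_lit 376) (nat_lit 0) (nat_lit 0) (XT.nd (nat_lit 188) (nat_lit 0) (nat_lit 0) (XT.nd (nat_lit 94) (nat_lit 0) (nat_lit 0) (XT.lf (nat_lit 0) (nat_lit 100584246619) (nat_lit 0) (nat_lit 0) (nat_lit 0) (nat_lit 0) (nat_lit 0) (nat_lit 0) (nat_lit 1) (nat_lit 0) (nat_lit 1) (nat_lit 0) (nat_lit 333) (nat_lit 201) (nat_lit 186)) (XT.lf (nat_lit 0) (nat_lit 105597931726) (nat_lit 0) (nat_lit 0) (nat_lit 0) (nat_lit 0) (nat_lit 0) (nat_lit 0) (nat_lit 1) (nat_lit 0) (nat_lit 1) (nat_lit 0) (nat_lit 334) (nat_lit 201) (nat_lit 185))) (XT.nd (nat_lit 94) (nat_lit 0) (nat_lit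 0) (XT.lf (nat_lit 0) (nat_lit 110862659178) (nat_lit 0) (nat_lit 0) (nat_lit 0) (nat_lit 0) (nat_lit 0) (nat_lit 0) (nat_lit 1) (nat_lit 0) (nat_lit 1) (nat_lit 0) (nat_lit 335) (nat_lit 201) (nat_lit 184)) (XT.lf (nat_lit 0) (nat_lit 116390964042) (nat_lit 0) (nat_lit 0) (nat_lit 0) (nat_lit 0) (nat_lit 0) (nat_lit 0) (nat_lit 1) (nat_lit 0) (nat_lit 1) (nat_lit 0) (nat_lit 336) (nat_lit 201) (nat_lit 183)))) (XT.nd (nat_lit 188) (nat_lit 0) (nat_lit 0) (XT.nd (nat_lit 94) (nat_lit 0) (nat_lit 0) (XT.lf (nat_lit 0) (nat_lit 122196008948) (nat_lit 0) (nat_lit 0) (nat_lit 0) (nat_lit 0) (nat_lit 0) (nat_lit 0) (nat_lit 1) (nat_lit 0) (nat_lit 1) (nat_lit 0) (nat_lit 337) (nat_lit 201) (nat_lit 182)) (XT.lf (nat_lit 0) (nat_lit 128291615432) (nat_lit 0) (nat_lit 0) (nat_lit 0) (nat_lit 0) (nat_lit 0) (nat_lit 0) (nat_lit 1) (nat_lit 0) (nat_lit 1) (nat_lit 0) (nat_lit 338)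 (nat_lit 201) (nat_lit 181))) (XT.nd (nat_lit 94) (nat_lit 0) (nat_lit 0) (XT.lf (nat_lit 0) (nat_lit 134692296842) (nat_lit 0) (nat_lit 0) (nat_lit 0) (nat_lit 0) (nat_lit 0) (nat_lit 0) (nat_lit 1) (nat_lit 0) (nat_lit 1) (nat_lit 0) (nat_lit 339) (nat_lit 201) (nat_lit 180)) (XT.nd (nat_lit 94) (nat_lit 0) (nat_lit 0) (XT.lf (nat_lit 0) (nat_lit 141413292895) (nat_lit 0) (nat_lit 0) (nat_lit 0) (nat_lit 0) (nat_lit 0) (nat_lit 0) (nat_lit 1) (nat_lit 0) (nat_lit 1) (nat_lit 0) (nat_lit 340) (nat_lit 201) (nat_lit 179)) (XT.lf (nat_lit 0) (nat_lit 148470605964) (nat_lit 0) (nat_lit 0) (nat_lit 0) (nat_lit 0) (nat_lit 0) (nat_lit 0) (nat_lit 1) (nat_lit 0) (nat_lit 1) (nat_lit 0) (nat_lit 341) (nat_lit 201) (nat_lit 178))))))) (XT.nd (nat_lit 752) (nat_lit 0) (nat_lit 0) (XT.nd (nat_lit 376) (nat_lit 0) (nat_lit 0) (XT.nd (nat_lit 188) (nat_lit 0) (nat_lit 0) (XT.nd (nat_lit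 94) (nat_lit 0) (nat_lit 0) (XT.lf (nat_lit 0) (nat_lit 155881039175) (nat_lit 0) (nat_lit 0) (nat_lit 0) (nat_lit 0) (nat_lit 0) (nat_lit 0) (nat_lit 1) (nat_lit 0) (nat_lit 1) (nat_lit 0) (nat_lit 342) (nat_lit 201) (nat_lit 177)) (XT.lf (nat_lit 0) (nat_lit 163662236416) (nat_lit 0) (nat_lit 0) (nat_lit 0) (nat_lit 0) (nat_lit 0) (nat_lit 0) (nat_lit 1) (nat_lit 0) (nat_lit 1) (nat_lit 0) (nat_lit 343) (nat_lit 201) (nat_lit 176))) (XT.nd (nat_lit 94) (nat_lit 0) (nat_lit 0) (XT.lf (nat_lit 0) (nat_lit 171832724348) (nat_lit 0) (nat_lit 0) (nat_lit 0) (nat_lit 0) (nat_lit 0) (nat_lit 0) (nat_lit 1) (nat_lit 0) (nat_lit 1) (nat_lit 0) (nat_lit 344) (nat_lit 201) (nat_lit 175)) (XT.lf (nat_lit 0) (nat_lit 180411956513) (nat_lit 0) (nat_lit 0) (nat_lit 0) (nat_lit 0) (nat_lit 0) (nat_lit 0) (nat_lit 1) (nat_lit 0) (nat_lit 1) (nat_lit 0) (nat_lit 345) (nat_lit 201) (nat_lit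 174)))) (XT.nd (nat_lit 188) (nat_lit 0) (nat_lit 0) (XT.nd (nat_lit 94) (nat_lit 0) (nat_lit 0) (XT.lf (nat_lit 0) (nat_lit 189420359654) (nat_lit 0) (nat_lit 0) (nat_lit 0) (nat_lit 0) (nat_lit 0) (nat_lit 0) (nat_lit 1) (nat_lit 0) (nat_lit 1) (nat_lit 0) (nat_lit 346) (nat_lit 201) (nat_lit 173)) (XT.lf (nat_lit 0) (nat_lit 198879382351) (nat_lit 0) (nat_lit 0) (nat_lit 0) (nat_lit 0) (nat_lit 0) (nat_lit 0) (nat_lit 1) (nat_lit 0) (nat_lit 1) (nat_lit 0) (nat_lit 347) (nat_lit 201) (nat_lit 172))) (XT.nd (nat_lit 94) (nat_lit 0) (nat_lit 0) (XT.lf (nat_lit 0) (nat_lit 208811546086) (nat_lit 0) (nat_lit 0) (nat_lit 0) (nat_lit 0) (nat_lit 0) (nat_lit 0) (nat_lit 1) (nat_lit 0) (nat_lit 1) (nat_lit 0) (nat_lit 348) (nat_lit 201) (nat_lit 171)) (XT.lf (nat_lit 0) (nat_lit 219240498867) (nat_lit 0) (nat_lit 0) (nat_lit 0) (nat_lit 0) (nat_lit 0) (nat_lit 0) (nat_lit 1)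 (nat_lit 0) (nat_lit 1) (nat_lit 0) (nat_lit 349) (nat_lit 201) (nat_lit 170))))) (XT.nd (nat_lit 42300) (nat_lit 0) (nat_lit 0) (XT.nd (nat_lit 42112) (nat_lit 0) (nat_lit 0) (XT.nd (nat_lit 42018) (nat_lit 0) (nat_lit 0) (XT.lf (nat_lit 0) (nat_lit 230191071536) (nat_lit 0) (nat_lit 0) (nat_lit 0) (nat_lit 0) (nat_lit 0) (nat_lit 0) (nat_lit 1) (nat_lit 0) (nat_lit 1) (nat_lit 0) (nat_lit 350) (nat_lit 201) (nat_lit 169)) (XT.lf (nat_lit 0) (nat_lit 22058700212) (nat_lit 0) (nat_lit 0) (nat_lit 0) (nat_lit 0) (nat_lit 0) (nat_lit 0) (nat_lit 1) (nat_lit 0) (nat_lit 1) (nat_lit 0) (nat_lit 316) (nat_lit 202) (nat_lit 202))) (XT.nd (nat_lit 94) (nat_lit 0) (nat_lit 0) (XT.lf (nat_lit 0) (nat_lit 46298447752) (nat_lit 0) (nat_lit 0) (nat_lit 0) (nat_lit 0) (nat_lit 0) (nat_lit 0) (nat_lit 1) (nat_lit 0) (nat_lit 1) (nat_lit 0) (nat_lit 317) (nat_lit 202) (nat_lit 201)) (XT.lf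 (nat_lit 0) (nat_lit 48589329113) (nat_lit 0) (nat_lit 0) (nat_lit 0) (nat_lit 0) (nat_lit 0) (nat_lit 0) (nat_lit 1) (nat_lit 0) (nat_lit 1) (nat_lit 0) (nat_lit 318) (nat_lit 202) (nat_lit 200)))) (XT.nd (nat_lit 188) (nat_lit 0) (nat_lit 0) (XT.nd (nat_lit 94) (nat_lit 0) (nat_lit 0) (XT.lf (nat_lit 0) (nat_lit 50995498987) (nat_lit 0) (nat_lit 0) (nat_lit 0) (nat_lit 0) (nat_lit 0) (nat_lit 0) (nat_lit 1) (nat_lit 0) (nat_lit 1) (nat_lit 0) (nat_lit 319) (nat_lit 202) (nat_lit 199)) (XT.lf (nat_lit 0) (nat_lit 53522686350) (nat_lit 0) (nat_lit 0) (nat_lit 0) (nat_lit 0) (nat_lit 0) (nat_lit 0) (nat_lit 1) (nat_lit 0) (nat_lit 1) (nat_lit 0) (nat_lit 320) (nat_lit 202) (nat_lit 198))) (XT.nd (nat_lit 94) (nat_lit 0) (nat_lit 0) (XT.lf (nat_lit 0) (nat_lit 56176908314) (nat_lit 0) (nat_lit 0) (nat_lit 0) (nat_lit 0) (nat_lit 0) (nat_lit 0) (nat_lit 1) (nat_lit 0) (nat_lit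 1) (nat_lit 0) (nat_lit 321) (nat_lit 202) (nat_lit 197)) (XT.nd (nat_lit 94) (nat_lit 0) (nat_lit 0) (XT.lf (nat_lit 0) (nat_lit 58964484456) (nat_lit 0) (nat_lit 0) (nat_lit 0) (nat_lit 0) (nat_lit 0) (nat_lit 0) (nat_lit 1) (nat_lit 0) (nat_lit 1) (nat_lit 0) (nat_lit 322) (nat_lit 202) (nat_lit 196)) (XT.lf (nat_lit 0) (nat_lit 61892051861) (nat_lit 0) (nat_lit 0) (nat_lit 0) (nat_lit 0) (nat_lit 0) (nat_lit 0) (nat_lit 1) (nat_lit 0) (nat_lit 1) (nat_lit 0) (nat_lit 323) (nat_lit 202) (nat_lit 195))))))))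
noncomputable def xc11 : XT := (XT.nd (nat_lit 1598) (nat_lit 0) (nat_lit 0) (XT.nd (nat_lit 752) (nat_lit 0) (nat_lit 0) (XT.nd (nat_lit 376) (nat_lit 0) (nat_lit 0) (XT.nd (nat_lit 188) (nat_lit 0) (nat_lit 0) (XT.nd (nat_lit 94) (nat_lit 0) (nat_lit 0) (XT.lf (nat_lit 0) (nat_lit 64966580929) (nat_lit 0) (nat_lit 0) (nat_lit 0) (nat_lit 0) (nat_lit 0) (nat_lit 0) (nat_lit 1) (nat_lit 0) (nat_lit 1) (nat_lit 0) (nat_lit 324) (nat_lit 202) (nat_lit 194)) (XT.lf (nat_lit 0) (nat_lit 68195391966) (nat_lit 0) (nat_lit 0) (nat_lit 0) (nat_lit 0) (nat_lit 0) (nat_lit 0) (nat_lit 1) (nat_lit 0) (nat_lit 1) (nat_lit 0) (nat_lit 325) (nat_lit 202) (nat_lit 193))) (XT.nd (nat_lit 94) (nat_lit 0) (nat_lit 0) (XT.lf (nat_lit 0) (nat_lit 71586172618) (nat_lit 0) (nat_lit 0) (nat_lit 0) (nat_lit 0) (nat_lit 0) (nat_lit 0) (nat_lit 1) (nat_lit 0) (nat_lit 1) (nat_lit 0) (nat_lit 326)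 (nat_lit 202) (nat_lit 192)) (XT.lf (nat_lit 0) (nat_lit 75146996172) (nat_lit 0) (nat_lit 0) (nat_lit 0) (nat_lit 0) (nat_lit 0) (nat_lit 0) (nat_lit 1) (nat_lit 0) (nat_lit 1) (nat_lit 0) (nat_lit 327) (nat_lit 202) (nat_lit 191)))) (XT.nd (nat_lit 188) (nat_lit 0) (nat_lit 0) (XT.nd (nat_lit 94) (nat_lit 0) (nat_lit 0) (XT.lf (nat_lit 0) (nat_lit 78886340779) (nat_lit 0) (nat_lit 0) (nat_lit 0) (nat_lit 0) (nat_lit 0) (nat_lit 0) (nat_lit 1) (nat_lit 0) (nat_lit 1) (nat_lit 0) (nat_lit 328) (nat_lit 202) (nat_lit 190)) (XT.lf (nat_lit 0) (nat_lit 82813109642) (nat_lit 0) (nat_lit 0) (nat_lit 0) (nat_lit 0) (nat_lit 0) (nat_lit 0) (nat_lit 1) (nat_lit 0) (nat_lit 1) (nat_lit 0) (nat_lit 329) (nat_lit 202) (nat_lit 189))) (XT.nd (nat_lit 94) (nat_lit 0) (nat_lit 0) (XT.lf (nat_lit 0) (nat_lit 86936652209) (nat_lit 0) (nat_lit 0) (nat_lit 0) (nat_lit 0) (nat_lit 0) (nat_lit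 0) (nat_lit 1) (nat_lit 0) (nat_lit 1) (nat_lit 0) (nat_lit 330) (nat_lit 202) (nat_lit 188)) (XT.lf (nat_lit 0) (nat_lit 91266786439) (nat_lit 0) (nat_lit 0) (nat_lit 0) (nat_lit 0) (nat_lit 0) (nat_lit 0) (nat_lit 1) (nat_lit 0) (nat_lit 1) (nat_lit 0) (nat_lit 331) (nat_lit 202) (nat_lit 187))))) (XT.nd (nat_lit 376) (nat_lit 0) (nat_lit 0) (XT.nd (nat_lit 188) (nat_lit 0) (nat_lit 0) (XT.nd (nat_lit 94) (nat_lit 0) (nat_lit 0) (XT.lf (nat_lit 0) (nat_lit 95813822175) (nat_lit 0) (nat_lit 0) (nat_lit 0) (nat_lit 0) (nat_lit 0) (nat_lit 0) (nat_lit 1) (nat_lit 0) (nat_lit 1) (nat_lit 0) (nat_lit 332) (nat_lit 202) (nat_lit 186)) (XT.lf (nat_lit 0) (nat_lit 100588585694) (nat_lit 0) (nat_lit 0) (nat_lit 0) (nat_lit 0) (nat_lit 0) (nat_lit 0) (nat_lit 1) (nat_lit 0) (nat_lit 1) (nat_lit 0) (nat_lit 333) (nat_lit 202) (nat_lit 185))) (XT.nd (nat_lit 94) (nat_lit 0) (nat_lit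 0) (XT.lf (nat_lit 0) (nat_lit 105602445479) (nat_lit 0) (nat_lit 0) (nat_lit 0) (nat_lit 0) (nat_lit 0) (nat_lit 0) (nat_lit 1) (nat_lit 0) (nat_lit 1) (nat_lit 0) (nat_lit 334) (nat_lit 202) (nat_lit 184)) (XT.lf (nat_lit 0) (nat_lit 110867339292) (nat_lit 0) (nat_lit 0) (nat_lit 0) (nat_lit 0) (nat_lit 0) (nat_lit 0) (nat_lit 1) (nat_lit 0) (nat_lit 1) (nat_lit 0) (nat_lit 335) (nat_lit 202) (nat_lit 183)))) (XT.nd (nat_lit 188) (nat_lit 0) (nat_lit 0) (XT.nd (nat_lit 94) (nat_lit 0) (nat_lit 0) (XT.lf (nat_lit 0) (nat_lit 116395802594) (nat_lit 0) (nat_lit 0) (nat_lit 0) (nat_lit 0) (nat_lit 0) (nat_lit 0) (nat_lit 1) (nat_lit 0) (nat_lit 1) (nat_lit 0) (nat_lit 336) (nat_lit 202) (nat_lit 182)) (XT.lf (nat_lit 0) (nat_lit 122200998394) (nat_lit 0) (nat_lit 0) (nat_lit 0) (nat_lit 0) (nat_lit 0) (nat_lit 0) (nat_lit 1) (nat_lit 0) (nat_lit 1) (nat_lit 0) (nat_lit 337)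 (nat_lit 202) (nat_lit 181))) (XT.nd (nat_lit 94) (nat_lit 0) (nat_lit 0) (XT.lf (nat_lit 0) (nat_lit 128296748586) (nat_lit 0) (nat_lit 0) (nat_lit 0) (nat_lit 0) (nat_lit 0) (nat_lit 0) (nat_lit 1) (nat_lit 0) (nat_lit 1) (nat_lit 0) (nat_lit 338) (nat_lit 202) (nat_lit 180)) (XT.nd (nat_lit 94) (nat_lit 0) (nat_lit 0) (XT.lf (nat_lit 0) (nat_lit 134697566861) (nat_lit 0) (nat_lit 0) (nat_lit 0) (nat_lit 0) (nat_lit 0) (nat_lit 0) (nat_lit 1) (nat_lit 0) (nat_lit 1) (nat_lit 0) (nat_lit 339) (nat_lit 202) (nat_lit 179)) (XT.lf (nat_lit 0) (nat_lit 141418693262) (nat_lit 0) (nat_lit 0) (nat_lit 0) (nat_lit 0) (nat_lit 0) (nat_lit 0) (nat_lit 1) (nat_lit 0) (nat_lit 1) (nat_lit 0) (nat_lit 340) (nat_lit 202) (nat_lit 178))))))) (XT.nd (nat_lit 752) (nat_lit 0) (nat_lit 0) (XT.nd (nat_lit 376) (nat_lit 0) (nat_lit 0) (XT.nd (nat_lit 188) (nat_lit 0) (nat_lit 0) (XT.nd (nat_lit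 94) (nat_lit 0) (nat_lit 0) (XT.lf (nat_lit 0) (nat_lit 148476130472) (nat_lit 0) (nat_lit 0) (nat_lit 0) (nat_lit 0) (nat_lit 0) (nat_lit 0) (nat_lit 1) (nat_lit 0) (nat_lit 1) (nat_lit 0) (nat_lit 341) (nat_lit 202) (nat_lit 177)) (XT.lf (nat_lit 0) (nat_lit 155886681912) (nat_lit 0) (nat_lit 0) (nat_lit 0) (nat_lit 0) (nat_lit 0) (nat_lit 0) (nat_lit 1) (nat_lit 0) (nat_lit 1) (nat_lit 0) (nat_lit 342) (nat_lit 202) (nat_lit 176))) (XT.nd (nat_lit 94) (nat_lit 0) (nat_lit 0) (XT.lf (nat_lit 0) (nat_lit 163667991752) (nat_lit 0) (nat_lit 0) (nat_lit 0) (nat_lit 0) (nat_lit 0) (nat_lit 0) (nat_lit 1) (nat_lit 0) (nat_lit 1) (nat_lit 0) (nat_lit 343) (nat_lit 202) (nat_lit 175)) (XT.lf (nat_lit 0) (nat_lit 171838586921) (nat_lit 0) (nat_lit 0) (nat_lit 0) (nat_lit 0) (nat_lit 0) (nat_lit 0) (nat_lit 1) (nat_lit 0) (nat_lit 1) (nat_lit 0) (nat_lit 344) (nat_lit 202) (nat_lit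 174)))) (XT.nd (nat_lit 188) (nat_lit 0) (nat_lit 0) (XT.nd (nat_lit 94) (nat_lit 0) (nat_lit 0) (XT.lf (nat_lit 0) (nat_lit 180417921217) (nat_lit 0) (nat_lit 0) (nat_lit 0) (nat_lit 0) (nat_lit 0) (nat_lit 0) (nat_lit 1) (nat_lit 0) (nat_lit 1) (nat_lit 0) (nat_lit 345) (nat_lit 202) (nat_lit 173)) (XT.lf (nat_lit 0) (nat_lit 189426421626) (nat_lit 0) (nat_lit 0) (nat_lit 0) (nat_lit 0) (nat_lit 0) (nat_lit 0) (nat_lit 1) (nat_lit 0) (nat_lit 1) (nat_lit 0) (nat_lit 346) (nat_lit 202) (nat_lit 172))) (XT.nd (nat_lit 94) (nat_lit 0) (nat_lit 0) (XT.lf (nat_lit 0) (nat_lit 198885536958) (nat_lit 0) (nat_lit 0) (nat_lit 0) (nat_lit 0) (nat_lit 0) (nat_lit 0) (nat_lit 1) (nat_lit 0) (nat_lit 1) (nat_lit 0) (nat_lit 347) (nat_lit 202) (nat_lit 171)) (XT.lf (nat_lit 0) (nat_lit 208817788917) (nat_lit 0) (nat_lit 0) (nat_lit 0) (nat_lit 0) (nat_lit 0) (nat_lit 0) (nat_lit 1)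 (nat_lit 0) (nat_lit 1) (nat_lit 0) (nat_lit 348) (nat_lit 202) (nat_lit 170))))) (XT.nd (nat_lit 42206) (nat_lit 0) (nat_lit 0) (XT.nd (nat_lit 42018) (nat_lit 0) (nat_lit 0) (XT.nd (nat_lit 41924) (nat_lit 0) (nat_lit 0) (XT.lf (nat_lit 0) (nat_lit 219246825722) (nat_lit 0) (nat_lit 0) (nat_lit 0) (nat_lit 0) (nat_lit 0) (nat_lit 0) (nat_lit 1) (nat_lit 0) (nat_lit 1) (nat_lit 0) (nat_lit 349) (nat_lit 202) (nat_lit 169)) (XT.lf (nat_lit 0) (nat_lit 20031932375) (nat_lit 0) (nat_lit 0) (nat_lit 0) (nat_lit 0) (nat_lit 0) (nat_lit 0) (nat_lit 1) (nat_lit 0) (nat_lit 1) (nat_lit 0) (nat_lit 314) (nat_lit 203) (nat_lit 203))) (XT.nd (nat_lit 94) (nat_lit 0) (nat_lit 0) (XT.lf (nat_lit 0) (nat_lit 42040994160) (nat_lit 0) (nat_lit 0) (nat_lit 0) (nat_lit 0) (nat_lit 0) (nat_lit 0) (nat_lit 1) (nat_lit 0) (nat_lit 1) (nat_lit 0) (nat_lit 315) (nat_lit 203) (nat_lit 202)) (XT.lf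 (nat_lit 0) (nat_lit 44117800790) (nat_lit 0) (nat_lit 0) (nat_lit 0) (nat_lit 0) (nat_lit 0) (nat_lit 0) (nat_lit 1) (nat_lit 0) (nat_lit 1) (nat_lit 0) (nat_lit 316) (nat_lit 203) (nat_lit 201)))) (XT.nd (nat_lit 188) (nat_lit 0) (nat_lit 0) (XT.nd (nat_lit 94) (nat_lit 0) (nat_lit 0) (XT.lf (nat_lit 0) (nat_lit 46299229419) (nat_lit 0) (nat_lit 0) (nat_lit 0) (nat_lit 0) (nat_lit 0) (nat_lit 0) (nat_lit 1) (nat_lit 0) (nat_lit 1) (nat_lit 0) (nat_lit 317) (nat_lit 203) (nat_lit 200)) (XT.lf (nat_lit 0) (nat_lit 48590473924) (nat_lit 0) (nat_lit 0) (nat_lit 0) (nat_lit 0) (nat_lit 0) (nat_lit 0) (nat_lit 1) (nat_lit 0) (nat_lit 1) (nat_lit 0) (nat_lit 318) (nat_lit 203) (nat_lit 199))) (XT.nd (nat_lit 94) (nat_lit 0) (nat_lit 0) (XT.lf (nat_lit 0) (nat_lit 50996989649) (nat_lit 0) (nat_lit 0) (nat_lit 0) (nat_lit 0) (nat_lit 0) (nat_lit 0) (nat_lit 1) (nat_lit 0) (nat_lit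 1) (nat_lit 0) (nat_lit 319) (nat_lit 203) (nat_lit 198)) (XT.nd (nat_lit 94) (nat_lit 0) (nat_lit 0) (XT.lf (nat_lit 0) (nat_lit 53524506394) (nat_lit 0) (nat_lit 0) (nat_lit 0) (nat_lit 0) (nat_lit 0) (nat_lit 0) (nat_lit 1) (nat_lit 0) (nat_lit 1) (nat_lit 0) (nat_lit 320) (nat_lit 203) (nat_lit 197)) (XT.lf (nat_lit 0) (nat_lit 56179042055) (nat_lit 0) (nat_lit 0) (nat_lit 0) (nat_lit 0) (nat_lit 0) (nat_lit 0) (nat_lit 1) (nat_lit 0) (nat_lit 1) (nat_lit 0) (nat_lit 321) (nat_lit 203) (nat_lit 196))))))))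
noncomputable def xc12 : XT := (XT.nd (nat_lit 1504) (nat_lit 0) (nat_lit 0) (XT.nd (nat_lit 752) (nat_lit 0) (nat_lit 0) (XT.nd (nat_lit 376) (nat_lit 0) (nat_lit 0) (XT.nd (nat_lit 188) (nat_lit 0) (nat_lit 0) (XT.nd (nat_lit 94) (nat_lit 0) (nat_lit 0) (XT.lf (nat_lit 0) (nat_lit 58966916957) (nat_lit 0) (nat_lit 0) (nat_lit 0) (nat_lit 0) (nat_lit 0) (nat_lit 0) (nat_lit 1) (nat_lit 0) (nat_lit 1) (nat_lit 0) (nat_lit 322) (nat_lit 203) (nat_lit 195)) (XT.lf (nat_lit 0) (nat_lit 61894768895) (nat_lit 0) (nat_lit 0) (nat_lit 0) (nat_lit 0) (nat_lit 0) (nat_lit 0) (nat_lit 1) (nat_lit 0) (nat_lit 1) (nat_lit 0) (nat_lit 323) (nat_lit 203) (nat_lit 194))) (XT.nd (nat_lit 94) (nat_lit 0) (nat_lit 0) (XT.lf (nat_lit 0) (nat_lit 64969568946) (nat_lit 0) (nat_lit 0) (nat_lit 0) (nat_lit 0) (nat_lit 0) (nat_lit 0) (nat_lit 1) (nat_lit 0) (nat_lit 1) (nat_lit 0) (nat_lit 324)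 (nat_lit 203) (nat_lit 193)) (XT.lf (nat_lit 0) (nat_lit 68198638062) (nat_lit 0) (nat_lit 0) (nat_lit 0) (nat_lit 0) (nat_lit 0) (nat_lit 0) (nat_lit 1) (nat_lit 0) (nat_lit 1) (nat_lit 0) (nat_lit 325) (nat_lit 203) (nat_lit 192)))) (XT.nd (nat_lit 188) (nat_lit 0) (nat_lit 0) (XT.nd (nat_lit 94) (nat_lit 0) (nat_lit 0) (XT.lf (nat_lit 0) (nat_lit 71589664504) (nat_lit 0) (nat_lit 0) (nat_lit 0) (nat_lit 0) (nat_lit 0) (nat_lit 0) (nat_lit 1) (nat_lit 0) (nat_lit 1) (nat_lit 0) (nat_lit 326) (nat_lit 203) (nat_lit 191)) (XT.lf (nat_lit 0) (nat_lit 75150722144) (nat_lit 0) (nat_lit 0) (nat_lit 0) (nat_lit 0) (nat_lit 0) (nat_lit 0) (nat_lit 1) (nat_lit 0) (nat_lit 1) (nat_lit 0) (nat_lit 327) (nat_lit 203) (nat_lit 190))) (XT.nd (nat_lit 94) (nat_lit 0) (nat_lit 0) (XT.lf (nat_lit 0) (nat_lit 78890289690) (nat_lit 0) (nat_lit 0) (nat_lit 0) (nat_lit 0) (nat_lit 0) (nat_lit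 0) (nat_lit 1) (nat_lit 0) (nat_lit 1) (nat_lit 0) (nat_lit 328) (nat_lit 203) (nat_lit 189)) (XT.lf (nat_lit 0) (nat_lit 82817270875) (nat_lit 0) (nat_lit 0) (nat_lit 0) (nat_lit 0) (nat_lit 0) (nat_lit 0) (nat_lit 1) (nat_lit 0) (nat_lit 1) (nat_lit 0) (nat_lit 329) (nat_lit 203) (nat_lit 188))))) (XT.nd (nat_lit 376) (nat_lit 0) (nat_lit 0) (XT.nd (nat_lit 188) (nat_lit 0) (nat_lit 0) (XT.nd (nat_lit 94) (nat_lit 0) (nat_lit 0) (XT.lf (nat_lit 0) (nat_lit 86941015654) (nat_lit 0) (nat_lit 0) (nat_lit 0) (nat_lit 0) (nat_lit 0) (nat_lit 0) (nat_lit 1) (nat_lit 0) (nat_lit 1) (nat_lit 0) (nat_lit 330) (nat_lit 203) (nat_lit 187)) (XT.lf (nat_lit 0) (nat_lit 91271342467) (nat_lit 0) (nat_lit 0) (nat_lit 0) (nat_lit 0) (nat_lit 0) (nat_lit 0) (nat_lit 1) (nat_lit 0) (nat_lit 1) (nat_lit 0) (nat_lit 331) (nat_lit 203) (nat_lit 186))) (XT.nd (nat_lit 94) (nat_lit 0) (nat_lit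 0) (XT.lf (nat_lit 0) (nat_lit 95818561616) (nat_lit 0) (nat_lit 0) (nat_lit 0) (nat_lit 0) (nat_lit 0) (nat_lit 0) (nat_lit 1) (nat_lit 0) (nat_lit 1) (nat_lit 0) (nat_lit 332) (nat_lit 203) (nat_lit 185)) (XT.lf (nat_lit 0) (nat_lit 100593499813) (nat_lit 0) (nat_lit 0) (nat_lit 0) (nat_lit 0) (nat_lit 0) (nat_lit 0) (nat_lit 1) (nat_lit 0) (nat_lit 1) (nat_lit 0) (nat_lit 333) (nat_lit 203) (nat_lit 184)))) (XT.nd (nat_lit 188) (nat_lit 0) (nat_lit 0) (XT.nd (nat_lit 94) (nat_lit 0) (nat_lit 0) (XT.lf (nat_lit 0) (nat_lit 105607525958) (nat_lit 0) (nat_lit 0) (nat_lit 0) (nat_lit 0) (nat_lit 0) (nat_lit 0) (nat_lit 1) (nat_lit 0) (nat_lit 1) (nat_lit 0) (nat_lit 334) (nat_lit 203) (nat_lit 183)) (XT.lf (nat_lit 0) (nat_lit 110872578210) (nat_lit 0) (nat_lit 0) (nat_lit 0) (nat_lit 0) (nat_lit 0) (nat_lit 0) (nat_lit 1) (nat_lit 0) (nat_lit 1) (nat_lit 0) (nat_lit 335)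 (nat_lit 203) (nat_lit 182))) (XT.nd (nat_lit 94) (nat_lit 0) (nat_lit 0) (XT.lf (nat_lit 0) (nat_lit 116401192406) (nat_lit 0) (nat_lit 0) (nat_lit 0) (nat_lit 0) (nat_lit 0) (nat_lit 0) (nat_lit 1) (nat_lit 0) (nat_lit 1) (nat_lit 0) (nat_lit 336) (nat_lit 203) (nat_lit 181)) (XT.lf (nat_lit 0) (nat_lit 122206531914) (nat_lit 0) (nat_lit 0) (nat_lit 0) (nat_lit 0) (nat_lit 0) (nat_lit 0) (nat_lit 1) (nat_lit 0) (nat_lit 1) (nat_lit 0) (nat_lit 337) (nat_lit 203) (nat_lit 180)))))) (XT.nd (nat_lit 752) (nat_lit 0) (nat_lit 0) (XT.nd (nat_lit 376) (nat_lit 0) (nat_lit 0) (XT.nd (nat_lit 188) (nat_lit 0) (nat_lit 0) (XT.nd (nat_lit 94) (nat_lit 0) (nat_lit 0) (XT.lf (nat_lit 0) (nat_lit 128302418971) (nat_lit 0) (nat_lit 0) (nat_lit 0) (nat_lit 0) (nat_lit 0) (nat_lit 0) (nat_lit 1) (nat_lit 0) (nat_lit 1) (nat_lit 0) (nat_lit 338) (nat_lit 203) (nat_lit 179)) (XT.lf (nat_lit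 0) (nat_lit 134703367593) (nat_lit 0) (nat_lit 0) (nat_lit 0) (nat_lit 0) (nat_lit 0) (nat_lit 0) (nat_lit 1) (nat_lit 0) (nat_lit 1) (nat_lit 0) (nat_lit 339) (nat_lit 203) (nat_lit 178))) (XT.nd (nat_lit 94) (nat_lit 0) (nat_lit 0) (XT.lf (nat_lit 0) (nat_lit 141424618135) (nat_lit 0) (nat_lit 0) (nat_lit 0) (nat_lit 0) (nat_lit 0) (nat_lit 0) (nat_lit 1) (nat_lit 0) (nat_lit 1) (nat_lit 0) (nat_lit 340) (nat_lit 203) (nat_lit 177)) (XT.lf (nat_lit 0) (nat_lit 148482173574) (nat_lit 0) (nat_lit 0) (nat_lit 0) (nat_lit 0) (nat_lit 0) (nat_lit 0) (nat_lit 1) (nat_lit 0) (nat_lit 1) (nat_lit 0) (nat_lit 341) (nat_lit 203) (nat_lit 176)))) (XT.nd (nat_lit 188) (nat_lit 0) (nat_lit 0) (XT.nd (nat_lit 94) (nat_lit 0) (nat_lit 0) (XT.lf (nat_lit 0) (nat_lit 155892837613) (nat_lit 0) (nat_lit 0) (nat_lit 0) (nat_lit 0) (nat_lit 0) (nat_lit 0) (nat_lit 1) (nat_lit 0) (nat_lit 1)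 (nat_lit 0) (nat_lit 342) (nat_lit 203) (nat_lit 175)) (XT.lf (nat_lit 0) (nat_lit 163674254691) (nat_lit 0) (nat_lit 0) (nat_lit 0) (nat_lit 0) (nat_lit 0) (nat_lit 0) (nat_lit 1) (nat_lit 0) (nat_lit 1) (nat_lit 0) (nat_lit 343) (nat_lit 203) (nat_lit 174))) (XT.nd (nat_lit 94) (nat_lit 0) (nat_lit 0) (XT.lf (nat_lit 0) (nat_lit 171844951991) (nat_lit 0) (nat_lit 0) (nat_lit 0) (nat_lit 0) (nat_lit 0) (nat_lit 0) (nat_lit 1) (nat_lit 0) (nat_lit 1) (nat_lit 0) (nat_lit 344) (nat_lit 203) (nat_lit 173)) (XT.lf (nat_lit 0) (nat_lit 180424383554) (nat_lit 0) (nat_lit 0) (nat_lit 0) (nat_lit 0) (nat_lit 0) (nat_lit 0) (nat_lit 1) (nat_lit 0) (nat_lit 1) (nat_lit 0) (nat_lit 345) (nat_lit 203) (nat_lit 172))))) (XT.nd (nat_lit 42018) (nat_lit 0) (nat_lit 0) (XT.nd (nat_lit 188) (nat_lit 0) (nat_lit 0) (XT.nd (nat_lit 94) (nat_lit 0) (nat_lit 0) (XT.lf (nat_lit 0) (nat_lit 189432976599)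 (nat_lit 0) (nat_lit 0) (nat_lit 0) (nat_lit 0) (nat_lit 0) (nat_lit 0) (nat_lit 1) (nat_lit 0) (nat_lit 1) (nat_lit 0) (nat_lit 346) (nat_lit 203) (nat_lit 171)) (XT.lf (nat_lit 0) (nat_lit 198892180156) (nat_lit 0) (nat_lit 0) (nat_lit 0) (nat_lit 0) (nat_lit 0) (nat_lit 0) (nat_lit 1) (nat_lit 0) (nat_lit 1) (nat_lit 0) (nat_lit 347) (nat_lit 203) (nat_lit 170))) (XT.nd (nat_lit 94) (nat_lit 0) (nat_lit 0) (XT.lf (nat_lit 0) (nat_lit 208824516138) (nat_lit 0) (nat_lit 0) (nat_lit 0) (nat_lit 0) (nat_lit 0) (nat_lit 0) (nat_lit 1) (nat_lit 0) (nat_lit 1) (nat_lit 0) (nat_lit 348) (nat_lit 203) (nat_lit 169)) (XT.lf (nat_lit 0) (nat_lit 219253632965) (nat_lit 0) (nat_lit 0) (nat_lit 0) (nat_lit 0) (nat_lit 0) (nat_lit 0) (nat_lit 1) (nat_lit 0) (nat_lit 1) (nat_lit 0) (nat_lit 349) (nat_lit 203) (nat_lit 168)))) (XT.nd (nat_lit 188) (nat_lit 0) (nat_lit 0) (XT.nd (nat_lit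 94) (nat_lit 0) (nat_lit 0) (XT.lf (nat_lit 0) (nat_lit 18194796252) (nat_lit 0) (nat_lit 0) (nat_lit 0) (nat_lit 0) (nat_lit 0) (nat_lit 0) (nat_lit 1) (nat_lit 0) (nat_lit 1) (nat_lit 0) (nat_lit 312) (nat_lit 204) (nat_lit 204)) (XT.lf (nat_lit 0) (nat_lit 38181705111) (nat_lit 0) (nat_lit 0) (nat_lit 0) (nat_lit 0) (nat_lit 0) (nat_lit 0) (nat_lit 1) (nat_lit 0) (nat_lit 1) (nat_lit 0) (nat_lit 313) (nat_lit 204) (nat_lit 203))) (XT.nd (nat_lit 94) (nat_lit 0) (nat_lit 0) (XT.lf (nat_lit 0) (nat_lit 40064285135) (nat_lit 0) (nat_lit 0) (nat_lit 0) (nat_lit 0) (nat_lit 0) (nat_lit 0) (nat_lit 1) (nat_lit 0) (nat_lit 1) (nat_lit 0) (nat_lit 314) (nat_lit 204) (nat_lit 202)) (XT.nd (nat_lit 94) (nat_lit 0) (nat_lit 0) (XT.lf (nat_lit 0) (nat_lit 42041814910) (nat_lit 0) (nat_lit 0) (nat_lit 0) (nat_lit 0) (nat_lit 0) (nat_lit 0) (nat_lit 1) (nat_lit 0) (nat_lit 1) (nat_lit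 0) (nat_lit 315) (nat_lit 204) (nat_lit 201)) (XT.lf (nat_lit 0) (nat_lit 44119002842) (nat_lit 0) (nat_lit 0) (nat_lit 0) (nat_lit 0) (nat_lit 0) (nat_lit 0) (nat_lit 1) (nat_lit 0) (nat_lit 1) (nat_lit 0) (nat_lit 316) (nat_lit 204) (nat_lit 200))))))))
noncomputable def xc13 : XT := (XT.nd (nat_lit 1598) (nat_lit 0) (nat_lit 0) (XT.nd (nat_lit 752) (nat_lit 0) (nat_lit 0) (XT.nd (nat_lit 376) (nat_lit 0) (nat_lit 0) (XT.nd (nat_lit 188) (nat_lit 0) (nat_lit 0) (XT.nd (nat_lit 94) (nat_lit 0) (nat_lit 0) (XT.lf (nat_lit 0) (nat_lit 46300794614) (nat_lit 0) (nat_lit 0) (nat_lit 0) (nat_lit 0) (nat_lit 0) (nat_lit 0) (nat_lit 1) (nat_lit 0) (nat_lit 1) (nat_lit 0) (nat_lit 317) (nat_lit 204) (nat_lit 199)) (XT.lf (nat_lit 0) (nat_lit 48592384970) (nat_lit 0) (nat_lit 0) (nat_lit 0) (nat_lit 0) (nat_lit 0) (nat_lit 0) (nat_lit 1) (nat_lit 0) (nat_lit 1) (nat_lit 0) (nat_lit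 318) (nat_lit 204) (nat_lit 198))) (XT.nd (nat_lit 94) (nat_lit 0) (nat_lit 0) (XT.lf (nat_lit 0) (nat_lit 50999230078) (nat_lit 0) (nat_lit 0) (nat_lit 0) (nat_lit 0) (nat_lit 0) (nat_lit 0) (nat_lit 1) (nat_lit 0) (nat_lit 1) (nat_lit 0) (nat_lit 319) (nat_lit 204) (nat_lit 197)) (XT.lf (nat_lit 0) (nat_lit 53527060520) (nat_lit 0) (nat_lit 0) (nat_lit 0) (nat_lit 0) (nat_lit 0) (nat_lit 0) (nat_lit 1) (nat_lit 0) (nat_lit 1) (nat_lit 0) (nat_lit 320) (nat_lit 204) (nat_lit 196)))) (XT.nd (nat_lit 188) (nat_lit 0) (nat_lit 0) (XT.nd (nat_lit 94) (nat_lit 0) (nat_lit 0) (XT.lf (nat_lit 0) (nat_lit 56181894940) (nat_lit 0) (nat_lit 0) (nat_lit 0) (nat_lit 0) (nat_lit 0) (nat_lit 0) (nat_lit 1) (nat_lit 0) (nat_lit 1) (nat_lit 0) (nat_lit 321) (nat_lit 204) (nat_lit 195)) (XT.lf (nat_lit 0) (nat_lit 58970054374) (nat_lit 0) (nat_lit 0) (nat_lit 0) (nat_lit 0) (nat_lit 0)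 (nat_lit 0) (nat_lit 1) (nat_lit 0) (nat_lit 1) (nat_lit 0) (nat_lit 322) (nat_lit 204) (nat_lit 194))) (XT.nd (nat_lit 94) (nat_lit 0) (nat_lit 0) (XT.lf (nat_lit 0) (nat_lit 61898177296) (nat_lit 0) (nat_lit 0) (nat_lit 0) (nat_lit 0) (nat_lit 0) (nat_lit 0) (nat_lit 1) (nat_lit 0) (nat_lit 1) (nat_lit 0) (nat_lit 323) (nat_lit 204) (nat_lit 193)) (XT.lf (nat_lit 0) (nat_lit 64973235426) (nat_lit 0) (nat_lit 0) (nat_lit 0) (nat_lit 0) (nat_lit 0) (nat_lit 0) (nat_lit 1) (nat_lit 0) (nat_lit 1) (nat_lit 0) (nat_lit 324) (nat_lit 204) (nat_lit 192))))) (XT.nd (nat_lit 376) (nat_lit 0) (nat_lit 0) (XT.nd (nat_lit 188) (nat_lit 0) (nat_lit 0) (XT.nd (nat_lit 94) (nat_lit 0) (nat_lit 0) (XT.lf (nat_lit 0) (nat_lit 68202550333) (nat_lit 0) (nat_lit 0) (nat_lit 0) (nat_lit 0) (nat_lit 0) (nat_lit 0) (nat_lit 1) (nat_lit 0) (nat_lit 1) (nat_lit 0) (nat_lit 325) (nat_lit 204) (nat_lit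 191)) (XT.lf (nat_lit 0) (nat_lit 71593810861) (nat_lit 0) (nat_lit 0) (nat_lit 0) (nat_lit 0) (nat_lit 0) (nat_lit 0) (nat_lit 1) (nat_lit 0) (nat_lit 1) (nat_lit 0) (nat_lit 326) (nat_lit 204) (nat_lit 190))) (XT.nd (nat_lit 94) (nat_lit 0) (nat_lit 0) (XT.lf (nat_lit 0) (nat_lit 75155091439) (nat_lit 0) (nat_lit 0) (nat_lit 0) (nat_lit 0) (nat_lit 0) (nat_lit 0) (nat_lit 1) (nat_lit 0) (nat_lit 1) (nat_lit 0) (nat_lit 327) (nat_lit 204) (nat_lit 189)) (XT.lf (nat_lit 0) (nat_lit 78894871308) (nat_lit 0) (nat_lit 0) (nat_lit 0) (nat_lit 0) (nat_lit 0) (nat_lit 0) (nat_lit 1) (nat_lit 0) (nat_lit 1) (nat_lit 0) (nat_lit 328) (nat_lit 204) (nat_lit 188)))) (XT.nd (nat_lit 188) (nat_lit 0) (nat_lit 0) (XT.nd (nat_lit 94) (nat_lit 0) (nat_lit 0) (XT.lf (nat_lit 0) (nat_lit 82822054705) (nat_lit 0) (nat_lit 0) (nat_lit 0) (nat_lit 0) (nat_lit 0) (nat_lit 0) (nat_lit 1) (nat_lit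 0) (nat_lit 1) (nat_lit 0) (nat_lit 329) (nat_lit 204) (nat_lit 187)) (XT.lf (nat_lit 0) (nat_lit 86945992067) (nat_lit 0) (nat_lit 0) (nat_lit 0) (nat_lit 0) (nat_lit 0) (nat_lit 0) (nat_lit 1) (nat_lit 0) (nat_lit 1) (nat_lit 0) (nat_lit 330) (nat_lit 204) (nat_lit 186))) (XT.nd (nat_lit 94) (nat_lit 0) (nat_lit 0) (XT.lf (nat_lit 0) (nat_lit 91276502292) (nat_lit 0) (nat_lit 0) (nat_lit 0) (nat_lit 0) (nat_lit 0) (nat_lit 0) (nat_lit 1) (nat_lit 0) (nat_lit 1) (nat_lit 0) (nat_lit 331) (nat_lit 204) (nat_lit 185)) (XT.nd (nat_lit 94) (nat_lit 0) (nat_lit 0) (XT.lf (nat_lit 0) (nat_lit 95823896119) (nat_lit 0) (nat_lit 0) (nat_lit 0) (nat_lit 0) (nat_lit 0) (nat_lit 0) (nat_lit 1) (nat_lit 0) (nat_lit 1) (nat_lit 0) (nat_lit 332) (nat_lit 204) (nat_lit 184)) (XT.lf (nat_lit 0) (nat_lit 100599000677) (nat_lit 0) (nat_lit 0) (nat_lit 0) (nat_lit 0) (nat_lit 0) (nat_lit 0)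 (nat_lit 1) (nat_lit 0) (nat_lit 1) (nat_lit 0) (nat_lit 333) (nat_lit 204) (nat_lit 183))))))) (XT.nd (nat_lit 752) (nat_lit 0) (nat_lit 0) (XT.nd (nat_lit 376) (nat_lit 0) (nat_lit 0) (XT.nd (nat_lit 188) (nat_lit 0) (nat_lit 0) (XT.nd (nat_lit 94) (nat_lit 0) (nat_lit 0) (XT.lf (nat_lit 0) (nat_lit 105613185260) (nat_lit 0) (nat_lit 0) (nat_lit 0) (nat_lit 0) (nat_lit 0) (nat_lit 0) (nat_lit 1) (nat_lit 0) (nat_lit 1) (nat_lit 0) (nat_lit 334) (nat_lit 204) (nat_lit 182)) (XT.lf (nat_lit 0) (nat_lit 110878388406) (nat_lit 0) (nat_lit 0) (nat_lit 0) (nat_lit 0) (nat_lit 0) (nat_lit 0) (nat_lit 1) (nat_lit 0) (nat_lit 1) (nat_lit 0) (nat_lit 335) (nat_lit 204) (nat_lit 181))) (XT.nd (nat_lit 94) (nat_lit 0) (nat_lit 0) (XT.lf (nat_lit 0) (nat_lit 116407146310) (nat_lit 0) (nat_lit 0) (nat_lit 0) (nat_lit 0) (nat_lit 0) (nat_lit 0) (nat_lit 1) (nat_lit 0) (nat_lit 1) (nat_lit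 0) (nat_lit 336) (nat_lit 204) (nat_lit 180)) (XT.lf (nat_lit 0) (nat_lit 122212622683) (nat_lit 0) (nat_lit 0) (nat_lit 0) (nat_lit 0) (nat_lit 0) (nat_lit 0) (nat_lit 1) (nat_lit 0) (nat_lit 1) (nat_lit 0) (nat_lit 337) (nat_lit 204) (nat_lit 179)))) (XT.nd (nat_lit 188) (nat_lit 0) (nat_lit 0) (XT.nd (nat_lit 94) (nat_lit 0) (nat_lit 0) (XT.lf (nat_lit 0) (nat_lit 128308640088) (nat_lit 0) (nat_lit 0) (nat_lit 0) (nat_lit 0) (nat_lit 0) (nat_lit 0) (nat_lit 1) (nat_lit 0) (nat_lit 1) (nat_lit 0) (nat_lit 338) (nat_lit 204) (nat_lit 178)) (XT.lf (nat_lit 0) (nat_lit 134709712851) (nat_lit 0) (nat_lit 0) (nat_lit 0) (nat_lit 0) (nat_lit 0) (nat_lit 0) (nat_lit 1) (nat_lit 0) (nat_lit 1) (nat_lit 0) (nat_lit 339) (nat_lit 204) (nat_lit 177))) (XT.nd (nat_lit 94) (nat_lit 0) (nat_lit 0) (XT.lf (nat_lit 0) (nat_lit 141431081622) (nat_lit 0) (nat_lit 0) (nat_lit 0) (nat_lit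 0) (nat_lit 0) (nat_lit 0) (nat_lit 1) (nat_lit 0) (nat_lit 1) (nat_lit 0) (nat_lit 340) (nat_lit 204) (nat_lit 176)) (XT.lf (nat_lit 0) (nat_lit 148488749660) (nat_lit 0) (nat_lit 0) (nat_lit 0) (nat_lit 0) (nat_lit 0) (nat_lit 0) (nat_lit 1) (nat_lit 0) (nat_lit 1) (nat_lit 0) (nat_lit 341) (nat_lit 204) (nat_lit 175))))) (XT.nd (nat_lit 376) (nat_lit 0) (nat_lit 0) (XT.nd (nat_lit 188) (nat_lit 0) (nat_lit 0) (XT.nd (nat_lit 94) (nat_lit 0) (nat_lit 0) (XT.lf (nat_lit 0) (nat_lit 155899520937) (nat_lit 0) (nat_lit 0) (nat_lit 0) (nat_lit 0) (nat_lit 0) (nat_lit 0) (nat_lit 1) (nat_lit 0) (nat_lit 1) (nat_lit 0) (nat_lit 342) (nat_lit 204) (nat_lit 174)) (XT.lf (nat_lit 0) (nat_lit 163681040146) (nat_lit 0) (nat_lit 0) (nat_lit 0) (nat_lit 0) (nat_lit 0) (nat_lit 0) (nat_lit 1) (nat_lit 0) (nat_lit 1) (nat_lit 0) (nat_lit 343) (nat_lit 204) (nat_lit 173))) (XT.nd (nat_lit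 94) (nat_lit 0) (nat_lit 0) (XT.lf (nat_lit 0) (nat_lit 171851834713) (nat_lit 0) (nat_lit 0) (nat_lit 0) (nat_lit 0) (nat_lit 0) (nat_lit 0) (nat_lit 1) (nat_lit 0) (nat_lit 1) (nat_lit 0) (nat_lit 344) (nat_lit 204) (nat_lit 172)) (XT.lf (nat_lit 0) (nat_lit 180431358912) (nat_lit 0) (nat_lit 0) (nat_lit 0) (nat_lit 0) (nat_lit 0) (nat_lit 0) (nat_lit 1) (nat_lit 0) (nat_lit 1) (nat_lit 0) (nat_lit 345) (nat_lit 204) (nat_lit 171)))) (XT.nd (nat_lit 188) (nat_lit 0) (nat_lit 0) (XT.nd (nat_lit 94) (nat_lit 0) (nat_lit 0) (XT.lf (nat_lit 0) (nat_lit 189440040181) (nat_lit 0) (nat_lit 0) (nat_lit 0) (nat_lit 0) (nat_lit 0) (nat_lit 0) (nat_lit 1) (nat_lit 0) (nat_lit 1) (nat_lit 0) (nat_lit 346) (nat_lit 204) (nat_lit 170)) (XT.lf (nat_lit 0) (nat_lit 198899327761) (nat_lit 0) (nat_lit 0) (nat_lit 0) (nat_lit 0) (nat_lit 0) (nat_lit 0) (nat_lit 1) (nat_lit 0) (nat_lit 1)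 (nat_lit 0) (nat_lit 347) (nat_lit 204) (nat_lit 169))) (XT.nd (nat_lit 94) (nat_lit 0) (nat_lit 0) (XT.lf (nat_lit 0) (nat_lit 208831743766) (nat_lit 0) (nat_lit 0) (nat_lit 0) (nat_lit 0) (nat_lit 0) (nat_lit 0) (nat_lit 1) (nat_lit 0) (nat_lit 1) (nat_lit 0) (nat_lit 348) (nat_lit 204) (nat_lit 168)) (XT.nd (nat_lit 41548) (nat_lit 0) (nat_lit 0) (XT.lf (nat_lit 0) (nat_lit 219260936804) (nat_lit 0) (nat_lit 0) (nat_lit 0) (nat_lit 0) (nat_lit 0) (nat_lit 0) (nat_lit 1) (nat_lit 0) (nat_lit 1) (nat_lit 0) (nat_lit 349) (nat_lit 204) (nat_lit 167)) (XT.lf (nat_lit 0) (nat_lit 16529721787) (nat_lit 0) (nat_lit 0) (nat_lit 0) (nat_lit 0) (nat_lit 0) (nat_lit 0) (nat_lit 1) (nat_lit 0) (nat_lit 1) (nat_lit 0) (nat_lit 310) (nat_lit 205) (nat_lit 205))))))))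
noncomputable def xc14 : XT := (XT.nd (nat_lit 1598) (nat_lit 0) (nat_lit 0) (XT.nd (nat_lit 752) (nat_lit 0) (nat_lit 0) (XT.nd (nat_lit 376) (nat_lit 0) (nat_lit 0) (XT.nd (nat_lit 188) (nat_lit 0) (nat_lit 0) (XT.nd (nat_lit 94) (nat_lit 0) (nat_lit 0) (XT.lf (nat_lit 0) (nat_lit 34683680383) (nat_lit 0) (nat_lit 0) (nat_lit 0) (nat_lit 0) (nat_lit 0) (nat_lit 0) (nat_lit 1) (nat_lit 0) (nat_lit 1) (nat_lit 0) (nat_lit 311) (nat_lit 205) (nat_lit 204)) (XT.lf (nat_lit 0) (nat_lit 36390033909) (nat_lit 0) (nat_lit 0) (nat_lit 0) (nat_lit 0) (nat_lit 0) (nat_lit 0) (nat_lit 1) (nat_lit 0) (nat_lit 1) (nat_lit 0) (nat_lit 312) (nat_lit 205) (nat_lit 203))) (XT.nd (nat_lit 94) (nat_lit 0) (nat_lit 0) (XT.lf (nat_lit 0) (nat_lit 38182566899) (nat_lit 0) (nat_lit 0) (nat_lit 0) (nat_lit 0) (nat_lit 0) (nat_lit 0) (nat_lit 1) (nat_lit 0) (nat_lit 1) (nat_lit 0) (nat_lit 313)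 (nat_lit 205) (nat_lit 202)) (XT.lf (nat_lit 0) (nat_lit 40065547289) (nat_lit 0) (nat_lit 0) (nat_lit 0) (nat_lit 0) (nat_lit 0) (nat_lit 0) (nat_lit 1) (nat_lit 0) (nat_lit 1) (nat_lit 0) (nat_lit 314) (nat_lit 205) (nat_lit 201)))) (XT.nd (nat_lit 188) (nat_lit 0) (nat_lit 0) (XT.nd (nat_lit 94) (nat_lit 0) (nat_lit 0) (XT.lf (nat_lit 0) (nat_lit 42043458365) (nat_lit 0) (nat_lit 0) (nat_lit 0) (nat_lit 0) (nat_lit 0) (nat_lit 0) (nat_lit 1) (nat_lit 0) (nat_lit 1) (nat_lit 0) (nat_lit 315) (nat_lit 205) (nat_lit 200)) (XT.lf (nat_lit 0) (nat_lit 44121009440) (nat_lit 0) (nat_lit 0) (nat_lit 0) (nat_lit 0) (nat_lit 0) (nat_lit 0) (nat_lit 1) (nat_lit 0) (nat_lit 1) (nat_lit 0) (nat_lit 316) (nat_lit 205) (nat_lit 199))) (XT.nd (nat_lit 94) (nat_lit 0) (nat_lit 0) (XT.lf (nat_lit 0) (nat_lit 46303147064) (nat_lit 0) (nat_lit 0) (nat_lit 0) (nat_lit 0) (nat_lit 0) (nat_lit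 0) (nat_lit 1) (nat_lit 0) (nat_lit 1) (nat_lit 0) (nat_lit 317) (nat_lit 205) (nat_lit 198)) (XT.lf (nat_lit 0) (nat_lit 48595066802) (nat_lit 0) (nat_lit 0) (nat_lit 0) (nat_lit 0) (nat_lit 0) (nat_lit 0) (nat_lit 1) (nat_lit 0) (nat_lit 1) (nat_lit 0) (nat_lit 318) (nat_lit 205) (nat_lit 197))))) (XT.nd (nat_lit 376) (nat_lit 0) (nat_lit 0) (XT.nd (nat_lit 188) (nat_lit 0) (nat_lit 0) (XT.nd (nat_lit 94) (nat_lit 0) (nat_lit 0) (XT.lf (nat_lit 0) (nat_lit 51002225607) (nat_lit 0) (nat_lit 0) (nat_lit 0) (nat_lit 0) (nat_lit 0) (nat_lit 0) (nat_lit 1) (nat_lit 0) (nat_lit 1) (nat_lit 0) (nat_lit 319) (nat_lit 205) (nat_lit 196)) (XT.lf (nat_lit 0) (nat_lit 53530354808) (nat_lit 0) (nat_lit 0) (nat_lit 0) (nat_lit 0) (nat_lit 0) (nat_lit 0) (nat_lit 1) (nat_lit 0) (nat_lit 1) (nat_lit 0) (nat_lit 320) (nat_lit 205) (nat_lit 195))) (XT.nd (nat_lit 94) (nat_lit 0) (nat_lit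 0) (XT.lf (nat_lit 0) (nat_lit 56185473762) (nat_lit 0) (nat_lit 0) (nat_lit 0) (nat_lit 0) (nat_lit 0) (nat_lit 0) (nat_lit 1) (nat_lit 0) (nat_lit 1) (nat_lit 0) (nat_lit 321) (nat_lit 205) (nat_lit 194)) (XT.lf (nat_lit 0) (nat_lit 58973904179) (nat_lit 0) (nat_lit 0) (nat_lit 0) (nat_lit 0) (nat_lit 0) (nat_lit 0) (nat_lit 1) (nat_lit 0) (nat_lit 1) (nat_lit 0) (nat_lit 322) (nat_lit 205) (nat_lit 193)))) (XT.nd (nat_lit 188) (nat_lit 0) (nat_lit 0) (XT.nd (nat_lit 94) (nat_lit 0) (nat_lit 0) (XT.lf (nat_lit 0) (nat_lit 61902285180) (nat_lit 0) (nat_lit 0) (nat_lit 0) (nat_lit 0) (nat_lit 0) (nat_lit 0) (nat_lit 1) (nat_lit 0) (nat_lit 1) (nat_lit 0) (nat_lit 323) (nat_lit 205) (nat_lit 192)) (XT.lf (nat_lit 0) (nat_lit 64977589100) (nat_lit 0) (nat_lit 0) (nat_lit 0) (nat_lit 0) (nat_lit 0) (nat_lit 0) (nat_lit 1) (nat_lit 0) (nat_lit 1) (nat_lit 0) (nat_lit 324) (nat_lit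 205) (nat_lit 191))) (XT.nd (nat_lit 94) (nat_lit 0) (nat_lit 0) (XT.lf (nat_lit 0) (nat_lit 68207138093) (nat_lit 0) (nat_lit 0) (nat_lit 0) (nat_lit 0) (nat_lit 0) (nat_lit 0) (nat_lit 1) (nat_lit 0) (nat_lit 1) (nat_lit 0) (nat_lit 325) (nat_lit 205) (nat_lit 190)) (XT.nd (nat_lit 94) (nat_lit 0) (nat_lit 0) (XT.lf (nat_lit 0) (nat_lit 71598621559) (nat_lit 0) (nat_lit 0) (nat_lit 0) (nat_lit 0) (nat_lit 0) (nat_lit 0) (nat_lit 1) (nat_lit 0) (nat_lit 1) (nat_lit 0) (nat_lit 326) (nat_lit 205) (nat_lit 189)) (XT.lf (nat_lit 0) (nat_lit 75160114461) (nat_lit 0) (nat_lit 0) (nat_lit 0) (nat_lit 0) (nat_lit 0) (nat_lit 0) (nat_lit 1) (nat_lit 0) (nat_lit 1) (nat_lit 0) (nat_lit 327) (nat_lit 205) (nat_lit 188))))))) (XT.nd (nat_lit 752) (nat_lit 0) (nat_lit 0) (XT.nd (nat_lit 376) (nat_lit 0) (nat_lit 0) (XT.nd (nat_lit 188) (nat_lit 0) (nat_lit 0) (XT.nd (nat_lit 94) (nat_lit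 0) (nat_lit 0) (XT.lf (nat_lit 0) (nat_lit 78900096542) (nat_lit 0) (nat_lit 0) (nat_lit 0) (nat_lit 0) (nat_lit 0) (nat_lit 0) (nat_lit 1) (nat_lit 0) (nat_lit 1) (nat_lit 0) (nat_lit 328) (nat_lit 205) (nat_lit 187)) (XT.lf (nat_lit 0) (nat_lit 82827472522) (nat_lit 0) (nat_lit 0) (nat_lit 0) (nat_lit 0) (nat_lit 0) (nat_lit 0) (nat_lit 1) (nat_lit 0) (nat_lit 1) (nat_lit 0) (nat_lit 329) (nat_lit 205) (nat_lit 186))) (XT.nd (nat_lit 94) (nat_lit 0) (nat_lit 0) (XT.lf (nat_lit 0) (nat_lit 86951593296) (nat_lit 0) (nat_lit 0) (nat_lit 0) (nat_lit 0) (nat_lit 0) (nat_lit 0) (nat_lit 1) (nat_lit 0) (nat_lit 1) (nat_lit 0) (nat_lit 330) (nat_lit 205) (nat_lit 185)) (XT.lf (nat_lit 0) (nat_lit 91282278199) (nat_lit 0) (nat_lit 0) (nat_lit 0) (nat_lit 0) (nat_lit 0) (nat_lit 0) (nat_lit 1) (nat_lit 0) (nat_lit 1) (nat_lit 0) (nat_lit 331) (nat_lit 205) (nat_lit 184)))) (XT.nd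 (nat_lit 188) (nat_lit 0) (nat_lit 0) (XT.nd (nat_lit 94) (nat_lit 0) (nat_lit 0) (XT.lf (nat_lit 0) (nat_lit 95829838387) (nat_lit 0) (nat_lit 0) (nat_lit 0) (nat_lit 0) (nat_lit 0) (nat_lit 0) (nat_lit 1) (nat_lit 0) (nat_lit 1) (nat_lit 0) (nat_lit 332) (nat_lit 205) (nat_lit 183)) (XT.lf (nat_lit 0) (nat_lit 100605101382) (nat_lit 0) (nat_lit 0) (nat_lit 0) (nat_lit 0) (nat_lit 0) (nat_lit 0) (nat_lit 1) (nat_lit 0) (nat_lit 1) (nat_lit 0) (nat_lit 333) (nat_lit 205) (nat_lit 182))) (XT.nd (nat_lit 94) (nat_lit 0) (nat_lit 0) (XT.lf (nat_lit 0) (nat_lit 105619436860) (nat_lit 0) (nat_lit 0) (nat_lit 0) (nat_lit 0) (nat_lit 0) (nat_lit 0) (nat_lit 1) (nat_lit 0) (nat_lit 1) (nat_lit 0) (nat_lit 334) (nat_lit 205) (nat_lit 181)) (XT.lf (nat_lit 0) (nat_lit 110884783713) (nat_lit 0) (nat_lit 0) (nat_lit 0) (nat_lit 0) (nat_lit 0) (nat_lit 0) (nat_lit 1) (nat_lit 0) (nat_lit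 1) (nat_lit 0) (nat_lit 335) (nat_lit 205) (nat_lit 180))))) (XT.nd (nat_lit 376) (nat_lit 0) (nat_lit 0) (XT.nd (nat_lit 188) (nat_lit 0) (nat_lit 0) (XT.nd (nat_lit 94) (nat_lit 0) (nat_lit 0) (XT.lf (nat_lit 0) (nat_lit 116413678483) (nat_lit 0) (nat_lit 0) (nat_lit 0) (nat_lit 0) (nat_lit 0) (nat_lit 0) (nat_lit 1) (nat_lit 0) (nat_lit 1) (nat_lit 0) (nat_lit 336) (nat_lit 205) (nat_lit 179)) (XT.lf (nat_lit 0) (nat_lit 122219285204) (nat_lit 0) (nat_lit 0) (nat_lit 0) (nat_lit 0) (nat_lit 0) (nat_lit 0) (nat_lit 1) (nat_lit 0) (nat_lit 1) (nat_lit 0) (nat_lit 337) (nat_lit 205) (nat_lit 178))) (XT.nd (nat_lit 94) (nat_lit 0) (nat_lit 0) (XT.lf (nat_lit 0) (nat_lit 128315426749) (nat_lit 0) (nat_lit 0) (nat_lit 0) (nat_lit 0) (nat_lit 0) (nat_lit 0) (nat_lit 1) (nat_lit 0) (nat_lit 1) (nat_lit 0) (nat_lit 338) (nat_lit 205) (nat_lit 177)) (XT.lf (nat_lit 0) (nat_lit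 134716617741) (nat_lit 0) (nat_lit 0) (nat_lit 0) (nat_lit 0) (nat_lit 0) (nat_lit 0) (nat_lit 1) (nat_lit 0) (nat_lit 1) (nat_lit 0) (nat_lit 339) (nat_lit 205) (nat_lit 176)))) (XT.nd (nat_lit 188) (nat_lit 0) (nat_lit 0) (XT.nd (nat_lit 94) (nat_lit 0) (nat_lit 0) (XT.lf (nat_lit 0) (nat_lit 141438099112) (nat_lit 0) (nat_lit 0) (nat_lit 0) (nat_lit 0) (nat_lit 0) (nat_lit 0) (nat_lit 1) (nat_lit 0) (nat_lit 1) (nat_lit 0) (nat_lit 340) (nat_lit 205) (nat_lit 175)) (XT.lf (nat_lit 0) (nat_lit 148495874387) (nat_lit 0) (nat_lit 0) (nat_lit 0) (nat_lit 0) (nat_lit 0) (nat_lit 0) (nat_lit 1) (nat_lit 0) (nat_lit 1) (nat_lit 0) (nat_lit 341) (nat_lit 205) (nat_lit 174))) (XT.nd (nat_lit 94) (nat_lit 0) (nat_lit 0) (XT.lf (nat_lit 0) (nat_lit 155906747795) (nat_lit 0) (nat_lit 0) (nat_lit 0) (nat_lit 0) (nat_lit 0) (nat_lit 0) (nat_lit 1) (nat_lit 0) (nat_lit 1) (nat_lit 0)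 (nat_lit 342) (nat_lit 205) (nat_lit 173)) (XT.nd (nat_lit 94) (nat_lit 0) (nat_lit 0) (XT.lf (nat_lit 0) (nat_lit 163688364271) (nat_lit 0) (nat_lit 0) (nat_lit 0) (nat_lit 0) (nat_lit 0) (nat_lit 0) (nat_lit 1) (nat_lit 0) (nat_lit 1) (nat_lit 0) (nat_lit 343) (nat_lit 205) (nat_lit 172)) (XT.lf (nat_lit 0) (nat_lit 171859251474) (nat_lit 0) (nat_lit 0) (nat_lit 0) (nat_lit 0) (nat_lit 0) (nat_lit 0) (nat_lit 1) (nat_lit 0) (nat_lit 1) (nat_lit 0) (nat_lit 344) (nat_lit 205) (nat_lit 171))))))))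
noncomputable def xc15 : XT := (XT.nd (nat_lit 42958) (nat_lit 0) (nat_lit 0) (XT.nd (nat_lit 42112) (nat_lit 0) (nat_lit 0) (XT.nd (nat_lit 41736) (nat_lit 0) (nat_lit 0) (XT.nd (nat_lit 188) (nat_lit 0) (nat_lit 0) (XT.nd (nat_lit 94) (nat_lit 0) (nat_lit 0) (XT.lf (nat_lit 0) (nat_lit 180438863897) (nat_lit 0) (nat_lit 0) (nat_lit 0) (nat_lit 0) (nat_lit 0) (nat_lit 0) (nat_lit 1) (nat_lit 0) (nat_lit 1) (nat_lit 0) (nat_lit 345) (nat_lit 205) (nat_lit 170)) (XT.lf (nat_lit 0) (nat_lit 189447629190) (nat_lit 0) (nat_lit 0) (nat_lit 0) (nat_lit 0) (nat_lit 0) (nat_lit 0) (nat_lit 1) (nat_lit 0) (nat_lit 1) (nat_lit 0) (nat_lit 346) (nat_lit 205) (nat_lit 169))) (XT.nd (nat_lit 94) (nat_lit 0) (nat_lit 0) (XT.lf (nat_lit 0) (nat_lit 198906996792) (nat_lit 0) (nat_lit 0) (nat_lit 0) (nat_lit 0) (nat_lit 0) (nat_lit 0) (nat_lit 1) (nat_lit 0) (nat_lit 1) (nat_lit 0) (nat_lit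 347) (nat_lit 205) (nat_lit 168)) (XT.lf (nat_lit 0) (nat_lit 208839489008) (nat_lit 0) (nat_lit 0) (nat_lit 0) (nat_lit 0) (nat_lit 0) (nat_lit 0) (nat_lit 1) (nat_lit 0) (nat_lit 1) (nat_lit 0) (nat_lit 348) (nat_lit 205) (nat_lit 167)))) (XT.nd (nat_lit 188) (nat_lit 168) (nat_lit 0) (XT.nd (nat_lit 94) (nat_lit 84) (nat_lit 0) (XT.lf (nat_lit 0) (nat_lit 3335680666) (nat_lit 168) (nat_lit 4035096627) (nat_lit 0) (nat_lit 3335680666) (nat_lit 3) (nat_lit 5) (nat_lit 5) (nat_lit 4) (nat_lit 3) (nat_lit 4) (nat_lit 308) (nat_lit 206) (nat_lit 206)) (XT.lf (nat_lit 0) (nat_lit 13458985632) (nat_lit 84) (nat_lit 4310390181) (nat_lit 84) (nat_lit 4168515145) (nat_lit 2) (nat_lit 4) (nat_lit 3) (nat_lit 5) (nat_lit 3) (nat_lit 4) (nat_lit 309) (nat_lit 206) (nat_lit 205))) (XT.nd (nat_lit 94) (nat_lit 0) (nat_lit 0) (XT.lf (nat_lit 0) (nat_lit 33059907049) (nat_lit 0) (nat_lit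 0) (nat_lit 0) (nat_lit 0) (nat_lit 0) (nat_lit 0) (nat_lit 1) (nat_lit 0) (nat_lit 1) (nat_lit 0) (nat_lit 310) (nat_lit 206) (nat_lit 204)) (XT.lf (nat_lit 0) (nat_lit 34684585260) (nat_lit 0) (nat_lit 0) (nat_lit 0) (nat_lit 0) (nat_lit 0) (nat_lit 0) (nat_lit 1) (nat_lit 0) (nat_lit 1) (nat_lit 0) (nat_lit 311) (nat_lit 206) (nat_lit 203))))) (XT.nd (nat_lit 376) (nat_lit 0) (nat_lit 0) (XT.nd (nat_lit 188) (nat_lit 0) (nat_lit 0) (XT.nd (nat_lit 94) (nat_lit 0) (nat_lit 0) (XT.lf (nat_lit 0) (nat_lit 36391359171) (nat_lit 0) (nat_lit 0) (nat_lit 0) (nat_lit 0) (nat_lit 0) (nat_lit 0) (nat_lit 1) (nat_lit 0) (nat_lit 1) (nat_lit 0) (nat_lit 312) (nat_lit 206) (nat_lit 202)) (XT.lf (nat_lit 0) (nat_lit 38184292527) (nat_lit 0) (nat_lit 0) (nat_lit 0) (nat_lit 0) (nat_lit 0) (nat_lit 0) (nat_lit 1) (nat_lit 0) (nat_lit 1) (nat_lit 0) (nat_lit 313) (nat_lit 206) (nat_lit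 201))) (XT.nd (nat_lit 94) (nat_lit 0) (nat_lit 0) (XT.lf (nat_lit 0) (nat_lit 40067654218) (nat_lit 0) (nat_lit 0) (nat_lit 0) (nat_lit 0) (nat_lit 0) (nat_lit 0) (nat_lit 1) (nat_lit 0) (nat_lit 1) (nat_lit 0) (nat_lit 314) (nat_lit 206) (nat_lit 200)) (XT.lf (nat_lit 0) (nat_lit 42045928438) (nat_lit 0) (nat_lit 0) (nat_lit 0) (nat_lit 0) (nat_lit 0) (nat_lit 0) (nat_lit 1) (nat_lit 0) (nat_lit 1) (nat_lit 0) (nat_lit 315) (nat_lit 206) (nat_lit 199)))) (XT.nd (nat_lit 188) (nat_lit 0) (nat_lit 0) (XT.nd (nat_lit 94) (nat_lit 0) (nat_lit 0) (XT.lf (nat_lit 0) (nat_lit 44123825364) (nat_lit 0) (nat_lit 0) (nat_lit 0) (nat_lit 0) (nat_lit 0) (nat_lit 0) (nat_lit 1) (nat_lit 0) (nat_lit 1) (nat_lit 0) (nat_lit 316) (nat_lit 206) (nat_lit 198)) (XT.lf (nat_lit 0) (nat_lit 46306292370) (nat_lit 0) (nat_lit 0) (nat_lit 0) (nat_lit 0) (nat_lit 0) (nat_lit 0) (nat_lit 1) (nat_lit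 0) (nat_lit 1) (nat_lit 0) (nat_lit 317) (nat_lit 206) (nat_lit 197))) (XT.nd (nat_lit 94) (nat_lit 0) (nat_lit 0) (XT.lf (nat_lit 0) (nat_lit 48598525805) (nat_lit 0) (nat_lit 0) (nat_lit 0) (nat_lit 0) (nat_lit 0) (nat_lit 0) (nat_lit 1) (nat_lit 0) (nat_lit 1) (nat_lit 0) (nat_lit 318) (nat_lit 206) (nat_lit 196)) (XT.nd (nat_lit 94) (nat_lit 0) (nat_lit 0) (XT.lf (nat_lit 0) (nat_lit 51005983369) (nat_lit 0) (nat_lit 0) (nat_lit 0) (nat_lit 0) (nat_lit 0) (nat_lit 0) (nat_lit 1) (nat_lit 0) (nat_lit 1) (nat_lit 0) (nat_lit 319) (nat_lit 206) (nat_lit 195)) (XT.lf (nat_lit 0) (nat_lit 53534397103) (nat_lit 0) (nat_lit 0) (nat_lit 0) (nat_lit 0) (nat_lit 0) (nat_lit 0) (nat_lit 1) (nat_lit 0) (nat_lit 1) (nat_lit 0) (nat_lit 320) (nat_lit 206) (nat_lit 194))))))) (XT.nd (nat_lit 752) (nat_lit 0) (nat_lit 0) (XT.nd (nat_lit 376) (nat_lit 0) (nat_lit 0) (XT.nd (nat_lit 188)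 (nat_lit 0) (nat_lit 0) (XT.nd (nat_lit 94) (nat_lit 0) (nat_lit 0) (XT.lf (nat_lit 0) (nat_lit 56189787040) (nat_lit 0) (nat_lit 0) (nat_lit 0) (nat_lit 0) (nat_lit 0) (nat_lit 0) (nat_lit 1) (nat_lit 0) (nat_lit 1) (nat_lit 0) (nat_lit 321) (nat_lit 206) (nat_lit 193)) (XT.lf (nat_lit 0) (nat_lit 58978475537) (nat_lit 0) (nat_lit 0) (nat_lit 0) (nat_lit 0) (nat_lit 0) (nat_lit 0) (nat_lit 1) (nat_lit 0) (nat_lit 1) (nat_lit 0) (nat_lit 322) (nat_lit 206) (nat_lit 192))) (XT.nd (nat_lit 94) (nat_lit 0) (nat_lit 0) (XT.lf (nat_lit 0) (nat_lit 61907102328) (nat_lit 0) (nat_lit 0) (nat_lit 0) (nat_lit 0) (nat_lit 0) (nat_lit 0) (nat_lit 1) (nat_lit 0) (nat_lit 1) (nat_lit 0) (nat_lit 323) (nat_lit 206) (nat_lit 191)) (XT.lf (nat_lit 0) (nat_lit 64982640334) (nat_lit 0) (nat_lit 0) (nat_lit 0) (nat_lit 0) (nat_lit 0) (nat_lit 0) (nat_lit 1) (nat_lit 0) (nat_lit 1) (nat_lit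 0) (nat_lit 324) (nat_lit 206) (nat_lit 190)))) (XT.nd (nat_lit 188) (nat_lit 0) (nat_lit 0) (XT.nd (nat_lit 94) (nat_lit 0) (nat_lit 0) (XT.lf (nat_lit 0) (nat_lit 68212412265) (nat_lit 0) (nat_lit 0) (nat_lit 0) (nat_lit 0) (nat_lit 0) (nat_lit 0) (nat_lit 1) (nat_lit 0) (nat_lit 1) (nat_lit 0) (nat_lit 325) (nat_lit 206) (nat_lit 189)) (XT.lf (nat_lit 0) (nat_lit 71604108054) (nat_lit 0) (nat_lit 0) (nat_lit 0) (nat_lit 0) (nat_lit 0) (nat_lit 0) (nat_lit 1) (nat_lit 0) (nat_lit 1) (nat_lit 0) (nat_lit 326) (nat_lit 206) (nat_lit 188))) (XT.nd (nat_lit 94) (nat_lit 0) (nat_lit 0) (XT.lf (nat_lit 0) (nat_lit 75165803168) (nat_lit 0) (nat_lit 0) (nat_lit 0) (nat_lit 0) (nat_lit 0) (nat_lit 0) (nat_lit 1) (nat_lit 0) (nat_lit 1) (nat_lit 0) (nat_lit 327) (nat_lit 206) (nat_lit 187)) (XT.lf (nat_lit 0) (nat_lit 78905977832) (nat_lit 0) (nat_lit 0) (nat_lit 0) (nat_lit 0)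 (nat_lit 0) (nat_lit 0) (nat_lit 1) (nat_lit 0) (nat_lit 1) (nat_lit 0) (nat_lit 328) (nat_lit 206) (nat_lit 186))))) (XT.nd (nat_lit 376) (nat_lit 0) (nat_lit 0) (XT.nd (nat_lit 188) (nat_lit 0) (nat_lit 0) (XT.nd (nat_lit 94) (nat_lit 0) (nat_lit 0) (XT.lf (nat_lit 0) (nat_lit 82833537224) (nat_lit 0) (nat_lit 0) (nat_lit 0) (nat_lit 0) (nat_lit 0) (nat_lit 0) (nat_lit 1) (nat_lit 0) (nat_lit 1) (nat_lit 0) (nat_lit 329) (nat_lit 206) (nat_lit 185)) (XT.lf (nat_lit 0) (nat_lit 86957832676) (nat_lit 0) (nat_lit 0) (nat_lit 0) (nat_lit 0) (nat_lit 0) (nat_lit 0) (nat_lit 1) (nat_lit 0) (nat_lit 1) (nat_lit 0) (nat_lit 330) (nat_lit 206) (nat_lit 184))) (XT.nd (nat_lit 94) (nat_lit 0) (nat_lit 0) (XT.lf (nat_lit 0) (nat_lit 91288683940) (nat_lit 0) (nat_lit 0) (nat_lit 0) (nat_lit 0) (nat_lit 0) (nat_lit 0) (nat_lit 1) (nat_lit 0) (nat_lit 1) (nat_lit 0) (nat_lit 331) (nat_lit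 206) (nat_lit 183)) (XT.lf (nat_lit 0) (nat_lit 95836402566) (nat_lit 0) (nat_lit 0) (nat_lit 0) (nat_lit 0) (nat_lit 0) (nat_lit 0) (nat_lit 1) (nat_lit 0) (nat_lit 1) (nat_lit 0) (nat_lit 332) (nat_lit 206) (nat_lit 182)))) (XT.nd (nat_lit 188) (nat_lit 0) (nat_lit 0) (XT.nd (nat_lit 94) (nat_lit 0) (nat_lit 0) (XT.lf (nat_lit 0) (nat_lit 100611816456) (nat_lit 0) (nat_lit 0) (nat_lit 0) (nat_lit 0) (nat_lit 0) (nat_lit 0) (nat_lit 1) (nat_lit 0) (nat_lit 1) (nat_lit 0) (nat_lit 333) (nat_lit 206) (nat_lit 181)) (XT.lf (nat_lit 0) (nat_lit 105626295641) (nat_lit 0) (nat_lit 0) (nat_lit 0) (nat_lit 0) (nat_lit 0) (nat_lit 0) (nat_lit 1) (nat_lit 0) (nat_lit 1) (nat_lit 0) (nat_lit 334) (nat_lit 206) (nat_lit 180))) (XT.nd (nat_lit 94) (nat_lit 0) (nat_lit 0) (XT.lf (nat_lit 0) (nat_lit 110891779360) (nat_lit 0) (nat_lit 0) (nat_lit 0) (nat_lit 0) (nat_lit 0) (nat_lit 0)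 (nat_lit 1) (nat_lit 0) (nat_lit 1) (nat_lit 0) (nat_lit 335) (nat_lit 206) (nat_lit 179)) (XT.nd (nat_lit 94) (nat_lit 0) (nat_lit 0) (XT.lf (nat_lit 0) (nat_lit 116420804477) (nat_lit 0) (nat_lit 0) (nat_lit 0) (nat_lit 0) (nat_lit 0) (nat_lit 0) (nat_lit 1) (nat_lit 0) (nat_lit 1) (nat_lit 0) (nat_lit 336) (nat_lit 206) (nat_lit 178)) (XT.lf (nat_lit 0) (nat_lit 122226535339) (nat_lit 0) (nat_lit 0) (nat_lit 0) (nat_lit 0) (nat_lit 0) (nat_lit 0) (nat_lit 1) (nat_lit 0) (nat_lit 1) (nat_lit 0) (nat_lit 337) (nat_lit 206) (nat_lit 177))))))))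
noncomputable def xc16 : XT := (XT.nd (nat_lit 42676) (nat_lit 0) (nat_lit 0) (XT.nd (nat_lit 752) (nat_lit 0) (nat_lit 0) (XT.nd (nat_lit 376) (nat_lit 0) (nat_lit 0) (XT.nd (nat_lit 188) (nat_lit 0) (nat_lit 0) (XT.nd (nat_lit 94) (nat_lit 0) (nat_lit 0) (XT.lf (nat_lit 0) (nat_lit 128322795113) (nat_lit 0) (nat_lit 0) (nat_lit 0) (nat_lit 0) (nat_lit 0) (nat_lit 0) (nat_lit 1) (nat_lit 0) (nat_lit 1) (nat_lit 0) (nat_lit 338) (nat_lit 206) (nat_lit 176)) (XT.lf (nat_lit 0) (nat_lit 134724098705) (nat_lit 0) (nat_lit 0) (nat_lit 0) (nat_lit 0) (nat_lit 0) (nat_lit 0) (nat_lit 1) (nat_lit 0) (nat_lit 1) (nat_lit 0) (nat_lit 339) (nat_lit 206) (nat_lit 175))) (XT.nd (nat_lit 94) (nat_lit 0) (nat_lit 0) (XT.lf (nat_lit 0) (nat_lit 141445687313) (nat_lit 0) (nat_lit 0) (nat_lit 0) (nat_lit 0) (nat_lit 0) (nat_lit 0) (nat_lit 1) (nat_lit 0) (nat_lit 1) (nat_lit 0) (nat_lit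 340) (nat_lit 206) (nat_lit 174)) (XT.lf (nat_lit 0) (nat_lit 148503564719) (nat_lit 0) (nat_lit 0) (nat_lit 0) (nat_lit 0) (nat_lit 0) (nat_lit 0) (nat_lit 1) (nat_lit 0) (nat_lit 1) (nat_lit 0) (nat_lit 341) (nat_lit 206) (nat_lit 173)))) (XT.nd (nat_lit 188) (nat_lit 0) (nat_lit 0) (XT.nd (nat_lit 94) (nat_lit 0) (nat_lit 0) (XT.lf (nat_lit 0) (nat_lit 155914535394) (nat_lit 0) (nat_lit 0) (nat_lit 0) (nat_lit 0) (nat_lit 0) (nat_lit 0) (nat_lit 1) (nat_lit 0) (nat_lit 1) (nat_lit 0) (nat_lit 342) (nat_lit 206) (nat_lit 172)) (XT.lf (nat_lit 0) (nat_lit 163696244506) (nat_lit 0) (nat_lit 0) (nat_lit 0) (nat_lit 0) (nat_lit 0) (nat_lit 0) (nat_lit 1) (nat_lit 0) (nat_lit 1) (nat_lit 0) (nat_lit 343) (nat_lit 206) (nat_lit 171))) (XT.nd (nat_lit 94) (nat_lit 0) (nat_lit 0) (XT.lf (nat_lit 0) (nat_lit 171867219933) (nat_lit 0) (nat_lit 0) (nat_lit 0) (nat_lit 0) (nat_lit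 0) (nat_lit 0) (nat_lit 1) (nat_lit 0) (nat_lit 1) (nat_lit 0) (nat_lit 344) (nat_lit 206) (nat_lit 170)) (XT.lf (nat_lit 0) (nat_lit 180446916380) (nat_lit 0) (nat_lit 0) (nat_lit 0) (nat_lit 0) (nat_lit 0) (nat_lit 0) (nat_lit 1) (nat_lit 0) (nat_lit 1) (nat_lit 0) (nat_lit 345) (nat_lit 206) (nat_lit 169))))) (XT.nd (nat_lit 41548) (nat_lit 0) (nat_lit 0) (XT.nd (nat_lit 188) (nat_lit 0) (nat_lit 0) (XT.nd (nat_lit 94) (nat_lit 0) (nat_lit 0) (XT.lf (nat_lit 0) (nat_lit 189455761694) (nat_lit 0) (nat_lit 0) (nat_lit 0) (nat_lit 0) (nat_lit 0) (nat_lit 0) (nat_lit 1) (nat_lit 0) (nat_lit 1) (nat_lit 0) (nat_lit 346) (nat_lit 206) (nat_lit 168)) (XT.lf (nat_lit 0) (nat_lit 198915205508) (nat_lit 0) (nat_lit 0) (nat_lit 0) (nat_lit 0) (nat_lit 0) (nat_lit 0) (nat_lit 1) (nat_lit 0) (nat_lit 1) (nat_lit 0) (nat_lit 347) (nat_lit 206) (nat_lit 167))) (XT.nd (nat_lit 41266)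 (nat_lit 0) (nat_lit 504) (XT.lf (nat_lit 0) (nat_lit 208847770307) (nat_lit 0) (nat_lit 0) (nat_lit 0) (nat_lit 0) (nat_lit 0) (nat_lit 0) (nat_lit 1) (nat_lit 0) (nat_lit 1) (nat_lit 0) (nat_lit 348) (nat_lit 206) (nat_lit 166)) (XT.lf (nat_lit 0) (nat_lit 3253826288) (nat_lit 168) (nat_lit 3696306202) (nat_lit 0) (nat_lit 3253826288) (nat_lit 6) (nat_lit 5) (nat_lit 8) (nat_lit 4) (nat_lit 6) (nat_lit 4) (nat_lit 306) (nat_lit 207) (nat_lit 207)))) (XT.nd (nat_lit 188) (nat_lit 252) (nat_lit 0) (XT.nd (nat_lit 94) (nat_lit 168) (nat_lit 0) (XT.lf (nat_lit 0) (nat_lit 13113850958) (nat_lit 84) (nat_lit 3974940005) (nat_lit 84) (nat_lit 3818522778) (nat_lit 5) (nat_lit 4) (nat_lit 6) (nat_lit 5) (nat_lit 6) (nat_lit 4) (nat_lit 307) (nat_lit 207) (nat_lit 206)) (XT.lf (nat_lit 0) (nat_lit 6647696528) (nat_lit 168) (nat_lit 8416998368) (nat_lit 0) (nat_lit 6356852705) (nat_lit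 3) (nat_lit 5) (nat_lit 5) (nat_lit 4) (nat_lit 3) (nat_lit 4) (nat_lit 308) (nat_lit 207) (nat_lit 205))) (XT.nd (nat_lit 94) (nat_lit 168) (nat_lit 0) (XT.lf (nat_lit 0) (nat_lit 12759502095) (nat_lit 84) (nat_lit 4810875070) (nat_lit 84) (nat_lit 4384912165) (nat_lit 2) (nat_lit 4) (nat_lit 3) (nat_lit 5) (nat_lit 3) (nat_lit 4) (nat_lit 309) (nat_lit 207) (nat_lit 204)) (XT.lf (nat_lit 0) (nat_lit 33061298573) (nat_lit 0) (nat_lit 0) (nat_lit 0) (nat_lit 0) (nat_lit 0) (nat_lit 0) (nat_lit 1) (nat_lit 0) (nat_lit 1) (nat_lit 0) (nat_lit 310) (nat_lit 207) (nat_lit 203)))))) (XT.nd (nat_lit 752) (nat_lit 0) (nat_lit 0) (XT.nd (nat_lit 376) (nat_lit 0) (nat_lit 0) (XT.nd (nat_lit 188) (nat_lit 0) (nat_lit 0) (XT.nd (nat_lit 94) (nat_lit 0) (nat_lit 0) (XT.lf (nat_lit 0) (nat_lit 34686397169) (nat_lit 0) (nat_lit 0) (nat_lit 0) (nat_lit 0) (nat_lit 0) (nat_lit 0) (nat_lit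 1) (nat_lit 0) (nat_lit 1) (nat_lit 0) (nat_lit 311) (nat_lit 207) (nat_lit 202)) (XT.lf (nat_lit 0) (nat_lit 36393571446) (nat_lit 0) (nat_lit 0) (nat_lit 0) (nat_lit 0) (nat_lit 0) (nat_lit 0) (nat_lit 1) (nat_lit 0) (nat_lit 1) (nat_lit 0) (nat_lit 312) (nat_lit 207) (nat_lit 201))) (XT.nd (nat_lit 94) (nat_lit 0) (nat_lit 0) (XT.lf (nat_lit 0) (nat_lit 38186886103) (nat_lit 0) (nat_lit 0) (nat_lit 0) (nat_lit 0) (nat_lit 0) (nat_lit 0) (nat_lit 1) (nat_lit 0) (nat_lit 1) (nat_lit 0) (nat_lit 313) (nat_lit 207) (nat_lit 200)) (XT.lf (nat_lit 0) (nat_lit 40070610937) (nat_lit 0) (nat_lit 0) (nat_lit 0) (nat_lit 0) (nat_lit 0) (nat_lit 0) (nat_lit 1) (nat_lit 0) (nat_lit 1) (nat_lit 0) (nat_lit 314) (nat_lit 207) (nat_lit 199)))) (XT.nd (nat_lit 188) (nat_lit 0) (nat_lit 0) (XT.nd (nat_lit 94) (nat_lit 0) (nat_lit 0) (XT.lf (nat_lit 0) (nat_lit 42049231009) (nat_lit 0)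 (nat_lit 0) (nat_lit 0) (nat_lit 0) (nat_lit 0) (nat_lit 0) (nat_lit 1) (nat_lit 0) (nat_lit 1) (nat_lit 0) (nat_lit 315) (nat_lit 207) (nat_lit 198)) (XT.lf (nat_lit 0) (nat_lit 44127457317) (nat_lit 0) (nat_lit 0) (nat_lit 0) (nat_lit 0) (nat_lit 0) (nat_lit 0) (nat_lit 1) (nat_lit 0) (nat_lit 1) (nat_lit 0) (nat_lit 316) (nat_lit 207) (nat_lit 197))) (XT.nd (nat_lit 94) (nat_lit 0) (nat_lit 0) (XT.lf (nat_lit 0) (nat_lit 46310238020) (nat_lit 0) (nat_lit 0) (nat_lit 0) (nat_lit 0) (nat_lit 0) (nat_lit 0) (nat_lit 1) (nat_lit 0) (nat_lit 1) (nat_lit 0) (nat_lit 317) (nat_lit 207) (nat_lit 196)) (XT.lf (nat_lit 0) (nat_lit 48602770215) (nat_lit 0) (nat_lit 0) (nat_lit 0) (nat_lit 0) (nat_lit 0) (nat_lit 0) (nat_lit 1) (nat_lit 0) (nat_lit 1) (nat_lit 0) (nat_lit 318) (nat_lit 207) (nat_lit 195))))) (XT.nd (nat_lit 376) (nat_lit 0) (nat_lit 0) (XT.nd (nat_lit 188) (nat_lit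 0) (nat_lit 0) (XT.nd (nat_lit 94) (nat_lit 0) (nat_lit 0) (XT.lf (nat_lit 0) (nat_lit 51010512312) (nat_lit 0) (nat_lit 0) (nat_lit 0) (nat_lit 0) (nat_lit 0) (nat_lit 0) (nat_lit 1) (nat_lit 0) (nat_lit 1) (nat_lit 0) (nat_lit 319) (nat_lit 207) (nat_lit 194)) (XT.lf (nat_lit 0) (nat_lit 53539197029) (nat_lit 0) (nat_lit 0) (nat_lit 0) (nat_lit 0) (nat_lit 0) (nat_lit 0) (nat_lit 1) (nat_lit 0) (nat_lit 1) (nat_lit 0) (nat_lit 320) (nat_lit 207) (nat_lit 193))) (XT.nd (nat_lit 94) (nat_lit 0) (nat_lit 0) (XT.lf (nat_lit 0) (nat_lit 56194845045) (nat_lit 0) (nat_lit 0) (nat_lit 0) (nat_lit 0) (nat_lit 0) (nat_lit 0) (nat_lit 1) (nat_lit 0) (nat_lit 1) (nat_lit 0) (nat_lit 321) (nat_lit 207) (nat_lit 192)) (XT.lf (nat_lit 0) (nat_lit 58983779332) (nat_lit 0) (nat_lit 0) (nat_lit 0) (nat_lit 0) (nat_lit 0) (nat_lit 0) (nat_lit 1) (nat_lit 0) (nat_lit 1) (nat_lit 0) (nat_lit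 322) (nat_lit 207) (nat_lit 191)))) (XT.nd (nat_lit 188) (nat_lit 0) (nat_lit 0) (XT.nd (nat_lit 94) (nat_lit 0) (nat_lit 0) (XT.lf (nat_lit 0) (nat_lit 61912640209) (nat_lit 0) (nat_lit 0) (nat_lit 0) (nat_lit 0) (nat_lit 0) (nat_lit 0) (nat_lit 1) (nat_lit 0) (nat_lit 1) (nat_lit 0) (nat_lit 323) (nat_lit 207) (nat_lit 190)) (XT.lf (nat_lit 0) (nat_lit 64988401154) (nat_lit 0) (nat_lit 0) (nat_lit 0) (nat_lit 0) (nat_lit 0) (nat_lit 0) (nat_lit 1) (nat_lit 0) (nat_lit 1) (nat_lit 0) (nat_lit 324) (nat_lit 207) (nat_lit 189))) (XT.nd (nat_lit 94) (nat_lit 0) (nat_lit 0) (XT.lf (nat_lit 0) (nat_lit 68218385408) (nat_lit 0) (nat_lit 0) (nat_lit 0) (nat_lit 0) (nat_lit 0) (nat_lit 0) (nat_lit 1) (nat_lit 0) (nat_lit 1) (nat_lit 0) (nat_lit 325) (nat_lit 207) (nat_lit 188)) (XT.nd (nat_lit 94) (nat_lit 0) (nat_lit 0) (XT.lf (nat_lit 0) (nat_lit 71610283409) (nat_lit 0) (nat_lit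 0) (nat_lit 0) (nat_lit 0) (nat_lit 0) (nat_lit 0) (nat_lit 1) (nat_lit 0) (nat_lit 1) (nat_lit 0) (nat_lit 326) (nat_lit 207) (nat_lit 187)) (XT.lf (nat_lit 0) (nat_lit 75172171105) (nat_lit 0) (nat_lit 0) (nat_lit 0) (nat_lit 0) (nat_lit 0) (nat_lit 0) (nat_lit 1) (nat_lit 0) (nat_lit 1) (nat_lit 0) (nat_lit 327) (nat_lit 207) (nat_lit 186))))))))
noncomputable def xc17 : XT := (XT.nd (nat_lit 1598) (nat_lit 0) (nat_lit 0) (XT.nd (nat_lit 752) (nat_lit 0) (nat_lit 0) (XT.nd (nat_lit 376) (nat_lit 0) (nat_lit 0) (XT.nd (nat_lit 188) (nat_lit 0) (nat_lit 0) (XT.nd (nat_lit 94) (nat_lit 0) (nat_lit 0) (XT.lf (nat_lit 0) (nat_lit 78912529181) (nat_lit 0) (nat_lit 0) (nat_lit 0) (nat_lit 0) (nat_lit 0) (nat_lit 0) (nat_lit 1) (nat_lit 0) (nat_lit 1) (nat_lit 0) (nat_lit 328) (nat_lit 207) (nat_lit 185)) (XT.lf (nat_lit 0) (nat_lit 82840263252) (nat_lit 0) (nat_lit 0) (nat_lit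 0) (nat_lit 0) (nat_lit 0) (nat_lit 0) (nat_lit 1) (nat_lit 0) (nat_lit 1) (nat_lit 0) (nat_lit 329) (nat_lit 207) (nat_lit 184))) (XT.nd (nat_lit 94) (nat_lit 0) (nat_lit 0) (XT.lf (nat_lit 0) (nat_lit 86964725065) (nat_lit 0) (nat_lit 0) (nat_lit 0) (nat_lit 0) (nat_lit 0) (nat_lit 0) (nat_lit 1) (nat_lit 0) (nat_lit 1) (nat_lit 0) (nat_lit 330) (nat_lit 207) (nat_lit 183)) (XT.lf (nat_lit 0) (nat_lit 91295734767) (nat_lit 0) (nat_lit 0) (nat_lit 0) (nat_lit 0) (nat_lit 0) (nat_lit 0) (nat_lit 1) (nat_lit 0) (nat_lit 1) (nat_lit 0) (nat_lit 331) (nat_lit 207) (nat_lit 182)))) (XT.nd (nat_lit 188) (nat_lit 0) (nat_lit 0) (XT.nd (nat_lit 94) (nat_lit 0) (nat_lit 0) (XT.lf (nat_lit 0) (nat_lit 95843604287) (nat_lit 0) (nat_lit 0) (nat_lit 0) (nat_lit 0) (nat_lit 0) (nat_lit 0) (nat_lit 1) (nat_lit 0) (nat_lit 1) (nat_lit 0) (nat_lit 332) (nat_lit 207) (nat_lit 181)) (XT.lf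 (nat_lit 0) (nat_lit 100619161885) (nat_lit 0) (nat_lit 0) (nat_lit 0) (nat_lit 0) (nat_lit 0) (nat_lit 0) (nat_lit 1) (nat_lit 0) (nat_lit 1) (nat_lit 0) (nat_lit 333) (nat_lit 207) (nat_lit 180))) (XT.nd (nat_lit 94) (nat_lit 0) (nat_lit 0) (XT.lf (nat_lit 0) (nat_lit 105633777935) (nat_lit 0) (nat_lit 0) (nat_lit 0) (nat_lit 0) (nat_lit 0) (nat_lit 0) (nat_lit 1) (nat_lit 0) (nat_lit 1) (nat_lit 0) (nat_lit 334) (nat_lit 207) (nat_lit 179)) (XT.lf (nat_lit 0) (nat_lit 110899392002) (nat_lit 0) (nat_lit 0) (nat_lit 0) (nat_lit 0) (nat_lit 0) (nat_lit 0) (nat_lit 1) (nat_lit 0) (nat_lit 1) (nat_lit 0) (nat_lit 335) (nat_lit 207) (nat_lit 178))))) (XT.nd (nat_lit 376) (nat_lit 0) (nat_lit 0) (XT.nd (nat_lit 188) (nat_lit 0) (nat_lit 0) (XT.nd (nat_lit 94) (nat_lit 0) (nat_lit 0) (XT.lf (nat_lit 0) (nat_lit 116428541260) (nat_lit 0) (nat_lit 0) (nat_lit 0) (nat_lit 0) (nat_lit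 0) (nat_lit 0) (nat_lit 1) (nat_lit 0) (nat_lit 1) (nat_lit 0) (nat_lit 336) (nat_lit 207) (nat_lit 177)) (XT.lf (nat_lit 0) (nat_lit 122234390350) (nat_lit 0) (nat_lit 0) (nat_lit 0) (nat_lit 0) (nat_lit 0) (nat_lit 0) (nat_lit 1) (nat_lit 0) (nat_lit 1) (nat_lit 0) (nat_lit 337) (nat_lit 207) (nat_lit 176))) (XT.nd (nat_lit 94) (nat_lit 0) (nat_lit 0) (XT.lf (nat_lit 0) (nat_lit 128330762724) (nat_lit 0) (nat_lit 0) (nat_lit 0) (nat_lit 0) (nat_lit 0) (nat_lit 0) (nat_lit 1) (nat_lit 0) (nat_lit 1) (nat_lit 0) (nat_lit 338) (nat_lit 207) (nat_lit 175)) (XT.lf (nat_lit 0) (nat_lit 134732173553) (nat_lit 0) (nat_lit 0) (nat_lit 0) (nat_lit 0) (nat_lit 0) (nat_lit 0) (nat_lit 1) (nat_lit 0) (nat_lit 1) (nat_lit 0) (nat_lit 339) (nat_lit 207) (nat_lit 174)))) (XT.nd (nat_lit 188) (nat_lit 0) (nat_lit 0) (XT.nd (nat_lit 94) (nat_lit 0) (nat_lit 0) (XT.lf (nat_lit 0) (nat_lit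 141453864292) (nat_lit 0) (nat_lit 0) (nat_lit 0) (nat_lit 0) (nat_lit 0) (nat_lit 0) (nat_lit 1) (nat_lit 0) (nat_lit 1) (nat_lit 0) (nat_lit 340) (nat_lit 207) (nat_lit 173)) (XT.lf (nat_lit 0) (nat_lit 148511838965) (nat_lit 0) (nat_lit 0) (nat_lit 0) (nat_lit 0) (nat_lit 0) (nat_lit 0) (nat_lit 1) (nat_lit 0) (nat_lit 1) (nat_lit 0) (nat_lit 341) (nat_lit 207) (nat_lit 172))) (XT.nd (nat_lit 94) (nat_lit 0) (nat_lit 0) (XT.lf (nat_lit 0) (nat_lit 155922902276) (nat_lit 0) (nat_lit 0) (nat_lit 0) (nat_lit 0) (nat_lit 0) (nat_lit 0) (nat_lit 1) (nat_lit 0) (nat_lit 1) (nat_lit 0) (nat_lit 342) (nat_lit 207) (nat_lit 171)) (XT.nd (nat_lit 94) (nat_lit 0) (nat_lit 0) (XT.lf (nat_lit 0) (nat_lit 163704699612) (nat_lit 0) (nat_lit 0) (nat_lit 0) (nat_lit 0) (nat_lit 0) (nat_lit 0) (nat_lit 1) (nat_lit 0) (nat_lit 1) (nat_lit 0) (nat_lit 343) (nat_lit 207) (nat_lit 170)) (XT.lf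 (nat_lit 0) (nat_lit 171875759063) (nat_lit 0) (nat_lit 0) (nat_lit 0) (nat_lit 0) (nat_lit 0) (nat_lit 0) (nat_lit 1) (nat_lit 0) (nat_lit 1) (nat_lit 0) (nat_lit 344) (nat_lit 207) (nat_lit 169))))))) (XT.nd (nat_lit 41830) (nat_lit 0) (nat_lit 0) (XT.nd (nat_lit 41454) (nat_lit 0) (nat_lit 252) (XT.nd (nat_lit 188) (nat_lit 0) (nat_lit 0) (XT.nd (nat_lit 94) (nat_lit 0) (nat_lit 0) (XT.lf (nat_lit 0) (nat_lit 180455535532) (nat_lit 0) (nat_lit 0) (nat_lit 0) (nat_lit 0) (nat_lit 0) (nat_lit 0) (nat_lit 1) (nat_lit 0) (nat_lit 1) (nat_lit 0) (nat_lit 345) (nat_lit 207) (nat_lit 168)) (XT.lf (nat_lit 0) (nat_lit 189464457058) (nat_lit 0) (nat_lit 0) (nat_lit 0) (nat_lit 0) (nat_lit 0) (nat_lit 0) (nat_lit 1) (nat_lit 0) (nat_lit 1) (nat_lit 0) (nat_lit 346) (nat_lit 207) (nat_lit 167))) (XT.nd (nat_lit 41172) (nat_lit 0) (nat_lit 756) (XT.lf (nat_lit 0) (nat_lit 198923973454)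 (nat_lit 0) (nat_lit 0) (nat_lit 0) (nat_lit 0) (nat_lit 0) (nat_lit 0) (nat_lit 1) (nat_lit 0) (nat_lit 1) (nat_lit 0) (nat_lit 347) (nat_lit 207) (nat_lit 166)) (XT.lf (nat_lit 0) (nat_lit 3183760961) (nat_lit 168) (nat_lit 3358617749) (nat_lit 0) (nat_lit 3183760961) (nat_lit 9) (nat_lit 5) (nat_lit 11) (nat_lit 4) (nat_lit 9) (nat_lit 4) (nat_lit 304) (nat_lit 208) (nat_lit 208)))) (XT.nd (nat_lit 188) (nat_lit 252) (nat_lit 0) (XT.nd (nat_lit 94) (nat_lit 168) (nat_lit 0) (XT.lf (nat_lit 0) (nat_lit 12815467633) (nat_lit 84) (nat_lit 3642118813) (nat_lit 84) (nat_lit 3469668820) (nat_lit 8) (nat_lit 4) (nat_lit 9) (nat_lit 5) (nat_lit 9) (nat_lit 4) (nat_lit 305) (nat_lit 208) (nat_lit 207)) (XT.lf (nat_lit 0) (nat_lit 6507128569) (nat_lit 168) (nat_lit 7722553837) (nat_lit 0) (nat_lit 6186473254) (nat_lit 6) (nat_lit 5) (nat_lit 8) (nat_lit 4) (nat_lit 6) (nat_lit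 4) (nat_lit 306) (nat_lit 208) (nat_lit 206))) (XT.nd (nat_lit 94) (nat_lit 168) (nat_lit 0) (XT.lf (nat_lit 0) (nat_lit 12448380374) (nat_lit 84) (nat_lit 4472580441) (nat_lit 84) (nat_lit 4002956338) (nat_lit 5) (nat_lit 4) (nat_lit 6) (nat_lit 5) (nat_lit 6) (nat_lit 4) (nat_lit 307) (nat_lit 208) (nat_lit 205)) (XT.lf (nat_lit 0) (nat_lit 6285801946) (nat_lit 168) (nat_lit 9458239431) (nat_lit 0) (nat_lit 5703421814) (nat_lit 3) (nat_lit 5) (nat_lit 5) (nat_lit 4) (nat_lit 3) (nat_lit 4) (nat_lit 308) (nat_lit 208) (nat_lit 204))))) (XT.nd (nat_lit 376) (nat_lit 0) (nat_lit 0) (XT.nd (nat_lit 188) (nat_lit 0) (nat_lit 0) (XT.nd (nat_lit 94) (nat_lit 168) (nat_lit 0) (XT.lf (nat_lit 0) (nat_lit 11358869584) (nat_lit 84) (nat_lit 5671161443) (nat_lit 84) (nat_lit 4960096471) (nat_lit 2) (nat_lit 4) (nat_lit 3) (nat_lit 5) (nat_lit 3) (nat_lit 4) (nat_lit 309) (nat_lit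 208) (nat_lit 203)) (XT.lf (nat_lit 0) (nat_lit 33063621462) (nat_lit 0) (nat_lit 0) (nat_lit 0) (nat_lit 0) (nat_lit 0) (nat_lit 0) (nat_lit 1) (nat_lit 0) (nat_lit 1) (nat_lit 0) (nat_lit 310) (nat_lit 208) (nat_lit 202))) (XT.nd (nat_lit 94) (nat_lit 0) (nat_lit 0) (XT.lf (nat_lit 0) (nat_lit 34689120424) (nat_lit 0) (nat_lit 0) (nat_lit 0) (nat_lit 0) (nat_lit 0) (nat_lit 0) (nat_lit 1) (nat_lit 0) (nat_lit 1) (nat_lit 0) (nat_lit 311) (nat_lit 208) (nat_lit 201)) (XT.lf (nat_lit 0) (nat_lit 36396676001) (nat_lit 0) (nat_lit 0) (nat_lit 0) (nat_lit 0) (nat_lit 0) (nat_lit 0) (nat_lit 1) (nat_lit 0) (nat_lit 1) (nat_lit 0) (nat_lit 312) (nat_lit 208) (nat_lit 200)))) (XT.nd (nat_lit 188) (nat_lit 0) (nat_lit 0) (XT.nd (nat_lit 94) (nat_lit 0) (nat_lit 0) (XT.lf (nat_lit 0) (nat_lit 38190353802) (nat_lit 0) (nat_lit 0) (nat_lit 0) (nat_lit 0) (nat_lit 0) (nat_lit 0) (nat_lit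 1) (nat_lit 0) (nat_lit 1) (nat_lit 0) (nat_lit 313) (nat_lit 208) (nat_lit 199)) (XT.lf (nat_lit 0) (nat_lit 40074424488) (nat_lit 0) (nat_lit 0) (nat_lit 0) (nat_lit 0) (nat_lit 0) (nat_lit 0) (nat_lit 1) (nat_lit 0) (nat_lit 1) (nat_lit 0) (nat_lit 314) (nat_lit 208) (nat_lit 198))) (XT.nd (nat_lit 94) (nat_lit 0) (nat_lit 0) (XT.lf (nat_lit 0) (nat_lit 42053373942) (nat_lit 0) (nat_lit 0) (nat_lit 0) (nat_lit 0) (nat_lit 0) (nat_lit 0) (nat_lit 1) (nat_lit 0) (nat_lit 1) (nat_lit 0) (nat_lit 315) (nat_lit 208) (nat_lit 197)) (XT.nd (nat_lit 94) (nat_lit 0) (nat_lit 0) (XT.lf (nat_lit 0) (nat_lit 44131913947) (nat_lit 0) (nat_lit 0) (nat_lit 0) (nat_lit 0) (nat_lit 0) (nat_lit 0) (nat_lit 1) (nat_lit 0) (nat_lit 1) (nat_lit 0) (nat_lit 316) (nat_lit 208) (nat_lit 196)) (XT.lf (nat_lit 0) (nat_lit 46314993410) (nat_lit 0) (nat_lit 0) (nat_lit 0) (nat_lit 0) (nat_lit 0)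 (nat_lit 0) (nat_lit 1) (nat_lit 0) (nat_lit 1) (nat_lit 0) (nat_lit 317) (nat_lit 208) (nat_lit 195))))))))
noncomputable def xc18 : XT := (XT.nd (nat_lit 1598) (nat_lit 0) (nat_lit 0) (XT.nd (nat_lit 752) (nat_lit 0) (nat_lit 0) (XT.nd (nat_lit 376) (nat_lit 0) (nat_lit 0) (XT.nd (nat_lit 188) (nat_lit 0) (nat_lit 0) (XT.nd (nat_lit 94) (nat_lit 0) (nat_lit 0) (XT.lf (nat_lit 0) (nat_lit 48607810137) (nat_lit 0) (nat_lit 0) (nat_lit 0) (nat_lit 0) (nat_lit 0) (nat_lit 0) (nat_lit 1) (nat_lit 0) (nat_lit 1) (nat_lit 0) (nat_lit 318) (nat_lit 208) (nat_lit 194)) (XT.lf (nat_lit 0) (nat_lit 51015823217) (nat_lit 0) (nat_lit 0) (nat_lit 0) (nat_lit 0) (nat_lit 0) (nat_lit 0) (nat_lit 1) (nat_lit 0) (nat_lit 1) (nat_lit 0) (nat_lit 319) (nat_lit 208) (nat_lit 193))) (XT.nd (nat_lit 94) (nat_lit 0) (nat_lit 0) (XT.lf (nat_lit 0) (nat_lit 53544766014) (nat_lit 0) (nat_lit 0)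 (nat_lit 0) (nat_lit 0) (nat_lit 0) (nat_lit 0) (nat_lit 1) (nat_lit 0) (nat_lit 1) (nat_lit 0) (nat_lit 320) (nat_lit 208) (nat_lit 192)) (XT.lf (nat_lit 0) (nat_lit 56200659820) (nat_lit 0) (nat_lit 0) (nat_lit 0) (nat_lit 0) (nat_lit 0) (nat_lit 0) (nat_lit 1) (nat_lit 0) (nat_lit 1) (nat_lit 0) (nat_lit 321) (nat_lit 208) (nat_lit 191)))) (XT.nd (nat_lit 188) (nat_lit 0) (nat_lit 0) (XT.nd (nat_lit 94) (nat_lit 0) (nat_lit 0) (XT.lf (nat_lit 0) (nat_lit 58989828193) (nat_lit 0) (nat_lit 0) (nat_lit 0) (nat_lit 0) (nat_lit 0) (nat_lit 0) (nat_lit 1) (nat_lit 0) (nat_lit 1) (nat_lit 0) (nat_lit 322) (nat_lit 208) (nat_lit 190)) (XT.lf (nat_lit 0) (nat_lit 61918912008) (nat_lit 0) (nat_lit 0) (nat_lit 0) (nat_lit 0) (nat_lit 0) (nat_lit 0) (nat_lit 1) (nat_lit 0) (nat_lit 1) (nat_lit 0) (nat_lit 323) (nat_lit 208) (nat_lit 189))) (XT.nd (nat_lit 94) (nat_lit 0) (nat_lit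 0) (XT.lf (nat_lit 0) (nat_lit 64994885276) (nat_lit 0) (nat_lit 0) (nat_lit 0) (nat_lit 0) (nat_lit 0) (nat_lit 0) (nat_lit 1) (nat_lit 0) (nat_lit 1) (nat_lit 0) (nat_lit 324) (nat_lit 208) (nat_lit 188)) (XT.lf (nat_lit 0) (nat_lit 68225071742) (nat_lit 0) (nat_lit 0) (nat_lit 0) (nat_lit 0) (nat_lit 0) (nat_lit 0) (nat_lit 1) (nat_lit 0) (nat_lit 1) (nat_lit 0) (nat_lit 325) (nat_lit 208) (nat_lit 187))))) (XT.nd (nat_lit 376) (nat_lit 0) (nat_lit 0) (XT.nd (nat_lit 188) (nat_lit 0) (nat_lit 0) (XT.nd (nat_lit 94) (nat_lit 0) (nat_lit 0) (XT.lf (nat_lit 0) (nat_lit 71617162326) (nat_lit 0) (nat_lit 0) (nat_lit 0) (nat_lit 0) (nat_lit 0) (nat_lit 0) (nat_lit 1) (nat_lit 0) (nat_lit 1) (nat_lit 0) (nat_lit 326) (nat_lit 208) (nat_lit 186)) (XT.lf (nat_lit 0) (nat_lit 75179233435) (nat_lit 0) (nat_lit 0) (nat_lit 0) (nat_lit 0) (nat_lit 0) (nat_lit 0) (nat_lit 1) (nat_lit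 0) (nat_lit 1) (nat_lit 0) (nat_lit 327) (nat_lit 208) (nat_lit 185))) (XT.nd (nat_lit 94) (nat_lit 0) (nat_lit 0) (XT.lf (nat_lit 0) (nat_lit 78919766189) (nat_lit 0) (nat_lit 0) (nat_lit 0) (nat_lit 0) (nat_lit 0) (nat_lit 0) (nat_lit 1) (nat_lit 0) (nat_lit 1) (nat_lit 0) (nat_lit 328) (nat_lit 208) (nat_lit 184)) (XT.lf (nat_lit 0) (nat_lit 82847666620) (nat_lit 0) (nat_lit 0) (nat_lit 0) (nat_lit 0) (nat_lit 0) (nat_lit 0) (nat_lit 1) (nat_lit 0) (nat_lit 1) (nat_lit 0) (nat_lit 329) (nat_lit 208) (nat_lit 183)))) (XT.nd (nat_lit 188) (nat_lit 0) (nat_lit 0) (XT.nd (nat_lit 94) (nat_lit 0) (nat_lit 0) (XT.lf (nat_lit 0) (nat_lit 86972286872) (nat_lit 0) (nat_lit 0) (nat_lit 0) (nat_lit 0) (nat_lit 0) (nat_lit 0) (nat_lit 1) (nat_lit 0) (nat_lit 1) (nat_lit 0) (nat_lit 330) (nat_lit 208) (nat_lit 182)) (XT.lf (nat_lit 0) (nat_lit 91303447468) (nat_lit 0) (nat_lit 0)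 (nat_lit 0) (nat_lit 0) (nat_lit 0) (nat_lit 0) (nat_lit 1) (nat_lit 0) (nat_lit 1) (nat_lit 0) (nat_lit 331) (nat_lit 208) (nat_lit 181))) (XT.nd (nat_lit 94) (nat_lit 0) (nat_lit 0) (XT.lf (nat_lit 0) (nat_lit 95851460696) (nat_lit 0) (nat_lit 0) (nat_lit 0) (nat_lit 0) (nat_lit 0) (nat_lit 0) (nat_lit 1) (nat_lit 0) (nat_lit 1) (nat_lit 0) (nat_lit 332) (nat_lit 208) (nat_lit 180)) (XT.nd (nat_lit 94) (nat_lit 0) (nat_lit 0) (XT.lf (nat_lit 0) (nat_lit 100627155158) (nat_lit 0) (nat_lit 0) (nat_lit 0) (nat_lit 0) (nat_lit 0) (nat_lit 0) (nat_lit 1) (nat_lit 0) (nat_lit 1) (nat_lit 0) (nat_lit 333) (nat_lit 208) (nat_lit 179)) (XT.lf (nat_lit 0) (nat_lit 105641901557) (nat_lit 0) (nat_lit 0) (nat_lit 0) (nat_lit 0) (nat_lit 0) (nat_lit 0) (nat_lit 1) (nat_lit 0) (nat_lit 1) (nat_lit 0) (nat_lit 334) (nat_lit 208) (nat_lit 178))))))) (XT.nd (nat_lit 752) (nat_lit 0) (nat_lit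 0) (XT.nd (nat_lit 376) (nat_lit 0) (nat_lit 0) (XT.nd (nat_lit 188) (nat_lit 0) (nat_lit 0) (XT.nd (nat_lit 94) (nat_lit 0) (nat_lit 0) (XT.lf (nat_lit 0) (nat_lit 110907639764) (nat_lit 0) (nat_lit 0) (nat_lit 0) (nat_lit 0) (nat_lit 0) (nat_lit 0) (nat_lit 1) (nat_lit 0) (nat_lit 1) (nat_lit 0) (nat_lit 335) (nat_lit 208) (nat_lit 177)) (XT.lf (nat_lit 0) (nat_lit 116436907251) (nat_lit 0) (nat_lit 0) (nat_lit 0) (nat_lit 0) (nat_lit 0) (nat_lit 0) (nat_lit 1) (nat_lit 0) (nat_lit 1) (nat_lit 0) (nat_lit 336) (nat_lit 208) (nat_lit 176))) (XT.nd (nat_lit 94) (nat_lit 0) (nat_lit 0) (XT.lf (nat_lit 0) (nat_lit 122242868941) (nat_lit 0) (nat_lit 0) (nat_lit 0) (nat_lit 0) (nat_lit 0) (nat_lit 0) (nat_lit 1) (nat_lit 0) (nat_lit 1) (nat_lit 0) (nat_lit 337) (nat_lit 208) (nat_lit 175)) (XT.lf (nat_lit 0) (nat_lit 128339348552) (nat_lit 0) (nat_lit 0) (nat_lit 0) (nat_lit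 0) (nat_lit 0) (nat_lit 0) (nat_lit 1) (nat_lit 0) (nat_lit 1) (nat_lit 0) (nat_lit 338) (nat_lit 208) (nat_lit 174)))) (XT.nd (nat_lit 188) (nat_lit 0) (nat_lit 0) (XT.nd (nat_lit 94) (nat_lit 0) (nat_lit 0) (XT.lf (nat_lit 0) (nat_lit 134740861512) (nat_lit 0) (nat_lit 0) (nat_lit 0) (nat_lit 0) (nat_lit 0) (nat_lit 0) (nat_lit 1) (nat_lit 0) (nat_lit 1) (nat_lit 0) (nat_lit 339) (nat_lit 208) (nat_lit 173)) (XT.lf (nat_lit 0) (nat_lit 141462649518) (nat_lit 0) (nat_lit 0) (nat_lit 0) (nat_lit 0) (nat_lit 0) (nat_lit 0) (nat_lit 1) (nat_lit 0) (nat_lit 1) (nat_lit 0) (nat_lit 340) (nat_lit 208) (nat_lit 172))) (XT.nd (nat_lit 94) (nat_lit 0) (nat_lit 0) (XT.lf (nat_lit 0) (nat_lit 148520716827) (nat_lit 0) (nat_lit 0) (nat_lit 0) (nat_lit 0) (nat_lit 0) (nat_lit 0) (nat_lit 1) (nat_lit 0) (nat_lit 1) (nat_lit 0) (nat_lit 341) (nat_lit 208) (nat_lit 171)) (XT.lf (nat_lit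 0) (nat_lit 155931868362) (nat_lit 0) (nat_lit 0) (nat_lit 0) (nat_lit 0) (nat_lit 0) (nat_lit 0) (nat_lit 1) (nat_lit 0) (nat_lit 1) (nat_lit 0) (nat_lit 342) (nat_lit 208) (nat_lit 170))))) (XT.nd (nat_lit 376) (nat_lit 0) (nat_lit 0) (XT.nd (nat_lit 188) (nat_lit 0) (nat_lit 0) (XT.nd (nat_lit 94) (nat_lit 0) (nat_lit 0) (XT.lf (nat_lit 0) (nat_lit 163713749722) (nat_lit 0) (nat_lit 0) (nat_lit 0) (nat_lit 0) (nat_lit 0) (nat_lit 0) (nat_lit 1) (nat_lit 0) (nat_lit 1) (nat_lit 0) (nat_lit 343) (nat_lit 208) (nat_lit 169)) (XT.lf (nat_lit 0) (nat_lit 171884889195) (nat_lit 0) (nat_lit 0) (nat_lit 0) (nat_lit 0) (nat_lit 0) (nat_lit 0) (nat_lit 1) (nat_lit 0) (nat_lit 1) (nat_lit 0) (nat_lit 344) (nat_lit 208) (nat_lit 168))) (XT.nd (nat_lit 94) (nat_lit 0) (nat_lit 0) (XT.lf (nat_lit 0) (nat_lit 180464741875) (nat_lit 0) (nat_lit 0) (nat_lit 0) (nat_lit 0) (nat_lit 0)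 (nat_lit 0) (nat_lit 1) (nat_lit 0) (nat_lit 1) (nat_lit 0) (nat_lit 345) (nat_lit 208) (nat_lit 167)) (XT.lf (nat_lit 0) (nat_lit 189473735984) (nat_lit 0) (nat_lit 0) (nat_lit 0) (nat_lit 0) (nat_lit 0) (nat_lit 0) (nat_lit 1) (nat_lit 0) (nat_lit 1) (nat_lit 0) (nat_lit 346) (nat_lit 208) (nat_lit 166)))) (XT.nd (nat_lit 41078) (nat_lit 0) (nat_lit 672) (XT.nd (nat_lit 40984) (nat_lit 0) (nat_lit 1008) (XT.lf (nat_lit 0) (nat_lit 198933321506) (nat_lit 0) (nat_lit 0) (nat_lit 0) (nat_lit 0) (nat_lit 0) (nat_lit 0) (nat_lit 1) (nat_lit 0) (nat_lit 1) (nat_lit 0) (nat_lit 347) (nat_lit 208) (nat_lit 165)) (XT.lf (nat_lit 0) (nat_lit 3125732154) (nat_lit 168) (nat_lit 3020438127) (nat_lit 0) (nat_lit 3125732154) (nat_lit 12) (nat_lit 5) (nat_lit 14) (nat_lit 4) (nat_lit 12) (nat_lit 4) (nat_lit 302) (nat_lit 209) (nat_lit 209))) (XT.nd (nat_lit 94) (nat_lit 252) (nat_lit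 0) (XT.lf (nat_lit 0) (nat_lit 12564716829) (nat_lit 84) (nat_lit 3310433569) (nat_lit 84) (nat_lit 3120307452) (nat_lit 11) (nat_lit 4) (nat_lit 12) (nat_lit 5) (nat_lit 12) (nat_lit 4) (nat_lit 303) (nat_lit 209) (nat_lit 208)) (XT.nd (nat_lit 94) (nat_lit 84) (nat_lit 0) (XT.lf (nat_lit 0) (nat_lit 6391293197) (nat_lit 168) (nat_lit 7031080497) (nat_lit 0) (nat_lit 6037770711) (nat_lit 9) (nat_lit 5) (nat_lit 11) (nat_lit 4) (nat_lit 9) (nat_lit 4) (nat_lit 304) (nat_lit 209) (nat_lit 207)) (XT.lf (nat_lit 0) (nat_lit 12182462519) (nat_lit 84) (nat_lit 4139201532) (nat_lit 84) (nat_lit 3621440959) (nat_lit 8) (nat_lit 4) (nat_lit 9) (nat_lit 5) (nat_lit 9) (nat_lit 4) (nat_lit 305) (nat_lit 209) (nat_lit 206))))))))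
noncomputable def xc19 : XT := (XT.nd (nat_lit 1598) (nat_lit 0) (nat_lit 0) (XT.nd (nat_lit 752) (nat_lit 0) (nat_lit 0) (XT.nd (nat_lit 376) (nat_lit 168) (nat_lit 0) (XT.nd (nat_lit 188) (nat_lit 252) (nat_lit 0) (XT.nd (nat_lit 94) (nat_lit 84) (nat_lit 0) (XT.lf (nat_lit 0) (nat_lit 6184899986) (nat_lit 168) (nat_lit 8713163711) (nat_lit 0) (nat_lit 5542825891) (nat_lit 6) (nat_lit 5) (nat_lit 8) (nat_lit 4) (nat_lit 6) (nat_lit 4) (nat_lit 306) (nat_lit 209) (nat_lit 205)) (XT.lf (nat_lit 0) (nat_lit 11115854752) (nat_lit 84) (nat_lit 5312628944) (nat_lit 84) (nat_lit 4528679812) (nat_lit 5) (nat_lit 4) (nat_lit 6) (nat_lit 5) (nat_lit 6) (nat_lit 4) (nat_lit 307) (nat_lit 209) (nat_lit 204))) (XT.nd (nat_lit 94) (nat_lit 84) (nat_lit 0) (XT.lf (nat_lit 0) (nat_lit 5584815933) (nat_lit 168) (nat_lit 11196395590) (nat_lit 0) (nat_lit 4709512873) (nat_lit 3) (nat_lit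 5) (nat_lit 5) (nat_lit 4) (nat_lit 3) (nat_lit 4) (nat_lit 308) (nat_lit 209) (nat_lit 203)) (XT.lf (nat_lit 0) (nat_lit 9253753260) (nat_lit 84) (nat_lit 6893297600) (nat_lit 84) (nat_lit 5895437550) (nat_lit 2) (nat_lit 4) (nat_lit 3) (nat_lit 5) (nat_lit 3) (nat_lit 4) (nat_lit 309) (nat_lit 209) (nat_lit 202)))) (XT.nd (nat_lit 188) (nat_lit 0) (nat_lit 0) (XT.nd (nat_lit 94) (nat_lit 0) (nat_lit 0) (XT.lf (nat_lit 0) (nat_lit 33066881246) (nat_lit 0) (nat_lit 0) (nat_lit 0) (nat_lit 0) (nat_lit 0) (nat_lit 0) (nat_lit 1) (nat_lit 0) (nat_lit 1) (nat_lit 0) (nat_lit 310) (nat_lit 209) (nat_lit 201)) (XT.lf (nat_lit 0) (nat_lit 34692761509) (nat_lit 0) (nat_lit 0) (nat_lit 0) (nat_lit 0) (nat_lit 0) (nat_lit 0) (nat_lit 1) (nat_lit 0) (nat_lit 1) (nat_lit 0) (nat_lit 311) (nat_lit 209) (nat_lit 200))) (XT.nd (nat_lit 94) (nat_lit 0) (nat_lit 0) (XT.lf (nat_lit 0) (nat_lit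 36400680230) (nat_lit 0) (nat_lit 0) (nat_lit 0) (nat_lit 0) (nat_lit 0) (nat_lit 0) (nat_lit 1) (nat_lit 0) (nat_lit 1) (nat_lit 0) (nat_lit 312) (nat_lit 209) (nat_lit 199)) (XT.lf (nat_lit 0) (nat_lit 38194703882) (nat_lit 0) (nat_lit 0) (nat_lit 0) (nat_lit 0) (nat_lit 0) (nat_lit 0) (nat_lit 1) (nat_lit 0) (nat_lit 1) (nat_lit 0) (nat_lit 313) (nat_lit 209) (nat_lit 198))))) (XT.nd (nat_lit 376) (nat_lit 0) (nat_lit 0) (XT.nd (nat_lit 188) (nat_lit 0) (nat_lit 0) (XT.nd (nat_lit 94) (nat_lit 0) (nat_lit 0) (XT.lf (nat_lit 0) (nat_lit 40079103950) (nat_lit 0) (nat_lit 0) (nat_lit 0) (nat_lit 0) (nat_lit 0) (nat_lit 0) (nat_lit 1) (nat_lit 0) (nat_lit 1) (nat_lit 0) (nat_lit 314) (nat_lit 209) (nat_lit 197)) (XT.lf (nat_lit 0) (nat_lit 42058367101) (nat_lit 0) (nat_lit 0) (nat_lit 0) (nat_lit 0) (nat_lit 0) (nat_lit 0) (nat_lit 1) (nat_lit 0) (nat_lit 1) (nat_lit 0) (nat_lit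 315) (nat_lit 209) (nat_lit 196))) (XT.nd (nat_lit 94) (nat_lit 0) (nat_lit 0) (XT.lf (nat_lit 0) (nat_lit 44137205865) (nat_lit 0) (nat_lit 0) (nat_lit 0) (nat_lit 0) (nat_lit 0) (nat_lit 0) (nat_lit 1) (nat_lit 0) (nat_lit 1) (nat_lit 0) (nat_lit 316) (nat_lit 209) (nat_lit 195)) (XT.lf (nat_lit 0) (nat_lit 46320569860) (nat_lit 0) (nat_lit 0) (nat_lit 0) (nat_lit 0) (nat_lit 0) (nat_lit 0) (nat_lit 1) (nat_lit 0) (nat_lit 1) (nat_lit 0) (nat_lit 317) (nat_lit 209) (nat_lit 194)))) (XT.nd (nat_lit 188) (nat_lit 0) (nat_lit 0) (XT.nd (nat_lit 94) (nat_lit 0) (nat_lit 0) (XT.lf (nat_lit 0) (nat_lit 48613657571) (nat_lit 0) (nat_lit 0) (nat_lit 0) (nat_lit 0) (nat_lit 0) (nat_lit 0) (nat_lit 1) (nat_lit 0) (nat_lit 1) (nat_lit 0) (nat_lit 318) (nat_lit 209) (nat_lit 193)) (XT.lf (nat_lit 0) (nat_lit 51021928731) (nat_lit 0) (nat_lit 0) (nat_lit 0) (nat_lit 0) (nat_lit 0)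 (nat_lit 0) (nat_lit 1) (nat_lit 0) (nat_lit 1) (nat_lit 0) (nat_lit 319) (nat_lit 209) (nat_lit 192))) (XT.nd (nat_lit 94) (nat_lit 0) (nat_lit 0) (XT.lf (nat_lit 0) (nat_lit 53551117318) (nat_lit 0) (nat_lit 0) (nat_lit 0) (nat_lit 0) (nat_lit 0) (nat_lit 0) (nat_lit 1) (nat_lit 0) (nat_lit 1) (nat_lit 0) (nat_lit 320) (nat_lit 209) (nat_lit 191)) (XT.nd (nat_lit 94) (nat_lit 0) (nat_lit 0) (XT.lf (nat_lit 0) (nat_lit 56207245210) (nat_lit 0) (nat_lit 0) (nat_lit 0) (nat_lit 0) (nat_lit 0) (nat_lit 0) (nat_lit 1) (nat_lit 0) (nat_lit 1) (nat_lit 0) (nat_lit 321) (nat_lit 209) (nat_lit 190)) (XT.lf (nat_lit 0) (nat_lit 58996636521) (nat_lit 0) (nat_lit 0) (nat_lit 0) (nat_lit 0) (nat_lit 0) (nat_lit 0) (nat_lit 1) (nat_lit 0) (nat_lit 1) (nat_lit 0) (nat_lit 322) (nat_lit 209) (nat_lit 189))))))) (XT.nd (nat_lit 752) (nat_lit 0) (nat_lit 0) (XT.nd (nat_lit 376) (nat_lit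 0) (nat_lit 0) (XT.nd (nat_lit 188) (nat_lit 0) (nat_lit 0) (XT.nd (nat_lit 94) (nat_lit 0) (nat_lit 0) (XT.lf (nat_lit 0) (nat_lit 61925932659) (nat_lit 0) (nat_lit 0) (nat_lit 0) (nat_lit 0) (nat_lit 0) (nat_lit 0) (nat_lit 1) (nat_lit 0) (nat_lit 1) (nat_lit 0) (nat_lit 323) (nat_lit 209) (nat_lit 188)) (XT.lf (nat_lit 0) (nat_lit 65002108139) (nat_lit 0) (nat_lit 0) (nat_lit 0) (nat_lit 0) (nat_lit 0) (nat_lit 0) (nat_lit 1) (nat_lit 0) (nat_lit 1) (nat_lit 0) (nat_lit 324) (nat_lit 209) (nat_lit 187))) (XT.nd (nat_lit 94) (nat_lit 0) (nat_lit 0) (XT.lf (nat_lit 0) (nat_lit 68232487188) (nat_lit 0) (nat_lit 0) (nat_lit 0) (nat_lit 0) (nat_lit 0) (nat_lit 0) (nat_lit 1) (nat_lit 0) (nat_lit 1) (nat_lit 0) (nat_lit 325) (nat_lit 209) (nat_lit 186)) (XT.lf (nat_lit 0) (nat_lit 71624761184) (nat_lit 0) (nat_lit 0) (nat_lit 0) (nat_lit 0) (nat_lit 0) (nat_lit 0) (nat_lit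 1) (nat_lit 0) (nat_lit 1) (nat_lit 0) (nat_lit 326) (nat_lit 209) (nat_lit 185)))) (XT.nd (nat_lit 188) (nat_lit 0) (nat_lit 0) (XT.nd (nat_lit 94) (nat_lit 0) (nat_lit 0) (XT.lf (nat_lit 0) (nat_lit 75187006971) (nat_lit 0) (nat_lit 0) (nat_lit 0) (nat_lit 0) (nat_lit 0) (nat_lit 0) (nat_lit 1) (nat_lit 0) (nat_lit 1) (nat_lit 0) (nat_lit 327) (nat_lit 209) (nat_lit 184)) (XT.lf (nat_lit 0) (nat_lit 78927706086) (nat_lit 0) (nat_lit 0) (nat_lit 0) (nat_lit 0) (nat_lit 0) (nat_lit 0) (nat_lit 1) (nat_lit 0) (nat_lit 1) (nat_lit 0) (nat_lit 328) (nat_lit 209) (nat_lit 183))) (XT.nd (nat_lit 94) (nat_lit 0) (nat_lit 0) (XT.lf (nat_lit 0) (nat_lit 82855764956) (nat_lit 0) (nat_lit 0) (nat_lit 0) (nat_lit 0) (nat_lit 0) (nat_lit 0) (nat_lit 1) (nat_lit 0) (nat_lit 1) (nat_lit 0) (nat_lit 329) (nat_lit 209) (nat_lit 182)) (XT.lf (nat_lit 0) (nat_lit 86980536101) (nat_lit 0)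 (nat_lit 0) (nat_lit 0) (nat_lit 0) (nat_lit 0) (nat_lit 0) (nat_lit 1) (nat_lit 0) (nat_lit 1) (nat_lit 0) (nat_lit 330) (nat_lit 209) (nat_lit 181))))) (XT.nd (nat_lit 376) (nat_lit 0) (nat_lit 0) (XT.nd (nat_lit 188) (nat_lit 0) (nat_lit 0) (XT.nd (nat_lit 94) (nat_lit 0) (nat_lit 0) (XT.lf (nat_lit 0) (nat_lit 91311840405) (nat_lit 0) (nat_lit 0) (nat_lit 0) (nat_lit 0) (nat_lit 0) (nat_lit 0) (nat_lit 1) (nat_lit 0) (nat_lit 1) (nat_lit 0) (nat_lit 331) (nat_lit 209) (nat_lit 180)) (XT.lf (nat_lit 0) (nat_lit 95859990498) (nat_lit 0) (nat_lit 0) (nat_lit 0) (nat_lit 0) (nat_lit 0) (nat_lit 0) (nat_lit 1) (nat_lit 0) (nat_lit 1) (nat_lit 0) (nat_lit 332) (nat_lit 209) (nat_lit 179))) (XT.nd (nat_lit 94) (nat_lit 0) (nat_lit 0) (XT.lf (nat_lit 0) (nat_lit 100635815309) (nat_lit 0) (nat_lit 0) (nat_lit 0) (nat_lit 0) (nat_lit 0) (nat_lit 0) (nat_lit 1) (nat_lit 0) (nat_lit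 1) (nat_lit 0) (nat_lit 333) (nat_lit 209) (nat_lit 178)) (XT.lf (nat_lit 0) (nat_lit 105650685848) (nat_lit 0) (nat_lit 0) (nat_lit 0) (nat_lit 0) (nat_lit 0) (nat_lit 0) (nat_lit 1) (nat_lit 0) (nat_lit 1) (nat_lit 0) (nat_lit 334) (nat_lit 209) (nat_lit 177)))) (XT.nd (nat_lit 188) (nat_lit 0) (nat_lit 0) (XT.nd (nat_lit 94) (nat_lit 0) (nat_lit 0) (XT.lf (nat_lit 0) (nat_lit 110916542284) (nat_lit 0) (nat_lit 0) (nat_lit 0) (nat_lit 0) (nat_lit 0) (nat_lit 0) (nat_lit 1) (nat_lit 0) (nat_lit 1) (nat_lit 0) (nat_lit 335) (nat_lit 209) (nat_lit 176)) (XT.lf (nat_lit 0) (nat_lit 116445922370) (nat_lit 0) (nat_lit 0) (nat_lit 0) (nat_lit 0) (nat_lit 0) (nat_lit 0) (nat_lit 1) (nat_lit 0) (nat_lit 1) (nat_lit 0) (nat_lit 336) (nat_lit 209) (nat_lit 175))) (XT.nd (nat_lit 94) (nat_lit 0) (nat_lit 0) (XT.lf (nat_lit 0) (nat_lit 122251991298) (nat_lit 0) (nat_lit 0) (nat_lit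 0) (nat_lit 0) (nat_lit 0) (nat_lit 0) (nat_lit 1) (nat_lit 0) (nat_lit 1) (nat_lit 0) (nat_lit 337) (nat_lit 209) (nat_lit 174)) (XT.nd (nat_lit 94) (nat_lit 0) (nat_lit 0) (XT.lf (nat_lit 0) (nat_lit 128348573040) (nat_lit 0) (nat_lit 0) (nat_lit 0) (nat_lit 0) (nat_lit 0) (nat_lit 0) (nat_lit 1) (nat_lit 0) (nat_lit 1) (nat_lit 0) (nat_lit 338) (nat_lit 209) (nat_lit 173)) (XT.lf (nat_lit 0) (nat_lit 134750183267) (nat_lit 0) (nat_lit 0) (nat_lit 0) (nat_lit 0) (nat_lit 0) (nat_lit 0) (nat_lit 1) (nat_lit 0) (nat_lit 1) (nat_lit 0) (nat_lit 339) (nat_lit 209) (nat_lit 172))))))))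
noncomputable def xc20 : XT := (XT.nd (nat_lit 42300) (nat_lit 0) (nat_lit 0) (XT.nd (nat_lit 41548) (nat_lit 0) (nat_lit 252) (XT.nd (nat_lit 376) (nat_lit 0) (nat_lit 0) (XT.nd (nat_lit 188) (nat_lit 0) (nat_lit 0) (XT.nd (nat_lit 94) (nat_lit 0) (nat_lit 0) (XT.lf (nat_lit 0) (nat_lit 141472063908) (nat_lit 0) (nat_lit 0) (nat_lit 0) (nat_lit 0) (nat_lit 0) (nat_lit 0) (nat_lit 1) (nat_lit 0) (nat_lit 1) (nat_lit 0) (nat_lit 340) (nat_lit 209) (nat_lit 171)) (XT.lf (nat_lit 0) (nat_lit 148530219442) (nat_lit 0) (nat_lit 0) (nat_lit 0) (nat_lit 0) (nat_lit 0) (nat_lit 0) (nat_lit 1) (nat_lit 0) (nat_lit 1) (nat_lit 0) (nat_lit 341) (nat_lit 209) (nat_lit 170))) (XT.nd (nat_lit 94) (nat_lit 0) (nat_lit 0) (XT.lf (nat_lit 0) (nat_lit 155941455001) (nat_lit 0) (nat_lit 0) (nat_lit 0) (nat_lit 0) (nat_lit 0) (nat_lit 0) (nat_lit 1) (nat_lit 0) (nat_lit 1) (nat_lit 0) (nat_lit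 342) (nat_lit 209) (nat_lit 169)) (XT.lf (nat_lit 0) (nat_lit 163723416382) (nat_lit 0) (nat_lit 0) (nat_lit 0) (nat_lit 0) (nat_lit 0) (nat_lit 0) (nat_lit 1) (nat_lit 0) (nat_lit 1) (nat_lit 0) (nat_lit 343) (nat_lit 209) (nat_lit 168)))) (XT.nd (nat_lit 188) (nat_lit 0) (nat_lit 0) (XT.nd (nat_lit 94) (nat_lit 0) (nat_lit 0) (XT.lf (nat_lit 0) (nat_lit 171894632067) (nat_lit 0) (nat_lit 0) (nat_lit 0) (nat_lit 0) (nat_lit 0) (nat_lit 0) (nat_lit 1) (nat_lit 0) (nat_lit 1) (nat_lit 0) (nat_lit 344) (nat_lit 209) (nat_lit 167)) (XT.lf (nat_lit 0) (nat_lit 180474557330) (nat_lit 0) (nat_lit 0) (nat_lit 0) (nat_lit 0) (nat_lit 0) (nat_lit 0) (nat_lit 1) (nat_lit 0) (nat_lit 1) (nat_lit 0) (nat_lit 345) (nat_lit 209) (nat_lit 166))) (XT.nd (nat_lit 40890) (nat_lit 0) (nat_lit 1260) (XT.lf (nat_lit 0) (nat_lit 189483620564) (nat_lit 0) (nat_lit 0) (nat_lit 0) (nat_lit 0) (nat_lit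 0) (nat_lit 0) (nat_lit 1) (nat_lit 0) (nat_lit 1) (nat_lit 0) (nat_lit 346) (nat_lit 209) (nat_lit 165)) (XT.lf (nat_lit 0) (nat_lit 3080058456) (nat_lit 168) (nat_lit 2680092139) (nat_lit 0) (nat_lit 3080058456) (nat_lit 15) (nat_lit 5) (nat_lit 17) (nat_lit 4) (nat_lit 15) (nat_lit 4) (nat_lit 300) (nat_lit 210) (nat_lit 210))))) (XT.nd (nat_lit 376) (nat_lit 504) (nat_lit 0) (XT.nd (nat_lit 188) (nat_lit 252) (nat_lit 0) (XT.nd (nat_lit 94) (nat_lit 168) (nat_lit 0) (XT.lf (nat_lit 0) (nat_lit 12362756269) (nat_lit 84) (nat_lit 2978322133) (nat_lit 84) (nat_lit 2768708089) (nat_lit 14) (nat_lit 4) (nat_lit 15) (nat_lit 5) (nat_lit 15) (nat_lit 4) (nat_lit 301) (nat_lit 210) (nat_lit 209)) (XT.lf (nat_lit 0) (nat_lit 6300861653) (nat_lit 168) (nat_lit 6339351860) (nat_lit 0) (nat_lit 5911103113) (nat_lit 12) (nat_lit 5) (nat_lit 14) (nat_lit 4) (nat_lit 12) (nat_lit 4)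 (nat_lit 302) (nat_lit 210) (nat_lit 208))) (XT.nd (nat_lit 94) (nat_lit 168) (nat_lit 0) (XT.lf (nat_lit 0) (nat_lit 11962710791) (nat_lit 84) (nat_lit 3809356924) (nat_lit 84) (nat_lit 3238525892) (nat_lit 11) (nat_lit 4) (nat_lit 12) (nat_lit 5) (nat_lit 12) (nat_lit 4) (nat_lit 303) (nat_lit 210) (nat_lit 207)) (XT.lf (nat_lit 0) (nat_lit 6109141131) (nat_lit 168) (nat_lit 7973362743) (nat_lit 0) (nat_lit 5401254440) (nat_lit 9) (nat_lit 5) (nat_lit 11) (nat_lit 4) (nat_lit 9) (nat_lit 4) (nat_lit 304) (nat_lit 210) (nat_lit 206)))) (XT.nd (nat_lit 188) (nat_lit 252) (nat_lit 0) (XT.nd (nat_lit 94) (nat_lit 168) (nat_lit 0) (XT.lf (nat_lit 0) (nat_lit 10914945136) (nat_lit 84) (nat_lit 4962100509) (nat_lit 84) (nat_lit 4097796591) (nat_lit 8) (nat_lit 4) (nat_lit 9) (nat_lit 5) (nat_lit 9) (nat_lit 4) (nat_lit 305) (nat_lit 210) (nat_lit 205)) (XT.lf (nat_lit 0) (nat_lit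 5540199617) (nat_lit 168) (nat_lit 10366800621) (nat_lit 0) (nat_lit 4575177993) (nat_lit 6) (nat_lit 5) (nat_lit 8) (nat_lit 4) (nat_lit 6) (nat_lit 4) (nat_lit 306) (nat_lit 210) (nat_lit 204))) (XT.nd (nat_lit 94) (nat_lit 168) (nat_lit 0) (XT.lf (nat_lit 0) (nat_lit 9113101412) (nat_lit 84) (nat_lit 6497085629) (nat_lit 84) (nat_lit 5396944924) (nat_lit 5) (nat_lit 4) (nat_lit 6) (nat_lit 5) (nat_lit 6) (nat_lit 4) (nat_lit 307) (nat_lit 210) (nat_lit 203)) (XT.lf (nat_lit 0) (nat_lit 4543069475) (nat_lit 168) (nat_lit 13635605313) (nat_lit 0) (nat_lit 3372759431) (nat_lit 3) (nat_lit 5) (nat_lit 5) (nat_lit 4) (nat_lit 3) (nat_lit 4) (nat_lit 308) (nat_lit 210) (nat_lit 202)))))) (XT.nd (nat_lit 752) (nat_lit 0) (nat_lit 0) (XT.nd (nat_lit 376) (nat_lit 0) (nat_lit 0) (XT.nd (nat_lit 188) (nat_lit 0) (nat_lit 0) (XT.nd (nat_lit 94) (nat_lit 168) (nat_lit 0) (XT.lf (nat_lit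 0) (nat_lit 6439140942) (nat_lit 84) (nat_lit 8480193390) (nat_lit 84) (nat_lit 7193162404) (nat_lit 2) (nat_lit 4) (nat_lit 3) (nat_lit 5) (nat_lit 3) (nat_lit 4) (nat_lit 309) (nat_lit 210) (nat_lit 201)) (XT.lf (nat_lit 0) (nat_lit 33071085685) (nat_lit 0) (nat_lit 0) (nat_lit 0) (nat_lit 0) (nat_lit 0) (nat_lit 0) (nat_lit 1) (nat_lit 0) (nat_lit 1) (nat_lit 0) (nat_lit 310) (nat_lit 210) (nat_lit 200))) (XT.nd (nat_lit 94) (nat_lit 0) (nat_lit 0) (XT.lf (nat_lit 0) (nat_lit 34697329092) (nat_lit 0) (nat_lit 0) (nat_lit 0) (nat_lit 0) (nat_lit 0) (nat_lit 0) (nat_lit 1) (nat_lit 0) (nat_lit 1) (nat_lit 0) (nat_lit 311) (nat_lit 210) (nat_lit 199)) (XT.lf (nat_lit 0) (nat_lit 36405593664) (nat_lit 0) (nat_lit 0) (nat_lit 0) (nat_lit 0) (nat_lit 0) (nat_lit 0) (nat_lit 1) (nat_lit 0) (nat_lit 1) (nat_lit 0) (nat_lit 312) (nat_lit 210) (nat_lit 198)))) (XT.nd (nat_lit 188)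 (nat_lit 0) (nat_lit 0) (XT.nd (nat_lit 94) (nat_lit 0) (nat_lit 0) (XT.lf (nat_lit 0) (nat_lit 38199946699) (nat_lit 0) (nat_lit 0) (nat_lit 0) (nat_lit 0) (nat_lit 0) (nat_lit 0) (nat_lit 1) (nat_lit 0) (nat_lit 1) (nat_lit 0) (nat_lit 313) (nat_lit 210) (nat_lit 197)) (XT.lf (nat_lit 0) (nat_lit 40084660464) (nat_lit 0) (nat_lit 0) (nat_lit 0) (nat_lit 0) (nat_lit 0) (nat_lit 0) (nat_lit 1) (nat_lit 0) (nat_lit 1) (nat_lit 0) (nat_lit 314) (nat_lit 210) (nat_lit 196))) (XT.nd (nat_lit 94) (nat_lit 0) (nat_lit 0) (XT.lf (nat_lit 0) (nat_lit 42064222374) (nat_lit 0) (nat_lit 0) (nat_lit 0) (nat_lit 0) (nat_lit 0) (nat_lit 0) (nat_lit 1) (nat_lit 0) (nat_lit 1) (nat_lit 0) (nat_lit 315) (nat_lit 210) (nat_lit 195)) (XT.lf (nat_lit 0) (nat_lit 44143345671) (nat_lit 0) (nat_lit 0) (nat_lit 0) (nat_lit 0) (nat_lit 0) (nat_lit 0) (nat_lit 1) (nat_lit 0) (nat_lit 1) (nat_lit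 0) (nat_lit 316) (nat_lit 210) (nat_lit 194))))) (XT.nd (nat_lit 376) (nat_lit 0) (nat_lit 0) (XT.nd (nat_lit 188) (nat_lit 0) (nat_lit 0) (XT.nd (nat_lit 94) (nat_lit 0) (nat_lit 0) (XT.lf (nat_lit 0) (nat_lit 46326980650) (nat_lit 0) (nat_lit 0) (nat_lit 0) (nat_lit 0) (nat_lit 0) (nat_lit 0) (nat_lit 1) (nat_lit 0) (nat_lit 1) (nat_lit 0) (nat_lit 317) (nat_lit 210) (nat_lit 193)) (XT.lf (nat_lit 0) (nat_lit 48620326441) (nat_lit 0) (nat_lit 0) (nat_lit 0) (nat_lit 0) (nat_lit 0) (nat_lit 0) (nat_lit 1) (nat_lit 0) (nat_lit 1) (nat_lit 0) (nat_lit 318) (nat_lit 210) (nat_lit 192))) (XT.nd (nat_lit 94) (nat_lit 0) (nat_lit 0) (XT.lf (nat_lit 0) (nat_lit 51028843390) (nat_lit 0) (nat_lit 0) (nat_lit 0) (nat_lit 0) (nat_lit 0) (nat_lit 0) (nat_lit 1) (nat_lit 0) (nat_lit 1) (nat_lit 0) (nat_lit 319) (nat_lit 210) (nat_lit 191)) (XT.lf (nat_lit 0) (nat_lit 53558266063) (nat_lit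 0) (nat_lit 0) (nat_lit 0) (nat_lit 0) (nat_lit 0) (nat_lit 0) (nat_lit 1) (nat_lit 0) (nat_lit 1) (nat_lit 0) (nat_lit 320) (nat_lit 210) (nat_lit 190)))) (XT.nd (nat_lit 188) (nat_lit 0) (nat_lit 0) (XT.nd (nat_lit 94) (nat_lit 0) (nat_lit 0) (XT.lf (nat_lit 0) (nat_lit 56214616894) (nat_lit 0) (nat_lit 0) (nat_lit 0) (nat_lit 0) (nat_lit 0) (nat_lit 0) (nat_lit 1) (nat_lit 0) (nat_lit 1) (nat_lit 0) (nat_lit 321) (nat_lit 210) (nat_lit 189)) (XT.lf (nat_lit 0) (nat_lit 59004220527) (nat_lit 0) (nat_lit 0) (nat_lit 0) (nat_lit 0) (nat_lit 0) (nat_lit 0) (nat_lit 1) (nat_lit 0) (nat_lit 1) (nat_lit 0) (nat_lit 322) (nat_lit 210) (nat_lit 188))) (XT.nd (nat_lit 94) (nat_lit 0) (nat_lit 0) (XT.lf (nat_lit 0) (nat_lit 61933718878) (nat_lit 0) (nat_lit 0) (nat_lit 0) (nat_lit 0) (nat_lit 0) (nat_lit 0) (nat_lit 1) (nat_lit 0) (nat_lit 1) (nat_lit 0) (nat_lit 323) (nat_lit 210)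 (nat_lit 187)) (XT.nd (nat_lit 94) (nat_lit 0) (nat_lit 0) (XT.lf (nat_lit 0) (nat_lit 65010086940) (nat_lit 0) (nat_lit 0) (nat_lit 0) (nat_lit 0) (nat_lit 0) (nat_lit 0) (nat_lit 1) (nat_lit 0) (nat_lit 1) (nat_lit 0) (nat_lit 324) (nat_lit 210) (nat_lit 186)) (XT.lf (nat_lit 0) (nat_lit 68240649401) (nat_lit 0) (nat_lit 0) (nat_lit 0) (nat_lit 0) (nat_lit 0) (nat_lit 0) (nat_lit 1) (nat_lit 0) (nat_lit 1) (nat_lit 0) (nat_lit 325) (nat_lit 210) (nat_lit 185))))))))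
noncomputable def xc21 : XT := (XT.nd (nat_lit 1598) (nat_lit 0) (nat_lit 0) (XT.nd (nat_lit 752) (nat_lit 0) (nat_lit 0) (XT.nd (nat_lit 376) (nat_lit 0) (nat_lit 0) (XT.nd (nat_lit 188) (nat_lit 0) (nat_lit 0) (XT.nd (nat_lit 94) (nat_lit 0) (nat_lit 0) (XT.lf (nat_lit 0) (nat_lit 71633098076) (nat_lit 0) (nat_lit 0) (nat_lit 0) (nat_lit 0) (nat_lit 0) (nat_lit 0) (nat_lit 1) (nat_lit 0) (nat_lit 1) (nat_lit 0) (nat_lit 326) (nat_lit 210) (nat_lit 184)) (XT.lf (nat_lit 0) (nat_lit 75195510223) (nat_lit 0) (nat_lit 0) (nat_lit 0) (nat_lit 0) (nat_lit 0) (nat_lit 0) (nat_lit 1) (nat_lit 0) (nat_lit 1) (nat_lit 0) (nat_lit 327) (nat_lit 210) (nat_lit 183))) (XT.nd (nat_lit 94) (nat_lit 0) (nat_lit 0) (XT.lf (nat_lit 0) (nat_lit 78936367777) (nat_lit 0) (nat_lit 0) (nat_lit 0) (nat_lit 0) (nat_lit 0) (nat_lit 0) (nat_lit 1) (nat_lit 0) (nat_lit 1) (nat_lit 0) (nat_lit 328)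 (nat_lit 210) (nat_lit 182)) (XT.lf (nat_lit 0) (nat_lit 82864577540) (nat_lit 0) (nat_lit 0) (nat_lit 0) (nat_lit 0) (nat_lit 0) (nat_lit 0) (nat_lit 1) (nat_lit 0) (nat_lit 1) (nat_lit 0) (nat_lit 329) (nat_lit 210) (nat_lit 181)))) (XT.nd (nat_lit 188) (nat_lit 0) (nat_lit 0) (XT.nd (nat_lit 94) (nat_lit 0) (nat_lit 0) (XT.lf (nat_lit 0) (nat_lit 86989492393) (nat_lit 0) (nat_lit 0) (nat_lit 0) (nat_lit 0) (nat_lit 0) (nat_lit 0) (nat_lit 1) (nat_lit 0) (nat_lit 1) (nat_lit 0) (nat_lit 330) (nat_lit 210) (nat_lit 180)) (XT.lf (nat_lit 0) (nat_lit 91320933563) (nat_lit 0) (nat_lit 0) (nat_lit 0) (nat_lit 0) (nat_lit 0) (nat_lit 0) (nat_lit 1) (nat_lit 0) (nat_lit 1) (nat_lit 0) (nat_lit 331) (nat_lit 210) (nat_lit 179))) (XT.nd (nat_lit 94) (nat_lit 0) (nat_lit 0) (XT.lf (nat_lit 0) (nat_lit 95869214004) (nat_lit 0) (nat_lit 0) (nat_lit 0) (nat_lit 0) (nat_lit 0) (nat_lit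 0) (nat_lit 1) (nat_lit 0) (nat_lit 1) (nat_lit 0) (nat_lit 332) (nat_lit 210) (nat_lit 178)) (XT.lf (nat_lit 0) (nat_lit 100645162955) (nat_lit 0) (nat_lit 0) (nat_lit 0) (nat_lit 0) (nat_lit 0) (nat_lit 0) (nat_lit 1) (nat_lit 0) (nat_lit 1) (nat_lit 0) (nat_lit 333) (nat_lit 210) (nat_lit 177))))) (XT.nd (nat_lit 376) (nat_lit 0) (nat_lit 0) (XT.nd (nat_lit 188) (nat_lit 0) (nat_lit 0) (XT.nd (nat_lit 94) (nat_lit 0) (nat_lit 0) (XT.lf (nat_lit 0) (nat_lit 105660151723) (nat_lit 0) (nat_lit 0) (nat_lit 0) (nat_lit 0) (nat_lit 0) (nat_lit 0) (nat_lit 1) (nat_lit 0) (nat_lit 1) (nat_lit 0) (nat_lit 334) (nat_lit 210) (nat_lit 176)) (XT.lf (nat_lit 0) (nat_lit 110926120759) (nat_lit 0) (nat_lit 0) (nat_lit 0) (nat_lit 0) (nat_lit 0) (nat_lit 0) (nat_lit 1) (nat_lit 0) (nat_lit 1) (nat_lit 0) (nat_lit 335) (nat_lit 210) (nat_lit 175))) (XT.nd (nat_lit 94) (nat_lit 0) (nat_lit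 0) (XT.lf (nat_lit 0) (nat_lit 116455608082) (nat_lit 0) (nat_lit 0) (nat_lit 0) (nat_lit 0) (nat_lit 0) (nat_lit 0) (nat_lit 1) (nat_lit 0) (nat_lit 1) (nat_lit 0) (nat_lit 336) (nat_lit 210) (nat_lit 174)) (XT.lf (nat_lit 0) (nat_lit 122261779140) (nat_lit 0) (nat_lit 0) (nat_lit 0) (nat_lit 0) (nat_lit 0) (nat_lit 0) (nat_lit 1) (nat_lit 0) (nat_lit 1) (nat_lit 0) (nat_lit 337) (nat_lit 210) (nat_lit 173)))) (XT.nd (nat_lit 188) (nat_lit 0) (nat_lit 0) (XT.nd (nat_lit 94) (nat_lit 0) (nat_lit 0) (XT.lf (nat_lit 0) (nat_lit 128358458150) (nat_lit 0) (nat_lit 0) (nat_lit 0) (nat_lit 0) (nat_lit 0) (nat_lit 0) (nat_lit 1) (nat_lit 0) (nat_lit 1) (nat_lit 0) (nat_lit 338) (nat_lit 210) (nat_lit 172)) (XT.lf (nat_lit 0) (nat_lit 134760161013) (nat_lit 0) (nat_lit 0) (nat_lit 0) (nat_lit 0) (nat_lit 0) (nat_lit 0) (nat_lit 1) (nat_lit 0) (nat_lit 1) (nat_lit 0) (nat_lit 339)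 (nat_lit 210) (nat_lit 171))) (XT.nd (nat_lit 94) (nat_lit 0) (nat_lit 0) (XT.lf (nat_lit 0) (nat_lit 141482129879) (nat_lit 0) (nat_lit 0) (nat_lit 0) (nat_lit 0) (nat_lit 0) (nat_lit 0) (nat_lit 1) (nat_lit 0) (nat_lit 1) (nat_lit 0) (nat_lit 340) (nat_lit 210) (nat_lit 170)) (XT.nd (nat_lit 94) (nat_lit 0) (nat_lit 0) (XT.lf (nat_lit 0) (nat_lit 148540369436) (nat_lit 0) (nat_lit 0) (nat_lit 0) (nat_lit 0) (nat_lit 0) (nat_lit 0) (nat_lit 1) (nat_lit 0) (nat_lit 1) (nat_lit 0) (nat_lit 341) (nat_lit 210) (nat_lit 169)) (XT.lf (nat_lit 0) (nat_lit 155951685016) (nat_lit 0) (nat_lit 0) (nat_lit 0) (nat_lit 0) (nat_lit 0) (nat_lit 0) (nat_lit 1) (nat_lit 0) (nat_lit 1) (nat_lit 0) (nat_lit 342) (nat_lit 210) (nat_lit 168))))))) (XT.nd (nat_lit 41360) (nat_lit 0) (nat_lit 0) (XT.nd (nat_lit 40984) (nat_lit 0) (nat_lit 1176) (XT.nd (nat_lit 188) (nat_lit 0) (nat_lit 0) (XT.nd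 (nat_lit 94) (nat_lit 0) (nat_lit 0) (XT.lf (nat_lit 0) (nat_lit 163733722610) (nat_lit 0) (nat_lit 0) (nat_lit 0) (nat_lit 0) (nat_lit 0) (nat_lit 0) (nat_lit 1) (nat_lit 0) (nat_lit 1) (nat_lit 0) (nat_lit 343) (nat_lit 210) (nat_lit 167)) (XT.lf (nat_lit 0) (nat_lit 171905010877) (nat_lit 0) (nat_lit 0) (nat_lit 0) (nat_lit 0) (nat_lit 0) (nat_lit 0) (nat_lit 1) (nat_lit 0) (nat_lit 1) (nat_lit 0) (nat_lit 344) (nat_lit 210) (nat_lit 166))) (XT.nd (nat_lit 94) (nat_lit 0) (nat_lit 0) (XT.lf (nat_lit 0) (nat_lit 180485005266) (nat_lit 0) (nat_lit 0) (nat_lit 0) (nat_lit 0) (nat_lit 0) (nat_lit 0) (nat_lit 1) (nat_lit 0) (nat_lit 1) (nat_lit 0) (nat_lit 345) (nat_lit 210) (nat_lit 165)) (XT.lf (nat_lit 0) (nat_lit 189494134335) (nat_lit 0) (nat_lit 0) (nat_lit 0) (nat_lit 0) (nat_lit 0) (nat_lit 0) (nat_lit 1) (nat_lit 0) (nat_lit 1) (nat_lit 0) (nat_lit 346) (nat_lit 210)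 (nat_lit 164)))) (XT.nd (nat_lit 188) (nat_lit 252) (nat_lit 0) (XT.nd (nat_lit 94) (nat_lit 84) (nat_lit 0) (XT.lf (nat_lit 0) (nat_lit 3047134693) (nat_lit 168) (nat_lit 2335810253) (nat_lit 0) (nat_lit 3047134693) (nat_lit 18) (nat_lit 5) (nat_lit 20) (nat_lit 4) (nat_lit 18) (nat_lit 4) (nat_lit 298) (nat_lit 211) (nat_lit 211)) (XT.lf (nat_lit 0) (nat_lit 12211039706) (nat_lit 84) (nat_lit 2644142173) (nat_lit 84) (nat_lit 2413042689) (nat_lit 17) (nat_lit 4) (nat_lit 18) (nat_lit 5) (nat_lit 18) (nat_lit 4) (nat_lit 299) (nat_lit 211) (nat_lit 210))) (XT.nd (nat_lit 94) (nat_lit 84) (nat_lit 0) (XT.lf (nat_lit 0) (nat_lit 6236662738) (nat_lit 168) (nat_lit 5643978865) (nat_lit 0) (nat_lit 5806953948) (nat_lit 15) (nat_lit 5) (nat_lit 17) (nat_lit 4) (nat_lit 15) (nat_lit 4) (nat_lit 300) (nat_lit 211) (nat_lit 209)) (XT.lf (nat_lit 0) (nat_lit 11790360898) (nat_lit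 84) (nat_lit 3481613375) (nat_lit 84) (nat_lit 2852272162) (nat_lit 14) (nat_lit 4) (nat_lit 15) (nat_lit 5) (nat_lit 15) (nat_lit 4) (nat_lit 301) (nat_lit 211) (nat_lit 208))))) (XT.nd (nat_lit 376) (nat_lit 672) (nat_lit 0) (XT.nd (nat_lit 188) (nat_lit 252) (nat_lit 0) (XT.nd (nat_lit 94) (nat_lit 84) (nat_lit 0) (XT.lf (nat_lit 0) (nat_lit 6059412760) (nat_lit 168) (nat_lit 7235489330) (nat_lit 0) (nat_lit 5278967683) (nat_lit 12) (nat_lit 5) (nat_lit 14) (nat_lit 4) (nat_lit 12) (nat_lit 4) (nat_lit 302) (nat_lit 211) (nat_lit 207)) (XT.lf (nat_lit 0) (nat_lit 10757265367) (nat_lit 84) (nat_lit 4618265428) (nat_lit 84) (nat_lit 3665370359) (nat_lit 11) (nat_lit 4) (nat_lit 12) (nat_lit 5) (nat_lit 12) (nat_lit 4) (nat_lit 303) (nat_lit 211) (nat_lit 206))) (XT.nd (nat_lit 94) (nat_lit 84) (nat_lit 0) (XT.lf (nat_lit 0) (nat_lit 5520393935) (nat_lit 168) (nat_lit 9546325765)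 (nat_lit 0) (nat_lit 4456457595) (nat_lit 9) (nat_lit 5) (nat_lit 11) (nat_lit 4) (nat_lit 9) (nat_lit 4) (nat_lit 304) (nat_lit 211) (nat_lit 205)) (XT.lf (nat_lit 0) (nat_lit 9009897586) (nat_lit 84) (nat_lit 6112775026) (nat_lit 84) (nat_lit 4899869898) (nat_lit 8) (nat_lit 4) (nat_lit 9) (nat_lit 5) (nat_lit 9) (nat_lit 4) (nat_lit 305) (nat_lit 211) (nat_lit 204)))) (XT.nd (nat_lit 188) (nat_lit 420) (nat_lit 0) (XT.nd (nat_lit 94) (nat_lit 84) (nat_lit 0) (XT.lf (nat_lit 0) (nat_lit 4571492460) (nat_lit 168) (nat_lit 12687401799) (nat_lit 0) (nat_lit 3281225637) (nat_lit 6) (nat_lit 5) (nat_lit 8) (nat_lit 4) (nat_lit 6) (nat_lit 4) (nat_lit 306) (nat_lit 211) (nat_lit 203)) (XT.lf (nat_lit 0) (nat_lit 6435351894) (nat_lit 84) (nat_lit 8028770633) (nat_lit 84) (nat_lit 6609818970) (nat_lit 5) (nat_lit 4) (nat_lit 6) (nat_lit 5) (nat_lit 6) (nat_lit 4) (nat_lit 307)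 (nat_lit 211) (nat_lit 202))) (XT.nd (nat_lit 94) (nat_lit 252) (nat_lit 0) (XT.lf (nat_lit 0) (nat_lit 3158082222) (nat_lit 168) (nat_lit 16781676241) (nat_lit 0) (nat_lit 1689978743) (nat_lit 3) (nat_lit 5) (nat_lit 5) (nat_lit 4) (nat_lit 3) (nat_lit 4) (nat_lit 308) (nat_lit 211) (nat_lit 201)) (XT.nd (nat_lit 94) (nat_lit 168) (nat_lit 0) (XT.lf (nat_lit 0) (nat_lit 2908331170) (nat_lit 84) (nat_lit 10435627137) (nat_lit 84) (nat_lit 8856360855) (nat_lit 2) (nat_lit 4) (nat_lit 3) (nat_lit 5) (nat_lit 3) (nat_lit 4) (nat_lit 309) (nat_lit 211) (nat_lit 200)) (XT.lf (nat_lit 0) (nat_lit 33076244792) (nat_lit 0) (nat_lit 0) (nat_lit 0) (nat_lit 0) (nat_lit 0) (nat_lit 0) (nat_lit 1) (nat_lit 0) (nat_lit 1) (nat_lit 0) (nat_lit 310) (nat_lit 211) (nat_lit 199))))))))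
noncomputable def xc22 : XT := (XT.nd (nat_lit 1598) (nat_lit 0) (nat_lit 0) (XT.nd (nat_lit 752) (nat_lit 0) (nat_lit 0) (XT.nd (nat_lit 376) (nat_lit 0) (nat_lit 0) (XT.nd (nat_lit 188) (nat_lit 0) (nat_lit 0) (XT.nd (nat_lit 94) (nat_lit 0) (nat_lit 0) (XT.lf (nat_lit 0) (nat_lit 34702834050) (nat_lit 0) (nat_lit 0) (nat_lit 0) (nat_lit 0) (nat_lit 0) (nat_lit 0) (nat_lit 1) (nat_lit 0) (nat_lit 1) (nat_lit 0) (nat_lit 311) (nat_lit 211) (nat_lit 198)) (XT.lf (nat_lit 0) (nat_lit 36411428004) (nat_lit 0) (nat_lit 0) (nat_lit 0) (nat_lit 0) (nat_lit 0) (nat_lit 0) (nat_lit 1) (nat_lit 0) (nat_lit 1) (nat_lit 0) (nat_lit 312) (nat_lit 211) (nat_lit 197))) (XT.nd (nat_lit 94) (nat_lit 0) (nat_lit 0) (XT.lf (nat_lit 0) (nat_lit 38206094736) (nat_lit 0) (nat_lit 0) (nat_lit 0) (nat_lit 0) (nat_lit 0) (nat_lit 0) (nat_lit 1) (nat_lit 0) (nat_lit 1) (nat_lit 0) (nat_lit 313)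 (nat_lit 211) (nat_lit 196)) (XT.lf (nat_lit 0) (nat_lit 40091107260) (nat_lit 0) (nat_lit 0) (nat_lit 0) (nat_lit 0) (nat_lit 0) (nat_lit 0) (nat_lit 1) (nat_lit 0) (nat_lit 1) (nat_lit 0) (nat_lit 314) (nat_lit 211) (nat_lit 195)))) (XT.nd (nat_lit 188) (nat_lit 0) (nat_lit 0) (XT.nd (nat_lit 94) (nat_lit 0) (nat_lit 0) (XT.lf (nat_lit 0) (nat_lit 42070953703) (nat_lit 0) (nat_lit 0) (nat_lit 0) (nat_lit 0) (nat_lit 0) (nat_lit 0) (nat_lit 1) (nat_lit 0) (nat_lit 1) (nat_lit 0) (nat_lit 315) (nat_lit 211) (nat_lit 194)) (XT.lf (nat_lit 0) (nat_lit 44150347984) (nat_lit 0) (nat_lit 0) (nat_lit 0) (nat_lit 0) (nat_lit 0) (nat_lit 0) (nat_lit 1) (nat_lit 0) (nat_lit 1) (nat_lit 0) (nat_lit 316) (nat_lit 211) (nat_lit 193))) (XT.nd (nat_lit 94) (nat_lit 0) (nat_lit 0) (XT.lf (nat_lit 0) (nat_lit 46334241042) (nat_lit 0) (nat_lit 0) (nat_lit 0) (nat_lit 0) (nat_lit 0) (nat_lit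 0) (nat_lit 1) (nat_lit 0) (nat_lit 1) (nat_lit 0) (nat_lit 317) (nat_lit 211) (nat_lit 192)) (XT.lf (nat_lit 0) (nat_lit 48627832623) (nat_lit 0) (nat_lit 0) (nat_lit 0) (nat_lit 0) (nat_lit 0) (nat_lit 0) (nat_lit 1) (nat_lit 0) (nat_lit 1) (nat_lit 0) (nat_lit 318) (nat_lit 211) (nat_lit 191))))) (XT.nd (nat_lit 376) (nat_lit 0) (nat_lit 0) (XT.nd (nat_lit 188) (nat_lit 0) (nat_lit 0) (XT.nd (nat_lit 94) (nat_lit 0) (nat_lit 0) (XT.lf (nat_lit 0) (nat_lit 51036583658) (nat_lit 0) (nat_lit 0) (nat_lit 0) (nat_lit 0) (nat_lit 0) (nat_lit 0) (nat_lit 1) (nat_lit 0) (nat_lit 1) (nat_lit 0) (nat_lit 319) (nat_lit 211) (nat_lit 190)) (XT.lf (nat_lit 0) (nat_lit 53566229269) (nat_lit 0) (nat_lit 0) (nat_lit 0) (nat_lit 0) (nat_lit 0) (nat_lit 0) (nat_lit 1) (nat_lit 0) (nat_lit 1) (nat_lit 0) (nat_lit 320) (nat_lit 211) (nat_lit 189))) (XT.nd (nat_lit 94) (nat_lit 0) (nat_lit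 0) (XT.lf (nat_lit 0) (nat_lit 56222792423) (nat_lit 0) (nat_lit 0) (nat_lit 0) (nat_lit 0) (nat_lit 0) (nat_lit 0) (nat_lit 1) (nat_lit 0) (nat_lit 1) (nat_lit 0) (nat_lit 321) (nat_lit 211) (nat_lit 188)) (XT.lf (nat_lit 0) (nat_lit 59012598269) (nat_lit 0) (nat_lit 0) (nat_lit 0) (nat_lit 0) (nat_lit 0) (nat_lit 0) (nat_lit 1) (nat_lit 0) (nat_lit 1) (nat_lit 0) (nat_lit 322) (nat_lit 211) (nat_lit 187)))) (XT.nd (nat_lit 188) (nat_lit 0) (nat_lit 0) (XT.nd (nat_lit 94) (nat_lit 0) (nat_lit 0) (XT.lf (nat_lit 0) (nat_lit 61942289202) (nat_lit 0) (nat_lit 0) (nat_lit 0) (nat_lit 0) (nat_lit 0) (nat_lit 0) (nat_lit 1) (nat_lit 0) (nat_lit 1) (nat_lit 0) (nat_lit 323) (nat_lit 211) (nat_lit 186)) (XT.lf (nat_lit 0) (nat_lit 65018840677) (nat_lit 0) (nat_lit 0) (nat_lit 0) (nat_lit 0) (nat_lit 0) (nat_lit 0) (nat_lit 1) (nat_lit 0) (nat_lit 1) (nat_lit 0) (nat_lit 324) (nat_lit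 211) (nat_lit 185))) (XT.nd (nat_lit 94) (nat_lit 0) (nat_lit 0) (XT.lf (nat_lit 0) (nat_lit 68249577816) (nat_lit 0) (nat_lit 0) (nat_lit 0) (nat_lit 0) (nat_lit 0) (nat_lit 0) (nat_lit 1) (nat_lit 0) (nat_lit 1) (nat_lit 0) (nat_lit 325) (nat_lit 211) (nat_lit 184)) (XT.nd (nat_lit 94) (nat_lit 0) (nat_lit 0) (XT.lf (nat_lit 0) (nat_lit 71642192851) (nat_lit 0) (nat_lit 0) (nat_lit 0) (nat_lit 0) (nat_lit 0) (nat_lit 0) (nat_lit 1) (nat_lit 0) (nat_lit 1) (nat_lit 0) (nat_lit 326) (nat_lit 211) (nat_lit 183)) (XT.lf (nat_lit 0) (nat_lit 75204763437) (nat_lit 0) (nat_lit 0) (nat_lit 0) (nat_lit 0) (nat_lit 0) (nat_lit 0) (nat_lit 1) (nat_lit 0) (nat_lit 1) (nat_lit 0) (nat_lit 327) (nat_lit 211) (nat_lit 182))))))) (XT.nd (nat_lit 752) (nat_lit 0) (nat_lit 0) (XT.nd (nat_lit 376) (nat_lit 0) (nat_lit 0) (XT.nd (nat_lit 188) (nat_lit 0) (nat_lit 0) (XT.nd (nat_lit 94) (nat_lit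 0) (nat_lit 0) (XT.lf (nat_lit 0) (nat_lit 78945771884) (nat_lit 0) (nat_lit 0) (nat_lit 0) (nat_lit 0) (nat_lit 0) (nat_lit 0) (nat_lit 1) (nat_lit 0) (nat_lit 1) (nat_lit 0) (nat_lit 328) (nat_lit 211) (nat_lit 181)) (XT.lf (nat_lit 0) (nat_lit 82874125356) (nat_lit 0) (nat_lit 0) (nat_lit 0) (nat_lit 0) (nat_lit 0) (nat_lit 0) (nat_lit 1) (nat_lit 0) (nat_lit 1) (nat_lit 0) (nat_lit 329) (nat_lit 211) (nat_lit 180))) (XT.nd (nat_lit 94) (nat_lit 0) (nat_lit 0) (XT.lf (nat_lit 0) (nat_lit 86999177074) (nat_lit 0) (nat_lit 0) (nat_lit 0) (nat_lit 0) (nat_lit 0) (nat_lit 0) (nat_lit 1) (nat_lit 0) (nat_lit 1) (nat_lit 0) (nat_lit 330) (nat_lit 211) (nat_lit 179)) (XT.lf (nat_lit 0) (nat_lit 91330748591) (nat_lit 0) (nat_lit 0) (nat_lit 0) (nat_lit 0) (nat_lit 0) (nat_lit 0) (nat_lit 1) (nat_lit 0) (nat_lit 1) (nat_lit 0) (nat_lit 331) (nat_lit 211) (nat_lit 178)))) (XT.nd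 (nat_lit 188) (nat_lit 0) (nat_lit 0) (XT.nd (nat_lit 94) (nat_lit 0) (nat_lit 0) (XT.lf (nat_lit 0) (nat_lit 95879153173) (nat_lit 0) (nat_lit 0) (nat_lit 0) (nat_lit 0) (nat_lit 0) (nat_lit 0) (nat_lit 1) (nat_lit 0) (nat_lit 1) (nat_lit 0) (nat_lit 332) (nat_lit 211) (nat_lit 177)) (XT.lf (nat_lit 0) (nat_lit 100655220353) (nat_lit 0) (nat_lit 0) (nat_lit 0) (nat_lit 0) (nat_lit 0) (nat_lit 0) (nat_lit 1) (nat_lit 0) (nat_lit 1) (nat_lit 0) (nat_lit 333) (nat_lit 211) (nat_lit 176))) (XT.nd (nat_lit 94) (nat_lit 0) (nat_lit 0) (XT.lf (nat_lit 0) (nat_lit 105670321721) (nat_lit 0) (nat_lit 0) (nat_lit 0) (nat_lit 0) (nat_lit 0) (nat_lit 0) (nat_lit 1) (nat_lit 0) (nat_lit 1) (nat_lit 0) (nat_lit 334) (nat_lit 211) (nat_lit 175)) (XT.lf (nat_lit 0) (nat_lit 110936397993) (nat_lit 0) (nat_lit 0) (nat_lit 0) (nat_lit 0) (nat_lit 0) (nat_lit 0) (nat_lit 1) (nat_lit 0) (nat_lit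 1) (nat_lit 0) (nat_lit 335) (nat_lit 211) (nat_lit 174))))) (XT.nd (nat_lit 376) (nat_lit 0) (nat_lit 0) (XT.nd (nat_lit 188) (nat_lit 0) (nat_lit 0) (XT.nd (nat_lit 94) (nat_lit 0) (nat_lit 0) (XT.lf (nat_lit 0) (nat_lit 116465987448) (nat_lit 0) (nat_lit 0) (nat_lit 0) (nat_lit 0) (nat_lit 0) (nat_lit 0) (nat_lit 1) (nat_lit 0) (nat_lit 1) (nat_lit 0) (nat_lit 336) (nat_lit 211) (nat_lit 173)) (XT.lf (nat_lit 0) (nat_lit 122272255774) (nat_lit 0) (nat_lit 0) (nat_lit 0) (nat_lit 0) (nat_lit 0) (nat_lit 0) (nat_lit 1) (nat_lit 0) (nat_lit 1) (nat_lit 0) (nat_lit 337) (nat_lit 211) (nat_lit 172))) (XT.nd (nat_lit 94) (nat_lit 0) (nat_lit 0) (XT.lf (nat_lit 0) (nat_lit 128369027418) (nat_lit 0) (nat_lit 0) (nat_lit 0) (nat_lit 0) (nat_lit 0) (nat_lit 0) (nat_lit 1) (nat_lit 0) (nat_lit 1) (nat_lit 0) (nat_lit 338) (nat_lit 211) (nat_lit 171)) (XT.lf (nat_lit 0) (nat_lit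 134770818506) (nat_lit 0) (nat_lit 0) (nat_lit 0) (nat_lit 0) (nat_lit 0) (nat_lit 0) (nat_lit 1) (nat_lit 0) (nat_lit 1) (nat_lit 0) (nat_lit 339) (nat_lit 211) (nat_lit 170)))) (XT.nd (nat_lit 188) (nat_lit 0) (nat_lit 0) (XT.nd (nat_lit 94) (nat_lit 0) (nat_lit 0) (XT.lf (nat_lit 0) (nat_lit 141492871395) (nat_lit 0) (nat_lit 0) (nat_lit 0) (nat_lit 0) (nat_lit 0) (nat_lit 0) (nat_lit 1) (nat_lit 0) (nat_lit 1) (nat_lit 0) (nat_lit 340) (nat_lit 211) (nat_lit 169)) (XT.lf (nat_lit 0) (nat_lit 148551190975) (nat_lit 0) (nat_lit 0) (nat_lit 0) (nat_lit 0) (nat_lit 0) (nat_lit 0) (nat_lit 1) (nat_lit 0) (nat_lit 1) (nat_lit 0) (nat_lit 341) (nat_lit 211) (nat_lit 168))) (XT.nd (nat_lit 94) (nat_lit 0) (nat_lit 0) (XT.lf (nat_lit 0) (nat_lit 155962582767) (nat_lit 0) (nat_lit 0) (nat_lit 0) (nat_lit 0) (nat_lit 0) (nat_lit 0) (nat_lit 1) (nat_lit 0) (nat_lit 1) (nat_lit 0)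 (nat_lit 342) (nat_lit 211) (nat_lit 167)) (XT.nd (nat_lit 94) (nat_lit 0) (nat_lit 0) (XT.lf (nat_lit 0) (nat_lit 163744692942) (nat_lit 0) (nat_lit 0) (nat_lit 0) (nat_lit 0) (nat_lit 0) (nat_lit 0) (nat_lit 1) (nat_lit 0) (nat_lit 1) (nat_lit 0) (nat_lit 343) (nat_lit 211) (nat_lit 166)) (XT.lf (nat_lit 0) (nat_lit 171916050336) (nat_lit 0) (nat_lit 0) (nat_lit 0) (nat_lit 0) (nat_lit 0) (nat_lit 0) (nat_lit 1) (nat_lit 0) (nat_lit 1) (nat_lit 0) (nat_lit 344) (nat_lit 211) (nat_lit 165))))))))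
noncomputable def xc23 : XT := (XT.nd (nat_lit 42112) (nat_lit 0) (nat_lit 0) (XT.nd (nat_lit 41266) (nat_lit 0) (nat_lit 0) (XT.nd (nat_lit 40890) (nat_lit 0) (nat_lit 1008) (XT.nd (nat_lit 40702) (nat_lit 0) (nat_lit 1512) (XT.nd (nat_lit 40608) (nat_lit 0) (nat_lit 1764) (XT.lf (nat_lit 0) (nat_lit 180496110559) (nat_lit 0) (nat_lit 0) (nat_lit 0) (nat_lit 0) (nat_lit 0) (nat_lit 0) (nat_lit 1) (nat_lit 0) (nat_lit 1) (nat_lit 0) (nat_lit 345) (nat_lit 211) (nat_lit 164)) (XT.lf (nat_lit 0) (nat_lit 3027437660) (nat_lit 168) (nat_lit 1985715252) (nat_lit 0) (nat_lit 3027437660) (nat_lit 21) (nat_lit 5) (nat_lit 23) (nat_lit 4) (nat_lit 21) (nat_lit 4) (nat_lit 296) (nat_lit 212) (nat_lit 212))) (XT.nd (nat_lit 94) (nat_lit 168) (nat_lit 0) (XT.lf (nat_lit 0) (nat_lit 12111338818) (nat_lit 84) (nat_lit 2306159147) (nat_lit 84) (nat_lit 2051371966) (nat_lit 20) (nat_lit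 4) (nat_lit 21) (nat_lit 5) (nat_lit 21) (nat_lit 4) (nat_lit 297) (nat_lit 212) (nat_lit 211)) (XT.lf (nat_lit 0) (nat_lit 6199694731) (nat_lit 168) (nat_lit 4941385212) (nat_lit 0) (nat_lit 5725940790) (nat_lit 18) (nat_lit 5) (nat_lit 20) (nat_lit 4) (nat_lit 18) (nat_lit 4) (nat_lit 298) (nat_lit 212) (nat_lit 210)))) (XT.nd (nat_lit 188) (nat_lit 252) (nat_lit 0) (XT.nd (nat_lit 94) (nat_lit 168) (nat_lit 0) (XT.lf (nat_lit 0) (nat_lit 11666941701) (nat_lit 84) (nat_lit 3154476237) (nat_lit 84) (nat_lit 2460627550) (nat_lit 17) (nat_lit 4) (nat_lit 18) (nat_lit 5) (nat_lit 18) (nat_lit 4) (nat_lit 299) (nat_lit 212) (nat_lit 209)) (XT.lf (nat_lit 0) (nat_lit 6036773675) (nat_lit 168) (nat_lit 6496038325) (nat_lit 0) (nat_lit 5176332978) (nat_lit 15) (nat_lit 5) (nat_lit 17) (nat_lit 4) (nat_lit 15) (nat_lit 4) (nat_lit 300) (nat_lit 212) (nat_lit 208))) (XT.nd (nat_lit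 94) (nat_lit 168) (nat_lit 0) (XT.lf (nat_lit 0) (nat_lit 10644207309) (nat_lit 84) (nat_lit 4279780127) (nat_lit 84) (nat_lit 3229213314) (nat_lit 14) (nat_lit 4) (nat_lit 15) (nat_lit 5) (nat_lit 15) (nat_lit 4) (nat_lit 301) (nat_lit 212) (nat_lit 207)) (XT.lf (nat_lit 0) (nat_lit 5526542750) (nat_lit 168) (nat_lit 8731422326) (nat_lit 0) (nat_lit 4353552935) (nat_lit 12) (nat_lit 5) (nat_lit 14) (nat_lit 4) (nat_lit 12) (nat_lit 4) (nat_lit 302) (nat_lit 212) (nat_lit 206))))) (XT.nd (nat_lit 376) (nat_lit 504) (nat_lit 0) (XT.nd (nat_lit 188) (nat_lit 252) (nat_lit 0) (XT.nd (nat_lit 94) (nat_lit 168) (nat_lit 0) (XT.lf (nat_lit 0) (nat_lit 8945510449) (nat_lit 84) (nat_lit 5739085056) (nat_lit 84) (nat_lit 4401857152) (nat_lit 11) (nat_lit 4) (nat_lit 12) (nat_lit 5) (nat_lit 12) (nat_lit 4) (nat_lit 303) (nat_lit 212) (nat_lit 205)) (XT.lf (nat_lit 0) (nat_lit 4623649831)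 (nat_lit 168) (nat_lit 11753714713) (nat_lit 0) (nat_lit 3201130659) (nat_lit 9) (nat_lit 5) (nat_lit 11) (nat_lit 4) (nat_lit 9) (nat_lit 4) (nat_lit 304) (nat_lit 212) (nat_lit 204))) (XT.nd (nat_lit 94) (nat_lit 168) (nat_lit 0) (XT.lf (nat_lit 0) (nat_lit 6462784040) (nat_lit 84) (nat_lit 7593964784) (nat_lit 84) (nat_lit 6029570576) (nat_lit 8) (nat_lit 4) (nat_lit 9) (nat_lit 5) (nat_lit 9) (nat_lit 4) (nat_lit 305) (nat_lit 212) (nat_lit 203)) (XT.lf (nat_lit 0) (nat_lit 3276472069) (nat_lit 168) (nat_lit 15680492483) (nat_lit 0) (nat_lit 1657887984) (nat_lit 6) (nat_lit 5) (nat_lit 8) (nat_lit 4) (nat_lit 6) (nat_lit 4) (nat_lit 306) (nat_lit 212) (nat_lit 202)))) (XT.nd (nat_lit 188) (nat_lit 252) (nat_lit 0) (XT.nd (nat_lit 94) (nat_lit 168) (nat_lit 0) (XT.lf (nat_lit 0) (nat_lit 3076230603) (nat_lit 84) (nat_lit 9911330822) (nat_lit 84) (nat_lit 8170189747) (nat_lit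 5) (nat_lit 4) (nat_lit 6) (nat_lit 5) (nat_lit 6) (nat_lit 4) (nat_lit 307) (nat_lit 212) (nat_lit 201)) (XT.lf (nat_lit 0) (nat_lit 1077914684) (nat_lit 84) (nat_lit 354171512) (nat_lit 168) (nat_lit 20293457118) (nat_lit 3) (nat_lit 5) (nat_lit 4) (nat_lit 5) (nat_lit 5) (nat_lit 4) (nat_lit 308) (nat_lit 212) (nat_lit 200))) (XT.nd (nat_lit 94) (nat_lit 252) (nat_lit 0) (XT.lf (nat_lit 0) (nat_lit 11438203627) (nat_lit 168) (nat_lit 1303967682) (nat_lit 0) (nat_lit 9562941892) (nat_lit 3) (nat_lit 5) (nat_lit 5) (nat_lit 4) (nat_lit 3) (nat_lit 4) (nat_lit 309) (nat_lit 212) (nat_lit 199)) (XT.nd (nat_lit 94) (nat_lit 168) (nat_lit 0) (XT.lf (nat_lit 0) (nat_lit 19107366029) (nat_lit 84) (nat_lit 2889877207) (nat_lit 84) (nat_lit 913787533) (nat_lit 2) (nat_lit 4) (nat_lit 3) (nat_lit 5) (nat_lit 3) (nat_lit 4) (nat_lit 310) (nat_lit 212) (nat_lit 198)) (XT.lf (nat_lit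 0) (nat_lit 34709289489) (nat_lit 0) (nat_lit 0) (nat_lit 0) (nat_lit 0) (nat_lit 0) (nat_lit 0) (nat_lit 1) (nat_lit 0) (nat_lit 1) (nat_lit 0) (nat_lit 311) (nat_lit 212) (nat_lit 197))))))) (XT.nd (nat_lit 752) (nat_lit 0) (nat_lit 0) (XT.nd (nat_lit 376) (nat_lit 0) (nat_lit 0) (XT.nd (nat_lit 188) (nat_lit 0) (nat_lit 0) (XT.nd (nat_lit 94) (nat_lit 0) (nat_lit 0) (XT.lf (nat_lit 0) (nat_lit 36418197140) (nat_lit 0) (nat_lit 0) (nat_lit 0) (nat_lit 0) (nat_lit 0) (nat_lit 0) (nat_lit 1) (nat_lit 0) (nat_lit 1) (nat_lit 0) (nat_lit 312) (nat_lit 212) (nat_lit 196)) (XT.lf (nat_lit 0) (nat_lit 38213162631) (nat_lit 0) (nat_lit 0) (nat_lit 0) (nat_lit 0) (nat_lit 0) (nat_lit 0) (nat_lit 1) (nat_lit 0) (nat_lit 1) (nat_lit 0) (nat_lit 313) (nat_lit 212) (nat_lit 195))) (XT.nd (nat_lit 94) (nat_lit 0) (nat_lit 0) (XT.lf (nat_lit 0) (nat_lit 40098459688) (nat_lit 0) (nat_lit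 0) (nat_lit 0) (nat_lit 0) (nat_lit 0) (nat_lit 0) (nat_lit 1) (nat_lit 0) (nat_lit 1) (nat_lit 0) (nat_lit 314) (nat_lit 212) (nat_lit 194)) (XT.lf (nat_lit 0) (nat_lit 42078577115) (nat_lit 0) (nat_lit 0) (nat_lit 0) (nat_lit 0) (nat_lit 0) (nat_lit 0) (nat_lit 1) (nat_lit 0) (nat_lit 1) (nat_lit 0) (nat_lit 315) (nat_lit 212) (nat_lit 193)))) (XT.nd (nat_lit 188) (nat_lit 0) (nat_lit 0) (XT.nd (nat_lit 94) (nat_lit 0) (nat_lit 0) (XT.lf (nat_lit 0) (nat_lit 44158229475) (nat_lit 0) (nat_lit 0) (nat_lit 0) (nat_lit 0) (nat_lit 0) (nat_lit 0) (nat_lit 1) (nat_lit 0) (nat_lit 1) (nat_lit 0) (nat_lit 316) (nat_lit 212) (nat_lit 192)) (XT.lf (nat_lit 0) (nat_lit 46342368323) (nat_lit 0) (nat_lit 0) (nat_lit 0) (nat_lit 0) (nat_lit 0) (nat_lit 0) (nat_lit 1) (nat_lit 0) (nat_lit 1) (nat_lit 0) (nat_lit 317) (nat_lit 212) (nat_lit 191))) (XT.nd (nat_lit 94) (nat_lit 0) (nat_lit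 0) (XT.lf (nat_lit 0) (nat_lit 48636193989) (nat_lit 0) (nat_lit 0) (nat_lit 0) (nat_lit 0) (nat_lit 0) (nat_lit 0) (nat_lit 1) (nat_lit 0) (nat_lit 1) (nat_lit 0) (nat_lit 318) (nat_lit 212) (nat_lit 190)) (XT.lf (nat_lit 0) (nat_lit 51045167963) (nat_lit 0) (nat_lit 0) (nat_lit 0) (nat_lit 0) (nat_lit 0) (nat_lit 0) (nat_lit 1) (nat_lit 0) (nat_lit 1) (nat_lit 0) (nat_lit 319) (nat_lit 212) (nat_lit 189))))) (XT.nd (nat_lit 376) (nat_lit 0) (nat_lit 0) (XT.nd (nat_lit 188) (nat_lit 0) (nat_lit 0) (XT.nd (nat_lit 94) (nat_lit 0) (nat_lit 0) (XT.lf (nat_lit 0) (nat_lit 53575025898) (nat_lit 0) (nat_lit 0) (nat_lit 0) (nat_lit 0) (nat_lit 0) (nat_lit 0) (nat_lit 1) (nat_lit 0) (nat_lit 1) (nat_lit 0) (nat_lit 320) (nat_lit 212) (nat_lit 188)) (XT.lf (nat_lit 0) (nat_lit 56231791263) (nat_lit 0) (nat_lit 0) (nat_lit 0) (nat_lit 0) (nat_lit 0) (nat_lit 0) (nat_lit 1) (nat_lit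 0) (nat_lit 1) (nat_lit 0) (nat_lit 321) (nat_lit 212) (nat_lit 187))) (XT.nd (nat_lit 94) (nat_lit 0) (nat_lit 0) (XT.lf (nat_lit 0) (nat_lit 59021789692) (nat_lit 0) (nat_lit 0) (nat_lit 0) (nat_lit 0) (nat_lit 0) (nat_lit 0) (nat_lit 1) (nat_lit 0) (nat_lit 1) (nat_lit 0) (nat_lit 322) (nat_lit 212) (nat_lit 186)) (XT.lf (nat_lit 0) (nat_lit 61951664037) (nat_lit 0) (nat_lit 0) (nat_lit 0) (nat_lit 0) (nat_lit 0) (nat_lit 0) (nat_lit 1) (nat_lit 0) (nat_lit 1) (nat_lit 0) (nat_lit 323) (nat_lit 212) (nat_lit 185)))) (XT.nd (nat_lit 188) (nat_lit 0) (nat_lit 0) (XT.nd (nat_lit 94) (nat_lit 0) (nat_lit 0) (XT.lf (nat_lit 0) (nat_lit 65028390191) (nat_lit 0) (nat_lit 0) (nat_lit 0) (nat_lit 0) (nat_lit 0) (nat_lit 0) (nat_lit 1) (nat_lit 0) (nat_lit 1) (nat_lit 0) (nat_lit 324) (nat_lit 212) (nat_lit 184)) (XT.lf (nat_lit 0) (nat_lit 68259293690) (nat_lit 0) (nat_lit 0)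 (nat_lit 0) (nat_lit 0) (nat_lit 0) (nat_lit 0) (nat_lit 1) (nat_lit 0) (nat_lit 1) (nat_lit 0) (nat_lit 325) (nat_lit 212) (nat_lit 183))) (XT.nd (nat_lit 94) (nat_lit 0) (nat_lit 0) (XT.lf (nat_lit 0) (nat_lit 71652067164) (nat_lit 0) (nat_lit 0) (nat_lit 0) (nat_lit 0) (nat_lit 0) (nat_lit 0) (nat_lit 1) (nat_lit 0) (nat_lit 1) (nat_lit 0) (nat_lit 326) (nat_lit 212) (nat_lit 182)) (XT.nd (nat_lit 94) (nat_lit 0) (nat_lit 0) (XT.lf (nat_lit 0) (nat_lit 75214788643) (nat_lit 0) (nat_lit 0) (nat_lit 0) (nat_lit 0) (nat_lit 0) (nat_lit 0) (nat_lit 1) (nat_lit 0) (nat_lit 1) (nat_lit 0) (nat_lit 327) (nat_lit 212) (nat_lit 181)) (XT.lf (nat_lit 0) (nat_lit 78955940799) (nat_lit 0) (nat_lit 0) (nat_lit 0) (nat_lit 0) (nat_lit 0) (nat_lit 0) (nat_lit 1) (nat_lit 0) (nat_lit 1) (nat_lit 0) (nat_lit 328) (nat_lit 212) (nat_lit 180))))))))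
noncomputable def xc24 : XT := (XT.nd (nat_lit 1504) (nat_lit 0) (nat_lit 0) (XT.nd (nat_lit 752) (nat_lit 0) (nat_lit 0) (XT.nd (nat_lit 376) (nat_lit 0) (nat_lit 0) (XT.nd (nat_lit 188) (nat_lit 0) (nat_lit 0) (XT.nd (nat_lit 94) (nat_lit 0) (nat_lit 0) (XT.lf (nat_lit 0) (nat_lit 82884431135) (nat_lit 0) (nat_lit 0) (nat_lit 0) (nat_lit 0) (nat_lit 0) (nat_lit 0) (nat_lit 1) (nat_lit 0) (nat_lit 1) (nat_lit 0) (nat_lit 329) (nat_lit 212) (nat_lit 179)) (XT.lf (nat_lit 0) (nat_lit 87009613202) (nat_lit 0) (nat_lit 0) (nat_lit 0) (nat_lit 0) (nat_lit 0) (nat_lit 0) (nat_lit 1) (nat_lit 0) (nat_lit 1) (nat_lit 0) (nat_lit 330) (nat_lit 212) (nat_lit 178))) (XT.nd (nat_lit 94) (nat_lit 0) (nat_lit 0) (XT.lf (nat_lit 0) (nat_lit 91341308859) (nat_lit 0) (nat_lit 0) (nat_lit 0) (nat_lit 0) (nat_lit 0) (nat_lit 0) (nat_lit 1) (nat_lit 0) (nat_lit 1) (nat_lit 0) (nat_lit 331)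 (nat_lit 212) (nat_lit 177)) (XT.lf (nat_lit 0) (nat_lit 95889831670) (nat_lit 0) (nat_lit 0) (nat_lit 0) (nat_lit 0) (nat_lit 0) (nat_lit 0) (nat_lit 1) (nat_lit 0) (nat_lit 1) (nat_lit 0) (nat_lit 332) (nat_lit 212) (nat_lit 176)))) (XT.nd (nat_lit 188) (nat_lit 0) (nat_lit 0) (XT.nd (nat_lit 94) (nat_lit 0) (nat_lit 0) (XT.lf (nat_lit 0) (nat_lit 100666011450) (nat_lit 0) (nat_lit 0) (nat_lit 0) (nat_lit 0) (nat_lit 0) (nat_lit 0) (nat_lit 1) (nat_lit 0) (nat_lit 1) (nat_lit 0) (nat_lit 333) (nat_lit 212) (nat_lit 175)) (XT.lf (nat_lit 0) (nat_lit 105681220055) (nat_lit 0) (nat_lit 0) (nat_lit 0) (nat_lit 0) (nat_lit 0) (nat_lit 0) (nat_lit 1) (nat_lit 0) (nat_lit 1) (nat_lit 0) (nat_lit 334) (nat_lit 212) (nat_lit 174))) (XT.nd (nat_lit 94) (nat_lit 0) (nat_lit 0) (XT.lf (nat_lit 0) (nat_lit 110947398458) (nat_lit 0) (nat_lit 0) (nat_lit 0) (nat_lit 0) (nat_lit 0) (nat_lit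 0) (nat_lit 1) (nat_lit 0) (nat_lit 1) (nat_lit 0) (nat_lit 335) (nat_lit 212) (nat_lit 173)) (XT.lf (nat_lit 0) (nat_lit 116477085180) (nat_lit 0) (nat_lit 0) (nat_lit 0) (nat_lit 0) (nat_lit 0) (nat_lit 0) (nat_lit 1) (nat_lit 0) (nat_lit 1) (nat_lit 0) (nat_lit 336) (nat_lit 212) (nat_lit 172))))) (XT.nd (nat_lit 376) (nat_lit 0) (nat_lit 0) (XT.nd (nat_lit 188) (nat_lit 0) (nat_lit 0) (XT.nd (nat_lit 94) (nat_lit 0) (nat_lit 0) (XT.lf (nat_lit 0) (nat_lit 122283446141) (nat_lit 0) (nat_lit 0) (nat_lit 0) (nat_lit 0) (nat_lit 0) (nat_lit 0) (nat_lit 1) (nat_lit 0) (nat_lit 1) (nat_lit 0) (nat_lit 337) (nat_lit 212) (nat_lit 171)) (XT.lf (nat_lit 0) (nat_lit 128380306011) (nat_lit 0) (nat_lit 0) (nat_lit 0) (nat_lit 0) (nat_lit 0) (nat_lit 0) (nat_lit 1) (nat_lit 0) (nat_lit 1) (nat_lit 0) (nat_lit 338) (nat_lit 212) (nat_lit 170))) (XT.nd (nat_lit 94) (nat_lit 0) (nat_lit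 0) (XT.lf (nat_lit 0) (nat_lit 134782181121) (nat_lit 0) (nat_lit 0) (nat_lit 0) (nat_lit 0) (nat_lit 0) (nat_lit 0) (nat_lit 1) (nat_lit 0) (nat_lit 1) (nat_lit 0) (nat_lit 339) (nat_lit 212) (nat_lit 169)) (XT.lf (nat_lit 0) (nat_lit 141504314033) (nat_lit 0) (nat_lit 0) (nat_lit 0) (nat_lit 0) (nat_lit 0) (nat_lit 0) (nat_lit 1) (nat_lit 0) (nat_lit 1) (nat_lit 0) (nat_lit 340) (nat_lit 212) (nat_lit 168)))) (XT.nd (nat_lit 188) (nat_lit 0) (nat_lit 0) (XT.nd (nat_lit 94) (nat_lit 0) (nat_lit 0) (XT.lf (nat_lit 0) (nat_lit 148562709824) (nat_lit 0) (nat_lit 0) (nat_lit 0) (nat_lit 0) (nat_lit 0) (nat_lit 0) (nat_lit 1) (nat_lit 0) (nat_lit 1) (nat_lit 0) (nat_lit 341) (nat_lit 212) (nat_lit 167)) (XT.lf (nat_lit 0) (nat_lit 155974174199) (nat_lit 0) (nat_lit 0) (nat_lit 0) (nat_lit 0) (nat_lit 0) (nat_lit 0) (nat_lit 1) (nat_lit 0) (nat_lit 1) (nat_lit 0) (nat_lit 342)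 (nat_lit 212) (nat_lit 166))) (XT.nd (nat_lit 94) (nat_lit 0) (nat_lit 0) (XT.lf (nat_lit 0) (nat_lit 163756353501) (nat_lit 0) (nat_lit 0) (nat_lit 0) (nat_lit 0) (nat_lit 0) (nat_lit 0) (nat_lit 1) (nat_lit 0) (nat_lit 1) (nat_lit 0) (nat_lit 343) (nat_lit 212) (nat_lit 165)) (XT.lf (nat_lit 0) (nat_lit 171927776728) (nat_lit 0) (nat_lit 0) (nat_lit 0) (nat_lit 0) (nat_lit 0) (nat_lit 0) (nat_lit 1) (nat_lit 0) (nat_lit 1) (nat_lit 0) (nat_lit 344) (nat_lit 212) (nat_lit 164)))))) (XT.nd (nat_lit 41078) (nat_lit 0) (nat_lit 252) (XT.nd (nat_lit 40702) (nat_lit 0) (nat_lit 1260) (XT.nd (nat_lit 40514) (nat_lit 0) (nat_lit 1764) (XT.nd (nat_lit 40420) (nat_lit 0) (nat_lit 2016) (XT.lf (nat_lit 0) (nat_lit 180507899651) (nat_lit 0) (nat_lit 0) (nat_lit 0) (nat_lit 0) (nat_lit 0) (nat_lit 0) (nat_lit 1) (nat_lit 0) (nat_lit 1) (nat_lit 0) (nat_lit 345) (nat_lit 212) (nat_lit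 163)) (XT.lf (nat_lit 0) (nat_lit 3021532554) (nat_lit 168) (nat_lit 1627807682) (nat_lit 0) (nat_lit 3021532554) (nat_lit 24) (nat_lit 5) (nat_lit 26) (nat_lit 4) (nat_lit 24) (nat_lit 4) (nat_lit 294) (nat_lit 213) (nat_lit 213))) (XT.nd (nat_lit 94) (nat_lit 168) (nat_lit 0) (XT.lf (nat_lit 0) (nat_lit 12065767754) (nat_lit 84) (nat_lit 1962533222) (nat_lit 84) (nat_lit 1681630356) (nat_lit 23) (nat_lit 4) (nat_lit 24) (nat_lit 5) (nat_lit 24) (nat_lit 4) (nat_lit 295) (nat_lit 213) (nat_lit 212)) (XT.lf (nat_lit 0) (nat_lit 6191138739) (nat_lit 168) (nat_lit 4227780543) (nat_lit 0) (nat_lit 5668825019) (nat_lit 21) (nat_lit 5) (nat_lit 23) (nat_lit 4) (nat_lit 21) (nat_lit 4) (nat_lit 296) (nat_lit 213) (nat_lit 211)))) (XT.nd (nat_lit 188) (nat_lit 252) (nat_lit 0) (XT.nd (nat_lit 94) (nat_lit 168) (nat_lit 0) (XT.lf (nat_lit 0) (nat_lit 11594297330) (nat_lit 84) (nat_lit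 2826379092) (nat_lit 84) (nat_lit 2061410914) (nat_lit 20) (nat_lit 4) (nat_lit 21) (nat_lit 5) (nat_lit 21) (nat_lit 4) (nat_lit 297) (nat_lit 213) (nat_lit 210)) (XT.lf (nat_lit 0) (nat_lit 6042467841) (nat_lit 168) (nat_lit 5751321624) (nat_lit 0) (nat_lit 5093831973) (nat_lit 18) (nat_lit 5) (nat_lit 20) (nat_lit 4) (nat_lit 18) (nat_lit 4) (nat_lit 298) (nat_lit 213) (nat_lit 209))) (XT.nd (nat_lit 94) (nat_lit 168) (nat_lit 0) (XT.lf (nat_lit 0) (nat_lit 10577450217) (nat_lit 84) (nat_lit 3945259965) (nat_lit 84) (nat_lit 2787010053) (nat_lit 17) (nat_lit 4) (nat_lit 18) (nat_lit 5) (nat_lit 18) (nat_lit 4) (nat_lit 299) (nat_lit 213) (nat_lit 208)) (XT.lf (nat_lit 0) (nat_lit 5559973797) (nat_lit 168) (nat_lit 7918391373) (nat_lit 0) (nat_lit 4266752525) (nat_lit 15) (nat_lit 5) (nat_lit 17) (nat_lit 4) (nat_lit 15) (nat_lit 4) (nat_lit 300) (nat_lit 213) (nat_lit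 207))))) (XT.nd (nat_lit 376) (nat_lit 504) (nat_lit 0) (XT.nd (nat_lit 188) (nat_lit 252) (nat_lit 0) (XT.nd (nat_lit 94) (nat_lit 168) (nat_lit 0) (XT.lf (nat_lit 0) (nat_lit 8921566566) (nat_lit 84) (nat_lit 5374722788) (nat_lit 84) (nat_lit 3900429024) (nat_lit 14) (nat_lit 4) (nat_lit 15) (nat_lit 5) (nat_lit 15) (nat_lit 4) (nat_lit 301) (nat_lit 213) (nat_lit 206)) (XT.lf (nat_lit 0) (nat_lit 4700982885) (nat_lit 168) (nat_lit 10830712594) (nat_lit 0) (nat_lit 3132655498) (nat_lit 12) (nat_lit 5) (nat_lit 14) (nat_lit 4) (nat_lit 12) (nat_lit 4) (nat_lit 302) (nat_lit 213) (nat_lit 205))) (XT.nd (nat_lit 94) (nat_lit 168) (nat_lit 0) (XT.lf (nat_lit 0) (nat_lit 6523132334) (nat_lit 84) (nat_lit 7174484424) (nat_lit 84) (nat_lit 5449739810) (nat_lit 11) (nat_lit 4) (nat_lit 12) (nat_lit 5) (nat_lit 12) (nat_lit 4) (nat_lit 303) (nat_lit 213) (nat_lit 204)) (XT.lf (nat_lit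 0) (nat_lit 3416773712) (nat_lit 168) (nat_lit 14600785275) (nat_lit 0) (nat_lit 1632284758) (nat_lit 9) (nat_lit 5) (nat_lit 11) (nat_lit 4) (nat_lit 9) (nat_lit 4) (nat_lit 304) (nat_lit 213) (nat_lit 203)))) (XT.nd (nat_lit 188) (nat_lit 252) (nat_lit 0) (XT.nd (nat_lit 94) (nat_lit 168) (nat_lit 0) (XT.lf (nat_lit 0) (nat_lit 3267539943) (nat_lit 84) (nat_lit 9409196426) (nat_lit 84) (nat_lit 7489588391) (nat_lit 8) (nat_lit 4) (nat_lit 9) (nat_lit 5) (nat_lit 9) (nat_lit 4) (nat_lit 305) (nat_lit 213) (nat_lit 202)) (XT.lf (nat_lit 0) (nat_lit 1348296377) (nat_lit 84) (nat_lit 308576428) (nat_lit 168) (nat_lit 19049440396) (nat_lit 6) (nat_lit 5) (nat_lit 7) (nat_lit 5) (nat_lit 8) (nat_lit 4) (nat_lit 306) (nat_lit 213) (nat_lit 201))) (XT.nd (nat_lit 94) (nat_lit 252) (nat_lit 0) (XT.lf (nat_lit 0) (nat_lit 11192167827) (nat_lit 168) (nat_lit 941141963) (nat_lit 0)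 (nat_lit 9124691765) (nat_lit 6) (nat_lit 5) (nat_lit 8) (nat_lit 4) (nat_lit 6) (nat_lit 4) (nat_lit 307) (nat_lit 213) (nat_lit 200)) (XT.nd (nat_lit 94) (nat_lit 168) (nat_lit 0) (XT.lf (nat_lit 0) (nat_lit 18503040260) (nat_lit 84) (nat_lit 2755088926) (nat_lit 84) (nat_lit 576450061) (nat_lit 5) (nat_lit 4) (nat_lit 6) (nat_lit 5) (nat_lit 6) (nat_lit 4) (nat_lit 308) (nat_lit 213) (nat_lit 199)) (XT.lf (nat_lit 0) (nat_lit 9233329458) (nat_lit 168) (nat_lit 6134401713) (nat_lit 0) (nat_lit 7057607361) (nat_lit 3) (nat_lit 5) (nat_lit 5) (nat_lit 4) (nat_lit 3) (nat_lit 4) (nat_lit 309) (nat_lit 213) (nat_lit 198))))))))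
noncomputable def xc25 : XT := (XT.nd (nat_lit 1598) (nat_lit 0) (nat_lit 0) (XT.nd (nat_lit 752) (nat_lit 0) (nat_lit 0) (XT.nd (nat_lit 376) (nat_lit 0) (nat_lit 0) (XT.nd (nat_lit 188) (nat_lit 0) (nat_lit 0) (XT.nd (nat_lit 94) (nat_lit 168) (nat_lit 0) (XT.lf (nat_lit 0) (nat_lit 13874723405) (nat_lit 84) (nat_lit 5719104235) (nat_lit 84) (nat_lit 3447355530) (nat_lit 2) (nat_lit 4) (nat_lit 3) (nat_lit 5) (nat_lit 3) (nat_lit 4) (nat_lit 310) (nat_lit 213) (nat_lit 197)) (XT.lf (nat_lit 0) (nat_lit 34716710779) (nat_lit 0) (nat_lit 0) (nat_lit 0) (nat_lit 0) (nat_lit 0) (nat_lit 0) (nat_lit 1) (nat_lit 0) (nat_lit 1) (nat_lit 0) (nat_lit 311) (nat_lit 213) (nat_lit 196))) (XT.nd (nat_lit 94) (nat_lit 0) (nat_lit 0) (XT.lf (nat_lit 0) (nat_lit 36425917190) (nat_lit 0) (nat_lit 0) (nat_lit 0) (nat_lit 0) (nat_lit 0) (nat_lit 0) (nat_lit 1) (nat_lit 0) (nat_lit 1) (nat_lit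 0) (nat_lit 312) (nat_lit 213) (nat_lit 195)) (XT.lf (nat_lit 0) (nat_lit 38221167213) (nat_lit 0) (nat_lit 0) (nat_lit 0) (nat_lit 0) (nat_lit 0) (nat_lit 0) (nat_lit 1) (nat_lit 0) (nat_lit 1) (nat_lit 0) (nat_lit 313) (nat_lit 213) (nat_lit 194)))) (XT.nd (nat_lit 188) (nat_lit 0) (nat_lit 0) (XT.nd (nat_lit 94) (nat_lit 0) (nat_lit 0) (XT.lf (nat_lit 0) (nat_lit 40106735254) (nat_lit 0) (nat_lit 0) (nat_lit 0) (nat_lit 0) (nat_lit 0) (nat_lit 0) (nat_lit 1) (nat_lit 0) (nat_lit 1) (nat_lit 0) (nat_lit 314) (nat_lit 213) (nat_lit 193)) (XT.lf (nat_lit 0) (nat_lit 42087110760) (nat_lit 0) (nat_lit 0) (nat_lit 0) (nat_lit 0) (nat_lit 0) (nat_lit 0) (nat_lit 1) (nat_lit 0) (nat_lit 1) (nat_lit 0) (nat_lit 315) (nat_lit 213) (nat_lit 192))) (XT.nd (nat_lit 94) (nat_lit 0) (nat_lit 0) (XT.lf (nat_lit 0) (nat_lit 44167008910) (nat_lit 0) (nat_lit 0) (nat_lit 0) (nat_lit 0)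 (nat_lit 0) (nat_lit 0) (nat_lit 1) (nat_lit 0) (nat_lit 1) (nat_lit 0) (nat_lit 316) (nat_lit 213) (nat_lit 191)) (XT.lf (nat_lit 0) (nat_lit 46351381844) (nat_lit 0) (nat_lit 0) (nat_lit 0) (nat_lit 0) (nat_lit 0) (nat_lit 0) (nat_lit 1) (nat_lit 0) (nat_lit 1) (nat_lit 0) (nat_lit 317) (nat_lit 213) (nat_lit 190))))) (XT.nd (nat_lit 376) (nat_lit 0) (nat_lit 0) (XT.nd (nat_lit 188) (nat_lit 0) (nat_lit 0) (XT.nd (nat_lit 94) (nat_lit 0) (nat_lit 0) (XT.lf (nat_lit 0) (nat_lit 48645430449) (nat_lit 0) (nat_lit 0) (nat_lit 0) (nat_lit 0) (nat_lit 0) (nat_lit 0) (nat_lit 1) (nat_lit 0) (nat_lit 1) (nat_lit 0) (nat_lit 318) (nat_lit 213) (nat_lit 189)) (XT.lf (nat_lit 0) (nat_lit 51054616746) (nat_lit 0) (nat_lit 0) (nat_lit 0) (nat_lit 0) (nat_lit 0) (nat_lit 0) (nat_lit 1) (nat_lit 0) (nat_lit 1) (nat_lit 0) (nat_lit 319) (nat_lit 213) (nat_lit 188))) (XT.nd (nat_lit 94)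 (nat_lit 0) (nat_lit 0) (XT.lf (nat_lit 0) (nat_lit 53584676892) (nat_lit 0) (nat_lit 0) (nat_lit 0) (nat_lit 0) (nat_lit 0) (nat_lit 0) (nat_lit 1) (nat_lit 0) (nat_lit 1) (nat_lit 0) (nat_lit 320) (nat_lit 213) (nat_lit 187)) (XT.lf (nat_lit 0) (nat_lit 56241634840) (nat_lit 0) (nat_lit 0) (nat_lit 0) (nat_lit 0) (nat_lit 0) (nat_lit 0) (nat_lit 1) (nat_lit 0) (nat_lit 1) (nat_lit 0) (nat_lit 321) (nat_lit 213) (nat_lit 186)))) (XT.nd (nat_lit 188) (nat_lit 0) (nat_lit 0) (XT.nd (nat_lit 94) (nat_lit 0) (nat_lit 0) (XT.lf (nat_lit 0) (nat_lit 59031816682) (nat_lit 0) (nat_lit 0) (nat_lit 0) (nat_lit 0) (nat_lit 0) (nat_lit 0) (nat_lit 1) (nat_lit 0) (nat_lit 1) (nat_lit 0) (nat_lit 322) (nat_lit 213) (nat_lit 185)) (XT.lf (nat_lit 0) (nat_lit 61961865705) (nat_lit 0) (nat_lit 0) (nat_lit 0) (nat_lit 0) (nat_lit 0) (nat_lit 0) (nat_lit 1) (nat_lit 0) (nat_lit 1) (nat_lit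 0) (nat_lit 323) (nat_lit 213) (nat_lit 184))) (XT.nd (nat_lit 94) (nat_lit 0) (nat_lit 0) (XT.lf (nat_lit 0) (nat_lit 65038758219) (nat_lit 0) (nat_lit 0) (nat_lit 0) (nat_lit 0) (nat_lit 0) (nat_lit 0) (nat_lit 1) (nat_lit 0) (nat_lit 1) (nat_lit 0) (nat_lit 324) (nat_lit 213) (nat_lit 183)) (XT.nd (nat_lit 94) (nat_lit 0) (nat_lit 0) (XT.lf (nat_lit 0) (nat_lit 68269820157) (nat_lit 0) (nat_lit 0) (nat_lit 0) (nat_lit 0) (nat_lit 0) (nat_lit 0) (nat_lit 1) (nat_lit 0) (nat_lit 1) (nat_lit 0) (nat_lit 325) (nat_lit 213) (nat_lit 182)) (XT.lf (nat_lit 0) (nat_lit 71662744525) (nat_lit 0) (nat_lit 0) (nat_lit 0) (nat_lit 0) (nat_lit 0) (nat_lit 0) (nat_lit 1) (nat_lit 0) (nat_lit 1) (nat_lit 0) (nat_lit 326) (nat_lit 213) (nat_lit 181))))))) (XT.nd (nat_lit 752) (nat_lit 0) (nat_lit 0) (XT.nd (nat_lit 376) (nat_lit 0) (nat_lit 0) (XT.nd (nat_lit 188) (nat_lit 0) (nat_lit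 0) (XT.nd (nat_lit 94) (nat_lit 0) (nat_lit 0) (XT.lf (nat_lit 0) (nat_lit 75225609712) (nat_lit 0) (nat_lit 0) (nat_lit 0) (nat_lit 0) (nat_lit 0) (nat_lit 0) (nat_lit 1) (nat_lit 0) (nat_lit 1) (nat_lit 0) (nat_lit 327) (nat_lit 213) (nat_lit 180)) (XT.lf (nat_lit 0) (nat_lit 78966898733) (nat_lit 0) (nat_lit 0) (nat_lit 0) (nat_lit 0) (nat_lit 0) (nat_lit 0) (nat_lit 1) (nat_lit 0) (nat_lit 1) (nat_lit 0) (nat_lit 328) (nat_lit 213) (nat_lit 179))) (XT.nd (nat_lit 94) (nat_lit 0) (nat_lit 0) (XT.lf (nat_lit 0) (nat_lit 82895519417) (nat_lit 0) (nat_lit 0) (nat_lit 0) (nat_lit 0) (nat_lit 0) (nat_lit 0) (nat_lit 1) (nat_lit 0) (nat_lit 1) (nat_lit 0) (nat_lit 329) (nat_lit 213) (nat_lit 178)) (XT.lf (nat_lit 0) (nat_lit 87020825624) (nat_lit 0) (nat_lit 0) (nat_lit 0) (nat_lit 0) (nat_lit 0) (nat_lit 0) (nat_lit 1) (nat_lit 0) (nat_lit 1) (nat_lit 0) (nat_lit 330) (nat_lit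 213) (nat_lit 177)))) (XT.nd (nat_lit 188) (nat_lit 0) (nat_lit 0) (XT.nd (nat_lit 94) (nat_lit 0) (nat_lit 0) (XT.lf (nat_lit 0) (nat_lit 91352639511) (nat_lit 0) (nat_lit 0) (nat_lit 0) (nat_lit 0) (nat_lit 0) (nat_lit 0) (nat_lit 1) (nat_lit 0) (nat_lit 1) (nat_lit 0) (nat_lit 331) (nat_lit 213) (nat_lit 176)) (XT.lf (nat_lit 0) (nat_lit 95901274921) (nat_lit 0) (nat_lit 0) (nat_lit 0) (nat_lit 0) (nat_lit 0) (nat_lit 0) (nat_lit 1) (nat_lit 0) (nat_lit 1) (nat_lit 0) (nat_lit 332) (nat_lit 213) (nat_lit 175))) (XT.nd (nat_lit 94) (nat_lit 0) (nat_lit 0) (XT.lf (nat_lit 0) (nat_lit 100677561938) (nat_lit 0) (nat_lit 0) (nat_lit 0) (nat_lit 0) (nat_lit 0) (nat_lit 0) (nat_lit 1) (nat_lit 0) (nat_lit 1) (nat_lit 0) (nat_lit 333) (nat_lit 213) (nat_lit 174)) (XT.lf (nat_lit 0) (nat_lit 105692872673) (nat_lit 0) (nat_lit 0) (nat_lit 0) (nat_lit 0) (nat_lit 0) (nat_lit 0)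 (nat_lit 1) (nat_lit 0) (nat_lit 1) (nat_lit 0) (nat_lit 334) (nat_lit 213) (nat_lit 173))))) (XT.nd (nat_lit 376) (nat_lit 0) (nat_lit 0) (XT.nd (nat_lit 188) (nat_lit 0) (nat_lit 0) (XT.nd (nat_lit 94) (nat_lit 0) (nat_lit 0) (XT.lf (nat_lit 0) (nat_lit 110959148344) (nat_lit 0) (nat_lit 0) (nat_lit 0) (nat_lit 0) (nat_lit 0) (nat_lit 0) (nat_lit 1) (nat_lit 0) (nat_lit 1) (nat_lit 0) (nat_lit 335) (nat_lit 213) (nat_lit 172)) (XT.lf (nat_lit 0) (nat_lit 116488927702) (nat_lit 0) (nat_lit 0) (nat_lit 0) (nat_lit 0) (nat_lit 0) (nat_lit 0) (nat_lit 1) (nat_lit 0) (nat_lit 1) (nat_lit 0) (nat_lit 336) (nat_lit 213) (nat_lit 171))) (XT.nd (nat_lit 94) (nat_lit 0) (nat_lit 0) (XT.lf (nat_lit 0) (nat_lit 122295376888) (nat_lit 0) (nat_lit 0) (nat_lit 0) (nat_lit 0) (nat_lit 0) (nat_lit 0) (nat_lit 1) (nat_lit 0) (nat_lit 1) (nat_lit 0) (nat_lit 337) (nat_lit 213) (nat_lit 170))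 (XT.lf (nat_lit 0) (nat_lit 128392320781) (nat_lit 0) (nat_lit 0) (nat_lit 0) (nat_lit 0) (nat_lit 0) (nat_lit 0) (nat_lit 1) (nat_lit 0) (nat_lit 1) (nat_lit 0) (nat_lit 338) (nat_lit 213) (nat_lit 169)))) (XT.nd (nat_lit 188) (nat_lit 0) (nat_lit 0) (XT.nd (nat_lit 94) (nat_lit 0) (nat_lit 0) (XT.lf (nat_lit 0) (nat_lit 134794275913) (nat_lit 0) (nat_lit 0) (nat_lit 0) (nat_lit 0) (nat_lit 0) (nat_lit 0) (nat_lit 1) (nat_lit 0) (nat_lit 1) (nat_lit 0) (nat_lit 339) (nat_lit 213) (nat_lit 168)) (XT.lf (nat_lit 0) (nat_lit 141516485037) (nat_lit 0) (nat_lit 0) (nat_lit 0) (nat_lit 0) (nat_lit 0) (nat_lit 0) (nat_lit 1) (nat_lit 0) (nat_lit 1) (nat_lit 0) (nat_lit 340) (nat_lit 213) (nat_lit 167))) (XT.nd (nat_lit 94) (nat_lit 0) (nat_lit 0) (XT.lf (nat_lit 0) (nat_lit 148574953410) (nat_lit 0) (nat_lit 0) (nat_lit 0) (nat_lit 0) (nat_lit 0) (nat_lit 0) (nat_lit 1) (nat_lit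 0) (nat_lit 1) (nat_lit 0) (nat_lit 341) (nat_lit 213) (nat_lit 166)) (XT.nd (nat_lit 94) (nat_lit 0) (nat_lit 0) (XT.lf (nat_lit 0) (nat_lit 155986486911) (nat_lit 0) (nat_lit 0) (nat_lit 0) (nat_lit 0) (nat_lit 0) (nat_lit 0) (nat_lit 1) (nat_lit 0) (nat_lit 1) (nat_lit 0) (nat_lit 342) (nat_lit 213) (nat_lit 165)) (XT.lf (nat_lit 0) (nat_lit 163768732047) (nat_lit 0) (nat_lit 0) (nat_lit 0) (nat_lit 0) (nat_lit 0) (nat_lit 0) (nat_lit 1) (nat_lit 0) (nat_lit 1) (nat_lit 0) (nat_lit 343) (nat_lit 213) (nat_lit 164))))))))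
noncomputable def xc26 : XT := (XT.nd (nat_lit 41736) (nat_lit 0) (nat_lit 0) (XT.nd (nat_lit 40890) (nat_lit 0) (nat_lit 672) (XT.nd (nat_lit 40514) (nat_lit 0) (nat_lit 1680) (XT.nd (nat_lit 40326) (nat_lit 0) (nat_lit 2184) (XT.nd (nat_lit 94) (nat_lit 0) (nat_lit 0) (XT.lf (nat_lit 0) (nat_lit 171940217974) (nat_lit 0) (nat_lit 0) (nat_lit 0) (nat_lit 0) (nat_lit 0) (nat_lit 0) (nat_lit 1) (nat_lit 0) (nat_lit 1) (nat_lit 0) (nat_lit 344) (nat_lit 213) (nat_lit 163)) (XT.lf (nat_lit 0) (nat_lit 180520400611) (nat_lit 0) (nat_lit 0) (nat_lit 0) (nat_lit 0) (nat_lit 0) (nat_lit 0) (nat_lit 1) (nat_lit 0) (nat_lit 1) (nat_lit 0) (nat_lit 345) (nat_lit 213) (nat_lit 162))) (XT.nd (nat_lit 94) (nat_lit 84) (nat_lit 0) (XT.lf (nat_lit 0) (nat_lit 3030080150) (nat_lit 168) (nat_lit 1259949986) (nat_lit 0) (nat_lit 3030080150) (nat_lit 27) (nat_lit 5) (nat_lit 29) (nat_lit 4)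 (nat_lit 27) (nat_lit 4) (nat_lit 292) (nat_lit 214) (nat_lit 214)) (XT.lf (nat_lit 0) (nat_lit 12076810575) (nat_lit 84) (nat_lit 1611305033) (nat_lit 84) (nat_lit 1301609623) (nat_lit 26) (nat_lit 4) (nat_lit 27) (nat_lit 5) (nat_lit 27) (nat_lit 4) (nat_lit 293) (nat_lit 214) (nat_lit 213)))) (XT.nd (nat_lit 188) (nat_lit 252) (nat_lit 0) (XT.nd (nat_lit 94) (nat_lit 84) (nat_lit 0) (XT.lf (nat_lit 0) (nat_lit 6212373600) (nat_lit 168) (nat_lit 3499131236) (nat_lit 0) (nat_lit 5636522724) (nat_lit 24) (nat_lit 5) (nat_lit 26) (nat_lit 4) (nat_lit 24) (nat_lit 4) (nat_lit 294) (nat_lit 214) (nat_lit 212)) (XT.lf (nat_lit 0) (nat_lit 11574611954) (nat_lit 84) (nat_lit 2495672510) (nat_lit 84) (nat_lit 1652295094) (nat_lit 23) (nat_lit 4) (nat_lit 24) (nat_lit 5) (nat_lit 24) (nat_lit 4) (nat_lit 295) (nat_lit 214) (nat_lit 211))) (XT.nd (nat_lit 94) (nat_lit 84) (nat_lit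 0) (XT.lf (nat_lit 0) (nat_lit 6077939713) (nat_lit 168) (nat_lit 4997441015) (nat_lit 0) (nat_lit 5032068668) (nat_lit 21) (nat_lit 5) (nat_lit 23) (nat_lit 4) (nat_lit 21) (nat_lit 4) (nat_lit 296) (nat_lit 214) (nat_lit 210)) (XT.lf (nat_lit 0) (nat_lit 10558983302) (nat_lit 84) (nat_lit 3613270420) (nat_lit 84) (nat_lit 2336299892) (nat_lit 20) (nat_lit 4) (nat_lit 21) (nat_lit 5) (nat_lit 21) (nat_lit 4) (nat_lit 297) (nat_lit 214) (nat_lit 209))))) (XT.nd (nat_lit 376) (nat_lit 504) (nat_lit 0) (XT.nd (nat_lit 188) (nat_lit 252) (nat_lit 0) (XT.nd (nat_lit 94) (nat_lit 84) (nat_lit 0) (XT.lf (nat_lit 0) (nat_lit 5622214363) (nat_lit 168) (nat_lit 7103358163) (nat_lit 0) (nat_lit 4196437912) (nat_lit 18) (nat_lit 5) (nat_lit 20) (nat_lit 4) (nat_lit 18) (nat_lit 4) (nat_lit 298) (nat_lit 214) (nat_lit 208)) (XT.lf (nat_lit 0) (nat_lit 8939971230) (nat_lit 84) (nat_lit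 5018376173) (nat_lit 84) (nat_lit 3392967298) (nat_lit 17) (nat_lit 4) (nat_lit 18) (nat_lit 5) (nat_lit 18) (nat_lit 4) (nat_lit 299) (nat_lit 214) (nat_lit 207))) (XT.nd (nat_lit 94) (nat_lit 84) (nat_lit 0) (XT.lf (nat_lit 0) (nat_lit 4805127866) (nat_lit 168) (nat_lit 9914424563) (nat_lit 0) (nat_lit 3076046922) (nat_lit 15) (nat_lit 5) (nat_lit 17) (nat_lit 4) (nat_lit 15) (nat_lit 4) (nat_lit 300) (nat_lit 214) (nat_lit 206)) (XT.lf (nat_lit 0) (nat_lit 6618337142) (nat_lit 84) (nat_lit 6769048362) (nat_lit 84) (nat_lit 4867517425) (nat_lit 14) (nat_lit 4) (nat_lit 15) (nat_lit 5) (nat_lit 15) (nat_lit 4) (nat_lit 301) (nat_lit 214) (nat_lit 205)))) (XT.nd (nat_lit 188) (nat_lit 252) (nat_lit 0) (XT.nd (nat_lit 94) (nat_lit 84) (nat_lit 0) (XT.lf (nat_lit 0) (nat_lit 3580767548) (nat_lit 168) (nat_lit 13538358444) (nat_lit 0) (nat_lit 1613368476) (nat_lit 12) (nat_lit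 5) (nat_lit 14) (nat_lit 4) (nat_lit 12) (nat_lit 4) (nat_lit 302) (nat_lit 214) (nat_lit 204)) (XT.lf (nat_lit 0) (nat_lit 3484363457) (nat_lit 84) (nat_lit 8927881150) (nat_lit 84) (nat_lit 6811513291) (nat_lit 11) (nat_lit 4) (nat_lit 12) (nat_lit 5) (nat_lit 12) (nat_lit 4) (nat_lit 303) (nat_lit 214) (nat_lit 203))) (XT.nd (nat_lit 94) (nat_lit 84) (nat_lit 0) (XT.lf (nat_lit 0) (nat_lit 1638778124) (nat_lit 84) (nat_lit 262207738) (nat_lit 168) (nat_lit 17836202250) (nat_lit 9) (nat_lit 5) (nat_lit 10) (nat_lit 5) (nat_lit 11) (nat_lit 4) (nat_lit 304) (nat_lit 214) (nat_lit 202)) (XT.nd (nat_lit 94) (nat_lit 84) (nat_lit 0) (XT.lf (nat_lit 0) (nat_lit 10988458676) (nat_lit 168) (nat_lit 564768626) (nat_lit 0) (nat_lit 8709066317) (nat_lit 9) (nat_lit 5) (nat_lit 11) (nat_lit 4) (nat_lit 9) (nat_lit 4) (nat_lit 305) (nat_lit 214) (nat_lit 201)) (XT.lf (nat_lit 0) (nat_lit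 17958810661) (nat_lit 84) (nat_lit 2627008689) (nat_lit 84) (nat_lit 225059340) (nat_lit 8) (nat_lit 4) (nat_lit 9) (nat_lit 5) (nat_lit 9) (nat_lit 4) (nat_lit 306) (nat_lit 214) (nat_lit 200))))))) (XT.nd (nat_lit 752) (nat_lit 0) (nat_lit 0) (XT.nd (nat_lit 376) (nat_lit 168) (nat_lit 0) (XT.nd (nat_lit 188) (nat_lit 252) (nat_lit 0) (XT.nd (nat_lit 94) (nat_lit 84) (nat_lit 0) (XT.lf (nat_lit 0) (nat_lit 9117393202) (nat_lit 168) (nat_lit 5536692232) (nat_lit 0) (nat_lit 6718659590) (nat_lit 6) (nat_lit 5) (nat_lit 8) (nat_lit 4) (nat_lit 6) (nat_lit 4) (nat_lit 307) (nat_lit 214) (nat_lit 199)) (XT.lf (nat_lit 0) (nat_lit 13524839116) (nat_lit 84) (nat_lit 5469274302) (nat_lit 84) (nat_lit 2964671355) (nat_lit 5) (nat_lit 4) (nat_lit 6) (nat_lit 5) (nat_lit 6) (nat_lit 4) (nat_lit 308) (nat_lit 214) (nat_lit 198))) (XT.nd (nat_lit 94) (nat_lit 84) (nat_lit 0) (XT.lf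 (nat_lit 0) (nat_lit 6678678898) (nat_lit 168) (nat_lit 11687556714) (nat_lit 0) (nat_lit 4197316149) (nat_lit 3) (nat_lit 5) (nat_lit 5) (nat_lit 4) (nat_lit 3) (nat_lit 4) (nat_lit 309) (nat_lit 214) (nat_lit 197)) (XT.lf (nat_lit 0) (nat_lit 7907010659) (nat_lit 84) (nat_lit 8927712549) (nat_lit 84) (nat_lit 6354895886) (nat_lit 2) (nat_lit 4) (nat_lit 3) (nat_lit 5) (nat_lit 3) (nat_lit 4) (nat_lit 310) (nat_lit 214) (nat_lit 196)))) (XT.nd (nat_lit 188) (nat_lit 0) (nat_lit 0) (XT.nd (nat_lit 94) (nat_lit 0) (nat_lit 0) (XT.lf (nat_lit 0) (nat_lit 34725115590) (nat_lit 0) (nat_lit 0) (nat_lit 0) (nat_lit 0) (nat_lit 0) (nat_lit 0) (nat_lit 1) (nat_lit 0) (nat_lit 1) (nat_lit 0) (nat_lit 311) (nat_lit 214) (nat_lit 195)) (XT.lf (nat_lit 0) (nat_lit 36434606534) (nat_lit 0) (nat_lit 0) (nat_lit 0) (nat_lit 0) (nat_lit 0) (nat_lit 0) (nat_lit 1) (nat_lit 0) (nat_lit 1)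 (nat_lit 0) (nat_lit 312) (nat_lit 214) (nat_lit 194))) (XT.nd (nat_lit 94) (nat_lit 0) (nat_lit 0) (XT.lf (nat_lit 0) (nat_lit 38230127541) (nat_lit 0) (nat_lit 0) (nat_lit 0) (nat_lit 0) (nat_lit 0) (nat_lit 0) (nat_lit 1) (nat_lit 0) (nat_lit 1) (nat_lit 0) (nat_lit 313) (nat_lit 214) (nat_lit 193)) (XT.lf (nat_lit 0) (nat_lit 40115953661) (nat_lit 0) (nat_lit 0) (nat_lit 0) (nat_lit 0) (nat_lit 0) (nat_lit 0) (nat_lit 1) (nat_lit 0) (nat_lit 1) (nat_lit 0) (nat_lit 314) (nat_lit 214) (nat_lit 192))))) (XT.nd (nat_lit 376) (nat_lit 0) (nat_lit 0) (XT.nd (nat_lit 188) (nat_lit 0) (nat_lit 0) (XT.nd (nat_lit 94) (nat_lit 0) (nat_lit 0) (XT.lf (nat_lit 0) (nat_lit 42096574957) (nat_lit 0) (nat_lit 0) (nat_lit 0) (nat_lit 0) (nat_lit 0) (nat_lit 0) (nat_lit 1) (nat_lit 0) (nat_lit 1) (nat_lit 0) (nat_lit 315) (nat_lit 214) (nat_lit 191)) (XT.lf (nat_lit 0) (nat_lit 44176707193)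 (nat_lit 0) (nat_lit 0) (nat_lit 0) (nat_lit 0) (nat_lit 0) (nat_lit 0) (nat_lit 1) (nat_lit 0) (nat_lit 1) (nat_lit 0) (nat_lit 316) (nat_lit 214) (nat_lit 190))) (XT.nd (nat_lit 94) (nat_lit 0) (nat_lit 0) (XT.lf (nat_lit 0) (nat_lit 46361303066) (nat_lit 0) (nat_lit 0) (nat_lit 0) (nat_lit 0) (nat_lit 0) (nat_lit 0) (nat_lit 1) (nat_lit 0) (nat_lit 1) (nat_lit 0) (nat_lit 317) (nat_lit 214) (nat_lit 189)) (XT.lf (nat_lit 0) (nat_lit 48655563993) (nat_lit 0) (nat_lit 0) (nat_lit 0) (nat_lit 0) (nat_lit 0) (nat_lit 0) (nat_lit 1) (nat_lit 0) (nat_lit 1) (nat_lit 0) (nat_lit 318) (nat_lit 214) (nat_lit 188)))) (XT.nd (nat_lit 188) (nat_lit 0) (nat_lit 0) (XT.nd (nat_lit 94) (nat_lit 0) (nat_lit 0) (XT.lf (nat_lit 0) (nat_lit 51064952502) (nat_lit 0) (nat_lit 0) (nat_lit 0) (nat_lit 0) (nat_lit 0) (nat_lit 0) (nat_lit 1) (nat_lit 0) (nat_lit 1) (nat_lit 0) (nat_lit 319) (nat_lit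 214) (nat_lit 187)) (XT.lf (nat_lit 0) (nat_lit 53595205231) (nat_lit 0) (nat_lit 0) (nat_lit 0) (nat_lit 0) (nat_lit 0) (nat_lit 0) (nat_lit 1) (nat_lit 0) (nat_lit 1) (nat_lit 0) (nat_lit 320) (nat_lit 214) (nat_lit 186))) (XT.nd (nat_lit 94) (nat_lit 0) (nat_lit 0) (XT.lf (nat_lit 0) (nat_lit 56252346592) (nat_lit 0) (nat_lit 0) (nat_lit 0) (nat_lit 0) (nat_lit 0) (nat_lit 0) (nat_lit 1) (nat_lit 0) (nat_lit 1) (nat_lit 0) (nat_lit 321) (nat_lit 214) (nat_lit 185)) (XT.nd (nat_lit 94) (nat_lit 0) (nat_lit 0) (XT.lf (nat_lit 0) (nat_lit 59042703111) (nat_lit 0) (nat_lit 0) (nat_lit 0) (nat_lit 0) (nat_lit 0) (nat_lit 0) (nat_lit 1) (nat_lit 0) (nat_lit 1) (nat_lit 0) (nat_lit 322) (nat_lit 214) (nat_lit 184)) (XT.lf (nat_lit 0) (nat_lit 61972918495) (nat_lit 0) (nat_lit 0) (nat_lit 0) (nat_lit 0) (nat_lit 0) (nat_lit 0) (nat_lit 1) (nat_lit 0) (nat_lit 1) (nat_lit 0) (nat_lit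 323) (nat_lit 214) (nat_lit 183))))))))
noncomputable def xc27 : XT := (XT.nd (nat_lit 1598) (nat_lit 0) (nat_lit 0) (XT.nd (nat_lit 752) (nat_lit 0) (nat_lit 0) (XT.nd (nat_lit 376) (nat_lit 0) (nat_lit 0) (XT.nd (nat_lit 188) (nat_lit 0) (nat_lit 0) (XT.nd (nat_lit 94) (nat_lit 0) (nat_lit 0) (XT.lf (nat_lit 0) (nat_lit 65049969448) (nat_lit 0) (nat_lit 0) (nat_lit 0) (nat_lit 0) (nat_lit 0) (nat_lit 0) (nat_lit 1) (nat_lit 0) (nat_lit 1) (nat_lit 0) (nat_lit 324) (nat_lit 214) (nat_lit 182)) (XT.lf (nat_lit 0) (nat_lit 68281182279) (nat_lit 0) (nat_lit 0) (nat_lit 0) (nat_lit 0) (nat_lit 0) (nat_lit 0) (nat_lit 1) (nat_lit 0) (nat_lit 1) (nat_lit 0) (nat_lit 325) (nat_lit 214) (nat_lit 181))) (XT.nd (nat_lit 94) (nat_lit 0) (nat_lit 0) (XT.lf (nat_lit 0) (nat_lit 71674250355) (nat_lit 0) (nat_lit 0) (nat_lit 0) (nat_lit 0) (nat_lit 0) (nat_lit 0) (nat_lit 1) (nat_lit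 0) (nat_lit 1) (nat_lit 0) (nat_lit 326) (nat_lit 214) (nat_lit 180)) (XT.lf (nat_lit 0) (nat_lit 75237252408) (nat_lit 0) (nat_lit 0) (nat_lit 0) (nat_lit 0) (nat_lit 0) (nat_lit 0) (nat_lit 1) (nat_lit 0) (nat_lit 1) (nat_lit 0) (nat_lit 327) (nat_lit 214) (nat_lit 179)))) (XT.nd (nat_lit 188) (nat_lit 0) (nat_lit 0) (XT.nd (nat_lit 94) (nat_lit 0) (nat_lit 0) (XT.lf (nat_lit 0) (nat_lit 78978671776) (nat_lit 0) (nat_lit 0) (nat_lit 0) (nat_lit 0) (nat_lit 0) (nat_lit 0) (nat_lit 1) (nat_lit 0) (nat_lit 1) (nat_lit 0) (nat_lit 328) (nat_lit 214) (nat_lit 178)) (XT.lf (nat_lit 0) (nat_lit 82907416601) (nat_lit 0) (nat_lit 0) (nat_lit 0) (nat_lit 0) (nat_lit 0) (nat_lit 0) (nat_lit 1) (nat_lit 0) (nat_lit 1) (nat_lit 0) (nat_lit 329) (nat_lit 214) (nat_lit 177))) (XT.nd (nat_lit 94) (nat_lit 0) (nat_lit 0) (XT.lf (nat_lit 0) (nat_lit 87032841037) (nat_lit 0) (nat_lit 0)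 (nat_lit 0) (nat_lit 0) (nat_lit 0) (nat_lit 0) (nat_lit 1) (nat_lit 0) (nat_lit 1) (nat_lit 0) (nat_lit 330) (nat_lit 214) (nat_lit 176)) (XT.lf (nat_lit 0) (nat_lit 91364767523) (nat_lit 0) (nat_lit 0) (nat_lit 0) (nat_lit 0) (nat_lit 0) (nat_lit 0) (nat_lit 1) (nat_lit 0) (nat_lit 1) (nat_lit 0) (nat_lit 331) (nat_lit 214) (nat_lit 175))))) (XT.nd (nat_lit 376) (nat_lit 0) (nat_lit 0) (XT.nd (nat_lit 188) (nat_lit 0) (nat_lit 0) (XT.nd (nat_lit 94) (nat_lit 0) (nat_lit 0) (XT.lf (nat_lit 0) (nat_lit 95913510170) (nat_lit 0) (nat_lit 0) (nat_lit 0) (nat_lit 0) (nat_lit 0) (nat_lit 0) (nat_lit 1) (nat_lit 0) (nat_lit 1) (nat_lit 0) (nat_lit 332) (nat_lit 214) (nat_lit 174)) (XT.lf (nat_lit 0) (nat_lit 100689899318) (nat_lit 0) (nat_lit 0) (nat_lit 0) (nat_lit 0) (nat_lit 0) (nat_lit 0) (nat_lit 1) (nat_lit 0) (nat_lit 1) (nat_lit 0) (nat_lit 333) (nat_lit 214) (nat_lit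 173))) (XT.nd (nat_lit 94) (nat_lit 0) (nat_lit 0) (XT.lf (nat_lit 0) (nat_lit 105705307322) (nat_lit 0) (nat_lit 0) (nat_lit 0) (nat_lit 0) (nat_lit 0) (nat_lit 0) (nat_lit 1) (nat_lit 0) (nat_lit 1) (nat_lit 0) (nat_lit 334) (nat_lit 214) (nat_lit 172)) (XT.lf (nat_lit 0) (nat_lit 110971675628) (nat_lit 0) (nat_lit 0) (nat_lit 0) (nat_lit 0) (nat_lit 0) (nat_lit 0) (nat_lit 1) (nat_lit 0) (nat_lit 1) (nat_lit 0) (nat_lit 335) (nat_lit 214) (nat_lit 171)))) (XT.nd (nat_lit 188) (nat_lit 0) (nat_lit 0) (XT.nd (nat_lit 94) (nat_lit 0) (nat_lit 0) (XT.lf (nat_lit 0) (nat_lit 116501543210) (nat_lit 0) (nat_lit 0) (nat_lit 0) (nat_lit 0) (nat_lit 0) (nat_lit 0) (nat_lit 1) (nat_lit 0) (nat_lit 1) (nat_lit 0) (nat_lit 336) (nat_lit 214) (nat_lit 170)) (XT.lf (nat_lit 0) (nat_lit 122308076419) (nat_lit 0) (nat_lit 0) (nat_lit 0) (nat_lit 0) (nat_lit 0) (nat_lit 0) (nat_lit 1)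 (nat_lit 0) (nat_lit 1) (nat_lit 0) (nat_lit 337) (nat_lit 214) (nat_lit 169))) (XT.nd (nat_lit 94) (nat_lit 0) (nat_lit 0) (XT.lf (nat_lit 0) (nat_lit 128405100334) (nat_lit 0) (nat_lit 0) (nat_lit 0) (nat_lit 0) (nat_lit 0) (nat_lit 0) (nat_lit 1) (nat_lit 0) (nat_lit 1) (nat_lit 0) (nat_lit 338) (nat_lit 214) (nat_lit 168)) (XT.nd (nat_lit 94) (nat_lit 0) (nat_lit 0) (XT.lf (nat_lit 0) (nat_lit 134807131679) (nat_lit 0) (nat_lit 0) (nat_lit 0) (nat_lit 0) (nat_lit 0) (nat_lit 0) (nat_lit 1) (nat_lit 0) (nat_lit 1) (nat_lit 0) (nat_lit 339) (nat_lit 214) (nat_lit 167)) (XT.lf (nat_lit 0) (nat_lit 141529413384) (nat_lit 0) (nat_lit 0) (nat_lit 0) (nat_lit 0) (nat_lit 0) (nat_lit 0) (nat_lit 1) (nat_lit 0) (nat_lit 1) (nat_lit 0) (nat_lit 340) (nat_lit 214) (nat_lit 166))))))) (XT.nd (nat_lit 40796) (nat_lit 0) (nat_lit 1008) (XT.nd (nat_lit 40420) (nat_lit 0) (nat_lit 2184)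 (XT.nd (nat_lit 188) (nat_lit 0) (nat_lit 0) (XT.nd (nat_lit 94) (nat_lit 0) (nat_lit 0) (XT.lf (nat_lit 0) (nat_lit 148587950884) (nat_lit 0) (nat_lit 0) (nat_lit 0) (nat_lit 0) (nat_lit 0) (nat_lit 0) (nat_lit 1) (nat_lit 0) (nat_lit 1) (nat_lit 0) (nat_lit 341) (nat_lit 214) (nat_lit 165)) (XT.lf (nat_lit 0) (nat_lit 155999550219) (nat_lit 0) (nat_lit 0) (nat_lit 0) (nat_lit 0) (nat_lit 0) (nat_lit 0) (nat_lit 1) (nat_lit 0) (nat_lit 1) (nat_lit 0) (nat_lit 342) (nat_lit 214) (nat_lit 164))) (XT.nd (nat_lit 94) (nat_lit 0) (nat_lit 0) (XT.lf (nat_lit 0) (nat_lit 163781858055) (nat_lit 0) (nat_lit 0) (nat_lit 0) (nat_lit 0) (nat_lit 0) (nat_lit 0) (nat_lit 1) (nat_lit 0) (nat_lit 1) (nat_lit 0) (nat_lit 343) (nat_lit 214) (nat_lit 163)) (XT.lf (nat_lit 0) (nat_lit 171953403696) (nat_lit 0) (nat_lit 0) (nat_lit 0) (nat_lit 0) (nat_lit 0) (nat_lit 0) (nat_lit 1) (nat_lit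 0) (nat_lit 1) (nat_lit 0) (nat_lit 344) (nat_lit 214) (nat_lit 162)))) (XT.nd (nat_lit 188) (nat_lit 252) (nat_lit 0) (XT.nd (nat_lit 94) (nat_lit 168) (nat_lit 0) (XT.lf (nat_lit 0) (nat_lit 3053844803) (nat_lit 168) (nat_lit 879849160) (nat_lit 0) (nat_lit 3053844803) (nat_lit 31) (nat_lit 5) (nat_lit 33) (nat_lit 4) (nat_lit 31) (nat_lit 4) (nat_lit 290) (nat_lit 215) (nat_lit 215)) (XT.lf (nat_lit 0) (nat_lit 12147351873) (nat_lit 168) (nat_lit 1250380137) (nat_lit 168) (nat_lit 908940947) (nat_lit 29) (nat_lit 4) (nat_lit 31) (nat_lit 5) (nat_lit 31) (nat_lit 4) (nat_lit 291) (nat_lit 215) (nat_lit 214))) (XT.nd (nat_lit 94) (nat_lit 84) (nat_lit 0) (XT.lf (nat_lit 0) (nat_lit 6264992505) (nat_lit 168) (nat_lit 2751128556) (nat_lit 0) (nat_lit 5630116913) (nat_lit 27) (nat_lit 5) (nat_lit 29) (nat_lit 4) (nat_lit 27) (nat_lit 4) (nat_lit 292) (nat_lit 215) (nat_lit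 213)) (XT.lf (nat_lit 0) (nat_lit 11610437439) (nat_lit 84) (nat_lit 2160611858) (nat_lit 84) (nat_lit 1230788257) (nat_lit 26) (nat_lit 4) (nat_lit 27) (nat_lit 5) (nat_lit 27) (nat_lit 4) (nat_lit 293) (nat_lit 215) (nat_lit 212))))) (XT.nd (nat_lit 376) (nat_lit 672) (nat_lit 0) (XT.nd (nat_lit 188) (nat_lit 252) (nat_lit 0) (XT.nd (nat_lit 94) (nat_lit 84) (nat_lit 0) (XT.lf (nat_lit 0) (nat_lit 6144851312) (nat_lit 168) (nat_lit 4230258647) (nat_lit 0) (nat_lit 4991778486) (nat_lit 24) (nat_lit 5) (nat_lit 26) (nat_lit 4) (nat_lit 24) (nat_lit 4) (nat_lit 294) (nat_lit 215) (nat_lit 211)) (XT.lf (nat_lit 0) (nat_lit 10591130936) (nat_lit 84) (nat_lit 3282317598) (nat_lit 84) (nat_lit 1874457591) (nat_lit 23) (nat_lit 4) (nat_lit 24) (nat_lit 5) (nat_lit 24) (nat_lit 4) (nat_lit 295) (nat_lit 215) (nat_lit 210))) (XT.nd (nat_lit 94) (nat_lit 84) (nat_lit 0) (XT.lf (nat_lit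 0) (nat_lit 5715008719) (nat_lit 168) (nat_lit 6282244445) (nat_lit 0) (nat_lit 4143090181) (nat_lit 21) (nat_lit 5) (nat_lit 23) (nat_lit 4) (nat_lit 21) (nat_lit 4) (nat_lit 296) (nat_lit 215) (nat_lit 209)) (XT.lf (nat_lit 0) (nat_lit 9002931701) (nat_lit 84) (nat_lit 4668706682) (nat_lit 84) (nat_lit 2876693398) (nat_lit 20) (nat_lit 4) (nat_lit 21) (nat_lit 5) (nat_lit 21) (nat_lit 4) (nat_lit 297) (nat_lit 215) (nat_lit 208)))) (XT.nd (nat_lit 188) (nat_lit 420) (nat_lit 0) (XT.nd (nat_lit 94) (nat_lit 84) (nat_lit 0) (XT.lf (nat_lit 0) (nat_lit 4937933696) (nat_lit 168) (nat_lit 9000713963) (nat_lit 0) (nat_lit 3031621955) (nat_lit 18) (nat_lit 5) (nat_lit 20) (nat_lit 4) (nat_lit 18) (nat_lit 4) (nat_lit 298) (nat_lit 215) (nat_lit 207)) (XT.lf (nat_lit 0) (nat_lit 6750605978) (nat_lit 84) (nat_lit 6376379900) (nat_lit 84) (nat_lit 4279942042) (nat_lit 17) (nat_lit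 4) (nat_lit 18) (nat_lit 5) (nat_lit 18) (nat_lit 4) (nat_lit 299) (nat_lit 215) (nat_lit 206))) (XT.nd (nat_lit 94) (nat_lit 252) (nat_lit 0) (XT.lf (nat_lit 0) (nat_lit 3770438631) (nat_lit 168) (nat_lit 12488890354) (nat_lit 0) (nat_lit 1601381154) (nat_lit 15) (nat_lit 5) (nat_lit 17) (nat_lit 4) (nat_lit 15) (nat_lit 4) (nat_lit 300) (nat_lit 215) (nat_lit 205)) (XT.nd (nat_lit 94) (nat_lit 168) (nat_lit 0) (XT.lf (nat_lit 0) (nat_lit 3729035158) (nat_lit 84) (nat_lit 8466076673) (nat_lit 84) (nat_lit 6132781108) (nat_lit 14) (nat_lit 4) (nat_lit 15) (nat_lit 5) (nat_lit 15) (nat_lit 4) (nat_lit 301) (nat_lit 215) (nat_lit 204)) (XT.lf (nat_lit 0) (nat_lit 1951782757) (nat_lit 84) (nat_lit 214800437) (nat_lit 168) (nat_lit 16649359851) (nat_lit 12) (nat_lit 5) (nat_lit 13) (nat_lit 5) (nat_lit 14) (nat_lit 4) (nat_lit 302) (nat_lit 215) (nat_lit 203))))))))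
noncomputable def xc28 : XT := (XT.nd (nat_lit 1598) (nat_lit 0) (nat_lit 0) (XT.nd (nat_lit 752) (nat_lit 168) (nat_lit 0) (XT.nd (nat_lit 376) (nat_lit 504) (nat_lit 0) (XT.nd (nat_lit 188) (nat_lit 168) (nat_lit 0) (XT.nd (nat_lit 94) (nat_lit 168) (nat_lit 0) (XT.lf (nat_lit 0) (nat_lit 10828198210) (nat_lit 168) (nat_lit 172333232) (nat_lit 0) (nat_lit 8315168135) (nat_lit 12) (nat_lit 5) (nat_lit 14) (nat_lit 4) (nat_lit 12) (nat_lit 4) (nat_lit 303) (nat_lit 215) (nat_lit 202)) (XT.lf (nat_lit 0) (nat_lit 138231843) (nat_lit 168) (nat_lit 2364773879) (nat_lit 84) (nat_lit 17334452815) (nat_lit 10) (nat_lit 5) (nat_lit 12) (nat_lit 5) (nat_lit 11) (nat_lit 4) (nat_lit 304) (nat_lit 215) (nat_lit 201))) (XT.nd (nat_lit 94) (nat_lit 84) (nat_lit 0) (XT.lf (nat_lit 0) (nat_lit 9040161695) (nat_lit 168) (nat_lit 4936121608) (nat_lit 0) (nat_lit 6395557888) (nat_lit 9)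 (nat_lit 5) (nat_lit 11) (nat_lit 4) (nat_lit 9) (nat_lit 4) (nat_lit 305) (nat_lit 215) (nat_lit 200)) (XT.lf (nat_lit 0) (nat_lit 13223474708) (nat_lit 84) (nat_lit 5233648140) (nat_lit 84) (nat_lit 2472323390) (nat_lit 8) (nat_lit 4) (nat_lit 9) (nat_lit 5) (nat_lit 9) (nat_lit 4) (nat_lit 306) (nat_lit 215) (nat_lit 199)))) (XT.nd (nat_lit 188) (nat_lit 252) (nat_lit 0) (XT.nd (nat_lit 94) (nat_lit 84) (nat_lit 0) (XT.lf (nat_lit 0) (nat_lit 6710269029) (nat_lit 168) (nat_lit 10819820580) (nat_lit 0) (nat_lit 3974566598) (nat_lit 6) (nat_lit 5) (nat_lit 8) (nat_lit 4) (nat_lit 6) (nat_lit 4) (nat_lit 307) (nat_lit 215) (nat_lit 198)) (XT.lf (nat_lit 0) (nat_lit 7847311229) (nat_lit 84) (nat_lit 8544828780) (nat_lit 84) (nat_lit 5708298409) (nat_lit 5) (nat_lit 4) (nat_lit 6) (nat_lit 5) (nat_lit 6) (nat_lit 4) (nat_lit 308) (nat_lit 215) (nat_lit 197))) (XT.nd (nat_lit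 94) (nat_lit 84) (nat_lit 0) (XT.lf (nat_lit 0) (nat_lit 3768169448) (nat_lit 168) (nat_lit 17976654484) (nat_lit 0) (nat_lit 975258039) (nat_lit 3) (nat_lit 5) (nat_lit 5) (nat_lit 4) (nat_lit 3) (nat_lit 4) (nat_lit 309) (nat_lit 215) (nat_lit 196)) (XT.lf (nat_lit 0) (nat_lit 1190018951) (nat_lit 84) (nat_lit 12523341691) (nat_lit 84) (nat_lit 9643331317) (nat_lit 2) (nat_lit 4) (nat_lit 3) (nat_lit 5) (nat_lit 3) (nat_lit 4) (nat_lit 310) (nat_lit 215) (nat_lit 195))))) (XT.nd (nat_lit 376) (nat_lit 0) (nat_lit 0) (XT.nd (nat_lit 188) (nat_lit 0) (nat_lit 0) (XT.nd (nat_lit 94) (nat_lit 84) (nat_lit 0) (XT.lf (nat_lit 0) (nat_lit 218806805) (nat_lit 168) (nat_lit 2514407817) (nat_lit 84) (nat_lit 21287200293) (nat_lit 1) (nat_lit 5) (nat_lit 3) (nat_lit 5) (nat_lit 2) (nat_lit 4) (nat_lit 311) (nat_lit 215) (nat_lit 194)) (XT.lf (nat_lit 0) (nat_lit 36444285861) (nat_lit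 0) (nat_lit 0) (nat_lit 0) (nat_lit 0) (nat_lit 0) (nat_lit 0) (nat_lit 1) (nat_lit 0) (nat_lit 1) (nat_lit 0) (nat_lit 312) (nat_lit 215) (nat_lit 193))) (XT.nd (nat_lit 94) (nat_lit 0) (nat_lit 0) (XT.lf (nat_lit 0) (nat_lit 38240064948) (nat_lit 0) (nat_lit 0) (nat_lit 0) (nat_lit 0) (nat_lit 0) (nat_lit 0) (nat_lit 1) (nat_lit 0) (nat_lit 1) (nat_lit 0) (nat_lit 313) (nat_lit 215) (nat_lit 192)) (XT.lf (nat_lit 0) (nat_lit 40126136858) (nat_lit 0) (nat_lit 0) (nat_lit 0) (nat_lit 0) (nat_lit 0) (nat_lit 0) (nat_lit 1) (nat_lit 0) (nat_lit 1) (nat_lit 0) (nat_lit 314) (nat_lit 215) (nat_lit 191)))) (XT.nd (nat_lit 188) (nat_lit 0) (nat_lit 0) (XT.nd (nat_lit 94) (nat_lit 0) (nat_lit 0) (XT.lf (nat_lit 0) (nat_lit 42106992239) (nat_lit 0) (nat_lit 0) (nat_lit 0) (nat_lit 0) (nat_lit 0) (nat_lit 0) (nat_lit 1) (nat_lit 0) (nat_lit 1) (nat_lit 0) (nat_lit 315) (nat_lit 215)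 (nat_lit 190)) (XT.lf (nat_lit 0) (nat_lit 44187347414) (nat_lit 0) (nat_lit 0) (nat_lit 0) (nat_lit 0) (nat_lit 0) (nat_lit 0) (nat_lit 1) (nat_lit 0) (nat_lit 1) (nat_lit 0) (nat_lit 316) (nat_lit 215) (nat_lit 189))) (XT.nd (nat_lit 94) (nat_lit 0) (nat_lit 0) (XT.lf (nat_lit 0) (nat_lit 46372155610) (nat_lit 0) (nat_lit 0) (nat_lit 0) (nat_lit 0) (nat_lit 0) (nat_lit 0) (nat_lit 1) (nat_lit 0) (nat_lit 1) (nat_lit 0) (nat_lit 317) (nat_lit 215) (nat_lit 188)) (XT.nd (nat_lit 94) (nat_lit 0) (nat_lit 0) (XT.lf (nat_lit 0) (nat_lit 48666618749) (nat_lit 0) (nat_lit 0) (nat_lit 0) (nat_lit 0) (nat_lit 0) (nat_lit 0) (nat_lit 1) (nat_lit 0) (nat_lit 1) (nat_lit 0) (nat_lit 318) (nat_lit 215) (nat_lit 187)) (XT.lf (nat_lit 0) (nat_lit 51076199841) (nat_lit 0) (nat_lit 0) (nat_lit 0) (nat_lit 0) (nat_lit 0) (nat_lit 0) (nat_lit 1) (nat_lit 0) (nat_lit 1) (nat_lit 0) (nat_lit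 319) (nat_lit 215) (nat_lit 186))))))) (XT.nd (nat_lit 752) (nat_lit 0) (nat_lit 0) (XT.nd (nat_lit 376) (nat_lit 0) (nat_lit 0) (XT.nd (nat_lit 188) (nat_lit 0) (nat_lit 0) (XT.nd (nat_lit 94) (nat_lit 0) (nat_lit 0) (XT.lf (nat_lit 0) (nat_lit 53606635982) (nat_lit 0) (nat_lit 0) (nat_lit 0) (nat_lit 0) (nat_lit 0) (nat_lit 0) (nat_lit 1) (nat_lit 0) (nat_lit 1) (nat_lit 0) (nat_lit 320) (nat_lit 215) (nat_lit 185)) (XT.lf (nat_lit 0) (nat_lit 56263952021) (nat_lit 0) (nat_lit 0) (nat_lit 0) (nat_lit 0) (nat_lit 0) (nat_lit 0) (nat_lit 1) (nat_lit 0) (nat_lit 1) (nat_lit 0) (nat_lit 321) (nat_lit 215) (nat_lit 184))) (XT.nd (nat_lit 94) (nat_lit 0) (nat_lit 0) (XT.lf (nat_lit 0) (nat_lit 59054474901) (nat_lit 0) (nat_lit 0) (nat_lit 0) (nat_lit 0) (nat_lit 0) (nat_lit 0) (nat_lit 1) (nat_lit 0) (nat_lit 1) (nat_lit 0) (nat_lit 322) (nat_lit 215) (nat_lit 183)) (XT.lf (nat_lit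 0) (nat_lit 61984848724) (nat_lit 0) (nat_lit 0) (nat_lit 0) (nat_lit 0) (nat_lit 0) (nat_lit 0) (nat_lit 1) (nat_lit 0) (nat_lit 1) (nat_lit 0) (nat_lit 323) (nat_lit 215) (nat_lit 182)))) (XT.nd (nat_lit 188) (nat_lit 0) (nat_lit 0) (XT.nd (nat_lit 94) (nat_lit 0) (nat_lit 0) (XT.lf (nat_lit 0) (nat_lit 65062050570) (nat_lit 0) (nat_lit 0) (nat_lit 0) (nat_lit 0) (nat_lit 0) (nat_lit 0) (nat_lit 1) (nat_lit 0) (nat_lit 1) (nat_lit 0) (nat_lit 324) (nat_lit 215) (nat_lit 181)) (XT.lf (nat_lit 0) (nat_lit 68293407110) (nat_lit 0) (nat_lit 0) (nat_lit 0) (nat_lit 0) (nat_lit 0) (nat_lit 0) (nat_lit 1) (nat_lit 0) (nat_lit 1) (nat_lit 0) (nat_lit 325) (nat_lit 215) (nat_lit 180))) (XT.nd (nat_lit 94) (nat_lit 0) (nat_lit 0) (XT.lf (nat_lit 0) (nat_lit 71686612051) (nat_lit 0) (nat_lit 0) (nat_lit 0) (nat_lit 0) (nat_lit 0) (nat_lit 0) (nat_lit 1) (nat_lit 0) (nat_lit 1) (nat_lit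 0) (nat_lit 326) (nat_lit 215) (nat_lit 179)) (XT.lf (nat_lit 0) (nat_lit 75249744451) (nat_lit 0) (nat_lit 0) (nat_lit 0) (nat_lit 0) (nat_lit 0) (nat_lit 0) (nat_lit 1) (nat_lit 0) (nat_lit 1) (nat_lit 0) (nat_lit 327) (nat_lit 215) (nat_lit 178))))) (XT.nd (nat_lit 376) (nat_lit 0) (nat_lit 0) (XT.nd (nat_lit 188) (nat_lit 0) (nat_lit 0) (XT.nd (nat_lit 94) (nat_lit 0) (nat_lit 0) (XT.lf (nat_lit 0) (nat_lit 78991287960) (nat_lit 0) (nat_lit 0) (nat_lit 0) (nat_lit 0) (nat_lit 0) (nat_lit 0) (nat_lit 1) (nat_lit 0) (nat_lit 1) (nat_lit 0) (nat_lit 328) (nat_lit 215) (nat_lit 177)) (XT.lf (nat_lit 0) (nat_lit 82920151014) (nat_lit 0) (nat_lit 0) (nat_lit 0) (nat_lit 0) (nat_lit 0) (nat_lit 0) (nat_lit 1) (nat_lit 0) (nat_lit 1) (nat_lit 0) (nat_lit 329) (nat_lit 215) (nat_lit 176))) (XT.nd (nat_lit 94) (nat_lit 0) (nat_lit 0) (XT.lf (nat_lit 0) (nat_lit 87045688049) (nat_lit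 0) (nat_lit 0) (nat_lit 0) (nat_lit 0) (nat_lit 0) (nat_lit 0) (nat_lit 1) (nat_lit 0) (nat_lit 1) (nat_lit 0) (nat_lit 330) (nat_lit 215) (nat_lit 175)) (XT.lf (nat_lit 0) (nat_lit 91377721773) (nat_lit 0) (nat_lit 0) (nat_lit 0) (nat_lit 0) (nat_lit 0) (nat_lit 0) (nat_lit 1) (nat_lit 0) (nat_lit 1) (nat_lit 0) (nat_lit 331) (nat_lit 215) (nat_lit 174)))) (XT.nd (nat_lit 188) (nat_lit 0) (nat_lit 0) (XT.nd (nat_lit 94) (nat_lit 0) (nat_lit 0) (XT.lf (nat_lit 0) (nat_lit 95926566551) (nat_lit 0) (nat_lit 0) (nat_lit 0) (nat_lit 0) (nat_lit 0) (nat_lit 0) (nat_lit 1) (nat_lit 0) (nat_lit 1) (nat_lit 0) (nat_lit 332) (nat_lit 215) (nat_lit 173)) (XT.lf (nat_lit 0) (nat_lit 100703052966) (nat_lit 0) (nat_lit 0) (nat_lit 0) (nat_lit 0) (nat_lit 0) (nat_lit 0) (nat_lit 1) (nat_lit 0) (nat_lit 1) (nat_lit 0) (nat_lit 333) (nat_lit 215) (nat_lit 172))) (XT.nd (nat_lit 94) (nat_lit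 0) (nat_lit 0) (XT.lf (nat_lit 0) (nat_lit 105718553605) (nat_lit 0) (nat_lit 0) (nat_lit 0) (nat_lit 0) (nat_lit 0) (nat_lit 0) (nat_lit 1) (nat_lit 0) (nat_lit 1) (nat_lit 0) (nat_lit 334) (nat_lit 215) (nat_lit 171)) (XT.nd (nat_lit 94) (nat_lit 0) (nat_lit 0) (XT.lf (nat_lit 0) (nat_lit 110985010136) (nat_lit 0) (nat_lit 0) (nat_lit 0) (nat_lit 0) (nat_lit 0) (nat_lit 0) (nat_lit 1) (nat_lit 0) (nat_lit 1) (nat_lit 0) (nat_lit 335) (nat_lit 215) (nat_lit 170)) (XT.lf (nat_lit 0) (nat_lit 116514961742) (nat_lit 0) (nat_lit 0) (nat_lit 0) (nat_lit 0) (nat_lit 0) (nat_lit 0) (nat_lit 1) (nat_lit 0) (nat_lit 1) (nat_lit 0) (nat_lit 336) (nat_lit 215) (nat_lit 169))))))))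
noncomputable def xc29 : XT := (XT.nd (nat_lit 41454) (nat_lit 0) (nat_lit 0) (XT.nd (nat_lit 40608) (nat_lit 0) (nat_lit 1764) (XT.nd (nat_lit 376) (nat_lit 0) (nat_lit 0) (XT.nd (nat_lit 188) (nat_lit 0) (nat_lit 0) (XT.nd (nat_lit 94) (nat_lit 0) (nat_lit 0) (XT.lf (nat_lit 0) (nat_lit 122321574973) (nat_lit 0) (nat_lit 0) (nat_lit 0) (nat_lit 0) (nat_lit 0) (nat_lit 0) (nat_lit 1) (nat_lit 0) (nat_lit 1) (nat_lit 0) (nat_lit 337) (nat_lit 215) (nat_lit 168)) (XT.lf (nat_lit 0) (nat_lit 128418675099) (nat_lit 0) (nat_lit 0) (nat_lit 0) (nat_lit 0) (nat_lit 0) (nat_lit 0) (nat_lit 1) (nat_lit 0) (nat_lit 1) (nat_lit 0) (nat_lit 338) (nat_lit 215) (nat_lit 167))) (XT.nd (nat_lit 94) (nat_lit 0) (nat_lit 0) (XT.lf (nat_lit 0) (nat_lit 134820779026) (nat_lit 0) (nat_lit 0) (nat_lit 0) (nat_lit 0) (nat_lit 0) (nat_lit 0) (nat_lit 1) (nat_lit 0) (nat_lit 1) (nat_lit 0) (nat_lit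 339) (nat_lit 215) (nat_lit 166)) (XT.lf (nat_lit 0) (nat_lit 141543129858) (nat_lit 0) (nat_lit 0) (nat_lit 0) (nat_lit 0) (nat_lit 0) (nat_lit 0) (nat_lit 1) (nat_lit 0) (nat_lit 1) (nat_lit 0) (nat_lit 340) (nat_lit 215) (nat_lit 165)))) (XT.nd (nat_lit 188) (nat_lit 0) (nat_lit 0) (XT.nd (nat_lit 94) (nat_lit 0) (nat_lit 0) (XT.lf (nat_lit 0) (nat_lit 148601733192) (nat_lit 0) (nat_lit 0) (nat_lit 0) (nat_lit 0) (nat_lit 0) (nat_lit 0) (nat_lit 1) (nat_lit 0) (nat_lit 1) (nat_lit 0) (nat_lit 341) (nat_lit 215) (nat_lit 164)) (XT.lf (nat_lit 0) (nat_lit 156013395227) (nat_lit 0) (nat_lit 0) (nat_lit 0) (nat_lit 0) (nat_lit 0) (nat_lit 0) (nat_lit 1) (nat_lit 0) (nat_lit 1) (nat_lit 0) (nat_lit 342) (nat_lit 215) (nat_lit 163))) (XT.nd (nat_lit 94) (nat_lit 0) (nat_lit 0) (XT.lf (nat_lit 0) (nat_lit 163795762776) (nat_lit 0) (nat_lit 0) (nat_lit 0) (nat_lit 0) (nat_lit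 0) (nat_lit 0) (nat_lit 1) (nat_lit 0) (nat_lit 1) (nat_lit 0) (nat_lit 343) (nat_lit 215) (nat_lit 162)) (XT.lf (nat_lit 0) (nat_lit 171967365287) (nat_lit 0) (nat_lit 0) (nat_lit 0) (nat_lit 0) (nat_lit 0) (nat_lit 0) (nat_lit 1) (nat_lit 0) (nat_lit 1) (nat_lit 0) (nat_lit 344) (nat_lit 215) (nat_lit 161))))) (XT.nd (nat_lit 376) (nat_lit 672) (nat_lit 0) (XT.nd (nat_lit 188) (nat_lit 336) (nat_lit 0) (XT.nd (nat_lit 94) (nat_lit 168) (nat_lit 0) (XT.lf (nat_lit 0) (nat_lit 3093703359) (nat_lit 168) (nat_lit 485037796) (nat_lit 0) (nat_lit 3093703359) (nat_lit 35) (nat_lit 5) (nat_lit 37) (nat_lit 4) (nat_lit 35) (nat_lit 4) (nat_lit 288) (nat_lit 216) (nat_lit 216)) (XT.lf (nat_lit 0) (nat_lit 12280710883) (nat_lit 168) (nat_lit 877512043) (nat_lit 168) (nat_lit 501075336) (nat_lit 33) (nat_lit 4) (nat_lit 35) (nat_lit 5) (nat_lit 35) (nat_lit 4) (nat_lit 289) (nat_lit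 216) (nat_lit 215))) (XT.nd (nat_lit 94) (nat_lit 168) (nat_lit 0) (XT.lf (nat_lit 0) (nat_lit 6350821484) (nat_lit 168) (nat_lit 1979153870) (nat_lit 0) (nat_lit 5650871145) (nat_lit 31) (nat_lit 5) (nat_lit 33) (nat_lit 4) (nat_lit 31) (nat_lit 4) (nat_lit 290) (nat_lit 216) (nat_lit 214)) (XT.lf (nat_lit 0) (nat_lit 11704724191) (nat_lit 168) (nat_lit 1819344017) (nat_lit 168) (nat_lit 794213497) (nat_lit 29) (nat_lit 4) (nat_lit 31) (nat_lit 5) (nat_lit 31) (nat_lit 4) (nat_lit 291) (nat_lit 216) (nat_lit 213)))) (XT.nd (nat_lit 188) (nat_lit 420) (nat_lit 0) (XT.nd (nat_lit 94) (nat_lit 84) (nat_lit 0) (XT.lf (nat_lit 0) (nat_lit 6245101219) (nat_lit 168) (nat_lit 3445364851) (nat_lit 0) (nat_lit 4973838428) (nat_lit 27) (nat_lit 5) (nat_lit 29) (nat_lit 4) (nat_lit 27) (nat_lit 4) (nat_lit 292) (nat_lit 216) (nat_lit 212)) (XT.lf (nat_lit 0) (nat_lit 10676580757) (nat_lit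 84) (nat_lit 2950837972) (nat_lit 84) (nat_lit 1398672314) (nat_lit 26) (nat_lit 4) (nat_lit 27) (nat_lit 5) (nat_lit 27) (nat_lit 4) (nat_lit 293) (nat_lit 216) (nat_lit 211))) (XT.nd (nat_lit 94) (nat_lit 252) (nat_lit 0) (XT.lf (nat_lit 0) (nat_lit 5840337478) (nat_lit 168) (nat_lit 5450738378) (nat_lit 0) (nat_lit 4107297290) (nat_lit 24) (nat_lit 5) (nat_lit 26) (nat_lit 4) (nat_lit 24) (nat_lit 4) (nat_lit 294) (nat_lit 216) (nat_lit 210)) (XT.nd (nat_lit 94) (nat_lit 168) (nat_lit 0) (XT.lf (nat_lit 0) (nat_lit 9112983077) (nat_lit 84) (nat_lit 4324341452) (nat_lit 84) (nat_lit 2348646806) (nat_lit 23) (nat_lit 4) (nat_lit 24) (nat_lit 5) (nat_lit 24) (nat_lit 4) (nat_lit 295) (nat_lit 216) (nat_lit 209)) (XT.lf (nat_lit 0) (nat_lit 5101481637) (nat_lit 168) (nat_lit 8085249890) (nat_lit 0) (nat_lit 2999772943) (nat_lit 21) (nat_lit 5) (nat_lit 23) (nat_lit 4) (nat_lit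 21) (nat_lit 4) (nat_lit 296) (nat_lit 216) (nat_lit 208))))))) (XT.nd (nat_lit 752) (nat_lit 924) (nat_lit 0) (XT.nd (nat_lit 376) (nat_lit 336) (nat_lit 0) (XT.nd (nat_lit 188) (nat_lit 252) (nat_lit 0) (XT.nd (nat_lit 94) (nat_lit 168) (nat_lit 0) (XT.lf (nat_lit 0) (nat_lit 6922437643) (nat_lit 84) (nat_lit 5995200822) (nat_lit 84) (nat_lit 3683878083) (nat_lit 20) (nat_lit 4) (nat_lit 21) (nat_lit 5) (nat_lit 21) (nat_lit 4) (nat_lit 297) (nat_lit 216) (nat_lit 207)) (XT.lf (nat_lit 0) (nat_lit 3987996600) (nat_lit 168) (nat_lit 11447906539) (nat_lit 0) (nat_lit 1596610732) (nat_lit 18) (nat_lit 5) (nat_lit 20) (nat_lit 4) (nat_lit 18) (nat_lit 4) (nat_lit 298) (nat_lit 216) (nat_lit 206))) (XT.nd (nat_lit 94) (nat_lit 168) (nat_lit 0) (XT.lf (nat_lit 0) (nat_lit 4004141688) (nat_lit 84) (nat_lit 8022504489) (nat_lit 84) (nat_lit 5450046129) (nat_lit 17) (nat_lit 4)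 (nat_lit 18) (nat_lit 5) (nat_lit 18) (nat_lit 4) (nat_lit 299) (nat_lit 216) (nat_lit 205)) (XT.lf (nat_lit 0) (nat_lit 2289964180) (nat_lit 84) (nat_lit 166071201) (nat_lit 168) (nat_lit 15484440064) (nat_lit 15) (nat_lit 5) (nat_lit 16) (nat_lit 5) (nat_lit 17) (nat_lit 4) (nat_lit 300) (nat_lit 216) (nat_lit 204)))) (XT.nd (nat_lit 188) (nat_lit 168) (nat_lit 0) (XT.nd (nat_lit 94) (nat_lit 84) (nat_lit 0) (XT.lf (nat_lit 0) (nat_lit 246781325) (nat_lit 84) (nat_lit 10469848264) (nat_lit 84) (nat_lit 7699232606) (nat_lit 14) (nat_lit 4) (nat_lit 15) (nat_lit 5) (nat_lit 15) (nat_lit 4) (nat_lit 301) (nat_lit 216) (nat_lit 203)) (XT.lf (nat_lit 0) (nat_lit 512798819) (nat_lit 168) (nat_lit 1868346866) (nat_lit 84) (nat_lit 16530862906) (nat_lit 13) (nat_lit 5) (nat_lit 15) (nat_lit 5) (nat_lit 14) (nat_lit 4) (nat_lit 302) (nat_lit 216) (nat_lit 202))) (XT.nd (nat_lit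 94) (nat_lit 84) (nat_lit 0) (XT.lf (nat_lit 0) (nat_lit 9003193212) (nat_lit 168) (nat_lit 4329615427) (nat_lit 0) (nat_lit 6087517515) (nat_lit 12) (nat_lit 5) (nat_lit 14) (nat_lit 4) (nat_lit 12) (nat_lit 4) (nat_lit 303) (nat_lit 216) (nat_lit 201)) (XT.lf (nat_lit 0) (nat_lit 12971585229) (nat_lit 84) (nat_lit 5011785858) (nat_lit 84) (nat_lit 1967425321) (nat_lit 11) (nat_lit 4) (nat_lit 12) (nat_lit 5) (nat_lit 12) (nat_lit 4) (nat_lit 304) (nat_lit 216) (nat_lit 200))))) (XT.nd (nat_lit 376) (nat_lit 420) (nat_lit 0) (XT.nd (nat_lit 188) (nat_lit 252) (nat_lit 0) (XT.nd (nat_lit 94) (nat_lit 84) (nat_lit 0) (XT.lf (nat_lit 0) (nat_lit 6776191170) (nat_lit 168) (nat_lit 9961508668) (nat_lit 0) (nat_lit 3760079239) (nat_lit 9) (nat_lit 5) (nat_lit 11) (nat_lit 4) (nat_lit 9) (nat_lit 4) (nat_lit 305) (nat_lit 216) (nat_lit 199)) (XT.lf (nat_lit 0) (nat_lit 7822929179)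 (nat_lit 84) (nat_lit 8184507724) (nat_lit 84) (nat_lit 5057232991) (nat_lit 8) (nat_lit 4) (nat_lit 9) (nat_lit 5) (nat_lit 9) (nat_lit 4) (nat_lit 306) (nat_lit 216) (nat_lit 198))) (XT.nd (nat_lit 94) (nat_lit 84) (nat_lit 0) (XT.lf (nat_lit 0) (nat_lit 3965064061) (nat_lit 168) (nat_lit 16803105884) (nat_lit 0) (nat_lit 885879233) (nat_lit 6) (nat_lit 5) (nat_lit 8) (nat_lit 4) (nat_lit 6) (nat_lit 4) (nat_lit 307) (nat_lit 216) (nat_lit 197)) (XT.lf (nat_lit 0) (nat_lit 1456938675) (nat_lit 84) (nat_lit 11989075107) (nat_lit 84) (nat_lit 8813863670) (nat_lit 5) (nat_lit 4) (nat_lit 6) (nat_lit 5) (nat_lit 6) (nat_lit 4) (nat_lit 308) (nat_lit 216) (nat_lit 196)))) (XT.nd (nat_lit 188) (nat_lit 252) (nat_lit 0) (XT.nd (nat_lit 94) (nat_lit 84) (nat_lit 0) (XT.lf (nat_lit 0) (nat_lit 570880965) (nat_lit 168) (nat_lit 2096359369) (nat_lit 84) (nat_lit 20224261035) (nat_lit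 4) (nat_lit 5) (nat_lit 6) (nat_lit 5) (nat_lit 5) (nat_lit 4) (nat_lit 309) (nat_lit 216) (nat_lit 195)) (XT.lf (nat_lit 0) (nat_lit 10320547700) (nat_lit 168) (nat_lit 6090853433) (nat_lit 0) (nat_lit 7126486448) (nat_lit 3) (nat_lit 5) (nat_lit 5) (nat_lit 4) (nat_lit 3) (nat_lit 4) (nat_lit 310) (nat_lit 216) (nat_lit 194))) (XT.nd (nat_lit 94) (nat_lit 168) (nat_lit 0) (XT.lf (nat_lit 0) (nat_lit 13827949904) (nat_lit 84) (nat_lit 6828386914) (nat_lit 84) (nat_lit 3555324333) (nat_lit 2) (nat_lit 4) (nat_lit 3) (nat_lit 5) (nat_lit 3) (nat_lit 4) (nat_lit 311) (nat_lit 216) (nat_lit 193)) (XT.nd (nat_lit 94) (nat_lit 0) (nat_lit 0) (XT.lf (nat_lit 0) (nat_lit 36454978218) (nat_lit 0) (nat_lit 0) (nat_lit 0) (nat_lit 0) (nat_lit 0) (nat_lit 0) (nat_lit 1) (nat_lit 0) (nat_lit 1) (nat_lit 0) (nat_lit 312) (nat_lit 216) (nat_lit 192)) (XT.lf (nat_lit 0) (nat_lit 38251003094)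 (nat_lit 0) (nat_lit 0) (nat_lit 0) (nat_lit 0) (nat_lit 0) (nat_lit 0) (nat_lit 1) (nat_lit 0) (nat_lit 1) (nat_lit 0) (nat_lit 313) (nat_lit 216) (nat_lit 191))))))))
noncomputable def xc30 : XT := (XT.nd (nat_lit 1598) (nat_lit 0) (nat_lit 0) (XT.nd (nat_lit 752) (nat_lit 0) (nat_lit 0) (XT.nd (nat_lit 376) (nat_lit 0) (nat_lit 0) (XT.nd (nat_lit 188) (nat_lit 0) (nat_lit 0) (XT.nd (nat_lit 94) (nat_lit 0) (nat_lit 0) (XT.lf (nat_lit 0) (nat_lit 40137309090) (nat_lit 0) (nat_lit 0) (nat_lit 0) (nat_lit 0) (nat_lit 0) (nat_lit 0) (nat_lit 1) (nat_lit 0) (nat_lit 1) (nat_lit 0) (nat_lit 314) (nat_lit 216) (nat_lit 190)) (XT.lf (nat_lit 0) (nat_lit 42118387410) (nat_lit 0) (nat_lit 0) (nat_lit 0) (nat_lit 0) (nat_lit 0) (nat_lit 0) (nat_lit 1) (nat_lit 0) (nat_lit 1) (nat_lit 0) (nat_lit 315) (nat_lit 216) (nat_lit 189))) (XT.nd (nat_lit 94) (nat_lit 0) (nat_lit 0) (XT.lf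 (nat_lit 0) (nat_lit 44198954908) (nat_lit 0) (nat_lit 0) (nat_lit 0) (nat_lit 0) (nat_lit 0) (nat_lit 0) (nat_lit 1) (nat_lit 0) (nat_lit 1) (nat_lit 0) (nat_lit 316) (nat_lit 216) (nat_lit 188)) (XT.lf (nat_lit 0) (nat_lit 46383965315) (nat_lit 0) (nat_lit 0) (nat_lit 0) (nat_lit 0) (nat_lit 0) (nat_lit 0) (nat_lit 1) (nat_lit 0) (nat_lit 1) (nat_lit 0) (nat_lit 317) (nat_lit 216) (nat_lit 187)))) (XT.nd (nat_lit 188) (nat_lit 0) (nat_lit 0) (XT.nd (nat_lit 94) (nat_lit 0) (nat_lit 0) (XT.lf (nat_lit 0) (nat_lit 48678621038) (nat_lit 0) (nat_lit 0) (nat_lit 0) (nat_lit 0) (nat_lit 0) (nat_lit 0) (nat_lit 1) (nat_lit 0) (nat_lit 1) (nat_lit 0) (nat_lit 318) (nat_lit 216) (nat_lit 186)) (XT.lf (nat_lit 0) (nat_lit 51088385542) (nat_lit 0) (nat_lit 0) (nat_lit 0) (nat_lit 0) (nat_lit 0) (nat_lit 0) (nat_lit 1) (nat_lit 0) (nat_lit 1) (nat_lit 0) (nat_lit 319) (nat_lit 216)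 (nat_lit 185))) (XT.nd (nat_lit 94) (nat_lit 0) (nat_lit 0) (XT.lf (nat_lit 0) (nat_lit 53618996362) (nat_lit 0) (nat_lit 0) (nat_lit 0) (nat_lit 0) (nat_lit 0) (nat_lit 0) (nat_lit 1) (nat_lit 0) (nat_lit 1) (nat_lit 0) (nat_lit 320) (nat_lit 216) (nat_lit 184)) (XT.lf (nat_lit 0) (nat_lit 56276478761) (nat_lit 0) (nat_lit 0) (nat_lit 0) (nat_lit 0) (nat_lit 0) (nat_lit 0) (nat_lit 1) (nat_lit 0) (nat_lit 1) (nat_lit 0) (nat_lit 321) (nat_lit 216) (nat_lit 183))))) (XT.nd (nat_lit 376) (nat_lit 0) (nat_lit 0) (XT.nd (nat_lit 188) (nat_lit 0) (nat_lit 0) (XT.nd (nat_lit 94) (nat_lit 0) (nat_lit 0) (XT.lf (nat_lit 0) (nat_lit 59067160079) (nat_lit 0) (nat_lit 0) (nat_lit 0) (nat_lit 0) (nat_lit 0) (nat_lit 0) (nat_lit 1) (nat_lit 0) (nat_lit 1) (nat_lit 0) (nat_lit 322) (nat_lit 216) (nat_lit 182)) (XT.lf (nat_lit 0) (nat_lit 61997684796) (nat_lit 0) (nat_lit 0) (nat_lit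 0) (nat_lit 0) (nat_lit 0) (nat_lit 0) (nat_lit 1) (nat_lit 0) (nat_lit 1) (nat_lit 0) (nat_lit 323) (nat_lit 216) (nat_lit 181))) (XT.nd (nat_lit 94) (nat_lit 0) (nat_lit 0) (XT.lf (nat_lit 0) (nat_lit 65075030350) (nat_lit 0) (nat_lit 0) (nat_lit 0) (nat_lit 0) (nat_lit 0) (nat_lit 0) (nat_lit 1) (nat_lit 0) (nat_lit 1) (nat_lit 0) (nat_lit 324) (nat_lit 216) (nat_lit 180)) (XT.lf (nat_lit 0) (nat_lit 68306523755) (nat_lit 0) (nat_lit 0) (nat_lit 0) (nat_lit 0) (nat_lit 0) (nat_lit 0) (nat_lit 1) (nat_lit 0) (nat_lit 1) (nat_lit 0) (nat_lit 325) (nat_lit 216) (nat_lit 179)))) (XT.nd (nat_lit 188) (nat_lit 0) (nat_lit 0) (XT.nd (nat_lit 94) (nat_lit 0) (nat_lit 0) (XT.lf (nat_lit 0) (nat_lit 71699859044) (nat_lit 0) (nat_lit 0) (nat_lit 0) (nat_lit 0) (nat_lit 0) (nat_lit 0) (nat_lit 1) (nat_lit 0) (nat_lit 1) (nat_lit 0) (nat_lit 326) (nat_lit 216) (nat_lit 178)) (XT.lf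 (nat_lit 0) (nat_lit 75263115585) (nat_lit 0) (nat_lit 0) (nat_lit 0) (nat_lit 0) (nat_lit 0) (nat_lit 0) (nat_lit 1) (nat_lit 0) (nat_lit 1) (nat_lit 0) (nat_lit 327) (nat_lit 216) (nat_lit 177))) (XT.nd (nat_lit 94) (nat_lit 0) (nat_lit 0) (XT.lf (nat_lit 0) (nat_lit 79004777323) (nat_lit 0) (nat_lit 0) (nat_lit 0) (nat_lit 0) (nat_lit 0) (nat_lit 0) (nat_lit 1) (nat_lit 0) (nat_lit 1) (nat_lit 0) (nat_lit 328) (nat_lit 216) (nat_lit 176)) (XT.nd (nat_lit 94) (nat_lit 0) (nat_lit 0) (XT.lf (nat_lit 0) (nat_lit 82933752976) (nat_lit 0) (nat_lit 0) (nat_lit 0) (nat_lit 0) (nat_lit 0) (nat_lit 0) (nat_lit 1) (nat_lit 0) (nat_lit 1) (nat_lit 0) (nat_lit 329) (nat_lit 216) (nat_lit 175)) (XT.lf (nat_lit 0) (nat_lit 87059397249) (nat_lit 0) (nat_lit 0) (nat_lit 0) (nat_lit 0) (nat_lit 0) (nat_lit 0) (nat_lit 1) (nat_lit 0) (nat_lit 1) (nat_lit 0) (nat_lit 330) (nat_lit 216)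 (nat_lit 174))))))) (XT.nd (nat_lit 752) (nat_lit 0) (nat_lit 0) (XT.nd (nat_lit 376) (nat_lit 0) (nat_lit 0) (XT.nd (nat_lit 188) (nat_lit 0) (nat_lit 0) (XT.nd (nat_lit 94) (nat_lit 0) (nat_lit 0) (XT.lf (nat_lit 0) (nat_lit 91391533103) (nat_lit 0) (nat_lit 0) (nat_lit 0) (nat_lit 0) (nat_lit 0) (nat_lit 0) (nat_lit 1) (nat_lit 0) (nat_lit 1) (nat_lit 0) (nat_lit 331) (nat_lit 216) (nat_lit 173)) (XT.lf (nat_lit 0) (nat_lit 95940475149) (nat_lit 0) (nat_lit 0) (nat_lit 0) (nat_lit 0) (nat_lit 0) (nat_lit 0) (nat_lit 1) (nat_lit 0) (nat_lit 1) (nat_lit 0) (nat_lit 332) (nat_lit 216) (nat_lit 172))) (XT.nd (nat_lit 94) (nat_lit 0) (nat_lit 0) (XT.lf (nat_lit 0) (nat_lit 100717054200) (nat_lit 0) (nat_lit 0) (nat_lit 0) (nat_lit 0) (nat_lit 0) (nat_lit 0) (nat_lit 1) (nat_lit 0) (nat_lit 1) (nat_lit 0) (nat_lit 333) (nat_lit 216) (nat_lit 171)) (XT.lf (nat_lit 0) (nat_lit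 105732643063) (nat_lit 0) (nat_lit 0) (nat_lit 0) (nat_lit 0) (nat_lit 0) (nat_lit 0) (nat_lit 1) (nat_lit 0) (nat_lit 1) (nat_lit 0) (nat_lit 334) (nat_lit 216) (nat_lit 170)))) (XT.nd (nat_lit 188) (nat_lit 0) (nat_lit 0) (XT.nd (nat_lit 94) (nat_lit 0) (nat_lit 0) (XT.lf (nat_lit 0) (nat_lit 110999183617) (nat_lit 0) (nat_lit 0) (nat_lit 0) (nat_lit 0) (nat_lit 0) (nat_lit 0) (nat_lit 1) (nat_lit 0) (nat_lit 1) (nat_lit 0) (nat_lit 335) (nat_lit 216) (nat_lit 169)) (XT.lf (nat_lit 0) (nat_lit 116529215245) (nat_lit 0) (nat_lit 0) (nat_lit 0) (nat_lit 0) (nat_lit 0) (nat_lit 0) (nat_lit 1) (nat_lit 0) (nat_lit 1) (nat_lit 0) (nat_lit 336) (nat_lit 216) (nat_lit 168))) (XT.nd (nat_lit 94) (nat_lit 0) (nat_lit 0) (XT.lf (nat_lit 0) (nat_lit 122335904688) (nat_lit 0) (nat_lit 0) (nat_lit 0) (nat_lit 0) (nat_lit 0) (nat_lit 0) (nat_lit 1) (nat_lit 0) (nat_lit 1) (nat_lit 0)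 (nat_lit 337) (nat_lit 216) (nat_lit 167)) (XT.lf (nat_lit 0) (nat_lit 128433077397) (nat_lit 0) (nat_lit 0) (nat_lit 0) (nat_lit 0) (nat_lit 0) (nat_lit 0) (nat_lit 1) (nat_lit 0) (nat_lit 1) (nat_lit 0) (nat_lit 338) (nat_lit 216) (nat_lit 166))))) (XT.nd (nat_lit 376) (nat_lit 0) (nat_lit 0) (XT.nd (nat_lit 188) (nat_lit 0) (nat_lit 0) (XT.nd (nat_lit 94) (nat_lit 0) (nat_lit 0) (XT.lf (nat_lit 0) (nat_lit 134835250450) (nat_lit 0) (nat_lit 0) (nat_lit 0) (nat_lit 0) (nat_lit 0) (nat_lit 0) (nat_lit 1) (nat_lit 0) (nat_lit 1) (nat_lit 0) (nat_lit 339) (nat_lit 216) (nat_lit 165)) (XT.lf (nat_lit 0) (nat_lit 141557667116) (nat_lit 0) (nat_lit 0) (nat_lit 0) (nat_lit 0) (nat_lit 0) (nat_lit 0) (nat_lit 1) (nat_lit 0) (nat_lit 1) (nat_lit 0) (nat_lit 340) (nat_lit 216) (nat_lit 164))) (XT.nd (nat_lit 94) (nat_lit 0) (nat_lit 0) (XT.lf (nat_lit 0) (nat_lit 148616333150) (nat_lit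 0) (nat_lit 0) (nat_lit 0) (nat_lit 0) (nat_lit 0) (nat_lit 0) (nat_lit 1) (nat_lit 0) (nat_lit 1) (nat_lit 0) (nat_lit 341) (nat_lit 216) (nat_lit 163)) (XT.lf (nat_lit 0) (nat_lit 156028054898) (nat_lit 0) (nat_lit 0) (nat_lit 0) (nat_lit 0) (nat_lit 0) (nat_lit 0) (nat_lit 1) (nat_lit 0) (nat_lit 1) (nat_lit 0) (nat_lit 342) (nat_lit 216) (nat_lit 162)))) (XT.nd (nat_lit 39950) (nat_lit 0) (nat_lit 2772) (XT.nd (nat_lit 39856) (nat_lit 0) (nat_lit 3276) (XT.lf (nat_lit 0) (nat_lit 163810479318) (nat_lit 0) (nat_lit 0) (nat_lit 0) (nat_lit 0) (nat_lit 0) (nat_lit 0) (nat_lit 1) (nat_lit 0) (nat_lit 1) (nat_lit 0) (nat_lit 343) (nat_lit 216) (nat_lit 161)) (XT.lf (nat_lit 0) (nat_lit 3150655062) (nat_lit 168) (nat_lit 72853309) (nat_lit 0) (nat_lit 3150655062) (nat_lit 39) (nat_lit 5) (nat_lit 41) (nat_lit 4) (nat_lit 39) (nat_lit 4) (nat_lit 286) (nat_lit 217) (nat_lit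 217))) (XT.nd (nat_lit 94) (nat_lit 336) (nat_lit 0) (XT.lf (nat_lit 0) (nat_lit 12480679409) (nat_lit 168) (nat_lit 490283638) (nat_lit 168) (nat_lit 75262168) (nat_lit 37) (nat_lit 4) (nat_lit 39) (nat_lit 5) (nat_lit 39) (nat_lit 4) (nat_lit 287) (nat_lit 217) (nat_lit 216)) (XT.nd (nat_lit 94) (nat_lit 168) (nat_lit 0) (XT.lf (nat_lit 0) (nat_lit 6471939970) (nat_lit 168) (nat_lit 1178240605) (nat_lit 0) (nat_lit 5700244721) (nat_lit 35) (nat_lit 5) (nat_lit 37) (nat_lit 4) (nat_lit 35) (nat_lit 4) (nat_lit 288) (nat_lit 217) (nat_lit 215)) (XT.lf (nat_lit 0) (nat_lit 11860855482) (nat_lit 168) (nat_lit 1469892916) (nat_lit 168) (nat_lit 339686517) (nat_lit 33) (nat_lit 4) (nat_lit 35) (nat_lit 5) (nat_lit 35) (nat_lit 4) (nat_lit 289) (nat_lit 217) (nat_lit 214))))))))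
noncomputable def xc31 : XT := (XT.nd (nat_lit 1598) (nat_lit 672) (nat_lit 0) (XT.nd (nat_lit 752) (nat_lit 1008) (nat_lit 0) (XT.nd (nat_lit 376) (nat_lit 504) (nat_lit 0) (XT.nd (nat_lit 188) (nat_lit 252) (nat_lit 0) (XT.nd (nat_lit 94) (nat_lit 168) (nat_lit 0) (XT.lf (nat_lit 0) (nat_lit 6380845662) (nat_lit 168) (nat_lit 2638043028) (nat_lit 0) (nat_lit 4979278435) (nat_lit 31) (nat_lit 5) (nat_lit 33) (nat_lit 4) (nat_lit 31) (nat_lit 4) (nat_lit 290) (nat_lit 217) (nat_lit 213)) (XT.lf (nat_lit 0) (nat_lit 10818414951) (nat_lit 168) (nat_lit 2617187264) (nat_lit 168) (nat_lit 905924626) (nat_lit 29) (nat_lit 4) (nat_lit 31) (nat_lit 5) (nat_lit 31) (nat_lit 4) (nat_lit 291) (nat_lit 217) (nat_lit 212))) (XT.nd (nat_lit 94) (nat_lit 84) (nat_lit 0) (XT.lf (nat_lit 0) (nat_lit 6000439084) (nat_lit 168) (nat_lit 4604261801) (nat_lit 0) (nat_lit 4089762277) (nat_lit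 27) (nat_lit 5) (nat_lit 29) (nat_lit 4) (nat_lit 27) (nat_lit 4) (nat_lit 292) (nat_lit 217) (nat_lit 211)) (XT.lf (nat_lit 0) (nat_lit 9273017058) (nat_lit 84) (nat_lit 3983864865) (nat_lit 84) (nat_lit 1805661518) (nat_lit 26) (nat_lit 4) (nat_lit 27) (nat_lit 5) (nat_lit 27) (nat_lit 4) (nat_lit 293) (nat_lit 217) (nat_lit 210)))) (XT.nd (nat_lit 188) (nat_lit 252) (nat_lit 0) (XT.nd (nat_lit 94) (nat_lit 84) (nat_lit 0) (XT.lf (nat_lit 0) (nat_lit 5298107064) (nat_lit 168) (nat_lit 7163476333) (nat_lit 0) (nat_lit 2980973228) (nat_lit 24) (nat_lit 5) (nat_lit 26) (nat_lit 4) (nat_lit 24) (nat_lit 4) (nat_lit 294) (nat_lit 217) (nat_lit 209)) (XT.lf (nat_lit 0) (nat_lit 7136648979) (nat_lit 84) (nat_lit 5624225079) (nat_lit 84) (nat_lit 3075991760) (nat_lit 23) (nat_lit 4) (nat_lit 24) (nat_lit 5) (nat_lit 24) (nat_lit 4) (nat_lit 295) (nat_lit 217) (nat_lit 208))) (XT.nd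 (nat_lit 94) (nat_lit 84) (nat_lit 0) (XT.lf (nat_lit 0) (nat_lit 4235897688) (nat_lit 168) (nat_lit 10410750220) (nat_lit 0) (nat_lit 1599394769) (nat_lit 21) (nat_lit 5) (nat_lit 23) (nat_lit 4) (nat_lit 21) (nat_lit 4) (nat_lit 296) (nat_lit 217) (nat_lit 207)) (XT.lf (nat_lit 0) (nat_lit 4312547569) (nat_lit 84) (nat_lit 7595911158) (nat_lit 84) (nat_lit 4759775816) (nat_lit 20) (nat_lit 4) (nat_lit 21) (nat_lit 5) (nat_lit 21) (nat_lit 4) (nat_lit 297) (nat_lit 217) (nat_lit 206))))) (XT.nd (nat_lit 376) (nat_lit 588) (nat_lit 0) (XT.nd (nat_lit 188) (nat_lit 168) (nat_lit 0) (XT.nd (nat_lit 94) (nat_lit 84) (nat_lit 0) (XT.lf (nat_lit 0) (nat_lit 2656231881) (nat_lit 84) (nat_lit 115716089) (nat_lit 168) (nat_lit 14336853102) (nat_lit 18) (nat_lit 5) (nat_lit 19) (nat_lit 5) (nat_lit 20) (nat_lit 4) (nat_lit 298) (nat_lit 217) (nat_lit 205)) (XT.lf (nat_lit 0) (nat_lit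 694039159) (nat_lit 84) (nat_lit 9960669284) (nat_lit 84) (nat_lit 6906065521) (nat_lit 17) (nat_lit 4) (nat_lit 18) (nat_lit 5) (nat_lit 18) (nat_lit 4) (nat_lit 299) (nat_lit 217) (nat_lit 204))) (XT.nd (nat_lit 94) (nat_lit 84) (nat_lit 0) (XT.lf (nat_lit 0) (nat_lit 908597091) (nat_lit 168) (nat_lit 1356217815) (nat_lit 84) (nat_lit 15767779855) (nat_lit 16) (nat_lit 5) (nat_lit 18) (nat_lit 5) (nat_lit 17) (nat_lit 4) (nat_lit 300) (nat_lit 217) (nat_lit 203)) (XT.lf (nat_lit 0) (nat_lit 9008320462) (nat_lit 168) (nat_lit 3713916584) (nat_lit 0) (nat_lit 5793788006) (nat_lit 15) (nat_lit 5) (nat_lit 17) (nat_lit 4) (nat_lit 15) (nat_lit 4) (nat_lit 301) (nat_lit 217) (nat_lit 202)))) (XT.nd (nat_lit 188) (nat_lit 336) (nat_lit 0) (XT.nd (nat_lit 94) (nat_lit 168) (nat_lit 0) (XT.lf (nat_lit 0) (nat_lit 12770414967) (nat_lit 84) (nat_lit 4803292749) (nat_lit 84) (nat_lit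 1446885257) (nat_lit 14) (nat_lit 4) (nat_lit 15) (nat_lit 5) (nat_lit 15) (nat_lit 4) (nat_lit 302) (nat_lit 217) (nat_lit 201)) (XT.lf (nat_lit 0) (nat_lit 6878483684) (nat_lit 168) (nat_lit 9108902810) (nat_lit 0) (nat_lit 3553220280) (nat_lit 12) (nat_lit 5) (nat_lit 14) (nat_lit 4) (nat_lit 12) (nat_lit 4) (nat_lit 303) (nat_lit 217) (nat_lit 200))) (XT.nd (nat_lit 94) (nat_lit 252) (nat_lit 0) (XT.lf (nat_lit 0) (nat_lit 7835511372) (nat_lit 84) (nat_lit 7846118809) (nat_lit 84) (nat_lit 4398298416) (nat_lit 11) (nat_lit 4) (nat_lit 12) (nat_lit 5) (nat_lit 12) (nat_lit 4) (nat_lit 304) (nat_lit 217) (nat_lit 199)) (XT.nd (nat_lit 94) (nat_lit 84) (nat_lit 0) (XT.lf (nat_lit 0) (nat_lit 4191156693) (nat_lit 168) (nat_lit 15652895014) (nat_lit 0) (nat_lit 796355420) (nat_lit 9) (nat_lit 5) (nat_lit 11) (nat_lit 4) (nat_lit 9) (nat_lit 4) (nat_lit 305) (nat_lit 217)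 (nat_lit 198)) (XT.lf (nat_lit 0) (nat_lit 1744315634) (nat_lit 84) (nat_lit 11486613298) (nat_lit 84) (nat_lit 7985942689) (nat_lit 8) (nat_lit 4) (nat_lit 9) (nat_lit 5) (nat_lit 9) (nat_lit 4) (nat_lit 306) (nat_lit 217) (nat_lit 197))))))) (XT.nd (nat_lit 752) (nat_lit 0) (nat_lit 0) (XT.nd (nat_lit 376) (nat_lit 252) (nat_lit 0) (XT.nd (nat_lit 188) (nat_lit 252) (nat_lit 0) (XT.nd (nat_lit 94) (nat_lit 84) (nat_lit 0) (XT.lf (nat_lit 0) (nat_lit 943345277) (nat_lit 168) (nat_lit 1667640730) (nat_lit 84) (nat_lit 19206888470) (nat_lit 7) (nat_lit 5) (nat_lit 9) (nat_lit 5) (nat_lit 8) (nat_lit 4) (nat_lit 307) (nat_lit 217) (nat_lit 196)) (XT.lf (nat_lit 0) (nat_lit 10237111936) (nat_lit 168) (nat_lit 5480290561) (nat_lit 0) (nat_lit 6715659406) (nat_lit 6) (nat_lit 5) (nat_lit 8) (nat_lit 4) (nat_lit 6) (nat_lit 4) (nat_lit 308) (nat_lit 217) (nat_lit 195))) (XT.nd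 (nat_lit 94) (nat_lit 168) (nat_lit 0) (XT.lf (nat_lit 0) (nat_lit 13496579282) (nat_lit 84) (nat_lit 6593136731) (nat_lit 84) (nat_lit 2984585235) (nat_lit 5) (nat_lit 4) (nat_lit 6) (nat_lit 5) (nat_lit 6) (nat_lit 4) (nat_lit 309) (nat_lit 217) (nat_lit 194)) (XT.lf (nat_lit 0) (nat_lit 6580538488) (nat_lit 168) (nat_lit 14091660828) (nat_lit 0) (nat_lit 3064821449) (nat_lit 3) (nat_lit 5) (nat_lit 5) (nat_lit 4) (nat_lit 3) (nat_lit 4) (nat_lit 310) (nat_lit 217) (nat_lit 193)))) (XT.nd (nat_lit 188) (nat_lit 0) (nat_lit 0) (XT.nd (nat_lit 94) (nat_lit 168) (nat_lit 0) (XT.lf (nat_lit 0) (nat_lit 5372600364) (nat_lit 84) (nat_lit 11320164259) (nat_lit 84) (nat_lit 7729207860) (nat_lit 2) (nat_lit 4) (nat_lit 3) (nat_lit 5) (nat_lit 3) (nat_lit 4) (nat_lit 311) (nat_lit 217) (nat_lit 192)) (XT.lf (nat_lit 0) (nat_lit 36466709062) (nat_lit 0) (nat_lit 0) (nat_lit 0) (nat_lit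 0) (nat_lit 0) (nat_lit 0) (nat_lit 1) (nat_lit 0) (nat_lit 1) (nat_lit 0) (nat_lit 312) (nat_lit 217) (nat_lit 191))) (XT.nd (nat_lit 94) (nat_lit 0) (nat_lit 0) (XT.lf (nat_lit 0) (nat_lit 38262968024) (nat_lit 0) (nat_lit 0) (nat_lit 0) (nat_lit 0) (nat_lit 0) (nat_lit 0) (nat_lit 1) (nat_lit 0) (nat_lit 1) (nat_lit 0) (nat_lit 313) (nat_lit 217) (nat_lit 190)) (XT.lf (nat_lit 0) (nat_lit 40149496959) (nat_lit 0) (nat_lit 0) (nat_lit 0) (nat_lit 0) (nat_lit 0) (nat_lit 0) (nat_lit 1) (nat_lit 0) (nat_lit 1) (nat_lit 0) (nat_lit 314) (nat_lit 217) (nat_lit 189))))) (XT.nd (nat_lit 376) (nat_lit 0) (nat_lit 0) (XT.nd (nat_lit 188) (nat_lit 0) (nat_lit 0) (XT.nd (nat_lit 94) (nat_lit 0) (nat_lit 0) (XT.lf (nat_lit 0) (nat_lit 42130787602) (nat_lit 0) (nat_lit 0) (nat_lit 0) (nat_lit 0) (nat_lit 0) (nat_lit 0) (nat_lit 1) (nat_lit 0) (nat_lit 1) (nat_lit 0) (nat_lit 315)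 (nat_lit 217) (nat_lit 188)) (XT.lf (nat_lit 0) (nat_lit 44211557311) (nat_lit 0) (nat_lit 0) (nat_lit 0) (nat_lit 0) (nat_lit 0) (nat_lit 0) (nat_lit 1) (nat_lit 0) (nat_lit 1) (nat_lit 0) (nat_lit 316) (nat_lit 217) (nat_lit 187))) (XT.nd (nat_lit 94) (nat_lit 0) (nat_lit 0) (XT.lf (nat_lit 0) (nat_lit 46396760302) (nat_lit 0) (nat_lit 0) (nat_lit 0) (nat_lit 0) (nat_lit 0) (nat_lit 0) (nat_lit 1) (nat_lit 0) (nat_lit 1) (nat_lit 0) (nat_lit 317) (nat_lit 217) (nat_lit 186)) (XT.lf (nat_lit 0) (nat_lit 48691599436) (nat_lit 0) (nat_lit 0) (nat_lit 0) (nat_lit 0) (nat_lit 0) (nat_lit 0) (nat_lit 1) (nat_lit 0) (nat_lit 1) (nat_lit 0) (nat_lit 318) (nat_lit 217) (nat_lit 185)))) (XT.nd (nat_lit 188) (nat_lit 0) (nat_lit 0) (XT.nd (nat_lit 94) (nat_lit 0) (nat_lit 0) (XT.lf (nat_lit 0) (nat_lit 51101538619) (nat_lit 0) (nat_lit 0) (nat_lit 0) (nat_lit 0) (nat_lit 0) (nat_lit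 0) (nat_lit 1) (nat_lit 0) (nat_lit 1) (nat_lit 0) (nat_lit 319) (nat_lit 217) (nat_lit 184)) (XT.lf (nat_lit 0) (nat_lit 53632315799) (nat_lit 0) (nat_lit 0) (nat_lit 0) (nat_lit 0) (nat_lit 0) (nat_lit 0) (nat_lit 1) (nat_lit 0) (nat_lit 1) (nat_lit 0) (nat_lit 320) (nat_lit 217) (nat_lit 183))) (XT.nd (nat_lit 94) (nat_lit 0) (nat_lit 0) (XT.lf (nat_lit 0) (nat_lit 56289956637) (nat_lit 0) (nat_lit 0) (nat_lit 0) (nat_lit 0) (nat_lit 0) (nat_lit 0) (nat_lit 1) (nat_lit 0) (nat_lit 1) (nat_lit 0) (nat_lit 321) (nat_lit 217) (nat_lit 182)) (XT.nd (nat_lit 94) (nat_lit 0) (nat_lit 0) (XT.lf (nat_lit 0) (nat_lit 59080788849) (nat_lit 0) (nat_lit 0) (nat_lit 0) (nat_lit 0) (nat_lit 0) (nat_lit 0) (nat_lit 1) (nat_lit 0) (nat_lit 1) (nat_lit 0) (nat_lit 322) (nat_lit 217) (nat_lit 181)) (XT.lf (nat_lit 0) (nat_lit 62011457273) (nat_lit 0) (nat_lit 0) (nat_lit 0) (nat_lit 0)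 (nat_lit 0) (nat_lit 0) (nat_lit 1) (nat_lit 0) (nat_lit 1) (nat_lit 0) (nat_lit 323) (nat_lit 217) (nat_lit 180))))))))
noncomputable def xc32 : XT := (XT.nd (nat_lit 1504) (nat_lit 0) (nat_lit 0) (XT.nd (nat_lit 752) (nat_lit 0) (nat_lit 0) (XT.nd (nat_lit 376) (nat_lit 0) (nat_lit 0) (XT.nd (nat_lit 188) (nat_lit 0) (nat_lit 0) (XT.nd (nat_lit 94) (nat_lit 0) (nat_lit 0) (XT.lf (nat_lit 0) (nat_lit 65088939693) (nat_lit 0) (nat_lit 0) (nat_lit 0) (nat_lit 0) (nat_lit 0) (nat_lit 0) (nat_lit 1) (nat_lit 0) (nat_lit 1) (nat_lit 0) (nat_lit 324) (nat_lit 217) (nat_lit 179)) (XT.lf (nat_lit 0) (nat_lit 68320563446) (nat_lit 0) (nat_lit 0) (nat_lit 0) (nat_lit 0) (nat_lit 0) (nat_lit 0) (nat_lit 1) (nat_lit 0) (nat_lit 1) (nat_lit 0) (nat_lit 325) (nat_lit 217) (nat_lit 178))) (XT.nd (nat_lit 94) (nat_lit 0) (nat_lit 0) (XT.lf (nat_lit 0) (nat_lit 71714022875) (nat_lit 0)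 (nat_lit 0) (nat_lit 0) (nat_lit 0) (nat_lit 0) (nat_lit 0) (nat_lit 1) (nat_lit 0) (nat_lit 1) (nat_lit 0) (nat_lit 326) (nat_lit 217) (nat_lit 177)) (XT.lf (nat_lit 0) (nat_lit 75277397645) (nat_lit 0) (nat_lit 0) (nat_lit 0) (nat_lit 0) (nat_lit 0) (nat_lit 0) (nat_lit 1) (nat_lit 0) (nat_lit 1) (nat_lit 0) (nat_lit 327) (nat_lit 217) (nat_lit 176)))) (XT.nd (nat_lit 188) (nat_lit 0) (nat_lit 0) (XT.nd (nat_lit 94) (nat_lit 0) (nat_lit 0) (XT.lf (nat_lit 0) (nat_lit 79019171982) (nat_lit 0) (nat_lit 0) (nat_lit 0) (nat_lit 0) (nat_lit 0) (nat_lit 0) (nat_lit 1) (nat_lit 0) (nat_lit 1) (nat_lit 0) (nat_lit 328) (nat_lit 217) (nat_lit 175)) (XT.lf (nat_lit 0) (nat_lit 82948254873) (nat_lit 0) (nat_lit 0) (nat_lit 0) (nat_lit 0) (nat_lit 0) (nat_lit 0) (nat_lit 1) (nat_lit 0) (nat_lit 1) (nat_lit 0) (nat_lit 329) (nat_lit 217) (nat_lit 174))) (XT.nd (nat_lit 94) (nat_lit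 0) (nat_lit 0) (XT.lf (nat_lit 0) (nat_lit 87074001276) (nat_lit 0) (nat_lit 0) (nat_lit 0) (nat_lit 0) (nat_lit 0) (nat_lit 0) (nat_lit 1) (nat_lit 0) (nat_lit 1) (nat_lit 0) (nat_lit 330) (nat_lit 217) (nat_lit 173)) (XT.lf (nat_lit 0) (nat_lit 91406234398) (nat_lit 0) (nat_lit 0) (nat_lit 0) (nat_lit 0) (nat_lit 0) (nat_lit 0) (nat_lit 1) (nat_lit 0) (nat_lit 1) (nat_lit 0) (nat_lit 331) (nat_lit 217) (nat_lit 172))))) (XT.nd (nat_lit 376) (nat_lit 0) (nat_lit 0) (XT.nd (nat_lit 188) (nat_lit 0) (nat_lit 0) (XT.nd (nat_lit 94) (nat_lit 0) (nat_lit 0) (XT.lf (nat_lit 0) (nat_lit 95955269080) (nat_lit 0) (nat_lit 0) (nat_lit 0) (nat_lit 0) (nat_lit 0) (nat_lit 0) (nat_lit 1) (nat_lit 0) (nat_lit 1) (nat_lit 0) (nat_lit 332) (nat_lit 217) (nat_lit 171)) (XT.lf (nat_lit 0) (nat_lit 100731936355) (nat_lit 0) (nat_lit 0) (nat_lit 0) (nat_lit 0) (nat_lit 0) (nat_lit 0) (nat_lit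 1) (nat_lit 0) (nat_lit 1) (nat_lit 0) (nat_lit 333) (nat_lit 217) (nat_lit 170))) (XT.nd (nat_lit 94) (nat_lit 0) (nat_lit 0) (XT.lf (nat_lit 0) (nat_lit 105747609242) (nat_lit 0) (nat_lit 0) (nat_lit 0) (nat_lit 0) (nat_lit 0) (nat_lit 0) (nat_lit 1) (nat_lit 0) (nat_lit 1) (nat_lit 0) (nat_lit 334) (nat_lit 217) (nat_lit 169)) (XT.lf (nat_lit 0) (nat_lit 111014229818) (nat_lit 0) (nat_lit 0) (nat_lit 0) (nat_lit 0) (nat_lit 0) (nat_lit 0) (nat_lit 1) (nat_lit 0) (nat_lit 1) (nat_lit 0) (nat_lit 335) (nat_lit 217) (nat_lit 168)))) (XT.nd (nat_lit 188) (nat_lit 0) (nat_lit 0) (XT.nd (nat_lit 94) (nat_lit 0) (nat_lit 0) (XT.lf (nat_lit 0) (nat_lit 116544337657) (nat_lit 0) (nat_lit 0) (nat_lit 0) (nat_lit 0) (nat_lit 0) (nat_lit 0) (nat_lit 1) (nat_lit 0) (nat_lit 1) (nat_lit 0) (nat_lit 336) (nat_lit 217) (nat_lit 167)) (XT.lf (nat_lit 0) (nat_lit 122351099683) (nat_lit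 0) (nat_lit 0) (nat_lit 0) (nat_lit 0) (nat_lit 0) (nat_lit 0) (nat_lit 1) (nat_lit 0) (nat_lit 1) (nat_lit 0) (nat_lit 337) (nat_lit 217) (nat_lit 166))) (XT.nd (nat_lit 94) (nat_lit 0) (nat_lit 0) (XT.lf (nat_lit 0) (nat_lit 128448341518) (nat_lit 0) (nat_lit 0) (nat_lit 0) (nat_lit 0) (nat_lit 0) (nat_lit 0) (nat_lit 1) (nat_lit 0) (nat_lit 1) (nat_lit 0) (nat_lit 338) (nat_lit 217) (nat_lit 165)) (XT.lf (nat_lit 0) (nat_lit 134850580405) (nat_lit 0) (nat_lit 0) (nat_lit 0) (nat_lit 0) (nat_lit 0) (nat_lit 0) (nat_lit 1) (nat_lit 0) (nat_lit 1) (nat_lit 0) (nat_lit 339) (nat_lit 217) (nat_lit 164)))))) (XT.nd (nat_lit 40326) (nat_lit 0) (nat_lit 1764) (XT.nd (nat_lit 39950) (nat_lit 0) (nat_lit 3024) (XT.nd (nat_lit 188) (nat_lit 0) (nat_lit 0) (XT.nd (nat_lit 94) (nat_lit 0) (nat_lit 0) (XT.lf (nat_lit 0) (nat_lit 141573059771) (nat_lit 0) (nat_lit 0) (nat_lit 0) (nat_lit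 0) (nat_lit 0) (nat_lit 0) (nat_lit 1) (nat_lit 0) (nat_lit 1) (nat_lit 0) (nat_lit 340) (nat_lit 217) (nat_lit 163)) (XT.lf (nat_lit 0) (nat_lit 148631785518) (nat_lit 0) (nat_lit 0) (nat_lit 0) (nat_lit 0) (nat_lit 0) (nat_lit 0) (nat_lit 1) (nat_lit 0) (nat_lit 1) (nat_lit 0) (nat_lit 341) (nat_lit 217) (nat_lit 162))) (XT.nd (nat_lit 94) (nat_lit 0) (nat_lit 0) (XT.lf (nat_lit 0) (nat_lit 156043564137) (nat_lit 0) (nat_lit 0) (nat_lit 0) (nat_lit 0) (nat_lit 0) (nat_lit 0) (nat_lit 1) (nat_lit 0) (nat_lit 1) (nat_lit 0) (nat_lit 342) (nat_lit 217) (nat_lit 161)) (XT.lf (nat_lit 0) (nat_lit 163826042719) (nat_lit 0) (nat_lit 0) (nat_lit 0) (nat_lit 0) (nat_lit 0) (nat_lit 0) (nat_lit 1) (nat_lit 0) (nat_lit 1) (nat_lit 0) (nat_lit 343) (nat_lit 217) (nat_lit 160)))) (XT.nd (nat_lit 188) (nat_lit 252) (nat_lit 0) (XT.nd (nat_lit 94) (nat_lit 168) (nat_lit 0) (XT.lf (nat_lit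 0) (nat_lit 371474305) (nat_lit 168) (nat_lit 2860157997) (nat_lit 168) (nat_lit 2860157997) (nat_lit 41) (nat_lit 4) (nat_lit 43) (nat_lit 5) (nat_lit 43) (nat_lit 4) (nat_lit 284) (nat_lit 218) (nat_lit 218)) (XT.lf (nat_lit 0) (nat_lit 288832117) (nat_lit 84) (nat_lit 75262168) (nat_lit 168) (nat_lit 12101566772) (nat_lit 39) (nat_lit 5) (nat_lit 40) (nat_lit 5) (nat_lit 41) (nat_lit 4) (nat_lit 285) (nat_lit 218) (nat_lit 217))) (XT.nd (nat_lit 94) (nat_lit 252) (nat_lit 0) (XT.lf (nat_lit 0) (nat_lit 6630703611) (nat_lit 168) (nat_lit 343032613) (nat_lit 0) (nat_lit 5779909598) (nat_lit 39) (nat_lit 5) (nat_lit 41) (nat_lit 4) (nat_lit 39) (nat_lit 4) (nat_lit 286) (nat_lit 218) (nat_lit 216)) (XT.lf (nat_lit 0) (nat_lit 131558886) (nat_lit 252) (nat_lit 976356837) (nat_lit 84) (nat_lit 11948898708) (nat_lit 36) (nat_lit 5) (nat_lit 39) (nat_lit 5) (nat_lit 37) (nat_lit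 4) (nat_lit 287) (nat_lit 218) (nat_lit 215))))) (XT.nd (nat_lit 376) (nat_lit 672) (nat_lit 0) (XT.nd (nat_lit 188) (nat_lit 336) (nat_lit 0) (XT.nd (nat_lit 94) (nat_lit 168) (nat_lit 0) (XT.lf (nat_lit 0) (nat_lit 6554521932) (nat_lit 168) (nat_lit 1803231275) (nat_lit 0) (nat_lit 5009294064) (nat_lit 35) (nat_lit 5) (nat_lit 37) (nat_lit 4) (nat_lit 35) (nat_lit 4) (nat_lit 288) (nat_lit 218) (nat_lit 214)) (XT.lf (nat_lit 0) (nat_lit 11020145023) (nat_lit 168) (nat_lit 2279628386) (nat_lit 168) (nat_lit 392961328) (nat_lit 33) (nat_lit 4) (nat_lit 35) (nat_lit 5) (nat_lit 35) (nat_lit 4) (nat_lit 289) (nat_lit 218) (nat_lit 213))) (XT.nd (nat_lit 94) (nat_lit 168) (nat_lit 0) (XT.lf (nat_lit 0) (nat_lit 6197833627) (nat_lit 168) (nat_lit 3737934579) (nat_lit 0) (nat_lit 4091312447) (nat_lit 31) (nat_lit 5) (nat_lit 33) (nat_lit 4) (nat_lit 31) (nat_lit 4) (nat_lit 290)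 (nat_lit 218) (nat_lit 212)) (XT.lf (nat_lit 0) (nat_lit 9486313893) (nat_lit 168) (nat_lit 3645809503) (nat_lit 168) (nat_lit 1244340313) (nat_lit 29) (nat_lit 4) (nat_lit 31) (nat_lit 5) (nat_lit 31) (nat_lit 4) (nat_lit 291) (nat_lit 218) (nat_lit 211)))) (XT.nd (nat_lit 188) (nat_lit 420) (nat_lit 0) (XT.nd (nat_lit 94) (nat_lit 84) (nat_lit 0) (XT.lf (nat_lit 0) (nat_lit 5530423571) (nat_lit 168) (nat_lit 6230578685) (nat_lit 0) (nat_lit 2975783517) (nat_lit 27) (nat_lit 5) (nat_lit 29) (nat_lit 4) (nat_lit 27) (nat_lit 4) (nat_lit 292) (nat_lit 218) (nat_lit 210)) (XT.lf (nat_lit 0) (nat_lit 7396404525) (nat_lit 84) (nat_lit 5262152124) (nat_lit 84) (nat_lit 2452724890) (nat_lit 26) (nat_lit 4) (nat_lit 27) (nat_lit 5) (nat_lit 27) (nat_lit 4) (nat_lit 293) (nat_lit 218) (nat_lit 209))) (XT.nd (nat_lit 94) (nat_lit 252) (nat_lit 0) (XT.lf (nat_lit 0) (nat_lit 4516869046)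 (nat_lit 168) (nat_lit 9372550461) (nat_lit 0) (nat_lit 1610124578) (nat_lit 24) (nat_lit 5) (nat_lit 26) (nat_lit 4) (nat_lit 24) (nat_lit 4) (nat_lit 294) (nat_lit 218) (nat_lit 208)) (XT.nd (nat_lit 94) (nat_lit 168) (nat_lit 0) (XT.lf (nat_lit 0) (nat_lit 4657423083) (nat_lit 84) (nat_lit 7185063442) (nat_lit 84) (nat_lit 4058224227) (nat_lit 23) (nat_lit 4) (nat_lit 24) (nat_lit 5) (nat_lit 24) (nat_lit 4) (nat_lit 295) (nat_lit 218) (nat_lit 207)) (XT.lf (nat_lit 0) (nat_lit 3053777908) (nat_lit 84) (nat_lit 63408026) (nat_lit 168) (nat_lit 13201864290) (nat_lit 21) (nat_lit 5) (nat_lit 22) (nat_lit 5) (nat_lit 23) (nat_lit 4) (nat_lit 296) (nat_lit 218) (nat_lit 206))))))))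
noncomputable def xc33 : XT := (XT.nd (nat_lit 1598) (nat_lit 0) (nat_lit 0) (XT.nd (nat_lit 752) (nat_lit 924) (nat_lit 0) (XT.nd (nat_lit 376) (nat_lit 504) (nat_lit 0) (XT.nd (nat_lit 188) (nat_lit 168) (nat_lit 0) (XT.nd (nat_lit 94) (nat_lit 84) (nat_lit 0) (XT.lf (nat_lit 0) (nat_lit 1167047456) (nat_lit 84) (nat_lit 9474648907) (nat_lit 84) (nat_lit 6106948258) (nat_lit 20) (nat_lit 4) (nat_lit 21) (nat_lit 5) (nat_lit 21) (nat_lit 4) (nat_lit 297) (nat_lit 218) (nat_lit 205)) (XT.lf (nat_lit 0) (nat_lit 1328620095) (nat_lit 168) (nat_lit 825101945) (nat_lit 84) (nat_lit 15043504435) (nat_lit 19) (nat_lit 5) (nat_lit 21) (nat_lit 5) (nat_lit 20) (nat_lit 4) (nat_lit 298) (nat_lit 218) (nat_lit 204))) (XT.nd (nat_lit 94) (nat_lit 84) (nat_lit 0) (XT.lf (nat_lit 0) (nat_lit 9057673258) (nat_lit 168) (nat_lit 3085560249) (nat_lit 0) (nat_lit 5513651225) (nat_lit 18)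 (nat_lit 5) (nat_lit 20) (nat_lit 4) (nat_lit 18) (nat_lit 4) (nat_lit 299) (nat_lit 218) (nat_lit 203)) (XT.lf (nat_lit 0) (nat_lit 12621517979) (nat_lit 84) (nat_lit 4607819628) (nat_lit 84) (nat_lit 907380368) (nat_lit 17) (nat_lit 4) (nat_lit 18) (nat_lit 5) (nat_lit 18) (nat_lit 4) (nat_lit 300) (nat_lit 218) (nat_lit 202)))) (XT.nd (nat_lit 188) (nat_lit 252) (nat_lit 0) (XT.nd (nat_lit 94) (nat_lit 84) (nat_lit 0) (XT.lf (nat_lit 0) (nat_lit 7019464375) (nat_lit 168) (nat_lit 8258126779) (nat_lit 0) (nat_lit 3353361473) (nat_lit 15) (nat_lit 5) (nat_lit 17) (nat_lit 4) (nat_lit 15) (nat_lit 4) (nat_lit 301) (nat_lit 218) (nat_lit 201)) (XT.lf (nat_lit 0) (nat_lit 7886967432) (nat_lit 84) (nat_lit 7529106980) (nat_lit 84) (nat_lit 3727884996) (nat_lit 14) (nat_lit 4) (nat_lit 15) (nat_lit 5) (nat_lit 15) (nat_lit 4) (nat_lit 302) (nat_lit 218) (nat_lit 200))) (XT.nd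 (nat_lit 94) (nat_lit 84) (nat_lit 0) (XT.lf (nat_lit 0) (nat_lit 4449010793) (nat_lit 168) (nat_lit 14521574635) (nat_lit 0) (nat_lit 706242390) (nat_lit 12) (nat_lit 5) (nat_lit 14) (nat_lit 4) (nat_lit 12) (nat_lit 4) (nat_lit 303) (nat_lit 218) (nat_lit 199)) (XT.lf (nat_lit 0) (nat_lit 2054575361) (nat_lit 84) (nat_lit 11015094011) (nat_lit 84) (nat_lit 7155604665) (nat_lit 11) (nat_lit 4) (nat_lit 12) (nat_lit 5) (nat_lit 12) (nat_lit 4) (nat_lit 304) (nat_lit 218) (nat_lit 198))))) (XT.nd (nat_lit 376) (nat_lit 504) (nat_lit 0) (XT.nd (nat_lit 188) (nat_lit 252) (nat_lit 0) (XT.nd (nat_lit 94) (nat_lit 84) (nat_lit 0) (XT.lf (nat_lit 0) (nat_lit 1339037227) (nat_lit 168) (nat_lit 1225625833) (nat_lit 84) (nat_lit 18232395184) (nat_lit 10) (nat_lit 5) (nat_lit 12) (nat_lit 5) (nat_lit 11) (nat_lit 4) (nat_lit 305) (nat_lit 218) (nat_lit 197)) (XT.lf (nat_lit 0) (nat_lit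 10199471241) (nat_lit 168) (nat_lit 4865948582) (nat_lit 0) (nat_lit 6317069826) (nat_lit 9) (nat_lit 5) (nat_lit 11) (nat_lit 4) (nat_lit 9) (nat_lit 4) (nat_lit 306) (nat_lit 218) (nat_lit 196))) (XT.nd (nat_lit 94) (nat_lit 168) (nat_lit 0) (XT.lf (nat_lit 0) (nat_lit 13214516289) (nat_lit 84) (nat_lit 6378304825) (nat_lit 84) (nat_lit 2399876801) (nat_lit 8) (nat_lit 4) (nat_lit 9) (nat_lit 5) (nat_lit 9) (nat_lit 4) (nat_lit 307) (nat_lit 218) (nat_lit 195)) (XT.lf (nat_lit 0) (nat_lit 6703570555) (nat_lit 168) (nat_lit 13092052225) (nat_lit 0) (nat_lit 2827492520) (nat_lit 6) (nat_lit 5) (nat_lit 8) (nat_lit 4) (nat_lit 6) (nat_lit 4) (nat_lit 308) (nat_lit 218) (nat_lit 194)))) (XT.nd (nat_lit 188) (nat_lit 252) (nat_lit 0) (XT.nd (nat_lit 94) (nat_lit 168) (nat_lit 0) (XT.lf (nat_lit 0) (nat_lit 5452377952) (nat_lit 84) (nat_lit 10890827295) (nat_lit 84) (nat_lit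 6931797866) (nat_lit 5) (nat_lit 4) (nat_lit 6) (nat_lit 5) (nat_lit 6) (nat_lit 4) (nat_lit 309) (nat_lit 218) (nat_lit 193)) (XT.lf (nat_lit 0) (nat_lit 1062584616) (nat_lit 84) (nat_lit 1425520444) (nat_lit 168) (nat_lit 21466276735) (nat_lit 3) (nat_lit 5) (nat_lit 4) (nat_lit 5) (nat_lit 5) (nat_lit 4) (nat_lit 310) (nat_lit 218) (nat_lit 192))) (XT.nd (nat_lit 94) (nat_lit 252) (nat_lit 0) (XT.lf (nat_lit 0) (nat_lit 12407001784) (nat_lit 168) (nat_lit 3752396530) (nat_lit 0) (nat_lit 8489601670) (nat_lit 3) (nat_lit 5) (nat_lit 5) (nat_lit 4) (nat_lit 3) (nat_lit 4) (nat_lit 311) (nat_lit 218) (nat_lit 191)) (XT.nd (nat_lit 94) (nat_lit 168) (nat_lit 0) (XT.lf (nat_lit 0) (nat_lit 16506951151) (nat_lit 84) (nat_lit 6425749743) (nat_lit 84) (nat_lit 2440105312) (nat_lit 2) (nat_lit 4) (nat_lit 3) (nat_lit 5) (nat_lit 3) (nat_lit 4) (nat_lit 312) (nat_lit 218) (nat_lit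 190)) (XT.lf (nat_lit 0) (nat_lit 38275988225) (nat_lit 0) (nat_lit 0) (nat_lit 0) (nat_lit 0) (nat_lit 0) (nat_lit 0) (nat_lit 1) (nat_lit 0) (nat_lit 1) (nat_lit 0) (nat_lit 313) (nat_lit 218) (nat_lit 189))))))) (XT.nd (nat_lit 752) (nat_lit 0) (nat_lit 0) (XT.nd (nat_lit 376) (nat_lit 0) (nat_lit 0) (XT.nd (nat_lit 188) (nat_lit 0) (nat_lit 0) (XT.nd (nat_lit 94) (nat_lit 0) (nat_lit 0) (XT.lf (nat_lit 0) (nat_lit 40162729482) (nat_lit 0) (nat_lit 0) (nat_lit 0) (nat_lit 0) (nat_lit 0) (nat_lit 0) (nat_lit 1) (nat_lit 0) (nat_lit 1) (nat_lit 0) (nat_lit 314) (nat_lit 218) (nat_lit 188)) (XT.lf (nat_lit 0) (nat_lit 42144222337) (nat_lit 0) (nat_lit 0) (nat_lit 0) (nat_lit 0) (nat_lit 0) (nat_lit 0) (nat_lit 1) (nat_lit 0) (nat_lit 1) (nat_lit 0) (nat_lit 315) (nat_lit 218) (nat_lit 187))) (XT.nd (nat_lit 94) (nat_lit 0) (nat_lit 0) (XT.lf (nat_lit 0) (nat_lit 44225184630)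 (nat_lit 0) (nat_lit 0) (nat_lit 0) (nat_lit 0) (nat_lit 0) (nat_lit 0) (nat_lit 1) (nat_lit 0) (nat_lit 1) (nat_lit 0) (nat_lit 316) (nat_lit 218) (nat_lit 186)) (XT.lf (nat_lit 0) (nat_lit 46410571032) (nat_lit 0) (nat_lit 0) (nat_lit 0) (nat_lit 0) (nat_lit 0) (nat_lit 0) (nat_lit 1) (nat_lit 0) (nat_lit 1) (nat_lit 0) (nat_lit 317) (nat_lit 218) (nat_lit 185)))) (XT.nd (nat_lit 188) (nat_lit 0) (nat_lit 0) (XT.nd (nat_lit 94) (nat_lit 0) (nat_lit 0) (XT.lf (nat_lit 0) (nat_lit 48705584845) (nat_lit 0) (nat_lit 0) (nat_lit 0) (nat_lit 0) (nat_lit 0) (nat_lit 0) (nat_lit 1) (nat_lit 0) (nat_lit 1) (nat_lit 0) (nat_lit 318) (nat_lit 218) (nat_lit 184)) (XT.lf (nat_lit 0) (nat_lit 51115690388) (nat_lit 0) (nat_lit 0) (nat_lit 0) (nat_lit 0) (nat_lit 0) (nat_lit 0) (nat_lit 1) (nat_lit 0) (nat_lit 1) (nat_lit 0) (nat_lit 319) (nat_lit 218) (nat_lit 183))) (XT.nd (nat_lit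 94) (nat_lit 0) (nat_lit 0) (XT.lf (nat_lit 0) (nat_lit 53646626007) (nat_lit 0) (nat_lit 0) (nat_lit 0) (nat_lit 0) (nat_lit 0) (nat_lit 0) (nat_lit 1) (nat_lit 0) (nat_lit 1) (nat_lit 0) (nat_lit 320) (nat_lit 218) (nat_lit 182)) (XT.lf (nat_lit 0) (nat_lit 56304417738) (nat_lit 0) (nat_lit 0) (nat_lit 0) (nat_lit 0) (nat_lit 0) (nat_lit 0) (nat_lit 1) (nat_lit 0) (nat_lit 1) (nat_lit 0) (nat_lit 321) (nat_lit 218) (nat_lit 181))))) (XT.nd (nat_lit 376) (nat_lit 0) (nat_lit 0) (XT.nd (nat_lit 188) (nat_lit 0) (nat_lit 0) (XT.nd (nat_lit 94) (nat_lit 0) (nat_lit 0) (XT.lf (nat_lit 0) (nat_lit 59095393659) (nat_lit 0) (nat_lit 0) (nat_lit 0) (nat_lit 0) (nat_lit 0) (nat_lit 0) (nat_lit 1) (nat_lit 0) (nat_lit 1) (nat_lit 0) (nat_lit 322) (nat_lit 218) (nat_lit 180)) (XT.lf (nat_lit 0) (nat_lit 62026198948) (nat_lit 0) (nat_lit 0) (nat_lit 0) (nat_lit 0) (nat_lit 0) (nat_lit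 0) (nat_lit 1) (nat_lit 0) (nat_lit 1) (nat_lit 0) (nat_lit 323) (nat_lit 218) (nat_lit 179))) (XT.nd (nat_lit 94) (nat_lit 0) (nat_lit 0) (XT.lf (nat_lit 0) (nat_lit 65103811715) (nat_lit 0) (nat_lit 0) (nat_lit 0) (nat_lit 0) (nat_lit 0) (nat_lit 0) (nat_lit 1) (nat_lit 0) (nat_lit 1) (nat_lit 0) (nat_lit 324) (nat_lit 218) (nat_lit 178)) (XT.lf (nat_lit 0) (nat_lit 68335559609) (nat_lit 0) (nat_lit 0) (nat_lit 0) (nat_lit 0) (nat_lit 0) (nat_lit 0) (nat_lit 1) (nat_lit 0) (nat_lit 1) (nat_lit 0) (nat_lit 325) (nat_lit 218) (nat_lit 177)))) (XT.nd (nat_lit 188) (nat_lit 0) (nat_lit 0) (XT.nd (nat_lit 94) (nat_lit 0) (nat_lit 0) (XT.lf (nat_lit 0) (nat_lit 71729137267) (nat_lit 0) (nat_lit 0) (nat_lit 0) (nat_lit 0) (nat_lit 0) (nat_lit 0) (nat_lit 1) (nat_lit 0) (nat_lit 1) (nat_lit 0) (nat_lit 326) (nat_lit 218) (nat_lit 176)) (XT.lf (nat_lit 0) (nat_lit 75292624637)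 (nat_lit 0) (nat_lit 0) (nat_lit 0) (nat_lit 0) (nat_lit 0) (nat_lit 0) (nat_lit 1) (nat_lit 0) (nat_lit 1) (nat_lit 0) (nat_lit 327) (nat_lit 218) (nat_lit 175))) (XT.nd (nat_lit 94) (nat_lit 0) (nat_lit 0) (XT.lf (nat_lit 0) (nat_lit 79034506211) (nat_lit 0) (nat_lit 0) (nat_lit 0) (nat_lit 0) (nat_lit 0) (nat_lit 0) (nat_lit 1) (nat_lit 0) (nat_lit 1) (nat_lit 0) (nat_lit 328) (nat_lit 218) (nat_lit 174)) (XT.nd (nat_lit 94) (nat_lit 0) (nat_lit 0) (XT.lf (nat_lit 0) (nat_lit 82963691233) (nat_lit 0) (nat_lit 0) (nat_lit 0) (nat_lit 0) (nat_lit 0) (nat_lit 0) (nat_lit 1) (nat_lit 0) (nat_lit 1) (nat_lit 0) (nat_lit 329) (nat_lit 218) (nat_lit 173)) (XT.lf (nat_lit 0) (nat_lit 87089534904) (nat_lit 0) (nat_lit 0) (nat_lit 0) (nat_lit 0) (nat_lit 0) (nat_lit 0) (nat_lit 1) (nat_lit 0) (nat_lit 1) (nat_lit 0) (nat_lit 330) (nat_lit 218) (nat_lit 172))))))))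
noncomputable def xc34 : XT := (XT.nd (nat_lit 40984) (nat_lit 0) (nat_lit 1176) (XT.nd (nat_lit 752) (nat_lit 0) (nat_lit 0) (XT.nd (nat_lit 376) (nat_lit 0) (nat_lit 0) (XT.nd (nat_lit 188) (nat_lit 0) (nat_lit 0) (XT.nd (nat_lit 94) (nat_lit 0) (nat_lit 0) (XT.lf (nat_lit 0) (nat_lit 91421860661) (nat_lit 0) (nat_lit 0) (nat_lit 0) (nat_lit 0) (nat_lit 0) (nat_lit 0) (nat_lit 1) (nat_lit 0) (nat_lit 1) (nat_lit 0) (nat_lit 331) (nat_lit 218) (nat_lit 171)) (XT.lf (nat_lit 0) (nat_lit 95970983567) (nat_lit 0) (nat_lit 0) (nat_lit 0) (nat_lit 0) (nat_lit 0) (nat_lit 0) (nat_lit 1) (nat_lit 0) (nat_lit 1) (nat_lit 0) (nat_lit 332) (nat_lit 218) (nat_lit 170))) (XT.nd (nat_lit 94) (nat_lit 0) (nat_lit 0) (XT.lf (nat_lit 0) (nat_lit 100747734866) (nat_lit 0) (nat_lit 0) (nat_lit 0) (nat_lit 0) (nat_lit 0) (nat_lit 0) (nat_lit 1) (nat_lit 0) (nat_lit 1) (nat_lit 0) (nat_lit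 333) (nat_lit 218) (nat_lit 169)) (XT.lf (nat_lit 0) (nat_lit 105763487774) (nat_lit 0) (nat_lit 0) (nat_lit 0) (nat_lit 0) (nat_lit 0) (nat_lit 0) (nat_lit 1) (nat_lit 0) (nat_lit 1) (nat_lit 0) (nat_lit 334) (nat_lit 218) (nat_lit 168)))) (XT.nd (nat_lit 188) (nat_lit 0) (nat_lit 0) (XT.nd (nat_lit 94) (nat_lit 0) (nat_lit 0) (XT.lf (nat_lit 0) (nat_lit 111030184563) (nat_lit 0) (nat_lit 0) (nat_lit 0) (nat_lit 0) (nat_lit 0) (nat_lit 0) (nat_lit 1) (nat_lit 0) (nat_lit 1) (nat_lit 0) (nat_lit 335) (nat_lit 218) (nat_lit 167)) (XT.lf (nat_lit 0) (nat_lit 116560364984) (nat_lit 0) (nat_lit 0) (nat_lit 0) (nat_lit 0) (nat_lit 0) (nat_lit 0) (nat_lit 1) (nat_lit 0) (nat_lit 1) (nat_lit 0) (nat_lit 336) (nat_lit 218) (nat_lit 166))) (XT.nd (nat_lit 94) (nat_lit 0) (nat_lit 0) (XT.lf (nat_lit 0) (nat_lit 122367196136) (nat_lit 0) (nat_lit 0) (nat_lit 0) (nat_lit 0) (nat_lit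 0) (nat_lit 0) (nat_lit 1) (nat_lit 0) (nat_lit 1) (nat_lit 0) (nat_lit 337) (nat_lit 218) (nat_lit 165)) (XT.lf (nat_lit 0) (nat_lit 128464503805) (nat_lit 0) (nat_lit 0) (nat_lit 0) (nat_lit 0) (nat_lit 0) (nat_lit 0) (nat_lit 1) (nat_lit 0) (nat_lit 1) (nat_lit 0) (nat_lit 338) (nat_lit 218) (nat_lit 164))))) (XT.nd (nat_lit 376) (nat_lit 0) (nat_lit 0) (XT.nd (nat_lit 188) (nat_lit 0) (nat_lit 0) (XT.nd (nat_lit 94) (nat_lit 0) (nat_lit 0) (XT.lf (nat_lit 0) (nat_lit 134866805392) (nat_lit 0) (nat_lit 0) (nat_lit 0) (nat_lit 0) (nat_lit 0) (nat_lit 0) (nat_lit 1) (nat_lit 0) (nat_lit 1) (nat_lit 0) (nat_lit 339) (nat_lit 218) (nat_lit 163)) (XT.lf (nat_lit 0) (nat_lit 141589344472) (nat_lit 0) (nat_lit 0) (nat_lit 0) (nat_lit 0) (nat_lit 0) (nat_lit 0) (nat_lit 1) (nat_lit 0) (nat_lit 1) (nat_lit 0) (nat_lit 340) (nat_lit 218) (nat_lit 162))) (XT.nd (nat_lit 94) (nat_lit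 0) (nat_lit 0) (XT.lf (nat_lit 0) (nat_lit 148648127089) (nat_lit 0) (nat_lit 0) (nat_lit 0) (nat_lit 0) (nat_lit 0) (nat_lit 0) (nat_lit 1) (nat_lit 0) (nat_lit 1) (nat_lit 0) (nat_lit 341) (nat_lit 218) (nat_lit 161)) (XT.lf (nat_lit 0) (nat_lit 156059959870) (nat_lit 0) (nat_lit 0) (nat_lit 0) (nat_lit 0) (nat_lit 0) (nat_lit 0) (nat_lit 1) (nat_lit 0) (nat_lit 1) (nat_lit 0) (nat_lit 342) (nat_lit 218) (nat_lit 160)))) (XT.nd (nat_lit 39574) (nat_lit 0) (nat_lit 3360) (XT.nd (nat_lit 39480) (nat_lit 0) (nat_lit 3780) (XT.lf (nat_lit 0) (nat_lit 163842490035) (nat_lit 0) (nat_lit 0) (nat_lit 0) (nat_lit 0) (nat_lit 0) (nat_lit 0) (nat_lit 1) (nat_lit 0) (nat_lit 1) (nat_lit 0) (nat_lit 343) (nat_lit 218) (nat_lit 159)) (XT.lf (nat_lit 0) (nat_lit 842360752) (nat_lit 168) (nat_lit 2491304902) (nat_lit 168) (nat_lit 2491304902) (nat_lit 45) (nat_lit 4) (nat_lit 47) (nat_lit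 5) (nat_lit 47) (nat_lit 4) (nat_lit 282) (nat_lit 219) (nat_lit 219))) (XT.nd (nat_lit 94) (nat_lit 252) (nat_lit 0) (XT.lf (nat_lit 0) (nat_lit 840024036) (nat_lit 168) (nat_lit 10716474576) (nat_lit 0) (nat_lit 359584807) (nat_lit 43) (nat_lit 5) (nat_lit 45) (nat_lit 4) (nat_lit 43) (nat_lit 4) (nat_lit 283) (nat_lit 219) (nat_lit 218)) (XT.nd (nat_lit 94) (nat_lit 84) (nat_lit 0) (XT.lf (nat_lit 0) (nat_lit 549860418) (nat_lit 168) (nat_lit 6288494025) (nat_lit 168) (nat_lit 5350493627) (nat_lit 41) (nat_lit 4) (nat_lit 43) (nat_lit 5) (nat_lit 43) (nat_lit 4) (nat_lit 284) (nat_lit 219) (nat_lit 217)) (XT.lf (nat_lit 0) (nat_lit 615592998) (nat_lit 252) (nat_lit 111807294) (nat_lit 84) (nat_lit 11748563889) (nat_lit 40) (nat_lit 5) (nat_lit 43) (nat_lit 5) (nat_lit 41) (nat_lit 4) (nat_lit 285) (nat_lit 219) (nat_lit 216))))))) (XT.nd (nat_lit 752) (nat_lit 1008) (nat_lit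 0) (XT.nd (nat_lit 376) (nat_lit 588) (nat_lit 0) (XT.nd (nat_lit 188) (nat_lit 252) (nat_lit 0) (XT.nd (nat_lit 94) (nat_lit 252) (nat_lit 0) (XT.lf (nat_lit 0) (nat_lit 6768874324) (nat_lit 168) (nat_lit 935480421) (nat_lit 0) (nat_lit 5065260600) (nat_lit 39) (nat_lit 5) (nat_lit 41) (nat_lit 4) (nat_lit 39) (nat_lit 4) (nat_lit 286) (nat_lit 219) (nat_lit 215)) (XT.lf (nat_lit 0) (nat_lit 139131782) (nat_lit 252) (nat_lit 1794830276) (nat_lit 84) (nat_lit 11144262355) (nat_lit 36) (nat_lit 5) (nat_lit 39) (nat_lit 5) (nat_lit 37) (nat_lit 4) (nat_lit 287) (nat_lit 219) (nat_lit 214))) (XT.nd (nat_lit 94) (nat_lit 168) (nat_lit 0) (XT.lf (nat_lit 0) (nat_lit 6435349229) (nat_lit 168) (nat_lit 2846535676) (nat_lit 0) (nat_lit 4112909628) (nat_lit 35) (nat_lit 5) (nat_lit 37) (nat_lit 4) (nat_lit 35) (nat_lit 4) (nat_lit 288) (nat_lit 219) (nat_lit 213)) (XT.lf (nat_lit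 0) (nat_lit 9756577816) (nat_lit 168) (nat_lit 3308646396) (nat_lit 168) (nat_lit 661026614) (nat_lit 33) (nat_lit 4) (nat_lit 35) (nat_lit 5) (nat_lit 35) (nat_lit 4) (nat_lit 289) (nat_lit 219) (nat_lit 212)))) (XT.nd (nat_lit 188) (nat_lit 252) (nat_lit 0) (XT.nd (nat_lit 94) (nat_lit 168) (nat_lit 0) (XT.lf (nat_lit 0) (nat_lit 5801349636) (nat_lit 168) (nat_lit 5281447313) (nat_lit 0) (nat_lit 2984858977) (nat_lit 31) (nat_lit 5) (nat_lit 33) (nat_lit 4) (nat_lit 31) (nat_lit 4) (nat_lit 290) (nat_lit 219) (nat_lit 211)) (XT.lf (nat_lit 0) (nat_lit 7705249348) (nat_lit 168) (nat_lit 4907659835) (nat_lit 168) (nat_lit 1810266310) (nat_lit 29) (nat_lit 4) (nat_lit 31) (nat_lit 5) (nat_lit 31) (nat_lit 4) (nat_lit 291) (nat_lit 219) (nat_lit 210))) (XT.nd (nat_lit 94) (nat_lit 84) (nat_lit 0) (XT.lf (nat_lit 0) (nat_lit 4833935595) (nat_lit 168) (nat_lit 8328187686) (nat_lit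 0) (nat_lit 1629249818) (nat_lit 27) (nat_lit 5) (nat_lit 29) (nat_lit 4) (nat_lit 27) (nat_lit 4) (nat_lit 292) (nat_lit 219) (nat_lit 209)) (XT.lf (nat_lit 0) (nat_lit 5042275034) (nat_lit 84) (nat_lit 6788743292) (nat_lit 84) (nat_lit 3341403057) (nat_lit 26) (nat_lit 4) (nat_lit 27) (nat_lit 5) (nat_lit 27) (nat_lit 4) (nat_lit 293) (nat_lit 219) (nat_lit 208))))) (XT.nd (nat_lit 376) (nat_lit 588) (nat_lit 0) (XT.nd (nat_lit 188) (nat_lit 168) (nat_lit 0) (XT.nd (nat_lit 94) (nat_lit 84) (nat_lit 0) (XT.lf (nat_lit 0) (nat_lit 3486106581) (nat_lit 84) (nat_lit 8794052) (nat_lit 168) (nat_lit 12074563707) (nat_lit 24) (nat_lit 5) (nat_lit 25) (nat_lit 5) (nat_lit 26) (nat_lit 4) (nat_lit 294) (nat_lit 219) (nat_lit 207)) (XT.lf (nat_lit 0) (nat_lit 1669402472) (nat_lit 84) (nat_lit 9010572821) (nat_lit 84) (nat_lit 5297682856) (nat_lit 23) (nat_lit 4) (nat_lit 24) (nat_lit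 5) (nat_lit 24) (nat_lit 4) (nat_lit 295) (nat_lit 219) (nat_lit 206))) (XT.nd (nat_lit 94) (nat_lit 84) (nat_lit 0) (XT.lf (nat_lit 0) (nat_lit 1776129181) (nat_lit 168) (nat_lit 271457566) (nat_lit 84) (nat_lit 14356441872) (nat_lit 22) (nat_lit 5) (nat_lit 24) (nat_lit 5) (nat_lit 23) (nat_lit 4) (nat_lit 296) (nat_lit 219) (nat_lit 205)) (XT.lf (nat_lit 0) (nat_lit 9153703765) (nat_lit 168) (nat_lit 2440846570) (nat_lit 0) (nat_lit 5246419474) (nat_lit 21) (nat_lit 5) (nat_lit 23) (nat_lit 4) (nat_lit 21) (nat_lit 4) (nat_lit 297) (nat_lit 219) (nat_lit 204)))) (XT.nd (nat_lit 188) (nat_lit 336) (nat_lit 0) (XT.nd (nat_lit 94) (nat_lit 168) (nat_lit 0) (XT.lf (nat_lit 0) (nat_lit 12526781169) (nat_lit 84) (nat_lit 4425063399) (nat_lit 84) (nat_lit 345329115) (nat_lit 20) (nat_lit 4) (nat_lit 21) (nat_lit 5) (nat_lit 21) (nat_lit 4) (nat_lit 298) (nat_lit 219) (nat_lit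 203)) (XT.lf (nat_lit 0) (nat_lit 7201755772) (nat_lit 168) (nat_lit 7405119471) (nat_lit 0) (nat_lit 3159877322) (nat_lit 18) (nat_lit 5) (nat_lit 20) (nat_lit 4) (nat_lit 18) (nat_lit 4) (nat_lit 299) (nat_lit 219) (nat_lit 202))) (XT.nd (nat_lit 94) (nat_lit 252) (nat_lit 0) (XT.lf (nat_lit 0) (nat_lit 7979492208) (nat_lit 84) (nat_lit 7232993772) (nat_lit 84) (nat_lit 3042146535) (nat_lit 17) (nat_lit 4) (nat_lit 18) (nat_lit 5) (nat_lit 18) (nat_lit 4) (nat_lit 300) (nat_lit 219) (nat_lit 201)) (XT.nd (nat_lit 94) (nat_lit 84) (nat_lit 0) (XT.lf (nat_lit 0) (nat_lit 4741473008) (nat_lit 168) (nat_lit 13404567352) (nat_lit 0) (nat_lit 615070844) (nat_lit 15) (nat_lit 5) (nat_lit 17) (nat_lit 4) (nat_lit 15) (nat_lit 4) (nat_lit 301) (nat_lit 219) (nat_lit 200)) (XT.lf (nat_lit 0) (nat_lit 2390376360) (nat_lit 84) (nat_lit 10573762909) (nat_lit 84) (nat_lit 6318675905)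 (nat_lit 14) (nat_lit 4) (nat_lit 15) (nat_lit 5) (nat_lit 15) (nat_lit 4) (nat_lit 302) (nat_lit 219) (nat_lit 199))))))))
noncomputable def xc35 : XT := (XT.nd (nat_lit 1598) (nat_lit 0) (nat_lit 0) (XT.nd (nat_lit 752) (nat_lit 420) (nat_lit 0) (XT.nd (nat_lit 376) (nat_lit 336) (nat_lit 0) (XT.nd (nat_lit 188) (nat_lit 252) (nat_lit 0) (XT.nd (nat_lit 94) (nat_lit 84) (nat_lit 0) (XT.lf (nat_lit 0) (nat_lit 1761049551) (nat_lit 168) (nat_lit 767492414) (nat_lit 84) (nat_lit 17298168687) (nat_lit 13) (nat_lit 5) (nat_lit 15) (nat_lit 5) (nat_lit 14) (nat_lit 4) (nat_lit 303) (nat_lit 219) (nat_lit 198)) (XT.lf (nat_lit 0) (nat_lit 10209731643) (nat_lit 168) (nat_lit 4244639967) (nat_lit 0) (nat_lit 5929384084) (nat_lit 12) (nat_lit 5) (nat_lit 14) (nat_lit 4) (nat_lit 12) (nat_lit 4) (nat_lit 304) (nat_lit 219) (nat_lit 197))) (XT.nd (nat_lit 94) (nat_lit 168) (nat_lit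 0) (XT.lf (nat_lit 0) (nat_lit 12982849572) (nat_lit 84) (nat_lit 6183863525) (nat_lit 84) (nat_lit 1797646629) (nat_lit 11) (nat_lit 4) (nat_lit 12) (nat_lit 5) (nat_lit 12) (nat_lit 4) (nat_lit 305) (nat_lit 219) (nat_lit 196)) (XT.lf (nat_lit 0) (nat_lit 6865474034) (nat_lit 168) (nat_lit 12106364875) (nat_lit 0) (nat_lit 2592098000) (nat_lit 9) (nat_lit 5) (nat_lit 11) (nat_lit 4) (nat_lit 9) (nat_lit 4) (nat_lit 306) (nat_lit 219) (nat_lit 195)))) (XT.nd (nat_lit 188) (nat_lit 84) (nat_lit 0) (XT.nd (nat_lit 94) (nat_lit 168) (nat_lit 0) (XT.lf (nat_lit 0) (nat_lit 5562757216) (nat_lit 84) (nat_lit 10493181093) (nat_lit 84) (nat_lit 6128351146) (nat_lit 8) (nat_lit 4) (nat_lit 9) (nat_lit 5) (nat_lit 9) (nat_lit 4) (nat_lit 307) (nat_lit 219) (nat_lit 194)) (XT.lf (nat_lit 0) (nat_lit 1364381834) (nat_lit 84) (nat_lit 1472842919) (nat_lit 168) (nat_lit 19993252980)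 (nat_lit 6) (nat_lit 5) (nat_lit 7) (nat_lit 5) (nat_lit 8) (nat_lit 4) (nat_lit 308) (nat_lit 219) (nat_lit 193))) (XT.nd (nat_lit 94) (nat_lit 84) (nat_lit 0) (XT.lf (nat_lit 0) (nat_lit 12285521287) (nat_lit 168) (nat_lit 3239823506) (nat_lit 0) (nat_lit 7966587661) (nat_lit 6) (nat_lit 5) (nat_lit 8) (nat_lit 4) (nat_lit 6) (nat_lit 4) (nat_lit 309) (nat_lit 219) (nat_lit 192)) (XT.lf (nat_lit 0) (nat_lit 16062363158) (nat_lit 84) (nat_lit 6256323519) (nat_lit 84) (nat_lit 1862150533) (nat_lit 5) (nat_lit 4) (nat_lit 6) (nat_lit 5) (nat_lit 6) (nat_lit 4) (nat_lit 310) (nat_lit 219) (nat_lit 191))))) (XT.nd (nat_lit 376) (nat_lit 0) (nat_lit 0) (XT.nd (nat_lit 188) (nat_lit 168) (nat_lit 0) (XT.nd (nat_lit 94) (nat_lit 84) (nat_lit 0) (XT.lf (nat_lit 0) (nat_lit 7824794813) (nat_lit 168) (nat_lit 13495068005) (nat_lit 0) (nat_lit 3571623842) (nat_lit 3) (nat_lit 5) (nat_lit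 5) (nat_lit 4) (nat_lit 3) (nat_lit 4) (nat_lit 311) (nat_lit 219) (nat_lit 190)) (XT.lf (nat_lit 0) (nat_lit 6278014402) (nat_lit 84) (nat_lit 11833691715) (nat_lit 84) (nat_lit 7515526155) (nat_lit 2) (nat_lit 4) (nat_lit 3) (nat_lit 5) (nat_lit 3) (nat_lit 4) (nat_lit 312) (nat_lit 219) (nat_lit 189))) (XT.nd (nat_lit 94) (nat_lit 0) (nat_lit 0) (XT.lf (nat_lit 0) (nat_lit 38290094697) (nat_lit 0) (nat_lit 0) (nat_lit 0) (nat_lit 0) (nat_lit 0) (nat_lit 0) (nat_lit 1) (nat_lit 0) (nat_lit 1) (nat_lit 0) (nat_lit 313) (nat_lit 219) (nat_lit 188)) (XT.lf (nat_lit 0) (nat_lit 40177038166) (nat_lit 0) (nat_lit 0) (nat_lit 0) (nat_lit 0) (nat_lit 0) (nat_lit 0) (nat_lit 1) (nat_lit 0) (nat_lit 1) (nat_lit 0) (nat_lit 314) (nat_lit 219) (nat_lit 187)))) (XT.nd (nat_lit 188) (nat_lit 0) (nat_lit 0) (XT.nd (nat_lit 94) (nat_lit 0) (nat_lit 0) (XT.lf (nat_lit 0) (nat_lit 42158723604)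 (nat_lit 0) (nat_lit 0) (nat_lit 0) (nat_lit 0) (nat_lit 0) (nat_lit 0) (nat_lit 1) (nat_lit 0) (nat_lit 1) (nat_lit 0) (nat_lit 315) (nat_lit 219) (nat_lit 186)) (XT.lf (nat_lit 0) (nat_lit 44239869309) (nat_lit 0) (nat_lit 0) (nat_lit 0) (nat_lit 0) (nat_lit 0) (nat_lit 0) (nat_lit 1) (nat_lit 0) (nat_lit 1) (nat_lit 0) (nat_lit 316) (nat_lit 219) (nat_lit 185))) (XT.nd (nat_lit 94) (nat_lit 0) (nat_lit 0) (XT.lf (nat_lit 0) (nat_lit 46425430390) (nat_lit 0) (nat_lit 0) (nat_lit 0) (nat_lit 0) (nat_lit 0) (nat_lit 0) (nat_lit 1) (nat_lit 0) (nat_lit 1) (nat_lit 0) (nat_lit 317) (nat_lit 219) (nat_lit 184)) (XT.nd (nat_lit 94) (nat_lit 0) (nat_lit 0) (XT.lf (nat_lit 0) (nat_lit 48720610564) (nat_lit 0) (nat_lit 0) (nat_lit 0) (nat_lit 0) (nat_lit 0) (nat_lit 0) (nat_lit 1) (nat_lit 0) (nat_lit 1) (nat_lit 0) (nat_lit 318) (nat_lit 219) (nat_lit 183)) (XT.lf (nat_lit 0)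 (nat_lit 51130874545) (nat_lit 0) (nat_lit 0) (nat_lit 0) (nat_lit 0) (nat_lit 0) (nat_lit 0) (nat_lit 1) (nat_lit 0) (nat_lit 1) (nat_lit 0) (nat_lit 319) (nat_lit 219) (nat_lit 182))))))) (XT.nd (nat_lit 752) (nat_lit 0) (nat_lit 0) (XT.nd (nat_lit 376) (nat_lit 0) (nat_lit 0) (XT.nd (nat_lit 188) (nat_lit 0) (nat_lit 0) (XT.nd (nat_lit 94) (nat_lit 0) (nat_lit 0) (XT.lf (nat_lit 0) (nat_lit 53661961057) (nat_lit 0) (nat_lit 0) (nat_lit 0) (nat_lit 0) (nat_lit 0) (nat_lit 0) (nat_lit 1) (nat_lit 0) (nat_lit 1) (nat_lit 0) (nat_lit 320) (nat_lit 219) (nat_lit 181)) (XT.lf (nat_lit 0) (nat_lit 56319896497) (nat_lit 0) (nat_lit 0) (nat_lit 0) (nat_lit 0) (nat_lit 0) (nat_lit 0) (nat_lit 1) (nat_lit 0) (nat_lit 1) (nat_lit 0) (nat_lit 321) (nat_lit 219) (nat_lit 180))) (XT.nd (nat_lit 94) (nat_lit 0) (nat_lit 0) (XT.lf (nat_lit 0) (nat_lit 59111009282) (nat_lit 0) (nat_lit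 0) (nat_lit 0) (nat_lit 0) (nat_lit 0) (nat_lit 0) (nat_lit 1) (nat_lit 0) (nat_lit 1) (nat_lit 0) (nat_lit 322) (nat_lit 219) (nat_lit 179)) (XT.lf (nat_lit 0) (nat_lit 62041944920) (nat_lit 0) (nat_lit 0) (nat_lit 0) (nat_lit 0) (nat_lit 0) (nat_lit 0) (nat_lit 1) (nat_lit 0) (nat_lit 1) (nat_lit 0) (nat_lit 323) (nat_lit 219) (nat_lit 178)))) (XT.nd (nat_lit 188) (nat_lit 0) (nat_lit 0) (XT.nd (nat_lit 94) (nat_lit 0) (nat_lit 0) (XT.lf (nat_lit 0) (nat_lit 65119681827) (nat_lit 0) (nat_lit 0) (nat_lit 0) (nat_lit 0) (nat_lit 0) (nat_lit 0) (nat_lit 1) (nat_lit 0) (nat_lit 1) (nat_lit 0) (nat_lit 324) (nat_lit 219) (nat_lit 177)) (XT.lf (nat_lit 0) (nat_lit 68351547950) (nat_lit 0) (nat_lit 0) (nat_lit 0) (nat_lit 0) (nat_lit 0) (nat_lit 0) (nat_lit 1) (nat_lit 0) (nat_lit 1) (nat_lit 0) (nat_lit 325) (nat_lit 219) (nat_lit 176))) (XT.nd (nat_lit 94) (nat_lit 0) (nat_lit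 0) (XT.lf (nat_lit 0) (nat_lit 71745238208) (nat_lit 0) (nat_lit 0) (nat_lit 0) (nat_lit 0) (nat_lit 0) (nat_lit 0) (nat_lit 1) (nat_lit 0) (nat_lit 1) (nat_lit 0) (nat_lit 326) (nat_lit 219) (nat_lit 175)) (XT.lf (nat_lit 0) (nat_lit 75308832815) (nat_lit 0) (nat_lit 0) (nat_lit 0) (nat_lit 0) (nat_lit 0) (nat_lit 0) (nat_lit 1) (nat_lit 0) (nat_lit 1) (nat_lit 0) (nat_lit 327) (nat_lit 219) (nat_lit 174))))) (XT.nd (nat_lit 376) (nat_lit 0) (nat_lit 0) (XT.nd (nat_lit 188) (nat_lit 0) (nat_lit 0) (XT.nd (nat_lit 94) (nat_lit 0) (nat_lit 0) (XT.lf (nat_lit 0) (nat_lit 79050816520) (nat_lit 0) (nat_lit 0) (nat_lit 0) (nat_lit 0) (nat_lit 0) (nat_lit 0) (nat_lit 1) (nat_lit 0) (nat_lit 1) (nat_lit 0) (nat_lit 328) (nat_lit 219) (nat_lit 173)) (XT.lf (nat_lit 0) (nat_lit 82980098809) (nat_lit 0) (nat_lit 0) (nat_lit 0) (nat_lit 0) (nat_lit 0) (nat_lit 0) (nat_lit 1) (nat_lit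 0) (nat_lit 1) (nat_lit 0) (nat_lit 329) (nat_lit 219) (nat_lit 172))) (XT.nd (nat_lit 94) (nat_lit 0) (nat_lit 0) (XT.lf (nat_lit 0) (nat_lit 87106035116) (nat_lit 0) (nat_lit 0) (nat_lit 0) (nat_lit 0) (nat_lit 0) (nat_lit 0) (nat_lit 1) (nat_lit 0) (nat_lit 1) (nat_lit 0) (nat_lit 330) (nat_lit 219) (nat_lit 171)) (XT.lf (nat_lit 0) (nat_lit 91438449098) (nat_lit 0) (nat_lit 0) (nat_lit 0) (nat_lit 0) (nat_lit 0) (nat_lit 0) (nat_lit 1) (nat_lit 0) (nat_lit 1) (nat_lit 0) (nat_lit 331) (nat_lit 219) (nat_lit 170)))) (XT.nd (nat_lit 188) (nat_lit 0) (nat_lit 0) (XT.nd (nat_lit 94) (nat_lit 0) (nat_lit 0) (XT.lf (nat_lit 0) (nat_lit 95987656027) (nat_lit 0) (nat_lit 0) (nat_lit 0) (nat_lit 0) (nat_lit 0) (nat_lit 0) (nat_lit 1) (nat_lit 0) (nat_lit 1) (nat_lit 0) (nat_lit 332) (nat_lit 219) (nat_lit 169)) (XT.lf (nat_lit 0) (nat_lit 100764487347) (nat_lit 0) (nat_lit 0)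 (nat_lit 0) (nat_lit 0) (nat_lit 0) (nat_lit 0) (nat_lit 1) (nat_lit 0) (nat_lit 1) (nat_lit 0) (nat_lit 333) (nat_lit 219) (nat_lit 168))) (XT.nd (nat_lit 94) (nat_lit 0) (nat_lit 0) (XT.lf (nat_lit 0) (nat_lit 105780316468) (nat_lit 0) (nat_lit 0) (nat_lit 0) (nat_lit 0) (nat_lit 0) (nat_lit 0) (nat_lit 1) (nat_lit 0) (nat_lit 1) (nat_lit 0) (nat_lit 334) (nat_lit 219) (nat_lit 167)) (XT.nd (nat_lit 94) (nat_lit 0) (nat_lit 0) (XT.lf (nat_lit 0) (nat_lit 111047085838) (nat_lit 0) (nat_lit 0) (nat_lit 0) (nat_lit 0) (nat_lit 0) (nat_lit 0) (nat_lit 1) (nat_lit 0) (nat_lit 1) (nat_lit 0) (nat_lit 335) (nat_lit 219) (nat_lit 166)) (XT.lf (nat_lit 0) (nat_lit 116577335386) (nat_lit 0) (nat_lit 0) (nat_lit 0) (nat_lit 0) (nat_lit 0) (nat_lit 0) (nat_lit 1) (nat_lit 0) (nat_lit 1) (nat_lit 0) (nat_lit 336) (nat_lit 219) (nat_lit 165))))))))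
noncomputable def xc36 : XT := (XT.nd (nat_lit 40796) (nat_lit 0) (nat_lit 756) (XT.nd (nat_lit 40044) (nat_lit 0) (nat_lit 2772) (XT.nd (nat_lit 376) (nat_lit 0) (nat_lit 0) (XT.nd (nat_lit 188) (nat_lit 0) (nat_lit 0) (XT.nd (nat_lit 94) (nat_lit 0) (nat_lit 0) (XT.lf (nat_lit 0) (nat_lit 122384232372) (nat_lit 0) (nat_lit 0) (nat_lit 0) (nat_lit 0) (nat_lit 0) (nat_lit 0) (nat_lit 1) (nat_lit 0) (nat_lit 1) (nat_lit 0) (nat_lit 337) (nat_lit 219) (nat_lit 164)) (XT.lf (nat_lit 0) (nat_lit 128481602741) (nat_lit 0) (nat_lit 0) (nat_lit 0) (nat_lit 0) (nat_lit 0) (nat_lit 0) (nat_lit 1) (nat_lit 0) (nat_lit 1) (nat_lit 0) (nat_lit 338) (nat_lit 219) (nat_lit 163))) (XT.nd (nat_lit 94) (nat_lit 0) (nat_lit 0) (XT.lf (nat_lit 0) (nat_lit 134883964042) (nat_lit 0) (nat_lit 0) (nat_lit 0) (nat_lit 0) (nat_lit 0) (nat_lit 0) (nat_lit 1) (nat_lit 0) (nat_lit 1) (nat_lit 0) (nat_lit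 339) (nat_lit 219) (nat_lit 162)) (XT.lf (nat_lit 0) (nat_lit 141606559992) (nat_lit 0) (nat_lit 0) (nat_lit 0) (nat_lit 0) (nat_lit 0) (nat_lit 0) (nat_lit 1) (nat_lit 0) (nat_lit 1) (nat_lit 0) (nat_lit 340) (nat_lit 219) (nat_lit 161)))) (XT.nd (nat_lit 39480) (nat_lit 0) (nat_lit 3948) (XT.nd (nat_lit 94) (nat_lit 0) (nat_lit 0) (XT.lf (nat_lit 0) (nat_lit 148665396771) (nat_lit 0) (nat_lit 0) (nat_lit 0) (nat_lit 0) (nat_lit 0) (nat_lit 0) (nat_lit 1) (nat_lit 0) (nat_lit 1) (nat_lit 0) (nat_lit 341) (nat_lit 219) (nat_lit 160)) (XT.lf (nat_lit 0) (nat_lit 156077281135) (nat_lit 0) (nat_lit 0) (nat_lit 0) (nat_lit 0) (nat_lit 0) (nat_lit 0) (nat_lit 1) (nat_lit 0) (nat_lit 1) (nat_lit 0) (nat_lit 342) (nat_lit 219) (nat_lit 159))) (XT.nd (nat_lit 94) (nat_lit 168) (nat_lit 0) (XT.lf (nat_lit 0) (nat_lit 1340903043) (nat_lit 168) (nat_lit 2116169094) (nat_lit 168) (nat_lit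 2116169094) (nat_lit 49) (nat_lit 4) (nat_lit 51) (nat_lit 5) (nat_lit 51) (nat_lit 4) (nat_lit 280) (nat_lit 220) (nat_lit 220)) (XT.lf (nat_lit 0) (nat_lit 1345084196) (nat_lit 168) (nat_lit 9236642900) (nat_lit 0) (nat_lit 815399947) (nat_lit 47) (nat_lit 5) (nat_lit 49) (nat_lit 4) (nat_lit 47) (nat_lit 4) (nat_lit 281) (nat_lit 220) (nat_lit 219))))) (XT.nd (nat_lit 376) (nat_lit 588) (nat_lit 0) (XT.nd (nat_lit 188) (nat_lit 252) (nat_lit 0) (XT.nd (nat_lit 94) (nat_lit 168) (nat_lit 0) (XT.lf (nat_lit 0) (nat_lit 1501991263) (nat_lit 168) (nat_lit 5593583661) (nat_lit 168) (nat_lit 4559438222) (nat_lit 45) (nat_lit 4) (nat_lit 47) (nat_lit 5) (nat_lit 47) (nat_lit 4) (nat_lit 282) (nat_lit 220) (nat_lit 218)) (XT.lf (nat_lit 0) (nat_lit 821724310) (nat_lit 84) (nat_lit 317938605) (nat_lit 168) (nat_lit 10786661619) (nat_lit 43) (nat_lit 5) (nat_lit 44) (nat_lit 5)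 (nat_lit 45) (nat_lit 4) (nat_lit 283) (nat_lit 220) (nat_lit 217))) (XT.nd (nat_lit 94) (nat_lit 252) (nat_lit 0) (XT.lf (nat_lit 0) (nat_lit 7026982889) (nat_lit 168) (nat_lit 28908060) (nat_lit 0) (nat_lit 5148748758) (nat_lit 43) (nat_lit 5) (nat_lit 45) (nat_lit 4) (nat_lit 43) (nat_lit 4) (nat_lit 284) (nat_lit 220) (nat_lit 216)) (XT.lf (nat_lit 0) (nat_lit 685302568) (nat_lit 252) (nat_lit 888385335) (nat_lit 84) (nat_lit 10922812761) (nat_lit 40) (nat_lit 5) (nat_lit 43) (nat_lit 5) (nat_lit 41) (nat_lit 4) (nat_lit 285) (nat_lit 220) (nat_lit 215)))) (XT.nd (nat_lit 188) (nat_lit 336) (nat_lit 0) (XT.nd (nat_lit 94) (nat_lit 168) (nat_lit 0) (XT.lf (nat_lit 0) (nat_lit 6716151244) (nat_lit 168) (nat_lit 1924460633) (nat_lit 0) (nat_lit 4155661584) (nat_lit 39) (nat_lit 5) (nat_lit 41) (nat_lit 4) (nat_lit 39) (nat_lit 4) (nat_lit 286) (nat_lit 220) (nat_lit 214))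 (XT.lf (nat_lit 0) (nat_lit 10087976327) (nat_lit 168) (nat_lit 2970774478) (nat_lit 168) (nat_lit 51773669) (nat_lit 37) (nat_lit 4) (nat_lit 39) (nat_lit 5) (nat_lit 39) (nat_lit 4) (nat_lit 287) (nat_lit 220) (nat_lit 213))) (XT.nd (nat_lit 94) (nat_lit 168) (nat_lit 0) (XT.lf (nat_lit 0) (nat_lit 6114138117) (nat_lit 168) (nat_lit 4310637865) (nat_lit 0) (nat_lit 3008957165) (nat_lit 35) (nat_lit 5) (nat_lit 37) (nat_lit 4) (nat_lit 35) (nat_lit 4) (nat_lit 288) (nat_lit 220) (nat_lit 212)) (XT.lf (nat_lit 0) (nat_lit 8067145366) (nat_lit 168) (nat_lit 4559396986) (nat_lit 168) (nat_lit 1144520624) (nat_lit 33) (nat_lit 4) (nat_lit 35) (nat_lit 5) (nat_lit 35) (nat_lit 4) (nat_lit 289) (nat_lit 220) (nat_lit 211)))))) (XT.nd (nat_lit 752) (nat_lit 1008) (nat_lit 0) (XT.nd (nat_lit 376) (nat_lit 420) (nat_lit 0) (XT.nd (nat_lit 188) (nat_lit 252) (nat_lit 0) (XT.nd (nat_lit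 94) (nat_lit 168) (nat_lit 0) (XT.lf (nat_lit 0) (nat_lit 5190449680) (nat_lit 168) (nat_lit 7272256260) (nat_lit 0) (nat_lit 1657283611) (nat_lit 31) (nat_lit 5) (nat_lit 33) (nat_lit 4) (nat_lit 31) (nat_lit 4) (nat_lit 290) (nat_lit 220) (nat_lit 210)) (XT.lf (nat_lit 0) (nat_lit 5470980686) (nat_lit 168) (nat_lit 6405742667) (nat_lit 168) (nat_lit 2605050059) (nat_lit 29) (nat_lit 4) (nat_lit 31) (nat_lit 5) (nat_lit 31) (nat_lit 4) (nat_lit 291) (nat_lit 220) (nat_lit 209))) (XT.nd (nat_lit 94) (nat_lit 84) (nat_lit 0) (XT.lf (nat_lit 0) (nat_lit 3909316851) (nat_lit 168) (nat_lit 10902083110) (nat_lit 0) (nat_lit 46955148) (nat_lit 27) (nat_lit 5) (nat_lit 29) (nat_lit 4) (nat_lit 27) (nat_lit 4) (nat_lit 292) (nat_lit 220) (nat_lit 208)) (XT.lf (nat_lit 0) (nat_lit 2205023512) (nat_lit 84) (nat_lit 8567273108) (nat_lit 84) (nat_lit 4473811921) (nat_lit 26) (nat_lit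 4) (nat_lit 27) (nat_lit 5) (nat_lit 27) (nat_lit 4) (nat_lit 293) (nat_lit 220) (nat_lit 207)))) (XT.nd (nat_lit 188) (nat_lit 252) (nat_lit 0) (XT.nd (nat_lit 94) (nat_lit 0) (nat_lit 0) (XT.lf (nat_lit 0) (nat_lit 318745920) (nat_lit 84) (nat_lit 1940913520) (nat_lit 168) (nat_lit 13391329887) (nat_lit 24) (nat_lit 5) (nat_lit 25) (nat_lit 5) (nat_lit 26) (nat_lit 4) (nat_lit 294) (nat_lit 220) (nat_lit 206)) (XT.lf (nat_lit 0) (nat_lit 9299214590) (nat_lit 168) (nat_lit 1775810862) (nat_lit 0) (nat_lit 4991433659) (nat_lit 24) (nat_lit 5) (nat_lit 26) (nat_lit 4) (nat_lit 24) (nat_lit 4) (nat_lit 295) (nat_lit 220) (nat_lit 205))) (XT.nd (nat_lit 94) (nat_lit 84) (nat_lit 0) (XT.lf (nat_lit 0) (nat_lit 235357193) (nat_lit 168) (nat_lit 4015424801) (nat_lit 84) (nat_lit 12249107060) (nat_lit 22) (nat_lit 5) (nat_lit 24) (nat_lit 5) (nat_lit 23) (nat_lit 4) (nat_lit 296)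 (nat_lit 220) (nat_lit 204)) (XT.lf (nat_lit 0) (nat_lit 7428313166) (nat_lit 168) (nat_lit 6545605833) (nat_lit 0) (nat_lit 2972142175) (nat_lit 21) (nat_lit 5) (nat_lit 23) (nat_lit 4) (nat_lit 21) (nat_lit 4) (nat_lit 297) (nat_lit 220) (nat_lit 203))))) (XT.nd (nat_lit 376) (nat_lit 588) (nat_lit 0) (XT.nd (nat_lit 188) (nat_lit 168) (nat_lit 0) (XT.nd (nat_lit 94) (nat_lit 168) (nat_lit 0) (XT.lf (nat_lit 0) (nat_lit 8115590743) (nat_lit 84) (nat_lit 6957378802) (nat_lit 84) (nat_lit 2336969723) (nat_lit 20) (nat_lit 4) (nat_lit 21) (nat_lit 5) (nat_lit 21) (nat_lit 4) (nat_lit 298) (nat_lit 220) (nat_lit 202)) (XT.lf (nat_lit 0) (nat_lit 5071701238) (nat_lit 168) (nat_lit 12297136759) (nat_lit 0) (nat_lit 522342852) (nat_lit 18) (nat_lit 5) (nat_lit 20) (nat_lit 4) (nat_lit 18) (nat_lit 4) (nat_lit 299) (nat_lit 220) (nat_lit 201))) (XT.nd (nat_lit 94) (nat_lit 84)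 (nat_lit 0) (XT.lf (nat_lit 0) (nat_lit 2754634722) (nat_lit 84) (nat_lit 10161975286) (nat_lit 84) (nat_lit 5470741863) (nat_lit 17) (nat_lit 4) (nat_lit 18) (nat_lit 5) (nat_lit 18) (nat_lit 4) (nat_lit 300) (nat_lit 220) (nat_lit 200)) (XT.lf (nat_lit 0) (nat_lit 2212758091) (nat_lit 168) (nat_lit 290198417) (nat_lit 84) (nat_lit 16401662402) (nat_lit 16) (nat_lit 5) (nat_lit 18) (nat_lit 5) (nat_lit 17) (nat_lit 4) (nat_lit 301) (nat_lit 220) (nat_lit 199)))) (XT.nd (nat_lit 188) (nat_lit 420) (nat_lit 0) (XT.nd (nat_lit 94) (nat_lit 84) (nat_lit 0) (XT.lf (nat_lit 0) (nat_lit 10270338280) (nat_lit 168) (nat_lit 3612983807) (nat_lit 0) (nat_lit 5551255096) (nat_lit 15) (nat_lit 5) (nat_lit 17) (nat_lit 4) (nat_lit 15) (nat_lit 4) (nat_lit 302) (nat_lit 220) (nat_lit 198)) (XT.lf (nat_lit 0) (nat_lit 12802968189) (nat_lit 84) (nat_lit 6009883305) (nat_lit 84) (nat_lit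 1174079177) (nat_lit 14) (nat_lit 4) (nat_lit 15) (nat_lit 5) (nat_lit 15) (nat_lit 4) (nat_lit 303) (nat_lit 220) (nat_lit 197))) (XT.nd (nat_lit 94) (nat_lit 252) (nat_lit 0) (XT.lf (nat_lit 0) (nat_lit 7068982739) (nat_lit 168) (nat_lit 11130483748) (nat_lit 0) (nat_lit 2357585662) (nat_lit 12) (nat_lit 5) (nat_lit 14) (nat_lit 4) (nat_lit 12) (nat_lit 4) (nat_lit 304) (nat_lit 220) (nat_lit 196)) (XT.nd (nat_lit 94) (nat_lit 168) (nat_lit 0) (XT.lf (nat_lit 0) (nat_lit 5705806997) (nat_lit 84) (nat_lit 10126869297) (nat_lit 84) (nat_lit 5314644281) (nat_lit 11) (nat_lit 4) (nat_lit 12) (nat_lit 5) (nat_lit 12) (nat_lit 4) (nat_lit 305) (nat_lit 220) (nat_lit 195)) (XT.lf (nat_lit 0) (nat_lit 1687928395) (nat_lit 84) (nat_lit 1529720394) (nat_lit 168) (nat_lit 18544164152) (nat_lit 9) (nat_lit 5) (nat_lit 10) (nat_lit 5) (nat_lit 11) (nat_lit 4) (nat_lit 306) (nat_lit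 220) (nat_lit 194))))))))
noncomputable def xc37 : XT := (XT.nd (nat_lit 1598) (nat_lit 0) (nat_lit 0) (XT.nd (nat_lit 752) (nat_lit 0) (nat_lit 0) (XT.nd (nat_lit 376) (nat_lit 420) (nat_lit 0) (XT.nd (nat_lit 188) (nat_lit 252) (nat_lit 0) (XT.nd (nat_lit 94) (nat_lit 84) (nat_lit 0) (XT.lf (nat_lit 0) (nat_lit 12217931809) (nat_lit 168) (nat_lit 2717435255) (nat_lit 0) (nat_lit 7456307487) (nat_lit 9) (nat_lit 5) (nat_lit 11) (nat_lit 4) (nat_lit 9) (nat_lit 4) (nat_lit 307) (nat_lit 220) (nat_lit 193)) (XT.lf (nat_lit 0) (nat_lit 15673945394) (nat_lit 84) (nat_lit 6108962801) (nat_lit 84) (nat_lit 1264387084) (nat_lit 8) (nat_lit 4) (nat_lit 9) (nat_lit 5) (nat_lit 9) (nat_lit 4) (nat_lit 308) (nat_lit 220) (nat_lit 192))) (XT.nd (nat_lit 94) (nat_lit 84) (nat_lit 0) (XT.lf (nat_lit 0) (nat_lit 7951866934) (nat_lit 168) (nat_lit 12508749700) (nat_lit 0) (nat_lit 3262745938)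 (nat_lit 6) (nat_lit 5) (nat_lit 8) (nat_lit 4) (nat_lit 6) (nat_lit 4) (nat_lit 309) (nat_lit 220) (nat_lit 191)) (XT.lf (nat_lit 0) (nat_lit 6330816731) (nat_lit 84) (nat_lit 11426799467) (nat_lit 84) (nat_lit 6666021937) (nat_lit 5) (nat_lit 4) (nat_lit 6) (nat_lit 5) (nat_lit 6) (nat_lit 4) (nat_lit 310) (nat_lit 220) (nat_lit 190)))) (XT.nd (nat_lit 188) (nat_lit 252) (nat_lit 0) (XT.nd (nat_lit 94) (nat_lit 0) (nat_lit 0) (XT.lf (nat_lit 0) (nat_lit 1074037850) (nat_lit 84) (nat_lit 1805503465) (nat_lit 168) (nat_lit 22273253163) (nat_lit 3) (nat_lit 5) (nat_lit 4) (nat_lit 5) (nat_lit 5) (nat_lit 4) (nat_lit 311) (nat_lit 220) (nat_lit 189)) (XT.lf (nat_lit 0) (nat_lit 12964926787) (nat_lit 168) (nat_lit 4629730842) (nat_lit 0) (nat_lit 8303958753) (nat_lit 3) (nat_lit 5) (nat_lit 5) (nat_lit 4) (nat_lit 3) (nat_lit 4) (nat_lit 312) (nat_lit 220) (nat_lit 188))) (XT.nd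 (nat_lit 94) (nat_lit 168) (nat_lit 0) (XT.lf (nat_lit 0) (nat_lit 15978133257) (nat_lit 84) (nat_lit 7708457843) (nat_lit 84) (nat_lit 2988537801) (nat_lit 2) (nat_lit 4) (nat_lit 3) (nat_lit 5) (nat_lit 3) (nat_lit 4) (nat_lit 313) (nat_lit 220) (nat_lit 187)) (XT.lf (nat_lit 0) (nat_lit 40192457080) (nat_lit 0) (nat_lit 0) (nat_lit 0) (nat_lit 0) (nat_lit 0) (nat_lit 0) (nat_lit 1) (nat_lit 0) (nat_lit 1) (nat_lit 0) (nat_lit 314) (nat_lit 220) (nat_lit 186))))) (XT.nd (nat_lit 376) (nat_lit 0) (nat_lit 0) (XT.nd (nat_lit 188) (nat_lit 0) (nat_lit 0) (XT.nd (nat_lit 94) (nat_lit 0) (nat_lit 0) (XT.lf (nat_lit 0) (nat_lit 42174325930) (nat_lit 0) (nat_lit 0) (nat_lit 0) (nat_lit 0) (nat_lit 0) (nat_lit 0) (nat_lit 1) (nat_lit 0) (nat_lit 1) (nat_lit 0) (nat_lit 315) (nat_lit 220) (nat_lit 185)) (XT.lf (nat_lit 0) (nat_lit 44255646313) (nat_lit 0) (nat_lit 0) (nat_lit 0)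 (nat_lit 0) (nat_lit 0) (nat_lit 0) (nat_lit 1) (nat_lit 0) (nat_lit 1) (nat_lit 0) (nat_lit 316) (nat_lit 220) (nat_lit 184))) (XT.nd (nat_lit 94) (nat_lit 0) (nat_lit 0) (XT.lf (nat_lit 0) (nat_lit 46441373754) (nat_lit 0) (nat_lit 0) (nat_lit 0) (nat_lit 0) (nat_lit 0) (nat_lit 0) (nat_lit 1) (nat_lit 0) (nat_lit 1) (nat_lit 0) (nat_lit 317) (nat_lit 220) (nat_lit 183)) (XT.lf (nat_lit 0) (nat_lit 48736712366) (nat_lit 0) (nat_lit 0) (nat_lit 0) (nat_lit 0) (nat_lit 0) (nat_lit 0) (nat_lit 1) (nat_lit 0) (nat_lit 1) (nat_lit 0) (nat_lit 318) (nat_lit 220) (nat_lit 182)))) (XT.nd (nat_lit 188) (nat_lit 0) (nat_lit 0) (XT.nd (nat_lit 94) (nat_lit 0) (nat_lit 0) (XT.lf (nat_lit 0) (nat_lit 51147127241) (nat_lit 0) (nat_lit 0) (nat_lit 0) (nat_lit 0) (nat_lit 0) (nat_lit 0) (nat_lit 1) (nat_lit 0) (nat_lit 1) (nat_lit 0) (nat_lit 319) (nat_lit 220) (nat_lit 181)) (XT.lf (nat_lit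 0) (nat_lit 53678357462) (nat_lit 0) (nat_lit 0) (nat_lit 0) (nat_lit 0) (nat_lit 0) (nat_lit 0) (nat_lit 1) (nat_lit 0) (nat_lit 1) (nat_lit 0) (nat_lit 320) (nat_lit 220) (nat_lit 180))) (XT.nd (nat_lit 94) (nat_lit 0) (nat_lit 0) (XT.lf (nat_lit 0) (nat_lit 56336429767) (nat_lit 0) (nat_lit 0) (nat_lit 0) (nat_lit 0) (nat_lit 0) (nat_lit 0) (nat_lit 1) (nat_lit 0) (nat_lit 1) (nat_lit 0) (nat_lit 321) (nat_lit 220) (nat_lit 179)) (XT.nd (nat_lit 94) (nat_lit 0) (nat_lit 0) (XT.lf (nat_lit 0) (nat_lit 59127672900) (nat_lit 0) (nat_lit 0) (nat_lit 0) (nat_lit 0) (nat_lit 0) (nat_lit 0) (nat_lit 1) (nat_lit 0) (nat_lit 1) (nat_lit 0) (nat_lit 322) (nat_lit 220) (nat_lit 178)) (XT.lf (nat_lit 0) (nat_lit 62058732678) (nat_lit 0) (nat_lit 0) (nat_lit 0) (nat_lit 0) (nat_lit 0) (nat_lit 0) (nat_lit 1) (nat_lit 0) (nat_lit 1) (nat_lit 0) (nat_lit 323) (nat_lit 220) (nat_lit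 177))))))) (XT.nd (nat_lit 752) (nat_lit 0) (nat_lit 0) (XT.nd (nat_lit 376) (nat_lit 0) (nat_lit 0) (XT.nd (nat_lit 188) (nat_lit 0) (nat_lit 0) (XT.nd (nat_lit 94) (nat_lit 0) (nat_lit 0) (XT.lf (nat_lit 0) (nat_lit 65136587815) (nat_lit 0) (nat_lit 0) (nat_lit 0) (nat_lit 0) (nat_lit 0) (nat_lit 0) (nat_lit 1) (nat_lit 0) (nat_lit 1) (nat_lit 0) (nat_lit 324) (nat_lit 220) (nat_lit 176)) (XT.lf (nat_lit 0) (nat_lit 68368566537) (nat_lit 0) (nat_lit 0) (nat_lit 0) (nat_lit 0) (nat_lit 0) (nat_lit 0) (nat_lit 1) (nat_lit 0) (nat_lit 1) (nat_lit 0) (nat_lit 325) (nat_lit 220) (nat_lit 175))) (XT.nd (nat_lit 94) (nat_lit 0) (nat_lit 0) (XT.lf (nat_lit 0) (nat_lit 71762364032) (nat_lit 0) (nat_lit 0) (nat_lit 0) (nat_lit 0) (nat_lit 0) (nat_lit 0) (nat_lit 1) (nat_lit 0) (nat_lit 1) (nat_lit 0) (nat_lit 326) (nat_lit 220) (nat_lit 174)) (XT.lf (nat_lit 0) (nat_lit 75326060770)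 (nat_lit 0) (nat_lit 0) (nat_lit 0) (nat_lit 0) (nat_lit 0) (nat_lit 0) (nat_lit 1) (nat_lit 0) (nat_lit 1) (nat_lit 0) (nat_lit 327) (nat_lit 220) (nat_lit 173)))) (XT.nd (nat_lit 188) (nat_lit 0) (nat_lit 0) (XT.nd (nat_lit 94) (nat_lit 0) (nat_lit 0) (XT.lf (nat_lit 0) (nat_lit 79068141742) (nat_lit 0) (nat_lit 0) (nat_lit 0) (nat_lit 0) (nat_lit 0) (nat_lit 0) (nat_lit 1) (nat_lit 0) (nat_lit 1) (nat_lit 0) (nat_lit 328) (nat_lit 220) (nat_lit 172)) (XT.lf (nat_lit 0) (nat_lit 82997516667) (nat_lit 0) (nat_lit 0) (nat_lit 0) (nat_lit 0) (nat_lit 0) (nat_lit 0) (nat_lit 1) (nat_lit 0) (nat_lit 1) (nat_lit 0) (nat_lit 329) (nat_lit 220) (nat_lit 171))) (XT.nd (nat_lit 94) (nat_lit 0) (nat_lit 0) (XT.lf (nat_lit 0) (nat_lit 87123541198) (nat_lit 0) (nat_lit 0) (nat_lit 0) (nat_lit 0) (nat_lit 0) (nat_lit 0) (nat_lit 1) (nat_lit 0) (nat_lit 1) (nat_lit 0) (nat_lit 330) (nat_lit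 220) (nat_lit 170)) (XT.lf (nat_lit 0) (nat_lit 91456039203) (nat_lit 0) (nat_lit 0) (nat_lit 0) (nat_lit 0) (nat_lit 0) (nat_lit 0) (nat_lit 1) (nat_lit 0) (nat_lit 1) (nat_lit 0) (nat_lit 331) (nat_lit 220) (nat_lit 169))))) (XT.nd (nat_lit 376) (nat_lit 0) (nat_lit 0) (XT.nd (nat_lit 188) (nat_lit 0) (nat_lit 0) (XT.nd (nat_lit 94) (nat_lit 0) (nat_lit 0) (XT.lf (nat_lit 0) (nat_lit 96005326154) (nat_lit 0) (nat_lit 0) (nat_lit 0) (nat_lit 0) (nat_lit 0) (nat_lit 0) (nat_lit 1) (nat_lit 0) (nat_lit 1) (nat_lit 0) (nat_lit 332) (nat_lit 220) (nat_lit 168)) (XT.lf (nat_lit 0) (nat_lit 100782233687) (nat_lit 0) (nat_lit 0) (nat_lit 0) (nat_lit 0) (nat_lit 0) (nat_lit 0) (nat_lit 1) (nat_lit 0) (nat_lit 1) (nat_lit 0) (nat_lit 333) (nat_lit 220) (nat_lit 167))) (XT.nd (nat_lit 94) (nat_lit 0) (nat_lit 0) (XT.lf (nat_lit 0) (nat_lit 105798135390) (nat_lit 0) (nat_lit 0) (nat_lit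 0) (nat_lit 0) (nat_lit 0) (nat_lit 0) (nat_lit 1) (nat_lit 0) (nat_lit 1) (nat_lit 0) (nat_lit 334) (nat_lit 220) (nat_lit 166)) (XT.lf (nat_lit 0) (nat_lit 111064973887) (nat_lit 0) (nat_lit 0) (nat_lit 0) (nat_lit 0) (nat_lit 0) (nat_lit 0) (nat_lit 1) (nat_lit 0) (nat_lit 1) (nat_lit 0) (nat_lit 335) (nat_lit 220) (nat_lit 165)))) (XT.nd (nat_lit 188) (nat_lit 0) (nat_lit 0) (XT.nd (nat_lit 94) (nat_lit 0) (nat_lit 0) (XT.lf (nat_lit 0) (nat_lit 116595289269) (nat_lit 0) (nat_lit 0) (nat_lit 0) (nat_lit 0) (nat_lit 0) (nat_lit 0) (nat_lit 1) (nat_lit 0) (nat_lit 1) (nat_lit 0) (nat_lit 336) (nat_lit 220) (nat_lit 164)) (XT.lf (nat_lit 0) (nat_lit 122402248954) (nat_lit 0) (nat_lit 0) (nat_lit 0) (nat_lit 0) (nat_lit 0) (nat_lit 0) (nat_lit 1) (nat_lit 0) (nat_lit 1) (nat_lit 0) (nat_lit 337) (nat_lit 220) (nat_lit 163))) (XT.nd (nat_lit 94) (nat_lit 0) (nat_lit 0) (XT.lf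 (nat_lit 0) (nat_lit 128499679037) (nat_lit 0) (nat_lit 0) (nat_lit 0) (nat_lit 0) (nat_lit 0) (nat_lit 0) (nat_lit 1) (nat_lit 0) (nat_lit 1) (nat_lit 0) (nat_lit 338) (nat_lit 220) (nat_lit 162)) (XT.nd (nat_lit 94) (nat_lit 0) (nat_lit 0) (XT.lf (nat_lit 0) (nat_lit 134902097208) (nat_lit 0) (nat_lit 0) (nat_lit 0) (nat_lit 0) (nat_lit 0) (nat_lit 0) (nat_lit 1) (nat_lit 0) (nat_lit 1) (nat_lit 0) (nat_lit 339) (nat_lit 220) (nat_lit 161)) (XT.lf (nat_lit 0) (nat_lit 141624747320) (nat_lit 0) (nat_lit 0) (nat_lit 0) (nat_lit 0) (nat_lit 0) (nat_lit 0) (nat_lit 1) (nat_lit 0) (nat_lit 1) (nat_lit 0) (nat_lit 340) (nat_lit 220) (nat_lit 160))))))))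
noncomputable def xc38 : XT := (XT.nd (nat_lit 40702) (nat_lit 0) (nat_lit 504) (XT.nd (nat_lit 39856) (nat_lit 0) (nat_lit 2268) (XT.nd (nat_lit 39480) (nat_lit 0) (nat_lit 3612) (XT.nd (nat_lit 39292) (nat_lit 0) (nat_lit 4284) (XT.nd (nat_lit 94) (nat_lit 0) (nat_lit 0) (XT.lf (nat_lit 0) (nat_lit 148683635683) (nat_lit 0) (nat_lit 0) (nat_lit 0) (nat_lit 0) (nat_lit 0) (nat_lit 0) (nat_lit 1) (nat_lit 0) (nat_lit 1) (nat_lit 0) (nat_lit 341) (nat_lit 220) (nat_lit 159)) (XT.lf (nat_lit 0) (nat_lit 156095569173) (nat_lit 0) (nat_lit 0) (nat_lit 0) (nat_lit 0) (nat_lit 0) (nat_lit 0) (nat_lit 1) (nat_lit 0) (nat_lit 1) (nat_lit 0) (nat_lit 342) (nat_lit 220) (nat_lit 158))) (XT.nd (nat_lit 94) (nat_lit 252) (nat_lit 0) (XT.lf (nat_lit 0) (nat_lit 1870917334) (nat_lit 168) (nat_lit 1732605415) (nat_lit 168) (nat_lit 1732605415) (nat_lit 54) (nat_lit 4) (nat_lit 56) (nat_lit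 5) (nat_lit 56) (nat_lit 4) (nat_lit 278) (nat_lit 221) (nat_lit 221)) (XT.lf (nat_lit 0) (nat_lit 1881962657) (nat_lit 252) (nat_lit 7727903254) (nat_lit 0) (nat_lit 1297985772) (nat_lit 51) (nat_lit 5) (nat_lit 54) (nat_lit 4) (nat_lit 51) (nat_lit 4) (nat_lit 279) (nat_lit 221) (nat_lit 220)))) (XT.nd (nat_lit 188) (nat_lit 336) (nat_lit 0) (XT.nd (nat_lit 94) (nat_lit 168) (nat_lit 0) (XT.lf (nat_lit 0) (nat_lit 2509059798) (nat_lit 168) (nat_lit 4891229795) (nat_lit 168) (nat_lit 3751084448) (nat_lit 49) (nat_lit 4) (nat_lit 51) (nat_lit 5) (nat_lit 51) (nat_lit 4) (nat_lit 280) (nat_lit 221) (nat_lit 219)) (XT.lf (nat_lit 0) (nat_lit 1699147867) (nat_lit 168) (nat_lit 9599250451) (nat_lit 0) (nat_lit 108833965) (nat_lit 47) (nat_lit 5) (nat_lit 49) (nat_lit 4) (nat_lit 47) (nat_lit 4) (nat_lit 281) (nat_lit 221) (nat_lit 218))) (XT.nd (nat_lit 94) (nat_lit 168) (nat_lit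 0) (XT.lf (nat_lit 0) (nat_lit 953365468) (nat_lit 168) (nat_lit 6393814490) (nat_lit 168) (nat_lit 4323061360) (nat_lit 45) (nat_lit 4) (nat_lit 47) (nat_lit 5) (nat_lit 47) (nat_lit 4) (nat_lit 282) (nat_lit 221) (nat_lit 217)) (XT.lf (nat_lit 0) (nat_lit 60998003) (nat_lit 84) (nat_lit 1202081168) (nat_lit 168) (nat_lit 10683558763) (nat_lit 43) (nat_lit 5) (nat_lit 44) (nat_lit 5) (nat_lit 45) (nat_lit 4) (nat_lit 283) (nat_lit 221) (nat_lit 216))))) (XT.nd (nat_lit 376) (nat_lit 840) (nat_lit 0) (XT.nd (nat_lit 188) (nat_lit 252) (nat_lit 0) (XT.nd (nat_lit 94) (nat_lit 252) (nat_lit 0) (XT.lf (nat_lit 0) (nat_lit 7043774574) (nat_lit 168) (nat_lit 965675038) (nat_lit 0) (nat_lit 4220834724) (nat_lit 43) (nat_lit 5) (nat_lit 45) (nat_lit 4) (nat_lit 43) (nat_lit 4) (nat_lit 284) (nat_lit 221) (nat_lit 215)) (XT.lf (nat_lit 0) (nat_lit 568879492) (nat_lit 252) (nat_lit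 2051995432) (nat_lit 84) (nat_lit 9906669953) (nat_lit 40) (nat_lit 5) (nat_lit 43) (nat_lit 5) (nat_lit 41) (nat_lit 4) (nat_lit 285) (nat_lit 221) (nat_lit 214))) (XT.nd (nat_lit 94) (nat_lit 168) (nat_lit 0) (XT.lf (nat_lit 0) (nat_lit 6472408839) (nat_lit 168) (nat_lit 3312327962) (nat_lit 0) (nat_lit 3048946839) (nat_lit 39) (nat_lit 5) (nat_lit 41) (nat_lit 4) (nat_lit 39) (nat_lit 4) (nat_lit 286) (nat_lit 221) (nat_lit 213)) (XT.lf (nat_lit 0) (nat_lit 8486511538) (nat_lit 168) (nat_lit 4215975194) (nat_lit 168) (nat_lit 451074005) (nat_lit 37) (nat_lit 4) (nat_lit 39) (nat_lit 5) (nat_lit 39) (nat_lit 4) (nat_lit 287) (nat_lit 221) (nat_lit 212)))) (XT.nd (nat_lit 188) (nat_lit 504) (nat_lit 0) (XT.nd (nat_lit 94) (nat_lit 168) (nat_lit 0) (XT.lf (nat_lit 0) (nat_lit 5590123808) (nat_lit 168) (nat_lit 6199023800) (nat_lit 0) (nat_lit 1694808217) (nat_lit 35) (nat_lit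 5) (nat_lit 37) (nat_lit 4) (nat_lit 35) (nat_lit 4) (nat_lit 288) (nat_lit 221) (nat_lit 211)) (XT.lf (nat_lit 0) (nat_lit 5947825217) (nat_lit 168) (nat_lit 6034858136) (nat_lit 168) (nat_lit 1844594535) (nat_lit 33) (nat_lit 4) (nat_lit 35) (nat_lit 5) (nat_lit 35) (nat_lit 4) (nat_lit 289) (nat_lit 221) (nat_lit 210))) (XT.nd (nat_lit 94) (nat_lit 336) (nat_lit 0) (XT.lf (nat_lit 0) (nat_lit 4363679234) (nat_lit 168) (nat_lit 9715101442) (nat_lit 0) (nat_lit 105425456) (nat_lit 31) (nat_lit 5) (nat_lit 33) (nat_lit 4) (nat_lit 31) (nat_lit 4) (nat_lit 290) (nat_lit 221) (nat_lit 209)) (XT.nd (nat_lit 94) (nat_lit 168) (nat_lit 0) (XT.lf (nat_lit 0) (nat_lit 2778188219) (nat_lit 168) (nat_lit 8143624861) (nat_lit 168) (nat_lit 3630583903) (nat_lit 29) (nat_lit 4) (nat_lit 31) (nat_lit 5) (nat_lit 31) (nat_lit 4) (nat_lit 291) (nat_lit 221) (nat_lit 208)) (XT.lf (nat_lit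 0) (nat_lit 949439759) (nat_lit 84) (nat_lit 1833553009) (nat_lit 168) (nat_lit 12153467173) (nat_lit 27) (nat_lit 5) (nat_lit 28) (nat_lit 5) (nat_lit 29) (nat_lit 4) (nat_lit 292) (nat_lit 221) (nat_lit 207))))))) (XT.nd (nat_lit 752) (nat_lit 1008) (nat_lit 0) (XT.nd (nat_lit 376) (nat_lit 420) (nat_lit 0) (XT.nd (nat_lit 188) (nat_lit 168) (nat_lit 0) (XT.nd (nat_lit 94) (nat_lit 168) (nat_lit 0) (XT.lf (nat_lit 0) (nat_lit 9497389980) (nat_lit 168) (nat_lit 1086191018) (nat_lit 0) (nat_lit 4748061503) (nat_lit 27) (nat_lit 5) (nat_lit 29) (nat_lit 4) (nat_lit 27) (nat_lit 4) (nat_lit 293) (nat_lit 221) (nat_lit 206)) (XT.lf (nat_lit 0) (nat_lit 834621262) (nat_lit 168) (nat_lit 3247968932) (nat_lit 84) (nat_lit 11660402116) (nat_lit 25) (nat_lit 5) (nat_lit 27) (nat_lit 5) (nat_lit 26) (nat_lit 4) (nat_lit 294) (nat_lit 221) (nat_lit 205))) (XT.nd (nat_lit 94) (nat_lit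 84) (nat_lit 0) (XT.lf (nat_lit 0) (nat_lit 7702455672) (nat_lit 168) (nat_lit 5675065303) (nat_lit 0) (nat_lit 2789527155) (nat_lit 24) (nat_lit 5) (nat_lit 26) (nat_lit 4) (nat_lit 24) (nat_lit 4) (nat_lit 295) (nat_lit 221) (nat_lit 204)) (XT.lf (nat_lit 0) (nat_lit 8298106018) (nat_lit 84) (nat_lit 6701941719) (nat_lit 84) (nat_lit 1607940709) (nat_lit 23) (nat_lit 4) (nat_lit 24) (nat_lit 5) (nat_lit 24) (nat_lit 4) (nat_lit 296) (nat_lit 221) (nat_lit 203)))) (XT.nd (nat_lit 188) (nat_lit 168) (nat_lit 0) (XT.nd (nat_lit 94) (nat_lit 84) (nat_lit 0) (XT.lf (nat_lit 0) (nat_lit 5443195612) (nat_lit 168) (nat_lit 11194356376) (nat_lit 0) (nat_lit 427527991) (nat_lit 21) (nat_lit 5) (nat_lit 23) (nat_lit 4) (nat_lit 21) (nat_lit 4) (nat_lit 297) (nat_lit 221) (nat_lit 202)) (XT.lf (nat_lit 0) (nat_lit 3150551243) (nat_lit 84) (nat_lit 9779198398) (nat_lit 84) (nat_lit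 4607113550) (nat_lit 20) (nat_lit 4) (nat_lit 21) (nat_lit 5) (nat_lit 21) (nat_lit 4) (nat_lit 298) (nat_lit 221) (nat_lit 201))) (XT.nd (nat_lit 94) (nat_lit 0) (nat_lit 0) (XT.lf (nat_lit 0) (nat_lit 216472300) (nat_lit 84) (nat_lit 2484759863) (nat_lit 168) (nat_lit 15327293975) (nat_lit 18) (nat_lit 5) (nat_lit 19) (nat_lit 5) (nat_lit 20) (nat_lit 4) (nat_lit 299) (nat_lit 221) (nat_lit 200)) (XT.lf (nat_lit 0) (nat_lit 10384104281) (nat_lit 168) (nat_lit 2967379642) (nat_lit 0) (nat_lit 5181315070) (nat_lit 18) (nat_lit 5) (nat_lit 20) (nat_lit 4) (nat_lit 18) (nat_lit 4) (nat_lit 300) (nat_lit 221) (nat_lit 199))))) (XT.nd (nat_lit 376) (nat_lit 504) (nat_lit 0) (XT.nd (nat_lit 188) (nat_lit 252) (nat_lit 0) (XT.nd (nat_lit 94) (nat_lit 168) (nat_lit 0) (XT.lf (nat_lit 0) (nat_lit 12676583415) (nat_lit 84) (nat_lit 5856538027) (nat_lit 84) (nat_lit 525063976) (nat_lit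 17) (nat_lit 4) (nat_lit 18) (nat_lit 5) (nat_lit 18) (nat_lit 4) (nat_lit 301) (nat_lit 221) (nat_lit 198)) (XT.lf (nat_lit 0) (nat_lit 7317170247) (nat_lit 168) (nat_lit 10160135926) (nat_lit 0) (nat_lit 2122854970) (nat_lit 15) (nat_lit 5) (nat_lit 17) (nat_lit 4) (nat_lit 15) (nat_lit 4) (nat_lit 302) (nat_lit 221) (nat_lit 197))) (XT.nd (nat_lit 94) (nat_lit 168) (nat_lit 0) (XT.lf (nat_lit 0) (nat_lit 5883859038) (nat_lit 84) (nat_lit 9791670679) (nat_lit 84) (nat_lit 4486192599) (nat_lit 14) (nat_lit 4) (nat_lit 15) (nat_lit 5) (nat_lit 15) (nat_lit 4) (nat_lit 303) (nat_lit 221) (nat_lit 196)) (XT.lf (nat_lit 0) (nat_lit 2035890983) (nat_lit 84) (nat_lit 1596908235) (nat_lit 168) (nat_lit 17113134066) (nat_lit 12) (nat_lit 5) (nat_lit 13) (nat_lit 5) (nat_lit 14) (nat_lit 4) (nat_lit 304) (nat_lit 221) (nat_lit 195)))) (XT.nd (nat_lit 188) (nat_lit 420) (nat_lit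 0) (XT.nd (nat_lit 94) (nat_lit 84) (nat_lit 0) (XT.lf (nat_lit 0) (nat_lit 12206598001) (nat_lit 168) (nat_lit 2182191263) (nat_lit 0) (nat_lit 6956907186) (nat_lit 12) (nat_lit 5) (nat_lit 14) (nat_lit 4) (nat_lit 12) (nat_lit 4) (nat_lit 305) (nat_lit 221) (nat_lit 194)) (XT.lf (nat_lit 0) (nat_lit 15342610524) (nat_lit 84) (nat_lit 5984051604) (nat_lit 84) (nat_lit 642906876) (nat_lit 11) (nat_lit 4) (nat_lit 12) (nat_lit 5) (nat_lit 12) (nat_lit 4) (nat_lit 306) (nat_lit 221) (nat_lit 193))) (XT.nd (nat_lit 94) (nat_lit 252) (nat_lit 0) (XT.lf (nat_lit 0) (nat_lit 8124105344) (nat_lit 168) (nat_lit 11534170092) (nat_lit 0) (nat_lit 2954349447) (nat_lit 9) (nat_lit 5) (nat_lit 11) (nat_lit 4) (nat_lit 9) (nat_lit 4) (nat_lit 307) (nat_lit 221) (nat_lit 192)) (XT.nd (nat_lit 94) (nat_lit 168) (nat_lit 0) (XT.lf (nat_lit 0) (nat_lit 6417159591) (nat_lit 84) (nat_lit 11055336270)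 (nat_lit 84) (nat_lit 5806579044) (nat_lit 8) (nat_lit 4) (nat_lit 9) (nat_lit 5) (nat_lit 9) (nat_lit 4) (nat_lit 308) (nat_lit 221) (nat_lit 191)) (XT.lf (nat_lit 0) (nat_lit 1392236356) (nat_lit 84) (nat_lit 1883974835) (nat_lit 168) (nat_lit 20696418939) (nat_lit 6) (nat_lit 5) (nat_lit 7) (nat_lit 5) (nat_lit 8) (nat_lit 4) (nat_lit 309) (nat_lit 221) (nat_lit 190))))))))
noncomputable def xc39 : XT := (XT.nd (nat_lit 1598) (nat_lit 0) (nat_lit 0) (XT.nd (nat_lit 752) (nat_lit 0) (nat_lit 0) (XT.nd (nat_lit 376) (nat_lit 168) (nat_lit 0) (XT.nd (nat_lit 188) (nat_lit 252) (nat_lit 0) (XT.nd (nat_lit 94) (nat_lit 84) (nat_lit 0) (XT.lf (nat_lit 0) (nat_lit 12881819381) (nat_lit 168) (nat_lit 4057991241) (nat_lit 0) (nat_lit 7743102123) (nat_lit 6) (nat_lit 5) (nat_lit 8) (nat_lit 4) (nat_lit 6) (nat_lit 4) (nat_lit 310) (nat_lit 221) (nat_lit 189)) (XT.lf (nat_lit 0)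 (nat_lit 15577163254) (nat_lit 84) (nat_lit 7524285523) (nat_lit 84) (nat_lit 2320573676) (nat_lit 5) (nat_lit 4) (nat_lit 6) (nat_lit 5) (nat_lit 6) (nat_lit 4) (nat_lit 311) (nat_lit 221) (nat_lit 188))) (XT.nd (nat_lit 94) (nat_lit 84) (nat_lit 0) (XT.lf (nat_lit 0) (nat_lit 7516674472) (nat_lit 168) (nat_lit 16167295506) (nat_lit 0) (nat_lit 2501806420) (nat_lit 3) (nat_lit 5) (nat_lit 5) (nat_lit 4) (nat_lit 3) (nat_lit 4) (nat_lit 312) (nat_lit 221) (nat_lit 187)) (XT.lf (nat_lit 0) (nat_lit 3917304182) (nat_lit 84) (nat_lit 14064414287) (nat_lit 84) (nat_lit 8993401465) (nat_lit 2) (nat_lit 4) (nat_lit 3) (nat_lit 5) (nat_lit 3) (nat_lit 4) (nat_lit 313) (nat_lit 221) (nat_lit 186)))) (XT.nd (nat_lit 188) (nat_lit 0) (nat_lit 0) (XT.nd (nat_lit 94) (nat_lit 84) (nat_lit 0) (XT.lf (nat_lit 0) (nat_lit 1267091611) (nat_lit 168) (nat_lit 2526946226) (nat_lit 84) (nat_lit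 24002066039) (nat_lit 1) (nat_lit 5) (nat_lit 3) (nat_lit 5) (nat_lit 2) (nat_lit 4) (nat_lit 314) (nat_lit 221) (nat_lit 185)) (XT.lf (nat_lit 0) (nat_lit 42191066462) (nat_lit 0) (nat_lit 0) (nat_lit 0) (nat_lit 0) (nat_lit 0) (nat_lit 0) (nat_lit 1) (nat_lit 0) (nat_lit 1) (nat_lit 0) (nat_lit 315) (nat_lit 221) (nat_lit 184))) (XT.nd (nat_lit 94) (nat_lit 0) (nat_lit 0) (XT.lf (nat_lit 0) (nat_lit 44272553206) (nat_lit 0) (nat_lit 0) (nat_lit 0) (nat_lit 0) (nat_lit 0) (nat_lit 0) (nat_lit 1) (nat_lit 0) (nat_lit 1) (nat_lit 0) (nat_lit 316) (nat_lit 221) (nat_lit 183)) (XT.lf (nat_lit 0) (nat_lit 46458439086) (nat_lit 0) (nat_lit 0) (nat_lit 0) (nat_lit 0) (nat_lit 0) (nat_lit 0) (nat_lit 1) (nat_lit 0) (nat_lit 1) (nat_lit 0) (nat_lit 317) (nat_lit 221) (nat_lit 182))))) (XT.nd (nat_lit 376) (nat_lit 0) (nat_lit 0) (XT.nd (nat_lit 188) (nat_lit 0) (nat_lit 0) (XT.nd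 (nat_lit 94) (nat_lit 0) (nat_lit 0) (XT.lf (nat_lit 0) (nat_lit 48753928592) (nat_lit 0) (nat_lit 0) (nat_lit 0) (nat_lit 0) (nat_lit 0) (nat_lit 0) (nat_lit 1) (nat_lit 0) (nat_lit 1) (nat_lit 0) (nat_lit 318) (nat_lit 221) (nat_lit 181)) (XT.lf (nat_lit 0) (nat_lit 51164487175) (nat_lit 0) (nat_lit 0) (nat_lit 0) (nat_lit 0) (nat_lit 0) (nat_lit 0) (nat_lit 1) (nat_lit 0) (nat_lit 1) (nat_lit 0) (nat_lit 319) (nat_lit 221) (nat_lit 180))) (XT.nd (nat_lit 94) (nat_lit 0) (nat_lit 0) (XT.lf (nat_lit 0) (nat_lit 53695854260) (nat_lit 0) (nat_lit 0) (nat_lit 0) (nat_lit 0) (nat_lit 0) (nat_lit 0) (nat_lit 1) (nat_lit 0) (nat_lit 1) (nat_lit 0) (nat_lit 320) (nat_lit 221) (nat_lit 179)) (XT.lf (nat_lit 0) (nat_lit 56354056913) (nat_lit 0) (nat_lit 0) (nat_lit 0) (nat_lit 0) (nat_lit 0) (nat_lit 0) (nat_lit 1) (nat_lit 0) (nat_lit 1) (nat_lit 0) (nat_lit 321) (nat_lit 221)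 (nat_lit 178)))) (XT.nd (nat_lit 188) (nat_lit 0) (nat_lit 0) (XT.nd (nat_lit 94) (nat_lit 0) (nat_lit 0) (XT.lf (nat_lit 0) (nat_lit 59145424187) (nat_lit 0) (nat_lit 0) (nat_lit 0) (nat_lit 0) (nat_lit 0) (nat_lit 0) (nat_lit 1) (nat_lit 0) (nat_lit 1) (nat_lit 0) (nat_lit 322) (nat_lit 221) (nat_lit 177)) (XT.lf (nat_lit 0) (nat_lit 62076602194) (nat_lit 0) (nat_lit 0) (nat_lit 0) (nat_lit 0) (nat_lit 0) (nat_lit 0) (nat_lit 1) (nat_lit 0) (nat_lit 1) (nat_lit 0) (nat_lit 323) (nat_lit 221) (nat_lit 176))) (XT.nd (nat_lit 94) (nat_lit 0) (nat_lit 0) (XT.lf (nat_lit 0) (nat_lit 65154569930) (nat_lit 0) (nat_lit 0) (nat_lit 0) (nat_lit 0) (nat_lit 0) (nat_lit 0) (nat_lit 1) (nat_lit 0) (nat_lit 1) (nat_lit 0) (nat_lit 324) (nat_lit 221) (nat_lit 175)) (XT.nd (nat_lit 94) (nat_lit 0) (nat_lit 0) (XT.lf (nat_lit 0) (nat_lit 68386655890) (nat_lit 0) (nat_lit 0) (nat_lit 0)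 (nat_lit 0) (nat_lit 0) (nat_lit 0) (nat_lit 1) (nat_lit 0) (nat_lit 1) (nat_lit 0) (nat_lit 325) (nat_lit 221) (nat_lit 174)) (XT.lf (nat_lit 0) (nat_lit 71780555515) (nat_lit 0) (nat_lit 0) (nat_lit 0) (nat_lit 0) (nat_lit 0) (nat_lit 0) (nat_lit 1) (nat_lit 0) (nat_lit 1) (nat_lit 0) (nat_lit 326) (nat_lit 221) (nat_lit 173))))))) (XT.nd (nat_lit 752) (nat_lit 0) (nat_lit 0) (XT.nd (nat_lit 376) (nat_lit 0) (nat_lit 0) (XT.nd (nat_lit 188) (nat_lit 0) (nat_lit 0) (XT.nd (nat_lit 94) (nat_lit 0) (nat_lit 0) (XT.lf (nat_lit 0) (nat_lit 75344349521) (nat_lit 0) (nat_lit 0) (nat_lit 0) (nat_lit 0) (nat_lit 0) (nat_lit 0) (nat_lit 1) (nat_lit 0) (nat_lit 1) (nat_lit 0) (nat_lit 327) (nat_lit 221) (nat_lit 172)) (XT.lf (nat_lit 0) (nat_lit 79086523129) (nat_lit 0) (nat_lit 0) (nat_lit 0) (nat_lit 0) (nat_lit 0) (nat_lit 0) (nat_lit 1) (nat_lit 0) (nat_lit 1) (nat_lit 0) (nat_lit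 328) (nat_lit 221) (nat_lit 171))) (XT.nd (nat_lit 94) (nat_lit 0) (nat_lit 0) (XT.lf (nat_lit 0) (nat_lit 83015986278) (nat_lit 0) (nat_lit 0) (nat_lit 0) (nat_lit 0) (nat_lit 0) (nat_lit 0) (nat_lit 1) (nat_lit 0) (nat_lit 1) (nat_lit 0) (nat_lit 329) (nat_lit 221) (nat_lit 170)) (XT.lf (nat_lit 0) (nat_lit 87142094833) (nat_lit 0) (nat_lit 0) (nat_lit 0) (nat_lit 0) (nat_lit 0) (nat_lit 0) (nat_lit 1) (nat_lit 0) (nat_lit 1) (nat_lit 0) (nat_lit 330) (nat_lit 221) (nat_lit 169)))) (XT.nd (nat_lit 188) (nat_lit 0) (nat_lit 0) (XT.nd (nat_lit 94) (nat_lit 0) (nat_lit 0) (XT.lf (nat_lit 0) (nat_lit 91474672860) (nat_lit 0) (nat_lit 0) (nat_lit 0) (nat_lit 0) (nat_lit 0) (nat_lit 0) (nat_lit 1) (nat_lit 0) (nat_lit 1) (nat_lit 0) (nat_lit 331) (nat_lit 221) (nat_lit 168)) (XT.lf (nat_lit 0) (nat_lit 96024036023) (nat_lit 0) (nat_lit 0) (nat_lit 0) (nat_lit 0) (nat_lit 0)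 (nat_lit 0) (nat_lit 1) (nat_lit 0) (nat_lit 1) (nat_lit 0) (nat_lit 332) (nat_lit 221) (nat_lit 167))) (XT.nd (nat_lit 94) (nat_lit 0) (nat_lit 0) (XT.lf (nat_lit 0) (nat_lit 100801016137) (nat_lit 0) (nat_lit 0) (nat_lit 0) (nat_lit 0) (nat_lit 0) (nat_lit 0) (nat_lit 1) (nat_lit 0) (nat_lit 1) (nat_lit 0) (nat_lit 333) (nat_lit 221) (nat_lit 166)) (XT.lf (nat_lit 0) (nat_lit 105816986967) (nat_lit 0) (nat_lit 0) (nat_lit 0) (nat_lit 0) (nat_lit 0) (nat_lit 0) (nat_lit 1) (nat_lit 0) (nat_lit 1) (nat_lit 0) (nat_lit 334) (nat_lit 221) (nat_lit 165))))) (XT.nd (nat_lit 376) (nat_lit 0) (nat_lit 0) (XT.nd (nat_lit 188) (nat_lit 0) (nat_lit 0) (XT.nd (nat_lit 94) (nat_lit 0) (nat_lit 0) (XT.lf (nat_lit 0) (nat_lit 111083891298) (nat_lit 0) (nat_lit 0) (nat_lit 0) (nat_lit 0) (nat_lit 0) (nat_lit 0) (nat_lit 1) (nat_lit 0) (nat_lit 1) (nat_lit 0) (nat_lit 335) (nat_lit 221)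 (nat_lit 164)) (XT.lf (nat_lit 0) (nat_lit 116614269380) (nat_lit 0) (nat_lit 0) (nat_lit 0) (nat_lit 0) (nat_lit 0) (nat_lit 0) (nat_lit 1) (nat_lit 0) (nat_lit 1) (nat_lit 0) (nat_lit 336) (nat_lit 221) (nat_lit 163))) (XT.nd (nat_lit 94) (nat_lit 0) (nat_lit 0) (XT.lf (nat_lit 0) (nat_lit 122421288779) (nat_lit 0) (nat_lit 0) (nat_lit 0) (nat_lit 0) (nat_lit 0) (nat_lit 0) (nat_lit 1) (nat_lit 0) (nat_lit 1) (nat_lit 0) (nat_lit 337) (nat_lit 221) (nat_lit 162)) (XT.lf (nat_lit 0) (nat_lit 128518775732) (nat_lit 0) (nat_lit 0) (nat_lit 0) (nat_lit 0) (nat_lit 0) (nat_lit 0) (nat_lit 1) (nat_lit 0) (nat_lit 1) (nat_lit 0) (nat_lit 338) (nat_lit 221) (nat_lit 161)))) (XT.nd (nat_lit 188) (nat_lit 0) (nat_lit 0) (XT.nd (nat_lit 94) (nat_lit 0) (nat_lit 0) (XT.lf (nat_lit 0) (nat_lit 134921248065) (nat_lit 0) (nat_lit 0) (nat_lit 0) (nat_lit 0) (nat_lit 0) (nat_lit 0) (nat_lit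 1) (nat_lit 0) (nat_lit 1) (nat_lit 0) (nat_lit 339) (nat_lit 221) (nat_lit 160)) (XT.lf (nat_lit 0) (nat_lit 141643949760) (nat_lit 0) (nat_lit 0) (nat_lit 0) (nat_lit 0) (nat_lit 0) (nat_lit 0) (nat_lit 1) (nat_lit 0) (nat_lit 1) (nat_lit 0) (nat_lit 340) (nat_lit 221) (nat_lit 159))) (XT.nd (nat_lit 94) (nat_lit 0) (nat_lit 0) (XT.lf (nat_lit 0) (nat_lit 148702887249) (nat_lit 0) (nat_lit 0) (nat_lit 0) (nat_lit 0) (nat_lit 0) (nat_lit 0) (nat_lit 1) (nat_lit 0) (nat_lit 1) (nat_lit 0) (nat_lit 341) (nat_lit 221) (nat_lit 158)) (XT.nd (nat_lit 39010) (nat_lit 0) (nat_lit 4956) (XT.lf (nat_lit 0) (nat_lit 156114867527) (nat_lit 0) (nat_lit 0) (nat_lit 0) (nat_lit 0) (nat_lit 0) (nat_lit 0) (nat_lit 1) (nat_lit 0) (nat_lit 1) (nat_lit 0) (nat_lit 342) (nat_lit 221) (nat_lit 157)) (XT.lf (nat_lit 0) (nat_lit 2436564197) (nat_lit 168) (nat_lit 1338320316) (nat_lit 168) (nat_lit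 1338320316) (nat_lit 59) (nat_lit 4) (nat_lit 61) (nat_lit 5) (nat_lit 61) (nat_lit 4) (nat_lit 276) (nat_lit 222) (nat_lit 222))))))))
noncomputable def xc40 : XT := (XT.nd (nat_lit 1504) (nat_lit 1680) (nat_lit 0) (XT.nd (nat_lit 752) (nat_lit 1260) (nat_lit 0) (XT.nd (nat_lit 376) (nat_lit 504) (nat_lit 0) (XT.nd (nat_lit 188) (nat_lit 420) (nat_lit 0) (XT.nd (nat_lit 94) (nat_lit 168) (nat_lit 0) (XT.lf (nat_lit 0) (nat_lit 2454870811) (nat_lit 252) (nat_lit 6181446154) (nat_lit 0) (nat_lit 1811036295) (nat_lit 56) (nat_lit 5) (nat_lit 59) (nat_lit 4) (nat_lit 56) (nat_lit 4) (nat_lit 277) (nat_lit 222) (nat_lit 221)) (XT.lf (nat_lit 0) (nat_lit 3578728361) (nat_lit 168) (nat_lit 4177632095) (nat_lit 168) (nat_lit 2920621850) (nat_lit 54) (nat_lit 4) (nat_lit 56) (nat_lit 5) (nat_lit 56) (nat_lit 4) (nat_lit 278) (nat_lit 222) (nat_lit 220))) (XT.nd (nat_lit 94) (nat_lit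 168) (nat_lit 0) (XT.lf (nat_lit 0) (nat_lit 2300112633) (nat_lit 252) (nat_lit 8070698780) (nat_lit 0) (nat_lit 546791557) (nat_lit 51) (nat_lit 5) (nat_lit 54) (nat_lit 4) (nat_lit 51) (nat_lit 4) (nat_lit 279) (nat_lit 222) (nat_lit 219)) (XT.lf (nat_lit 0) (nat_lit 1990409628) (nat_lit 168) (nat_lit 5729328060) (nat_lit 168) (nat_lit 3446322735) (nat_lit 49) (nat_lit 4) (nat_lit 51) (nat_lit 5) (nat_lit 51) (nat_lit 4) (nat_lit 280) (nat_lit 222) (nat_lit 218)))) (XT.nd (nat_lit 188) (nat_lit 168) (nat_lit 0) (XT.nd (nat_lit 94) (nat_lit 168) (nat_lit 0) (XT.lf (nat_lit 0) (nat_lit 1088990970) (nat_lit 84) (nat_lit 801963900) (nat_lit 168) (nat_lit 9535885907) (nat_lit 47) (nat_lit 5) (nat_lit 48) (nat_lit 5) (nat_lit 49) (nat_lit 4) (nat_lit 281) (nat_lit 222) (nat_lit 217)) (XT.lf (nat_lit 0) (nat_lit 37537867) (nat_lit 168) (nat_lit 7385207602) (nat_lit 168) (nat_lit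 4272916417) (nat_lit 45) (nat_lit 4) (nat_lit 47) (nat_lit 5) (nat_lit 47) (nat_lit 4) (nat_lit 282) (nat_lit 222) (nat_lit 216))) (XT.nd (nat_lit 94) (nat_lit 84) (nat_lit 0) (XT.lf (nat_lit 0) (nat_lit 1221602051) (nat_lit 252) (nat_lit 1043779521) (nat_lit 84) (nat_lit 9711138641) (nat_lit 44) (nat_lit 5) (nat_lit 47) (nat_lit 5) (nat_lit 45) (nat_lit 4) (nat_lit 283) (nat_lit 222) (nat_lit 215)) (XT.lf (nat_lit 0) (nat_lit 6880184616) (nat_lit 168) (nat_lit 2280269880) (nat_lit 0) (nat_lit 3105817761) (nat_lit 43) (nat_lit 5) (nat_lit 45) (nat_lit 4) (nat_lit 43) (nat_lit 4) (nat_lit 284) (nat_lit 222) (nat_lit 214))))) (XT.nd (nat_lit 376) (nat_lit 588) (nat_lit 0) (XT.nd (nat_lit 188) (nat_lit 336) (nat_lit 0) (XT.nd (nat_lit 94) (nat_lit 84) (nat_lit 0) (XT.lf (nat_lit 0) (nat_lit 266046573) (nat_lit 252) (nat_lit 3605408086) (nat_lit 84) (nat_lit 8697716077) (nat_lit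 40) (nat_lit 5) (nat_lit 43) (nat_lit 5) (nat_lit 41) (nat_lit 4) (nat_lit 285) (nat_lit 222) (nat_lit 213)) (XT.lf (nat_lit 0) (nat_lit 6037066769) (nat_lit 168) (nat_lit 5102386856) (nat_lit 0) (nat_lit 1742481331) (nat_lit 39) (nat_lit 5) (nat_lit 41) (nat_lit 4) (nat_lit 39) (nat_lit 4) (nat_lit 286) (nat_lit 222) (nat_lit 212))) (XT.nd (nat_lit 94) (nat_lit 168) (nat_lit 0) (XT.lf (nat_lit 0) (nat_lit 6477543026) (nat_lit 168) (nat_lit 5674885234) (nat_lit 168) (nat_lit 1055119614) (nat_lit 37) (nat_lit 4) (nat_lit 39) (nat_lit 5) (nat_lit 39) (nat_lit 4) (nat_lit 287) (nat_lit 222) (nat_lit 211)) (XT.lf (nat_lit 0) (nat_lit 4862058647) (nat_lit 168) (nat_lit 8516189637) (nat_lit 0) (nat_lit 167333857) (nat_lit 35) (nat_lit 5) (nat_lit 37) (nat_lit 4) (nat_lit 35) (nat_lit 4) (nat_lit 288) (nat_lit 222) (nat_lit 210)))) (XT.nd (nat_lit 188) (nat_lit 252) (nat_lit 0)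 (XT.nd (nat_lit 94) (nat_lit 168) (nat_lit 0) (XT.lf (nat_lit 0) (nat_lit 3393571366) (nat_lit 168) (nat_lit 7738542848) (nat_lit 168) (nat_lit 2762915190) (nat_lit 33) (nat_lit 4) (nat_lit 35) (nat_lit 5) (nat_lit 35) (nat_lit 4) (nat_lit 289) (nat_lit 222) (nat_lit 209)) (XT.lf (nat_lit 0) (nat_lit 1616302460) (nat_lit 84) (nat_lit 1729773957) (nat_lit 168) (nat_lit 10913031817) (nat_lit 31) (nat_lit 5) (nat_lit 32) (nat_lit 5) (nat_lit 33) (nat_lit 4) (nat_lit 290) (nat_lit 222) (nat_lit 208))) (XT.nd (nat_lit 94) (nat_lit 252) (nat_lit 0) (XT.lf (nat_lit 0) (nat_lit 9751830447) (nat_lit 168) (nat_lit 367391828) (nat_lit 0) (nat_lit 4515695802) (nat_lit 31) (nat_lit 5) (nat_lit 33) (nat_lit 4) (nat_lit 31) (nat_lit 4) (nat_lit 291) (nat_lit 222) (nat_lit 207)) (XT.lf (nat_lit 0) (nat_lit 1467922281) (nat_lit 252) (nat_lit 2457993451) (nat_lit 84) (nat_lit 11099175792)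 (nat_lit 28) (nat_lit 5) (nat_lit 31) (nat_lit 5) (nat_lit 29) (nat_lit 4) (nat_lit 292) (nat_lit 222) (nat_lit 206)))))) (XT.nd (nat_lit 752) (nat_lit 840) (nat_lit 0) (XT.nd (nat_lit 376) (nat_lit 420) (nat_lit 0) (XT.nd (nat_lit 188) (nat_lit 252) (nat_lit 0) (XT.nd (nat_lit 94) (nat_lit 84) (nat_lit 0) (XT.lf (nat_lit 0) (nat_lit 8027900623) (nat_lit 168) (nat_lit 4788697471) (nat_lit 0) (nat_lit 2611396933) (nat_lit 27) (nat_lit 5) (nat_lit 29) (nat_lit 4) (nat_lit 27) (nat_lit 4) (nat_lit 293) (nat_lit 222) (nat_lit 205)) (XT.lf (nat_lit 0) (nat_lit 8530249717) (nat_lit 84) (nat_lit 6466444639) (nat_lit 84) (nat_lit 850308526) (nat_lit 26) (nat_lit 4) (nat_lit 27) (nat_lit 5) (nat_lit 27) (nat_lit 4) (nat_lit 294) (nat_lit 222) (nat_lit 204))) (XT.nd (nat_lit 94) (nat_lit 84) (nat_lit 0) (XT.lf (nat_lit 0) (nat_lit 5859832683) (nat_lit 168) (nat_lit 10091076094) (nat_lit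 0) (nat_lit 330059130) (nat_lit 24) (nat_lit 5) (nat_lit 26) (nat_lit 4) (nat_lit 24) (nat_lit 4) (nat_lit 295) (nat_lit 222) (nat_lit 203)) (XT.lf (nat_lit 0) (nat_lit 3581641281) (nat_lit 84) (nat_lit 9425014469) (nat_lit 84) (nat_lit 3722790923) (nat_lit 23) (nat_lit 4) (nat_lit 24) (nat_lit 5) (nat_lit 24) (nat_lit 4) (nat_lit 296) (nat_lit 222) (nat_lit 202)))) (XT.nd (nat_lit 188) (nat_lit 252) (nat_lit 0) (XT.nd (nat_lit 94) (nat_lit 0) (nat_lit 0) (XT.lf (nat_lit 0) (nat_lit 759608178) (nat_lit 84) (nat_lit 2472620997) (nat_lit 168) (nat_lit 13964150198) (nat_lit 21) (nat_lit 5) (nat_lit 22) (nat_lit 5) (nat_lit 23) (nat_lit 4) (nat_lit 297) (nat_lit 222) (nat_lit 201)) (XT.lf (nat_lit 0) (nat_lit 10554242901) (nat_lit 168) (nat_lit 2303978906) (nat_lit 0) (nat_lit 4818167795) (nat_lit 21) (nat_lit 5) (nat_lit 23) (nat_lit 4) (nat_lit 21) (nat_lit 4) (nat_lit 298)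 (nat_lit 222) (nat_lit 200))) (XT.nd (nat_lit 94) (nat_lit 84) (nat_lit 0) (XT.lf (nat_lit 0) (nat_lit 148915357) (nat_lit 168) (nat_lit 5572673658) (nat_lit 84) (nat_lit 12454315891) (nat_lit 19) (nat_lit 5) (nat_lit 21) (nat_lit 5) (nat_lit 20) (nat_lit 4) (nat_lit 299) (nat_lit 222) (nat_lit 199)) (XT.lf (nat_lit 0) (nat_lit 7613481890) (nat_lit 168) (nat_lit 9190861852) (nat_lit 0) (nat_lit 1886749297) (nat_lit 18) (nat_lit 5) (nat_lit 20) (nat_lit 4) (nat_lit 18) (nat_lit 4) (nat_lit 300) (nat_lit 222) (nat_lit 198))))) (XT.nd (nat_lit 376) (nat_lit 420) (nat_lit 0) (XT.nd (nat_lit 188) (nat_lit 168) (nat_lit 0) (XT.nd (nat_lit 94) (nat_lit 168) (nat_lit 0) (XT.lf (nat_lit 0) (nat_lit 6099532518) (nat_lit 84) (nat_lit 9487504808) (nat_lit 84) (nat_lit 3638215225) (nat_lit 17) (nat_lit 4) (nat_lit 18) (nat_lit 5) (nat_lit 18) (nat_lit 4) (nat_lit 301) (nat_lit 222) (nat_lit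 197)) (XT.lf (nat_lit 0) (nat_lit 2411188787) (nat_lit 84) (nat_lit 1675249902) (nat_lit 168) (nat_lit 15694080867) (nat_lit 15) (nat_lit 5) (nat_lit 16) (nat_lit 5) (nat_lit 17) (nat_lit 4) (nat_lit 302) (nat_lit 222) (nat_lit 196))) (XT.nd (nat_lit 94) (nat_lit 168) (nat_lit 0) (XT.lf (nat_lit 0) (nat_lit 12254277326) (nat_lit 168) (nat_lit 1630836244) (nat_lit 0) (nat_lit 6466493202) (nat_lit 15) (nat_lit 5) (nat_lit 17) (nat_lit 4) (nat_lit 15) (nat_lit 4) (nat_lit 303) (nat_lit 222) (nat_lit 195)) (XT.lf (nat_lit 0) (nat_lit 6301004) (nat_lit 168) (nat_lit 5875695002) (nat_lit 84) (nat_lit 15063187746) (nat_lit 13) (nat_lit 5) (nat_lit 15) (nat_lit 5) (nat_lit 14) (nat_lit 4) (nat_lit 304) (nat_lit 222) (nat_lit 194)))) (XT.nd (nat_lit 188) (nat_lit 252) (nat_lit 0) (XT.nd (nat_lit 94) (nat_lit 84) (nat_lit 0) (XT.lf (nat_lit 0) (nat_lit 8344609047) (nat_lit 168) (nat_lit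 10567159239) (nat_lit 0) (nat_lit 2644953169) (nat_lit 12) (nat_lit 5) (nat_lit 14) (nat_lit 4) (nat_lit 12) (nat_lit 4) (nat_lit 305) (nat_lit 222) (nat_lit 193)) (XT.lf (nat_lit 0) (nat_lit 6539141446) (nat_lit 84) (nat_lit 10719260484) (nat_lit 84) (nat_lit 4932505642) (nat_lit 11) (nat_lit 4) (nat_lit 12) (nat_lit 5) (nat_lit 12) (nat_lit 4) (nat_lit 306) (nat_lit 222) (nat_lit 192))) (XT.nd (nat_lit 94) (nat_lit 84) (nat_lit 0) (XT.lf (nat_lit 0) (nat_lit 1733140227) (nat_lit 84) (nat_lit 1975565365) (nat_lit 168) (nat_lit 19141761239) (nat_lit 9) (nat_lit 5) (nat_lit 10) (nat_lit 5) (nat_lit 11) (nat_lit 4) (nat_lit 307) (nat_lit 222) (nat_lit 191)) (XT.nd (nat_lit 94) (nat_lit 84) (nat_lit 0) (XT.lf (nat_lit 0) (nat_lit 12857432152) (nat_lit 168) (nat_lit 3477471523) (nat_lit 0) (nat_lit 7191996375) (nat_lit 9) (nat_lit 5) (nat_lit 11) (nat_lit 4) (nat_lit 9) (nat_lit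 4) (nat_lit 308) (nat_lit 222) (nat_lit 190)) (XT.lf (nat_lit 0) (nat_lit 15232176143) (nat_lit 84) (nat_lit 7367630265) (nat_lit 84) (nat_lit 1630537954) (nat_lit 8) (nat_lit 4) (nat_lit 9) (nat_lit 5) (nat_lit 9) (nat_lit 4) (nat_lit 309) (nat_lit 222) (nat_lit 189))))))))
noncomputable def xc41 : XT := (XT.nd (nat_lit 1598) (nat_lit 0) (nat_lit 0) (XT.nd (nat_lit 752) (nat_lit 0) (nat_lit 0) (XT.nd (nat_lit 376) (nat_lit 252) (nat_lit 0) (XT.nd (nat_lit 188) (nat_lit 168) (nat_lit 0) (XT.nd (nat_lit 94) (nat_lit 84) (nat_lit 0) (XT.lf (nat_lit 0) (nat_lit 7725669395) (nat_lit 168) (nat_lit 15034532492) (nat_lit 0) (nat_lit 2196777367) (nat_lit 6) (nat_lit 5) (nat_lit 8) (nat_lit 4) (nat_lit 6) (nat_lit 4) (nat_lit 310) (nat_lit 222) (nat_lit 188)) (XT.lf (nat_lit 0) (nat_lit 4102801747) (nat_lit 84) (nat_lit 13598148147) (nat_lit 84) (nat_lit 8007356511) (nat_lit 5) (nat_lit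 4) (nat_lit 6) (nat_lit 5) (nat_lit 6) (nat_lit 4) (nat_lit 311) (nat_lit 222) (nat_lit 187))) (XT.nd (nat_lit 94) (nat_lit 84) (nat_lit 0) (XT.lf (nat_lit 0) (nat_lit 1749320784) (nat_lit 168) (nat_lit 2063636035) (nat_lit 84) (nat_lit 22676672034) (nat_lit 4) (nat_lit 5) (nat_lit 6) (nat_lit 5) (nat_lit 5) (nat_lit 4) (nat_lit 312) (nat_lit 222) (nat_lit 186)) (XT.lf (nat_lit 0) (nat_lit 11994779858) (nat_lit 168) (nat_lit 8734571359) (nat_lit 0) (nat_lit 6560600417) (nat_lit 3) (nat_lit 5) (nat_lit 5) (nat_lit 4) (nat_lit 3) (nat_lit 4) (nat_lit 313) (nat_lit 222) (nat_lit 185)))) (XT.nd (nat_lit 188) (nat_lit 0) (nat_lit 0) (XT.nd (nat_lit 94) (nat_lit 168) (nat_lit 0) (XT.lf (nat_lit 0) (nat_lit 12221337524) (nat_lit 84) (nat_lit 10692983488) (nat_lit 84) (nat_lit 5207879087) (nat_lit 2) (nat_lit 4) (nat_lit 3) (nat_lit 5) (nat_lit 3) (nat_lit 4) (nat_lit 314) (nat_lit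 222) (nat_lit 184)) (XT.lf (nat_lit 0) (nat_lit 42208985060) (nat_lit 0) (nat_lit 0) (nat_lit 0) (nat_lit 0) (nat_lit 0) (nat_lit 0) (nat_lit 1) (nat_lit 0) (nat_lit 1) (nat_lit 0) (nat_lit 315) (nat_lit 222) (nat_lit 183))) (XT.nd (nat_lit 94) (nat_lit 0) (nat_lit 0) (XT.lf (nat_lit 0) (nat_lit 44290630243) (nat_lit 0) (nat_lit 0) (nat_lit 0) (nat_lit 0) (nat_lit 0) (nat_lit 0) (nat_lit 1) (nat_lit 0) (nat_lit 1) (nat_lit 0) (nat_lit 316) (nat_lit 222) (nat_lit 182)) (XT.lf (nat_lit 0) (nat_lit 46476667016) (nat_lit 0) (nat_lit 0) (nat_lit 0) (nat_lit 0) (nat_lit 0) (nat_lit 0) (nat_lit 1) (nat_lit 0) (nat_lit 1) (nat_lit 0) (nat_lit 317) (nat_lit 222) (nat_lit 181))))) (XT.nd (nat_lit 376) (nat_lit 0) (nat_lit 0) (XT.nd (nat_lit 188) (nat_lit 0) (nat_lit 0) (XT.nd (nat_lit 94) (nat_lit 0) (nat_lit 0) (XT.lf (nat_lit 0) (nat_lit 48772300230) (nat_lit 0) (nat_lit 0) (nat_lit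 0) (nat_lit 0) (nat_lit 0) (nat_lit 0) (nat_lit 1) (nat_lit 0) (nat_lit 1) (nat_lit 0) (nat_lit 318) (nat_lit 222) (nat_lit 180)) (XT.lf (nat_lit 0) (nat_lit 51182995678) (nat_lit 0) (nat_lit 0) (nat_lit 0) (nat_lit 0) (nat_lit 0) (nat_lit 0) (nat_lit 1) (nat_lit 0) (nat_lit 1) (nat_lit 0) (nat_lit 319) (nat_lit 222) (nat_lit 179))) (XT.nd (nat_lit 94) (nat_lit 0) (nat_lit 0) (XT.lf (nat_lit 0) (nat_lit 53714493112) (nat_lit 0) (nat_lit 0) (nat_lit 0) (nat_lit 0) (nat_lit 0) (nat_lit 0) (nat_lit 1) (nat_lit 0) (nat_lit 1) (nat_lit 0) (nat_lit 320) (nat_lit 222) (nat_lit 178)) (XT.lf (nat_lit 0) (nat_lit 56372819905) (nat_lit 0) (nat_lit 0) (nat_lit 0) (nat_lit 0) (nat_lit 0) (nat_lit 0) (nat_lit 1) (nat_lit 0) (nat_lit 1) (nat_lit 0) (nat_lit 321) (nat_lit 222) (nat_lit 177)))) (XT.nd (nat_lit 188) (nat_lit 0) (nat_lit 0) (XT.nd (nat_lit 94) (nat_lit 0) (nat_lit 0) (XT.lf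 (nat_lit 0) (nat_lit 59164305408) (nat_lit 0) (nat_lit 0) (nat_lit 0) (nat_lit 0) (nat_lit 0) (nat_lit 0) (nat_lit 1) (nat_lit 0) (nat_lit 1) (nat_lit 0) (nat_lit 322) (nat_lit 222) (nat_lit 176)) (XT.lf (nat_lit 0) (nat_lit 62095596015) (nat_lit 0) (nat_lit 0) (nat_lit 0) (nat_lit 0) (nat_lit 0) (nat_lit 0) (nat_lit 1) (nat_lit 0) (nat_lit 1) (nat_lit 0) (nat_lit 323) (nat_lit 222) (nat_lit 175))) (XT.nd (nat_lit 94) (nat_lit 0) (nat_lit 0) (XT.lf (nat_lit 0) (nat_lit 65173670988) (nat_lit 0) (nat_lit 0) (nat_lit 0) (nat_lit 0) (nat_lit 0) (nat_lit 0) (nat_lit 1) (nat_lit 0) (nat_lit 1) (nat_lit 0) (nat_lit 324) (nat_lit 222) (nat_lit 174)) (XT.nd (nat_lit 94) (nat_lit 0) (nat_lit 0) (XT.lf (nat_lit 0) (nat_lit 68405859078) (nat_lit 0) (nat_lit 0) (nat_lit 0) (nat_lit 0) (nat_lit 0) (nat_lit 0) (nat_lit 1) (nat_lit 0) (nat_lit 1) (nat_lit 0) (nat_lit 325) (nat_lit 222)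 (nat_lit 173)) (XT.lf (nat_lit 0) (nat_lit 71799855971) (nat_lit 0) (nat_lit 0) (nat_lit 0) (nat_lit 0) (nat_lit 0) (nat_lit 0) (nat_lit 1) (nat_lit 0) (nat_lit 1) (nat_lit 0) (nat_lit 326) (nat_lit 222) (nat_lit 172))))))) (XT.nd (nat_lit 752) (nat_lit 0) (nat_lit 0) (XT.nd (nat_lit 376) (nat_lit 0) (nat_lit 0) (XT.nd (nat_lit 188) (nat_lit 0) (nat_lit 0) (XT.nd (nat_lit 94) (nat_lit 0) (nat_lit 0) (XT.lf (nat_lit 0) (nat_lit 75363742612) (nat_lit 0) (nat_lit 0) (nat_lit 0) (nat_lit 0) (nat_lit 0) (nat_lit 0) (nat_lit 1) (nat_lit 0) (nat_lit 1) (nat_lit 0) (nat_lit 327) (nat_lit 222) (nat_lit 171)) (XT.lf (nat_lit 0) (nat_lit 79106004445) (nat_lit 0) (nat_lit 0) (nat_lit 0) (nat_lit 0) (nat_lit 0) (nat_lit 0) (nat_lit 1) (nat_lit 0) (nat_lit 1) (nat_lit 0) (nat_lit 328) (nat_lit 222) (nat_lit 170))) (XT.nd (nat_lit 94) (nat_lit 0) (nat_lit 0) (XT.lf (nat_lit 0) (nat_lit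 83035551618) (nat_lit 0) (nat_lit 0) (nat_lit 0) (nat_lit 0) (nat_lit 0) (nat_lit 0) (nat_lit 1) (nat_lit 0) (nat_lit 1) (nat_lit 0) (nat_lit 329) (nat_lit 222) (nat_lit 169)) (XT.lf (nat_lit 0) (nat_lit 87161740194) (nat_lit 0) (nat_lit 0) (nat_lit 0) (nat_lit 0) (nat_lit 0) (nat_lit 0) (nat_lit 1) (nat_lit 0) (nat_lit 1) (nat_lit 0) (nat_lit 330) (nat_lit 222) (nat_lit 168)))) (XT.nd (nat_lit 188) (nat_lit 0) (nat_lit 0) (XT.nd (nat_lit 94) (nat_lit 0) (nat_lit 0) (XT.lf (nat_lit 0) (nat_lit 91494394433) (nat_lit 0) (nat_lit 0) (nat_lit 0) (nat_lit 0) (nat_lit 0) (nat_lit 0) (nat_lit 1) (nat_lit 0) (nat_lit 1) (nat_lit 0) (nat_lit 331) (nat_lit 222) (nat_lit 167)) (XT.lf (nat_lit 0) (nat_lit 96043830178) (nat_lit 0) (nat_lit 0) (nat_lit 0) (nat_lit 0) (nat_lit 0) (nat_lit 0) (nat_lit 1) (nat_lit 0) (nat_lit 1) (nat_lit 0) (nat_lit 332) (nat_lit 222) (nat_lit 166))) (XT.nd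 (nat_lit 94) (nat_lit 0) (nat_lit 0) (XT.lf (nat_lit 0) (nat_lit 100820879419) (nat_lit 0) (nat_lit 0) (nat_lit 0) (nat_lit 0) (nat_lit 0) (nat_lit 0) (nat_lit 1) (nat_lit 0) (nat_lit 1) (nat_lit 0) (nat_lit 333) (nat_lit 222) (nat_lit 165)) (XT.lf (nat_lit 0) (nat_lit 105836916083) (nat_lit 0) (nat_lit 0) (nat_lit 0) (nat_lit 0) (nat_lit 0) (nat_lit 0) (nat_lit 1) (nat_lit 0) (nat_lit 1) (nat_lit 0) (nat_lit 334) (nat_lit 222) (nat_lit 164))))) (XT.nd (nat_lit 376) (nat_lit 0) (nat_lit 0) (XT.nd (nat_lit 188) (nat_lit 0) (nat_lit 0) (XT.nd (nat_lit 94) (nat_lit 0) (nat_lit 0) (XT.lf (nat_lit 0) (nat_lit 111103883114) (nat_lit 0) (nat_lit 0) (nat_lit 0) (nat_lit 0) (nat_lit 0) (nat_lit 0) (nat_lit 1) (nat_lit 0) (nat_lit 1) (nat_lit 0) (nat_lit 335) (nat_lit 222) (nat_lit 163)) (XT.lf (nat_lit 0) (nat_lit 116634320909) (nat_lit 0) (nat_lit 0) (nat_lit 0) (nat_lit 0) (nat_lit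 0) (nat_lit 0) (nat_lit 1) (nat_lit 0) (nat_lit 1) (nat_lit 0) (nat_lit 336) (nat_lit 222) (nat_lit 162))) (XT.nd (nat_lit 94) (nat_lit 0) (nat_lit 0) (XT.lf (nat_lit 0) (nat_lit 122441397178) (nat_lit 0) (nat_lit 0) (nat_lit 0) (nat_lit 0) (nat_lit 0) (nat_lit 0) (nat_lit 1) (nat_lit 0) (nat_lit 1) (nat_lit 0) (nat_lit 337) (nat_lit 222) (nat_lit 161)) (XT.lf (nat_lit 0) (nat_lit 128538938294) (nat_lit 0) (nat_lit 0) (nat_lit 0) (nat_lit 0) (nat_lit 0) (nat_lit 0) (nat_lit 1) (nat_lit 0) (nat_lit 1) (nat_lit 0) (nat_lit 338) (nat_lit 222) (nat_lit 160)))) (XT.nd (nat_lit 188) (nat_lit 0) (nat_lit 0) (XT.nd (nat_lit 94) (nat_lit 0) (nat_lit 0) (XT.lf (nat_lit 0) (nat_lit 134941462210) (nat_lit 0) (nat_lit 0) (nat_lit 0) (nat_lit 0) (nat_lit 0) (nat_lit 0) (nat_lit 1) (nat_lit 0) (nat_lit 1) (nat_lit 0) (nat_lit 339) (nat_lit 222) (nat_lit 159)) (XT.lf (nat_lit 0) (nat_lit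 141664213031) (nat_lit 0) (nat_lit 0) (nat_lit 0) (nat_lit 0) (nat_lit 0) (nat_lit 0) (nat_lit 1) (nat_lit 0) (nat_lit 1) (nat_lit 0) (nat_lit 340) (nat_lit 222) (nat_lit 158))) (XT.nd (nat_lit 38916) (nat_lit 0) (nat_lit 5124) (XT.lf (nat_lit 0) (nat_lit 148723197308) (nat_lit 0) (nat_lit 0) (nat_lit 0) (nat_lit 0) (nat_lit 0) (nat_lit 0) (nat_lit 1) (nat_lit 0) (nat_lit 1) (nat_lit 0) (nat_lit 341) (nat_lit 222) (nat_lit 157)) (XT.nd (nat_lit 94) (nat_lit 252) (nat_lit 0) (XT.lf (nat_lit 0) (nat_lit 3042386157) (nat_lit 252) (nat_lit 930853241) (nat_lit 252) (nat_lit 930853241) (nat_lit 64) (nat_lit 4) (nat_lit 67) (nat_lit 5) (nat_lit 67) (nat_lit 4) (nat_lit 274) (nat_lit 223) (nat_lit 223)) (XT.lf (nat_lit 0) (nat_lit 3068406479) (nat_lit 252) (nat_lit 4587837544) (nat_lit 0) (nat_lit 2358578926) (nat_lit 61) (nat_lit 5) (nat_lit 64) (nat_lit 4) (nat_lit 61) (nat_lit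 4) (nat_lit 275) (nat_lit 223) (nat_lit 222))))))))
noncomputable def xc42 : XT := (XT.nd (nat_lit 1598) (nat_lit 1764) (nat_lit 0) (XT.nd (nat_lit 752) (nat_lit 1260) (nat_lit 0) (XT.nd (nat_lit 376) (nat_lit 588) (nat_lit 0) (XT.nd (nat_lit 188) (nat_lit 420) (nat_lit 0) (XT.nd (nat_lit 94) (nat_lit 252) (nat_lit 0) (XT.lf (nat_lit 0) (nat_lit 4719347954) (nat_lit 168) (nat_lit 3448745333) (nat_lit 168) (nat_lit 2062891538) (nat_lit 59) (nat_lit 4) (nat_lit 61) (nat_lit 5) (nat_lit 61) (nat_lit 4) (nat_lit 276) (nat_lit 223) (nat_lit 221)) (XT.lf (nat_lit 0) (nat_lit 2942352379) (nat_lit 252) (nat_lit 6505112222) (nat_lit 0) (nat_lit 1009315892) (nat_lit 56) (nat_lit 5) (nat_lit 59) (nat_lit 4) (nat_lit 56) (nat_lit 4) (nat_lit 277) (nat_lit 223) (nat_lit 220))) (XT.nd (nat_lit 94) (nat_lit 252) (nat_lit 0) (XT.lf (nat_lit 0) (nat_lit 3089021090) (nat_lit 168) (nat_lit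 5059581886) (nat_lit 168) (nat_lit 2542568515) (nat_lit 54) (nat_lit 4) (nat_lit 56) (nat_lit 5) (nat_lit 56) (nat_lit 4) (nat_lit 278) (nat_lit 223) (nat_lit 219)) (XT.lf (nat_lit 0) (nat_lit 2173698898) (nat_lit 168) (nat_lit 385755116) (nat_lit 252) (nat_lit 8377373613) (nat_lit 51) (nat_lit 5) (nat_lit 53) (nat_lit 5) (nat_lit 54) (nat_lit 4) (nat_lit 279) (nat_lit 223) (nat_lit 218)))) (XT.nd (nat_lit 188) (nat_lit 252) (nat_lit 0) (XT.nd (nat_lit 94) (nat_lit 168) (nat_lit 0) (XT.lf (nat_lit 0) (nat_lit 1124620697) (nat_lit 168) (nat_lit 6748628455) (nat_lit 168) (nat_lit 3317327424) (nat_lit 49) (nat_lit 4) (nat_lit 51) (nat_lit 5) (nat_lit 51) (nat_lit 4) (nat_lit 280) (nat_lit 223) (nat_lit 217)) (XT.lf (nat_lit 0) (nat_lit 10075009) (nat_lit 84) (nat_lit 1903005609) (nat_lit 168) (nat_lit 9543312658) (nat_lit 47) (nat_lit 5) (nat_lit 48) (nat_lit 5) (nat_lit 49)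 (nat_lit 4) (nat_lit 281) (nat_lit 223) (nat_lit 216))) (XT.nd (nat_lit 94) (nat_lit 252) (nat_lit 0) (XT.lf (nat_lit 0) (nat_lit 7341931035) (nat_lit 168) (nat_lit 1207738782) (nat_lit 0) (nat_lit 3180691578) (nat_lit 47) (nat_lit 5) (nat_lit 49) (nat_lit 4) (nat_lit 47) (nat_lit 4) (nat_lit 282) (nat_lit 223) (nat_lit 215)) (XT.lf (nat_lit 0) (nat_lit 1005162696) (nat_lit 252) (nat_lit 2515677398) (nat_lit 84) (nat_lit 8495700931) (nat_lit 44) (nat_lit 5) (nat_lit 47) (nat_lit 5) (nat_lit 45) (nat_lit 4) (nat_lit 283) (nat_lit 223) (nat_lit 214))))) (XT.nd (nat_lit 376) (nat_lit 672) (nat_lit 0) (XT.nd (nat_lit 188) (nat_lit 336) (nat_lit 0) (XT.nd (nat_lit 94) (nat_lit 168) (nat_lit 0) (XT.lf (nat_lit 0) (nat_lit 6535823515) (nat_lit 168) (nat_lit 3975822572) (nat_lit 0) (nat_lit 1801043069) (nat_lit 43) (nat_lit 5) (nat_lit 45) (nat_lit 4) (nat_lit 43) (nat_lit 4) (nat_lit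 284) (nat_lit 223) (nat_lit 213)) (XT.lf (nat_lit 0) (nat_lit 7065363305) (nat_lit 168) (nat_lit 5324612531) (nat_lit 168) (nat_lit 231320935) (nat_lit 41) (nat_lit 4) (nat_lit 43) (nat_lit 5) (nat_lit 43) (nat_lit 4) (nat_lit 285) (nat_lit 223) (nat_lit 212))) (XT.nd (nat_lit 94) (nat_lit 168) (nat_lit 0) (XT.lf (nat_lit 0) (nat_lit 5409088508) (nat_lit 168) (nat_lit 7298899359) (nat_lit 0) (nat_lit 233154426) (nat_lit 39) (nat_lit 5) (nat_lit 41) (nat_lit 4) (nat_lit 39) (nat_lit 4) (nat_lit 286) (nat_lit 223) (nat_lit 211)) (XT.lf (nat_lit 0) (nat_lit 4056287531) (nat_lit 168) (nat_lit 7350978192) (nat_lit 168) (nat_lit 1865348700) (nat_lit 37) (nat_lit 4) (nat_lit 39) (nat_lit 5) (nat_lit 39) (nat_lit 4) (nat_lit 287) (nat_lit 223) (nat_lit 210)))) (XT.nd (nat_lit 188) (nat_lit 336) (nat_lit 0) (XT.nd (nat_lit 94) (nat_lit 168) (nat_lit 0) (XT.lf (nat_lit 0) (nat_lit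 2324397392) (nat_lit 84) (nat_lit 1629248897) (nat_lit 168) (nat_lit 9663840683) (nat_lit 35) (nat_lit 5) (nat_lit 36) (nat_lit 5) (nat_lit 37) (nat_lit 4) (nat_lit 288) (nat_lit 223) (nat_lit 209)) (XT.lf (nat_lit 0) (nat_lit 398302259) (nat_lit 168) (nat_lit 9674507513) (nat_lit 168) (nat_lit 3901669067) (nat_lit 33) (nat_lit 4) (nat_lit 35) (nat_lit 5) (nat_lit 35) (nat_lit 4) (nat_lit 289) (nat_lit 223) (nat_lit 208))) (XT.nd (nat_lit 94) (nat_lit 252) (nat_lit 0) (XT.lf (nat_lit 0) (nat_lit 2140053210) (nat_lit 252) (nat_lit 1640516545) (nat_lit 84) (nat_lit 10564062700) (nat_lit 32) (nat_lit 5) (nat_lit 35) (nat_lit 5) (nat_lit 33) (nat_lit 4) (nat_lit 290) (nat_lit 223) (nat_lit 207)) (XT.nd (nat_lit 94) (nat_lit 168) (nat_lit 0) (XT.lf (nat_lit 0) (nat_lit 8408801623) (nat_lit 168) (nat_lit 3881384651) (nat_lit 0) (nat_lit 2437106304) (nat_lit 31) (nat_lit 5) (nat_lit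 33) (nat_lit 4) (nat_lit 31) (nat_lit 4) (nat_lit 291) (nat_lit 223) (nat_lit 206)) (XT.lf (nat_lit 0) (nat_lit 8815636343) (nat_lit 168) (nat_lit 6250735114) (nat_lit 168) (nat_lit 58945049) (nat_lit 29) (nat_lit 4) (nat_lit 31) (nat_lit 5) (nat_lit 31) (nat_lit 4) (nat_lit 292) (nat_lit 223) (nat_lit 205))))))) (XT.nd (nat_lit 752) (nat_lit 840) (nat_lit 0) (XT.nd (nat_lit 376) (nat_lit 504) (nat_lit 0) (XT.nd (nat_lit 188) (nat_lit 168) (nat_lit 0) (XT.nd (nat_lit 94) (nat_lit 84) (nat_lit 0) (XT.lf (nat_lit 0) (nat_lit 6325903171) (nat_lit 168) (nat_lit 8981885860) (nat_lit 0) (nat_lit 229327830) (nat_lit 27) (nat_lit 5) (nat_lit 29) (nat_lit 4) (nat_lit 27) (nat_lit 4) (nat_lit 293) (nat_lit 223) (nat_lit 204)) (XT.lf (nat_lit 0) (nat_lit 4051767640) (nat_lit 84) (nat_lit 9099124389) (nat_lit 84) (nat_lit 2812422930) (nat_lit 26) (nat_lit 4) (nat_lit 27) (nat_lit 5)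 (nat_lit 27) (nat_lit 4) (nat_lit 294) (nat_lit 223) (nat_lit 203))) (XT.nd (nat_lit 94) (nat_lit 0) (nat_lit 0) (XT.lf (nat_lit 0) (nat_lit 1333608462) (nat_lit 84) (nat_lit 2471943934) (nat_lit 168) (nat_lit 12601007584) (nat_lit 24) (nat_lit 5) (nat_lit 25) (nat_lit 5) (nat_lit 26) (nat_lit 4) (nat_lit 295) (nat_lit 223) (nat_lit 202)) (XT.lf (nat_lit 0) (nat_lit 10784403208) (nat_lit 168) (nat_lit 1618653745) (nat_lit 0) (nat_lit 4460380405) (nat_lit 24) (nat_lit 5) (nat_lit 26) (nat_lit 4) (nat_lit 24) (nat_lit 4) (nat_lit 296) (nat_lit 223) (nat_lit 201)))) (XT.nd (nat_lit 188) (nat_lit 252) (nat_lit 0) (XT.nd (nat_lit 94) (nat_lit 84) (nat_lit 0) (XT.lf (nat_lit 0) (nat_lit 839674914) (nat_lit 168) (nat_lit 4759106455) (nat_lit 84) (nat_lit 11739014345) (nat_lit 22) (nat_lit 5) (nat_lit 24) (nat_lit 5) (nat_lit 23) (nat_lit 4) (nat_lit 297) (nat_lit 223) (nat_lit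 200)) (XT.lf (nat_lit 0) (nat_lit 7961770158) (nat_lit 168) (nat_lit 8217984234) (nat_lit 0) (nat_lit 1648047474) (nat_lit 21) (nat_lit 5) (nat_lit 23) (nat_lit 4) (nat_lit 21) (nat_lit 4) (nat_lit 298) (nat_lit 223) (nat_lit 199))) (XT.nd (nat_lit 94) (nat_lit 168) (nat_lit 0) (XT.lf (nat_lit 0) (nat_lit 6355761200) (nat_lit 84) (nat_lit 9214438703) (nat_lit 84) (nat_lit 2765596937) (nat_lit 20) (nat_lit 4) (nat_lit 21) (nat_lit 5) (nat_lit 21) (nat_lit 4) (nat_lit 299) (nat_lit 223) (nat_lit 198)) (XT.lf (nat_lit 0) (nat_lit 2817020379) (nat_lit 84) (nat_lit 1765685466) (nat_lit 168) (nat_lit 14280677070) (nat_lit 18) (nat_lit 5) (nat_lit 19) (nat_lit 5) (nat_lit 20) (nat_lit 4) (nat_lit 300) (nat_lit 223) (nat_lit 197))))) (XT.nd (nat_lit 376) (nat_lit 504) (nat_lit 0) (XT.nd (nat_lit 188) (nat_lit 168) (nat_lit 0) (XT.nd (nat_lit 94) (nat_lit 168) (nat_lit 0) (XT.lf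 (nat_lit 0) (nat_lit 12364153161) (nat_lit 168) (nat_lit 1059873507) (nat_lit 0) (nat_lit 5983121165) (nat_lit 18) (nat_lit 5) (nat_lit 20) (nat_lit 4) (nat_lit 18) (nat_lit 4) (nat_lit 301) (nat_lit 223) (nat_lit 196)) (XT.lf (nat_lit 0) (nat_lit 666394148) (nat_lit 168) (nat_lit 5126086794) (nat_lit 84) (nat_lit 14178803768) (nat_lit 16) (nat_lit 5) (nat_lit 18) (nat_lit 5) (nat_lit 17) (nat_lit 4) (nat_lit 302) (nat_lit 223) (nat_lit 195))) (XT.nd (nat_lit 94) (nat_lit 84) (nat_lit 0) (XT.lf (nat_lit 0) (nat_lit 8616867574) (nat_lit 168) (nat_lit 9603375644) (nat_lit 0) (nat_lit 2332996969) (nat_lit 15) (nat_lit 5) (nat_lit 17) (nat_lit 4) (nat_lit 15) (nat_lit 4) (nat_lit 303) (nat_lit 223) (nat_lit 194)) (XT.lf (nat_lit 0) (nat_lit 6699139630) (nat_lit 84) (nat_lit 10418701108) (nat_lit 84) (nat_lit 4038803895) (nat_lit 14) (nat_lit 4) (nat_lit 15) (nat_lit 5) (nat_lit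 15) (nat_lit 4) (nat_lit 304) (nat_lit 223) (nat_lit 193)))) (XT.nd (nat_lit 188) (nat_lit 336) (nat_lit 0) (XT.nd (nat_lit 94) (nat_lit 0) (nat_lit 0) (XT.lf (nat_lit 0) (nat_lit 2099548666) (nat_lit 84) (nat_lit 2081378061) (nat_lit 168) (nat_lit 17602800679) (nat_lit 12) (nat_lit 5) (nat_lit 13) (nat_lit 5) (nat_lit 14) (nat_lit 4) (nat_lit 305) (nat_lit 223) (nat_lit 192)) (XT.lf (nat_lit 0) (nat_lit 12894582075) (nat_lit 168) (nat_lit 2884899192) (nat_lit 0) (nat_lit 6648439131) (nat_lit 12) (nat_lit 5) (nat_lit 14) (nat_lit 4) (nat_lit 12) (nat_lit 4) (nat_lit 306) (nat_lit 223) (nat_lit 191))) (XT.nd (nat_lit 94) (nat_lit 252) (nat_lit 0) (XT.lf (nat_lit 0) (nat_lit 14944287204) (nat_lit 84) (nat_lit 7239103297) (nat_lit 84) (nat_lit 913959025) (nat_lit 11) (nat_lit 4) (nat_lit 12) (nat_lit 5) (nat_lit 12) (nat_lit 4) (nat_lit 307) (nat_lit 223) (nat_lit 190)) (XT.nd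 (nat_lit 94) (nat_lit 84) (nat_lit 0) (XT.lf (nat_lit 0) (nat_lit 7982822688) (nat_lit 168) (nat_lit 13918514165) (nat_lit 0) (nat_lit 1887219228) (nat_lit 9) (nat_lit 5) (nat_lit 11) (nat_lit 4) (nat_lit 9) (nat_lit 4) (nat_lit 308) (nat_lit 223) (nat_lit 189)) (XT.lf (nat_lit 0) (nat_lit 4317599771) (nat_lit 84) (nat_lit 13174940614) (nat_lit 84) (nat_lit 7011092836) (nat_lit 8) (nat_lit 4) (nat_lit 9) (nat_lit 5) (nat_lit 9) (nat_lit 4) (nat_lit 309) (nat_lit 223) (nat_lit 188))))))))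
noncomputable def xc43 : XT := (XT.nd (nat_lit 1598) (nat_lit 0) (nat_lit 0) (XT.nd (nat_lit 752) (nat_lit 0) (nat_lit 0) (XT.nd (nat_lit 376) (nat_lit 252) (nat_lit 0) (XT.nd (nat_lit 188) (nat_lit 252) (nat_lit 0) (XT.nd (nat_lit 94) (nat_lit 84) (nat_lit 0) (XT.lf (nat_lit 0) (nat_lit 2264199767) (nat_lit 168) (nat_lit 1587232844) (nat_lit 84) (nat_lit 21395692085) (nat_lit 7) (nat_lit 5) (nat_lit 9) (nat_lit 5) (nat_lit 8) (nat_lit 4) (nat_lit 310) (nat_lit 223) (nat_lit 187)) (XT.lf (nat_lit 0) (nat_lit 12027175066) (nat_lit 168) (nat_lit 7945899809) (nat_lit 0) (nat_lit 6035992232) (nat_lit 6) (nat_lit 5) (nat_lit 8) (nat_lit 4) (nat_lit 6) (nat_lit 4) (nat_lit 311) (nat_lit 223) (nat_lit 186))) (XT.nd (nat_lit 94) (nat_lit 168) (nat_lit 0) (XT.lf (nat_lit 0) (nat_lit 12021843735) (nat_lit 84) (nat_lit 10413372330) (nat_lit 84) (nat_lit 4366044728) (nat_lit 5) (nat_lit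 4) (nat_lit 6) (nat_lit 5) (nat_lit 6) (nat_lit 4) (nat_lit 312) (nat_lit 223) (nat_lit 185)) (XT.lf (nat_lit 0) (nat_lit 5478294059) (nat_lit 84) (nat_lit 170043926) (nat_lit 168) (nat_lit 21975194752) (nat_lit 3) (nat_lit 5) (nat_lit 4) (nat_lit 5) (nat_lit 5) (nat_lit 4) (nat_lit 313) (nat_lit 223) (nat_lit 184)))) (XT.nd (nat_lit 188) (nat_lit 168) (nat_lit 0) (XT.nd (nat_lit 94) (nat_lit 84) (nat_lit 0) (XT.lf (nat_lit 0) (nat_lit 16315400178) (nat_lit 168) (nat_lit 1696389340) (nat_lit 0) (nat_lit 10456615632) (nat_lit 3) (nat_lit 5) (nat_lit 5) (nat_lit 4) (nat_lit 3) (nat_lit 4) (nat_lit 314) (nat_lit 223) (nat_lit 183)) (XT.lf (nat_lit 0) (nat_lit 20186751913) (nat_lit 84) (nat_lit 7531803626) (nat_lit 84) (nat_lit 1626828641) (nat_lit 2) (nat_lit 4) (nat_lit 3) (nat_lit 5) (nat_lit 3) (nat_lit 4) (nat_lit 315) (nat_lit 223) (nat_lit 182))) (XT.nd (nat_lit 94) (nat_lit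 0) (nat_lit 0) (XT.lf (nat_lit 0) (nat_lit 44309920463) (nat_lit 0) (nat_lit 0) (nat_lit 0) (nat_lit 0) (nat_lit 0) (nat_lit 0) (nat_lit 1) (nat_lit 0) (nat_lit 1) (nat_lit 0) (nat_lit 316) (nat_lit 223) (nat_lit 181)) (XT.lf (nat_lit 0) (nat_lit 46496100945) (nat_lit 0) (nat_lit 0) (nat_lit 0) (nat_lit 0) (nat_lit 0) (nat_lit 0) (nat_lit 1) (nat_lit 0) (nat_lit 1) (nat_lit 0) (nat_lit 317) (nat_lit 223) (nat_lit 180))))) (XT.nd (nat_lit 376) (nat_lit 0) (nat_lit 0) (XT.nd (nat_lit 188) (nat_lit 0) (nat_lit 0) (XT.nd (nat_lit 94) (nat_lit 0) (nat_lit 0) (XT.lf (nat_lit 0) (nat_lit 48791871024) (nat_lit 0) (nat_lit 0) (nat_lit 0) (nat_lit 0) (nat_lit 0) (nat_lit 0) (nat_lit 1) (nat_lit 0) (nat_lit 1) (nat_lit 0) (nat_lit 318) (nat_lit 223) (nat_lit 179)) (XT.lf (nat_lit 0) (nat_lit 51202696820) (nat_lit 0) (nat_lit 0) (nat_lit 0) (nat_lit 0) (nat_lit 0) (nat_lit 0) (nat_lit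 1) (nat_lit 0) (nat_lit 1) (nat_lit 0) (nat_lit 319) (nat_lit 223) (nat_lit 178))) (XT.nd (nat_lit 94) (nat_lit 0) (nat_lit 0) (XT.lf (nat_lit 0) (nat_lit 53734318394) (nat_lit 0) (nat_lit 0) (nat_lit 0) (nat_lit 0) (nat_lit 0) (nat_lit 0) (nat_lit 1) (nat_lit 0) (nat_lit 1) (nat_lit 0) (nat_lit 320) (nat_lit 223) (nat_lit 177)) (XT.lf (nat_lit 0) (nat_lit 56392763416) (nat_lit 0) (nat_lit 0) (nat_lit 0) (nat_lit 0) (nat_lit 0) (nat_lit 0) (nat_lit 1) (nat_lit 0) (nat_lit 1) (nat_lit 0) (nat_lit 321) (nat_lit 223) (nat_lit 176)))) (XT.nd (nat_lit 188) (nat_lit 0) (nat_lit 0) (XT.nd (nat_lit 94) (nat_lit 0) (nat_lit 0) (XT.lf (nat_lit 0) (nat_lit 59184361519) (nat_lit 0) (nat_lit 0) (nat_lit 0) (nat_lit 0) (nat_lit 0) (nat_lit 0) (nat_lit 1) (nat_lit 0) (nat_lit 1) (nat_lit 0) (nat_lit 322) (nat_lit 223) (nat_lit 175)) (XT.lf (nat_lit 0) (nat_lit 62115759362) (nat_lit 0)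 (nat_lit 0) (nat_lit 0) (nat_lit 0) (nat_lit 0) (nat_lit 0) (nat_lit 1) (nat_lit 0) (nat_lit 1) (nat_lit 0) (nat_lit 323) (nat_lit 223) (nat_lit 174))) (XT.nd (nat_lit 94) (nat_lit 0) (nat_lit 0) (XT.lf (nat_lit 0) (nat_lit 65193936467) (nat_lit 0) (nat_lit 0) (nat_lit 0) (nat_lit 0) (nat_lit 0) (nat_lit 0) (nat_lit 1) (nat_lit 0) (nat_lit 1) (nat_lit 0) (nat_lit 324) (nat_lit 223) (nat_lit 173)) (XT.nd (nat_lit 94) (nat_lit 0) (nat_lit 0) (XT.lf (nat_lit 0) (nat_lit 68426221824) (nat_lit 0) (nat_lit 0) (nat_lit 0) (nat_lit 0) (nat_lit 0) (nat_lit 0) (nat_lit 1) (nat_lit 0) (nat_lit 1) (nat_lit 0) (nat_lit 325) (nat_lit 223) (nat_lit 172)) (XT.lf (nat_lit 0) (nat_lit 71820311353) (nat_lit 0) (nat_lit 0) (nat_lit 0) (nat_lit 0) (nat_lit 0) (nat_lit 0) (nat_lit 1) (nat_lit 0) (nat_lit 1) (nat_lit 0) (nat_lit 326) (nat_lit 223) (nat_lit 171))))))) (XT.nd (nat_lit 752) (nat_lit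 0) (nat_lit 0) (XT.nd (nat_lit 376) (nat_lit 0) (nat_lit 0) (XT.nd (nat_lit 188) (nat_lit 0) (nat_lit 0) (XT.nd (nat_lit 94) (nat_lit 0) (nat_lit 0) (XT.lf (nat_lit 0) (nat_lit 75384286219) (nat_lit 0) (nat_lit 0) (nat_lit 0) (nat_lit 0) (nat_lit 0) (nat_lit 0) (nat_lit 1) (nat_lit 0) (nat_lit 1) (nat_lit 0) (nat_lit 327) (nat_lit 223) (nat_lit 170)) (XT.lf (nat_lit 0) (nat_lit 79126632075) (nat_lit 0) (nat_lit 0) (nat_lit 0) (nat_lit 0) (nat_lit 0) (nat_lit 0) (nat_lit 1) (nat_lit 0) (nat_lit 1) (nat_lit 0) (nat_lit 328) (nat_lit 223) (nat_lit 169))) (XT.nd (nat_lit 94) (nat_lit 0) (nat_lit 0) (XT.lf (nat_lit 0) (nat_lit 83056259269) (nat_lit 0) (nat_lit 0) (nat_lit 0) (nat_lit 0) (nat_lit 0) (nat_lit 0) (nat_lit 1) (nat_lit 0) (nat_lit 1) (nat_lit 0) (nat_lit 329) (nat_lit 223) (nat_lit 168)) (XT.lf (nat_lit 0) (nat_lit 87182524058) (nat_lit 0) (nat_lit 0) (nat_lit 0)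 (nat_lit 0) (nat_lit 0) (nat_lit 0) (nat_lit 1) (nat_lit 0) (nat_lit 1) (nat_lit 0) (nat_lit 330) (nat_lit 223) (nat_lit 167)))) (XT.nd (nat_lit 188) (nat_lit 0) (nat_lit 0) (XT.nd (nat_lit 94) (nat_lit 0) (nat_lit 0) (XT.lf (nat_lit 0) (nat_lit 91515250879) (nat_lit 0) (nat_lit 0) (nat_lit 0) (nat_lit 0) (nat_lit 0) (nat_lit 0) (nat_lit 1) (nat_lit 0) (nat_lit 1) (nat_lit 0) (nat_lit 331) (nat_lit 223) (nat_lit 166)) (XT.lf (nat_lit 0) (nat_lit 96064755750) (nat_lit 0) (nat_lit 0) (nat_lit 0) (nat_lit 0) (nat_lit 0) (nat_lit 0) (nat_lit 1) (nat_lit 0) (nat_lit 1) (nat_lit 0) (nat_lit 332) (nat_lit 223) (nat_lit 165))) (XT.nd (nat_lit 94) (nat_lit 0) (nat_lit 0) (XT.lf (nat_lit 0) (nat_lit 100841870826) (nat_lit 0) (nat_lit 0) (nat_lit 0) (nat_lit 0) (nat_lit 0) (nat_lit 0) (nat_lit 1) (nat_lit 0) (nat_lit 1) (nat_lit 0) (nat_lit 333) (nat_lit 223) (nat_lit 164)) (XT.lf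 (nat_lit 0) (nat_lit 105857970189) (nat_lit 0) (nat_lit 0) (nat_lit 0) (nat_lit 0) (nat_lit 0) (nat_lit 0) (nat_lit 1) (nat_lit 0) (nat_lit 1) (nat_lit 0) (nat_lit 334) (nat_lit 223) (nat_lit 163))))) (XT.nd (nat_lit 376) (nat_lit 0) (nat_lit 0) (XT.nd (nat_lit 188) (nat_lit 0) (nat_lit 0) (XT.nd (nat_lit 94) (nat_lit 0) (nat_lit 0) (XT.lf (nat_lit 0) (nat_lit 111124996933) (nat_lit 0) (nat_lit 0) (nat_lit 0) (nat_lit 0) (nat_lit 0) (nat_lit 0) (nat_lit 1) (nat_lit 0) (nat_lit 1) (nat_lit 0) (nat_lit 335) (nat_lit 223) (nat_lit 162)) (XT.lf (nat_lit 0) (nat_lit 116655491599) (nat_lit 0) (nat_lit 0) (nat_lit 0) (nat_lit 0) (nat_lit 0) (nat_lit 0) (nat_lit 1) (nat_lit 0) (nat_lit 1) (nat_lit 0) (nat_lit 336) (nat_lit 223) (nat_lit 161))) (XT.nd (nat_lit 94) (nat_lit 0) (nat_lit 0) (XT.lf (nat_lit 0) (nat_lit 122462622031) (nat_lit 0) (nat_lit 0) (nat_lit 0) (nat_lit 0) (nat_lit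 0) (nat_lit 0) (nat_lit 1) (nat_lit 0) (nat_lit 1) (nat_lit 0) (nat_lit 337) (nat_lit 223) (nat_lit 160)) (XT.lf (nat_lit 0) (nat_lit 128560214729) (nat_lit 0) (nat_lit 0) (nat_lit 0) (nat_lit 0) (nat_lit 0) (nat_lit 0) (nat_lit 1) (nat_lit 0) (nat_lit 1) (nat_lit 0) (nat_lit 338) (nat_lit 223) (nat_lit 159)))) (XT.nd (nat_lit 188) (nat_lit 0) (nat_lit 0) (XT.nd (nat_lit 94) (nat_lit 0) (nat_lit 0) (XT.lf (nat_lit 0) (nat_lit 134962787772) (nat_lit 0) (nat_lit 0) (nat_lit 0) (nat_lit 0) (nat_lit 0) (nat_lit 0) (nat_lit 1) (nat_lit 0) (nat_lit 1) (nat_lit 0) (nat_lit 339) (nat_lit 223) (nat_lit 158)) (XT.lf (nat_lit 0) (nat_lit 141685585381) (nat_lit 0) (nat_lit 0) (nat_lit 0) (nat_lit 0) (nat_lit 0) (nat_lit 0) (nat_lit 1) (nat_lit 0) (nat_lit 1) (nat_lit 0) (nat_lit 340) (nat_lit 223) (nat_lit 157))) (XT.nd (nat_lit 38728) (nat_lit 0) (nat_lit 5628) (XT.lf (nat_lit 0) (nat_lit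 148744614217) (nat_lit 0) (nat_lit 0) (nat_lit 0) (nat_lit 0) (nat_lit 0) (nat_lit 0) (nat_lit 1) (nat_lit 0) (nat_lit 1) (nat_lit 0) (nat_lit 341) (nat_lit 223) (nat_lit 156)) (XT.nd (nat_lit 94) (nat_lit 252) (nat_lit 0) (XT.lf (nat_lit 0) (nat_lit 3693348957) (nat_lit 252) (nat_lit 507556262) (nat_lit 252) (nat_lit 507556262) (nat_lit 70) (nat_lit 4) (nat_lit 73) (nat_lit 5) (nat_lit 73) (nat_lit 4) (nat_lit 272) (nat_lit 224) (nat_lit 224)) (XT.lf (nat_lit 0) (nat_lit 3727595678) (nat_lit 252) (nat_lit 2936941519) (nat_lit 0) (nat_lit 2945010800) (nat_lit 67) (nat_lit 5) (nat_lit 70) (nat_lit 4) (nat_lit 67) (nat_lit 4) (nat_lit 273) (nat_lit 224) (nat_lit 223))))))))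
noncomputable def xc44 : XT := (XT.nd (nat_lit 1504) (nat_lit 1932) (nat_lit 0) (XT.nd (nat_lit 752) (nat_lit 1092) (nat_lit 0) (XT.nd (nat_lit 376) (nat_lit 672) (nat_lit 0) (XT.nd (nat_lit 188) (nat_lit 420) (nat_lit 0) (XT.nd (nat_lit 94) (nat_lit 252) (nat_lit 0) (XT.lf (nat_lit 0) (nat_lit 5940033440) (nat_lit 252) (nat_lit 2700247395) (nat_lit 252) (nat_lit 1172343586) (nat_lit 64) (nat_lit 4) (nat_lit 67) (nat_lit 5) (nat_lit 67) (nat_lit 4) (nat_lit 274) (nat_lit 224) (nat_lit 222)) (XT.lf (nat_lit 0) (nat_lit 3631065593) (nat_lit 252) (nat_lit 4892997480) (nat_lit 0) (nat_lit 1499892867) (nat_lit 61) (nat_lit 5) (nat_lit 64) (nat_lit 4) (nat_lit 61) (nat_lit 4) (nat_lit 275) (nat_lit 224) (nat_lit 221))) (XT.nd (nat_lit 94) (nat_lit 252) (nat_lit 0) (XT.lf (nat_lit 0) (nat_lit 4257640491) (nat_lit 168) (nat_lit 4381043982) (nat_lit 168) (nat_lit 1606036740) (nat_lit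 59) (nat_lit 4) (nat_lit 61) (nat_lit 5) (nat_lit 61) (nat_lit 4) (nat_lit 276) (nat_lit 224) (nat_lit 220)) (XT.lf (nat_lit 0) (nat_lit 3274641670) (nat_lit 252) (nat_lit 7153214992) (nat_lit 0) (nat_lit 47800745) (nat_lit 56) (nat_lit 5) (nat_lit 59) (nat_lit 4) (nat_lit 56) (nat_lit 4) (nat_lit 277) (nat_lit 224) (nat_lit 219)))) (XT.nd (nat_lit 188) (nat_lit 252) (nat_lit 0) (XT.nd (nat_lit 94) (nat_lit 252) (nat_lit 0) (XT.lf (nat_lit 0) (nat_lit 2271546887) (nat_lit 168) (nat_lit 6113160085) (nat_lit 168) (nat_lit 2330150698) (nat_lit 54) (nat_lit 4) (nat_lit 56) (nat_lit 5) (nat_lit 56) (nat_lit 4) (nat_lit 278) (nat_lit 224) (nat_lit 218)) (XT.lf (nat_lit 0) (nat_lit 1152909111) (nat_lit 168) (nat_lit 1513238570) (nat_lit 252) (nat_lit 8299146576) (nat_lit 51) (nat_lit 5) (nat_lit 53) (nat_lit 5) (nat_lit 54) (nat_lit 4) (nat_lit 279) (nat_lit 224) (nat_lit 217)))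 (XT.nd (nat_lit 94) (nat_lit 252) (nat_lit 0) (XT.lf (nat_lit 0) (nat_lit 7862600391) (nat_lit 252) (nat_lit 87476044) (nat_lit 0) (nat_lit 3274833890) (nat_lit 51) (nat_lit 5) (nat_lit 54) (nat_lit 4) (nat_lit 51) (nat_lit 4) (nat_lit 280) (nat_lit 224) (nat_lit 216)) (XT.lf (nat_lit 0) (nat_lit 1786140777) (nat_lit 252) (nat_lit 1383739077) (nat_lit 84) (nat_lit 8325052140) (nat_lit 48) (nat_lit 5) (nat_lit 51) (nat_lit 5) (nat_lit 49) (nat_lit 4) (nat_lit 281) (nat_lit 224) (nat_lit 215))))) (XT.nd (nat_lit 376) (nat_lit 504) (nat_lit 0) (XT.nd (nat_lit 188) (nat_lit 252) (nat_lit 0) (XT.nd (nat_lit 94) (nat_lit 252) (nat_lit 0) (XT.lf (nat_lit 0) (nat_lit 7091419141) (nat_lit 168) (nat_lit 2812335875) (nat_lit 0) (nat_lit 1871323699) (nat_lit 47) (nat_lit 5) (nat_lit 49) (nat_lit 4) (nat_lit 47) (nat_lit 4) (nat_lit 282) (nat_lit 224) (nat_lit 214)) (XT.lf (nat_lit 0)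 (nat_lit 612293425) (nat_lit 252) (nat_lit 4360152462) (nat_lit 84) (nat_lit 7094397388) (nat_lit 44) (nat_lit 5) (nat_lit 47) (nat_lit 5) (nat_lit 45) (nat_lit 4) (nat_lit 283) (nat_lit 224) (nat_lit 213))) (XT.nd (nat_lit 94) (nat_lit 168) (nat_lit 0) (XT.lf (nat_lit 0) (nat_lit 6009871364) (nat_lit 168) (nat_lit 6056370146) (nat_lit 0) (nat_lit 303404039) (nat_lit 43) (nat_lit 5) (nat_lit 45) (nat_lit 4) (nat_lit 43) (nat_lit 4) (nat_lit 284) (nat_lit 224) (nat_lit 212)) (XT.lf (nat_lit 0) (nat_lit 4771938050) (nat_lit 168) (nat_lit 6979915079) (nat_lit 168) (nat_lit 932008564) (nat_lit 41) (nat_lit 4) (nat_lit 43) (nat_lit 5) (nat_lit 43) (nat_lit 4) (nat_lit 285) (nat_lit 224) (nat_lit 211)))) (XT.nd (nat_lit 188) (nat_lit 168) (nat_lit 0) (XT.nd (nat_lit 94) (nat_lit 168) (nat_lit 0) (XT.lf (nat_lit 0) (nat_lit 3079242343) (nat_lit 84) (nat_lit 1531649871) (nat_lit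 168) (nat_lit 8399358738) (nat_lit 39) (nat_lit 5) (nat_lit 40) (nat_lit 5) (nat_lit 41) (nat_lit 4) (nat_lit 286) (nat_lit 224) (nat_lit 210)) (XT.lf (nat_lit 0) (nat_lit 1216980159) (nat_lit 168) (nat_lit 9248244768) (nat_lit 168) (nat_lit 2883690381) (nat_lit 37) (nat_lit 4) (nat_lit 39) (nat_lit 5) (nat_lit 39) (nat_lit 4) (nat_lit 287) (nat_lit 224) (nat_lit 209))) (XT.nd (nat_lit 94) (nat_lit 84) (nat_lit 0) (XT.lf (nat_lit 0) (nat_lit 2856236183) (nat_lit 252) (nat_lit 790173077) (nat_lit 84) (nat_lit 10053756640) (nat_lit 36) (nat_lit 5) (nat_lit 39) (nat_lit 5) (nat_lit 37) (nat_lit 4) (nat_lit 288) (nat_lit 224) (nat_lit 208)) (XT.lf (nat_lit 0) (nat_lit 8849790632) (nat_lit 168) (nat_lit 2947651043) (nat_lit 0) (nat_lit 2265996544) (nat_lit 35) (nat_lit 5) (nat_lit 37) (nat_lit 4) (nat_lit 35) (nat_lit 4) (nat_lit 289) (nat_lit 224) (nat_lit 207)))))) (XT.nd (nat_lit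 752) (nat_lit 924) (nat_lit 0) (XT.nd (nat_lit 376) (nat_lit 336) (nat_lit 0) (XT.nd (nat_lit 188) (nat_lit 336) (nat_lit 0) (XT.nd (nat_lit 94) (nat_lit 84) (nat_lit 0) (XT.lf (nat_lit 0) (nat_lit 746999709) (nat_lit 252) (nat_lit 5295099142) (nat_lit 84) (nat_lit 8398670491) (nat_lit 32) (nat_lit 5) (nat_lit 35) (nat_lit 5) (nat_lit 33) (nat_lit 4) (nat_lit 290) (nat_lit 224) (nat_lit 206)) (XT.lf (nat_lit 0) (nat_lit 6846153617) (nat_lit 168) (nat_lit 7861076271) (nat_lit 0) (nat_lit 124679302) (nat_lit 31) (nat_lit 5) (nat_lit 33) (nat_lit 4) (nat_lit 31) (nat_lit 4) (nat_lit 291) (nat_lit 224) (nat_lit 205))) (XT.nd (nat_lit 94) (nat_lit 168) (nat_lit 0) (XT.lf (nat_lit 0) (nat_lit 4565176803) (nat_lit 168) (nat_lit 8801352198) (nat_lit 168) (nat_lit 1870263840) (nat_lit 29) (nat_lit 4) (nat_lit 31) (nat_lit 5) (nat_lit 31) (nat_lit 4) (nat_lit 292) (nat_lit 224) (nat_lit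 204)) (XT.lf (nat_lit 0) (nat_lit 1942818039) (nat_lit 84) (nat_lit 2483298458) (nat_lit 168) (nat_lit 11231212757) (nat_lit 27) (nat_lit 5) (nat_lit 28) (nat_lit 5) (nat_lit 29) (nat_lit 4) (nat_lit 293) (nat_lit 224) (nat_lit 203)))) (XT.nd (nat_lit 188) (nat_lit 168) (nat_lit 0) (XT.nd (nat_lit 94) (nat_lit 168) (nat_lit 0) (XT.lf (nat_lit 0) (nat_lit 11078709689) (nat_lit 168) (nat_lit 906962898) (nat_lit 0) (nat_lit 4106474548) (nat_lit 27) (nat_lit 5) (nat_lit 29) (nat_lit 4) (nat_lit 27) (nat_lit 4) (nat_lit 294) (nat_lit 224) (nat_lit 202)) (XT.lf (nat_lit 0) (nat_lit 1569070862) (nat_lit 168) (nat_lit 3928089865) (nat_lit 84) (nat_lit 11045245291) (nat_lit 25) (nat_lit 5) (nat_lit 27) (nat_lit 5) (nat_lit 26) (nat_lit 4) (nat_lit 295) (nat_lit 224) (nat_lit 201))) (XT.nd (nat_lit 94) (nat_lit 84) (nat_lit 0) (XT.lf (nat_lit 0) (nat_lit 8366333860) (nat_lit 168)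 (nat_lit 7236574325) (nat_lit 0) (nat_lit 1405454601) (nat_lit 24) (nat_lit 5) (nat_lit 26) (nat_lit 4) (nat_lit 24) (nat_lit 4) (nat_lit 296) (nat_lit 224) (nat_lit 200)) (XT.lf (nat_lit 0) (nat_lit 6655823483) (nat_lit 84) (nat_lit 8972694529) (nat_lit 84) (nat_lit 1862846482) (nat_lit 23) (nat_lit 4) (nat_lit 24) (nat_lit 5) (nat_lit 24) (nat_lit 4) (nat_lit 297) (nat_lit 224) (nat_lit 199))))) (XT.nd (nat_lit 376) (nat_lit 504) (nat_lit 0) (XT.nd (nat_lit 188) (nat_lit 252) (nat_lit 0) (XT.nd (nat_lit 94) (nat_lit 0) (nat_lit 0) (XT.lf (nat_lit 0) (nat_lit 3256893293) (nat_lit 84) (nat_lit 1869261036) (nat_lit 168) (nat_lit 12866306388) (nat_lit 21) (nat_lit 5) (nat_lit 22) (nat_lit 5) (nat_lit 23) (nat_lit 4) (nat_lit 298) (nat_lit 224) (nat_lit 198)) (XT.lf (nat_lit 0) (nat_lit 12539871631) (nat_lit 168) (nat_lit 465535826) (nat_lit 0) (nat_lit 5504783855) (nat_lit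 21) (nat_lit 5) (nat_lit 23) (nat_lit 4) (nat_lit 21) (nat_lit 4) (nat_lit 299) (nat_lit 224) (nat_lit 197))) (XT.nd (nat_lit 94) (nat_lit 84) (nat_lit 0) (XT.lf (nat_lit 0) (nat_lit 1362744586) (nat_lit 168) (nat_lit 4364018362) (nat_lit 84) (nat_lit 13319406657) (nat_lit 19) (nat_lit 5) (nat_lit 21) (nat_lit 5) (nat_lit 20) (nat_lit 4) (nat_lit 300) (nat_lit 224) (nat_lit 196)) (XT.lf (nat_lit 0) (nat_lit 8944797547) (nat_lit 168) (nat_lit 8638276488) (nat_lit 0) (nat_lit 2016830206) (nat_lit 18) (nat_lit 5) (nat_lit 20) (nat_lit 4) (nat_lit 18) (nat_lit 4) (nat_lit 301) (nat_lit 224) (nat_lit 195)))) (XT.nd (nat_lit 188) (nat_lit 252) (nat_lit 0) (XT.nd (nat_lit 94) (nat_lit 168) (nat_lit 0) (XT.lf (nat_lit 0) (nat_lit 6899835906) (nat_lit 84) (nat_lit 10153966947) (nat_lit 84) (nat_lit 3120130270) (nat_lit 17) (nat_lit 4) (nat_lit 18) (nat_lit 5) (nat_lit 18) (nat_lit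 4) (nat_lit 302) (nat_lit 224) (nat_lit 194)) (XT.lf (nat_lit 0) (nat_lit 2494525325) (nat_lit 84) (nat_lit 2202640500) (nat_lit 168) (nat_lit 16072810523) (nat_lit 15) (nat_lit 5) (nat_lit 16) (nat_lit 5) (nat_lit 17) (nat_lit 4) (nat_lit 303) (nat_lit 224) (nat_lit 193))) (XT.nd (nat_lit 94) (nat_lit 252) (nat_lit 0) (XT.lf (nat_lit 0) (nat_lit 12996527336) (nat_lit 168) (nat_lit 2276779300) (nat_lit 0) (nat_lit 6110154740) (nat_lit 15) (nat_lit 5) (nat_lit 17) (nat_lit 4) (nat_lit 15) (nat_lit 4) (nat_lit 304) (nat_lit 224) (nat_lit 192)) (XT.nd (nat_lit 94) (nat_lit 168) (nat_lit 0) (XT.lf (nat_lit 0) (nat_lit 14714946171) (nat_lit 84) (nat_lit 7139483700) (nat_lit 84) (nat_lit 166012139) (nat_lit 14) (nat_lit 4) (nat_lit 15) (nat_lit 5) (nat_lit 15) (nat_lit 4) (nat_lit 305) (nat_lit 224) (nat_lit 191)) (XT.lf (nat_lit 0) (nat_lit 8291797423) (nat_lit 168) (nat_lit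 12814630527) (nat_lit 0) (nat_lit 1571394608) (nat_lit 12) (nat_lit 5) (nat_lit 14) (nat_lit 4) (nat_lit 12) (nat_lit 4) (nat_lit 306) (nat_lit 224) (nat_lit 190))))))))
noncomputable def xc45 : XT := (XT.nd (nat_lit 1598) (nat_lit 0) (nat_lit 0) (XT.nd (nat_lit 752) (nat_lit 252) (nat_lit 0) (XT.nd (nat_lit 376) (nat_lit 420) (nat_lit 0) (XT.nd (nat_lit 188) (nat_lit 168) (nat_lit 0) (XT.nd (nat_lit 94) (nat_lit 84) (nat_lit 0) (XT.lf (nat_lit 0) (nat_lit 4564211696) (nat_lit 84) (nat_lit 12794878962) (nat_lit 84) (nat_lit 5999236787) (nat_lit 11) (nat_lit 4) (nat_lit 12) (nat_lit 5) (nat_lit 12) (nat_lit 4) (nat_lit 307) (nat_lit 224) (nat_lit 189)) (XT.lf (nat_lit 0) (nat_lit 2815874150) (nat_lit 168) (nat_lit 1094756701) (nat_lit 84) (nat_lit 20155094493) (nat_lit 10) (nat_lit 5) (nat_lit 12) (nat_lit 5) (nat_lit 11) (nat_lit 4) (nat_lit 308) (nat_lit 224) (nat_lit 188)))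 (XT.nd (nat_lit 94) (nat_lit 84) (nat_lit 0) (XT.lf (nat_lit 0) (nat_lit 12119894102) (nat_lit 168) (nat_lit 7156578240) (nat_lit 0) (nat_lit 5514615029) (nat_lit 9) (nat_lit 5) (nat_lit 11) (nat_lit 4) (nat_lit 9) (nat_lit 4) (nat_lit 309) (nat_lit 224) (nat_lit 187)) (XT.lf (nat_lit 0) (nat_lit 11871053303) (nat_lit 84) (nat_lit 10170607789) (nat_lit 84) (nat_lit 3503429107) (nat_lit 8) (nat_lit 4) (nat_lit 9) (nat_lit 5) (nat_lit 9) (nat_lit 4) (nat_lit 310) (nat_lit 224) (nat_lit 186)))) (XT.nd (nat_lit 188) (nat_lit 252) (nat_lit 0) (XT.nd (nat_lit 94) (nat_lit 0) (nat_lit 0) (XT.lf (nat_lit 0) (nat_lit 5619021311) (nat_lit 84) (nat_lit 403004054) (nat_lit 168) (nat_lit 20305224784) (nat_lit 6) (nat_lit 5) (nat_lit 7) (nat_lit 5) (nat_lit 8) (nat_lit 4) (nat_lit 311) (nat_lit 224) (nat_lit 185)) (XT.lf (nat_lit 0) (nat_lit 16179755770) (nat_lit 168) (nat_lit 1231757785)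 (nat_lit 0) (nat_lit 9720445809) (nat_lit 6) (nat_lit 5) (nat_lit 8) (nat_lit 4) (nat_lit 6) (nat_lit 4) (nat_lit 312) (nat_lit 224) (nat_lit 184))) (XT.nd (nat_lit 94) (nat_lit 168) (nat_lit 0) (XT.lf (nat_lit 0) (nat_lit 19619672339) (nat_lit 84) (nat_lit 7428659338) (nat_lit 84) (nat_lit 918424416) (nat_lit 5) (nat_lit 4) (nat_lit 6) (nat_lit 5) (nat_lit 6) (nat_lit 4) (nat_lit 313) (nat_lit 224) (nat_lit 183)) (XT.lf (nat_lit 0) (nat_lit 9471663781) (nat_lit 168) (nat_lit 16130750543) (nat_lit 0) (nat_lit 3225249605) (nat_lit 3) (nat_lit 5) (nat_lit 5) (nat_lit 4) (nat_lit 3) (nat_lit 4) (nat_lit 314) (nat_lit 224) (nat_lit 182))))) (XT.nd (nat_lit 376) (nat_lit 0) (nat_lit 0) (XT.nd (nat_lit 188) (nat_lit 84) (nat_lit 0) (XT.nd (nat_lit 94) (nat_lit 84) (nat_lit 0) (XT.lf (nat_lit 0) (nat_lit 5164036874) (nat_lit 84) (nat_lit 15422707449) (nat_lit 84) (nat_lit 9132302378)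 (nat_lit 2) (nat_lit 4) (nat_lit 3) (nat_lit 5) (nat_lit 3) (nat_lit 4) (nat_lit 315) (nat_lit 224) (nat_lit 181)) (XT.lf (nat_lit 0) (nat_lit 1719285882) (nat_lit 168) (nat_lit 2807765104) (nat_lit 84) (nat_lit 26118296677) (nat_lit 1) (nat_lit 5) (nat_lit 3) (nat_lit 5) (nat_lit 2) (nat_lit 4) (nat_lit 316) (nat_lit 224) (nat_lit 180))) (XT.nd (nat_lit 94) (nat_lit 0) (nat_lit 0) (XT.lf (nat_lit 0) (nat_lit 46516787143) (nat_lit 0) (nat_lit 0) (nat_lit 0) (nat_lit 0) (nat_lit 0) (nat_lit 0) (nat_lit 1) (nat_lit 0) (nat_lit 1) (nat_lit 0) (nat_lit 317) (nat_lit 224) (nat_lit 179)) (XT.lf (nat_lit 0) (nat_lit 48812687570) (nat_lit 0) (nat_lit 0) (nat_lit 0) (nat_lit 0) (nat_lit 0) (nat_lit 0) (nat_lit 1) (nat_lit 0) (nat_lit 1) (nat_lit 0) (nat_lit 318) (nat_lit 224) (nat_lit 178)))) (XT.nd (nat_lit 188) (nat_lit 0) (nat_lit 0) (XT.nd (nat_lit 94) (nat_lit 0) (nat_lit 0)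 (XT.lf (nat_lit 0) (nat_lit 51223637507) (nat_lit 0) (nat_lit 0) (nat_lit 0) (nat_lit 0) (nat_lit 0) (nat_lit 0) (nat_lit 1) (nat_lit 0) (nat_lit 1) (nat_lit 0) (nat_lit 319) (nat_lit 224) (nat_lit 177)) (XT.lf (nat_lit 0) (nat_lit 53755377310) (nat_lit 0) (nat_lit 0) (nat_lit 0) (nat_lit 0) (nat_lit 0) (nat_lit 0) (nat_lit 1) (nat_lit 0) (nat_lit 1) (nat_lit 0) (nat_lit 320) (nat_lit 224) (nat_lit 176))) (XT.nd (nat_lit 94) (nat_lit 0) (nat_lit 0) (XT.lf (nat_lit 0) (nat_lit 56413934932) (nat_lit 0) (nat_lit 0) (nat_lit 0) (nat_lit 0) (nat_lit 0) (nat_lit 0) (nat_lit 1) (nat_lit 0) (nat_lit 1) (nat_lit 0) (nat_lit 321) (nat_lit 224) (nat_lit 175)) (XT.nd (nat_lit 94) (nat_lit 0) (nat_lit 0) (XT.lf (nat_lit 0) (nat_lit 59205640271) (nat_lit 0) (nat_lit 0) (nat_lit 0) (nat_lit 0) (nat_lit 0) (nat_lit 0) (nat_lit 1) (nat_lit 0) (nat_lit 1) (nat_lit 0) (nat_lit 322) (nat_lit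 224) (nat_lit 174)) (XT.lf (nat_lit 0) (nat_lit 62137140246) (nat_lit 0) (nat_lit 0) (nat_lit 0) (nat_lit 0) (nat_lit 0) (nat_lit 0) (nat_lit 1) (nat_lit 0) (nat_lit 1) (nat_lit 0) (nat_lit 323) (nat_lit 224) (nat_lit 173))))))) (XT.nd (nat_lit 752) (nat_lit 0) (nat_lit 0) (XT.nd (nat_lit 376) (nat_lit 0) (nat_lit 0) (XT.nd (nat_lit 188) (nat_lit 0) (nat_lit 0) (XT.nd (nat_lit 94) (nat_lit 0) (nat_lit 0) (XT.lf (nat_lit 0) (nat_lit 65215414618) (nat_lit 0) (nat_lit 0) (nat_lit 0) (nat_lit 0) (nat_lit 0) (nat_lit 0) (nat_lit 1) (nat_lit 0) (nat_lit 1) (nat_lit 0) (nat_lit 324) (nat_lit 224) (nat_lit 172)) (XT.lf (nat_lit 0) (nat_lit 68447792611) (nat_lit 0) (nat_lit 0) (nat_lit 0) (nat_lit 0) (nat_lit 0) (nat_lit 0) (nat_lit 1) (nat_lit 0) (nat_lit 1) (nat_lit 0) (nat_lit 325) (nat_lit 224) (nat_lit 171))) (XT.nd (nat_lit 94) (nat_lit 0) (nat_lit 0) (XT.lf (nat_lit 0) (nat_lit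 71841970364) (nat_lit 0) (nat_lit 0) (nat_lit 0) (nat_lit 0) (nat_lit 0) (nat_lit 0) (nat_lit 1) (nat_lit 0) (nat_lit 1) (nat_lit 0) (nat_lit 326) (nat_lit 224) (nat_lit 170)) (XT.lf (nat_lit 0) (nat_lit 75406029253) (nat_lit 0) (nat_lit 0) (nat_lit 0) (nat_lit 0) (nat_lit 0) (nat_lit 0) (nat_lit 1) (nat_lit 0) (nat_lit 1) (nat_lit 0) (nat_lit 327) (nat_lit 224) (nat_lit 169)))) (XT.nd (nat_lit 188) (nat_lit 0) (nat_lit 0) (XT.nd (nat_lit 94) (nat_lit 0) (nat_lit 0) (XT.lf (nat_lit 0) (nat_lit 79148455131) (nat_lit 0) (nat_lit 0) (nat_lit 0) (nat_lit 0) (nat_lit 0) (nat_lit 0) (nat_lit 1) (nat_lit 0) (nat_lit 1) (nat_lit 0) (nat_lit 328) (nat_lit 224) (nat_lit 168)) (XT.lf (nat_lit 0) (nat_lit 83078158538) (nat_lit 0) (nat_lit 0) (nat_lit 0) (nat_lit 0) (nat_lit 0) (nat_lit 0) (nat_lit 1) (nat_lit 0) (nat_lit 1) (nat_lit 0) (nat_lit 329) (nat_lit 224) (nat_lit 167))) (XT.nd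 (nat_lit 94) (nat_lit 0) (nat_lit 0) (XT.lf (nat_lit 0) (nat_lit 87204495908) (nat_lit 0) (nat_lit 0) (nat_lit 0) (nat_lit 0) (nat_lit 0) (nat_lit 0) (nat_lit 1) (nat_lit 0) (nat_lit 1) (nat_lit 0) (nat_lit 330) (nat_lit 224) (nat_lit 166)) (XT.lf (nat_lit 0) (nat_lit 91537291856) (nat_lit 0) (nat_lit 0) (nat_lit 0) (nat_lit 0) (nat_lit 0) (nat_lit 0) (nat_lit 1) (nat_lit 0) (nat_lit 1) (nat_lit 0) (nat_lit 331) (nat_lit 224) (nat_lit 165))))) (XT.nd (nat_lit 376) (nat_lit 0) (nat_lit 0) (XT.nd (nat_lit 188) (nat_lit 0) (nat_lit 0) (XT.nd (nat_lit 94) (nat_lit 0) (nat_lit 0) (XT.lf (nat_lit 0) (nat_lit 96086862562) (nat_lit 0) (nat_lit 0) (nat_lit 0) (nat_lit 0) (nat_lit 0) (nat_lit 0) (nat_lit 1) (nat_lit 0) (nat_lit 1) (nat_lit 0) (nat_lit 332) (nat_lit 224) (nat_lit 164)) (XT.lf (nat_lit 0) (nat_lit 100864040336) (nat_lit 0) (nat_lit 0) (nat_lit 0) (nat_lit 0) (nat_lit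 0) (nat_lit 0) (nat_lit 1) (nat_lit 0) (nat_lit 1) (nat_lit 0) (nat_lit 333) (nat_lit 224) (nat_lit 163))) (XT.nd (nat_lit 94) (nat_lit 0) (nat_lit 0) (XT.lf (nat_lit 0) (nat_lit 105880199413) (nat_lit 0) (nat_lit 0) (nat_lit 0) (nat_lit 0) (nat_lit 0) (nat_lit 0) (nat_lit 1) (nat_lit 0) (nat_lit 1) (nat_lit 0) (nat_lit 334) (nat_lit 224) (nat_lit 162)) (XT.lf (nat_lit 0) (nat_lit 111147283028) (nat_lit 0) (nat_lit 0) (nat_lit 0) (nat_lit 0) (nat_lit 0) (nat_lit 0) (nat_lit 1) (nat_lit 0) (nat_lit 1) (nat_lit 0) (nat_lit 335) (nat_lit 224) (nat_lit 161)))) (XT.nd (nat_lit 188) (nat_lit 0) (nat_lit 0) (XT.nd (nat_lit 94) (nat_lit 0) (nat_lit 0) (XT.lf (nat_lit 0) (nat_lit 116677831856) (nat_lit 0) (nat_lit 0) (nat_lit 0) (nat_lit 0) (nat_lit 0) (nat_lit 0) (nat_lit 1) (nat_lit 0) (nat_lit 1) (nat_lit 0) (nat_lit 336) (nat_lit 224) (nat_lit 160)) (XT.lf (nat_lit 0) (nat_lit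 122485013871) (nat_lit 0) (nat_lit 0) (nat_lit 0) (nat_lit 0) (nat_lit 0) (nat_lit 0) (nat_lit 1) (nat_lit 0) (nat_lit 1) (nat_lit 0) (nat_lit 337) (nat_lit 224) (nat_lit 159))) (XT.nd (nat_lit 94) (nat_lit 0) (nat_lit 0) (XT.lf (nat_lit 0) (nat_lit 128582655695) (nat_lit 0) (nat_lit 0) (nat_lit 0) (nat_lit 0) (nat_lit 0) (nat_lit 0) (nat_lit 1) (nat_lit 0) (nat_lit 1) (nat_lit 0) (nat_lit 338) (nat_lit 224) (nat_lit 158)) (XT.nd (nat_lit 94) (nat_lit 0) (nat_lit 0) (XT.lf (nat_lit 0) (nat_lit 134985275526) (nat_lit 0) (nat_lit 0) (nat_lit 0) (nat_lit 0) (nat_lit 0) (nat_lit 0) (nat_lit 1) (nat_lit 0) (nat_lit 1) (nat_lit 0) (nat_lit 339) (nat_lit 224) (nat_lit 157)) (XT.lf (nat_lit 0) (nat_lit 141708117694) (nat_lit 0) (nat_lit 0) (nat_lit 0) (nat_lit 0) (nat_lit 0) (nat_lit 0) (nat_lit 1) (nat_lit 0) (nat_lit 1) (nat_lit 0) (nat_lit 340) (nat_lit 224) (nat_lit 156))))))))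
noncomputable def xc46 : XT := (XT.nd (nat_lit 40044) (nat_lit 0) (nat_lit 1512) (XT.nd (nat_lit 39198) (nat_lit 0) (nat_lit 3444) (XT.nd (nat_lit 38822) (nat_lit 0) (nat_lit 4956) (XT.nd (nat_lit 38634) (nat_lit 0) (nat_lit 5880) (XT.nd (nat_lit 38540) (nat_lit 0) (nat_lit 6468) (XT.lf (nat_lit 0) (nat_lit 148767188967) (nat_lit 0) (nat_lit 0) (nat_lit 0) (nat_lit 0) (nat_lit 0) (nat_lit 0) (nat_lit 1) (nat_lit 0) (nat_lit 1) (nat_lit 0) (nat_lit 341) (nat_lit 224) (nat_lit 155)) (XT.lf (nat_lit 0) (nat_lit 4394886957) (nat_lit 252) (nat_lit 65571792) (nat_lit 252) (nat_lit 65571792) (nat_lit 77) (nat_lit 4) (nat_lit 80) (nat_lit 5) (nat_lit 80) (nat_lit 4) (nat_lit 270) (nat_lit 225) (nat_lit 225))) (XT.nd (nat_lit 94) (nat_lit 252) (nat_lit 0) (XT.lf (nat_lit 0) (nat_lit 4437938553) (nat_lit 336) (nat_lit 1217835765) (nat_lit 0) (nat_lit 3575138725) (nat_lit 73) (nat_lit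 5) (nat_lit 77) (nat_lit 4) (nat_lit 73) (nat_lit 4) (nat_lit 271) (nat_lit 225) (nat_lit 224)) (XT.lf (nat_lit 0) (nat_lit 7250746221) (nat_lit 252) (nat_lit 1927504339) (nat_lit 252) (nat_lit 242990390) (nat_lit 70) (nat_lit 4) (nat_lit 73) (nat_lit 5) (nat_lit 73) (nat_lit 4) (nat_lit 272) (nat_lit 225) (nat_lit 223)))) (XT.nd (nat_lit 188) (nat_lit 420) (nat_lit 0) (XT.nd (nat_lit 94) (nat_lit 252) (nat_lit 0) (XT.lf (nat_lit 0) (nat_lit 4371937527) (nat_lit 252) (nat_lit 3224159488) (nat_lit 0) (nat_lit 2022319596) (nat_lit 67) (nat_lit 5) (nat_lit 70) (nat_lit 4) (nat_lit 67) (nat_lit 4) (nat_lit 273) (nat_lit 225) (nat_lit 222)) (XT.lf (nat_lit 0) (nat_lit 5505472201) (nat_lit 252) (nat_lit 3689962850) (nat_lit 252) (nat_lit 630517366) (nat_lit 64) (nat_lit 4) (nat_lit 67) (nat_lit 5) (nat_lit 67) (nat_lit 4) (nat_lit 274) (nat_lit 225) (nat_lit 221))) (XT.nd (nat_lit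 94) (nat_lit 168) (nat_lit 0) (XT.lf (nat_lit 0) (nat_lit 4047895932) (nat_lit 252) (nat_lit 5504043923) (nat_lit 0) (nat_lit 490303812) (nat_lit 61) (nat_lit 5) (nat_lit 64) (nat_lit 4) (nat_lit 61) (nat_lit 4) (nat_lit 275) (nat_lit 225) (nat_lit 220)) (XT.lf (nat_lit 0) (nat_lit 3486906700) (nat_lit 168) (nat_lit 5475756339) (nat_lit 168) (nat_lit 1304988490) (nat_lit 59) (nat_lit 4) (nat_lit 61) (nat_lit 5) (nat_lit 61) (nat_lit 4) (nat_lit 276) (nat_lit 225) (nat_lit 219))))) (XT.nd (nat_lit 376) (nat_lit 840) (nat_lit 0) (XT.nd (nat_lit 188) (nat_lit 252) (nat_lit 0) (XT.nd (nat_lit 94) (nat_lit 168) (nat_lit 0) (XT.lf (nat_lit 0) (nat_lit 2358512212) (nat_lit 168) (nat_lit 1111369224) (nat_lit 252) (nat_lit 7033279928) (nat_lit 56) (nat_lit 5) (nat_lit 58) (nat_lit 5) (nat_lit 59) (nat_lit 4) (nat_lit 277) (nat_lit 225) (nat_lit 218)) (XT.lf (nat_lit 0) (nat_lit 1124359385)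 (nat_lit 168) (nat_lit 7340875209) (nat_lit 168) (nat_lit 2282862641) (nat_lit 54) (nat_lit 4) (nat_lit 56) (nat_lit 5) (nat_lit 56) (nat_lit 4) (nat_lit 278) (nat_lit 225) (nat_lit 217))) (XT.nd (nat_lit 94) (nat_lit 168) (nat_lit 0) (XT.lf (nat_lit 0) (nat_lit 2614885830) (nat_lit 252) (nat_lit 201957805) (nat_lit 84) (nat_lit 8186505092) (nat_lit 53) (nat_lit 5) (nat_lit 56) (nat_lit 5) (nat_lit 54) (nat_lit 4) (nat_lit 279) (nat_lit 225) (nat_lit 216)) (XT.lf (nat_lit 0) (nat_lit 7709407428) (nat_lit 252) (nat_lit 1604401721) (nat_lit 0) (nat_lit 1954252203) (nat_lit 51) (nat_lit 5) (nat_lit 54) (nat_lit 4) (nat_lit 51) (nat_lit 4) (nat_lit 280) (nat_lit 225) (nat_lit 215)))) (XT.nd (nat_lit 188) (nat_lit 504) (nat_lit 0) (XT.nd (nat_lit 94) (nat_lit 84) (nat_lit 0) (XT.lf (nat_lit 0) (nat_lit 1493303178) (nat_lit 252) (nat_lit 3129656251) (nat_lit 84) (nat_lit 6920415757)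 (nat_lit 48) (nat_lit 5) (nat_lit 51) (nat_lit 5) (nat_lit 49) (nat_lit 4) (nat_lit 281) (nat_lit 225) (nat_lit 214)) (XT.lf (nat_lit 0) (nat_lit 6670027260) (nat_lit 168) (nat_lit 4781275328) (nat_lit 0) (nat_lit 378647034) (nat_lit 47) (nat_lit 5) (nat_lit 49) (nat_lit 4) (nat_lit 47) (nat_lit 4) (nat_lit 282) (nat_lit 225) (nat_lit 213))) (XT.nd (nat_lit 94) (nat_lit 252) (nat_lit 0) (XT.lf (nat_lit 0) (nat_lit 42058834) (nat_lit 252) (nat_lit 6581596321) (nat_lit 84) (nat_lit 5503891576) (nat_lit 44) (nat_lit 5) (nat_lit 47) (nat_lit 5) (nat_lit 45) (nat_lit 4) (nat_lit 283) (nat_lit 225) (nat_lit 212)) (XT.nd (nat_lit 94) (nat_lit 168) (nat_lit 0) (XT.lf (nat_lit 0) (nat_lit 3886859176) (nat_lit 84) (nat_lit 1436646803) (nat_lit 168) (nat_lit 7112649566) (nat_lit 43) (nat_lit 5) (nat_lit 44) (nat_lit 5) (nat_lit 45) (nat_lit 4) (nat_lit 284) (nat_lit 225) (nat_lit 211))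 (XT.lf (nat_lit 0) (nat_lit 2082531977) (nat_lit 168) (nat_lit 8845809127) (nat_lit 168) (nat_lit 1828887915) (nat_lit 41) (nat_lit 4) (nat_lit 43) (nat_lit 5) (nat_lit 43) (nat_lit 4) (nat_lit 285) (nat_lit 225) (nat_lit 210))))))) (XT.nd (nat_lit 752) (nat_lit 840) (nat_lit 0) (XT.nd (nat_lit 376) (nat_lit 588) (nat_lit 0) (XT.nd (nat_lit 188) (nat_lit 336) (nat_lit 0) (XT.nd (nat_lit 94) (nat_lit 0) (nat_lit 0) (XT.lf (nat_lit 0) (nat_lit 102098558) (nat_lit 84) (nat_lit 3521664944) (nat_lit 168) (nat_lit 9466502672) (nat_lit 39) (nat_lit 5) (nat_lit 40) (nat_lit 5) (nat_lit 41) (nat_lit 4) (nat_lit 286) (nat_lit 225) (nat_lit 209)) (XT.lf (nat_lit 0) (nat_lit 9356024499) (nat_lit 168) (nat_lit 1981618100) (nat_lit 0) (nat_lit 2097391516) (nat_lit 39) (nat_lit 5) (nat_lit 41) (nat_lit 4) (nat_lit 39) (nat_lit 4) (nat_lit 287) (nat_lit 225) (nat_lit 208))) (XT.nd (nat_lit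 94) (nat_lit 84) (nat_lit 0) (XT.lf (nat_lit 0) (nat_lit 1594906835) (nat_lit 252) (nat_lit 4256600509) (nat_lit 84) (nat_lit 7940923868) (nat_lit 36) (nat_lit 5) (nat_lit 39) (nat_lit 5) (nat_lit 37) (nat_lit 4) (nat_lit 288) (nat_lit 225) (nat_lit 207)) (XT.lf (nat_lit 0) (nat_lit 7425832334) (nat_lit 168) (nat_lit 6722595742) (nat_lit 0) (nat_lit 15406903) (nat_lit 35) (nat_lit 5) (nat_lit 37) (nat_lit 4) (nat_lit 35) (nat_lit 4) (nat_lit 289) (nat_lit 225) (nat_lit 206)))) (XT.nd (nat_lit 188) (nat_lit 252) (nat_lit 0) (XT.nd (nat_lit 94) (nat_lit 168) (nat_lit 0) (XT.lf (nat_lit 0) (nat_lit 5126538835) (nat_lit 168) (nat_lit 8531650379) (nat_lit 168) (nat_lit 890125464) (nat_lit 33) (nat_lit 4) (nat_lit 35) (nat_lit 5) (nat_lit 35) (nat_lit 4) (nat_lit 290) (nat_lit 225) (nat_lit 205)) (XT.lf (nat_lit 0) (nat_lit 2591970897) (nat_lit 84) (nat_lit 2507341569) (nat_lit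 168) (nat_lit 9847747204) (nat_lit 31) (nat_lit 5) (nat_lit 32) (nat_lit 5) (nat_lit 33) (nat_lit 4) (nat_lit 291) (nat_lit 225) (nat_lit 204))) (XT.nd (nat_lit 94) (nat_lit 252) (nat_lit 0) (XT.lf (nat_lit 0) (nat_lit 11441806149) (nat_lit 168) (nat_lit 164114352) (nat_lit 0) (nat_lit 3754916906) (nat_lit 31) (nat_lit 5) (nat_lit 33) (nat_lit 4) (nat_lit 31) (nat_lit 4) (nat_lit 292) (nat_lit 225) (nat_lit 203)) (XT.lf (nat_lit 0) (nat_lit 2342595168) (nat_lit 252) (nat_lit 3074695264) (nat_lit 84) (nat_lit 10370699101) (nat_lit 28) (nat_lit 5) (nat_lit 31) (nat_lit 5) (nat_lit 29) (nat_lit 4) (nat_lit 293) (nat_lit 225) (nat_lit 202))))) (XT.nd (nat_lit 376) (nat_lit 420) (nat_lit 0) (XT.nd (nat_lit 188) (nat_lit 252) (nat_lit 0) (XT.nd (nat_lit 94) (nat_lit 84) (nat_lit 0) (XT.lf (nat_lit 0) (nat_lit 8831961425) (nat_lit 168) (nat_lit 6241415295) (nat_lit 0) (nat_lit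 1157592042) (nat_lit 27) (nat_lit 5) (nat_lit 29) (nat_lit 4) (nat_lit 27) (nat_lit 4) (nat_lit 294) (nat_lit 225) (nat_lit 201)) (XT.lf (nat_lit 0) (nat_lit 7003375638) (nat_lit 84) (nat_lit 8762658441) (nat_lit 84) (nat_lit 924050969) (nat_lit 26) (nat_lit 4) (nat_lit 27) (nat_lit 5) (nat_lit 27) (nat_lit 4) (nat_lit 295) (nat_lit 225) (nat_lit 200))) (XT.nd (nat_lit 94) (nat_lit 84) (nat_lit 0) (XT.lf (nat_lit 0) (nat_lit 3734656594) (nat_lit 84) (nat_lit 1987139158) (nat_lit 168) (nat_lit 11444017000) (nat_lit 24) (nat_lit 5) (nat_lit 25) (nat_lit 5) (nat_lit 26) (nat_lit 4) (nat_lit 296) (nat_lit 225) (nat_lit 199)) (XT.lf (nat_lit 0) (nat_lit 161412695) (nat_lit 84) (nat_lit 12626689950) (nat_lit 84) (nat_lit 4870505677) (nat_lit 23) (nat_lit 4) (nat_lit 24) (nat_lit 5) (nat_lit 24) (nat_lit 4) (nat_lit 297) (nat_lit 225) (nat_lit 198)))) (XT.nd (nat_lit 188) (nat_lit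 252) (nat_lit 0) (XT.nd (nat_lit 94) (nat_lit 84) (nat_lit 0) (XT.lf (nat_lit 0) (nat_lit 2100564038) (nat_lit 168) (nat_lit 3585147074) (nat_lit 84) (nat_lit 12482051080) (nat_lit 22) (nat_lit 5) (nat_lit 24) (nat_lit 5) (nat_lit 23) (nat_lit 4) (nat_lit 298) (nat_lit 225) (nat_lit 197)) (XT.lf (nat_lit 0) (nat_lit 9332783150) (nat_lit 168) (nat_lit 7667085390) (nat_lit 0) (nat_lit 1694699156) (nat_lit 21) (nat_lit 5) (nat_lit 23) (nat_lit 4) (nat_lit 21) (nat_lit 4) (nat_lit 299) (nat_lit 225) (nat_lit 196))) (XT.nd (nat_lit 94) (nat_lit 168) (nat_lit 0) (XT.lf (nat_lit 0) (nat_lit 7144244766) (nat_lit 84) (nat_lit 9925557108) (nat_lit 84) (nat_lit 2170752171) (nat_lit 20) (nat_lit 4) (nat_lit 21) (nat_lit 5) (nat_lit 21) (nat_lit 4) (nat_lit 300) (nat_lit 225) (nat_lit 195)) (XT.nd (nat_lit 94) (nat_lit 0) (nat_lit 0) (XT.lf (nat_lit 0) (nat_lit 2921426475) (nat_lit 84)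 (nat_lit 2340717044) (nat_lit 168) (nat_lit 14544771482) (nat_lit 18) (nat_lit 5) (nat_lit 19) (nat_lit 5) (nat_lit 20) (nat_lit 4) (nat_lit 301) (nat_lit 225) (nat_lit 194)) (XT.lf (nat_lit 0) (nat_lit 13167005291) (nat_lit 168) (nat_lit 1649366265) (nat_lit 0) (nat_lit 5574779504) (nat_lit 18) (nat_lit 5) (nat_lit 20) (nat_lit 4) (nat_lit 18) (nat_lit 4) (nat_lit 302) (nat_lit 225) (nat_lit 193))))))))
noncomputable def xc47 : XT := (XT.nd (nat_lit 1598) (nat_lit 0) (nat_lit 0) (XT.nd (nat_lit 752) (nat_lit 756) (nat_lit 0) (XT.nd (nat_lit 376) (nat_lit 336) (nat_lit 0) (XT.nd (nat_lit 188) (nat_lit 168) (nat_lit 0) (XT.nd (nat_lit 94) (nat_lit 84) (nat_lit 0) (XT.lf (nat_lit 0) (nat_lit 598725232) (nat_lit 168) (nat_lit 6460865668) (nat_lit 84) (nat_lit 13937096104) (nat_lit 16) (nat_lit 5) (nat_lit 18) (nat_lit 5) (nat_lit 17) (nat_lit 4) (nat_lit 303) (nat_lit 225)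 (nat_lit 192)) (XT.lf (nat_lit 0) (nat_lit 8656692764) (nat_lit 168) (nat_lit 11718100308) (nat_lit 0) (nat_lit 1247448660) (nat_lit 15) (nat_lit 5) (nat_lit 17) (nat_lit 4) (nat_lit 15) (nat_lit 4) (nat_lit 304) (nat_lit 225) (nat_lit 191))) (XT.nd (nat_lit 94) (nat_lit 84) (nat_lit 0) (XT.lf (nat_lit 0) (nat_lit 4845431916) (nat_lit 84) (nat_lit 12458265423) (nat_lit 84) (nat_lit 4966069924) (nat_lit 14) (nat_lit 4) (nat_lit 15) (nat_lit 5) (nat_lit 15) (nat_lit 4) (nat_lit 305) (nat_lit 225) (nat_lit 190)) (XT.lf (nat_lit 0) (nat_lit 3408876400) (nat_lit 168) (nat_lit 583000206) (nat_lit 84) (nat_lit 18950843077) (nat_lit 13) (nat_lit 5) (nat_lit 15) (nat_lit 5) (nat_lit 14) (nat_lit 4) (nat_lit 306) (nat_lit 225) (nat_lit 189)))) (XT.nd (nat_lit 188) (nat_lit 168) (nat_lit 0) (XT.nd (nat_lit 94) (nat_lit 84) (nat_lit 0) (XT.lf (nat_lit 0) (nat_lit 12276405717) (nat_lit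 168) (nat_lit 6362721510) (nat_lit 0) (nat_lit 4994085538) (nat_lit 12) (nat_lit 5) (nat_lit 14) (nat_lit 4) (nat_lit 12) (nat_lit 4) (nat_lit 307) (nat_lit 225) (nat_lit 188)) (XT.lf (nat_lit 0) (nat_lit 11770665395) (nat_lit 84) (nat_lit 9965347273) (nat_lit 84) (nat_lit 2614782776) (nat_lit 11) (nat_lit 4) (nat_lit 12) (nat_lit 5) (nat_lit 12) (nat_lit 4) (nat_lit 308) (nat_lit 225) (nat_lit 187))) (XT.nd (nat_lit 94) (nat_lit 0) (nat_lit 0) (XT.lf (nat_lit 0) (nat_lit 5794211101) (nat_lit 84) (nat_lit 649579233) (nat_lit 168) (nat_lit 18650865152) (nat_lit 9) (nat_lit 5) (nat_lit 10) (nat_lit 5) (nat_lit 11) (nat_lit 4) (nat_lit 309) (nat_lit 225) (nat_lit 186)) (XT.lf (nat_lit 0) (nat_lit 16116301760) (nat_lit 168) (nat_lit 749906804) (nat_lit 0) (nat_lit 8994912528) (nat_lit 9) (nat_lit 5) (nat_lit 11) (nat_lit 4) (nat_lit 9) (nat_lit 4) (nat_lit 310) (nat_lit 225)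 (nat_lit 185))))) (XT.nd (nat_lit 376) (nat_lit 336) (nat_lit 0) (XT.nd (nat_lit 188) (nat_lit 168) (nat_lit 0) (XT.nd (nat_lit 94) (nat_lit 168) (nat_lit 0) (XT.lf (nat_lit 0) (nat_lit 19120001472) (nat_lit 84) (nat_lit 7356616767) (nat_lit 84) (nat_lit 179082765) (nat_lit 8) (nat_lit 4) (nat_lit 9) (nat_lit 5) (nat_lit 9) (nat_lit 4) (nat_lit 311) (nat_lit 225) (nat_lit 184)) (XT.lf (nat_lit 0) (nat_lit 9698636155) (nat_lit 168) (nat_lit 14964236501) (nat_lit 0) (nat_lit 2811964526) (nat_lit 6) (nat_lit 5) (nat_lit 8) (nat_lit 4) (nat_lit 6) (nat_lit 4) (nat_lit 312) (nat_lit 225) (nat_lit 183))) (XT.nd (nat_lit 94) (nat_lit 84) (nat_lit 0) (XT.lf (nat_lit 0) (nat_lit 5327448968) (nat_lit 84) (nat_lit 14965533993) (nat_lit 84) (nat_lit 8030362402) (nat_lit 5) (nat_lit 4) (nat_lit 6) (nat_lit 5) (nat_lit 6) (nat_lit 4) (nat_lit 313) (nat_lit 225) (nat_lit 182)) (XT.lf (nat_lit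 0) (nat_lit 2285195303) (nat_lit 168) (nat_lit 2296711660) (nat_lit 84) (nat_lit 24623005948) (nat_lit 4) (nat_lit 5) (nat_lit 6) (nat_lit 5) (nat_lit 5) (nat_lit 4) (nat_lit 314) (nat_lit 225) (nat_lit 181)))) (XT.nd (nat_lit 188) (nat_lit 168) (nat_lit 0) (XT.nd (nat_lit 94) (nat_lit 84) (nat_lit 0) (XT.lf (nat_lit 0) (nat_lit 13159484160) (nat_lit 168) (nat_lit 10480179259) (nat_lit 0) (nat_lit 6468671847) (nat_lit 3) (nat_lit 5) (nat_lit 5) (nat_lit 4) (nat_lit 3) (nat_lit 4) (nat_lit 315) (nat_lit 225) (nat_lit 180)) (XT.lf (nat_lit 0) (nat_lit 11775200612) (nat_lit 84) (nat_lit 13001246742) (nat_lit 84) (nat_lit 6270533391) (nat_lit 2) (nat_lit 4) (nat_lit 3) (nat_lit 5) (nat_lit 3) (nat_lit 4) (nat_lit 316) (nat_lit 225) (nat_lit 179))) (XT.nd (nat_lit 94) (nat_lit 0) (nat_lit 0) (XT.lf (nat_lit 0) (nat_lit 46538774865) (nat_lit 0) (nat_lit 0) (nat_lit 0) (nat_lit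 0) (nat_lit 0) (nat_lit 0) (nat_lit 1) (nat_lit 0) (nat_lit 1) (nat_lit 0) (nat_lit 317) (nat_lit 225) (nat_lit 178)) (XT.nd (nat_lit 94) (nat_lit 0) (nat_lit 0) (XT.lf (nat_lit 0) (nat_lit 48834799432) (nat_lit 0) (nat_lit 0) (nat_lit 0) (nat_lit 0) (nat_lit 0) (nat_lit 0) (nat_lit 1) (nat_lit 0) (nat_lit 1) (nat_lit 0) (nat_lit 318) (nat_lit 225) (nat_lit 177)) (XT.lf (nat_lit 0) (nat_lit 51245867598) (nat_lit 0) (nat_lit 0) (nat_lit 0) (nat_lit 0) (nat_lit 0) (nat_lit 0) (nat_lit 1) (nat_lit 0) (nat_lit 1) (nat_lit 0) (nat_lit 319) (nat_lit 225) (nat_lit 176))))))) (XT.nd (nat_lit 752) (nat_lit 0) (nat_lit 0) (XT.nd (nat_lit 376) (nat_lit 0) (nat_lit 0) (XT.nd (nat_lit 188) (nat_lit 0) (nat_lit 0) (XT.nd (nat_lit 94) (nat_lit 0) (nat_lit 0) (XT.lf (nat_lit 0) (nat_lit 53777720000) (nat_lit 0) (nat_lit 0) (nat_lit 0) (nat_lit 0) (nat_lit 0) (nat_lit 0) (nat_lit 1) (nat_lit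 0) (nat_lit 1) (nat_lit 0) (nat_lit 320) (nat_lit 225) (nat_lit 175)) (XT.lf (nat_lit 0) (nat_lit 56436384860) (nat_lit 0) (nat_lit 0) (nat_lit 0) (nat_lit 0) (nat_lit 0) (nat_lit 0) (nat_lit 1) (nat_lit 0) (nat_lit 1) (nat_lit 0) (nat_lit 321) (nat_lit 225) (nat_lit 174))) (XT.nd (nat_lit 94) (nat_lit 0) (nat_lit 0) (XT.lf (nat_lit 0) (nat_lit 59228192330) (nat_lit 0) (nat_lit 0) (nat_lit 0) (nat_lit 0) (nat_lit 0) (nat_lit 0) (nat_lit 1) (nat_lit 0) (nat_lit 1) (nat_lit 0) (nat_lit 322) (nat_lit 225) (nat_lit 173)) (XT.lf (nat_lit 0) (nat_lit 62159789572) (nat_lit 0) (nat_lit 0) (nat_lit 0) (nat_lit 0) (nat_lit 0) (nat_lit 0) (nat_lit 1) (nat_lit 0) (nat_lit 1) (nat_lit 0) (nat_lit 323) (nat_lit 225) (nat_lit 172)))) (XT.nd (nat_lit 188) (nat_lit 0) (nat_lit 0) (XT.nd (nat_lit 94) (nat_lit 0) (nat_lit 0) (XT.lf (nat_lit 0) (nat_lit 65238156579) (nat_lit 0) (nat_lit 0)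 (nat_lit 0) (nat_lit 0) (nat_lit 0) (nat_lit 0) (nat_lit 1) (nat_lit 0) (nat_lit 1) (nat_lit 0) (nat_lit 324) (nat_lit 225) (nat_lit 171)) (XT.lf (nat_lit 0) (nat_lit 68470622797) (nat_lit 0) (nat_lit 0) (nat_lit 0) (nat_lit 0) (nat_lit 0) (nat_lit 0) (nat_lit 1) (nat_lit 0) (nat_lit 1) (nat_lit 0) (nat_lit 325) (nat_lit 225) (nat_lit 170))) (XT.nd (nat_lit 94) (nat_lit 0) (nat_lit 0) (XT.lf (nat_lit 0) (nat_lit 71864884574) (nat_lit 0) (nat_lit 0) (nat_lit 0) (nat_lit 0) (nat_lit 0) (nat_lit 0) (nat_lit 1) (nat_lit 0) (nat_lit 1) (nat_lit 0) (nat_lit 326) (nat_lit 225) (nat_lit 169)) (XT.lf (nat_lit 0) (nat_lit 75429023485) (nat_lit 0) (nat_lit 0) (nat_lit 0) (nat_lit 0) (nat_lit 0) (nat_lit 0) (nat_lit 1) (nat_lit 0) (nat_lit 1) (nat_lit 0) (nat_lit 327) (nat_lit 225) (nat_lit 168))))) (XT.nd (nat_lit 376) (nat_lit 0) (nat_lit 0) (XT.nd (nat_lit 188) (nat_lit 0) (nat_lit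 0) (XT.nd (nat_lit 94) (nat_lit 0) (nat_lit 0) (XT.lf (nat_lit 0) (nat_lit 79171525575) (nat_lit 0) (nat_lit 0) (nat_lit 0) (nat_lit 0) (nat_lit 0) (nat_lit 0) (nat_lit 1) (nat_lit 0) (nat_lit 1) (nat_lit 0) (nat_lit 328) (nat_lit 225) (nat_lit 167)) (XT.lf (nat_lit 0) (nat_lit 83101301563) (nat_lit 0) (nat_lit 0) (nat_lit 0) (nat_lit 0) (nat_lit 0) (nat_lit 0) (nat_lit 1) (nat_lit 0) (nat_lit 1) (nat_lit 0) (nat_lit 329) (nat_lit 225) (nat_lit 166))) (XT.nd (nat_lit 94) (nat_lit 0) (nat_lit 0) (XT.lf (nat_lit 0) (nat_lit 87227708060) (nat_lit 0) (nat_lit 0) (nat_lit 0) (nat_lit 0) (nat_lit 0) (nat_lit 0) (nat_lit 1) (nat_lit 0) (nat_lit 1) (nat_lit 0) (nat_lit 330) (nat_lit 225) (nat_lit 165)) (XT.lf (nat_lit 0) (nat_lit 91560569842) (nat_lit 0) (nat_lit 0) (nat_lit 0) (nat_lit 0) (nat_lit 0) (nat_lit 0) (nat_lit 1) (nat_lit 0) (nat_lit 1) (nat_lit 0) (nat_lit 331) (nat_lit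 225) (nat_lit 164)))) (XT.nd (nat_lit 188) (nat_lit 0) (nat_lit 0) (XT.nd (nat_lit 94) (nat_lit 0) (nat_lit 0) (XT.lf (nat_lit 0) (nat_lit 96110203247) (nat_lit 0) (nat_lit 0) (nat_lit 0) (nat_lit 0) (nat_lit 0) (nat_lit 0) (nat_lit 1) (nat_lit 0) (nat_lit 1) (nat_lit 0) (nat_lit 332) (nat_lit 225) (nat_lit 163)) (XT.lf (nat_lit 0) (nat_lit 100887440736) (nat_lit 0) (nat_lit 0) (nat_lit 0) (nat_lit 0) (nat_lit 0) (nat_lit 0) (nat_lit 1) (nat_lit 0) (nat_lit 1) (nat_lit 0) (nat_lit 333) (nat_lit 225) (nat_lit 162))) (XT.nd (nat_lit 94) (nat_lit 0) (nat_lit 0) (XT.lf (nat_lit 0) (nat_lit 105903656683) (nat_lit 0) (nat_lit 0) (nat_lit 0) (nat_lit 0) (nat_lit 0) (nat_lit 0) (nat_lit 1) (nat_lit 0) (nat_lit 1) (nat_lit 0) (nat_lit 334) (nat_lit 225) (nat_lit 161)) (XT.nd (nat_lit 94) (nat_lit 0) (nat_lit 0) (XT.lf (nat_lit 0) (nat_lit 111170794460) (nat_lit 0) (nat_lit 0) (nat_lit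 0) (nat_lit 0) (nat_lit 0) (nat_lit 0) (nat_lit 1) (nat_lit 0) (nat_lit 1) (nat_lit 0) (nat_lit 335) (nat_lit 225) (nat_lit 160)) (XT.lf (nat_lit 0) (nat_lit 116701394871) (nat_lit 0) (nat_lit 0) (nat_lit 0) (nat_lit 0) (nat_lit 0) (nat_lit 0) (nat_lit 1) (nat_lit 0) (nat_lit 1) (nat_lit 0) (nat_lit 336) (nat_lit 225) (nat_lit 159))))))))
noncomputable def xc48 : XT := (XT.nd (nat_lit 39856) (nat_lit 0) (nat_lit 2100) (XT.nd (nat_lit 39104) (nat_lit 0) (nat_lit 4452) (XT.nd (nat_lit 38728) (nat_lit 0) (nat_lit 6132) (XT.nd (nat_lit 188) (nat_lit 0) (nat_lit 0) (XT.nd (nat_lit 94) (nat_lit 0) (nat_lit 0) (XT.lf (nat_lit 0) (nat_lit 122508626012) (nat_lit 0) (nat_lit 0) (nat_lit 0) (nat_lit 0) (nat_lit 0) (nat_lit 0) (nat_lit 1) (nat_lit 0) (nat_lit 1) (nat_lit 0) (nat_lit 337) (nat_lit 225) (nat_lit 158)) (XT.lf (nat_lit 0) (nat_lit 128606314624) (nat_lit 0) (nat_lit 0) (nat_lit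 0) (nat_lit 0) (nat_lit 0) (nat_lit 0) (nat_lit 1) (nat_lit 0) (nat_lit 1) (nat_lit 0) (nat_lit 338) (nat_lit 225) (nat_lit 157))) (XT.nd (nat_lit 94) (nat_lit 0) (nat_lit 0) (XT.lf (nat_lit 0) (nat_lit 135008979014) (nat_lit 0) (nat_lit 0) (nat_lit 0) (nat_lit 0) (nat_lit 0) (nat_lit 0) (nat_lit 1) (nat_lit 0) (nat_lit 1) (nat_lit 0) (nat_lit 339) (nat_lit 225) (nat_lit 156)) (XT.lf (nat_lit 0) (nat_lit 141731863619) (nat_lit 0) (nat_lit 0) (nat_lit 0) (nat_lit 0) (nat_lit 0) (nat_lit 0) (nat_lit 1) (nat_lit 0) (nat_lit 1) (nat_lit 0) (nat_lit 340) (nat_lit 225) (nat_lit 155)))) (XT.nd (nat_lit 188) (nat_lit 336) (nat_lit 0) (XT.nd (nat_lit 94) (nat_lit 252) (nat_lit 0) (XT.lf (nat_lit 0) (nat_lit 404719582) (nat_lit 336) (nat_lit 3545855768) (nat_lit 0) (nat_lit 404719582) (nat_lit 80) (nat_lit 5) (nat_lit 84) (nat_lit 4) (nat_lit 80) (nat_lit 4) (nat_lit 268) (nat_lit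 226) (nat_lit 226)) (XT.lf (nat_lit 0) (nat_lit 600500855) (nat_lit 252) (nat_lit 4614334584) (nat_lit 252) (nat_lit 3663097774) (nat_lit 77) (nat_lit 4) (nat_lit 80) (nat_lit 5) (nat_lit 80) (nat_lit 4) (nat_lit 269) (nat_lit 226) (nat_lit 225))) (XT.nd (nat_lit 94) (nat_lit 252) (nat_lit 0) (XT.lf (nat_lit 0) (nat_lit 708227250) (nat_lit 336) (nat_lit 405310766) (nat_lit 84) (nat_lit 7942163766) (nat_lit 76) (nat_lit 5) (nat_lit 80) (nat_lit 5) (nat_lit 77) (nat_lit 4) (nat_lit 270) (nat_lit 226) (nat_lit 224)) (XT.lf (nat_lit 0) (nat_lit 5171192275) (nat_lit 336) (nat_lit 1487616565) (nat_lit 0) (nat_lit 2580738507) (nat_lit 73) (nat_lit 5) (nat_lit 77) (nat_lit 4) (nat_lit 73) (nat_lit 4) (nat_lit 271) (nat_lit 226) (nat_lit 223))))) (XT.nd (nat_lit 376) (nat_lit 672) (nat_lit 0) (XT.nd (nat_lit 188) (nat_lit 504) (nat_lit 0) (XT.nd (nat_lit 94) (nat_lit 168) (nat_lit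 0) (XT.lf (nat_lit 0) (nat_lit 378195597) (nat_lit 336) (nat_lit 2597737671) (nat_lit 84) (nat_lit 6457966922) (nat_lit 69) (nat_lit 5) (nat_lit 73) (nat_lit 5) (nat_lit 70) (nat_lit 4) (nat_lit 272) (nat_lit 226) (nat_lit 222)) (XT.lf (nat_lit 0) (nat_lit 4879570494) (nat_lit 252) (nat_lit 3799279278) (nat_lit 0) (nat_lit 957325182) (nat_lit 67) (nat_lit 5) (nat_lit 70) (nat_lit 4) (nat_lit 67) (nat_lit 4) (nat_lit 273) (nat_lit 226) (nat_lit 221))) (XT.nd (nat_lit 94) (nat_lit 252) (nat_lit 0) (XT.lf (nat_lit 0) (nat_lit 4780053928) (nat_lit 252) (nat_lit 4833209312) (nat_lit 252) (nat_lit 234937758) (nat_lit 64) (nat_lit 4) (nat_lit 67) (nat_lit 5) (nat_lit 67) (nat_lit 4) (nat_lit 274) (nat_lit 226) (nat_lit 220)) (XT.lf (nat_lit 0) (nat_lit 3635907254) (nat_lit 168) (nat_lit 694830952) (nat_lit 252) (nat_lit 5738449053) (nat_lit 61) (nat_lit 5) (nat_lit 63) (nat_lit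 5) (nat_lit 64) (nat_lit 4) (nat_lit 275) (nat_lit 226) (nat_lit 219)))) (XT.nd (nat_lit 188) (nat_lit 252) (nat_lit 0) (XT.nd (nat_lit 94) (nat_lit 252) (nat_lit 0) (XT.lf (nat_lit 0) (nat_lit 2405311501) (nat_lit 168) (nat_lit 6735488861) (nat_lit 168) (nat_lit 1159030006) (nat_lit 59) (nat_lit 4) (nat_lit 61) (nat_lit 5) (nat_lit 61) (nat_lit 4) (nat_lit 276) (nat_lit 226) (nat_lit 218)) (XT.lf (nat_lit 0) (nat_lit 1072245330) (nat_lit 168) (nat_lit 2442326693) (nat_lit 252) (nat_lit 7025484057) (nat_lit 56) (nat_lit 5) (nat_lit 58) (nat_lit 5) (nat_lit 59) (nat_lit 4) (nat_lit 277) (nat_lit 226) (nat_lit 217))) (XT.nd (nat_lit 94) (nat_lit 252) (nat_lit 0) (XT.lf (nat_lit 0) (nat_lit 8395924379) (nat_lit 252) (nat_lit 343901867) (nat_lit 0) (nat_lit 2050865744) (nat_lit 56) (nat_lit 5) (nat_lit 59) (nat_lit 4) (nat_lit 56) (nat_lit 4) (nat_lit 278) (nat_lit 226) (nat_lit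 216)) (XT.lf (nat_lit 0) (nat_lit 2425652161) (nat_lit 252) (nat_lit 1852910933) (nat_lit 84) (nat_lit 6771513263) (nat_lit 53) (nat_lit 5) (nat_lit 56) (nat_lit 5) (nat_lit 54) (nat_lit 4) (nat_lit 279) (nat_lit 226) (nat_lit 215)))))) (XT.nd (nat_lit 752) (nat_lit 1176) (nat_lit 0) (XT.nd (nat_lit 376) (nat_lit 504) (nat_lit 0) (XT.nd (nat_lit 188) (nat_lit 252) (nat_lit 0) (XT.nd (nat_lit 94) (nat_lit 252) (nat_lit 0) (XT.lf (nat_lit 0) (nat_lit 7395747035) (nat_lit 252) (nat_lit 3465762945) (nat_lit 0) (nat_lit 459500337) (nat_lit 51) (nat_lit 5) (nat_lit 54) (nat_lit 4) (nat_lit 51) (nat_lit 4) (nat_lit 280) (nat_lit 226) (nat_lit 214)) (XT.lf (nat_lit 0) (nat_lit 1033713291) (nat_lit 252) (nat_lit 5232155920) (nat_lit 84) (nat_lit 5335976847) (nat_lit 48) (nat_lit 5) (nat_lit 51) (nat_lit 5) (nat_lit 49) (nat_lit 4) (nat_lit 281) (nat_lit 226) (nat_lit 213))) (XT.nd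 (nat_lit 94) (nat_lit 168) (nat_lit 0) (XT.lf (nat_lit 0) (nat_lit 4753828426) (nat_lit 84) (nat_lit 1343905786) (nat_lit 168) (nat_lit 5796321439) (nat_lit 47) (nat_lit 5) (nat_lit 48) (nat_lit 5) (nat_lit 49) (nat_lit 4) (nat_lit 282) (nat_lit 226) (nat_lit 212)) (XT.lf (nat_lit 0) (nat_lit 3001526125) (nat_lit 168) (nat_lit 8466427677) (nat_lit 168) (nat_lit 730272041) (nat_lit 45) (nat_lit 4) (nat_lit 47) (nat_lit 5) (nat_lit 47) (nat_lit 4) (nat_lit 283) (nat_lit 226) (nat_lit 211)))) (XT.nd (nat_lit 188) (nat_lit 336) (nat_lit 0) (XT.nd (nat_lit 94) (nat_lit 0) (nat_lit 0) (XT.lf (nat_lit 0) (nat_lit 1066915138) (nat_lit 84) (nat_lit 3393821429) (nat_lit 168) (nat_lit 8052358761) (nat_lit 43) (nat_lit 5) (nat_lit 44) (nat_lit 5) (nat_lit 45) (nat_lit 4) (nat_lit 284) (nat_lit 226) (nat_lit 210)) (XT.lf (nat_lit 0) (nat_lit 9933236369) (nat_lit 168) (nat_lit 976955693)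 (nat_lit 0) (nat_lit 1930593506) (nat_lit 43) (nat_lit 5) (nat_lit 45) (nat_lit 4) (nat_lit 43) (nat_lit 4) (nat_lit 285) (nat_lit 226) (nat_lit 209))) (XT.nd (nat_lit 94) (nat_lit 84) (nat_lit 0) (XT.lf (nat_lit 0) (nat_lit 2492993982) (nat_lit 252) (nat_lit 3186953208) (nat_lit 84) (nat_lit 7499049185) (nat_lit 40) (nat_lit 5) (nat_lit 43) (nat_lit 5) (nat_lit 41) (nat_lit 4) (nat_lit 286) (nat_lit 226) (nat_lit 208)) (XT.lf (nat_lit 0) (nat_lit 7969805291) (nat_lit 84) (nat_lit 102535699) (nat_lit 168) (nat_lit 5459069026) (nat_lit 39) (nat_lit 5) (nat_lit 40) (nat_lit 5) (nat_lit 41) (nat_lit 4) (nat_lit 287) (nat_lit 226) (nat_lit 207))))) (XT.nd (nat_lit 376) (nat_lit 588) (nat_lit 0) (XT.nd (nat_lit 188) (nat_lit 252) (nat_lit 0) (XT.nd (nat_lit 94) (nat_lit 84) (nat_lit 0) (XT.lf (nat_lit 0) (nat_lit 130364723) (nat_lit 252) (nat_lit 8157533534) (nat_lit 84) (nat_lit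 5608418846) (nat_lit 36) (nat_lit 5) (nat_lit 39) (nat_lit 5) (nat_lit 37) (nat_lit 4) (nat_lit 288) (nat_lit 226) (nat_lit 206)) (XT.lf (nat_lit 0) (nat_lit 3286232685) (nat_lit 84) (nat_lit 2544825052) (nat_lit 168) (nat_lit 8443174758) (nat_lit 35) (nat_lit 5) (nat_lit 36) (nat_lit 5) (nat_lit 37) (nat_lit 4) (nat_lit 289) (nat_lit 226) (nat_lit 205))) (XT.nd (nat_lit 94) (nat_lit 84) (nat_lit 0) (XT.lf (nat_lit 0) (nat_lit 635412764) (nat_lit 168) (nat_lit 11253412153) (nat_lit 168) (nat_lit 2778616762) (nat_lit 33) (nat_lit 4) (nat_lit 35) (nat_lit 5) (nat_lit 35) (nat_lit 4) (nat_lit 290) (nat_lit 226) (nat_lit 204)) (XT.lf (nat_lit 0) (nat_lit 3166229784) (nat_lit 252) (nat_lit 2193638375) (nat_lit 84) (nat_lit 9713044490) (nat_lit 32) (nat_lit 5) (nat_lit 35) (nat_lit 5) (nat_lit 33) (nat_lit 4) (nat_lit 291) (nat_lit 226) (nat_lit 203)))) (XT.nd (nat_lit 188) (nat_lit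 252) (nat_lit 0) (XT.nd (nat_lit 94) (nat_lit 252) (nat_lit 0) (XT.lf (nat_lit 0) (nat_lit 9363978751) (nat_lit 168) (nat_lit 5226962364) (nat_lit 0) (nat_lit 902986506) (nat_lit 31) (nat_lit 5) (nat_lit 33) (nat_lit 4) (nat_lit 31) (nat_lit 4) (nat_lit 292) (nat_lit 226) (nat_lit 202)) (XT.lf (nat_lit 0) (nat_lit 55344142) (nat_lit 252) (nat_lit 8528609244) (nat_lit 84) (nat_lit 7346207121) (nat_lit 28) (nat_lit 5) (nat_lit 31) (nat_lit 5) (nat_lit 29) (nat_lit 4) (nat_lit 293) (nat_lit 226) (nat_lit 201))) (XT.nd (nat_lit 94) (nat_lit 168) (nat_lit 0) (XT.lf (nat_lit 0) (nat_lit 4254536740) (nat_lit 84) (nat_lit 2120610318) (nat_lit 168) (nat_lit 10006470845) (nat_lit 27) (nat_lit 5) (nat_lit 28) (nat_lit 5) (nat_lit 29) (nat_lit 4) (nat_lit 294) (nat_lit 226) (nat_lit 200)) (XT.nd (nat_lit 94) (nat_lit 84) (nat_lit 0) (XT.lf (nat_lit 0) (nat_lit 836658843) (nat_lit 84)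 (nat_lit 12282388561) (nat_lit 84) (nat_lit 3731195401) (nat_lit 26) (nat_lit 4) (nat_lit 27) (nat_lit 5) (nat_lit 27) (nat_lit 4) (nat_lit 295) (nat_lit 226) (nat_lit 199)) (XT.lf (nat_lit 0) (nat_lit 2885527216) (nat_lit 168) (nat_lit 2784831153) (nat_lit 84) (nat_lit 11663752021) (nat_lit 25) (nat_lit 5) (nat_lit 27) (nat_lit 5) (nat_lit 26) (nat_lit 4) (nat_lit 296) (nat_lit 226) (nat_lit 198))))))))
noncomputable def xc49 : XT := (XT.nd (nat_lit 1598) (nat_lit 504) (nat_lit 0) (XT.nd (nat_lit 752) (nat_lit 840) (nat_lit 0) (XT.nd (nat_lit 376) (nat_lit 420) (nat_lit 0) (XT.nd (nat_lit 188) (nat_lit 168) (nat_lit 0) (XT.nd (nat_lit 94) (nat_lit 84) (nat_lit 0) (XT.lf (nat_lit 0) (nat_lit 9785720904) (nat_lit 168) (nat_lit 6684757417) (nat_lit 0) (nat_lit 1364733300) (nat_lit 24) (nat_lit 5) (nat_lit 26) (nat_lit 4) (nat_lit 24) (nat_lit 4) (nat_lit 297) (nat_lit 226)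 (nat_lit 197)) (XT.lf (nat_lit 0) (nat_lit 7435744787) (nat_lit 84) (nat_lit 9734172948) (nat_lit 84) (nat_lit 1184500505) (nat_lit 23) (nat_lit 4) (nat_lit 24) (nat_lit 5) (nat_lit 24) (nat_lit 4) (nat_lit 298) (nat_lit 226) (nat_lit 196))) (XT.nd (nat_lit 94) (nat_lit 0) (nat_lit 0) (XT.lf (nat_lit 0) (nat_lit 3383932027) (nat_lit 84) (nat_lit 2497122343) (nat_lit 168) (nat_lit 13011322825) (nat_lit 21) (nat_lit 5) (nat_lit 22) (nat_lit 5) (nat_lit 23) (nat_lit 4) (nat_lit 299) (nat_lit 226) (nat_lit 195)) (XT.lf (nat_lit 0) (nat_lit 13410274669) (nat_lit 168) (nat_lit 998633056) (nat_lit 0) (nat_lit 5039845739) (nat_lit 21) (nat_lit 5) (nat_lit 23) (nat_lit 4) (nat_lit 21) (nat_lit 4) (nat_lit 300) (nat_lit 226) (nat_lit 194)))) (XT.nd (nat_lit 188) (nat_lit 168) (nat_lit 0) (XT.nd (nat_lit 94) (nat_lit 84) (nat_lit 0) (XT.lf (nat_lit 0) (nat_lit 1399042726) (nat_lit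 168) (nat_lit 5608260676) (nat_lit 84) (nat_lit 13016788600) (nat_lit 19) (nat_lit 5) (nat_lit 21) (nat_lit 5) (nat_lit 20) (nat_lit 4) (nat_lit 301) (nat_lit 226) (nat_lit 193)) (XT.lf (nat_lit 0) (nat_lit 9082085777) (nat_lit 168) (nat_lit 10623939068) (nat_lit 0) (nat_lit 913394152) (nat_lit 18) (nat_lit 5) (nat_lit 20) (nat_lit 4) (nat_lit 18) (nat_lit 4) (nat_lit 302) (nat_lit 226) (nat_lit 192))) (XT.nd (nat_lit 94) (nat_lit 84) (nat_lit 0) (XT.lf (nat_lit 0) (nat_lit 5164363470) (nat_lit 84) (nat_lit 12165629407) (nat_lit 84) (nat_lit 3905483870) (nat_lit 17) (nat_lit 4) (nat_lit 18) (nat_lit 5) (nat_lit 18) (nat_lit 4) (nat_lit 303) (nat_lit 226) (nat_lit 191)) (XT.lf (nat_lit 0) (nat_lit 4048167326) (nat_lit 168) (nat_lit 48501483) (nat_lit 84) (nat_lit 17778877254) (nat_lit 16) (nat_lit 5) (nat_lit 18) (nat_lit 5) (nat_lit 17) (nat_lit 4) (nat_lit 304) (nat_lit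 226) (nat_lit 190))))) (XT.nd (nat_lit 376) (nat_lit 504) (nat_lit 0) (XT.nd (nat_lit 188) (nat_lit 168) (nat_lit 0) (XT.nd (nat_lit 94) (nat_lit 84) (nat_lit 0) (XT.lf (nat_lit 0) (nat_lit 12500663464) (nat_lit 168) (nat_lit 5560228085) (nat_lit 0) (nat_lit 4471905467) (nat_lit 15) (nat_lit 5) (nat_lit 17) (nat_lit 4) (nat_lit 15) (nat_lit 4) (nat_lit 305) (nat_lit 226) (nat_lit 189)) (XT.lf (nat_lit 0) (nat_lit 11722710150) (nat_lit 84) (nat_lit 9798464116) (nat_lit 84) (nat_lit 1694466758) (nat_lit 14) (nat_lit 4) (nat_lit 15) (nat_lit 5) (nat_lit 15) (nat_lit 4) (nat_lit 306) (nat_lit 226) (nat_lit 188))) (XT.nd (nat_lit 94) (nat_lit 0) (nat_lit 0) (XT.lf (nat_lit 0) (nat_lit 6006441649) (nat_lit 84) (nat_lit 911653736) (nat_lit 168) (nat_lit 17004821524) (nat_lit 12) (nat_lit 5) (nat_lit 13) (nat_lit 5) (nat_lit 14) (nat_lit 4) (nat_lit 307) (nat_lit 226) (nat_lit 187))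 (XT.lf (nat_lit 0) (nat_lit 16128337951) (nat_lit 168) (nat_lit 247623533) (nat_lit 0) (nat_lit 8277006322) (nat_lit 12) (nat_lit 5) (nat_lit 14) (nat_lit 4) (nat_lit 12) (nat_lit 4) (nat_lit 308) (nat_lit 226) (nat_lit 186)))) (XT.nd (nat_lit 188) (nat_lit 252) (nat_lit 0) (XT.nd (nat_lit 94) (nat_lit 84) (nat_lit 0) (XT.lf (nat_lit 0) (nat_lit 577264888) (nat_lit 168) (nat_lit 6729838215) (nat_lit 84) (nat_lit 18101629729) (nat_lit 10) (nat_lit 5) (nat_lit 12) (nat_lit 5) (nat_lit 11) (nat_lit 4) (nat_lit 309) (nat_lit 226) (nat_lit 185)) (XT.lf (nat_lit 0) (nat_lit 9984295728) (nat_lit 168) (nat_lit 13812436482) (nat_lit 0) (nat_lit 2391740257) (nat_lit 9) (nat_lit 5) (nat_lit 11) (nat_lit 4) (nat_lit 9) (nat_lit 4) (nat_lit 310) (nat_lit 226) (nat_lit 184))) (XT.nd (nat_lit 94) (nat_lit 168) (nat_lit 0) (XT.lf (nat_lit 0) (nat_lit 5525034692) (nat_lit 84) (nat_lit 14558547923)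 (nat_lit 84) (nat_lit 6912521243) (nat_lit 8) (nat_lit 4) (nat_lit 9) (nat_lit 5) (nat_lit 9) (nat_lit 4) (nat_lit 311) (nat_lit 226) (nat_lit 183)) (XT.nd (nat_lit 94) (nat_lit 84) (nat_lit 0) (XT.lf (nat_lit 0) (nat_lit 2890554124) (nat_lit 168) (nat_lit 1771315685) (nat_lit 84) (nat_lit 23173134401) (nat_lit 7) (nat_lit 5) (nat_lit 9) (nat_lit 5) (nat_lit 8) (nat_lit 4) (nat_lit 312) (nat_lit 226) (nat_lit 182)) (XT.lf (nat_lit 0) (nat_lit 13251247005) (nat_lit 168) (nat_lit 9569321653) (nat_lit 0) (nat_lit 5874626430) (nat_lit 6) (nat_lit 5) (nat_lit 8) (nat_lit 4) (nat_lit 6) (nat_lit 4) (nat_lit 313) (nat_lit 226) (nat_lit 181))))))) (XT.nd (nat_lit 752) (nat_lit 0) (nat_lit 0) (XT.nd (nat_lit 376) (nat_lit 168) (nat_lit 0) (XT.nd (nat_lit 188) (nat_lit 84) (nat_lit 0) (XT.nd (nat_lit 94) (nat_lit 168) (nat_lit 0) (XT.lf (nat_lit 0) (nat_lit 11637865401) (nat_lit 84)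 (nat_lit 12685730262) (nat_lit 84) (nat_lit 5265118791) (nat_lit 5) (nat_lit 4) (nat_lit 6) (nat_lit 5) (nat_lit 6) (nat_lit 4) (nat_lit 314) (nat_lit 226) (nat_lit 180)) (XT.lf (nat_lit 0) (nat_lit 3554996892) (nat_lit 84) (nat_lit 1819395524) (nat_lit 168) (nat_lit 25142019273) (nat_lit 3) (nat_lit 5) (nat_lit 4) (nat_lit 5) (nat_lit 5) (nat_lit 4) (nat_lit 315) (nat_lit 226) (nat_lit 179))) (XT.nd (nat_lit 94) (nat_lit 84) (nat_lit 0) (XT.lf (nat_lit 0) (nat_lit 16732866249) (nat_lit 168) (nat_lit 5147400185) (nat_lit 0) (nat_lit 9587715201) (nat_lit 3) (nat_lit 5) (nat_lit 5) (nat_lit 4) (nat_lit 3) (nat_lit 4) (nat_lit 316) (nat_lit 226) (nat_lit 178)) (XT.lf (nat_lit 0) (nat_lit 18126284356) (nat_lit 84) (nat_lit 10755530323) (nat_lit 84) (nat_lit 3574187855) (nat_lit 2) (nat_lit 4) (nat_lit 3) (nat_lit 5) (nat_lit 3) (nat_lit 4) (nat_lit 317) (nat_lit 226) (nat_lit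 177)))) (XT.nd (nat_lit 188) (nat_lit 0) (nat_lit 0) (XT.nd (nat_lit 94) (nat_lit 0) (nat_lit 0) (XT.lf (nat_lit 0) (nat_lit 48858259257) (nat_lit 0) (nat_lit 0) (nat_lit 0) (nat_lit 0) (nat_lit 0) (nat_lit 0) (nat_lit 1) (nat_lit 0) (nat_lit 1) (nat_lit 0) (nat_lit 318) (nat_lit 226) (nat_lit 176)) (XT.lf (nat_lit 0) (nat_lit 51269440022) (nat_lit 0) (nat_lit 0) (nat_lit 0) (nat_lit 0) (nat_lit 0) (nat_lit 0) (nat_lit 1) (nat_lit 0) (nat_lit 1) (nat_lit 0) (nat_lit 319) (nat_lit 226) (nat_lit 175))) (XT.nd (nat_lit 94) (nat_lit 0) (nat_lit 0) (XT.lf (nat_lit 0) (nat_lit 53801399662) (nat_lit 0) (nat_lit 0) (nat_lit 0) (nat_lit 0) (nat_lit 0) (nat_lit 0) (nat_lit 1) (nat_lit 0) (nat_lit 1) (nat_lit 0) (nat_lit 320) (nat_lit 226) (nat_lit 174)) (XT.lf (nat_lit 0) (nat_lit 56460166652) (nat_lit 0) (nat_lit 0) (nat_lit 0) (nat_lit 0) (nat_lit 0) (nat_lit 0) (nat_lit 1) (nat_lit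 0) (nat_lit 1) (nat_lit 0) (nat_lit 321) (nat_lit 226) (nat_lit 173))))) (XT.nd (nat_lit 376) (nat_lit 0) (nat_lit 0) (XT.nd (nat_lit 188) (nat_lit 0) (nat_lit 0) (XT.nd (nat_lit 94) (nat_lit 0) (nat_lit 0) (XT.lf (nat_lit 0) (nat_lit 59252071390) (nat_lit 0) (nat_lit 0) (nat_lit 0) (nat_lit 0) (nat_lit 0) (nat_lit 0) (nat_lit 1) (nat_lit 0) (nat_lit 1) (nat_lit 0) (nat_lit 322) (nat_lit 226) (nat_lit 172)) (XT.lf (nat_lit 0) (nat_lit 62183761267) (nat_lit 0) (nat_lit 0) (nat_lit 0) (nat_lit 0) (nat_lit 0) (nat_lit 0) (nat_lit 1) (nat_lit 0) (nat_lit 1) (nat_lit 0) (nat_lit 323) (nat_lit 226) (nat_lit 171))) (XT.nd (nat_lit 94) (nat_lit 0) (nat_lit 0) (XT.lf (nat_lit 0) (nat_lit 65262216499) (nat_lit 0) (nat_lit 0) (nat_lit 0) (nat_lit 0) (nat_lit 0) (nat_lit 0) (nat_lit 1) (nat_lit 0) (nat_lit 1) (nat_lit 0) (nat_lit 324) (nat_lit 226) (nat_lit 170)) (XT.lf (nat_lit 0)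 (nat_lit 68494766740) (nat_lit 0) (nat_lit 0) (nat_lit 0) (nat_lit 0) (nat_lit 0) (nat_lit 0) (nat_lit 1) (nat_lit 0) (nat_lit 1) (nat_lit 0) (nat_lit 325) (nat_lit 226) (nat_lit 169)))) (XT.nd (nat_lit 188) (nat_lit 0) (nat_lit 0) (XT.nd (nat_lit 94) (nat_lit 0) (nat_lit 0) (XT.lf (nat_lit 0) (nat_lit 71889108539) (nat_lit 0) (nat_lit 0) (nat_lit 0) (nat_lit 0) (nat_lit 0) (nat_lit 0) (nat_lit 1) (nat_lit 0) (nat_lit 1) (nat_lit 0) (nat_lit 326) (nat_lit 226) (nat_lit 168)) (XT.lf (nat_lit 0) (nat_lit 75453323661) (nat_lit 0) (nat_lit 0) (nat_lit 0) (nat_lit 0) (nat_lit 0) (nat_lit 0) (nat_lit 1) (nat_lit 0) (nat_lit 1) (nat_lit 0) (nat_lit 327) (nat_lit 226) (nat_lit 167))) (XT.nd (nat_lit 94) (nat_lit 0) (nat_lit 0) (XT.lf (nat_lit 0) (nat_lit 79195898334) (nat_lit 0) (nat_lit 0) (nat_lit 0) (nat_lit 0) (nat_lit 0) (nat_lit 0) (nat_lit 1) (nat_lit 0) (nat_lit 1) (nat_lit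 0) (nat_lit 328) (nat_lit 226) (nat_lit 166)) (XT.nd (nat_lit 94) (nat_lit 0) (nat_lit 0) (XT.lf (nat_lit 0) (nat_lit 83125743449) (nat_lit 0) (nat_lit 0) (nat_lit 0) (nat_lit 0) (nat_lit 0) (nat_lit 0) (nat_lit 1) (nat_lit 0) (nat_lit 1) (nat_lit 0) (nat_lit 329) (nat_lit 226) (nat_lit 165)) (XT.lf (nat_lit 0) (nat_lit 87252215780) (nat_lit 0) (nat_lit 0) (nat_lit 0) (nat_lit 0) (nat_lit 0) (nat_lit 0) (nat_lit 1) (nat_lit 0) (nat_lit 1) (nat_lit 0) (nat_lit 330) (nat_lit 226) (nat_lit 164))))))))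
noncomputable def xc50 : XT := (XT.nd (nat_lit 39762) (nat_lit 0) (nat_lit 3024) (XT.nd (nat_lit 752) (nat_lit 0) (nat_lit 0) (XT.nd (nat_lit 376) (nat_lit 0) (nat_lit 0) (XT.nd (nat_lit 188) (nat_lit 0) (nat_lit 0) (XT.nd (nat_lit 94) (nat_lit 0) (nat_lit 0) (XT.lf (nat_lit 0) (nat_lit 91585140262) (nat_lit 0) (nat_lit 0) (nat_lit 0) (nat_lit 0) (nat_lit 0) (nat_lit 0) (nat_lit 1) (nat_lit 0) (nat_lit 1) (nat_lit 0) (nat_lit 331) (nat_lit 226) (nat_lit 163)) (XT.lf (nat_lit 0) (nat_lit 96134833381) (nat_lit 0) (nat_lit 0) (nat_lit 0) (nat_lit 0) (nat_lit 0) (nat_lit 0) (nat_lit 1) (nat_lit 0) (nat_lit 1) (nat_lit 0) (nat_lit 332) (nat_lit 226) (nat_lit 162))) (XT.nd (nat_lit 94) (nat_lit 0) (nat_lit 0) (XT.lf (nat_lit 0) (nat_lit 100912127739) (nat_lit 0) (nat_lit 0) (nat_lit 0) (nat_lit 0) (nat_lit 0) (nat_lit 0) (nat_lit 1) (nat_lit 0) (nat_lit 1) (nat_lit 0) (nat_lit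 333) (nat_lit 226) (nat_lit 161)) (XT.lf (nat_lit 0) (nat_lit 105928397849) (nat_lit 0) (nat_lit 0) (nat_lit 0) (nat_lit 0) (nat_lit 0) (nat_lit 0) (nat_lit 1) (nat_lit 0) (nat_lit 1) (nat_lit 0) (nat_lit 334) (nat_lit 226) (nat_lit 160)))) (XT.nd (nat_lit 188) (nat_lit 0) (nat_lit 0) (XT.nd (nat_lit 94) (nat_lit 0) (nat_lit 0) (XT.lf (nat_lit 0) (nat_lit 111195587209) (nat_lit 0) (nat_lit 0) (nat_lit 0) (nat_lit 0) (nat_lit 0) (nat_lit 0) (nat_lit 1) (nat_lit 0) (nat_lit 1) (nat_lit 0) (nat_lit 335) (nat_lit 226) (nat_lit 159)) (XT.lf (nat_lit 0) (nat_lit 116726236746) (nat_lit 0) (nat_lit 0) (nat_lit 0) (nat_lit 0) (nat_lit 0) (nat_lit 0) (nat_lit 1) (nat_lit 0) (nat_lit 1) (nat_lit 0) (nat_lit 336) (nat_lit 226) (nat_lit 158))) (XT.nd (nat_lit 94) (nat_lit 0) (nat_lit 0) (XT.lf (nat_lit 0) (nat_lit 122533514675) (nat_lit 0) (nat_lit 0) (nat_lit 0) (nat_lit 0) (nat_lit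 0) (nat_lit 0) (nat_lit 1) (nat_lit 0) (nat_lit 1) (nat_lit 0) (nat_lit 337) (nat_lit 226) (nat_lit 157)) (XT.lf (nat_lit 0) (nat_lit 128631247846) (nat_lit 0) (nat_lit 0) (nat_lit 0) (nat_lit 0) (nat_lit 0) (nat_lit 0) (nat_lit 1) (nat_lit 0) (nat_lit 1) (nat_lit 0) (nat_lit 338) (nat_lit 226) (nat_lit 156))))) (XT.nd (nat_lit 38540) (nat_lit 0) (nat_lit 5796) (XT.nd (nat_lit 38352) (nat_lit 0) (nat_lit 7056) (XT.nd (nat_lit 94) (nat_lit 0) (nat_lit 0) (XT.lf (nat_lit 0) (nat_lit 135033954673) (nat_lit 0) (nat_lit 0) (nat_lit 0) (nat_lit 0) (nat_lit 0) (nat_lit 0) (nat_lit 1) (nat_lit 0) (nat_lit 1) (nat_lit 0) (nat_lit 339) (nat_lit 226) (nat_lit 155)) (XT.lf (nat_lit 0) (nat_lit 141756879696) (nat_lit 0) (nat_lit 0) (nat_lit 0) (nat_lit 0) (nat_lit 0) (nat_lit 0) (nat_lit 1) (nat_lit 0) (nat_lit 1) (nat_lit 0) (nat_lit 340) (nat_lit 226) (nat_lit 154))) (XT.nd (nat_lit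 94) (nat_lit 336) (nat_lit 0) (XT.lf (nat_lit 0) (nat_lit 901629639) (nat_lit 336) (nat_lit 2393800889) (nat_lit 0) (nat_lit 901629639) (nat_lit 88) (nat_lit 5) (nat_lit 92) (nat_lit 4) (nat_lit 88) (nat_lit 4) (nat_lit 266) (nat_lit 227) (nat_lit 227)) (XT.lf (nat_lit 0) (nat_lit 2554965831) (nat_lit 336) (nat_lit 3521689341) (nat_lit 336) (nat_lit 2472950757) (nat_lit 84) (nat_lit 4) (nat_lit 88) (nat_lit 5) (nat_lit 88) (nat_lit 4) (nat_lit 267) (nat_lit 227) (nat_lit 226)))) (XT.nd (nat_lit 188) (nat_lit 672) (nat_lit 0) (XT.nd (nat_lit 94) (nat_lit 252) (nat_lit 0) (XT.lf (nat_lit 0) (nat_lit 1489855318) (nat_lit 252) (nat_lit 235702024) (nat_lit 336) (nat_lit 6989166550) (nat_lit 80) (nat_lit 5) (nat_lit 83) (nat_lit 5) (nat_lit 84) (nat_lit 4) (nat_lit 268) (nat_lit 227) (nat_lit 225)) (XT.lf (nat_lit 0) (nat_lit 339353963) (nat_lit 252) (nat_lit 5701594408) (nat_lit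 252) (nat_lit 2845619128) (nat_lit 77) (nat_lit 4) (nat_lit 80) (nat_lit 5) (nat_lit 80) (nat_lit 4) (nat_lit 269) (nat_lit 227) (nat_lit 224))) (XT.nd (nat_lit 94) (nat_lit 588) (nat_lit 0) (XT.lf (nat_lit 0) (nat_lit 1418000646) (nat_lit 336) (nat_lit 811873783) (nat_lit 84) (nat_lit 6837900524) (nat_lit 76) (nat_lit 5) (nat_lit 80) (nat_lit 5) (nat_lit 77) (nat_lit 4) (nat_lit 270) (nat_lit 227) (nat_lit 223)) (XT.nd (nat_lit 94) (nat_lit 336) (nat_lit 0) (XT.lf (nat_lit 0) (nat_lit 5776645735) (nat_lit 336) (nat_lit 2027820501) (nat_lit 0) (nat_lit 1452370279) (nat_lit 73) (nat_lit 5) (nat_lit 77) (nat_lit 4) (nat_lit 73) (nat_lit 4) (nat_lit 271) (nat_lit 227) (nat_lit 222)) (XT.lf (nat_lit 0) (nat_lit 859064245) (nat_lit 336) (nat_lit 3308512684) (nat_lit 84) (nat_lit 5287576820) (nat_lit 69) (nat_lit 5) (nat_lit 73) (nat_lit 5) (nat_lit 70) (nat_lit 4) (nat_lit 272)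 (nat_lit 227) (nat_lit 221))))))) (XT.nd (nat_lit 752) (nat_lit 1260) (nat_lit 0) (XT.nd (nat_lit 376) (nat_lit 672) (nat_lit 0) (XT.nd (nat_lit 188) (nat_lit 336) (nat_lit 0) (XT.nd (nat_lit 94) (nat_lit 336) (nat_lit 0) (XT.lf (nat_lit 0) (nat_lit 4994918739) (nat_lit 168) (nat_lit 260857202) (nat_lit 252) (nat_lit 4406885731) (nat_lit 67) (nat_lit 5) (nat_lit 69) (nat_lit 5) (nat_lit 70) (nat_lit 4) (nat_lit 273) (nat_lit 227) (nat_lit 220)) (XT.lf (nat_lit 0) (nat_lit 14846208) (nat_lit 336) (nat_lit 6117611161) (nat_lit 84) (nat_lit 3746953799) (nat_lit 63) (nat_lit 5) (nat_lit 67) (nat_lit 5) (nat_lit 64) (nat_lit 4) (nat_lit 274) (nat_lit 227) (nat_lit 219))) (XT.nd (nat_lit 94) (nat_lit 168) (nat_lit 0) (XT.lf (nat_lit 0) (nat_lit 2422403720) (nat_lit 168) (nat_lit 2057413517) (nat_lit 252) (nat_lit 5625056062) (nat_lit 61) (nat_lit 5) (nat_lit 63) (nat_lit 5) (nat_lit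 64) (nat_lit 4) (nat_lit 275) (nat_lit 227) (nat_lit 218)) (XT.lf (nat_lit 0) (nat_lit 1010279669) (nat_lit 168) (nat_lit 8163240913) (nat_lit 168) (nat_lit 1167813767) (nat_lit 59) (nat_lit 4) (nat_lit 61) (nat_lit 5) (nat_lit 61) (nat_lit 4) (nat_lit 276) (nat_lit 227) (nat_lit 217)))) (XT.nd (nat_lit 188) (nat_lit 420) (nat_lit 0) (XT.nd (nat_lit 94) (nat_lit 168) (nat_lit 0) (XT.lf (nat_lit 0) (nat_lit 3416458085) (nat_lit 252) (nat_lit 521372318) (nat_lit 84) (nat_lit 6648217079) (nat_lit 58) (nat_lit 5) (nat_lit 61) (nat_lit 5) (nat_lit 59) (nat_lit 4) (nat_lit 277) (nat_lit 227) (nat_lit 216)) (XT.lf (nat_lit 0) (nat_lit 8193851089) (nat_lit 252) (nat_lit 2101391168) (nat_lit 0) (nat_lit 546639104) (nat_lit 56) (nat_lit 5) (nat_lit 59) (nat_lit 4) (nat_lit 56) (nat_lit 4) (nat_lit 278) (nat_lit 227) (nat_lit 215))) (XT.nd (nat_lit 94) (nat_lit 168) (nat_lit 0) (XT.lf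 (nat_lit 0) (nat_lit 2079995976) (nat_lit 252) (nat_lit 3840781403) (nat_lit 84) (nat_lit 5185711031) (nat_lit 53) (nat_lit 5) (nat_lit 56) (nat_lit 5) (nat_lit 54) (nat_lit 4) (nat_lit 279) (nat_lit 227) (nat_lit 214)) (XT.lf (nat_lit 0) (nat_lit 5687349349) (nat_lit 168) (nat_lit 1253087259) (nat_lit 252) (nat_lit 4442468475) (nat_lit 51) (nat_lit 5) (nat_lit 53) (nat_lit 5) (nat_lit 54) (nat_lit 4) (nat_lit 280) (nat_lit 227) (nat_lit 213))))) (XT.nd (nat_lit 376) (nat_lit 672) (nat_lit 0) (XT.nd (nat_lit 188) (nat_lit 252) (nat_lit 0) (XT.nd (nat_lit 94) (nat_lit 84) (nat_lit 0) (XT.lf (nat_lit 0) (nat_lit 406276855) (nat_lit 252) (nat_lit 7696244035) (nat_lit 84) (nat_lit 3567962937) (nat_lit 48) (nat_lit 5) (nat_lit 51) (nat_lit 5) (nat_lit 49) (nat_lit 4) (nat_lit 281) (nat_lit 227) (nat_lit 212)) (XT.lf (nat_lit 0) (nat_lit 2085180110) (nat_lit 84) (nat_lit 3276150819)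 (nat_lit 168) (nat_lit 6606810833) (nat_lit 47) (nat_lit 5) (nat_lit 48) (nat_lit 5) (nat_lit 49) (nat_lit 4) (nat_lit 282) (nat_lit 227) (nat_lit 211))) (XT.nd (nat_lit 94) (nat_lit 84) (nat_lit 0) (XT.lf (nat_lit 0) (nat_lit 75590734) (nat_lit 168) (nat_lit 10513381935) (nat_lit 168) (nat_lit 1690468178) (nat_lit 45) (nat_lit 4) (nat_lit 47) (nat_lit 5) (nat_lit 47) (nat_lit 4) (nat_lit 283) (nat_lit 227) (nat_lit 210)) (XT.lf (nat_lit 0) (nat_lit 3448153672) (nat_lit 252) (nat_lit 2079378909) (nat_lit 84) (nat_lit 7071683269) (nat_lit 44) (nat_lit 5) (nat_lit 47) (nat_lit 5) (nat_lit 45) (nat_lit 4) (nat_lit 284) (nat_lit 227) (nat_lit 209)))) (XT.nd (nat_lit 188) (nat_lit 336) (nat_lit 0) (XT.nd (nat_lit 94) (nat_lit 252) (nat_lit 0) (XT.lf (nat_lit 0) (nat_lit 8563425919) (nat_lit 84) (nat_lit 227410796) (nat_lit 168) (nat_lit 4142560213) (nat_lit 43) (nat_lit 5) (nat_lit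 44) (nat_lit 5) (nat_lit 45) (nat_lit 4) (nat_lit 285) (nat_lit 227) (nat_lit 208)) (XT.lf (nat_lit 0) (nat_lit 1172601673) (nat_lit 252) (nat_lit 6884487863) (nat_lit 84) (nat_lit 5221727767) (nat_lit 40) (nat_lit 5) (nat_lit 43) (nat_lit 5) (nat_lit 41) (nat_lit 4) (nat_lit 286) (nat_lit 227) (nat_lit 207))) (XT.nd (nat_lit 94) (nat_lit 252) (nat_lit 0) (XT.lf (nat_lit 0) (nat_lit 4031247507) (nat_lit 84) (nat_lit 2596603878) (nat_lit 168) (nat_lit 7009584424) (nat_lit 39) (nat_lit 5) (nat_lit 40) (nat_lit 5) (nat_lit 41) (nat_lit 4) (nat_lit 287) (nat_lit 227) (nat_lit 206)) (XT.nd (nat_lit 94) (nat_lit 84) (nat_lit 0) (XT.lf (nat_lit 0) (nat_lit 1483715335) (nat_lit 168) (nat_lit 10935287432) (nat_lit 168) (nat_lit 1591825514) (nat_lit 37) (nat_lit 4) (nat_lit 39) (nat_lit 5) (nat_lit 39) (nat_lit 4) (nat_lit 288) (nat_lit 227) (nat_lit 205)) (XT.lf (nat_lit 0) (nat_lit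 4046500348) (nat_lit 252) (nat_lit 1279235686) (nat_lit 84) (nat_lit 9069916056) (nat_lit 36) (nat_lit 5) (nat_lit 39) (nat_lit 5) (nat_lit 37) (nat_lit 4) (nat_lit 289) (nat_lit 227) (nat_lit 204))))))))
noncomputable def xc51 : XT := (XT.nd (nat_lit 1598) (nat_lit 1176) (nat_lit 0) (XT.nd (nat_lit 752) (nat_lit 840) (nat_lit 0) (XT.nd (nat_lit 376) (nat_lit 420) (nat_lit 0) (XT.nd (nat_lit 188) (nat_lit 252) (nat_lit 0) (XT.nd (nat_lit 94) (nat_lit 252) (nat_lit 0) (XT.lf (nat_lit 0) (nat_lit 9968302078) (nat_lit 168) (nat_lit 4187299341) (nat_lit 0) (nat_lit 640058128) (nat_lit 35) (nat_lit 5) (nat_lit 37) (nat_lit 4) (nat_lit 35) (nat_lit 4) (nat_lit 290) (nat_lit 227) (nat_lit 203)) (XT.lf (nat_lit 0) (nat_lit 1052924970) (nat_lit 252) (nat_lit 7369380182) (nat_lit 84) (nat_lit 6786931524) (nat_lit 32) (nat_lit 5) (nat_lit 35) (nat_lit 5) (nat_lit 33) (nat_lit 4) (nat_lit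 291) (nat_lit 227) (nat_lit 202))) (XT.nd (nat_lit 94) (nat_lit 168) (nat_lit 0) (XT.lf (nat_lit 0) (nat_lit 4821177086) (nat_lit 84) (nat_lit 2271105633) (nat_lit 168) (nat_lit 8545888490) (nat_lit 31) (nat_lit 5) (nat_lit 32) (nat_lit 5) (nat_lit 33) (nat_lit 4) (nat_lit 292) (nat_lit 227) (nat_lit 201)) (XT.lf (nat_lit 0) (nat_lit 1549750990) (nat_lit 168) (nat_lit 11980821857) (nat_lit 168) (nat_lit 2553131398) (nat_lit 29) (nat_lit 4) (nat_lit 31) (nat_lit 5) (nat_lit 31) (nat_lit 4) (nat_lit 293) (nat_lit 227) (nat_lit 200)))) (XT.nd (nat_lit 188) (nat_lit 252) (nat_lit 0) (XT.nd (nat_lit 94) (nat_lit 84) (nat_lit 0) (XT.lf (nat_lit 0) (nat_lit 3723822674) (nat_lit 252) (nat_lit 1958092065) (nat_lit 84) (nat_lit 10861468228) (nat_lit 28) (nat_lit 5) (nat_lit 31) (nat_lit 5) (nat_lit 29) (nat_lit 4) (nat_lit 294) (nat_lit 227) (nat_lit 199)) (XT.lf (nat_lit 0) (nat_lit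 10309069183) (nat_lit 168) (nat_lit 5685941027) (nat_lit 0) (nat_lit 1024930350) (nat_lit 27) (nat_lit 5) (nat_lit 29) (nat_lit 4) (nat_lit 27) (nat_lit 4) (nat_lit 295) (nat_lit 227) (nat_lit 198))) (XT.nd (nat_lit 94) (nat_lit 168) (nat_lit 0) (XT.lf (nat_lit 0) (nat_lit 7778113325) (nat_lit 84) (nat_lit 9580731615) (nat_lit 84) (nat_lit 154717746) (nat_lit 26) (nat_lit 4) (nat_lit 27) (nat_lit 5) (nat_lit 27) (nat_lit 4) (nat_lit 296) (nat_lit 227) (nat_lit 197)) (XT.lf (nat_lit 0) (nat_lit 3886079667) (nat_lit 84) (nat_lit 2673536243) (nat_lit 168) (nat_lit 11464709383) (nat_lit 24) (nat_lit 5) (nat_lit 25) (nat_lit 5) (nat_lit 26) (nat_lit 4) (nat_lit 297) (nat_lit 227) (nat_lit 196))))) (XT.nd (nat_lit 376) (nat_lit 504) (nat_lit 0) (XT.nd (nat_lit 188) (nat_lit 168) (nat_lit 0) (XT.nd (nat_lit 94) (nat_lit 168) (nat_lit 0) (XT.lf (nat_lit 0) (nat_lit 13731162428)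 (nat_lit 168) (nat_lit 320237467) (nat_lit 0) (nat_lit 4502764533) (nat_lit 24) (nat_lit 5) (nat_lit 26) (nat_lit 4) (nat_lit 24) (nat_lit 4) (nat_lit 298) (nat_lit 227) (nat_lit 195)) (XT.lf (nat_lit 0) (nat_lit 2246204756) (nat_lit 168) (nat_lit 4740399087) (nat_lit 84) (nat_lit 12114000045) (nat_lit 22) (nat_lit 5) (nat_lit 24) (nat_lit 5) (nat_lit 23) (nat_lit 4) (nat_lit 299) (nat_lit 227) (nat_lit 194))) (XT.nd (nat_lit 94) (nat_lit 84) (nat_lit 0) (XT.lf (nat_lit 0) (nat_lit 9573077668) (nat_lit 168) (nat_lit 9526924706) (nat_lit 0) (nat_lit 567095152) (nat_lit 21) (nat_lit 5) (nat_lit 23) (nat_lit 4) (nat_lit 21) (nat_lit 4) (nat_lit 300) (nat_lit 227) (nat_lit 193)) (XT.lf (nat_lit 0) (nat_lit 5524448613) (nat_lit 84) (nat_lit 11917741448) (nat_lit 84) (nat_lit 2810930993) (nat_lit 20) (nat_lit 4) (nat_lit 21) (nat_lit 5) (nat_lit 21) (nat_lit 4) (nat_lit 301) (nat_lit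 227) (nat_lit 192)))) (XT.nd (nat_lit 188) (nat_lit 336) (nat_lit 0) (XT.nd (nat_lit 94) (nat_lit 0) (nat_lit 0) (XT.lf (nat_lit 0) (nat_lit 529430526) (nat_lit 84) (nat_lit 4218017078) (nat_lit 168) (nat_lit 16113926361) (nat_lit 18) (nat_lit 5) (nat_lit 19) (nat_lit 5) (nat_lit 20) (nat_lit 4) (nat_lit 302) (nat_lit 227) (nat_lit 191)) (XT.lf (nat_lit 0) (nat_lit 12797149241) (nat_lit 168) (nat_lit 4744749197) (nat_lit 0) (nat_lit 3945443549) (nat_lit 18) (nat_lit 5) (nat_lit 20) (nat_lit 4) (nat_lit 18) (nat_lit 4) (nat_lit 303) (nat_lit 227) (nat_lit 190))) (XT.nd (nat_lit 94) (nat_lit 252) (nat_lit 0) (XT.lf (nat_lit 0) (nat_lit 11729575132) (nat_lit 84) (nat_lit 9671062638) (nat_lit 84) (nat_lit 736405551) (nat_lit 17) (nat_lit 4) (nat_lit 18) (nat_lit 5) (nat_lit 18) (nat_lit 4) (nat_lit 304) (nat_lit 227) (nat_lit 189)) (XT.nd (nat_lit 94) (nat_lit 84) (nat_lit 0)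 (XT.lf (nat_lit 0) (nat_lit 6258600880) (nat_lit 84) (nat_lit 1191281703) (nat_lit 168) (nat_lit 15359475439) (nat_lit 15) (nat_lit 5) (nat_lit 16) (nat_lit 5) (nat_lit 17) (nat_lit 4) (nat_lit 305) (nat_lit 227) (nat_lit 188)) (XT.lf (nat_lit 0) (nat_lit 287775887) (nat_lit 84) (nat_lit 15936414701) (nat_lit 84) (nat_lit 7280321581) (nat_lit 14) (nat_lit 4) (nat_lit 15) (nat_lit 5) (nat_lit 15) (nat_lit 4) (nat_lit 306) (nat_lit 227) (nat_lit 187))))))) (XT.nd (nat_lit 752) (nat_lit 504) (nat_lit 0) (XT.nd (nat_lit 376) (nat_lit 336) (nat_lit 0) (XT.nd (nat_lit 188) (nat_lit 168) (nat_lit 0) (XT.nd (nat_lit 94) (nat_lit 84) (nat_lit 0) (XT.lf (nat_lit 0) (nat_lit 1368229172) (nat_lit 168) (nat_lit 5919467635) (nat_lit 84) (nat_lit 16935591472) (nat_lit 13) (nat_lit 5) (nat_lit 15) (nat_lit 5) (nat_lit 14) (nat_lit 4) (nat_lit 307) (nat_lit 227) (nat_lit 186)) (XT.lf (nat_lit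 0) (nat_lit 10332971152) (nat_lit 168) (nat_lit 12670464307) (nat_lit 0) (nat_lit 1962178746) (nat_lit 12) (nat_lit 5) (nat_lit 14) (nat_lit 4) (nat_lit 12) (nat_lit 4) (nat_lit 308) (nat_lit 227) (nat_lit 185))) (XT.nd (nat_lit 94) (nat_lit 84) (nat_lit 0) (XT.lf (nat_lit 0) (nat_lit 5759467133) (nat_lit 84) (nat_lit 14202272129) (nat_lit 84) (nat_lit 5772527714) (nat_lit 11) (nat_lit 4) (nat_lit 12) (nat_lit 5) (nat_lit 12) (nat_lit 4) (nat_lit 309) (nat_lit 227) (nat_lit 184)) (XT.lf (nat_lit 0) (nat_lit 3540289543) (nat_lit 168) (nat_lit 1228295618) (nat_lit 84) (nat_lit 21763876242) (nat_lit 10) (nat_lit 5) (nat_lit 12) (nat_lit 5) (nat_lit 11) (nat_lit 4) (nat_lit 310) (nat_lit 227) (nat_lit 183)))) (XT.nd (nat_lit 188) (nat_lit 168) (nat_lit 0) (XT.nd (nat_lit 94) (nat_lit 84) (nat_lit 0) (XT.lf (nat_lit 0) (nat_lit 13412276697) (nat_lit 168) (nat_lit 8659628570)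 (nat_lit 0) (nat_lit 5279552514) (nat_lit 9) (nat_lit 5) (nat_lit 11) (nat_lit 4) (nat_lit 9) (nat_lit 4) (nat_lit 311) (nat_lit 227) (nat_lit 182)) (XT.lf (nat_lit 0) (nat_lit 11550467296) (nat_lit 84) (nat_lit 12416356402) (nat_lit 84) (nat_lit 4235132256) (nat_lit 8) (nat_lit 4) (nat_lit 9) (nat_lit 5) (nat_lit 9) (nat_lit 4) (nat_lit 312) (nat_lit 227) (nat_lit 181))) (XT.nd (nat_lit 94) (nat_lit 0) (nat_lit 0) (XT.lf (nat_lit 0) (nat_lit 3830269385) (nat_lit 84) (nat_lit 2051527674) (nat_lit 168) (nat_lit 23202621600) (nat_lit 6) (nat_lit 5) (nat_lit 7) (nat_lit 5) (nat_lit 8) (nat_lit 4) (nat_lit 313) (nat_lit 227) (nat_lit 180)) (XT.lf (nat_lit 0) (nat_lit 16696284677) (nat_lit 168) (nat_lit 4475790754) (nat_lit 0) (nat_lit 8818755645) (nat_lit 6) (nat_lit 5) (nat_lit 8) (nat_lit 4) (nat_lit 6) (nat_lit 4) (nat_lit 314) (nat_lit 227) (nat_lit 179))))) (XT.nd (nat_lit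 376) (nat_lit 168) (nat_lit 0) (XT.nd (nat_lit 188) (nat_lit 84) (nat_lit 0) (XT.nd (nat_lit 94) (nat_lit 168) (nat_lit 0) (XT.lf (nat_lit 0) (nat_lit 17701884733) (nat_lit 84) (nat_lit 10573458560) (nat_lit 84) (nat_lit 2656028490) (nat_lit 5) (nat_lit 4) (nat_lit 6) (nat_lit 5) (nat_lit 6) (nat_lit 4) (nat_lit 315) (nat_lit 227) (nat_lit 178)) (XT.lf (nat_lit 0) (nat_lit 8389864816) (nat_lit 168) (nat_lit 22701766012) (nat_lit 0) (nat_lit 813263806) (nat_lit 3) (nat_lit 5) (nat_lit 5) (nat_lit 4) (nat_lit 3) (nat_lit 4) (nat_lit 316) (nat_lit 227) (nat_lit 177))) (XT.nd (nat_lit 94) (nat_lit 84) (nat_lit 0) (XT.lf (nat_lit 0) (nat_lit 20213870452) (nat_lit 168) (nat_lit 92490796) (nat_lit 0) (nat_lit 12602801424) (nat_lit 3) (nat_lit 5) (nat_lit 5) (nat_lit 4) (nat_lit 3) (nat_lit 4) (nat_lit 317) (nat_lit 227) (nat_lit 176)) (XT.lf (nat_lit 0) (nat_lit 24259196047) (nat_lit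 84) (nat_lit 8666750144) (nat_lit 84) (nat_lit 1022854432) (nat_lit 2) (nat_lit 4) (nat_lit 3) (nat_lit 5) (nat_lit 3) (nat_lit 4) (nat_lit 318) (nat_lit 227) (nat_lit 175)))) (XT.nd (nat_lit 188) (nat_lit 0) (nat_lit 0) (XT.nd (nat_lit 94) (nat_lit 0) (nat_lit 0) (XT.lf (nat_lit 0) (nat_lit 51294410904) (nat_lit 0) (nat_lit 0) (nat_lit 0) (nat_lit 0) (nat_lit 0) (nat_lit 0) (nat_lit 1) (nat_lit 0) (nat_lit 1) (nat_lit 0) (nat_lit 319) (nat_lit 227) (nat_lit 174)) (XT.lf (nat_lit 0) (nat_lit 53826472675) (nat_lit 0) (nat_lit 0) (nat_lit 0) (nat_lit 0) (nat_lit 0) (nat_lit 0) (nat_lit 1) (nat_lit 0) (nat_lit 1) (nat_lit 0) (nat_lit 320) (nat_lit 227) (nat_lit 173))) (XT.nd (nat_lit 94) (nat_lit 0) (nat_lit 0) (XT.lf (nat_lit 0) (nat_lit 56485336932) (nat_lit 0) (nat_lit 0) (nat_lit 0) (nat_lit 0) (nat_lit 0) (nat_lit 0) (nat_lit 1) (nat_lit 0) (nat_lit 1) (nat_lit 0) (nat_lit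 321) (nat_lit 227) (nat_lit 172)) (XT.nd (nat_lit 94) (nat_lit 0) (nat_lit 0) (XT.lf (nat_lit 0) (nat_lit 59277334306) (nat_lit 0) (nat_lit 0) (nat_lit 0) (nat_lit 0) (nat_lit 0) (nat_lit 0) (nat_lit 1) (nat_lit 0) (nat_lit 1) (nat_lit 0) (nat_lit 322) (nat_lit 227) (nat_lit 171)) (XT.lf (nat_lit 0) (nat_lit 62209112408) (nat_lit 0) (nat_lit 0) (nat_lit 0) (nat_lit 0) (nat_lit 0) (nat_lit 0) (nat_lit 1) (nat_lit 0) (nat_lit 1) (nat_lit 0) (nat_lit 323) (nat_lit 227) (nat_lit 170))))))))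
noncomputable def xc52 : XT := (XT.nd (nat_lit 1504) (nat_lit 0) (nat_lit 0) (XT.nd (nat_lit 752) (nat_lit 0) (nat_lit 0) (XT.nd (nat_lit 376) (nat_lit 0) (nat_lit 0) (XT.nd (nat_lit 188) (nat_lit 0) (nat_lit 0) (XT.nd (nat_lit 94) (nat_lit 0) (nat_lit 0) (XT.lf (nat_lit 0) (nat_lit 65287651663) (nat_lit 0) (nat_lit 0) (nat_lit 0) (nat_lit 0) (nat_lit 0) (nat_lit 0) (nat_lit 1) (nat_lit 0) (nat_lit 1) (nat_lit 0) (nat_lit 324) (nat_lit 227) (nat_lit 169)) (XT.lf (nat_lit 0) (nat_lit 68520281926) (nat_lit 0) (nat_lit 0) (nat_lit 0) (nat_lit 0) (nat_lit 0) (nat_lit 0) (nat_lit 1) (nat_lit 0) (nat_lit 1) (nat_lit 0) (nat_lit 325) (nat_lit 227) (nat_lit 168))) (XT.nd (nat_lit 94) (nat_lit 0) (nat_lit 0) (XT.lf (nat_lit 0) (nat_lit 71914699936) (nat_lit 0) (nat_lit 0) (nat_lit 0) (nat_lit 0) (nat_lit 0) (nat_lit 0) (nat_lit 1) (nat_lit 0) (nat_lit 1) (nat_lit 0) (nat_lit 326)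 (nat_lit 227) (nat_lit 167)) (XT.lf (nat_lit 0) (nat_lit 75478987641) (nat_lit 0) (nat_lit 0) (nat_lit 0) (nat_lit 0) (nat_lit 0) (nat_lit 0) (nat_lit 1) (nat_lit 0) (nat_lit 1) (nat_lit 0) (nat_lit 327) (nat_lit 227) (nat_lit 166)))) (XT.nd (nat_lit 188) (nat_lit 0) (nat_lit 0) (XT.nd (nat_lit 94) (nat_lit 0) (nat_lit 0) (XT.lf (nat_lit 0) (nat_lit 79221631440) (nat_lit 0) (nat_lit 0) (nat_lit 0) (nat_lit 0) (nat_lit 0) (nat_lit 0) (nat_lit 1) (nat_lit 0) (nat_lit 1) (nat_lit 0) (nat_lit 328) (nat_lit 227) (nat_lit 165)) (XT.lf (nat_lit 0) (nat_lit 83151542389) (nat_lit 0) (nat_lit 0) (nat_lit 0) (nat_lit 0) (nat_lit 0) (nat_lit 0) (nat_lit 1) (nat_lit 0) (nat_lit 1) (nat_lit 0) (nat_lit 329) (nat_lit 227) (nat_lit 164))) (XT.nd (nat_lit 94) (nat_lit 0) (nat_lit 0) (XT.lf (nat_lit 0) (nat_lit 87278077420) (nat_lit 0) (nat_lit 0) (nat_lit 0) (nat_lit 0) (nat_lit 0) (nat_lit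 0) (nat_lit 1) (nat_lit 0) (nat_lit 1) (nat_lit 0) (nat_lit 330) (nat_lit 227) (nat_lit 163)) (XT.lf (nat_lit 0) (nat_lit 91611061615) (nat_lit 0) (nat_lit 0) (nat_lit 0) (nat_lit 0) (nat_lit 0) (nat_lit 0) (nat_lit 1) (nat_lit 0) (nat_lit 1) (nat_lit 0) (nat_lit 331) (nat_lit 227) (nat_lit 162))))) (XT.nd (nat_lit 376) (nat_lit 0) (nat_lit 0) (XT.nd (nat_lit 188) (nat_lit 0) (nat_lit 0) (XT.nd (nat_lit 94) (nat_lit 0) (nat_lit 0) (XT.lf (nat_lit 0) (nat_lit 96160811604) (nat_lit 0) (nat_lit 0) (nat_lit 0) (nat_lit 0) (nat_lit 0) (nat_lit 0) (nat_lit 1) (nat_lit 0) (nat_lit 1) (nat_lit 0) (nat_lit 332) (nat_lit 227) (nat_lit 161)) (XT.lf (nat_lit 0) (nat_lit 100938160126) (nat_lit 0) (nat_lit 0) (nat_lit 0) (nat_lit 0) (nat_lit 0) (nat_lit 0) (nat_lit 1) (nat_lit 0) (nat_lit 1) (nat_lit 0) (nat_lit 333) (nat_lit 227) (nat_lit 160))) (XT.nd (nat_lit 94) (nat_lit 0) (nat_lit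 0) (XT.lf (nat_lit 0) (nat_lit 105954481818) (nat_lit 0) (nat_lit 0) (nat_lit 0) (nat_lit 0) (nat_lit 0) (nat_lit 0) (nat_lit 1) (nat_lit 0) (nat_lit 1) (nat_lit 0) (nat_lit 334) (nat_lit 227) (nat_lit 159)) (XT.lf (nat_lit 0) (nat_lit 111221720304) (nat_lit 0) (nat_lit 0) (nat_lit 0) (nat_lit 0) (nat_lit 0) (nat_lit 0) (nat_lit 1) (nat_lit 0) (nat_lit 1) (nat_lit 0) (nat_lit 335) (nat_lit 227) (nat_lit 158)))) (XT.nd (nat_lit 188) (nat_lit 0) (nat_lit 0) (XT.nd (nat_lit 94) (nat_lit 0) (nat_lit 0) (XT.lf (nat_lit 0) (nat_lit 116752416629) (nat_lit 0) (nat_lit 0) (nat_lit 0) (nat_lit 0) (nat_lit 0) (nat_lit 0) (nat_lit 1) (nat_lit 0) (nat_lit 1) (nat_lit 0) (nat_lit 336) (nat_lit 227) (nat_lit 157)) (XT.lf (nat_lit 0) (nat_lit 122559739117) (nat_lit 0) (nat_lit 0) (nat_lit 0) (nat_lit 0) (nat_lit 0) (nat_lit 0) (nat_lit 1) (nat_lit 0) (nat_lit 1) (nat_lit 0) (nat_lit 337)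 (nat_lit 227) (nat_lit 156))) (XT.nd (nat_lit 94) (nat_lit 0) (nat_lit 0) (XT.lf (nat_lit 0) (nat_lit 128657514726) (nat_lit 0) (nat_lit 0) (nat_lit 0) (nat_lit 0) (nat_lit 0) (nat_lit 0) (nat_lit 1) (nat_lit 0) (nat_lit 1) (nat_lit 0) (nat_lit 338) (nat_lit 227) (nat_lit 155)) (XT.lf (nat_lit 0) (nat_lit 135060261970) (nat_lit 0) (nat_lit 0) (nat_lit 0) (nat_lit 0) (nat_lit 0) (nat_lit 0) (nat_lit 1) (nat_lit 0) (nat_lit 1) (nat_lit 0) (nat_lit 339) (nat_lit 227) (nat_lit 154)))))) (XT.nd (nat_lit 38728) (nat_lit 0) (nat_lit 4452) (XT.nd (nat_lit 38352) (nat_lit 0) (nat_lit 6384) (XT.nd (nat_lit 38164) (nat_lit 0) (nat_lit 7392) (XT.nd (nat_lit 38070) (nat_lit 0) (nat_lit 8064) (XT.lf (nat_lit 0) (nat_lit 141783225484) (nat_lit 0) (nat_lit 0) (nat_lit 0) (nat_lit 0) (nat_lit 0) (nat_lit 0) (nat_lit 1) (nat_lit 0) (nat_lit 1) (nat_lit 0) (nat_lit 340) (nat_lit 227) (nat_lit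 153)) (XT.lf (nat_lit 0) (nat_lit 1427786009) (nat_lit 420) (nat_lit 1195827294) (nat_lit 0) (nat_lit 1427786009) (nat_lit 96) (nat_lit 5) (nat_lit 101) (nat_lit 4) (nat_lit 96) (nat_lit 4) (nat_lit 264) (nat_lit 228) (nat_lit 228))) (XT.nd (nat_lit 94) (nat_lit 336) (nat_lit 0) (XT.lf (nat_lit 0) (nat_lit 4619624723) (nat_lit 336) (nat_lit 2391601033) (nat_lit 336) (nat_lit 1235366745) (nat_lit 92) (nat_lit 4) (nat_lit 96) (nat_lit 5) (nat_lit 96) (nat_lit 4) (nat_lit 265) (nat_lit 228) (nat_lit 227)) (XT.lf (nat_lit 0) (nat_lit 2819845786) (nat_lit 336) (nat_lit 4908572309) (nat_lit 0) (nat_lit 669931690) (nat_lit 88) (nat_lit 5) (nat_lit 92) (nat_lit 4) (nat_lit 88) (nat_lit 4) (nat_lit 266) (nat_lit 228) (nat_lit 226)))) (XT.nd (nat_lit 188) (nat_lit 336) (nat_lit 0) (XT.nd (nat_lit 94) (nat_lit 336) (nat_lit 0) (XT.lf (nat_lit 0) (nat_lit 2310976078) (nat_lit 336) (nat_lit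 4697895282) (nat_lit 336) (nat_lit 1549182536) (nat_lit 84) (nat_lit 4) (nat_lit 88) (nat_lit 5) (nat_lit 88) (nat_lit 4) (nat_lit 267) (nat_lit 228) (nat_lit 225)) (XT.lf (nat_lit 0) (nat_lit 1094346504) (nat_lit 252) (nat_lit 1439456451) (nat_lit 336) (nat_lit 6192945584) (nat_lit 80) (nat_lit 5) (nat_lit 83) (nat_lit 5) (nat_lit 84) (nat_lit 4) (nat_lit 268) (nat_lit 228) (nat_lit 224))) (XT.nd (nat_lit 94) (nat_lit 336) (nat_lit 0) (XT.lf (nat_lit 0) (nat_lit 6746770272) (nat_lit 336) (nat_lit 177686481) (nat_lit 0) (nat_lit 1979256581) (nat_lit 80) (nat_lit 5) (nat_lit 84) (nat_lit 4) (nat_lit 80) (nat_lit 4) (nat_lit 269) (nat_lit 228) (nat_lit 223)) (XT.lf (nat_lit 0) (nat_lit 2004063952) (nat_lit 336) (nat_lit 1480896709) (nat_lit 84) (nat_lit 5603451058) (nat_lit 76) (nat_lit 5) (nat_lit 80) (nat_lit 5) (nat_lit 77) (nat_lit 4) (nat_lit 270) (nat_lit 228) (nat_lit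 222))))) (XT.nd (nat_lit 376) (nat_lit 840) (nat_lit 0) (XT.nd (nat_lit 188) (nat_lit 504) (nat_lit 0) (XT.nd (nat_lit 94) (nat_lit 336) (nat_lit 0) (XT.lf (nat_lit 0) (nat_lit 6255740488) (nat_lit 336) (nat_lit 2839733772) (nat_lit 0) (nat_lit 187347450) (nat_lit 73) (nat_lit 5) (nat_lit 77) (nat_lit 4) (nat_lit 73) (nat_lit 4) (nat_lit 271) (nat_lit 228) (nat_lit 221)) (XT.lf (nat_lit 0) (nat_lit 1208537688) (nat_lit 336) (nat_lit 4300718329) (nat_lit 84) (nat_lit 3975985899) (nat_lit 69) (nat_lit 5) (nat_lit 73) (nat_lit 5) (nat_lit 70) (nat_lit 4) (nat_lit 272) (nat_lit 228) (nat_lit 220))) (XT.nd (nat_lit 94) (nat_lit 336) (nat_lit 0) (XT.lf (nat_lit 0) (nat_lit 3851893668) (nat_lit 168) (nat_lit 1663296820) (nat_lit 252) (nat_lit 4182062297) (nat_lit 67) (nat_lit 5) (nat_lit 69) (nat_lit 5) (nat_lit 70) (nat_lit 4) (nat_lit 273) (nat_lit 228) (nat_lit 219)) (XT.lf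 (nat_lit 0) (nat_lit 117033422) (nat_lit 336) (nat_lit 7472539911) (nat_lit 84) (nat_lit 2330025465) (nat_lit 63) (nat_lit 5) (nat_lit 67) (nat_lit 5) (nat_lit 64) (nat_lit 4) (nat_lit 274) (nat_lit 228) (nat_lit 218)))) (XT.nd (nat_lit 188) (nat_lit 672) (nat_lit 0) (XT.nd (nat_lit 94) (nat_lit 0) (nat_lit 0) (XT.lf (nat_lit 0) (nat_lit 903103381) (nat_lit 168) (nat_lit 3584476469) (nat_lit 252) (nat_lit 5662202310) (nat_lit 61) (nat_lit 5) (nat_lit 63) (nat_lit 5) (nat_lit 64) (nat_lit 4) (nat_lit 275) (nat_lit 228) (nat_lit 217)) (XT.lf (nat_lit 0) (nat_lit 9071854142) (nat_lit 252) (nat_lit 679057591) (nat_lit 0) (nat_lit 640802928) (nat_lit 61) (nat_lit 5) (nat_lit 64) (nat_lit 4) (nat_lit 61) (nat_lit 4) (nat_lit 276) (nat_lit 228) (nat_lit 216))) (XT.nd (nat_lit 94) (nat_lit 420) (nat_lit 0) (XT.lf (nat_lit 0) (nat_lit 3188745157) (nat_lit 252) (nat_lit 2398584831)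 (nat_lit 84) (nat_lit 5053243132) (nat_lit 58) (nat_lit 5) (nat_lit 61) (nat_lit 5) (nat_lit 59) (nat_lit 4) (nat_lit 277) (nat_lit 228) (nat_lit 215)) (XT.nd (nat_lit 94) (nat_lit 252) (nat_lit 0) (XT.lf (nat_lit 0) (nat_lit 6695305999) (nat_lit 168) (nat_lit 1163844064) (nat_lit 252) (nat_lit 3042606339) (nat_lit 56) (nat_lit 5) (nat_lit 58) (nat_lit 5) (nat_lit 59) (nat_lit 4) (nat_lit 278) (nat_lit 228) (nat_lit 214)) (XT.lf (nat_lit 0) (nat_lit 1577094285) (nat_lit 252) (nat_lit 6170302240) (nat_lit 84) (nat_lit 3425322675) (nat_lit 53) (nat_lit 5) (nat_lit 56) (nat_lit 5) (nat_lit 54) (nat_lit 4) (nat_lit 279) (nat_lit 228) (nat_lit 213))))))))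
noncomputable def xc53 : XT := (XT.nd (nat_lit 1598) (nat_lit 1512) (nat_lit 0) (XT.nd (nat_lit 752) (nat_lit 1176) (nat_lit 0) (XT.nd (nat_lit 376) (nat_lit 588) (nat_lit 0) (XT.nd (nat_lit 188) (nat_lit 168) (nat_lit 0) (XT.nd (nat_lit 94) (nat_lit 168) (nat_lit 0) (XT.lf (nat_lit 0) (nat_lit 3164535995) (nat_lit 168) (nat_lit 3168587414) (nat_lit 252) (nat_lit 5121233039) (nat_lit 51) (nat_lit 5) (nat_lit 53) (nat_lit 5) (nat_lit 54) (nat_lit 4) (nat_lit 280) (nat_lit 228) (nat_lit 212)) (XT.lf (nat_lit 0) (nat_lit 1215051135) (nat_lit 168) (nat_lit 10130674139) (nat_lit 168) (nat_lit 403411722) (nat_lit 49) (nat_lit 4) (nat_lit 51) (nat_lit 5) (nat_lit 51) (nat_lit 4) (nat_lit 281) (nat_lit 228) (nat_lit 211))) (XT.nd (nat_lit 94) (nat_lit 84) (nat_lit 0) (XT.lf (nat_lit 0) (nat_lit 4467901619) (nat_lit 252) (nat_lit 926575245) (nat_lit 84) (nat_lit 6657465607) (nat_lit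 48) (nat_lit 5) (nat_lit 51) (nat_lit 5) (nat_lit 49) (nat_lit 4) (nat_lit 282) (nat_lit 228) (nat_lit 210)) (XT.lf (nat_lit 0) (nat_lit 9228525253) (nat_lit 84) (nat_lit 359639629) (nat_lit 168) (nat_lit 2780445598) (nat_lit 47) (nat_lit 5) (nat_lit 48) (nat_lit 5) (nat_lit 49) (nat_lit 4) (nat_lit 283) (nat_lit 228) (nat_lit 209)))) (XT.nd (nat_lit 188) (nat_lit 252) (nat_lit 0) (XT.nd (nat_lit 94) (nat_lit 84) (nat_lit 0) (XT.lf (nat_lit 0) (nat_lit 2272673882) (nat_lit 252) (nat_lit 5581392766) (nat_lit 84) (nat_lit 4841189138) (nat_lit 44) (nat_lit 5) (nat_lit 47) (nat_lit 5) (nat_lit 45) (nat_lit 4) (nat_lit 284) (nat_lit 228) (nat_lit 208)) (XT.lf (nat_lit 0) (nat_lit 4833189398) (nat_lit 84) (nat_lit 2663645545) (nat_lit 168) (nat_lit 5538528021) (nat_lit 43) (nat_lit 5) (nat_lit 44) (nat_lit 5) (nat_lit 45) (nat_lit 4) (nat_lit 285) (nat_lit 228) (nat_lit 207)))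 (XT.nd (nat_lit 94) (nat_lit 84) (nat_lit 0) (XT.lf (nat_lit 0) (nat_lit 2381674979) (nat_lit 168) (nat_lit 10654631092) (nat_lit 168) (nat_lit 353464328) (nat_lit 41) (nat_lit 4) (nat_lit 43) (nat_lit 5) (nat_lit 43) (nat_lit 4) (nat_lit 286) (nat_lit 228) (nat_lit 206)) (XT.lf (nat_lit 0) (nat_lit 4990535216) (nat_lit 252) (nat_lit 325356751) (nat_lit 84) (nat_lit 8438901028) (nat_lit 40) (nat_lit 5) (nat_lit 43) (nat_lit 5) (nat_lit 41) (nat_lit 4) (nat_lit 287) (nat_lit 228) (nat_lit 205))))) (XT.nd (nat_lit 376) (nat_lit 588) (nat_lit 0) (XT.nd (nat_lit 188) (nat_lit 252) (nat_lit 0) (XT.nd (nat_lit 94) (nat_lit 252) (nat_lit 0) (XT.lf (nat_lit 0) (nat_lit 10651496379) (nat_lit 168) (nat_lit 3116091176) (nat_lit 0) (nat_lit 367107424) (nat_lit 39) (nat_lit 5) (nat_lit 41) (nat_lit 4) (nat_lit 39) (nat_lit 4) (nat_lit 288) (nat_lit 228) (nat_lit 204)) (XT.lf (nat_lit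 0) (nat_lit 2105524117) (nat_lit 252) (nat_lit 6188159260) (nat_lit 84) (nat_lit 6232818836) (nat_lit 36) (nat_lit 5) (nat_lit 39) (nat_lit 5) (nat_lit 37) (nat_lit 4) (nat_lit 289) (nat_lit 228) (nat_lit 203))) (XT.nd (nat_lit 94) (nat_lit 168) (nat_lit 0) (XT.lf (nat_lit 0) (nat_lit 5439681384) (nat_lit 84) (nat_lit 2440210873) (nat_lit 168) (nat_lit 7053989092) (nat_lit 35) (nat_lit 5) (nat_lit 36) (nat_lit 5) (nat_lit 37) (nat_lit 4) (nat_lit 290) (nat_lit 228) (nat_lit 202)) (XT.lf (nat_lit 0) (nat_lit 2306062005) (nat_lit 168) (nat_lit 11722654639) (nat_lit 168) (nat_lit 1328625907) (nat_lit 33) (nat_lit 4) (nat_lit 35) (nat_lit 5) (nat_lit 35) (nat_lit 4) (nat_lit 291) (nat_lit 228) (nat_lit 201)))) (XT.nd (nat_lit 188) (nat_lit 420) (nat_lit 0) (XT.nd (nat_lit 94) (nat_lit 84) (nat_lit 0) (XT.lf (nat_lit 0) (nat_lit 4622208705) (nat_lit 252) (nat_lit 1099573377)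 (nat_lit 84) (nat_lit 10072084554) (nat_lit 32) (nat_lit 5) (nat_lit 35) (nat_lit 5) (nat_lit 33) (nat_lit 4) (nat_lit 292) (nat_lit 228) (nat_lit 200)) (XT.lf (nat_lit 0) (nat_lit 10908902951) (nat_lit 168) (nat_lit 4664936626) (nat_lit 0) (nat_lit 673139888) (nat_lit 31) (nat_lit 5) (nat_lit 33) (nat_lit 4) (nat_lit 31) (nat_lit 4) (nat_lit 293) (nat_lit 228) (nat_lit 199))) (XT.nd (nat_lit 94) (nat_lit 168) (nat_lit 0) (XT.lf (nat_lit 0) (nat_lit 896167630) (nat_lit 252) (nat_lit 8555036647) (nat_lit 84) (nat_lit 7264220228) (nat_lit 28) (nat_lit 5) (nat_lit 31) (nat_lit 5) (nat_lit 29) (nat_lit 4) (nat_lit 294) (nat_lit 228) (nat_lit 198)) (XT.nd (nat_lit 94) (nat_lit 84) (nat_lit 0) (XT.lf (nat_lit 0) (nat_lit 4432302459) (nat_lit 84) (nat_lit 2871820241) (nat_lit 168) (nat_lit 9896723970) (nat_lit 27) (nat_lit 5) (nat_lit 28) (nat_lit 5) (nat_lit 29) (nat_lit 4) (nat_lit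 295) (nat_lit 228) (nat_lit 197)) (XT.lf (nat_lit 0) (nat_lit 403427021) (nat_lit 84) (nat_lit 13737987331) (nat_lit 84) (nat_lit 3563678651) (nat_lit 26) (nat_lit 4) (nat_lit 27) (nat_lit 5) (nat_lit 27) (nat_lit 4) (nat_lit 296) (nat_lit 228) (nat_lit 196))))))) (XT.nd (nat_lit 752) (nat_lit 756) (nat_lit 0) (XT.nd (nat_lit 376) (nat_lit 336) (nat_lit 0) (XT.nd (nat_lit 188) (nat_lit 252) (nat_lit 0) (XT.nd (nat_lit 94) (nat_lit 84) (nat_lit 0) (XT.lf (nat_lit 0) (nat_lit 3146688505) (nat_lit 168) (nat_lit 3852282082) (nat_lit 84) (nat_lit 11225199921) (nat_lit 25) (nat_lit 5) (nat_lit 27) (nat_lit 5) (nat_lit 26) (nat_lit 4) (nat_lit 297) (nat_lit 228) (nat_lit 195)) (XT.lf (nat_lit 0) (nat_lit 10135344890) (nat_lit 168) (nat_lit 8421560092) (nat_lit 0) (nat_lit 206249167) (nat_lit 24) (nat_lit 5) (nat_lit 26) (nat_lit 4) (nat_lit 24) (nat_lit 4) (nat_lit 298) (nat_lit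 228) (nat_lit 194))) (XT.nd (nat_lit 94) (nat_lit 168) (nat_lit 0) (XT.lf (nat_lit 0) (nat_lit 5929502585) (nat_lit 84) (nat_lit 11715629019) (nat_lit 84) (nat_lit 1675370493) (nat_lit 23) (nat_lit 4) (nat_lit 24) (nat_lit 5) (nat_lit 24) (nat_lit 4) (nat_lit 299) (nat_lit 228) (nat_lit 193)) (XT.lf (nat_lit 0) (nat_lit 1140527123) (nat_lit 84) (nat_lit 4365158235) (nat_lit 168) (nat_lit 14392590207) (nat_lit 21) (nat_lit 5) (nat_lit 22) (nat_lit 5) (nat_lit 23) (nat_lit 4) (nat_lit 300) (nat_lit 228) (nat_lit 192)))) (XT.nd (nat_lit 188) (nat_lit 168) (nat_lit 0) (XT.nd (nat_lit 94) (nat_lit 168) (nat_lit 0) (XT.lf (nat_lit 0) (nat_lit 13170921584) (nat_lit 168) (nat_lit 3911655259) (nat_lit 0) (nat_lit 3411916058) (nat_lit 21) (nat_lit 5) (nat_lit 23) (nat_lit 4) (nat_lit 21) (nat_lit 4) (nat_lit 301) (nat_lit 228) (nat_lit 191)) (XT.lf (nat_lit 0) (nat_lit 257451834)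 (nat_lit 168) (nat_lit 9322683177) (nat_lit 84) (nat_lit 11532222954) (nat_lit 19) (nat_lit 5) (nat_lit 21) (nat_lit 5) (nat_lit 20) (nat_lit 4) (nat_lit 302) (nat_lit 228) (nat_lit 190))) (XT.nd (nat_lit 94) (nat_lit 84) (nat_lit 0) (XT.lf (nat_lit 0) (nat_lit 6553916005) (nat_lit 84) (nat_lit 1490705657) (nat_lit 168) (nat_lit 13706830917) (nat_lit 18) (nat_lit 5) (nat_lit 19) (nat_lit 5) (nat_lit 20) (nat_lit 4) (nat_lit 303) (nat_lit 228) (nat_lit 189)) (XT.lf (nat_lit 0) (nat_lit 859946829) (nat_lit 84) (nat_lit 15548272154) (nat_lit 84) (nat_lit 6004929489) (nat_lit 17) (nat_lit 4) (nat_lit 18) (nat_lit 5) (nat_lit 18) (nat_lit 4) (nat_lit 304) (nat_lit 228) (nat_lit 188))))) (XT.nd (nat_lit 376) (nat_lit 420) (nat_lit 0) (XT.nd (nat_lit 188) (nat_lit 168) (nat_lit 0) (XT.nd (nat_lit 94) (nat_lit 84) (nat_lit 0) (XT.lf (nat_lit 0) (nat_lit 2205419931) (nat_lit 168)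 (nat_lit 5097471165) (nat_lit 84) (nat_lit 15793913117) (nat_lit 16) (nat_lit 5) (nat_lit 18) (nat_lit 5) (nat_lit 17) (nat_lit 4) (nat_lit 305) (nat_lit 228) (nat_lit 187)) (XT.lf (nat_lit 0) (nat_lit 10749515088) (nat_lit 168) (nat_lit 11533237456) (nat_lit 0) (nat_lit 1520716460) (nat_lit 15) (nat_lit 5) (nat_lit 17) (nat_lit 4) (nat_lit 15) (nat_lit 4) (nat_lit 306) (nat_lit 228) (nat_lit 186))) (XT.nd (nat_lit 94) (nat_lit 84) (nat_lit 0) (XT.lf (nat_lit 0) (nat_lit 6033732881) (nat_lit 84) (nat_lit 13897503158) (nat_lit 84) (nat_lit 4603709942) (nat_lit 14) (nat_lit 4) (nat_lit 15) (nat_lit 5) (nat_lit 15) (nat_lit 4) (nat_lit 307) (nat_lit 228) (nat_lit 185)) (XT.lf (nat_lit 0) (nat_lit 4239791718) (nat_lit 168) (nat_lit 664119801) (nat_lit 84) (nat_lit 20390383619) (nat_lit 13) (nat_lit 5) (nat_lit 15) (nat_lit 5) (nat_lit 14) (nat_lit 4) (nat_lit 308) (nat_lit 228)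 (nat_lit 184)))) (XT.nd (nat_lit 188) (nat_lit 252) (nat_lit 0) (XT.nd (nat_lit 94) (nat_lit 84) (nat_lit 0) (XT.lf (nat_lit 0) (nat_lit 13646822559) (nat_lit 168) (nat_lit 7746718068) (nat_lit 0) (nat_lit 4680494146) (nat_lit 12) (nat_lit 5) (nat_lit 14) (nat_lit 4) (nat_lit 12) (nat_lit 4) (nat_lit 309) (nat_lit 228) (nat_lit 183)) (XT.lf (nat_lit 0) (nat_lit 11515076566) (nat_lit 84) (nat_lit 12194117494) (nat_lit 84) (nat_lit 3174317873) (nat_lit 11) (nat_lit 4) (nat_lit 12) (nat_lit 5) (nat_lit 12) (nat_lit 4) (nat_lit 310) (nat_lit 228) (nat_lit 182))) (XT.nd (nat_lit 94) (nat_lit 84) (nat_lit 0) (XT.lf (nat_lit 0) (nat_lit 4138000864) (nat_lit 84) (nat_lit 2305279840) (nat_lit 168) (nat_lit 21279504935) (nat_lit 9) (nat_lit 5) (nat_lit 10) (nat_lit 5) (nat_lit 11) (nat_lit 4) (nat_lit 311) (nat_lit 228) (nat_lit 181)) (XT.nd (nat_lit 94) (nat_lit 84) (nat_lit 0) (XT.lf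 (nat_lit 0) (nat_lit 16739367796) (nat_lit 168) (nat_lit 3792446973) (nat_lit 0) (nat_lit 8054392039) (nat_lit 9) (nat_lit 5) (nat_lit 11) (nat_lit 4) (nat_lit 9) (nat_lit 4) (nat_lit 312) (nat_lit 228) (nat_lit 180)) (XT.lf (nat_lit 0) (nat_lit 17342667186) (nat_lit 84) (nat_lit 10433891758) (nat_lit 84) (nat_lit 1704925105) (nat_lit 8) (nat_lit 4) (nat_lit 9) (nat_lit 5) (nat_lit 9) (nat_lit 4) (nat_lit 313) (nat_lit 228) (nat_lit 179))))))))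
noncomputable def xc54 : XT := (XT.nd (nat_lit 1598) (nat_lit 0) (nat_lit 0) (XT.nd (nat_lit 752) (nat_lit 0) (nat_lit 0) (XT.nd (nat_lit 376) (nat_lit 252) (nat_lit 0) (XT.nd (nat_lit 188) (nat_lit 168) (nat_lit 0) (XT.nd (nat_lit 94) (nat_lit 84) (nat_lit 0) (XT.lf (nat_lit 0) (nat_lit 8792231808) (nat_lit 168) (nat_lit 21176561345) (nat_lit 0) (nat_lit 439029194) (nat_lit 6) (nat_lit 5) (nat_lit 8) (nat_lit 4) (nat_lit 6) (nat_lit 4) (nat_lit 314) (nat_lit 228) (nat_lit 178)) (XT.lf (nat_lit 0) (nat_lit 366102799) (nat_lit 84) (nat_lit 19694499141) (nat_lit 84) (nat_lit 11303295538) (nat_lit 5) (nat_lit 4) (nat_lit 6) (nat_lit 5) (nat_lit 6) (nat_lit 4) (nat_lit 315) (nat_lit 228) (nat_lit 177))) (XT.nd (nat_lit 94) (nat_lit 168) (nat_lit 0) (XT.lf (nat_lit 0) (nat_lit 23559428913) (nat_lit 84) (nat_lit 8610922224) (nat_lit 84) (nat_lit 183527202) (nat_lit 5) (nat_lit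 4) (nat_lit 6) (nat_lit 5) (nat_lit 6) (nat_lit 4) (nat_lit 316) (nat_lit 228) (nat_lit 176)) (XT.lf (nat_lit 0) (nat_lit 11327797000) (nat_lit 168) (nat_lit 18777540600) (nat_lit 0) (nat_lit 3268879819) (nat_lit 3) (nat_lit 5) (nat_lit 5) (nat_lit 4) (nat_lit 3) (nat_lit 4) (nat_lit 317) (nat_lit 228) (nat_lit 175)))) (XT.nd (nat_lit 188) (nat_lit 84) (nat_lit 0) (XT.nd (nat_lit 94) (nat_lit 84) (nat_lit 0) (XT.lf (nat_lit 0) (nat_lit 4877385470) (nat_lit 84) (nat_lit 18821841439) (nat_lit 84) (nat_lit 10731660750) (nat_lit 2) (nat_lit 4) (nat_lit 3) (nat_lit 5) (nat_lit 3) (nat_lit 4) (nat_lit 318) (nat_lit 228) (nat_lit 174)) (XT.lf (nat_lit 0) (nat_lit 1357351971) (nat_lit 168) (nat_lit 5337383917) (nat_lit 84) (nat_lit 28832494445) (nat_lit 1) (nat_lit 5) (nat_lit 3) (nat_lit 5) (nat_lit 2) (nat_lit 4) (nat_lit 319) (nat_lit 228) (nat_lit 173))) (XT.nd (nat_lit 94)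 (nat_lit 0) (nat_lit 0) (XT.lf (nat_lit 0) (nat_lit 53852998736) (nat_lit 0) (nat_lit 0) (nat_lit 0) (nat_lit 0) (nat_lit 0) (nat_lit 0) (nat_lit 1) (nat_lit 0) (nat_lit 1) (nat_lit 0) (nat_lit 320) (nat_lit 228) (nat_lit 172)) (XT.lf (nat_lit 0) (nat_lit 56511955629) (nat_lit 0) (nat_lit 0) (nat_lit 0) (nat_lit 0) (nat_lit 0) (nat_lit 0) (nat_lit 1) (nat_lit 0) (nat_lit 1) (nat_lit 0) (nat_lit 321) (nat_lit 228) (nat_lit 171))))) (XT.nd (nat_lit 376) (nat_lit 0) (nat_lit 0) (XT.nd (nat_lit 188) (nat_lit 0) (nat_lit 0) (XT.nd (nat_lit 94) (nat_lit 0) (nat_lit 0) (XT.lf (nat_lit 0) (nat_lit 59304041227) (nat_lit 0) (nat_lit 0) (nat_lit 0) (nat_lit 0) (nat_lit 0) (nat_lit 0) (nat_lit 1) (nat_lit 0) (nat_lit 1) (nat_lit 0) (nat_lit 322) (nat_lit 228) (nat_lit 170)) (XT.lf (nat_lit 0) (nat_lit 62235903353) (nat_lit 0) (nat_lit 0) (nat_lit 0) (nat_lit 0) (nat_lit 0) (nat_lit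 0) (nat_lit 1) (nat_lit 0) (nat_lit 1) (nat_lit 0) (nat_lit 323) (nat_lit 228) (nat_lit 169))) (XT.nd (nat_lit 94) (nat_lit 0) (nat_lit 0) (XT.lf (nat_lit 0) (nat_lit 65314522630) (nat_lit 0) (nat_lit 0) (nat_lit 0) (nat_lit 0) (nat_lit 0) (nat_lit 0) (nat_lit 1) (nat_lit 0) (nat_lit 1) (nat_lit 0) (nat_lit 324) (nat_lit 228) (nat_lit 168)) (XT.lf (nat_lit 0) (nat_lit 68547229105) (nat_lit 0) (nat_lit 0) (nat_lit 0) (nat_lit 0) (nat_lit 0) (nat_lit 0) (nat_lit 1) (nat_lit 0) (nat_lit 1) (nat_lit 0) (nat_lit 325) (nat_lit 228) (nat_lit 167)))) (XT.nd (nat_lit 188) (nat_lit 0) (nat_lit 0) (XT.nd (nat_lit 94) (nat_lit 0) (nat_lit 0) (XT.lf (nat_lit 0) (nat_lit 71941719698) (nat_lit 0) (nat_lit 0) (nat_lit 0) (nat_lit 0) (nat_lit 0) (nat_lit 0) (nat_lit 1) (nat_lit 0) (nat_lit 1) (nat_lit 0) (nat_lit 326) (nat_lit 228) (nat_lit 166)) (XT.lf (nat_lit 0) (nat_lit 75506076529)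 (nat_lit 0) (nat_lit 0) (nat_lit 0) (nat_lit 0) (nat_lit 0) (nat_lit 0) (nat_lit 1) (nat_lit 0) (nat_lit 1) (nat_lit 0) (nat_lit 327) (nat_lit 228) (nat_lit 165))) (XT.nd (nat_lit 94) (nat_lit 0) (nat_lit 0) (XT.lf (nat_lit 0) (nat_lit 79248786162) (nat_lit 0) (nat_lit 0) (nat_lit 0) (nat_lit 0) (nat_lit 0) (nat_lit 0) (nat_lit 1) (nat_lit 0) (nat_lit 1) (nat_lit 0) (nat_lit 328) (nat_lit 228) (nat_lit 164)) (XT.nd (nat_lit 94) (nat_lit 0) (nat_lit 0) (XT.lf (nat_lit 0) (nat_lit 83178759811) (nat_lit 0) (nat_lit 0) (nat_lit 0) (nat_lit 0) (nat_lit 0) (nat_lit 0) (nat_lit 1) (nat_lit 0) (nat_lit 1) (nat_lit 0) (nat_lit 329) (nat_lit 228) (nat_lit 163)) (XT.lf (nat_lit 0) (nat_lit 87305354555) (nat_lit 0) (nat_lit 0) (nat_lit 0) (nat_lit 0) (nat_lit 0) (nat_lit 0) (nat_lit 1) (nat_lit 0) (nat_lit 1) (nat_lit 0) (nat_lit 330) (nat_lit 228) (nat_lit 162))))))) (XT.nd (nat_lit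 752) (nat_lit 0) (nat_lit 0) (XT.nd (nat_lit 376) (nat_lit 0) (nat_lit 0) (XT.nd (nat_lit 188) (nat_lit 0) (nat_lit 0) (XT.nd (nat_lit 94) (nat_lit 0) (nat_lit 0) (XT.lf (nat_lit 0) (nat_lit 91638395621) (nat_lit 0) (nat_lit 0) (nat_lit 0) (nat_lit 0) (nat_lit 0) (nat_lit 0) (nat_lit 1) (nat_lit 0) (nat_lit 1) (nat_lit 0) (nat_lit 331) (nat_lit 228) (nat_lit 161)) (XT.lf (nat_lit 0) (nat_lit 96188199772) (nat_lit 0) (nat_lit 0) (nat_lit 0) (nat_lit 0) (nat_lit 0) (nat_lit 0) (nat_lit 1) (nat_lit 0) (nat_lit 1) (nat_lit 0) (nat_lit 332) (nat_lit 228) (nat_lit 160))) (XT.nd (nat_lit 94) (nat_lit 0) (nat_lit 0) (XT.lf (nat_lit 0) (nat_lit 100965599876) (nat_lit 0) (nat_lit 0) (nat_lit 0) (nat_lit 0) (nat_lit 0) (nat_lit 0) (nat_lit 1) (nat_lit 0) (nat_lit 1) (nat_lit 0) (nat_lit 333) (nat_lit 228) (nat_lit 159)) (XT.lf (nat_lit 0) (nat_lit 105981970695) (nat_lit 0) (nat_lit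 0) (nat_lit 0) (nat_lit 0) (nat_lit 0) (nat_lit 0) (nat_lit 1) (nat_lit 0) (nat_lit 1) (nat_lit 0) (nat_lit 334) (nat_lit 228) (nat_lit 158)))) (XT.nd (nat_lit 188) (nat_lit 0) (nat_lit 0) (XT.nd (nat_lit 94) (nat_lit 0) (nat_lit 0) (XT.lf (nat_lit 0) (nat_lit 111249255969) (nat_lit 0) (nat_lit 0) (nat_lit 0) (nat_lit 0) (nat_lit 0) (nat_lit 0) (nat_lit 1) (nat_lit 0) (nat_lit 1) (nat_lit 0) (nat_lit 335) (nat_lit 228) (nat_lit 157)) (XT.lf (nat_lit 0) (nat_lit 116779996853) (nat_lit 0) (nat_lit 0) (nat_lit 0) (nat_lit 0) (nat_lit 0) (nat_lit 0) (nat_lit 1) (nat_lit 0) (nat_lit 1) (nat_lit 0) (nat_lit 336) (nat_lit 228) (nat_lit 156))) (XT.nd (nat_lit 94) (nat_lit 0) (nat_lit 0) (XT.lf (nat_lit 0) (nat_lit 122587361779) (nat_lit 0) (nat_lit 0) (nat_lit 0) (nat_lit 0) (nat_lit 0) (nat_lit 0) (nat_lit 1) (nat_lit 0) (nat_lit 1) (nat_lit 0) (nat_lit 337) (nat_lit 228) (nat_lit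 155)) (XT.lf (nat_lit 0) (nat_lit 128685177804) (nat_lit 0) (nat_lit 0) (nat_lit 0) (nat_lit 0) (nat_lit 0) (nat_lit 0) (nat_lit 1) (nat_lit 0) (nat_lit 1) (nat_lit 0) (nat_lit 338) (nat_lit 228) (nat_lit 154))))) (XT.nd (nat_lit 38164) (nat_lit 0) (nat_lit 6720) (XT.nd (nat_lit 37976) (nat_lit 0) (nat_lit 8400) (XT.nd (nat_lit 94) (nat_lit 0) (nat_lit 0) (XT.lf (nat_lit 0) (nat_lit 135087963540) (nat_lit 0) (nat_lit 0) (nat_lit 0) (nat_lit 0) (nat_lit 0) (nat_lit 0) (nat_lit 1) (nat_lit 0) (nat_lit 1) (nat_lit 0) (nat_lit 339) (nat_lit 228) (nat_lit 153)) (XT.lf (nat_lit 0) (nat_lit 141810963713) (nat_lit 0) (nat_lit 0) (nat_lit 0) (nat_lit 0) (nat_lit 0) (nat_lit 0) (nat_lit 1) (nat_lit 0) (nat_lit 1) (nat_lit 0) (nat_lit 340) (nat_lit 228) (nat_lit 152))) (XT.nd (nat_lit 94) (nat_lit 84) (nat_lit 0) (XT.lf (nat_lit 0) (nat_lit 58066701) (nat_lit 336) (nat_lit 1930059036)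 (nat_lit 336) (nat_lit 1930059036) (nat_lit 101) (nat_lit 4) (nat_lit 105) (nat_lit 5) (nat_lit 105) (nat_lit 4) (nat_lit 262) (nat_lit 229) (nat_lit 229)) (XT.lf (nat_lit 0) (nat_lit 56208204) (nat_lit 420) (nat_lit 1159521483) (nat_lit 84) (nat_lit 6752904610) (nat_lit 100) (nat_lit 5) (nat_lit 105) (nat_lit 5) (nat_lit 101) (nat_lit 4) (nat_lit 263) (nat_lit 229) (nat_lit 228)))) (XT.nd (nat_lit 188) (nat_lit 1008) (nat_lit 0) (XT.nd (nat_lit 94) (nat_lit 336) (nat_lit 0) (XT.lf (nat_lit 0) (nat_lit 3986476152) (nat_lit 420) (nat_lit 2504283705) (nat_lit 0) (nat_lit 1616195862) (nat_lit 96) (nat_lit 5) (nat_lit 101) (nat_lit 4) (nat_lit 96) (nat_lit 4) (nat_lit 264) (nat_lit 229) (nat_lit 227)) (XT.lf (nat_lit 0) (nat_lit 4392459062) (nat_lit 336) (nat_lit 3666941403) (nat_lit 336) (nat_lit 195485600) (nat_lit 92) (nat_lit 4) (nat_lit 96) (nat_lit 5) (nat_lit 96) (nat_lit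 4) (nat_lit 265) (nat_lit 229) (nat_lit 226))) (XT.nd (nat_lit 94) (nat_lit 672) (nat_lit 0) (XT.lf (nat_lit 0) (nat_lit 3129405684) (nat_lit 252) (nat_lit 602106544) (nat_lit 336) (nat_lit 4679065948) (nat_lit 88) (nat_lit 5) (nat_lit 91) (nat_lit 5) (nat_lit 92) (nat_lit 4) (nat_lit 266) (nat_lit 229) (nat_lit 225)) (XT.nd (nat_lit 94) (nat_lit 336) (nat_lit 0) (XT.lf (nat_lit 0) (nat_lit 1822415642) (nat_lit 336) (nat_lit 6004369072) (nat_lit 336) (nat_lit 748185228) (nat_lit 84) (nat_lit 4) (nat_lit 88) (nat_lit 5) (nat_lit 88) (nat_lit 4) (nat_lit 267) (nat_lit 229) (nat_lit 224)) (XT.lf (nat_lit 0) (nat_lit 445118447) (nat_lit 252) (nat_lit 2777926484) (nat_lit 336) (nat_lit 5524300286) (nat_lit 80) (nat_lit 5) (nat_lit 83) (nat_lit 5) (nat_lit 84) (nat_lit 4) (nat_lit 268) (nat_lit 229) (nat_lit 223))))))))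
noncomputable def xc55 : XT := (XT.nd (nat_lit 1598) (nat_lit 1932) (nat_lit 0) (XT.nd (nat_lit 752) (nat_lit 1512) (nat_lit 0) (XT.nd (nat_lit 376) (nat_lit 672) (nat_lit 0) (XT.nd (nat_lit 188) (nat_lit 588) (nat_lit 0) (XT.nd (nat_lit 94) (nat_lit 336) (nat_lit 0) (XT.lf (nat_lit 0) (nat_lit 7340513581) (nat_lit 336) (nat_lit 938461106) (nat_lit 0) (nat_lit 650110256) (nat_lit 80) (nat_lit 5) (nat_lit 84) (nat_lit 4) (nat_lit 80) (nat_lit 4) (nat_lit 269) (nat_lit 229) (nat_lit 222)) (XT.lf (nat_lit 0) (nat_lit 2467812558) (nat_lit 336) (nat_lit 2413972458) (nat_lit 84) (nat_lit 4235876203) (nat_lit 76) (nat_lit 5) (nat_lit 80) (nat_lit 5) (nat_lit 77) (nat_lit 4) (nat_lit 270) (nat_lit 229) (nat_lit 221))) (XT.nd (nat_lit 94) (nat_lit 336) (nat_lit 0) (XT.lf (nat_lit 0) (nat_lit 5371659022) (nat_lit 252) (nat_lit 1257592761) (nat_lit 336) (nat_lit 2687331292) (nat_lit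 73) (nat_lit 5) (nat_lit 76) (nat_lit 5) (nat_lit 77) (nat_lit 4) (nat_lit 271) (nat_lit 229) (nat_lit 220)) (XT.lf (nat_lit 0) (nat_lit 1427448007) (nat_lit 336) (nat_lit 5576717001) (nat_lit 84) (nat_lit 2520071326) (nat_lit 69) (nat_lit 5) (nat_lit 73) (nat_lit 5) (nat_lit 70) (nat_lit 4) (nat_lit 272) (nat_lit 229) (nat_lit 219)))) (XT.nd (nat_lit 188) (nat_lit 168) (nat_lit 0) (XT.nd (nat_lit 94) (nat_lit 336) (nat_lit 0) (XT.lf (nat_lit 0) (nat_lit 2421311740) (nat_lit 168) (nat_lit 3221679319) (nat_lit 252) (nat_lit 4097811630) (nat_lit 67) (nat_lit 5) (nat_lit 69) (nat_lit 5) (nat_lit 70) (nat_lit 4) (nat_lit 273) (nat_lit 229) (nat_lit 218)) (XT.lf (nat_lit 0) (nat_lit 79386662) (nat_lit 336) (nat_lit 9132491304) (nat_lit 84) (nat_lit 757165010) (nat_lit 63) (nat_lit 5) (nat_lit 67) (nat_lit 5) (nat_lit 64) (nat_lit 4) (nat_lit 274) (nat_lit 229) (nat_lit 217)))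 (XT.nd (nat_lit 94) (nat_lit 168) (nat_lit 0) (XT.lf (nat_lit 0) (nat_lit 4368495910) (nat_lit 336) (nat_lit 895985809) (nat_lit 84) (nat_lit 4938816478) (nat_lit 63) (nat_lit 5) (nat_lit 67) (nat_lit 5) (nat_lit 64) (nat_lit 4) (nat_lit 275) (nat_lit 229) (nat_lit 216)) (XT.lf (nat_lit 0) (nat_lit 7786339952) (nat_lit 168) (nat_lit 1075819378) (nat_lit 252) (nat_lit 1587601914) (nat_lit 61) (nat_lit 5) (nat_lit 63) (nat_lit 5) (nat_lit 64) (nat_lit 4) (nat_lit 276) (nat_lit 229) (nat_lit 215))))) (XT.nd (nat_lit 376) (nat_lit 672) (nat_lit 0) (XT.nd (nat_lit 188) (nat_lit 420) (nat_lit 0) (XT.nd (nat_lit 94) (nat_lit 168) (nat_lit 0) (XT.lf (nat_lit 0) (nat_lit 2814150309) (nat_lit 252) (nat_lit 4598180307) (nat_lit 84) (nat_lit 3292269237) (nat_lit 58) (nat_lit 5) (nat_lit 61) (nat_lit 5) (nat_lit 59) (nat_lit 4) (nat_lit 277) (nat_lit 229) (nat_lit 214)) (XT.lf (nat_lit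 0) (nat_lit 4313305624) (nat_lit 168) (nat_lit 3071111564) (nat_lit 252) (nat_lit 3586372850) (nat_lit 56) (nat_lit 5) (nat_lit 58) (nat_lit 5) (nat_lit 59) (nat_lit 4) (nat_lit 278) (nat_lit 229) (nat_lit 213))) (XT.nd (nat_lit 94) (nat_lit 168) (nat_lit 0) (XT.lf (nat_lit 0) (nat_lit 915749702) (nat_lit 252) (nat_lit 8847019924) (nat_lit 84) (nat_lit 1486156795) (nat_lit 53) (nat_lit 5) (nat_lit 56) (nat_lit 5) (nat_lit 54) (nat_lit 4) (nat_lit 279) (nat_lit 229) (nat_lit 212)) (XT.lf (nat_lit 0) (nat_lit 288582473) (nat_lit 168) (nat_lit 5276367687) (nat_lit 252) (nat_lit 5970954942) (nat_lit 51) (nat_lit 5) (nat_lit 53) (nat_lit 5) (nat_lit 54) (nat_lit 4) (nat_lit 280) (nat_lit 229) (nat_lit 211)))) (XT.nd (nat_lit 188) (nat_lit 420) (nat_lit 0) (XT.nd (nat_lit 94) (nat_lit 252) (nat_lit 0) (XT.lf (nat_lit 0) (nat_lit 9971923545) (nat_lit 168) (nat_lit 500235288) (nat_lit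 252) (nat_lit 1363796475) (nat_lit 51) (nat_lit 5) (nat_lit 53) (nat_lit 5) (nat_lit 54) (nat_lit 4) (nat_lit 281) (nat_lit 229) (nat_lit 210)) (XT.lf (nat_lit 0) (nat_lit 3438842515) (nat_lit 252) (nat_lit 4240385426) (nat_lit 84) (nat_lit 4465253191) (nat_lit 48) (nat_lit 5) (nat_lit 51) (nat_lit 5) (nat_lit 49) (nat_lit 4) (nat_lit 282) (nat_lit 229) (nat_lit 209))) (XT.nd (nat_lit 94) (nat_lit 336) (nat_lit 0) (XT.lf (nat_lit 0) (nat_lit 5698818950) (nat_lit 84) (nat_lit 2747040422) (nat_lit 168) (nat_lit 4020952089) (nat_lit 47) (nat_lit 5) (nat_lit 48) (nat_lit 5) (nat_lit 49) (nat_lit 4) (nat_lit 283) (nat_lit 229) (nat_lit 208)) (XT.nd (nat_lit 94) (nat_lit 84) (nat_lit 0) (XT.lf (nat_lit 0) (nat_lit 914840903) (nat_lit 252) (nat_lit 9481612506) (nat_lit 84) (nat_lit 2405823271) (nat_lit 44) (nat_lit 5) (nat_lit 47) (nat_lit 5) (nat_lit 45) (nat_lit 4) (nat_lit 284)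 (nat_lit 229) (nat_lit 207)) (XT.lf (nat_lit 0) (nat_lit 696934331) (nat_lit 84) (nat_lit 5320077159) (nat_lit 168) (nat_lit 7131471890) (nat_lit 43) (nat_lit 5) (nat_lit 44) (nat_lit 5) (nat_lit 45) (nat_lit 4) (nat_lit 285) (nat_lit 229) (nat_lit 206))))))) (XT.nd (nat_lit 752) (nat_lit 924) (nat_lit 0) (XT.nd (nat_lit 376) (nat_lit 504) (nat_lit 0) (XT.nd (nat_lit 188) (nat_lit 252) (nat_lit 0) (XT.nd (nat_lit 94) (nat_lit 252) (nat_lit 0) (XT.lf (nat_lit 0) (nat_lit 11420839841) (nat_lit 168) (nat_lit 2006532095) (nat_lit 0) (nat_lit 82301018) (nat_lit 43) (nat_lit 5) (nat_lit 45) (nat_lit 4) (nat_lit 43) (nat_lit 4) (nat_lit 286) (nat_lit 229) (nat_lit 205)) (XT.lf (nat_lit 0) (nat_lit 3221030183) (nat_lit 252) (nat_lit 4978081403) (nat_lit 84) (nat_lit 5681422607) (nat_lit 40) (nat_lit 5) (nat_lit 43) (nat_lit 5) (nat_lit 41) (nat_lit 4) (nat_lit 287) (nat_lit 229)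 (nat_lit 204))) (XT.nd (nat_lit 94) (nat_lit 168) (nat_lit 0) (XT.lf (nat_lit 0) (nat_lit 6115661723) (nat_lit 84) (nat_lit 2629681928) (nat_lit 168) (nat_lit 5521924910) (nat_lit 39) (nat_lit 5) (nat_lit 40) (nat_lit 5) (nat_lit 41) (nat_lit 4) (nat_lit 288) (nat_lit 229) (nat_lit 203)) (XT.lf (nat_lit 0) (nat_lit 3111444350) (nat_lit 168) (nat_lit 11508796778) (nat_lit 168) (nat_lit 49380102) (nat_lit 37) (nat_lit 4) (nat_lit 39) (nat_lit 5) (nat_lit 39) (nat_lit 4) (nat_lit 289) (nat_lit 229) (nat_lit 202)))) (XT.nd (nat_lit 188) (nat_lit 336) (nat_lit 0) (XT.nd (nat_lit 94) (nat_lit 84) (nat_lit 0) (XT.lf (nat_lit 0) (nat_lit 5588074819) (nat_lit 252) (nat_lit 203495719) (nat_lit 84) (nat_lit 9292393061) (nat_lit 36) (nat_lit 5) (nat_lit 39) (nat_lit 5) (nat_lit 37) (nat_lit 4) (nat_lit 290) (nat_lit 229) (nat_lit 201)) (XT.lf (nat_lit 0) (nat_lit 11591974244) (nat_lit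 168) (nat_lit 3615651338) (nat_lit 0) (nat_lit 307045467) (nat_lit 35) (nat_lit 5) (nat_lit 37) (nat_lit 4) (nat_lit 35) (nat_lit 4) (nat_lit 291) (nat_lit 229) (nat_lit 200))) (XT.nd (nat_lit 94) (nat_lit 84) (nat_lit 0) (XT.lf (nat_lit 0) (nat_lit 1998771897) (nat_lit 252) (nat_lit 7359896379) (nat_lit 84) (nat_lit 6600171512) (nat_lit 32) (nat_lit 5) (nat_lit 35) (nat_lit 5) (nat_lit 33) (nat_lit 4) (nat_lit 292) (nat_lit 229) (nat_lit 199)) (XT.lf (nat_lit 0) (nat_lit 5027470248) (nat_lit 84) (nat_lit 3094035657) (nat_lit 168) (nat_lit 8298644725) (nat_lit 31) (nat_lit 5) (nat_lit 32) (nat_lit 5) (nat_lit 33) (nat_lit 4) (nat_lit 293) (nat_lit 229) (nat_lit 198))))) (XT.nd (nat_lit 376) (nat_lit 504) (nat_lit 0) (XT.nd (nat_lit 188) (nat_lit 168) (nat_lit 0) (XT.nd (nat_lit 94) (nat_lit 84) (nat_lit 0) (XT.lf (nat_lit 0) (nat_lit 1176361764) (nat_lit 168) (nat_lit 13470264054)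 (nat_lit 168) (nat_lit 2253088735) (nat_lit 29) (nat_lit 4) (nat_lit 31) (nat_lit 5) (nat_lit 31) (nat_lit 4) (nat_lit 294) (nat_lit 229) (nat_lit 197)) (XT.lf (nat_lit 0) (nat_lit 4107555279) (nat_lit 252) (nat_lit 2938562032) (nat_lit 84) (nat_lit 10346749457) (nat_lit 28) (nat_lit 5) (nat_lit 31) (nat_lit 5) (nat_lit 29) (nat_lit 4) (nat_lit 295) (nat_lit 229) (nat_lit 196))) (XT.nd (nat_lit 94) (nat_lit 84) (nat_lit 0) (XT.lf (nat_lit 0) (nat_lit 10600656506) (nat_lit 84) (nat_lit 177307368) (nat_lit 168) (nat_lit 7127493378) (nat_lit 27) (nat_lit 5) (nat_lit 28) (nat_lit 5) (nat_lit 29) (nat_lit 4) (nat_lit 296) (nat_lit 229) (nat_lit 195)) (XT.lf (nat_lit 0) (nat_lit 6383750874) (nat_lit 84) (nat_lit 11560594397) (nat_lit 84) (nat_lit 491209371) (nat_lit 26) (nat_lit 4) (nat_lit 27) (nat_lit 5) (nat_lit 27) (nat_lit 4) (nat_lit 297) (nat_lit 229) (nat_lit 194)))) (XT.nd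 (nat_lit 188) (nat_lit 336) (nat_lit 0) (XT.nd (nat_lit 94) (nat_lit 0) (nat_lit 0) (XT.lf (nat_lit 0) (nat_lit 1787745408) (nat_lit 84) (nat_lit 4540962580) (nat_lit 168) (nat_lit 12655436793) (nat_lit 24) (nat_lit 5) (nat_lit 25) (nat_lit 5) (nat_lit 26) (nat_lit 4) (nat_lit 298) (nat_lit 229) (nat_lit 193)) (XT.lf (nat_lit 0) (nat_lit 13627669184) (nat_lit 168) (nat_lit 3055999228) (nat_lit 0) (nat_lit 2868365593) (nat_lit 24) (nat_lit 5) (nat_lit 26) (nat_lit 4) (nat_lit 24) (nat_lit 4) (nat_lit 299) (nat_lit 229) (nat_lit 192))) (XT.nd (nat_lit 94) (nat_lit 168) (nat_lit 0) (XT.lf (nat_lit 0) (nat_lit 1277510645) (nat_lit 168) (nat_lit 8241234708) (nat_lit 84) (nat_lit 10620137792) (nat_lit 22) (nat_lit 5) (nat_lit 24) (nat_lit 5) (nat_lit 23) (nat_lit 4) (nat_lit 300) (nat_lit 229) (nat_lit 191)) (XT.nd (nat_lit 94) (nat_lit 84) (nat_lit 0) (XT.lf (nat_lit 0) (nat_lit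 6895986238) (nat_lit 84) (nat_lit 1812376872) (nat_lit 168) (nat_lit 12038456559) (nat_lit 21) (nat_lit 5) (nat_lit 22) (nat_lit 5) (nat_lit 23) (nat_lit 4) (nat_lit 301) (nat_lit 229) (nat_lit 190)) (XT.lf (nat_lit 0) (nat_lit 1464923679) (nat_lit 84) (nat_lit 15216612856) (nat_lit 84) (nat_lit 4695077568) (nat_lit 20) (nat_lit 4) (nat_lit 21) (nat_lit 5) (nat_lit 21) (nat_lit 4) (nat_lit 302) (nat_lit 229) (nat_lit 189))))))))
noncomputable def xc56 : XT := (XT.nd (nat_lit 1504) (nat_lit 252) (nat_lit 0) (XT.nd (nat_lit 752) (nat_lit 756) (nat_lit 0) (XT.nd (nat_lit 376) (nat_lit 336) (nat_lit 0) (XT.nd (nat_lit 188) (nat_lit 168) (nat_lit 0) (XT.nd (nat_lit 94) (nat_lit 84) (nat_lit 0) (XT.lf (nat_lit 0) (nat_lit 3095234779) (nat_lit 168) (nat_lit 4259255385) (nat_lit 84) (nat_lit 14672240182) (nat_lit 19) (nat_lit 5) (nat_lit 21) (nat_lit 5) (nat_lit 20) (nat_lit 4)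 (nat_lit 303) (nat_lit 229) (nat_lit 188)) (XT.lf (nat_lit 0) (nat_lit 11239354091) (nat_lit 168) (nat_lit 10395442446) (nat_lit 0) (nat_lit 1064603604) (nat_lit 18) (nat_lit 5) (nat_lit 20) (nat_lit 4) (nat_lit 18) (nat_lit 4) (nat_lit 304) (nat_lit 229) (nat_lit 187))) (XT.nd (nat_lit 94) (nat_lit 84) (nat_lit 0) (XT.lf (nat_lit 0) (nat_lit 6351162280) (nat_lit 84) (nat_lit 13645328791) (nat_lit 84) (nat_lit 3398921769) (nat_lit 17) (nat_lit 4) (nat_lit 18) (nat_lit 5) (nat_lit 18) (nat_lit 4) (nat_lit 305) (nat_lit 229) (nat_lit 186)) (XT.lf (nat_lit 0) (nat_lit 4994963224) (nat_lit 168) (nat_lit 74976730) (nat_lit 84) (nat_lit 19047740856) (nat_lit 16) (nat_lit 5) (nat_lit 18) (nat_lit 5) (nat_lit 17) (nat_lit 4) (nat_lit 306) (nat_lit 229) (nat_lit 185)))) (XT.nd (nat_lit 188) (nat_lit 168) (nat_lit 0) (XT.nd (nat_lit 94) (nat_lit 84) (nat_lit 0) (XT.lf (nat_lit 0)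 (nat_lit 13959705204) (nat_lit 168) (nat_lit 6825973402) (nat_lit 0) (nat_lit 4074328130) (nat_lit 15) (nat_lit 5) (nat_lit 17) (nat_lit 4) (nat_lit 15) (nat_lit 4) (nat_lit 307) (nat_lit 229) (nat_lit 184)) (XT.lf (nat_lit 0) (nat_lit 11534120841) (nat_lit 84) (nat_lit 12020285547) (nat_lit 84) (nat_lit 2075956465) (nat_lit 14) (nat_lit 4) (nat_lit 15) (nat_lit 5) (nat_lit 15) (nat_lit 4) (nat_lit 308) (nat_lit 229) (nat_lit 183))) (XT.nd (nat_lit 94) (nat_lit 0) (nat_lit 0) (XT.lf (nat_lit 0) (nat_lit 4481316303) (nat_lit 84) (nat_lit 2582971577) (nat_lit 168) (nat_lit 19364096687) (nat_lit 12) (nat_lit 5) (nat_lit 13) (nat_lit 5) (nat_lit 14) (nat_lit 4) (nat_lit 309) (nat_lit 229) (nat_lit 182)) (XT.lf (nat_lit 0) (nat_lit 16866309128) (nat_lit 168) (nat_lit 3093446756) (nat_lit 0) (nat_lit 7291123356) (nat_lit 12) (nat_lit 5) (nat_lit 14) (nat_lit 4) (nat_lit 12) (nat_lit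 4) (nat_lit 310) (nat_lit 229) (nat_lit 181))))) (XT.nd (nat_lit 376) (nat_lit 336) (nat_lit 0) (XT.nd (nat_lit 188) (nat_lit 168) (nat_lit 0) (XT.nd (nat_lit 94) (nat_lit 168) (nat_lit 0) (XT.lf (nat_lit 0) (nat_lit 17050137493) (nat_lit 84) (nat_lit 10338273944) (nat_lit 84) (nat_lit 714588209) (nat_lit 11) (nat_lit 4) (nat_lit 12) (nat_lit 5) (nat_lit 12) (nat_lit 4) (nat_lit 311) (nat_lit 229) (nat_lit 180)) (XT.lf (nat_lit 0) (nat_lit 9257631614) (nat_lit 168) (nat_lit 19678458232) (nat_lit 0) (nat_lit 48225733) (nat_lit 9) (nat_lit 5) (nat_lit 11) (nat_lit 4) (nat_lit 9) (nat_lit 4) (nat_lit 312) (nat_lit 229) (nat_lit 179))) (XT.nd (nat_lit 94) (nat_lit 84) (nat_lit 0) (XT.lf (nat_lit 0) (nat_lit 852624077) (nat_lit 84) (nat_lit 19146527145) (nat_lit 84) (nat_lit 9895225173) (nat_lit 8) (nat_lit 4) (nat_lit 9) (nat_lit 5) (nat_lit 9) (nat_lit 4) (nat_lit 313) (nat_lit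 229) (nat_lit 178)) (XT.lf (nat_lit 0) (nat_lit 674566390) (nat_lit 168) (nat_lit 7908341911) (nat_lit 84) (nat_lit 22253675375) (nat_lit 7) (nat_lit 5) (nat_lit 9) (nat_lit 5) (nat_lit 8) (nat_lit 4) (nat_lit 314) (nat_lit 229) (nat_lit 177)))) (XT.nd (nat_lit 188) (nat_lit 168) (nat_lit 0) (XT.nd (nat_lit 94) (nat_lit 84) (nat_lit 0) (XT.lf (nat_lit 0) (nat_lit 11635450198) (nat_lit 168) (nat_lit 17422088920) (nat_lit 0) (nat_lit 2750494006) (nat_lit 6) (nat_lit 5) (nat_lit 8) (nat_lit 4) (nat_lit 6) (nat_lit 4) (nat_lit 315) (nat_lit 229) (nat_lit 176)) (XT.lf (nat_lit 0) (nat_lit 5120074552) (nat_lit 84) (nat_lit 18306643846) (nat_lit 84) (nat_lit 9387219636) (nat_lit 5) (nat_lit 4) (nat_lit 6) (nat_lit 5) (nat_lit 6) (nat_lit 4) (nat_lit 316) (nat_lit 229) (nat_lit 175))) (XT.nd (nat_lit 94) (nat_lit 84) (nat_lit 0) (XT.lf (nat_lit 0) (nat_lit 2100916994) (nat_lit 168)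 (nat_lit 4645371055) (nat_lit 84) (nat_lit 27111061998) (nat_lit 4) (nat_lit 5) (nat_lit 6) (nat_lit 5) (nat_lit 5) (nat_lit 4) (nat_lit 317) (nat_lit 229) (nat_lit 174)) (XT.lf (nat_lit 0) (nat_lit 14178485211) (nat_lit 168) (nat_lit 15127470951) (nat_lit 0) (nat_lit 5622757209) (nat_lit 3) (nat_lit 5) (nat_lit 5) (nat_lit 4) (nat_lit 3) (nat_lit 4) (nat_lit 318) (nat_lit 229) (nat_lit 173)))))) (XT.nd (nat_lit 752) (nat_lit 0) (nat_lit 0) (XT.nd (nat_lit 376) (nat_lit 0) (nat_lit 0) (XT.nd (nat_lit 188) (nat_lit 84) (nat_lit 0) (XT.nd (nat_lit 94) (nat_lit 84) (nat_lit 0) (XT.lf (nat_lit 0) (nat_lit 9636186153) (nat_lit 84) (nat_lit 17494015083) (nat_lit 84) (nat_lit 8909930157) (nat_lit 2) (nat_lit 4) (nat_lit 3) (nat_lit 5) (nat_lit 3) (nat_lit 4) (nat_lit 319) (nat_lit 229) (nat_lit 172)) (XT.lf (nat_lit 0) (nat_lit 3599346109) (nat_lit 168) (nat_lit 1232431995) (nat_lit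 84) (nat_lit 32363107419) (nat_lit 1) (nat_lit 5) (nat_lit 3) (nat_lit 5) (nat_lit 2) (nat_lit 4) (nat_lit 320) (nat_lit 229) (nat_lit 171))) (XT.nd (nat_lit 94) (nat_lit 0) (nat_lit 0) (XT.lf (nat_lit 0) (nat_lit 56540086122) (nat_lit 0) (nat_lit 0) (nat_lit 0) (nat_lit 0) (nat_lit 0) (nat_lit 0) (nat_lit 1) (nat_lit 0) (nat_lit 1) (nat_lit 0) (nat_lit 321) (nat_lit 229) (nat_lit 170)) (XT.lf (nat_lit 0) (nat_lit 59332255743) (nat_lit 0) (nat_lit 0) (nat_lit 0) (nat_lit 0) (nat_lit 0) (nat_lit 0) (nat_lit 1) (nat_lit 0) (nat_lit 1) (nat_lit 0) (nat_lit 322) (nat_lit 229) (nat_lit 169)))) (XT.nd (nat_lit 188) (nat_lit 0) (nat_lit 0) (XT.nd (nat_lit 94) (nat_lit 0) (nat_lit 0) (XT.lf (nat_lit 0) (nat_lit 62264197891) (nat_lit 0) (nat_lit 0) (nat_lit 0) (nat_lit 0) (nat_lit 0) (nat_lit 0) (nat_lit 1) (nat_lit 0) (nat_lit 1) (nat_lit 0) (nat_lit 323) (nat_lit 229) (nat_lit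 168)) (XT.lf (nat_lit 0) (nat_lit 65342893380) (nat_lit 0) (nat_lit 0) (nat_lit 0) (nat_lit 0) (nat_lit 0) (nat_lit 0) (nat_lit 1) (nat_lit 0) (nat_lit 1) (nat_lit 0) (nat_lit 324) (nat_lit 229) (nat_lit 167))) (XT.nd (nat_lit 94) (nat_lit 0) (nat_lit 0) (XT.lf (nat_lit 0) (nat_lit 68575672437) (nat_lit 0) (nat_lit 0) (nat_lit 0) (nat_lit 0) (nat_lit 0) (nat_lit 0) (nat_lit 1) (nat_lit 0) (nat_lit 1) (nat_lit 0) (nat_lit 325) (nat_lit 229) (nat_lit 166)) (XT.lf (nat_lit 0) (nat_lit 71970232156) (nat_lit 0) (nat_lit 0) (nat_lit 0) (nat_lit 0) (nat_lit 0) (nat_lit 0) (nat_lit 1) (nat_lit 0) (nat_lit 1) (nat_lit 0) (nat_lit 326) (nat_lit 229) (nat_lit 165))))) (XT.nd (nat_lit 376) (nat_lit 0) (nat_lit 0) (XT.nd (nat_lit 188) (nat_lit 0) (nat_lit 0) (XT.nd (nat_lit 94) (nat_lit 0) (nat_lit 0) (XT.lf (nat_lit 0) (nat_lit 75534654821) (nat_lit 0) (nat_lit 0) (nat_lit 0) (nat_lit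 0) (nat_lit 0) (nat_lit 0) (nat_lit 1) (nat_lit 0) (nat_lit 1) (nat_lit 0) (nat_lit 327) (nat_lit 229) (nat_lit 164)) (XT.lf (nat_lit 0) (nat_lit 79277427154) (nat_lit 0) (nat_lit 0) (nat_lit 0) (nat_lit 0) (nat_lit 0) (nat_lit 0) (nat_lit 1) (nat_lit 0) (nat_lit 1) (nat_lit 0) (nat_lit 328) (nat_lit 229) (nat_lit 163))) (XT.nd (nat_lit 94) (nat_lit 0) (nat_lit 0) (XT.lf (nat_lit 0) (nat_lit 83207460516) (nat_lit 0) (nat_lit 0) (nat_lit 0) (nat_lit 0) (nat_lit 0) (nat_lit 0) (nat_lit 1) (nat_lit 0) (nat_lit 1) (nat_lit 0) (nat_lit 329) (nat_lit 229) (nat_lit 162)) (XT.lf (nat_lit 0) (nat_lit 87334112131) (nat_lit 0) (nat_lit 0) (nat_lit 0) (nat_lit 0) (nat_lit 0) (nat_lit 0) (nat_lit 1) (nat_lit 0) (nat_lit 1) (nat_lit 0) (nat_lit 330) (nat_lit 229) (nat_lit 161)))) (XT.nd (nat_lit 188) (nat_lit 0) (nat_lit 0) (XT.nd (nat_lit 94) (nat_lit 0) (nat_lit 0) (XT.lf (nat_lit 0)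 (nat_lit 91667207359) (nat_lit 0) (nat_lit 0) (nat_lit 0) (nat_lit 0) (nat_lit 0) (nat_lit 0) (nat_lit 1) (nat_lit 0) (nat_lit 1) (nat_lit 0) (nat_lit 331) (nat_lit 229) (nat_lit 160)) (XT.lf (nat_lit 0) (nat_lit 96217063093) (nat_lit 0) (nat_lit 0) (nat_lit 0) (nat_lit 0) (nat_lit 0) (nat_lit 0) (nat_lit 1) (nat_lit 0) (nat_lit 1) (nat_lit 0) (nat_lit 332) (nat_lit 229) (nat_lit 159))) (XT.nd (nat_lit 94) (nat_lit 0) (nat_lit 0) (XT.lf (nat_lit 0) (nat_lit 100994512324) (nat_lit 0) (nat_lit 0) (nat_lit 0) (nat_lit 0) (nat_lit 0) (nat_lit 0) (nat_lit 1) (nat_lit 0) (nat_lit 1) (nat_lit 0) (nat_lit 333) (nat_lit 229) (nat_lit 158)) (XT.nd (nat_lit 94) (nat_lit 0) (nat_lit 0) (XT.lf (nat_lit 0) (nat_lit 106010929930) (nat_lit 0) (nat_lit 0) (nat_lit 0) (nat_lit 0) (nat_lit 0) (nat_lit 0) (nat_lit 1) (nat_lit 0) (nat_lit 1) (nat_lit 0) (nat_lit 334) (nat_lit 229) (nat_lit 157))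 (XT.lf (nat_lit 0) (nat_lit 111278259763) (nat_lit 0) (nat_lit 0) (nat_lit 0) (nat_lit 0) (nat_lit 0) (nat_lit 0) (nat_lit 1) (nat_lit 0) (nat_lit 1) (nat_lit 0) (nat_lit 335) (nat_lit 229) (nat_lit 156))))))))
noncomputable def xc57 : XT := (XT.nd (nat_lit 39198) (nat_lit 0) (nat_lit 3276) (XT.nd (nat_lit 38352) (nat_lit 0) (nat_lit 6132) (XT.nd (nat_lit 376) (nat_lit 0) (nat_lit 0) (XT.nd (nat_lit 188) (nat_lit 0) (nat_lit 0) (XT.nd (nat_lit 94) (nat_lit 0) (nat_lit 0) (XT.lf (nat_lit 0) (nat_lit 116809043085) (nat_lit 0) (nat_lit 0) (nat_lit 0) (nat_lit 0) (nat_lit 0) (nat_lit 0) (nat_lit 1) (nat_lit 0) (nat_lit 1) (nat_lit 0) (nat_lit 336) (nat_lit 229) (nat_lit 155)) (XT.lf (nat_lit 0) (nat_lit 122616448427) (nat_lit 0) (nat_lit 0) (nat_lit 0) (nat_lit 0) (nat_lit 0) (nat_lit 0) (nat_lit 1) (nat_lit 0) (nat_lit 1) (nat_lit 0) (nat_lit 337) (nat_lit 229) (nat_lit 154)))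 (XT.nd (nat_lit 94) (nat_lit 0) (nat_lit 0) (XT.lf (nat_lit 0) (nat_lit 128714302945) (nat_lit 0) (nat_lit 0) (nat_lit 0) (nat_lit 0) (nat_lit 0) (nat_lit 0) (nat_lit 1) (nat_lit 0) (nat_lit 1) (nat_lit 0) (nat_lit 338) (nat_lit 229) (nat_lit 153)) (XT.lf (nat_lit 0) (nat_lit 135117125339) (nat_lit 0) (nat_lit 0) (nat_lit 0) (nat_lit 0) (nat_lit 0) (nat_lit 0) (nat_lit 1) (nat_lit 0) (nat_lit 1) (nat_lit 0) (nat_lit 339) (nat_lit 229) (nat_lit 152)))) (XT.nd (nat_lit 37788) (nat_lit 0) (nat_lit 8484) (XT.nd (nat_lit 37694) (nat_lit 0) (nat_lit 9240) (XT.lf (nat_lit 0) (nat_lit 141840160426) (nat_lit 0) (nat_lit 0) (nat_lit 0) (nat_lit 0) (nat_lit 0) (nat_lit 0) (nat_lit 1) (nat_lit 0) (nat_lit 1) (nat_lit 0) (nat_lit 340) (nat_lit 229) (nat_lit 151)) (XT.lf (nat_lit 0) (nat_lit 1416455241) (nat_lit 420) (nat_lit 1189983072) (nat_lit 420) (nat_lit 1189983072) (nat_lit 110)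 (nat_lit 4) (nat_lit 115) (nat_lit 5) (nat_lit 115) (nat_lit 4) (nat_lit 260) (nat_lit 230) (nat_lit 230))) (XT.nd (nat_lit 94) (nat_lit 336) (nat_lit 0) (XT.lf (nat_lit 0) (nat_lit 1394693921) (nat_lit 420) (nat_lit 6262579282) (nat_lit 0) (nat_lit 56208204) (nat_lit 105) (nat_lit 5) (nat_lit 110) (nat_lit 4) (nat_lit 105) (nat_lit 4) (nat_lit 261) (nat_lit 230) (nat_lit 229)) (XT.lf (nat_lit 0) (nat_lit 8260424) (nat_lit 336) (nat_lit 5222764382) (nat_lit 336) (nat_lit 2609530362) (nat_lit 101) (nat_lit 4) (nat_lit 105) (nat_lit 5) (nat_lit 105) (nat_lit 4) (nat_lit 262) (nat_lit 230) (nat_lit 228))))) (XT.nd (nat_lit 376) (nat_lit 1260) (nat_lit 0) (XT.nd (nat_lit 188) (nat_lit 672) (nat_lit 0) (XT.nd (nat_lit 94) (nat_lit 336) (nat_lit 0) (XT.lf (nat_lit 0) (nat_lit 1185736230) (nat_lit 420) (nat_lit 1396520749) (nat_lit 84) (nat_lit 5393638331) (nat_lit 100) (nat_lit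 5) (nat_lit 105) (nat_lit 5) (nat_lit 101) (nat_lit 4) (nat_lit 263) (nat_lit 230) (nat_lit 227)) (XT.lf (nat_lit 0) (nat_lit 5011600892) (nat_lit 420) (nat_lit 2842439218) (nat_lit 0) (nat_lit 265396787) (nat_lit 96) (nat_lit 5) (nat_lit 101) (nat_lit 4) (nat_lit 96) (nat_lit 4) (nat_lit 264) (nat_lit 230) (nat_lit 226))) (XT.nd (nat_lit 94) (nat_lit 252) (nat_lit 0) (XT.lf (nat_lit 0) (nat_lit 707137159) (nat_lit 420) (nat_lit 4345311510) (nat_lit 84) (nat_lit 3218474000) (nat_lit 91) (nat_lit 5) (nat_lit 96) (nat_lit 5) (nat_lit 92) (nat_lit 4) (nat_lit 265) (nat_lit 230) (nat_lit 225)) (XT.lf (nat_lit 0) (nat_lit 2521020354) (nat_lit 252) (nat_lit 2022765837) (nat_lit 336) (nat_lit 3886880588) (nat_lit 88) (nat_lit 5) (nat_lit 91) (nat_lit 5) (nat_lit 92) (nat_lit 4) (nat_lit 266) (nat_lit 230) (nat_lit 224)))) (XT.nd (nat_lit 188) (nat_lit 840) (nat_lit 0) (XT.nd (nat_lit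 94) (nat_lit 84) (nat_lit 0) (XT.lf (nat_lit 0) (nat_lit 1088121286) (nat_lit 336) (nat_lit 7444221363) (nat_lit 336) (nat_lit 68051697) (nat_lit 84) (nat_lit 4) (nat_lit 88) (nat_lit 5) (nat_lit 88) (nat_lit 4) (nat_lit 267) (nat_lit 230) (nat_lit 223)) (XT.lf (nat_lit 0) (nat_lit 3802096446) (nat_lit 420) (nat_lit 444671777) (nat_lit 84) (nat_lit 4529436132) (nat_lit 83) (nat_lit 5) (nat_lit 88) (nat_lit 5) (nat_lit 84) (nat_lit 4) (nat_lit 268) (nat_lit 230) (nat_lit 222))) (XT.nd (nat_lit 94) (nat_lit 588) (nat_lit 0) (XT.lf (nat_lit 0) (nat_lit 6993631455) (nat_lit 252) (nat_lit 837741749) (nat_lit 336) (nat_lit 1130980472) (nat_lit 80) (nat_lit 5) (nat_lit 83) (nat_lit 5) (nat_lit 84) (nat_lit 4) (nat_lit 269) (nat_lit 230) (nat_lit 221)) (XT.nd (nat_lit 94) (nat_lit 252) (nat_lit 0) (XT.lf (nat_lit 0) (nat_lit 2810350626) (nat_lit 336) (nat_lit 3613322637) (nat_lit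 84) (nat_lit 2731919828) (nat_lit 76) (nat_lit 5) (nat_lit 80) (nat_lit 5) (nat_lit 77) (nat_lit 4) (nat_lit 270) (nat_lit 230) (nat_lit 220)) (XT.lf (nat_lit 0) (nat_lit 4027248824) (nat_lit 252) (nat_lit 2856467175) (nat_lit 336) (nat_lit 2475202640) (nat_lit 73) (nat_lit 5) (nat_lit 76) (nat_lit 5) (nat_lit 77) (nat_lit 4) (nat_lit 271) (nat_lit 230) (nat_lit 219))))))) (XT.nd (nat_lit 752) (nat_lit 1344) (nat_lit 0) (XT.nd (nat_lit 376) (nat_lit 672) (nat_lit 0) (XT.nd (nat_lit 188) (nat_lit 336) (nat_lit 0) (XT.nd (nat_lit 94) (nat_lit 168) (nat_lit 0) (XT.lf (nat_lit 0) (nat_lit 1516316415) (nat_lit 336) (nat_lit 7139546792) (nat_lit 84) (nat_lit 916366635) (nat_lit 69) (nat_lit 5) (nat_lit 73) (nat_lit 5) (nat_lit 70) (nat_lit 4) (nat_lit 272) (nat_lit 230) (nat_lit 218)) (XT.lf (nat_lit 0) (nat_lit 699766807) (nat_lit 168) (nat_lit 4939715134) (nat_lit 252) (nat_lit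 4153933133) (nat_lit 67) (nat_lit 5) (nat_lit 69) (nat_lit 5) (nat_lit 70) (nat_lit 4) (nat_lit 273) (nat_lit 230) (nat_lit 217))) (XT.nd (nat_lit 94) (nat_lit 336) (nat_lit 0) (XT.lf (nat_lit 0) (nat_lit 8969930356) (nat_lit 168) (nat_lit 988644480) (nat_lit 252) (nat_lit 67596276) (nat_lit 67) (nat_lit 5) (nat_lit 69) (nat_lit 5) (nat_lit 70) (nat_lit 4) (nat_lit 274) (nat_lit 230) (nat_lit 216)) (XT.lf (nat_lit 0) (nat_lit 4126794868) (nat_lit 336) (nat_lit 2969895777) (nat_lit 84) (nat_lit 3168632536) (nat_lit 63) (nat_lit 5) (nat_lit 67) (nat_lit 5) (nat_lit 64) (nat_lit 4) (nat_lit 275) (nat_lit 230) (nat_lit 215)))) (XT.nd (nat_lit 188) (nat_lit 252) (nat_lit 0) (XT.nd (nat_lit 94) (nat_lit 252) (nat_lit 0) (XT.lf (nat_lit 0) (nat_lit 5540566774) (nat_lit 168) (nat_lit 2983751870) (nat_lit 252) (nat_lit 1992274566) (nat_lit 61) (nat_lit 5) (nat_lit 63) (nat_lit 5)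 (nat_lit 64) (nat_lit 4) (nat_lit 276) (nat_lit 230) (nat_lit 214)) (XT.lf (nat_lit 0) (nat_lit 2291781650) (nat_lit 252) (nat_lit 7125395880) (nat_lit 84) (nat_lit 1361102597) (nat_lit 58) (nat_lit 5) (nat_lit 61) (nat_lit 5) (nat_lit 59) (nat_lit 4) (nat_lit 277) (nat_lit 230) (nat_lit 213))) (XT.nd (nat_lit 94) (nat_lit 84) (nat_lit 0) (XT.lf (nat_lit 0) (nat_lit 1598075236) (nat_lit 168) (nat_lit 5161630150) (nat_lit 252) (nat_lit 4289882083) (nat_lit 56) (nat_lit 5) (nat_lit 58) (nat_lit 5) (nat_lit 59) (nat_lit 4) (nat_lit 278) (nat_lit 230) (nat_lit 212)) (XT.lf (nat_lit 0) (nat_lit 113282835) (nat_lit 252) (nat_lit 535101019) (nat_lit 84) (nat_lit 10685962901) (nat_lit 55) (nat_lit 5) (nat_lit 58) (nat_lit 5) (nat_lit 56) (nat_lit 5) (nat_lit 279) (nat_lit 230) (nat_lit 211))))) (XT.nd (nat_lit 376) (nat_lit 672) (nat_lit 0) (XT.nd (nat_lit 188) (nat_lit 336) (nat_lit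 0) (XT.nd (nat_lit 94) (nat_lit 168) (nat_lit 0) (XT.lf (nat_lit 0) (nat_lit 4680104407) (nat_lit 252) (nat_lit 2853024839) (nat_lit 84) (nat_lit 4092315135) (nat_lit 53) (nat_lit 5) (nat_lit 56) (nat_lit 5) (nat_lit 54) (nat_lit 4) (nat_lit 280) (nat_lit 230) (nat_lit 210)) (XT.lf (nat_lit 0) (nat_lit 6635545644) (nat_lit 168) (nat_lit 2848013217) (nat_lit 252) (nat_lit 2447123436) (nat_lit 51) (nat_lit 5) (nat_lit 53) (nat_lit 5) (nat_lit 54) (nat_lit 4) (nat_lit 281) (nat_lit 230) (nat_lit 209))) (XT.nd (nat_lit 94) (nat_lit 84) (nat_lit 0) (XT.lf (nat_lit 0) (nat_lit 2239147971) (nat_lit 252) (nat_lit 7930879242) (nat_lit 84) (nat_lit 2077578638) (nat_lit 48) (nat_lit 5) (nat_lit 51) (nat_lit 5) (nat_lit 49) (nat_lit 4) (nat_lit 282) (nat_lit 230) (nat_lit 208)) (XT.lf (nat_lit 0) (nat_lit 1785037322) (nat_lit 84) (nat_lit 5344653076) (nat_lit 168) (nat_lit 5446069504)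 (nat_lit 47) (nat_lit 5) (nat_lit 48) (nat_lit 5) (nat_lit 49) (nat_lit 4) (nat_lit 283) (nat_lit 230) (nat_lit 207)))) (XT.nd (nat_lit 188) (nat_lit 420) (nat_lit 0) (XT.nd (nat_lit 94) (nat_lit 252) (nat_lit 0) (XT.lf (nat_lit 0) (nat_lit 12064387162) (nat_lit 84) (nat_lit 223497309) (nat_lit 168) (nat_lit 631280957) (nat_lit 47) (nat_lit 5) (nat_lit 48) (nat_lit 5) (nat_lit 49) (nat_lit 4) (nat_lit 284) (nat_lit 230) (nat_lit 206)) (XT.lf (nat_lit 0) (nat_lit 4408033248) (nat_lit 252) (nat_lit 3731797431) (nat_lit 84) (nat_lit 5130187318) (nat_lit 44) (nat_lit 5) (nat_lit 47) (nat_lit 5) (nat_lit 45) (nat_lit 4) (nat_lit 285) (nat_lit 230) (nat_lit 205))) (XT.nd (nat_lit 94) (nat_lit 336) (nat_lit 0) (XT.lf (nat_lit 0) (nat_lit 6855291333) (nat_lit 84) (nat_lit 2841461889) (nat_lit 168) (nat_lit 3940209770) (nat_lit 43) (nat_lit 5) (nat_lit 44) (nat_lit 5) (nat_lit 45)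 (nat_lit 4) (nat_lit 286) (nat_lit 230) (nat_lit 204)) (XT.nd (nat_lit 94) (nat_lit 84) (nat_lit 0) (XT.lf (nat_lit 0) (nat_lit 1252184109) (nat_lit 252) (nat_lit 10067029461) (nat_lit 84) (nat_lit 2698892171) (nat_lit 40) (nat_lit 5) (nat_lit 43) (nat_lit 5) (nat_lit 41) (nat_lit 4) (nat_lit 287) (nat_lit 230) (nat_lit 203)) (XT.lf (nat_lit 0) (nat_lit 760741032) (nat_lit 84) (nat_lit 5880645633) (nat_lit 168) (nat_lit 7770208990) (nat_lit 39) (nat_lit 5) (nat_lit 40) (nat_lit 5) (nat_lit 41) (nat_lit 4) (nat_lit 288) (nat_lit 230) (nat_lit 202))))))))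
noncomputable def xc58 : XT := (XT.nd (nat_lit 1598) (nat_lit 1512) (nat_lit 0) (XT.nd (nat_lit 752) (nat_lit 756) (nat_lit 0) (XT.nd (nat_lit 376) (nat_lit 504) (nat_lit 0) (XT.nd (nat_lit 188) (nat_lit 252) (nat_lit 0) (XT.nd (nat_lit 94) (nat_lit 252) (nat_lit 0) (XT.lf (nat_lit 0) (nat_lit 12288639334) (nat_lit 84) (nat_lit 78363109) (nat_lit 168) (nat_lit 2454409965) (nat_lit 39) (nat_lit 5) (nat_lit 40) (nat_lit 5) (nat_lit 41) (nat_lit 4) (nat_lit 289) (nat_lit 230) (nat_lit 201)) (XT.lf (nat_lit 0) (nat_lit 3166262288) (nat_lit 252) (nat_lit 6140922401) (nat_lit 84) (nat_lit 5935135483) (nat_lit 36) (nat_lit 5) (nat_lit 39) (nat_lit 5) (nat_lit 37) (nat_lit 4) (nat_lit 290) (nat_lit 230) (nat_lit 200))) (XT.nd (nat_lit 94) (nat_lit 168) (nat_lit 0) (XT.lf (nat_lit 0) (nat_lit 5676935270) (nat_lit 84) (nat_lit 3342463684) (nat_lit 168) (nat_lit 6661166806) (nat_lit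 35) (nat_lit 5) (nat_lit 36) (nat_lit 5) (nat_lit 37) (nat_lit 4) (nat_lit 291) (nat_lit 230) (nat_lit 199)) (XT.lf (nat_lit 0) (nat_lit 1993685010) (nat_lit 168) (nat_lit 13254902331) (nat_lit 168) (nat_lit 887966541) (nat_lit 33) (nat_lit 4) (nat_lit 35) (nat_lit 5) (nat_lit 35) (nat_lit 4) (nat_lit 292) (nat_lit 230) (nat_lit 198)))) (XT.nd (nat_lit 188) (nat_lit 336) (nat_lit 0) (XT.nd (nat_lit 94) (nat_lit 84) (nat_lit 0) (XT.lf (nat_lit 0) (nat_lit 5136514173) (nat_lit 252) (nat_lit 1993498960) (nat_lit 84) (nat_lit 9474878461) (nat_lit 32) (nat_lit 5) (nat_lit 35) (nat_lit 5) (nat_lit 33) (nat_lit 4) (nat_lit 293) (nat_lit 230) (nat_lit 197)) (XT.lf (nat_lit 0) (nat_lit 10920745801) (nat_lit 84) (nat_lit 588067664) (nat_lit 168) (nat_lit 5583283082) (nat_lit 31) (nat_lit 5) (nat_lit 32) (nat_lit 5) (nat_lit 33) (nat_lit 4) (nat_lit 294) (nat_lit 230) (nat_lit 196)))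 (XT.nd (nat_lit 94) (nat_lit 84) (nat_lit 0) (XT.lf (nat_lit 0) (nat_lit 725765162) (nat_lit 252) (nat_lit 10716178407) (nat_lit 84) (nat_lit 6153814016) (nat_lit 28) (nat_lit 5) (nat_lit 31) (nat_lit 5) (nat_lit 29) (nat_lit 4) (nat_lit 295) (nat_lit 230) (nat_lit 195)) (XT.lf (nat_lit 0) (nat_lit 2476050508) (nat_lit 84) (nat_lit 4747721364) (nat_lit 168) (nat_lit 10893196293) (nat_lit 27) (nat_lit 5) (nat_lit 28) (nat_lit 5) (nat_lit 29) (nat_lit 4) (nat_lit 296) (nat_lit 230) (nat_lit 194))))) (XT.nd (nat_lit 376) (nat_lit 420) (nat_lit 0) (XT.nd (nat_lit 188) (nat_lit 168) (nat_lit 0) (XT.nd (nat_lit 94) (nat_lit 168) (nat_lit 0) (XT.lf (nat_lit 0) (nat_lit 14173770169) (nat_lit 168) (nat_lit 2172476581) (nat_lit 0) (nat_lit 2311637959) (nat_lit 27) (nat_lit 5) (nat_lit 29) (nat_lit 4) (nat_lit 27) (nat_lit 4) (nat_lit 297) (nat_lit 230) (nat_lit 193)) (XT.lf (nat_lit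 0) (nat_lit 2354807864) (nat_lit 168) (nat_lit 7145938890) (nat_lit 84) (nat_lit 9714284759) (nat_lit 25) (nat_lit 5) (nat_lit 27) (nat_lit 5) (nat_lit 26) (nat_lit 4) (nat_lit 298) (nat_lit 230) (nat_lit 192))) (XT.nd (nat_lit 94) (nat_lit 84) (nat_lit 0) (XT.lf (nat_lit 0) (nat_lit 7288818964) (nat_lit 84) (nat_lit 2158977773) (nat_lit 168) (nat_lit 10345422615) (nat_lit 24) (nat_lit 5) (nat_lit 25) (nat_lit 5) (nat_lit 26) (nat_lit 4) (nat_lit 299) (nat_lit 230) (nat_lit 191)) (XT.lf (nat_lit 0) (nat_lit 2107299593) (nat_lit 84) (nat_lit 14942642156) (nat_lit 84) (nat_lit 3342649501) (nat_lit 23) (nat_lit 4) (nat_lit 24) (nat_lit 5) (nat_lit 24) (nat_lit 4) (nat_lit 300) (nat_lit 230) (nat_lit 190)))) (XT.nd (nat_lit 188) (nat_lit 252) (nat_lit 0) (XT.nd (nat_lit 94) (nat_lit 84) (nat_lit 0) (XT.lf (nat_lit 0) (nat_lit 4044648062) (nat_lit 168) (nat_lit 3399918040) (nat_lit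 84) (nat_lit 13566098106) (nat_lit 22) (nat_lit 5) (nat_lit 24) (nat_lit 5) (nat_lit 23) (nat_lit 4) (nat_lit 301) (nat_lit 230) (nat_lit 189)) (XT.lf (nat_lit 0) (nat_lit 11808543797) (nat_lit 168) (nat_lit 9251497344) (nat_lit 0) (nat_lit 590881385) (nat_lit 21) (nat_lit 5) (nat_lit 23) (nat_lit 4) (nat_lit 21) (nat_lit 4) (nat_lit 302) (nat_lit 230) (nat_lit 188))) (XT.nd (nat_lit 94) (nat_lit 168) (nat_lit 0) (XT.lf (nat_lit 0) (nat_lit 6715462869) (nat_lit 84) (nat_lit 13447147905) (nat_lit 84) (nat_lit 2150484164) (nat_lit 20) (nat_lit 4) (nat_lit 21) (nat_lit 5) (nat_lit 21) (nat_lit 4) (nat_lit 303) (nat_lit 230) (nat_lit 187)) (XT.nd (nat_lit 94) (nat_lit 0) (nat_lit 0) (XT.lf (nat_lit 0) (nat_lit 561220084) (nat_lit 84) (nat_lit 5259815616) (nat_lit 168) (nat_lit 17178479205) (nat_lit 18) (nat_lit 5) (nat_lit 19) (nat_lit 5) (nat_lit 20) (nat_lit 4) (nat_lit 304)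 (nat_lit 230) (nat_lit 186)) (XT.lf (nat_lit 0) (nat_lit 14356368638) (nat_lit 168) (nat_lit 5892508754) (nat_lit 0) (nat_lit 3457740414) (nat_lit 18) (nat_lit 5) (nat_lit 20) (nat_lit 4) (nat_lit 18) (nat_lit 4) (nat_lit 305) (nat_lit 230) (nat_lit 185))))))) (XT.nd (nat_lit 752) (nat_lit 756) (nat_lit 0) (XT.nd (nat_lit 376) (nat_lit 336) (nat_lit 0) (XT.nd (nat_lit 188) (nat_lit 168) (nat_lit 0) (XT.nd (nat_lit 94) (nat_lit 168) (nat_lit 0) (XT.lf (nat_lit 0) (nat_lit 11610414824) (nat_lit 84) (nat_lit 11896432445) (nat_lit 84) (nat_lit 932809631) (nat_lit 17) (nat_lit 4) (nat_lit 18) (nat_lit 5) (nat_lit 18) (nat_lit 4) (nat_lit 306) (nat_lit 230) (nat_lit 184)) (XT.lf (nat_lit 0) (nat_lit 4863670605) (nat_lit 84) (nat_lit 2887155261) (nat_lit 168) (nat_lit 17447433260) (nat_lit 15) (nat_lit 5) (nat_lit 16) (nat_lit 5) (nat_lit 17) (nat_lit 4) (nat_lit 307) (nat_lit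 230) (nat_lit 183))) (XT.nd (nat_lit 94) (nat_lit 168) (nat_lit 0) (XT.lf (nat_lit 0) (nat_lit 17081921178) (nat_lit 168) (nat_lit 2374595494) (nat_lit 0) (nat_lit 6525278865) (nat_lit 15) (nat_lit 5) (nat_lit 17) (nat_lit 4) (nat_lit 15) (nat_lit 4) (nat_lit 308) (nat_lit 230) (nat_lit 182)) (XT.lf (nat_lit 0) (nat_lit 311478765) (nat_lit 168) (nat_lit 9971582053) (nat_lit 84) (nat_lit 16509448417) (nat_lit 13) (nat_lit 5) (nat_lit 15) (nat_lit 5) (nat_lit 14) (nat_lit 4) (nat_lit 309) (nat_lit 230) (nat_lit 181)))) (XT.nd (nat_lit 188) (nat_lit 168) (nat_lit 0) (XT.nd (nat_lit 94) (nat_lit 84) (nat_lit 0) (XT.lf (nat_lit 0) (nat_lit 9423476299) (nat_lit 84) (nat_lit 373847984) (nat_lit 168) (nat_lit 17833488411) (nat_lit 12) (nat_lit 5) (nat_lit 13) (nat_lit 5) (nat_lit 14) (nat_lit 4) (nat_lit 310) (nat_lit 230) (nat_lit 180)) (XT.lf (nat_lit 0) (nat_lit 1367633037) (nat_lit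 84) (nat_lit 18664609837) (nat_lit 84) (nat_lit 8465049413) (nat_lit 11) (nat_lit 4) (nat_lit 12) (nat_lit 5) (nat_lit 12) (nat_lit 4) (nat_lit 311) (nat_lit 230) (nat_lit 179))) (XT.nd (nat_lit 94) (nat_lit 84) (nat_lit 0) (XT.lf (nat_lit 0) (nat_lit 1572689471) (nat_lit 168) (nat_lit 7019537903) (nat_lit 84) (nat_lit 20801558370) (nat_lit 10) (nat_lit 5) (nat_lit 12) (nat_lit 5) (nat_lit 11) (nat_lit 4) (nat_lit 312) (nat_lit 230) (nat_lit 178)) (XT.lf (nat_lit 0) (nat_lit 12015278134) (nat_lit 168) (nat_lit 16083901043) (nat_lit 0) (nat_lit 2219613932) (nat_lit 9) (nat_lit 5) (nat_lit 11) (nat_lit 4) (nat_lit 9) (nat_lit 4) (nat_lit 313) (nat_lit 230) (nat_lit 177))))) (XT.nd (nat_lit 376) (nat_lit 420) (nat_lit 0) (XT.nd (nat_lit 188) (nat_lit 168) (nat_lit 0) (XT.nd (nat_lit 94) (nat_lit 84) (nat_lit 0) (XT.lf (nat_lit 0) (nat_lit 5399888928) (nat_lit 84) (nat_lit 17855040230)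 (nat_lit 84) (nat_lit 8021375039) (nat_lit 8) (nat_lit 4) (nat_lit 9) (nat_lit 5) (nat_lit 9) (nat_lit 4) (nat_lit 314) (nat_lit 230) (nat_lit 176)) (XT.lf (nat_lit 0) (nat_lit 2891914744) (nat_lit 168) (nat_lit 3941431384) (nat_lit 84) (nat_lit 25435885730) (nat_lit 7) (nat_lit 5) (nat_lit 9) (nat_lit 5) (nat_lit 8) (nat_lit 4) (nat_lit 315) (nat_lit 230) (nat_lit 175))) (XT.nd (nat_lit 94) (nat_lit 84) (nat_lit 0) (XT.lf (nat_lit 0) (nat_lit 14397364930) (nat_lit 168) (nat_lit 13927387932) (nat_lit 0) (nat_lit 4964674808) (nat_lit 6) (nat_lit 5) (nat_lit 8) (nat_lit 4) (nat_lit 6) (nat_lit 4) (nat_lit 316) (nat_lit 230) (nat_lit 174)) (XT.lf (nat_lit 0) (nat_lit 9671467498) (nat_lit 84) (nat_lit 17069975810) (nat_lit 84) (nat_lit 7606022179) (nat_lit 5) (nat_lit 4) (nat_lit 6) (nat_lit 5) (nat_lit 6) (nat_lit 4) (nat_lit 317) (nat_lit 230) (nat_lit 173)))) (XT.nd (nat_lit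 188) (nat_lit 252) (nat_lit 0) (XT.nd (nat_lit 94) (nat_lit 84) (nat_lit 0) (XT.lf (nat_lit 0) (nat_lit 4280750000) (nat_lit 168) (nat_lit 718190900) (nat_lit 84) (nat_lit 30447537291) (nat_lit 4) (nat_lit 5) (nat_lit 6) (nat_lit 5) (nat_lit 5) (nat_lit 4) (nat_lit 318) (nat_lit 230) (nat_lit 172)) (XT.lf (nat_lit 0) (nat_lit 16959335423) (nat_lit 168) (nat_lit 11721534587) (nat_lit 0) (nat_lit 7890682733) (nat_lit 3) (nat_lit 5) (nat_lit 5) (nat_lit 4) (nat_lit 3) (nat_lit 4) (nat_lit 319) (nat_lit 230) (nat_lit 171))) (XT.nd (nat_lit 94) (nat_lit 168) (nat_lit 0) (XT.lf (nat_lit 0) (nat_lit 14213171343) (nat_lit 84) (nat_lit 16310739939) (nat_lit 84) (nat_lit 7216366683) (nat_lit 2) (nat_lit 4) (nat_lit 3) (nat_lit 5) (nat_lit 3) (nat_lit 4) (nat_lit 320) (nat_lit 230) (nat_lit 170)) (XT.nd (nat_lit 94) (nat_lit 0) (nat_lit 0) (XT.lf (nat_lit 0) (nat_lit 56569795386) (nat_lit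 0) (nat_lit 0) (nat_lit 0) (nat_lit 0) (nat_lit 0) (nat_lit 0) (nat_lit 1) (nat_lit 0) (nat_lit 1) (nat_lit 0) (nat_lit 321) (nat_lit 230) (nat_lit 169)) (XT.lf (nat_lit 0) (nat_lit 59362045030) (nat_lit 0) (nat_lit 0) (nat_lit 0) (nat_lit 0) (nat_lit 0) (nat_lit 0) (nat_lit 1) (nat_lit 0) (nat_lit 1) (nat_lit 0) (nat_lit 322) (nat_lit 230) (nat_lit 168))))))))
noncomputable def xc59 : XT := (XT.nd (nat_lit 39104) (nat_lit 0) (nat_lit 5628) (XT.nd (nat_lit 752) (nat_lit 0) (nat_lit 0) (XT.nd (nat_lit 376) (nat_lit 0) (nat_lit 0) (XT.nd (nat_lit 188) (nat_lit 0) (nat_lit 0) (XT.nd (nat_lit 94) (nat_lit 0) (nat_lit 0) (XT.lf (nat_lit 0) (nat_lit 62294063389) (nat_lit 0) (nat_lit 0) (nat_lit 0) (nat_lit 0) (nat_lit 0) (nat_lit 0) (nat_lit 1) (nat_lit 0) (nat_lit 1) (nat_lit 0) (nat_lit 323) (nat_lit 230) (nat_lit 167)) (XT.lf (nat_lit 0) (nat_lit 65372831460) (nat_lit 0) (nat_lit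 0) (nat_lit 0) (nat_lit 0) (nat_lit 0) (nat_lit 0) (nat_lit 1) (nat_lit 0) (nat_lit 1) (nat_lit 0) (nat_lit 324) (nat_lit 230) (nat_lit 166))) (XT.nd (nat_lit 94) (nat_lit 0) (nat_lit 0) (XT.lf (nat_lit 0) (nat_lit 68605679644) (nat_lit 0) (nat_lit 0) (nat_lit 0) (nat_lit 0) (nat_lit 0) (nat_lit 0) (nat_lit 1) (nat_lit 0) (nat_lit 1) (nat_lit 0) (nat_lit 325) (nat_lit 230) (nat_lit 165)) (XT.lf (nat_lit 0) (nat_lit 72000305197) (nat_lit 0) (nat_lit 0) (nat_lit 0) (nat_lit 0) (nat_lit 0) (nat_lit 0) (nat_lit 1) (nat_lit 0) (nat_lit 1) (nat_lit 0) (nat_lit 326) (nat_lit 230) (nat_lit 164)))) (XT.nd (nat_lit 188) (nat_lit 0) (nat_lit 0) (XT.nd (nat_lit 94) (nat_lit 0) (nat_lit 0) (XT.lf (nat_lit 0) (nat_lit 75564790562) (nat_lit 0) (nat_lit 0) (nat_lit 0) (nat_lit 0) (nat_lit 0) (nat_lit 0) (nat_lit 1) (nat_lit 0) (nat_lit 1) (nat_lit 0) (nat_lit 327) (nat_lit 230) (nat_lit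 163)) (XT.lf (nat_lit 0) (nat_lit 79307622609) (nat_lit 0) (nat_lit 0) (nat_lit 0) (nat_lit 0) (nat_lit 0) (nat_lit 0) (nat_lit 1) (nat_lit 0) (nat_lit 1) (nat_lit 0) (nat_lit 328) (nat_lit 230) (nat_lit 162))) (XT.nd (nat_lit 94) (nat_lit 0) (nat_lit 0) (XT.lf (nat_lit 0) (nat_lit 83237712841) (nat_lit 0) (nat_lit 0) (nat_lit 0) (nat_lit 0) (nat_lit 0) (nat_lit 0) (nat_lit 1) (nat_lit 0) (nat_lit 1) (nat_lit 0) (nat_lit 329) (nat_lit 230) (nat_lit 161)) (XT.lf (nat_lit 0) (nat_lit 87364418618) (nat_lit 0) (nat_lit 0) (nat_lit 0) (nat_lit 0) (nat_lit 0) (nat_lit 0) (nat_lit 1) (nat_lit 0) (nat_lit 1) (nat_lit 0) (nat_lit 330) (nat_lit 230) (nat_lit 160))))) (XT.nd (nat_lit 376) (nat_lit 0) (nat_lit 0) (XT.nd (nat_lit 188) (nat_lit 0) (nat_lit 0) (XT.nd (nat_lit 94) (nat_lit 0) (nat_lit 0) (XT.lf (nat_lit 0) (nat_lit 91697565429) (nat_lit 0) (nat_lit 0) (nat_lit 0) (nat_lit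 0) (nat_lit 0) (nat_lit 0) (nat_lit 1) (nat_lit 0) (nat_lit 1) (nat_lit 0) (nat_lit 331) (nat_lit 230) (nat_lit 159)) (XT.lf (nat_lit 0) (nat_lit 96247470290) (nat_lit 0) (nat_lit 0) (nat_lit 0) (nat_lit 0) (nat_lit 0) (nat_lit 0) (nat_lit 1) (nat_lit 0) (nat_lit 1) (nat_lit 0) (nat_lit 332) (nat_lit 230) (nat_lit 158))) (XT.nd (nat_lit 94) (nat_lit 0) (nat_lit 0) (XT.lf (nat_lit 0) (nat_lit 101024966308) (nat_lit 0) (nat_lit 0) (nat_lit 0) (nat_lit 0) (nat_lit 0) (nat_lit 0) (nat_lit 1) (nat_lit 0) (nat_lit 1) (nat_lit 0) (nat_lit 333) (nat_lit 230) (nat_lit 157)) (XT.lf (nat_lit 0) (nat_lit 106041428474) (nat_lit 0) (nat_lit 0) (nat_lit 0) (nat_lit 0) (nat_lit 0) (nat_lit 0) (nat_lit 1) (nat_lit 0) (nat_lit 1) (nat_lit 0) (nat_lit 334) (nat_lit 230) (nat_lit 156)))) (XT.nd (nat_lit 188) (nat_lit 0) (nat_lit 0) (XT.nd (nat_lit 94) (nat_lit 0) (nat_lit 0) (XT.lf (nat_lit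 0) (nat_lit 111308800744) (nat_lit 0) (nat_lit 0) (nat_lit 0) (nat_lit 0) (nat_lit 0) (nat_lit 0) (nat_lit 1) (nat_lit 0) (nat_lit 1) (nat_lit 0) (nat_lit 335) (nat_lit 230) (nat_lit 155)) (XT.lf (nat_lit 0) (nat_lit 116839624483) (nat_lit 0) (nat_lit 0) (nat_lit 0) (nat_lit 0) (nat_lit 0) (nat_lit 0) (nat_lit 1) (nat_lit 0) (nat_lit 1) (nat_lit 0) (nat_lit 336) (nat_lit 230) (nat_lit 154))) (XT.nd (nat_lit 94) (nat_lit 0) (nat_lit 0) (XT.lf (nat_lit 0) (nat_lit 122647068317) (nat_lit 0) (nat_lit 0) (nat_lit 0) (nat_lit 0) (nat_lit 0) (nat_lit 0) (nat_lit 1) (nat_lit 0) (nat_lit 1) (nat_lit 0) (nat_lit 337) (nat_lit 230) (nat_lit 153)) (XT.nd (nat_lit 94) (nat_lit 0) (nat_lit 0) (XT.lf (nat_lit 0) (nat_lit 128744959494) (nat_lit 0) (nat_lit 0) (nat_lit 0) (nat_lit 0) (nat_lit 0) (nat_lit 0) (nat_lit 1) (nat_lit 0) (nat_lit 1) (nat_lit 0) (nat_lit 338) (nat_lit 230) (nat_lit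 152)) (XT.lf (nat_lit 0) (nat_lit 135147816802) (nat_lit 0) (nat_lit 0) (nat_lit 0) (nat_lit 0) (nat_lit 0) (nat_lit 0) (nat_lit 1) (nat_lit 0) (nat_lit 1) (nat_lit 0) (nat_lit 339) (nat_lit 230) (nat_lit 151))))))) (XT.nd (nat_lit 752) (nat_lit 2016) (nat_lit 0) (XT.nd (nat_lit 376) (nat_lit 1176) (nat_lit 0) (XT.nd (nat_lit 188) (nat_lit 840) (nat_lit 0) (XT.nd (nat_lit 94) (nat_lit 504) (nat_lit 0) (XT.lf (nat_lit 0) (nat_lit 2849676858) (nat_lit 504) (nat_lit 418711561) (nat_lit 504) (nat_lit 418711561) (nat_lit 121) (nat_lit 4) (nat_lit 127) (nat_lit 5) (nat_lit 127) (nat_lit 4) (nat_lit 258) (nat_lit 231) (nat_lit 231)) (XT.lf (nat_lit 0) (nat_lit 2846800331) (nat_lit 504) (nat_lit 3263305402) (nat_lit 0) (nat_lit 1371119827) (nat_lit 115) (nat_lit 5) (nat_lit 121) (nat_lit 4) (nat_lit 115) (nat_lit 4) (nat_lit 259) (nat_lit 231) (nat_lit 230))) (XT.nd (nat_lit 94)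 (nat_lit 420) (nat_lit 0) (XT.lf (nat_lit 0) (nat_lit 2733415154) (nat_lit 420) (nat_lit 3872329377) (nat_lit 420) (nat_lit 991238870) (nat_lit 110) (nat_lit 4) (nat_lit 115) (nat_lit 5) (nat_lit 115) (nat_lit 4) (nat_lit 260) (nat_lit 231) (nat_lit 229)) (XT.lf (nat_lit 0) (nat_lit 1221763858) (nat_lit 336) (nat_lit 1432548377) (nat_lit 420) (nat_lit 5066458757) (nat_lit 105) (nat_lit 5) (nat_lit 109) (nat_lit 5) (nat_lit 110) (nat_lit 4) (nat_lit 261) (nat_lit 231) (nat_lit 228)))) (XT.nd (nat_lit 188) (nat_lit 756) (nat_lit 0) (XT.nd (nat_lit 94) (nat_lit 420) (nat_lit 0) (XT.lf (nat_lit 0) (nat_lit 6390025973) (nat_lit 420) (nat_lit 305513688) (nat_lit 0) (nat_lit 1157335948) (nat_lit 105) (nat_lit 5) (nat_lit 110) (nat_lit 4) (nat_lit 105) (nat_lit 4) (nat_lit 262) (nat_lit 231) (nat_lit 227)) (XT.lf (nat_lit 0) (nat_lit 2213533240) (nat_lit 420) (nat_lit 1851181171)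 (nat_lit 84) (nat_lit 3926715335) (nat_lit 100) (nat_lit 5) (nat_lit 105) (nat_lit 5) (nat_lit 101) (nat_lit 4) (nat_lit 263) (nat_lit 231) (nat_lit 226))) (XT.nd (nat_lit 94) (nat_lit 420) (nat_lit 0) (XT.lf (nat_lit 0) (nat_lit 4713022337) (nat_lit 336) (nat_lit 1239720181) (nat_lit 420) (nat_lit 2186561585) (nat_lit 96) (nat_lit 5) (nat_lit 100) (nat_lit 5) (nat_lit 101) (nat_lit 4) (nat_lit 264) (nat_lit 231) (nat_lit 225)) (XT.lf (nat_lit 0) (nat_lit 1495404912) (nat_lit 420) (nat_lit 5066646986) (nat_lit 84) (nat_lit 1733194799) (nat_lit 91) (nat_lit 5) (nat_lit 96) (nat_lit 5) (nat_lit 92) (nat_lit 4) (nat_lit 265) (nat_lit 231) (nat_lit 224))))) (XT.nd (nat_lit 376) (nat_lit 1092) (nat_lit 0) (XT.nd (nat_lit 188) (nat_lit 252) (nat_lit 0) (XT.nd (nat_lit 94) (nat_lit 420) (nat_lit 0) (XT.lf (nat_lit 0) (nat_lit 1674518567) (nat_lit 252) (nat_lit 3573277742) (nat_lit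 336) (nat_lit 3211407380) (nat_lit 88) (nat_lit 5) (nat_lit 91) (nat_lit 5) (nat_lit 92) (nat_lit 4) (nat_lit 266) (nat_lit 231) (nat_lit 223)) (XT.lf (nat_lit 0) (nat_lit 91850257) (nat_lit 336) (nat_lit 391322937) (nat_lit 420) (nat_lit 8150524235) (nat_lit 83) (nat_lit 5) (nat_lit 87) (nat_lit 5) (nat_lit 88) (nat_lit 5) (nat_lit 267) (nat_lit 231) (nat_lit 222))) (XT.nd (nat_lit 94) (nat_lit 252) (nat_lit 0) (XT.lf (nat_lit 0) (nat_lit 4276115564) (nat_lit 420) (nat_lit 1569395010) (nat_lit 84) (nat_lit 2967695126) (nat_lit 83) (nat_lit 5) (nat_lit 88) (nat_lit 5) (nat_lit 84) (nat_lit 4) (nat_lit 268) (nat_lit 231) (nat_lit 221)) (XT.lf (nat_lit 0) (nat_lit 5733139572) (nat_lit 252) (nat_lit 2486936704) (nat_lit 336) (nat_lit 783544547) (nat_lit 80) (nat_lit 5) (nat_lit 83) (nat_lit 5) (nat_lit 84) (nat_lit 4) (nat_lit 269) (nat_lit 231) (nat_lit 220)))) (XT.nd (nat_lit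 188) (nat_lit 504) (nat_lit 0) (XT.nd (nat_lit 94) (nat_lit 252) (nat_lit 0) (XT.lf (nat_lit 0) (nat_lit 3032493724) (nat_lit 336) (nat_lit 5081802842) (nat_lit 84) (nat_lit 1088001084) (nat_lit 76) (nat_lit 5) (nat_lit 80) (nat_lit 5) (nat_lit 77) (nat_lit 4) (nat_lit 270) (nat_lit 231) (nat_lit 219)) (XT.lf (nat_lit 0) (nat_lit 2409829188) (nat_lit 252) (nat_lit 4606888083) (nat_lit 336) (nat_lit 2393363019) (nat_lit 73) (nat_lit 5) (nat_lit 76) (nat_lit 5) (nat_lit 77) (nat_lit 4) (nat_lit 271) (nat_lit 231) (nat_lit 218))) (XT.nd (nat_lit 94) (nat_lit 168) (nat_lit 0) (XT.lf (nat_lit 0) (nat_lit 622200024) (nat_lit 252) (nat_lit 866685876) (nat_lit 336) (nat_lit 8139774244) (nat_lit 69) (nat_lit 5) (nat_lit 72) (nat_lit 5) (nat_lit 73) (nat_lit 5) (nat_lit 272) (nat_lit 231) (nat_lit 217)) (XT.nd (nat_lit 94) (nat_lit 168) (nat_lit 0) (XT.lf (nat_lit 0) (nat_lit 5525214344)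 (nat_lit 336) (nat_lit 1274692940) (nat_lit 84) (nat_lit 3054279945) (nat_lit 69) (nat_lit 5) (nat_lit 73) (nat_lit 5) (nat_lit 70) (nat_lit 4) (nat_lit 273) (nat_lit 231) (nat_lit 216)) (XT.lf (nat_lit 0) (nat_lit 6856234224) (nat_lit 168) (nat_lit 2906587743) (nat_lit 252) (nat_lit 328195565) (nat_lit 67) (nat_lit 5) (nat_lit 69) (nat_lit 5) (nat_lit 70) (nat_lit 4) (nat_lit 274) (nat_lit 231) (nat_lit 215))))))))
noncomputable def xc60 : XT := (XT.nd (nat_lit 1598) (nat_lit 1764) (nat_lit 0) (XT.nd (nat_lit 752) (nat_lit 1008) (nat_lit 0) (XT.nd (nat_lit 376) (nat_lit 840) (nat_lit 0) (XT.nd (nat_lit 188) (nat_lit 252) (nat_lit 0) (XT.nd (nat_lit 94) (nat_lit 168) (nat_lit 0) (XT.lf (nat_lit 0) (nat_lit 3747801272) (nat_lit 336) (nat_lit 5352469352) (nat_lit 84) (nat_lit 1236439167) (nat_lit 63) (nat_lit 5) (nat_lit 67) (nat_lit 5) (nat_lit 64) (nat_lit 4) (nat_lit 275)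 (nat_lit 231) (nat_lit 214)) (XT.lf (nat_lit 0) (nat_lit 2980842766) (nat_lit 168) (nat_lit 5066349406) (nat_lit 252) (nat_lit 2545694290) (nat_lit 61) (nat_lit 5) (nat_lit 63) (nat_lit 5) (nat_lit 64) (nat_lit 4) (nat_lit 276) (nat_lit 231) (nat_lit 213))) (XT.nd (nat_lit 94) (nat_lit 0) (nat_lit 0) (XT.lf (nat_lit 0) (nat_lit 862926166) (nat_lit 168) (nat_lit 769483065) (nat_lit 252) (nat_lit 9228779450) (nat_lit 58) (nat_lit 5) (nat_lit 60) (nat_lit 5) (nat_lit 61) (nat_lit 5) (nat_lit 277) (nat_lit 231) (nat_lit 212)) (XT.lf (nat_lit 0) (nat_lit 6006272759) (nat_lit 252) (nat_lit 1410221701) (nat_lit 84) (nat_lit 3720704572) (nat_lit 58) (nat_lit 5) (nat_lit 61) (nat_lit 5) (nat_lit 59) (nat_lit 4) (nat_lit 278) (nat_lit 231) (nat_lit 211)))) (XT.nd (nat_lit 188) (nat_lit 420) (nat_lit 0) (XT.nd (nat_lit 94) (nat_lit 252) (nat_lit 0) (XT.lf (nat_lit 0) (nat_lit 7651496455)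 (nat_lit 168) (nat_lit 2967935669) (nat_lit 252) (nat_lit 806547644) (nat_lit 56) (nat_lit 5) (nat_lit 58) (nat_lit 5) (nat_lit 59) (nat_lit 4) (nat_lit 279) (nat_lit 231) (nat_lit 210)) (XT.lf (nat_lit 0) (nat_lit 3640599568) (nat_lit 252) (nat_lit 6341319559) (nat_lit 84) (nat_lit 1743062337) (nat_lit 53) (nat_lit 5) (nat_lit 56) (nat_lit 5) (nat_lit 54) (nat_lit 4) (nat_lit 280) (nat_lit 231) (nat_lit 209))) (XT.nd (nat_lit 94) (nat_lit 252) (nat_lit 0) (XT.lf (nat_lit 0) (nat_lit 2936258145) (nat_lit 168) (nat_lit 5396544785) (nat_lit 252) (nat_lit 3702979004) (nat_lit 51) (nat_lit 5) (nat_lit 53) (nat_lit 5) (nat_lit 54) (nat_lit 4) (nat_lit 281) (nat_lit 231) (nat_lit 208)) (XT.lf (nat_lit 0) (nat_lit 346060432) (nat_lit 168) (nat_lit 528146993) (nat_lit 252) (nat_lit 11486942445) (nat_lit 48) (nat_lit 5) (nat_lit 50) (nat_lit 5) (nat_lit 51) (nat_lit 5) (nat_lit 282)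 (nat_lit 231) (nat_lit 207))))) (XT.nd (nat_lit 376) (nat_lit 588) (nat_lit 0) (XT.nd (nat_lit 188) (nat_lit 336) (nat_lit 0) (XT.nd (nat_lit 94) (nat_lit 84) (nat_lit 0) (XT.lf (nat_lit 0) (nat_lit 5675901867) (nat_lit 252) (nat_lit 2441413987) (nat_lit 84) (nat_lit 4576430466) (nat_lit 48) (nat_lit 5) (nat_lit 51) (nat_lit 5) (nat_lit 49) (nat_lit 4) (nat_lit 283) (nat_lit 231) (nat_lit 206)) (XT.lf (nat_lit 0) (nat_lit 7665362773) (nat_lit 84) (nat_lit 3077699887) (nat_lit 168) (nat_lit 2298640850) (nat_lit 47) (nat_lit 5) (nat_lit 48) (nat_lit 5) (nat_lit 49) (nat_lit 4) (nat_lit 284) (nat_lit 231) (nat_lit 205))) (XT.nd (nat_lit 94) (nat_lit 84) (nat_lit 0) (XT.lf (nat_lit 0) (nat_lit 2623278887) (nat_lit 252) (nat_lit 8551270871) (nat_lit 84) (nat_lit 2227845949) (nat_lit 44) (nat_lit 5) (nat_lit 47) (nat_lit 5) (nat_lit 45) (nat_lit 4) (nat_lit 285) (nat_lit 231)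 (nat_lit 204)) (XT.lf (nat_lit 0) (nat_lit 1783967673) (nat_lit 84) (nat_lit 5999259020) (nat_lit 168) (nat_lit 5992552616) (nat_lit 43) (nat_lit 5) (nat_lit 44) (nat_lit 5) (nat_lit 45) (nat_lit 4) (nat_lit 286) (nat_lit 231) (nat_lit 203)))) (XT.nd (nat_lit 188) (nat_lit 336) (nat_lit 0) (XT.nd (nat_lit 94) (nat_lit 252) (nat_lit 0) (XT.lf (nat_lit 0) (nat_lit 12752260240) (nat_lit 84) (nat_lit 494084527) (nat_lit 168) (nat_lit 919228680) (nat_lit 43) (nat_lit 5) (nat_lit 44) (nat_lit 5) (nat_lit 45) (nat_lit 4) (nat_lit 287) (nat_lit 231) (nat_lit 202)) (XT.lf (nat_lit 0) (nat_lit 4407581574) (nat_lit 252) (nat_lit 4890973275) (nat_lit 84) (nat_lit 5265816766) (nat_lit 40) (nat_lit 5) (nat_lit 43) (nat_lit 5) (nat_lit 41) (nat_lit 4) (nat_lit 288) (nat_lit 231) (nat_lit 201))) (XT.nd (nat_lit 94) (nat_lit 252) (nat_lit 0) (XT.lf (nat_lit 0) (nat_lit 6386582393) (nat_lit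 84) (nat_lit 3619627518) (nat_lit 168) (nat_lit 4974327830) (nat_lit 39) (nat_lit 5) (nat_lit 40) (nat_lit 5) (nat_lit 41) (nat_lit 4) (nat_lit 289) (nat_lit 231) (nat_lit 200)) (XT.nd (nat_lit 94) (nat_lit 0) (nat_lit 0) (XT.lf (nat_lit 0) (nat_lit 523759775) (nat_lit 252) (nat_lit 12560839168) (nat_lit 84) (nat_lit 2328975599) (nat_lit 36) (nat_lit 5) (nat_lit 39) (nat_lit 5) (nat_lit 37) (nat_lit 4) (nat_lit 290) (nat_lit 231) (nat_lit 199)) (XT.lf (nat_lit 0) (nat_lit 6241992093) (nat_lit 252) (nat_lit 1010912908) (nat_lit 84) (nat_lit 8605660345) (nat_lit 36) (nat_lit 5) (nat_lit 39) (nat_lit 5) (nat_lit 37) (nat_lit 4) (nat_lit 291) (nat_lit 231) (nat_lit 198))))))) (XT.nd (nat_lit 752) (nat_lit 840) (nat_lit 0) (XT.nd (nat_lit 376) (nat_lit 504) (nat_lit 0) (XT.nd (nat_lit 188) (nat_lit 84) (nat_lit 0) (XT.nd (nat_lit 94) (nat_lit 252) (nat_lit 0) (XT.lf (nat_lit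 0) (nat_lit 11310143201) (nat_lit 84) (nat_lit 1022236306) (nat_lit 168) (nat_lit 3989114011) (nat_lit 35) (nat_lit 5) (nat_lit 36) (nat_lit 5) (nat_lit 37) (nat_lit 4) (nat_lit 292) (nat_lit 231) (nat_lit 197)) (XT.lf (nat_lit 0) (nat_lit 1990622992) (nat_lit 252) (nat_lit 9374129547) (nat_lit 84) (nat_lit 5434699560) (nat_lit 32) (nat_lit 5) (nat_lit 35) (nat_lit 5) (nat_lit 33) (nat_lit 4) (nat_lit 293) (nat_lit 231) (nat_lit 196))) (XT.nd (nat_lit 94) (nat_lit 0) (nat_lit 0) (XT.lf (nat_lit 0) (nat_lit 3210856347) (nat_lit 84) (nat_lit 4987991489) (nat_lit 168) (nat_lit 9096012940) (nat_lit 31) (nat_lit 5) (nat_lit 32) (nat_lit 5) (nat_lit 33) (nat_lit 4) (nat_lit 294) (nat_lit 231) (nat_lit 195)) (XT.lf (nat_lit 0) (nat_lit 14816357701) (nat_lit 168) (nat_lit 1255381557) (nat_lit 0) (nat_lit 1738356939) (nat_lit 31) (nat_lit 5) (nat_lit 33) (nat_lit 4) (nat_lit 31)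 (nat_lit 4) (nat_lit 295) (nat_lit 231) (nat_lit 194)))) (XT.nd (nat_lit 188) (nat_lit 168) (nat_lit 0) (XT.nd (nat_lit 94) (nat_lit 84) (nat_lit 0) (XT.lf (nat_lit 0) (nat_lit 3497463650) (nat_lit 252) (nat_lit 6030757268) (nat_lit 84) (nat_lit 8810554035) (nat_lit 28) (nat_lit 5) (nat_lit 31) (nat_lit 5) (nat_lit 29) (nat_lit 4) (nat_lit 296) (nat_lit 231) (nat_lit 193)) (XT.lf (nat_lit 0) (nat_lit 7736869704) (nat_lit 84) (nat_lit 2533446587) (nat_lit 168) (nat_lit 8618232490) (nat_lit 27) (nat_lit 5) (nat_lit 28) (nat_lit 5) (nat_lit 29) (nat_lit 4) (nat_lit 297) (nat_lit 231) (nat_lit 192))) (XT.nd (nat_lit 94) (nat_lit 84) (nat_lit 0) (XT.lf (nat_lit 0) (nat_lit 2792079932) (nat_lit 84) (nat_lit 14727907245) (nat_lit 84) (nat_lit 1938915343) (nat_lit 26) (nat_lit 4) (nat_lit 27) (nat_lit 5) (nat_lit 27) (nat_lit 4) (nat_lit 298) (nat_lit 231) (nat_lit 191)) (XT.lf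 (nat_lit 0) (nat_lit 5061273744) (nat_lit 168) (nat_lit 2514208665) (nat_lit 84) (nat_lit 12470864405) (nat_lit 25) (nat_lit 5) (nat_lit 27) (nat_lit 5) (nat_lit 26) (nat_lit 4) (nat_lit 299) (nat_lit 231) (nat_lit 190))))) (XT.nd (nat_lit 376) (nat_lit 504) (nat_lit 0) (XT.nd (nat_lit 188) (nat_lit 168) (nat_lit 0) (XT.nd (nat_lit 94) (nat_lit 84) (nat_lit 0) (XT.lf (nat_lit 0) (nat_lit 12463829928) (nat_lit 168) (nat_lit 8095511106) (nat_lit 0) (nat_lit 96357118) (nat_lit 24) (nat_lit 5) (nat_lit 26) (nat_lit 4) (nat_lit 24) (nat_lit 4) (nat_lit 300) (nat_lit 231) (nat_lit 189)) (XT.lf (nat_lit 0) (nat_lit 7130756342) (nat_lit 84) (nat_lit 13304692863) (nat_lit 84) (nat_lit 850121088) (nat_lit 23) (nat_lit 4) (nat_lit 24) (nat_lit 5) (nat_lit 24) (nat_lit 4) (nat_lit 301) (nat_lit 231) (nat_lit 188))) (XT.nd (nat_lit 94) (nat_lit 0) (nat_lit 0) (XT.lf (nat_lit 0) (nat_lit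 1234569051) (nat_lit 84) (nat_lit 5483524715) (nat_lit 168) (nat_lit 15219542988) (nat_lit 21) (nat_lit 5) (nat_lit 22) (nat_lit 5) (nat_lit 23) (nat_lit 4) (nat_lit 302) (nat_lit 231) (nat_lit 187)) (XT.lf (nat_lit 0) (nat_lit 14842937996) (nat_lit 168) (nat_lit 4941131928) (nat_lit 0) (nat_lit 2827200378) (nat_lit 21) (nat_lit 5) (nat_lit 23) (nat_lit 4) (nat_lit 21) (nat_lit 4) (nat_lit 303) (nat_lit 231) (nat_lit 186)))) (XT.nd (nat_lit 188) (nat_lit 252) (nat_lit 0) (XT.nd (nat_lit 94) (nat_lit 84) (nat_lit 0) (XT.lf (nat_lit 0) (nat_lit 254525772) (nat_lit 168) (nat_lit 11565616317) (nat_lit 84) (nat_lit 11488357098) (nat_lit 19) (nat_lit 5) (nat_lit 21) (nat_lit 5) (nat_lit 20) (nat_lit 4) (nat_lit 304) (nat_lit 231) (nat_lit 185)) (XT.lf (nat_lit 0) (nat_lit 5288881967) (nat_lit 84) (nat_lit 3220640196) (nat_lit 168) (nat_lit 15520096752) (nat_lit 18) (nat_lit 5)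 (nat_lit 19) (nat_lit 5) (nat_lit 20) (nat_lit 4) (nat_lit 305) (nat_lit 231) (nat_lit 184))) (XT.nd (nat_lit 94) (nat_lit 252) (nat_lit 0) (XT.lf (nat_lit 0) (nat_lit 17391689875) (nat_lit 168) (nat_lit 1631391957) (nat_lit 0) (nat_lit 5752991724) (nat_lit 18) (nat_lit 5) (nat_lit 20) (nat_lit 4) (nat_lit 18) (nat_lit 4) (nat_lit 306) (nat_lit 231) (nat_lit 183)) (XT.nd (nat_lit 94) (nat_lit 84) (nat_lit 0) (XT.lf (nat_lit 0) (nat_lit 1366354552) (nat_lit 168) (nat_lit 8896623325) (nat_lit 84) (nat_lit 15283703658) (nat_lit 16) (nat_lit 5) (nat_lit 18) (nat_lit 5) (nat_lit 17) (nat_lit 4) (nat_lit 307) (nat_lit 231) (nat_lit 182)) (XT.lf (nat_lit 0) (nat_lit 9592114176) (nat_lit 84) (nat_lit 820524410) (nat_lit 168) (nat_lit 15931819924) (nat_lit 15) (nat_lit 5) (nat_lit 16) (nat_lit 5) (nat_lit 17) (nat_lit 4) (nat_lit 308) (nat_lit 231) (nat_lit 181))))))))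
noncomputable def xc61 : XT := (XT.nd (nat_lit 1598) (nat_lit 0) (nat_lit 0) (XT.nd (nat_lit 752) (nat_lit 588) (nat_lit 0) (XT.nd (nat_lit 376) (nat_lit 336) (nat_lit 0) (XT.nd (nat_lit 188) (nat_lit 168) (nat_lit 0) (XT.nd (nat_lit 94) (nat_lit 84) (nat_lit 0) (XT.lf (nat_lit 0) (nat_lit 1915067796) (nat_lit 84) (nat_lit 18249697735) (nat_lit 84) (nat_lit 7004682367) (nat_lit 14) (nat_lit 4) (nat_lit 15) (nat_lit 5) (nat_lit 15) (nat_lit 4) (nat_lit 309) (nat_lit 231) (nat_lit 180)) (XT.lf (nat_lit 0) (nat_lit 2523394929) (nat_lit 168) (nat_lit 6120555725) (nat_lit 84) (nat_lit 19378366931) (nat_lit 13) (nat_lit 5) (nat_lit 15) (nat_lit 5) (nat_lit 14) (nat_lit 4) (nat_lit 310) (nat_lit 231) (nat_lit 179))) (XT.nd (nat_lit 94) (nat_lit 84) (nat_lit 0) (XT.lf (nat_lit 0) (nat_lit 12472743468) (nat_lit 168) (nat_lit 14757308527) (nat_lit 0) (nat_lit 1673023685) (nat_lit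 12) (nat_lit 5) (nat_lit 14) (nat_lit 4) (nat_lit 12) (nat_lit 4) (nat_lit 311) (nat_lit 231) (nat_lit 178)) (XT.lf (nat_lit 0) (nat_lit 5720050624) (nat_lit 84) (nat_lit 17468006035) (nat_lit 84) (nat_lit 6626390161) (nat_lit 11) (nat_lit 4) (nat_lit 12) (nat_lit 5) (nat_lit 12) (nat_lit 4) (nat_lit 312) (nat_lit 231) (nat_lit 177)))) (XT.nd (nat_lit 188) (nat_lit 168) (nat_lit 0) (XT.nd (nat_lit 94) (nat_lit 84) (nat_lit 0) (XT.lf (nat_lit 0) (nat_lit 3736577679) (nat_lit 168) (nat_lit 3221532669) (nat_lit 84) (nat_lit 23801101997) (nat_lit 10) (nat_lit 5) (nat_lit 12) (nat_lit 5) (nat_lit 11) (nat_lit 4) (nat_lit 313) (nat_lit 231) (nat_lit 176)) (XT.lf (nat_lit 0) (nat_lit 14697461487) (nat_lit 168) (nat_lit 12735279678) (nat_lit 0) (nat_lit 4297920627) (nat_lit 9) (nat_lit 5) (nat_lit 11) (nat_lit 4) (nat_lit 9) (nat_lit 4) (nat_lit 314) (nat_lit 231) (nat_lit 175)))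 (XT.nd (nat_lit 94) (nat_lit 84) (nat_lit 0) (XT.lf (nat_lit 0) (nat_lit 9755718882) (nat_lit 84) (nat_lit 16708052312) (nat_lit 84) (nat_lit 6274043434) (nat_lit 8) (nat_lit 4) (nat_lit 9) (nat_lit 5) (nat_lit 9) (nat_lit 4) (nat_lit 315) (nat_lit 231) (nat_lit 174)) (XT.lf (nat_lit 0) (nat_lit 5017118222) (nat_lit 168) (nat_lit 181743205) (nat_lit 84) (nat_lit 28584801637) (nat_lit 7) (nat_lit 5) (nat_lit 9) (nat_lit 5) (nat_lit 8) (nat_lit 4) (nat_lit 316) (nat_lit 231) (nat_lit 173))))) (XT.nd (nat_lit 376) (nat_lit 252) (nat_lit 0) (XT.nd (nat_lit 188) (nat_lit 168) (nat_lit 0) (XT.nd (nat_lit 94) (nat_lit 84) (nat_lit 0) (XT.lf (nat_lit 0) (nat_lit 17094686439) (nat_lit 168) (nat_lit 10663843102) (nat_lit 0) (nat_lit 7096496849) (nat_lit 6) (nat_lit 5) (nat_lit 8) (nat_lit 4) (nat_lit 6) (nat_lit 4) (nat_lit 317) (nat_lit 231) (nat_lit 172)) (XT.lf (nat_lit 0) (nat_lit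 14051085515) (nat_lit 84) (nat_lit 15971546955) (nat_lit 84) (nat_lit 5945000441) (nat_lit 5) (nat_lit 4) (nat_lit 6) (nat_lit 5) (nat_lit 6) (nat_lit 4) (nat_lit 318) (nat_lit 231) (nat_lit 171))) (XT.nd (nat_lit 94) (nat_lit 0) (nat_lit 0) (XT.lf (nat_lit 0) (nat_lit 3118452088) (nat_lit 84) (nat_lit 3306916300) (nat_lit 168) (nat_lit 30696904668) (nat_lit 3) (nat_lit 5) (nat_lit 4) (nat_lit 5) (nat_lit 5) (nat_lit 4) (nat_lit 319) (nat_lit 231) (nat_lit 170)) (XT.lf (nat_lit 0) (nat_lit 19686600109) (nat_lit 168) (nat_lit 8532273527) (nat_lit 0) (nat_lit 10087291848) (nat_lit 3) (nat_lit 5) (nat_lit 5) (nat_lit 4) (nat_lit 3) (nat_lit 4) (nat_lit 320) (nat_lit 231) (nat_lit 169)))) (XT.nd (nat_lit 188) (nat_lit 0) (nat_lit 0) (XT.nd (nat_lit 94) (nat_lit 168) (nat_lit 0) (XT.lf (nat_lit 0) (nat_lit 18638275154) (nat_lit 84) (nat_lit 15259632130) (nat_lit 84) (nat_lit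 5636994557) (nat_lit 2) (nat_lit 4) (nat_lit 3) (nat_lit 5) (nat_lit 3) (nat_lit 4) (nat_lit 321) (nat_lit 231) (nat_lit 168)) (XT.lf (nat_lit 0) (nat_lit 59393480015) (nat_lit 0) (nat_lit 0) (nat_lit 0) (nat_lit 0) (nat_lit 0) (nat_lit 0) (nat_lit 1) (nat_lit 0) (nat_lit 1) (nat_lit 0) (nat_lit 322) (nat_lit 231) (nat_lit 167))) (XT.nd (nat_lit 94) (nat_lit 0) (nat_lit 0) (XT.lf (nat_lit 0) (nat_lit 62325570956) (nat_lit 0) (nat_lit 0) (nat_lit 0) (nat_lit 0) (nat_lit 0) (nat_lit 0) (nat_lit 1) (nat_lit 0) (nat_lit 1) (nat_lit 0) (nat_lit 323) (nat_lit 231) (nat_lit 166)) (XT.nd (nat_lit 94) (nat_lit 0) (nat_lit 0) (XT.lf (nat_lit 0) (nat_lit 65404408154) (nat_lit 0) (nat_lit 0) (nat_lit 0) (nat_lit 0) (nat_lit 0) (nat_lit 0) (nat_lit 1) (nat_lit 0) (nat_lit 1) (nat_lit 0) (nat_lit 324) (nat_lit 231) (nat_lit 165)) (XT.lf (nat_lit 0) (nat_lit 68637322172) (nat_lit 0) (nat_lit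 0) (nat_lit 0) (nat_lit 0) (nat_lit 0) (nat_lit 0) (nat_lit 1) (nat_lit 0) (nat_lit 1) (nat_lit 0) (nat_lit 325) (nat_lit 231) (nat_lit 164))))))) (XT.nd (nat_lit 752) (nat_lit 0) (nat_lit 0) (XT.nd (nat_lit 376) (nat_lit 0) (nat_lit 0) (XT.nd (nat_lit 188) (nat_lit 0) (nat_lit 0) (XT.nd (nat_lit 94) (nat_lit 0) (nat_lit 0) (XT.lf (nat_lit 0) (nat_lit 72032010425) (nat_lit 0) (nat_lit 0) (nat_lit 0) (nat_lit 0) (nat_lit 0) (nat_lit 0) (nat_lit 1) (nat_lit 0) (nat_lit 1) (nat_lit 0) (nat_lit 326) (nat_lit 231) (nat_lit 163)) (XT.lf (nat_lit 0) (nat_lit 75596555503) (nat_lit 0) (nat_lit 0) (nat_lit 0) (nat_lit 0) (nat_lit 0) (nat_lit 0) (nat_lit 1) (nat_lit 0) (nat_lit 1) (nat_lit 0) (nat_lit 327) (nat_lit 231) (nat_lit 162))) (XT.nd (nat_lit 94) (nat_lit 0) (nat_lit 0) (XT.lf (nat_lit 0) (nat_lit 79339444420) (nat_lit 0) (nat_lit 0) (nat_lit 0) (nat_lit 0) (nat_lit 0) (nat_lit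 0) (nat_lit 1) (nat_lit 0) (nat_lit 1) (nat_lit 0) (nat_lit 328) (nat_lit 231) (nat_lit 161)) (XT.lf (nat_lit 0) (nat_lit 83269588815) (nat_lit 0) (nat_lit 0) (nat_lit 0) (nat_lit 0) (nat_lit 0) (nat_lit 0) (nat_lit 1) (nat_lit 0) (nat_lit 1) (nat_lit 0) (nat_lit 329) (nat_lit 231) (nat_lit 160)))) (XT.nd (nat_lit 188) (nat_lit 0) (nat_lit 0) (XT.nd (nat_lit 94) (nat_lit 0) (nat_lit 0) (XT.lf (nat_lit 0) (nat_lit 87396346175) (nat_lit 0) (nat_lit 0) (nat_lit 0) (nat_lit 0) (nat_lit 0) (nat_lit 0) (nat_lit 1) (nat_lit 0) (nat_lit 1) (nat_lit 0) (nat_lit 330) (nat_lit 231) (nat_lit 159)) (XT.lf (nat_lit 0) (nat_lit 91729542112) (nat_lit 0) (nat_lit 0) (nat_lit 0) (nat_lit 0) (nat_lit 0) (nat_lit 0) (nat_lit 1) (nat_lit 0) (nat_lit 1) (nat_lit 0) (nat_lit 331) (nat_lit 231) (nat_lit 158))) (XT.nd (nat_lit 94) (nat_lit 0) (nat_lit 0) (XT.lf (nat_lit 0) (nat_lit 96279493761)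 (nat_lit 0) (nat_lit 0) (nat_lit 0) (nat_lit 0) (nat_lit 0) (nat_lit 0) (nat_lit 1) (nat_lit 0) (nat_lit 1) (nat_lit 0) (nat_lit 332) (nat_lit 231) (nat_lit 157)) (XT.lf (nat_lit 0) (nat_lit 101057034338) (nat_lit 0) (nat_lit 0) (nat_lit 0) (nat_lit 0) (nat_lit 0) (nat_lit 0) (nat_lit 1) (nat_lit 0) (nat_lit 1) (nat_lit 0) (nat_lit 333) (nat_lit 231) (nat_lit 156))))) (XT.nd (nat_lit 376) (nat_lit 0) (nat_lit 0) (XT.nd (nat_lit 188) (nat_lit 0) (nat_lit 0) (XT.nd (nat_lit 94) (nat_lit 0) (nat_lit 0) (XT.lf (nat_lit 0) (nat_lit 106073538941) (nat_lit 0) (nat_lit 0) (nat_lit 0) (nat_lit 0) (nat_lit 0) (nat_lit 0) (nat_lit 1) (nat_lit 0) (nat_lit 1) (nat_lit 0) (nat_lit 334) (nat_lit 231) (nat_lit 155)) (XT.lf (nat_lit 0) (nat_lit 111340951629) (nat_lit 0) (nat_lit 0) (nat_lit 0) (nat_lit 0) (nat_lit 0) (nat_lit 0) (nat_lit 1) (nat_lit 0) (nat_lit 1) (nat_lit 0) (nat_lit 335)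 (nat_lit 231) (nat_lit 154))) (XT.nd (nat_lit 94) (nat_lit 0) (nat_lit 0) (XT.lf (nat_lit 0) (nat_lit 116871813859) (nat_lit 0) (nat_lit 0) (nat_lit 0) (nat_lit 0) (nat_lit 0) (nat_lit 0) (nat_lit 1) (nat_lit 0) (nat_lit 1) (nat_lit 0) (nat_lit 336) (nat_lit 231) (nat_lit 153)) (XT.lf (nat_lit 0) (nat_lit 122679294352) (nat_lit 0) (nat_lit 0) (nat_lit 0) (nat_lit 0) (nat_lit 0) (nat_lit 0) (nat_lit 1) (nat_lit 0) (nat_lit 1) (nat_lit 0) (nat_lit 337) (nat_lit 231) (nat_lit 152)))) (XT.nd (nat_lit 37506) (nat_lit 0) (nat_lit 10080) (XT.nd (nat_lit 94) (nat_lit 0) (nat_lit 0) (XT.lf (nat_lit 0) (nat_lit 128777220442) (nat_lit 0) (nat_lit 0) (nat_lit 0) (nat_lit 0) (nat_lit 0) (nat_lit 0) (nat_lit 1) (nat_lit 0) (nat_lit 1) (nat_lit 0) (nat_lit 338) (nat_lit 231) (nat_lit 151)) (XT.lf (nat_lit 0) (nat_lit 135180111001) (nat_lit 0) (nat_lit 0) (nat_lit 0) (nat_lit 0) (nat_lit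 0) (nat_lit 0) (nat_lit 1) (nat_lit 0) (nat_lit 1) (nat_lit 0) (nat_lit 339) (nat_lit 231) (nat_lit 150))) (XT.nd (nat_lit 94) (nat_lit 588) (nat_lit 0) (XT.lf (nat_lit 0) (nat_lit 395458172) (nat_lit 924) (nat_lit 2798147421) (nat_lit 0) (nat_lit 395458172) (nat_lit 127) (nat_lit 5) (nat_lit 138) (nat_lit 4) (nat_lit 127) (nat_lit 4) (nat_lit 256) (nat_lit 232) (nat_lit 232)) (XT.nd (nat_lit 94) (nat_lit 588) (nat_lit 0) (XT.lf (nat_lit 0) (nat_lit 4385407157) (nat_lit 924) (nat_lit 129995866) (nat_lit 0) (nat_lit 2758469402) (nat_lit 127) (nat_lit 5) (nat_lit 138) (nat_lit 4) (nat_lit 127) (nat_lit 4) (nat_lit 257) (nat_lit 232) (nat_lit 231)) (XT.lf (nat_lit 0) (nat_lit 680624486) (nat_lit 588) (nat_lit 1781122087) (nat_lit 84) (nat_lit 4916018098) (nat_lit 120) (nat_lit 5) (nat_lit 127) (nat_lit 5) (nat_lit 121) (nat_lit 4) (nat_lit 258) (nat_lit 232) (nat_lit 230))))))))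
noncomputable def xc62 : XT := (XT.nd (nat_lit 1598) (nat_lit 2352) (nat_lit 0) (XT.nd (nat_lit 752) (nat_lit 2100) (nat_lit 0) (XT.nd (nat_lit 376) (nat_lit 1428) (nat_lit 0) (XT.nd (nat_lit 188) (nat_lit 336) (nat_lit 0) (XT.nd (nat_lit 94) (nat_lit 504) (nat_lit 0) (XT.lf (nat_lit 0) (nat_lit 4025410114) (nat_lit 420) (nat_lit 207513252) (nat_lit 504) (nat_lit 3256469268) (nat_lit 115) (nat_lit 5) (nat_lit 120) (nat_lit 5) (nat_lit 121) (nat_lit 4) (nat_lit 259) (nat_lit 232) (nat_lit 229)) (XT.lf (nat_lit 0) (nat_lit 287647997) (nat_lit 504) (nat_lit 5179362358) (nat_lit 84) (nat_lit 2142172821) (nat_lit 109) (nat_lit 5) (nat_lit 115) (nat_lit 5) (nat_lit 110) (nat_lit 4) (nat_lit 260) (nat_lit 232) (nat_lit 228))) (XT.nd (nat_lit 94) (nat_lit 0) (nat_lit 0) (XT.lf (nat_lit 0) (nat_lit 783703566) (nat_lit 336) (nat_lit 3034585517) (nat_lit 420) (nat_lit 3918067091) (nat_lit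 105) (nat_lit 5) (nat_lit 109) (nat_lit 5) (nat_lit 110) (nat_lit 4) (nat_lit 261) (nat_lit 232) (nat_lit 227)) (XT.lf (nat_lit 0) (nat_lit 7037628456) (nat_lit 336) (nat_lit 423573258) (nat_lit 420) (nat_lit 411899134) (nat_lit 105) (nat_lit 5) (nat_lit 109) (nat_lit 5) (nat_lit 110) (nat_lit 4) (nat_lit 262) (nat_lit 232) (nat_lit 226)))) (XT.nd (nat_lit 188) (nat_lit 672) (nat_lit 0) (XT.nd (nat_lit 94) (nat_lit 336) (nat_lit 0) (XT.lf (nat_lit 0) (nat_lit 3142046368) (nat_lit 420) (nat_lit 2524585273) (nat_lit 84) (nat_lit 2348642948) (nat_lit 100) (nat_lit 5) (nat_lit 105) (nat_lit 5) (nat_lit 101) (nat_lit 4) (nat_lit 263) (nat_lit 232) (nat_lit 225)) (XT.lf (nat_lit 0) (nat_lit 3923279674) (nat_lit 336) (nat_lit 2875646465) (nat_lit 420) (nat_lit 1368339282) (nat_lit 96) (nat_lit 5) (nat_lit 100) (nat_lit 5) (nat_lit 101) (nat_lit 4) (nat_lit 264) (nat_lit 232) (nat_lit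 224))) (XT.nd (nat_lit 94) (nat_lit 252) (nat_lit 0) (XT.lf (nat_lit 0) (nat_lit 2177451243) (nat_lit 420) (nat_lit 6025098820) (nat_lit 84) (nat_lit 125518603) (nat_lit 91) (nat_lit 5) (nat_lit 96) (nat_lit 5) (nat_lit 92) (nat_lit 4) (nat_lit 265) (nat_lit 232) (nat_lit 223)) (XT.lf (nat_lit 0) (nat_lit 587884842) (nat_lit 252) (nat_lit 5257333953) (nat_lit 336) (nat_lit 2651038055) (nat_lit 88) (nat_lit 5) (nat_lit 91) (nat_lit 5) (nat_lit 92) (nat_lit 4) (nat_lit 266) (nat_lit 232) (nat_lit 222))))) (XT.nd (nat_lit 376) (nat_lit 1092) (nat_lit 0) (XT.nd (nat_lit 188) (nat_lit 588) (nat_lit 0) (XT.nd (nat_lit 94) (nat_lit 336) (nat_lit 0) (XT.lf (nat_lit 0) (nat_lit 957221927) (nat_lit 336) (nat_lit 1137635385) (nat_lit 84) (nat_lit 6578875095) (nat_lit 87) (nat_lit 5) (nat_lit 91) (nat_lit 5) (nat_lit 88) (nat_lit 5) (nat_lit 267) (nat_lit 232) (nat_lit 221)) (XT.lf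 (nat_lit 0) (nat_lit 4639281356) (nat_lit 420) (nat_lit 2945975733) (nat_lit 84) (nat_lit 1273527737) (nat_lit 83) (nat_lit 5) (nat_lit 88) (nat_lit 5) (nat_lit 84) (nat_lit 4) (nat_lit 268) (nat_lit 232) (nat_lit 220))) (XT.nd (nat_lit 94) (nat_lit 336) (nat_lit 0) (XT.lf (nat_lit 0) (nat_lit 4217156949) (nat_lit 252) (nat_lit 4279905681) (nat_lit 336) (nat_lit 556446290) (nat_lit 80) (nat_lit 5) (nat_lit 83) (nat_lit 5) (nat_lit 84) (nat_lit 4) (nat_lit 269) (nat_lit 232) (nat_lit 219)) (XT.lf (nat_lit 0) (nat_lit 2423125291) (nat_lit 252) (nat_lit 722932473) (nat_lit 336) (nat_lit 6111263984) (nat_lit 76) (nat_lit 5) (nat_lit 79) (nat_lit 5) (nat_lit 80) (nat_lit 5) (nat_lit 270) (nat_lit 232) (nat_lit 218)))) (XT.nd (nat_lit 188) (nat_lit 756) (nat_lit 0) (XT.nd (nat_lit 94) (nat_lit 84) (nat_lit 0) (XT.lf (nat_lit 0) (nat_lit 515549114) (nat_lit 252) (nat_lit 6513023154)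 (nat_lit 336) (nat_lit 2441617572) (nat_lit 73) (nat_lit 5) (nat_lit 76) (nat_lit 5) (nat_lit 77) (nat_lit 4) (nat_lit 271) (nat_lit 232) (nat_lit 217)) (XT.lf (nat_lit 0) (nat_lit 1372117090) (nat_lit 336) (nat_lit 1444397768) (nat_lit 84) (nat_lit 6875795441) (nat_lit 72) (nat_lit 5) (nat_lit 76) (nat_lit 5) (nat_lit 73) (nat_lit 5) (nat_lit 272) (nat_lit 232) (nat_lit 216))) (XT.nd (nat_lit 94) (nat_lit 504) (nat_lit 0) (XT.lf (nat_lit 0) (nat_lit 5294914714) (nat_lit 336) (nat_lit 3517021645) (nat_lit 84) (nat_lit 1111577566) (nat_lit 69) (nat_lit 5) (nat_lit 73) (nat_lit 5) (nat_lit 70) (nat_lit 4) (nat_lit 273) (nat_lit 232) (nat_lit 215)) (XT.nd (nat_lit 94) (nat_lit 336) (nat_lit 0) (XT.lf (nat_lit 0) (nat_lit 4447298024) (nat_lit 168) (nat_lit 4991033236) (nat_lit 252) (nat_lit 726722521) (nat_lit 67) (nat_lit 5) (nat_lit 69) (nat_lit 5) (nat_lit 70) (nat_lit 4)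 (nat_lit 274) (nat_lit 232) (nat_lit 214)) (XT.lf (nat_lit 0) (nat_lit 2353644112) (nat_lit 252) (nat_lit 890877741) (nat_lit 336) (nat_lit 7172410684) (nat_lit 63) (nat_lit 5) (nat_lit 66) (nat_lit 5) (nat_lit 67) (nat_lit 5) (nat_lit 275) (nat_lit 232) (nat_lit 213))))))) (XT.nd (nat_lit 752) (nat_lit 1092) (nat_lit 0) (XT.nd (nat_lit 376) (nat_lit 672) (nat_lit 0) (XT.nd (nat_lit 188) (nat_lit 336) (nat_lit 0) (XT.nd (nat_lit 94) (nat_lit 84) (nat_lit 0) (XT.lf (nat_lit 0) (nat_lit 101073347) (nat_lit 168) (nat_lit 7328570552) (nat_lit 252) (nat_lit 3249178753) (nat_lit 61) (nat_lit 5) (nat_lit 63) (nat_lit 5) (nat_lit 64) (nat_lit 4) (nat_lit 276) (nat_lit 232) (nat_lit 212)) (XT.lf (nat_lit 0) (nat_lit 882926673) (nat_lit 252) (nat_lit 2210461132) (nat_lit 84) (nat_lit 7857711933) (nat_lit 60) (nat_lit 5) (nat_lit 63) (nat_lit 5) (nat_lit 61) (nat_lit 5) (nat_lit 277)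 (nat_lit 232) (nat_lit 211))) (XT.nd (nat_lit 94) (nat_lit 168) (nat_lit 0) (XT.lf (nat_lit 0) (nat_lit 5129893337) (nat_lit 252) (nat_lit 4703233571) (nat_lit 84) (nat_lit 1400328024) (nat_lit 58) (nat_lit 5) (nat_lit 61) (nat_lit 5) (nat_lit 59) (nat_lit 4) (nat_lit 278) (nat_lit 232) (nat_lit 210)) (XT.lf (nat_lit 0) (nat_lit 4159371746) (nat_lit 168) (nat_lit 5477371359) (nat_lit 252) (nat_lit 1890808044) (nat_lit 56) (nat_lit 5) (nat_lit 58) (nat_lit 5) (nat_lit 59) (nat_lit 4) (nat_lit 279) (nat_lit 232) (nat_lit 209)))) (XT.nd (nat_lit 188) (nat_lit 420) (nat_lit 0) (XT.nd (nat_lit 94) (nat_lit 0) (nat_lit 0) (XT.lf (nat_lit 0) (nat_lit 1627615094) (nat_lit 168) (nat_lit 824716085) (nat_lit 252) (nat_lit 9382003636) (nat_lit 53) (nat_lit 5) (nat_lit 55) (nat_lit 5) (nat_lit 56) (nat_lit 5) (nat_lit 280) (nat_lit 232) (nat_lit 208)) (XT.lf (nat_lit 0) (nat_lit 7034867723)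 (nat_lit 252) (nat_lit 1098427795) (nat_lit 84) (nat_lit 4017323110) (nat_lit 53) (nat_lit 5) (nat_lit 56) (nat_lit 5) (nat_lit 54) (nat_lit 4) (nat_lit 281) (nat_lit 232) (nat_lit 207))) (XT.nd (nat_lit 94) (nat_lit 252) (nat_lit 0) (XT.lf (nat_lit 0) (nat_lit 8553352057) (nat_lit 168) (nat_lit 3340771892) (nat_lit 252) (nat_lit 586213040) (nat_lit 51) (nat_lit 5) (nat_lit 53) (nat_lit 5) (nat_lit 54) (nat_lit 4) (nat_lit 282) (nat_lit 232) (nat_lit 206)) (XT.lf (nat_lit 0) (nat_lit 4075732504) (nat_lit 252) (nat_lit 7001462698) (nat_lit 84) (nat_lit 1744121426) (nat_lit 48) (nat_lit 5) (nat_lit 51) (nat_lit 5) (nat_lit 49) (nat_lit 4) (nat_lit 283) (nat_lit 232) (nat_lit 205))))) (XT.nd (nat_lit 376) (nat_lit 672) (nat_lit 0) (XT.nd (nat_lit 188) (nat_lit 252) (nat_lit 0) (XT.nd (nat_lit 94) (nat_lit 84) (nat_lit 0) (XT.lf (nat_lit 0) (nat_lit 2867063108) (nat_lit 84)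 (nat_lit 6153085174) (nat_lit 168) (nat_lit 4155262787) (nat_lit 47) (nat_lit 5) (nat_lit 48) (nat_lit 5) (nat_lit 49) (nat_lit 4) (nat_lit 284) (nat_lit 232) (nat_lit 204)) (XT.lf (nat_lit 0) (nat_lit 666197460) (nat_lit 168) (nat_lit 255523781) (nat_lit 84) (nat_lit 12623825529) (nat_lit 46) (nat_lit 5) (nat_lit 48) (nat_lit 5) (nat_lit 47) (nat_lit 5) (nat_lit 285) (nat_lit 232) (nat_lit 203))) (XT.nd (nat_lit 94) (nat_lit 84) (nat_lit 0) (XT.lf (nat_lit 0) (nat_lit 5732480020) (nat_lit 252) (nat_lit 3602399300) (nat_lit 84) (nat_lit 4588734313) (nat_lit 44) (nat_lit 5) (nat_lit 47) (nat_lit 5) (nat_lit 45) (nat_lit 4) (nat_lit 286) (nat_lit 232) (nat_lit 202)) (XT.lf (nat_lit 0) (nat_lit 7162884476) (nat_lit 84) (nat_lit 3928316774) (nat_lit 168) (nat_lit 3227426363) (nat_lit 43) (nat_lit 5) (nat_lit 44) (nat_lit 5) (nat_lit 45) (nat_lit 4) (nat_lit 287) (nat_lit 232)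 (nat_lit 201)))) (XT.nd (nat_lit 188) (nat_lit 336) (nat_lit 0) (XT.nd (nat_lit 94) (nat_lit 84) (nat_lit 0) (XT.lf (nat_lit 0) (nat_lit 1978787356) (nat_lit 252) (nat_lit 10975573665) (nat_lit 84) (nat_lit 1774590296) (nat_lit 40) (nat_lit 5) (nat_lit 43) (nat_lit 5) (nat_lit 41) (nat_lit 4) (nat_lit 288) (nat_lit 232) (nat_lit 200)) (XT.lf (nat_lit 0) (nat_lit 16392902) (nat_lit 84) (nat_lit 7417073812) (nat_lit 168) (nat_lit 7718848179) (nat_lit 39) (nat_lit 5) (nat_lit 40) (nat_lit 5) (nat_lit 41) (nat_lit 4) (nat_lit 289) (nat_lit 232) (nat_lit 199))) (XT.nd (nat_lit 94) (nat_lit 336) (nat_lit 0) (XT.lf (nat_lit 0) (nat_lit 11774214741) (nat_lit 84) (nat_lit 1483102866) (nat_lit 168) (nat_lit 2334707161) (nat_lit 39) (nat_lit 5) (nat_lit 40) (nat_lit 5) (nat_lit 41) (nat_lit 4) (nat_lit 290) (nat_lit 232) (nat_lit 198)) (XT.nd (nat_lit 94) (nat_lit 84) (nat_lit 0) (XT.lf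 (nat_lit 0) (nat_lit 3328439850) (nat_lit 252) (nat_lit 8010732924) (nat_lit 84) (nat_lit 4706155892) (nat_lit 36) (nat_lit 5) (nat_lit 39) (nat_lit 5) (nat_lit 37) (nat_lit 4) (nat_lit 291) (nat_lit 232) (nat_lit 197)) (XT.lf (nat_lit 0) (nat_lit 3998074515) (nat_lit 84) (nat_lit 5264621269) (nat_lit 168) (nat_lit 7253367625) (nat_lit 35) (nat_lit 5) (nat_lit 36) (nat_lit 5) (nat_lit 37) (nat_lit 4) (nat_lit 292) (nat_lit 232) (nat_lit 196))))))))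
noncomputable def xc63 : XT := (XT.nd (nat_lit 1598) (nat_lit 1260) (nat_lit 0) (XT.nd (nat_lit 752) (nat_lit 756) (nat_lit 0) (XT.nd (nat_lit 376) (nat_lit 420) (nat_lit 0) (XT.nd (nat_lit 188) (nat_lit 252) (nat_lit 0) (XT.nd (nat_lit 94) (nat_lit 252) (nat_lit 0) (XT.lf (nat_lit 0) (nat_lit 15563392545) (nat_lit 168) (nat_lit 298559239) (nat_lit 0) (nat_lit 1144896706) (nat_lit 35) (nat_lit 5) (nat_lit 37) (nat_lit 4) (nat_lit 35) (nat_lit 4) (nat_lit 293) (nat_lit 232) (nat_lit 195)) (XT.lf (nat_lit 0) (nat_lit 4714323178) (nat_lit 252) (nat_lit 4889252405) (nat_lit 84) (nat_lit 7904640670) (nat_lit 32) (nat_lit 5) (nat_lit 35) (nat_lit 5) (nat_lit 33) (nat_lit 4) (nat_lit 294) (nat_lit 232) (nat_lit 194))) (XT.nd (nat_lit 94) (nat_lit 168) (nat_lit 0) (XT.lf (nat_lit 0) (nat_lit 8245086274) (nat_lit 84) (nat_lit 2939004474) (nat_lit 168) (nat_lit 6846748041) (nat_lit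 31) (nat_lit 5) (nat_lit 32) (nat_lit 5) (nat_lit 33) (nat_lit 4) (nat_lit 295) (nat_lit 232) (nat_lit 193)) (XT.lf (nat_lit 0) (nat_lit 3524727297) (nat_lit 168) (nat_lit 14574321803) (nat_lit 168) (nat_lit 474458231) (nat_lit 29) (nat_lit 4) (nat_lit 31) (nat_lit 5) (nat_lit 31) (nat_lit 4) (nat_lit 296) (nat_lit 232) (nat_lit 192)))) (XT.nd (nat_lit 188) (nat_lit 252) (nat_lit 0) (XT.nd (nat_lit 94) (nat_lit 84) (nat_lit 0) (XT.lf (nat_lit 0) (nat_lit 6153434546) (nat_lit 252) (nat_lit 1596485554) (nat_lit 84) (nat_lit 11381738715) (nat_lit 28) (nat_lit 5) (nat_lit 31) (nat_lit 5) (nat_lit 29) (nat_lit 4) (nat_lit 297) (nat_lit 232) (nat_lit 191)) (XT.lf (nat_lit 0) (nat_lit 12783138742) (nat_lit 84) (nat_lit 436390259) (nat_lit 168) (nat_lit 6491662375) (nat_lit 27) (nat_lit 5) (nat_lit 28) (nat_lit 5) (nat_lit 29) (nat_lit 4) (nat_lit 298) (nat_lit 232) (nat_lit 190)))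 (XT.nd (nat_lit 94) (nat_lit 84) (nat_lit 0) (XT.lf (nat_lit 0) (nat_lit 494752003) (nat_lit 168) (nat_lit 12716923773) (nat_lit 84) (nat_lit 7098488502) (nat_lit 25) (nat_lit 5) (nat_lit 27) (nat_lit 5) (nat_lit 26) (nat_lit 4) (nat_lit 299) (nat_lit 232) (nat_lit 189)) (XT.lf (nat_lit 0) (nat_lit 1947611338) (nat_lit 84) (nat_lit 5745184092) (nat_lit 168) (nat_lit 13236945825) (nat_lit 24) (nat_lit 5) (nat_lit 25) (nat_lit 5) (nat_lit 26) (nat_lit 4) (nat_lit 300) (nat_lit 232) (nat_lit 188))))) (XT.nd (nat_lit 376) (nat_lit 504) (nat_lit 0) (XT.nd (nat_lit 188) (nat_lit 84) (nat_lit 0) (XT.nd (nat_lit 94) (nat_lit 168) (nat_lit 0) (XT.lf (nat_lit 0) (nat_lit 15426283495) (nat_lit 168) (nat_lit 3966303691) (nat_lit 0) (nat_lit 2178932771) (nat_lit 24) (nat_lit 5) (nat_lit 26) (nat_lit 4) (nat_lit 24) (nat_lit 4) (nat_lit 301) (nat_lit 232) (nat_lit 187)) (XT.lf (nat_lit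 0) (nat_lit 1471121754) (nat_lit 168) (nat_lit 10310552454) (nat_lit 84) (nat_lit 10452112458) (nat_lit 22) (nat_lit 5) (nat_lit 24) (nat_lit 5) (nat_lit 23) (nat_lit 4) (nat_lit 302) (nat_lit 232) (nat_lit 186))) (XT.nd (nat_lit 94) (nat_lit 0) (nat_lit 0) (XT.lf (nat_lit 0) (nat_lit 5761168678) (nat_lit 84) (nat_lit 3586519170) (nat_lit 168) (nat_lit 13572146273) (nat_lit 21) (nat_lit 5) (nat_lit 22) (nat_lit 5) (nat_lit 23) (nat_lit 4) (nat_lit 303) (nat_lit 232) (nat_lit 185)) (XT.lf (nat_lit 0) (nat_lit 17801835017) (nat_lit 168) (nat_lit 858990989) (nat_lit 0) (nat_lit 4970170306) (nat_lit 21) (nat_lit 5) (nat_lit 23) (nat_lit 4) (nat_lit 21) (nat_lit 4) (nat_lit 304) (nat_lit 232) (nat_lit 184)))) (XT.nd (nat_lit 188) (nat_lit 252) (nat_lit 0) (XT.nd (nat_lit 94) (nat_lit 84) (nat_lit 0) (XT.lf (nat_lit 0) (nat_lit 2480643240) (nat_lit 168) (nat_lit 7811340656) (nat_lit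 84) (nat_lit 14071270692) (nat_lit 19) (nat_lit 5) (nat_lit 21) (nat_lit 5) (nat_lit 20) (nat_lit 4) (nat_lit 305) (nat_lit 232) (nat_lit 183)) (XT.lf (nat_lit 0) (nat_lit 9816002600) (nat_lit 84) (nat_lit 1293539598) (nat_lit 168) (nat_lit 14012830467) (nat_lit 18) (nat_lit 5) (nat_lit 19) (nat_lit 5) (nat_lit 20) (nat_lit 4) (nat_lit 306) (nat_lit 232) (nat_lit 182))) (XT.nd (nat_lit 94) (nat_lit 168) (nat_lit 0) (XT.lf (nat_lit 0) (nat_lit 2499221648) (nat_lit 84) (nat_lit 17903115934) (nat_lit 84) (nat_lit 5505486491) (nat_lit 17) (nat_lit 4) (nat_lit 18) (nat_lit 5) (nat_lit 18) (nat_lit 4) (nat_lit 307) (nat_lit 232) (nat_lit 181)) (XT.nd (nat_lit 94) (nat_lit 84) (nat_lit 0) (XT.lf (nat_lit 0) (nat_lit 3533952230) (nat_lit 168) (nat_lit 5206498578) (nat_lit 84) (nat_lit 17978600806) (nat_lit 16) (nat_lit 5) (nat_lit 18) (nat_lit 5) (nat_lit 17) (nat_lit 4) (nat_lit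 308) (nat_lit 232) (nat_lit 180)) (XT.lf (nat_lit 0) (nat_lit 13013960935) (nat_lit 168) (nat_lit 13436416106) (nat_lit 0) (nat_lit 1107269875) (nat_lit 15) (nat_lit 5) (nat_lit 17) (nat_lit 4) (nat_lit 15) (nat_lit 4) (nat_lit 309) (nat_lit 232) (nat_lit 179))))))) (XT.nd (nat_lit 752) (nat_lit 504) (nat_lit 0) (XT.nd (nat_lit 376) (nat_lit 420) (nat_lit 0) (XT.nd (nat_lit 188) (nat_lit 168) (nat_lit 0) (XT.nd (nat_lit 94) (nat_lit 84) (nat_lit 0) (XT.lf (nat_lit 0) (nat_lit 6084139699) (nat_lit 84) (nat_lit 17146880635) (nat_lit 84) (nat_lit 5193999134) (nat_lit 14) (nat_lit 4) (nat_lit 15) (nat_lit 5) (nat_lit 15) (nat_lit 4) (nat_lit 310) (nat_lit 232) (nat_lit 178)) (XT.lf (nat_lit 0) (nat_lit 4641711819) (nat_lit 168) (nat_lit 2481363165) (nat_lit 84) (nat_lit 22200751122) (nat_lit 13) (nat_lit 5) (nat_lit 15) (nat_lit 5) (nat_lit 14) (nat_lit 4) (nat_lit 311) (nat_lit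 232) (nat_lit 177))) (XT.nd (nat_lit 94) (nat_lit 84) (nat_lit 0) (XT.lf (nat_lit 0) (nat_lit 15084300482) (nat_lit 168) (nat_lit 11545726306) (nat_lit 0) (nat_lit 3618806684) (nat_lit 12) (nat_lit 5) (nat_lit 14) (nat_lit 4) (nat_lit 12) (nat_lit 4) (nat_lit 312) (nat_lit 232) (nat_lit 176)) (XT.lf (nat_lit 0) (nat_lit 9891800034) (nat_lit 84) (nat_lit 16409583847) (nat_lit 84) (nat_lit 4906089059) (nat_lit 11) (nat_lit 4) (nat_lit 12) (nat_lit 5) (nat_lit 12) (nat_lit 4) (nat_lit 313) (nat_lit 232) (nat_lit 175)))) (XT.nd (nat_lit 188) (nat_lit 252) (nat_lit 0) (XT.nd (nat_lit 94) (nat_lit 0) (nat_lit 0) (XT.lf (nat_lit 0) (nat_lit 393225464) (nat_lit 84) (nat_lit 5427707058) (nat_lit 168) (nat_lit 26381364143) (nat_lit 9) (nat_lit 5) (nat_lit 10) (nat_lit 5) (nat_lit 11) (nat_lit 4) (nat_lit 314) (nat_lit 232) (nat_lit 174)) (XT.lf (nat_lit 0) (nat_lit 17320243357) (nat_lit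 168) (nat_lit 9605316753) (nat_lit 0) (nat_lit 6297239333) (nat_lit 9) (nat_lit 5) (nat_lit 11) (nat_lit 4) (nat_lit 9) (nat_lit 4) (nat_lit 315) (nat_lit 232) (nat_lit 173))) (XT.nd (nat_lit 94) (nat_lit 168) (nat_lit 0) (XT.lf (nat_lit 0) (nat_lit 13949478075) (nat_lit 84) (nat_lit 15693350683) (nat_lit 84) (nat_lit 4639083151) (nat_lit 8) (nat_lit 4) (nat_lit 9) (nat_lit 5) (nat_lit 9) (nat_lit 4) (nat_lit 316) (nat_lit 232) (nat_lit 172)) (XT.lf (nat_lit 0) (nat_lit 3510422818) (nat_lit 84) (nat_lit 3608828459) (nat_lit 168) (nat_lit 28261031083) (nat_lit 6) (nat_lit 5) (nat_lit 7) (nat_lit 5) (nat_lit 8) (nat_lit 4) (nat_lit 317) (nat_lit 232) (nat_lit 171))))) (XT.nd (nat_lit 376) (nat_lit 252) (nat_lit 0) (XT.nd (nat_lit 188) (nat_lit 168) (nat_lit 0) (XT.nd (nat_lit 94) (nat_lit 84) (nat_lit 0) (XT.lf (nat_lit 0) (nat_lit 19743029163) (nat_lit 168) (nat_lit 7605276321)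 (nat_lit 0) (nat_lit 9159791805) (nat_lit 6) (nat_lit 5) (nat_lit 8) (nat_lit 4) (nat_lit 6) (nat_lit 4) (nat_lit 318) (nat_lit 232) (nat_lit 170)) (XT.lf (nat_lit 0) (nat_lit 18287467131) (nat_lit 84) (nat_lit 14999668389) (nat_lit 84) (nat_lit 4390710466) (nat_lit 5) (nat_lit 4) (nat_lit 6) (nat_lit 5) (nat_lit 6) (nat_lit 4) (nat_lit 319) (nat_lit 232) (nat_lit 169))) (XT.nd (nat_lit 94) (nat_lit 0) (nat_lit 0) (XT.lf (nat_lit 0) (nat_lit 6809509840) (nat_lit 84) (nat_lit 1699252862) (nat_lit 168) (nat_lit 30381517712) (nat_lit 3) (nat_lit 5) (nat_lit 4) (nat_lit 5) (nat_lit 5) (nat_lit 4) (nat_lit 320) (nat_lit 232) (nat_lit 168)) (XT.lf (nat_lit 0) (nat_lit 22375508722) (nat_lit 168) (nat_lit 5534544538) (nat_lit 0) (nat_lit 12226191568) (nat_lit 3) (nat_lit 5) (nat_lit 5) (nat_lit 4) (nat_lit 3) (nat_lit 4) (nat_lit 321) (nat_lit 232) (nat_lit 167)))) (XT.nd (nat_lit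 188) (nat_lit 0) (nat_lit 0) (XT.nd (nat_lit 94) (nat_lit 168) (nat_lit 0) (XT.lf (nat_lit 0) (nat_lit 22939300244) (nat_lit 84) (nat_lit 14329511871) (nat_lit 84) (nat_lit 4159034344) (nat_lit 2) (nat_lit 4) (nat_lit 3) (nat_lit 5) (nat_lit 3) (nat_lit 4) (nat_lit 322) (nat_lit 232) (nat_lit 166)) (XT.lf (nat_lit 0) (nat_lit 62358795611) (nat_lit 0) (nat_lit 0) (nat_lit 0) (nat_lit 0) (nat_lit 0) (nat_lit 0) (nat_lit 1) (nat_lit 0) (nat_lit 1) (nat_lit 0) (nat_lit 323) (nat_lit 232) (nat_lit 165))) (XT.nd (nat_lit 94) (nat_lit 0) (nat_lit 0) (XT.lf (nat_lit 0) (nat_lit 65437698643) (nat_lit 0) (nat_lit 0) (nat_lit 0) (nat_lit 0) (nat_lit 0) (nat_lit 0) (nat_lit 1) (nat_lit 0) (nat_lit 1) (nat_lit 0) (nat_lit 324) (nat_lit 232) (nat_lit 164)) (XT.nd (nat_lit 94) (nat_lit 0) (nat_lit 0) (XT.lf (nat_lit 0) (nat_lit 68670675360) (nat_lit 0) (nat_lit 0) (nat_lit 0) (nat_lit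 0) (nat_lit 0) (nat_lit 0) (nat_lit 1) (nat_lit 0) (nat_lit 1) (nat_lit 0) (nat_lit 325) (nat_lit 232) (nat_lit 163)) (XT.lf (nat_lit 0) (nat_lit 72065423327) (nat_lit 0) (nat_lit 0) (nat_lit 0) (nat_lit 0) (nat_lit 0) (nat_lit 0) (nat_lit 1) (nat_lit 0) (nat_lit 1) (nat_lit 0) (nat_lit 326) (nat_lit 232) (nat_lit 162))))))))
noncomputable def xc64 : XT := (XT.nd (nat_lit 38634) (nat_lit 0) (nat_lit 5796) (XT.nd (nat_lit 752) (nat_lit 0) (nat_lit 0) (XT.nd (nat_lit 376) (nat_lit 0) (nat_lit 0) (XT.nd (nat_lit 188) (nat_lit 0) (nat_lit 0) (XT.nd (nat_lit 94) (nat_lit 0) (nat_lit 0) (XT.lf (nat_lit 0) (nat_lit 75630025276) (nat_lit 0) (nat_lit 0) (nat_lit 0) (nat_lit 0) (nat_lit 0) (nat_lit 0) (nat_lit 1) (nat_lit 0) (nat_lit 1) (nat_lit 0) (nat_lit 327) (nat_lit 232) (nat_lit 161)) (XT.lf (nat_lit 0) (nat_lit 79372968355) (nat_lit 0) (nat_lit 0) (nat_lit 0) (nat_lit 0) (nat_lit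 0) (nat_lit 0) (nat_lit 1) (nat_lit 0) (nat_lit 1) (nat_lit 0) (nat_lit 328) (nat_lit 232) (nat_lit 160))) (XT.nd (nat_lit 94) (nat_lit 0) (nat_lit 0) (XT.lf (nat_lit 0) (nat_lit 83303164333) (nat_lit 0) (nat_lit 0) (nat_lit 0) (nat_lit 0) (nat_lit 0) (nat_lit 0) (nat_lit 1) (nat_lit 0) (nat_lit 1) (nat_lit 0) (nat_lit 329) (nat_lit 232) (nat_lit 159)) (XT.lf (nat_lit 0) (nat_lit 87429970819) (nat_lit 0) (nat_lit 0) (nat_lit 0) (nat_lit 0) (nat_lit 0) (nat_lit 0) (nat_lit 1) (nat_lit 0) (nat_lit 1) (nat_lit 0) (nat_lit 330) (nat_lit 232) (nat_lit 158)))) (XT.nd (nat_lit 188) (nat_lit 0) (nat_lit 0) (XT.nd (nat_lit 94) (nat_lit 0) (nat_lit 0) (XT.lf (nat_lit 0) (nat_lit 91763213544) (nat_lit 0) (nat_lit 0) (nat_lit 0) (nat_lit 0) (nat_lit 0) (nat_lit 0) (nat_lit 1) (nat_lit 0) (nat_lit 1) (nat_lit 0) (nat_lit 331) (nat_lit 232) (nat_lit 157)) (XT.lf (nat_lit 0) (nat_lit 96313209752)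 (nat_lit 0) (nat_lit 0) (nat_lit 0) (nat_lit 0) (nat_lit 0) (nat_lit 0) (nat_lit 1) (nat_lit 0) (nat_lit 1) (nat_lit 0) (nat_lit 332) (nat_lit 232) (nat_lit 156))) (XT.nd (nat_lit 94) (nat_lit 0) (nat_lit 0) (XT.lf (nat_lit 0) (nat_lit 101090792766) (nat_lit 0) (nat_lit 0) (nat_lit 0) (nat_lit 0) (nat_lit 0) (nat_lit 0) (nat_lit 1) (nat_lit 0) (nat_lit 1) (nat_lit 0) (nat_lit 333) (nat_lit 232) (nat_lit 155)) (XT.lf (nat_lit 0) (nat_lit 106107337786) (nat_lit 0) (nat_lit 0) (nat_lit 0) (nat_lit 0) (nat_lit 0) (nat_lit 0) (nat_lit 1) (nat_lit 0) (nat_lit 1) (nat_lit 0) (nat_lit 334) (nat_lit 232) (nat_lit 154))))) (XT.nd (nat_lit 376) (nat_lit 0) (nat_lit 0) (XT.nd (nat_lit 188) (nat_lit 0) (nat_lit 0) (XT.nd (nat_lit 94) (nat_lit 0) (nat_lit 0) (XT.lf (nat_lit 0) (nat_lit 111374788966) (nat_lit 0) (nat_lit 0) (nat_lit 0) (nat_lit 0) (nat_lit 0) (nat_lit 0) (nat_lit 1) (nat_lit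 0) (nat_lit 1) (nat_lit 0) (nat_lit 335) (nat_lit 232) (nat_lit 153)) (XT.lf (nat_lit 0) (nat_lit 116905687855) (nat_lit 0) (nat_lit 0) (nat_lit 0) (nat_lit 0) (nat_lit 0) (nat_lit 0) (nat_lit 1) (nat_lit 0) (nat_lit 1) (nat_lit 0) (nat_lit 336) (nat_lit 232) (nat_lit 152))) (XT.nd (nat_lit 94) (nat_lit 0) (nat_lit 0) (XT.lf (nat_lit 0) (nat_lit 122713203261) (nat_lit 0) (nat_lit 0) (nat_lit 0) (nat_lit 0) (nat_lit 0) (nat_lit 0) (nat_lit 1) (nat_lit 0) (nat_lit 1) (nat_lit 0) (nat_lit 337) (nat_lit 232) (nat_lit 151)) (XT.lf (nat_lit 0) (nat_lit 128811162602) (nat_lit 0) (nat_lit 0) (nat_lit 0) (nat_lit 0) (nat_lit 0) (nat_lit 0) (nat_lit 1) (nat_lit 0) (nat_lit 1) (nat_lit 0) (nat_lit 338) (nat_lit 232) (nat_lit 150)))) (XT.nd (nat_lit 37318) (nat_lit 0) (nat_lit 10668) (XT.nd (nat_lit 37224) (nat_lit 0) (nat_lit 12348) (XT.lf (nat_lit 0) (nat_lit 135214084829) (nat_lit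 0) (nat_lit 0) (nat_lit 0) (nat_lit 0) (nat_lit 0) (nat_lit 0) (nat_lit 1) (nat_lit 0) (nat_lit 1) (nat_lit 0) (nat_lit 339) (nat_lit 232) (nat_lit 149)) (XT.lf (nat_lit 0) (nat_lit 1259473935) (nat_lit 756) (nat_lit 983288773) (nat_lit 0) (nat_lit 1259473935) (nat_lit 147) (nat_lit 5) (nat_lit 156) (nat_lit 4) (nat_lit 147) (nat_lit 4) (nat_lit 254) (nat_lit 233) (nat_lit 233))) (XT.nd (nat_lit 94) (nat_lit 924) (nat_lit 0) (XT.lf (nat_lit 0) (nat_lit 3263806844) (nat_lit 756) (nat_lit 2809499616) (nat_lit 756) (nat_lit 1015800741) (nat_lit 138) (nat_lit 4) (nat_lit 147) (nat_lit 5) (nat_lit 147) (nat_lit 4) (nat_lit 255) (nat_lit 233) (nat_lit 232)) (XT.lf (nat_lit 0) (nat_lit 1477801882) (nat_lit 840) (nat_lit 951361727) (nat_lit 924) (nat_lit 4752465790) (nat_lit 127) (nat_lit 5) (nat_lit 137) (nat_lit 5) (nat_lit 138) (nat_lit 4) (nat_lit 256) (nat_lit 233) (nat_lit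 231)))))) (XT.nd (nat_lit 752) (nat_lit 2268) (nat_lit 0) (XT.nd (nat_lit 376) (nat_lit 1092) (nat_lit 0) (XT.nd (nat_lit 188) (nat_lit 924) (nat_lit 0) (XT.nd (nat_lit 94) (nat_lit 588) (nat_lit 0) (XT.lf (nat_lit 0) (nat_lit 5927952618) (nat_lit 924) (nat_lit 310941075) (nat_lit 0) (nat_lit 1043265691) (nat_lit 127) (nat_lit 5) (nat_lit 138) (nat_lit 4) (nat_lit 127) (nat_lit 4) (nat_lit 257) (nat_lit 233) (nat_lit 230)) (XT.lf (nat_lit 0) (nat_lit 2083172012) (nat_lit 588) (nat_lit 2089864805) (nat_lit 84) (nat_lit 3215947365) (nat_lit 120) (nat_lit 5) (nat_lit 127) (nat_lit 5) (nat_lit 121) (nat_lit 4) (nat_lit 258) (nat_lit 233) (nat_lit 229))) (XT.nd (nat_lit 94) (nat_lit 504) (nat_lit 0) (XT.lf (nat_lit 0) (nat_lit 3618426591) (nat_lit 420) (nat_lit 1934843665) (nat_lit 504) (nat_lit 1951451922) (nat_lit 115) (nat_lit 5) (nat_lit 120) (nat_lit 5) (nat_lit 121) (nat_lit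 4) (nat_lit 259) (nat_lit 233) (nat_lit 228)) (XT.lf (nat_lit 0) (nat_lit 1440660168) (nat_lit 504) (nat_lit 5717373466) (nat_lit 84) (nat_lit 470972160) (nat_lit 109) (nat_lit 5) (nat_lit 115) (nat_lit 5) (nat_lit 110) (nat_lit 4) (nat_lit 260) (nat_lit 233) (nat_lit 227)))) (XT.nd (nat_lit 188) (nat_lit 672) (nat_lit 0) (XT.nd (nat_lit 94) (nat_lit 84) (nat_lit 0) (XT.lf (nat_lit 0) (nat_lit 136630163) (nat_lit 336) (nat_lit 4751859093) (nat_lit 420) (nat_lit 2871830136) (nat_lit 105) (nat_lit 5) (nat_lit 109) (nat_lit 5) (nat_lit 110) (nat_lit 4) (nat_lit 261) (nat_lit 233) (nat_lit 226)) (XT.lf (nat_lit 0) (nat_lit 542273413) (nat_lit 420) (nat_lit 1605712443) (nat_lit 84) (nat_lit 5752171102) (nat_lit 104) (nat_lit 5) (nat_lit 109) (nat_lit 5) (nat_lit 105) (nat_lit 5) (nat_lit 262) (nat_lit 233) (nat_lit 225))) (XT.nd (nat_lit 94) (nat_lit 336) (nat_lit 0) (XT.lf (nat_lit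 0) (nat_lit 3973486361) (nat_lit 420) (nat_lit 3418336400) (nat_lit 84) (nat_lit 655663854) (nat_lit 100) (nat_lit 5) (nat_lit 105) (nat_lit 5) (nat_lit 101) (nat_lit 4) (nat_lit 263) (nat_lit 233) (nat_lit 224)) (XT.lf (nat_lit 0) (nat_lit 2910383976) (nat_lit 336) (nat_lit 4637501910) (nat_lit 420) (nat_lit 655715573) (nat_lit 96) (nat_lit 5) (nat_lit 100) (nat_lit 5) (nat_lit 101) (nat_lit 4) (nat_lit 264) (nat_lit 233) (nat_lit 223))))) (XT.nd (nat_lit 376) (nat_lit 1176) (nat_lit 0) (XT.nd (nat_lit 188) (nat_lit 672) (nat_lit 0) (XT.nd (nat_lit 94) (nat_lit 0) (nat_lit 0) (XT.lf (nat_lit 0) (nat_lit 1119278953) (nat_lit 336) (nat_lit 1661562773) (nat_lit 420) (nat_lit 5587327917) (nat_lit 91) (nat_lit 5) (nat_lit 95) (nat_lit 5) (nat_lit 96) (nat_lit 5) (nat_lit 265) (nat_lit 233) (nat_lit 222)) (XT.lf (nat_lit 0) (nat_lit 6349052480) (nat_lit 420) (nat_lit 717736435)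 (nat_lit 84) (nat_lit 1474546751) (nat_lit 91) (nat_lit 5) (nat_lit 96) (nat_lit 5) (nat_lit 92) (nat_lit 4) (nat_lit 266) (nat_lit 233) (nat_lit 221))) (XT.nd (nat_lit 94) (nat_lit 336) (nat_lit 0) (XT.lf (nat_lit 0) (nat_lit 1325764523) (nat_lit 336) (nat_lit 2609247188) (nat_lit 84) (nat_lit 4787217852) (nat_lit 87) (nat_lit 5) (nat_lit 91) (nat_lit 5) (nat_lit 88) (nat_lit 5) (nat_lit 267) (nat_lit 233) (nat_lit 220)) (XT.lf (nat_lit 0) (nat_lit 4325923981) (nat_lit 336) (nat_lit 575520000) (nat_lit 420) (nat_lit 4011156999) (nat_lit 83) (nat_lit 5) (nat_lit 87) (nat_lit 5) (nat_lit 88) (nat_lit 5) (nat_lit 268) (nat_lit 233) (nat_lit 219)))) (XT.nd (nat_lit 188) (nat_lit 588) (nat_lit 0) (XT.nd (nat_lit 94) (nat_lit 336) (nat_lit 0) (XT.lf (nat_lit 0) (nat_lit 2442074103) (nat_lit 252) (nat_lit 6220917655) (nat_lit 336) (nat_lit 449144992) (nat_lit 80) (nat_lit 5) (nat_lit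 83) (nat_lit 5) (nat_lit 84) (nat_lit 4) (nat_lit 269) (nat_lit 233) (nat_lit 218)) (XT.lf (nat_lit 0) (nat_lit 437065585) (nat_lit 252) (nat_lit 2722871327) (nat_lit 336) (nat_lit 6160428294) (nat_lit 76) (nat_lit 5) (nat_lit 79) (nat_lit 5) (nat_lit 80) (nat_lit 5) (nat_lit 270) (nat_lit 233) (nat_lit 217))) (XT.nd (nat_lit 94) (nat_lit 588) (nat_lit 0) (XT.lf (nat_lit 0) (nat_lit 6945228056) (nat_lit 336) (nat_lit 1606967968) (nat_lit 84) (nat_lit 985898442) (nat_lit 76) (nat_lit 5) (nat_lit 80) (nat_lit 5) (nat_lit 77) (nat_lit 4) (nat_lit 271) (nat_lit 233) (nat_lit 216)) (XT.nd (nat_lit 94) (nat_lit 252) (nat_lit 0) (XT.lf (nat_lit 0) (nat_lit 1141894547) (nat_lit 336) (nat_lit 3775079168) (nat_lit 84) (nat_lit 4847550011) (nat_lit 72) (nat_lit 5) (nat_lit 76) (nat_lit 5) (nat_lit 73) (nat_lit 5) (nat_lit 272) (nat_lit 233) (nat_lit 215)) (XT.lf (nat_lit 0) (nat_lit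 3930385980) (nat_lit 252) (nat_lit 1022690483) (nat_lit 336) (nat_lit 5048231675) (nat_lit 69) (nat_lit 5) (nat_lit 72) (nat_lit 5) (nat_lit 73) (nat_lit 5) (nat_lit 273) (nat_lit 233) (nat_lit 214))))))))
noncomputable def xc65 : XT := (XT.nd (nat_lit 1598) (nat_lit 1764) (nat_lit 0) (XT.nd (nat_lit 752) (nat_lit 1176) (nat_lit 0) (XT.nd (nat_lit 376) (nat_lit 588) (nat_lit 0) (XT.nd (nat_lit 188) (nat_lit 504) (nat_lit 0) (XT.nd (nat_lit 94) (nat_lit 84) (nat_lit 0) (XT.lf (nat_lit 0) (nat_lit 1737386195) (nat_lit 168) (nat_lit 7246943925) (nat_lit 252) (nat_lit 1264126018) (nat_lit 67) (nat_lit 5) (nat_lit 69) (nat_lit 5) (nat_lit 70) (nat_lit 4) (nat_lit 274) (nat_lit 233) (nat_lit 213)) (XT.lf (nat_lit 0) (nat_lit 2634078941) (nat_lit 252) (nat_lit 592249089) (nat_lit 84) (nat_lit 7278938367) (nat_lit 66) (nat_lit 5) (nat_lit 69) (nat_lit 5) (nat_lit 67) (nat_lit 5)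 (nat_lit 275) (nat_lit 233) (nat_lit 212))) (XT.nd (nat_lit 94) (nat_lit 252) (nat_lit 0) (XT.lf (nat_lit 0) (nat_lit 6718690560) (nat_lit 336) (nat_lit 3006199542) (nat_lit 84) (nat_lit 1047291931) (nat_lit 63) (nat_lit 5) (nat_lit 67) (nat_lit 5) (nat_lit 64) (nat_lit 4) (nat_lit 276) (nat_lit 233) (nat_lit 211)) (XT.lf (nat_lit 0) (nat_lit 2654742) (nat_lit 252) (nat_lit 5586274348) (nat_lit 84) (nat_lit 5461243020) (nat_lit 60) (nat_lit 5) (nat_lit 63) (nat_lit 5) (nat_lit 61) (nat_lit 5) (nat_lit 277) (nat_lit 233) (nat_lit 210)))) (XT.nd (nat_lit 188) (nat_lit 252) (nat_lit 0) (XT.nd (nat_lit 94) (nat_lit 168) (nat_lit 0) (XT.lf (nat_lit 0) (nat_lit 2981191802) (nat_lit 168) (nat_lit 1140139032) (nat_lit 252) (nat_lit 7217611000) (nat_lit 58) (nat_lit 5) (nat_lit 60) (nat_lit 5) (nat_lit 61) (nat_lit 5) (nat_lit 278) (nat_lit 233) (nat_lit 209)) (XT.lf (nat_lit 0)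 (nat_lit 316475524) (nat_lit 168) (nat_lit 8184584271) (nat_lit 252) (nat_lit 3138334294) (nat_lit 56) (nat_lit 5) (nat_lit 58) (nat_lit 5) (nat_lit 59) (nat_lit 4) (nat_lit 279) (nat_lit 233) (nat_lit 208))) (XT.nd (nat_lit 94) (nat_lit 168) (nat_lit 0) (XT.lf (nat_lit 0) (nat_lit 1170280135) (nat_lit 252) (nat_lit 2443204249) (nat_lit 84) (nat_lit 8337389913) (nat_lit 55) (nat_lit 5) (nat_lit 58) (nat_lit 5) (nat_lit 56) (nat_lit 5) (nat_lit 280) (nat_lit 233) (nat_lit 207)) (XT.lf (nat_lit 0) (nat_lit 5620702257) (nat_lit 252) (nat_lit 5408337922) (nat_lit 84) (nat_lit 1244723651) (nat_lit 53) (nat_lit 5) (nat_lit 56) (nat_lit 5) (nat_lit 54) (nat_lit 4) (nat_lit 281) (nat_lit 233) (nat_lit 206))))) (XT.nd (nat_lit 376) (nat_lit 672) (nat_lit 0) (XT.nd (nat_lit 188) (nat_lit 84) (nat_lit 0) (XT.nd (nat_lit 94) (nat_lit 252) (nat_lit 0) (XT.lf (nat_lit 0) (nat_lit 4018307314)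 (nat_lit 168) (nat_lit 6344635551) (nat_lit 252) (nat_lit 2246390107) (nat_lit 51) (nat_lit 5) (nat_lit 53) (nat_lit 5) (nat_lit 54) (nat_lit 4) (nat_lit 282) (nat_lit 233) (nat_lit 205)) (XT.lf (nat_lit 0) (nat_lit 975046160) (nat_lit 168) (nat_lit 1343431518) (nat_lit 252) (nat_lit 10640641624) (nat_lit 48) (nat_lit 5) (nat_lit 50) (nat_lit 5) (nat_lit 51) (nat_lit 5) (nat_lit 283) (nat_lit 233) (nat_lit 204))) (XT.nd (nat_lit 94) (nat_lit 84) (nat_lit 0) (XT.lf (nat_lit 0) (nat_lit 7151603350) (nat_lit 252) (nat_lit 2266979765) (nat_lit 84) (nat_lit 3900195132) (nat_lit 48) (nat_lit 5) (nat_lit 51) (nat_lit 5) (nat_lit 49) (nat_lit 4) (nat_lit 284) (nat_lit 233) (nat_lit 203)) (XT.lf (nat_lit 0) (nat_lit 8012963362) (nat_lit 84) (nat_lit 4271614420) (nat_lit 168) (nat_lit 1408932736) (nat_lit 47) (nat_lit 5) (nat_lit 48) (nat_lit 5) (nat_lit 49) (nat_lit 4) (nat_lit 285)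 (nat_lit 233) (nat_lit 202)))) (XT.nd (nat_lit 188) (nat_lit 336) (nat_lit 0) (XT.nd (nat_lit 94) (nat_lit 84) (nat_lit 0) (XT.lf (nat_lit 0) (nat_lit 3516224682) (nat_lit 252) (nat_lit 9364616139) (nat_lit 84) (nat_lit 1201147419) (nat_lit 44) (nat_lit 5) (nat_lit 47) (nat_lit 5) (nat_lit 45) (nat_lit 4) (nat_lit 286) (nat_lit 233) (nat_lit 201)) (XT.lf (nat_lit 0) (nat_lit 1130240631) (nat_lit 84) (nat_lit 7607677131) (nat_lit 168) (nat_lit 5745935866) (nat_lit 43) (nat_lit 5) (nat_lit 44) (nat_lit 5) (nat_lit 45) (nat_lit 4) (nat_lit 287) (nat_lit 233) (nat_lit 200))) (XT.nd (nat_lit 94) (nat_lit 336) (nat_lit 0) (XT.lf (nat_lit 0) (nat_lit 12318959240) (nat_lit 84) (nat_lit 1974251709) (nat_lit 168) (nat_lit 608975564) (nat_lit 43) (nat_lit 5) (nat_lit 44) (nat_lit 5) (nat_lit 45) (nat_lit 4) (nat_lit 288) (nat_lit 233) (nat_lit 199)) (XT.nd (nat_lit 94) (nat_lit 84)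 (nat_lit 0) (XT.lf (nat_lit 0) (nat_lit 4749393507) (nat_lit 252) (nat_lit 6618266475) (nat_lit 84) (nat_lit 3964155562) (nat_lit 40) (nat_lit 5) (nat_lit 43) (nat_lit 5) (nat_lit 41) (nat_lit 4) (nat_lit 289) (nat_lit 233) (nat_lit 198)) (XT.lf (nat_lit 0) (nat_lit 4844168003) (nat_lit 84) (nat_lit 5580778904) (nat_lit 168) (nat_lit 5353993387) (nat_lit 39) (nat_lit 5) (nat_lit 40) (nat_lit 5) (nat_lit 41) (nat_lit 4) (nat_lit 290) (nat_lit 233) (nat_lit 197))))))) (XT.nd (nat_lit 752) (nat_lit 756) (nat_lit 0) (XT.nd (nat_lit 376) (nat_lit 420) (nat_lit 0) (XT.nd (nat_lit 188) (nat_lit 336) (nat_lit 0) (XT.nd (nat_lit 94) (nat_lit 0) (nat_lit 0) (XT.lf (nat_lit 0) (nat_lit 183172325) (nat_lit 252) (nat_lit 15520888395) (nat_lit 84) (nat_lit 541671312) (nat_lit 36) (nat_lit 5) (nat_lit 39) (nat_lit 5) (nat_lit 37) (nat_lit 4) (nat_lit 291) (nat_lit 233) (nat_lit 196)) (XT.lf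 (nat_lit 0) (nat_lit 6015036070) (nat_lit 252) (nat_lit 3714536506) (nat_lit 84) (nat_lit 6992013811) (nat_lit 36) (nat_lit 5) (nat_lit 39) (nat_lit 5) (nat_lit 37) (nat_lit 4) (nat_lit 292) (nat_lit 233) (nat_lit 195))) (XT.nd (nat_lit 94) (nat_lit 252) (nat_lit 0) (XT.lf (nat_lit 0) (nat_lit 8818957546) (nat_lit 84) (nat_lit 3379185396) (nat_lit 168) (nat_lit 5020108020) (nat_lit 35) (nat_lit 5) (nat_lit 36) (nat_lit 5) (nat_lit 37) (nat_lit 4) (nat_lit 293) (nat_lit 233) (nat_lit 194)) (XT.lf (nat_lit 0) (nat_lit 1026950313) (nat_lit 252) (nat_lit 13439851446) (nat_lit 84) (nat_lit 3266868843) (nat_lit 32) (nat_lit 5) (nat_lit 35) (nat_lit 5) (nat_lit 33) (nat_lit 4) (nat_lit 294) (nat_lit 233) (nat_lit 193)))) (XT.nd (nat_lit 188) (nat_lit 336) (nat_lit 0) (XT.nd (nat_lit 94) (nat_lit 84) (nat_lit 0) (XT.lf (nat_lit 0) (nat_lit 7330238010) (nat_lit 252) (nat_lit 640668658)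 (nat_lit 84) (nat_lit 10293710464) (nat_lit 32) (nat_lit 5) (nat_lit 35) (nat_lit 5) (nat_lit 33) (nat_lit 4) (nat_lit 295) (nat_lit 233) (nat_lit 192)) (XT.lf (nat_lit 0) (nat_lit 13077918465) (nat_lit 84) (nat_lit 1001250308) (nat_lit 168) (nat_lit 4736418280) (nat_lit 31) (nat_lit 5) (nat_lit 32) (nat_lit 5) (nat_lit 33) (nat_lit 4) (nat_lit 296) (nat_lit 233) (nat_lit 191))) (XT.nd (nat_lit 94) (nat_lit 84) (nat_lit 0) (XT.lf (nat_lit 0) (nat_lit 1880713968) (nat_lit 252) (nat_lit 11283146196) (nat_lit 84) (nat_lit 6220563923) (nat_lit 28) (nat_lit 5) (nat_lit 31) (nat_lit 5) (nat_lit 29) (nat_lit 4) (nat_lit 297) (nat_lit 233) (nat_lit 190)) (XT.lf (nat_lit 0) (nat_lit 2705811938) (nat_lit 84) (nat_lit 6047968408) (nat_lit 168) (nat_lit 11219827706) (nat_lit 27) (nat_lit 5) (nat_lit 28) (nat_lit 5) (nat_lit 29) (nat_lit 4) (nat_lit 298) (nat_lit 233) (nat_lit 189)))))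 (XT.nd (nat_lit 376) (nat_lit 504) (nat_lit 0) (XT.nd (nat_lit 188) (nat_lit 84) (nat_lit 0) (XT.nd (nat_lit 94) (nat_lit 168) (nat_lit 0) (XT.lf (nat_lit 0) (nat_lit 16114091224) (nat_lit 168) (nat_lit 2962093381) (nat_lit 0) (nat_lit 1508887051) (nat_lit 27) (nat_lit 5) (nat_lit 29) (nat_lit 4) (nat_lit 27) (nat_lit 4) (nat_lit 299) (nat_lit 233) (nat_lit 188)) (XT.lf (nat_lit 0) (nat_lit 2755728011) (nat_lit 168) (nat_lit 9043060713) (nat_lit 84) (nat_lit 9415071848) (nat_lit 25) (nat_lit 5) (nat_lit 27) (nat_lit 5) (nat_lit 26) (nat_lit 4) (nat_lit 300) (nat_lit 233) (nat_lit 187))) (XT.nd (nat_lit 94) (nat_lit 0) (nat_lit 0) (XT.lf (nat_lit 0) (nat_lit 6285189715) (nat_lit 84) (nat_lit 3988197722) (nat_lit 168) (nat_lit 11593043269) (nat_lit 24) (nat_lit 5) (nat_lit 25) (nat_lit 5) (nat_lit 26) (nat_lit 4) (nat_lit 301) (nat_lit 233) (nat_lit 186)) (XT.lf (nat_lit 0)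 (nat_lit 18319377324) (nat_lit 168) (nat_lit 52162667) (nat_lit 0) (nat_lit 4172466980) (nat_lit 24) (nat_lit 5) (nat_lit 26) (nat_lit 4) (nat_lit 24) (nat_lit 4) (nat_lit 302) (nat_lit 233) (nat_lit 185)))) (XT.nd (nat_lit 188) (nat_lit 252) (nat_lit 0) (XT.nd (nat_lit 94) (nat_lit 84) (nat_lit 0) (XT.lf (nat_lit 0) (nat_lit 3662754264) (nat_lit 168) (nat_lit 6709920635) (nat_lit 84) (nat_lit 12866897279) (nat_lit 22) (nat_lit 5) (nat_lit 24) (nat_lit 5) (nat_lit 23) (nat_lit 4) (nat_lit 303) (nat_lit 233) (nat_lit 184)) (XT.lf (nat_lit 0) (nat_lit 10098996885) (nat_lit 84) (nat_lit 1796519251) (nat_lit 168) (nat_lit 12066287496) (nat_lit 21) (nat_lit 5) (nat_lit 22) (nat_lit 5) (nat_lit 23) (nat_lit 4) (nat_lit 304) (nat_lit 233) (nat_lit 183))) (XT.nd (nat_lit 94) (nat_lit 168) (nat_lit 0) (XT.lf (nat_lit 0) (nat_lit 3124781775) (nat_lit 84) (nat_lit 17626589299) (nat_lit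 84) (nat_lit 3958202838) (nat_lit 20) (nat_lit 4) (nat_lit 21) (nat_lit 5) (nat_lit 21) (nat_lit 4) (nat_lit 305) (nat_lit 233) (nat_lit 182)) (XT.nd (nat_lit 94) (nat_lit 84) (nat_lit 0) (XT.lf (nat_lit 0) (nat_lit 4612286449) (nat_lit 168) (nat_lit 4272151247) (nat_lit 84) (nat_lit 16596599069) (nat_lit 19) (nat_lit 5) (nat_lit 21) (nat_lit 5) (nat_lit 20) (nat_lit 4) (nat_lit 306) (nat_lit 233) (nat_lit 181)) (XT.lf (nat_lit 0) (nat_lit 13645759799) (nat_lit 168) (nat_lit 12115061571) (nat_lit 0) (nat_lit 518632905) (nat_lit 18) (nat_lit 5) (nat_lit 20) (nat_lit 4) (nat_lit 18) (nat_lit 4) (nat_lit 307) (nat_lit 233) (nat_lit 180))))))))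
noncomputable def xc66 : XT := (XT.nd (nat_lit 1598) (nat_lit 0) (nat_lit 0) (XT.nd (nat_lit 752) (nat_lit 756) (nat_lit 0) (XT.nd (nat_lit 376) (nat_lit 420) (nat_lit 0) (XT.nd (nat_lit 188) (nat_lit 168) (nat_lit 0) (XT.nd (nat_lit 94) (nat_lit 84) (nat_lit 0) (XT.lf (nat_lit 0) (nat_lit 6496129623) (nat_lit 84) (nat_lit 16893392073) (nat_lit 84) (nat_lit 3715340218) (nat_lit 17) (nat_lit 4) (nat_lit 18) (nat_lit 5) (nat_lit 18) (nat_lit 4) (nat_lit 308) (nat_lit 233) (nat_lit 179)) (XT.lf (nat_lit 0) (nat_lit 5614758641) (nat_lit 168) (nat_lit 1716296602) (nat_lit 84) (nat_lit 20628743513) (nat_lit 16) (nat_lit 5) (nat_lit 18) (nat_lit 5) (nat_lit 17) (nat_lit 4) (nat_lit 309) (nat_lit 233) (nat_lit 178))) (XT.nd (nat_lit 94) (nat_lit 84) (nat_lit 0) (XT.lf (nat_lit 0) (nat_lit 15564107179) (nat_lit 168) (nat_lit 10353049405) (nat_lit 0) (nat_lit 2923400267) (nat_lit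 15) (nat_lit 5) (nat_lit 17) (nat_lit 4) (nat_lit 15) (nat_lit 4) (nat_lit 310) (nat_lit 233) (nat_lit 177)) (XT.lf (nat_lit 0) (nat_lit 10082966649) (nat_lit 84) (nat_lit 16176286356) (nat_lit 84) (nat_lit 3493683353) (nat_lit 14) (nat_lit 4) (nat_lit 15) (nat_lit 5) (nat_lit 15) (nat_lit 4) (nat_lit 311) (nat_lit 233) (nat_lit 176)))) (XT.nd (nat_lit 188) (nat_lit 252) (nat_lit 0) (XT.nd (nat_lit 94) (nat_lit 0) (nat_lit 0) (XT.lf (nat_lit 0) (nat_lit 1005171596) (nat_lit 84) (nat_lit 5691255544) (nat_lit 168) (nat_lit 24002458786) (nat_lit 12) (nat_lit 5) (nat_lit 13) (nat_lit 5) (nat_lit 14) (nat_lit 4) (nat_lit 312) (nat_lit 233) (nat_lit 175)) (XT.lf (nat_lit 0) (nat_lit 17641617403) (nat_lit 168) (nat_lit 8540747181) (nat_lit 0) (nat_lit 5488755467) (nat_lit 12) (nat_lit 5) (nat_lit 14) (nat_lit 4) (nat_lit 12) (nat_lit 4) (nat_lit 313) (nat_lit 233) (nat_lit 174)))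 (XT.nd (nat_lit 94) (nat_lit 168) (nat_lit 0) (XT.lf (nat_lit 0) (nat_lit 13910877001) (nat_lit 84) (nat_lit 15477843095) (nat_lit 84) (nat_lit 3290513141) (nat_lit 11) (nat_lit 4) (nat_lit 12) (nat_lit 5) (nat_lit 12) (nat_lit 4) (nat_lit 314) (nat_lit 233) (nat_lit 173)) (XT.lf (nat_lit 0) (nat_lit 3939126290) (nat_lit 84) (nat_lit 3943450747) (nat_lit 168) (nat_lit 25841304566) (nat_lit 9) (nat_lit 5) (nat_lit 10) (nat_lit 5) (nat_lit 11) (nat_lit 4) (nat_lit 315) (nat_lit 233) (nat_lit 172))))) (XT.nd (nat_lit 376) (nat_lit 504) (nat_lit 0) (XT.nd (nat_lit 188) (nat_lit 168) (nat_lit 0) (XT.nd (nat_lit 94) (nat_lit 84) (nat_lit 0) (XT.lf (nat_lit 0) (nat_lit 19898644454) (nat_lit 168) (nat_lit 6669050247) (nat_lit 0) (nat_lit 8230625267) (nat_lit 9) (nat_lit 5) (nat_lit 11) (nat_lit 4) (nat_lit 9) (nat_lit 4) (nat_lit 316) (nat_lit 233) (nat_lit 171)) (XT.lf (nat_lit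 0) (nat_lit 18008378962) (nat_lit 84) (nat_lit 14799919129) (nat_lit 84) (nat_lit 3103543019) (nat_lit 8) (nat_lit 4) (nat_lit 9) (nat_lit 5) (nat_lit 9) (nat_lit 4) (nat_lit 317) (nat_lit 233) (nat_lit 170))) (XT.nd (nat_lit 94) (nat_lit 0) (nat_lit 0) (XT.lf (nat_lit 0) (nat_lit 7048812800) (nat_lit 84) (nat_lit 2108355738) (nat_lit 168) (nat_lit 27908030205) (nat_lit 6) (nat_lit 5) (nat_lit 7) (nat_lit 5) (nat_lit 8) (nat_lit 4) (nat_lit 318) (nat_lit 233) (nat_lit 169)) (XT.lf (nat_lit 0) (nat_lit 22357036314) (nat_lit 168) (nat_lit 4727708903) (nat_lit 0) (nat_lit 11167414152) (nat_lit 6) (nat_lit 5) (nat_lit 8) (nat_lit 4) (nat_lit 6) (nat_lit 4) (nat_lit 319) (nat_lit 233) (nat_lit 168)))) (XT.nd (nat_lit 188) (nat_lit 252) (nat_lit 0) (XT.nd (nat_lit 94) (nat_lit 168) (nat_lit 0) (XT.lf (nat_lit 0) (nat_lit 22407126056) (nat_lit 84) (nat_lit 14143796105) (nat_lit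 84) (nat_lit 2930844631) (nat_lit 5) (nat_lit 4) (nat_lit 6) (nat_lit 5) (nat_lit 6) (nat_lit 4) (nat_lit 320) (nat_lit 233) (nat_lit 167)) (XT.lf (nat_lit 0) (nat_lit 10356457122) (nat_lit 84) (nat_lit 176043847) (nat_lit 168) (nat_lit 30222378460) (nat_lit 3) (nat_lit 5) (nat_lit 4) (nat_lit 5) (nat_lit 5) (nat_lit 4) (nat_lit 321) (nat_lit 233) (nat_lit 166))) (XT.nd (nat_lit 94) (nat_lit 252) (nat_lit 0) (XT.lf (nat_lit 0) (nat_lit 25040387204) (nat_lit 168) (nat_lit 2705292022) (nat_lit 0) (nat_lit 14320072691) (nat_lit 3) (nat_lit 5) (nat_lit 5) (nat_lit 4) (nat_lit 3) (nat_lit 4) (nat_lit 322) (nat_lit 233) (nat_lit 165)) (XT.nd (nat_lit 94) (nat_lit 168) (nat_lit 0) (XT.lf (nat_lit 0) (nat_lit 27142148551) (nat_lit 84) (nat_lit 13510294163) (nat_lit 84) (nat_lit 2770786568) (nat_lit 2) (nat_lit 4) (nat_lit 3) (nat_lit 5) (nat_lit 3) (nat_lit 4) (nat_lit 323) (nat_lit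 233) (nat_lit 164)) (XT.lf (nat_lit 0) (nat_lit 65472782190) (nat_lit 0) (nat_lit 0) (nat_lit 0) (nat_lit 0) (nat_lit 0) (nat_lit 0) (nat_lit 1) (nat_lit 0) (nat_lit 1) (nat_lit 0) (nat_lit 324) (nat_lit 233) (nat_lit 163))))))) (XT.nd (nat_lit 752) (nat_lit 0) (nat_lit 0) (XT.nd (nat_lit 376) (nat_lit 0) (nat_lit 0) (XT.nd (nat_lit 188) (nat_lit 0) (nat_lit 0) (XT.nd (nat_lit 94) (nat_lit 0) (nat_lit 0) (XT.lf (nat_lit 0) (nat_lit 68705818621) (nat_lit 0) (nat_lit 0) (nat_lit 0) (nat_lit 0) (nat_lit 0) (nat_lit 0) (nat_lit 1) (nat_lit 0) (nat_lit 1) (nat_lit 0) (nat_lit 325) (nat_lit 233) (nat_lit 162)) (XT.lf (nat_lit 0) (nat_lit 72100623458) (nat_lit 0) (nat_lit 0) (nat_lit 0) (nat_lit 0) (nat_lit 0) (nat_lit 0) (nat_lit 1) (nat_lit 0) (nat_lit 1) (nat_lit 0) (nat_lit 326) (nat_lit 233) (nat_lit 161))) (XT.nd (nat_lit 94) (nat_lit 0) (nat_lit 0) (XT.lf (nat_lit 0) (nat_lit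 75665279569) (nat_lit 0) (nat_lit 0) (nat_lit 0) (nat_lit 0) (nat_lit 0) (nat_lit 0) (nat_lit 1) (nat_lit 0) (nat_lit 1) (nat_lit 0) (nat_lit 327) (nat_lit 233) (nat_lit 160)) (XT.lf (nat_lit 0) (nat_lit 79408274231) (nat_lit 0) (nat_lit 0) (nat_lit 0) (nat_lit 0) (nat_lit 0) (nat_lit 0) (nat_lit 1) (nat_lit 0) (nat_lit 1) (nat_lit 0) (nat_lit 328) (nat_lit 233) (nat_lit 159)))) (XT.nd (nat_lit 188) (nat_lit 0) (nat_lit 0) (XT.nd (nat_lit 94) (nat_lit 0) (nat_lit 0) (XT.lf (nat_lit 0) (nat_lit 83338519336) (nat_lit 0) (nat_lit 0) (nat_lit 0) (nat_lit 0) (nat_lit 0) (nat_lit 0) (nat_lit 1) (nat_lit 0) (nat_lit 1) (nat_lit 0) (nat_lit 329) (nat_lit 233) (nat_lit 158)) (XT.lf (nat_lit 0) (nat_lit 87465372609) (nat_lit 0) (nat_lit 0) (nat_lit 0) (nat_lit 0) (nat_lit 0) (nat_lit 0) (nat_lit 1) (nat_lit 0) (nat_lit 1) (nat_lit 0) (nat_lit 330) (nat_lit 233) (nat_lit 157))) (XT.nd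 (nat_lit 94) (nat_lit 0) (nat_lit 0) (XT.lf (nat_lit 0) (nat_lit 91798659894) (nat_lit 0) (nat_lit 0) (nat_lit 0) (nat_lit 0) (nat_lit 0) (nat_lit 0) (nat_lit 1) (nat_lit 0) (nat_lit 1) (nat_lit 0) (nat_lit 331) (nat_lit 233) (nat_lit 156)) (XT.lf (nat_lit 0) (nat_lit 96348698539) (nat_lit 0) (nat_lit 0) (nat_lit 0) (nat_lit 0) (nat_lit 0) (nat_lit 0) (nat_lit 1) (nat_lit 0) (nat_lit 1) (nat_lit 0) (nat_lit 332) (nat_lit 233) (nat_lit 155))))) (XT.nd (nat_lit 376) (nat_lit 0) (nat_lit 0) (XT.nd (nat_lit 188) (nat_lit 0) (nat_lit 0) (XT.nd (nat_lit 94) (nat_lit 0) (nat_lit 0) (XT.lf (nat_lit 0) (nat_lit 101126321970) (nat_lit 0) (nat_lit 0) (nat_lit 0) (nat_lit 0) (nat_lit 0) (nat_lit 0) (nat_lit 1) (nat_lit 0) (nat_lit 1) (nat_lit 0) (nat_lit 333) (nat_lit 233) (nat_lit 154)) (XT.lf (nat_lit 0) (nat_lit 106142905482) (nat_lit 0) (nat_lit 0) (nat_lit 0) (nat_lit 0) (nat_lit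 0) (nat_lit 0) (nat_lit 1) (nat_lit 0) (nat_lit 1) (nat_lit 0) (nat_lit 334) (nat_lit 233) (nat_lit 153))) (XT.nd (nat_lit 94) (nat_lit 0) (nat_lit 0) (XT.lf (nat_lit 0) (nat_lit 111410393321) (nat_lit 0) (nat_lit 0) (nat_lit 0) (nat_lit 0) (nat_lit 0) (nat_lit 0) (nat_lit 1) (nat_lit 0) (nat_lit 1) (nat_lit 0) (nat_lit 335) (nat_lit 233) (nat_lit 152)) (XT.lf (nat_lit 0) (nat_lit 116941327123) (nat_lit 0) (nat_lit 0) (nat_lit 0) (nat_lit 0) (nat_lit 0) (nat_lit 0) (nat_lit 1) (nat_lit 0) (nat_lit 1) (nat_lit 0) (nat_lit 336) (nat_lit 233) (nat_lit 151)))) (XT.nd (nat_lit 188) (nat_lit 0) (nat_lit 0) (XT.nd (nat_lit 94) (nat_lit 0) (nat_lit 0) (XT.lf (nat_lit 0) (nat_lit 122748875781) (nat_lit 0) (nat_lit 0) (nat_lit 0) (nat_lit 0) (nat_lit 0) (nat_lit 0) (nat_lit 1) (nat_lit 0) (nat_lit 1) (nat_lit 0) (nat_lit 337) (nat_lit 233) (nat_lit 150)) (XT.lf (nat_lit 0) (nat_lit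 128846866789) (nat_lit 0) (nat_lit 0) (nat_lit 0) (nat_lit 0) (nat_lit 0) (nat_lit 0) (nat_lit 1) (nat_lit 0) (nat_lit 1) (nat_lit 0) (nat_lit 338) (nat_lit 233) (nat_lit 149))) (XT.nd (nat_lit 37036) (nat_lit 0) (nat_lit 13020) (XT.lf (nat_lit 0) (nat_lit 135249819175) (nat_lit 0) (nat_lit 0) (nat_lit 0) (nat_lit 0) (nat_lit 0) (nat_lit 0) (nat_lit 1) (nat_lit 0) (nat_lit 1) (nat_lit 0) (nat_lit 339) (nat_lit 233) (nat_lit 148)) (XT.nd (nat_lit 94) (nat_lit 84) (nat_lit 0) (XT.lf (nat_lit 0) (nat_lit 947850558) (nat_lit 588) (nat_lit 1239785964) (nat_lit 588) (nat_lit 1239785964) (nat_lit 156) (nat_lit 4) (nat_lit 163) (nat_lit 5) (nat_lit 163) (nat_lit 4) (nat_lit 252) (nat_lit 234) (nat_lit 234)) (XT.lf (nat_lit 0) (nat_lit 917513420) (nat_lit 672) (nat_lit 96650497) (nat_lit 84) (nat_lit 5914691385) (nat_lit 155) (nat_lit 5) (nat_lit 163) (nat_lit 5) (nat_lit 156) (nat_lit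 4) (nat_lit 253) (nat_lit 234) (nat_lit 233))))))))
noncomputable def xc67 : XT := (XT.nd (nat_lit 1598) (nat_lit 2940) (nat_lit 0) (XT.nd (nat_lit 752) (nat_lit 2520) (nat_lit 0) (XT.nd (nat_lit 376) (nat_lit 1428) (nat_lit 0) (XT.nd (nat_lit 188) (nat_lit 924) (nat_lit 0) (XT.nd (nat_lit 94) (nat_lit 840) (nat_lit 0) (XT.lf (nat_lit 0) (nat_lit 4317479466) (nat_lit 756) (nat_lit 2050839661) (nat_lit 0) (nat_lit 640396772) (nat_lit 147) (nat_lit 5) (nat_lit 156) (nat_lit 4) (nat_lit 147) (nat_lit 4) (nat_lit 254) (nat_lit 234) (nat_lit 232)) (XT.lf (nat_lit 0) (nat_lit 668738421) (nat_lit 840) (nat_lit 4014453572) (nat_lit 84) (nat_lit 2413791766) (nat_lit 137) (nat_lit 5) (nat_lit 147) (nat_lit 5) (nat_lit 138) (nat_lit 4) (nat_lit 255) (nat_lit 234) (nat_lit 231))) (XT.nd (nat_lit 94) (nat_lit 84) (nat_lit 0) (XT.lf (nat_lit 0) (nat_lit 1181729828) (nat_lit 840) (nat_lit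 2815360377) (nat_lit 924) (nat_lit 3195827809) (nat_lit 127) (nat_lit 5) (nat_lit 137) (nat_lit 5) (nat_lit 138) (nat_lit 4) (nat_lit 256) (nat_lit 234) (nat_lit 230)) (XT.lf (nat_lit 0) (nat_lit 100641401) (nat_lit 924) (nat_lit 687212786) (nat_lit 84) (nat_lit 6510201322) (nat_lit 126) (nat_lit 5) (nat_lit 137) (nat_lit 5) (nat_lit 127) (nat_lit 5) (nat_lit 257) (nat_lit 234) (nat_lit 229)))) (XT.nd (nat_lit 188) (nat_lit 504) (nat_lit 0) (XT.nd (nat_lit 94) (nat_lit 420) (nat_lit 0) (XT.lf (nat_lit 0) (nat_lit 3400361623) (nat_lit 588) (nat_lit 2588734980) (nat_lit 84) (nat_lit 1419442330) (nat_lit 120) (nat_lit 5) (nat_lit 127) (nat_lit 5) (nat_lit 121) (nat_lit 4) (nat_lit 258) (nat_lit 234) (nat_lit 228)) (XT.lf (nat_lit 0) (nat_lit 3019221157) (nat_lit 420) (nat_lit 3769648688) (nat_lit 504) (nat_lit 739486585) (nat_lit 115) (nat_lit 5) (nat_lit 120) (nat_lit 5) (nat_lit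 121) (nat_lit 4) (nat_lit 259) (nat_lit 234) (nat_lit 227))) (XT.nd (nat_lit 94) (nat_lit 0) (nat_lit 0) (XT.lf (nat_lit 0) (nat_lit 1171707279) (nat_lit 420) (nat_lit 1351664736) (nat_lit 504) (nat_lit 5132845074) (nat_lit 109) (nat_lit 5) (nat_lit 114) (nat_lit 5) (nat_lit 115) (nat_lit 5) (nat_lit 260) (nat_lit 234) (nat_lit 226)) (XT.lf (nat_lit 0) (nat_lit 5878717633) (nat_lit 504) (nat_lit 697920596) (nat_lit 84) (nat_lit 1215516632) (nat_lit 109) (nat_lit 5) (nat_lit 115) (nat_lit 5) (nat_lit 110) (nat_lit 4) (nat_lit 261) (nat_lit 234) (nat_lit 225))))) (XT.nd (nat_lit 376) (nat_lit 1344) (nat_lit 0) (XT.nd (nat_lit 188) (nat_lit 420) (nat_lit 0) (XT.nd (nat_lit 94) (nat_lit 336) (nat_lit 0) (XT.lf (nat_lit 0) (nat_lit 1390206026) (nat_lit 420) (nat_lit 2595563854) (nat_lit 84) (nat_lit 3949463674) (nat_lit 104) (nat_lit 5) (nat_lit 109) (nat_lit 5) (nat_lit 105)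 (nat_lit 5) (nat_lit 262) (nat_lit 234) (nat_lit 224)) (XT.lf (nat_lit 0) (nat_lit 3533998288) (nat_lit 336) (nat_lit 1194483789) (nat_lit 420) (nat_lit 3358727979) (nat_lit 100) (nat_lit 5) (nat_lit 104) (nat_lit 5) (nat_lit 105) (nat_lit 5) (nat_lit 263) (nat_lit 234) (nat_lit 223))) (XT.nd (nat_lit 94) (nat_lit 84) (nat_lit 0) (XT.lf (nat_lit 0) (nat_lit 1671923586) (nat_lit 336) (nat_lit 6529481410) (nat_lit 420) (nat_lit 46993734) (nat_lit 96) (nat_lit 5) (nat_lit 100) (nat_lit 5) (nat_lit 101) (nat_lit 4) (nat_lit 264) (nat_lit 234) (nat_lit 222)) (XT.lf (nat_lit 0) (nat_lit 3289856628) (nat_lit 420) (nat_lit 292644845) (nat_lit 84) (nat_lit 4834001449) (nat_lit 95) (nat_lit 5) (nat_lit 100) (nat_lit 5) (nat_lit 96) (nat_lit 5) (nat_lit 265) (nat_lit 234) (nat_lit 221)))) (XT.nd (nat_lit 188) (nat_lit 672) (nat_lit 0) (XT.nd (nat_lit 94) (nat_lit 336) (nat_lit 0) (XT.lf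 (nat_lit 0) (nat_lit 6344977234) (nat_lit 336) (nat_lit 423545988) (nat_lit 420) (nat_lit 1825622932) (nat_lit 91) (nat_lit 5) (nat_lit 95) (nat_lit 5) (nat_lit 96) (nat_lit 5) (nat_lit 266) (nat_lit 234) (nat_lit 220)) (XT.lf (nat_lit 0) (nat_lit 1588244426) (nat_lit 336) (nat_lit 4329428768) (nat_lit 84) (nat_lit 2861702874) (nat_lit 87) (nat_lit 5) (nat_lit 91) (nat_lit 5) (nat_lit 88) (nat_lit 5) (nat_lit 267) (nat_lit 234) (nat_lit 219))) (XT.nd (nat_lit 94) (nat_lit 336) (nat_lit 0) (XT.lf (nat_lit 0) (nat_lit 2464881632) (nat_lit 336) (nat_lit 2612151171) (nat_lit 420) (nat_lit 3897059236) (nat_lit 83) (nat_lit 5) (nat_lit 87) (nat_lit 5) (nat_lit 88) (nat_lit 5) (nat_lit 268) (nat_lit 234) (nat_lit 218)) (XT.nd (nat_lit 94) (nat_lit 84) (nat_lit 0) (XT.lf (nat_lit 0) (nat_lit 403664647) (nat_lit 252) (nat_lit 8314594081) (nat_lit 336) (nat_lit 461385174) (nat_lit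 80) (nat_lit 5) (nat_lit 83) (nat_lit 5) (nat_lit 84) (nat_lit 4) (nat_lit 269) (nat_lit 234) (nat_lit 217)) (XT.lf (nat_lit 0) (nat_lit 3085093361) (nat_lit 336) (nat_lit 1765608215) (nat_lit 84) (nat_lit 4540330094) (nat_lit 79) (nat_lit 5) (nat_lit 83) (nat_lit 5) (nat_lit 80) (nat_lit 5) (nat_lit 270) (nat_lit 234) (nat_lit 216))))))) (XT.nd (nat_lit 752) (nat_lit 1344) (nat_lit 0) (XT.nd (nat_lit 376) (nat_lit 756) (nat_lit 0) (XT.nd (nat_lit 188) (nat_lit 252) (nat_lit 0) (XT.nd (nat_lit 94) (nat_lit 336) (nat_lit 0) (XT.lf (nat_lit 0) (nat_lit 5605148969) (nat_lit 252) (nat_lit 1166085565) (nat_lit 336) (nat_lit 2842483894) (nat_lit 76) (nat_lit 5) (nat_lit 79) (nat_lit 5) (nat_lit 80) (nat_lit 5) (nat_lit 271) (nat_lit 234) (nat_lit 215)) (XT.lf (nat_lit 0) (nat_lit 787955836) (nat_lit 336) (nat_lit 6395307705) (nat_lit 84) (nat_lit 2662694535) (nat_lit 72) (nat_lit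 5) (nat_lit 76) (nat_lit 5) (nat_lit 73) (nat_lit 5) (nat_lit 272) (nat_lit 234) (nat_lit 214))) (XT.nd (nat_lit 94) (nat_lit 0) (nat_lit 0) (XT.lf (nat_lit 0) (nat_lit 1140485473) (nat_lit 252) (nat_lit 3362966336) (nat_lit 336) (nat_lit 5584074977) (nat_lit 69) (nat_lit 5) (nat_lit 72) (nat_lit 5) (nat_lit 73) (nat_lit 5) (nat_lit 273) (nat_lit 234) (nat_lit 213)) (XT.lf (nat_lit 0) (nat_lit 8419721253) (nat_lit 336) (nat_lit 1238986929) (nat_lit 84) (nat_lit 681715815) (nat_lit 69) (nat_lit 5) (nat_lit 73) (nat_lit 5) (nat_lit 70) (nat_lit 4) (nat_lit 274) (nat_lit 234) (nat_lit 212)))) (XT.nd (nat_lit 188) (nat_lit 252) (nat_lit 0) (XT.nd (nat_lit 94) (nat_lit 252) (nat_lit 0) (XT.lf (nat_lit 0) (nat_lit 1927260077) (nat_lit 252) (nat_lit 3773537232) (nat_lit 84) (nat_lit 4900512331) (nat_lit 66) (nat_lit 5) (nat_lit 69) (nat_lit 5) (nat_lit 67) (nat_lit 5) (nat_lit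 275) (nat_lit 234) (nat_lit 211)) (XT.lf (nat_lit 0) (nat_lit 4416998399) (nat_lit 252) (nat_lit 1476898090) (nat_lit 336) (nat_lit 4980227547) (nat_lit 63) (nat_lit 5) (nat_lit 66) (nat_lit 5) (nat_lit 67) (nat_lit 5) (nat_lit 276) (nat_lit 234) (nat_lit 210))) (XT.nd (nat_lit 94) (nat_lit 84) (nat_lit 0) (XT.lf (nat_lit 0) (nat_lit 1841803645) (nat_lit 168) (nat_lit 8258853501) (nat_lit 252) (nat_lit 1057832386) (nat_lit 61) (nat_lit 5) (nat_lit 63) (nat_lit 5) (nat_lit 64) (nat_lit 4) (nat_lit 277) (nat_lit 234) (nat_lit 209)) (XT.lf (nat_lit 0) (nat_lit 3000609449) (nat_lit 252) (nat_lit 906769746) (nat_lit 84) (nat_lit 7545410422) (nat_lit 60) (nat_lit 5) (nat_lit 63) (nat_lit 5) (nat_lit 61) (nat_lit 5) (nat_lit 278) (nat_lit 234) (nat_lit 208))))) (XT.nd (nat_lit 376) (nat_lit 756) (nat_lit 0) (XT.nd (nat_lit 188) (nat_lit 252) (nat_lit 0) (XT.nd (nat_lit 94) (nat_lit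 168) (nat_lit 0) (XT.lf (nat_lit 0) (nat_lit 7270354879) (nat_lit 252) (nat_lit 3761954747) (nat_lit 84) (nat_lit 726431424) (nat_lit 58) (nat_lit 5) (nat_lit 61) (nat_lit 5) (nat_lit 59) (nat_lit 4) (nat_lit 279) (nat_lit 234) (nat_lit 207)) (XT.lf (nat_lit 0) (nat_lit 5246726896) (nat_lit 168) (nat_lit 6576731312) (nat_lit 252) (nat_lit 253038315) (nat_lit 56) (nat_lit 5) (nat_lit 58) (nat_lit 5) (nat_lit 59) (nat_lit 4) (nat_lit 280) (nat_lit 234) (nat_lit 206))) (XT.nd (nat_lit 94) (nat_lit 0) (nat_lit 0) (XT.lf (nat_lit 0) (nat_lit 2280774961) (nat_lit 168) (nat_lit 1788240743) (nat_lit 252) (nat_lit 8337391229) (nat_lit 53) (nat_lit 5) (nat_lit 55) (nat_lit 5) (nat_lit 56) (nat_lit 5) (nat_lit 281) (nat_lit 234) (nat_lit 205)) (XT.lf (nat_lit 0) (nat_lit 8676589483) (nat_lit 252) (nat_lit 875854275) (nat_lit 84) (nat_lit 3196265659) (nat_lit 53) (nat_lit 5) (nat_lit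 56) (nat_lit 5) (nat_lit 54) (nat_lit 4) (nat_lit 282) (nat_lit 234) (nat_lit 204)))) (XT.nd (nat_lit 188) (nat_lit 336) (nat_lit 0) (XT.nd (nat_lit 94) (nat_lit 168) (nat_lit 0) (XT.lf (nat_lit 0) (nat_lit 477810078) (nat_lit 252) (nat_lit 4167024471) (nat_lit 84) (nat_lit 8458755062) (nat_lit 50) (nat_lit 5) (nat_lit 53) (nat_lit 5) (nat_lit 51) (nat_lit 5) (nat_lit 283) (nat_lit 234) (nat_lit 203)) (XT.lf (nat_lit 0) (nat_lit 5147696401) (nat_lit 252) (nat_lit 7718818982) (nat_lit 84) (nat_lit 604895142) (nat_lit 48) (nat_lit 5) (nat_lit 51) (nat_lit 5) (nat_lit 49) (nat_lit 4) (nat_lit 284) (nat_lit 234) (nat_lit 202))) (XT.nd (nat_lit 94) (nat_lit 252) (nat_lit 0) (XT.lf (nat_lit 0) (nat_lit 2305297397) (nat_lit 84) (nat_lit 7844943327) (nat_lit 168) (nat_lit 3702423576) (nat_lit 47) (nat_lit 5) (nat_lit 48) (nat_lit 5) (nat_lit 49) (nat_lit 4) (nat_lit 285) (nat_lit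 234) (nat_lit 201)) (XT.nd (nat_lit 94) (nat_lit 168) (nat_lit 0) (XT.lf (nat_lit 0) (nat_lit 1161660490) (nat_lit 168) (nat_lit 1318260450) (nat_lit 84) (nat_lit 11769735444) (nat_lit 46) (nat_lit 5) (nat_lit 48) (nat_lit 5) (nat_lit 47) (nat_lit 5) (nat_lit 286) (nat_lit 234) (nat_lit 200)) (XT.lf (nat_lit 0) (nat_lit 6264576410) (nat_lit 252) (nat_lit 5188480148) (nat_lit 84) (nat_lit 3204404071) (nat_lit 44) (nat_lit 5) (nat_lit 47) (nat_lit 5) (nat_lit 45) (nat_lit 4) (nat_lit 287) (nat_lit 234) (nat_lit 199))))))))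
noncomputable def xc68 : XT := (XT.nd (nat_lit 1504) (nat_lit 1428) (nat_lit 0) (XT.nd (nat_lit 752) (nat_lit 756) (nat_lit 0) (XT.nd (nat_lit 376) (nat_lit 588) (nat_lit 0) (XT.nd (nat_lit 188) (nat_lit 84) (nat_lit 0) (XT.nd (nat_lit 94) (nat_lit 252) (nat_lit 0) (XT.lf (nat_lit 0) (nat_lit 5756210319) (nat_lit 84) (nat_lit 5939983937) (nat_lit 168) (nat_lit 3385783024) (nat_lit 43) (nat_lit 5) (nat_lit 44) (nat_lit 5) (nat_lit 45) (nat_lit 4) (nat_lit 288) (nat_lit 234) (nat_lit 198)) (XT.lf (nat_lit 0) (nat_lit 1787365796) (nat_lit 168) (nat_lit 62261901) (nat_lit 252) (nat_lit 13674737978) (nat_lit 40) (nat_lit 5) (nat_lit 42) (nat_lit 5) (nat_lit 43) (nat_lit 5) (nat_lit 289) (nat_lit 234) (nat_lit 197))) (XT.nd (nat_lit 94) (nat_lit 84) (nat_lit 0) (XT.lf (nat_lit 0) (nat_lit 7410143711) (nat_lit 252) (nat_lit 2499215288) (nat_lit 84) (nat_lit 6067883296) (nat_lit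 40) (nat_lit 5) (nat_lit 43) (nat_lit 5) (nat_lit 41) (nat_lit 4) (nat_lit 290) (nat_lit 234) (nat_lit 196)) (XT.lf (nat_lit 0) (nat_lit 9464567293) (nat_lit 84) (nat_lit 3857869007) (nat_lit 168) (nat_lit 3126638907) (nat_lit 39) (nat_lit 5) (nat_lit 40) (nat_lit 5) (nat_lit 41) (nat_lit 4) (nat_lit 291) (nat_lit 234) (nat_lit 195)))) (XT.nd (nat_lit 188) (nat_lit 252) (nat_lit 0) (XT.nd (nat_lit 94) (nat_lit 84) (nat_lit 0) (XT.lf (nat_lit 0) (nat_lit 2592496872) (nat_lit 252) (nat_lit 11823853707) (nat_lit 84) (nat_lit 2521659759) (nat_lit 36) (nat_lit 5) (nat_lit 39) (nat_lit 5) (nat_lit 37) (nat_lit 4) (nat_lit 292) (nat_lit 234) (nat_lit 194)) (XT.lf (nat_lit 0) (nat_lit 371709019) (nat_lit 84) (nat_lit 8235754589) (nat_lit 168) (nat_lit 8835618312) (nat_lit 35) (nat_lit 5) (nat_lit 36) (nat_lit 5) (nat_lit 37) (nat_lit 4) (nat_lit 293) (nat_lit 234) (nat_lit 193)))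 (XT.nd (nat_lit 94) (nat_lit 252) (nat_lit 0) (XT.lf (nat_lit 0) (nat_lit 13451269872) (nat_lit 84) (nat_lit 1599240415) (nat_lit 168) (nat_lit 2916530213) (nat_lit 35) (nat_lit 5) (nat_lit 36) (nat_lit 5) (nat_lit 37) (nat_lit 4) (nat_lit 294) (nat_lit 234) (nat_lit 192)) (XT.lf (nat_lit 0) (nat_lit 3345153707) (nat_lit 252) (nat_lit 9832752240) (nat_lit 84) (nat_lit 5329105391) (nat_lit 32) (nat_lit 5) (nat_lit 35) (nat_lit 5) (nat_lit 33) (nat_lit 4) (nat_lit 295) (nat_lit 234) (nat_lit 191))))) (XT.nd (nat_lit 376) (nat_lit 336) (nat_lit 0) (XT.nd (nat_lit 188) (nat_lit 336) (nat_lit 0) (XT.nd (nat_lit 94) (nat_lit 0) (nat_lit 0) (XT.lf (nat_lit 0) (nat_lit 3515129508) (nat_lit 84) (nat_lit 6395411785) (nat_lit 168) (nat_lit 9156617126) (nat_lit 31) (nat_lit 5) (nat_lit 32) (nat_lit 5) (nat_lit 33) (nat_lit 4) (nat_lit 296) (nat_lit 234) (nat_lit 190)) (XT.lf (nat_lit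 0) (nat_lit 16914941451) (nat_lit 168) (nat_lit 1922130393) (nat_lit 0) (nat_lit 812703851) (nat_lit 31) (nat_lit 5) (nat_lit 33) (nat_lit 4) (nat_lit 31) (nat_lit 4) (nat_lit 297) (nat_lit 234) (nat_lit 189))) (XT.nd (nat_lit 94) (nat_lit 84) (nat_lit 0) (XT.lf (nat_lit 0) (nat_lit 4118015158) (nat_lit 252) (nat_lit 7756333134) (nat_lit 84) (nat_lit 8372133726) (nat_lit 28) (nat_lit 5) (nat_lit 31) (nat_lit 5) (nat_lit 29) (nat_lit 4) (nat_lit 298) (nat_lit 234) (nat_lit 188)) (XT.lf (nat_lit 0) (nat_lit 6866089515) (nat_lit 84) (nat_lit 4429426405) (nat_lit 168) (nat_lit 9571570207) (nat_lit 27) (nat_lit 5) (nat_lit 28) (nat_lit 5) (nat_lit 29) (nat_lit 4) (nat_lit 299) (nat_lit 234) (nat_lit 187)))) (XT.nd (nat_lit 188) (nat_lit 168) (nat_lit 0) (XT.nd (nat_lit 94) (nat_lit 84) (nat_lit 0) (XT.lf (nat_lit 0) (nat_lit 821030572) (nat_lit 84) (nat_lit 18144000771) (nat_lit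 84) (nat_lit 2547032117) (nat_lit 26) (nat_lit 4) (nat_lit 27) (nat_lit 5) (nat_lit 27) (nat_lit 4) (nat_lit 300) (nat_lit 234) (nat_lit 186)) (XT.lf (nat_lit 0) (nat_lit 4921848568) (nat_lit 168) (nat_lit 5586180416) (nat_lit 84) (nat_lit 11665107909) (nat_lit 25) (nat_lit 5) (nat_lit 27) (nat_lit 5) (nat_lit 26) (nat_lit 4) (nat_lit 301) (nat_lit 234) (nat_lit 185))) (XT.nd (nat_lit 94) (nat_lit 84) (nat_lit 0) (XT.lf (nat_lit 0) (nat_lit 10445433608) (nat_lit 84) (nat_lit 2333416611) (nat_lit 168) (nat_lit 10081312351) (nat_lit 24) (nat_lit 5) (nat_lit 25) (nat_lit 5) (nat_lit 26) (nat_lit 4) (nat_lit 302) (nat_lit 234) (nat_lit 184)) (XT.lf (nat_lit 0) (nat_lit 3796871819) (nat_lit 84) (nat_lit 17422270875) (nat_lit 84) (nat_lit 2352874802) (nat_lit 23) (nat_lit 4) (nat_lit 24) (nat_lit 5) (nat_lit 24) (nat_lit 4) (nat_lit 303) (nat_lit 234) (nat_lit 183)))))) (XT.nd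 (nat_lit 752) (nat_lit 756) (nat_lit 0) (XT.nd (nat_lit 376) (nat_lit 336) (nat_lit 0) (XT.nd (nat_lit 188) (nat_lit 168) (nat_lit 0) (XT.nd (nat_lit 94) (nat_lit 84) (nat_lit 0) (XT.lf (nat_lit 0) (nat_lit 5767049730) (nat_lit 168) (nat_lit 3311938715) (nat_lit 84) (nat_lit 15226504455) (nat_lit 22) (nat_lit 5) (nat_lit 24) (nat_lit 5) (nat_lit 23) (nat_lit 4) (nat_lit 304) (nat_lit 234) (nat_lit 182)) (XT.lf (nat_lit 0) (nat_lit 14277207295) (nat_lit 84) (nat_lit 100108590) (nat_lit 168) (nat_lit 10688226733) (nat_lit 21) (nat_lit 5) (nat_lit 22) (nat_lit 5) (nat_lit 23) (nat_lit 4) (nat_lit 305) (nat_lit 234) (nat_lit 181))) (XT.nd (nat_lit 94) (nat_lit 84) (nat_lit 0) (XT.lf (nat_lit 0) (nat_lit 6960426344) (nat_lit 84) (nat_lit 16709684925) (nat_lit 84) (nat_lit 2180882756) (nat_lit 20) (nat_lit 4) (nat_lit 21) (nat_lit 5) (nat_lit 21) (nat_lit 4) (nat_lit 306) (nat_lit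 234) (nat_lit 180)) (XT.lf (nat_lit 0) (nat_lit 6663863173) (nat_lit 168) (nat_lit 921353873) (nat_lit 84) (nat_lit 19078823438) (nat_lit 19) (nat_lit 5) (nat_lit 21) (nat_lit 5) (nat_lit 20) (nat_lit 4) (nat_lit 307) (nat_lit 234) (nat_lit 179)))) (XT.nd (nat_lit 188) (nat_lit 168) (nat_lit 0) (XT.nd (nat_lit 94) (nat_lit 84) (nat_lit 0) (XT.lf (nat_lit 0) (nat_lit 16143871877) (nat_lit 168) (nat_lit 9151271400) (nat_lit 0) (nat_lit 2207492506) (nat_lit 18) (nat_lit 5) (nat_lit 20) (nat_lit 4) (nat_lit 18) (nat_lit 4) (nat_lit 308) (nat_lit 234) (nat_lit 178)) (XT.lf (nat_lit 0) (nat_lit 10332906075) (nat_lit 84) (nat_lit 16010279674) (nat_lit 84) (nat_lit 2027709863) (nat_lit 17) (nat_lit 4) (nat_lit 18) (nat_lit 5) (nat_lit 18) (nat_lit 4) (nat_lit 309) (nat_lit 234) (nat_lit 177))) (XT.nd (nat_lit 94) (nat_lit 0) (nat_lit 0) (XT.lf (nat_lit 0) (nat_lit 1652621230) (nat_lit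 84) (nat_lit 5995760202) (nat_lit 168) (nat_lit 21621763019) (nat_lit 15) (nat_lit 5) (nat_lit 16) (nat_lit 5) (nat_lit 17) (nat_lit 4) (nat_lit 310) (nat_lit 234) (nat_lit 176)) (XT.lf (nat_lit 0) (nat_lit 18065168046) (nat_lit 168) (nat_lit 7464636110) (nat_lit 0) (nat_lit 4666637762) (nat_lit 15) (nat_lit 5) (nat_lit 17) (nat_lit 4) (nat_lit 15) (nat_lit 4) (nat_lit 311) (nat_lit 234) (nat_lit 175))))) (XT.nd (nat_lit 376) (nat_lit 420) (nat_lit 0) (XT.nd (nat_lit 188) (nat_lit 84) (nat_lit 0) (XT.nd (nat_lit 94) (nat_lit 168) (nat_lit 0) (XT.lf (nat_lit 0) (nat_lit 13938244202) (nat_lit 84) (nat_lit 15327106742) (nat_lit 84) (nat_lit 1890575468) (nat_lit 14) (nat_lit 4) (nat_lit 15) (nat_lit 5) (nat_lit 15) (nat_lit 4) (nat_lit 312) (nat_lit 234) (nat_lit 174)) (XT.lf (nat_lit 0) (nat_lit 4408491624) (nat_lit 84) (nat_lit 4314051944) (nat_lit 168) (nat_lit 23426721900)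 (nat_lit 12) (nat_lit 5) (nat_lit 13) (nat_lit 5) (nat_lit 14) (nat_lit 4) (nat_lit 313) (nat_lit 234) (nat_lit 173))) (XT.nd (nat_lit 94) (nat_lit 84) (nat_lit 0) (XT.lf (nat_lit 0) (nat_lit 20159164846) (nat_lit 168) (nat_lit 5718564186) (nat_lit 0) (nat_lit 7295173693) (nat_lit 12) (nat_lit 5) (nat_lit 14) (nat_lit 4) (nat_lit 12) (nat_lit 4) (nat_lit 314) (nat_lit 234) (nat_lit 172)) (XT.lf (nat_lit 0) (nat_lit 17803234426) (nat_lit 84) (nat_lit 14662420107) (nat_lit 84) (nat_lit 1767165445) (nat_lit 11) (nat_lit 4) (nat_lit 12) (nat_lit 5) (nat_lit 12) (nat_lit 4) (nat_lit 315) (nat_lit 234) (nat_lit 171)))) (XT.nd (nat_lit 188) (nat_lit 252) (nat_lit 0) (XT.nd (nat_lit 94) (nat_lit 0) (nat_lit 0) (XT.lf (nat_lit 0) (nat_lit 7334485828) (nat_lit 84) (nat_lit 2548204542) (nat_lit 168) (nat_lit 25447086090) (nat_lit 9) (nat_lit 5) (nat_lit 10) (nat_lit 5) (nat_lit 11)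 (nat_lit 4) (nat_lit 316) (nat_lit 234) (nat_lit 170)) (XT.lf (nat_lit 0) (nat_lit 22446763915) (nat_lit 168) (nat_lit 3903607210) (nat_lit 0) (nat_lit 10110205481) (nat_lit 9) (nat_lit 5) (nat_lit 11) (nat_lit 4) (nat_lit 9) (nat_lit 4) (nat_lit 317) (nat_lit 234) (nat_lit 169))) (XT.nd (nat_lit 94) (nat_lit 168) (nat_lit 0) (XT.lf (nat_lit 0) (nat_lit 21957711274) (nat_lit 84) (nat_lit 14017829745) (nat_lit 84) (nat_lit 1655550745) (nat_lit 8) (nat_lit 4) (nat_lit 9) (nat_lit 5) (nat_lit 9) (nat_lit 4) (nat_lit 318) (nat_lit 234) (nat_lit 168)) (XT.nd (nat_lit 94) (nat_lit 0) (nat_lit 0) (XT.lf (nat_lit 0) (nat_lit 10451474612) (nat_lit 84) (nat_lit 689134845) (nat_lit 168) (nat_lit 27701570099) (nat_lit 6) (nat_lit 5) (nat_lit 7) (nat_lit 5) (nat_lit 8) (nat_lit 4) (nat_lit 319) (nat_lit 234) (nat_lit 167)) (XT.lf (nat_lit 0) (nat_lit 24950494201) (nat_lit 168) (nat_lit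 2009145383) (nat_lit 0) (nat_lit 13131347450) (nat_lit 6) (nat_lit 5) (nat_lit 8) (nat_lit 4) (nat_lit 6) (nat_lit 4) (nat_lit 320) (nat_lit 234) (nat_lit 166))))))))
noncomputable def xc69 : XT := (XT.nd (nat_lit 1598) (nat_lit 0) (nat_lit 0) (XT.nd (nat_lit 752) (nat_lit 0) (nat_lit 0) (XT.nd (nat_lit 376) (nat_lit 168) (nat_lit 0) (XT.nd (nat_lit 188) (nat_lit 84) (nat_lit 0) (XT.nd (nat_lit 94) (nat_lit 168) (nat_lit 0) (XT.lf (nat_lit 0) (nat_lit 26434770857) (nat_lit 84) (nat_lit 13394427448) (nat_lit 84) (nat_lit 1554120325) (nat_lit 5) (nat_lit 4) (nat_lit 6) (nat_lit 5) (nat_lit 6) (nat_lit 4) (nat_lit 321) (nat_lit 234) (nat_lit 165)) (XT.lf (nat_lit 0) (nat_lit 12528719144) (nat_lit 168) (nat_lit 28957381513) (nat_lit 0) (nat_lit 1233043087) (nat_lit 3) (nat_lit 5) (nat_lit 5) (nat_lit 4) (nat_lit 3) (nat_lit 4) (nat_lit 322) (nat_lit 234) (nat_lit 164))) (XT.nd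 (nat_lit 94) (nat_lit 84) (nat_lit 0) (XT.lf (nat_lit 0) (nat_lit 27694767603) (nat_lit 168) (nat_lit 23341438) (nat_lit 0) (nat_lit 16380812421) (nat_lit 3) (nat_lit 5) (nat_lit 5) (nat_lit 4) (nat_lit 3) (nat_lit 4) (nat_lit 323) (nat_lit 234) (nat_lit 163)) (XT.lf (nat_lit 0) (nat_lit 31271032210) (nat_lit 84) (nat_lit 12792889777) (nat_lit 84) (nat_lit 1461525903) (nat_lit 2) (nat_lit 4) (nat_lit 3) (nat_lit 5) (nat_lit 3) (nat_lit 4) (nat_lit 324) (nat_lit 234) (nat_lit 162)))) (XT.nd (nat_lit 188) (nat_lit 0) (nat_lit 0) (XT.nd (nat_lit 94) (nat_lit 0) (nat_lit 0) (XT.lf (nat_lit 0) (nat_lit 68742835629) (nat_lit 0) (nat_lit 0) (nat_lit 0) (nat_lit 0) (nat_lit 0) (nat_lit 0) (nat_lit 1) (nat_lit 0) (nat_lit 1) (nat_lit 0) (nat_lit 325) (nat_lit 234) (nat_lit 161)) (XT.lf (nat_lit 0) (nat_lit 72137694628) (nat_lit 0) (nat_lit 0) (nat_lit 0) (nat_lit 0) (nat_lit 0) (nat_lit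 0) (nat_lit 1) (nat_lit 0) (nat_lit 1) (nat_lit 0) (nat_lit 326) (nat_lit 234) (nat_lit 160))) (XT.nd (nat_lit 94) (nat_lit 0) (nat_lit 0) (XT.lf (nat_lit 0) (nat_lit 75702402322) (nat_lit 0) (nat_lit 0) (nat_lit 0) (nat_lit 0) (nat_lit 0) (nat_lit 0) (nat_lit 1) (nat_lit 0) (nat_lit 1) (nat_lit 0) (nat_lit 327) (nat_lit 234) (nat_lit 159)) (XT.lf (nat_lit 0) (nat_lit 79445446111) (nat_lit 0) (nat_lit 0) (nat_lit 0) (nat_lit 0) (nat_lit 0) (nat_lit 0) (nat_lit 1) (nat_lit 0) (nat_lit 1) (nat_lit 0) (nat_lit 328) (nat_lit 234) (nat_lit 158))))) (XT.nd (nat_lit 376) (nat_lit 0) (nat_lit 0) (XT.nd (nat_lit 188) (nat_lit 0) (nat_lit 0) (XT.nd (nat_lit 94) (nat_lit 0) (nat_lit 0) (XT.lf (nat_lit 0) (nat_lit 83375738003) (nat_lit 0) (nat_lit 0) (nat_lit 0) (nat_lit 0) (nat_lit 0) (nat_lit 0) (nat_lit 1) (nat_lit 0) (nat_lit 1) (nat_lit 0) (nat_lit 329) (nat_lit 234) (nat_lit 157))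 (XT.lf (nat_lit 0) (nat_lit 87502635836) (nat_lit 0) (nat_lit 0) (nat_lit 0) (nat_lit 0) (nat_lit 0) (nat_lit 0) (nat_lit 1) (nat_lit 0) (nat_lit 1) (nat_lit 0) (nat_lit 330) (nat_lit 234) (nat_lit 156))) (XT.nd (nat_lit 94) (nat_lit 0) (nat_lit 0) (XT.lf (nat_lit 0) (nat_lit 91835965558) (nat_lit 0) (nat_lit 0) (nat_lit 0) (nat_lit 0) (nat_lit 0) (nat_lit 0) (nat_lit 1) (nat_lit 0) (nat_lit 1) (nat_lit 0) (nat_lit 331) (nat_lit 234) (nat_lit 155)) (XT.lf (nat_lit 0) (nat_lit 96386044619) (nat_lit 0) (nat_lit 0) (nat_lit 0) (nat_lit 0) (nat_lit 0) (nat_lit 0) (nat_lit 1) (nat_lit 0) (nat_lit 1) (nat_lit 0) (nat_lit 332) (nat_lit 234) (nat_lit 154)))) (XT.nd (nat_lit 188) (nat_lit 0) (nat_lit 0) (XT.nd (nat_lit 94) (nat_lit 0) (nat_lit 0) (XT.lf (nat_lit 0) (nat_lit 101163706543) (nat_lit 0) (nat_lit 0) (nat_lit 0) (nat_lit 0) (nat_lit 0) (nat_lit 0) (nat_lit 1) (nat_lit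 0) (nat_lit 1) (nat_lit 0) (nat_lit 333) (nat_lit 234) (nat_lit 153)) (XT.lf (nat_lit 0) (nat_lit 106180326714) (nat_lit 0) (nat_lit 0) (nat_lit 0) (nat_lit 0) (nat_lit 0) (nat_lit 0) (nat_lit 1) (nat_lit 0) (nat_lit 1) (nat_lit 0) (nat_lit 334) (nat_lit 234) (nat_lit 152))) (XT.nd (nat_lit 94) (nat_lit 0) (nat_lit 0) (XT.lf (nat_lit 0) (nat_lit 111447849466) (nat_lit 0) (nat_lit 0) (nat_lit 0) (nat_lit 0) (nat_lit 0) (nat_lit 0) (nat_lit 1) (nat_lit 0) (nat_lit 1) (nat_lit 0) (nat_lit 335) (nat_lit 234) (nat_lit 151)) (XT.nd (nat_lit 94) (nat_lit 0) (nat_lit 0) (XT.lf (nat_lit 0) (nat_lit 116978816519) (nat_lit 0) (nat_lit 0) (nat_lit 0) (nat_lit 0) (nat_lit 0) (nat_lit 0) (nat_lit 1) (nat_lit 0) (nat_lit 1) (nat_lit 0) (nat_lit 336) (nat_lit 234) (nat_lit 150)) (XT.lf (nat_lit 0) (nat_lit 122786396844) (nat_lit 0) (nat_lit 0) (nat_lit 0) (nat_lit 0) (nat_lit 0) (nat_lit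 0) (nat_lit 1) (nat_lit 0) (nat_lit 1) (nat_lit 0) (nat_lit 337) (nat_lit 234) (nat_lit 149))))))) (XT.nd (nat_lit 37506) (nat_lit 0) (nat_lit 7980) (XT.nd (nat_lit 37130) (nat_lit 0) (nat_lit 11508) (XT.nd (nat_lit 36942) (nat_lit 0) (nat_lit 13692) (XT.nd (nat_lit 94) (nat_lit 0) (nat_lit 0) (XT.lf (nat_lit 0) (nat_lit 128884418012) (nat_lit 0) (nat_lit 0) (nat_lit 0) (nat_lit 0) (nat_lit 0) (nat_lit 0) (nat_lit 1) (nat_lit 0) (nat_lit 1) (nat_lit 0) (nat_lit 338) (nat_lit 234) (nat_lit 148)) (XT.lf (nat_lit 0) (nat_lit 135287399122) (nat_lit 0) (nat_lit 0) (nat_lit 0) (nat_lit 0) (nat_lit 0) (nat_lit 0) (nat_lit 1) (nat_lit 0) (nat_lit 1) (nat_lit 0) (nat_lit 339) (nat_lit 234) (nat_lit 147))) (XT.nd (nat_lit 94) (nat_lit 588) (nat_lit 0) (XT.lf (nat_lit 0) (nat_lit 3014310835) (nat_lit 420) (nat_lit 175226623) (nat_lit 420) (nat_lit 175226623) (nat_lit 170) (nat_lit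 4) (nat_lit 175) (nat_lit 5) (nat_lit 175) (nat_lit 4) (nat_lit 250) (nat_lit 235) (nat_lit 235)) (XT.lf (nat_lit 0) (nat_lit 2993944081) (nat_lit 588) (nat_lit 2878314596) (nat_lit 0) (nat_lit 917513420) (nat_lit 163) (nat_lit 5) (nat_lit 170) (nat_lit 4) (nat_lit 163) (nat_lit 4) (nat_lit 251) (nat_lit 235) (nat_lit 234)))) (XT.nd (nat_lit 188) (nat_lit 1512) (nat_lit 0) (XT.nd (nat_lit 94) (nat_lit 84) (nat_lit 0) (XT.lf (nat_lit 0) (nat_lit 1817358258) (nat_lit 588) (nat_lit 4547896418) (nat_lit 588) (nat_lit 493912747) (nat_lit 156) (nat_lit 4) (nat_lit 163) (nat_lit 5) (nat_lit 163) (nat_lit 4) (nat_lit 252) (nat_lit 235) (nat_lit 233)) (XT.lf (nat_lit 0) (nat_lit 2755936987) (nat_lit 672) (nat_lit 287696665) (nat_lit 84) (nat_lit 3892178123) (nat_lit 155) (nat_lit 5) (nat_lit 163) (nat_lit 5) (nat_lit 156) (nat_lit 4) (nat_lit 253) (nat_lit 235) (nat_lit 232))) (XT.nd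 (nat_lit 94) (nat_lit 840) (nat_lit 0) (XT.lf (nat_lit 0) (nat_lit 4695227547) (nat_lit 672) (nat_lit 1366379238) (nat_lit 756) (nat_lit 958780397) (nat_lit 147) (nat_lit 5) (nat_lit 155) (nat_lit 5) (nat_lit 156) (nat_lit 4) (nat_lit 254) (nat_lit 235) (nat_lit 231)) (XT.lf (nat_lit 0) (nat_lit 2240436901) (nat_lit 840) (nat_lit 4396962454) (nat_lit 84) (nat_lit 475168671) (nat_lit 137) (nat_lit 5) (nat_lit 147) (nat_lit 5) (nat_lit 138) (nat_lit 4) (nat_lit 255) (nat_lit 235) (nat_lit 230))))) (XT.nd (nat_lit 376) (nat_lit 1596) (nat_lit 0) (XT.nd (nat_lit 188) (nat_lit 1008) (nat_lit 0) (XT.nd (nat_lit 94) (nat_lit 84) (nat_lit 0) (XT.lf (nat_lit 0) (nat_lit 706306144) (nat_lit 840) (nat_lit 4779366428) (nat_lit 924) (nat_lit 1726985513) (nat_lit 127) (nat_lit 5) (nat_lit 137) (nat_lit 5) (nat_lit 138) (nat_lit 4) (nat_lit 256) (nat_lit 235) (nat_lit 229)) (XT.lf (nat_lit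 0) (nat_lit 1447987730) (nat_lit 924) (nat_lit 1284217135) (nat_lit 84) (nat_lit 4588168272) (nat_lit 126) (nat_lit 5) (nat_lit 137) (nat_lit 5) (nat_lit 127) (nat_lit 5) (nat_lit 257) (nat_lit 235) (nat_lit 228))) (XT.nd (nat_lit 94) (nat_lit 504) (nat_lit 0) (XT.lf (nat_lit 0) (nat_lit 4149463746) (nat_lit 504) (nat_lit 493571778) (nat_lit 588) (nat_lit 2793054658) (nat_lit 120) (nat_lit 5) (nat_lit 126) (nat_lit 5) (nat_lit 127) (nat_lit 5) (nat_lit 258) (nat_lit 235) (nat_lit 227)) (XT.lf (nat_lit 0) (nat_lit 370075990) (nat_lit 504) (nat_lit 5339953500) (nat_lit 84) (nat_lit 1850023726) (nat_lit 114) (nat_lit 5) (nat_lit 120) (nat_lit 5) (nat_lit 115) (nat_lit 5) (nat_lit 259) (nat_lit 235) (nat_lit 226)))) (XT.nd (nat_lit 188) (nat_lit 1176) (nat_lit 0) (XT.nd (nat_lit 94) (nat_lit 0) (nat_lit 0) (XT.lf (nat_lit 0) (nat_lit 220615264) (nat_lit 420) (nat_lit 3306002050)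 (nat_lit 504) (nat_lit 4164851742) (nat_lit 109) (nat_lit 5) (nat_lit 114) (nat_lit 5) (nat_lit 115) (nat_lit 5) (nat_lit 260) (nat_lit 235) (nat_lit 225)) (XT.lf (nat_lit 0) (nat_lit 6086702867) (nat_lit 420) (nat_lit 709881074) (nat_lit 504) (nat_lit 1035091836) (nat_lit 109) (nat_lit 5) (nat_lit 114) (nat_lit 5) (nat_lit 115) (nat_lit 5) (nat_lit 261) (nat_lit 235) (nat_lit 224))) (XT.nd (nat_lit 94) (nat_lit 756) (nat_lit 0) (XT.lf (nat_lit 0) (nat_lit 2147100936) (nat_lit 420) (nat_lit 3800952513) (nat_lit 84) (nat_lit 2030682246) (nat_lit 104) (nat_lit 5) (nat_lit 109) (nat_lit 5) (nat_lit 105) (nat_lit 5) (nat_lit 262) (nat_lit 235) (nat_lit 223)) (XT.nd (nat_lit 94) (nat_lit 420) (nat_lit 0) (XT.lf (nat_lit 0) (nat_lit 2209063040) (nat_lit 336) (nat_lit 3193637595) (nat_lit 420) (nat_lit 2732145380) (nat_lit 100) (nat_lit 5) (nat_lit 104) (nat_lit 5) (nat_lit 105)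 (nat_lit 5) (nat_lit 263) (nat_lit 235) (nat_lit 222)) (XT.lf (nat_lit 0) (nat_lit 193234987) (nat_lit 336) (nat_lit 255327271) (nat_lit 420) (nat_lit 7852643788) (nat_lit 95) (nat_lit 5) (nat_lit 99) (nat_lit 5) (nat_lit 100) (nat_lit 5) (nat_lit 264) (nat_lit 235) (nat_lit 221))))))))
noncomputable def xc70 : XT := (XT.nd (nat_lit 1598) (nat_lit 2184) (nat_lit 0) (XT.nd (nat_lit 752) (nat_lit 1428) (nat_lit 0) (XT.nd (nat_lit 376) (nat_lit 924) (nat_lit 0) (XT.nd (nat_lit 188) (nat_lit 672) (nat_lit 0) (XT.nd (nat_lit 94) (nat_lit 336) (nat_lit 0) (XT.lf (nat_lit 0) (nat_lit 3720161245) (nat_lit 420) (nat_lit 1900257964) (nat_lit 84) (nat_lit 2852041709) (nat_lit 95) (nat_lit 5) (nat_lit 100) (nat_lit 5) (nat_lit 96) (nat_lit 5) (nat_lit 265) (nat_lit 235) (nat_lit 220)) (XT.lf (nat_lit 0) (nat_lit 4606119451) (nat_lit 336) (nat_lit 2508644792) (nat_lit 420) (nat_lit 1539543085)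 (nat_lit 91) (nat_lit 5) (nat_lit 95) (nat_lit 5) (nat_lit 96) (nat_lit 5) (nat_lit 266) (nat_lit 235) (nat_lit 219))) (XT.nd (nat_lit 94) (nat_lit 336) (nat_lit 0) (XT.lf (nat_lit 0) (nat_lit 1745286587) (nat_lit 336) (nat_lit 6302275798) (nat_lit 84) (nat_lit 797745600) (nat_lit 87) (nat_lit 5) (nat_lit 91) (nat_lit 5) (nat_lit 88) (nat_lit 5) (nat_lit 267) (nat_lit 235) (nat_lit 218)) (XT.lf (nat_lit 0) (nat_lit 346818802) (nat_lit 336) (nat_lit 4799106319) (nat_lit 420) (nat_lit 3898506327) (nat_lit 83) (nat_lit 5) (nat_lit 87) (nat_lit 5) (nat_lit 88) (nat_lit 5) (nat_lit 268) (nat_lit 235) (nat_lit 217)))) (XT.nd (nat_lit 188) (nat_lit 588) (nat_lit 0) (XT.nd (nat_lit 94) (nat_lit 336) (nat_lit 0) (XT.lf (nat_lit 0) (nat_lit 7391008572) (nat_lit 336) (nat_lit 1322342010) (nat_lit 420) (nat_lit 540322752) (nat_lit 83) (nat_lit 5) (nat_lit 87) (nat_lit 5) (nat_lit 88)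 (nat_lit 5) (nat_lit 269) (nat_lit 235) (nat_lit 216)) (XT.lf (nat_lit 0) (nat_lit 2904004835) (nat_lit 336) (nat_lit 4225695925) (nat_lit 84) (nat_lit 2340655836) (nat_lit 79) (nat_lit 5) (nat_lit 83) (nat_lit 5) (nat_lit 80) (nat_lit 5) (nat_lit 270) (nat_lit 235) (nat_lit 215))) (XT.nd (nat_lit 94) (nat_lit 336) (nat_lit 0) (XT.lf (nat_lit 0) (nat_lit 2985984970) (nat_lit 252) (nat_lit 3512319510) (nat_lit 336) (nat_lit 3199330950) (nat_lit 76) (nat_lit 5) (nat_lit 79) (nat_lit 5) (nat_lit 80) (nat_lit 5) (nat_lit 271) (nat_lit 235) (nat_lit 214)) (XT.lf (nat_lit 0) (nat_lit 309458246) (nat_lit 336) (nat_lit 9311322017) (nat_lit 84) (nat_lit 316026978) (nat_lit 72) (nat_lit 5) (nat_lit 76) (nat_lit 5) (nat_lit 73) (nat_lit 5) (nat_lit 272) (nat_lit 235) (nat_lit 213))))) (XT.nd (nat_lit 376) (nat_lit 672) (nat_lit 0) (XT.nd (nat_lit 188) (nat_lit 504) (nat_lit 0) (XT.nd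 (nat_lit 94) (nat_lit 252) (nat_lit 0) (XT.lf (nat_lit 0) (nat_lit 3957502543) (nat_lit 336) (nat_lit 1888581716) (nat_lit 84) (nat_lit 4335664276) (nat_lit 72) (nat_lit 5) (nat_lit 76) (nat_lit 5) (nat_lit 73) (nat_lit 5) (nat_lit 273) (nat_lit 235) (nat_lit 212)) (XT.lf (nat_lit 0) (nat_lit 5946154486) (nat_lit 252) (nat_lit 1837703771) (nat_lit 336) (nat_lit 2655283175) (nat_lit 69) (nat_lit 5) (nat_lit 72) (nat_lit 5) (nat_lit 73) (nat_lit 5) (nat_lit 274) (nat_lit 235) (nat_lit 211))) (XT.nd (nat_lit 94) (nat_lit 252) (nat_lit 0) (XT.lf (nat_lit 0) (nat_lit 1085635379) (nat_lit 252) (nat_lit 7273126123) (nat_lit 84) (nat_lit 2348366788) (nat_lit 66) (nat_lit 5) (nat_lit 69) (nat_lit 5) (nat_lit 67) (nat_lit 5) (nat_lit 275) (nat_lit 235) (nat_lit 210)) (XT.lf (nat_lit 0) (nat_lit 725273875) (nat_lit 252) (nat_lit 4223150743) (nat_lit 336) (nat_lit 6036710428) (nat_lit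 63) (nat_lit 5) (nat_lit 66) (nat_lit 5) (nat_lit 67) (nat_lit 5) (nat_lit 276) (nat_lit 235) (nat_lit 209)))) (XT.nd (nat_lit 188) (nat_lit 420) (nat_lit 0) (XT.nd (nat_lit 94) (nat_lit 252) (nat_lit 0) (XT.lf (nat_lit 0) (nat_lit 9037976387) (nat_lit 336) (nat_lit 2051614336) (nat_lit 84) (nat_lit 185770262) (nat_lit 63) (nat_lit 5) (nat_lit 67) (nat_lit 5) (nat_lit 64) (nat_lit 4) (nat_lit 277) (nat_lit 235) (nat_lit 208)) (XT.lf (nat_lit 0) (nat_lit 1779894642) (nat_lit 252) (nat_lit 5042494553) (nat_lit 84) (nat_lit 4752138463) (nat_lit 60) (nat_lit 5) (nat_lit 63) (nat_lit 5) (nat_lit 61) (nat_lit 5) (nat_lit 278) (nat_lit 235) (nat_lit 207))) (XT.nd (nat_lit 94) (nat_lit 252) (nat_lit 0) (XT.lf (nat_lit 0) (nat_lit 3662922557) (nat_lit 168) (nat_lit 2264018748) (nat_lit 252) (nat_lit 5959672723) (nat_lit 58) (nat_lit 5) (nat_lit 60) (nat_lit 5) (nat_lit 61) (nat_lit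 5) (nat_lit 279) (nat_lit 235) (nat_lit 206)) (XT.nd (nat_lit 94) (nat_lit 84) (nat_lit 0) (XT.lf (nat_lit 0) (nat_lit 599748174) (nat_lit 168) (nat_lit 9729790517) (nat_lit 252) (nat_lit 1882356108) (nat_lit 56) (nat_lit 5) (nat_lit 58) (nat_lit 5) (nat_lit 59) (nat_lit 4) (nat_lit 280) (nat_lit 235) (nat_lit 205)) (XT.lf (nat_lit 0) (nat_lit 2413872824) (nat_lit 252) (nat_lit 2621261957) (nat_lit 84) (nat_lit 7511841011) (nat_lit 55) (nat_lit 5) (nat_lit 58) (nat_lit 5) (nat_lit 56) (nat_lit 5) (nat_lit 281) (nat_lit 235) (nat_lit 204))))))) (XT.nd (nat_lit 752) (nat_lit 1176) (nat_lit 0) (XT.nd (nat_lit 376) (nat_lit 420) (nat_lit 0) (XT.nd (nat_lit 188) (nat_lit 252) (nat_lit 0) (XT.nd (nat_lit 94) (nat_lit 168) (nat_lit 0) (XT.lf (nat_lit 0) (nat_lit 6867341563) (nat_lit 168) (nat_lit 18819630) (nat_lit 252) (nat_lit 6009881352) (nat_lit 53) (nat_lit 5) (nat_lit 55)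 (nat_lit 5) (nat_lit 56) (nat_lit 5) (nat_lit 282) (nat_lit 235) (nat_lit 203)) (XT.lf (nat_lit 0) (nat_lit 3550359048) (nat_lit 168) (nat_lit 8132363627) (nat_lit 252) (nat_lit 1574807026) (nat_lit 51) (nat_lit 5) (nat_lit 53) (nat_lit 5) (nat_lit 54) (nat_lit 4) (nat_lit 283) (nat_lit 235) (nat_lit 202))) (XT.nd (nat_lit 94) (nat_lit 168) (nat_lit 0) (XT.lf (nat_lit 0) (nat_lit 3006032785) (nat_lit 252) (nat_lit 6462857) (nat_lit 84) (nat_lit 10621056839) (nat_lit 50) (nat_lit 5) (nat_lit 53) (nat_lit 5) (nat_lit 51) (nat_lit 5) (nat_lit 284) (nat_lit 235) (nat_lit 201)) (XT.lf (nat_lit 0) (nat_lit 7886095558) (nat_lit 252) (nat_lit 3712529228) (nat_lit 84) (nat_lit 2422305548) (nat_lit 48) (nat_lit 5) (nat_lit 51) (nat_lit 5) (nat_lit 49) (nat_lit 4) (nat_lit 285) (nat_lit 235) (nat_lit 200)))) (XT.nd (nat_lit 188) (nat_lit 84) (nat_lit 0) (XT.nd (nat_lit 94) (nat_lit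 252) (nat_lit 0) (XT.lf (nat_lit 0) (nat_lit 6741950539) (nat_lit 84) (nat_lit 6346142000) (nat_lit 168) (nat_lit 1335687988) (nat_lit 47) (nat_lit 5) (nat_lit 48) (nat_lit 5) (nat_lit 49) (nat_lit 4) (nat_lit 286) (nat_lit 235) (nat_lit 199)) (XT.lf (nat_lit 0) (nat_lit 2902105971) (nat_lit 168) (nat_lit 715501278) (nat_lit 252) (nat_lit 11224638766) (nat_lit 44) (nat_lit 5) (nat_lit 46) (nat_lit 5) (nat_lit 47) (nat_lit 5) (nat_lit 287) (nat_lit 235) (nat_lit 198))) (XT.nd (nat_lit 94) (nat_lit 84) (nat_lit 0) (XT.lf (nat_lit 0) (nat_lit 8911175292) (nat_lit 252) (nat_lit 1235326560) (nat_lit 84) (nat_lit 5127163304) (nat_lit 44) (nat_lit 5) (nat_lit 47) (nat_lit 5) (nat_lit 45) (nat_lit 4) (nat_lit 288) (nat_lit 235) (nat_lit 197)) (XT.lf (nat_lit 0) (nat_lit 10188653630) (nat_lit 84) (nat_lit 4379316874) (nat_lit 168) (nat_lit 1153757313) (nat_lit 43) (nat_lit 5) (nat_lit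 44) (nat_lit 5) (nat_lit 45) (nat_lit 4) (nat_lit 289) (nat_lit 235) (nat_lit 196))))) (XT.nd (nat_lit 376) (nat_lit 588) (nat_lit 0) (XT.nd (nat_lit 188) (nat_lit 252) (nat_lit 0) (XT.nd (nat_lit 94) (nat_lit 84) (nat_lit 0) (XT.lf (nat_lit 0) (nat_lit 4248974614) (nat_lit 252) (nat_lit 10184767747) (nat_lit 84) (nat_lit 1751498321) (nat_lit 40) (nat_lit 5) (nat_lit 43) (nat_lit 5) (nat_lit 41) (nat_lit 4) (nat_lit 290) (nat_lit 235) (nat_lit 195)) (XT.lf (nat_lit 0) (nat_lit 1458762444) (nat_lit 84) (nat_lit 8542650696) (nat_lit 168) (nat_lit 6663653157) (nat_lit 39) (nat_lit 5) (nat_lit 40) (nat_lit 5) (nat_lit 41) (nat_lit 4) (nat_lit 291) (nat_lit 235) (nat_lit 194))) (XT.nd (nat_lit 94) (nat_lit 252) (nat_lit 0) (XT.lf (nat_lit 0) (nat_lit 13908943857) (nat_lit 84) (nat_lit 2234935843) (nat_lit 168) (nat_lit 1019883187) (nat_lit 39) (nat_lit 5) (nat_lit 40) (nat_lit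 5) (nat_lit 41) (nat_lit 4) (nat_lit 292) (nat_lit 235) (nat_lit 193)) (XT.lf (nat_lit 0) (nat_lit 4899142969) (nat_lit 252) (nat_lit 8357831781) (nat_lit 84) (nat_lit 4419085042) (nat_lit 36) (nat_lit 5) (nat_lit 39) (nat_lit 5) (nat_lit 37) (nat_lit 4) (nat_lit 293) (nat_lit 235) (nat_lit 192)))) (XT.nd (nat_lit 188) (nat_lit 504) (nat_lit 0) (XT.nd (nat_lit 94) (nat_lit 0) (nat_lit 0) (XT.lf (nat_lit 0) (nat_lit 4382070136) (nat_lit 84) (nat_lit 6791443032) (nat_lit 168) (nat_lit 7034939029) (nat_lit 35) (nat_lit 5) (nat_lit 36) (nat_lit 5) (nat_lit 37) (nat_lit 4) (nat_lit 294) (nat_lit 235) (nat_lit 191)) (XT.lf (nat_lit 0) (nat_lit 17838395213) (nat_lit 168) (nat_lit 839551082) (nat_lit 0) (nat_lit 85678259) (nat_lit 35) (nat_lit 5) (nat_lit 37) (nat_lit 4) (nat_lit 35) (nat_lit 4) (nat_lit 295) (nat_lit 235) (nat_lit 190))) (XT.nd (nat_lit 94) (nat_lit 252) (nat_lit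 0) (XT.lf (nat_lit 0) (nat_lit 5568516498) (nat_lit 252) (nat_lit 6443127468) (nat_lit 84) (nat_lit 7317912684) (nat_lit 32) (nat_lit 5) (nat_lit 35) (nat_lit 5) (nat_lit 33) (nat_lit 4) (nat_lit 296) (nat_lit 235) (nat_lit 189)) (XT.nd (nat_lit 94) (nat_lit 168) (nat_lit 0) (XT.lf (nat_lit 0) (nat_lit 7509547361) (nat_lit 84) (nat_lit 4914336341) (nat_lit 168) (nat_lit 7495741871) (nat_lit 31) (nat_lit 5) (nat_lit 32) (nat_lit 5) (nat_lit 33) (nat_lit 4) (nat_lit 297) (nat_lit 235) (nat_lit 188)) (XT.lf (nat_lit 0) (nat_lit 1743701856) (nat_lit 168) (nat_lit 17992717024) (nat_lit 168) (nat_lit 797059082) (nat_lit 29) (nat_lit 4) (nat_lit 31) (nat_lit 5) (nat_lit 31) (nat_lit 4) (nat_lit 298) (nat_lit 235) (nat_lit 187))))))))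
noncomputable def xc71 : XT := (XT.nd (nat_lit 1598) (nat_lit 1008) (nat_lit 0) (XT.nd (nat_lit 752) (nat_lit 756) (nat_lit 0) (XT.nd (nat_lit 376) (nat_lit 336) (nat_lit 0) (XT.nd (nat_lit 188) (nat_lit 168) (nat_lit 0) (XT.nd (nat_lit 94) (nat_lit 84) (nat_lit 0) (XT.lf (nat_lit 0) (nat_lit 6267920896) (nat_lit 252) (nat_lit 4433519067) (nat_lit 84) (nat_lit 10460165906) (nat_lit 28) (nat_lit 5) (nat_lit 31) (nat_lit 5) (nat_lit 29) (nat_lit 4) (nat_lit 299) (nat_lit 235) (nat_lit 186)) (XT.lf (nat_lit 0) (nat_lit 10860175832) (nat_lit 84) (nat_lit 2908548135) (nat_lit 168) (nat_lit 8046294855) (nat_lit 27) (nat_lit 5) (nat_lit 28) (nat_lit 5) (nat_lit 29) (nat_lit 4) (nat_lit 300) (nat_lit 235) (nat_lit 185))) (XT.nd (nat_lit 94) (nat_lit 84) (nat_lit 0) (XT.lf (nat_lit 0) (nat_lit 4521098715) (nat_lit 84) (nat_lit 17292773805) (nat_lit 84) (nat_lit 678764633) (nat_lit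 26) (nat_lit 4) (nat_lit 27) (nat_lit 5) (nat_lit 27) (nat_lit 4) (nat_lit 301) (nat_lit 235) (nat_lit 184)) (XT.lf (nat_lit 0) (nat_lit 7007699869) (nat_lit 168) (nat_lit 2319880972) (nat_lit 84) (nat_lit 13862224954) (nat_lit 25) (nat_lit 5) (nat_lit 27) (nat_lit 5) (nat_lit 26) (nat_lit 4) (nat_lit 302) (nat_lit 235) (nat_lit 183)))) (XT.nd (nat_lit 188) (nat_lit 168) (nat_lit 0) (XT.nd (nat_lit 94) (nat_lit 84) (nat_lit 0) (XT.lf (nat_lit 0) (nat_lit 14456126520) (nat_lit 84) (nat_lit 768281549) (nat_lit 168) (nat_lit 8688431863) (nat_lit 24) (nat_lit 5) (nat_lit 25) (nat_lit 5) (nat_lit 26) (nat_lit 4) (nat_lit 303) (nat_lit 235) (nat_lit 182)) (XT.lf (nat_lit 0) (nat_lit 7481911410) (nat_lit 84) (nat_lit 16598351597) (nat_lit 84) (nat_lit 580347205) (nat_lit 23) (nat_lit 4) (nat_lit 24) (nat_lit 5) (nat_lit 24) (nat_lit 4) (nat_lit 304) (nat_lit 235) (nat_lit 181)))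 (XT.nd (nat_lit 94) (nat_lit 84) (nat_lit 0) (XT.lf (nat_lit 0) (nat_lit 7797948930) (nat_lit 168) (nat_lit 91161091) (nat_lit 84) (nat_lit 17544530187) (nat_lit 22) (nat_lit 5) (nat_lit 24) (nat_lit 5) (nat_lit 23) (nat_lit 4) (nat_lit 305) (nat_lit 235) (nat_lit 180)) (XT.lf (nat_lit 0) (nat_lit 16831422280) (nat_lit 168) (nat_lit 7934071415) (nat_lit 0) (nat_lit 1466564023) (nat_lit 21) (nat_lit 5) (nat_lit 23) (nat_lit 4) (nat_lit 21) (nat_lit 4) (nat_lit 306) (nat_lit 235) (nat_lit 179))))) (XT.nd (nat_lit 376) (nat_lit 420) (nat_lit 0) (XT.nd (nat_lit 188) (nat_lit 84) (nat_lit 0) (XT.nd (nat_lit 94) (nat_lit 168) (nat_lit 0) (XT.lf (nat_lit 0) (nat_lit 10645776895) (nat_lit 84) (nat_lit 15914118071) (nat_lit 84) (nat_lit 498334854) (nat_lit 20) (nat_lit 4) (nat_lit 21) (nat_lit 5) (nat_lit 21) (nat_lit 4) (nat_lit 307) (nat_lit 235) (nat_lit 178)) (XT.lf (nat_lit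 0) (nat_lit 2340509710) (nat_lit 84) (nat_lit 6344755114) (nat_lit 168) (nat_lit 19227567259) (nat_lit 18) (nat_lit 5) (nat_lit 19) (nat_lit 5) (nat_lit 20) (nat_lit 4) (nat_lit 308) (nat_lit 235) (nat_lit 177))) (XT.nd (nat_lit 94) (nat_lit 84) (nat_lit 0) (XT.lf (nat_lit 0) (nat_lit 18598071447) (nat_lit 168) (nat_lit 6371154019) (nat_lit 0) (nat_lit 3826191808) (nat_lit 18) (nat_lit 5) (nat_lit 20) (nat_lit 4) (nat_lit 18) (nat_lit 4) (nat_lit 309) (nat_lit 235) (nat_lit 176)) (XT.lf (nat_lit 0) (nat_lit 14035011670) (nat_lit 84) (nat_lit 15243644450) (nat_lit 84) (nat_lit 429868720) (nat_lit 17) (nat_lit 4) (nat_lit 18) (nat_lit 5) (nat_lit 18) (nat_lit 4) (nat_lit 310) (nat_lit 235) (nat_lit 175)))) (XT.nd (nat_lit 188) (nat_lit 252) (nat_lit 0) (XT.nd (nat_lit 94) (nat_lit 0) (nat_lit 0) (XT.lf (nat_lit 0) (nat_lit 4922842863) (nat_lit 84) (nat_lit 4724239884) (nat_lit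 168) (nat_lit 21005754814) (nat_lit 15) (nat_lit 5) (nat_lit 16) (nat_lit 5) (nat_lit 17) (nat_lit 4) (nat_lit 311) (nat_lit 235) (nat_lit 174)) (XT.lf (nat_lit 0) (nat_lit 20531107182) (nat_lit 168) (nat_lit 4748465861) (nat_lit 0) (nat_lit 6348556935) (nat_lit 15) (nat_lit 5) (nat_lit 17) (nat_lit 4) (nat_lit 15) (nat_lit 4) (nat_lit 312) (nat_lit 235) (nat_lit 173))) (XT.nd (nat_lit 94) (nat_lit 168) (nat_lit 0) (XT.lf (nat_lit 0) (nat_lit 17674729402) (nat_lit 84) (nat_lit 14589612707) (nat_lit 84) (nat_lit 372594443) (nat_lit 14) (nat_lit 4) (nat_lit 15) (nat_lit 5) (nat_lit 15) (nat_lit 4) (nat_lit 313) (nat_lit 235) (nat_lit 172)) (XT.nd (nat_lit 94) (nat_lit 0) (nat_lit 0) (XT.lf (nat_lit 0) (nat_lit 7670241782) (nat_lit 84) (nat_lit 3022483451) (nat_lit 168) (nat_lit 22987300784) (nat_lit 12) (nat_lit 5) (nat_lit 13) (nat_lit 5) (nat_lit 14) (nat_lit 4) (nat_lit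 314) (nat_lit 235) (nat_lit 171)) (XT.lf (nat_lit 0) (nat_lit 22650539482) (nat_lit 168) (nat_lit 3057353752) (nat_lit 0) (nat_lit 9049483808) (nat_lit 12) (nat_lit 5) (nat_lit 14) (nat_lit 4) (nat_lit 12) (nat_lit 4) (nat_lit 315) (nat_lit 235) (nat_lit 170))))))) (XT.nd (nat_lit 752) (nat_lit 252) (nat_lit 0) (XT.nd (nat_lit 376) (nat_lit 420) (nat_lit 0) (XT.nd (nat_lit 188) (nat_lit 84) (nat_lit 0) (XT.nd (nat_lit 94) (nat_lit 168) (nat_lit 0) (XT.lf (nat_lit 0) (nat_lit 21593000296) (nat_lit 84) (nat_lit 13953985427) (nat_lit 84) (nat_lit 324572830) (nat_lit 11) (nat_lit 4) (nat_lit 12) (nat_lit 5) (nat_lit 12) (nat_lit 4) (nat_lit 316) (nat_lit 235) (nat_lit 169)) (XT.lf (nat_lit 0) (nat_lit 10602256126) (nat_lit 84) (nat_lit 1231244028) (nat_lit 168) (nat_lit 25189931365) (nat_lit 9) (nat_lit 5) (nat_lit 10) (nat_lit 5) (nat_lit 11) (nat_lit 4) (nat_lit 317) (nat_lit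 235) (nat_lit 168))) (XT.nd (nat_lit 94) (nat_lit 84) (nat_lit 0) (XT.lf (nat_lit 0) (nat_lit 24977888721) (nat_lit 168) (nat_lit 1287997956) (nat_lit 0) (nat_lit 11947279429) (nat_lit 9) (nat_lit 5) (nat_lit 11) (nat_lit 4) (nat_lit 9) (nat_lit 4) (nat_lit 318) (nat_lit 235) (nat_lit 167)) (XT.lf (nat_lit 0) (nat_lit 25821051136) (nat_lit 84) (nat_lit 13338144960) (nat_lit 84) (nat_lit 284206356) (nat_lit 8) (nat_lit 4) (nat_lit 9) (nat_lit 5) (nat_lit 9) (nat_lit 4) (nat_lit 319) (nat_lit 235) (nat_lit 166)))) (XT.nd (nat_lit 188) (nat_lit 168) (nat_lit 0) (XT.nd (nat_lit 94) (nat_lit 84) (nat_lit 0) (XT.lf (nat_lit 0) (nat_lit 13091681753) (nat_lit 168) (nat_lit 26984705790) (nat_lit 0) (nat_lit 638198900) (nat_lit 6) (nat_lit 5) (nat_lit 8) (nat_lit 4) (nat_lit 6) (nat_lit 4) (nat_lit 320) (nat_lit 235) (nat_lit 165)) (XT.lf (nat_lit 0) (nat_lit 589490544) (nat_lit 84)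 (nat_lit 26956150170) (nat_lit 84) (nat_lit 14482514581) (nat_lit 5) (nat_lit 4) (nat_lit 6) (nat_lit 5) (nat_lit 6) (nat_lit 4) (nat_lit 321) (nat_lit 235) (nat_lit 164))) (XT.nd (nat_lit 94) (nat_lit 168) (nat_lit 0) (XT.lf (nat_lit 0) (nat_lit 30393505770) (nat_lit 84) (nat_lit 12743007359) (nat_lit 84) (nat_lit 250178688) (nat_lit 5) (nat_lit 4) (nat_lit 6) (nat_lit 5) (nat_lit 6) (nat_lit 4) (nat_lit 322) (nat_lit 235) (nat_lit 163)) (XT.lf (nat_lit 0) (nat_lit 14490737043) (nat_lit 168) (nat_lit 27722188507) (nat_lit 0) (nat_lit 2575396284) (nat_lit 3) (nat_lit 5) (nat_lit 5) (nat_lit 4) (nat_lit 3) (nat_lit 4) (nat_lit 323) (nat_lit 235) (nat_lit 162))))) (XT.nd (nat_lit 376) (nat_lit 0) (nat_lit 0) (XT.nd (nat_lit 188) (nat_lit 168) (nat_lit 0) (XT.nd (nat_lit 94) (nat_lit 0) (nat_lit 0) (XT.lf (nat_lit 0) (nat_lit 2614468014) (nat_lit 84) (nat_lit 27777839943) (nat_lit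 84) (nat_lit 15845919478) (nat_lit 2) (nat_lit 4) (nat_lit 3) (nat_lit 5) (nat_lit 3) (nat_lit 4) (nat_lit 324) (nat_lit 235) (nat_lit 161)) (XT.lf (nat_lit 0) (nat_lit 35348666569) (nat_lit 84) (nat_lit 12169115587) (nat_lit 84) (nat_lit 221404925) (nat_lit 2) (nat_lit 4) (nat_lit 3) (nat_lit 5) (nat_lit 3) (nat_lit 4) (nat_lit 325) (nat_lit 235) (nat_lit 160))) (XT.nd (nat_lit 94) (nat_lit 0) (nat_lit 0) (XT.lf (nat_lit 0) (nat_lit 72176725102) (nat_lit 0) (nat_lit 0) (nat_lit 0) (nat_lit 0) (nat_lit 0) (nat_lit 0) (nat_lit 1) (nat_lit 0) (nat_lit 1) (nat_lit 0) (nat_lit 326) (nat_lit 235) (nat_lit 159)) (XT.lf (nat_lit 0) (nat_lit 75741481923) (nat_lit 0) (nat_lit 0) (nat_lit 0) (nat_lit 0) (nat_lit 0) (nat_lit 0) (nat_lit 1) (nat_lit 0) (nat_lit 1) (nat_lit 0) (nat_lit 327) (nat_lit 235) (nat_lit 158)))) (XT.nd (nat_lit 188) (nat_lit 0) (nat_lit 0) (XT.nd (nat_lit 94)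 (nat_lit 0) (nat_lit 0) (XT.lf (nat_lit 0) (nat_lit 79484572499) (nat_lit 0) (nat_lit 0) (nat_lit 0) (nat_lit 0) (nat_lit 0) (nat_lit 0) (nat_lit 1) (nat_lit 0) (nat_lit 1) (nat_lit 0) (nat_lit 328) (nat_lit 235) (nat_lit 157)) (XT.lf (nat_lit 0) (nat_lit 83414908950) (nat_lit 0) (nat_lit 0) (nat_lit 0) (nat_lit 0) (nat_lit 0) (nat_lit 0) (nat_lit 1) (nat_lit 0) (nat_lit 1) (nat_lit 0) (nat_lit 329) (nat_lit 235) (nat_lit 156))) (XT.nd (nat_lit 94) (nat_lit 0) (nat_lit 0) (XT.lf (nat_lit 0) (nat_lit 87541849221) (nat_lit 0) (nat_lit 0) (nat_lit 0) (nat_lit 0) (nat_lit 0) (nat_lit 0) (nat_lit 1) (nat_lit 0) (nat_lit 1) (nat_lit 0) (nat_lit 330) (nat_lit 235) (nat_lit 155)) (XT.nd (nat_lit 94) (nat_lit 0) (nat_lit 0) (XT.lf (nat_lit 0) (nat_lit 91875219359) (nat_lit 0) (nat_lit 0) (nat_lit 0) (nat_lit 0) (nat_lit 0) (nat_lit 0) (nat_lit 1) (nat_lit 0) (nat_lit 1) (nat_lit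 0) (nat_lit 331) (nat_lit 235) (nat_lit 154)) (XT.lf (nat_lit 0) (nat_lit 96425336913) (nat_lit 0) (nat_lit 0) (nat_lit 0) (nat_lit 0) (nat_lit 0) (nat_lit 0) (nat_lit 1) (nat_lit 0) (nat_lit 1) (nat_lit 0) (nat_lit 332) (nat_lit 235) (nat_lit 153))))))))
noncomputable def xc72 : XT := (XT.nd (nat_lit 38070) (nat_lit 0) (nat_lit 6048) (XT.nd (nat_lit 37318) (nat_lit 0) (nat_lit 10668) (XT.nd (nat_lit 376) (nat_lit 0) (nat_lit 0) (XT.nd (nat_lit 188) (nat_lit 0) (nat_lit 0) (XT.nd (nat_lit 94) (nat_lit 0) (nat_lit 0) (XT.lf (nat_lit 0) (nat_lit 101203035495) (nat_lit 0) (nat_lit 0) (nat_lit 0) (nat_lit 0) (nat_lit 0) (nat_lit 0) (nat_lit 1) (nat_lit 0) (nat_lit 1) (nat_lit 0) (nat_lit 333) (nat_lit 235) (nat_lit 152)) (XT.lf (nat_lit 0) (nat_lit 106219690580) (nat_lit 0) (nat_lit 0) (nat_lit 0) (nat_lit 0) (nat_lit 0) (nat_lit 0) (nat_lit 1) (nat_lit 0) (nat_lit 1) (nat_lit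 0) (nat_lit 334) (nat_lit 235) (nat_lit 151))) (XT.nd (nat_lit 94) (nat_lit 0) (nat_lit 0) (XT.lf (nat_lit 0) (nat_lit 111487246582) (nat_lit 0) (nat_lit 0) (nat_lit 0) (nat_lit 0) (nat_lit 0) (nat_lit 0) (nat_lit 1) (nat_lit 0) (nat_lit 1) (nat_lit 0) (nat_lit 335) (nat_lit 235) (nat_lit 150)) (XT.lf (nat_lit 0) (nat_lit 117018245304) (nat_lit 0) (nat_lit 0) (nat_lit 0) (nat_lit 0) (nat_lit 0) (nat_lit 0) (nat_lit 1) (nat_lit 0) (nat_lit 1) (nat_lit 0) (nat_lit 336) (nat_lit 235) (nat_lit 149)))) (XT.nd (nat_lit 188) (nat_lit 0) (nat_lit 0) (XT.nd (nat_lit 94) (nat_lit 0) (nat_lit 0) (XT.lf (nat_lit 0) (nat_lit 122825855788) (nat_lit 0) (nat_lit 0) (nat_lit 0) (nat_lit 0) (nat_lit 0) (nat_lit 0) (nat_lit 1) (nat_lit 0) (nat_lit 1) (nat_lit 0) (nat_lit 337) (nat_lit 235) (nat_lit 148)) (XT.lf (nat_lit 0) (nat_lit 128923905679) (nat_lit 0) (nat_lit 0) (nat_lit 0) (nat_lit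 0) (nat_lit 0) (nat_lit 0) (nat_lit 1) (nat_lit 0) (nat_lit 1) (nat_lit 0) (nat_lit 338) (nat_lit 235) (nat_lit 147))) (XT.nd (nat_lit 36660) (nat_lit 0) (nat_lit 14700) (XT.lf (nat_lit 0) (nat_lit 135326914144) (nat_lit 0) (nat_lit 0) (nat_lit 0) (nat_lit 0) (nat_lit 0) (nat_lit 0) (nat_lit 1) (nat_lit 0) (nat_lit 1) (nat_lit 0) (nat_lit 339) (nat_lit 235) (nat_lit 146)) (XT.lf (nat_lit 0) (nat_lit 957143204) (nat_lit 420) (nat_lit 1398095558) (nat_lit 0) (nat_lit 957143204) (nat_lit 175) (nat_lit 5) (nat_lit 180) (nat_lit 4) (nat_lit 175) (nat_lit 4) (nat_lit 248) (nat_lit 236) (nat_lit 236))))) (XT.nd (nat_lit 376) (nat_lit 2352) (nat_lit 0) (XT.nd (nat_lit 188) (nat_lit 1176) (nat_lit 0) (XT.nd (nat_lit 94) (nat_lit 84) (nat_lit 0) (XT.lf (nat_lit 0) (nat_lit 1496881669) (nat_lit 420) (nat_lit 3733587715) (nat_lit 420) (nat_lit 1444322912) (nat_lit 170) (nat_lit 4) (nat_lit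 175) (nat_lit 5) (nat_lit 175) (nat_lit 4) (nat_lit 249) (nat_lit 236) (nat_lit 235)) (XT.lf (nat_lit 0) (nat_lit 1788208663) (nat_lit 504) (nat_lit 803689236) (nat_lit 84) (nat_lit 4140544192) (nat_lit 169) (nat_lit 5) (nat_lit 175) (nat_lit 5) (nat_lit 170) (nat_lit 4) (nat_lit 250) (nat_lit 236) (nat_lit 234))) (XT.nd (nat_lit 94) (nat_lit 672) (nat_lit 0) (XT.lf (nat_lit 0) (nat_lit 3743819457) (nat_lit 504) (nat_lit 1275579134) (nat_lit 588) (nat_lit 1778113390) (nat_lit 163) (nat_lit 5) (nat_lit 169) (nat_lit 5) (nat_lit 170) (nat_lit 4) (nat_lit 251) (nat_lit 236) (nat_lit 233)) (XT.lf (nat_lit 0) (nat_lit 1368558170) (nat_lit 672) (nat_lit 5312075433) (nat_lit 84) (nat_lit 190407790) (nat_lit 155) (nat_lit 5) (nat_lit 163) (nat_lit 5) (nat_lit 156) (nat_lit 4) (nat_lit 252) (nat_lit 236) (nat_lit 232)))) (XT.nd (nat_lit 188) (nat_lit 1596) (nat_lit 0) (XT.nd (nat_lit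 94) (nat_lit 756) (nat_lit 0) (XT.lf (nat_lit 0) (nat_lit 4522902356) (nat_lit 672) (nat_lit 639368727) (nat_lit 84) (nat_lit 1789013956) (nat_lit 155) (nat_lit 5) (nat_lit 163) (nat_lit 5) (nat_lit 156) (nat_lit 4) (nat_lit 253) (nat_lit 236) (nat_lit 231)) (XT.lf (nat_lit 0) (nat_lit 683277842) (nat_lit 756) (nat_lit 2791594567) (nat_lit 84) (nat_lit 3564572322) (nat_lit 146) (nat_lit 5) (nat_lit 155) (nat_lit 5) (nat_lit 147) (nat_lit 5) (nat_lit 254) (nat_lit 236) (nat_lit 230))) (XT.nd (nat_lit 94) (nat_lit 840) (nat_lit 0) (XT.lf (nat_lit 0) (nat_lit 2152447745) (nat_lit 756) (nat_lit 1608209718) (nat_lit 840) (nat_lit 3374777185) (nat_lit 137) (nat_lit 5) (nat_lit 146) (nat_lit 5) (nat_lit 147) (nat_lit 5) (nat_lit 255) (nat_lit 236) (nat_lit 229)) (XT.lf (nat_lit 0) (nat_lit 50398870) (nat_lit 840) (nat_lit 6848056088) (nat_lit 924) (nat_lit 342441659) (nat_lit 127)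 (nat_lit 5) (nat_lit 137) (nat_lit 5) (nat_lit 138) (nat_lit 4) (nat_lit 256) (nat_lit 236) (nat_lit 228)))))) (XT.nd (nat_lit 752) (nat_lit 2268) (nat_lit 0) (XT.nd (nat_lit 376) (nat_lit 1260) (nat_lit 0) (XT.nd (nat_lit 188) (nat_lit 504) (nat_lit 0) (XT.nd (nat_lit 94) (nat_lit 504) (nat_lit 0) (XT.lf (nat_lit 0) (nat_lit 2717280543) (nat_lit 924) (nat_lit 2065129882) (nat_lit 84) (nat_lit 2568667262) (nat_lit 126) (nat_lit 5) (nat_lit 137) (nat_lit 5) (nat_lit 127) (nat_lit 5) (nat_lit 257) (nat_lit 236) (nat_lit 227)) (XT.lf (nat_lit 0) (nat_lit 3268792268) (nat_lit 504) (nat_lit 2562227280) (nat_lit 588) (nat_lit 1639840624) (nat_lit 120) (nat_lit 5) (nat_lit 126) (nat_lit 5) (nat_lit 127) (nat_lit 5) (nat_lit 258) (nat_lit 236) (nat_lit 226))) (XT.nd (nat_lit 94) (nat_lit 0) (nat_lit 0) (XT.lf (nat_lit 0) (nat_lit 1212102786) (nat_lit 420) (nat_lit 161697109) (nat_lit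 504) (nat_lit 6225752070) (nat_lit 114) (nat_lit 5) (nat_lit 119) (nat_lit 5) (nat_lit 120) (nat_lit 5) (nat_lit 259) (nat_lit 236) (nat_lit 225)) (XT.lf (nat_lit 0) (nat_lit 4459800941) (nat_lit 504) (nat_lit 905976408) (nat_lit 84) (nat_lit 2368717470) (nat_lit 114) (nat_lit 5) (nat_lit 120) (nat_lit 5) (nat_lit 115) (nat_lit 5) (nat_lit 260) (nat_lit 236) (nat_lit 224)))) (XT.nd (nat_lit 188) (nat_lit 420) (nat_lit 0) (XT.nd (nat_lit 94) (nat_lit 420) (nat_lit 0) (XT.lf (nat_lit 0) (nat_lit 4856798621) (nat_lit 420) (nat_lit 2795714630) (nat_lit 504) (nat_lit 226051004) (nat_lit 109) (nat_lit 5) (nat_lit 114) (nat_lit 5) (nat_lit 115) (nat_lit 5) (nat_lit 261) (nat_lit 236) (nat_lit 223)) (XT.lf (nat_lit 0) (nat_lit 2805870521) (nat_lit 336) (nat_lit 9030749) (nat_lit 420) (nat_lit 5215858642) (nat_lit 104) (nat_lit 5) (nat_lit 108) (nat_lit 5) (nat_lit 109) (nat_lit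 5) (nat_lit 262) (nat_lit 236) (nat_lit 222))) (XT.nd (nat_lit 94) (nat_lit 84) (nat_lit 0) (XT.lf (nat_lit 0) (nat_lit 662293851) (nat_lit 336) (nat_lit 5324878246) (nat_lit 420) (nat_lit 2203864577) (nat_lit 100) (nat_lit 5) (nat_lit 104) (nat_lit 5) (nat_lit 105) (nat_lit 5) (nat_lit 263) (nat_lit 236) (nat_lit 221)) (XT.lf (nat_lit 0) (nat_lit 898621935) (nat_lit 420) (nat_lit 1498367137) (nat_lit 84) (nat_lit 5963060878) (nat_lit 99) (nat_lit 5) (nat_lit 104) (nat_lit 5) (nat_lit 100) (nat_lit 5) (nat_lit 264) (nat_lit 236) (nat_lit 220))))) (XT.nd (nat_lit 376) (nat_lit 1260) (nat_lit 0) (XT.nd (nat_lit 188) (nat_lit 336) (nat_lit 0) (XT.nd (nat_lit 94) (nat_lit 336) (nat_lit 0) (XT.lf (nat_lit 0) (nat_lit 4055305031) (nat_lit 420) (nat_lit 3743211968) (nat_lit 84) (nat_lit 738533618) (nat_lit 95) (nat_lit 5) (nat_lit 100) (nat_lit 5) (nat_lit 96) (nat_lit 5) (nat_lit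 265) (nat_lit 236) (nat_lit 219)) (XT.lf (nat_lit 0) (nat_lit 2627857908) (nat_lit 336) (nat_lit 4736959007) (nat_lit 420) (nat_lit 1358334668) (nat_lit 91) (nat_lit 5) (nat_lit 95) (nat_lit 5) (nat_lit 96) (nat_lit 5) (nat_lit 266) (nat_lit 236) (nat_lit 218))) (XT.nd (nat_lit 94) (nat_lit 0) (nat_lit 0) (XT.lf (nat_lit 0) (nat_lit 363825045) (nat_lit 252) (nat_lit 1456174841) (nat_lit 336) (nat_lit 7099045661) (nat_lit 87) (nat_lit 5) (nat_lit 90) (nat_lit 5) (nat_lit 91) (nat_lit 5) (nat_lit 267) (nat_lit 236) (nat_lit 217)) (XT.lf (nat_lit 0) (nat_lit 5140030594) (nat_lit 336) (nat_lit 1968228976) (nat_lit 84) (nat_lit 2013939831) (nat_lit 87) (nat_lit 5) (nat_lit 91) (nat_lit 5) (nat_lit 88) (nat_lit 5) (nat_lit 268) (nat_lit 236) (nat_lit 216)))) (XT.nd (nat_lit 188) (nat_lit 588) (nat_lit 0) (XT.nd (nat_lit 94) (nat_lit 336) (nat_lit 0) (XT.lf (nat_lit 0) (nat_lit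 4938333893) (nat_lit 336) (nat_lit 3686283807) (nat_lit 420) (nat_lit 710965504) (nat_lit 83) (nat_lit 5) (nat_lit 87) (nat_lit 5) (nat_lit 88) (nat_lit 5) (nat_lit 269) (nat_lit 236) (nat_lit 215)) (XT.lf (nat_lit 0) (nat_lit 2595596170) (nat_lit 252) (nat_lit 14039379) (nat_lit 336) (nat_lit 6949223536) (nat_lit 79) (nat_lit 5) (nat_lit 82) (nat_lit 5) (nat_lit 83) (nat_lit 5) (nat_lit 270) (nat_lit 236) (nat_lit 214))) (XT.nd (nat_lit 94) (nat_lit 336) (nat_lit 0) (XT.lf (nat_lit 0) (nat_lit 84095064) (nat_lit 252) (nat_lit 6025791409) (nat_lit 336) (nat_lit 3680953883) (nat_lit 76) (nat_lit 5) (nat_lit 79) (nat_lit 5) (nat_lit 80) (nat_lit 5) (nat_lit 271) (nat_lit 236) (nat_lit 213)) (XT.nd (nat_lit 94) (nat_lit 336) (nat_lit 0) (XT.lf (nat_lit 0) (nat_lit 7580791273) (nat_lit 252) (nat_lit 2225519481) (nat_lit 336) (nat_lit 227051896) (nat_lit 76) (nat_lit 5) (nat_lit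 79) (nat_lit 5) (nat_lit 80) (nat_lit 5) (nat_lit 272) (nat_lit 236) (nat_lit 212)) (XT.lf (nat_lit 0) (nat_lit 3306025363) (nat_lit 336) (nat_lit 5180229667) (nat_lit 84) (nat_lit 1798337864) (nat_lit 72) (nat_lit 5) (nat_lit 76) (nat_lit 5) (nat_lit 73) (nat_lit 5) (nat_lit 273) (nat_lit 236) (nat_lit 211))))))))
noncomputable def xc73 : XT := (XT.nd (nat_lit 1598) (nat_lit 1764) (nat_lit 0) (XT.nd (nat_lit 752) (nat_lit 1092) (nat_lit 0) (XT.nd (nat_lit 376) (nat_lit 672) (nat_lit 0) (XT.nd (nat_lit 188) (nat_lit 420) (nat_lit 0) (XT.nd (nat_lit 94) (nat_lit 84) (nat_lit 0) (XT.lf (nat_lit 0) (nat_lit 2473940703) (nat_lit 252) (nat_lit 4559199452) (nat_lit 336) (nat_lit 3513807682) (nat_lit 69) (nat_lit 5) (nat_lit 72) (nat_lit 5) (nat_lit 73) (nat_lit 5) (nat_lit 274) (nat_lit 236) (nat_lit 210)) (XT.lf (nat_lit 0) (nat_lit 117804061) (nat_lit 336) (nat_lit 273816240)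 (nat_lit 84) (nat_lit 10430823841) (nat_lit 68) (nat_lit 5) (nat_lit 72) (nat_lit 5) (nat_lit 69) (nat_lit 5) (nat_lit 275) (nat_lit 236) (nat_lit 209))) (XT.nd (nat_lit 94) (nat_lit 252) (nat_lit 0) (XT.lf (nat_lit 0) (nat_lit 3914658082) (nat_lit 252) (nat_lit 3194616070) (nat_lit 84) (nat_lit 3994473506) (nat_lit 66) (nat_lit 5) (nat_lit 69) (nat_lit 5) (nat_lit 67) (nat_lit 5) (nat_lit 276) (nat_lit 236) (nat_lit 208)) (XT.lf (nat_lit 0) (nat_lit 5132056083) (nat_lit 252) (nat_lit 2774636221) (nat_lit 336) (nat_lit 3492157171) (nat_lit 63) (nat_lit 5) (nat_lit 66) (nat_lit 5) (nat_lit 67) (nat_lit 5) (nat_lit 277) (nat_lit 236) (nat_lit 207)))) (XT.nd (nat_lit 188) (nat_lit 420) (nat_lit 0) (XT.nd (nat_lit 94) (nat_lit 0) (nat_lit 0) (XT.lf (nat_lit 0) (nat_lit 409735189) (nat_lit 252) (nat_lit 9531246338) (nat_lit 84) (nat_lit 1765791518) (nat_lit 60) (nat_lit 5) (nat_lit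 63) (nat_lit 5) (nat_lit 61) (nat_lit 5) (nat_lit 278) (nat_lit 236) (nat_lit 206)) (XT.lf (nat_lit 0) (nat_lit 4458520705) (nat_lit 252) (nat_lit 1011005572) (nat_lit 84) (nat_lit 6554246196) (nat_lit 60) (nat_lit 5) (nat_lit 63) (nat_lit 5) (nat_lit 61) (nat_lit 5) (nat_lit 279) (nat_lit 236) (nat_lit 205))) (XT.nd (nat_lit 94) (nat_lit 252) (nat_lit 0) (XT.lf (nat_lit 0) (nat_lit 8060591850) (nat_lit 168) (nat_lit 694812592) (nat_lit 252) (nat_lit 3598934485) (nat_lit 58) (nat_lit 5) (nat_lit 60) (nat_lit 5) (nat_lit 61) (nat_lit 5) (nat_lit 280) (nat_lit 236) (nat_lit 204)) (XT.lf (nat_lit 0) (nat_lit 630651603) (nat_lit 252) (nat_lit 7832516629) (nat_lit 84) (nat_lit 4233670921) (nat_lit 55) (nat_lit 5) (nat_lit 58) (nat_lit 5) (nat_lit 56) (nat_lit 5) (nat_lit 281) (nat_lit 236) (nat_lit 203))))) (XT.nd (nat_lit 376) (nat_lit 504) (nat_lit 0) (XT.nd (nat_lit 188) (nat_lit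 420) (nat_lit 0) (XT.nd (nat_lit 94) (nat_lit 0) (nat_lit 0) (XT.lf (nat_lit 0) (nat_lit 1416220985) (nat_lit 168) (nat_lit 3563186190) (nat_lit 252) (nat_lit 8072675371) (nat_lit 53) (nat_lit 5) (nat_lit 55) (nat_lit 5) (nat_lit 56) (nat_lit 5) (nat_lit 282) (nat_lit 236) (nat_lit 202)) (XT.lf (nat_lit 0) (nat_lit 9627182320) (nat_lit 252) (nat_lit 2180901441) (nat_lit 84) (nat_lit 1612925258) (nat_lit 53) (nat_lit 5) (nat_lit 56) (nat_lit 5) (nat_lit 54) (nat_lit 4) (nat_lit 283) (nat_lit 236) (nat_lit 201))) (XT.nd (nat_lit 94) (nat_lit 168) (nat_lit 0) (XT.lf (nat_lit 0) (nat_lit 784454752) (nat_lit 252) (nat_lit 6005843309) (nat_lit 84) (nat_lit 7012145036) (nat_lit 50) (nat_lit 5) (nat_lit 53) (nat_lit 5) (nat_lit 51) (nat_lit 5) (nat_lit 284) (nat_lit 236) (nat_lit 200)) (XT.lf (nat_lit 0) (nat_lit 4086748196) (nat_lit 168) (nat_lit 1404894952) (nat_lit 252) (nat_lit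 8706821522) (nat_lit 48) (nat_lit 5) (nat_lit 50) (nat_lit 5) (nat_lit 51) (nat_lit 5) (nat_lit 285) (nat_lit 236) (nat_lit 199)))) (XT.nd (nat_lit 188) (nat_lit 336) (nat_lit 0) (XT.nd (nat_lit 94) (nat_lit 84) (nat_lit 0) (XT.lf (nat_lit 0) (nat_lit 88561556) (nat_lit 84) (nat_lit 10443574613) (nat_lit 168) (nat_lit 4077253891) (nat_lit 47) (nat_lit 5) (nat_lit 48) (nat_lit 5) (nat_lit 49) (nat_lit 4) (nat_lit 286) (nat_lit 236) (nat_lit 198)) (XT.lf (nat_lit 0) (nat_lit 882942847) (nat_lit 168) (nat_lit 4050316459) (nat_lit 84) (nat_lit 10100778705) (nat_lit 46) (nat_lit 5) (nat_lit 48) (nat_lit 5) (nat_lit 47) (nat_lit 5) (nat_lit 287) (nat_lit 236) (nat_lit 197))) (XT.nd (nat_lit 94) (nat_lit 168) (nat_lit 0) (XT.lf (nat_lit 0) (nat_lit 6009015285) (nat_lit 252) (nat_lit 8513438856) (nat_lit 84) (nat_lit 951377791) (nat_lit 44) (nat_lit 5) (nat_lit 47) (nat_lit 5) (nat_lit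 45) (nat_lit 4) (nat_lit 288) (nat_lit 236) (nat_lit 196)) (XT.nd (nat_lit 94) (nat_lit 84) (nat_lit 0) (XT.lf (nat_lit 0) (nat_lit 2607288690) (nat_lit 84) (nat_lit 8906587880) (nat_lit 168) (nat_lit 4415614719) (nat_lit 43) (nat_lit 5) (nat_lit 44) (nat_lit 5) (nat_lit 45) (nat_lit 4) (nat_lit 289) (nat_lit 236) (nat_lit 195)) (XT.lf (nat_lit 0) (nat_lit 935680368) (nat_lit 168) (nat_lit 1961798090) (nat_lit 84) (nat_lit 13505863865) (nat_lit 42) (nat_lit 5) (nat_lit 44) (nat_lit 5) (nat_lit 43) (nat_lit 5) (nat_lit 290) (nat_lit 236) (nat_lit 194))))))) (XT.nd (nat_lit 752) (nat_lit 840) (nat_lit 0) (XT.nd (nat_lit 376) (nat_lit 420) (nat_lit 0) (XT.nd (nat_lit 188) (nat_lit 252) (nat_lit 0) (XT.nd (nat_lit 94) (nat_lit 84) (nat_lit 0) (XT.lf (nat_lit 0) (nat_lit 6554744177) (nat_lit 252) (nat_lit 6849959478) (nat_lit 84) (nat_lit 3485133019) (nat_lit 40) (nat_lit 5)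 (nat_lit 43) (nat_lit 5) (nat_lit 41) (nat_lit 4) (nat_lit 291) (nat_lit 236) (nat_lit 193)) (XT.lf (nat_lit 0) (nat_lit 5313746470) (nat_lit 84) (nat_lit 7240424551) (nat_lit 168) (nat_lit 4841514230) (nat_lit 39) (nat_lit 5) (nat_lit 40) (nat_lit 5) (nat_lit 41) (nat_lit 4) (nat_lit 292) (nat_lit 236) (nat_lit 192))) (XT.nd (nat_lit 94) (nat_lit 0) (nat_lit 0) (XT.lf (nat_lit 0) (nat_lit 275628538) (nat_lit 168) (nat_lit 679060624) (nat_lit 252) (nat_lit 16968533253) (nat_lit 36) (nat_lit 5) (nat_lit 38) (nat_lit 5) (nat_lit 39) (nat_lit 5) (nat_lit 293) (nat_lit 236) (nat_lit 191)) (XT.lf (nat_lit 0) (nat_lit 7118722569) (nat_lit 252) (nat_lit 5095710118) (nat_lit 84) (nat_lit 6246698973) (nat_lit 36) (nat_lit 5) (nat_lit 39) (nat_lit 5) (nat_lit 37) (nat_lit 4) (nat_lit 294) (nat_lit 236) (nat_lit 190)))) (XT.nd (nat_lit 188) (nat_lit 84) (nat_lit 0) (XT.nd (nat_lit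 94) (nat_lit 252) (nat_lit 0) (XT.lf (nat_lit 0) (nat_lit 8221831843) (nat_lit 84) (nat_lit 5447478416) (nat_lit 168) (nat_lit 5352708477) (nat_lit 35) (nat_lit 5) (nat_lit 36) (nat_lit 5) (nat_lit 37) (nat_lit 4) (nat_lit 295) (nat_lit 236) (nat_lit 189)) (XT.lf (nat_lit 0) (nat_lit 1003347012) (nat_lit 252) (nat_lit 16901351503) (nat_lit 84) (nat_lit 1700678449) (nat_lit 32) (nat_lit 5) (nat_lit 35) (nat_lit 5) (nat_lit 33) (nat_lit 4) (nat_lit 296) (nat_lit 236) (nat_lit 188))) (XT.nd (nat_lit 94) (nat_lit 84) (nat_lit 0) (XT.lf (nat_lit 0) (nat_lit 7711890264) (nat_lit 252) (nat_lit 3244864446) (nat_lit 84) (nat_lit 9246032375) (nat_lit 32) (nat_lit 5) (nat_lit 35) (nat_lit 5) (nat_lit 33) (nat_lit 4) (nat_lit 297) (nat_lit 236) (nat_lit 187)) (XT.lf (nat_lit 0) (nat_lit 11348663167) (nat_lit 84) (nat_lit 3526632720) (nat_lit 168) (nat_lit 5948800065) (nat_lit 31) (nat_lit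 5) (nat_lit 32) (nat_lit 5) (nat_lit 33) (nat_lit 4) (nat_lit 298) (nat_lit 236) (nat_lit 186))))) (XT.nd (nat_lit 376) (nat_lit 336) (nat_lit 0) (XT.nd (nat_lit 188) (nat_lit 252) (nat_lit 0) (XT.nd (nat_lit 94) (nat_lit 0) (nat_lit 0) (XT.lf (nat_lit 0) (nat_lit 1041307689) (nat_lit 252) (nat_lit 16182264347) (nat_lit 84) (nat_lit 4244661485) (nat_lit 28) (nat_lit 5) (nat_lit 31) (nat_lit 5) (nat_lit 29) (nat_lit 4) (nat_lit 299) (nat_lit 236) (nat_lit 185)) (XT.lf (nat_lit 0) (nat_lit 8344586765) (nat_lit 252) (nat_lit 1289543570) (nat_lit 84) (nat_lit 12497392337) (nat_lit 28) (nat_lit 5) (nat_lit 31) (nat_lit 5) (nat_lit 29) (nat_lit 4) (nat_lit 300) (nat_lit 236) (nat_lit 184))) (XT.nd (nat_lit 94) (nat_lit 168) (nat_lit 0) (XT.lf (nat_lit 0) (nat_lit 14714551372) (nat_lit 84) (nat_lit 1473613102) (nat_lit 168) (nat_lit 6631055073) (nat_lit 27) (nat_lit 5) (nat_lit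 28) (nat_lit 5) (nat_lit 29) (nat_lit 4) (nat_lit 301) (nat_lit 236) (nat_lit 183)) (XT.lf (nat_lit 0) (nat_lit 1062259383) (nat_lit 168) (nat_lit 15482218105) (nat_lit 84) (nat_lit 6985740322) (nat_lit 25) (nat_lit 5) (nat_lit 27) (nat_lit 5) (nat_lit 26) (nat_lit 4) (nat_lit 302) (nat_lit 236) (nat_lit 182)))) (XT.nd (nat_lit 188) (nat_lit 252) (nat_lit 0) (XT.nd (nat_lit 94) (nat_lit 0) (nat_lit 0) (XT.lf (nat_lit 0) (nat_lit 805889884) (nat_lit 84) (nat_lit 8233492708) (nat_lit 168) (nat_lit 15225848606) (nat_lit 24) (nat_lit 5) (nat_lit 25) (nat_lit 5) (nat_lit 26) (nat_lit 4) (nat_lit 303) (nat_lit 236) (nat_lit 181)) (XT.lf (nat_lit 0) (nat_lit 17635503573) (nat_lit 168) (nat_lit 6694737256) (nat_lit 0) (nat_lit 695747345) (nat_lit 24) (nat_lit 5) (nat_lit 26) (nat_lit 4) (nat_lit 24) (nat_lit 4) (nat_lit 304) (nat_lit 236) (nat_lit 180))) (XT.nd (nat_lit 94) (nat_lit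 84) (nat_lit 0) (XT.lf (nat_lit 0) (nat_lit 1069707205) (nat_lit 168) (nat_lit 14803001226) (nat_lit 84) (nat_lit 9938429571) (nat_lit 22) (nat_lit 5) (nat_lit 24) (nat_lit 5) (nat_lit 23) (nat_lit 4) (nat_lit 305) (nat_lit 236) (nat_lit 179)) (XT.nd (nat_lit 94) (nat_lit 0) (nat_lit 0) (XT.lf (nat_lit 0) (nat_lit 3074216531) (nat_lit 84) (nat_lit 6742168218) (nat_lit 168) (nat_lit 16807510552) (nat_lit 21) (nat_lit 5) (nat_lit 22) (nat_lit 5) (nat_lit 23) (nat_lit 4) (nat_lit 306) (nat_lit 236) (nat_lit 178)) (XT.lf (nat_lit 0) (nat_lit 19248396318) (nat_lit 168) (nat_lit 5254095123) (nat_lit 0) (nat_lit 2962399017) (nat_lit 21) (nat_lit 5) (nat_lit 23) (nat_lit 4) (nat_lit 21) (nat_lit 4) (nat_lit 307) (nat_lit 236) (nat_lit 177))))))))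
noncomputable def xc74 : XT := (XT.nd (nat_lit 1598) (nat_lit 252) (nat_lit 0) (XT.nd (nat_lit 752) (nat_lit 756) (nat_lit 0) (XT.nd (nat_lit 376) (nat_lit 336) (nat_lit 0) (XT.nd (nat_lit 188) (nat_lit 168) (nat_lit 0) (XT.nd (nat_lit 94) (nat_lit 84) (nat_lit 0) (XT.lf (nat_lit 0) (nat_lit 1066511509) (nat_lit 168) (nat_lit 14145839148) (nat_lit 84) (nat_lit 13120548336) (nat_lit 19) (nat_lit 5) (nat_lit 21) (nat_lit 5) (nat_lit 20) (nat_lit 4) (nat_lit 308) (nat_lit 236) (nat_lit 176)) (XT.lf (nat_lit 0) (nat_lit 5486939825) (nat_lit 84) (nat_lit 5177996010) (nat_lit 168) (nat_lit 18566267464) (nat_lit 18) (nat_lit 5) (nat_lit 19) (nat_lit 5) (nat_lit 20) (nat_lit 4) (nat_lit 309) (nat_lit 236) (nat_lit 175))) (XT.nd (nat_lit 94) (nat_lit 168) (nat_lit 0) (XT.lf (nat_lit 0) (nat_lit 21021857991) (nat_lit 168) (nat_lit 3753039656) (nat_lit 0) (nat_lit 5385596343) (nat_lit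 18) (nat_lit 5) (nat_lit 20) (nat_lit 4) (nat_lit 18) (nat_lit 4) (nat_lit 310) (nat_lit 236) (nat_lit 174)) (XT.lf (nat_lit 0) (nat_lit 1055003319) (nat_lit 168) (nat_lit 13511505832) (nat_lit 84) (nat_lit 16553198328) (nat_lit 16) (nat_lit 5) (nat_lit 18) (nat_lit 5) (nat_lit 17) (nat_lit 4) (nat_lit 311) (nat_lit 236) (nat_lit 173)))) (XT.nd (nat_lit 188) (nat_lit 252) (nat_lit 0) (XT.nd (nat_lit 94) (nat_lit 0) (nat_lit 0) (XT.lf (nat_lit 0) (nat_lit 8060223620) (nat_lit 84) (nat_lit 3535228904) (nat_lit 168) (nat_lit 20516726133) (nat_lit 15) (nat_lit 5) (nat_lit 16) (nat_lit 5) (nat_lit 17) (nat_lit 4) (nat_lit 312) (nat_lit 236) (nat_lit 172)) (XT.lf (nat_lit 0) (nat_lit 22975060031) (nat_lit 168) (nat_lit 2183710420) (nat_lit 0) (nat_lit 7979896151) (nat_lit 15) (nat_lit 5) (nat_lit 17) (nat_lit 4) (nat_lit 15) (nat_lit 4) (nat_lit 313) (nat_lit 236) (nat_lit 171)))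 (XT.nd (nat_lit 94) (nat_lit 84) (nat_lit 0) (XT.lf (nat_lit 0) (nat_lit 1037079233) (nat_lit 168) (nat_lit 12900414960) (nat_lit 84) (nat_lit 20260805503) (nat_lit 13) (nat_lit 5) (nat_lit 15) (nat_lit 5) (nat_lit 14) (nat_lit 4) (nat_lit 314) (nat_lit 236) (nat_lit 170)) (XT.lf (nat_lit 0) (nat_lit 10812325823) (nat_lit 84) (nat_lit 1806468313) (nat_lit 168) (nat_lit 22675661550) (nat_lit 12) (nat_lit 5) (nat_lit 13) (nat_lit 5) (nat_lit 14) (nat_lit 4) (nat_lit 315) (nat_lit 236) (nat_lit 169))))) (XT.nd (nat_lit 376) (nat_lit 420) (nat_lit 0) (XT.nd (nat_lit 188) (nat_lit 168) (nat_lit 0) (XT.nd (nat_lit 94) (nat_lit 168) (nat_lit 0) (XT.lf (nat_lit 0) (nat_lit 25128568853) (nat_lit 168) (nat_lit 537079813) (nat_lit 0) (nat_lit 10762322108) (nat_lit 12) (nat_lit 5) (nat_lit 14) (nat_lit 4) (nat_lit 12) (nat_lit 4) (nat_lit 316) (nat_lit 236) (nat_lit 168)) (XT.lf (nat_lit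 0) (nat_lit 1014279453) (nat_lit 168) (nat_lit 12312694431) (nat_lit 84) (nat_lit 24271219983) (nat_lit 10) (nat_lit 5) (nat_lit 12) (nat_lit 5) (nat_lit 11) (nat_lit 4) (nat_lit 317) (nat_lit 236) (nat_lit 167))) (XT.nd (nat_lit 94) (nat_lit 84) (nat_lit 0) (XT.lf (nat_lit 0) (nat_lit 13746692367) (nat_lit 168) (nat_lit 25045107345) (nat_lit 0) (nat_lit 16727522) (nat_lit 9) (nat_lit 5) (nat_lit 11) (nat_lit 4) (nat_lit 9) (nat_lit 4) (nat_lit 318) (nat_lit 236) (nat_lit 166)) (XT.lf (nat_lit 0) (nat_lit 1236651763) (nat_lit 84) (nat_lit 26287249978) (nat_lit 84) (nat_lit 12535066741) (nat_lit 8) (nat_lit 4) (nat_lit 9) (nat_lit 5) (nat_lit 9) (nat_lit 4) (nat_lit 319) (nat_lit 236) (nat_lit 165)))) (XT.nd (nat_lit 188) (nat_lit 252) (nat_lit 0) (XT.nd (nat_lit 94) (nat_lit 84) (nat_lit 0) (XT.lf (nat_lit 0) (nat_lit 987851932) (nat_lit 168) (nat_lit 11748247149) (nat_lit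 84) (nat_lit 28615870580) (nat_lit 7) (nat_lit 5) (nat_lit 9) (nat_lit 5) (nat_lit 8) (nat_lit 4) (nat_lit 320) (nat_lit 236) (nat_lit 164)) (XT.lf (nat_lit 0) (nat_lit 15020949845) (nat_lit 168) (nat_lit 25781345062) (nat_lit 0) (nat_lit 1884286658) (nat_lit 6) (nat_lit 5) (nat_lit 8) (nat_lit 4) (nat_lit 6) (nat_lit 4) (nat_lit 321) (nat_lit 236) (nat_lit 163))) (XT.nd (nat_lit 94) (nat_lit 168) (nat_lit 0) (XT.lf (nat_lit 0) (nat_lit 3130390185) (nat_lit 84) (nat_lit 27045727715) (nat_lit 84) (nat_lit 13890785402) (nat_lit 5) (nat_lit 4) (nat_lit 6) (nat_lit 5) (nat_lit 6) (nat_lit 4) (nat_lit 322) (nat_lit 236) (nat_lit 162)) (XT.nd (nat_lit 94) (nat_lit 84) (nat_lit 0) (XT.lf (nat_lit 0) (nat_lit 958805101) (nat_lit 168) (nat_lit 11206800546) (nat_lit 84) (nat_lit 33329971571) (nat_lit 4) (nat_lit 5) (nat_lit 6) (nat_lit 5) (nat_lit 5) (nat_lit 4) (nat_lit 323) (nat_lit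 236) (nat_lit 161)) (XT.lf (nat_lit 0) (nat_lit 16426686087) (nat_lit 168) (nat_lit 26674681532) (nat_lit 0) (nat_lit 3865799697) (nat_lit 3) (nat_lit 5) (nat_lit 5) (nat_lit 4) (nat_lit 3) (nat_lit 4) (nat_lit 324) (nat_lit 236) (nat_lit 160))))))) (XT.nd (nat_lit 752) (nat_lit 0) (nat_lit 0) (XT.nd (nat_lit 376) (nat_lit 0) (nat_lit 0) (XT.nd (nat_lit 188) (nat_lit 84) (nat_lit 0) (XT.nd (nat_lit 94) (nat_lit 84) (nat_lit 0) (XT.lf (nat_lit 0) (nat_lit 5139555938) (nat_lit 84) (nat_lit 27963476055) (nat_lit 84) (nat_lit 15387551383) (nat_lit 2) (nat_lit 4) (nat_lit 3) (nat_lit 5) (nat_lit 3) (nat_lit 4) (nat_lit 325) (nat_lit 236) (nat_lit 159)) (XT.lf (nat_lit 0) (nat_lit 927951207) (nat_lit 168) (nat_lit 10687946869) (nat_lit 84) (nat_lit 38452780552) (nat_lit 1) (nat_lit 5) (nat_lit 3) (nat_lit 5) (nat_lit 2) (nat_lit 4) (nat_lit 326) (nat_lit 236) (nat_lit 158))) (XT.nd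 (nat_lit 94) (nat_lit 0) (nat_lit 0) (XT.lf (nat_lit 0) (nat_lit 75782611418) (nat_lit 0) (nat_lit 0) (nat_lit 0) (nat_lit 0) (nat_lit 0) (nat_lit 0) (nat_lit 1) (nat_lit 0) (nat_lit 1) (nat_lit 0) (nat_lit 327) (nat_lit 236) (nat_lit 157)) (XT.lf (nat_lit 0) (nat_lit 79525746553) (nat_lit 0) (nat_lit 0) (nat_lit 0) (nat_lit 0) (nat_lit 0) (nat_lit 0) (nat_lit 1) (nat_lit 0) (nat_lit 1) (nat_lit 0) (nat_lit 328) (nat_lit 236) (nat_lit 156)))) (XT.nd (nat_lit 188) (nat_lit 0) (nat_lit 0) (XT.nd (nat_lit 94) (nat_lit 0) (nat_lit 0) (XT.lf (nat_lit 0) (nat_lit 83456125442) (nat_lit 0) (nat_lit 0) (nat_lit 0) (nat_lit 0) (nat_lit 0) (nat_lit 0) (nat_lit 1) (nat_lit 0) (nat_lit 1) (nat_lit 0) (nat_lit 329) (nat_lit 236) (nat_lit 155)) (XT.lf (nat_lit 0) (nat_lit 87583106129) (nat_lit 0) (nat_lit 0) (nat_lit 0) (nat_lit 0) (nat_lit 0) (nat_lit 0) (nat_lit 1) (nat_lit 0) (nat_lit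 1) (nat_lit 0) (nat_lit 330) (nat_lit 236) (nat_lit 154))) (XT.nd (nat_lit 94) (nat_lit 0) (nat_lit 0) (XT.lf (nat_lit 0) (nat_lit 91916514759) (nat_lit 0) (nat_lit 0) (nat_lit 0) (nat_lit 0) (nat_lit 0) (nat_lit 0) (nat_lit 1) (nat_lit 0) (nat_lit 1) (nat_lit 0) (nat_lit 331) (nat_lit 236) (nat_lit 153)) (XT.lf (nat_lit 0) (nat_lit 96466668972) (nat_lit 0) (nat_lit 0) (nat_lit 0) (nat_lit 0) (nat_lit 0) (nat_lit 0) (nat_lit 1) (nat_lit 0) (nat_lit 1) (nat_lit 0) (nat_lit 332) (nat_lit 236) (nat_lit 152))))) (XT.nd (nat_lit 376) (nat_lit 0) (nat_lit 0) (XT.nd (nat_lit 188) (nat_lit 0) (nat_lit 0) (XT.nd (nat_lit 94) (nat_lit 0) (nat_lit 0) (XT.lf (nat_lit 0) (nat_lit 101244402468) (nat_lit 0) (nat_lit 0) (nat_lit 0) (nat_lit 0) (nat_lit 0) (nat_lit 0) (nat_lit 1) (nat_lit 0) (nat_lit 1) (nat_lit 0) (nat_lit 333) (nat_lit 236) (nat_lit 151)) (XT.lf (nat_lit 0) (nat_lit 106261090803)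 (nat_lit 0) (nat_lit 0) (nat_lit 0) (nat_lit 0) (nat_lit 0) (nat_lit 0) (nat_lit 1) (nat_lit 0) (nat_lit 1) (nat_lit 0) (nat_lit 334) (nat_lit 236) (nat_lit 150))) (XT.nd (nat_lit 94) (nat_lit 0) (nat_lit 0) (XT.lf (nat_lit 0) (nat_lit 111528678473) (nat_lit 0) (nat_lit 0) (nat_lit 0) (nat_lit 0) (nat_lit 0) (nat_lit 0) (nat_lit 1) (nat_lit 0) (nat_lit 1) (nat_lit 0) (nat_lit 335) (nat_lit 236) (nat_lit 149)) (XT.lf (nat_lit 0) (nat_lit 117059707354) (nat_lit 0) (nat_lit 0) (nat_lit 0) (nat_lit 0) (nat_lit 0) (nat_lit 0) (nat_lit 1) (nat_lit 0) (nat_lit 1) (nat_lit 0) (nat_lit 336) (nat_lit 236) (nat_lit 148)))) (XT.nd (nat_lit 188) (nat_lit 0) (nat_lit 0) (XT.nd (nat_lit 94) (nat_lit 0) (nat_lit 0) (XT.lf (nat_lit 0) (nat_lit 122867346562) (nat_lit 0) (nat_lit 0) (nat_lit 0) (nat_lit 0) (nat_lit 0) (nat_lit 0) (nat_lit 1) (nat_lit 0) (nat_lit 1) (nat_lit 0) (nat_lit 337)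 (nat_lit 236) (nat_lit 147)) (XT.lf (nat_lit 0) (nat_lit 128965423809) (nat_lit 0) (nat_lit 0) (nat_lit 0) (nat_lit 0) (nat_lit 0) (nat_lit 0) (nat_lit 1) (nat_lit 0) (nat_lit 1) (nat_lit 0) (nat_lit 338) (nat_lit 236) (nat_lit 146))) (XT.nd (nat_lit 36472) (nat_lit 0) (nat_lit 15036) (XT.lf (nat_lit 0) (nat_lit 135368458327) (nat_lit 0) (nat_lit 0) (nat_lit 0) (nat_lit 0) (nat_lit 0) (nat_lit 0) (nat_lit 1) (nat_lit 0) (nat_lit 1) (nat_lit 0) (nat_lit 339) (nat_lit 236) (nat_lit 145)) (XT.nd (nat_lit 94) (nat_lit 84) (nat_lit 0) (XT.lf (nat_lit 0) (nat_lit 1068890710) (nat_lit 252) (nat_lit 1101617159) (nat_lit 252) (nat_lit 1101617159) (nat_lit 180) (nat_lit 4) (nat_lit 183) (nat_lit 5) (nat_lit 183) (nat_lit 4) (nat_lit 246) (nat_lit 237) (nat_lit 237)) (XT.lf (nat_lit 0) (nat_lit 1034679532) (nat_lit 336) (nat_lit 402821404) (nat_lit 84) (nat_lit 5145870210) (nat_lit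 179) (nat_lit 5) (nat_lit 183) (nat_lit 5) (nat_lit 180) (nat_lit 4) (nat_lit 247) (nat_lit 237) (nat_lit 236))))))))
noncomputable def xc75 : XT := (XT.nd (nat_lit 1598) (nat_lit 3444) (nat_lit 0) (XT.nd (nat_lit 752) (nat_lit 3192) (nat_lit 0) (XT.nd (nat_lit 376) (nat_lit 2100) (nat_lit 0) (XT.nd (nat_lit 188) (nat_lit 588) (nat_lit 0) (XT.nd (nat_lit 94) (nat_lit 504) (nat_lit 0) (XT.lf (nat_lit 0) (nat_lit 3754483922) (nat_lit 336) (nat_lit 480699692) (nat_lit 420) (nat_lit 2393721861) (nat_lit 175) (nat_lit 5) (nat_lit 179) (nat_lit 5) (nat_lit 180) (nat_lit 4) (nat_lit 248) (nat_lit 237) (nat_lit 235)) (XT.lf (nat_lit 0) (nat_lit 747173106) (nat_lit 504) (nat_lit 5341540171) (nat_lit 84) (nat_lit 594406322) (nat_lit 169) (nat_lit 5) (nat_lit 175) (nat_lit 5) (nat_lit 170) (nat_lit 4) (nat_lit 249) (nat_lit 237) (nat_lit 234))) (XT.nd (nat_lit 94) (nat_lit 588) (nat_lit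 0) (XT.lf (nat_lit 0) (nat_lit 3849145124) (nat_lit 504) (nat_lit 1058928194) (nat_lit 84) (nat_lit 1835785190) (nat_lit 169) (nat_lit 5) (nat_lit 175) (nat_lit 5) (nat_lit 170) (nat_lit 4) (nat_lit 250) (nat_lit 237) (nat_lit 233)) (XT.lf (nat_lit 0) (nat_lit 175824441) (nat_lit 588) (nat_lit 3403843452) (nat_lit 84) (nat_lit 3233393410) (nat_lit 162) (nat_lit 5) (nat_lit 169) (nat_lit 5) (nat_lit 163) (nat_lit 5) (nat_lit 251) (nat_lit 237) (nat_lit 232)))) (XT.nd (nat_lit 188) (nat_lit 1512) (nat_lit 0) (XT.nd (nat_lit 94) (nat_lit 0) (nat_lit 0) (XT.lf (nat_lit 0) (nat_lit 1102242439) (nat_lit 588) (nat_lit 2074318029) (nat_lit 672) (nat_lit 3713093420) (nat_lit 155) (nat_lit 5) (nat_lit 162) (nat_lit 5) (nat_lit 163) (nat_lit 5) (nat_lit 252) (nat_lit 237) (nat_lit 231)) (XT.lf (nat_lit 0) (nat_lit 5816036985) (nat_lit 588) (nat_lit 413028128) (nat_lit 672) (nat_lit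 745924397) (nat_lit 155) (nat_lit 5) (nat_lit 162) (nat_lit 5) (nat_lit 163) (nat_lit 5) (nat_lit 253) (nat_lit 237) (nat_lit 230))) (XT.nd (nat_lit 94) (nat_lit 756) (nat_lit 0) (XT.lf (nat_lit 0) (nat_lit 2222352068) (nat_lit 756) (nat_lit 3443682352) (nat_lit 84) (nat_lit 1400278133) (nat_lit 146) (nat_lit 5) (nat_lit 155) (nat_lit 5) (nat_lit 147) (nat_lit 5) (nat_lit 254) (nat_lit 237) (nat_lit 229)) (XT.lf (nat_lit 0) (nat_lit 1408433792) (nat_lit 756) (nat_lit 3808664047) (nat_lit 840) (nat_lit 1949336324) (nat_lit 137) (nat_lit 5) (nat_lit 146) (nat_lit 5) (nat_lit 147) (nat_lit 5) (nat_lit 255) (nat_lit 237) (nat_lit 228))))) (XT.nd (nat_lit 376) (nat_lit 1680) (nat_lit 0) (XT.nd (nat_lit 188) (nat_lit 588) (nat_lit 0) (XT.nd (nat_lit 94) (nat_lit 840) (nat_lit 0) (XT.lf (nat_lit 0) (nat_lit 971301452) (nat_lit 840) (nat_lit 806018969) (nat_lit 84) (nat_lit 5497582028)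 (nat_lit 136) (nat_lit 5) (nat_lit 146) (nat_lit 5) (nat_lit 137) (nat_lit 5) (nat_lit 256) (nat_lit 237) (nat_lit 227)) (XT.lf (nat_lit 0) (nat_lit 3911541966) (nat_lit 924) (nat_lit 3031810342) (nat_lit 84) (nat_lit 446889958) (nat_lit 126) (nat_lit 5) (nat_lit 137) (nat_lit 5) (nat_lit 127) (nat_lit 5) (nat_lit 257) (nat_lit 237) (nat_lit 226))) (XT.nd (nat_lit 94) (nat_lit 84) (nat_lit 0) (XT.lf (nat_lit 0) (nat_lit 2199731624) (nat_lit 504) (nat_lit 4744516372) (nat_lit 588) (nat_lit 569828404) (nat_lit 120) (nat_lit 5) (nat_lit 126) (nat_lit 5) (nat_lit 127) (nat_lit 5) (nat_lit 258) (nat_lit 237) (nat_lit 225)) (XT.lf (nat_lit 0) (nat_lit 2327293898) (nat_lit 588) (nat_lit 24833519) (nat_lit 84) (nat_lit 5293919038) (nat_lit 119) (nat_lit 5) (nat_lit 126) (nat_lit 5) (nat_lit 120) (nat_lit 5) (nat_lit 259) (nat_lit 237) (nat_lit 224)))) (XT.nd (nat_lit 188) (nat_lit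 756) (nat_lit 0) (XT.nd (nat_lit 94) (nat_lit 504) (nat_lit 0) (XT.lf (nat_lit 0) (nat_lit 5317192595) (nat_lit 504) (nat_lit 2227052040) (nat_lit 84) (nat_lit 241549793) (nat_lit 114) (nat_lit 5) (nat_lit 120) (nat_lit 5) (nat_lit 115) (nat_lit 5) (nat_lit 260) (nat_lit 237) (nat_lit 223)) (XT.lf (nat_lit 0) (nat_lit 479182262) (nat_lit 504) (nat_lit 4519462389) (nat_lit 84) (nat_lit 2934881102) (nat_lit 108) (nat_lit 5) (nat_lit 114) (nat_lit 5) (nat_lit 109) (nat_lit 5) (nat_lit 261) (nat_lit 237) (nat_lit 222))) (XT.nd (nat_lit 94) (nat_lit 420) (nat_lit 0) (XT.lf (nat_lit 0) (nat_lit 1184297692) (nat_lit 336) (nat_lit 2245535109) (nat_lit 420) (nat_lit 4659865477) (nat_lit 104) (nat_lit 5) (nat_lit 108) (nat_lit 5) (nat_lit 109) (nat_lit 5) (nat_lit 262) (nat_lit 237) (nat_lit 221)) (XT.nd (nat_lit 94) (nat_lit 420) (nat_lit 0) (XT.lf (nat_lit 0) (nat_lit 6500618147)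 (nat_lit 420) (nat_lit 1074465385) (nat_lit 84) (nat_lit 679965784) (nat_lit 104) (nat_lit 5) (nat_lit 109) (nat_lit 5) (nat_lit 105) (nat_lit 5) (nat_lit 263) (nat_lit 237) (nat_lit 220)) (XT.lf (nat_lit 0) (nat_lit 1260536575) (nat_lit 420) (nat_lit 3412940830) (nat_lit 84) (nat_lit 3753891047) (nat_lit 99) (nat_lit 5) (nat_lit 104) (nat_lit 5) (nat_lit 100) (nat_lit 5) (nat_lit 264) (nat_lit 237) (nat_lit 219))))))) (XT.nd (nat_lit 752) (nat_lit 1512) (nat_lit 0) (XT.nd (nat_lit 376) (nat_lit 924) (nat_lit 0) (XT.nd (nat_lit 188) (nat_lit 336) (nat_lit 0) (XT.nd (nat_lit 94) (nat_lit 336) (nat_lit 0) (XT.lf (nat_lit 0) (nat_lit 2758932044) (nat_lit 336) (nat_lit 1561533821) (nat_lit 420) (nat_lit 4288740942) (nat_lit 95) (nat_lit 5) (nat_lit 99) (nat_lit 5) (nat_lit 100) (nat_lit 5) (nat_lit 265) (nat_lit 237) (nat_lit 218)) (XT.lf (nat_lit 0) (nat_lit 405482458) (nat_lit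 336) (nat_lit 7113794144) (nat_lit 420) (nat_lit 1281566230) (nat_lit 91) (nat_lit 5) (nat_lit 95) (nat_lit 5) (nat_lit 96) (nat_lit 5) (nat_lit 266) (nat_lit 237) (nat_lit 217))) (XT.nd (nat_lit 94) (nat_lit 252) (nat_lit 0) (XT.lf (nat_lit 0) (nat_lit 1837589032) (nat_lit 420) (nat_lit 2018229403) (nat_lit 84) (nat_lit 5143694543) (nat_lit 90) (nat_lit 5) (nat_lit 95) (nat_lit 5) (nat_lit 91) (nat_lit 5) (nat_lit 267) (nat_lit 237) (nat_lit 216)) (XT.lf (nat_lit 0) (nat_lit 4671261969) (nat_lit 252) (nat_lit 371649325) (nat_lit 336) (nat_lit 4165490959) (nat_lit 87) (nat_lit 5) (nat_lit 90) (nat_lit 5) (nat_lit 91) (nat_lit 5) (nat_lit 268) (nat_lit 237) (nat_lit 215)))) (XT.nd (nat_lit 188) (nat_lit 504) (nat_lit 0) (XT.nd (nat_lit 94) (nat_lit 84) (nat_lit 0) (XT.lf (nat_lit 0) (nat_lit 2221383442) (nat_lit 336) (nat_lit 6210312269) (nat_lit 420) (nat_lit 994880481)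 (nat_lit 83) (nat_lit 5) (nat_lit 87) (nat_lit 5) (nat_lit 88) (nat_lit 5) (nat_lit 269) (nat_lit 237) (nat_lit 214)) (XT.lf (nat_lit 0) (nat_lit 2247180772) (nat_lit 420) (nat_lit 358350764) (nat_lit 84) (nat_lit 7048923515) (nat_lit 82) (nat_lit 5) (nat_lit 87) (nat_lit 5) (nat_lit 83) (nat_lit 5) (nat_lit 270) (nat_lit 237) (nat_lit 213))) (XT.nd (nat_lit 94) (nat_lit 252) (nat_lit 0) (XT.lf (nat_lit 0) (nat_lit 5653571399) (nat_lit 336) (nat_lit 3007972842) (nat_lit 84) (nat_lit 1229585095) (nat_lit 79) (nat_lit 5) (nat_lit 83) (nat_lit 5) (nat_lit 80) (nat_lit 5) (nat_lit 271) (nat_lit 237) (nat_lit 212)) (XT.lf (nat_lit 0) (nat_lit 4322116060) (nat_lit 252) (nat_lit 4934303831) (nat_lit 336) (nat_lit 881910528) (nat_lit 76) (nat_lit 5) (nat_lit 79) (nat_lit 5) (nat_lit 80) (nat_lit 5) (nat_lit 272) (nat_lit 237) (nat_lit 211))))) (XT.nd (nat_lit 376) (nat_lit 672)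 (nat_lit 0) (XT.nd (nat_lit 188) (nat_lit 504) (nat_lit 0) (XT.nd (nat_lit 94) (nat_lit 0) (nat_lit 0) (XT.lf (nat_lit 0) (nat_lit 1602964013) (nat_lit 252) (nat_lit 941396788) (nat_lit 336) (nat_lit 7852099346) (nat_lit 72) (nat_lit 5) (nat_lit 75) (nat_lit 5) (nat_lit 76) (nat_lit 5) (nat_lit 273) (nat_lit 237) (nat_lit 210)) (XT.lf (nat_lit 0) (nat_lit 6175266953) (nat_lit 336) (nat_lit 1269936432) (nat_lit 84) (nat_lit 3218422138) (nat_lit 72) (nat_lit 5) (nat_lit 76) (nat_lit 5) (nat_lit 73) (nat_lit 5) (nat_lit 274) (nat_lit 237) (nat_lit 209))) (XT.nd (nat_lit 94) (nat_lit 252) (nat_lit 0) (XT.lf (nat_lit 0) (nat_lit 6699695606) (nat_lit 252) (nat_lit 3324327435) (nat_lit 336) (nat_lit 918310895) (nat_lit 69) (nat_lit 5) (nat_lit 72) (nat_lit 5) (nat_lit 73) (nat_lit 5) (nat_lit 275) (nat_lit 237) (nat_lit 208)) (XT.lf (nat_lit 0) (nat_lit 2755171441) (nat_lit 252)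 (nat_lit 7423680893) (nat_lit 84) (nat_lit 1053140156) (nat_lit 66) (nat_lit 5) (nat_lit 69) (nat_lit 5) (nat_lit 67) (nat_lit 5) (nat_lit 276) (nat_lit 237) (nat_lit 207)))) (XT.nd (nat_lit 188) (nat_lit 420) (nat_lit 0) (XT.nd (nat_lit 94) (nat_lit 0) (nat_lit 0) (XT.lf (nat_lit 0) (nat_lit 697141854) (nat_lit 252) (nat_lit 5940905291) (nat_lit 336) (nat_lit 4894505089) (nat_lit 63) (nat_lit 5) (nat_lit 66) (nat_lit 5) (nat_lit 67) (nat_lit 5) (nat_lit 277) (nat_lit 237) (nat_lit 206)) (XT.lf (nat_lit 0) (nat_lit 9352848015) (nat_lit 252) (nat_lit 1407996550) (nat_lit 336) (nat_lit 1085006501) (nat_lit 63) (nat_lit 5) (nat_lit 66) (nat_lit 5) (nat_lit 67) (nat_lit 5) (nat_lit 278) (nat_lit 237) (nat_lit 205))) (XT.nd (nat_lit 94) (nat_lit 168) (nat_lit 0) (XT.lf (nat_lit 0) (nat_lit 2896537502) (nat_lit 252) (nat_lit 5928176552) (nat_lit 84) (nat_lit 3344081866) (nat_lit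 60) (nat_lit 5) (nat_lit 63) (nat_lit 5) (nat_lit 61) (nat_lit 5) (nat_lit 279) (nat_lit 237) (nat_lit 204)) (XT.nd (nat_lit 94) (nat_lit 0) (nat_lit 0) (XT.lf (nat_lit 0) (nat_lit 2917175903) (nat_lit 168) (nat_lit 4158688083) (nat_lit 252) (nat_lit 5429376249) (nat_lit 58) (nat_lit 5) (nat_lit 60) (nat_lit 5) (nat_lit 61) (nat_lit 5) (nat_lit 280) (nat_lit 237) (nat_lit 203)) (XT.lf (nat_lit 0) (nat_lit 11502313238) (nat_lit 252) (nat_lit 583337141) (nat_lit 84) (nat_lit 770948565) (nat_lit 58) (nat_lit 5) (nat_lit 61) (nat_lit 5) (nat_lit 59) (nat_lit 4) (nat_lit 281) (nat_lit 237) (nat_lit 202))))))))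
noncomputable def xc76 : XT := (XT.nd (nat_lit 1504) (nat_lit 1512) (nat_lit 0) (XT.nd (nat_lit 752) (nat_lit 1008) (nat_lit 0) (XT.nd (nat_lit 376) (nat_lit 504) (nat_lit 0) (XT.nd (nat_lit 188) (nat_lit 252) (nat_lit 0) (XT.nd (nat_lit 94) (nat_lit 168) (nat_lit 0) (XT.lf (nat_lit 0) (nat_lit 2969545642) (nat_lit 252) (nat_lit 4297268056) (nat_lit 84) (nat_lit 5949499340) (nat_lit 55) (nat_lit 5) (nat_lit 58) (nat_lit 5) (nat_lit 56) (nat_lit 5) (nat_lit 282) (nat_lit 237) (nat_lit 201)) (XT.lf (nat_lit 0) (nat_lit 5350569755) (nat_lit 168) (nat_lit 2135615535) (nat_lit 252) (nat_lit 6105610997) (nat_lit 53) (nat_lit 5) (nat_lit 55) (nat_lit 5) (nat_lit 56) (nat_lit 5) (nat_lit 283) (nat_lit 237) (nat_lit 200))) (XT.nd (nat_lit 94) (nat_lit 84) (nat_lit 0) (XT.lf (nat_lit 0) (nat_lit 1521964092) (nat_lit 168) (nat_lit 10784508706) (nat_lit 252) (nat_lit 1675690104) (nat_lit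 51) (nat_lit 5) (nat_lit 53) (nat_lit 5) (nat_lit 54) (nat_lit 4) (nat_lit 284) (nat_lit 237) (nat_lit 199)) (XT.lf (nat_lit 0) (nat_lit 2987013806) (nat_lit 252) (nat_lit 2532104301) (nat_lit 84) (nat_lit 8865280330) (nat_lit 50) (nat_lit 5) (nat_lit 53) (nat_lit 5) (nat_lit 51) (nat_lit 5) (nat_lit 285) (nat_lit 237) (nat_lit 198)))) (XT.nd (nat_lit 188) (nat_lit 252) (nat_lit 0) (XT.nd (nat_lit 94) (nat_lit 84) (nat_lit 0) (XT.lf (nat_lit 0) (nat_lit 7886387707) (nat_lit 252) (nat_lit 6800097211) (nat_lit 84) (nat_lit 115894865) (nat_lit 48) (nat_lit 5) (nat_lit 51) (nat_lit 5) (nat_lit 49) (nat_lit 4) (nat_lit 286) (nat_lit 237) (nat_lit 197)) (XT.lf (nat_lit 0) (nat_lit 3825967301) (nat_lit 84) (nat_lit 9332194554) (nat_lit 168) (nat_lit 2076726763) (nat_lit 47) (nat_lit 5) (nat_lit 48) (nat_lit 5) (nat_lit 49) (nat_lit 4) (nat_lit 287) (nat_lit 237) (nat_lit 196)))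 (XT.nd (nat_lit 94) (nat_lit 168) (nat_lit 0) (XT.lf (nat_lit 0) (nat_lit 2959314352) (nat_lit 168) (nat_lit 630420941) (nat_lit 84) (nat_lit 12094393401) (nat_lit 46) (nat_lit 5) (nat_lit 48) (nat_lit 5) (nat_lit 47) (nat_lit 5) (nat_lit 288) (nat_lit 237) (nat_lit 195)) (XT.lf (nat_lit 0) (nat_lit 8325118840) (nat_lit 252) (nat_lit 5300127886) (nat_lit 84) (nat_lit 2521494164) (nat_lit 44) (nat_lit 5) (nat_lit 47) (nat_lit 5) (nat_lit 45) (nat_lit 4) (nat_lit 289) (nat_lit 237) (nat_lit 194))))) (XT.nd (nat_lit 376) (nat_lit 588) (nat_lit 0) (XT.nd (nat_lit 188) (nat_lit 84) (nat_lit 0) (XT.nd (nat_lit 94) (nat_lit 252) (nat_lit 0) (XT.lf (nat_lit 0) (nat_lit 6317942765) (nat_lit 84) (nat_lit 7747195313) (nat_lit 168) (nat_lit 2562049391) (nat_lit 43) (nat_lit 5) (nat_lit 44) (nat_lit 5) (nat_lit 45) (nat_lit 4) (nat_lit 290) (nat_lit 237) (nat_lit 193)) (XT.lf (nat_lit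 0) (nat_lit 1459867027) (nat_lit 168) (nat_lit 1457727151) (nat_lit 252) (nat_lit 14209158772) (nat_lit 40) (nat_lit 5) (nat_lit 42) (nat_lit 5) (nat_lit 43) (nat_lit 5) (nat_lit 291) (nat_lit 237) (nat_lit 192))) (XT.nd (nat_lit 94) (nat_lit 84) (nat_lit 0) (XT.lf (nat_lit 0) (nat_lit 8781185089) (nat_lit 252) (nat_lit 3705793818) (nat_lit 84) (nat_lit 5152414416) (nat_lit 40) (nat_lit 5) (nat_lit 43) (nat_lit 5) (nat_lit 41) (nat_lit 4) (nat_lit 292) (nat_lit 237) (nat_lit 191)) (XT.lf (nat_lit 0) (nat_lit 9009860918) (nat_lit 84) (nat_lit 6033866477) (nat_lit 168) (nat_lit 3128649728) (nat_lit 39) (nat_lit 5) (nat_lit 40) (nat_lit 5) (nat_lit 41) (nat_lit 4) (nat_lit 293) (nat_lit 237) (nat_lit 190)))) (XT.nd (nat_lit 188) (nat_lit 336) (nat_lit 0) (XT.nd (nat_lit 94) (nat_lit 0) (nat_lit 0) (XT.lf (nat_lit 0) (nat_lit 2871884290) (nat_lit 252) (nat_lit 15014066904) (nat_lit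 84) (nat_lit 839959308) (nat_lit 36) (nat_lit 5) (nat_lit 39) (nat_lit 5) (nat_lit 37) (nat_lit 4) (nat_lit 294) (nat_lit 237) (nat_lit 189)) (XT.lf (nat_lit 0) (nat_lit 9265699470) (nat_lit 252) (nat_lit 2012615122) (nat_lit 84) (nat_lit 8016321612) (nat_lit 36) (nat_lit 5) (nat_lit 39) (nat_lit 5) (nat_lit 37) (nat_lit 4) (nat_lit 295) (nat_lit 237) (nat_lit 188))) (XT.nd (nat_lit 94) (nat_lit 252) (nat_lit 0) (XT.lf (nat_lit 0) (nat_lit 11916967154) (nat_lit 84) (nat_lit 4192834860) (nat_lit 168) (nat_lit 3775466346) (nat_lit 35) (nat_lit 5) (nat_lit 36) (nat_lit 5) (nat_lit 37) (nat_lit 4) (nat_lit 296) (nat_lit 237) (nat_lit 187)) (XT.lf (nat_lit 0) (nat_lit 2829655260) (nat_lit 252) (nat_lit 14393638701) (nat_lit 84) (nat_lit 3273544807) (nat_lit 32) (nat_lit 5) (nat_lit 35) (nat_lit 5) (nat_lit 33) (nat_lit 4) (nat_lit 297) (nat_lit 237) (nat_lit 186)))))) (XT.nd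 (nat_lit 752) (nat_lit 840) (nat_lit 0) (XT.nd (nat_lit 376) (nat_lit 252) (nat_lit 0) (XT.nd (nat_lit 188) (nat_lit 336) (nat_lit 0) (XT.nd (nat_lit 94) (nat_lit 84) (nat_lit 0) (XT.lf (nat_lit 0) (nat_lit 9789047536) (nat_lit 252) (nat_lit 213983500) (nat_lit 84) (nat_lit 11125317266) (nat_lit 32) (nat_lit 5) (nat_lit 35) (nat_lit 5) (nat_lit 33) (nat_lit 4) (nat_lit 298) (nat_lit 237) (nat_lit 185)) (XT.lf (nat_lit 0) (nat_lit 15057718491) (nat_lit 84) (nat_lit 2221403867) (nat_lit 168) (nat_lit 4503175307) (nat_lit 31) (nat_lit 5) (nat_lit 32) (nat_lit 5) (nat_lit 33) (nat_lit 4) (nat_lit 299) (nat_lit 237) (nat_lit 184))) (XT.nd (nat_lit 94) (nat_lit 84) (nat_lit 0) (XT.lf (nat_lit 0) (nat_lit 2772677668) (nat_lit 252) (nat_lit 13785995231) (nat_lit 84) (nat_lit 5899007069) (nat_lit 28) (nat_lit 5) (nat_lit 31) (nat_lit 5) (nat_lit 29) (nat_lit 4) (nat_lit 300) (nat_lit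 237) (nat_lit 183)) (XT.lf (nat_lit 0) (nat_lit 1754891827) (nat_lit 84) (nat_lit 8633660763) (nat_lit 168) (nat_lit 12768209391) (nat_lit 27) (nat_lit 5) (nat_lit 28) (nat_lit 5) (nat_lit 29) (nat_lit 4) (nat_lit 301) (nat_lit 237) (nat_lit 182)))) (XT.nd (nat_lit 188) (nat_lit 84) (nat_lit 0) (XT.nd (nat_lit 94) (nat_lit 168) (nat_lit 0) (XT.lf (nat_lit 0) (nat_lit 18453786196) (nat_lit 84) (nat_lit 113858437) (nat_lit 168) (nat_lit 5314032294) (nat_lit 27) (nat_lit 5) (nat_lit 28) (nat_lit 5) (nat_lit 29) (nat_lit 4) (nat_lit 302) (nat_lit 237) (nat_lit 181)) (XT.lf (nat_lit 0) (nat_lit 2704625239) (nat_lit 168) (nat_lit 13193499109) (nat_lit 84) (nat_lit 8729141709) (nat_lit 25) (nat_lit 5) (nat_lit 27) (nat_lit 5) (nat_lit 26) (nat_lit 4) (nat_lit 303) (nat_lit 237) (nat_lit 180))) (XT.nd (nat_lit 94) (nat_lit 0) (nat_lit 0) (XT.lf (nat_lit 0) (nat_lit 3859613798) (nat_lit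 84) (nat_lit 7192360179) (nat_lit 168) (nat_lit 14348487668) (nat_lit 24) (nat_lit 5) (nat_lit 25) (nat_lit 5) (nat_lit 26) (nat_lit 4) (nat_lit 304) (nat_lit 237) (nat_lit 179)) (XT.lf (nat_lit 0) (nat_lit 20025187939) (nat_lit 168) (nat_lit 4106828270) (nat_lit 0) (nat_lit 2069875914) (nat_lit 24) (nat_lit 5) (nat_lit 26) (nat_lit 4) (nat_lit 24) (nat_lit 4) (nat_lit 305) (nat_lit 237) (nat_lit 178))))) (XT.nd (nat_lit 376) (nat_lit 420) (nat_lit 0) (XT.nd (nat_lit 188) (nat_lit 168) (nat_lit 0) (XT.nd (nat_lit 94) (nat_lit 84) (nat_lit 0) (XT.lf (nat_lit 0) (nat_lit 2628469934) (nat_lit 168) (nat_lit 12617873620) (nat_lit 84) (nat_lit 11780087479) (nat_lit 22) (nat_lit 5) (nat_lit 24) (nat_lit 5) (nat_lit 23) (nat_lit 4) (nat_lit 306) (nat_lit 237) (nat_lit 177)) (XT.lf (nat_lit 0) (nat_lit 6106023127) (nat_lit 84) (nat_lit 5679713494) (nat_lit 168) (nat_lit 16095426813)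 (nat_lit 21) (nat_lit 5) (nat_lit 22) (nat_lit 5) (nat_lit 23) (nat_lit 4) (nat_lit 307) (nat_lit 237) (nat_lit 176))) (XT.nd (nat_lit 94) (nat_lit 168) (nat_lit 0) (XT.lf (nat_lit 0) (nat_lit 21639753027) (nat_lit 168) (nat_lit 2726160548) (nat_lit 0) (nat_lit 4400774561) (nat_lit 21) (nat_lit 5) (nat_lit 23) (nat_lit 4) (nat_lit 21) (nat_lit 4) (nat_lit 308) (nat_lit 237) (nat_lit 175)) (XT.lf (nat_lit 0) (nat_lit 2546608774) (nat_lit 168) (nat_lit 12060326570) (nat_lit 84) (nat_lit 15071270014) (nat_lit 19) (nat_lit 5) (nat_lit 21) (nat_lit 5) (nat_lit 20) (nat_lit 4) (nat_lit 309) (nat_lit 237) (nat_lit 174)))) (XT.nd (nat_lit 188) (nat_lit 336) (nat_lit 0) (XT.nd (nat_lit 94) (nat_lit 0) (nat_lit 0) (XT.lf (nat_lit 0) (nat_lit 8509046117) (nat_lit 84) (nat_lit 4090866913) (nat_lit 168) (nat_lit 18022763913) (nat_lit 18) (nat_lit 5) (nat_lit 19) (nat_lit 5) (nat_lit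 20) (nat_lit 4) (nat_lit 310) (nat_lit 237) (nat_lit 173)) (XT.lf (nat_lit 0) (nat_lit 23427946782) (nat_lit 168) (nat_lit 1277043507) (nat_lit 0) (nat_lit 6895778605) (nat_lit 18) (nat_lit 5) (nat_lit 20) (nat_lit 4) (nat_lit 18) (nat_lit 4) (nat_lit 311) (nat_lit 237) (nat_lit 172))) (XT.nd (nat_lit 94) (nat_lit 168) (nat_lit 0) (XT.lf (nat_lit 0) (nat_lit 2460968059) (nat_lit 168) (nat_lit 11521651674) (nat_lit 84) (nat_lit 18625412392) (nat_lit 16) (nat_lit 5) (nat_lit 18) (nat_lit 5) (nat_lit 17) (nat_lit 4) (nat_lit 312) (nat_lit 237) (nat_lit 171)) (XT.nd (nat_lit 94) (nat_lit 84) (nat_lit 0) (XT.lf (nat_lit 0) (nat_lit 11085673453) (nat_lit 84) (nat_lit 2419271099) (nat_lit 168) (nat_lit 20146357068) (nat_lit 15) (nat_lit 5) (nat_lit 16) (nat_lit 5) (nat_lit 17) (nat_lit 4) (nat_lit 313) (nat_lit 237) (nat_lit 170)) (XT.lf (nat_lit 0) (nat_lit 256987995) (nat_lit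 84) (nat_lit 25156458646) (nat_lit 84) (nat_lit 9317671610) (nat_lit 14) (nat_lit 4) (nat_lit 15) (nat_lit 5) (nat_lit 15) (nat_lit 4) (nat_lit 314) (nat_lit 237) (nat_lit 169))))))))
noncomputable def xc77 : XT := (XT.nd (nat_lit 1598) (nat_lit 0) (nat_lit 0) (XT.nd (nat_lit 752) (nat_lit 504) (nat_lit 0) (XT.nd (nat_lit 376) (nat_lit 336) (nat_lit 0) (XT.nd (nat_lit 188) (nat_lit 168) (nat_lit 0) (XT.nd (nat_lit 94) (nat_lit 84) (nat_lit 0) (XT.lf (nat_lit 0) (nat_lit 2373089006) (nat_lit 168) (nat_lit 11002311496) (nat_lit 84) (nat_lit 22468606388) (nat_lit 13) (nat_lit 5) (nat_lit 15) (nat_lit 5) (nat_lit 14) (nat_lit 4) (nat_lit 315) (nat_lit 237) (nat_lit 168)) (XT.lf (nat_lit 0) (nat_lit 13855048193) (nat_lit 84) (nat_lit 656756073) (nat_lit 168) (nat_lit 22484270684) (nat_lit 12) (nat_lit 5) (nat_lit 13) (nat_lit 5) (nat_lit 14) (nat_lit 4) (nat_lit 316) (nat_lit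 237) (nat_lit 167))) (XT.nd (nat_lit 94) (nat_lit 84) (nat_lit 0) (XT.lf (nat_lit 0) (nat_lit 1922207081) (nat_lit 84) (nat_lit 25713211591) (nat_lit 84) (nat_lit 10551429572) (nat_lit 11) (nat_lit 4) (nat_lit 12) (nat_lit 5) (nat_lit 12) (nat_lit 4) (nat_lit 317) (nat_lit 237) (nat_lit 166)) (XT.lf (nat_lit 0) (nat_lit 2284198097) (nat_lit 168) (nat_lit 10502505231) (nat_lit 84) (nat_lit 26630439999) (nat_lit 10) (nat_lit 5) (nat_lit 12) (nat_lit 5) (nat_lit 11) (nat_lit 4) (nat_lit 318) (nat_lit 237) (nat_lit 165)))) (XT.nd (nat_lit 188) (nat_lit 168) (nat_lit 0) (XT.nd (nat_lit 94) (nat_lit 84) (nat_lit 0) (XT.lf (nat_lit 0) (nat_lit 15650989828) (nat_lit 168) (nat_lit 23869296962) (nat_lit 0) (nat_lit 1167818665) (nat_lit 9) (nat_lit 5) (nat_lit 11) (nat_lit 4) (nat_lit 9) (nat_lit 4) (nat_lit 319) (nat_lit 237) (nat_lit 164)) (XT.lf (nat_lit 0) (nat_lit 3687387751)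 (nat_lit 84) (nat_lit 26409018785) (nat_lit 84) (nat_lit 11905694885) (nat_lit 8) (nat_lit 4) (nat_lit 9) (nat_lit 5) (nat_lit 9) (nat_lit 4) (nat_lit 320) (nat_lit 237) (nat_lit 163))) (XT.nd (nat_lit 94) (nat_lit 84) (nat_lit 0) (XT.lf (nat_lit 0) (nat_lit 2195264854) (nat_lit 168) (nat_lit 10022224029) (nat_lit 84) (nat_lit 31144178243) (nat_lit 7) (nat_lit 5) (nat_lit 9) (nat_lit 5) (nat_lit 8) (nat_lit 4) (nat_lit 321) (nat_lit 237) (nat_lit 162)) (XT.lf (nat_lit 0) (nat_lit 16928173305) (nat_lit 168) (nat_lit 24755132480) (nat_lit 0) (nat_lit 3079796060) (nat_lit 6) (nat_lit 5) (nat_lit 8) (nat_lit 4) (nat_lit 6) (nat_lit 4) (nat_lit 322) (nat_lit 237) (nat_lit 161))))) (XT.nd (nat_lit 376) (nat_lit 168) (nat_lit 0) (XT.nd (nat_lit 188) (nat_lit 168) (nat_lit 0) (XT.nd (nat_lit 94) (nat_lit 84) (nat_lit 0) (XT.lf (nat_lit 0) (nat_lit 5564846306) (nat_lit 84) (nat_lit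 27256762433) (nat_lit 84) (nat_lit 13391805482) (nat_lit 5) (nat_lit 4) (nat_lit 6) (nat_lit 5) (nat_lit 6) (nat_lit 4) (nat_lit 323) (nat_lit 237) (nat_lit 160)) (XT.lf (nat_lit 0) (nat_lit 2107049283) (nat_lit 168) (nat_lit 9561296116) (nat_lit 84) (nat_lit 36046995483) (nat_lit 4) (nat_lit 5) (nat_lit 6) (nat_lit 5) (nat_lit 5) (nat_lit 4) (nat_lit 324) (nat_lit 237) (nat_lit 159))) (XT.nd (nat_lit 94) (nat_lit 84) (nat_lit 0) (XT.lf (nat_lit 0) (nat_lit 18346806960) (nat_lit 168) (nat_lit 25801053794) (nat_lit 0) (nat_lit 5112725599) (nat_lit 3) (nat_lit 5) (nat_lit 5) (nat_lit 4) (nat_lit 3) (nat_lit 4) (nat_lit 325) (nat_lit 237) (nat_lit 158)) (XT.lf (nat_lit 0) (nat_lit 7568292940) (nat_lit 84) (nat_lit 28270261300) (nat_lit 84) (nat_lit 15022539773) (nat_lit 2) (nat_lit 4) (nat_lit 3) (nat_lit 5) (nat_lit 3) (nat_lit 4) (nat_lit 326) (nat_lit 237) (nat_lit 157))))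 (XT.nd (nat_lit 188) (nat_lit 0) (nat_lit 0) (XT.nd (nat_lit 94) (nat_lit 84) (nat_lit 0) (XT.lf (nat_lit 0) (nat_lit 2020140807) (nat_lit 168) (nat_lit 9119423505) (nat_lit 84) (nat_lit 41380258647) (nat_lit 1) (nat_lit 5) (nat_lit 3) (nat_lit 5) (nat_lit 2) (nat_lit 4) (nat_lit 327) (nat_lit 237) (nat_lit 156)) (XT.lf (nat_lit 0) (nat_lit 79569066306) (nat_lit 0) (nat_lit 0) (nat_lit 0) (nat_lit 0) (nat_lit 0) (nat_lit 0) (nat_lit 1) (nat_lit 0) (nat_lit 1) (nat_lit 0) (nat_lit 328) (nat_lit 237) (nat_lit 155))) (XT.nd (nat_lit 94) (nat_lit 0) (nat_lit 0) (XT.lf (nat_lit 0) (nat_lit 83499485612) (nat_lit 0) (nat_lit 0) (nat_lit 0) (nat_lit 0) (nat_lit 0) (nat_lit 0) (nat_lit 1) (nat_lit 0) (nat_lit 1) (nat_lit 0) (nat_lit 329) (nat_lit 237) (nat_lit 154)) (XT.nd (nat_lit 94) (nat_lit 0) (nat_lit 0) (XT.lf (nat_lit 0) (nat_lit 87626504791) (nat_lit 0) (nat_lit 0) (nat_lit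 0) (nat_lit 0) (nat_lit 0) (nat_lit 0) (nat_lit 1) (nat_lit 0) (nat_lit 1) (nat_lit 0) (nat_lit 330) (nat_lit 237) (nat_lit 153)) (XT.lf (nat_lit 0) (nat_lit 91959950080) (nat_lit 0) (nat_lit 0) (nat_lit 0) (nat_lit 0) (nat_lit 0) (nat_lit 0) (nat_lit 1) (nat_lit 0) (nat_lit 1) (nat_lit 0) (nat_lit 331) (nat_lit 237) (nat_lit 152))))))) (XT.nd (nat_lit 36942) (nat_lit 0) (nat_lit 13020) (XT.nd (nat_lit 376) (nat_lit 0) (nat_lit 0) (XT.nd (nat_lit 188) (nat_lit 0) (nat_lit 0) (XT.nd (nat_lit 94) (nat_lit 0) (nat_lit 0) (XT.lf (nat_lit 0) (nat_lit 96510139207) (nat_lit 0) (nat_lit 0) (nat_lit 0) (nat_lit 0) (nat_lit 0) (nat_lit 0) (nat_lit 1) (nat_lit 0) (nat_lit 1) (nat_lit 0) (nat_lit 332) (nat_lit 237) (nat_lit 151)) (XT.lf (nat_lit 0) (nat_lit 101287905953) (nat_lit 0) (nat_lit 0) (nat_lit 0) (nat_lit 0) (nat_lit 0) (nat_lit 0) (nat_lit 1) (nat_lit 0) (nat_lit 1) (nat_lit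 0) (nat_lit 333) (nat_lit 237) (nat_lit 150))) (XT.nd (nat_lit 94) (nat_lit 0) (nat_lit 0) (XT.lf (nat_lit 0) (nat_lit 106304625956) (nat_lit 0) (nat_lit 0) (nat_lit 0) (nat_lit 0) (nat_lit 0) (nat_lit 0) (nat_lit 1) (nat_lit 0) (nat_lit 1) (nat_lit 0) (nat_lit 334) (nat_lit 237) (nat_lit 149)) (XT.lf (nat_lit 0) (nat_lit 111572243786) (nat_lit 0) (nat_lit 0) (nat_lit 0) (nat_lit 0) (nat_lit 0) (nat_lit 0) (nat_lit 1) (nat_lit 0) (nat_lit 1) (nat_lit 0) (nat_lit 335) (nat_lit 237) (nat_lit 148)))) (XT.nd (nat_lit 188) (nat_lit 0) (nat_lit 0) (XT.nd (nat_lit 94) (nat_lit 0) (nat_lit 0) (XT.lf (nat_lit 0) (nat_lit 117103301390) (nat_lit 0) (nat_lit 0) (nat_lit 0) (nat_lit 0) (nat_lit 0) (nat_lit 0) (nat_lit 1) (nat_lit 0) (nat_lit 1) (nat_lit 0) (nat_lit 336) (nat_lit 237) (nat_lit 147)) (XT.lf (nat_lit 0) (nat_lit 122910967953) (nat_lit 0) (nat_lit 0) (nat_lit 0) (nat_lit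 0) (nat_lit 0) (nat_lit 0) (nat_lit 1) (nat_lit 0) (nat_lit 1) (nat_lit 0) (nat_lit 337) (nat_lit 237) (nat_lit 146))) (XT.nd (nat_lit 94) (nat_lit 0) (nat_lit 0) (XT.lf (nat_lit 0) (nat_lit 129009071253) (nat_lit 0) (nat_lit 0) (nat_lit 0) (nat_lit 0) (nat_lit 0) (nat_lit 0) (nat_lit 1) (nat_lit 0) (nat_lit 1) (nat_lit 0) (nat_lit 338) (nat_lit 237) (nat_lit 145)) (XT.lf (nat_lit 0) (nat_lit 135412130583) (nat_lit 0) (nat_lit 0) (nat_lit 0) (nat_lit 0) (nat_lit 0) (nat_lit 0) (nat_lit 1) (nat_lit 0) (nat_lit 1) (nat_lit 0) (nat_lit 339) (nat_lit 237) (nat_lit 144))))) (XT.nd (nat_lit 376) (nat_lit 2016) (nat_lit 0) (XT.nd (nat_lit 188) (nat_lit 336) (nat_lit 0) (XT.nd (nat_lit 94) (nat_lit 0) (nat_lit 0) (XT.lf (nat_lit 0) (nat_lit 238008729) (nat_lit 252) (nat_lit 2767875510) (nat_lit 0) (nat_lit 238008729) (nat_lit 183) (nat_lit 5) (nat_lit 186) (nat_lit 4) (nat_lit 183)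 (nat_lit 4) (nat_lit 244) (nat_lit 238) (nat_lit 238)) (XT.lf (nat_lit 0) (nat_lit 3684789699) (nat_lit 252) (nat_lit 1794326653) (nat_lit 0) (nat_lit 1034679532) (nat_lit 183) (nat_lit 5) (nat_lit 186) (nat_lit 4) (nat_lit 183) (nat_lit 4) (nat_lit 245) (nat_lit 238) (nat_lit 237))) (XT.nd (nat_lit 94) (nat_lit 0) (nat_lit 0) (XT.lf (nat_lit 0) (nat_lit 338390408) (nat_lit 336) (nat_lit 4480324275) (nat_lit 84) (nat_lit 1729895657) (nat_lit 179) (nat_lit 5) (nat_lit 183) (nat_lit 5) (nat_lit 180) (nat_lit 4) (nat_lit 246) (nat_lit 238) (nat_lit 236)) (XT.lf (nat_lit 0) (nat_lit 3416089267) (nat_lit 336) (nat_lit 574769657) (nat_lit 84) (nat_lit 2599637457) (nat_lit 179) (nat_lit 5) (nat_lit 183) (nat_lit 5) (nat_lit 180) (nat_lit 4) (nat_lit 247) (nat_lit 238) (nat_lit 235)))) (XT.nd (nat_lit 188) (nat_lit 1176) (nat_lit 0) (XT.nd (nat_lit 94) (nat_lit 504) (nat_lit 0)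 (XT.lf (nat_lit 0) (nat_lit 3514183651) (nat_lit 336) (nat_lit 3013231524) (nat_lit 420) (nat_lit 113074445) (nat_lit 175) (nat_lit 5) (nat_lit 179) (nat_lit 5) (nat_lit 180) (nat_lit 4) (nat_lit 248) (nat_lit 238) (nat_lit 234)) (XT.lf (nat_lit 0) (nat_lit 990135685) (nat_lit 420) (nat_lit 1865819166) (nat_lit 504) (nat_lit 3841912062) (nat_lit 169) (nat_lit 5) (nat_lit 174) (nat_lit 5) (nat_lit 175) (nat_lit 5) (nat_lit 249) (nat_lit 238) (nat_lit 233))) (XT.nd (nat_lit 94) (nat_lit 1176) (nat_lit 0) (XT.lf (nat_lit 0) (nat_lit 5293069149) (nat_lit 420) (nat_lit 564219721) (nat_lit 504) (nat_lit 906348853) (nat_lit 169) (nat_lit 5) (nat_lit 174) (nat_lit 5) (nat_lit 175) (nat_lit 5) (nat_lit 250) (nat_lit 238) (nat_lit 232)) (XT.nd (nat_lit 94) (nat_lit 588) (nat_lit 0) (XT.lf (nat_lit 0) (nat_lit 2006219009) (nat_lit 588) (nat_lit 3938646450) (nat_lit 84) (nat_lit 891139355)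 (nat_lit 162) (nat_lit 5) (nat_lit 169) (nat_lit 5) (nat_lit 163) (nat_lit 5) (nat_lit 251) (nat_lit 238) (nat_lit 231)) (XT.lf (nat_lit 0) (nat_lit 483527463) (nat_lit 588) (nat_lit 4438746147) (nat_lit 672) (nat_lit 1994557860) (nat_lit 155) (nat_lit 5) (nat_lit 162) (nat_lit 5) (nat_lit 163) (nat_lit 5) (nat_lit 252) (nat_lit 238) (nat_lit 230))))))))
noncomputable def xc78 : XT := (XT.nd (nat_lit 1598) (nat_lit 3276) (nat_lit 0) (XT.nd (nat_lit 752) (nat_lit 2268) (nat_lit 0) (XT.nd (nat_lit 376) (nat_lit 1848) (nat_lit 0) (XT.nd (nat_lit 188) (nat_lit 840) (nat_lit 0) (XT.nd (nat_lit 94) (nat_lit 672) (nat_lit 0) (XT.lf (nat_lit 0) (nat_lit 867860213) (nat_lit 672) (nat_lit 1885539737) (nat_lit 84) (nat_lit 4251688949) (nat_lit 154) (nat_lit 5) (nat_lit 162) (nat_lit 5) (nat_lit 155) (nat_lit 5) (nat_lit 253) (nat_lit 238) (nat_lit 229)) (XT.lf (nat_lit 0) (nat_lit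 2819249222) (nat_lit 672) (nat_lit 887399271) (nat_lit 756) (nat_lit 3394461849) (nat_lit 146) (nat_lit 5) (nat_lit 154) (nat_lit 5) (nat_lit 155) (nat_lit 5) (nat_lit 254) (nat_lit 238) (nat_lit 228))) (XT.nd (nat_lit 94) (nat_lit 84) (nat_lit 0) (XT.lf (nat_lit 0) (nat_lit 489839463) (nat_lit 756) (nat_lit 6115722267) (nat_lit 840) (nat_lit 600461848) (nat_lit 137) (nat_lit 5) (nat_lit 146) (nat_lit 5) (nat_lit 147) (nat_lit 5) (nat_lit 255) (nat_lit 238) (nat_lit 227)) (XT.lf (nat_lit 0) (nat_lit 2210519584) (nat_lit 840) (nat_lit 1851283995) (nat_lit 84) (nat_lit 3254959496) (nat_lit 136) (nat_lit 5) (nat_lit 146) (nat_lit 5) (nat_lit 137) (nat_lit 5) (nat_lit 256) (nat_lit 238) (nat_lit 226)))) (XT.nd (nat_lit 188) (nat_lit 420) (nat_lit 0) (XT.nd (nat_lit 94) (nat_lit 588) (nat_lit 0) (XT.lf (nat_lit 0) (nat_lit 3221217306) (nat_lit 840) (nat_lit 1841143584) (nat_lit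 924) (nat_lit 2374161964) (nat_lit 126) (nat_lit 5) (nat_lit 136) (nat_lit 5) (nat_lit 137) (nat_lit 5) (nat_lit 257) (nat_lit 238) (nat_lit 225)) (XT.lf (nat_lit 0) (nat_lit 406102081) (nat_lit 588) (nat_lit 6632655364) (nat_lit 84) (nat_lit 526756816) (nat_lit 119) (nat_lit 5) (nat_lit 126) (nat_lit 5) (nat_lit 120) (nat_lit 5) (nat_lit 258) (nat_lit 238) (nat_lit 224))) (XT.nd (nat_lit 94) (nat_lit 420) (nat_lit 0) (XT.lf (nat_lit 0) (nat_lit 3224656009) (nat_lit 588) (nat_lit 1417906140) (nat_lit 84) (nat_lit 3057493851) (nat_lit 119) (nat_lit 5) (nat_lit 126) (nat_lit 5) (nat_lit 120) (nat_lit 5) (nat_lit 259) (nat_lit 238) (nat_lit 223)) (XT.lf (nat_lit 0) (nat_lit 4058896188) (nat_lit 420) (nat_lit 2070824447) (nat_lit 504) (nat_lit 1714325041) (nat_lit 114) (nat_lit 5) (nat_lit 119) (nat_lit 5) (nat_lit 120) (nat_lit 5) (nat_lit 260) (nat_lit 238) (nat_lit 222)))))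 (XT.nd (nat_lit 376) (nat_lit 1008) (nat_lit 0) (XT.nd (nat_lit 188) (nat_lit 756) (nat_lit 0) (XT.nd (nat_lit 94) (nat_lit 0) (nat_lit 0) (XT.lf (nat_lit 0) (nat_lit 1093694137) (nat_lit 504) (nat_lit 6236064706) (nat_lit 84) (nat_lit 667210507) (nat_lit 108) (nat_lit 5) (nat_lit 114) (nat_lit 5) (nat_lit 109) (nat_lit 5) (nat_lit 261) (nat_lit 238) (nat_lit 221)) (XT.lf (nat_lit 0) (nat_lit 3970855047) (nat_lit 504) (nat_lit 635396524) (nat_lit 84) (nat_lit 3550564785) (nat_lit 108) (nat_lit 5) (nat_lit 114) (nat_lit 5) (nat_lit 109) (nat_lit 5) (nat_lit 262) (nat_lit 238) (nat_lit 220))) (XT.nd (nat_lit 94) (nat_lit 420) (nat_lit 0) (XT.lf (nat_lit 0) (nat_lit 5287260609) (nat_lit 336) (nat_lit 1679782521) (nat_lit 420) (nat_lit 1358854127) (nat_lit 104) (nat_lit 5) (nat_lit 108) (nat_lit 5) (nat_lit 109) (nat_lit 5) (nat_lit 263) (nat_lit 238) (nat_lit 219)) (XT.lf (nat_lit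 0) (nat_lit 1532150939) (nat_lit 420) (nat_lit 5561229324) (nat_lit 84) (nat_lit 1410092414) (nat_lit 99) (nat_lit 5) (nat_lit 104) (nat_lit 5) (nat_lit 100) (nat_lit 5) (nat_lit 264) (nat_lit 238) (nat_lit 218)))) (XT.nd (nat_lit 188) (nat_lit 672) (nat_lit 0) (XT.nd (nat_lit 94) (nat_lit 0) (nat_lit 0) (XT.lf (nat_lit 0) (nat_lit 473386780) (nat_lit 336) (nat_lit 4032651491) (nat_lit 420) (nat_lit 4183574859) (nat_lit 95) (nat_lit 5) (nat_lit 99) (nat_lit 5) (nat_lit 100) (nat_lit 5) (nat_lit 265) (nat_lit 238) (nat_lit 217)) (XT.lf (nat_lit 0) (nat_lit 6873511266) (nat_lit 336) (nat_lit 748953770) (nat_lit 420) (nat_lit 1262903317) (nat_lit 95) (nat_lit 5) (nat_lit 99) (nat_lit 5) (nat_lit 100) (nat_lit 5) (nat_lit 266) (nat_lit 238) (nat_lit 216))) (XT.nd (nat_lit 94) (nat_lit 252) (nat_lit 0) (XT.lf (nat_lit 0) (nat_lit 1762368755) (nat_lit 420) (nat_lit 4642156087)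 (nat_lit 84) (nat_lit 2684163382) (nat_lit 90) (nat_lit 5) (nat_lit 95) (nat_lit 5) (nat_lit 91) (nat_lit 5) (nat_lit 267) (nat_lit 238) (nat_lit 215)) (XT.nd (nat_lit 94) (nat_lit 0) (nat_lit 0) (XT.lf (nat_lit 0) (nat_lit 1895786636) (nat_lit 252) (nat_lit 2982274930) (nat_lit 336) (nat_lit 4423997406) (nat_lit 87) (nat_lit 5) (nat_lit 90) (nat_lit 5) (nat_lit 91) (nat_lit 5) (nat_lit 268) (nat_lit 238) (nat_lit 214)) (XT.lf (nat_lit 0) (nat_lit 8146089549) (nat_lit 336) (nat_lit 741784949) (nat_lit 84) (nat_lit 638396234) (nat_lit 87) (nat_lit 5) (nat_lit 91) (nat_lit 5) (nat_lit 88) (nat_lit 5) (nat_lit 269) (nat_lit 238) (nat_lit 213))))))) (XT.nd (nat_lit 752) (nat_lit 1512) (nat_lit 0) (XT.nd (nat_lit 376) (nat_lit 756) (nat_lit 0) (XT.nd (nat_lit 188) (nat_lit 336) (nat_lit 0) (XT.nd (nat_lit 94) (nat_lit 252) (nat_lit 0) (XT.lf (nat_lit 0) (nat_lit 1817192335) (nat_lit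 420) (nat_lit 3504280165) (nat_lit 84) (nat_lit 4435828861) (nat_lit 82) (nat_lit 5) (nat_lit 87) (nat_lit 5) (nat_lit 83) (nat_lit 5) (nat_lit 270) (nat_lit 238) (nat_lit 212)) (XT.lf (nat_lit 0) (nat_lit 3590913553) (nat_lit 252) (nat_lit 1518387941) (nat_lit 336) (nat_lit 4890388225) (nat_lit 79) (nat_lit 5) (nat_lit 82) (nat_lit 5) (nat_lit 83) (nat_lit 5) (nat_lit 271) (nat_lit 238) (nat_lit 211))) (XT.nd (nat_lit 94) (nat_lit 84) (nat_lit 0) (XT.lf (nat_lit 0) (nat_lit 769404435) (nat_lit 252) (nat_lit 7821655577) (nat_lit 336) (nat_lit 1661885290) (nat_lit 76) (nat_lit 5) (nat_lit 79) (nat_lit 5) (nat_lit 80) (nat_lit 5) (nat_lit 272) (nat_lit 238) (nat_lit 210)) (XT.lf (nat_lit 0) (nat_lit 1722782494) (nat_lit 336) (nat_lit 2165770443) (nat_lit 84) (nat_lit 6626459352) (nat_lit 75) (nat_lit 5) (nat_lit 79) (nat_lit 5) (nat_lit 76) (nat_lit 5) (nat_lit 273) (nat_lit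 238) (nat_lit 209)))) (XT.nd (nat_lit 188) (nat_lit 252) (nat_lit 0) (XT.nd (nat_lit 94) (nat_lit 252) (nat_lit 0) (XT.lf (nat_lit 0) (nat_lit 5231327367) (nat_lit 336) (nat_lit 5246971809) (nat_lit 84) (nat_lit 309996553) (nat_lit 72) (nat_lit 5) (nat_lit 76) (nat_lit 5) (nat_lit 73) (nat_lit 5) (nat_lit 274) (nat_lit 238) (nat_lit 208)) (XT.lf (nat_lit 0) (nat_lit 2529199199) (nat_lit 252) (nat_lit 6446872569) (nat_lit 336) (nat_lit 2096132958) (nat_lit 69) (nat_lit 5) (nat_lit 72) (nat_lit 5) (nat_lit 73) (nat_lit 5) (nat_lit 275) (nat_lit 238) (nat_lit 207))) (XT.nd (nat_lit 94) (nat_lit 168) (nat_lit 0) (XT.lf (nat_lit 0) (nat_lit 1499734035) (nat_lit 336) (nat_lit 638579313) (nat_lit 84) (nat_lit 9230235038) (nat_lit 68) (nat_lit 5) (nat_lit 72) (nat_lit 5) (nat_lit 69) (nat_lit 5) (nat_lit 276) (nat_lit 238) (nat_lit 206)) (XT.lf (nat_lit 0) (nat_lit 5289855558) (nat_lit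 252) (nat_lit 3957554619) (nat_lit 84) (nat_lit 2426335662) (nat_lit 66) (nat_lit 5) (nat_lit 69) (nat_lit 5) (nat_lit 67) (nat_lit 5) (nat_lit 277) (nat_lit 238) (nat_lit 205))))) (XT.nd (nat_lit 376) (nat_lit 840) (nat_lit 0) (XT.nd (nat_lit 188) (nat_lit 168) (nat_lit 0) (XT.nd (nat_lit 94) (nat_lit 252) (nat_lit 0) (XT.lf (nat_lit 0) (nat_lit 4507417164) (nat_lit 252) (nat_lit 4804263430) (nat_lit 336) (nat_lit 2680412697) (nat_lit 63) (nat_lit 5) (nat_lit 66) (nat_lit 5) (nat_lit 67) (nat_lit 5) (nat_lit 278) (nat_lit 238) (nat_lit 204)) (XT.lf (nat_lit 0) (nat_lit 1106123049) (nat_lit 168) (nat_lit 75134209) (nat_lit 252) (nat_lit 11143573174) (nat_lit 60) (nat_lit 5) (nat_lit 62) (nat_lit 5) (nat_lit 63) (nat_lit 5) (nat_lit 279) (nat_lit 238) (nat_lit 203))) (XT.nd (nat_lit 94) (nat_lit 168) (nat_lit 0) (XT.lf (nat_lit 0) (nat_lit 5278385287) (nat_lit 252) (nat_lit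 2524238800) (nat_lit 84) (nat_lit 4862760582) (nat_lit 60) (nat_lit 5) (nat_lit 63) (nat_lit 5) (nat_lit 61) (nat_lit 5) (nat_lit 280) (nat_lit 238) (nat_lit 202)) (XT.lf (nat_lit 0) (nat_lit 6703698268) (nat_lit 168) (nat_lit 2913295984) (nat_lit 252) (nat_lit 3404141141) (nat_lit 58) (nat_lit 5) (nat_lit 60) (nat_lit 5) (nat_lit 61) (nat_lit 5) (nat_lit 281) (nat_lit 238) (nat_lit 201)))) (XT.nd (nat_lit 188) (nat_lit 588) (nat_lit 0) (XT.nd (nat_lit 94) (nat_lit 0) (nat_lit 0) (XT.lf (nat_lit 0) (nat_lit 810958942) (nat_lit 252) (nat_lit 10370435252) (nat_lit 84) (nat_lit 2209772465) (nat_lit 55) (nat_lit 5) (nat_lit 58) (nat_lit 5) (nat_lit 56) (nat_lit 5) (nat_lit 282) (nat_lit 238) (nat_lit 200)) (XT.lf (nat_lit 0) (nat_lit 5210867785) (nat_lit 252) (nat_lit 950340615) (nat_lit 84) (nat_lit 7611278046) (nat_lit 55) (nat_lit 5) (nat_lit 58) (nat_lit 5) (nat_lit 56)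 (nat_lit 5) (nat_lit 283) (nat_lit 238) (nat_lit 199))) (XT.nd (nat_lit 94) (nat_lit 420) (nat_lit 0) (XT.lf (nat_lit 0) (nat_lit 9122440846) (nat_lit 168) (nat_lit 785951898) (nat_lit 252) (nat_lit 4260598446) (nat_lit 53) (nat_lit 5) (nat_lit 55) (nat_lit 5) (nat_lit 56) (nat_lit 5) (nat_lit 284) (nat_lit 238) (nat_lit 198)) (XT.nd (nat_lit 94) (nat_lit 168) (nat_lit 0) (XT.lf (nat_lit 0) (nat_lit 357159866) (nat_lit 252) (nat_lit 9461423018) (nat_lit 84) (nat_lit 4761045665) (nat_lit 50) (nat_lit 5) (nat_lit 53) (nat_lit 5) (nat_lit 51) (nat_lit 5) (nat_lit 285) (nat_lit 238) (nat_lit 197)) (XT.lf (nat_lit 0) (nat_lit 789724113) (nat_lit 168) (nat_lit 4321179999) (nat_lit 252) (nat_lit 9893987265) (nat_lit 48) (nat_lit 5) (nat_lit 50) (nat_lit 5) (nat_lit 51) (nat_lit 5) (nat_lit 286) (nat_lit 238) (nat_lit 196))))))))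
noncomputable def xc79 : XT := (XT.nd (nat_lit 1598) (nat_lit 1512) (nat_lit 0) (XT.nd (nat_lit 752) (nat_lit 1008) (nat_lit 0) (XT.nd (nat_lit 376) (nat_lit 420) (nat_lit 0) (XT.nd (nat_lit 188) (nat_lit 252) (nat_lit 0) (XT.nd (nat_lit 94) (nat_lit 84) (nat_lit 0) (XT.lf (nat_lit 0) (nat_lit 10224646745) (nat_lit 252) (nat_lit 3698674386) (nat_lit 84) (nat_lit 1521980658) (nat_lit 48) (nat_lit 5) (nat_lit 51) (nat_lit 5) (nat_lit 49) (nat_lit 4) (nat_lit 287) (nat_lit 238) (nat_lit 195)) (XT.lf (nat_lit 0) (nat_lit 7403186453) (nat_lit 84) (nat_lit 8317118305) (nat_lit 168) (nat_lit 181116551) (nat_lit 47) (nat_lit 5) (nat_lit 48) (nat_lit 5) (nat_lit 49) (nat_lit 4) (nat_lit 288) (nat_lit 238) (nat_lit 194))) (XT.nd (nat_lit 94) (nat_lit 0) (nat_lit 0) (XT.lf (nat_lit 0) (nat_lit 2710442983) (nat_lit 168) (nat_lit 2282442100) (nat_lit 252) (nat_lit 11381169794) (nat_lit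 44) (nat_lit 5) (nat_lit 46) (nat_lit 5) (nat_lit 47) (nat_lit 5) (nat_lit 289) (nat_lit 238) (nat_lit 193)) (XT.lf (nat_lit 0) (nat_lit 10569631282) (nat_lit 252) (nat_lit 2264469507) (nat_lit 84) (nat_lit 4028564321) (nat_lit 44) (nat_lit 5) (nat_lit 47) (nat_lit 5) (nat_lit 45) (nat_lit 4) (nat_lit 290) (nat_lit 238) (nat_lit 192)))) (XT.nd (nat_lit 188) (nat_lit 84) (nat_lit 0) (XT.nd (nat_lit 94) (nat_lit 252) (nat_lit 0) (XT.lf (nat_lit 0) (nat_lit 9881268149) (nat_lit 84) (nat_lit 6679024956) (nat_lit 168) (nat_lit 808658832) (nat_lit 43) (nat_lit 5) (nat_lit 44) (nat_lit 5) (nat_lit 45) (nat_lit 4) (nat_lit 291) (nat_lit 238) (nat_lit 191)) (XT.lf (nat_lit 0) (nat_lit 4787158993) (nat_lit 168) (nat_lit 61669807) (nat_lit 252) (nat_lit 13044994052) (nat_lit 40) (nat_lit 5) (nat_lit 42) (nat_lit 5) (nat_lit 43) (nat_lit 5) (nat_lit 292) (nat_lit 238) (nat_lit 190)))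 (XT.nd (nat_lit 94) (nat_lit 84) (nat_lit 0) (XT.lf (nat_lit 0) (nat_lit 10942424573) (nat_lit 252) (nat_lit 728576811) (nat_lit 84) (nat_lit 6764252594) (nat_lit 40) (nat_lit 5) (nat_lit 43) (nat_lit 5) (nat_lit 41) (nat_lit 4) (nat_lit 293) (nat_lit 238) (nat_lit 189)) (XT.lf (nat_lit 0) (nat_lit 12571852489) (nat_lit 84) (nat_lit 4912812135) (nat_lit 168) (nat_lit 1511893812) (nat_lit 39) (nat_lit 5) (nat_lit 40) (nat_lit 5) (nat_lit 41) (nat_lit 4) (nat_lit 294) (nat_lit 238) (nat_lit 188))))) (XT.nd (nat_lit 376) (nat_lit 420) (nat_lit 0) (XT.nd (nat_lit 188) (nat_lit 252) (nat_lit 0) (XT.nd (nat_lit 94) (nat_lit 84) (nat_lit 0) (XT.lf (nat_lit 0) (nat_lit 4721231621) (nat_lit 252) (nat_lit 12585836439) (nat_lit 84) (nat_lit 2269850312) (nat_lit 36) (nat_lit 5) (nat_lit 39) (nat_lit 5) (nat_lit 37) (nat_lit 4) (nat_lit 295) (nat_lit 238) (nat_lit 187)) (XT.lf (nat_lit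 0) (nat_lit 944541353) (nat_lit 84) (nat_lit 10423716805) (nat_lit 168) (nat_lit 8809146170) (nat_lit 35) (nat_lit 5) (nat_lit 36) (nat_lit 5) (nat_lit 37) (nat_lit 4) (nat_lit 296) (nat_lit 238) (nat_lit 186))) (XT.nd (nat_lit 94) (nat_lit 252) (nat_lit 0) (XT.lf (nat_lit 0) (nat_lit 15491539973) (nat_lit 84) (nat_lit 3017426738) (nat_lit 168) (nat_lit 2290881337) (nat_lit 35) (nat_lit 5) (nat_lit 36) (nat_lit 5) (nat_lit 37) (nat_lit 4) (nat_lit 297) (nat_lit 238) (nat_lit 185)) (XT.lf (nat_lit 0) (nat_lit 4582150174) (nat_lit 252) (nat_lit 12072250000) (nat_lit 84) (nat_lit 4786729926) (nat_lit 32) (nat_lit 5) (nat_lit 35) (nat_lit 5) (nat_lit 33) (nat_lit 4) (nat_lit 298) (nat_lit 238) (nat_lit 184)))) (XT.nd (nat_lit 188) (nat_lit 336) (nat_lit 0) (XT.nd (nat_lit 94) (nat_lit 0) (nat_lit 0) (XT.lf (nat_lit 0) (nat_lit 2759909411) (nat_lit 84) (nat_lit 9095977709) (nat_lit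 168) (nat_lit 10250009237) (nat_lit 31) (nat_lit 5) (nat_lit 32) (nat_lit 5) (nat_lit 33) (nat_lit 4) (nat_lit 299) (nat_lit 238) (nat_lit 183)) (XT.lf (nat_lit 0) (nat_lit 18660148330) (nat_lit 84) (nat_lit 988655024) (nat_lit 168) (nat_lit 3147322951) (nat_lit 31) (nat_lit 5) (nat_lit 32) (nat_lit 5) (nat_lit 33) (nat_lit 4) (nat_lit 300) (nat_lit 238) (nat_lit 182))) (XT.nd (nat_lit 94) (nat_lit 84) (nat_lit 0) (XT.lf (nat_lit 0) (nat_lit 4434490321) (nat_lit 252) (nat_lit 11567918727) (nat_lit 84) (nat_lit 7501995980) (nat_lit 28) (nat_lit 5) (nat_lit 31) (nat_lit 5) (nat_lit 29) (nat_lit 4) (nat_lit 301) (nat_lit 238) (nat_lit 181)) (XT.nd (nat_lit 94) (nat_lit 0) (nat_lit 0) (XT.lf (nat_lit 0) (nat_lit 4703119519) (nat_lit 84) (nat_lit 7700167307) (nat_lit 168) (nat_lit 11836547925) (nat_lit 27) (nat_lit 5) (nat_lit 28) (nat_lit 5) (nat_lit 29) (nat_lit 4) (nat_lit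 302) (nat_lit 238) (nat_lit 180)) (XT.lf (nat_lit 0) (nat_lit 20938561130) (nat_lit 168) (nat_lit 2922243308) (nat_lit 0) (nat_lit 1142829622) (nat_lit 27) (nat_lit 5) (nat_lit 29) (nat_lit 4) (nat_lit 27) (nat_lit 4) (nat_lit 303) (nat_lit 238) (nat_lit 179))))))) (XT.nd (nat_lit 752) (nat_lit 756) (nat_lit 0) (XT.nd (nat_lit 376) (nat_lit 336) (nat_lit 0) (XT.nd (nat_lit 188) (nat_lit 168) (nat_lit 0) (XT.nd (nat_lit 94) (nat_lit 84) (nat_lit 0) (XT.lf (nat_lit 0) (nat_lit 4281355717) (nat_lit 168) (nat_lit 11075097056) (nat_lit 84) (nat_lit 10430101626) (nat_lit 25) (nat_lit 5) (nat_lit 27) (nat_lit 5) (nat_lit 26) (nat_lit 4) (nat_lit 304) (nat_lit 238) (nat_lit 178)) (XT.lf (nat_lit 0) (nat_lit 6785863802) (nat_lit 84) (nat_lit 6234239264) (nat_lit 168) (nat_lit 13579605141) (nat_lit 24) (nat_lit 5) (nat_lit 25) (nat_lit 5) (nat_lit 26) (nat_lit 4) (nat_lit 305) (nat_lit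 238) (nat_lit 177))) (XT.nd (nat_lit 94) (nat_lit 168) (nat_lit 0) (XT.lf (nat_lit 0) (nat_lit 22394165420) (nat_lit 168) (nat_lit 1661243744) (nat_lit 0) (nat_lit 3388191661) (nat_lit 24) (nat_lit 5) (nat_lit 26) (nat_lit 4) (nat_lit 24) (nat_lit 4) (nat_lit 306) (nat_lit 238) (nat_lit 176)) (XT.lf (nat_lit 0) (nat_lit 4125224377) (nat_lit 168) (nat_lit 10595454224) (nat_lit 84) (nat_lit 13588807436) (nat_lit 22) (nat_lit 5) (nat_lit 24) (nat_lit 5) (nat_lit 23) (nat_lit 4) (nat_lit 307) (nat_lit 238) (nat_lit 175)))) (XT.nd (nat_lit 188) (nat_lit 252) (nat_lit 0) (XT.nd (nat_lit 94) (nat_lit 0) (nat_lit 0) (XT.lf (nat_lit 0) (nat_lit 9021841988) (nat_lit 84) (nat_lit 4694254149) (nat_lit 168) (nat_lit 15492071835) (nat_lit 21) (nat_lit 5) (nat_lit 22) (nat_lit 5) (nat_lit 23) (nat_lit 4) (nat_lit 308) (nat_lit 238) (nat_lit 174)) (XT.lf (nat_lit 0) (nat_lit 24017828564)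 (nat_lit 168) (nat_lit 331276438) (nat_lit 0) (nat_lit 5791113148) (nat_lit 21) (nat_lit 5) (nat_lit 23) (nat_lit 4) (nat_lit 21) (nat_lit 4) (nat_lit 309) (nat_lit 238) (nat_lit 173))) (XT.nd (nat_lit 94) (nat_lit 84) (nat_lit 0) (XT.lf (nat_lit 0) (nat_lit 3968063194) (nat_lit 168) (nat_lit 10130186857) (nat_lit 84) (nat_lit 16999159376) (nat_lit 19) (nat_lit 5) (nat_lit 21) (nat_lit 5) (nat_lit 20) (nat_lit 4) (nat_lit 310) (nat_lit 238) (nat_lit 172)) (XT.lf (nat_lit 0) (nat_lit 11426797109) (nat_lit 84) (nat_lit 3074522370) (nat_lit 168) (nat_lit 17588920772) (nat_lit 18) (nat_lit 5) (nat_lit 19) (nat_lit 5) (nat_lit 20) (nat_lit 4) (nat_lit 311) (nat_lit 238) (nat_lit 171))))) (XT.nd (nat_lit 376) (nat_lit 420) (nat_lit 0) (XT.nd (nat_lit 188) (nat_lit 168) (nat_lit 0) (XT.nd (nat_lit 94) (nat_lit 84) (nat_lit 0) (XT.lf (nat_lit 0) (nat_lit 1110659740) (nat_lit 84)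 (nat_lit 24735046110) (nat_lit 84) (nat_lit 7272783403) (nat_lit 17) (nat_lit 4) (nat_lit 18) (nat_lit 5) (nat_lit 18) (nat_lit 4) (nat_lit 312) (nat_lit 238) (nat_lit 170)) (XT.lf (nat_lit 0) (nat_lit 3811421971) (nat_lit 168) (nat_lit 9680111174) (nat_lit 84) (nat_lit 20685530310) (nat_lit 16) (nat_lit 5) (nat_lit 18) (nat_lit 5) (nat_lit 17) (nat_lit 4) (nat_lit 313) (nat_lit 238) (nat_lit 169))) (XT.nd (nat_lit 94) (nat_lit 84) (nat_lit 0) (XT.lf (nat_lit 0) (nat_lit 14018586289) (nat_lit 84) (nat_lit 1367700186) (nat_lit 168) (nat_lit 19887275492) (nat_lit 15) (nat_lit 5) (nat_lit 16) (nat_lit 5) (nat_lit 17) (nat_lit 4) (nat_lit 314) (nat_lit 238) (nat_lit 168)) (XT.lf (nat_lit 0) (nat_lit 2651422367) (nat_lit 84) (nat_lit 25235976246) (nat_lit 84) (nat_lit 8520111570) (nat_lit 14) (nat_lit 4) (nat_lit 15) (nat_lit 5) (nat_lit 15) (nat_lit 4) (nat_lit 315) (nat_lit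 238) (nat_lit 167)))) (XT.nd (nat_lit 188) (nat_lit 252) (nat_lit 0) (XT.nd (nat_lit 94) (nat_lit 84) (nat_lit 0) (XT.lf (nat_lit 0) (nat_lit 3656510632) (nat_lit 168) (nat_lit 9245738444) (nat_lit 84) (nat_lit 24675719799) (nat_lit 13) (nat_lit 5) (nat_lit 15) (nat_lit 5) (nat_lit 14) (nat_lit 4) (nat_lit 316) (nat_lit 238) (nat_lit 166)) (XT.lf (nat_lit 0) (nat_lit 16388923546) (nat_lit 168) (nat_lit 21978151359) (nat_lit 0) (nat_lit 421227339) (nat_lit 12) (nat_lit 5) (nat_lit 14) (nat_lit 4) (nat_lit 12) (nat_lit 4) (nat_lit 317) (nat_lit 238) (nat_lit 165))) (XT.nd (nat_lit 94) (nat_lit 168) (nat_lit 0) (XT.lf (nat_lit 0) (nat_lit 4290233159) (nat_lit 84) (nat_lit 25869375571) (nat_lit 84) (nat_lit 9879460971) (nat_lit 11) (nat_lit 4) (nat_lit 12) (nat_lit 5) (nat_lit 12) (nat_lit 4) (nat_lit 318) (nat_lit 238) (nat_lit 164)) (XT.nd (nat_lit 94) (nat_lit 84) (nat_lit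 0) (XT.lf (nat_lit 0) (nat_lit 3504262578) (nat_lit 168) (nat_lit 8827336686) (nat_lit 84) (nat_lit 29001108500) (nat_lit 10) (nat_lit 5) (nat_lit 12) (nat_lit 5) (nat_lit 11) (nat_lit 4) (nat_lit 319) (nat_lit 238) (nat_lit 163)) (XT.lf (nat_lit 0) (nat_lit 17537360492) (nat_lit 168) (nat_lit 22860434599) (nat_lit 0) (nat_lit 2269524579) (nat_lit 9) (nat_lit 5) (nat_lit 11) (nat_lit 4) (nat_lit 9) (nat_lit 4) (nat_lit 320) (nat_lit 238) (nat_lit 162))))))))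
noncomputable def xc80 : XT := (XT.nd (nat_lit 1504) (nat_lit 0) (nat_lit 0) (XT.nd (nat_lit 752) (nat_lit 84) (nat_lit 0) (XT.nd (nat_lit 376) (nat_lit 336) (nat_lit 0) (XT.nd (nat_lit 188) (nat_lit 168) (nat_lit 0) (XT.nd (nat_lit 94) (nat_lit 84) (nat_lit 0) (XT.lf (nat_lit 0) (nat_lit 6038562943) (nat_lit 84) (nat_lit 26647752089) (nat_lit 84) (nat_lit 11361637050) (nat_lit 8) (nat_lit 4) (nat_lit 9) (nat_lit 5) (nat_lit 9) (nat_lit 4) (nat_lit 321) (nat_lit 238) (nat_lit 161)) (XT.lf (nat_lit 0) (nat_lit 3355386669) (nat_lit 168) (nat_lit 8424981057) (nat_lit 84) (nat_lit 33696864828) (nat_lit 7) (nat_lit 5) (nat_lit 9) (nat_lit 5) (nat_lit 8) (nat_lit 4) (nat_lit 322) (nat_lit 238) (nat_lit 160))) (XT.nd (nat_lit 94) (nat_lit 84) (nat_lit 0) (XT.lf (nat_lit 0) (nat_lit 18823267655) (nat_lit 168) (nat_lit 23892862043) (nat_lit 0) (nat_lit 4232692954) (nat_lit 6) (nat_lit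 5) (nat_lit 8) (nat_lit 4) (nat_lit 6) (nat_lit 4) (nat_lit 323) (nat_lit 238) (nat_lit 159)) (XT.lf (nat_lit 0) (nat_lit 7909244279) (nat_lit 84) (nat_lit 27584451650) (nat_lit 84) (nat_lit 12978838666) (nat_lit 5) (nat_lit 4) (nat_lit 6) (nat_lit 5) (nat_lit 6) (nat_lit 4) (nat_lit 324) (nat_lit 238) (nat_lit 158)))) (XT.nd (nat_lit 188) (nat_lit 168) (nat_lit 0) (XT.nd (nat_lit 94) (nat_lit 84) (nat_lit 0) (XT.lf (nat_lit 0) (nat_lit 3210409844) (nat_lit 168) (nat_lit 8038594975) (nat_lit 84) (nat_lit 38802202702) (nat_lit 4) (nat_lit 5) (nat_lit 6) (nat_lit 5) (nat_lit 5) (nat_lit 4) (nat_lit 325) (nat_lit 238) (nat_lit 157)) (XT.lf (nat_lit 0) (nat_lit 20260779117) (nat_lit 168) (nat_lit 25088964248) (nat_lit 0) (nat_lit 6324040715) (nat_lit 3) (nat_lit 5) (nat_lit 5) (nat_lit 4) (nat_lit 3) (nat_lit 4) (nat_lit 326) (nat_lit 238) (nat_lit 156))) (XT.nd (nat_lit 94)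 (nat_lit 84) (nat_lit 0) (XT.lf (nat_lit 0) (nat_lit 9916557205) (nat_lit 84) (nat_lit 28693852770) (nat_lit 84) (nat_lit 14744742337) (nat_lit 2) (nat_lit 4) (nat_lit 3) (nat_lit 5) (nat_lit 3) (nat_lit 4) (nat_lit 327) (nat_lit 238) (nat_lit 155)) (XT.lf (nat_lit 0) (nat_lit 3069712054) (nat_lit 168) (nat_lit 7667983608) (nat_lit 84) (nat_lit 44360690234) (nat_lit 1) (nat_lit 5) (nat_lit 3) (nat_lit 5) (nat_lit 2) (nat_lit 4) (nat_lit 328) (nat_lit 238) (nat_lit 154))))) (XT.nd (nat_lit 376) (nat_lit 0) (nat_lit 0) (XT.nd (nat_lit 188) (nat_lit 0) (nat_lit 0) (XT.nd (nat_lit 94) (nat_lit 0) (nat_lit 0) (XT.lf (nat_lit 0) (nat_lit 83545092699) (nat_lit 0) (nat_lit 0) (nat_lit 0) (nat_lit 0) (nat_lit 0) (nat_lit 0) (nat_lit 1) (nat_lit 0) (nat_lit 1) (nat_lit 0) (nat_lit 329) (nat_lit 238) (nat_lit 153)) (XT.lf (nat_lit 0) (nat_lit 87672148537) (nat_lit 0) (nat_lit 0) (nat_lit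 0) (nat_lit 0) (nat_lit 0) (nat_lit 0) (nat_lit 1) (nat_lit 0) (nat_lit 1) (nat_lit 0) (nat_lit 330) (nat_lit 238) (nat_lit 152))) (XT.nd (nat_lit 94) (nat_lit 0) (nat_lit 0) (XT.lf (nat_lit 0) (nat_lit 92005628740) (nat_lit 0) (nat_lit 0) (nat_lit 0) (nat_lit 0) (nat_lit 0) (nat_lit 0) (nat_lit 1) (nat_lit 0) (nat_lit 1) (nat_lit 0) (nat_lit 331) (nat_lit 238) (nat_lit 151)) (XT.lf (nat_lit 0) (nat_lit 96555851117) (nat_lit 0) (nat_lit 0) (nat_lit 0) (nat_lit 0) (nat_lit 0) (nat_lit 0) (nat_lit 1) (nat_lit 0) (nat_lit 1) (nat_lit 0) (nat_lit 332) (nat_lit 238) (nat_lit 150)))) (XT.nd (nat_lit 188) (nat_lit 0) (nat_lit 0) (XT.nd (nat_lit 94) (nat_lit 0) (nat_lit 0) (XT.lf (nat_lit 0) (nat_lit 101333649532) (nat_lit 0) (nat_lit 0) (nat_lit 0) (nat_lit 0) (nat_lit 0) (nat_lit 0) (nat_lit 1) (nat_lit 0) (nat_lit 1) (nat_lit 0) (nat_lit 333) (nat_lit 238) (nat_lit 149)) (XT.lf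 (nat_lit 0) (nat_lit 106350399694) (nat_lit 0) (nat_lit 0) (nat_lit 0) (nat_lit 0) (nat_lit 0) (nat_lit 0) (nat_lit 1) (nat_lit 0) (nat_lit 1) (nat_lit 0) (nat_lit 334) (nat_lit 238) (nat_lit 148))) (XT.nd (nat_lit 94) (nat_lit 0) (nat_lit 0) (XT.lf (nat_lit 0) (nat_lit 111618046247) (nat_lit 0) (nat_lit 0) (nat_lit 0) (nat_lit 0) (nat_lit 0) (nat_lit 0) (nat_lit 1) (nat_lit 0) (nat_lit 1) (nat_lit 0) (nat_lit 335) (nat_lit 238) (nat_lit 147)) (XT.lf (nat_lit 0) (nat_lit 117149131206) (nat_lit 0) (nat_lit 0) (nat_lit 0) (nat_lit 0) (nat_lit 0) (nat_lit 0) (nat_lit 1) (nat_lit 0) (nat_lit 1) (nat_lit 0) (nat_lit 336) (nat_lit 238) (nat_lit 146)))))) (XT.nd (nat_lit 36754) (nat_lit 0) (nat_lit 12180) (XT.nd (nat_lit 36378) (nat_lit 0) (nat_lit 15036) (XT.nd (nat_lit 188) (nat_lit 0) (nat_lit 0) (XT.nd (nat_lit 94) (nat_lit 0) (nat_lit 0) (XT.lf (nat_lit 0) (nat_lit 122956823823)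 (nat_lit 0) (nat_lit 0) (nat_lit 0) (nat_lit 0) (nat_lit 0) (nat_lit 0) (nat_lit 1) (nat_lit 0) (nat_lit 1) (nat_lit 0) (nat_lit 337) (nat_lit 238) (nat_lit 145)) (XT.lf (nat_lit 0) (nat_lit 129054951935) (nat_lit 0) (nat_lit 0) (nat_lit 0) (nat_lit 0) (nat_lit 0) (nat_lit 0) (nat_lit 1) (nat_lit 0) (nat_lit 1) (nat_lit 0) (nat_lit 338) (nat_lit 238) (nat_lit 144))) (XT.nd (nat_lit 36096) (nat_lit 0) (nat_lit 15624) (XT.lf (nat_lit 0) (nat_lit 135458034896) (nat_lit 0) (nat_lit 0) (nat_lit 0) (nat_lit 0) (nat_lit 0) (nat_lit 0) (nat_lit 1) (nat_lit 0) (nat_lit 1) (nat_lit 0) (nat_lit 339) (nat_lit 238) (nat_lit 143)) (XT.lf (nat_lit 0) (nat_lit 106508261) (nat_lit 84) (nat_lit 1559894516) (nat_lit 84) (nat_lit 1559894516) (nat_lit 186) (nat_lit 4) (nat_lit 187) (nat_lit 5) (nat_lit 187) (nat_lit 4) (nat_lit 242) (nat_lit 239) (nat_lit 239)))) (XT.nd (nat_lit 188) (nat_lit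 336) (nat_lit 0) (XT.nd (nat_lit 94) (nat_lit 168) (nat_lit 0) (XT.lf (nat_lit 0) (nat_lit 103099332) (nat_lit 168) (nat_lit 2710392829) (nat_lit 84) (nat_lit 3654500414) (nat_lit 185) (nat_lit 5) (nat_lit 187) (nat_lit 5) (nat_lit 186) (nat_lit 4) (nat_lit 243) (nat_lit 239) (nat_lit 238)) (XT.lf (nat_lit 0) (nat_lit 853588242) (nat_lit 168) (nat_lit 2345411941) (nat_lit 252) (nat_lit 3291767402) (nat_lit 183) (nat_lit 5) (nat_lit 185) (nat_lit 5) (nat_lit 186) (nat_lit 4) (nat_lit 244) (nat_lit 239) (nat_lit 237))) (XT.nd (nat_lit 94) (nat_lit 336) (nat_lit 0) (XT.lf (nat_lit 0) (nat_lit 4573928227) (nat_lit 168) (nat_lit 1732608617) (nat_lit 252) (nat_lit 215302467) (nat_lit 183) (nat_lit 5) (nat_lit 185) (nat_lit 5) (nat_lit 186) (nat_lit 4) (nat_lit 245) (nat_lit 239) (nat_lit 236)) (XT.lf (nat_lit 0) (nat_lit 1820548022) (nat_lit 252) (nat_lit 943353261) (nat_lit 336)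 (nat_lit 3795939021) (nat_lit 179) (nat_lit 5) (nat_lit 182) (nat_lit 5) (nat_lit 183) (nat_lit 5) (nat_lit 246) (nat_lit 239) (nat_lit 235))))) (XT.nd (nat_lit 376) (nat_lit 1932) (nat_lit 0) (XT.nd (nat_lit 188) (nat_lit 504) (nat_lit 0) (XT.nd (nat_lit 94) (nat_lit 420) (nat_lit 0) (XT.lf (nat_lit 0) (nat_lit 5726820344) (nat_lit 252) (nat_lit 14856955) (nat_lit 336) (nat_lit 865045189) (nat_lit 179) (nat_lit 5) (nat_lit 182) (nat_lit 5) (nat_lit 183) (nat_lit 5) (nat_lit 247) (nat_lit 239) (nat_lit 234)) (XT.lf (nat_lit 0) (nat_lit 2037119111) (nat_lit 420) (nat_lit 3554425261) (nat_lit 84) (nat_lit 1067900517) (nat_lit 174) (nat_lit 5) (nat_lit 179) (nat_lit 5) (nat_lit 175) (nat_lit 5) (nat_lit 248) (nat_lit 239) (nat_lit 233))) (XT.nd (nat_lit 94) (nat_lit 84) (nat_lit 0) (XT.lf (nat_lit 0) (nat_lit 484596281) (nat_lit 420) (nat_lit 4430383656) (nat_lit 504) (nat_lit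 1806131446) (nat_lit 169) (nat_lit 5) (nat_lit 174) (nat_lit 5) (nat_lit 175) (nat_lit 5) (nat_lit 249) (nat_lit 239) (nat_lit 232)) (XT.lf (nat_lit 0) (nat_lit 1015247340) (nat_lit 504) (nat_lit 2078081275) (nat_lit 84) (nat_lit 3696573675) (nat_lit 168) (nat_lit 5) (nat_lit 174) (nat_lit 5) (nat_lit 169) (nat_lit 5) (nat_lit 250) (nat_lit 239) (nat_lit 231)))) (XT.nd (nat_lit 188) (nat_lit 1428) (nat_lit 0) (XT.nd (nat_lit 94) (nat_lit 0) (nat_lit 0) (XT.lf (nat_lit 0) (nat_lit 2210122073) (nat_lit 504) (nat_lit 1589026206) (nat_lit 588) (nat_lit 3067396474) (nat_lit 162) (nat_lit 5) (nat_lit 168) (nat_lit 5) (nat_lit 169) (nat_lit 5) (nat_lit 251) (nat_lit 239) (nat_lit 230)) (XT.lf (nat_lit 0) (nat_lit 6611395415) (nat_lit 588) (nat_lit 285971925) (nat_lit 84) (nat_lit 55194442) (nat_lit 162) (nat_lit 5) (nat_lit 169) (nat_lit 5) (nat_lit 163) (nat_lit 5) (nat_lit 252)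 (nat_lit 239) (nat_lit 229))) (XT.nd (nat_lit 94) (nat_lit 756) (nat_lit 0) (XT.lf (nat_lit 0) (nat_lit 2393529248) (nat_lit 672) (nat_lit 2788584014) (nat_lit 84) (nat_lit 1861155426) (nat_lit 154) (nat_lit 5) (nat_lit 162) (nat_lit 5) (nat_lit 155) (nat_lit 5) (nat_lit 253) (nat_lit 239) (nat_lit 228)) (XT.nd (nat_lit 94) (nat_lit 84) (nat_lit 0) (XT.lf (nat_lit 0) (nat_lit 1824962544) (nat_lit 672) (nat_lit 3325054678) (nat_lit 756) (nat_lit 1993387923) (nat_lit 146) (nat_lit 5) (nat_lit 154) (nat_lit 5) (nat_lit 155) (nat_lit 5) (nat_lit 254) (nat_lit 239) (nat_lit 227)) (XT.lf (nat_lit 0) (nat_lit 683898801) (nat_lit 756) (nat_lit 617674538) (nat_lit 84) (nat_lit 5950674487) (nat_lit 145) (nat_lit 5) (nat_lit 154) (nat_lit 5) (nat_lit 146) (nat_lit 5) (nat_lit 255) (nat_lit 239) (nat_lit 226))))))))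
noncomputable def xc81 : XT := (XT.nd (nat_lit 1598) (nat_lit 2772) (nat_lit 0) (XT.nd (nat_lit 752) (nat_lit 2100) (nat_lit 0) (XT.nd (nat_lit 376) (nat_lit 1260) (nat_lit 0) (XT.nd (nat_lit 188) (nat_lit 588) (nat_lit 0) (XT.nd (nat_lit 94) (nat_lit 840) (nat_lit 0) (XT.lf (nat_lit 0) (nat_lit 3381896650) (nat_lit 840) (nat_lit 3077711531) (nat_lit 84) (nat_lit 907598651) (nat_lit 136) (nat_lit 5) (nat_lit 146) (nat_lit 5) (nat_lit 137) (nat_lit 5) (nat_lit 256) (nat_lit 239) (nat_lit 225)) (XT.lf (nat_lit 0) (nat_lit 1892375006) (nat_lit 840) (nat_lit 4260313106) (nat_lit 924) (nat_lit 1338330990) (nat_lit 126) (nat_lit 5) (nat_lit 136) (nat_lit 5) (nat_lit 137) (nat_lit 5) (nat_lit 257) (nat_lit 239) (nat_lit 224))) (XT.nd (nat_lit 94) (nat_lit 504) (nat_lit 0) (XT.lf (nat_lit 0) (nat_lit 1326272324) (nat_lit 924) (nat_lit 548752458) (nat_lit 84) (nat_lit 5748302500)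 (nat_lit 125) (nat_lit 5) (nat_lit 136) (nat_lit 5) (nat_lit 126) (nat_lit 5) (nat_lit 258) (nat_lit 239) (nat_lit 223)) (XT.lf (nat_lit 0) (nat_lit 4049098483) (nat_lit 588) (nat_lit 3009226773) (nat_lit 84) (nat_lit 704330153) (nat_lit 119) (nat_lit 5) (nat_lit 126) (nat_lit 5) (nat_lit 120) (nat_lit 5) (nat_lit 259) (nat_lit 239) (nat_lit 222)))) (XT.nd (nat_lit 188) (nat_lit 756) (nat_lit 0) (XT.nd (nat_lit 94) (nat_lit 84) (nat_lit 0) (XT.lf (nat_lit 0) (nat_lit 2353242099) (nat_lit 420) (nat_lit 4519569603) (nat_lit 504) (nat_lit 1037900954) (nat_lit 114) (nat_lit 5) (nat_lit 119) (nat_lit 5) (nat_lit 120) (nat_lit 5) (nat_lit 260) (nat_lit 239) (nat_lit 221)) (XT.lf (nat_lit 0) (nat_lit 1656135216) (nat_lit 504) (nat_lit 127959928) (nat_lit 84) (nat_lit 6283629803) (nat_lit 113) (nat_lit 5) (nat_lit 119) (nat_lit 5) (nat_lit 114) (nat_lit 5) (nat_lit 261) (nat_lit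 239) (nat_lit 220))) (XT.nd (nat_lit 94) (nat_lit 336) (nat_lit 0) (XT.lf (nat_lit 0) (nat_lit 4450963294) (nat_lit 504) (nat_lit 2633545099) (nat_lit 84) (nat_lit 1147180203) (nat_lit 108) (nat_lit 5) (nat_lit 114) (nat_lit 5) (nat_lit 109) (nat_lit 5) (nat_lit 262) (nat_lit 239) (nat_lit 219)) (XT.lf (nat_lit 0) (nat_lit 3161962719) (nat_lit 336) (nat_lit 4202120704) (nat_lit 420) (nat_lit 1040839471) (nat_lit 104) (nat_lit 5) (nat_lit 108) (nat_lit 5) (nat_lit 109) (nat_lit 5) (nat_lit 263) (nat_lit 239) (nat_lit 218))))) (XT.nd (nat_lit 376) (nat_lit 924) (nat_lit 0) (XT.nd (nat_lit 188) (nat_lit 756) (nat_lit 0) (XT.nd (nat_lit 94) (nat_lit 0) (nat_lit 0) (XT.lf (nat_lit 0) (nat_lit 622008958) (nat_lit 336) (nat_lit 1109423988) (nat_lit 420) (nat_lit 6856244821) (nat_lit 99) (nat_lit 5) (nat_lit 103) (nat_lit 5) (nat_lit 104) (nat_lit 5) (nat_lit 264) (nat_lit 239)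 (nat_lit 217)) (XT.lf (nat_lit 0) (nat_lit 4632647984) (nat_lit 420) (nat_lit 1989935249) (nat_lit 84) (nat_lit 2154868602) (nat_lit 99) (nat_lit 5) (nat_lit 104) (nat_lit 5) (nat_lit 100) (nat_lit 5) (nat_lit 265) (nat_lit 239) (nat_lit 216))) (XT.nd (nat_lit 94) (nat_lit 420) (nat_lit 0) (XT.lf (nat_lit 0) (nat_lit 4284325280) (nat_lit 336) (nat_lit 3386039550) (nat_lit 420) (nat_lit 1306777724) (nat_lit 95) (nat_lit 5) (nat_lit 99) (nat_lit 5) (nat_lit 100) (nat_lit 5) (nat_lit 266) (nat_lit 239) (nat_lit 215)) (XT.lf (nat_lit 0) (nat_lit 1588479633) (nat_lit 420) (nat_lit 7525847122) (nat_lit 84) (nat_lit 72740868) (nat_lit 90) (nat_lit 5) (nat_lit 95) (nat_lit 5) (nat_lit 91) (nat_lit 5) (nat_lit 267) (nat_lit 239) (nat_lit 214)))) (XT.nd (nat_lit 188) (nat_lit 672) (nat_lit 0) (XT.nd (nat_lit 94) (nat_lit 252) (nat_lit 0) (XT.lf (nat_lit 0) (nat_lit 4630481994) (nat_lit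 420) (nat_lit 1108311035) (nat_lit 84) (nat_lit 3665329865) (nat_lit 90) (nat_lit 5) (nat_lit 95) (nat_lit 5) (nat_lit 91) (nat_lit 5) (nat_lit 268) (nat_lit 239) (nat_lit 213)) (XT.lf (nat_lit 0) (nat_lit 5695787648) (nat_lit 252) (nat_lit 2131639831) (nat_lit 336) (nat_lit 1804461300) (nat_lit 87) (nat_lit 5) (nat_lit 90) (nat_lit 5) (nat_lit 91) (nat_lit 5) (nat_lit 269) (nat_lit 239) (nat_lit 212))) (XT.nd (nat_lit 94) (nat_lit 252) (nat_lit 0) (XT.lf (nat_lit 0) (nat_lit 1278121925) (nat_lit 420) (nat_lit 6932757629) (nat_lit 84) (nat_lit 1658789559) (nat_lit 82) (nat_lit 5) (nat_lit 87) (nat_lit 5) (nat_lit 83) (nat_lit 5) (nat_lit 270) (nat_lit 239) (nat_lit 211)) (XT.nd (nat_lit 94) (nat_lit 252) (nat_lit 0) (XT.lf (nat_lit 0) (nat_lit 4473478104) (nat_lit 420) (nat_lit 10684462) (nat_lit 84) (nat_lit 5632732555) (nat_lit 82) (nat_lit 5) (nat_lit 87) (nat_lit 5)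 (nat_lit 83) (nat_lit 5) (nat_lit 271) (nat_lit 239) (nat_lit 210)) (XT.lf (nat_lit 0) (nat_lit 7380094592) (nat_lit 252) (nat_lit 484291503) (nat_lit 336) (nat_lit 2510307134) (nat_lit 79) (nat_lit 5) (nat_lit 82) (nat_lit 5) (nat_lit 83) (nat_lit 5) (nat_lit 272) (nat_lit 239) (nat_lit 209))))))) (XT.nd (nat_lit 752) (nat_lit 1176) (nat_lit 0) (XT.nd (nat_lit 376) (nat_lit 672) (nat_lit 0) (XT.nd (nat_lit 188) (nat_lit 336) (nat_lit 0) (XT.nd (nat_lit 94) (nat_lit 252) (nat_lit 0) (XT.lf (nat_lit 0) (nat_lit 805299805) (nat_lit 336) (nat_lit 6190667142) (nat_lit 84) (nat_lit 3646266365) (nat_lit 75) (nat_lit 5) (nat_lit 79) (nat_lit 5) (nat_lit 76) (nat_lit 5) (nat_lit 273) (nat_lit 239) (nat_lit 208)) (XT.lf (nat_lit 0) (nat_lit 1330237658) (nat_lit 252) (nat_lit 2875099476) (nat_lit 336) (nat_lit 6715604995) (nat_lit 72) (nat_lit 5) (nat_lit 75) (nat_lit 5) (nat_lit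 76) (nat_lit 5) (nat_lit 274) (nat_lit 239) (nat_lit 207))) (XT.nd (nat_lit 94) (nat_lit 336) (nat_lit 0) (XT.lf (nat_lit 0) (nat_lit 7828659049) (nat_lit 336) (nat_lit 1907718224) (nat_lit 84) (nat_lit 1474544976) (nat_lit 72) (nat_lit 5) (nat_lit 76) (nat_lit 5) (nat_lit 73) (nat_lit 5) (nat_lit 275) (nat_lit 239) (nat_lit 206)) (XT.lf (nat_lit 0) (nat_lit 186741546) (nat_lit 336) (nat_lit 5315662819) (nat_lit 84) (nat_lit 6009266871) (nat_lit 68) (nat_lit 5) (nat_lit 72) (nat_lit 5) (nat_lit 69) (nat_lit 5) (nat_lit 276) (nat_lit 239) (nat_lit 205)))) (XT.nd (nat_lit 188) (nat_lit 504) (nat_lit 0) (XT.nd (nat_lit 94) (nat_lit 0) (nat_lit 0) (XT.lf (nat_lit 0) (nat_lit 2869062642) (nat_lit 168) (nat_lit 957344908) (nat_lit 252) (nat_lit 7997983915) (nat_lit 66) (nat_lit 5) (nat_lit 68) (nat_lit 5) (nat_lit 69) (nat_lit 5) (nat_lit 277) (nat_lit 239) (nat_lit 204)) (XT.lf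 (nat_lit 0) (nat_lit 7728430462) (nat_lit 252) (nat_lit 674878772) (nat_lit 84) (nat_lit 3745419790) (nat_lit 66) (nat_lit 5) (nat_lit 69) (nat_lit 5) (nat_lit 67) (nat_lit 5) (nat_lit 278) (nat_lit 239) (nat_lit 203))) (XT.nd (nat_lit 94) (nat_lit 252) (nat_lit 0) (XT.lf (nat_lit 0) (nat_lit 8157203639) (nat_lit 252) (nat_lit 3744080115) (nat_lit 336) (nat_lit 584213244) (nat_lit 63) (nat_lit 5) (nat_lit 66) (nat_lit 5) (nat_lit 67) (nat_lit 5) (nat_lit 279) (nat_lit 239) (nat_lit 202)) (XT.lf (nat_lit 0) (nat_lit 3369584518) (nat_lit 252) (nat_lit 8254271445) (nat_lit 84) (nat_lit 1210752770) (nat_lit 60) (nat_lit 5) (nat_lit 63) (nat_lit 5) (nat_lit 61) (nat_lit 5) (nat_lit 280) (nat_lit 239) (nat_lit 201))))) (XT.nd (nat_lit 376) (nat_lit 588) (nat_lit 0) (XT.nd (nat_lit 188) (nat_lit 420) (nat_lit 0) (XT.nd (nat_lit 94) (nat_lit 0) (nat_lit 0) (XT.lf (nat_lit 0) (nat_lit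 729212025) (nat_lit 168) (nat_lit 6853521479) (nat_lit 252) (nat_lit 5613898952) (nat_lit 58) (nat_lit 5) (nat_lit 60) (nat_lit 5) (nat_lit 61) (nat_lit 5) (nat_lit 281) (nat_lit 239) (nat_lit 200)) (XT.lf (nat_lit 0) (nat_lit 10341072360) (nat_lit 168) (nat_lit 1740750803) (nat_lit 252) (nat_lit 1491170040) (nat_lit 58) (nat_lit 5) (nat_lit 60) (nat_lit 5) (nat_lit 61) (nat_lit 5) (nat_lit 282) (nat_lit 239) (nat_lit 199))) (XT.nd (nat_lit 94) (nat_lit 168) (nat_lit 0) (XT.lf (nat_lit 0) (nat_lit 2844692471) (nat_lit 252) (nat_lit 7496775259) (nat_lit 84) (nat_lit 3619597983) (nat_lit 55) (nat_lit 5) (nat_lit 58) (nat_lit 5) (nat_lit 56) (nat_lit 5) (nat_lit 283) (nat_lit 239) (nat_lit 198)) (XT.lf (nat_lit 0) (nat_lit 2306617819) (nat_lit 168) (nat_lit 5099078106) (nat_lit 252) (nat_lit 6958700607) (nat_lit 53) (nat_lit 5) (nat_lit 55) (nat_lit 5) (nat_lit 56) (nat_lit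 5) (nat_lit 284) (nat_lit 239) (nat_lit 197)))) (XT.nd (nat_lit 188) (nat_lit 336) (nat_lit 0) (XT.nd (nat_lit 94) (nat_lit 252) (nat_lit 0) (XT.lf (nat_lit 0) (nat_lit 12269057058) (nat_lit 252) (nat_lit 2035201265) (nat_lit 84) (nat_lit 479920193) (nat_lit 53) (nat_lit 5) (nat_lit 56) (nat_lit 5) (nat_lit 54) (nat_lit 4) (nat_lit 285) (nat_lit 239) (nat_lit 196)) (XT.lf (nat_lit 0) (nat_lit 2243789107) (nat_lit 252) (nat_lit 6674344143) (nat_lit 84) (nat_lit 6297038163) (nat_lit 50) (nat_lit 5) (nat_lit 53) (nat_lit 5) (nat_lit 51) (nat_lit 5) (nat_lit 286) (nat_lit 239) (nat_lit 195))) (XT.nd (nat_lit 94) (nat_lit 168) (nat_lit 0) (XT.lf (nat_lit 0) (nat_lit 4036777280) (nat_lit 168) (nat_lit 3159533288) (nat_lit 252) (nat_lit 8467332316) (nat_lit 48) (nat_lit 5) (nat_lit 50) (nat_lit 5) (nat_lit 51) (nat_lit 5) (nat_lit 287) (nat_lit 239) (nat_lit 194)) (XT.nd (nat_lit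 94) (nat_lit 168) (nat_lit 0) (XT.lf (nat_lit 0) (nat_lit 12499089651) (nat_lit 252) (nat_lit 762131747) (nat_lit 84) (nat_lit 2868184952) (nat_lit 48) (nat_lit 5) (nat_lit 51) (nat_lit 5) (nat_lit 49) (nat_lit 4) (nat_lit 288) (nat_lit 239) (nat_lit 193)) (XT.lf (nat_lit 0) (nat_lit 1571426137) (nat_lit 168) (nat_lit 5791002362) (nat_lit 84) (nat_lit 9246436741) (nat_lit 46) (nat_lit 5) (nat_lit 48) (nat_lit 5) (nat_lit 47) (nat_lit 5) (nat_lit 289) (nat_lit 239) (nat_lit 192))))))))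
noncomputable def xc82 : XT := (XT.nd (nat_lit 1598) (nat_lit 1428) (nat_lit 0) (XT.nd (nat_lit 752) (nat_lit 924) (nat_lit 0) (XT.nd (nat_lit 376) (nat_lit 420) (nat_lit 0) (XT.nd (nat_lit 188) (nat_lit 252) (nat_lit 0) (XT.nd (nat_lit 94) (nat_lit 84) (nat_lit 0) (XT.lf (nat_lit 0) (nat_lit 5924669680) (nat_lit 168) (nat_lit 1037842876) (nat_lit 252) (nat_lit 10144245905) (nat_lit 44) (nat_lit 5) (nat_lit 46) (nat_lit 5) (nat_lit 47) (nat_lit 5) (nat_lit 290) (nat_lit 239) (nat_lit 191)) (XT.lf (nat_lit 0) (nat_lit 636478554) (nat_lit 84) (nat_lit 12129854045) (nat_lit 168) (nat_lit 4856054779) (nat_lit 43) (nat_lit 5) (nat_lit 44) (nat_lit 5) (nat_lit 45) (nat_lit 4) (nat_lit 291) (nat_lit 239) (nat_lit 190))) (XT.nd (nat_lit 94) (nat_lit 168) (nat_lit 0) (XT.lf (nat_lit 0) (nat_lit 830033218) (nat_lit 168) (nat_lit 4848677242) (nat_lit 84) (nat_lit 12476754471) (nat_lit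 42) (nat_lit 5) (nat_lit 44) (nat_lit 5) (nat_lit 43) (nat_lit 5) (nat_lit 292) (nat_lit 239) (nat_lit 189)) (XT.lf (nat_lit 0) (nat_lit 6730430908) (nat_lit 252) (nat_lit 10749074931) (nat_lit 84) (nat_lit 1227050123) (nat_lit 40) (nat_lit 5) (nat_lit 43) (nat_lit 5) (nat_lit 41) (nat_lit 4) (nat_lit 293) (nat_lit 239) (nat_lit 188)))) (XT.nd (nat_lit 188) (nat_lit 252) (nat_lit 0) (XT.nd (nat_lit 94) (nat_lit 84) (nat_lit 0) (XT.lf (nat_lit 0) (nat_lit 2173031734) (nat_lit 84) (nat_lit 10912509418) (nat_lit 168) (nat_lit 6191675757) (nat_lit 39) (nat_lit 5) (nat_lit 40) (nat_lit 5) (nat_lit 41) (nat_lit 4) (nat_lit 294) (nat_lit 239) (nat_lit 187)) (XT.lf (nat_lit 0) (nat_lit 20178457) (nat_lit 168) (nat_lit 3847458479) (nat_lit 84) (nat_lit 16002145809) (nat_lit 38) (nat_lit 5) (nat_lit 40) (nat_lit 5) (nat_lit 39) (nat_lit 5) (nat_lit 295) (nat_lit 239) (nat_lit 186)))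 (XT.nd (nat_lit 94) (nat_lit 84) (nat_lit 0) (XT.lf (nat_lit 0) (nat_lit 6504461562) (nat_lit 252) (nat_lit 10331741584) (nat_lit 84) (nat_lit 3642202726) (nat_lit 36) (nat_lit 5) (nat_lit 39) (nat_lit 5) (nat_lit 37) (nat_lit 4) (nat_lit 296) (nat_lit 239) (nat_lit 185)) (XT.lf (nat_lit 0) (nat_lit 3828648860) (nat_lit 84) (nat_lit 9625807536) (nat_lit 168) (nat_lit 7655928882) (nat_lit 35) (nat_lit 5) (nat_lit 36) (nat_lit 5) (nat_lit 37) (nat_lit 4) (nat_lit 297) (nat_lit 239) (nat_lit 184))))) (XT.nd (nat_lit 376) (nat_lit 588) (nat_lit 0) (XT.nd (nat_lit 188) (nat_lit 84) (nat_lit 0) (XT.nd (nat_lit 94) (nat_lit 252) (nat_lit 0) (XT.lf (nat_lit 0) (nat_lit 18967907866) (nat_lit 84) (nat_lit 1912017018) (nat_lit 168) (nat_lit 887640074) (nat_lit 35) (nat_lit 5) (nat_lit 36) (nat_lit 5) (nat_lit 37) (nat_lit 4) (nat_lit 298) (nat_lit 239) (nat_lit 183)) (XT.lf (nat_lit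 0) (nat_lit 6272493194) (nat_lit 252) (nat_lit 9917521786) (nat_lit 84) (nat_lit 6250109849) (nat_lit 32) (nat_lit 5) (nat_lit 35) (nat_lit 5) (nat_lit 33) (nat_lit 4) (nat_lit 299) (nat_lit 239) (nat_lit 182))) (XT.nd (nat_lit 94) (nat_lit 0) (nat_lit 0) (XT.lf (nat_lit 0) (nat_lit 5611756229) (nat_lit 84) (nat_lit 8270948940) (nat_lit 168) (nat_lit 9256784821) (nat_lit 31) (nat_lit 5) (nat_lit 32) (nat_lit 5) (nat_lit 33) (nat_lit 4) (nat_lit 300) (nat_lit 239) (nat_lit 181)) (XT.lf (nat_lit 0) (nat_lit 21999803100) (nat_lit 168) (nat_lit 1692692428) (nat_lit 0) (nat_lit 175009113) (nat_lit 31) (nat_lit 5) (nat_lit 33) (nat_lit 4) (nat_lit 31) (nat_lit 4) (nat_lit 301) (nat_lit 239) (nat_lit 180)))) (XT.nd (nat_lit 188) (nat_lit 252) (nat_lit 0) (XT.nd (nat_lit 94) (nat_lit 84) (nat_lit 0) (XT.lf (nat_lit 0) (nat_lit 6037782882) (nat_lit 252) (nat_lit 9509238685) (nat_lit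 84) (nat_lit 9063525309) (nat_lit 28) (nat_lit 5) (nat_lit 31) (nat_lit 5) (nat_lit 29) (nat_lit 4) (nat_lit 302) (nat_lit 239) (nat_lit 179)) (XT.lf (nat_lit 0) (nat_lit 7532817990) (nat_lit 84) (nat_lit 6846920348) (nat_lit 168) (nat_lit 11004273792) (nat_lit 27) (nat_lit 5) (nat_lit 28) (nat_lit 5) (nat_lit 29) (nat_lit 4) (nat_lit 303) (nat_lit 239) (nat_lit 178))) (XT.nd (nat_lit 94) (nat_lit 252) (nat_lit 0) (XT.lf (nat_lit 0) (nat_lit 23295603288) (nat_lit 168) (nat_lit 551189552) (nat_lit 0) (nat_lit 2341517219) (nat_lit 27) (nat_lit 5) (nat_lit 29) (nat_lit 4) (nat_lit 27) (nat_lit 4) (nat_lit 304) (nat_lit 239) (nat_lit 177)) (XT.nd (nat_lit 94) (nat_lit 84) (nat_lit 0) (XT.lf (nat_lit 0) (nat_lit 5802905785) (nat_lit 168) (nat_lit 9109054169) (nat_lit 84) (nat_lit 12098548051) (nat_lit 25) (nat_lit 5) (nat_lit 27) (nat_lit 5) (nat_lit 26) (nat_lit 4) (nat_lit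 305) (nat_lit 239) (nat_lit 176)) (XT.lf (nat_lit 0) (nat_lit 9604312833) (nat_lit 84) (nat_lit 5350723179) (nat_lit 168) (nat_lit 12910461217) (nat_lit 24) (nat_lit 5) (nat_lit 25) (nat_lit 5) (nat_lit 26) (nat_lit 4) (nat_lit 306) (nat_lit 239) (nat_lit 175))))))) (XT.nd (nat_lit 752) (nat_lit 756) (nat_lit 0) (XT.nd (nat_lit 376) (nat_lit 336) (nat_lit 0) (XT.nd (nat_lit 188) (nat_lit 168) (nat_lit 0) (XT.nd (nat_lit 94) (nat_lit 84) (nat_lit 0) (XT.lf (nat_lit 0) (nat_lit 681989978) (nat_lit 84) (nat_lit 24083092108) (nat_lit 84) (nat_lit 3988138362) (nat_lit 23) (nat_lit 4) (nat_lit 24) (nat_lit 5) (nat_lit 24) (nat_lit 4) (nat_lit 307) (nat_lit 239) (nat_lit 174)) (XT.lf (nat_lit 0) (nat_lit 5569881013) (nat_lit 168) (nat_lit 8718593759) (nat_lit 84) (nat_lit 15374565797) (nat_lit 22) (nat_lit 5) (nat_lit 24) (nat_lit 5) (nat_lit 23) (nat_lit 4) (nat_lit 308) (nat_lit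 239) (nat_lit 173))) (XT.nd (nat_lit 94) (nat_lit 84) (nat_lit 0) (XT.lf (nat_lit 0) (nat_lit 11840750599) (nat_lit 84) (nat_lit 3777542803) (nat_lit 168) (nat_lit 14989463346) (nat_lit 21) (nat_lit 5) (nat_lit 22) (nat_lit 5) (nat_lit 23) (nat_lit 4) (nat_lit 309) (nat_lit 239) (nat_lit 172)) (XT.lf (nat_lit 0) (nat_lit 2012436148) (nat_lit 84) (nat_lit 24413293529) (nat_lit 84) (nat_lit 5161148895) (nat_lit 20) (nat_lit 4) (nat_lit 21) (nat_lit 5) (nat_lit 21) (nat_lit 4) (nat_lit 310) (nat_lit 239) (nat_lit 171)))) (XT.nd (nat_lit 188) (nat_lit 168) (nat_lit 0) (XT.nd (nat_lit 94) (nat_lit 84) (nat_lit 0) (XT.lf (nat_lit 0) (nat_lit 5340274953) (nat_lit 168) (nat_lit 8339048997) (nat_lit 84) (nat_lit 18914265518) (nat_lit 19) (nat_lit 5) (nat_lit 21) (nat_lit 5) (nat_lit 20) (nat_lit 4) (nat_lit 311) (nat_lit 239) (nat_lit 170)) (XT.lf (nat_lit 0) (nat_lit 14258725341)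 (nat_lit 84) (nat_lit 2120867184) (nat_lit 168) (nat_lit 17257499385) (nat_lit 18) (nat_lit 5) (nat_lit 19) (nat_lit 5) (nat_lit 20) (nat_lit 4) (nat_lit 312) (nat_lit 239) (nat_lit 169))) (XT.nd (nat_lit 94) (nat_lit 84) (nat_lit 0) (XT.lf (nat_lit 0) (nat_lit 3430039883) (nat_lit 84) (nat_lit 24858054732) (nat_lit 84) (nat_lit 6428813927) (nat_lit 17) (nat_lit 4) (nat_lit 18) (nat_lit 5) (nat_lit 18) (nat_lit 4) (nat_lit 313) (nat_lit 239) (nat_lit 168)) (XT.lf (nat_lit 0) (nat_lit 5115286048) (nat_lit 168) (nat_lit 7971261328) (nat_lit 84) (nat_lit 22743704603) (nat_lit 16) (nat_lit 5) (nat_lit 18) (nat_lit 5) (nat_lit 17) (nat_lit 4) (nat_lit 314) (nat_lit 239) (nat_lit 167))))) (XT.nd (nat_lit 376) (nat_lit 420) (nat_lit 0) (XT.nd (nat_lit 188) (nat_lit 168) (nat_lit 0) (XT.nd (nat_lit 94) (nat_lit 84) (nat_lit 0) (XT.lf (nat_lit 0) (nat_lit 16877002372) (nat_lit 84)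 (nat_lit 372561868) (nat_lit 168) (nat_lit 19732977652) (nat_lit 15) (nat_lit 5) (nat_lit 16) (nat_lit 5) (nat_lit 17) (nat_lit 4) (nat_lit 315) (nat_lit 239) (nat_lit 166)) (XT.lf (nat_lit 0) (nat_lit 4944161260) (nat_lit 84) (nat_lit 25429017386) (nat_lit 84) (nat_lit 7800136540) (nat_lit 14) (nat_lit 4) (nat_lit 15) (nat_lit 5) (nat_lit 15) (nat_lit 4) (nat_lit 316) (nat_lit 239) (nat_lit 165))) (XT.nd (nat_lit 94) (nat_lit 84) (nat_lit 0) (XT.lf (nat_lit 0) (nat_lit 4895814327) (nat_lit 168) (nat_lit 7615790784) (nat_lit 84) (nat_lit 26892438299) (nat_lit 13) (nat_lit 5) (nat_lit 15) (nat_lit 5) (nat_lit 14) (nat_lit 4) (nat_lit 317) (nat_lit 239) (nat_lit 164)) (XT.lf (nat_lit 0) (nat_lit 18262606059) (nat_lit 168) (nat_lit 20982582516) (nat_lit 0) (nat_lit 1429816965) (nat_lit 12) (nat_lit 5) (nat_lit 14) (nat_lit 4) (nat_lit 12) (nat_lit 4) (nat_lit 318) (nat_lit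 239) (nat_lit 163)))) (XT.nd (nat_lit 188) (nat_lit 252) (nat_lit 0) (XT.nd (nat_lit 94) (nat_lit 84) (nat_lit 0) (XT.lf (nat_lit 0) (nat_lit 6565439350) (nat_lit 84) (nat_lit 26138357637) (nat_lit 84) (nat_lit 9285415807) (nat_lit 11) (nat_lit 4) (nat_lit 12) (nat_lit 5) (nat_lit 12) (nat_lit 4) (nat_lit 319) (nat_lit 239) (nat_lit 162)) (XT.lf (nat_lit 0) (nat_lit 4682518407) (nat_lit 168) (nat_lit 7272972176) (nat_lit 84) (nat_lit 31393700434) (nat_lit 10) (nat_lit 5) (nat_lit 12) (nat_lit 5) (nat_lit 11) (nat_lit 4) (nat_lit 320) (nat_lit 239) (nat_lit 161))) (XT.nd (nat_lit 94) (nat_lit 168) (nat_lit 0) (XT.lf (nat_lit 0) (nat_lit 19415426858) (nat_lit 168) (nat_lit 22005880627) (nat_lit 0) (nat_lit 3329318250) (nat_lit 9) (nat_lit 5) (nat_lit 11) (nat_lit 4) (nat_lit 9) (nat_lit 4) (nat_lit 321) (nat_lit 239) (nat_lit 160)) (XT.nd (nat_lit 94) (nat_lit 84) (nat_lit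 0) (XT.lf (nat_lit 0) (nat_lit 8305847829) (nat_lit 84) (nat_lit 26998989912) (nat_lit 84) (nat_lit 10896301598) (nat_lit 8) (nat_lit 4) (nat_lit 9) (nat_lit 5) (nat_lit 9) (nat_lit 4) (nat_lit 322) (nat_lit 239) (nat_lit 159)) (XT.lf (nat_lit 0) (nat_lit 4475862191) (nat_lit 168) (nat_lit 6942961018) (nat_lit 84) (nat_lit 36284635664) (nat_lit 7) (nat_lit 5) (nat_lit 9) (nat_lit 5) (nat_lit 8) (nat_lit 4) (nat_lit 323) (nat_lit 239) (nat_lit 158))))))))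
noncomputable def xc83 : XT := (XT.nd (nat_lit 37412) (nat_lit 0) (nat_lit 10584) (XT.nd (nat_lit 752) (nat_lit 0) (nat_lit 0) (XT.nd (nat_lit 376) (nat_lit 252) (nat_lit 0) (XT.nd (nat_lit 188) (nat_lit 168) (nat_lit 0) (XT.nd (nat_lit 94) (nat_lit 84) (nat_lit 0) (XT.lf (nat_lit 0) (nat_lit 20715619868) (nat_lit 168) (nat_lit 23182718696) (nat_lit 0) (nat_lit 5350365780) (nat_lit 6) (nat_lit 5) (nat_lit 8) (nat_lit 4) (nat_lit 6) (nat_lit 4) (nat_lit 324) (nat_lit 239) (nat_lit 157)) (XT.lf (nat_lit 0) (nat_lit 10178770580) (nat_lit 84) (nat_lit 28024763661) (nat_lit 84) (nat_lit 12645869408) (nat_lit 5) (nat_lit 4) (nat_lit 6) (nat_lit 5) (nat_lit 6) (nat_lit 4) (nat_lit 325) (nat_lit 239) (nat_lit 156))) (XT.nd (nat_lit 94) (nat_lit 84) (nat_lit 0) (XT.lf (nat_lit 0) (nat_lit 4276153100) (nat_lit 168) (nat_lit 6625771031) (nat_lit 84) (nat_lit 41606582629) (nat_lit 4)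 (nat_lit 5) (nat_lit 6) (nat_lit 5) (nat_lit 5) (nat_lit 4) (nat_lit 326) (nat_lit 239) (nat_lit 155)) (XT.lf (nat_lit 0) (nat_lit 22177792502) (nat_lit 168) (nat_lit 24527410433) (nat_lit 0) (nat_lit 7507071628) (nat_lit 3) (nat_lit 5) (nat_lit 5) (nat_lit 4) (nat_lit 3) (nat_lit 4) (nat_lit 327) (nat_lit 239) (nat_lit 154)))) (XT.nd (nat_lit 188) (nat_lit 84) (nat_lit 0) (XT.nd (nat_lit 94) (nat_lit 84) (nat_lit 0) (XT.lf (nat_lit 0) (nat_lit 12199096738) (nat_lit 84) (nat_lit 29230657341) (nat_lit 84) (nat_lit 14548714669) (nat_lit 2) (nat_lit 4) (nat_lit 3) (nat_lit 5) (nat_lit 3) (nat_lit 4) (nat_lit 328) (nat_lit 239) (nat_lit 153)) (XT.lf (nat_lit 0) (nat_lit 4083573356) (nat_lit 168) (nat_lit 6321304718) (nat_lit 84) (nat_lit 47405408332) (nat_lit 1) (nat_lit 5) (nat_lit 3) (nat_lit 5) (nat_lit 2) (nat_lit 4) (nat_lit 329) (nat_lit 239) (nat_lit 152))) (XT.nd (nat_lit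 94) (nat_lit 0) (nat_lit 0) (XT.lf (nat_lit 0) (nat_lit 87720146043) (nat_lit 0) (nat_lit 0) (nat_lit 0) (nat_lit 0) (nat_lit 0) (nat_lit 0) (nat_lit 1) (nat_lit 0) (nat_lit 1) (nat_lit 0) (nat_lit 330) (nat_lit 239) (nat_lit 151)) (XT.lf (nat_lit 0) (nat_lit 92053659497) (nat_lit 0) (nat_lit 0) (nat_lit 0) (nat_lit 0) (nat_lit 0) (nat_lit 0) (nat_lit 1) (nat_lit 0) (nat_lit 1) (nat_lit 0) (nat_lit 331) (nat_lit 239) (nat_lit 150))))) (XT.nd (nat_lit 376) (nat_lit 0) (nat_lit 0) (XT.nd (nat_lit 188) (nat_lit 0) (nat_lit 0) (XT.nd (nat_lit 94) (nat_lit 0) (nat_lit 0) (XT.lf (nat_lit 0) (nat_lit 96603913542) (nat_lit 0) (nat_lit 0) (nat_lit 0) (nat_lit 0) (nat_lit 0) (nat_lit 0) (nat_lit 1) (nat_lit 0) (nat_lit 1) (nat_lit 0) (nat_lit 332) (nat_lit 239) (nat_lit 149)) (XT.lf (nat_lit 0) (nat_lit 101381742116) (nat_lit 0) (nat_lit 0) (nat_lit 0) (nat_lit 0) (nat_lit 0) (nat_lit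 0) (nat_lit 1) (nat_lit 0) (nat_lit 1) (nat_lit 0) (nat_lit 333) (nat_lit 239) (nat_lit 148))) (XT.nd (nat_lit 94) (nat_lit 0) (nat_lit 0) (XT.lf (nat_lit 0) (nat_lit 106398521001) (nat_lit 0) (nat_lit 0) (nat_lit 0) (nat_lit 0) (nat_lit 0) (nat_lit 0) (nat_lit 1) (nat_lit 0) (nat_lit 1) (nat_lit 0) (nat_lit 334) (nat_lit 239) (nat_lit 147)) (XT.lf (nat_lit 0) (nat_lit 111666194910) (nat_lit 0) (nat_lit 0) (nat_lit 0) (nat_lit 0) (nat_lit 0) (nat_lit 0) (nat_lit 1) (nat_lit 0) (nat_lit 1) (nat_lit 0) (nat_lit 335) (nat_lit 239) (nat_lit 146)))) (XT.nd (nat_lit 188) (nat_lit 0) (nat_lit 0) (XT.nd (nat_lit 94) (nat_lit 0) (nat_lit 0) (XT.lf (nat_lit 0) (nat_lit 117197305922) (nat_lit 0) (nat_lit 0) (nat_lit 0) (nat_lit 0) (nat_lit 0) (nat_lit 0) (nat_lit 1) (nat_lit 0) (nat_lit 1) (nat_lit 0) (nat_lit 336) (nat_lit 239) (nat_lit 145)) (XT.lf (nat_lit 0) (nat_lit 123005023351)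 (nat_lit 0) (nat_lit 0) (nat_lit 0) (nat_lit 0) (nat_lit 0) (nat_lit 0) (nat_lit 1) (nat_lit 0) (nat_lit 1) (nat_lit 0) (nat_lit 337) (nat_lit 239) (nat_lit 144))) (XT.nd (nat_lit 94) (nat_lit 0) (nat_lit 0) (XT.lf (nat_lit 0) (nat_lit 129103175094) (nat_lit 0) (nat_lit 0) (nat_lit 0) (nat_lit 0) (nat_lit 0) (nat_lit 0) (nat_lit 1) (nat_lit 0) (nat_lit 1) (nat_lit 0) (nat_lit 338) (nat_lit 239) (nat_lit 143)) (XT.nd (nat_lit 35908) (nat_lit 0) (nat_lit 15792) (XT.lf (nat_lit 0) (nat_lit 135506280560) (nat_lit 0) (nat_lit 0) (nat_lit 0) (nat_lit 0) (nat_lit 0) (nat_lit 0) (nat_lit 1) (nat_lit 0) (nat_lit 1) (nat_lit 0) (nat_lit 339) (nat_lit 239) (nat_lit 142)) (XT.lf (nat_lit 0) (nat_lit 1073741823) (nat_lit 0) (nat_lit 0) (nat_lit 0) (nat_lit 0) (nat_lit 188) (nat_lit 0) (nat_lit 1) (nat_lit 0) (nat_lit 1) (nat_lit 0) (nat_lit 240) (nat_lit 240) (nat_lit 240))))))) (XT.nd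 (nat_lit 752) (nat_lit 4032) (nat_lit 0) (XT.nd (nat_lit 376) (nat_lit 756) (nat_lit 0) (XT.nd (nat_lit 188) (nat_lit 252) (nat_lit 0) (XT.nd (nat_lit 94) (nat_lit 84) (nat_lit 0) (XT.lf (nat_lit 0) (nat_lit 3170933114) (nat_lit 84) (nat_lit 3170933114) (nat_lit 0) (nat_lit 103099332) (nat_lit 187) (nat_lit 5) (nat_lit 188) (nat_lit 0) (nat_lit 187) (nat_lit 4) (nat_lit 241) (nat_lit 240) (nat_lit 239)) (XT.lf (nat_lit 0) (nat_lit 155989451) (nat_lit 84) (nat_lit 6145569694) (nat_lit 84) (nat_lit 155989451) (nat_lit 186) (nat_lit 4) (nat_lit 187) (nat_lit 5) (nat_lit 187) (nat_lit 4) (nat_lit 242) (nat_lit 240) (nat_lit 238))) (XT.nd (nat_lit 94) (nat_lit 168) (nat_lit 0) (XT.lf (nat_lit 0) (nat_lit 2876129809) (nat_lit 168) (nat_lit 2876129809) (nat_lit 84) (nat_lit 723168756) (nat_lit 185) (nat_lit 5) (nat_lit 187) (nat_lit 5) (nat_lit 186) (nat_lit 4) (nat_lit 243) (nat_lit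 240) (nat_lit 237)) (XT.lf (nat_lit 0) (nat_lit 625815708) (nat_lit 168) (nat_lit 5251316874) (nat_lit 252) (nat_lit 625815708) (nat_lit 183) (nat_lit 5) (nat_lit 185) (nat_lit 5) (nat_lit 186) (nat_lit 4) (nat_lit 244) (nat_lit 240) (nat_lit 236)))) (XT.nd (nat_lit 188) (nat_lit 420) (nat_lit 0) (XT.nd (nat_lit 94) (nat_lit 252) (nat_lit 0) (XT.lf (nat_lit 0) (nat_lit 2282940018) (nat_lit 252) (nat_lit 2282940018) (nat_lit 84) (nat_lit 1970690559) (nat_lit 182) (nat_lit 5) (nat_lit 185) (nat_lit 5) (nat_lit 183) (nat_lit 5) (nat_lit 245) (nat_lit 240) (nat_lit 235)) (XT.lf (nat_lit 0) (nat_lit 1415071063) (nat_lit 252) (nat_lit 3748829023) (nat_lit 336) (nat_lit 1415071063) (nat_lit 179) (nat_lit 5) (nat_lit 182) (nat_lit 5) (nat_lit 183) (nat_lit 5) (nat_lit 246) (nat_lit 240) (nat_lit 234))) (XT.nd (nat_lit 94) (nat_lit 336) (nat_lit 0) (XT.lf (nat_lit 0) (nat_lit 1384161391)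 (nat_lit 336) (nat_lit 1384161391) (nat_lit 84) (nat_lit 3860504517) (nat_lit 178) (nat_lit 5) (nat_lit 182) (nat_lit 5) (nat_lit 179) (nat_lit 5) (nat_lit 247) (nat_lit 240) (nat_lit 233)) (XT.lf (nat_lit 0) (nat_lit 2533138149) (nat_lit 336) (nat_lit 1619879188) (nat_lit 420) (nat_lit 2533138149) (nat_lit 174) (nat_lit 5) (nat_lit 178) (nat_lit 5) (nat_lit 179) (nat_lit 5) (nat_lit 248) (nat_lit 240) (nat_lit 232))))) (XT.nd (nat_lit 376) (nat_lit 2940) (nat_lit 0) (XT.nd (nat_lit 188) (nat_lit 588) (nat_lit 0) (XT.nd (nat_lit 94) (nat_lit 420) (nat_lit 0) (XT.lf (nat_lit 0) (nat_lit 168900087) (nat_lit 420) (nat_lit 168900087) (nat_lit 84) (nat_lit 6415055665) (nat_lit 173) (nat_lit 5) (nat_lit 178) (nat_lit 5) (nat_lit 174) (nat_lit 5) (nat_lit 249) (nat_lit 240) (nat_lit 231)) (XT.lf (nat_lit 0) (nat_lit 2850108953) (nat_lit 504) (nat_lit 2850108953) (nat_lit 84) (nat_lit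 1124137024) (nat_lit 168) (nat_lit 5) (nat_lit 174) (nat_lit 5) (nat_lit 169) (nat_lit 5) (nat_lit 250) (nat_lit 240) (nat_lit 230))) (XT.nd (nat_lit 94) (nat_lit 84) (nat_lit 0) (XT.lf (nat_lit 0) (nat_lit 1355320221) (nat_lit 504) (nat_lit 4194563273) (nat_lit 588) (nat_lit 1355320221) (nat_lit 162) (nat_lit 5) (nat_lit 168) (nat_lit 5) (nat_lit 169) (nat_lit 5) (nat_lit 251) (nat_lit 240) (nat_lit 229)) (XT.lf (nat_lit 0) (nat_lit 1256747067) (nat_lit 588) (nat_lit 1256747067) (nat_lit 84) (nat_lit 4480170680) (nat_lit 161) (nat_lit 5) (nat_lit 168) (nat_lit 5) (nat_lit 162) (nat_lit 5) (nat_lit 252) (nat_lit 240) (nat_lit 228)))) (XT.nd (nat_lit 188) (nat_lit 1680) (nat_lit 0) (XT.nd (nat_lit 94) (nat_lit 672) (nat_lit 0) (XT.lf (nat_lit 0) (nat_lit 3220994431) (nat_lit 588) (nat_lit 647707590) (nat_lit 672) (nat_lit 3220994431) (nat_lit 154) (nat_lit 5) (nat_lit 161)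 (nat_lit 5) (nat_lit 162) (nat_lit 5) (nat_lit 253) (nat_lit 240) (nat_lit 227)) (XT.lf (nat_lit 0) (nat_lit 661117207) (nat_lit 672) (nat_lit 5872192508) (nat_lit 756) (nat_lit 661117207) (nat_lit 146) (nat_lit 5) (nat_lit 154) (nat_lit 5) (nat_lit 155) (nat_lit 5) (nat_lit 254) (nat_lit 240) (nat_lit 226))) (XT.nd (nat_lit 94) (nat_lit 1596) (nat_lit 0) (XT.lf (nat_lit 0) (nat_lit 1911083648) (nat_lit 756) (nat_lit 1911083648) (nat_lit 84) (nat_lit 3483184528) (nat_lit 145) (nat_lit 5) (nat_lit 154) (nat_lit 5) (nat_lit 146) (nat_lit 5) (nat_lit 255) (nat_lit 240) (nat_lit 225)) (XT.nd (nat_lit 94) (nat_lit 840) (nat_lit 0) (XT.lf (nat_lit 0) (nat_lit 2911880666) (nat_lit 756) (nat_lit 1601342419) (nat_lit 840) (nat_lit 2911880666) (nat_lit 136) (nat_lit 5) (nat_lit 145) (nat_lit 5) (nat_lit 146) (nat_lit 5) (nat_lit 256) (nat_lit 240) (nat_lit 224)) (XT.lf (nat_lit 0)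 (nat_lit 376309413) (nat_lit 840) (nat_lit 6801602335) (nat_lit 924) (nat_lit 376309413) (nat_lit 126) (nat_lit 5) (nat_lit 136) (nat_lit 5) (nat_lit 137) (nat_lit 5) (nat_lit 257) (nat_lit 240) (nat_lit 223))))))))
noncomputable def xc84 : XT := (XT.nd (nat_lit 1504) (nat_lit 2520) (nat_lit 0) (XT.nd (nat_lit 752) (nat_lit 1932) (nat_lit 0) (XT.nd (nat_lit 376) (nat_lit 1176) (nat_lit 0) (XT.nd (nat_lit 188) (nat_lit 504) (nat_lit 0) (XT.nd (nat_lit 94) (nat_lit 504) (nat_lit 0) (XT.lf (nat_lit 0) (nat_lit 2201019611) (nat_lit 924) (nat_lit 2201019611) (nat_lit 84) (nat_lit 3286563305) (nat_lit 125) (nat_lit 5) (nat_lit 136) (nat_lit 5) (nat_lit 126) (nat_lit 5) (nat_lit 258) (nat_lit 240) (nat_lit 222)) (XT.lf (nat_lit 0) (nat_lit 3001413748) (nat_lit 504) (nat_lit 1829737866) (nat_lit 588) (nat_lit 3001413748) (nat_lit 119) (nat_lit 5) (nat_lit 125) (nat_lit 5) (nat_lit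 126) (nat_lit 5) (nat_lit 259) (nat_lit 240) (nat_lit 221))) (XT.nd (nat_lit 94) (nat_lit 84) (nat_lit 0) (XT.lf (nat_lit 0) (nat_lit 441809801) (nat_lit 420) (nat_lit 7102529294) (nat_lit 504) (nat_lit 441809801) (nat_lit 114) (nat_lit 5) (nat_lit 119) (nat_lit 5) (nat_lit 120) (nat_lit 5) (nat_lit 260) (nat_lit 240) (nat_lit 220)) (XT.lf (nat_lit 0) (nat_lit 2181811844) (nat_lit 504) (nat_lit 2181811844) (nat_lit 84) (nat_lit 3781638960) (nat_lit 113) (nat_lit 5) (nat_lit 119) (nat_lit 5) (nat_lit 114) (nat_lit 5) (nat_lit 261) (nat_lit 240) (nat_lit 219)))) (XT.nd (nat_lit 188) (nat_lit 420) (nat_lit 0) (XT.nd (nat_lit 94) (nat_lit 336) (nat_lit 0) (XT.lf (nat_lit 0) (nat_lit 3439063558) (nat_lit 420) (nat_lit 1436169522) (nat_lit 504) (nat_lit 3439063558) (nat_lit 108) (nat_lit 5) (nat_lit 113) (nat_lit 5) (nat_lit 114) (nat_lit 5) (nat_lit 262) (nat_lit 240) (nat_lit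 218)) (XT.lf (nat_lit 0) (nat_lit 811145575) (nat_lit 336) (nat_lit 6870571589) (nat_lit 420) (nat_lit 811145575) (nat_lit 104) (nat_lit 5) (nat_lit 108) (nat_lit 5) (nat_lit 109) (nat_lit 5) (nat_lit 263) (nat_lit 240) (nat_lit 217))) (XT.nd (nat_lit 94) (nat_lit 336) (nat_lit 0) (XT.lf (nat_lit 0) (nat_lit 1897194793) (nat_lit 420) (nat_lit 1897194793) (nat_lit 84) (nat_lit 4883877738) (nat_lit 103) (nat_lit 5) (nat_lit 108) (nat_lit 5) (nat_lit 104) (nat_lit 5) (nat_lit 264) (nat_lit 240) (nat_lit 216)) (XT.lf (nat_lit 0) (nat_lit 4186042912) (nat_lit 336) (nat_lit 501498968) (nat_lit 420) (nat_lit 4186042912) (nat_lit 99) (nat_lit 5) (nat_lit 103) (nat_lit 5) (nat_lit 104) (nat_lit 5) (nat_lit 265) (nat_lit 240) (nat_lit 215))))) (XT.nd (nat_lit 376) (nat_lit 924) (nat_lit 0) (XT.nd (nat_lit 188) (nat_lit 588) (nat_lit 0) (XT.nd (nat_lit 94) (nat_lit 84) (nat_lit 0)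 (XT.lf (nat_lit 0) (nat_lit 1448404940) (nat_lit 336) (nat_lit 6181246018) (nat_lit 420) (nat_lit 1448404940) (nat_lit 95) (nat_lit 5) (nat_lit 99) (nat_lit 5) (nat_lit 100) (nat_lit 5) (nat_lit 266) (nat_lit 240) (nat_lit 214)) (XT.lf (nat_lit 0) (nat_lit 1381283025) (nat_lit 420) (nat_lit 1381283025) (nat_lit 84) (nat_lit 6529030594) (nat_lit 94) (nat_lit 5) (nat_lit 99) (nat_lit 5) (nat_lit 95) (nat_lit 5) (nat_lit 267) (nat_lit 240) (nat_lit 213))) (XT.nd (nat_lit 94) (nat_lit 252) (nat_lit 0) (XT.lf (nat_lit 0) (nat_lit 4315517711) (nat_lit 420) (nat_lit 4315517711) (nat_lit 84) (nat_lit 883004878) (nat_lit 90) (nat_lit 5) (nat_lit 95) (nat_lit 5) (nat_lit 91) (nat_lit 5) (nat_lit 268) (nat_lit 240) (nat_lit 212)) (XT.lf (nat_lit 0) (nat_lit 2326568385) (nat_lit 252) (nat_lit 5093299196) (nat_lit 336) (nat_lit 2326568385) (nat_lit 87) (nat_lit 5) (nat_lit 90) (nat_lit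 5) (nat_lit 91) (nat_lit 5) (nat_lit 269) (nat_lit 240) (nat_lit 211)))) (XT.nd (nat_lit 188) (nat_lit 504) (nat_lit 0) (XT.nd (nat_lit 94) (nat_lit 336) (nat_lit 0) (XT.lf (nat_lit 0) (nat_lit 660120345) (nat_lit 336) (nat_lit 660120345) (nat_lit 84) (nat_lit 8670013446) (nat_lit 86) (nat_lit 5) (nat_lit 90) (nat_lit 5) (nat_lit 87) (nat_lit 5) (nat_lit 270) (nat_lit 240) (nat_lit 210)) (XT.lf (nat_lit 0) (nat_lit 3785291024) (nat_lit 420) (nat_lit 3785291024) (nat_lit 84) (nat_lit 2670407371) (nat_lit 82) (nat_lit 5) (nat_lit 87) (nat_lit 5) (nat_lit 83) (nat_lit 5) (nat_lit 271) (nat_lit 240) (nat_lit 209))) (XT.nd (nat_lit 94) (nat_lit 252) (nat_lit 0) (XT.lf (nat_lit 0) (nat_lit 3426158336) (nat_lit 252) (nat_lit 3651402751) (nat_lit 336) (nat_lit 3426158336) (nat_lit 79) (nat_lit 5) (nat_lit 82) (nat_lit 5) (nat_lit 83) (nat_lit 5) (nat_lit 272) (nat_lit 240) (nat_lit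 208)) (XT.lf (nat_lit 0) (nat_lit 243078538) (nat_lit 252) (nat_lit 10293330626) (nat_lit 336) (nat_lit 243078538) (nat_lit 76) (nat_lit 5) (nat_lit 79) (nat_lit 5) (nat_lit 80) (nat_lit 5) (nat_lit 273) (nat_lit 240) (nat_lit 207)))))) (XT.nd (nat_lit 752) (nat_lit 1176) (nat_lit 0) (XT.nd (nat_lit 376) (nat_lit 672) (nat_lit 0) (XT.nd (nat_lit 188) (nat_lit 336) (nat_lit 0) (XT.nd (nat_lit 94) (nat_lit 252) (nat_lit 0) (XT.lf (nat_lit 0) (nat_lit 3108085535) (nat_lit 336) (nat_lit 3108085535) (nat_lit 84) (nat_lit 4845047869) (nat_lit 75) (nat_lit 5) (nat_lit 79) (nat_lit 5) (nat_lit 76) (nat_lit 5) (nat_lit 274) (nat_lit 240) (nat_lit 206)) (XT.lf (nat_lit 0) (nat_lit 4734152972) (nat_lit 252) (nat_lit 1888338896) (nat_lit 336) (nat_lit 4734152972) (nat_lit 72) (nat_lit 5) (nat_lit 75) (nat_lit 5) (nat_lit 76) (nat_lit 5) (nat_lit 275) (nat_lit 240) (nat_lit 205))) (XT.nd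 (nat_lit 94) (nat_lit 84) (nat_lit 0) (XT.lf (nat_lit 0) (nat_lit 1305437354) (nat_lit 252) (nat_lit 9053644177) (nat_lit 336) (nat_lit 1305437354) (nat_lit 69) (nat_lit 5) (nat_lit 72) (nat_lit 5) (nat_lit 73) (nat_lit 5) (nat_lit 276) (nat_lit 240) (nat_lit 204)) (XT.lf (nat_lit 0) (nat_lit 2297881200) (nat_lit 336) (nat_lit 2297881200) (nat_lit 84) (nat_lit 7386402271) (nat_lit 68) (nat_lit 5) (nat_lit 72) (nat_lit 5) (nat_lit 69) (nat_lit 5) (nat_lit 277) (nat_lit 240) (nat_lit 203)))) (XT.nd (nat_lit 188) (nat_lit 252) (nat_lit 0) (XT.nd (nat_lit 94) (nat_lit 252) (nat_lit 0) (XT.lf (nat_lit 0) (nat_lit 6072588155) (nat_lit 252) (nat_lit 6072588155) (nat_lit 84) (nat_lit 167691717) (nat_lit 66) (nat_lit 5) (nat_lit 69) (nat_lit 5) (nat_lit 67) (nat_lit 5) (nat_lit 278) (nat_lit 240) (nat_lit 202)) (XT.lf (nat_lit 0) (nat_lit 2529295228) (nat_lit 252) (nat_lit 7597002721)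 (nat_lit 336) (nat_lit 2529295228) (nat_lit 63) (nat_lit 5) (nat_lit 66) (nat_lit 5) (nat_lit 67) (nat_lit 5) (nat_lit 279) (nat_lit 240) (nat_lit 201))) (XT.nd (nat_lit 94) (nat_lit 168) (nat_lit 0) (XT.lf (nat_lit 0) (nat_lit 1364340206) (nat_lit 336) (nat_lit 1364340206) (nat_lit 84) (nat_lit 10283663763) (nat_lit 62) (nat_lit 5) (nat_lit 66) (nat_lit 5) (nat_lit 63) (nat_lit 5) (nat_lit 280) (nat_lit 240) (nat_lit 200)) (XT.lf (nat_lit 0) (nat_lit 5470486515) (nat_lit 252) (nat_lit 5470486515) (nat_lit 84) (nat_lit 2438745002) (nat_lit 60) (nat_lit 5) (nat_lit 63) (nat_lit 5) (nat_lit 61) (nat_lit 5) (nat_lit 281) (nat_lit 240) (nat_lit 199))))) (XT.nd (nat_lit 376) (nat_lit 588) (nat_lit 0) (XT.nd (nat_lit 188) (nat_lit 336) (nat_lit 0) (XT.nd (nat_lit 94) (nat_lit 84) (nat_lit 0) (XT.lf (nat_lit 0) (nat_lit 3910614701) (nat_lit 168) (nat_lit 5940759476) (nat_lit 252)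 (nat_lit 3910614701) (nat_lit 58) (nat_lit 5) (nat_lit 60) (nat_lit 5) (nat_lit 61) (nat_lit 5) (nat_lit 282) (nat_lit 240) (nat_lit 198)) (XT.lf (nat_lit 0) (nat_lit 313412619) (nat_lit 252) (nat_lit 313412619) (nat_lit 84) (nat_lit 13534588493) (nat_lit 57) (nat_lit 5) (nat_lit 60) (nat_lit 5) (nat_lit 58) (nat_lit 5) (nat_lit 283) (nat_lit 240) (nat_lit 197))) (XT.nd (nat_lit 94) (nat_lit 168) (nat_lit 0) (XT.lf (nat_lit 0) (nat_lit 4794805174) (nat_lit 252) (nat_lit 4794805174) (nat_lit 84) (nat_lit 4979114747) (nat_lit 55) (nat_lit 5) (nat_lit 58) (nat_lit 5) (nat_lit 56) (nat_lit 5) (nat_lit 284) (nat_lit 240) (nat_lit 196)) (XT.lf (nat_lit 0) (nat_lit 5449131609) (nat_lit 168) (nat_lit 4095900568) (nat_lit 252) (nat_lit 5449131609) (nat_lit 53) (nat_lit 5) (nat_lit 55) (nat_lit 5) (nat_lit 56) (nat_lit 5) (nat_lit 285) (nat_lit 240) (nat_lit 195)))) (XT.nd (nat_lit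 188) (nat_lit 336) (nat_lit 0) (XT.nd (nat_lit 94) (nat_lit 84) (nat_lit 0) (XT.lf (nat_lit 0) (nat_lit 838438229) (nat_lit 168) (nat_lit 13760680540) (nat_lit 252) (nat_lit 838438229) (nat_lit 51) (nat_lit 5) (nat_lit 53) (nat_lit 5) (nat_lit 54) (nat_lit 4) (nat_lit 286) (nat_lit 240) (nat_lit 194)) (XT.lf (nat_lit 0) (nat_lit 4051009173) (nat_lit 252) (nat_lit 4051009173) (nat_lit 84) (nat_lit 7789160108) (nat_lit 50) (nat_lit 5) (nat_lit 53) (nat_lit 5) (nat_lit 51) (nat_lit 5) (nat_lit 287) (nat_lit 240) (nat_lit 193))) (XT.nd (nat_lit 94) (nat_lit 168) (nat_lit 0) (XT.lf (nat_lit 0) (nat_lit 7147973931) (nat_lit 168) (nat_lit 2067890261) (nat_lit 252) (nat_lit 7147973931) (nat_lit 48) (nat_lit 5) (nat_lit 50) (nat_lit 5) (nat_lit 51) (nat_lit 5) (nat_lit 288) (nat_lit 240) (nat_lit 192)) (XT.nd (nat_lit 94) (nat_lit 84) (nat_lit 0) (XT.lf (nat_lit 0) (nat_lit 2098187852)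 (nat_lit 84) (nat_lit 12657898836) (nat_lit 168) (nat_lit 2098187852) (nat_lit 47) (nat_lit 5) (nat_lit 48) (nat_lit 5) (nat_lit 49) (nat_lit 4) (nat_lit 289) (nat_lit 240) (nat_lit 191)) (XT.lf (nat_lit 0) (nat_lit 3242298408) (nat_lit 168) (nat_lit 3242298408) (nat_lit 84) (nat_lit 10875096637) (nat_lit 46) (nat_lit 5) (nat_lit 48) (nat_lit 5) (nat_lit 47) (nat_lit 5) (nat_lit 290) (nat_lit 240) (nat_lit 190))))))))
noncomputable def xc85 : XT := (XT.nd (nat_lit 1598) (nat_lit 1428) (nat_lit 0) (XT.nd (nat_lit 752) (nat_lit 924) (nat_lit 0) (XT.nd (nat_lit 376) (nat_lit 420) (nat_lit 0) (XT.nd (nat_lit 188) (nat_lit 252) (nat_lit 0) (XT.nd (nat_lit 94) (nat_lit 84) (nat_lit 0) (XT.lf (nat_lit 0) (nat_lit 8872941071) (nat_lit 252) (nat_lit 8872941071) (nat_lit 84) (nat_lit 138099098) (nat_lit 44) (nat_lit 5) (nat_lit 47) (nat_lit 5) (nat_lit 45) (nat_lit 4) (nat_lit 291)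 (nat_lit 240) (nat_lit 189)) (XT.lf (nat_lit 0) (nat_lit 3473553099) (nat_lit 84) (nat_lit 11479005101) (nat_lit 168) (nat_lit 3473553099) (nat_lit 43) (nat_lit 5) (nat_lit 44) (nat_lit 5) (nat_lit 45) (nat_lit 4) (nat_lit 292) (nat_lit 240) (nat_lit 188))) (XT.nd (nat_lit 94) (nat_lit 168) (nat_lit 0) (XT.lf (nat_lit 0) (nat_lit 2369901096) (nat_lit 168) (nat_lit 2369901096) (nat_lit 84) (nat_lit 14248517675) (nat_lit 42) (nat_lit 5) (nat_lit 44) (nat_lit 5) (nat_lit 43) (nat_lit 5) (nat_lit 293) (nat_lit 240) (nat_lit 187)) (XT.lf (nat_lit 0) (nat_lit 8554636487) (nat_lit 252) (nat_lit 8554636487) (nat_lit 84) (nat_lit 2458226584) (nat_lit 40) (nat_lit 5) (nat_lit 43) (nat_lit 5) (nat_lit 41) (nat_lit 4) (nat_lit 294) (nat_lit 240) (nat_lit 186)))) (XT.nd (nat_lit 188) (nat_lit 252) (nat_lit 0) (XT.nd (nat_lit 94) (nat_lit 84) (nat_lit 0) (XT.lf (nat_lit 0) (nat_lit 4969512734)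 (nat_lit 84) (nat_lit 10229111962) (nat_lit 168) (nat_lit 4969512734) (nat_lit 39) (nat_lit 5) (nat_lit 40) (nat_lit 5) (nat_lit 41) (nat_lit 4) (nat_lit 295) (nat_lit 240) (nat_lit 185)) (XT.lf (nat_lit 0) (nat_lit 1433302948) (nat_lit 168) (nat_lit 1433302948) (nat_lit 84) (nat_lit 17926060207) (nat_lit 38) (nat_lit 5) (nat_lit 40) (nat_lit 5) (nat_lit 39) (nat_lit 5) (nat_lit 296) (nat_lit 240) (nat_lit 184))) (XT.nd (nat_lit 94) (nat_lit 84) (nat_lit 0) (XT.lf (nat_lit 0) (nat_lit 8233011950) (nat_lit 252) (nat_lit 8233011950) (nat_lit 84) (nat_lit 4966135900) (nat_lit 36) (nat_lit 5) (nat_lit 39) (nat_lit 5) (nat_lit 37) (nat_lit 4) (nat_lit 297) (nat_lit 240) (nat_lit 183)) (XT.lf (nat_lit 0) (nat_lit 6593215488) (nat_lit 84) (nat_lit 8910639763) (nat_lit 168) (nat_lit 6593215488) (nat_lit 35) (nat_lit 5) (nat_lit 36) (nat_lit 5) (nat_lit 37) (nat_lit 4) (nat_lit 298)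 (nat_lit 240) (nat_lit 182))))) (XT.nd (nat_lit 376) (nat_lit 420) (nat_lit 0) (XT.nd (nat_lit 188) (nat_lit 252) (nat_lit 0) (XT.nd (nat_lit 94) (nat_lit 168) (nat_lit 0) (XT.lf (nat_lit 0) (nat_lit 430422254) (nat_lit 168) (nat_lit 430422254) (nat_lit 84) (nat_lit 21929195583) (nat_lit 34) (nat_lit 5) (nat_lit 36) (nat_lit 5) (nat_lit 35) (nat_lit 5) (nat_lit 299) (nat_lit 240) (nat_lit 181)) (XT.lf (nat_lit 0) (nat_lit 7911501537) (nat_lit 252) (nat_lit 7911501537) (nat_lit 84) (nat_lit 7672858812) (nat_lit 32) (nat_lit 5) (nat_lit 35) (nat_lit 5) (nat_lit 33) (nat_lit 4) (nat_lit 300) (nat_lit 240) (nat_lit 180))) (XT.nd (nat_lit 94) (nat_lit 168) (nat_lit 0) (XT.lf (nat_lit 0) (nat_lit 8353887212) (nat_lit 84) (nat_lit 7523654977) (nat_lit 168) (nat_lit 8353887212) (nat_lit 31) (nat_lit 5) (nat_lit 32) (nat_lit 5) (nat_lit 33) (nat_lit 4) (nat_lit 301) (nat_lit 240)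 (nat_lit 179)) (XT.lf (nat_lit 0) (nat_lit 631901823) (nat_lit 168) (nat_lit 23733781714) (nat_lit 168) (nat_lit 631901823) (nat_lit 29) (nat_lit 4) (nat_lit 31) (nat_lit 5) (nat_lit 31) (nat_lit 4) (nat_lit 302) (nat_lit 240) (nat_lit 178)))) (XT.nd (nat_lit 188) (nat_lit 252) (nat_lit 0) (XT.nd (nat_lit 94) (nat_lit 84) (nat_lit 0) (XT.lf (nat_lit 0) (nat_lit 7592794970) (nat_lit 252) (nat_lit 7592794970) (nat_lit 84) (nat_lit 10592828133) (nat_lit 28) (nat_lit 5) (nat_lit 31) (nat_lit 5) (nat_lit 29) (nat_lit 4) (nat_lit 303) (nat_lit 240) (nat_lit 177)) (XT.lf (nat_lit 0) (nat_lit 10262785415) (nat_lit 84) (nat_lit 6066132284) (nat_lit 168) (nat_lit 10262785415) (nat_lit 27) (nat_lit 5) (nat_lit 28) (nat_lit 5) (nat_lit 29) (nat_lit 4) (nat_lit 304) (nat_lit 240) (nat_lit 176))) (XT.nd (nat_lit 94) (nat_lit 168) (nat_lit 0) (XT.lf (nat_lit 0) (nat_lit 1760749646) (nat_lit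 84) (nat_lit 23915436151) (nat_lit 84) (nat_lit 1760749646) (nat_lit 26) (nat_lit 4) (nat_lit 27) (nat_lit 5) (nat_lit 27) (nat_lit 4) (nat_lit 305) (nat_lit 240) (nat_lit 175)) (XT.nd (nat_lit 94) (nat_lit 84) (nat_lit 0) (XT.lf (nat_lit 0) (nat_lit 7278976047) (nat_lit 168) (nat_lit 7278976047) (nat_lit 84) (nat_lit 13743785062) (nat_lit 25) (nat_lit 5) (nat_lit 27) (nat_lit 5) (nat_lit 26) (nat_lit 4) (nat_lit 306) (nat_lit 240) (nat_lit 174)) (XT.lf (nat_lit 0) (nat_lit 12333195905) (nat_lit 84) (nat_lit 4534152263) (nat_lit 168) (nat_lit 12333195905) (nat_lit 24) (nat_lit 5) (nat_lit 25) (nat_lit 5) (nat_lit 26) (nat_lit 4) (nat_lit 307) (nat_lit 240) (nat_lit 173))))))) (XT.nd (nat_lit 752) (nat_lit 756) (nat_lit 0) (XT.nd (nat_lit 376) (nat_lit 336) (nat_lit 0) (XT.nd (nat_lit 188) (nat_lit 168) (nat_lit 0) (XT.nd (nat_lit 94) (nat_lit 84) (nat_lit 0) (XT.lf (nat_lit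 0) (nat_lit 2969123983) (nat_lit 84) (nat_lit 24194613443) (nat_lit 84) (nat_lit 2969123983) (nat_lit 23) (nat_lit 4) (nat_lit 24) (nat_lit 5) (nat_lit 24) (nat_lit 4) (nat_lit 308) (nat_lit 240) (nat_lit 172)) (XT.lf (nat_lit 0) (nat_lit 6971636213) (nat_lit 168) (nat_lit 6971636213) (nat_lit 84) (nat_lit 17146757115) (nat_lit 22) (nat_lit 5) (nat_lit 24) (nat_lit 5) (nat_lit 23) (nat_lit 4) (nat_lit 309) (nat_lit 240) (nat_lit 171))) (XT.nd (nat_lit 94) (nat_lit 84) (nat_lit 0) (XT.lf (nat_lit 0) (nat_lit 14580467505) (nat_lit 84) (nat_lit 2922044384) (nat_lit 168) (nat_lit 14580467505) (nat_lit 21) (nat_lit 5) (nat_lit 22) (nat_lit 5) (nat_lit 23) (nat_lit 4) (nat_lit 310) (nat_lit 240) (nat_lit 170)) (XT.lf (nat_lit 0) (nat_lit 4264330136) (nat_lit 84) (nat_lit 24582568124) (nat_lit 84) (nat_lit 4264330136) (nat_lit 20) (nat_lit 4) (nat_lit 21) (nat_lit 5) (nat_lit 21)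 (nat_lit 4) (nat_lit 311) (nat_lit 240) (nat_lit 169)))) (XT.nd (nat_lit 188) (nat_lit 168) (nat_lit 0) (XT.nd (nat_lit 94) (nat_lit 84) (nat_lit 0) (XT.lf (nat_lit 0) (nat_lit 6671967703) (nat_lit 168) (nat_lit 6671967703) (nat_lit 84) (nat_lit 20826099586) (nat_lit 19) (nat_lit 5) (nat_lit 21) (nat_lit 5) (nat_lit 20) (nat_lit 4) (nat_lit 312) (nat_lit 240) (nat_lit 168)) (XT.lf (nat_lit 0) (nat_lit 17022081905) (nat_lit 84) (nat_lit 1222483056) (nat_lit 168) (nat_lit 17022081905) (nat_lit 18) (nat_lit 5) (nat_lit 19) (nat_lit 5) (nat_lit 20) (nat_lit 4) (nat_lit 313) (nat_lit 240) (nat_lit 167))) (XT.nd (nat_lit 94) (nat_lit 84) (nat_lit 0) (XT.lf (nat_lit 0) (nat_lit 5654917983) (nat_lit 84) (nat_lit 25090759115) (nat_lit 84) (nat_lit 5654917983) (nat_lit 17) (nat_lit 4) (nat_lit 18) (nat_lit 5) (nat_lit 18) (nat_lit 4) (nat_lit 314) (nat_lit 240) (nat_lit 166)) (XT.lf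 (nat_lit 0) (nat_lit 6380839901) (nat_lit 168) (nat_lit 6380839901) (nat_lit 84) (nat_lit 24809595300) (nat_lit 16) (nat_lit 5) (nat_lit 18) (nat_lit 5) (nat_lit 17) (nat_lit 4) (nat_lit 315) (nat_lit 240) (nat_lit 165))))) (XT.nd (nat_lit 376) (nat_lit 420) (nat_lit 0) (XT.nd (nat_lit 188) (nat_lit 168) (nat_lit 0) (XT.nd (nat_lit 94) (nat_lit 84) (nat_lit 0) (XT.lf (nat_lit 0) (nat_lit 19113252815) (nat_lit 168) (nat_lit 19113252815) (nat_lit 0) (nat_lit 555102839) (nat_lit 15) (nat_lit 5) (nat_lit 17) (nat_lit 4) (nat_lit 15) (nat_lit 4) (nat_lit 316) (nat_lit 240) (nat_lit 164)) (XT.lf (nat_lit 0) (nat_lit 7150705174) (nat_lit 84) (nat_lit 25731073542) (nat_lit 84) (nat_lit 7150705174) (nat_lit 14) (nat_lit 4) (nat_lit 15) (nat_lit 5) (nat_lit 15) (nat_lit 4) (nat_lit 317) (nat_lit 240) (nat_lit 163))) (XT.nd (nat_lit 94) (nat_lit 84) (nat_lit 0) (XT.lf (nat_lit 0) (nat_lit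 6098861882) (nat_lit 168) (nat_lit 6098861882) (nat_lit 84) (nat_lit 29128608976) (nat_lit 13) (nat_lit 5) (nat_lit 15) (nat_lit 5) (nat_lit 14) (nat_lit 4) (nat_lit 318) (nat_lit 240) (nat_lit 162)) (XT.lf (nat_lit 0) (nat_lit 20131959795) (nat_lit 168) (nat_lit 20131959795) (nat_lit 0) (nat_lit 2397025055) (nat_lit 12) (nat_lit 5) (nat_lit 14) (nat_lit 4) (nat_lit 12) (nat_lit 4) (nat_lit 319) (nat_lit 240) (nat_lit 161)))) (XT.nd (nat_lit 188) (nat_lit 252) (nat_lit 0) (XT.nd (nat_lit 94) (nat_lit 84) (nat_lit 0) (XT.lf (nat_lit 0) (nat_lit 8762822005) (nat_lit 84) (nat_lit 26516035872) (nat_lit 84) (nat_lit 8762822005) (nat_lit 11) (nat_lit 4) (nat_lit 12) (nat_lit 5) (nat_lit 12) (nat_lit 4) (nat_lit 320) (nat_lit 240) (nat_lit 160)) (XT.lf (nat_lit 0) (nat_lit 5826433625) (nat_lit 168) (nat_lit 5826433625) (nat_lit 84) (nat_lit 33818293853) (nat_lit 10) (nat_lit 5)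 (nat_lit 12) (nat_lit 5) (nat_lit 11) (nat_lit 4) (nat_lit 321) (nat_lit 240) (nat_lit 159))) (XT.nd (nat_lit 94) (nat_lit 168) (nat_lit 0) (XT.lf (nat_lit 0) (nat_lit 21294314611) (nat_lit 168) (nat_lit 21294314611) (nat_lit 0) (nat_lit 4354121979) (nat_lit 9) (nat_lit 5) (nat_lit 11) (nat_lit 4) (nat_lit 9) (nat_lit 4) (nat_lit 322) (nat_lit 240) (nat_lit 158)) (XT.nd (nat_lit 94) (nat_lit 84) (nat_lit 0) (XT.lf (nat_lit 0) (nat_lit 10503776719) (nat_lit 84) (nat_lit 27459007633) (nat_lit 84) (nat_lit 10503776719) (nat_lit 8) (nat_lit 4) (nat_lit 9) (nat_lit 5) (nat_lit 9) (nat_lit 4) (nat_lit 323) (nat_lit 240) (nat_lit 157)) (XT.lf (nat_lit 0) (nat_lit 5563787897) (nat_lit 168) (nat_lit 5563787897) (nat_lit 84) (nat_lit 38917849393) (nat_lit 7) (nat_lit 5) (nat_lit 9) (nat_lit 5) (nat_lit 8) (nat_lit 4) (nat_lit 324) (nat_lit 240) (nat_lit 156))))))))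
noncomputable def xc86 : XT := (XT.nd (nat_lit 37412) (nat_lit 0) (nat_lit 10500) (XT.nd (nat_lit 752) (nat_lit 0) (nat_lit 0) (XT.nd (nat_lit 376) (nat_lit 252) (nat_lit 0) (XT.nd (nat_lit 188) (nat_lit 168) (nat_lit 0) (XT.nd (nat_lit 94) (nat_lit 84) (nat_lit 0) (XT.lf (nat_lit 0) (nat_lit 22614157170) (nat_lit 168) (nat_lit 22614157170) (nat_lit 0) (nat_lit 6439687406) (nat_lit 6) (nat_lit 5) (nat_lit 8) (nat_lit 4) (nat_lit 6) (nat_lit 4) (nat_lit 325) (nat_lit 240) (nat_lit 155)) (XT.lf (nat_lit 0) (nat_lit 12387540482) (nat_lit 84) (nat_lit 28574382278) (nat_lit 84) (nat_lit 12387540482) (nat_lit 5) (nat_lit 4) (nat_lit 6) (nat_lit 5) (nat_lit 6) (nat_lit 4) (nat_lit 326) (nat_lit 240) (nat_lit 154))) (XT.nd (nat_lit 94) (nat_lit 84) (nat_lit 0) (XT.lf (nat_lit 0) (nat_lit 5311024486) (nat_lit 168) (nat_lit 5311024486) (nat_lit 84) (nat_lit 44470829939) (nat_lit 4)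 (nat_lit 5) (nat_lit 6) (nat_lit 5) (nat_lit 5) (nat_lit 4) (nat_lit 327) (nat_lit 240) (nat_lit 153)) (XT.lf (nat_lit 0) (nat_lit 24106613583) (nat_lit 168) (nat_lit 24106613583) (nat_lit 0) (nat_lit 8668664553) (nat_lit 3) (nat_lit 5) (nat_lit 5) (nat_lit 4) (nat_lit 3) (nat_lit 4) (nat_lit 328) (nat_lit 240) (nat_lit 152)))) (XT.nd (nat_lit 188) (nat_lit 84) (nat_lit 0) (XT.nd (nat_lit 94) (nat_lit 84) (nat_lit 0) (XT.lf (nat_lit 0) (nat_lit 14429651731) (nat_lit 84) (nat_lit 29877779262) (nat_lit 84) (nat_lit 14429651731) (nat_lit 2) (nat_lit 4) (nat_lit 3) (nat_lit 5) (nat_lit 3) (nat_lit 4) (nat_lit 329) (nat_lit 240) (nat_lit 151)) (XT.lf (nat_lit 0) (nat_lit 5068138144) (nat_lit 168) (nat_lit 5068138144) (nat_lit 84) (nat_lit 50525505131) (nat_lit 1) (nat_lit 5) (nat_lit 3) (nat_lit 5) (nat_lit 2) (nat_lit 4) (nat_lit 330) (nat_lit 240) (nat_lit 150))) (XT.nd (nat_lit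 94) (nat_lit 0) (nat_lit 0) (XT.lf (nat_lit 0) (nat_lit 92104156710) (nat_lit 0) (nat_lit 0) (nat_lit 0) (nat_lit 0) (nat_lit 0) (nat_lit 0) (nat_lit 1) (nat_lit 0) (nat_lit 1) (nat_lit 0) (nat_lit 331) (nat_lit 240) (nat_lit 149)) (XT.lf (nat_lit 0) (nat_lit 96654440914) (nat_lit 0) (nat_lit 0) (nat_lit 0) (nat_lit 0) (nat_lit 0) (nat_lit 0) (nat_lit 1) (nat_lit 0) (nat_lit 1) (nat_lit 0) (nat_lit 332) (nat_lit 240) (nat_lit 148))))) (XT.nd (nat_lit 376) (nat_lit 0) (nat_lit 0) (XT.nd (nat_lit 188) (nat_lit 0) (nat_lit 0) (XT.nd (nat_lit 94) (nat_lit 0) (nat_lit 0) (XT.lf (nat_lit 0) (nat_lit 101432298212) (nat_lit 0) (nat_lit 0) (nat_lit 0) (nat_lit 0) (nat_lit 0) (nat_lit 0) (nat_lit 1) (nat_lit 0) (nat_lit 1) (nat_lit 0) (nat_lit 333) (nat_lit 240) (nat_lit 147)) (XT.lf (nat_lit 0) (nat_lit 106449104453) (nat_lit 0) (nat_lit 0) (nat_lit 0) (nat_lit 0) (nat_lit 0) (nat_lit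 0) (nat_lit 1) (nat_lit 0) (nat_lit 1) (nat_lit 0) (nat_lit 334) (nat_lit 240) (nat_lit 146))) (XT.nd (nat_lit 94) (nat_lit 0) (nat_lit 0) (XT.lf (nat_lit 0) (nat_lit 111716804414) (nat_lit 0) (nat_lit 0) (nat_lit 0) (nat_lit 0) (nat_lit 0) (nat_lit 0) (nat_lit 1) (nat_lit 0) (nat_lit 1) (nat_lit 0) (nat_lit 335) (nat_lit 240) (nat_lit 145)) (XT.lf (nat_lit 0) (nat_lit 117247940239) (nat_lit 0) (nat_lit 0) (nat_lit 0) (nat_lit 0) (nat_lit 0) (nat_lit 0) (nat_lit 1) (nat_lit 0) (nat_lit 1) (nat_lit 0) (nat_lit 336) (nat_lit 240) (nat_lit 144)))) (XT.nd (nat_lit 188) (nat_lit 0) (nat_lit 0) (XT.nd (nat_lit 94) (nat_lit 0) (nat_lit 0) (XT.lf (nat_lit 0) (nat_lit 123055681298) (nat_lit 0) (nat_lit 0) (nat_lit 0) (nat_lit 0) (nat_lit 0) (nat_lit 0) (nat_lit 1) (nat_lit 0) (nat_lit 1) (nat_lit 0) (nat_lit 337) (nat_lit 240) (nat_lit 143)) (XT.lf (nat_lit 0) (nat_lit 129153855547)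 (nat_lit 0) (nat_lit 0) (nat_lit 0) (nat_lit 0) (nat_lit 0) (nat_lit 0) (nat_lit 1) (nat_lit 0) (nat_lit 1) (nat_lit 0) (nat_lit 338) (nat_lit 240) (nat_lit 142))) (XT.nd (nat_lit 94) (nat_lit 0) (nat_lit 0) (XT.lf (nat_lit 0) (nat_lit 135556982447) (nat_lit 0) (nat_lit 0) (nat_lit 0) (nat_lit 0) (nat_lit 0) (nat_lit 0) (nat_lit 1) (nat_lit 0) (nat_lit 1) (nat_lit 0) (nat_lit 339) (nat_lit 240) (nat_lit 141)) (XT.nd (nat_lit 35908) (nat_lit 0) (nat_lit 15708) (XT.lf (nat_lit 0) (nat_lit 142280307539) (nat_lit 0) (nat_lit 0) (nat_lit 0) (nat_lit 0) (nat_lit 0) (nat_lit 0) (nat_lit 1) (nat_lit 0) (nat_lit 1) (nat_lit 0) (nat_lit 340) (nat_lit 240) (nat_lit 140)) (XT.lf (nat_lit 0) (nat_lit 1559894516) (nat_lit 0) (nat_lit 1559894516) (nat_lit 84) (nat_lit 106508261) (nat_lit 187) (nat_lit 5) (nat_lit 187) (nat_lit 3) (nat_lit 188) (nat_lit 0) (nat_lit 241) (nat_lit 241) (nat_lit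 238))))))) (XT.nd (nat_lit 752) (nat_lit 4032) (nat_lit 0) (XT.nd (nat_lit 376) (nat_lit 672) (nat_lit 0) (XT.nd (nat_lit 188) (nat_lit 252) (nat_lit 0) (XT.nd (nat_lit 94) (nat_lit 0) (nat_lit 0) (XT.lf (nat_lit 0) (nat_lit 2710392829) (nat_lit 252) (nat_lit 103099332) (nat_lit 252) (nat_lit 3654500414) (nat_lit 184) (nat_lit 3) (nat_lit 187) (nat_lit 3) (nat_lit 187) (nat_lit 5) (nat_lit 242) (nat_lit 241) (nat_lit 237)) (XT.lf (nat_lit 84) (nat_lit 3291767402) (nat_lit 0) (nat_lit 2345411941) (nat_lit 252) (nat_lit 853588242) (nat_lit 185) (nat_lit 5) (nat_lit 184) (nat_lit 3) (nat_lit 187) (nat_lit 5) (nat_lit 243) (nat_lit 241) (nat_lit 236))) (XT.nd (nat_lit 94) (nat_lit 0) (nat_lit 0) (XT.lf (nat_lit 84) (nat_lit 215302467) (nat_lit 0) (nat_lit 1732608617) (nat_lit 336) (nat_lit 4573928227) (nat_lit 182) (nat_lit 5) (nat_lit 181) (nat_lit 5) (nat_lit 185) (nat_lit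 5) (nat_lit 244) (nat_lit 241) (nat_lit 235)) (XT.lf (nat_lit 84) (nat_lit 3795939021) (nat_lit 0) (nat_lit 943353261) (nat_lit 336) (nat_lit 1820548022) (nat_lit 182) (nat_lit 5) (nat_lit 181) (nat_lit 5) (nat_lit 185) (nat_lit 5) (nat_lit 245) (nat_lit 241) (nat_lit 234)))) (XT.nd (nat_lit 188) (nat_lit 336) (nat_lit 0) (XT.nd (nat_lit 94) (nat_lit 0) (nat_lit 84) (XT.lf (nat_lit 84) (nat_lit 865045189) (nat_lit 0) (nat_lit 14856955) (nat_lit 420) (nat_lit 5726820344) (nat_lit 178) (nat_lit 5) (nat_lit 177) (nat_lit 5) (nat_lit 182) (nat_lit 5) (nat_lit 246) (nat_lit 241) (nat_lit 233)) (XT.lf (nat_lit 0) (nat_lit 3554425261) (nat_lit 336) (nat_lit 2037119111) (nat_lit 84) (nat_lit 1067900517) (nat_lit 178) (nat_lit 5) (nat_lit 182) (nat_lit 5) (nat_lit 179) (nat_lit 5) (nat_lit 247) (nat_lit 241) (nat_lit 232))) (XT.nd (nat_lit 94) (nat_lit 84) (nat_lit 0) (XT.lf (nat_lit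 0) (nat_lit 1806131446) (nat_lit 336) (nat_lit 4430383656) (nat_lit 420) (nat_lit 484596281) (nat_lit 174) (nat_lit 5) (nat_lit 178) (nat_lit 5) (nat_lit 179) (nat_lit 5) (nat_lit 248) (nat_lit 241) (nat_lit 231)) (XT.lf (nat_lit 0) (nat_lit 2078081275) (nat_lit 420) (nat_lit 1015247340) (nat_lit 84) (nat_lit 3696573675) (nat_lit 173) (nat_lit 5) (nat_lit 178) (nat_lit 5) (nat_lit 174) (nat_lit 5) (nat_lit 249) (nat_lit 241) (nat_lit 230))))) (XT.nd (nat_lit 376) (nat_lit 2436) (nat_lit 0) (XT.nd (nat_lit 188) (nat_lit 588) (nat_lit 0) (XT.nd (nat_lit 94) (nat_lit 588) (nat_lit 0) (XT.lf (nat_lit 0) (nat_lit 3067396474) (nat_lit 420) (nat_lit 1589026206) (nat_lit 504) (nat_lit 2210122073) (nat_lit 168) (nat_lit 5) (nat_lit 173) (nat_lit 5) (nat_lit 174) (nat_lit 5) (nat_lit 250) (nat_lit 241) (nat_lit 229)) (XT.lf (nat_lit 0) (nat_lit 285971925) (nat_lit 588) (nat_lit 6611395415)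 (nat_lit 84) (nat_lit 55194442) (nat_lit 161) (nat_lit 5) (nat_lit 168) (nat_lit 5) (nat_lit 162) (nat_lit 5) (nat_lit 251) (nat_lit 241) (nat_lit 228))) (XT.nd (nat_lit 94) (nat_lit 588) (nat_lit 0) (XT.lf (nat_lit 0) (nat_lit 2788584014) (nat_lit 588) (nat_lit 2393529248) (nat_lit 84) (nat_lit 1861155426) (nat_lit 161) (nat_lit 5) (nat_lit 168) (nat_lit 5) (nat_lit 162) (nat_lit 5) (nat_lit 252) (nat_lit 241) (nat_lit 227)) (XT.lf (nat_lit 0) (nat_lit 1993387923) (nat_lit 588) (nat_lit 3325054678) (nat_lit 672) (nat_lit 1824962544) (nat_lit 154) (nat_lit 5) (nat_lit 161) (nat_lit 5) (nat_lit 162) (nat_lit 5) (nat_lit 253) (nat_lit 241) (nat_lit 226)))) (XT.nd (nat_lit 188) (nat_lit 1680) (nat_lit 0) (XT.nd (nat_lit 94) (nat_lit 672) (nat_lit 0) (XT.lf (nat_lit 0) (nat_lit 617674538) (nat_lit 672) (nat_lit 683898801) (nat_lit 84) (nat_lit 5950674487) (nat_lit 153) (nat_lit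 5) (nat_lit 161) (nat_lit 5) (nat_lit 154) (nat_lit 5) (nat_lit 254) (nat_lit 241) (nat_lit 225)) (XT.lf (nat_lit 0) (nat_lit 3077711531) (nat_lit 756) (nat_lit 3381896650) (nat_lit 84) (nat_lit 907598651) (nat_lit 145) (nat_lit 5) (nat_lit 154) (nat_lit 5) (nat_lit 146) (nat_lit 5) (nat_lit 255) (nat_lit 241) (nat_lit 224))) (XT.nd (nat_lit 94) (nat_lit 924) (nat_lit 0) (XT.lf (nat_lit 0) (nat_lit 1338330990) (nat_lit 756) (nat_lit 4260313106) (nat_lit 840) (nat_lit 1892375006) (nat_lit 136) (nat_lit 5) (nat_lit 145) (nat_lit 5) (nat_lit 146) (nat_lit 5) (nat_lit 256) (nat_lit 241) (nat_lit 223)) (XT.nd (nat_lit 94) (nat_lit 840) (nat_lit 0) (XT.lf (nat_lit 0) (nat_lit 548752458) (nat_lit 840) (nat_lit 1326272324) (nat_lit 84) (nat_lit 5748302500) (nat_lit 135) (nat_lit 5) (nat_lit 145) (nat_lit 5) (nat_lit 136) (nat_lit 5) (nat_lit 257) (nat_lit 241) (nat_lit 222)) (XT.lf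 (nat_lit 0) (nat_lit 3009226773) (nat_lit 924) (nat_lit 4049098483) (nat_lit 84) (nat_lit 704330153) (nat_lit 125) (nat_lit 5) (nat_lit 136) (nat_lit 5) (nat_lit 126) (nat_lit 5) (nat_lit 258) (nat_lit 241) (nat_lit 221))))))))
noncomputable def xc87 : XT := (XT.nd (nat_lit 1598) (nat_lit 2604) (nat_lit 0) (XT.nd (nat_lit 752) (nat_lit 2016) (nat_lit 0) (XT.nd (nat_lit 376) (nat_lit 756) (nat_lit 0) (XT.nd (nat_lit 188) (nat_lit 840) (nat_lit 0) (XT.nd (nat_lit 94) (nat_lit 84) (nat_lit 0) (XT.lf (nat_lit 0) (nat_lit 1037900954) (nat_lit 504) (nat_lit 4519569603) (nat_lit 588) (nat_lit 2353242099) (nat_lit 119) (nat_lit 5) (nat_lit 125) (nat_lit 5) (nat_lit 126) (nat_lit 5) (nat_lit 259) (nat_lit 241) (nat_lit 220)) (XT.lf (nat_lit 0) (nat_lit 127959928) (nat_lit 588) (nat_lit 1656135216) (nat_lit 84) (nat_lit 6283629803) (nat_lit 118) (nat_lit 5) (nat_lit 125) (nat_lit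 5) (nat_lit 119) (nat_lit 5) (nat_lit 260) (nat_lit 241) (nat_lit 219))) (XT.nd (nat_lit 94) (nat_lit 420) (nat_lit 0) (XT.lf (nat_lit 0) (nat_lit 2633545099) (nat_lit 504) (nat_lit 4450963294) (nat_lit 84) (nat_lit 1147180203) (nat_lit 113) (nat_lit 5) (nat_lit 119) (nat_lit 5) (nat_lit 114) (nat_lit 5) (nat_lit 261) (nat_lit 241) (nat_lit 218)) (XT.lf (nat_lit 0) (nat_lit 1040839471) (nat_lit 420) (nat_lit 4202120704) (nat_lit 504) (nat_lit 3161962719) (nat_lit 108) (nat_lit 5) (nat_lit 113) (nat_lit 5) (nat_lit 114) (nat_lit 5) (nat_lit 262) (nat_lit 241) (nat_lit 217)))) (XT.nd (nat_lit 188) (nat_lit 336) (nat_lit 0) (XT.nd (nat_lit 94) (nat_lit 420) (nat_lit 0) (XT.lf (nat_lit 0) (nat_lit 6856244821) (nat_lit 420) (nat_lit 1109423988) (nat_lit 504) (nat_lit 622008958) (nat_lit 108) (nat_lit 5) (nat_lit 113) (nat_lit 5) (nat_lit 114) (nat_lit 5) (nat_lit 263) (nat_lit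 241) (nat_lit 216)) (XT.lf (nat_lit 0) (nat_lit 1989935249) (nat_lit 420) (nat_lit 4632647984) (nat_lit 84) (nat_lit 2154868602) (nat_lit 103) (nat_lit 5) (nat_lit 108) (nat_lit 5) (nat_lit 104) (nat_lit 5) (nat_lit 264) (nat_lit 241) (nat_lit 215))) (XT.nd (nat_lit 94) (nat_lit 0) (nat_lit 0) (XT.lf (nat_lit 0) (nat_lit 1306777724) (nat_lit 336) (nat_lit 3386039550) (nat_lit 420) (nat_lit 4284325280) (nat_lit 99) (nat_lit 5) (nat_lit 103) (nat_lit 5) (nat_lit 104) (nat_lit 5) (nat_lit 265) (nat_lit 241) (nat_lit 214)) (XT.lf (nat_lit 0) (nat_lit 7525847122) (nat_lit 420) (nat_lit 1588479633) (nat_lit 84) (nat_lit 72740868) (nat_lit 99) (nat_lit 5) (nat_lit 104) (nat_lit 5) (nat_lit 100) (nat_lit 5) (nat_lit 266) (nat_lit 241) (nat_lit 213))))) (XT.nd (nat_lit 376) (nat_lit 924) (nat_lit 0) (XT.nd (nat_lit 188) (nat_lit 336) (nat_lit 0) (XT.nd (nat_lit 94) (nat_lit 336)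 (nat_lit 0) (XT.lf (nat_lit 0) (nat_lit 1108311035) (nat_lit 420) (nat_lit 4630481994) (nat_lit 84) (nat_lit 3665329865) (nat_lit 94) (nat_lit 5) (nat_lit 99) (nat_lit 5) (nat_lit 95) (nat_lit 5) (nat_lit 267) (nat_lit 241) (nat_lit 212)) (XT.lf (nat_lit 0) (nat_lit 1804461300) (nat_lit 336) (nat_lit 2131639831) (nat_lit 420) (nat_lit 5695787648) (nat_lit 90) (nat_lit 5) (nat_lit 94) (nat_lit 5) (nat_lit 95) (nat_lit 5) (nat_lit 268) (nat_lit 241) (nat_lit 211))) (XT.nd (nat_lit 94) (nat_lit 336) (nat_lit 0) (XT.lf (nat_lit 0) (nat_lit 6932757629) (nat_lit 420) (nat_lit 1278121925) (nat_lit 84) (nat_lit 1658789559) (nat_lit 90) (nat_lit 5) (nat_lit 95) (nat_lit 5) (nat_lit 91) (nat_lit 5) (nat_lit 269) (nat_lit 241) (nat_lit 210)) (XT.lf (nat_lit 0) (nat_lit 10684462) (nat_lit 336) (nat_lit 4473478104) (nat_lit 84) (nat_lit 5632732555) (nat_lit 86) (nat_lit 5) (nat_lit 90)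 (nat_lit 5) (nat_lit 87) (nat_lit 5) (nat_lit 270) (nat_lit 241) (nat_lit 209)))) (XT.nd (nat_lit 188) (nat_lit 588) (nat_lit 0) (XT.nd (nat_lit 94) (nat_lit 0) (nat_lit 0) (XT.lf (nat_lit 0) (nat_lit 2510307134) (nat_lit 336) (nat_lit 484291503) (nat_lit 420) (nat_lit 7380094592) (nat_lit 82) (nat_lit 5) (nat_lit 86) (nat_lit 5) (nat_lit 87) (nat_lit 5) (nat_lit 271) (nat_lit 241) (nat_lit 208)) (XT.lf (nat_lit 0) (nat_lit 6190667142) (nat_lit 420) (nat_lit 805299805) (nat_lit 84) (nat_lit 3646266365) (nat_lit 82) (nat_lit 5) (nat_lit 87) (nat_lit 5) (nat_lit 83) (nat_lit 5) (nat_lit 272) (nat_lit 241) (nat_lit 207))) (XT.nd (nat_lit 94) (nat_lit 336) (nat_lit 0) (XT.lf (nat_lit 0) (nat_lit 6715604995) (nat_lit 252) (nat_lit 2875099476) (nat_lit 336) (nat_lit 1330237658) (nat_lit 79) (nat_lit 5) (nat_lit 82) (nat_lit 5) (nat_lit 83) (nat_lit 5) (nat_lit 273) (nat_lit 241)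 (nat_lit 206)) (XT.nd (nat_lit 94) (nat_lit 0) (nat_lit 0) (XT.lf (nat_lit 0) (nat_lit 1907718224) (nat_lit 336) (nat_lit 7828659049) (nat_lit 84) (nat_lit 1474544976) (nat_lit 75) (nat_lit 5) (nat_lit 79) (nat_lit 5) (nat_lit 76) (nat_lit 5) (nat_lit 274) (nat_lit 241) (nat_lit 205)) (XT.lf (nat_lit 0) (nat_lit 5315662819) (nat_lit 336) (nat_lit 186741546) (nat_lit 84) (nat_lit 6009266871) (nat_lit 75) (nat_lit 5) (nat_lit 79) (nat_lit 5) (nat_lit 76) (nat_lit 5) (nat_lit 275) (nat_lit 241) (nat_lit 204))))))) (XT.nd (nat_lit 752) (nat_lit 1176) (nat_lit 0) (XT.nd (nat_lit 376) (nat_lit 672) (nat_lit 0) (XT.nd (nat_lit 188) (nat_lit 168) (nat_lit 0) (XT.nd (nat_lit 94) (nat_lit 336) (nat_lit 0) (XT.lf (nat_lit 0) (nat_lit 7997983915) (nat_lit 252) (nat_lit 957344908) (nat_lit 336) (nat_lit 2869062642) (nat_lit 72) (nat_lit 5) (nat_lit 75) (nat_lit 5) (nat_lit 76) (nat_lit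 5) (nat_lit 276) (nat_lit 241) (nat_lit 203)) (XT.lf (nat_lit 0) (nat_lit 674878772) (nat_lit 336) (nat_lit 7728430462) (nat_lit 84) (nat_lit 3745419790) (nat_lit 68) (nat_lit 5) (nat_lit 72) (nat_lit 5) (nat_lit 69) (nat_lit 5) (nat_lit 277) (nat_lit 241) (nat_lit 202))) (XT.nd (nat_lit 94) (nat_lit 0) (nat_lit 0) (XT.lf (nat_lit 0) (nat_lit 584213244) (nat_lit 168) (nat_lit 3744080115) (nat_lit 252) (nat_lit 8157203639) (nat_lit 66) (nat_lit 5) (nat_lit 68) (nat_lit 5) (nat_lit 69) (nat_lit 5) (nat_lit 278) (nat_lit 241) (nat_lit 201)) (XT.lf (nat_lit 0) (nat_lit 8254271445) (nat_lit 252) (nat_lit 3369584518) (nat_lit 84) (nat_lit 1210752770) (nat_lit 66) (nat_lit 5) (nat_lit 69) (nat_lit 5) (nat_lit 67) (nat_lit 5) (nat_lit 279) (nat_lit 241) (nat_lit 200)))) (XT.nd (nat_lit 188) (nat_lit 168) (nat_lit 0) (XT.nd (nat_lit 94) (nat_lit 252) (nat_lit 0) (XT.lf (nat_lit 0)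 (nat_lit 5613898952) (nat_lit 252) (nat_lit 6853521479) (nat_lit 336) (nat_lit 729212025) (nat_lit 63) (nat_lit 5) (nat_lit 66) (nat_lit 5) (nat_lit 67) (nat_lit 5) (nat_lit 280) (nat_lit 241) (nat_lit 199)) (XT.lf (nat_lit 0) (nat_lit 1491170040) (nat_lit 168) (nat_lit 1740750803) (nat_lit 252) (nat_lit 10341072360) (nat_lit 60) (nat_lit 5) (nat_lit 62) (nat_lit 5) (nat_lit 63) (nat_lit 5) (nat_lit 281) (nat_lit 241) (nat_lit 198))) (XT.nd (nat_lit 94) (nat_lit 168) (nat_lit 0) (XT.lf (nat_lit 0) (nat_lit 7496775259) (nat_lit 252) (nat_lit 2844692471) (nat_lit 84) (nat_lit 3619597983) (nat_lit 60) (nat_lit 5) (nat_lit 63) (nat_lit 5) (nat_lit 61) (nat_lit 5) (nat_lit 282) (nat_lit 241) (nat_lit 197)) (XT.lf (nat_lit 0) (nat_lit 6958700607) (nat_lit 168) (nat_lit 5099078106) (nat_lit 252) (nat_lit 2306617819) (nat_lit 58) (nat_lit 5) (nat_lit 60) (nat_lit 5) (nat_lit 61)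 (nat_lit 5) (nat_lit 283) (nat_lit 241) (nat_lit 196))))) (XT.nd (nat_lit 376) (nat_lit 504) (nat_lit 0) (XT.nd (nat_lit 188) (nat_lit 420) (nat_lit 0) (XT.nd (nat_lit 94) (nat_lit 0) (nat_lit 0) (XT.lf (nat_lit 0) (nat_lit 2035201265) (nat_lit 252) (nat_lit 12269057058) (nat_lit 84) (nat_lit 479920193) (nat_lit 55) (nat_lit 5) (nat_lit 58) (nat_lit 5) (nat_lit 56) (nat_lit 5) (nat_lit 284) (nat_lit 241) (nat_lit 195)) (XT.lf (nat_lit 0) (nat_lit 6674344143) (nat_lit 252) (nat_lit 2243789107) (nat_lit 84) (nat_lit 6297038163) (nat_lit 55) (nat_lit 5) (nat_lit 58) (nat_lit 5) (nat_lit 56) (nat_lit 5) (nat_lit 285) (nat_lit 241) (nat_lit 194))) (XT.nd (nat_lit 94) (nat_lit 252) (nat_lit 0) (XT.lf (nat_lit 0) (nat_lit 8467332316) (nat_lit 168) (nat_lit 3159533288) (nat_lit 252) (nat_lit 4036777280) (nat_lit 53) (nat_lit 5) (nat_lit 55) (nat_lit 5) (nat_lit 56) (nat_lit 5) (nat_lit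 286) (nat_lit 241) (nat_lit 193)) (XT.lf (nat_lit 0) (nat_lit 762131747) (nat_lit 252) (nat_lit 12499089651) (nat_lit 84) (nat_lit 2868184952) (nat_lit 50) (nat_lit 5) (nat_lit 53) (nat_lit 5) (nat_lit 51) (nat_lit 5) (nat_lit 287) (nat_lit 241) (nat_lit 192)))) (XT.nd (nat_lit 188) (nat_lit 336) (nat_lit 0) (XT.nd (nat_lit 94) (nat_lit 168) (nat_lit 0) (XT.lf (nat_lit 0) (nat_lit 5791002362) (nat_lit 252) (nat_lit 1571426137) (nat_lit 84) (nat_lit 9246436741) (nat_lit 50) (nat_lit 5) (nat_lit 53) (nat_lit 5) (nat_lit 51) (nat_lit 5) (nat_lit 288) (nat_lit 241) (nat_lit 191)) (XT.lf (nat_lit 0) (nat_lit 10144245905) (nat_lit 168) (nat_lit 1037842876) (nat_lit 252) (nat_lit 5924669680) (nat_lit 48) (nat_lit 5) (nat_lit 50) (nat_lit 5) (nat_lit 51) (nat_lit 5) (nat_lit 289) (nat_lit 241) (nat_lit 190))) (XT.nd (nat_lit 94) (nat_lit 252) (nat_lit 0) (XT.lf (nat_lit 0) (nat_lit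 4856054779) (nat_lit 84) (nat_lit 12129854045) (nat_lit 168) (nat_lit 636478554) (nat_lit 47) (nat_lit 5) (nat_lit 48) (nat_lit 5) (nat_lit 49) (nat_lit 4) (nat_lit 290) (nat_lit 241) (nat_lit 189)) (XT.nd (nat_lit 94) (nat_lit 168) (nat_lit 0) (XT.lf (nat_lit 0) (nat_lit 4848677242) (nat_lit 168) (nat_lit 830033218) (nat_lit 84) (nat_lit 12476754471) (nat_lit 46) (nat_lit 5) (nat_lit 48) (nat_lit 5) (nat_lit 47) (nat_lit 5) (nat_lit 291) (nat_lit 241) (nat_lit 188)) (XT.lf (nat_lit 0) (nat_lit 10749074931) (nat_lit 252) (nat_lit 6730430908) (nat_lit 84) (nat_lit 1227050123) (nat_lit 44) (nat_lit 5) (nat_lit 47) (nat_lit 5) (nat_lit 45) (nat_lit 4) (nat_lit 292) (nat_lit 241) (nat_lit 187))))))))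
noncomputable def xc88 : XT := (XT.nd (nat_lit 1504) (nat_lit 1428) (nat_lit 0) (XT.nd (nat_lit 752) (nat_lit 672) (nat_lit 0) (XT.nd (nat_lit 376) (nat_lit 588) (nat_lit 0) (XT.nd (nat_lit 188) (nat_lit 252) (nat_lit 0) (XT.nd (nat_lit 94) (nat_lit 84) (nat_lit 0) (XT.lf (nat_lit 0) (nat_lit 6191675757) (nat_lit 84) (nat_lit 10912509418) (nat_lit 168) (nat_lit 2173031734) (nat_lit 43) (nat_lit 5) (nat_lit 44) (nat_lit 5) (nat_lit 45) (nat_lit 4) (nat_lit 293) (nat_lit 241) (nat_lit 186)) (XT.lf (nat_lit 0) (nat_lit 3847458479) (nat_lit 168) (nat_lit 20178457) (nat_lit 84) (nat_lit 16002145809) (nat_lit 42) (nat_lit 5) (nat_lit 44) (nat_lit 5) (nat_lit 43) (nat_lit 5) (nat_lit 294) (nat_lit 241) (nat_lit 185))) (XT.nd (nat_lit 94) (nat_lit 84) (nat_lit 0) (XT.lf (nat_lit 0) (nat_lit 10331741584) (nat_lit 252) (nat_lit 6504461562) (nat_lit 84) (nat_lit 3642202726) (nat_lit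 40) (nat_lit 5) (nat_lit 43) (nat_lit 5) (nat_lit 41) (nat_lit 4) (nat_lit 295) (nat_lit 241) (nat_lit 184)) (XT.lf (nat_lit 0) (nat_lit 7655928882) (nat_lit 84) (nat_lit 9625807536) (nat_lit 168) (nat_lit 3828648860) (nat_lit 39) (nat_lit 5) (nat_lit 40) (nat_lit 5) (nat_lit 41) (nat_lit 4) (nat_lit 296) (nat_lit 241) (nat_lit 183)))) (XT.nd (nat_lit 188) (nat_lit 336) (nat_lit 0) (XT.nd (nat_lit 94) (nat_lit 0) (nat_lit 0) (XT.lf (nat_lit 0) (nat_lit 887640074) (nat_lit 168) (nat_lit 1912017018) (nat_lit 252) (nat_lit 18967907866) (nat_lit 36) (nat_lit 5) (nat_lit 38) (nat_lit 5) (nat_lit 39) (nat_lit 5) (nat_lit 297) (nat_lit 241) (nat_lit 182)) (XT.lf (nat_lit 0) (nat_lit 9917521786) (nat_lit 252) (nat_lit 6272493194) (nat_lit 84) (nat_lit 6250109849) (nat_lit 36) (nat_lit 5) (nat_lit 39) (nat_lit 5) (nat_lit 37) (nat_lit 4) (nat_lit 298) (nat_lit 241) (nat_lit 181)))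 (XT.nd (nat_lit 94) (nat_lit 252) (nat_lit 0) (XT.lf (nat_lit 0) (nat_lit 9256784821) (nat_lit 84) (nat_lit 8270948940) (nat_lit 168) (nat_lit 5611756229) (nat_lit 35) (nat_lit 5) (nat_lit 36) (nat_lit 5) (nat_lit 37) (nat_lit 4) (nat_lit 299) (nat_lit 241) (nat_lit 180)) (XT.lf (nat_lit 0) (nat_lit 1692692428) (nat_lit 252) (nat_lit 21999803100) (nat_lit 84) (nat_lit 175009113) (nat_lit 32) (nat_lit 5) (nat_lit 35) (nat_lit 5) (nat_lit 33) (nat_lit 4) (nat_lit 300) (nat_lit 241) (nat_lit 179))))) (XT.nd (nat_lit 376) (nat_lit 336) (nat_lit 0) (XT.nd (nat_lit 188) (nat_lit 252) (nat_lit 0) (XT.nd (nat_lit 94) (nat_lit 84) (nat_lit 0) (XT.lf (nat_lit 0) (nat_lit 9509238685) (nat_lit 252) (nat_lit 6037782882) (nat_lit 84) (nat_lit 9063525309) (nat_lit 32) (nat_lit 5) (nat_lit 35) (nat_lit 5) (nat_lit 33) (nat_lit 4) (nat_lit 301) (nat_lit 241) (nat_lit 178)) (XT.lf (nat_lit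 0) (nat_lit 11004273792) (nat_lit 84) (nat_lit 6846920348) (nat_lit 168) (nat_lit 7532817990) (nat_lit 31) (nat_lit 5) (nat_lit 32) (nat_lit 5) (nat_lit 33) (nat_lit 4) (nat_lit 302) (nat_lit 241) (nat_lit 177))) (XT.nd (nat_lit 94) (nat_lit 0) (nat_lit 0) (XT.lf (nat_lit 0) (nat_lit 551189552) (nat_lit 252) (nat_lit 23295603288) (nat_lit 84) (nat_lit 2341517219) (nat_lit 28) (nat_lit 5) (nat_lit 31) (nat_lit 5) (nat_lit 29) (nat_lit 4) (nat_lit 303) (nat_lit 241) (nat_lit 176)) (XT.lf (nat_lit 0) (nat_lit 9109054169) (nat_lit 252) (nat_lit 5802905785) (nat_lit 84) (nat_lit 12098548051) (nat_lit 28) (nat_lit 5) (nat_lit 31) (nat_lit 5) (nat_lit 29) (nat_lit 4) (nat_lit 304) (nat_lit 241) (nat_lit 175)))) (XT.nd (nat_lit 188) (nat_lit 168) (nat_lit 0) (XT.nd (nat_lit 94) (nat_lit 84) (nat_lit 0) (XT.lf (nat_lit 0) (nat_lit 12910461217) (nat_lit 84) (nat_lit 5350723179) (nat_lit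 168) (nat_lit 9604312833) (nat_lit 27) (nat_lit 5) (nat_lit 28) (nat_lit 5) (nat_lit 29) (nat_lit 4) (nat_lit 305) (nat_lit 241) (nat_lit 174)) (XT.lf (nat_lit 0) (nat_lit 3988138362) (nat_lit 84) (nat_lit 24083092108) (nat_lit 84) (nat_lit 681989978) (nat_lit 26) (nat_lit 4) (nat_lit 27) (nat_lit 5) (nat_lit 27) (nat_lit 4) (nat_lit 306) (nat_lit 241) (nat_lit 173))) (XT.nd (nat_lit 94) (nat_lit 84) (nat_lit 0) (XT.lf (nat_lit 0) (nat_lit 8718593759) (nat_lit 168) (nat_lit 5569881013) (nat_lit 84) (nat_lit 15374565797) (nat_lit 25) (nat_lit 5) (nat_lit 27) (nat_lit 5) (nat_lit 26) (nat_lit 4) (nat_lit 307) (nat_lit 241) (nat_lit 172)) (XT.lf (nat_lit 0) (nat_lit 14989463346) (nat_lit 84) (nat_lit 3777542803) (nat_lit 168) (nat_lit 11840750599) (nat_lit 24) (nat_lit 5) (nat_lit 25) (nat_lit 5) (nat_lit 26) (nat_lit 4) (nat_lit 308) (nat_lit 241) (nat_lit 171)))))) (XT.nd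 (nat_lit 752) (nat_lit 756) (nat_lit 0) (XT.nd (nat_lit 376) (nat_lit 336) (nat_lit 0) (XT.nd (nat_lit 188) (nat_lit 168) (nat_lit 0) (XT.nd (nat_lit 94) (nat_lit 84) (nat_lit 0) (XT.lf (nat_lit 0) (nat_lit 5161148895) (nat_lit 84) (nat_lit 24413293529) (nat_lit 84) (nat_lit 2012436148) (nat_lit 23) (nat_lit 4) (nat_lit 24) (nat_lit 5) (nat_lit 24) (nat_lit 4) (nat_lit 309) (nat_lit 241) (nat_lit 170)) (XT.lf (nat_lit 0) (nat_lit 8339048997) (nat_lit 168) (nat_lit 5340274953) (nat_lit 84) (nat_lit 18914265518) (nat_lit 22) (nat_lit 5) (nat_lit 24) (nat_lit 5) (nat_lit 23) (nat_lit 4) (nat_lit 310) (nat_lit 241) (nat_lit 169))) (XT.nd (nat_lit 94) (nat_lit 84) (nat_lit 0) (XT.lf (nat_lit 0) (nat_lit 17257499385) (nat_lit 84) (nat_lit 2120867184) (nat_lit 168) (nat_lit 14258725341) (nat_lit 21) (nat_lit 5) (nat_lit 22) (nat_lit 5) (nat_lit 23) (nat_lit 4) (nat_lit 311) (nat_lit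 241) (nat_lit 168)) (XT.lf (nat_lit 0) (nat_lit 6428813927) (nat_lit 84) (nat_lit 24858054732) (nat_lit 84) (nat_lit 3430039883) (nat_lit 20) (nat_lit 4) (nat_lit 21) (nat_lit 5) (nat_lit 21) (nat_lit 4) (nat_lit 312) (nat_lit 241) (nat_lit 167)))) (XT.nd (nat_lit 188) (nat_lit 168) (nat_lit 0) (XT.nd (nat_lit 94) (nat_lit 84) (nat_lit 0) (XT.lf (nat_lit 0) (nat_lit 7971261328) (nat_lit 168) (nat_lit 5115286048) (nat_lit 84) (nat_lit 22743704603) (nat_lit 19) (nat_lit 5) (nat_lit 21) (nat_lit 5) (nat_lit 20) (nat_lit 4) (nat_lit 313) (nat_lit 241) (nat_lit 166)) (XT.lf (nat_lit 0) (nat_lit 19732977652) (nat_lit 84) (nat_lit 372561868) (nat_lit 168) (nat_lit 16877002372) (nat_lit 18) (nat_lit 5) (nat_lit 19) (nat_lit 5) (nat_lit 20) (nat_lit 4) (nat_lit 314) (nat_lit 241) (nat_lit 165))) (XT.nd (nat_lit 94) (nat_lit 84) (nat_lit 0) (XT.lf (nat_lit 0) (nat_lit 7800136540)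 (nat_lit 84) (nat_lit 25429017386) (nat_lit 84) (nat_lit 4944161260) (nat_lit 17) (nat_lit 4) (nat_lit 18) (nat_lit 5) (nat_lit 18) (nat_lit 4) (nat_lit 315) (nat_lit 241) (nat_lit 164)) (XT.lf (nat_lit 0) (nat_lit 7615790785) (nat_lit 168) (nat_lit 4895814327) (nat_lit 84) (nat_lit 26892438299) (nat_lit 16) (nat_lit 5) (nat_lit 18) (nat_lit 5) (nat_lit 17) (nat_lit 4) (nat_lit 316) (nat_lit 241) (nat_lit 163))))) (XT.nd (nat_lit 376) (nat_lit 420) (nat_lit 0) (XT.nd (nat_lit 188) (nat_lit 168) (nat_lit 0) (XT.nd (nat_lit 94) (nat_lit 84) (nat_lit 0) (XT.lf (nat_lit 0) (nat_lit 20982582516) (nat_lit 168) (nat_lit 18262606059) (nat_lit 0) (nat_lit 1429816965) (nat_lit 15) (nat_lit 5) (nat_lit 17) (nat_lit 4) (nat_lit 15) (nat_lit 4) (nat_lit 317) (nat_lit 241) (nat_lit 162)) (XT.lf (nat_lit 0) (nat_lit 9285415807) (nat_lit 84) (nat_lit 26138357637) (nat_lit 84) (nat_lit 6565439350)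 (nat_lit 14) (nat_lit 4) (nat_lit 15) (nat_lit 5) (nat_lit 15) (nat_lit 4) (nat_lit 318) (nat_lit 241) (nat_lit 161))) (XT.nd (nat_lit 94) (nat_lit 84) (nat_lit 0) (XT.lf (nat_lit 0) (nat_lit 7272972176) (nat_lit 168) (nat_lit 4682518407) (nat_lit 84) (nat_lit 31393700434) (nat_lit 13) (nat_lit 5) (nat_lit 15) (nat_lit 5) (nat_lit 14) (nat_lit 4) (nat_lit 319) (nat_lit 241) (nat_lit 160)) (XT.lf (nat_lit 0) (nat_lit 22005880627) (nat_lit 168) (nat_lit 19415426858) (nat_lit 0) (nat_lit 3329318250) (nat_lit 12) (nat_lit 5) (nat_lit 14) (nat_lit 4) (nat_lit 12) (nat_lit 4) (nat_lit 320) (nat_lit 241) (nat_lit 159)))) (XT.nd (nat_lit 188) (nat_lit 252) (nat_lit 0) (XT.nd (nat_lit 94) (nat_lit 84) (nat_lit 0) (XT.lf (nat_lit 0) (nat_lit 10896301598) (nat_lit 84) (nat_lit 26998989912) (nat_lit 84) (nat_lit 8305847829) (nat_lit 11) (nat_lit 4) (nat_lit 12) (nat_lit 5) (nat_lit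 12) (nat_lit 4) (nat_lit 321) (nat_lit 241) (nat_lit 158)) (XT.lf (nat_lit 0) (nat_lit 6942961018) (nat_lit 168) (nat_lit 4475862191) (nat_lit 84) (nat_lit 36284635664) (nat_lit 10) (nat_lit 5) (nat_lit 12) (nat_lit 5) (nat_lit 11) (nat_lit 4) (nat_lit 322) (nat_lit 241) (nat_lit 157))) (XT.nd (nat_lit 94) (nat_lit 168) (nat_lit 0) (XT.lf (nat_lit 0) (nat_lit 23182718696) (nat_lit 168) (nat_lit 20715619868) (nat_lit 0) (nat_lit 5350365780) (nat_lit 9) (nat_lit 5) (nat_lit 11) (nat_lit 4) (nat_lit 9) (nat_lit 4) (nat_lit 323) (nat_lit 241) (nat_lit 156)) (XT.nd (nat_lit 94) (nat_lit 84) (nat_lit 0) (XT.lf (nat_lit 0) (nat_lit 12645869408) (nat_lit 84) (nat_lit 28024763661) (nat_lit 84) (nat_lit 10178770580) (nat_lit 8) (nat_lit 4) (nat_lit 9) (nat_lit 5) (nat_lit 9) (nat_lit 4) (nat_lit 324) (nat_lit 241) (nat_lit 155)) (XT.lf (nat_lit 0) (nat_lit 6625771031) (nat_lit 168)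 (nat_lit 4276153100) (nat_lit 84) (nat_lit 41606582629) (nat_lit 7) (nat_lit 5) (nat_lit 9) (nat_lit 5) (nat_lit 8) (nat_lit 4) (nat_lit 325) (nat_lit 241) (nat_lit 154))))))))
noncomputable def xc89 : XT := (XT.nd (nat_lit 37506) (nat_lit 0) (nat_lit 9912) (XT.nd (nat_lit 752) (nat_lit 0) (nat_lit 0) (XT.nd (nat_lit 376) (nat_lit 252) (nat_lit 0) (XT.nd (nat_lit 188) (nat_lit 168) (nat_lit 0) (XT.nd (nat_lit 94) (nat_lit 84) (nat_lit 0) (XT.lf (nat_lit 0) (nat_lit 24527410433) (nat_lit 168) (nat_lit 22177792502) (nat_lit 0) (nat_lit 7507071628) (nat_lit 6) (nat_lit 5) (nat_lit 8) (nat_lit 4) (nat_lit 6) (nat_lit 4) (nat_lit 326) (nat_lit 241) (nat_lit 153)) (XT.lf (nat_lit 0) (nat_lit 14548714669) (nat_lit 84) (nat_lit 29230657341) (nat_lit 84) (nat_lit 12199096738) (nat_lit 5) (nat_lit 4) (nat_lit 6) (nat_lit 5) (nat_lit 6) (nat_lit 4) (nat_lit 327) (nat_lit 241) (nat_lit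 152))) (XT.nd (nat_lit 94) (nat_lit 84) (nat_lit 0) (XT.lf (nat_lit 0) (nat_lit 6321304718) (nat_lit 168) (nat_lit 4083573356) (nat_lit 84) (nat_lit 47405408332) (nat_lit 4) (nat_lit 5) (nat_lit 6) (nat_lit 5) (nat_lit 5) (nat_lit 4) (nat_lit 328) (nat_lit 241) (nat_lit 151)) (XT.lf (nat_lit 0) (nat_lit 26055646262) (nat_lit 168) (nat_lit 23817914900) (nat_lit 0) (nat_lit 9815240043) (nat_lit 3) (nat_lit 5) (nat_lit 5) (nat_lit 4) (nat_lit 3) (nat_lit 4) (nat_lit 329) (nat_lit 241) (nat_lit 150)))) (XT.nd (nat_lit 188) (nat_lit 84) (nat_lit 0) (XT.nd (nat_lit 94) (nat_lit 84) (nat_lit 0) (XT.lf (nat_lit 0) (nat_lit 16621066432) (nat_lit 84) (nat_lit 30632973490) (nat_lit 84) (nat_lit 14383335070) (nat_lit 2) (nat_lit 4) (nat_lit 3) (nat_lit 5) (nat_lit 3) (nat_lit 4) (nat_lit 330) (nat_lit 241) (nat_lit 149)) (XT.lf (nat_lit 0) (nat_lit 6029378268) (nat_lit 168) (nat_lit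 3898205542) (nat_lit 84) (nat_lit 53731895021) (nat_lit 1) (nat_lit 5) (nat_lit 3) (nat_lit 5) (nat_lit 2) (nat_lit 4) (nat_lit 331) (nat_lit 241) (nat_lit 148))) (XT.nd (nat_lit 94) (nat_lit 0) (nat_lit 0) (XT.lf (nat_lit 0) (nat_lit 96707553539) (nat_lit 0) (nat_lit 0) (nat_lit 0) (nat_lit 0) (nat_lit 0) (nat_lit 0) (nat_lit 1) (nat_lit 0) (nat_lit 1) (nat_lit 0) (nat_lit 332) (nat_lit 241) (nat_lit 147)) (XT.lf (nat_lit 0) (nat_lit 101485438191) (nat_lit 0) (nat_lit 0) (nat_lit 0) (nat_lit 0) (nat_lit 0) (nat_lit 0) (nat_lit 1) (nat_lit 0) (nat_lit 1) (nat_lit 0) (nat_lit 333) (nat_lit 241) (nat_lit 146))))) (XT.nd (nat_lit 376) (nat_lit 0) (nat_lit 0) (XT.nd (nat_lit 188) (nat_lit 0) (nat_lit 0) (XT.nd (nat_lit 94) (nat_lit 0) (nat_lit 0) (XT.lf (nat_lit 0) (nat_lit 106502270485) (nat_lit 0) (nat_lit 0) (nat_lit 0) (nat_lit 0) (nat_lit 0) (nat_lit 0) (nat_lit 1) (nat_lit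 0) (nat_lit 1) (nat_lit 0) (nat_lit 334) (nat_lit 241) (nat_lit 145)) (XT.lf (nat_lit 0) (nat_lit 111769995259) (nat_lit 0) (nat_lit 0) (nat_lit 0) (nat_lit 0) (nat_lit 0) (nat_lit 0) (nat_lit 1) (nat_lit 0) (nat_lit 1) (nat_lit 0) (nat_lit 335) (nat_lit 241) (nat_lit 144))) (XT.nd (nat_lit 94) (nat_lit 0) (nat_lit 0) (XT.lf (nat_lit 0) (nat_lit 117301154715) (nat_lit 0) (nat_lit 0) (nat_lit 0) (nat_lit 0) (nat_lit 0) (nat_lit 0) (nat_lit 1) (nat_lit 0) (nat_lit 1) (nat_lit 0) (nat_lit 336) (nat_lit 241) (nat_lit 143)) (XT.lf (nat_lit 0) (nat_lit 123108918280) (nat_lit 0) (nat_lit 0) (nat_lit 0) (nat_lit 0) (nat_lit 0) (nat_lit 0) (nat_lit 1) (nat_lit 0) (nat_lit 1) (nat_lit 0) (nat_lit 337) (nat_lit 241) (nat_lit 142)))) (XT.nd (nat_lit 188) (nat_lit 0) (nat_lit 0) (XT.nd (nat_lit 94) (nat_lit 0) (nat_lit 0) (XT.lf (nat_lit 0) (nat_lit 129207113962) (nat_lit 0) (nat_lit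 0) (nat_lit 0) (nat_lit 0) (nat_lit 0) (nat_lit 0) (nat_lit 1) (nat_lit 0) (nat_lit 1) (nat_lit 0) (nat_lit 338) (nat_lit 241) (nat_lit 141)) (XT.lf (nat_lit 0) (nat_lit 135610261275) (nat_lit 0) (nat_lit 0) (nat_lit 0) (nat_lit 0) (nat_lit 0) (nat_lit 0) (nat_lit 1) (nat_lit 0) (nat_lit 1) (nat_lit 0) (nat_lit 339) (nat_lit 241) (nat_lit 140))) (XT.nd (nat_lit 36002) (nat_lit 0) (nat_lit 15204) (XT.lf (nat_lit 0) (nat_lit 142333605809) (nat_lit 0) (nat_lit 0) (nat_lit 0) (nat_lit 0) (nat_lit 0) (nat_lit 0) (nat_lit 1) (nat_lit 0) (nat_lit 1) (nat_lit 0) (nat_lit 340) (nat_lit 241) (nat_lit 139)) (XT.nd (nat_lit 94) (nat_lit 252) (nat_lit 0) (XT.lf (nat_lit 0) (nat_lit 2767875510) (nat_lit 252) (nat_lit 238008729) (nat_lit 252) (nat_lit 238008729) (nat_lit 184) (nat_lit 3) (nat_lit 187) (nat_lit 3) (nat_lit 187) (nat_lit 5) (nat_lit 242) (nat_lit 242) (nat_lit 236)) (XT.lf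 (nat_lit 0) (nat_lit 1794326653) (nat_lit 252) (nat_lit 3684789699) (nat_lit 336) (nat_lit 1034679532) (nat_lit 181) (nat_lit 5) (nat_lit 184) (nat_lit 3) (nat_lit 185) (nat_lit 5) (nat_lit 243) (nat_lit 242) (nat_lit 235))))))) (XT.nd (nat_lit 752) (nat_lit 4116) (nat_lit 0) (XT.nd (nat_lit 376) (nat_lit 840) (nat_lit 0) (XT.nd (nat_lit 188) (nat_lit 0) (nat_lit 0) (XT.nd (nat_lit 94) (nat_lit 336) (nat_lit 0) (XT.lf (nat_lit 0) (nat_lit 4480324275) (nat_lit 252) (nat_lit 338390408) (nat_lit 336) (nat_lit 1729895657) (nat_lit 181) (nat_lit 5) (nat_lit 184) (nat_lit 3) (nat_lit 185) (nat_lit 5) (nat_lit 244) (nat_lit 242) (nat_lit 234)) (XT.lf (nat_lit 0) (nat_lit 574769657) (nat_lit 336) (nat_lit 3416089267) (nat_lit 420) (nat_lit 2599637457) (nat_lit 177) (nat_lit 5) (nat_lit 181) (nat_lit 5) (nat_lit 182) (nat_lit 5) (nat_lit 245) (nat_lit 242) (nat_lit 233))) (XT.nd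 (nat_lit 94) (nat_lit 0) (nat_lit 0) (XT.lf (nat_lit 84) (nat_lit 113074445) (nat_lit 0) (nat_lit 3013231524) (nat_lit 420) (nat_lit 3514183651) (nat_lit 178) (nat_lit 5) (nat_lit 177) (nat_lit 5) (nat_lit 182) (nat_lit 5) (nat_lit 246) (nat_lit 242) (nat_lit 232)) (XT.lf (nat_lit 84) (nat_lit 3841912062) (nat_lit 0) (nat_lit 1865819166) (nat_lit 420) (nat_lit 990135685) (nat_lit 178) (nat_lit 5) (nat_lit 177) (nat_lit 5) (nat_lit 182) (nat_lit 5) (nat_lit 247) (nat_lit 242) (nat_lit 231)))) (XT.nd (nat_lit 188) (nat_lit 420) (nat_lit 0) (XT.nd (nat_lit 94) (nat_lit 0) (nat_lit 84) (XT.lf (nat_lit 84) (nat_lit 906348853) (nat_lit 0) (nat_lit 564219721) (nat_lit 504) (nat_lit 5293069149) (nat_lit 173) (nat_lit 5) (nat_lit 172) (nat_lit 5) (nat_lit 178) (nat_lit 5) (nat_lit 248) (nat_lit 242) (nat_lit 230)) (XT.lf (nat_lit 0) (nat_lit 3938646450) (nat_lit 420) (nat_lit 2006219009)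 (nat_lit 84) (nat_lit 891139355) (nat_lit 173) (nat_lit 5) (nat_lit 178) (nat_lit 5) (nat_lit 174) (nat_lit 5) (nat_lit 249) (nat_lit 242) (nat_lit 229))) (XT.nd (nat_lit 94) (nat_lit 84) (nat_lit 0) (XT.lf (nat_lit 0) (nat_lit 1994557860) (nat_lit 420) (nat_lit 4438746147) (nat_lit 504) (nat_lit 483527463) (nat_lit 168) (nat_lit 5) (nat_lit 173) (nat_lit 5) (nat_lit 174) (nat_lit 5) (nat_lit 250) (nat_lit 242) (nat_lit 228)) (XT.lf (nat_lit 0) (nat_lit 1885539737) (nat_lit 504) (nat_lit 867860213) (nat_lit 84) (nat_lit 4251688949) (nat_lit 167) (nat_lit 5) (nat_lit 173) (nat_lit 5) (nat_lit 168) (nat_lit 5) (nat_lit 251) (nat_lit 242) (nat_lit 227))))) (XT.nd (nat_lit 376) (nat_lit 2268) (nat_lit 0) (XT.nd (nat_lit 188) (nat_lit 756) (nat_lit 0) (XT.nd (nat_lit 94) (nat_lit 588) (nat_lit 0) (XT.lf (nat_lit 0) (nat_lit 3394461849) (nat_lit 504) (nat_lit 887399271) (nat_lit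 588) (nat_lit 2819249222) (nat_lit 161) (nat_lit 5) (nat_lit 167) (nat_lit 5) (nat_lit 168) (nat_lit 5) (nat_lit 252) (nat_lit 242) (nat_lit 226)) (XT.lf (nat_lit 0) (nat_lit 600461848) (nat_lit 588) (nat_lit 6115722267) (nat_lit 672) (nat_lit 489839463) (nat_lit 154) (nat_lit 5) (nat_lit 161) (nat_lit 5) (nat_lit 162) (nat_lit 5) (nat_lit 253) (nat_lit 242) (nat_lit 225))) (XT.nd (nat_lit 94) (nat_lit 672) (nat_lit 0) (XT.lf (nat_lit 0) (nat_lit 1851283995) (nat_lit 672) (nat_lit 2210519584) (nat_lit 84) (nat_lit 3254959496) (nat_lit 153) (nat_lit 5) (nat_lit 161) (nat_lit 5) (nat_lit 154) (nat_lit 5) (nat_lit 254) (nat_lit 242) (nat_lit 224)) (XT.lf (nat_lit 0) (nat_lit 2374161964) (nat_lit 672) (nat_lit 1841143584) (nat_lit 756) (nat_lit 3221217306) (nat_lit 145) (nat_lit 5) (nat_lit 153) (nat_lit 5) (nat_lit 154) (nat_lit 5) (nat_lit 255) (nat_lit 242) (nat_lit 223))))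 (XT.nd (nat_lit 188) (nat_lit 1428) (nat_lit 0) (XT.nd (nat_lit 94) (nat_lit 840) (nat_lit 0) (XT.lf (nat_lit 0) (nat_lit 6632655364) (nat_lit 756) (nat_lit 406102081) (nat_lit 84) (nat_lit 526756816) (nat_lit 145) (nat_lit 5) (nat_lit 154) (nat_lit 5) (nat_lit 146) (nat_lit 5) (nat_lit 256) (nat_lit 242) (nat_lit 222)) (XT.lf (nat_lit 0) (nat_lit 1417906140) (nat_lit 840) (nat_lit 3224656009) (nat_lit 84) (nat_lit 3057493851) (nat_lit 135) (nat_lit 5) (nat_lit 145) (nat_lit 5) (nat_lit 136) (nat_lit 5) (nat_lit 257) (nat_lit 242) (nat_lit 221))) (XT.nd (nat_lit 94) (nat_lit 588) (nat_lit 0) (XT.lf (nat_lit 0) (nat_lit 1714325041) (nat_lit 840) (nat_lit 2070824447) (nat_lit 924) (nat_lit 4058896188) (nat_lit 125) (nat_lit 5) (nat_lit 135) (nat_lit 5) (nat_lit 136) (nat_lit 5) (nat_lit 258) (nat_lit 242) (nat_lit 220)) (XT.nd (nat_lit 94) (nat_lit 588) (nat_lit 0) (XT.lf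 (nat_lit 0) (nat_lit 6236064706) (nat_lit 924) (nat_lit 1093694137) (nat_lit 84) (nat_lit 667210507) (nat_lit 125) (nat_lit 5) (nat_lit 136) (nat_lit 5) (nat_lit 126) (nat_lit 5) (nat_lit 259) (nat_lit 242) (nat_lit 219)) (XT.lf (nat_lit 0) (nat_lit 635396524) (nat_lit 588) (nat_lit 3970855047) (nat_lit 84) (nat_lit 3550564785) (nat_lit 118) (nat_lit 5) (nat_lit 125) (nat_lit 5) (nat_lit 119) (nat_lit 5) (nat_lit 260) (nat_lit 242) (nat_lit 218))))))))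
noncomputable def xc90 : XT := (XT.nd (nat_lit 1598) (nat_lit 2436) (nat_lit 0) (XT.nd (nat_lit 752) (nat_lit 1848) (nat_lit 0) (XT.nd (nat_lit 376) (nat_lit 756) (nat_lit 0) (XT.nd (nat_lit 188) (nat_lit 840) (nat_lit 0) (XT.nd (nat_lit 94) (nat_lit 0) (nat_lit 0) (XT.lf (nat_lit 0) (nat_lit 1358854127) (nat_lit 420) (nat_lit 1679782521) (nat_lit 504) (nat_lit 5287260609) (nat_lit 113) (nat_lit 5) (nat_lit 118) (nat_lit 5) (nat_lit 119) (nat_lit 5) (nat_lit 261) (nat_lit 242) (nat_lit 217)) (XT.lf (nat_lit 0) (nat_lit 5561229324) (nat_lit 504) (nat_lit 1532150939) (nat_lit 84) (nat_lit 1410092414) (nat_lit 113) (nat_lit 5) (nat_lit 119) (nat_lit 5) (nat_lit 114) (nat_lit 5) (nat_lit 262) (nat_lit 242) (nat_lit 216))) (XT.nd (nat_lit 94) (nat_lit 420) (nat_lit 0) (XT.lf (nat_lit 0) (nat_lit 4183574859) (nat_lit 420) (nat_lit 4032651491) (nat_lit 504) (nat_lit 473386780)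 (nat_lit 108) (nat_lit 5) (nat_lit 113) (nat_lit 5) (nat_lit 114) (nat_lit 5) (nat_lit 263) (nat_lit 242) (nat_lit 215)) (XT.lf (nat_lit 0) (nat_lit 1262903317) (nat_lit 336) (nat_lit 748953770) (nat_lit 420) (nat_lit 6873511266) (nat_lit 103) (nat_lit 5) (nat_lit 107) (nat_lit 5) (nat_lit 108) (nat_lit 5) (nat_lit 264) (nat_lit 242) (nat_lit 214)))) (XT.nd (nat_lit 188) (nat_lit 420) (nat_lit 0) (XT.nd (nat_lit 94) (nat_lit 336) (nat_lit 0) (XT.lf (nat_lit 0) (nat_lit 4642156087) (nat_lit 420) (nat_lit 1762368755) (nat_lit 84) (nat_lit 2684163382) (nat_lit 103) (nat_lit 5) (nat_lit 108) (nat_lit 5) (nat_lit 104) (nat_lit 5) (nat_lit 265) (nat_lit 242) (nat_lit 213)) (XT.lf (nat_lit 0) (nat_lit 4423997406) (nat_lit 336) (nat_lit 2982274930) (nat_lit 420) (nat_lit 1895786636) (nat_lit 99) (nat_lit 5) (nat_lit 103) (nat_lit 5) (nat_lit 104) (nat_lit 5) (nat_lit 266) (nat_lit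 242) (nat_lit 212))) (XT.nd (nat_lit 94) (nat_lit 0) (nat_lit 0) (XT.lf (nat_lit 0) (nat_lit 741784949) (nat_lit 420) (nat_lit 8146089549) (nat_lit 84) (nat_lit 638396234) (nat_lit 94) (nat_lit 5) (nat_lit 99) (nat_lit 5) (nat_lit 95) (nat_lit 5) (nat_lit 267) (nat_lit 242) (nat_lit 211)) (XT.lf (nat_lit 0) (nat_lit 3504280165) (nat_lit 420) (nat_lit 1817192335) (nat_lit 84) (nat_lit 4435828861) (nat_lit 94) (nat_lit 5) (nat_lit 99) (nat_lit 5) (nat_lit 95) (nat_lit 5) (nat_lit 268) (nat_lit 242) (nat_lit 210))))) (XT.nd (nat_lit 376) (nat_lit 840) (nat_lit 0) (XT.nd (nat_lit 188) (nat_lit 420) (nat_lit 0) (XT.nd (nat_lit 94) (nat_lit 252) (nat_lit 0) (XT.lf (nat_lit 0) (nat_lit 4890388225) (nat_lit 336) (nat_lit 1518387941) (nat_lit 420) (nat_lit 3590913553) (nat_lit 90) (nat_lit 5) (nat_lit 94) (nat_lit 5) (nat_lit 95) (nat_lit 5) (nat_lit 269) (nat_lit 242) (nat_lit 209))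 (XT.lf (nat_lit 0) (nat_lit 1661885290) (nat_lit 252) (nat_lit 7821655577) (nat_lit 336) (nat_lit 769404435) (nat_lit 87) (nat_lit 5) (nat_lit 90) (nat_lit 5) (nat_lit 91) (nat_lit 5) (nat_lit 270) (nat_lit 242) (nat_lit 208))) (XT.nd (nat_lit 94) (nat_lit 336) (nat_lit 0) (XT.lf (nat_lit 0) (nat_lit 2165770443) (nat_lit 336) (nat_lit 1722782494) (nat_lit 84) (nat_lit 6626459352) (nat_lit 86) (nat_lit 5) (nat_lit 90) (nat_lit 5) (nat_lit 87) (nat_lit 5) (nat_lit 271) (nat_lit 242) (nat_lit 207)) (XT.lf (nat_lit 0) (nat_lit 5246971809) (nat_lit 420) (nat_lit 5231327367) (nat_lit 84) (nat_lit 309996553) (nat_lit 82) (nat_lit 5) (nat_lit 87) (nat_lit 5) (nat_lit 83) (nat_lit 5) (nat_lit 272) (nat_lit 242) (nat_lit 206)))) (XT.nd (nat_lit 188) (nat_lit 504) (nat_lit 0) (XT.nd (nat_lit 94) (nat_lit 84) (nat_lit 0) (XT.lf (nat_lit 0) (nat_lit 2096132958) (nat_lit 252) (nat_lit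 6446872569) (nat_lit 336) (nat_lit 2529199199) (nat_lit 79) (nat_lit 5) (nat_lit 82) (nat_lit 5) (nat_lit 83) (nat_lit 5) (nat_lit 273) (nat_lit 242) (nat_lit 205)) (XT.lf (nat_lit 0) (nat_lit 638579313) (nat_lit 336) (nat_lit 1499734035) (nat_lit 84) (nat_lit 9230235038) (nat_lit 78) (nat_lit 5) (nat_lit 82) (nat_lit 5) (nat_lit 79) (nat_lit 5) (nat_lit 274) (nat_lit 242) (nat_lit 204))) (XT.nd (nat_lit 94) (nat_lit 252) (nat_lit 0) (XT.lf (nat_lit 0) (nat_lit 3957554619) (nat_lit 336) (nat_lit 5289855558) (nat_lit 84) (nat_lit 2426335662) (nat_lit 75) (nat_lit 5) (nat_lit 79) (nat_lit 5) (nat_lit 76) (nat_lit 5) (nat_lit 275) (nat_lit 242) (nat_lit 203)) (XT.nd (nat_lit 94) (nat_lit 0) (nat_lit 0) (XT.lf (nat_lit 0) (nat_lit 2680412697) (nat_lit 252) (nat_lit 4804263430) (nat_lit 336) (nat_lit 4507417164) (nat_lit 72) (nat_lit 5) (nat_lit 75) (nat_lit 5) (nat_lit 76) (nat_lit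 5) (nat_lit 276) (nat_lit 242) (nat_lit 202)) (XT.lf (nat_lit 0) (nat_lit 11143573174) (nat_lit 252) (nat_lit 75134209) (nat_lit 336) (nat_lit 1106123049) (nat_lit 72) (nat_lit 5) (nat_lit 75) (nat_lit 5) (nat_lit 76) (nat_lit 5) (nat_lit 277) (nat_lit 242) (nat_lit 201))))))) (XT.nd (nat_lit 752) (nat_lit 1008) (nat_lit 0) (XT.nd (nat_lit 376) (nat_lit 588) (nat_lit 0) (XT.nd (nat_lit 188) (nat_lit 336) (nat_lit 0) (XT.nd (nat_lit 94) (nat_lit 168) (nat_lit 0) (XT.lf (nat_lit 0) (nat_lit 2524238800) (nat_lit 336) (nat_lit 5278385287) (nat_lit 84) (nat_lit 4862760582) (nat_lit 68) (nat_lit 5) (nat_lit 72) (nat_lit 5) (nat_lit 69) (nat_lit 5) (nat_lit 278) (nat_lit 242) (nat_lit 200)) (XT.lf (nat_lit 0) (nat_lit 3404141141) (nat_lit 168) (nat_lit 2913295984) (nat_lit 252) (nat_lit 6703698268) (nat_lit 66) (nat_lit 5) (nat_lit 68) (nat_lit 5) (nat_lit 69) (nat_lit 5) (nat_lit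 279) (nat_lit 242) (nat_lit 199))) (XT.nd (nat_lit 94) (nat_lit 336) (nat_lit 0) (XT.lf (nat_lit 0) (nat_lit 10370435252) (nat_lit 252) (nat_lit 810958942) (nat_lit 84) (nat_lit 2209772465) (nat_lit 66) (nat_lit 5) (nat_lit 69) (nat_lit 5) (nat_lit 67) (nat_lit 5) (nat_lit 280) (nat_lit 242) (nat_lit 198)) (XT.lf (nat_lit 0) (nat_lit 950340615) (nat_lit 336) (nat_lit 5210867785) (nat_lit 84) (nat_lit 7611278046) (nat_lit 62) (nat_lit 5) (nat_lit 66) (nat_lit 5) (nat_lit 63) (nat_lit 5) (nat_lit 281) (nat_lit 242) (nat_lit 197)))) (XT.nd (nat_lit 188) (nat_lit 420) (nat_lit 0) (XT.nd (nat_lit 94) (nat_lit 0) (nat_lit 0) (XT.lf (nat_lit 0) (nat_lit 4260598446) (nat_lit 168) (nat_lit 785951898) (nat_lit 252) (nat_lit 9122440846) (nat_lit 60) (nat_lit 5) (nat_lit 62) (nat_lit 5) (nat_lit 63) (nat_lit 5) (nat_lit 282) (nat_lit 242) (nat_lit 196)) (XT.lf (nat_lit 0) (nat_lit 9461423018)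 (nat_lit 252) (nat_lit 357159866) (nat_lit 84) (nat_lit 4761045665) (nat_lit 60) (nat_lit 5) (nat_lit 63) (nat_lit 5) (nat_lit 61) (nat_lit 5) (nat_lit 283) (nat_lit 242) (nat_lit 195))) (XT.nd (nat_lit 94) (nat_lit 252) (nat_lit 0) (XT.lf (nat_lit 0) (nat_lit 9893987265) (nat_lit 168) (nat_lit 4321179999) (nat_lit 252) (nat_lit 789724113) (nat_lit 58) (nat_lit 5) (nat_lit 60) (nat_lit 5) (nat_lit 61) (nat_lit 5) (nat_lit 284) (nat_lit 242) (nat_lit 194)) (XT.lf (nat_lit 0) (nat_lit 3698674386) (nat_lit 252) (nat_lit 10224646745) (nat_lit 84) (nat_lit 1521980658) (nat_lit 55) (nat_lit 5) (nat_lit 58) (nat_lit 5) (nat_lit 56) (nat_lit 5) (nat_lit 285) (nat_lit 242) (nat_lit 193))))) (XT.nd (nat_lit 376) (nat_lit 420) (nat_lit 0) (XT.nd (nat_lit 188) (nat_lit 420) (nat_lit 0) (XT.nd (nat_lit 94) (nat_lit 0) (nat_lit 0) (XT.lf (nat_lit 0) (nat_lit 181116551) (nat_lit 168) (nat_lit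 8317118305) (nat_lit 252) (nat_lit 7403186453) (nat_lit 53) (nat_lit 5) (nat_lit 55) (nat_lit 5) (nat_lit 56) (nat_lit 5) (nat_lit 286) (nat_lit 242) (nat_lit 192)) (XT.lf (nat_lit 0) (nat_lit 11381169794) (nat_lit 168) (nat_lit 2282442100) (nat_lit 252) (nat_lit 2710442983) (nat_lit 53) (nat_lit 5) (nat_lit 55) (nat_lit 5) (nat_lit 56) (nat_lit 5) (nat_lit 287) (nat_lit 242) (nat_lit 191))) (XT.nd (nat_lit 94) (nat_lit 168) (nat_lit 0) (XT.lf (nat_lit 0) (nat_lit 2264469507) (nat_lit 252) (nat_lit 10569631282) (nat_lit 84) (nat_lit 4028564321) (nat_lit 50) (nat_lit 5) (nat_lit 53) (nat_lit 5) (nat_lit 51) (nat_lit 5) (nat_lit 288) (nat_lit 242) (nat_lit 190)) (XT.lf (nat_lit 0) (nat_lit 808658832) (nat_lit 168) (nat_lit 6679024956) (nat_lit 252) (nat_lit 9881268149) (nat_lit 48) (nat_lit 5) (nat_lit 50) (nat_lit 5) (nat_lit 51) (nat_lit 5) (nat_lit 289) (nat_lit 242) (nat_lit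 189)))) (XT.nd (nat_lit 188) (nat_lit 252) (nat_lit 0) (XT.nd (nat_lit 94) (nat_lit 168) (nat_lit 0) (XT.lf (nat_lit 0) (nat_lit 13044994052) (nat_lit 168) (nat_lit 61669807) (nat_lit 252) (nat_lit 4787158993) (nat_lit 48) (nat_lit 5) (nat_lit 50) (nat_lit 5) (nat_lit 51) (nat_lit 5) (nat_lit 290) (nat_lit 242) (nat_lit 188)) (XT.lf (nat_lit 0) (nat_lit 728576811) (nat_lit 168) (nat_lit 10942424573) (nat_lit 84) (nat_lit 6764252594) (nat_lit 46) (nat_lit 5) (nat_lit 48) (nat_lit 5) (nat_lit 47) (nat_lit 5) (nat_lit 291) (nat_lit 242) (nat_lit 187))) (XT.nd (nat_lit 94) (nat_lit 84) (nat_lit 0) (XT.lf (nat_lit 0) (nat_lit 1511893812) (nat_lit 168) (nat_lit 4912812135) (nat_lit 252) (nat_lit 12571852489) (nat_lit 44) (nat_lit 5) (nat_lit 46) (nat_lit 5) (nat_lit 47) (nat_lit 5) (nat_lit 292) (nat_lit 242) (nat_lit 186)) (XT.nd (nat_lit 94) (nat_lit 84) (nat_lit 0) (XT.lf (nat_lit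 0) (nat_lit 12585836439) (nat_lit 252) (nat_lit 4721231621) (nat_lit 84) (nat_lit 2269850312) (nat_lit 44) (nat_lit 5) (nat_lit 47) (nat_lit 5) (nat_lit 45) (nat_lit 4) (nat_lit 293) (nat_lit 242) (nat_lit 185)) (XT.lf (nat_lit 0) (nat_lit 8809146170) (nat_lit 84) (nat_lit 10423716805) (nat_lit 168) (nat_lit 944541353) (nat_lit 43) (nat_lit 5) (nat_lit 44) (nat_lit 5) (nat_lit 45) (nat_lit 4) (nat_lit 294) (nat_lit 242) (nat_lit 184))))))))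
noncomputable def xc91 : XT := (XT.nd (nat_lit 1598) (nat_lit 1428) (nat_lit 0) (XT.nd (nat_lit 752) (nat_lit 840) (nat_lit 0) (XT.nd (nat_lit 376) (nat_lit 336) (nat_lit 0) (XT.nd (nat_lit 188) (nat_lit 336) (nat_lit 0) (XT.nd (nat_lit 94) (nat_lit 0) (nat_lit 0) (XT.lf (nat_lit 0) (nat_lit 2290881337) (nat_lit 168) (nat_lit 3017426738) (nat_lit 252) (nat_lit 15491539973) (nat_lit 40) (nat_lit 5) (nat_lit 42) (nat_lit 5) (nat_lit 43) (nat_lit 5) (nat_lit 295) (nat_lit 242) (nat_lit 183)) (XT.lf (nat_lit 0) (nat_lit 12072250000) (nat_lit 252) (nat_lit 4582150174) (nat_lit 84) (nat_lit 4786729926) (nat_lit 40) (nat_lit 5) (nat_lit 43) (nat_lit 5) (nat_lit 41) (nat_lit 4) (nat_lit 296) (nat_lit 242) (nat_lit 182))) (XT.nd (nat_lit 94) (nat_lit 252) (nat_lit 0) (XT.lf (nat_lit 0) (nat_lit 10250009237) (nat_lit 84) (nat_lit 9095977709) (nat_lit 168) (nat_lit 2759909411) (nat_lit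 39) (nat_lit 5) (nat_lit 40) (nat_lit 5) (nat_lit 41) (nat_lit 4) (nat_lit 297) (nat_lit 242) (nat_lit 181)) (XT.lf (nat_lit 0) (nat_lit 3147322951) (nat_lit 168) (nat_lit 988655024) (nat_lit 252) (nat_lit 18660148330) (nat_lit 36) (nat_lit 5) (nat_lit 38) (nat_lit 5) (nat_lit 39) (nat_lit 5) (nat_lit 298) (nat_lit 242) (nat_lit 180)))) (XT.nd (nat_lit 188) (nat_lit 252) (nat_lit 0) (XT.nd (nat_lit 94) (nat_lit 84) (nat_lit 0) (XT.lf (nat_lit 0) (nat_lit 11567918727) (nat_lit 252) (nat_lit 4434490321) (nat_lit 84) (nat_lit 7501995980) (nat_lit 36) (nat_lit 5) (nat_lit 39) (nat_lit 5) (nat_lit 37) (nat_lit 4) (nat_lit 299) (nat_lit 242) (nat_lit 179)) (XT.lf (nat_lit 0) (nat_lit 11836547925) (nat_lit 84) (nat_lit 7700167307) (nat_lit 168) (nat_lit 4703119519) (nat_lit 35) (nat_lit 5) (nat_lit 36) (nat_lit 5) (nat_lit 37) (nat_lit 4) (nat_lit 300) (nat_lit 242) (nat_lit 178)))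 (XT.nd (nat_lit 94) (nat_lit 0) (nat_lit 0) (XT.lf (nat_lit 0) (nat_lit 2922243308) (nat_lit 252) (nat_lit 20938561130) (nat_lit 84) (nat_lit 1142829622) (nat_lit 32) (nat_lit 5) (nat_lit 35) (nat_lit 5) (nat_lit 33) (nat_lit 4) (nat_lit 301) (nat_lit 242) (nat_lit 177)) (XT.lf (nat_lit 0) (nat_lit 11075097056) (nat_lit 252) (nat_lit 4281355717) (nat_lit 84) (nat_lit 10430101626) (nat_lit 32) (nat_lit 5) (nat_lit 35) (nat_lit 5) (nat_lit 33) (nat_lit 4) (nat_lit 302) (nat_lit 242) (nat_lit 176))))) (XT.nd (nat_lit 376) (nat_lit 420) (nat_lit 0) (XT.nd (nat_lit 188) (nat_lit 84) (nat_lit 0) (XT.nd (nat_lit 94) (nat_lit 252) (nat_lit 0) (XT.lf (nat_lit 0) (nat_lit 13579605141) (nat_lit 84) (nat_lit 6234239264) (nat_lit 168) (nat_lit 6785863802) (nat_lit 31) (nat_lit 5) (nat_lit 32) (nat_lit 5) (nat_lit 33) (nat_lit 4) (nat_lit 303) (nat_lit 242) (nat_lit 175)) (XT.lf (nat_lit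 0) (nat_lit 1661243744) (nat_lit 252) (nat_lit 22394165420) (nat_lit 84) (nat_lit 3388191661) (nat_lit 28) (nat_lit 5) (nat_lit 31) (nat_lit 5) (nat_lit 29) (nat_lit 4) (nat_lit 304) (nat_lit 242) (nat_lit 174))) (XT.nd (nat_lit 94) (nat_lit 84) (nat_lit 0) (XT.lf (nat_lit 0) (nat_lit 10595454224) (nat_lit 252) (nat_lit 4125224377) (nat_lit 84) (nat_lit 13588807436) (nat_lit 28) (nat_lit 5) (nat_lit 31) (nat_lit 5) (nat_lit 29) (nat_lit 4) (nat_lit 305) (nat_lit 242) (nat_lit 173)) (XT.lf (nat_lit 0) (nat_lit 15492071835) (nat_lit 84) (nat_lit 4694254149) (nat_lit 168) (nat_lit 9021841988) (nat_lit 27) (nat_lit 5) (nat_lit 28) (nat_lit 5) (nat_lit 29) (nat_lit 4) (nat_lit 306) (nat_lit 242) (nat_lit 172)))) (XT.nd (nat_lit 188) (nat_lit 252) (nat_lit 0) (XT.nd (nat_lit 94) (nat_lit 0) (nat_lit 0) (XT.lf (nat_lit 0) (nat_lit 331276438) (nat_lit 168) (nat_lit 24017828564)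 (nat_lit 84) (nat_lit 5791113148) (nat_lit 25) (nat_lit 5) (nat_lit 27) (nat_lit 5) (nat_lit 26) (nat_lit 4) (nat_lit 307) (nat_lit 242) (nat_lit 171)) (XT.lf (nat_lit 0) (nat_lit 10130186857) (nat_lit 168) (nat_lit 3968063194) (nat_lit 84) (nat_lit 16999159376) (nat_lit 25) (nat_lit 5) (nat_lit 27) (nat_lit 5) (nat_lit 26) (nat_lit 4) (nat_lit 308) (nat_lit 242) (nat_lit 170))) (XT.nd (nat_lit 94) (nat_lit 168) (nat_lit 0) (XT.lf (nat_lit 0) (nat_lit 17588920772) (nat_lit 84) (nat_lit 3074522370) (nat_lit 168) (nat_lit 11426797109) (nat_lit 24) (nat_lit 5) (nat_lit 25) (nat_lit 5) (nat_lit 26) (nat_lit 4) (nat_lit 309) (nat_lit 242) (nat_lit 169)) (XT.nd (nat_lit 94) (nat_lit 84) (nat_lit 0) (XT.lf (nat_lit 0) (nat_lit 7272783403) (nat_lit 84) (nat_lit 24735046110) (nat_lit 84) (nat_lit 1110659740) (nat_lit 23) (nat_lit 4) (nat_lit 24) (nat_lit 5) (nat_lit 24) (nat_lit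 4) (nat_lit 310) (nat_lit 242) (nat_lit 168)) (XT.lf (nat_lit 0) (nat_lit 9680111174) (nat_lit 168) (nat_lit 3811421971) (nat_lit 84) (nat_lit 20685530310) (nat_lit 22) (nat_lit 5) (nat_lit 24) (nat_lit 5) (nat_lit 23) (nat_lit 4) (nat_lit 311) (nat_lit 242) (nat_lit 167))))))) (XT.nd (nat_lit 752) (nat_lit 756) (nat_lit 0) (XT.nd (nat_lit 376) (nat_lit 336) (nat_lit 0) (XT.nd (nat_lit 188) (nat_lit 168) (nat_lit 0) (XT.nd (nat_lit 94) (nat_lit 84) (nat_lit 0) (XT.lf (nat_lit 0) (nat_lit 19887275492) (nat_lit 84) (nat_lit 1367700186) (nat_lit 168) (nat_lit 14018586289) (nat_lit 21) (nat_lit 5) (nat_lit 22) (nat_lit 5) (nat_lit 23) (nat_lit 4) (nat_lit 312) (nat_lit 242) (nat_lit 166)) (XT.lf (nat_lit 0) (nat_lit 8520111570) (nat_lit 84) (nat_lit 25235976246) (nat_lit 84) (nat_lit 2651422367) (nat_lit 20) (nat_lit 4) (nat_lit 21) (nat_lit 5) (nat_lit 21) (nat_lit 4) (nat_lit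 313) (nat_lit 242) (nat_lit 165))) (XT.nd (nat_lit 94) (nat_lit 84) (nat_lit 0) (XT.lf (nat_lit 0) (nat_lit 9245738444) (nat_lit 168) (nat_lit 3656510632) (nat_lit 84) (nat_lit 24675719799) (nat_lit 19) (nat_lit 5) (nat_lit 21) (nat_lit 5) (nat_lit 20) (nat_lit 4) (nat_lit 314) (nat_lit 242) (nat_lit 164)) (XT.lf (nat_lit 0) (nat_lit 21978151359) (nat_lit 168) (nat_lit 16388923546) (nat_lit 0) (nat_lit 421227339) (nat_lit 18) (nat_lit 5) (nat_lit 20) (nat_lit 4) (nat_lit 18) (nat_lit 4) (nat_lit 315) (nat_lit 242) (nat_lit 163)))) (XT.nd (nat_lit 188) (nat_lit 168) (nat_lit 0) (XT.nd (nat_lit 94) (nat_lit 84) (nat_lit 0) (XT.lf (nat_lit 0) (nat_lit 9879460971) (nat_lit 84) (nat_lit 25869375571) (nat_lit 84) (nat_lit 4290233159) (nat_lit 17) (nat_lit 4) (nat_lit 18) (nat_lit 5) (nat_lit 18) (nat_lit 4) (nat_lit 316) (nat_lit 242) (nat_lit 162)) (XT.lf (nat_lit 0) (nat_lit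 8827336686) (nat_lit 168) (nat_lit 3504262578) (nat_lit 84) (nat_lit 29001108500) (nat_lit 16) (nat_lit 5) (nat_lit 18) (nat_lit 5) (nat_lit 17) (nat_lit 4) (nat_lit 317) (nat_lit 242) (nat_lit 161))) (XT.nd (nat_lit 94) (nat_lit 84) (nat_lit 0) (XT.lf (nat_lit 0) (nat_lit 22860434599) (nat_lit 168) (nat_lit 17537360492) (nat_lit 0) (nat_lit 2269524579) (nat_lit 15) (nat_lit 5) (nat_lit 17) (nat_lit 4) (nat_lit 15) (nat_lit 4) (nat_lit 318) (nat_lit 242) (nat_lit 160)) (XT.lf (nat_lit 0) (nat_lit 11361637050) (nat_lit 84) (nat_lit 26647752089) (nat_lit 84) (nat_lit 6038562943) (nat_lit 14) (nat_lit 4) (nat_lit 15) (nat_lit 5) (nat_lit 15) (nat_lit 4) (nat_lit 319) (nat_lit 242) (nat_lit 159))))) (XT.nd (nat_lit 376) (nat_lit 420) (nat_lit 0) (XT.nd (nat_lit 188) (nat_lit 168) (nat_lit 0) (XT.nd (nat_lit 94) (nat_lit 84) (nat_lit 0) (XT.lf (nat_lit 0) (nat_lit 8424981057)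 (nat_lit 168) (nat_lit 3355386669) (nat_lit 84) (nat_lit 33696864828) (nat_lit 13) (nat_lit 5) (nat_lit 15) (nat_lit 5) (nat_lit 14) (nat_lit 4) (nat_lit 320) (nat_lit 242) (nat_lit 158)) (XT.lf (nat_lit 0) (nat_lit 23892862043) (nat_lit 168) (nat_lit 18823267655) (nat_lit 0) (nat_lit 4232692954) (nat_lit 12) (nat_lit 5) (nat_lit 14) (nat_lit 4) (nat_lit 12) (nat_lit 4) (nat_lit 321) (nat_lit 242) (nat_lit 157))) (XT.nd (nat_lit 94) (nat_lit 84) (nat_lit 0) (XT.lf (nat_lit 0) (nat_lit 12978838666) (nat_lit 84) (nat_lit 27584451650) (nat_lit 84) (nat_lit 7909244279) (nat_lit 11) (nat_lit 4) (nat_lit 12) (nat_lit 5) (nat_lit 12) (nat_lit 4) (nat_lit 322) (nat_lit 242) (nat_lit 156)) (XT.lf (nat_lit 0) (nat_lit 8038594975) (nat_lit 168) (nat_lit 3210409844) (nat_lit 84) (nat_lit 38802202702) (nat_lit 10) (nat_lit 5) (nat_lit 12) (nat_lit 5) (nat_lit 11) (nat_lit 4) (nat_lit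 323) (nat_lit 242) (nat_lit 155)))) (XT.nd (nat_lit 188) (nat_lit 252) (nat_lit 0) (XT.nd (nat_lit 94) (nat_lit 84) (nat_lit 0) (XT.lf (nat_lit 0) (nat_lit 25088964248) (nat_lit 168) (nat_lit 20260779117) (nat_lit 0) (nat_lit 6324040715) (nat_lit 9) (nat_lit 5) (nat_lit 11) (nat_lit 4) (nat_lit 9) (nat_lit 4) (nat_lit 324) (nat_lit 242) (nat_lit 154)) (XT.lf (nat_lit 0) (nat_lit 14744742337) (nat_lit 84) (nat_lit 28693852770) (nat_lit 84) (nat_lit 9916557205) (nat_lit 8) (nat_lit 4) (nat_lit 9) (nat_lit 5) (nat_lit 9) (nat_lit 4) (nat_lit 325) (nat_lit 242) (nat_lit 153))) (XT.nd (nat_lit 94) (nat_lit 168) (nat_lit 0) (XT.lf (nat_lit 0) (nat_lit 7667983608) (nat_lit 168) (nat_lit 3069712054) (nat_lit 84) (nat_lit 44360690233) (nat_lit 7) (nat_lit 5) (nat_lit 9) (nat_lit 5) (nat_lit 8) (nat_lit 4) (nat_lit 326) (nat_lit 242) (nat_lit 152)) (XT.nd (nat_lit 94) (nat_lit 84)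 (nat_lit 0) (XT.lf (nat_lit 0) (nat_lit 26463572705) (nat_lit 168) (nat_lit 21865301151) (nat_lit 0) (nat_lit 8558524848) (nat_lit 6) (nat_lit 5) (nat_lit 8) (nat_lit 4) (nat_lit 6) (nat_lit 4) (nat_lit 327) (nat_lit 242) (nat_lit 151)) (XT.lf (nat_lit 0) (nat_lit 16674605879) (nat_lit 84) (nat_lit 29991560684) (nat_lit 84) (nat_lit 12076334325) (nat_lit 5) (nat_lit 4) (nat_lit 6) (nat_lit 5) (nat_lit 6) (nat_lit 4) (nat_lit 328) (nat_lit 242) (nat_lit 150))))))))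
noncomputable def xc92 : XT := (XT.nd (nat_lit 37600) (nat_lit 0) (nat_lit 8988) (XT.nd (nat_lit 752) (nat_lit 0) (nat_lit 0) (XT.nd (nat_lit 376) (nat_lit 84) (nat_lit 0) (XT.nd (nat_lit 188) (nat_lit 168) (nat_lit 0) (XT.nd (nat_lit 94) (nat_lit 84) (nat_lit 0) (XT.lf (nat_lit 0) (nat_lit 7312861118) (nat_lit 168) (nat_lit 2933554876) (nat_lit 84) (nat_lit 50420610174) (nat_lit 4) (nat_lit 5) (nat_lit 6) (nat_lit 5) (nat_lit 5) (nat_lit 4) (nat_lit 329) (nat_lit 242) (nat_lit 149)) (XT.lf (nat_lit 0) (nat_lit 28032988213) (nat_lit 168) (nat_lit 23653681971) (nat_lit 0) (nat_lit 10952843099) (nat_lit 3) (nat_lit 5) (nat_lit 5) (nat_lit 4) (nat_lit 3) (nat_lit 4) (nat_lit 330) (nat_lit 242) (nat_lit 148))) (XT.nd (nat_lit 94) (nat_lit 84) (nat_lit 0) (XT.lf (nat_lit 0) (nat_lit 18785391513) (nat_lit 84) (nat_lit 31494604264) (nat_lit 84) (nat_lit 14406085272) (nat_lit 2)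 (nat_lit 4) (nat_lit 3) (nat_lit 5) (nat_lit 3) (nat_lit 4) (nat_lit 331) (nat_lit 242) (nat_lit 147)) (XT.lf (nat_lit 0) (nat_lit 6972872774) (nat_lit 168) (nat_lit 2802104925) (nat_lit 84) (nat_lit 57035373793) (nat_lit 1) (nat_lit 5) (nat_lit 3) (nat_lit 5) (nat_lit 2) (nat_lit 4) (nat_lit 332) (nat_lit 242) (nat_lit 146)))) (XT.nd (nat_lit 188) (nat_lit 0) (nat_lit 0) (XT.nd (nat_lit 94) (nat_lit 0) (nat_lit 0) (XT.lf (nat_lit 0) (nat_lit 101541288579) (nat_lit 0) (nat_lit 0) (nat_lit 0) (nat_lit 0) (nat_lit 0) (nat_lit 0) (nat_lit 1) (nat_lit 0) (nat_lit 1) (nat_lit 0) (nat_lit 333) (nat_lit 242) (nat_lit 145)) (XT.lf (nat_lit 0) (nat_lit 106558145685) (nat_lit 0) (nat_lit 0) (nat_lit 0) (nat_lit 0) (nat_lit 0) (nat_lit 0) (nat_lit 1) (nat_lit 0) (nat_lit 1) (nat_lit 0) (nat_lit 334) (nat_lit 242) (nat_lit 144))) (XT.nd (nat_lit 94) (nat_lit 0) (nat_lit 0) (XT.lf (nat_lit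 0) (nat_lit 111825894090) (nat_lit 0) (nat_lit 0) (nat_lit 0) (nat_lit 0) (nat_lit 0) (nat_lit 0) (nat_lit 1) (nat_lit 0) (nat_lit 1) (nat_lit 0) (nat_lit 335) (nat_lit 242) (nat_lit 143)) (XT.lf (nat_lit 0) (nat_lit 117357076051) (nat_lit 0) (nat_lit 0) (nat_lit 0) (nat_lit 0) (nat_lit 0) (nat_lit 0) (nat_lit 1) (nat_lit 0) (nat_lit 1) (nat_lit 0) (nat_lit 336) (nat_lit 242) (nat_lit 142))))) (XT.nd (nat_lit 36378) (nat_lit 0) (nat_lit 14448) (XT.nd (nat_lit 188) (nat_lit 0) (nat_lit 0) (XT.nd (nat_lit 94) (nat_lit 0) (nat_lit 0) (XT.lf (nat_lit 0) (nat_lit 123164861049) (nat_lit 0) (nat_lit 0) (nat_lit 0) (nat_lit 0) (nat_lit 0) (nat_lit 0) (nat_lit 1) (nat_lit 0) (nat_lit 1) (nat_lit 0) (nat_lit 337) (nat_lit 242) (nat_lit 141)) (XT.lf (nat_lit 0) (nat_lit 129263077145) (nat_lit 0) (nat_lit 0) (nat_lit 0) (nat_lit 0) (nat_lit 0) (nat_lit 0) (nat_lit 1) (nat_lit 0) (nat_lit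 1) (nat_lit 0) (nat_lit 338) (nat_lit 242) (nat_lit 140))) (XT.nd (nat_lit 94) (nat_lit 0) (nat_lit 0) (XT.lf (nat_lit 0) (nat_lit 135666243899) (nat_lit 0) (nat_lit 0) (nat_lit 0) (nat_lit 0) (nat_lit 0) (nat_lit 0) (nat_lit 1) (nat_lit 0) (nat_lit 1) (nat_lit 0) (nat_lit 339) (nat_lit 242) (nat_lit 139)) (XT.lf (nat_lit 0) (nat_lit 142389606948) (nat_lit 0) (nat_lit 0) (nat_lit 0) (nat_lit 0) (nat_lit 0) (nat_lit 0) (nat_lit 1) (nat_lit 0) (nat_lit 1) (nat_lit 0) (nat_lit 340) (nat_lit 242) (nat_lit 138)))) (XT.nd (nat_lit 188) (nat_lit 336) (nat_lit 0) (XT.nd (nat_lit 94) (nat_lit 420) (nat_lit 0) (XT.lf (nat_lit 0) (nat_lit 1101617159) (nat_lit 0) (nat_lit 1101617159) (nat_lit 252) (nat_lit 1068890710) (nat_lit 181) (nat_lit 5) (nat_lit 181) (nat_lit 3) (nat_lit 184) (nat_lit 3) (nat_lit 243) (nat_lit 243) (nat_lit 234)) (XT.lf (nat_lit 0) (nat_lit 402821404) (nat_lit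 420) (nat_lit 1034679532) (nat_lit 420) (nat_lit 5145870210) (nat_lit 176) (nat_lit 3) (nat_lit 181) (nat_lit 3) (nat_lit 181) (nat_lit 5) (nat_lit 244) (nat_lit 243) (nat_lit 233))) (XT.nd (nat_lit 94) (nat_lit 336) (nat_lit 0) (XT.lf (nat_lit 84) (nat_lit 2393721861) (nat_lit 0) (nat_lit 480699692) (nat_lit 420) (nat_lit 3754483922) (nat_lit 177) (nat_lit 5) (nat_lit 176) (nat_lit 3) (nat_lit 181) (nat_lit 5) (nat_lit 245) (nat_lit 243) (nat_lit 232)) (XT.nd (nat_lit 94) (nat_lit 420) (nat_lit 0) (XT.lf (nat_lit 0) (nat_lit 5341540171) (nat_lit 336) (nat_lit 747173106) (nat_lit 420) (nat_lit 594406322) (nat_lit 177) (nat_lit 5) (nat_lit 181) (nat_lit 5) (nat_lit 182) (nat_lit 5) (nat_lit 246) (nat_lit 243) (nat_lit 231)) (XT.lf (nat_lit 0) (nat_lit 1058928194) (nat_lit 420) (nat_lit 3849145124) (nat_lit 504) (nat_lit 1835785190) (nat_lit 172) (nat_lit 5) (nat_lit 177)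 (nat_lit 5) (nat_lit 178) (nat_lit 5) (nat_lit 247) (nat_lit 243) (nat_lit 230))))))) (XT.nd (nat_lit 752) (nat_lit 3192) (nat_lit 0) (XT.nd (nat_lit 376) (nat_lit 1764) (nat_lit 0) (XT.nd (nat_lit 188) (nat_lit 504) (nat_lit 0) (XT.nd (nat_lit 94) (nat_lit 0) (nat_lit 0) (XT.lf (nat_lit 0) (nat_lit 3403843452) (nat_lit 420) (nat_lit 175824441) (nat_lit 504) (nat_lit 3233393410) (nat_lit 172) (nat_lit 5) (nat_lit 177) (nat_lit 5) (nat_lit 178) (nat_lit 5) (nat_lit 248) (nat_lit 243) (nat_lit 229)) (XT.lf (nat_lit 84) (nat_lit 3713093420) (nat_lit 0) (nat_lit 2074318029) (nat_lit 504) (nat_lit 1102242439) (nat_lit 173) (nat_lit 5) (nat_lit 172) (nat_lit 5) (nat_lit 178) (nat_lit 5) (nat_lit 249) (nat_lit 243) (nat_lit 228))) (XT.nd (nat_lit 94) (nat_lit 0) (nat_lit 84) (XT.lf (nat_lit 84) (nat_lit 745924397) (nat_lit 0) (nat_lit 413028128) (nat_lit 588) (nat_lit 5816036985)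 (nat_lit 167) (nat_lit 5) (nat_lit 166) (nat_lit 5) (nat_lit 173) (nat_lit 5) (nat_lit 250) (nat_lit 243) (nat_lit 227)) (XT.lf (nat_lit 0) (nat_lit 3443682352) (nat_lit 504) (nat_lit 2222352068) (nat_lit 84) (nat_lit 1400278133) (nat_lit 167) (nat_lit 5) (nat_lit 173) (nat_lit 5) (nat_lit 168) (nat_lit 5) (nat_lit 251) (nat_lit 243) (nat_lit 226)))) (XT.nd (nat_lit 188) (nat_lit 1260) (nat_lit 0) (XT.nd (nat_lit 94) (nat_lit 84) (nat_lit 0) (XT.lf (nat_lit 0) (nat_lit 1949336324) (nat_lit 504) (nat_lit 3808664047) (nat_lit 588) (nat_lit 1408433792) (nat_lit 161) (nat_lit 5) (nat_lit 167) (nat_lit 5) (nat_lit 168) (nat_lit 5) (nat_lit 252) (nat_lit 243) (nat_lit 225)) (XT.lf (nat_lit 0) (nat_lit 806018969) (nat_lit 588) (nat_lit 971301452) (nat_lit 84) (nat_lit 5497582028) (nat_lit 160) (nat_lit 5) (nat_lit 167) (nat_lit 5) (nat_lit 161) (nat_lit 5) (nat_lit 253) (nat_lit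 243) (nat_lit 224))) (XT.nd (nat_lit 94) (nat_lit 672) (nat_lit 0) (XT.lf (nat_lit 0) (nat_lit 3031810342) (nat_lit 672) (nat_lit 3911541966) (nat_lit 84) (nat_lit 446889958) (nat_lit 153) (nat_lit 5) (nat_lit 161) (nat_lit 5) (nat_lit 154) (nat_lit 5) (nat_lit 254) (nat_lit 243) (nat_lit 223)) (XT.lf (nat_lit 0) (nat_lit 569828404) (nat_lit 672) (nat_lit 4744516372) (nat_lit 756) (nat_lit 2199731624) (nat_lit 145) (nat_lit 5) (nat_lit 153) (nat_lit 5) (nat_lit 154) (nat_lit 5) (nat_lit 255) (nat_lit 243) (nat_lit 222))))) (XT.nd (nat_lit 376) (nat_lit 1512) (nat_lit 0) (XT.nd (nat_lit 188) (nat_lit 840) (nat_lit 0) (XT.nd (nat_lit 94) (nat_lit 756) (nat_lit 0) (XT.lf (nat_lit 0) (nat_lit 24833519) (nat_lit 756) (nat_lit 2327293898) (nat_lit 84) (nat_lit 5293919038) (nat_lit 144) (nat_lit 5) (nat_lit 153) (nat_lit 5) (nat_lit 145) (nat_lit 5) (nat_lit 256) (nat_lit 243)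 (nat_lit 221)) (XT.lf (nat_lit 0) (nat_lit 2227052040) (nat_lit 840) (nat_lit 5317192595) (nat_lit 84) (nat_lit 241549793) (nat_lit 135) (nat_lit 5) (nat_lit 145) (nat_lit 5) (nat_lit 136) (nat_lit 5) (nat_lit 257) (nat_lit 243) (nat_lit 220))) (XT.nd (nat_lit 94) (nat_lit 840) (nat_lit 0) (XT.lf (nat_lit 0) (nat_lit 4519462389) (nat_lit 840) (nat_lit 479182262) (nat_lit 84) (nat_lit 2934881102) (nat_lit 135) (nat_lit 5) (nat_lit 145) (nat_lit 5) (nat_lit 136) (nat_lit 5) (nat_lit 258) (nat_lit 243) (nat_lit 219)) (XT.lf (nat_lit 0) (nat_lit 4659865477) (nat_lit 840) (nat_lit 2245535109) (nat_lit 924) (nat_lit 1184297692) (nat_lit 125) (nat_lit 5) (nat_lit 135) (nat_lit 5) (nat_lit 136) (nat_lit 5) (nat_lit 259) (nat_lit 243) (nat_lit 218)))) (XT.nd (nat_lit 188) (nat_lit 924) (nat_lit 0) (XT.nd (nat_lit 94) (nat_lit 0) (nat_lit 0) (XT.lf (nat_lit 0) (nat_lit 1074465385)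 (nat_lit 588) (nat_lit 6500618147) (nat_lit 84) (nat_lit 679965784) (nat_lit 118) (nat_lit 5) (nat_lit 125) (nat_lit 5) (nat_lit 119) (nat_lit 5) (nat_lit 260) (nat_lit 243) (nat_lit 217)) (XT.lf (nat_lit 0) (nat_lit 3412940830) (nat_lit 588) (nat_lit 1260536575) (nat_lit 84) (nat_lit 3753891047) (nat_lit 118) (nat_lit 5) (nat_lit 125) (nat_lit 5) (nat_lit 119) (nat_lit 5) (nat_lit 261) (nat_lit 243) (nat_lit 216))) (XT.nd (nat_lit 94) (nat_lit 504) (nat_lit 0) (XT.lf (nat_lit 0) (nat_lit 4288740942) (nat_lit 420) (nat_lit 1561533821) (nat_lit 504) (nat_lit 2758932044) (nat_lit 113) (nat_lit 5) (nat_lit 118) (nat_lit 5) (nat_lit 119) (nat_lit 5) (nat_lit 262) (nat_lit 243) (nat_lit 215)) (XT.nd (nat_lit 94) (nat_lit 84) (nat_lit 0) (XT.lf (nat_lit 0) (nat_lit 1281566230) (nat_lit 420) (nat_lit 7113794144) (nat_lit 504) (nat_lit 405482458) (nat_lit 108) (nat_lit 5) (nat_lit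 113) (nat_lit 5) (nat_lit 114) (nat_lit 5) (nat_lit 263) (nat_lit 243) (nat_lit 214)) (XT.lf (nat_lit 0) (nat_lit 2018229403) (nat_lit 504) (nat_lit 1837589032) (nat_lit 84) (nat_lit 5143694543) (nat_lit 107) (nat_lit 5) (nat_lit 113) (nat_lit 5) (nat_lit 108) (nat_lit 5) (nat_lit 264) (nat_lit 243) (nat_lit 213))))))))
noncomputable def xc93 : XT := (XT.nd (nat_lit 1598) (nat_lit 2016) (nat_lit 0) (XT.nd (nat_lit 752) (nat_lit 1596) (nat_lit 0) (XT.nd (nat_lit 376) (nat_lit 1008) (nat_lit 0) (XT.nd (nat_lit 188) (nat_lit 420) (nat_lit 0) (XT.nd (nat_lit 94) (nat_lit 336) (nat_lit 0) (XT.lf (nat_lit 0) (nat_lit 4165490959) (nat_lit 336) (nat_lit 371649325) (nat_lit 420) (nat_lit 4671261969) (nat_lit 103) (nat_lit 5) (nat_lit 107) (nat_lit 5) (nat_lit 108) (nat_lit 5) (nat_lit 265) (nat_lit 243) (nat_lit 212)) (XT.lf (nat_lit 0) (nat_lit 994880481) (nat_lit 336) (nat_lit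 6210312269) (nat_lit 420) (nat_lit 2221383442) (nat_lit 99) (nat_lit 5) (nat_lit 103) (nat_lit 5) (nat_lit 104) (nat_lit 5) (nat_lit 266) (nat_lit 243) (nat_lit 211))) (XT.nd (nat_lit 94) (nat_lit 336) (nat_lit 0) (XT.lf (nat_lit 0) (nat_lit 358350764) (nat_lit 420) (nat_lit 2247180772) (nat_lit 84) (nat_lit 7048923515) (nat_lit 98) (nat_lit 5) (nat_lit 103) (nat_lit 5) (nat_lit 99) (nat_lit 5) (nat_lit 267) (nat_lit 243) (nat_lit 210)) (XT.lf (nat_lit 0) (nat_lit 3007972842) (nat_lit 420) (nat_lit 5653571399) (nat_lit 84) (nat_lit 1229585095) (nat_lit 94) (nat_lit 5) (nat_lit 99) (nat_lit 5) (nat_lit 95) (nat_lit 5) (nat_lit 268) (nat_lit 243) (nat_lit 209)))) (XT.nd (nat_lit 188) (nat_lit 672) (nat_lit 0) (XT.nd (nat_lit 94) (nat_lit 0) (nat_lit 0) (XT.lf (nat_lit 0) (nat_lit 881910528) (nat_lit 336) (nat_lit 4934303831) (nat_lit 420) (nat_lit 4322116060) (nat_lit 90)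 (nat_lit 5) (nat_lit 94) (nat_lit 5) (nat_lit 95) (nat_lit 5) (nat_lit 269) (nat_lit 243) (nat_lit 208)) (XT.lf (nat_lit 0) (nat_lit 7852099346) (nat_lit 336) (nat_lit 941396788) (nat_lit 420) (nat_lit 1602964013) (nat_lit 90) (nat_lit 5) (nat_lit 94) (nat_lit 5) (nat_lit 95) (nat_lit 5) (nat_lit 270) (nat_lit 243) (nat_lit 207))) (XT.nd (nat_lit 94) (nat_lit 336) (nat_lit 0) (XT.lf (nat_lit 0) (nat_lit 1269936432) (nat_lit 336) (nat_lit 6175266953) (nat_lit 84) (nat_lit 3218422138) (nat_lit 86) (nat_lit 5) (nat_lit 90) (nat_lit 5) (nat_lit 87) (nat_lit 5) (nat_lit 271) (nat_lit 243) (nat_lit 206)) (XT.lf (nat_lit 0) (nat_lit 918310895) (nat_lit 336) (nat_lit 3324327435) (nat_lit 420) (nat_lit 6699695606) (nat_lit 82) (nat_lit 5) (nat_lit 86) (nat_lit 5) (nat_lit 87) (nat_lit 5) (nat_lit 272) (nat_lit 243) (nat_lit 205))))) (XT.nd (nat_lit 376) (nat_lit 1008) (nat_lit 0)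 (XT.nd (nat_lit 188) (nat_lit 336) (nat_lit 0) (XT.nd (nat_lit 94) (nat_lit 252) (nat_lit 0) (XT.lf (nat_lit 0) (nat_lit 7423680893) (nat_lit 420) (nat_lit 2755171441) (nat_lit 84) (nat_lit 1053140156) (nat_lit 82) (nat_lit 5) (nat_lit 87) (nat_lit 5) (nat_lit 83) (nat_lit 5) (nat_lit 273) (nat_lit 243) (nat_lit 204)) (XT.lf (nat_lit 0) (nat_lit 4894505089) (nat_lit 252) (nat_lit 5940905291) (nat_lit 336) (nat_lit 697141854) (nat_lit 79) (nat_lit 5) (nat_lit 82) (nat_lit 5) (nat_lit 83) (nat_lit 5) (nat_lit 274) (nat_lit 243) (nat_lit 203))) (XT.nd (nat_lit 94) (nat_lit 0) (nat_lit 0) (XT.lf (nat_lit 0) (nat_lit 1085006501) (nat_lit 252) (nat_lit 1407996550) (nat_lit 336) (nat_lit 9352848015) (nat_lit 75) (nat_lit 5) (nat_lit 78) (nat_lit 5) (nat_lit 79) (nat_lit 5) (nat_lit 275) (nat_lit 243) (nat_lit 202)) (XT.lf (nat_lit 0) (nat_lit 5928176552) (nat_lit 336) (nat_lit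 2896537502) (nat_lit 84) (nat_lit 3344081866) (nat_lit 75) (nat_lit 5) (nat_lit 79) (nat_lit 5) (nat_lit 76) (nat_lit 5) (nat_lit 276) (nat_lit 243) (nat_lit 201)))) (XT.nd (nat_lit 188) (nat_lit 420) (nat_lit 0) (XT.nd (nat_lit 94) (nat_lit 336) (nat_lit 0) (XT.lf (nat_lit 0) (nat_lit 5429376249) (nat_lit 252) (nat_lit 4158688083) (nat_lit 336) (nat_lit 2917175903) (nat_lit 72) (nat_lit 5) (nat_lit 75) (nat_lit 5) (nat_lit 76) (nat_lit 5) (nat_lit 277) (nat_lit 243) (nat_lit 200)) (XT.lf (nat_lit 0) (nat_lit 583337141) (nat_lit 336) (nat_lit 11502313238) (nat_lit 84) (nat_lit 770948565) (nat_lit 68) (nat_lit 5) (nat_lit 72) (nat_lit 5) (nat_lit 69) (nat_lit 5) (nat_lit 278) (nat_lit 243) (nat_lit 199))) (XT.nd (nat_lit 94) (nat_lit 420) (nat_lit 0) (XT.lf (nat_lit 0) (nat_lit 4297268056) (nat_lit 336) (nat_lit 2969545642) (nat_lit 84) (nat_lit 5949499340) (nat_lit 68) (nat_lit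 5) (nat_lit 72) (nat_lit 5) (nat_lit 69) (nat_lit 5) (nat_lit 279) (nat_lit 243) (nat_lit 198)) (XT.nd (nat_lit 94) (nat_lit 252) (nat_lit 0) (XT.lf (nat_lit 0) (nat_lit 6105610997) (nat_lit 168) (nat_lit 2135615535) (nat_lit 252) (nat_lit 5350569755) (nat_lit 66) (nat_lit 5) (nat_lit 68) (nat_lit 5) (nat_lit 69) (nat_lit 5) (nat_lit 280) (nat_lit 243) (nat_lit 197)) (XT.lf (nat_lit 0) (nat_lit 1675690104) (nat_lit 252) (nat_lit 10784508706) (nat_lit 336) (nat_lit 1521964092) (nat_lit 63) (nat_lit 5) (nat_lit 66) (nat_lit 5) (nat_lit 67) (nat_lit 5) (nat_lit 281) (nat_lit 243) (nat_lit 196))))))) (XT.nd (nat_lit 752) (nat_lit 924) (nat_lit 0) (XT.nd (nat_lit 376) (nat_lit 588) (nat_lit 0) (XT.nd (nat_lit 188) (nat_lit 252) (nat_lit 0) (XT.nd (nat_lit 94) (nat_lit 168) (nat_lit 0) (XT.lf (nat_lit 0) (nat_lit 2532104301) (nat_lit 336) (nat_lit 2987013806) (nat_lit 84) (nat_lit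 8865280330) (nat_lit 62) (nat_lit 5) (nat_lit 66) (nat_lit 5) (nat_lit 63) (nat_lit 5) (nat_lit 282) (nat_lit 243) (nat_lit 195)) (XT.lf (nat_lit 0) (nat_lit 6800097211) (nat_lit 252) (nat_lit 7886387707) (nat_lit 84) (nat_lit 115894865) (nat_lit 60) (nat_lit 5) (nat_lit 63) (nat_lit 5) (nat_lit 61) (nat_lit 5) (nat_lit 283) (nat_lit 243) (nat_lit 194))) (XT.nd (nat_lit 94) (nat_lit 84) (nat_lit 0) (XT.lf (nat_lit 0) (nat_lit 2076726763) (nat_lit 168) (nat_lit 9332194554) (nat_lit 252) (nat_lit 3825967301) (nat_lit 58) (nat_lit 5) (nat_lit 60) (nat_lit 5) (nat_lit 61) (nat_lit 5) (nat_lit 284) (nat_lit 243) (nat_lit 193)) (XT.lf (nat_lit 0) (nat_lit 630420941) (nat_lit 252) (nat_lit 2959314352) (nat_lit 84) (nat_lit 12094393401) (nat_lit 57) (nat_lit 5) (nat_lit 60) (nat_lit 5) (nat_lit 58) (nat_lit 5) (nat_lit 285) (nat_lit 243) (nat_lit 192)))) (XT.nd (nat_lit 188) (nat_lit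 252) (nat_lit 0) (XT.nd (nat_lit 94) (nat_lit 168) (nat_lit 0) (XT.lf (nat_lit 0) (nat_lit 5300127886) (nat_lit 252) (nat_lit 8325118840) (nat_lit 84) (nat_lit 2521494164) (nat_lit 55) (nat_lit 5) (nat_lit 58) (nat_lit 5) (nat_lit 56) (nat_lit 5) (nat_lit 286) (nat_lit 243) (nat_lit 191)) (XT.lf (nat_lit 0) (nat_lit 2562049391) (nat_lit 168) (nat_lit 7747195313) (nat_lit 252) (nat_lit 6317942765) (nat_lit 53) (nat_lit 5) (nat_lit 55) (nat_lit 5) (nat_lit 56) (nat_lit 5) (nat_lit 287) (nat_lit 243) (nat_lit 190))) (XT.nd (nat_lit 94) (nat_lit 252) (nat_lit 0) (XT.lf (nat_lit 0) (nat_lit 14209158772) (nat_lit 168) (nat_lit 1457727151) (nat_lit 252) (nat_lit 1459867027) (nat_lit 53) (nat_lit 5) (nat_lit 55) (nat_lit 5) (nat_lit 56) (nat_lit 5) (nat_lit 288) (nat_lit 243) (nat_lit 189)) (XT.lf (nat_lit 0) (nat_lit 3705793818) (nat_lit 252) (nat_lit 8781185089) (nat_lit 84) (nat_lit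 5152414416) (nat_lit 50) (nat_lit 5) (nat_lit 53) (nat_lit 5) (nat_lit 51) (nat_lit 5) (nat_lit 289) (nat_lit 243) (nat_lit 188))))) (XT.nd (nat_lit 376) (nat_lit 420) (nat_lit 0) (XT.nd (nat_lit 188) (nat_lit 336) (nat_lit 0) (XT.nd (nat_lit 94) (nat_lit 0) (nat_lit 0) (XT.lf (nat_lit 0) (nat_lit 3128649728) (nat_lit 168) (nat_lit 6033866477) (nat_lit 252) (nat_lit 9009860918) (nat_lit 48) (nat_lit 5) (nat_lit 50) (nat_lit 5) (nat_lit 51) (nat_lit 5) (nat_lit 290) (nat_lit 243) (nat_lit 187)) (XT.lf (nat_lit 0) (nat_lit 15014066904) (nat_lit 252) (nat_lit 2871884290) (nat_lit 84) (nat_lit 839959308) (nat_lit 48) (nat_lit 5) (nat_lit 51) (nat_lit 5) (nat_lit 49) (nat_lit 4) (nat_lit 291) (nat_lit 243) (nat_lit 186))) (XT.nd (nat_lit 94) (nat_lit 168) (nat_lit 0) (XT.lf (nat_lit 0) (nat_lit 2012615122) (nat_lit 168) (nat_lit 9265699470) (nat_lit 84) (nat_lit 8016321612) (nat_lit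 46) (nat_lit 5) (nat_lit 48) (nat_lit 5) (nat_lit 47) (nat_lit 5) (nat_lit 292) (nat_lit 243) (nat_lit 185)) (XT.lf (nat_lit 0) (nat_lit 3775466346) (nat_lit 168) (nat_lit 4192834860) (nat_lit 252) (nat_lit 11916967154) (nat_lit 44) (nat_lit 5) (nat_lit 46) (nat_lit 5) (nat_lit 47) (nat_lit 5) (nat_lit 293) (nat_lit 243) (nat_lit 184)))) (XT.nd (nat_lit 188) (nat_lit 252) (nat_lit 0) (XT.nd (nat_lit 94) (nat_lit 168) (nat_lit 0) (XT.lf (nat_lit 0) (nat_lit 14393638701) (nat_lit 252) (nat_lit 2829655260) (nat_lit 84) (nat_lit 3273544807) (nat_lit 44) (nat_lit 5) (nat_lit 47) (nat_lit 5) (nat_lit 45) (nat_lit 4) (nat_lit 294) (nat_lit 243) (nat_lit 183)) (XT.lf (nat_lit 0) (nat_lit 213983500) (nat_lit 168) (nat_lit 9789047536) (nat_lit 84) (nat_lit 11125317266) (nat_lit 42) (nat_lit 5) (nat_lit 44) (nat_lit 5) (nat_lit 43) (nat_lit 5) (nat_lit 295) (nat_lit 243) (nat_lit 182)))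 (XT.nd (nat_lit 94) (nat_lit 84) (nat_lit 0) (XT.lf (nat_lit 0) (nat_lit 4503175307) (nat_lit 168) (nat_lit 2221403867) (nat_lit 252) (nat_lit 15057718491) (nat_lit 40) (nat_lit 5) (nat_lit 42) (nat_lit 5) (nat_lit 43) (nat_lit 5) (nat_lit 296) (nat_lit 243) (nat_lit 181)) (XT.nd (nat_lit 94) (nat_lit 84) (nat_lit 0) (XT.lf (nat_lit 0) (nat_lit 13785995231) (nat_lit 252) (nat_lit 2772677668) (nat_lit 84) (nat_lit 5899007069) (nat_lit 40) (nat_lit 5) (nat_lit 43) (nat_lit 5) (nat_lit 41) (nat_lit 4) (nat_lit 297) (nat_lit 243) (nat_lit 180)) (XT.lf (nat_lit 0) (nat_lit 12768209391) (nat_lit 84) (nat_lit 8633660763) (nat_lit 168) (nat_lit 1754891827) (nat_lit 39) (nat_lit 5) (nat_lit 40) (nat_lit 5) (nat_lit 41) (nat_lit 4) (nat_lit 298) (nat_lit 243) (nat_lit 179))))))))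
noncomputable def xc94 : XT := (XT.nd (nat_lit 1598) (nat_lit 1428) (nat_lit 0) (XT.nd (nat_lit 752) (nat_lit 756) (nat_lit 0) (XT.nd (nat_lit 376) (nat_lit 336) (nat_lit 0) (XT.nd (nat_lit 188) (nat_lit 336) (nat_lit 0) (XT.nd (nat_lit 94) (nat_lit 0) (nat_lit 0) (XT.lf (nat_lit 0) (nat_lit 5314032294) (nat_lit 168) (nat_lit 113858437) (nat_lit 252) (nat_lit 18453786196) (nat_lit 36) (nat_lit 5) (nat_lit 38) (nat_lit 5) (nat_lit 39) (nat_lit 5) (nat_lit 299) (nat_lit 243) (nat_lit 178)) (XT.lf (nat_lit 0) (nat_lit 13193499109) (nat_lit 252) (nat_lit 2704625239) (nat_lit 84) (nat_lit 8729141709) (nat_lit 36) (nat_lit 5) (nat_lit 39) (nat_lit 5) (nat_lit 37) (nat_lit 4) (nat_lit 300) (nat_lit 243) (nat_lit 177))) (XT.nd (nat_lit 94) (nat_lit 252) (nat_lit 0) (XT.lf (nat_lit 0) (nat_lit 14348487668) (nat_lit 84) (nat_lit 7192360179) (nat_lit 168) (nat_lit 3859613798) (nat_lit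 35) (nat_lit 5) (nat_lit 36) (nat_lit 5) (nat_lit 37) (nat_lit 4) (nat_lit 301) (nat_lit 243) (nat_lit 176)) (XT.lf (nat_lit 0) (nat_lit 4106828270) (nat_lit 252) (nat_lit 20025187939) (nat_lit 84) (nat_lit 2069875914) (nat_lit 32) (nat_lit 5) (nat_lit 35) (nat_lit 5) (nat_lit 33) (nat_lit 4) (nat_lit 302) (nat_lit 243) (nat_lit 175)))) (XT.nd (nat_lit 188) (nat_lit 252) (nat_lit 0) (XT.nd (nat_lit 94) (nat_lit 84) (nat_lit 0) (XT.lf (nat_lit 0) (nat_lit 12617873620) (nat_lit 252) (nat_lit 2628469934) (nat_lit 84) (nat_lit 11780087479) (nat_lit 32) (nat_lit 5) (nat_lit 35) (nat_lit 5) (nat_lit 33) (nat_lit 4) (nat_lit 303) (nat_lit 243) (nat_lit 174)) (XT.lf (nat_lit 0) (nat_lit 16095426813) (nat_lit 84) (nat_lit 5679713494) (nat_lit 168) (nat_lit 6106023127) (nat_lit 31) (nat_lit 5) (nat_lit 32) (nat_lit 5) (nat_lit 33) (nat_lit 4) (nat_lit 304) (nat_lit 243) (nat_lit 173)))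 (XT.nd (nat_lit 94) (nat_lit 0) (nat_lit 0) (XT.lf (nat_lit 0) (nat_lit 2726160548) (nat_lit 252) (nat_lit 21639753027) (nat_lit 84) (nat_lit 4400774561) (nat_lit 28) (nat_lit 5) (nat_lit 31) (nat_lit 5) (nat_lit 29) (nat_lit 4) (nat_lit 305) (nat_lit 243) (nat_lit 172)) (XT.lf (nat_lit 0) (nat_lit 12060326570) (nat_lit 252) (nat_lit 2546608774) (nat_lit 84) (nat_lit 15071270014) (nat_lit 28) (nat_lit 5) (nat_lit 31) (nat_lit 5) (nat_lit 29) (nat_lit 4) (nat_lit 306) (nat_lit 243) (nat_lit 171))))) (XT.nd (nat_lit 376) (nat_lit 420) (nat_lit 0) (XT.nd (nat_lit 188) (nat_lit 84) (nat_lit 0) (XT.nd (nat_lit 94) (nat_lit 168) (nat_lit 0) (XT.lf (nat_lit 0) (nat_lit 18022763913) (nat_lit 84) (nat_lit 4090866913) (nat_lit 168) (nat_lit 8509046117) (nat_lit 27) (nat_lit 5) (nat_lit 28) (nat_lit 5) (nat_lit 29) (nat_lit 4) (nat_lit 307) (nat_lit 243) (nat_lit 170)) (XT.lf (nat_lit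 0) (nat_lit 1277043507) (nat_lit 168) (nat_lit 23427946782) (nat_lit 84) (nat_lit 6895778605) (nat_lit 25) (nat_lit 5) (nat_lit 27) (nat_lit 5) (nat_lit 26) (nat_lit 4) (nat_lit 308) (nat_lit 243) (nat_lit 169))) (XT.nd (nat_lit 94) (nat_lit 84) (nat_lit 0) (XT.lf (nat_lit 0) (nat_lit 11521651674) (nat_lit 168) (nat_lit 2460968059) (nat_lit 84) (nat_lit 18625412392) (nat_lit 25) (nat_lit 5) (nat_lit 27) (nat_lit 5) (nat_lit 26) (nat_lit 4) (nat_lit 309) (nat_lit 243) (nat_lit 168)) (XT.lf (nat_lit 0) (nat_lit 20146357068) (nat_lit 84) (nat_lit 2419271099) (nat_lit 168) (nat_lit 11085673453) (nat_lit 24) (nat_lit 5) (nat_lit 25) (nat_lit 5) (nat_lit 26) (nat_lit 4) (nat_lit 310) (nat_lit 243) (nat_lit 167)))) (XT.nd (nat_lit 188) (nat_lit 252) (nat_lit 0) (XT.nd (nat_lit 94) (nat_lit 84) (nat_lit 0) (XT.lf (nat_lit 0) (nat_lit 9317671610) (nat_lit 84) (nat_lit 25156458646)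 (nat_lit 84) (nat_lit 256987995) (nat_lit 23) (nat_lit 4) (nat_lit 24) (nat_lit 5) (nat_lit 24) (nat_lit 4) (nat_lit 311) (nat_lit 243) (nat_lit 166)) (XT.lf (nat_lit 0) (nat_lit 11002311496) (nat_lit 168) (nat_lit 2373089006) (nat_lit 84) (nat_lit 22468606388) (nat_lit 22) (nat_lit 5) (nat_lit 24) (nat_lit 5) (nat_lit 23) (nat_lit 4) (nat_lit 312) (nat_lit 243) (nat_lit 165))) (XT.nd (nat_lit 94) (nat_lit 168) (nat_lit 0) (XT.lf (nat_lit 0) (nat_lit 22484270684) (nat_lit 84) (nat_lit 656756073) (nat_lit 168) (nat_lit 13855048193) (nat_lit 21) (nat_lit 5) (nat_lit 22) (nat_lit 5) (nat_lit 23) (nat_lit 4) (nat_lit 313) (nat_lit 243) (nat_lit 164)) (XT.nd (nat_lit 94) (nat_lit 84) (nat_lit 0) (XT.lf (nat_lit 0) (nat_lit 10551429572) (nat_lit 84) (nat_lit 25713211591) (nat_lit 84) (nat_lit 1922207081) (nat_lit 20) (nat_lit 4) (nat_lit 21) (nat_lit 5) (nat_lit 21) (nat_lit 4)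 (nat_lit 314) (nat_lit 243) (nat_lit 163)) (XT.lf (nat_lit 0) (nat_lit 10502505231) (nat_lit 168) (nat_lit 2284198097) (nat_lit 84) (nat_lit 26630439999) (nat_lit 19) (nat_lit 5) (nat_lit 21) (nat_lit 5) (nat_lit 20) (nat_lit 4) (nat_lit 315) (nat_lit 243) (nat_lit 162))))))) (XT.nd (nat_lit 752) (nat_lit 756) (nat_lit 0) (XT.nd (nat_lit 376) (nat_lit 336) (nat_lit 0) (XT.nd (nat_lit 188) (nat_lit 168) (nat_lit 0) (XT.nd (nat_lit 94) (nat_lit 84) (nat_lit 0) (XT.lf (nat_lit 0) (nat_lit 23869296962) (nat_lit 168) (nat_lit 15650989828) (nat_lit 0) (nat_lit 1167818665) (nat_lit 18) (nat_lit 5) (nat_lit 20) (nat_lit 4) (nat_lit 18) (nat_lit 4) (nat_lit 316) (nat_lit 243) (nat_lit 161)) (XT.lf (nat_lit 0) (nat_lit 11905694885) (nat_lit 84) (nat_lit 26409018785) (nat_lit 84) (nat_lit 3687387751) (nat_lit 17) (nat_lit 4) (nat_lit 18) (nat_lit 5) (nat_lit 18) (nat_lit 4) (nat_lit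 317) (nat_lit 243) (nat_lit 160))) (XT.nd (nat_lit 94) (nat_lit 84) (nat_lit 0) (XT.lf (nat_lit 0) (nat_lit 10022224029) (nat_lit 168) (nat_lit 2195264854) (nat_lit 84) (nat_lit 31144178243) (nat_lit 16) (nat_lit 5) (nat_lit 18) (nat_lit 5) (nat_lit 17) (nat_lit 4) (nat_lit 318) (nat_lit 243) (nat_lit 159)) (XT.lf (nat_lit 0) (nat_lit 24755132480) (nat_lit 168) (nat_lit 16928173305) (nat_lit 0) (nat_lit 3079796060) (nat_lit 15) (nat_lit 5) (nat_lit 17) (nat_lit 4) (nat_lit 15) (nat_lit 4) (nat_lit 319) (nat_lit 243) (nat_lit 158)))) (XT.nd (nat_lit 188) (nat_lit 168) (nat_lit 0) (XT.nd (nat_lit 94) (nat_lit 84) (nat_lit 0) (XT.lf (nat_lit 0) (nat_lit 13391805482) (nat_lit 84) (nat_lit 27256762433) (nat_lit 84) (nat_lit 5564846306) (nat_lit 14) (nat_lit 4) (nat_lit 15) (nat_lit 5) (nat_lit 15) (nat_lit 4) (nat_lit 320) (nat_lit 243) (nat_lit 157)) (XT.lf (nat_lit 0) (nat_lit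 9561296116) (nat_lit 168) (nat_lit 2107049283) (nat_lit 84) (nat_lit 36046995483) (nat_lit 13) (nat_lit 5) (nat_lit 15) (nat_lit 5) (nat_lit 14) (nat_lit 4) (nat_lit 321) (nat_lit 243) (nat_lit 156))) (XT.nd (nat_lit 94) (nat_lit 84) (nat_lit 0) (XT.lf (nat_lit 0) (nat_lit 25801053794) (nat_lit 168) (nat_lit 18346806960) (nat_lit 0) (nat_lit 5112725599) (nat_lit 12) (nat_lit 5) (nat_lit 14) (nat_lit 4) (nat_lit 12) (nat_lit 4) (nat_lit 322) (nat_lit 243) (nat_lit 155)) (XT.lf (nat_lit 0) (nat_lit 15022539773) (nat_lit 84) (nat_lit 28270261300) (nat_lit 84) (nat_lit 7568292940) (nat_lit 11) (nat_lit 4) (nat_lit 12) (nat_lit 5) (nat_lit 12) (nat_lit 4) (nat_lit 323) (nat_lit 243) (nat_lit 154))))) (XT.nd (nat_lit 376) (nat_lit 420) (nat_lit 0) (XT.nd (nat_lit 188) (nat_lit 168) (nat_lit 0) (XT.nd (nat_lit 94) (nat_lit 84) (nat_lit 0) (XT.lf (nat_lit 0) (nat_lit 9119423505)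 (nat_lit 168) (nat_lit 2020140807) (nat_lit 84) (nat_lit 41380258647) (nat_lit 10) (nat_lit 5) (nat_lit 12) (nat_lit 5) (nat_lit 11) (nat_lit 4) (nat_lit 324) (nat_lit 243) (nat_lit 153)) (XT.lf (nat_lit 0) (nat_lit 27021062908) (nat_lit 168) (nat_lit 19921780209) (nat_lit 0) (nat_lit 7280747645) (nat_lit 9) (nat_lit 5) (nat_lit 11) (nat_lit 4) (nat_lit 9) (nat_lit 4) (nat_lit 325) (nat_lit 243) (nat_lit 152))) (XT.nd (nat_lit 94) (nat_lit 84) (nat_lit 0) (XT.lf (nat_lit 0) (nat_lit 16812210255) (nat_lit 84) (nat_lit 29464464616) (nat_lit 84) (nat_lit 9712927556) (nat_lit 8) (nat_lit 4) (nat_lit 9) (nat_lit 5) (nat_lit 9) (nat_lit 4) (nat_lit 326) (nat_lit 243) (nat_lit 151)) (XT.lf (nat_lit 0) (nat_lit 8696211837) (nat_lit 168) (nat_lit 1934990219) (nat_lit 84) (nat_lit 47189861682) (nat_lit 7) (nat_lit 5) (nat_lit 9) (nat_lit 5) (nat_lit 8) (nat_lit 4) (nat_lit 327) (nat_lit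 243) (nat_lit 150)))) (XT.nd (nat_lit 188) (nat_lit 252) (nat_lit 0) (XT.nd (nat_lit 94) (nat_lit 84) (nat_lit 0) (XT.lf (nat_lit 0) (nat_lit 28430553381) (nat_lit 168) (nat_lit 21669331763) (nat_lit 0) (nat_lit 9599693393) (nat_lit 6) (nat_lit 5) (nat_lit 8) (nat_lit 4) (nat_lit 6) (nat_lit 4) (nat_lit 328) (nat_lit 243) (nat_lit 149)) (XT.lf (nat_lit 0) (nat_lit 18776776514) (nat_lit 84) (nat_lit 30855647086) (nat_lit 84) (nat_lit 12015554896) (nat_lit 5) (nat_lit 4) (nat_lit 6) (nat_lit 5) (nat_lit 6) (nat_lit 4) (nat_lit 329) (nat_lit 243) (nat_lit 148))) (XT.nd (nat_lit 94) (nat_lit 168) (nat_lit 0) (XT.lf (nat_lit 0) (nat_lit 8291194572) (nat_lit 168) (nat_lit 1851935888) (nat_lit 84) (nat_lit 53526612497) (nat_lit 4) (nat_lit 5) (nat_lit 6) (nat_lit 5) (nat_lit 5) (nat_lit 4) (nat_lit 330) (nat_lit 243) (nat_lit 147)) (XT.nd (nat_lit 94) (nat_lit 84) (nat_lit 0) (XT.lf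 (nat_lit 0) (nat_lit 30046483100) (nat_lit 168) (nat_lit 23607224416) (nat_lit 0) (nat_lit 12087189158) (nat_lit 3) (nat_lit 5) (nat_lit 5) (nat_lit 4) (nat_lit 3) (nat_lit 4) (nat_lit 331) (nat_lit 243) (nat_lit 146)) (XT.lf (nat_lit 0) (nat_lit 20933977877) (nat_lit 84) (nat_lit 32461608490) (nat_lit 84) (nat_lit 14494719194) (nat_lit 2) (nat_lit 4) (nat_lit 3) (nat_lit 5) (nat_lit 3) (nat_lit 4) (nat_lit 332) (nat_lit 243) (nat_lit 145))))))))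
noncomputable def xc95 : XT := (XT.nd (nat_lit 37600) (nat_lit 0) (nat_lit 7896) (XT.nd (nat_lit 752) (nat_lit 0) (nat_lit 0) (XT.nd (nat_lit 376) (nat_lit 0) (nat_lit 0) (XT.nd (nat_lit 188) (nat_lit 0) (nat_lit 0) (XT.nd (nat_lit 94) (nat_lit 84) (nat_lit 0) (XT.lf (nat_lit 0) (nat_lit 7903852552) (nat_lit 168) (nat_lit 1771225234) (nat_lit 84) (nat_lit 60446674474) (nat_lit 1) (nat_lit 5) (nat_lit 3) (nat_lit 5) (nat_lit 2) (nat_lit 4) (nat_lit 333) (nat_lit 243) (nat_lit 144)) (XT.lf (nat_lit 0) (nat_lit 106616863088) (nat_lit 0) (nat_lit 0) (nat_lit 0) (nat_lit 0) (nat_lit 0) (nat_lit 0) (nat_lit 1) (nat_lit 0) (nat_lit 1) (nat_lit 0) (nat_lit 334) (nat_lit 243) (nat_lit 143))) (XT.nd (nat_lit 94) (nat_lit 0) (nat_lit 0) (XT.lf (nat_lit 0) (nat_lit 111884633998) (nat_lit 0) (nat_lit 0) (nat_lit 0) (nat_lit 0) (nat_lit 0) (nat_lit 0) (nat_lit 1) (nat_lit 0) (nat_lit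 1) (nat_lit 0) (nat_lit 335) (nat_lit 243) (nat_lit 142)) (XT.lf (nat_lit 0) (nat_lit 117415837393) (nat_lit 0) (nat_lit 0) (nat_lit 0) (nat_lit 0) (nat_lit 0) (nat_lit 0) (nat_lit 1) (nat_lit 0) (nat_lit 1) (nat_lit 0) (nat_lit 336) (nat_lit 243) (nat_lit 141)))) (XT.nd (nat_lit 188) (nat_lit 0) (nat_lit 0) (XT.nd (nat_lit 94) (nat_lit 0) (nat_lit 0) (XT.lf (nat_lit 0) (nat_lit 123223642805) (nat_lit 0) (nat_lit 0) (nat_lit 0) (nat_lit 0) (nat_lit 0) (nat_lit 0) (nat_lit 1) (nat_lit 0) (nat_lit 1) (nat_lit 0) (nat_lit 337) (nat_lit 243) (nat_lit 140)) (XT.lf (nat_lit 0) (nat_lit 129321878341) (nat_lit 0) (nat_lit 0) (nat_lit 0) (nat_lit 0) (nat_lit 0) (nat_lit 0) (nat_lit 1) (nat_lit 0) (nat_lit 1) (nat_lit 0) (nat_lit 338) (nat_lit 243) (nat_lit 139))) (XT.nd (nat_lit 94) (nat_lit 0) (nat_lit 0) (XT.lf (nat_lit 0) (nat_lit 135725063611) (nat_lit 0) (nat_lit 0) (nat_lit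 0) (nat_lit 0) (nat_lit 0) (nat_lit 0) (nat_lit 1) (nat_lit 0) (nat_lit 1) (nat_lit 0) (nat_lit 339) (nat_lit 243) (nat_lit 138)) (XT.lf (nat_lit 0) (nat_lit 142448444293) (nat_lit 0) (nat_lit 0) (nat_lit 0) (nat_lit 0) (nat_lit 0) (nat_lit 0) (nat_lit 1) (nat_lit 0) (nat_lit 1) (nat_lit 0) (nat_lit 340) (nat_lit 243) (nat_lit 137))))) (XT.nd (nat_lit 36378) (nat_lit 0) (nat_lit 13944) (XT.nd (nat_lit 36190) (nat_lit 0) (nat_lit 14364) (XT.nd (nat_lit 36096) (nat_lit 0) (nat_lit 14784) (XT.lf (nat_lit 0) (nat_lit 149508028437) (nat_lit 0) (nat_lit 0) (nat_lit 0) (nat_lit 0) (nat_lit 0) (nat_lit 0) (nat_lit 1) (nat_lit 0) (nat_lit 1) (nat_lit 0) (nat_lit 341) (nat_lit 243) (nat_lit 136)) (XT.lf (nat_lit 0) (nat_lit 1398095558) (nat_lit 420) (nat_lit 957143204) (nat_lit 420) (nat_lit 957143204) (nat_lit 176) (nat_lit 3) (nat_lit 181) (nat_lit 3) (nat_lit 181) (nat_lit 5) (nat_lit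 244) (nat_lit 244) (nat_lit 232))) (XT.nd (nat_lit 94) (nat_lit 420) (nat_lit 0) (XT.lf (nat_lit 84) (nat_lit 1444322912) (nat_lit 0) (nat_lit 3733587715) (nat_lit 420) (nat_lit 1496881669) (nat_lit 177) (nat_lit 5) (nat_lit 176) (nat_lit 3) (nat_lit 181) (nat_lit 5) (nat_lit 245) (nat_lit 244) (nat_lit 231)) (XT.lf (nat_lit 0) (nat_lit 803689236) (nat_lit 420) (nat_lit 1788208663) (nat_lit 504) (nat_lit 4140544192) (nat_lit 171) (nat_lit 5) (nat_lit 176) (nat_lit 3) (nat_lit 177) (nat_lit 5) (nat_lit 246) (nat_lit 244) (nat_lit 230)))) (XT.nd (nat_lit 188) (nat_lit 420) (nat_lit 0) (XT.nd (nat_lit 94) (nat_lit 0) (nat_lit 84) (XT.lf (nat_lit 84) (nat_lit 1778113390) (nat_lit 0) (nat_lit 1275579134) (nat_lit 504) (nat_lit 3743819457) (nat_lit 172) (nat_lit 5) (nat_lit 171) (nat_lit 5) (nat_lit 177) (nat_lit 5) (nat_lit 247) (nat_lit 244) (nat_lit 229)) (XT.lf (nat_lit 0)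 (nat_lit 5312075433) (nat_lit 420) (nat_lit 1368558170) (nat_lit 504) (nat_lit 190407790) (nat_lit 172) (nat_lit 5) (nat_lit 177) (nat_lit 5) (nat_lit 178) (nat_lit 5) (nat_lit 248) (nat_lit 244) (nat_lit 228))) (XT.nd (nat_lit 94) (nat_lit 0) (nat_lit 0) (XT.lf (nat_lit 0) (nat_lit 639368727) (nat_lit 504) (nat_lit 4522902356) (nat_lit 588) (nat_lit 1789013956) (nat_lit 166) (nat_lit 5) (nat_lit 172) (nat_lit 5) (nat_lit 173) (nat_lit 5) (nat_lit 249) (nat_lit 244) (nat_lit 227)) (XT.nd (nat_lit 94) (nat_lit 0) (nat_lit 0) (XT.lf (nat_lit 0) (nat_lit 2791594567) (nat_lit 504) (nat_lit 683277842) (nat_lit 588) (nat_lit 3564572322) (nat_lit 166) (nat_lit 5) (nat_lit 172) (nat_lit 5) (nat_lit 173) (nat_lit 5) (nat_lit 250) (nat_lit 244) (nat_lit 226)) (XT.lf (nat_lit 84) (nat_lit 3374777185) (nat_lit 0) (nat_lit 1608209718) (nat_lit 588) (nat_lit 2152447745) (nat_lit 167)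 (nat_lit 5) (nat_lit 166) (nat_lit 5) (nat_lit 173) (nat_lit 5) (nat_lit 251) (nat_lit 244) (nat_lit 225))))))) (XT.nd (nat_lit 752) (nat_lit 2604) (nat_lit 0) (XT.nd (nat_lit 376) (nat_lit 2352) (nat_lit 0) (XT.nd (nat_lit 188) (nat_lit 588) (nat_lit 0) (XT.nd (nat_lit 94) (nat_lit 84) (nat_lit 0) (XT.lf (nat_lit 0) (nat_lit 342441659) (nat_lit 504) (nat_lit 6848056088) (nat_lit 588) (nat_lit 50398870) (nat_lit 161) (nat_lit 5) (nat_lit 167) (nat_lit 5) (nat_lit 168) (nat_lit 5) (nat_lit 252) (nat_lit 244) (nat_lit 224)) (XT.lf (nat_lit 0) (nat_lit 2065129882) (nat_lit 588) (nat_lit 2717280543) (nat_lit 84) (nat_lit 2568667262) (nat_lit 160) (nat_lit 5) (nat_lit 167) (nat_lit 5) (nat_lit 161) (nat_lit 5) (nat_lit 253) (nat_lit 244) (nat_lit 223))) (XT.nd (nat_lit 94) (nat_lit 0) (nat_lit 0) (XT.lf (nat_lit 0) (nat_lit 1639840624) (nat_lit 588) (nat_lit 2562227280) (nat_lit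 672) (nat_lit 3268792268) (nat_lit 153) (nat_lit 5) (nat_lit 160) (nat_lit 5) (nat_lit 161) (nat_lit 5) (nat_lit 254) (nat_lit 244) (nat_lit 222)) (XT.lf (nat_lit 0) (nat_lit 6225752070) (nat_lit 588) (nat_lit 161697109) (nat_lit 672) (nat_lit 1212102786) (nat_lit 153) (nat_lit 5) (nat_lit 160) (nat_lit 5) (nat_lit 161) (nat_lit 5) (nat_lit 255) (nat_lit 244) (nat_lit 221)))) (XT.nd (nat_lit 188) (nat_lit 840) (nat_lit 0) (XT.nd (nat_lit 94) (nat_lit 756) (nat_lit 0) (XT.lf (nat_lit 0) (nat_lit 905976408) (nat_lit 756) (nat_lit 4459800941) (nat_lit 84) (nat_lit 2368717470) (nat_lit 144) (nat_lit 5) (nat_lit 153) (nat_lit 5) (nat_lit 145) (nat_lit 5) (nat_lit 256) (nat_lit 244) (nat_lit 220)) (XT.lf (nat_lit 0) (nat_lit 226051004) (nat_lit 756) (nat_lit 2795714630) (nat_lit 840) (nat_lit 4856798621) (nat_lit 135) (nat_lit 5) (nat_lit 144) (nat_lit 5) (nat_lit 145) (nat_lit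 5) (nat_lit 257) (nat_lit 244) (nat_lit 219))) (XT.nd (nat_lit 94) (nat_lit 840) (nat_lit 0) (XT.lf (nat_lit 0) (nat_lit 5215858642) (nat_lit 756) (nat_lit 9030749) (nat_lit 840) (nat_lit 2805870521) (nat_lit 135) (nat_lit 5) (nat_lit 144) (nat_lit 5) (nat_lit 145) (nat_lit 5) (nat_lit 258) (nat_lit 244) (nat_lit 218)) (XT.lf (nat_lit 0) (nat_lit 2203864577) (nat_lit 840) (nat_lit 5324878246) (nat_lit 924) (nat_lit 662293851) (nat_lit 125) (nat_lit 5) (nat_lit 135) (nat_lit 5) (nat_lit 136) (nat_lit 5) (nat_lit 259) (nat_lit 244) (nat_lit 217))))) (XT.nd (nat_lit 376) (nat_lit 1596) (nat_lit 0) (XT.nd (nat_lit 188) (nat_lit 420) (nat_lit 0) (XT.nd (nat_lit 94) (nat_lit 504) (nat_lit 0) (XT.lf (nat_lit 0) (nat_lit 1498367137) (nat_lit 924) (nat_lit 898621935) (nat_lit 84) (nat_lit 5963060878) (nat_lit 124) (nat_lit 5) (nat_lit 135) (nat_lit 5) (nat_lit 125) (nat_lit 5) (nat_lit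 260) (nat_lit 244) (nat_lit 216)) (XT.lf (nat_lit 0) (nat_lit 3743211968) (nat_lit 588) (nat_lit 4055305031) (nat_lit 84) (nat_lit 738533618) (nat_lit 118) (nat_lit 5) (nat_lit 125) (nat_lit 5) (nat_lit 119) (nat_lit 5) (nat_lit 261) (nat_lit 244) (nat_lit 215))) (XT.nd (nat_lit 94) (nat_lit 0) (nat_lit 0) (XT.lf (nat_lit 0) (nat_lit 1358334668) (nat_lit 420) (nat_lit 4736959007) (nat_lit 504) (nat_lit 2627857908) (nat_lit 113) (nat_lit 5) (nat_lit 118) (nat_lit 5) (nat_lit 119) (nat_lit 5) (nat_lit 262) (nat_lit 244) (nat_lit 214)) (XT.lf (nat_lit 0) (nat_lit 7099045661) (nat_lit 420) (nat_lit 1456174841) (nat_lit 504) (nat_lit 363825045) (nat_lit 113) (nat_lit 5) (nat_lit 118) (nat_lit 5) (nat_lit 119) (nat_lit 5) (nat_lit 263) (nat_lit 244) (nat_lit 213)))) (XT.nd (nat_lit 188) (nat_lit 756) (nat_lit 0) (XT.nd (nat_lit 94) (nat_lit 336) (nat_lit 0) (XT.lf (nat_lit 0)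 (nat_lit 1968228976) (nat_lit 504) (nat_lit 5140030594) (nat_lit 84) (nat_lit 2013939831) (nat_lit 107) (nat_lit 5) (nat_lit 113) (nat_lit 5) (nat_lit 108) (nat_lit 5) (nat_lit 264) (nat_lit 244) (nat_lit 212)) (XT.lf (nat_lit 0) (nat_lit 710965504) (nat_lit 336) (nat_lit 3686283807) (nat_lit 420) (nat_lit 4938333893) (nat_lit 103) (nat_lit 5) (nat_lit 107) (nat_lit 5) (nat_lit 108) (nat_lit 5) (nat_lit 265) (nat_lit 244) (nat_lit 211))) (XT.nd (nat_lit 94) (nat_lit 756) (nat_lit 0) (XT.lf (nat_lit 0) (nat_lit 6949223536) (nat_lit 336) (nat_lit 14039379) (nat_lit 420) (nat_lit 2595596170) (nat_lit 103) (nat_lit 5) (nat_lit 107) (nat_lit 5) (nat_lit 108) (nat_lit 5) (nat_lit 266) (nat_lit 244) (nat_lit 210)) (XT.nd (nat_lit 94) (nat_lit 420) (nat_lit 0) (XT.lf (nat_lit 0) (nat_lit 3680953883) (nat_lit 336) (nat_lit 6025791409) (nat_lit 420) (nat_lit 84095064) (nat_lit 99)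 (nat_lit 5) (nat_lit 103) (nat_lit 5) (nat_lit 104) (nat_lit 5) (nat_lit 267) (nat_lit 244) (nat_lit 209)) (XT.lf (nat_lit 0) (nat_lit 227051896) (nat_lit 336) (nat_lit 2225519481) (nat_lit 420) (nat_lit 7580791273) (nat_lit 94) (nat_lit 5) (nat_lit 98) (nat_lit 5) (nat_lit 99) (nat_lit 5) (nat_lit 268) (nat_lit 244) (nat_lit 208))))))))
noncomputable def xc96 : XT := (XT.nd (nat_lit 1504) (nat_lit 2016) (nat_lit 0) (XT.nd (nat_lit 752) (nat_lit 1260) (nat_lit 0) (XT.nd (nat_lit 376) (nat_lit 924) (nat_lit 0) (XT.nd (nat_lit 188) (nat_lit 336) (nat_lit 0) (XT.nd (nat_lit 94) (nat_lit 336) (nat_lit 0) (XT.lf (nat_lit 0) (nat_lit 5180229667) (nat_lit 420) (nat_lit 3306025363) (nat_lit 84) (nat_lit 1798337864) (nat_lit 94) (nat_lit 5) (nat_lit 99) (nat_lit 5) (nat_lit 95) (nat_lit 5) (nat_lit 269) (nat_lit 244) (nat_lit 207)) (XT.lf (nat_lit 0) (nat_lit 3513807682) (nat_lit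 336) (nat_lit 4559199452) (nat_lit 420) (nat_lit 2473940703) (nat_lit 90) (nat_lit 5) (nat_lit 94) (nat_lit 5) (nat_lit 95) (nat_lit 5) (nat_lit 270) (nat_lit 244) (nat_lit 206))) (XT.nd (nat_lit 94) (nat_lit 252) (nat_lit 0) (XT.lf (nat_lit 0) (nat_lit 273816240) (nat_lit 420) (nat_lit 117804061) (nat_lit 84) (nat_lit 10430823841) (nat_lit 89) (nat_lit 5) (nat_lit 94) (nat_lit 5) (nat_lit 90) (nat_lit 5) (nat_lit 271) (nat_lit 244) (nat_lit 205)) (XT.lf (nat_lit 0) (nat_lit 3194616070) (nat_lit 336) (nat_lit 3914658082) (nat_lit 84) (nat_lit 3994473506) (nat_lit 86) (nat_lit 5) (nat_lit 90) (nat_lit 5) (nat_lit 87) (nat_lit 5) (nat_lit 272) (nat_lit 244) (nat_lit 204)))) (XT.nd (nat_lit 188) (nat_lit 588) (nat_lit 0) (XT.nd (nat_lit 94) (nat_lit 0) (nat_lit 0) (XT.lf (nat_lit 0) (nat_lit 3492157171) (nat_lit 336) (nat_lit 2774636221) (nat_lit 420) (nat_lit 5132056083) (nat_lit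 82) (nat_lit 5) (nat_lit 86) (nat_lit 5) (nat_lit 87) (nat_lit 5) (nat_lit 273) (nat_lit 244) (nat_lit 203)) (XT.lf (nat_lit 0) (nat_lit 9531246338) (nat_lit 420) (nat_lit 409735189) (nat_lit 84) (nat_lit 1765791518) (nat_lit 82) (nat_lit 5) (nat_lit 87) (nat_lit 5) (nat_lit 83) (nat_lit 5) (nat_lit 274) (nat_lit 244) (nat_lit 202))) (XT.nd (nat_lit 94) (nat_lit 252) (nat_lit 0) (XT.lf (nat_lit 0) (nat_lit 1011005572) (nat_lit 336) (nat_lit 4458520705) (nat_lit 84) (nat_lit 6554246196) (nat_lit 78) (nat_lit 5) (nat_lit 82) (nat_lit 5) (nat_lit 79) (nat_lit 5) (nat_lit 275) (nat_lit 244) (nat_lit 201)) (XT.lf (nat_lit 0) (nat_lit 3598934485) (nat_lit 252) (nat_lit 694812592) (nat_lit 336) (nat_lit 8060591850) (nat_lit 75) (nat_lit 5) (nat_lit 78) (nat_lit 5) (nat_lit 79) (nat_lit 5) (nat_lit 276) (nat_lit 244) (nat_lit 200))))) (XT.nd (nat_lit 376) (nat_lit 672) (nat_lit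 0) (XT.nd (nat_lit 188) (nat_lit 336) (nat_lit 0) (XT.nd (nat_lit 94) (nat_lit 252) (nat_lit 0) (XT.lf (nat_lit 0) (nat_lit 7832516629) (nat_lit 336) (nat_lit 630651603) (nat_lit 84) (nat_lit 4233670921) (nat_lit 75) (nat_lit 5) (nat_lit 79) (nat_lit 5) (nat_lit 76) (nat_lit 5) (nat_lit 277) (nat_lit 244) (nat_lit 199)) (XT.lf (nat_lit 0) (nat_lit 8072675371) (nat_lit 252) (nat_lit 3563186190) (nat_lit 336) (nat_lit 1416220985) (nat_lit 72) (nat_lit 5) (nat_lit 75) (nat_lit 5) (nat_lit 76) (nat_lit 5) (nat_lit 278) (nat_lit 244) (nat_lit 198))) (XT.nd (nat_lit 94) (nat_lit 0) (nat_lit 0) (XT.lf (nat_lit 0) (nat_lit 2180901441) (nat_lit 336) (nat_lit 9627182320) (nat_lit 84) (nat_lit 1612925258) (nat_lit 68) (nat_lit 5) (nat_lit 72) (nat_lit 5) (nat_lit 69) (nat_lit 5) (nat_lit 279) (nat_lit 244) (nat_lit 197)) (XT.lf (nat_lit 0) (nat_lit 6005843309) (nat_lit 336) (nat_lit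 784454752) (nat_lit 84) (nat_lit 7012145036) (nat_lit 68) (nat_lit 5) (nat_lit 72) (nat_lit 5) (nat_lit 69) (nat_lit 5) (nat_lit 280) (nat_lit 244) (nat_lit 196)))) (XT.nd (nat_lit 188) (nat_lit 252) (nat_lit 0) (XT.nd (nat_lit 94) (nat_lit 252) (nat_lit 0) (XT.lf (nat_lit 0) (nat_lit 8706821522) (nat_lit 168) (nat_lit 1404894952) (nat_lit 252) (nat_lit 4086748196) (nat_lit 66) (nat_lit 5) (nat_lit 68) (nat_lit 5) (nat_lit 69) (nat_lit 5) (nat_lit 281) (nat_lit 244) (nat_lit 195)) (XT.lf (nat_lit 0) (nat_lit 4077253891) (nat_lit 252) (nat_lit 10443574613) (nat_lit 336) (nat_lit 88561556) (nat_lit 63) (nat_lit 5) (nat_lit 66) (nat_lit 5) (nat_lit 67) (nat_lit 5) (nat_lit 282) (nat_lit 244) (nat_lit 194))) (XT.nd (nat_lit 94) (nat_lit 168) (nat_lit 0) (XT.lf (nat_lit 0) (nat_lit 4050316459) (nat_lit 336) (nat_lit 882942847) (nat_lit 84) (nat_lit 10100778705) (nat_lit 62) (nat_lit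 5) (nat_lit 66) (nat_lit 5) (nat_lit 63) (nat_lit 5) (nat_lit 283) (nat_lit 244) (nat_lit 193)) (XT.lf (nat_lit 0) (nat_lit 8513438856) (nat_lit 252) (nat_lit 6009015285) (nat_lit 84) (nat_lit 951377791) (nat_lit 60) (nat_lit 5) (nat_lit 63) (nat_lit 5) (nat_lit 61) (nat_lit 5) (nat_lit 284) (nat_lit 244) (nat_lit 192)))))) (XT.nd (nat_lit 752) (nat_lit 1008) (nat_lit 0) (XT.nd (nat_lit 376) (nat_lit 420) (nat_lit 0) (XT.nd (nat_lit 188) (nat_lit 336) (nat_lit 0) (XT.nd (nat_lit 94) (nat_lit 84) (nat_lit 0) (XT.lf (nat_lit 0) (nat_lit 4415614719) (nat_lit 168) (nat_lit 8906587880) (nat_lit 252) (nat_lit 2607288690) (nat_lit 58) (nat_lit 5) (nat_lit 60) (nat_lit 5) (nat_lit 61) (nat_lit 5) (nat_lit 285) (nat_lit 244) (nat_lit 191)) (XT.lf (nat_lit 0) (nat_lit 1961798090) (nat_lit 252) (nat_lit 935680368) (nat_lit 84) (nat_lit 13505863865) (nat_lit 57) (nat_lit 5) (nat_lit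 60) (nat_lit 5) (nat_lit 58) (nat_lit 5) (nat_lit 286) (nat_lit 244) (nat_lit 190))) (XT.nd (nat_lit 94) (nat_lit 168) (nat_lit 0) (XT.lf (nat_lit 0) (nat_lit 6849959478) (nat_lit 252) (nat_lit 6554744177) (nat_lit 84) (nat_lit 3485133019) (nat_lit 55) (nat_lit 5) (nat_lit 58) (nat_lit 5) (nat_lit 56) (nat_lit 5) (nat_lit 287) (nat_lit 244) (nat_lit 189)) (XT.lf (nat_lit 0) (nat_lit 4841514230) (nat_lit 168) (nat_lit 7240424551) (nat_lit 252) (nat_lit 5313746470) (nat_lit 53) (nat_lit 5) (nat_lit 55) (nat_lit 5) (nat_lit 56) (nat_lit 5) (nat_lit 288) (nat_lit 244) (nat_lit 188)))) (XT.nd (nat_lit 188) (nat_lit 168) (nat_lit 0) (XT.nd (nat_lit 94) (nat_lit 252) (nat_lit 0) (XT.lf (nat_lit 0) (nat_lit 16968533253) (nat_lit 168) (nat_lit 679060624) (nat_lit 252) (nat_lit 275628538) (nat_lit 53) (nat_lit 5) (nat_lit 55) (nat_lit 5) (nat_lit 56) (nat_lit 5) (nat_lit 289) (nat_lit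 244) (nat_lit 187)) (XT.lf (nat_lit 0) (nat_lit 5095710118) (nat_lit 252) (nat_lit 7118722569) (nat_lit 84) (nat_lit 6246698973) (nat_lit 50) (nat_lit 5) (nat_lit 53) (nat_lit 5) (nat_lit 51) (nat_lit 5) (nat_lit 290) (nat_lit 244) (nat_lit 186))) (XT.nd (nat_lit 94) (nat_lit 0) (nat_lit 0) (XT.lf (nat_lit 0) (nat_lit 5352708477) (nat_lit 168) (nat_lit 5447478416) (nat_lit 252) (nat_lit 8221831843) (nat_lit 48) (nat_lit 5) (nat_lit 50) (nat_lit 5) (nat_lit 51) (nat_lit 5) (nat_lit 291) (nat_lit 244) (nat_lit 185)) (XT.lf (nat_lit 0) (nat_lit 16901351503) (nat_lit 252) (nat_lit 1003347012) (nat_lit 84) (nat_lit 1700678449) (nat_lit 48) (nat_lit 5) (nat_lit 51) (nat_lit 5) (nat_lit 49) (nat_lit 4) (nat_lit 292) (nat_lit 244) (nat_lit 184))))) (XT.nd (nat_lit 376) (nat_lit 504) (nat_lit 0) (XT.nd (nat_lit 188) (nat_lit 168) (nat_lit 0) (XT.nd (nat_lit 94) (nat_lit 168) (nat_lit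 0) (XT.lf (nat_lit 0) (nat_lit 3244864446) (nat_lit 168) (nat_lit 7711890264) (nat_lit 84) (nat_lit 9246032375) (nat_lit 46) (nat_lit 5) (nat_lit 48) (nat_lit 5) (nat_lit 47) (nat_lit 5) (nat_lit 293) (nat_lit 244) (nat_lit 183)) (XT.lf (nat_lit 0) (nat_lit 5948800065) (nat_lit 168) (nat_lit 3526632720) (nat_lit 252) (nat_lit 11348663167) (nat_lit 44) (nat_lit 5) (nat_lit 46) (nat_lit 5) (nat_lit 47) (nat_lit 5) (nat_lit 294) (nat_lit 244) (nat_lit 182))) (XT.nd (nat_lit 94) (nat_lit 168) (nat_lit 0) (XT.lf (nat_lit 0) (nat_lit 16182264347) (nat_lit 252) (nat_lit 1041307689) (nat_lit 84) (nat_lit 4244661485) (nat_lit 44) (nat_lit 5) (nat_lit 47) (nat_lit 5) (nat_lit 45) (nat_lit 4) (nat_lit 295) (nat_lit 244) (nat_lit 181)) (XT.lf (nat_lit 0) (nat_lit 1289543570) (nat_lit 168) (nat_lit 8344586765) (nat_lit 84) (nat_lit 12497392337) (nat_lit 42) (nat_lit 5) (nat_lit 44) (nat_lit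 5) (nat_lit 43) (nat_lit 5) (nat_lit 296) (nat_lit 244) (nat_lit 180)))) (XT.nd (nat_lit 188) (nat_lit 336) (nat_lit 0) (XT.nd (nat_lit 94) (nat_lit 0) (nat_lit 0) (XT.lf (nat_lit 0) (nat_lit 6631055073) (nat_lit 168) (nat_lit 1473613102) (nat_lit 252) (nat_lit 14714551372) (nat_lit 40) (nat_lit 5) (nat_lit 42) (nat_lit 5) (nat_lit 43) (nat_lit 5) (nat_lit 297) (nat_lit 244) (nat_lit 179)) (XT.lf (nat_lit 0) (nat_lit 15482218105) (nat_lit 252) (nat_lit 1062259383) (nat_lit 84) (nat_lit 6985740322) (nat_lit 40) (nat_lit 5) (nat_lit 43) (nat_lit 5) (nat_lit 41) (nat_lit 4) (nat_lit 298) (nat_lit 244) (nat_lit 178))) (XT.nd (nat_lit 94) (nat_lit 252) (nat_lit 0) (XT.lf (nat_lit 0) (nat_lit 15225848606) (nat_lit 84) (nat_lit 8233492708) (nat_lit 168) (nat_lit 805889884) (nat_lit 39) (nat_lit 5) (nat_lit 40) (nat_lit 5) (nat_lit 41) (nat_lit 4) (nat_lit 299) (nat_lit 244) (nat_lit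 177)) (XT.nd (nat_lit 94) (nat_lit 0) (nat_lit 0) (XT.lf (nat_lit 0) (nat_lit 6694737256) (nat_lit 252) (nat_lit 17635503573) (nat_lit 84) (nat_lit 695747345) (nat_lit 36) (nat_lit 5) (nat_lit 39) (nat_lit 5) (nat_lit 37) (nat_lit 4) (nat_lit 300) (nat_lit 244) (nat_lit 176)) (XT.lf (nat_lit 0) (nat_lit 14803001226) (nat_lit 252) (nat_lit 1069707205) (nat_lit 84) (nat_lit 9938429571) (nat_lit 36) (nat_lit 5) (nat_lit 39) (nat_lit 5) (nat_lit 37) (nat_lit 4) (nat_lit 301) (nat_lit 244) (nat_lit 175))))))))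
noncomputable def xc97 : XT := (XT.nd (nat_lit 1598) (nat_lit 1428) (nat_lit 0) (XT.nd (nat_lit 752) (nat_lit 672) (nat_lit 0) (XT.nd (nat_lit 376) (nat_lit 504) (nat_lit 0) (XT.nd (nat_lit 188) (nat_lit 84) (nat_lit 0) (XT.nd (nat_lit 94) (nat_lit 252) (nat_lit 0) (XT.lf (nat_lit 0) (nat_lit 16807510552) (nat_lit 84) (nat_lit 6742168218) (nat_lit 168) (nat_lit 3074216531) (nat_lit 35) (nat_lit 5) (nat_lit 36) (nat_lit 5) (nat_lit 37) (nat_lit 4) (nat_lit 302) (nat_lit 244) (nat_lit 174)) (XT.lf (nat_lit 0) (nat_lit 5254095123) (nat_lit 252) (nat_lit 19248396318) (nat_lit 84) (nat_lit 2962399017) (nat_lit 32) (nat_lit 5) (nat_lit 35) (nat_lit 5) (nat_lit 33) (nat_lit 4) (nat_lit 303) (nat_lit 244) (nat_lit 173))) (XT.nd (nat_lit 94) (nat_lit 84) (nat_lit 0) (XT.lf (nat_lit 0) (nat_lit 14145839148) (nat_lit 252) (nat_lit 1066511509) (nat_lit 84) (nat_lit 13120548336) (nat_lit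 32) (nat_lit 5) (nat_lit 35) (nat_lit 5) (nat_lit 33) (nat_lit 4) (nat_lit 304) (nat_lit 244) (nat_lit 172)) (XT.lf (nat_lit 0) (nat_lit 18566267464) (nat_lit 84) (nat_lit 5177996010) (nat_lit 168) (nat_lit 5486939825) (nat_lit 31) (nat_lit 5) (nat_lit 32) (nat_lit 5) (nat_lit 33) (nat_lit 4) (nat_lit 305) (nat_lit 244) (nat_lit 171)))) (XT.nd (nat_lit 188) (nat_lit 252) (nat_lit 0) (XT.nd (nat_lit 94) (nat_lit 0) (nat_lit 0) (XT.lf (nat_lit 0) (nat_lit 3753039656) (nat_lit 252) (nat_lit 21021857991) (nat_lit 84) (nat_lit 5385596343) (nat_lit 28) (nat_lit 5) (nat_lit 31) (nat_lit 5) (nat_lit 29) (nat_lit 4) (nat_lit 306) (nat_lit 244) (nat_lit 170)) (XT.lf (nat_lit 0) (nat_lit 13511505832) (nat_lit 252) (nat_lit 1055003319) (nat_lit 84) (nat_lit 16553198328) (nat_lit 28) (nat_lit 5) (nat_lit 31) (nat_lit 5) (nat_lit 29) (nat_lit 4) (nat_lit 307) (nat_lit 244) (nat_lit 169)))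 (XT.nd (nat_lit 94) (nat_lit 168) (nat_lit 0) (XT.lf (nat_lit 0) (nat_lit 20516726133) (nat_lit 84) (nat_lit 3535228904) (nat_lit 168) (nat_lit 8060223620) (nat_lit 27) (nat_lit 5) (nat_lit 28) (nat_lit 5) (nat_lit 29) (nat_lit 4) (nat_lit 308) (nat_lit 244) (nat_lit 168)) (XT.lf (nat_lit 0) (nat_lit 2183710420) (nat_lit 168) (nat_lit 22975060031) (nat_lit 84) (nat_lit 7979896151) (nat_lit 25) (nat_lit 5) (nat_lit 27) (nat_lit 5) (nat_lit 26) (nat_lit 4) (nat_lit 309) (nat_lit 244) (nat_lit 167))))) (XT.nd (nat_lit 376) (nat_lit 420) (nat_lit 0) (XT.nd (nat_lit 188) (nat_lit 168) (nat_lit 0) (XT.nd (nat_lit 94) (nat_lit 84) (nat_lit 0) (XT.lf (nat_lit 0) (nat_lit 12900414960) (nat_lit 168) (nat_lit 1037079233) (nat_lit 84) (nat_lit 20260805503) (nat_lit 25) (nat_lit 5) (nat_lit 27) (nat_lit 5) (nat_lit 26) (nat_lit 4) (nat_lit 310) (nat_lit 244) (nat_lit 166)) (XT.lf (nat_lit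 0) (nat_lit 22675661550) (nat_lit 84) (nat_lit 1806468313) (nat_lit 168) (nat_lit 10812325823) (nat_lit 24) (nat_lit 5) (nat_lit 25) (nat_lit 5) (nat_lit 26) (nat_lit 4) (nat_lit 311) (nat_lit 244) (nat_lit 165))) (XT.nd (nat_lit 94) (nat_lit 0) (nat_lit 0) (XT.lf (nat_lit 0) (nat_lit 537079813) (nat_lit 168) (nat_lit 25128568853) (nat_lit 84) (nat_lit 10762322108) (nat_lit 22) (nat_lit 5) (nat_lit 24) (nat_lit 5) (nat_lit 23) (nat_lit 4) (nat_lit 312) (nat_lit 244) (nat_lit 164)) (XT.lf (nat_lit 0) (nat_lit 12312694431) (nat_lit 168) (nat_lit 1014279453) (nat_lit 84) (nat_lit 24271219983) (nat_lit 22) (nat_lit 5) (nat_lit 24) (nat_lit 5) (nat_lit 23) (nat_lit 4) (nat_lit 313) (nat_lit 244) (nat_lit 163)))) (XT.nd (nat_lit 188) (nat_lit 252) (nat_lit 0) (XT.nd (nat_lit 94) (nat_lit 84) (nat_lit 0) (XT.lf (nat_lit 0) (nat_lit 25045107345) (nat_lit 168) (nat_lit 13746692367)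 (nat_lit 0) (nat_lit 16727522) (nat_lit 21) (nat_lit 5) (nat_lit 23) (nat_lit 4) (nat_lit 21) (nat_lit 4) (nat_lit 314) (nat_lit 244) (nat_lit 162)) (XT.lf (nat_lit 0) (nat_lit 12535066741) (nat_lit 84) (nat_lit 26287249978) (nat_lit 84) (nat_lit 1236651763) (nat_lit 20) (nat_lit 4) (nat_lit 21) (nat_lit 5) (nat_lit 21) (nat_lit 4) (nat_lit 315) (nat_lit 244) (nat_lit 161))) (XT.nd (nat_lit 94) (nat_lit 168) (nat_lit 0) (XT.lf (nat_lit 0) (nat_lit 11748247149) (nat_lit 168) (nat_lit 987851932) (nat_lit 84) (nat_lit 28615870580) (nat_lit 19) (nat_lit 5) (nat_lit 21) (nat_lit 5) (nat_lit 20) (nat_lit 4) (nat_lit 316) (nat_lit 244) (nat_lit 160)) (XT.nd (nat_lit 94) (nat_lit 84) (nat_lit 0) (XT.lf (nat_lit 0) (nat_lit 25781345062) (nat_lit 168) (nat_lit 15020949845) (nat_lit 0) (nat_lit 1884286658) (nat_lit 18) (nat_lit 5) (nat_lit 20) (nat_lit 4) (nat_lit 18) (nat_lit 4) (nat_lit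 317) (nat_lit 244) (nat_lit 159)) (XT.lf (nat_lit 0) (nat_lit 13890785403) (nat_lit 84) (nat_lit 27045727715) (nat_lit 84) (nat_lit 3130390185) (nat_lit 17) (nat_lit 4) (nat_lit 18) (nat_lit 5) (nat_lit 18) (nat_lit 4) (nat_lit 318) (nat_lit 244) (nat_lit 158))))))) (XT.nd (nat_lit 752) (nat_lit 756) (nat_lit 0) (XT.nd (nat_lit 376) (nat_lit 336) (nat_lit 0) (XT.nd (nat_lit 188) (nat_lit 168) (nat_lit 0) (XT.nd (nat_lit 94) (nat_lit 84) (nat_lit 0) (XT.lf (nat_lit 0) (nat_lit 11206800546) (nat_lit 168) (nat_lit 958805101) (nat_lit 84) (nat_lit 33329971571) (nat_lit 16) (nat_lit 5) (nat_lit 18) (nat_lit 5) (nat_lit 17) (nat_lit 4) (nat_lit 319) (nat_lit 244) (nat_lit 157)) (XT.lf (nat_lit 0) (nat_lit 26674681532) (nat_lit 168) (nat_lit 16426686087) (nat_lit 0) (nat_lit 3865799697) (nat_lit 15) (nat_lit 5) (nat_lit 17) (nat_lit 4) (nat_lit 15) (nat_lit 4) (nat_lit 320) (nat_lit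 244) (nat_lit 156))) (XT.nd (nat_lit 94) (nat_lit 84) (nat_lit 0) (XT.lf (nat_lit 0) (nat_lit 15387551383) (nat_lit 84) (nat_lit 27963476055) (nat_lit 84) (nat_lit 5139555938) (nat_lit 14) (nat_lit 4) (nat_lit 15) (nat_lit 5) (nat_lit 15) (nat_lit 4) (nat_lit 321) (nat_lit 244) (nat_lit 155)) (XT.lf (nat_lit 0) (nat_lit 10687946869) (nat_lit 168) (nat_lit 927951207) (nat_lit 84) (nat_lit 38452780552) (nat_lit 13) (nat_lit 5) (nat_lit 15) (nat_lit 5) (nat_lit 14) (nat_lit 4) (nat_lit 322) (nat_lit 244) (nat_lit 154)))) (XT.nd (nat_lit 188) (nat_lit 168) (nat_lit 0) (XT.nd (nat_lit 94) (nat_lit 84) (nat_lit 0) (XT.lf (nat_lit 0) (nat_lit 27738316142) (nat_lit 168) (nat_lit 17978320481) (nat_lit 0) (nat_lit 5974618565) (nat_lit 12) (nat_lit 5) (nat_lit 14) (nat_lit 4) (nat_lit 12) (nat_lit 4) (nat_lit 323) (nat_lit 244) (nat_lit 153)) (XT.lf (nat_lit 0) (nat_lit 17038754447)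 (nat_lit 84) (nat_lit 29054828395) (nat_lit 84) (nat_lit 7278758786) (nat_lit 11) (nat_lit 4) (nat_lit 12) (nat_lit 5) (nat_lit 12) (nat_lit 4) (nat_lit 324) (nat_lit 244) (nat_lit 152))) (XT.nd (nat_lit 94) (nat_lit 84) (nat_lit 0) (XT.lf (nat_lit 0) (nat_lit 10191175888) (nat_lit 168) (nat_lit 895941924) (nat_lit 84) (nat_lit 44027907234) (nat_lit 10) (nat_lit 5) (nat_lit 12) (nat_lit 5) (nat_lit 11) (nat_lit 4) (nat_lit 325) (nat_lit 244) (nat_lit 151)) (XT.lf (nat_lit 0) (nat_lit 28986764985) (nat_lit 168) (nat_lit 19691531021) (nat_lit 0) (nat_lit 8225741848) (nat_lit 9) (nat_lit 5) (nat_lit 11) (nat_lit 4) (nat_lit 9) (nat_lit 4) (nat_lit 326) (nat_lit 244) (nat_lit 150))))) (XT.nd (nat_lit 376) (nat_lit 420) (nat_lit 0) (XT.nd (nat_lit 188) (nat_lit 168) (nat_lit 0) (XT.nd (nat_lit 94) (nat_lit 84) (nat_lit 0) (XT.lf (nat_lit 0) (nat_lit 18859379317) (nat_lit 84)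 (nat_lit 30335346992) (nat_lit 84) (nat_lit 9564145354) (nat_lit 8) (nat_lit 4) (nat_lit 9) (nat_lit 5) (nat_lit 9) (nat_lit 4) (nat_lit 327) (nat_lit 244) (nat_lit 149)) (XT.lf (nat_lit 0) (nat_lit 9715901384) (nat_lit 168) (nat_lit 863297610) (nat_lit 84) (nat_lit 50103673984) (nat_lit 7) (nat_lit 5) (nat_lit 9) (nat_lit 5) (nat_lit 8) (nat_lit 4) (nat_lit 328) (nat_lit 244) (nat_lit 148))) (XT.nd (nat_lit 94) (nat_lit 84) (nat_lit 0) (XT.lf (nat_lit 0) (nat_lit 30436028480) (nat_lit 168) (nat_lit 21583424705) (nat_lit 0) (nat_lit 10635906908) (nat_lit 6) (nat_lit 5) (nat_lit 8) (nat_lit 4) (nat_lit 6) (nat_lit 4) (nat_lit 329) (nat_lit 244) (nat_lit 147)) (XT.lf (nat_lit 0) (nat_lit 20866128121) (nat_lit 84) (nat_lit 31822019796) (nat_lit 84) (nat_lit 12013524347) (nat_lit 5) (nat_lit 4) (nat_lit 6) (nat_lit 5) (nat_lit 6) (nat_lit 4) (nat_lit 330) (nat_lit 244) (nat_lit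 146)))) (XT.nd (nat_lit 188) (nat_lit 252) (nat_lit 0) (XT.nd (nat_lit 94) (nat_lit 84) (nat_lit 0) (XT.lf (nat_lit 0) (nat_lit 9261482552) (nat_lit 168) (nat_lit 830431338) (nat_lit 84) (nat_lit 56733529802) (nat_lit 4) (nat_lit 5) (nat_lit 6) (nat_lit 5) (nat_lit 5) (nat_lit 4) (nat_lit 331) (nat_lit 244) (nat_lit 145)) (XT.lf (nat_lit 0) (nat_lit 32103769138) (nat_lit 168) (nat_lit 23672717924) (nat_lit 0) (nat_lit 13223706351) (nat_lit 3) (nat_lit 5) (nat_lit 5) (nat_lit 4) (nat_lit 3) (nat_lit 4) (nat_lit 332) (nat_lit 244) (nat_lit 144))) (XT.nd (nat_lit 94) (nat_lit 168) (nat_lit 0) (XT.lf (nat_lit 0) (nat_lit 23077562747) (nat_lit 84) (nat_lit 33533463530) (nat_lit 84) (nat_lit 14646511533) (nat_lit 2) (nat_lit 4) (nat_lit 3) (nat_lit 5) (nat_lit 3) (nat_lit 4) (nat_lit 333) (nat_lit 244) (nat_lit 143)) (XT.nd (nat_lit 94) (nat_lit 84) (nat_lit 0) (XT.lf (nat_lit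 0) (nat_lit 8827241224) (nat_lit 168) (nat_lit 797668639) (nat_lit 84) (nat_lit 63976520208) (nat_lit 1) (nat_lit 5) (nat_lit 3) (nat_lit 5) (nat_lit 2) (nat_lit 4) (nat_lit 334) (nat_lit 244) (nat_lit 142)) (XT.lf (nat_lit 0) (nat_lit 111946354841) (nat_lit 0) (nat_lit 0) (nat_lit 0) (nat_lit 0) (nat_lit 0) (nat_lit 0) (nat_lit 1) (nat_lit 0) (nat_lit 1) (nat_lit 0) (nat_lit 335) (nat_lit 244) (nat_lit 141))))))))
noncomputable def xc98 : XT := (XT.nd (nat_lit 37694) (nat_lit 0) (nat_lit 7224) (XT.nd (nat_lit 36848) (nat_lit 0) (nat_lit 12852) (XT.nd (nat_lit 376) (nat_lit 0) (nat_lit 0) (XT.nd (nat_lit 188) (nat_lit 0) (nat_lit 0) (XT.nd (nat_lit 94) (nat_lit 0) (nat_lit 0) (XT.lf (nat_lit 0) (nat_lit 117477578649) (nat_lit 0) (nat_lit 0) (nat_lit 0) (nat_lit 0) (nat_lit 0) (nat_lit 0) (nat_lit 1) (nat_lit 0) (nat_lit 1) (nat_lit 0) (nat_lit 336) (nat_lit 244) (nat_lit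 140)) (XT.lf (nat_lit 0) (nat_lit 123285403502) (nat_lit 0) (nat_lit 0) (nat_lit 0) (nat_lit 0) (nat_lit 0) (nat_lit 0) (nat_lit 1) (nat_lit 0) (nat_lit 1) (nat_lit 0) (nat_lit 337) (nat_lit 244) (nat_lit 139))) (XT.nd (nat_lit 94) (nat_lit 0) (nat_lit 0) (XT.lf (nat_lit 0) (nat_lit 129383657553) (nat_lit 0) (nat_lit 0) (nat_lit 0) (nat_lit 0) (nat_lit 0) (nat_lit 0) (nat_lit 1) (nat_lit 0) (nat_lit 1) (nat_lit 0) (nat_lit 338) (nat_lit 244) (nat_lit 138)) (XT.lf (nat_lit 0) (nat_lit 135786860457) (nat_lit 0) (nat_lit 0) (nat_lit 0) (nat_lit 0) (nat_lit 0) (nat_lit 0) (nat_lit 1) (nat_lit 0) (nat_lit 1) (nat_lit 0) (nat_lit 339) (nat_lit 244) (nat_lit 137)))) (XT.nd (nat_lit 36284) (nat_lit 0) (nat_lit 14364) (XT.nd (nat_lit 94) (nat_lit 0) (nat_lit 0) (XT.lf (nat_lit 0) (nat_lit 142510257933) (nat_lit 0) (nat_lit 0) (nat_lit 0) (nat_lit 0) (nat_lit 0) (nat_lit 0) (nat_lit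 1) (nat_lit 0) (nat_lit 1) (nat_lit 0) (nat_lit 340) (nat_lit 244) (nat_lit 136)) (XT.lf (nat_lit 0) (nat_lit 149569858071) (nat_lit 0) (nat_lit 0) (nat_lit 0) (nat_lit 0) (nat_lit 0) (nat_lit 0) (nat_lit 1) (nat_lit 0) (nat_lit 1) (nat_lit 0) (nat_lit 341) (nat_lit 244) (nat_lit 135))) (XT.nd (nat_lit 94) (nat_lit 0) (nat_lit 0) (XT.lf (nat_lit 0) (nat_lit 175226623) (nat_lit 0) (nat_lit 175226623) (nat_lit 420) (nat_lit 3014310835) (nat_lit 171) (nat_lit 5) (nat_lit 171) (nat_lit 3) (nat_lit 176) (nat_lit 3) (nat_lit 245) (nat_lit 245) (nat_lit 230)) (XT.lf (nat_lit 0) (nat_lit 2878314596) (nat_lit 420) (nat_lit 2993944081) (nat_lit 504) (nat_lit 917513420) (nat_lit 171) (nat_lit 5) (nat_lit 176) (nat_lit 3) (nat_lit 177) (nat_lit 5) (nat_lit 246) (nat_lit 245) (nat_lit 229))))) (XT.nd (nat_lit 376) (nat_lit 1008) (nat_lit 0) (XT.nd (nat_lit 188) (nat_lit 0) (nat_lit 0)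 (XT.nd (nat_lit 94) (nat_lit 504) (nat_lit 0) (XT.lf (nat_lit 84) (nat_lit 493912747) (nat_lit 0) (nat_lit 4547896418) (nat_lit 504) (nat_lit 1817358258) (nat_lit 172) (nat_lit 5) (nat_lit 171) (nat_lit 5) (nat_lit 177) (nat_lit 5) (nat_lit 247) (nat_lit 245) (nat_lit 228)) (XT.lf (nat_lit 0) (nat_lit 287696665) (nat_lit 504) (nat_lit 2755936987) (nat_lit 588) (nat_lit 3892178123) (nat_lit 165) (nat_lit 5) (nat_lit 171) (nat_lit 5) (nat_lit 172) (nat_lit 5) (nat_lit 248) (nat_lit 245) (nat_lit 227))) (XT.nd (nat_lit 94) (nat_lit 0) (nat_lit 84) (XT.lf (nat_lit 84) (nat_lit 958780397) (nat_lit 0) (nat_lit 1366379238) (nat_lit 588) (nat_lit 4695227547) (nat_lit 166) (nat_lit 5) (nat_lit 165) (nat_lit 5) (nat_lit 172) (nat_lit 5) (nat_lit 249) (nat_lit 245) (nat_lit 226)) (XT.lf (nat_lit 0) (nat_lit 4396962454) (nat_lit 504) (nat_lit 2240436901) (nat_lit 588) (nat_lit 475168671)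 (nat_lit 166) (nat_lit 5) (nat_lit 172) (nat_lit 5) (nat_lit 173) (nat_lit 5) (nat_lit 250) (nat_lit 245) (nat_lit 225)))) (XT.nd (nat_lit 188) (nat_lit 504) (nat_lit 0) (XT.nd (nat_lit 94) (nat_lit 588) (nat_lit 0) (XT.lf (nat_lit 84) (nat_lit 1726985513) (nat_lit 0) (nat_lit 4779366428) (nat_lit 588) (nat_lit 706306144) (nat_lit 167) (nat_lit 5) (nat_lit 166) (nat_lit 5) (nat_lit 173) (nat_lit 5) (nat_lit 251) (nat_lit 245) (nat_lit 224)) (XT.lf (nat_lit 0) (nat_lit 1284217135) (nat_lit 588) (nat_lit 1447987730) (nat_lit 672) (nat_lit 4588168272) (nat_lit 159) (nat_lit 5) (nat_lit 166) (nat_lit 5) (nat_lit 167) (nat_lit 5) (nat_lit 252) (nat_lit 245) (nat_lit 223))) (XT.nd (nat_lit 94) (nat_lit 504) (nat_lit 0) (XT.lf (nat_lit 84) (nat_lit 2793054658) (nat_lit 0) (nat_lit 493571778) (nat_lit 672) (nat_lit 4149463746) (nat_lit 160) (nat_lit 5) (nat_lit 159) (nat_lit 5)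 (nat_lit 167) (nat_lit 5) (nat_lit 253) (nat_lit 245) (nat_lit 222)) (XT.nd (nat_lit 94) (nat_lit 588) (nat_lit 0) (XT.lf (nat_lit 0) (nat_lit 5339953500) (nat_lit 588) (nat_lit 370075990) (nat_lit 84) (nat_lit 1850023726) (nat_lit 160) (nat_lit 5) (nat_lit 167) (nat_lit 5) (nat_lit 161) (nat_lit 5) (nat_lit 254) (nat_lit 245) (nat_lit 221)) (XT.lf (nat_lit 0) (nat_lit 4164851742) (nat_lit 588) (nat_lit 3306002050) (nat_lit 672) (nat_lit 220615264) (nat_lit 153) (nat_lit 5) (nat_lit 160) (nat_lit 5) (nat_lit 161) (nat_lit 5) (nat_lit 255) (nat_lit 245) (nat_lit 220))))))) (XT.nd (nat_lit 752) (nat_lit 2268) (nat_lit 0) (XT.nd (nat_lit 376) (nat_lit 1848) (nat_lit 0) (XT.nd (nat_lit 188) (nat_lit 756) (nat_lit 0) (XT.nd (nat_lit 94) (nat_lit 0) (nat_lit 0) (XT.lf (nat_lit 0) (nat_lit 1035091836) (nat_lit 672) (nat_lit 709881074) (nat_lit 756) (nat_lit 6086702867) (nat_lit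 144) (nat_lit 5) (nat_lit 152) (nat_lit 5) (nat_lit 153) (nat_lit 5) (nat_lit 256) (nat_lit 245) (nat_lit 219)) (XT.lf (nat_lit 0) (nat_lit 3800952513) (nat_lit 756) (nat_lit 2147100936) (nat_lit 84) (nat_lit 2030682246) (nat_lit 144) (nat_lit 5) (nat_lit 153) (nat_lit 5) (nat_lit 145) (nat_lit 5) (nat_lit 257) (nat_lit 245) (nat_lit 218))) (XT.nd (nat_lit 94) (nat_lit 0) (nat_lit 0) (XT.lf (nat_lit 0) (nat_lit 2732145380) (nat_lit 756) (nat_lit 3193637595) (nat_lit 840) (nat_lit 2209063040) (nat_lit 135) (nat_lit 5) (nat_lit 144) (nat_lit 5) (nat_lit 145) (nat_lit 5) (nat_lit 258) (nat_lit 245) (nat_lit 217)) (XT.lf (nat_lit 0) (nat_lit 7852643788) (nat_lit 756) (nat_lit 255327271) (nat_lit 840) (nat_lit 193234987) (nat_lit 135) (nat_lit 5) (nat_lit 144) (nat_lit 5) (nat_lit 145) (nat_lit 5) (nat_lit 259) (nat_lit 245) (nat_lit 216)))) (XT.nd (nat_lit 188) (nat_lit 420)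 (nat_lit 0) (XT.nd (nat_lit 94) (nat_lit 504) (nat_lit 0) (XT.lf (nat_lit 0) (nat_lit 1900257964) (nat_lit 924) (nat_lit 3720161245) (nat_lit 84) (nat_lit 2852041709) (nat_lit 124) (nat_lit 5) (nat_lit 135) (nat_lit 5) (nat_lit 125) (nat_lit 5) (nat_lit 260) (nat_lit 245) (nat_lit 215)) (XT.lf (nat_lit 0) (nat_lit 1539543085) (nat_lit 504) (nat_lit 2508644792) (nat_lit 588) (nat_lit 4606119451) (nat_lit 118) (nat_lit 5) (nat_lit 124) (nat_lit 5) (nat_lit 125) (nat_lit 5) (nat_lit 261) (nat_lit 245) (nat_lit 214))) (XT.nd (nat_lit 94) (nat_lit 420) (nat_lit 0) (XT.lf (nat_lit 0) (nat_lit 6302275798) (nat_lit 588) (nat_lit 1745286587) (nat_lit 84) (nat_lit 797745600) (nat_lit 118) (nat_lit 5) (nat_lit 125) (nat_lit 5) (nat_lit 119) (nat_lit 5) (nat_lit 262) (nat_lit 245) (nat_lit 213)) (XT.lf (nat_lit 0) (nat_lit 3898506327) (nat_lit 420) (nat_lit 4799106319) (nat_lit 504)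 (nat_lit 346818802) (nat_lit 113) (nat_lit 5) (nat_lit 118) (nat_lit 5) (nat_lit 119) (nat_lit 5) (nat_lit 263) (nat_lit 245) (nat_lit 212))))) (XT.nd (nat_lit 376) (nat_lit 1428) (nat_lit 0) (XT.nd (nat_lit 188) (nat_lit 336) (nat_lit 0) (XT.nd (nat_lit 94) (nat_lit 0) (nat_lit 0) (XT.lf (nat_lit 0) (nat_lit 540322752) (nat_lit 420) (nat_lit 1322342010) (nat_lit 504) (nat_lit 7391008572) (nat_lit 107) (nat_lit 5) (nat_lit 112) (nat_lit 5) (nat_lit 113) (nat_lit 5) (nat_lit 264) (nat_lit 245) (nat_lit 211)) (XT.lf (nat_lit 0) (nat_lit 4225695925) (nat_lit 504) (nat_lit 2904004835) (nat_lit 84) (nat_lit 2340655836) (nat_lit 107) (nat_lit 5) (nat_lit 113) (nat_lit 5) (nat_lit 108) (nat_lit 5) (nat_lit 265) (nat_lit 245) (nat_lit 210))) (XT.nd (nat_lit 94) (nat_lit 0) (nat_lit 0) (XT.lf (nat_lit 0) (nat_lit 3199330950) (nat_lit 336) (nat_lit 3512319510) (nat_lit 420) (nat_lit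 2985984970) (nat_lit 103) (nat_lit 5) (nat_lit 107) (nat_lit 5) (nat_lit 108) (nat_lit 5) (nat_lit 266) (nat_lit 245) (nat_lit 209)) (XT.lf (nat_lit 0) (nat_lit 9311322017) (nat_lit 420) (nat_lit 309458246) (nat_lit 84) (nat_lit 316026978) (nat_lit 103) (nat_lit 5) (nat_lit 108) (nat_lit 5) (nat_lit 104) (nat_lit 5) (nat_lit 267) (nat_lit 245) (nat_lit 208)))) (XT.nd (nat_lit 188) (nat_lit 672) (nat_lit 0) (XT.nd (nat_lit 94) (nat_lit 336) (nat_lit 0) (XT.lf (nat_lit 0) (nat_lit 1888581716) (nat_lit 420) (nat_lit 3957502543) (nat_lit 84) (nat_lit 4335664276) (nat_lit 98) (nat_lit 5) (nat_lit 103) (nat_lit 5) (nat_lit 99) (nat_lit 5) (nat_lit 268) (nat_lit 245) (nat_lit 207)) (XT.lf (nat_lit 0) (nat_lit 2655283175) (nat_lit 336) (nat_lit 1837703771) (nat_lit 420) (nat_lit 5946154486) (nat_lit 94) (nat_lit 5) (nat_lit 98) (nat_lit 5) (nat_lit 99) (nat_lit 5) (nat_lit 269)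 (nat_lit 245) (nat_lit 206))) (XT.nd (nat_lit 94) (nat_lit 672) (nat_lit 0) (XT.lf (nat_lit 0) (nat_lit 7273126123) (nat_lit 420) (nat_lit 1085635379) (nat_lit 84) (nat_lit 2348366788) (nat_lit 94) (nat_lit 5) (nat_lit 99) (nat_lit 5) (nat_lit 95) (nat_lit 5) (nat_lit 270) (nat_lit 245) (nat_lit 205)) (XT.nd (nat_lit 94) (nat_lit 336) (nat_lit 0) (XT.lf (nat_lit 0) (nat_lit 6036710428) (nat_lit 336) (nat_lit 4223150743) (nat_lit 420) (nat_lit 725273875) (nat_lit 90) (nat_lit 5) (nat_lit 94) (nat_lit 5) (nat_lit 95) (nat_lit 5) (nat_lit 271) (nat_lit 245) (nat_lit 204)) (XT.lf (nat_lit 0) (nat_lit 2051614336) (nat_lit 336) (nat_lit 9037976387) (nat_lit 84) (nat_lit 185770262) (nat_lit 86) (nat_lit 5) (nat_lit 90) (nat_lit 5) (nat_lit 87) (nat_lit 5) (nat_lit 272) (nat_lit 245) (nat_lit 203))))))))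
noncomputable def xc99 : XT := (XT.nd (nat_lit 1598) (nat_lit 1848) (nat_lit 0) (XT.nd (nat_lit 752) (nat_lit 1260) (nat_lit 0) (XT.nd (nat_lit 376) (nat_lit 840) (nat_lit 0) (XT.nd (nat_lit 188) (nat_lit 336) (nat_lit 0) (XT.nd (nat_lit 94) (nat_lit 336) (nat_lit 0) (XT.lf (nat_lit 0) (nat_lit 5042494553) (nat_lit 336) (nat_lit 1779894642) (nat_lit 84) (nat_lit 4752138463) (nat_lit 86) (nat_lit 5) (nat_lit 90) (nat_lit 5) (nat_lit 87) (nat_lit 5) (nat_lit 273) (nat_lit 245) (nat_lit 202)) (XT.lf (nat_lit 0) (nat_lit 5959672723) (nat_lit 336) (nat_lit 2264018748) (nat_lit 420) (nat_lit 3662922557) (nat_lit 82) (nat_lit 5) (nat_lit 86) (nat_lit 5) (nat_lit 87) (nat_lit 5) (nat_lit 274) (nat_lit 245) (nat_lit 201))) (XT.nd (nat_lit 94) (nat_lit 84) (nat_lit 0) (XT.lf (nat_lit 0) (nat_lit 1882356108) (nat_lit 252) (nat_lit 9729790517) (nat_lit 336) (nat_lit 599748174) (nat_lit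 79) (nat_lit 5) (nat_lit 82) (nat_lit 5) (nat_lit 83) (nat_lit 5) (nat_lit 275) (nat_lit 245) (nat_lit 200)) (XT.lf (nat_lit 0) (nat_lit 2621261957) (nat_lit 336) (nat_lit 2413872824) (nat_lit 84) (nat_lit 7511841011) (nat_lit 78) (nat_lit 5) (nat_lit 82) (nat_lit 5) (nat_lit 79) (nat_lit 5) (nat_lit 276) (nat_lit 245) (nat_lit 199)))) (XT.nd (nat_lit 188) (nat_lit 336) (nat_lit 0) (XT.nd (nat_lit 94) (nat_lit 252) (nat_lit 0) (XT.lf (nat_lit 0) (nat_lit 6009881352) (nat_lit 252) (nat_lit 18819630) (nat_lit 336) (nat_lit 6867341563) (nat_lit 75) (nat_lit 5) (nat_lit 78) (nat_lit 5) (nat_lit 79) (nat_lit 5) (nat_lit 277) (nat_lit 245) (nat_lit 198)) (XT.lf (nat_lit 0) (nat_lit 1574807026) (nat_lit 252) (nat_lit 8132363627) (nat_lit 336) (nat_lit 3550359048) (nat_lit 72) (nat_lit 5) (nat_lit 75) (nat_lit 5) (nat_lit 76) (nat_lit 5) (nat_lit 278) (nat_lit 245) (nat_lit 197)))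 (XT.nd (nat_lit 94) (nat_lit 252) (nat_lit 0) (XT.lf (nat_lit 0) (nat_lit 6462857) (nat_lit 336) (nat_lit 3006032785) (nat_lit 84) (nat_lit 10621056839) (nat_lit 71) (nat_lit 5) (nat_lit 75) (nat_lit 5) (nat_lit 72) (nat_lit 5) (nat_lit 279) (nat_lit 245) (nat_lit 196)) (XT.lf (nat_lit 0) (nat_lit 3712529228) (nat_lit 336) (nat_lit 7886095558) (nat_lit 84) (nat_lit 2422305548) (nat_lit 68) (nat_lit 5) (nat_lit 72) (nat_lit 5) (nat_lit 69) (nat_lit 5) (nat_lit 280) (nat_lit 245) (nat_lit 195))))) (XT.nd (nat_lit 376) (nat_lit 588) (nat_lit 0) (XT.nd (nat_lit 188) (nat_lit 504) (nat_lit 0) (XT.nd (nat_lit 94) (nat_lit 0) (nat_lit 0) (XT.lf (nat_lit 0) (nat_lit 1335687988) (nat_lit 168) (nat_lit 6346142000) (nat_lit 252) (nat_lit 6741950539) (nat_lit 66) (nat_lit 5) (nat_lit 68) (nat_lit 5) (nat_lit 69) (nat_lit 5) (nat_lit 281) (nat_lit 245) (nat_lit 194)) (XT.lf (nat_lit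 0) (nat_lit 11224638766) (nat_lit 168) (nat_lit 715501278) (nat_lit 252) (nat_lit 2902105971) (nat_lit 66) (nat_lit 5) (nat_lit 68) (nat_lit 5) (nat_lit 69) (nat_lit 5) (nat_lit 282) (nat_lit 245) (nat_lit 193))) (XT.nd (nat_lit 94) (nat_lit 168) (nat_lit 0) (XT.lf (nat_lit 0) (nat_lit 1235326560) (nat_lit 336) (nat_lit 8911175292) (nat_lit 84) (nat_lit 5127163304) (nat_lit 62) (nat_lit 5) (nat_lit 66) (nat_lit 5) (nat_lit 63) (nat_lit 5) (nat_lit 283) (nat_lit 245) (nat_lit 192)) (XT.lf (nat_lit 0) (nat_lit 1153757313) (nat_lit 168) (nat_lit 4379316874) (nat_lit 252) (nat_lit 10188653630) (nat_lit 60) (nat_lit 5) (nat_lit 62) (nat_lit 5) (nat_lit 63) (nat_lit 5) (nat_lit 284) (nat_lit 245) (nat_lit 191)))) (XT.nd (nat_lit 188) (nat_lit 420) (nat_lit 0) (XT.nd (nat_lit 94) (nat_lit 168) (nat_lit 0) (XT.lf (nat_lit 0) (nat_lit 10184767747) (nat_lit 252) (nat_lit 4248974614)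 (nat_lit 84) (nat_lit 1751498321) (nat_lit 60) (nat_lit 5) (nat_lit 63) (nat_lit 5) (nat_lit 61) (nat_lit 5) (nat_lit 285) (nat_lit 245) (nat_lit 190)) (XT.lf (nat_lit 0) (nat_lit 6663653157) (nat_lit 168) (nat_lit 8542650696) (nat_lit 252) (nat_lit 1458762444) (nat_lit 58) (nat_lit 5) (nat_lit 60) (nat_lit 5) (nat_lit 61) (nat_lit 5) (nat_lit 286) (nat_lit 245) (nat_lit 189))) (XT.nd (nat_lit 94) (nat_lit 168) (nat_lit 0) (XT.lf (nat_lit 0) (nat_lit 1019883187) (nat_lit 168) (nat_lit 2234935843) (nat_lit 252) (nat_lit 13908943857) (nat_lit 55) (nat_lit 5) (nat_lit 57) (nat_lit 5) (nat_lit 58) (nat_lit 5) (nat_lit 287) (nat_lit 245) (nat_lit 188)) (XT.nd (nat_lit 94) (nat_lit 168) (nat_lit 0) (XT.lf (nat_lit 0) (nat_lit 8357831781) (nat_lit 252) (nat_lit 4899142969) (nat_lit 84) (nat_lit 4419085042) (nat_lit 55) (nat_lit 5) (nat_lit 58) (nat_lit 5) (nat_lit 56) (nat_lit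 5) (nat_lit 288) (nat_lit 245) (nat_lit 187)) (XT.lf (nat_lit 0) (nat_lit 7034939029) (nat_lit 168) (nat_lit 6791443032) (nat_lit 252) (nat_lit 4382070136) (nat_lit 53) (nat_lit 5) (nat_lit 55) (nat_lit 5) (nat_lit 56) (nat_lit 5) (nat_lit 289) (nat_lit 245) (nat_lit 186))))))) (XT.nd (nat_lit 752) (nat_lit 924) (nat_lit 0) (XT.nd (nat_lit 376) (nat_lit 420) (nat_lit 0) (XT.nd (nat_lit 188) (nat_lit 252) (nat_lit 0) (XT.nd (nat_lit 94) (nat_lit 0) (nat_lit 0) (XT.lf (nat_lit 0) (nat_lit 839551082) (nat_lit 252) (nat_lit 17838395213) (nat_lit 84) (nat_lit 85678259) (nat_lit 50) (nat_lit 5) (nat_lit 53) (nat_lit 5) (nat_lit 51) (nat_lit 5) (nat_lit 290) (nat_lit 245) (nat_lit 185)) (XT.lf (nat_lit 0) (nat_lit 6443127468) (nat_lit 252) (nat_lit 5568516498) (nat_lit 84) (nat_lit 7317912684) (nat_lit 50) (nat_lit 5) (nat_lit 53) (nat_lit 5) (nat_lit 51) (nat_lit 5) (nat_lit 291)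 (nat_lit 245) (nat_lit 184))) (XT.nd (nat_lit 94) (nat_lit 84) (nat_lit 0) (XT.lf (nat_lit 0) (nat_lit 7495741871) (nat_lit 168) (nat_lit 4914336341) (nat_lit 252) (nat_lit 7509547361) (nat_lit 48) (nat_lit 5) (nat_lit 50) (nat_lit 5) (nat_lit 51) (nat_lit 5) (nat_lit 292) (nat_lit 245) (nat_lit 183)) (XT.lf (nat_lit 0) (nat_lit 797059082) (nat_lit 84) (nat_lit 17992717024) (nat_lit 168) (nat_lit 1743701856) (nat_lit 47) (nat_lit 5) (nat_lit 48) (nat_lit 5) (nat_lit 49) (nat_lit 4) (nat_lit 293) (nat_lit 245) (nat_lit 182)))) (XT.nd (nat_lit 188) (nat_lit 168) (nat_lit 0) (XT.nd (nat_lit 94) (nat_lit 168) (nat_lit 0) (XT.lf (nat_lit 0) (nat_lit 4433519067) (nat_lit 168) (nat_lit 6267920896) (nat_lit 84) (nat_lit 10460165906) (nat_lit 46) (nat_lit 5) (nat_lit 48) (nat_lit 5) (nat_lit 47) (nat_lit 5) (nat_lit 294) (nat_lit 245) (nat_lit 181)) (XT.lf (nat_lit 0) (nat_lit 8046294855)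 (nat_lit 168) (nat_lit 2908548135) (nat_lit 252) (nat_lit 10860175832) (nat_lit 44) (nat_lit 5) (nat_lit 46) (nat_lit 5) (nat_lit 47) (nat_lit 5) (nat_lit 295) (nat_lit 245) (nat_lit 180))) (XT.nd (nat_lit 94) (nat_lit 84) (nat_lit 0) (XT.lf (nat_lit 0) (nat_lit 678764633) (nat_lit 84) (nat_lit 17292773805) (nat_lit 168) (nat_lit 4521098715) (nat_lit 43) (nat_lit 5) (nat_lit 44) (nat_lit 5) (nat_lit 45) (nat_lit 4) (nat_lit 296) (nat_lit 245) (nat_lit 179)) (XT.lf (nat_lit 0) (nat_lit 2319880972) (nat_lit 168) (nat_lit 7007699869) (nat_lit 84) (nat_lit 13862224954) (nat_lit 42) (nat_lit 5) (nat_lit 44) (nat_lit 5) (nat_lit 43) (nat_lit 5) (nat_lit 297) (nat_lit 245) (nat_lit 178))))) (XT.nd (nat_lit 376) (nat_lit 420) (nat_lit 0) (XT.nd (nat_lit 188) (nat_lit 252) (nat_lit 0) (XT.nd (nat_lit 94) (nat_lit 84) (nat_lit 0) (XT.lf (nat_lit 0) (nat_lit 8688431863) (nat_lit 168)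 (nat_lit 768281549) (nat_lit 252) (nat_lit 14456126520) (nat_lit 40) (nat_lit 5) (nat_lit 42) (nat_lit 5) (nat_lit 43) (nat_lit 5) (nat_lit 298) (nat_lit 245) (nat_lit 177)) (XT.lf (nat_lit 0) (nat_lit 580347205) (nat_lit 84) (nat_lit 16598351597) (nat_lit 168) (nat_lit 7481911410) (nat_lit 39) (nat_lit 5) (nat_lit 40) (nat_lit 5) (nat_lit 41) (nat_lit 4) (nat_lit 299) (nat_lit 245) (nat_lit 176))) (XT.nd (nat_lit 94) (nat_lit 168) (nat_lit 0) (XT.lf (nat_lit 0) (nat_lit 91161091) (nat_lit 168) (nat_lit 7797948930) (nat_lit 84) (nat_lit 17544530187) (nat_lit 38) (nat_lit 5) (nat_lit 40) (nat_lit 5) (nat_lit 39) (nat_lit 5) (nat_lit 300) (nat_lit 245) (nat_lit 175)) (XT.lf (nat_lit 0) (nat_lit 7934071415) (nat_lit 252) (nat_lit 16831422280) (nat_lit 84) (nat_lit 1466564023) (nat_lit 36) (nat_lit 5) (nat_lit 39) (nat_lit 5) (nat_lit 37) (nat_lit 4) (nat_lit 301) (nat_lit 245)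 (nat_lit 174)))) (XT.nd (nat_lit 188) (nat_lit 336) (nat_lit 0) (XT.nd (nat_lit 94) (nat_lit 0) (nat_lit 0) (XT.lf (nat_lit 0) (nat_lit 498334854) (nat_lit 84) (nat_lit 15914118071) (nat_lit 168) (nat_lit 10645776895) (nat_lit 35) (nat_lit 5) (nat_lit 36) (nat_lit 5) (nat_lit 37) (nat_lit 4) (nat_lit 302) (nat_lit 245) (nat_lit 173)) (XT.lf (nat_lit 0) (nat_lit 19227567259) (nat_lit 84) (nat_lit 6344755114) (nat_lit 168) (nat_lit 2340509710) (nat_lit 35) (nat_lit 5) (nat_lit 36) (nat_lit 5) (nat_lit 37) (nat_lit 4) (nat_lit 303) (nat_lit 245) (nat_lit 172))) (XT.nd (nat_lit 94) (nat_lit 84) (nat_lit 0) (XT.lf (nat_lit 0) (nat_lit 6371154019) (nat_lit 252) (nat_lit 18598071447) (nat_lit 84) (nat_lit 3826191808) (nat_lit 32) (nat_lit 5) (nat_lit 35) (nat_lit 5) (nat_lit 33) (nat_lit 4) (nat_lit 304) (nat_lit 245) (nat_lit 171)) (XT.nd (nat_lit 94) (nat_lit 0) (nat_lit 0) (XT.lf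 (nat_lit 0) (nat_lit 429868720) (nat_lit 84) (nat_lit 15243644450) (nat_lit 168) (nat_lit 14035011670) (nat_lit 31) (nat_lit 5) (nat_lit 32) (nat_lit 5) (nat_lit 33) (nat_lit 4) (nat_lit 305) (nat_lit 245) (nat_lit 170)) (XT.lf (nat_lit 0) (nat_lit 21005754814) (nat_lit 84) (nat_lit 4724239884) (nat_lit 168) (nat_lit 4922842863) (nat_lit 31) (nat_lit 5) (nat_lit 32) (nat_lit 5) (nat_lit 33) (nat_lit 4) (nat_lit 306) (nat_lit 245) (nat_lit 169))))))))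
noncomputable def xc100 : XT := (XT.nd (nat_lit 1504) (nat_lit 1176) (nat_lit 0) (XT.nd (nat_lit 752) (nat_lit 588) (nat_lit 0) (XT.nd (nat_lit 376) (nat_lit 336) (nat_lit 0) (XT.nd (nat_lit 188) (nat_lit 168) (nat_lit 0) (XT.nd (nat_lit 94) (nat_lit 84) (nat_lit 0) (XT.lf (nat_lit 0) (nat_lit 4748465861) (nat_lit 252) (nat_lit 20531107182) (nat_lit 84) (nat_lit 6348556935) (nat_lit 28) (nat_lit 5) (nat_lit 31) (nat_lit 5) (nat_lit 29) (nat_lit 4) (nat_lit 307) (nat_lit 245) (nat_lit 168)) (XT.lf (nat_lit 0) (nat_lit 372594443) (nat_lit 84) (nat_lit 14589612707) (nat_lit 168) (nat_lit 17674729402) (nat_lit 27) (nat_lit 5) (nat_lit 28) (nat_lit 5) (nat_lit 29) (nat_lit 4) (nat_lit 308) (nat_lit 245) (nat_lit 167))) (XT.nd (nat_lit 94) (nat_lit 168) (nat_lit 0) (XT.lf (nat_lit 0) (nat_lit 22987300784) (nat_lit 84) (nat_lit 3022483451) (nat_lit 168) (nat_lit 7670241782) (nat_lit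 27) (nat_lit 5) (nat_lit 28) (nat_lit 5) (nat_lit 29) (nat_lit 4) (nat_lit 309) (nat_lit 245) (nat_lit 166)) (XT.lf (nat_lit 0) (nat_lit 3057353752) (nat_lit 168) (nat_lit 22650539482) (nat_lit 84) (nat_lit 9049483808) (nat_lit 25) (nat_lit 5) (nat_lit 27) (nat_lit 5) (nat_lit 26) (nat_lit 4) (nat_lit 310) (nat_lit 245) (nat_lit 165)))) (XT.nd (nat_lit 188) (nat_lit 252) (nat_lit 0) (XT.nd (nat_lit 94) (nat_lit 0) (nat_lit 0) (XT.lf (nat_lit 0) (nat_lit 324572830) (nat_lit 84) (nat_lit 13953985427) (nat_lit 168) (nat_lit 21593000296) (nat_lit 24) (nat_lit 5) (nat_lit 25) (nat_lit 5) (nat_lit 26) (nat_lit 4) (nat_lit 311) (nat_lit 245) (nat_lit 164)) (XT.lf (nat_lit 0) (nat_lit 25189931365) (nat_lit 84) (nat_lit 1231244028) (nat_lit 168) (nat_lit 10602256126) (nat_lit 24) (nat_lit 5) (nat_lit 25) (nat_lit 5) (nat_lit 26) (nat_lit 4) (nat_lit 312) (nat_lit 245) (nat_lit 163)))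 (XT.nd (nat_lit 94) (nat_lit 84) (nat_lit 0) (XT.lf (nat_lit 0) (nat_lit 1287997956) (nat_lit 168) (nat_lit 24977888721) (nat_lit 84) (nat_lit 11947279429) (nat_lit 22) (nat_lit 5) (nat_lit 24) (nat_lit 5) (nat_lit 23) (nat_lit 4) (nat_lit 313) (nat_lit 245) (nat_lit 162)) (XT.lf (nat_lit 0) (nat_lit 284206356) (nat_lit 84) (nat_lit 13338144960) (nat_lit 168) (nat_lit 25821051136) (nat_lit 21) (nat_lit 5) (nat_lit 22) (nat_lit 5) (nat_lit 23) (nat_lit 4) (nat_lit 314) (nat_lit 245) (nat_lit 161))))) (XT.nd (nat_lit 376) (nat_lit 336) (nat_lit 0) (XT.nd (nat_lit 188) (nat_lit 168) (nat_lit 0) (XT.nd (nat_lit 94) (nat_lit 84) (nat_lit 0) (XT.lf (nat_lit 0) (nat_lit 26984705790) (nat_lit 168) (nat_lit 13091681753) (nat_lit 0) (nat_lit 638198900) (nat_lit 21) (nat_lit 5) (nat_lit 23) (nat_lit 4) (nat_lit 21) (nat_lit 4) (nat_lit 315) (nat_lit 245) (nat_lit 160)) (XT.lf (nat_lit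 0) (nat_lit 14482514581) (nat_lit 84) (nat_lit 26956150170) (nat_lit 84) (nat_lit 589490544) (nat_lit 20) (nat_lit 4) (nat_lit 21) (nat_lit 5) (nat_lit 21) (nat_lit 4) (nat_lit 316) (nat_lit 245) (nat_lit 159))) (XT.nd (nat_lit 94) (nat_lit 0) (nat_lit 0) (XT.lf (nat_lit 0) (nat_lit 250178688) (nat_lit 84) (nat_lit 12743007359) (nat_lit 168) (nat_lit 30393505770) (nat_lit 18) (nat_lit 5) (nat_lit 19) (nat_lit 5) (nat_lit 20) (nat_lit 4) (nat_lit 317) (nat_lit 245) (nat_lit 158)) (XT.lf (nat_lit 0) (nat_lit 27722188507) (nat_lit 168) (nat_lit 14490737043) (nat_lit 0) (nat_lit 2575396284) (nat_lit 18) (nat_lit 5) (nat_lit 20) (nat_lit 4) (nat_lit 18) (nat_lit 4) (nat_lit 318) (nat_lit 245) (nat_lit 157)))) (XT.nd (nat_lit 188) (nat_lit 84) (nat_lit 0) (XT.nd (nat_lit 94) (nat_lit 168) (nat_lit 0) (XT.lf (nat_lit 0) (nat_lit 15845919478) (nat_lit 84) (nat_lit 27777839943) (nat_lit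 84) (nat_lit 2614468014) (nat_lit 17) (nat_lit 4) (nat_lit 18) (nat_lit 5) (nat_lit 18) (nat_lit 4) (nat_lit 319) (nat_lit 245) (nat_lit 156)) (XT.lf (nat_lit 0) (nat_lit 221404925) (nat_lit 84) (nat_lit 12169115587) (nat_lit 168) (nat_lit 35348666569) (nat_lit 15) (nat_lit 5) (nat_lit 16) (nat_lit 5) (nat_lit 17) (nat_lit 4) (nat_lit 320) (nat_lit 245) (nat_lit 155))) (XT.nd (nat_lit 94) (nat_lit 84) (nat_lit 0) (XT.lf (nat_lit 0) (nat_lit 28626821439) (nat_lit 168) (nat_lit 16025439092) (nat_lit 0) (nat_lit 4632344860) (nat_lit 15) (nat_lit 5) (nat_lit 17) (nat_lit 4) (nat_lit 15) (nat_lit 4) (nat_lit 321) (nat_lit 245) (nat_lit 154)) (XT.lf (nat_lit 0) (nat_lit 17359791199) (nat_lit 84) (nat_lit 28766525595) (nat_lit 84) (nat_lit 4758408852) (nat_lit 14) (nat_lit 4) (nat_lit 15) (nat_lit 5) (nat_lit 15) (nat_lit 4) (nat_lit 322) (nat_lit 245) (nat_lit 153)))))) (XT.nd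 (nat_lit 752) (nat_lit 504) (nat_lit 0) (XT.nd (nat_lit 376) (nat_lit 252) (nat_lit 0) (XT.nd (nat_lit 188) (nat_lit 252) (nat_lit 0) (XT.nd (nat_lit 94) (nat_lit 0) (nat_lit 0) (XT.lf (nat_lit 0) (nat_lit 196990666) (nat_lit 84) (nat_lit 11616715696) (nat_lit 168) (nat_lit 40728838091) (nat_lit 12) (nat_lit 5) (nat_lit 13) (nat_lit 5) (nat_lit 14) (nat_lit 4) (nat_lit 323) (nat_lit 245) (nat_lit 152)) (XT.lf (nat_lit 0) (nat_lit 29712270188) (nat_lit 168) (nat_lit 17710953668) (nat_lit 0) (nat_lit 6823242180) (nat_lit 12) (nat_lit 5) (nat_lit 14) (nat_lit 4) (nat_lit 12) (nat_lit 4) (nat_lit 324) (nat_lit 245) (nat_lit 151))) (XT.nd (nat_lit 94) (nat_lit 168) (nat_lit 0) (XT.lf (nat_lit 0) (nat_lit 19038163993) (nat_lit 84) (nat_lit 29937097279) (nat_lit 84) (nat_lit 7036847472) (nat_lit 11) (nat_lit 4) (nat_lit 12) (nat_lit 5) (nat_lit 12) (nat_lit 4) (nat_lit 325) (nat_lit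 245) (nat_lit 150)) (XT.lf (nat_lit 0) (nat_lit 176198314) (nat_lit 84) (nat_lit 11085819025) (nat_lit 168) (nat_lit 46580694827) (nat_lit 9) (nat_lit 5) (nat_lit 10) (nat_lit 5) (nat_lit 11) (nat_lit 4) (nat_lit 326) (nat_lit 245) (nat_lit 149)))) (XT.nd (nat_lit 188) (nat_lit 168) (nat_lit 0) (XT.nd (nat_lit 94) (nat_lit 84) (nat_lit 0) (XT.lf (nat_lit 0) (nat_lit 30993607934) (nat_lit 168) (nat_lit 19563782676) (nat_lit 0) (nat_lit 9163973902) (nat_lit 9) (nat_lit 5) (nat_lit 11) (nat_lit 4) (nat_lit 9) (nat_lit 4) (nat_lit 327) (nat_lit 245) (nat_lit 148)) (XT.lf (nat_lit 0) (nat_lit 20896732456) (nat_lit 84) (nat_lit 31305773431) (nat_lit 84) (nat_lit 9466907198) (nat_lit 8) (nat_lit 4) (nat_lit 9) (nat_lit 5) (nat_lit 9) (nat_lit 4) (nat_lit 328) (nat_lit 245) (nat_lit 147))) (XT.nd (nat_lit 94) (nat_lit 0) (nat_lit 0) (XT.lf (nat_lit 0) (nat_lit 158419365) (nat_lit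 84) (nat_lit 10576252912) (nat_lit 168) (nat_lit 52955695558) (nat_lit 6) (nat_lit 5) (nat_lit 7) (nat_lit 5) (nat_lit 8) (nat_lit 4) (nat_lit 329) (nat_lit 245) (nat_lit 146)) (XT.lf (nat_lit 0) (nat_lit 32487487436) (nat_lit 168) (nat_lit 21601939571) (nat_lit 0) (nat_lit 11672218214) (nat_lit 6) (nat_lit 5) (nat_lit 8) (nat_lit 4) (nat_lit 6) (nat_lit 4) (nat_lit 330) (nat_lit 245) (nat_lit 145))))) (XT.nd (nat_lit 376) (nat_lit 168) (nat_lit 0) (XT.nd (nat_lit 188) (nat_lit 84) (nat_lit 0) (XT.nd (nat_lit 94) (nat_lit 168) (nat_lit 0) (XT.lf (nat_lit 0) (nat_lit 22952983536) (nat_lit 84) (nat_lit 32890300247) (nat_lit 84) (nat_lit 12067435671) (nat_lit 5) (nat_lit 4) (nat_lit 6) (nat_lit 5) (nat_lit 6) (nat_lit 4) (nat_lit 331) (nat_lit 245) (nat_lit 144)) (XT.lf (nat_lit 0) (nat_lit 143151601) (nat_lit 84) (nat_lit 10087701983) (nat_lit 168) (nat_lit 59910547448) (nat_lit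 3) (nat_lit 5) (nat_lit 4) (nat_lit 5) (nat_lit 5) (nat_lit 4) (nat_lit 332) (nat_lit 245) (nat_lit 143))) (XT.nd (nat_lit 94) (nat_lit 84) (nat_lit 0) (XT.lf (nat_lit 0) (nat_lit 34212324382) (nat_lit 168) (nat_lit 23845135940) (nat_lit 0) (nat_lit 14367574423) (nat_lit 3) (nat_lit 5) (nat_lit 5) (nat_lit 4) (nat_lit 3) (nat_lit 4) (nat_lit 333) (nat_lit 245) (nat_lit 142)) (XT.lf (nat_lit 0) (nat_lit 25226348799) (nat_lit 84) (nat_lit 34710159033) (nat_lit 84) (nat_lit 14859160356) (nat_lit 2) (nat_lit 4) (nat_lit 3) (nat_lit 5) (nat_lit 3) (nat_lit 4) (nat_lit 334) (nat_lit 245) (nat_lit 141)))) (XT.nd (nat_lit 188) (nat_lit 0) (nat_lit 0) (XT.nd (nat_lit 94) (nat_lit 0) (nat_lit 0) (XT.lf (nat_lit 0) (nat_lit 112011203573) (nat_lit 0) (nat_lit 0) (nat_lit 0) (nat_lit 0) (nat_lit 0) (nat_lit 0) (nat_lit 1) (nat_lit 0) (nat_lit 1) (nat_lit 0) (nat_lit 335) (nat_lit 245)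 (nat_lit 140)) (XT.lf (nat_lit 0) (nat_lit 117542446822) (nat_lit 0) (nat_lit 0) (nat_lit 0) (nat_lit 0) (nat_lit 0) (nat_lit 0) (nat_lit 1) (nat_lit 0) (nat_lit 1) (nat_lit 0) (nat_lit 336) (nat_lit 245) (nat_lit 139))) (XT.nd (nat_lit 94) (nat_lit 0) (nat_lit 0) (XT.lf (nat_lit 0) (nat_lit 123350290190) (nat_lit 0) (nat_lit 0) (nat_lit 0) (nat_lit 0) (nat_lit 0) (nat_lit 0) (nat_lit 1) (nat_lit 0) (nat_lit 1) (nat_lit 0) (nat_lit 337) (nat_lit 245) (nat_lit 138)) (XT.nd (nat_lit 94) (nat_lit 0) (nat_lit 0) (XT.lf (nat_lit 0) (nat_lit 129448561875) (nat_lit 0) (nat_lit 0) (nat_lit 0) (nat_lit 0) (nat_lit 0) (nat_lit 0) (nat_lit 1) (nat_lit 0) (nat_lit 1) (nat_lit 0) (nat_lit 338) (nat_lit 245) (nat_lit 137)) (XT.lf (nat_lit 0) (nat_lit 135851781573) (nat_lit 0) (nat_lit 0) (nat_lit 0) (nat_lit 0) (nat_lit 0) (nat_lit 0) (nat_lit 1) (nat_lit 0) (nat_lit 1) (nat_lit 0) (nat_lit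 339) (nat_lit 245) (nat_lit 136))))))))
noncomputable def xc101 : XT := (XT.nd (nat_lit 37788) (nat_lit 0) (nat_lit 6552) (XT.nd (nat_lit 36942) (nat_lit 0) (nat_lit 10416) (XT.nd (nat_lit 36566) (nat_lit 0) (nat_lit 13272) (XT.nd (nat_lit 36378) (nat_lit 0) (nat_lit 13776) (XT.nd (nat_lit 94) (nat_lit 0) (nat_lit 0) (XT.lf (nat_lit 0) (nat_lit 142575195043) (nat_lit 0) (nat_lit 0) (nat_lit 0) (nat_lit 0) (nat_lit 0) (nat_lit 0) (nat_lit 1) (nat_lit 0) (nat_lit 1) (nat_lit 0) (nat_lit 340) (nat_lit 245) (nat_lit 135)) (XT.lf (nat_lit 0) (nat_lit 149634810414) (nat_lit 0) (nat_lit 0) (nat_lit 0) (nat_lit 0) (nat_lit 0) (nat_lit 0) (nat_lit 1) (nat_lit 0) (nat_lit 1) (nat_lit 0) (nat_lit 341) (nat_lit 245) (nat_lit 134))) (XT.nd (nat_lit 94) (nat_lit 588) (nat_lit 0) (XT.lf (nat_lit 0) (nat_lit 1239785964) (nat_lit 0) (nat_lit 1239785964) (nat_lit 420) (nat_lit 947850558)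 (nat_lit 171) (nat_lit 5) (nat_lit 171) (nat_lit 3) (nat_lit 176) (nat_lit 3) (nat_lit 246) (nat_lit 246) (nat_lit 228)) (XT.lf (nat_lit 0) (nat_lit 96650497) (nat_lit 588) (nat_lit 917513420) (nat_lit 588) (nat_lit 5914691385) (nat_lit 164) (nat_lit 3) (nat_lit 171) (nat_lit 3) (nat_lit 171) (nat_lit 5) (nat_lit 247) (nat_lit 246) (nat_lit 227)))) (XT.nd (nat_lit 188) (nat_lit 588) (nat_lit 0) (XT.nd (nat_lit 94) (nat_lit 0) (nat_lit 0) (XT.lf (nat_lit 0) (nat_lit 2050839661) (nat_lit 504) (nat_lit 4317479466) (nat_lit 588) (nat_lit 640396772) (nat_lit 165) (nat_lit 5) (nat_lit 171) (nat_lit 5) (nat_lit 172) (nat_lit 5) (nat_lit 248) (nat_lit 246) (nat_lit 226)) (XT.lf (nat_lit 0) (nat_lit 4014453572) (nat_lit 504) (nat_lit 668738421) (nat_lit 588) (nat_lit 2413791766) (nat_lit 165) (nat_lit 5) (nat_lit 171) (nat_lit 5) (nat_lit 172) (nat_lit 5) (nat_lit 249) (nat_lit 246)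 (nat_lit 225))) (XT.nd (nat_lit 94) (nat_lit 588) (nat_lit 0) (XT.lf (nat_lit 84) (nat_lit 3195827809) (nat_lit 0) (nat_lit 2815360377) (nat_lit 588) (nat_lit 1181729828) (nat_lit 166) (nat_lit 5) (nat_lit 165) (nat_lit 5) (nat_lit 172) (nat_lit 5) (nat_lit 250) (nat_lit 246) (nat_lit 224)) (XT.lf (nat_lit 0) (nat_lit 687212786) (nat_lit 588) (nat_lit 100641401) (nat_lit 672) (nat_lit 6510201322) (nat_lit 158) (nat_lit 5) (nat_lit 165) (nat_lit 5) (nat_lit 166) (nat_lit 5) (nat_lit 251) (nat_lit 246) (nat_lit 223))))) (XT.nd (nat_lit 376) (nat_lit 2352) (nat_lit 0) (XT.nd (nat_lit 188) (nat_lit 588) (nat_lit 0) (XT.nd (nat_lit 94) (nat_lit 0) (nat_lit 0) (XT.lf (nat_lit 0) (nat_lit 2588734980) (nat_lit 588) (nat_lit 3400361623) (nat_lit 672) (nat_lit 1419442330) (nat_lit 159) (nat_lit 5) (nat_lit 166) (nat_lit 5) (nat_lit 167) (nat_lit 5) (nat_lit 252) (nat_lit 246) (nat_lit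 222)) (XT.lf (nat_lit 84) (nat_lit 739486585) (nat_lit 0) (nat_lit 3769648688) (nat_lit 672) (nat_lit 3019221157) (nat_lit 160) (nat_lit 5) (nat_lit 159) (nat_lit 5) (nat_lit 167) (nat_lit 5) (nat_lit 253) (nat_lit 246) (nat_lit 221))) (XT.nd (nat_lit 94) (nat_lit 588) (nat_lit 0) (XT.lf (nat_lit 84) (nat_lit 5132845074) (nat_lit 0) (nat_lit 1351664736) (nat_lit 672) (nat_lit 1171707279) (nat_lit 160) (nat_lit 5) (nat_lit 159) (nat_lit 5) (nat_lit 167) (nat_lit 5) (nat_lit 254) (nat_lit 246) (nat_lit 220)) (XT.lf (nat_lit 0) (nat_lit 697920596) (nat_lit 672) (nat_lit 5878717633) (nat_lit 84) (nat_lit 1215516632) (nat_lit 152) (nat_lit 5) (nat_lit 160) (nat_lit 5) (nat_lit 153) (nat_lit 5) (nat_lit 255) (nat_lit 246) (nat_lit 219)))) (XT.nd (nat_lit 188) (nat_lit 1680) (nat_lit 0) (XT.nd (nat_lit 94) (nat_lit 672) (nat_lit 0) (XT.lf (nat_lit 0) (nat_lit 2595563854) (nat_lit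 672) (nat_lit 1390206026) (nat_lit 84) (nat_lit 3949463674) (nat_lit 152) (nat_lit 5) (nat_lit 160) (nat_lit 5) (nat_lit 153) (nat_lit 5) (nat_lit 256) (nat_lit 246) (nat_lit 218)) (XT.lf (nat_lit 0) (nat_lit 3358727979) (nat_lit 672) (nat_lit 1194483789) (nat_lit 756) (nat_lit 3533998288) (nat_lit 144) (nat_lit 5) (nat_lit 152) (nat_lit 5) (nat_lit 153) (nat_lit 5) (nat_lit 257) (nat_lit 246) (nat_lit 217))) (XT.nd (nat_lit 94) (nat_lit 924) (nat_lit 0) (XT.lf (nat_lit 0) (nat_lit 46993734) (nat_lit 756) (nat_lit 6529481410) (nat_lit 840) (nat_lit 1671923586) (nat_lit 135) (nat_lit 5) (nat_lit 144) (nat_lit 5) (nat_lit 145) (nat_lit 5) (nat_lit 258) (nat_lit 246) (nat_lit 216)) (XT.nd (nat_lit 94) (nat_lit 840) (nat_lit 0) (XT.lf (nat_lit 0) (nat_lit 292644845) (nat_lit 840) (nat_lit 3289856628) (nat_lit 84) (nat_lit 4834001449) (nat_lit 134) (nat_lit 5) (nat_lit 144) (nat_lit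 5) (nat_lit 135) (nat_lit 5) (nat_lit 259) (nat_lit 246) (nat_lit 215)) (XT.lf (nat_lit 0) (nat_lit 1825622932) (nat_lit 840) (nat_lit 423545988) (nat_lit 924) (nat_lit 6344977234) (nat_lit 124) (nat_lit 5) (nat_lit 134) (nat_lit 5) (nat_lit 135) (nat_lit 5) (nat_lit 260) (nat_lit 246) (nat_lit 214))))))) (XT.nd (nat_lit 752) (nat_lit 1680) (nat_lit 0) (XT.nd (nat_lit 376) (nat_lit 1176) (nat_lit 0) (XT.nd (nat_lit 188) (nat_lit 504) (nat_lit 0) (XT.nd (nat_lit 94) (nat_lit 504) (nat_lit 0) (XT.lf (nat_lit 0) (nat_lit 4329428768) (nat_lit 924) (nat_lit 1588244426) (nat_lit 84) (nat_lit 2861702874) (nat_lit 124) (nat_lit 5) (nat_lit 135) (nat_lit 5) (nat_lit 125) (nat_lit 5) (nat_lit 261) (nat_lit 246) (nat_lit 213)) (XT.lf (nat_lit 0) (nat_lit 3897059236) (nat_lit 504) (nat_lit 2612151171) (nat_lit 588) (nat_lit 2464881632) (nat_lit 118) (nat_lit 5) (nat_lit 124) (nat_lit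 5) (nat_lit 125) (nat_lit 5) (nat_lit 262) (nat_lit 246) (nat_lit 212))) (XT.nd (nat_lit 94) (nat_lit 84) (nat_lit 0) (XT.lf (nat_lit 0) (nat_lit 461385174) (nat_lit 420) (nat_lit 8314594081) (nat_lit 504) (nat_lit 403664647) (nat_lit 113) (nat_lit 5) (nat_lit 118) (nat_lit 5) (nat_lit 119) (nat_lit 5) (nat_lit 263) (nat_lit 246) (nat_lit 211)) (XT.lf (nat_lit 0) (nat_lit 1765608215) (nat_lit 504) (nat_lit 3085093361) (nat_lit 84) (nat_lit 4540330094) (nat_lit 112) (nat_lit 5) (nat_lit 118) (nat_lit 5) (nat_lit 113) (nat_lit 5) (nat_lit 264) (nat_lit 246) (nat_lit 210)))) (XT.nd (nat_lit 188) (nat_lit 756) (nat_lit 0) (XT.nd (nat_lit 94) (nat_lit 0) (nat_lit 0) (XT.lf (nat_lit 0) (nat_lit 2842483894) (nat_lit 420) (nat_lit 1166085565) (nat_lit 504) (nat_lit 5605148969) (nat_lit 107) (nat_lit 5) (nat_lit 112) (nat_lit 5) (nat_lit 113) (nat_lit 5) (nat_lit 265) (nat_lit 246)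 (nat_lit 209)) (XT.lf (nat_lit 0) (nat_lit 6395307705) (nat_lit 504) (nat_lit 787955836) (nat_lit 84) (nat_lit 2662694535) (nat_lit 107) (nat_lit 5) (nat_lit 113) (nat_lit 5) (nat_lit 108) (nat_lit 5) (nat_lit 266) (nat_lit 246) (nat_lit 208))) (XT.nd (nat_lit 94) (nat_lit 420) (nat_lit 0) (XT.lf (nat_lit 0) (nat_lit 5584074977) (nat_lit 336) (nat_lit 3362966336) (nat_lit 420) (nat_lit 1140485473) (nat_lit 103) (nat_lit 5) (nat_lit 107) (nat_lit 5) (nat_lit 108) (nat_lit 5) (nat_lit 267) (nat_lit 246) (nat_lit 207)) (XT.lf (nat_lit 0) (nat_lit 1238986929) (nat_lit 420) (nat_lit 8419721253) (nat_lit 84) (nat_lit 681715815) (nat_lit 98) (nat_lit 5) (nat_lit 103) (nat_lit 5) (nat_lit 99) (nat_lit 5) (nat_lit 268) (nat_lit 246) (nat_lit 206))))) (XT.nd (nat_lit 376) (nat_lit 924) (nat_lit 0) (XT.nd (nat_lit 188) (nat_lit 420) (nat_lit 0) (XT.nd (nat_lit 94) (nat_lit 336) (nat_lit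 0) (XT.lf (nat_lit 0) (nat_lit 3773537232) (nat_lit 420) (nat_lit 1927260077) (nat_lit 84) (nat_lit 4900512331) (nat_lit 98) (nat_lit 5) (nat_lit 103) (nat_lit 5) (nat_lit 99) (nat_lit 5) (nat_lit 269) (nat_lit 246) (nat_lit 205)) (XT.lf (nat_lit 0) (nat_lit 4980227547) (nat_lit 336) (nat_lit 1476898090) (nat_lit 420) (nat_lit 4416998399) (nat_lit 94) (nat_lit 5) (nat_lit 98) (nat_lit 5) (nat_lit 99) (nat_lit 5) (nat_lit 270) (nat_lit 246) (nat_lit 204))) (XT.nd (nat_lit 94) (nat_lit 84) (nat_lit 0) (XT.lf (nat_lit 0) (nat_lit 1057832386) (nat_lit 336) (nat_lit 8258853501) (nat_lit 420) (nat_lit 1841803645) (nat_lit 90) (nat_lit 5) (nat_lit 94) (nat_lit 5) (nat_lit 95) (nat_lit 5) (nat_lit 271) (nat_lit 246) (nat_lit 203)) (XT.lf (nat_lit 0) (nat_lit 906769746) (nat_lit 420) (nat_lit 3000609449) (nat_lit 84) (nat_lit 7545410422) (nat_lit 89) (nat_lit 5) (nat_lit 94) (nat_lit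 5) (nat_lit 90) (nat_lit 5) (nat_lit 272) (nat_lit 246) (nat_lit 202)))) (XT.nd (nat_lit 188) (nat_lit 336) (nat_lit 0) (XT.nd (nat_lit 94) (nat_lit 336) (nat_lit 0) (XT.lf (nat_lit 0) (nat_lit 3761954747) (nat_lit 336) (nat_lit 7270354879) (nat_lit 84) (nat_lit 726431424) (nat_lit 86) (nat_lit 5) (nat_lit 90) (nat_lit 5) (nat_lit 87) (nat_lit 5) (nat_lit 273) (nat_lit 246) (nat_lit 201)) (XT.lf (nat_lit 0) (nat_lit 253038315) (nat_lit 336) (nat_lit 6576731312) (nat_lit 420) (nat_lit 5246726896) (nat_lit 82) (nat_lit 5) (nat_lit 86) (nat_lit 5) (nat_lit 87) (nat_lit 5) (nat_lit 274) (nat_lit 246) (nat_lit 200))) (XT.nd (nat_lit 94) (nat_lit 336) (nat_lit 0) (XT.lf (nat_lit 0) (nat_lit 8337391229) (nat_lit 336) (nat_lit 1788240743) (nat_lit 420) (nat_lit 2280774961) (nat_lit 82) (nat_lit 5) (nat_lit 86) (nat_lit 5) (nat_lit 87) (nat_lit 5) (nat_lit 275) (nat_lit 246) (nat_lit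 199)) (XT.nd (nat_lit 94) (nat_lit 0) (nat_lit 0) (XT.lf (nat_lit 0) (nat_lit 875854275) (nat_lit 336) (nat_lit 8676589483) (nat_lit 84) (nat_lit 3196265659) (nat_lit 78) (nat_lit 5) (nat_lit 82) (nat_lit 5) (nat_lit 79) (nat_lit 5) (nat_lit 276) (nat_lit 246) (nat_lit 198)) (XT.lf (nat_lit 0) (nat_lit 4167024471) (nat_lit 336) (nat_lit 477810078) (nat_lit 84) (nat_lit 8458755062) (nat_lit 78) (nat_lit 5) (nat_lit 82) (nat_lit 5) (nat_lit 79) (nat_lit 5) (nat_lit 277) (nat_lit 246) (nat_lit 197))))))))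
noncomputable def xc102 : XT := (XT.nd (nat_lit 1598) (nat_lit 1848) (nat_lit 0) (XT.nd (nat_lit 752) (nat_lit 1092) (nat_lit 0) (XT.nd (nat_lit 376) (nat_lit 672) (nat_lit 0) (XT.nd (nat_lit 188) (nat_lit 336) (nat_lit 0) (XT.nd (nat_lit 94) (nat_lit 252) (nat_lit 0) (XT.lf (nat_lit 0) (nat_lit 7718818982) (nat_lit 336) (nat_lit 5147696401) (nat_lit 84) (nat_lit 604895142) (nat_lit 75) (nat_lit 5) (nat_lit 79) (nat_lit 5) (nat_lit 76) (nat_lit 5) (nat_lit 278) (nat_lit 246) (nat_lit 196)) (XT.lf (nat_lit 0) (nat_lit 3702423576) (nat_lit 252) (nat_lit 7844943327) (nat_lit 336) (nat_lit 2305297397) (nat_lit 72) (nat_lit 5) (nat_lit 75) (nat_lit 5) (nat_lit 76) (nat_lit 5) (nat_lit 279) (nat_lit 246) (nat_lit 195))) (XT.nd (nat_lit 94) (nat_lit 252) (nat_lit 0) (XT.lf (nat_lit 0) (nat_lit 1318260450) (nat_lit 336) (nat_lit 1161660490) (nat_lit 84) (nat_lit 11769735444) (nat_lit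 71) (nat_lit 5) (nat_lit 75) (nat_lit 5) (nat_lit 72) (nat_lit 5) (nat_lit 280) (nat_lit 246) (nat_lit 194)) (XT.lf (nat_lit 0) (nat_lit 5188480148) (nat_lit 336) (nat_lit 6264576410) (nat_lit 84) (nat_lit 3204404071) (nat_lit 68) (nat_lit 5) (nat_lit 72) (nat_lit 5) (nat_lit 69) (nat_lit 5) (nat_lit 281) (nat_lit 246) (nat_lit 193)))) (XT.nd (nat_lit 188) (nat_lit 504) (nat_lit 0) (XT.nd (nat_lit 94) (nat_lit 0) (nat_lit 0) (XT.lf (nat_lit 0) (nat_lit 3385783024) (nat_lit 168) (nat_lit 5939983937) (nat_lit 252) (nat_lit 5756210319) (nat_lit 66) (nat_lit 5) (nat_lit 68) (nat_lit 5) (nat_lit 69) (nat_lit 5) (nat_lit 282) (nat_lit 246) (nat_lit 192)) (XT.lf (nat_lit 0) (nat_lit 13674737978) (nat_lit 168) (nat_lit 62261901) (nat_lit 252) (nat_lit 1787365796) (nat_lit 66) (nat_lit 5) (nat_lit 68) (nat_lit 5) (nat_lit 69) (nat_lit 5) (nat_lit 283) (nat_lit 246) (nat_lit 191)))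 (XT.nd (nat_lit 94) (nat_lit 168) (nat_lit 0) (XT.lf (nat_lit 0) (nat_lit 2499215288) (nat_lit 336) (nat_lit 7410143711) (nat_lit 84) (nat_lit 6067883296) (nat_lit 62) (nat_lit 5) (nat_lit 66) (nat_lit 5) (nat_lit 63) (nat_lit 5) (nat_lit 284) (nat_lit 246) (nat_lit 190)) (XT.lf (nat_lit 0) (nat_lit 3126638907) (nat_lit 168) (nat_lit 3857869007) (nat_lit 252) (nat_lit 9464567293) (nat_lit 60) (nat_lit 5) (nat_lit 62) (nat_lit 5) (nat_lit 63) (nat_lit 5) (nat_lit 285) (nat_lit 246) (nat_lit 189))))) (XT.nd (nat_lit 376) (nat_lit 672) (nat_lit 0) (XT.nd (nat_lit 188) (nat_lit 252) (nat_lit 0) (XT.nd (nat_lit 94) (nat_lit 168) (nat_lit 0) (XT.lf (nat_lit 0) (nat_lit 11823853707) (nat_lit 252) (nat_lit 2592496872) (nat_lit 84) (nat_lit 2521659759) (nat_lit 60) (nat_lit 5) (nat_lit 63) (nat_lit 5) (nat_lit 61) (nat_lit 5) (nat_lit 286) (nat_lit 246) (nat_lit 188)) (XT.lf (nat_lit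 0) (nat_lit 8835618312) (nat_lit 168) (nat_lit 8235754589) (nat_lit 252) (nat_lit 371709019) (nat_lit 58) (nat_lit 5) (nat_lit 60) (nat_lit 5) (nat_lit 61) (nat_lit 5) (nat_lit 287) (nat_lit 246) (nat_lit 187))) (XT.nd (nat_lit 94) (nat_lit 0) (nat_lit 0) (XT.lf (nat_lit 0) (nat_lit 2916530213) (nat_lit 168) (nat_lit 1599240415) (nat_lit 252) (nat_lit 13451269872) (nat_lit 55) (nat_lit 5) (nat_lit 57) (nat_lit 5) (nat_lit 58) (nat_lit 5) (nat_lit 288) (nat_lit 246) (nat_lit 186)) (XT.lf (nat_lit 0) (nat_lit 9832752240) (nat_lit 252) (nat_lit 3345153707) (nat_lit 84) (nat_lit 5329105391) (nat_lit 55) (nat_lit 5) (nat_lit 58) (nat_lit 5) (nat_lit 56) (nat_lit 5) (nat_lit 289) (nat_lit 246) (nat_lit 185)))) (XT.nd (nat_lit 188) (nat_lit 252) (nat_lit 0) (XT.nd (nat_lit 94) (nat_lit 252) (nat_lit 0) (XT.lf (nat_lit 0) (nat_lit 9156617126) (nat_lit 168) (nat_lit 6395411785) (nat_lit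 252) (nat_lit 3515129508) (nat_lit 53) (nat_lit 5) (nat_lit 55) (nat_lit 5) (nat_lit 56) (nat_lit 5) (nat_lit 290) (nat_lit 246) (nat_lit 184)) (XT.lf (nat_lit 0) (nat_lit 1922130393) (nat_lit 252) (nat_lit 16914941451) (nat_lit 84) (nat_lit 812703851) (nat_lit 50) (nat_lit 5) (nat_lit 53) (nat_lit 5) (nat_lit 51) (nat_lit 5) (nat_lit 291) (nat_lit 246) (nat_lit 183))) (XT.nd (nat_lit 94) (nat_lit 252) (nat_lit 0) (XT.lf (nat_lit 0) (nat_lit 7756333134) (nat_lit 252) (nat_lit 4118015158) (nat_lit 84) (nat_lit 8372133726) (nat_lit 50) (nat_lit 5) (nat_lit 53) (nat_lit 5) (nat_lit 51) (nat_lit 5) (nat_lit 292) (nat_lit 246) (nat_lit 182)) (XT.nd (nat_lit 94) (nat_lit 84) (nat_lit 0) (XT.lf (nat_lit 0) (nat_lit 9571570207) (nat_lit 168) (nat_lit 4429426405) (nat_lit 252) (nat_lit 6866089515) (nat_lit 48) (nat_lit 5) (nat_lit 50) (nat_lit 5) (nat_lit 51) (nat_lit 5) (nat_lit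 293) (nat_lit 246) (nat_lit 181)) (XT.lf (nat_lit 0) (nat_lit 2547032117) (nat_lit 84) (nat_lit 18144000771) (nat_lit 168) (nat_lit 821030572) (nat_lit 47) (nat_lit 5) (nat_lit 48) (nat_lit 5) (nat_lit 49) (nat_lit 4) (nat_lit 294) (nat_lit 246) (nat_lit 180))))))) (XT.nd (nat_lit 752) (nat_lit 924) (nat_lit 0) (XT.nd (nat_lit 376) (nat_lit 504) (nat_lit 0) (XT.nd (nat_lit 188) (nat_lit 168) (nat_lit 0) (XT.nd (nat_lit 94) (nat_lit 168) (nat_lit 0) (XT.lf (nat_lit 0) (nat_lit 5586180416) (nat_lit 168) (nat_lit 4921848568) (nat_lit 84) (nat_lit 11665107909) (nat_lit 46) (nat_lit 5) (nat_lit 48) (nat_lit 5) (nat_lit 47) (nat_lit 5) (nat_lit 295) (nat_lit 246) (nat_lit 179)) (XT.lf (nat_lit 0) (nat_lit 10081312351) (nat_lit 168) (nat_lit 2333416611) (nat_lit 252) (nat_lit 10445433608) (nat_lit 44) (nat_lit 5) (nat_lit 46) (nat_lit 5) (nat_lit 47) (nat_lit 5) (nat_lit 296) (nat_lit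 246) (nat_lit 178))) (XT.nd (nat_lit 94) (nat_lit 84) (nat_lit 0) (XT.lf (nat_lit 0) (nat_lit 2352874802) (nat_lit 84) (nat_lit 17422270875) (nat_lit 168) (nat_lit 3796871819) (nat_lit 43) (nat_lit 5) (nat_lit 44) (nat_lit 5) (nat_lit 45) (nat_lit 4) (nat_lit 297) (nat_lit 246) (nat_lit 177)) (XT.lf (nat_lit 0) (nat_lit 3311938715) (nat_lit 168) (nat_lit 5767049730) (nat_lit 84) (nat_lit 15226504455) (nat_lit 42) (nat_lit 5) (nat_lit 44) (nat_lit 5) (nat_lit 43) (nat_lit 5) (nat_lit 298) (nat_lit 246) (nat_lit 176)))) (XT.nd (nat_lit 188) (nat_lit 252) (nat_lit 0) (XT.nd (nat_lit 94) (nat_lit 84) (nat_lit 0) (XT.lf (nat_lit 0) (nat_lit 10688226733) (nat_lit 168) (nat_lit 100108590) (nat_lit 252) (nat_lit 14277207295) (nat_lit 40) (nat_lit 5) (nat_lit 42) (nat_lit 5) (nat_lit 43) (nat_lit 5) (nat_lit 299) (nat_lit 246) (nat_lit 175)) (XT.lf (nat_lit 0) (nat_lit 2180882756)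 (nat_lit 84) (nat_lit 16709684925) (nat_lit 168) (nat_lit 6960426344) (nat_lit 39) (nat_lit 5) (nat_lit 40) (nat_lit 5) (nat_lit 41) (nat_lit 4) (nat_lit 300) (nat_lit 246) (nat_lit 174))) (XT.nd (nat_lit 94) (nat_lit 168) (nat_lit 0) (XT.lf (nat_lit 0) (nat_lit 921353873) (nat_lit 168) (nat_lit 6663863173) (nat_lit 84) (nat_lit 19078823438) (nat_lit 38) (nat_lit 5) (nat_lit 40) (nat_lit 5) (nat_lit 39) (nat_lit 5) (nat_lit 301) (nat_lit 246) (nat_lit 173)) (XT.lf (nat_lit 0) (nat_lit 9151271400) (nat_lit 252) (nat_lit 16143871877) (nat_lit 84) (nat_lit 2207492506) (nat_lit 36) (nat_lit 5) (nat_lit 39) (nat_lit 5) (nat_lit 37) (nat_lit 4) (nat_lit 302) (nat_lit 246) (nat_lit 172))))) (XT.nd (nat_lit 376) (nat_lit 504) (nat_lit 0) (XT.nd (nat_lit 188) (nat_lit 336) (nat_lit 0) (XT.nd (nat_lit 94) (nat_lit 0) (nat_lit 0) (XT.lf (nat_lit 0) (nat_lit 2027709863) (nat_lit 84)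 (nat_lit 16010279674) (nat_lit 168) (nat_lit 10332906075) (nat_lit 35) (nat_lit 5) (nat_lit 36) (nat_lit 5) (nat_lit 37) (nat_lit 4) (nat_lit 303) (nat_lit 246) (nat_lit 171)) (XT.lf (nat_lit 0) (nat_lit 21621763019) (nat_lit 84) (nat_lit 5995760202) (nat_lit 168) (nat_lit 1652621230) (nat_lit 35) (nat_lit 5) (nat_lit 36) (nat_lit 5) (nat_lit 37) (nat_lit 4) (nat_lit 304) (nat_lit 246) (nat_lit 170))) (XT.nd (nat_lit 94) (nat_lit 84) (nat_lit 0) (XT.lf (nat_lit 0) (nat_lit 7464636110) (nat_lit 252) (nat_lit 18065168046) (nat_lit 84) (nat_lit 4666637762) (nat_lit 32) (nat_lit 5) (nat_lit 35) (nat_lit 5) (nat_lit 33) (nat_lit 4) (nat_lit 305) (nat_lit 246) (nat_lit 169)) (XT.lf (nat_lit 0) (nat_lit 1890575468) (nat_lit 84) (nat_lit 15327106742) (nat_lit 168) (nat_lit 13938244202) (nat_lit 31) (nat_lit 5) (nat_lit 32) (nat_lit 5) (nat_lit 33) (nat_lit 4) (nat_lit 306) (nat_lit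 246) (nat_lit 168)))) (XT.nd (nat_lit 188) (nat_lit 252) (nat_lit 0) (XT.nd (nat_lit 94) (nat_lit 252) (nat_lit 0) (XT.lf (nat_lit 0) (nat_lit 23426721900) (nat_lit 84) (nat_lit 4314051944) (nat_lit 168) (nat_lit 4408491624) (nat_lit 31) (nat_lit 5) (nat_lit 32) (nat_lit 5) (nat_lit 33) (nat_lit 4) (nat_lit 307) (nat_lit 246) (nat_lit 167)) (XT.lf (nat_lit 0) (nat_lit 5718564186) (nat_lit 252) (nat_lit 20159164846) (nat_lit 84) (nat_lit 7295173693) (nat_lit 28) (nat_lit 5) (nat_lit 31) (nat_lit 5) (nat_lit 29) (nat_lit 4) (nat_lit 308) (nat_lit 246) (nat_lit 166))) (XT.nd (nat_lit 94) (nat_lit 168) (nat_lit 0) (XT.lf (nat_lit 0) (nat_lit 1767165445) (nat_lit 84) (nat_lit 14662420107) (nat_lit 168) (nat_lit 17803234426) (nat_lit 27) (nat_lit 5) (nat_lit 28) (nat_lit 5) (nat_lit 29) (nat_lit 4) (nat_lit 309) (nat_lit 246) (nat_lit 165)) (XT.nd (nat_lit 94) (nat_lit 168) (nat_lit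 0) (XT.lf (nat_lit 0) (nat_lit 25447086090) (nat_lit 84) (nat_lit 2548204542) (nat_lit 168) (nat_lit 7334485828) (nat_lit 27) (nat_lit 5) (nat_lit 28) (nat_lit 5) (nat_lit 29) (nat_lit 4) (nat_lit 310) (nat_lit 246) (nat_lit 164)) (XT.lf (nat_lit 0) (nat_lit 3903607210) (nat_lit 168) (nat_lit 22446763915) (nat_lit 84) (nat_lit 10110205481) (nat_lit 25) (nat_lit 5) (nat_lit 27) (nat_lit 5) (nat_lit 26) (nat_lit 4) (nat_lit 311) (nat_lit 246) (nat_lit 163))))))))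
noncomputable def xc103 : XT := (XT.nd (nat_lit 1598) (nat_lit 756) (nat_lit 0) (XT.nd (nat_lit 752) (nat_lit 756) (nat_lit 0) (XT.nd (nat_lit 376) (nat_lit 252) (nat_lit 0) (XT.nd (nat_lit 188) (nat_lit 252) (nat_lit 0) (XT.nd (nat_lit 94) (nat_lit 0) (nat_lit 0) (XT.lf (nat_lit 0) (nat_lit 1655550745) (nat_lit 84) (nat_lit 14017829745) (nat_lit 168) (nat_lit 21957711274) (nat_lit 24) (nat_lit 5) (nat_lit 25) (nat_lit 5) (nat_lit 26) (nat_lit 4) (nat_lit 312) (nat_lit 246) (nat_lit 162)) (XT.lf (nat_lit 0) (nat_lit 27701570099) (nat_lit 84) (nat_lit 689134845) (nat_lit 168) (nat_lit 10451474612) (nat_lit 24) (nat_lit 5) (nat_lit 25) (nat_lit 5) (nat_lit 26) (nat_lit 4) (nat_lit 313) (nat_lit 246) (nat_lit 161))) (XT.nd (nat_lit 94) (nat_lit 84) (nat_lit 0) (XT.lf (nat_lit 0) (nat_lit 2009145383) (nat_lit 168) (nat_lit 24950494201) (nat_lit 84) (nat_lit 13131347450) (nat_lit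 22) (nat_lit 5) (nat_lit 24) (nat_lit 5) (nat_lit 23) (nat_lit 4) (nat_lit 314) (nat_lit 246) (nat_lit 160)) (XT.lf (nat_lit 0) (nat_lit 1554120325) (nat_lit 84) (nat_lit 13394427448) (nat_lit 168) (nat_lit 26434770857) (nat_lit 21) (nat_lit 5) (nat_lit 22) (nat_lit 5) (nat_lit 23) (nat_lit 4) (nat_lit 315) (nat_lit 246) (nat_lit 159)))) (XT.nd (nat_lit 188) (nat_lit 84) (nat_lit 0) (XT.nd (nat_lit 94) (nat_lit 168) (nat_lit 0) (XT.lf (nat_lit 0) (nat_lit 28957381513) (nat_lit 168) (nat_lit 12528719144) (nat_lit 0) (nat_lit 1233043087) (nat_lit 21) (nat_lit 5) (nat_lit 23) (nat_lit 4) (nat_lit 21) (nat_lit 4) (nat_lit 316) (nat_lit 246) (nat_lit 158)) (XT.lf (nat_lit 0) (nat_lit 23341438) (nat_lit 168) (nat_lit 27694767603) (nat_lit 84) (nat_lit 16380812421) (nat_lit 19) (nat_lit 5) (nat_lit 21) (nat_lit 5) (nat_lit 20) (nat_lit 4) (nat_lit 317) (nat_lit 246) (nat_lit 157)))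 (XT.nd (nat_lit 94) (nat_lit 0) (nat_lit 0) (XT.lf (nat_lit 0) (nat_lit 1461525903) (nat_lit 84) (nat_lit 12792889777) (nat_lit 168) (nat_lit 31271032210) (nat_lit 18) (nat_lit 5) (nat_lit 19) (nat_lit 5) (nat_lit 20) (nat_lit 4) (nat_lit 318) (nat_lit 246) (nat_lit 156)) (XT.lf (nat_lit 0) (nat_lit 29699478152) (nat_lit 168) (nat_lit 14053133038) (nat_lit 0) (nat_lit 3245567724) (nat_lit 18) (nat_lit 5) (nat_lit 20) (nat_lit 4) (nat_lit 18) (nat_lit 4) (nat_lit 319) (nat_lit 246) (nat_lit 155))))) (XT.nd (nat_lit 376) (nat_lit 420) (nat_lit 0) (XT.nd (nat_lit 188) (nat_lit 84) (nat_lit 0) (XT.nd (nat_lit 94) (nat_lit 168) (nat_lit 0) (XT.lf (nat_lit 0) (nat_lit 17781612102) (nat_lit 84) (nat_lit 28604215698) (nat_lit 84) (nat_lit 2135266988) (nat_lit 17) (nat_lit 4) (nat_lit 18) (nat_lit 5) (nat_lit 18) (nat_lit 4) (nat_lit 320) (nat_lit 246) (nat_lit 154)) (XT.lf (nat_lit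 0) (nat_lit 1376636469) (nat_lit 84) (nat_lit 12213562239) (nat_lit 168) (nat_lit 36506940119) (nat_lit 15) (nat_lit 5) (nat_lit 16) (nat_lit 5) (nat_lit 17) (nat_lit 4) (nat_lit 321) (nat_lit 246) (nat_lit 153))) (XT.nd (nat_lit 94) (nat_lit 84) (nat_lit 0) (XT.lf (nat_lit 0) (nat_lit 30619074828) (nat_lit 168) (nat_lit 15717793767) (nat_lit 0) (nat_lit 5383921448) (nat_lit 15) (nat_lit 5) (nat_lit 17) (nat_lit 4) (nat_lit 15) (nat_lit 4) (nat_lit 322) (nat_lit 246) (nat_lit 152)) (XT.lf (nat_lit 0) (nat_lit 19318812275) (nat_lit 84) (nat_lit 29665056626) (nat_lit 84) (nat_lit 4417531214) (nat_lit 14) (nat_lit 4) (nat_lit 15) (nat_lit 5) (nat_lit 15) (nat_lit 4) (nat_lit 323) (nat_lit 246) (nat_lit 151)))) (XT.nd (nat_lit 188) (nat_lit 252) (nat_lit 0) (XT.nd (nat_lit 94) (nat_lit 0) (nat_lit 0) (XT.lf (nat_lit 0) (nat_lit 1298500793) (nat_lit 84) (nat_lit 11656528032)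 (nat_lit 168) (nat_lit 42187110994) (nat_lit 12) (nat_lit 5) (nat_lit 13) (nat_lit 5) (nat_lit 14) (nat_lit 4) (nat_lit 324) (nat_lit 246) (nat_lit 150)) (XT.lf (nat_lit 0) (nat_lit 31730344686) (nat_lit 168) (nat_lit 17538648437) (nat_lit 0) (nat_lit 7663173165) (nat_lit 12) (nat_lit 5) (nat_lit 14) (nat_lit 4) (nat_lit 12) (nat_lit 4) (nat_lit 325) (nat_lit 246) (nat_lit 149))) (XT.nd (nat_lit 94) (nat_lit 168) (nat_lit 0) (XT.lf (nat_lit 0) (nat_lit 21030862963) (nat_lit 84) (nat_lit 30916516736) (nat_lit 84) (nat_lit 6839166714) (nat_lit 11) (nat_lit 4) (nat_lit 12) (nat_lit 5) (nat_lit 12) (nat_lit 4) (nat_lit 326) (nat_lit 246) (nat_lit 148)) (XT.nd (nat_lit 94) (nat_lit 0) (nat_lit 0) (XT.lf (nat_lit 0) (nat_lit 1226316543) (nat_lit 84) (nat_lit 11121664127) (nat_lit 168) (nat_lit 48360723980) (nat_lit 9) (nat_lit 5) (nat_lit 10) (nat_lit 5) (nat_lit 11) (nat_lit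 4) (nat_lit 327) (nat_lit 246) (nat_lit 147)) (XT.lf (nat_lit 0) (nat_lit 33048961528) (nat_lit 168) (nat_lit 19533060339) (nat_lit 0) (nat_lit 10100127211) (nat_lit 9) (nat_lit 5) (nat_lit 11) (nat_lit 4) (nat_lit 9) (nat_lit 4) (nat_lit 328) (nat_lit 246) (nat_lit 146))))))) (XT.nd (nat_lit 752) (nat_lit 0) (nat_lit 0) (XT.nd (nat_lit 376) (nat_lit 420) (nat_lit 0) (XT.nd (nat_lit 188) (nat_lit 84) (nat_lit 0) (XT.nd (nat_lit 94) (nat_lit 168) (nat_lit 0) (XT.lf (nat_lit 0) (nat_lit 22934207784) (nat_lit 84) (nat_lit 32375514790) (nat_lit 84) (nat_lit 9418306595) (nat_lit 8) (nat_lit 4) (nat_lit 9) (nat_lit 5) (nat_lit 9) (nat_lit 4) (nat_lit 329) (nat_lit 246) (nat_lit 145)) (XT.lf (nat_lit 0) (nat_lit 1159404823) (nat_lit 84) (nat_lit 10608686952) (nat_lit 168) (nat_lit 55081960158) (nat_lit 6) (nat_lit 5) (nat_lit 7) (nat_lit 5) (nat_lit 8) (nat_lit 4) (nat_lit 330)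 (nat_lit 246) (nat_lit 144))) (XT.nd (nat_lit 94) (nat_lit 84) (nat_lit 0) (XT.lf (nat_lit 0) (nat_lit 34592276803) (nat_lit 168) (nat_lit 21719989957) (nat_lit 0) (nat_lit 12713439973) (nat_lit 6) (nat_lit 5) (nat_lit 8) (nat_lit 4) (nat_lit 6) (nat_lit 4) (nat_lit 331) (nat_lit 246) (nat_lit 143)) (XT.lf (nat_lit 0) (nat_lit 25047162425) (nat_lit 84) (nat_lit 34060601619) (nat_lit 84) (nat_lit 12174875579) (nat_lit 5) (nat_lit 4) (nat_lit 6) (nat_lit 5) (nat_lit 6) (nat_lit 4) (nat_lit 332) (nat_lit 246) (nat_lit 142)))) (XT.nd (nat_lit 188) (nat_lit 252) (nat_lit 0) (XT.nd (nat_lit 94) (nat_lit 0) (nat_lit 0) (XT.lf (nat_lit 0) (nat_lit 1097189187) (nat_lit 84) (nat_lit 10117189534) (nat_lit 168) (nat_lit 62410493239) (nat_lit 3) (nat_lit 5) (nat_lit 4) (nat_lit 5) (nat_lit 5) (nat_lit 4) (nat_lit 333) (nat_lit 246) (nat_lit 141)) (XT.lf (nat_lit 0) (nat_lit 36379509116)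 (nat_lit 168) (nat_lit 24120188310) (nat_lit 0) (nat_lit 15523760630) (nat_lit 3) (nat_lit 5) (nat_lit 5) (nat_lit 4) (nat_lit 3) (nat_lit 4) (nat_lit 334) (nat_lit 246) (nat_lit 140))) (XT.nd (nat_lit 94) (nat_lit 168) (nat_lit 0) (XT.lf (nat_lit 0) (nat_lit 27390077046) (nat_lit 84) (nat_lit 35992172496) (nat_lit 84) (nat_lit 15130756240) (nat_lit 2) (nat_lit 4) (nat_lit 3) (nat_lit 5) (nat_lit 3) (nat_lit 4) (nat_lit 335) (nat_lit 246) (nat_lit 139)) (XT.lf (nat_lit 0) (nat_lit 117610596360) (nat_lit 0) (nat_lit 0) (nat_lit 0) (nat_lit 0) (nat_lit 0) (nat_lit 0) (nat_lit 1) (nat_lit 0) (nat_lit 1) (nat_lit 0) (nat_lit 336) (nat_lit 246) (nat_lit 138))))) (XT.nd (nat_lit 376) (nat_lit 0) (nat_lit 0) (XT.nd (nat_lit 188) (nat_lit 0) (nat_lit 0) (XT.nd (nat_lit 94) (nat_lit 0) (nat_lit 0) (XT.lf (nat_lit 0) (nat_lit 123418457362) (nat_lit 0) (nat_lit 0) (nat_lit 0) (nat_lit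 0) (nat_lit 0) (nat_lit 0) (nat_lit 1) (nat_lit 0) (nat_lit 1) (nat_lit 0) (nat_lit 337) (nat_lit 246) (nat_lit 137)) (XT.lf (nat_lit 0) (nat_lit 129516745841) (nat_lit 0) (nat_lit 0) (nat_lit 0) (nat_lit 0) (nat_lit 0) (nat_lit 0) (nat_lit 1) (nat_lit 0) (nat_lit 1) (nat_lit 0) (nat_lit 338) (nat_lit 246) (nat_lit 136))) (XT.nd (nat_lit 94) (nat_lit 0) (nat_lit 0) (XT.lf (nat_lit 0) (nat_lit 135919981533) (nat_lit 0) (nat_lit 0) (nat_lit 0) (nat_lit 0) (nat_lit 0) (nat_lit 0) (nat_lit 1) (nat_lit 0) (nat_lit 1) (nat_lit 0) (nat_lit 339) (nat_lit 246) (nat_lit 135)) (XT.lf (nat_lit 0) (nat_lit 142643410236) (nat_lit 0) (nat_lit 0) (nat_lit 0) (nat_lit 0) (nat_lit 0) (nat_lit 0) (nat_lit 1) (nat_lit 0) (nat_lit 1) (nat_lit 0) (nat_lit 340) (nat_lit 246) (nat_lit 134)))) (XT.nd (nat_lit 36378) (nat_lit 0) (nat_lit 13776) (XT.nd (nat_lit 94) (nat_lit 0) (nat_lit 0) (XT.lf (nat_lit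 0) (nat_lit 149703040114) (nat_lit 0) (nat_lit 0) (nat_lit 0) (nat_lit 0) (nat_lit 0) (nat_lit 0) (nat_lit 1) (nat_lit 0) (nat_lit 1) (nat_lit 0) (nat_lit 341) (nat_lit 246) (nat_lit 133)) (XT.lf (nat_lit 0) (nat_lit 157115679809) (nat_lit 0) (nat_lit 0) (nat_lit 0) (nat_lit 0) (nat_lit 0) (nat_lit 0) (nat_lit 1) (nat_lit 0) (nat_lit 1) (nat_lit 0) (nat_lit 342) (nat_lit 246) (nat_lit 132))) (XT.nd (nat_lit 94) (nat_lit 0) (nat_lit 0) (XT.lf (nat_lit 0) (nat_lit 983288773) (nat_lit 588) (nat_lit 1259473935) (nat_lit 588) (nat_lit 1259473935) (nat_lit 164) (nat_lit 3) (nat_lit 171) (nat_lit 3) (nat_lit 171) (nat_lit 5) (nat_lit 247) (nat_lit 247) (nat_lit 226)) (XT.nd (nat_lit 94) (nat_lit 0) (nat_lit 0) (XT.lf (nat_lit 84) (nat_lit 1015800741) (nat_lit 0) (nat_lit 2809499616) (nat_lit 588) (nat_lit 3263806844) (nat_lit 165) (nat_lit 5) (nat_lit 164) (nat_lit 3) (nat_lit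 171) (nat_lit 5) (nat_lit 248) (nat_lit 247) (nat_lit 225)) (XT.lf (nat_lit 84) (nat_lit 4752465790) (nat_lit 0) (nat_lit 951361727) (nat_lit 588) (nat_lit 1477801882) (nat_lit 165) (nat_lit 5) (nat_lit 164) (nat_lit 3) (nat_lit 171) (nat_lit 5) (nat_lit 249) (nat_lit 247) (nat_lit 224))))))))
noncomputable def xc104 : XT := (XT.nd (nat_lit 1504) (nat_lit 3696) (nat_lit 0) (XT.nd (nat_lit 752) (nat_lit 2688) (nat_lit 0) (XT.nd (nat_lit 376) (nat_lit 1176) (nat_lit 0) (XT.nd (nat_lit 188) (nat_lit 0) (nat_lit 0) (XT.nd (nat_lit 94) (nat_lit 0) (nat_lit 0) (XT.lf (nat_lit 0) (nat_lit 310941075) (nat_lit 588) (nat_lit 5927952618) (nat_lit 672) (nat_lit 1043265691) (nat_lit 158) (nat_lit 5) (nat_lit 165) (nat_lit 5) (nat_lit 166) (nat_lit 5) (nat_lit 250) (nat_lit 247) (nat_lit 223)) (XT.lf (nat_lit 0) (nat_lit 2089864805) (nat_lit 588) (nat_lit 2083172012) (nat_lit 672) (nat_lit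 3215947365) (nat_lit 158) (nat_lit 5) (nat_lit 165) (nat_lit 5) (nat_lit 166) (nat_lit 5) (nat_lit 251) (nat_lit 247) (nat_lit 222))) (XT.nd (nat_lit 94) (nat_lit 0) (nat_lit 84) (XT.lf (nat_lit 84) (nat_lit 1951451922) (nat_lit 0) (nat_lit 1934843665) (nat_lit 672) (nat_lit 3618426591) (nat_lit 159) (nat_lit 5) (nat_lit 158) (nat_lit 5) (nat_lit 166) (nat_lit 5) (nat_lit 252) (nat_lit 247) (nat_lit 221)) (XT.lf (nat_lit 0) (nat_lit 5717373466) (nat_lit 588) (nat_lit 1440660168) (nat_lit 672) (nat_lit 470972160) (nat_lit 159) (nat_lit 5) (nat_lit 166) (nat_lit 5) (nat_lit 167) (nat_lit 5) (nat_lit 253) (nat_lit 247) (nat_lit 220)))) (XT.nd (nat_lit 188) (nat_lit 588) (nat_lit 0) (XT.nd (nat_lit 94) (nat_lit 672) (nat_lit 0) (XT.lf (nat_lit 84) (nat_lit 2871830136) (nat_lit 0) (nat_lit 4751859093) (nat_lit 672) (nat_lit 136630163) (nat_lit 160) (nat_lit 5) (nat_lit 159) (nat_lit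 5) (nat_lit 167) (nat_lit 5) (nat_lit 254) (nat_lit 247) (nat_lit 219)) (XT.lf (nat_lit 0) (nat_lit 1605712443) (nat_lit 672) (nat_lit 542273413) (nat_lit 756) (nat_lit 5752171102) (nat_lit 151) (nat_lit 5) (nat_lit 159) (nat_lit 5) (nat_lit 160) (nat_lit 5) (nat_lit 255) (nat_lit 247) (nat_lit 218))) (XT.nd (nat_lit 94) (nat_lit 672) (nat_lit 0) (XT.lf (nat_lit 0) (nat_lit 3418336400) (nat_lit 672) (nat_lit 3973486361) (nat_lit 84) (nat_lit 655663854) (nat_lit 152) (nat_lit 5) (nat_lit 160) (nat_lit 5) (nat_lit 153) (nat_lit 5) (nat_lit 256) (nat_lit 247) (nat_lit 217)) (XT.lf (nat_lit 0) (nat_lit 655715573) (nat_lit 672) (nat_lit 4637501910) (nat_lit 756) (nat_lit 2910383976) (nat_lit 144) (nat_lit 5) (nat_lit 152) (nat_lit 5) (nat_lit 153) (nat_lit 5) (nat_lit 257) (nat_lit 247) (nat_lit 216))))) (XT.nd (nat_lit 376) (nat_lit 1008) (nat_lit 0) (XT.nd (nat_lit 188) (nat_lit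 840) (nat_lit 0) (XT.nd (nat_lit 94) (nat_lit 840) (nat_lit 0) (XT.lf (nat_lit 0) (nat_lit 5587327917) (nat_lit 672) (nat_lit 1661562773) (nat_lit 756) (nat_lit 1119278953) (nat_lit 144) (nat_lit 5) (nat_lit 152) (nat_lit 5) (nat_lit 153) (nat_lit 5) (nat_lit 258) (nat_lit 247) (nat_lit 215)) (XT.lf (nat_lit 0) (nat_lit 717736435) (nat_lit 840) (nat_lit 6349052480) (nat_lit 84) (nat_lit 1474546751) (nat_lit 134) (nat_lit 5) (nat_lit 144) (nat_lit 5) (nat_lit 135) (nat_lit 5) (nat_lit 259) (nat_lit 247) (nat_lit 214))) (XT.nd (nat_lit 94) (nat_lit 840) (nat_lit 0) (XT.lf (nat_lit 0) (nat_lit 2609247188) (nat_lit 840) (nat_lit 1325764523) (nat_lit 84) (nat_lit 4787217852) (nat_lit 134) (nat_lit 5) (nat_lit 144) (nat_lit 5) (nat_lit 135) (nat_lit 5) (nat_lit 260) (nat_lit 247) (nat_lit 213)) (XT.lf (nat_lit 0) (nat_lit 4011156999) (nat_lit 840) (nat_lit 575520000) (nat_lit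 924) (nat_lit 4325923981) (nat_lit 124) (nat_lit 5) (nat_lit 134) (nat_lit 5) (nat_lit 135) (nat_lit 5) (nat_lit 261) (nat_lit 247) (nat_lit 212)))) (XT.nd (nat_lit 188) (nat_lit 504) (nat_lit 0) (XT.nd (nat_lit 94) (nat_lit 0) (nat_lit 0) (XT.lf (nat_lit 0) (nat_lit 449144992) (nat_lit 504) (nat_lit 6220917655) (nat_lit 588) (nat_lit 2442074103) (nat_lit 118) (nat_lit 5) (nat_lit 124) (nat_lit 5) (nat_lit 125) (nat_lit 5) (nat_lit 262) (nat_lit 247) (nat_lit 211)) (XT.lf (nat_lit 0) (nat_lit 6160428294) (nat_lit 504) (nat_lit 2722871327) (nat_lit 588) (nat_lit 437065585) (nat_lit 118) (nat_lit 5) (nat_lit 124) (nat_lit 5) (nat_lit 125) (nat_lit 5) (nat_lit 263) (nat_lit 247) (nat_lit 210))) (XT.nd (nat_lit 94) (nat_lit 0) (nat_lit 0) (XT.lf (nat_lit 0) (nat_lit 1606967968) (nat_lit 504) (nat_lit 6945228056) (nat_lit 84) (nat_lit 985898442) (nat_lit 112) (nat_lit 5) (nat_lit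 118) (nat_lit 5) (nat_lit 113) (nat_lit 5) (nat_lit 264) (nat_lit 247) (nat_lit 209)) (XT.lf (nat_lit 0) (nat_lit 3775079168) (nat_lit 504) (nat_lit 1141894547) (nat_lit 84) (nat_lit 4847550011) (nat_lit 112) (nat_lit 5) (nat_lit 118) (nat_lit 5) (nat_lit 113) (nat_lit 5) (nat_lit 265) (nat_lit 247) (nat_lit 208)))))) (XT.nd (nat_lit 752) (nat_lit 1764) (nat_lit 0) (XT.nd (nat_lit 376) (nat_lit 756) (nat_lit 0) (XT.nd (nat_lit 188) (nat_lit 420) (nat_lit 0) (XT.nd (nat_lit 94) (nat_lit 336) (nat_lit 0) (XT.lf (nat_lit 0) (nat_lit 5048231675) (nat_lit 420) (nat_lit 1022690483) (nat_lit 504) (nat_lit 3930385980) (nat_lit 107) (nat_lit 5) (nat_lit 112) (nat_lit 5) (nat_lit 113) (nat_lit 5) (nat_lit 266) (nat_lit 247) (nat_lit 207)) (XT.lf (nat_lit 0) (nat_lit 1264126018) (nat_lit 336) (nat_lit 7246943925) (nat_lit 420) (nat_lit 1737386195) (nat_lit 103) (nat_lit 5) (nat_lit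 107) (nat_lit 5) (nat_lit 108) (nat_lit 5) (nat_lit 267) (nat_lit 247) (nat_lit 206))) (XT.nd (nat_lit 94) (nat_lit 336) (nat_lit 0) (XT.lf (nat_lit 0) (nat_lit 592249089) (nat_lit 420) (nat_lit 2634078941) (nat_lit 84) (nat_lit 7278938367) (nat_lit 102) (nat_lit 5) (nat_lit 107) (nat_lit 5) (nat_lit 103) (nat_lit 5) (nat_lit 268) (nat_lit 247) (nat_lit 205)) (XT.lf (nat_lit 0) (nat_lit 3006199542) (nat_lit 420) (nat_lit 6718690560) (nat_lit 84) (nat_lit 1047291931) (nat_lit 98) (nat_lit 5) (nat_lit 103) (nat_lit 5) (nat_lit 99) (nat_lit 5) (nat_lit 269) (nat_lit 247) (nat_lit 204)))) (XT.nd (nat_lit 188) (nat_lit 420) (nat_lit 0) (XT.nd (nat_lit 94) (nat_lit 336) (nat_lit 0) (XT.lf (nat_lit 0) (nat_lit 5586274348) (nat_lit 420) (nat_lit 2654742) (nat_lit 84) (nat_lit 5461243020) (nat_lit 98) (nat_lit 5) (nat_lit 103) (nat_lit 5) (nat_lit 99) (nat_lit 5) (nat_lit 270) (nat_lit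 247) (nat_lit 203)) (XT.lf (nat_lit 0) (nat_lit 7217611000) (nat_lit 336) (nat_lit 1140139032) (nat_lit 420) (nat_lit 2981191802) (nat_lit 94) (nat_lit 5) (nat_lit 98) (nat_lit 5) (nat_lit 99) (nat_lit 5) (nat_lit 271) (nat_lit 247) (nat_lit 202))) (XT.nd (nat_lit 94) (nat_lit 84) (nat_lit 0) (XT.lf (nat_lit 0) (nat_lit 3138334294) (nat_lit 336) (nat_lit 8184584271) (nat_lit 420) (nat_lit 316475524) (nat_lit 90) (nat_lit 5) (nat_lit 94) (nat_lit 5) (nat_lit 95) (nat_lit 5) (nat_lit 272) (nat_lit 247) (nat_lit 201)) (XT.lf (nat_lit 0) (nat_lit 2443204249) (nat_lit 420) (nat_lit 1170280135) (nat_lit 84) (nat_lit 8337389913) (nat_lit 89) (nat_lit 5) (nat_lit 94) (nat_lit 5) (nat_lit 90) (nat_lit 5) (nat_lit 273) (nat_lit 247) (nat_lit 200))))) (XT.nd (nat_lit 376) (nat_lit 840) (nat_lit 0) (XT.nd (nat_lit 188) (nat_lit 336) (nat_lit 0) (XT.nd (nat_lit 94) (nat_lit 336) (nat_lit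 0) (XT.lf (nat_lit 0) (nat_lit 5408337922) (nat_lit 336) (nat_lit 5620702257) (nat_lit 84) (nat_lit 1244723651) (nat_lit 86) (nat_lit 5) (nat_lit 90) (nat_lit 5) (nat_lit 87) (nat_lit 5) (nat_lit 274) (nat_lit 247) (nat_lit 199)) (XT.lf (nat_lit 0) (nat_lit 2246390107) (nat_lit 336) (nat_lit 6344635551) (nat_lit 420) (nat_lit 4018307314) (nat_lit 82) (nat_lit 5) (nat_lit 86) (nat_lit 5) (nat_lit 87) (nat_lit 5) (nat_lit 275) (nat_lit 247) (nat_lit 198))) (XT.nd (nat_lit 94) (nat_lit 336) (nat_lit 0) (XT.lf (nat_lit 0) (nat_lit 10640641624) (nat_lit 336) (nat_lit 1343431518) (nat_lit 420) (nat_lit 975046160) (nat_lit 82) (nat_lit 5) (nat_lit 86) (nat_lit 5) (nat_lit 87) (nat_lit 5) (nat_lit 276) (nat_lit 247) (nat_lit 197)) (XT.lf (nat_lit 0) (nat_lit 2266979765) (nat_lit 336) (nat_lit 7151603350) (nat_lit 84) (nat_lit 3900195132) (nat_lit 78) (nat_lit 5) (nat_lit 82) (nat_lit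 5) (nat_lit 79) (nat_lit 5) (nat_lit 277) (nat_lit 247) (nat_lit 196)))) (XT.nd (nat_lit 188) (nat_lit 588) (nat_lit 0) (XT.nd (nat_lit 94) (nat_lit 0) (nat_lit 0) (XT.lf (nat_lit 0) (nat_lit 1408932736) (nat_lit 252) (nat_lit 4271614420) (nat_lit 336) (nat_lit 8012963362) (nat_lit 75) (nat_lit 5) (nat_lit 78) (nat_lit 5) (nat_lit 79) (nat_lit 5) (nat_lit 278) (nat_lit 247) (nat_lit 195)) (XT.lf (nat_lit 0) (nat_lit 9364616139) (nat_lit 336) (nat_lit 3516224682) (nat_lit 84) (nat_lit 1201147419) (nat_lit 75) (nat_lit 5) (nat_lit 79) (nat_lit 5) (nat_lit 76) (nat_lit 5) (nat_lit 279) (nat_lit 247) (nat_lit 194))) (XT.nd (nat_lit 94) (nat_lit 336) (nat_lit 0) (XT.lf (nat_lit 0) (nat_lit 5745935866) (nat_lit 252) (nat_lit 7607677131) (nat_lit 336) (nat_lit 1130240631) (nat_lit 72) (nat_lit 5) (nat_lit 75) (nat_lit 5) (nat_lit 76) (nat_lit 5) (nat_lit 280) (nat_lit 247) (nat_lit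 193)) (XT.nd (nat_lit 94) (nat_lit 0) (nat_lit 0) (XT.lf (nat_lit 0) (nat_lit 608975564) (nat_lit 252) (nat_lit 1974251709) (nat_lit 336) (nat_lit 12318959240) (nat_lit 68) (nat_lit 5) (nat_lit 71) (nat_lit 5) (nat_lit 72) (nat_lit 5) (nat_lit 281) (nat_lit 247) (nat_lit 192)) (XT.lf (nat_lit 0) (nat_lit 6618266475) (nat_lit 336) (nat_lit 4749393507) (nat_lit 84) (nat_lit 3964155562) (nat_lit 68) (nat_lit 5) (nat_lit 72) (nat_lit 5) (nat_lit 69) (nat_lit 5) (nat_lit 282) (nat_lit 247) (nat_lit 191))))))))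
noncomputable def xc105 : XT := (XT.nd (nat_lit 1598) (nat_lit 1764) (nat_lit 0) (XT.nd (nat_lit 752) (nat_lit 1092) (nat_lit 0) (XT.nd (nat_lit 376) (nat_lit 420) (nat_lit 0) (XT.nd (nat_lit 188) (nat_lit 504) (nat_lit 0) (XT.nd (nat_lit 94) (nat_lit 0) (nat_lit 0) (XT.lf (nat_lit 0) (nat_lit 5353993387) (nat_lit 168) (nat_lit 5580778904) (nat_lit 252) (nat_lit 4844168003) (nat_lit 66) (nat_lit 5) (nat_lit 68) (nat_lit 5) (nat_lit 69) (nat_lit 5) (nat_lit 283) (nat_lit 247) (nat_lit 190)) (XT.lf (nat_lit 0) (nat_lit 15520888395) (nat_lit 252) (nat_lit 183172325) (nat_lit 84) (nat_lit 541671312) (nat_lit 66) (nat_lit 5) (nat_lit 69) (nat_lit 5) (nat_lit 67) (nat_lit 5) (nat_lit 284) (nat_lit 247) (nat_lit 189))) (XT.nd (nat_lit 94) (nat_lit 168) (nat_lit 0) (XT.lf (nat_lit 0) (nat_lit 3714536506) (nat_lit 336) (nat_lit 6015036070) (nat_lit 84) (nat_lit 6992013811) (nat_lit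 62) (nat_lit 5) (nat_lit 66) (nat_lit 5) (nat_lit 63) (nat_lit 5) (nat_lit 285) (nat_lit 247) (nat_lit 188)) (XT.lf (nat_lit 0) (nat_lit 5020108020) (nat_lit 168) (nat_lit 3379185396) (nat_lit 252) (nat_lit 8818957546) (nat_lit 60) (nat_lit 5) (nat_lit 62) (nat_lit 5) (nat_lit 63) (nat_lit 5) (nat_lit 286) (nat_lit 247) (nat_lit 187)))) (XT.nd (nat_lit 188) (nat_lit 168) (nat_lit 0) (XT.nd (nat_lit 94) (nat_lit 252) (nat_lit 0) (XT.lf (nat_lit 0) (nat_lit 13439851446) (nat_lit 252) (nat_lit 1026950313) (nat_lit 84) (nat_lit 3266868843) (nat_lit 60) (nat_lit 5) (nat_lit 63) (nat_lit 5) (nat_lit 61) (nat_lit 5) (nat_lit 287) (nat_lit 247) (nat_lit 186)) (XT.lf (nat_lit 0) (nat_lit 640668658) (nat_lit 252) (nat_lit 7330238010) (nat_lit 84) (nat_lit 10293710464) (nat_lit 57) (nat_lit 5) (nat_lit 60) (nat_lit 5) (nat_lit 58) (nat_lit 5) (nat_lit 288) (nat_lit 247) (nat_lit 185)))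 (XT.nd (nat_lit 94) (nat_lit 0) (nat_lit 0) (XT.lf (nat_lit 0) (nat_lit 4736418280) (nat_lit 168) (nat_lit 1001250308) (nat_lit 252) (nat_lit 13077918465) (nat_lit 55) (nat_lit 5) (nat_lit 57) (nat_lit 5) (nat_lit 58) (nat_lit 5) (nat_lit 289) (nat_lit 247) (nat_lit 184)) (XT.lf (nat_lit 0) (nat_lit 11283146196) (nat_lit 252) (nat_lit 1880713968) (nat_lit 84) (nat_lit 6220563923) (nat_lit 55) (nat_lit 5) (nat_lit 58) (nat_lit 5) (nat_lit 56) (nat_lit 5) (nat_lit 290) (nat_lit 247) (nat_lit 183))))) (XT.nd (nat_lit 376) (nat_lit 504) (nat_lit 0) (XT.nd (nat_lit 188) (nat_lit 168) (nat_lit 0) (XT.nd (nat_lit 94) (nat_lit 252) (nat_lit 0) (XT.lf (nat_lit 0) (nat_lit 11219827706) (nat_lit 168) (nat_lit 6047968408) (nat_lit 252) (nat_lit 2705811938) (nat_lit 53) (nat_lit 5) (nat_lit 55) (nat_lit 5) (nat_lit 56) (nat_lit 5) (nat_lit 291) (nat_lit 247) (nat_lit 182)) (XT.lf (nat_lit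 0) (nat_lit 2962093381) (nat_lit 252) (nat_lit 16114091224) (nat_lit 84) (nat_lit 1508887051) (nat_lit 50) (nat_lit 5) (nat_lit 53) (nat_lit 5) (nat_lit 51) (nat_lit 5) (nat_lit 292) (nat_lit 247) (nat_lit 181))) (XT.nd (nat_lit 94) (nat_lit 168) (nat_lit 0) (XT.lf (nat_lit 0) (nat_lit 9043060713) (nat_lit 252) (nat_lit 2755728011) (nat_lit 84) (nat_lit 9415071848) (nat_lit 50) (nat_lit 5) (nat_lit 53) (nat_lit 5) (nat_lit 51) (nat_lit 5) (nat_lit 293) (nat_lit 247) (nat_lit 180)) (XT.lf (nat_lit 0) (nat_lit 11593043269) (nat_lit 168) (nat_lit 3988197722) (nat_lit 252) (nat_lit 6285189715) (nat_lit 48) (nat_lit 5) (nat_lit 50) (nat_lit 5) (nat_lit 51) (nat_lit 5) (nat_lit 294) (nat_lit 247) (nat_lit 179)))) (XT.nd (nat_lit 188) (nat_lit 336) (nat_lit 0) (XT.nd (nat_lit 94) (nat_lit 0) (nat_lit 0) (XT.lf (nat_lit 0) (nat_lit 52162667) (nat_lit 168) (nat_lit 18319377324) (nat_lit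 84) (nat_lit 4172466980) (nat_lit 46) (nat_lit 5) (nat_lit 48) (nat_lit 5) (nat_lit 47) (nat_lit 5) (nat_lit 295) (nat_lit 247) (nat_lit 178)) (XT.lf (nat_lit 0) (nat_lit 6709920635) (nat_lit 168) (nat_lit 3662754264) (nat_lit 84) (nat_lit 12866897279) (nat_lit 46) (nat_lit 5) (nat_lit 48) (nat_lit 5) (nat_lit 47) (nat_lit 5) (nat_lit 296) (nat_lit 247) (nat_lit 177))) (XT.nd (nat_lit 94) (nat_lit 168) (nat_lit 0) (XT.lf (nat_lit 0) (nat_lit 12066287496) (nat_lit 168) (nat_lit 1796519251) (nat_lit 252) (nat_lit 10098996885) (nat_lit 44) (nat_lit 5) (nat_lit 46) (nat_lit 5) (nat_lit 47) (nat_lit 5) (nat_lit 297) (nat_lit 247) (nat_lit 176)) (XT.nd (nat_lit 94) (nat_lit 84) (nat_lit 0) (XT.lf (nat_lit 0) (nat_lit 3958202838) (nat_lit 84) (nat_lit 17626589299) (nat_lit 168) (nat_lit 3124781775) (nat_lit 43) (nat_lit 5) (nat_lit 44) (nat_lit 5) (nat_lit 45) (nat_lit 4) (nat_lit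 298) (nat_lit 247) (nat_lit 175)) (XT.lf (nat_lit 0) (nat_lit 4272151247) (nat_lit 168) (nat_lit 4612286449) (nat_lit 84) (nat_lit 16596599069) (nat_lit 42) (nat_lit 5) (nat_lit 44) (nat_lit 5) (nat_lit 43) (nat_lit 5) (nat_lit 299) (nat_lit 247) (nat_lit 174))))))) (XT.nd (nat_lit 752) (nat_lit 840) (nat_lit 0) (XT.nd (nat_lit 376) (nat_lit 420) (nat_lit 0) (XT.nd (nat_lit 188) (nat_lit 252) (nat_lit 0) (XT.nd (nat_lit 94) (nat_lit 84) (nat_lit 0) (XT.lf (nat_lit 0) (nat_lit 12115061571) (nat_lit 252) (nat_lit 13645759799) (nat_lit 84) (nat_lit 518632905) (nat_lit 40) (nat_lit 5) (nat_lit 43) (nat_lit 5) (nat_lit 41) (nat_lit 4) (nat_lit 300) (nat_lit 247) (nat_lit 173)) (XT.lf (nat_lit 0) (nat_lit 3715340218) (nat_lit 84) (nat_lit 16893392073) (nat_lit 168) (nat_lit 6496129623) (nat_lit 39) (nat_lit 5) (nat_lit 40) (nat_lit 5) (nat_lit 41) (nat_lit 4) (nat_lit 301) (nat_lit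 247) (nat_lit 172))) (XT.nd (nat_lit 94) (nat_lit 168) (nat_lit 0) (XT.lf (nat_lit 0) (nat_lit 1716296602) (nat_lit 168) (nat_lit 5614758641) (nat_lit 84) (nat_lit 20628743513) (nat_lit 38) (nat_lit 5) (nat_lit 40) (nat_lit 5) (nat_lit 39) (nat_lit 5) (nat_lit 302) (nat_lit 247) (nat_lit 171)) (XT.lf (nat_lit 0) (nat_lit 10353049405) (nat_lit 252) (nat_lit 15564107179) (nat_lit 84) (nat_lit 2923400267) (nat_lit 36) (nat_lit 5) (nat_lit 39) (nat_lit 5) (nat_lit 37) (nat_lit 4) (nat_lit 303) (nat_lit 247) (nat_lit 170)))) (XT.nd (nat_lit 188) (nat_lit 336) (nat_lit 0) (XT.nd (nat_lit 94) (nat_lit 0) (nat_lit 0) (XT.lf (nat_lit 0) (nat_lit 3493683353) (nat_lit 84) (nat_lit 16176286356) (nat_lit 168) (nat_lit 10082966649) (nat_lit 35) (nat_lit 5) (nat_lit 36) (nat_lit 5) (nat_lit 37) (nat_lit 4) (nat_lit 304) (nat_lit 247) (nat_lit 169)) (XT.lf (nat_lit 0) (nat_lit 24002458786)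 (nat_lit 84) (nat_lit 5691255544) (nat_lit 168) (nat_lit 1005171596) (nat_lit 35) (nat_lit 5) (nat_lit 36) (nat_lit 5) (nat_lit 37) (nat_lit 4) (nat_lit 305) (nat_lit 247) (nat_lit 168))) (XT.nd (nat_lit 94) (nat_lit 84) (nat_lit 0) (XT.lf (nat_lit 0) (nat_lit 8540747181) (nat_lit 252) (nat_lit 17641617403) (nat_lit 84) (nat_lit 5488755467) (nat_lit 32) (nat_lit 5) (nat_lit 35) (nat_lit 5) (nat_lit 33) (nat_lit 4) (nat_lit 306) (nat_lit 247) (nat_lit 167)) (XT.lf (nat_lit 0) (nat_lit 3290513141) (nat_lit 84) (nat_lit 15477843095) (nat_lit 168) (nat_lit 13910877001) (nat_lit 31) (nat_lit 5) (nat_lit 32) (nat_lit 5) (nat_lit 33) (nat_lit 4) (nat_lit 307) (nat_lit 247) (nat_lit 166))))) (XT.nd (nat_lit 376) (nat_lit 504) (nat_lit 0) (XT.nd (nat_lit 188) (nat_lit 84) (nat_lit 0) (XT.nd (nat_lit 94) (nat_lit 252) (nat_lit 0) (XT.lf (nat_lit 0) (nat_lit 25841304566) (nat_lit 84)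 (nat_lit 3943450747) (nat_lit 168) (nat_lit 3939126290) (nat_lit 31) (nat_lit 5) (nat_lit 32) (nat_lit 5) (nat_lit 33) (nat_lit 4) (nat_lit 308) (nat_lit 247) (nat_lit 165)) (XT.lf (nat_lit 0) (nat_lit 6669050247) (nat_lit 252) (nat_lit 19898644454) (nat_lit 84) (nat_lit 8230625267) (nat_lit 28) (nat_lit 5) (nat_lit 31) (nat_lit 5) (nat_lit 29) (nat_lit 4) (nat_lit 309) (nat_lit 247) (nat_lit 164))) (XT.nd (nat_lit 94) (nat_lit 0) (nat_lit 0) (XT.lf (nat_lit 0) (nat_lit 3103543019) (nat_lit 84) (nat_lit 14799919129) (nat_lit 168) (nat_lit 18008378962) (nat_lit 27) (nat_lit 5) (nat_lit 28) (nat_lit 5) (nat_lit 29) (nat_lit 4) (nat_lit 310) (nat_lit 247) (nat_lit 163)) (XT.lf (nat_lit 0) (nat_lit 27908030205) (nat_lit 84) (nat_lit 2108355738) (nat_lit 168) (nat_lit 7048812800) (nat_lit 27) (nat_lit 5) (nat_lit 28) (nat_lit 5) (nat_lit 29) (nat_lit 4) (nat_lit 311) (nat_lit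 247) (nat_lit 162)))) (XT.nd (nat_lit 188) (nat_lit 252) (nat_lit 0) (XT.nd (nat_lit 94) (nat_lit 84) (nat_lit 0) (XT.lf (nat_lit 0) (nat_lit 4727708903) (nat_lit 168) (nat_lit 22357036314) (nat_lit 84) (nat_lit 11167414152) (nat_lit 25) (nat_lit 5) (nat_lit 27) (nat_lit 5) (nat_lit 26) (nat_lit 4) (nat_lit 312) (nat_lit 247) (nat_lit 161)) (XT.lf (nat_lit 0) (nat_lit 2930844631) (nat_lit 84) (nat_lit 14143796105) (nat_lit 168) (nat_lit 22407126056) (nat_lit 24) (nat_lit 5) (nat_lit 25) (nat_lit 5) (nat_lit 26) (nat_lit 4) (nat_lit 313) (nat_lit 247) (nat_lit 160))) (XT.nd (nat_lit 94) (nat_lit 252) (nat_lit 0) (XT.lf (nat_lit 0) (nat_lit 30222378460) (nat_lit 84) (nat_lit 176043847) (nat_lit 168) (nat_lit 10356457122) (nat_lit 24) (nat_lit 5) (nat_lit 25) (nat_lit 5) (nat_lit 26) (nat_lit 4) (nat_lit 314) (nat_lit 247) (nat_lit 159)) (XT.nd (nat_lit 94) (nat_lit 84) (nat_lit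 0) (XT.lf (nat_lit 0) (nat_lit 2705292022) (nat_lit 168) (nat_lit 25040387204) (nat_lit 84) (nat_lit 14320072691) (nat_lit 22) (nat_lit 5) (nat_lit 24) (nat_lit 5) (nat_lit 23) (nat_lit 4) (nat_lit 315) (nat_lit 247) (nat_lit 158)) (XT.lf (nat_lit 0) (nat_lit 2770786568) (nat_lit 84) (nat_lit 13510294163) (nat_lit 168) (nat_lit 27142148551) (nat_lit 21) (nat_lit 5) (nat_lit 22) (nat_lit 5) (nat_lit 23) (nat_lit 4) (nat_lit 316) (nat_lit 247) (nat_lit 157))))))))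
noncomputable def xc106 : XT := (XT.nd (nat_lit 1598) (nat_lit 420) (nat_lit 0) (XT.nd (nat_lit 752) (nat_lit 756) (nat_lit 0) (XT.nd (nat_lit 376) (nat_lit 336) (nat_lit 0) (XT.nd (nat_lit 188) (nat_lit 84) (nat_lit 0) (XT.nd (nat_lit 94) (nat_lit 168) (nat_lit 0) (XT.lf (nat_lit 0) (nat_lit 30970729440) (nat_lit 168) (nat_lit 12050804356) (nat_lit 0) (nat_lit 1805293193) (nat_lit 21) (nat_lit 5) (nat_lit 23) (nat_lit 4) (nat_lit 21) (nat_lit 4) (nat_lit 317) (nat_lit 247) (nat_lit 156)) (XT.lf (nat_lit 0) (nat_lit 589130516) (nat_lit 168) (nat_lit 27974298394) (nat_lit 84) (nat_lit 17712207525) (nat_lit 19) (nat_lit 5) (nat_lit 21) (nat_lit 5) (nat_lit 20) (nat_lit 4) (nat_lit 318) (nat_lit 247) (nat_lit 155))) (XT.nd (nat_lit 94) (nat_lit 0) (nat_lit 0) (XT.lf (nat_lit 0) (nat_lit 2621983860) (nat_lit 84) (nat_lit 12899864924) (nat_lit 168) (nat_lit 32252135885) (nat_lit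 18) (nat_lit 5) (nat_lit 19) (nat_lit 5) (nat_lit 20) (nat_lit 4) (nat_lit 319) (nat_lit 247) (nat_lit 154)) (XT.lf (nat_lit 0) (nat_lit 31720669946) (nat_lit 168) (nat_lit 13701693675) (nat_lit 0) (nat_lit 3898913345) (nat_lit 18) (nat_lit 5) (nat_lit 20) (nat_lit 4) (nat_lit 18) (nat_lit 4) (nat_lit 320) (nat_lit 247) (nat_lit 153)))) (XT.nd (nat_lit 188) (nat_lit 84) (nat_lit 0) (XT.nd (nat_lit 94) (nat_lit 168) (nat_lit 0) (XT.lf (nat_lit 0) (nat_lit 19707787173) (nat_lit 84) (nat_lit 29524207669) (nat_lit 84) (nat_lit 1688810902) (nat_lit 17) (nat_lit 4) (nat_lit 18) (nat_lit 5) (nat_lit 18) (nat_lit 4) (nat_lit 321) (nat_lit 247) (nat_lit 152)) (XT.lf (nat_lit 0) (nat_lit 2483256317) (nat_lit 84) (nat_lit 12312667446) (nat_lit 168) (nat_lit 37779761249) (nat_lit 15) (nat_lit 5) (nat_lit 16) (nat_lit 5) (nat_lit 17) (nat_lit 4) (nat_lit 322) (nat_lit 247) (nat_lit 151)))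 (XT.nd (nat_lit 94) (nat_lit 84) (nat_lit 0) (XT.lf (nat_lit 0) (nat_lit 32658792576) (nat_lit 168) (nat_lit 15497862795) (nat_lit 0) (nat_lit 6124735975) (nat_lit 15) (nat_lit 5) (nat_lit 17) (nat_lit 4) (nat_lit 15) (nat_lit 4) (nat_lit 323) (nat_lit 247) (nat_lit 150)) (XT.lf (nat_lit 0) (nat_lit 21274350636) (nat_lit 84) (nat_lit 30658699253) (nat_lit 84) (nat_lit 4113420854) (nat_lit 14) (nat_lit 4) (nat_lit 15) (nat_lit 5) (nat_lit 15) (nat_lit 4) (nat_lit 324) (nat_lit 247) (nat_lit 149))))) (XT.nd (nat_lit 376) (nat_lit 336) (nat_lit 0) (XT.nd (nat_lit 188) (nat_lit 252) (nat_lit 0) (XT.nd (nat_lit 94) (nat_lit 0) (nat_lit 0) (XT.lf (nat_lit 0) (nat_lit 2353594172) (nat_lit 84) (nat_lit 11748630216) (nat_lit 168) (nat_lit 43772050215) (nat_lit 12) (nat_lit 5) (nat_lit 13) (nat_lit 5) (nat_lit 14) (nat_lit 4) (nat_lit 325) (nat_lit 247) (nat_lit 148)) (XT.lf (nat_lit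 0) (nat_lit 33799819732) (nat_lit 168) (nat_lit 17456077083) (nat_lit 0) (nat_lit 8498729897) (nat_lit 12) (nat_lit 5) (nat_lit 14) (nat_lit 4) (nat_lit 12) (nat_lit 4) (nat_lit 326) (nat_lit 247) (nat_lit 147))) (XT.nd (nat_lit 94) (nat_lit 168) (nat_lit 0) (XT.lf (nat_lit 0) (nat_lit 23026434020) (nat_lit 84) (nat_lit 31993013406) (nat_lit 84) (nat_lit 6682691371) (nat_lit 11) (nat_lit 4) (nat_lit 12) (nat_lit 5) (nat_lit 12) (nat_lit 4) (nat_lit 327) (nat_lit 247) (nat_lit 146)) (XT.lf (nat_lit 0) (nat_lit 2232129707) (nat_lit 84) (nat_lit 11207501665) (nat_lit 168) (nat_lit 50280795928) (nat_lit 9) (nat_lit 5) (nat_lit 10) (nat_lit 5) (nat_lit 11) (nat_lit 4) (nat_lit 328) (nat_lit 247) (nat_lit 145)))) (XT.nd (nat_lit 188) (nat_lit 252) (nat_lit 0) (XT.nd (nat_lit 94) (nat_lit 84) (nat_lit 0) (XT.lf (nat_lit 0) (nat_lit 35160070101) (nat_lit 168) (nat_lit 19594600911)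 (nat_lit 0) (nat_lit 11038652495) (nat_lit 9) (nat_lit 5) (nat_lit 11) (nat_lit 4) (nat_lit 9) (nat_lit 4) (nat_lit 329) (nat_lit 247) (nat_lit 144)) (XT.lf (nat_lit 0) (nat_lit 24981270740) (nat_lit 84) (nat_lit 33544814510) (nat_lit 84) (nat_lit 9415801550) (nat_lit 8) (nat_lit 4) (nat_lit 9) (nat_lit 5) (nat_lit 9) (nat_lit 4) (nat_lit 330) (nat_lit 247) (nat_lit 143))) (XT.nd (nat_lit 94) (nat_lit 84) (nat_lit 0) (XT.lf (nat_lit 0) (nat_lit 2118113831) (nat_lit 84) (nat_lit 10688891272) (nat_lit 168) (nat_lit 57363023991) (nat_lit 6) (nat_lit 5) (nat_lit 7) (nat_lit 5) (nat_lit 8) (nat_lit 4) (nat_lit 331) (nat_lit 247) (nat_lit 142)) (XT.nd (nat_lit 94) (nat_lit 84) (nat_lit 0) (XT.lf (nat_lit 0) (nat_lit 36757641206) (nat_lit 168) (nat_lit 21933384835) (nat_lit 0) (nat_lit 13764178500) (nat_lit 6) (nat_lit 5) (nat_lit 8) (nat_lit 4) (nat_lit 6) (nat_lit 4) (nat_lit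 332) (nat_lit 247) (nat_lit 141)) (XT.lf (nat_lit 0) (nat_lit 27158050898) (nat_lit 84) (nat_lit 35333505950) (nat_lit 84) (nat_lit 12333794527) (nat_lit 5) (nat_lit 4) (nat_lit 6) (nat_lit 5) (nat_lit 6) (nat_lit 4) (nat_lit 333) (nat_lit 247) (nat_lit 140))))))) (XT.nd (nat_lit 752) (nat_lit 0) (nat_lit 0) (XT.nd (nat_lit 376) (nat_lit 0) (nat_lit 0) (XT.nd (nat_lit 188) (nat_lit 252) (nat_lit 0) (XT.nd (nat_lit 94) (nat_lit 0) (nat_lit 0) (XT.lf (nat_lit 0) (nat_lit 2010896725) (nat_lit 84) (nat_lit 10192302936) (nat_lit 168) (nat_lit 65081510797) (nat_lit 3) (nat_lit 5) (nat_lit 4) (nat_lit 5) (nat_lit 5) (nat_lit 4) (nat_lit 334) (nat_lit 247) (nat_lit 139)) (XT.lf (nat_lit 0) (nat_lit 38612605674) (nat_lit 168) (nat_lit 24494266273) (nat_lit 0) (nat_lit 16697052958) (nat_lit 3) (nat_lit 5) (nat_lit 5) (nat_lit 4) (nat_lit 3) (nat_lit 4) (nat_lit 335) (nat_lit 247)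 (nat_lit 138))) (XT.nd (nat_lit 94) (nat_lit 168) (nat_lit 0) (XT.lf (nat_lit 0) (nat_lit 29578094102) (nat_lit 84) (nat_lit 37380448252) (nat_lit 84) (nat_lit 15459754701) (nat_lit 2) (nat_lit 4) (nat_lit 3) (nat_lit 5) (nat_lit 3) (nat_lit 4) (nat_lit 336) (nat_lit 247) (nat_lit 137)) (XT.lf (nat_lit 0) (nat_lit 123490067320) (nat_lit 0) (nat_lit 0) (nat_lit 0) (nat_lit 0) (nat_lit 0) (nat_lit 0) (nat_lit 1) (nat_lit 0) (nat_lit 1) (nat_lit 0) (nat_lit 337) (nat_lit 247) (nat_lit 136)))) (XT.nd (nat_lit 188) (nat_lit 0) (nat_lit 0) (XT.nd (nat_lit 94) (nat_lit 0) (nat_lit 0) (XT.lf (nat_lit 0) (nat_lit 129588371793) (nat_lit 0) (nat_lit 0) (nat_lit 0) (nat_lit 0) (nat_lit 0) (nat_lit 0) (nat_lit 1) (nat_lit 0) (nat_lit 1) (nat_lit 0) (nat_lit 338) (nat_lit 247) (nat_lit 135)) (XT.lf (nat_lit 0) (nat_lit 135991622718) (nat_lit 0) (nat_lit 0) (nat_lit 0) (nat_lit 0) (nat_lit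 0) (nat_lit 0) (nat_lit 1) (nat_lit 0) (nat_lit 1) (nat_lit 0) (nat_lit 339) (nat_lit 247) (nat_lit 134))) (XT.nd (nat_lit 94) (nat_lit 0) (nat_lit 0) (XT.lf (nat_lit 0) (nat_lit 142715065928) (nat_lit 0) (nat_lit 0) (nat_lit 0) (nat_lit 0) (nat_lit 0) (nat_lit 0) (nat_lit 1) (nat_lit 0) (nat_lit 1) (nat_lit 0) (nat_lit 340) (nat_lit 247) (nat_lit 133)) (XT.lf (nat_lit 0) (nat_lit 149774709622) (nat_lit 0) (nat_lit 0) (nat_lit 0) (nat_lit 0) (nat_lit 0) (nat_lit 0) (nat_lit 1) (nat_lit 0) (nat_lit 1) (nat_lit 0) (nat_lit 341) (nat_lit 247) (nat_lit 132))))) (XT.nd (nat_lit 36660) (nat_lit 0) (nat_lit 12600) (XT.nd (nat_lit 36472) (nat_lit 0) (nat_lit 13188) (XT.nd (nat_lit 36378) (nat_lit 0) (nat_lit 13776) (XT.lf (nat_lit 0) (nat_lit 157187362476) (nat_lit 0) (nat_lit 0) (nat_lit 0) (nat_lit 0) (nat_lit 0) (nat_lit 0) (nat_lit 1) (nat_lit 0) (nat_lit 1) (nat_lit 0) (nat_lit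 342) (nat_lit 247) (nat_lit 131)) (XT.lf (nat_lit 0) (nat_lit 2798147421) (nat_lit 588) (nat_lit 395458172) (nat_lit 588) (nat_lit 395458172) (nat_lit 164) (nat_lit 3) (nat_lit 171) (nat_lit 3) (nat_lit 171) (nat_lit 5) (nat_lit 248) (nat_lit 248) (nat_lit 224))) (XT.nd (nat_lit 94) (nat_lit 0) (nat_lit 0) (XT.lf (nat_lit 0) (nat_lit 129995866) (nat_lit 588) (nat_lit 4385407157) (nat_lit 672) (nat_lit 2758469402) (nat_lit 157) (nat_lit 5) (nat_lit 164) (nat_lit 3) (nat_lit 165) (nat_lit 5) (nat_lit 249) (nat_lit 248) (nat_lit 223)) (XT.lf (nat_lit 0) (nat_lit 1781122087) (nat_lit 588) (nat_lit 680624486) (nat_lit 672) (nat_lit 4916018098) (nat_lit 157) (nat_lit 5) (nat_lit 164) (nat_lit 3) (nat_lit 165) (nat_lit 5) (nat_lit 250) (nat_lit 248) (nat_lit 222)))) (XT.nd (nat_lit 188) (nat_lit 588) (nat_lit 0) (XT.nd (nat_lit 94) (nat_lit 0) (nat_lit 84) (XT.lf (nat_lit 84) (nat_lit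 3256469268) (nat_lit 0) (nat_lit 207513252) (nat_lit 672) (nat_lit 4025410114) (nat_lit 158) (nat_lit 5) (nat_lit 157) (nat_lit 5) (nat_lit 165) (nat_lit 5) (nat_lit 251) (nat_lit 248) (nat_lit 221)) (XT.lf (nat_lit 0) (nat_lit 5179362358) (nat_lit 588) (nat_lit 287647997) (nat_lit 672) (nat_lit 2142172821) (nat_lit 158) (nat_lit 5) (nat_lit 165) (nat_lit 5) (nat_lit 166) (nat_lit 5) (nat_lit 252) (nat_lit 248) (nat_lit 220))) (XT.nd (nat_lit 94) (nat_lit 672) (nat_lit 0) (XT.lf (nat_lit 84) (nat_lit 3918067091) (nat_lit 0) (nat_lit 3034585517) (nat_lit 672) (nat_lit 783703566) (nat_lit 159) (nat_lit 5) (nat_lit 158) (nat_lit 5) (nat_lit 166) (nat_lit 5) (nat_lit 253) (nat_lit 248) (nat_lit 219)) (XT.nd (nat_lit 94) (nat_lit 0) (nat_lit 84) (XT.lf (nat_lit 84) (nat_lit 411899134) (nat_lit 0) (nat_lit 423573258) (nat_lit 756) (nat_lit 7037628456) (nat_lit 151) (nat_lit 5)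 (nat_lit 150) (nat_lit 5) (nat_lit 159) (nat_lit 5) (nat_lit 254) (nat_lit 248) (nat_lit 218)) (XT.lf (nat_lit 0) (nat_lit 2524585273) (nat_lit 672) (nat_lit 3142046368) (nat_lit 756) (nat_lit 2348642948) (nat_lit 151) (nat_lit 5) (nat_lit 159) (nat_lit 5) (nat_lit 160) (nat_lit 5) (nat_lit 255) (nat_lit 248) (nat_lit 217))))))))
noncomputable def xc107 : XT := (XT.nd (nat_lit 1598) (nat_lit 3108) (nat_lit 0) (XT.nd (nat_lit 752) (nat_lit 2016) (nat_lit 0) (XT.nd (nat_lit 376) (nat_lit 2100) (nat_lit 0) (XT.nd (nat_lit 188) (nat_lit 672) (nat_lit 0) (XT.nd (nat_lit 94) (nat_lit 0) (nat_lit 84) (XT.lf (nat_lit 84) (nat_lit 1368339282) (nat_lit 0) (nat_lit 2875646465) (nat_lit 756) (nat_lit 3923279674) (nat_lit 152) (nat_lit 5) (nat_lit 151) (nat_lit 5) (nat_lit 160) (nat_lit 5) (nat_lit 256) (nat_lit 248) (nat_lit 216)) (XT.lf (nat_lit 0) (nat_lit 6025098820) (nat_lit 672)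 (nat_lit 2177451243) (nat_lit 84) (nat_lit 125518603) (nat_lit 152) (nat_lit 5) (nat_lit 160) (nat_lit 5) (nat_lit 153) (nat_lit 5) (nat_lit 257) (nat_lit 248) (nat_lit 215))) (XT.nd (nat_lit 94) (nat_lit 84) (nat_lit 0) (XT.lf (nat_lit 0) (nat_lit 2651038055) (nat_lit 672) (nat_lit 5257333953) (nat_lit 756) (nat_lit 587884842) (nat_lit 144) (nat_lit 5) (nat_lit 152) (nat_lit 5) (nat_lit 153) (nat_lit 5) (nat_lit 258) (nat_lit 248) (nat_lit 214)) (XT.lf (nat_lit 0) (nat_lit 1137635385) (nat_lit 756) (nat_lit 957221927) (nat_lit 84) (nat_lit 6578875095) (nat_lit 143) (nat_lit 5) (nat_lit 152) (nat_lit 5) (nat_lit 144) (nat_lit 5) (nat_lit 259) (nat_lit 248) (nat_lit 213)))) (XT.nd (nat_lit 188) (nat_lit 504) (nat_lit 0) (XT.nd (nat_lit 94) (nat_lit 840) (nat_lit 0) (XT.lf (nat_lit 0) (nat_lit 2945975733) (nat_lit 840) (nat_lit 4639281356) (nat_lit 84) (nat_lit 1273527737)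 (nat_lit 134) (nat_lit 5) (nat_lit 144) (nat_lit 5) (nat_lit 135) (nat_lit 5) (nat_lit 260) (nat_lit 248) (nat_lit 212)) (XT.lf (nat_lit 0) (nat_lit 556446290) (nat_lit 840) (nat_lit 4279905681) (nat_lit 924) (nat_lit 4217156949) (nat_lit 124) (nat_lit 5) (nat_lit 134) (nat_lit 5) (nat_lit 135) (nat_lit 5) (nat_lit 261) (nat_lit 248) (nat_lit 211))) (XT.nd (nat_lit 94) (nat_lit 504) (nat_lit 0) (XT.lf (nat_lit 0) (nat_lit 6111263984) (nat_lit 840) (nat_lit 722932473) (nat_lit 924) (nat_lit 2423125291) (nat_lit 124) (nat_lit 5) (nat_lit 134) (nat_lit 5) (nat_lit 135) (nat_lit 5) (nat_lit 262) (nat_lit 248) (nat_lit 210)) (XT.lf (nat_lit 0) (nat_lit 2441617572) (nat_lit 504) (nat_lit 6513023154) (nat_lit 588) (nat_lit 515549114) (nat_lit 118) (nat_lit 5) (nat_lit 124) (nat_lit 5) (nat_lit 125) (nat_lit 5) (nat_lit 263) (nat_lit 248) (nat_lit 209))))) (XT.nd (nat_lit 376) (nat_lit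 1092) (nat_lit 0) (XT.nd (nat_lit 188) (nat_lit 420) (nat_lit 0) (XT.nd (nat_lit 94) (nat_lit 420) (nat_lit 0) (XT.lf (nat_lit 0) (nat_lit 1444397768) (nat_lit 588) (nat_lit 1372117090) (nat_lit 84) (nat_lit 6875795441) (nat_lit 117) (nat_lit 5) (nat_lit 124) (nat_lit 5) (nat_lit 118) (nat_lit 5) (nat_lit 264) (nat_lit 248) (nat_lit 208)) (XT.lf (nat_lit 0) (nat_lit 3517021645) (nat_lit 504) (nat_lit 5294914714) (nat_lit 84) (nat_lit 1111577566) (nat_lit 112) (nat_lit 5) (nat_lit 118) (nat_lit 5) (nat_lit 113) (nat_lit 5) (nat_lit 265) (nat_lit 248) (nat_lit 207))) (XT.nd (nat_lit 94) (nat_lit 0) (nat_lit 0) (XT.lf (nat_lit 0) (nat_lit 726722521) (nat_lit 420) (nat_lit 4991033236) (nat_lit 504) (nat_lit 4447298024) (nat_lit 107) (nat_lit 5) (nat_lit 112) (nat_lit 5) (nat_lit 113) (nat_lit 5) (nat_lit 266) (nat_lit 248) (nat_lit 206)) (XT.lf (nat_lit 0) (nat_lit 7172410684)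 (nat_lit 420) (nat_lit 890877741) (nat_lit 504) (nat_lit 2353644112) (nat_lit 107) (nat_lit 5) (nat_lit 112) (nat_lit 5) (nat_lit 113) (nat_lit 5) (nat_lit 267) (nat_lit 248) (nat_lit 205)))) (XT.nd (nat_lit 188) (nat_lit 672) (nat_lit 0) (XT.nd (nat_lit 94) (nat_lit 84) (nat_lit 0) (XT.lf (nat_lit 0) (nat_lit 3249178753) (nat_lit 336) (nat_lit 7328570552) (nat_lit 420) (nat_lit 101073347) (nat_lit 103) (nat_lit 5) (nat_lit 107) (nat_lit 5) (nat_lit 108) (nat_lit 5) (nat_lit 268) (nat_lit 248) (nat_lit 204)) (XT.lf (nat_lit 0) (nat_lit 2210461132) (nat_lit 420) (nat_lit 882926673) (nat_lit 84) (nat_lit 7857711933) (nat_lit 102) (nat_lit 5) (nat_lit 107) (nat_lit 5) (nat_lit 103) (nat_lit 5) (nat_lit 269) (nat_lit 248) (nat_lit 203))) (XT.nd (nat_lit 94) (nat_lit 336) (nat_lit 0) (XT.lf (nat_lit 0) (nat_lit 4703233571) (nat_lit 420) (nat_lit 5129893337) (nat_lit 84) (nat_lit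 1400328024) (nat_lit 98) (nat_lit 5) (nat_lit 103) (nat_lit 5) (nat_lit 99) (nat_lit 5) (nat_lit 270) (nat_lit 248) (nat_lit 202)) (XT.nd (nat_lit 94) (nat_lit 0) (nat_lit 0) (XT.lf (nat_lit 0) (nat_lit 1890808044) (nat_lit 336) (nat_lit 5477371359) (nat_lit 420) (nat_lit 4159371746) (nat_lit 94) (nat_lit 5) (nat_lit 98) (nat_lit 5) (nat_lit 99) (nat_lit 5) (nat_lit 271) (nat_lit 248) (nat_lit 201)) (XT.lf (nat_lit 0) (nat_lit 9382003636) (nat_lit 336) (nat_lit 824716085) (nat_lit 420) (nat_lit 1627615094) (nat_lit 94) (nat_lit 5) (nat_lit 98) (nat_lit 5) (nat_lit 99) (nat_lit 5) (nat_lit 272) (nat_lit 248) (nat_lit 200))))))) (XT.nd (nat_lit 752) (nat_lit 1512) (nat_lit 0) (XT.nd (nat_lit 376) (nat_lit 588) (nat_lit 0) (XT.nd (nat_lit 188) (nat_lit 336) (nat_lit 0) (XT.nd (nat_lit 94) (nat_lit 252) (nat_lit 0) (XT.lf (nat_lit 0) (nat_lit 1098427795) (nat_lit 420) (nat_lit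 7034867723) (nat_lit 84) (nat_lit 4017323110) (nat_lit 89) (nat_lit 5) (nat_lit 94) (nat_lit 5) (nat_lit 90) (nat_lit 5) (nat_lit 273) (nat_lit 248) (nat_lit 199)) (XT.lf (nat_lit 0) (nat_lit 586213040) (nat_lit 252) (nat_lit 3340771892) (nat_lit 336) (nat_lit 8553352057) (nat_lit 86) (nat_lit 5) (nat_lit 89) (nat_lit 5) (nat_lit 90) (nat_lit 5) (nat_lit 274) (nat_lit 248) (nat_lit 198))) (XT.nd (nat_lit 94) (nat_lit 336) (nat_lit 0) (XT.lf (nat_lit 0) (nat_lit 7001462698) (nat_lit 336) (nat_lit 4075732504) (nat_lit 84) (nat_lit 1744121426) (nat_lit 86) (nat_lit 5) (nat_lit 90) (nat_lit 5) (nat_lit 87) (nat_lit 5) (nat_lit 275) (nat_lit 248) (nat_lit 197)) (XT.lf (nat_lit 0) (nat_lit 4155262787) (nat_lit 336) (nat_lit 6153085174) (nat_lit 420) (nat_lit 2867063108) (nat_lit 82) (nat_lit 5) (nat_lit 86) (nat_lit 5) (nat_lit 87) (nat_lit 5) (nat_lit 276) (nat_lit 248) (nat_lit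 196)))) (XT.nd (nat_lit 188) (nat_lit 252) (nat_lit 0) (XT.nd (nat_lit 94) (nat_lit 252) (nat_lit 0) (XT.lf (nat_lit 0) (nat_lit 255523781) (nat_lit 420) (nat_lit 666197460) (nat_lit 84) (nat_lit 12623825529) (nat_lit 81) (nat_lit 5) (nat_lit 86) (nat_lit 5) (nat_lit 82) (nat_lit 5) (nat_lit 277) (nat_lit 248) (nat_lit 195)) (XT.lf (nat_lit 0) (nat_lit 3602399300) (nat_lit 336) (nat_lit 5732480020) (nat_lit 84) (nat_lit 4588734313) (nat_lit 78) (nat_lit 5) (nat_lit 82) (nat_lit 5) (nat_lit 79) (nat_lit 5) (nat_lit 278) (nat_lit 248) (nat_lit 194))) (XT.nd (nat_lit 94) (nat_lit 0) (nat_lit 0) (XT.lf (nat_lit 0) (nat_lit 3227426363) (nat_lit 252) (nat_lit 3928316774) (nat_lit 336) (nat_lit 7162884476) (nat_lit 75) (nat_lit 5) (nat_lit 78) (nat_lit 5) (nat_lit 79) (nat_lit 5) (nat_lit 279) (nat_lit 248) (nat_lit 193)) (XT.lf (nat_lit 0) (nat_lit 10975573665) (nat_lit 336) (nat_lit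 1978787356) (nat_lit 84) (nat_lit 1774590296) (nat_lit 75) (nat_lit 5) (nat_lit 79) (nat_lit 5) (nat_lit 76) (nat_lit 5) (nat_lit 280) (nat_lit 248) (nat_lit 192))))) (XT.nd (nat_lit 376) (nat_lit 756) (nat_lit 0) (XT.nd (nat_lit 188) (nat_lit 168) (nat_lit 0) (XT.nd (nat_lit 94) (nat_lit 336) (nat_lit 0) (XT.lf (nat_lit 0) (nat_lit 7718848179) (nat_lit 252) (nat_lit 7417073812) (nat_lit 336) (nat_lit 16392902) (nat_lit 72) (nat_lit 5) (nat_lit 75) (nat_lit 5) (nat_lit 76) (nat_lit 5) (nat_lit 281) (nat_lit 248) (nat_lit 191)) (XT.lf (nat_lit 0) (nat_lit 2334707161) (nat_lit 252) (nat_lit 1483102866) (nat_lit 336) (nat_lit 11774214741) (nat_lit 68) (nat_lit 5) (nat_lit 71) (nat_lit 5) (nat_lit 72) (nat_lit 5) (nat_lit 282) (nat_lit 248) (nat_lit 190))) (XT.nd (nat_lit 94) (nat_lit 168) (nat_lit 0) (XT.lf (nat_lit 0) (nat_lit 8010732924) (nat_lit 336) (nat_lit 3328439850)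 (nat_lit 84) (nat_lit 4706155892) (nat_lit 68) (nat_lit 5) (nat_lit 72) (nat_lit 5) (nat_lit 69) (nat_lit 5) (nat_lit 283) (nat_lit 248) (nat_lit 189)) (XT.lf (nat_lit 0) (nat_lit 7253367625) (nat_lit 168) (nat_lit 5264621269) (nat_lit 252) (nat_lit 3998074515) (nat_lit 66) (nat_lit 5) (nat_lit 68) (nat_lit 5) (nat_lit 69) (nat_lit 5) (nat_lit 284) (nat_lit 248) (nat_lit 188)))) (XT.nd (nat_lit 188) (nat_lit 420) (nat_lit 0) (XT.nd (nat_lit 94) (nat_lit 0) (nat_lit 0) (XT.lf (nat_lit 0) (nat_lit 298559239) (nat_lit 336) (nat_lit 15563392545) (nat_lit 84) (nat_lit 1144896706) (nat_lit 62) (nat_lit 5) (nat_lit 66) (nat_lit 5) (nat_lit 63) (nat_lit 5) (nat_lit 285) (nat_lit 248) (nat_lit 187)) (XT.lf (nat_lit 0) (nat_lit 4889252405) (nat_lit 336) (nat_lit 4714323178) (nat_lit 84) (nat_lit 7904640670) (nat_lit 62) (nat_lit 5) (nat_lit 66) (nat_lit 5) (nat_lit 63) (nat_lit 5)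 (nat_lit 286) (nat_lit 248) (nat_lit 186))) (XT.nd (nat_lit 94) (nat_lit 252) (nat_lit 0) (XT.lf (nat_lit 0) (nat_lit 6846748041) (nat_lit 168) (nat_lit 2939004474) (nat_lit 252) (nat_lit 8245086274) (nat_lit 60) (nat_lit 5) (nat_lit 62) (nat_lit 5) (nat_lit 63) (nat_lit 5) (nat_lit 287) (nat_lit 248) (nat_lit 185)) (XT.nd (nat_lit 94) (nat_lit 84) (nat_lit 0) (XT.lf (nat_lit 0) (nat_lit 474458231) (nat_lit 168) (nat_lit 14574321803) (nat_lit 252) (nat_lit 3524727297) (nat_lit 58) (nat_lit 5) (nat_lit 60) (nat_lit 5) (nat_lit 61) (nat_lit 5) (nat_lit 288) (nat_lit 248) (nat_lit 184)) (XT.lf (nat_lit 0) (nat_lit 1596485554) (nat_lit 252) (nat_lit 6153434546) (nat_lit 84) (nat_lit 11381738715) (nat_lit 57) (nat_lit 5) (nat_lit 60) (nat_lit 5) (nat_lit 58) (nat_lit 5) (nat_lit 289) (nat_lit 248) (nat_lit 183))))))))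
noncomputable def xc108 : XT := (XT.nd (nat_lit 1598) (nat_lit 1680) (nat_lit 0) (XT.nd (nat_lit 752) (nat_lit 924) (nat_lit 0) (XT.nd (nat_lit 376) (nat_lit 336) (nat_lit 0) (XT.nd (nat_lit 188) (nat_lit 420) (nat_lit 0) (XT.nd (nat_lit 94) (nat_lit 0) (nat_lit 0) (XT.lf (nat_lit 0) (nat_lit 6491662375) (nat_lit 168) (nat_lit 436390259) (nat_lit 252) (nat_lit 12783138742) (nat_lit 55) (nat_lit 5) (nat_lit 57) (nat_lit 5) (nat_lit 58) (nat_lit 5) (nat_lit 290) (nat_lit 248) (nat_lit 182)) (XT.lf (nat_lit 0) (nat_lit 12716923773) (nat_lit 252) (nat_lit 494752003) (nat_lit 84) (nat_lit 7098488502) (nat_lit 55) (nat_lit 5) (nat_lit 58) (nat_lit 5) (nat_lit 56) (nat_lit 5) (nat_lit 291) (nat_lit 248) (nat_lit 181))) (XT.nd (nat_lit 94) (nat_lit 252) (nat_lit 0) (XT.lf (nat_lit 0) (nat_lit 13236945825) (nat_lit 168) (nat_lit 5745184092) (nat_lit 252) (nat_lit 1947611338) (nat_lit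 53) (nat_lit 5) (nat_lit 55) (nat_lit 5) (nat_lit 56) (nat_lit 5) (nat_lit 292) (nat_lit 248) (nat_lit 180)) (XT.lf (nat_lit 0) (nat_lit 3966303691) (nat_lit 252) (nat_lit 15426283495) (nat_lit 84) (nat_lit 2178932771) (nat_lit 50) (nat_lit 5) (nat_lit 53) (nat_lit 5) (nat_lit 51) (nat_lit 5) (nat_lit 293) (nat_lit 248) (nat_lit 179)))) (XT.nd (nat_lit 188) (nat_lit 168) (nat_lit 0) (XT.nd (nat_lit 94) (nat_lit 168) (nat_lit 0) (XT.lf (nat_lit 0) (nat_lit 10310552454) (nat_lit 252) (nat_lit 1471121754) (nat_lit 84) (nat_lit 10452112458) (nat_lit 50) (nat_lit 5) (nat_lit 53) (nat_lit 5) (nat_lit 51) (nat_lit 5) (nat_lit 294) (nat_lit 248) (nat_lit 178)) (XT.lf (nat_lit 0) (nat_lit 13572146273) (nat_lit 168) (nat_lit 3586519170) (nat_lit 252) (nat_lit 5761168678) (nat_lit 48) (nat_lit 5) (nat_lit 50) (nat_lit 5) (nat_lit 51) (nat_lit 5) (nat_lit 295) (nat_lit 248) (nat_lit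 177))) (XT.nd (nat_lit 94) (nat_lit 0) (nat_lit 0) (XT.lf (nat_lit 0) (nat_lit 858990989) (nat_lit 168) (nat_lit 17801835017) (nat_lit 84) (nat_lit 4970170306) (nat_lit 46) (nat_lit 5) (nat_lit 48) (nat_lit 5) (nat_lit 47) (nat_lit 5) (nat_lit 296) (nat_lit 248) (nat_lit 176)) (XT.lf (nat_lit 0) (nat_lit 7811340656) (nat_lit 168) (nat_lit 2480643240) (nat_lit 84) (nat_lit 14071270692) (nat_lit 46) (nat_lit 5) (nat_lit 48) (nat_lit 5) (nat_lit 47) (nat_lit 5) (nat_lit 297) (nat_lit 248) (nat_lit 175))))) (XT.nd (nat_lit 376) (nat_lit 420) (nat_lit 0) (XT.nd (nat_lit 188) (nat_lit 252) (nat_lit 0) (XT.nd (nat_lit 94) (nat_lit 84) (nat_lit 0) (XT.lf (nat_lit 0) (nat_lit 14012830467) (nat_lit 168) (nat_lit 1293539598) (nat_lit 252) (nat_lit 9816002600) (nat_lit 44) (nat_lit 5) (nat_lit 46) (nat_lit 5) (nat_lit 47) (nat_lit 5) (nat_lit 298) (nat_lit 248) (nat_lit 174)) (XT.lf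 (nat_lit 0) (nat_lit 5505486491) (nat_lit 84) (nat_lit 17903115934) (nat_lit 168) (nat_lit 2499221648) (nat_lit 43) (nat_lit 5) (nat_lit 44) (nat_lit 5) (nat_lit 45) (nat_lit 4) (nat_lit 299) (nat_lit 248) (nat_lit 173))) (XT.nd (nat_lit 94) (nat_lit 168) (nat_lit 0) (XT.lf (nat_lit 0) (nat_lit 5206498578) (nat_lit 168) (nat_lit 3533952230) (nat_lit 84) (nat_lit 17978600806) (nat_lit 42) (nat_lit 5) (nat_lit 44) (nat_lit 5) (nat_lit 43) (nat_lit 5) (nat_lit 300) (nat_lit 248) (nat_lit 172)) (XT.lf (nat_lit 0) (nat_lit 13436416106) (nat_lit 252) (nat_lit 13013960935) (nat_lit 84) (nat_lit 1107269875) (nat_lit 40) (nat_lit 5) (nat_lit 43) (nat_lit 5) (nat_lit 41) (nat_lit 4) (nat_lit 301) (nat_lit 248) (nat_lit 171)))) (XT.nd (nat_lit 188) (nat_lit 252) (nat_lit 0) (XT.nd (nat_lit 94) (nat_lit 84) (nat_lit 0) (XT.lf (nat_lit 0) (nat_lit 5193999134) (nat_lit 84) (nat_lit 17146880635)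 (nat_lit 168) (nat_lit 6084139699) (nat_lit 39) (nat_lit 5) (nat_lit 40) (nat_lit 5) (nat_lit 41) (nat_lit 4) (nat_lit 302) (nat_lit 248) (nat_lit 170)) (XT.lf (nat_lit 0) (nat_lit 2481363165) (nat_lit 168) (nat_lit 4641711819) (nat_lit 84) (nat_lit 22200751122) (nat_lit 38) (nat_lit 5) (nat_lit 40) (nat_lit 5) (nat_lit 39) (nat_lit 5) (nat_lit 303) (nat_lit 248) (nat_lit 169))) (XT.nd (nat_lit 94) (nat_lit 84) (nat_lit 0) (XT.lf (nat_lit 0) (nat_lit 11545726306) (nat_lit 252) (nat_lit 15084300482) (nat_lit 84) (nat_lit 3618806684) (nat_lit 36) (nat_lit 5) (nat_lit 39) (nat_lit 5) (nat_lit 37) (nat_lit 4) (nat_lit 304) (nat_lit 248) (nat_lit 168)) (XT.nd (nat_lit 94) (nat_lit 0) (nat_lit 0) (XT.lf (nat_lit 0) (nat_lit 4906089059) (nat_lit 84) (nat_lit 16409583847) (nat_lit 168) (nat_lit 9891800034) (nat_lit 35) (nat_lit 5) (nat_lit 36) (nat_lit 5) (nat_lit 37) (nat_lit 4)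 (nat_lit 305) (nat_lit 248) (nat_lit 167)) (XT.lf (nat_lit 0) (nat_lit 26381364143) (nat_lit 84) (nat_lit 5427707058) (nat_lit 168) (nat_lit 393225464) (nat_lit 35) (nat_lit 5) (nat_lit 36) (nat_lit 5) (nat_lit 37) (nat_lit 4) (nat_lit 306) (nat_lit 248) (nat_lit 166))))))) (XT.nd (nat_lit 752) (nat_lit 756) (nat_lit 0) (XT.nd (nat_lit 376) (nat_lit 336) (nat_lit 0) (XT.nd (nat_lit 188) (nat_lit 252) (nat_lit 0) (XT.nd (nat_lit 94) (nat_lit 84) (nat_lit 0) (XT.lf (nat_lit 0) (nat_lit 9605316753) (nat_lit 252) (nat_lit 17320243357) (nat_lit 84) (nat_lit 6297239333) (nat_lit 32) (nat_lit 5) (nat_lit 35) (nat_lit 5) (nat_lit 33) (nat_lit 4) (nat_lit 307) (nat_lit 248) (nat_lit 165)) (XT.lf (nat_lit 0) (nat_lit 4639083151) (nat_lit 84) (nat_lit 15693350683) (nat_lit 168) (nat_lit 13949478075) (nat_lit 31) (nat_lit 5) (nat_lit 32) (nat_lit 5) (nat_lit 33) (nat_lit 4) (nat_lit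 308) (nat_lit 248) (nat_lit 164))) (XT.nd (nat_lit 94) (nat_lit 252) (nat_lit 0) (XT.lf (nat_lit 0) (nat_lit 28261031083) (nat_lit 84) (nat_lit 3608828459) (nat_lit 168) (nat_lit 3510422818) (nat_lit 31) (nat_lit 5) (nat_lit 32) (nat_lit 5) (nat_lit 33) (nat_lit 4) (nat_lit 309) (nat_lit 248) (nat_lit 163)) (XT.lf (nat_lit 0) (nat_lit 7605276321) (nat_lit 252) (nat_lit 19743029163) (nat_lit 84) (nat_lit 9159791805) (nat_lit 28) (nat_lit 5) (nat_lit 31) (nat_lit 5) (nat_lit 29) (nat_lit 4) (nat_lit 310) (nat_lit 248) (nat_lit 162)))) (XT.nd (nat_lit 188) (nat_lit 252) (nat_lit 0) (XT.nd (nat_lit 94) (nat_lit 0) (nat_lit 0) (XT.lf (nat_lit 0) (nat_lit 4390710466) (nat_lit 84) (nat_lit 14999668389) (nat_lit 168) (nat_lit 18287467131) (nat_lit 27) (nat_lit 5) (nat_lit 28) (nat_lit 5) (nat_lit 29) (nat_lit 4) (nat_lit 311) (nat_lit 248) (nat_lit 161)) (XT.lf (nat_lit 0) (nat_lit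 30381517712) (nat_lit 84) (nat_lit 1699252862) (nat_lit 168) (nat_lit 6809509840) (nat_lit 27) (nat_lit 5) (nat_lit 28) (nat_lit 5) (nat_lit 29) (nat_lit 4) (nat_lit 312) (nat_lit 248) (nat_lit 160))) (XT.nd (nat_lit 94) (nat_lit 84) (nat_lit 0) (XT.lf (nat_lit 0) (nat_lit 5534544538) (nat_lit 168) (nat_lit 22375508722) (nat_lit 84) (nat_lit 12226191568) (nat_lit 25) (nat_lit 5) (nat_lit 27) (nat_lit 5) (nat_lit 26) (nat_lit 4) (nat_lit 313) (nat_lit 248) (nat_lit 159)) (XT.lf (nat_lit 0) (nat_lit 4159034344) (nat_lit 84) (nat_lit 14329511871) (nat_lit 168) (nat_lit 22939300244) (nat_lit 24) (nat_lit 5) (nat_lit 25) (nat_lit 5) (nat_lit 26) (nat_lit 4) (nat_lit 314) (nat_lit 248) (nat_lit 158))))) (XT.nd (nat_lit 376) (nat_lit 504) (nat_lit 0) (XT.nd (nat_lit 188) (nat_lit 84) (nat_lit 0) (XT.nd (nat_lit 94) (nat_lit 168) (nat_lit 0) (XT.lf (nat_lit 0) (nat_lit 32456709947)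 (nat_lit 168) (nat_lit 10007178641) (nat_lit 0) (nat_lit 301816485) (nat_lit 24) (nat_lit 5) (nat_lit 26) (nat_lit 4) (nat_lit 24) (nat_lit 4) (nat_lit 315) (nat_lit 248) (nat_lit 157)) (XT.lf (nat_lit 0) (nat_lit 3380864442) (nat_lit 168) (nat_lit 25242400481) (nat_lit 84) (nat_lit 15518759200) (nat_lit 22) (nat_lit 5) (nat_lit 24) (nat_lit 5) (nat_lit 23) (nat_lit 4) (nat_lit 316) (nat_lit 248) (nat_lit 156))) (XT.nd (nat_lit 94) (nat_lit 0) (nat_lit 0) (XT.lf (nat_lit 0) (nat_lit 3942396398) (nat_lit 84) (nat_lit 13683446371) (nat_lit 168) (nat_lit 27942012578) (nat_lit 21) (nat_lit 5) (nat_lit 22) (nat_lit 5) (nat_lit 23) (nat_lit 4) (nat_lit 317) (nat_lit 248) (nat_lit 155)) (XT.lf (nat_lit 0) (nat_lit 33032171899) (nat_lit 168) (nat_lit 11651665893) (nat_lit 0) (nat_lit 2358685246) (nat_lit 21) (nat_lit 5) (nat_lit 23) (nat_lit 4) (nat_lit 21) (nat_lit 4) (nat_lit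 318) (nat_lit 248) (nat_lit 154)))) (XT.nd (nat_lit 188) (nat_lit 252) (nat_lit 0) (XT.nd (nat_lit 94) (nat_lit 84) (nat_lit 0) (XT.lf (nat_lit 0) (nat_lit 1130715846) (nat_lit 168) (nat_lit 28370557449) (nat_lit 84) (nat_lit 19062538521) (nat_lit 19) (nat_lit 5) (nat_lit 21) (nat_lit 5) (nat_lit 20) (nat_lit 4) (nat_lit 319) (nat_lit 248) (nat_lit 153)) (XT.lf (nat_lit 0) (nat_lit 3739370273) (nat_lit 84) (nat_lit 13061711375) (nat_lit 168) (nat_lit 33336445232) (nat_lit 18) (nat_lit 5) (nat_lit 19) (nat_lit 5) (nat_lit 20) (nat_lit 4) (nat_lit 320) (nat_lit 248) (nat_lit 152))) (XT.nd (nat_lit 94) (nat_lit 252) (nat_lit 0) (XT.lf (nat_lit 0) (nat_lit 33793068873) (nat_lit 168) (nat_lit 13430682200) (nat_lit 0) (nat_lit 4539271470) (nat_lit 18) (nat_lit 5) (nat_lit 20) (nat_lit 4) (nat_lit 18) (nat_lit 4) (nat_lit 321) (nat_lit 248) (nat_lit 151)) (XT.nd (nat_lit 94) (nat_lit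 168) (nat_lit 0) (XT.lf (nat_lit 0) (nat_lit 21633851785) (nat_lit 84) (nat_lit 30537634547) (nat_lit 84) (nat_lit 1271465112) (nat_lit 17) (nat_lit 4) (nat_lit 18) (nat_lit 5) (nat_lit 18) (nat_lit 4) (nat_lit 322) (nat_lit 248) (nat_lit 150)) (XT.lf (nat_lit 0) (nat_lit 3548723464) (nat_lit 84) (nat_lit 12464289114) (nat_lit 168) (nat_lit 39167592054) (nat_lit 15) (nat_lit 5) (nat_lit 16) (nat_lit 5) (nat_lit 17) (nat_lit 4) (nat_lit 323) (nat_lit 248) (nat_lit 149))))))))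
noncomputable def xc109 : XT := (XT.nd (nat_lit 1598) (nat_lit 0) (nat_lit 0) (XT.nd (nat_lit 752) (nat_lit 672) (nat_lit 0) (XT.nd (nat_lit 376) (nat_lit 336) (nat_lit 0) (XT.nd (nat_lit 188) (nat_lit 168) (nat_lit 0) (XT.nd (nat_lit 94) (nat_lit 84) (nat_lit 0) (XT.lf (nat_lit 0) (nat_lit 34753196157) (nat_lit 168) (nat_lit 15360446945) (nat_lit 0) (nat_lit 6858744614) (nat_lit 15) (nat_lit 5) (nat_lit 17) (nat_lit 4) (nat_lit 15) (nat_lit 4) (nat_lit 324) (nat_lit 248) (nat_lit 148)) (XT.lf (nat_lit 0) (nat_lit 23235662496) (nat_lit 84) (nat_lit 31747543328) (nat_lit 84) (nat_lit 3842913284) (nat_lit 14) (nat_lit 4) (nat_lit 15) (nat_lit 5) (nat_lit 15) (nat_lit 4) (nat_lit 325) (nat_lit 248) (nat_lit 147))) (XT.nd (nat_lit 94) (nat_lit 0) (nat_lit 0) (XT.lf (nat_lit 0) (nat_lit 3369385753) (nat_lit 84) (nat_lit 11890960396) (nat_lit 168) (nat_lit 45484991657) (nat_lit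 12) (nat_lit 5) (nat_lit 13) (nat_lit 5) (nat_lit 14) (nat_lit 4) (nat_lit 326) (nat_lit 248) (nat_lit 146)) (XT.lf (nat_lit 0) (nat_lit 35927867691) (nat_lit 168) (nat_lit 17458582727) (nat_lit 0) (nat_lit 9334004781) (nat_lit 12) (nat_lit 5) (nat_lit 14) (nat_lit 4) (nat_lit 12) (nat_lit 4) (nat_lit 327) (nat_lit 248) (nat_lit 145)))) (XT.nd (nat_lit 188) (nat_lit 84) (nat_lit 0) (XT.nd (nat_lit 94) (nat_lit 168) (nat_lit 0) (XT.lf (nat_lit 0) (nat_lit 25034016863) (nat_lit 84) (nat_lit 33166968687) (nat_lit 84) (nat_lit 6564731899) (nat_lit 11) (nat_lit 4) (nat_lit 12) (nat_lit 5) (nat_lit 12) (nat_lit 4) (nat_lit 328) (nat_lit 248) (nat_lit 144)) (XT.lf (nat_lit 0) (nat_lit 3200423119) (nat_lit 84) (nat_lit 11341350065) (nat_lit 168) (nat_lit 52343167468) (nat_lit 9) (nat_lit 5) (nat_lit 10) (nat_lit 5) (nat_lit 11) (nat_lit 4) (nat_lit 329) (nat_lit 248) (nat_lit 143)))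 (XT.nd (nat_lit 94) (nat_lit 84) (nat_lit 0) (XT.lf (nat_lit 0) (nat_lit 37334092196) (nat_lit 168) (nat_lit 19744296993) (nat_lit 0) (nat_lit 11983799563) (nat_lit 9) (nat_lit 5) (nat_lit 11) (nat_lit 4) (nat_lit 9) (nat_lit 4) (nat_lit 330) (nat_lit 248) (nat_lit 142)) (XT.lf (nat_lit 0) (nat_lit 27046980596) (nat_lit 84) (nat_lit 34814367236) (nat_lit 84) (nat_lit 9457185392) (nat_lit 8) (nat_lit 4) (nat_lit 9) (nat_lit 5) (nat_lit 9) (nat_lit 4) (nat_lit 331) (nat_lit 248) (nat_lit 141))))) (XT.nd (nat_lit 376) (nat_lit 252) (nat_lit 0) (XT.nd (nat_lit 188) (nat_lit 252) (nat_lit 0) (XT.nd (nat_lit 94) (nat_lit 0) (nat_lit 0) (XT.lf (nat_lit 0) (nat_lit 3041016136) (nat_lit 84) (nat_lit 10814963928) (nat_lit 168) (nat_lit 59802119249) (nat_lit 6) (nat_lit 5) (nat_lit 7) (nat_lit 5) (nat_lit 8) (nat_lit 4) (nat_lit 332) (nat_lit 248) (nat_lit 140)) (XT.lf (nat_lit 0)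 (nat_lit 38990761872) (nat_lit 168) (nat_lit 22238575964) (nat_lit 0) (nat_lit 14828865002) (nat_lit 6) (nat_lit 5) (nat_lit 8) (nat_lit 4) (nat_lit 6) (nat_lit 4) (nat_lit 333) (nat_lit 248) (nat_lit 139))) (XT.nd (nat_lit 94) (nat_lit 168) (nat_lit 0) (XT.lf (nat_lit 0) (nat_lit 29294665780) (nat_lit 84) (nat_lit 36710044511) (nat_lit 84) (nat_lit 12542479872) (nat_lit 5) (nat_lit 4) (nat_lit 6) (nat_lit 5) (nat_lit 6) (nat_lit 4) (nat_lit 334) (nat_lit 248) (nat_lit 138)) (XT.lf (nat_lit 0) (nat_lit 2890442087) (nat_lit 84) (nat_lit 10311218695) (nat_lit 168) (nat_lit 67927870143) (nat_lit 3) (nat_lit 5) (nat_lit 4) (nat_lit 5) (nat_lit 5) (nat_lit 4) (nat_lit 335) (nat_lit 248) (nat_lit 137)))) (XT.nd (nat_lit 188) (nat_lit 168) (nat_lit 0) (XT.nd (nat_lit 94) (nat_lit 84) (nat_lit 0) (XT.lf (nat_lit 0) (nat_lit 40918856004) (nat_lit 168) (nat_lit 24964393235) (nat_lit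 0) (nat_lit 17892090908) (nat_lit 3) (nat_lit 5) (nat_lit 5) (nat_lit 4) (nat_lit 3) (nat_lit 4) (nat_lit 336) (nat_lit 248) (nat_lit 136)) (XT.lf (nat_lit 0) (nat_lit 31799414411) (nat_lit 84) (nat_lit 38876379626) (nat_lit 84) (nat_lit 15844951641) (nat_lit 2) (nat_lit 4) (nat_lit 3) (nat_lit 5) (nat_lit 3) (nat_lit 4) (nat_lit 337) (nat_lit 248) (nat_lit 135))) (XT.nd (nat_lit 94) (nat_lit 0) (nat_lit 0) (XT.lf (nat_lit 0) (nat_lit 129663610270) (nat_lit 0) (nat_lit 0) (nat_lit 0) (nat_lit 0) (nat_lit 0) (nat_lit 0) (nat_lit 1) (nat_lit 0) (nat_lit 1) (nat_lit 0) (nat_lit 338) (nat_lit 248) (nat_lit 134)) (XT.nd (nat_lit 94) (nat_lit 0) (nat_lit 0) (XT.lf (nat_lit 0) (nat_lit 136066875701) (nat_lit 0) (nat_lit 0) (nat_lit 0) (nat_lit 0) (nat_lit 0) (nat_lit 0) (nat_lit 1) (nat_lit 0) (nat_lit 1) (nat_lit 0) (nat_lit 339) (nat_lit 248) (nat_lit 133)) (XT.lf (nat_lit 0)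 (nat_lit 142790332728) (nat_lit 0) (nat_lit 0) (nat_lit 0) (nat_lit 0) (nat_lit 0) (nat_lit 0) (nat_lit 1) (nat_lit 0) (nat_lit 1) (nat_lit 0) (nat_lit 340) (nat_lit 248) (nat_lit 132))))))) (XT.nd (nat_lit 37036) (nat_lit 0) (nat_lit 10416) (XT.nd (nat_lit 36660) (nat_lit 0) (nat_lit 12600) (XT.nd (nat_lit 188) (nat_lit 0) (nat_lit 0) (XT.nd (nat_lit 94) (nat_lit 0) (nat_lit 0) (XT.lf (nat_lit 0) (nat_lit 149849989581) (nat_lit 0) (nat_lit 0) (nat_lit 0) (nat_lit 0) (nat_lit 0) (nat_lit 0) (nat_lit 1) (nat_lit 0) (nat_lit 1) (nat_lit 0) (nat_lit 341) (nat_lit 248) (nat_lit 131)) (XT.lf (nat_lit 0) (nat_lit 157262654967) (nat_lit 0) (nat_lit 0) (nat_lit 0) (nat_lit 0) (nat_lit 0) (nat_lit 0) (nat_lit 1) (nat_lit 0) (nat_lit 1) (nat_lit 0) (nat_lit 342) (nat_lit 248) (nat_lit 130))) (XT.nd (nat_lit 36378) (nat_lit 0) (nat_lit 13188) (XT.lf (nat_lit 0) (nat_lit 165045978089)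 (nat_lit 0) (nat_lit 0) (nat_lit 0) (nat_lit 0) (nat_lit 0) (nat_lit 0) (nat_lit 1) (nat_lit 0) (nat_lit 1) (nat_lit 0) (nat_lit 343) (nat_lit 248) (nat_lit 129)) (XT.lf (nat_lit 0) (nat_lit 418711561) (nat_lit 0) (nat_lit 418711561) (nat_lit 588) (nat_lit 2849676858) (nat_lit 157) (nat_lit 5) (nat_lit 157) (nat_lit 3) (nat_lit 164) (nat_lit 3) (nat_lit 249) (nat_lit 249) (nat_lit 222)))) (XT.nd (nat_lit 188) (nat_lit 588) (nat_lit 0) (XT.nd (nat_lit 94) (nat_lit 0) (nat_lit 0) (XT.lf (nat_lit 0) (nat_lit 3263305402) (nat_lit 588) (nat_lit 2846800331) (nat_lit 672) (nat_lit 1371119827) (nat_lit 157) (nat_lit 5) (nat_lit 164) (nat_lit 3) (nat_lit 165) (nat_lit 5) (nat_lit 250) (nat_lit 249) (nat_lit 221)) (XT.lf (nat_lit 84) (nat_lit 991238870) (nat_lit 0) (nat_lit 3872329377) (nat_lit 672) (nat_lit 2733415154) (nat_lit 158) (nat_lit 5) (nat_lit 157) (nat_lit 5) (nat_lit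 165) (nat_lit 5) (nat_lit 251) (nat_lit 249) (nat_lit 220))) (XT.nd (nat_lit 94) (nat_lit 588) (nat_lit 0) (XT.lf (nat_lit 84) (nat_lit 5066458757) (nat_lit 0) (nat_lit 1432548377) (nat_lit 672) (nat_lit 1221763858) (nat_lit 158) (nat_lit 5) (nat_lit 157) (nat_lit 5) (nat_lit 165) (nat_lit 5) (nat_lit 252) (nat_lit 249) (nat_lit 219)) (XT.lf (nat_lit 0) (nat_lit 305513688) (nat_lit 672) (nat_lit 6390025973) (nat_lit 756) (nat_lit 1157335948) (nat_lit 150) (nat_lit 5) (nat_lit 158) (nat_lit 5) (nat_lit 159) (nat_lit 5) (nat_lit 253) (nat_lit 249) (nat_lit 218))))) (XT.nd (nat_lit 376) (nat_lit 2184) (nat_lit 0) (XT.nd (nat_lit 188) (nat_lit 0) (nat_lit 84) (XT.nd (nat_lit 94) (nat_lit 0) (nat_lit 0) (XT.lf (nat_lit 0) (nat_lit 1851181171) (nat_lit 672) (nat_lit 2213533240) (nat_lit 756) (nat_lit 3926715335) (nat_lit 150) (nat_lit 5) (nat_lit 158) (nat_lit 5) (nat_lit 159)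 (nat_lit 5) (nat_lit 254) (nat_lit 249) (nat_lit 217)) (XT.lf (nat_lit 84) (nat_lit 2186561585) (nat_lit 0) (nat_lit 1239720181) (nat_lit 756) (nat_lit 4713022337) (nat_lit 151) (nat_lit 5) (nat_lit 150) (nat_lit 5) (nat_lit 159) (nat_lit 5) (nat_lit 255) (nat_lit 249) (nat_lit 216))) (XT.nd (nat_lit 94) (nat_lit 0) (nat_lit 0) (XT.lf (nat_lit 0) (nat_lit 5066646986) (nat_lit 672) (nat_lit 1495404912) (nat_lit 756) (nat_lit 1733194799) (nat_lit 151) (nat_lit 5) (nat_lit 159) (nat_lit 5) (nat_lit 160) (nat_lit 5) (nat_lit 256) (nat_lit 249) (nat_lit 215)) (XT.lf (nat_lit 84) (nat_lit 3211407380) (nat_lit 0) (nat_lit 3573277742) (nat_lit 756) (nat_lit 1674518567) (nat_lit 152) (nat_lit 5) (nat_lit 151) (nat_lit 5) (nat_lit 160) (nat_lit 5) (nat_lit 257) (nat_lit 249) (nat_lit 214)))) (XT.nd (nat_lit 188) (nat_lit 1596) (nat_lit 0) (XT.nd (nat_lit 94) (nat_lit 672) (nat_lit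 0) (XT.lf (nat_lit 84) (nat_lit 8150524235) (nat_lit 0) (nat_lit 391322937) (nat_lit 756) (nat_lit 91850257) (nat_lit 152) (nat_lit 5) (nat_lit 151) (nat_lit 5) (nat_lit 160) (nat_lit 5) (nat_lit 258) (nat_lit 249) (nat_lit 213)) (XT.lf (nat_lit 0) (nat_lit 1569395010) (nat_lit 756) (nat_lit 4276115564) (nat_lit 84) (nat_lit 2967695126) (nat_lit 143) (nat_lit 5) (nat_lit 152) (nat_lit 5) (nat_lit 144) (nat_lit 5) (nat_lit 259) (nat_lit 249) (nat_lit 212))) (XT.nd (nat_lit 94) (nat_lit 840) (nat_lit 0) (XT.lf (nat_lit 0) (nat_lit 783544547) (nat_lit 756) (nat_lit 2486936704) (nat_lit 840) (nat_lit 5733139572) (nat_lit 134) (nat_lit 5) (nat_lit 143) (nat_lit 5) (nat_lit 144) (nat_lit 5) (nat_lit 260) (nat_lit 249) (nat_lit 211)) (XT.nd (nat_lit 94) (nat_lit 840) (nat_lit 0) (XT.lf (nat_lit 0) (nat_lit 5081802842) (nat_lit 840) (nat_lit 3032493724) (nat_lit 84) (nat_lit 1088001084)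 (nat_lit 134) (nat_lit 5) (nat_lit 144) (nat_lit 5) (nat_lit 135) (nat_lit 5) (nat_lit 261) (nat_lit 249) (nat_lit 210)) (XT.lf (nat_lit 0) (nat_lit 2393363019) (nat_lit 840) (nat_lit 4606888083) (nat_lit 924) (nat_lit 2409829188) (nat_lit 124) (nat_lit 5) (nat_lit 134) (nat_lit 5) (nat_lit 135) (nat_lit 5) (nat_lit 262) (nat_lit 249) (nat_lit 209))))))))
noncomputable def xc110 : XT := (XT.nd (nat_lit 1598) (nat_lit 2520) (nat_lit 0) (XT.nd (nat_lit 752) (nat_lit 1680) (nat_lit 0) (XT.nd (nat_lit 376) (nat_lit 1176) (nat_lit 0) (XT.nd (nat_lit 188) (nat_lit 420) (nat_lit 0) (XT.nd (nat_lit 94) (nat_lit 588) (nat_lit 0) (XT.lf (nat_lit 0) (nat_lit 8139774244) (nat_lit 840) (nat_lit 866685876) (nat_lit 924) (nat_lit 622200024) (nat_lit 124) (nat_lit 5) (nat_lit 134) (nat_lit 5) (nat_lit 135) (nat_lit 5) (nat_lit 263) (nat_lit 249) (nat_lit 208)) (XT.lf (nat_lit 0) (nat_lit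 1274692940) (nat_lit 588) (nat_lit 5525214344) (nat_lit 84) (nat_lit 3054279945) (nat_lit 117) (nat_lit 5) (nat_lit 124) (nat_lit 5) (nat_lit 118) (nat_lit 5) (nat_lit 264) (nat_lit 249) (nat_lit 207))) (XT.nd (nat_lit 94) (nat_lit 0) (nat_lit 0) (XT.lf (nat_lit 0) (nat_lit 328195565) (nat_lit 420) (nat_lit 2906587743) (nat_lit 504) (nat_lit 6856234224) (nat_lit 112) (nat_lit 5) (nat_lit 117) (nat_lit 5) (nat_lit 118) (nat_lit 5) (nat_lit 265) (nat_lit 249) (nat_lit 206)) (XT.lf (nat_lit 0) (nat_lit 5352469352) (nat_lit 504) (nat_lit 3747801272) (nat_lit 84) (nat_lit 1236439167) (nat_lit 112) (nat_lit 5) (nat_lit 118) (nat_lit 5) (nat_lit 113) (nat_lit 5) (nat_lit 266) (nat_lit 249) (nat_lit 205)))) (XT.nd (nat_lit 188) (nat_lit 756) (nat_lit 0) (XT.nd (nat_lit 94) (nat_lit 0) (nat_lit 0) (XT.lf (nat_lit 0) (nat_lit 2545694290) (nat_lit 420) (nat_lit 5066349406) (nat_lit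 504) (nat_lit 2980842766) (nat_lit 107) (nat_lit 5) (nat_lit 112) (nat_lit 5) (nat_lit 113) (nat_lit 5) (nat_lit 267) (nat_lit 249) (nat_lit 204)) (XT.lf (nat_lit 0) (nat_lit 9228779450) (nat_lit 420) (nat_lit 769483065) (nat_lit 504) (nat_lit 862926166) (nat_lit 107) (nat_lit 5) (nat_lit 112) (nat_lit 5) (nat_lit 113) (nat_lit 5) (nat_lit 268) (nat_lit 249) (nat_lit 203))) (XT.nd (nat_lit 94) (nat_lit 336) (nat_lit 0) (XT.lf (nat_lit 0) (nat_lit 1410221701) (nat_lit 420) (nat_lit 6006272759) (nat_lit 84) (nat_lit 3720704572) (nat_lit 102) (nat_lit 5) (nat_lit 107) (nat_lit 5) (nat_lit 103) (nat_lit 5) (nat_lit 269) (nat_lit 249) (nat_lit 202)) (XT.lf (nat_lit 0) (nat_lit 806547644) (nat_lit 336) (nat_lit 2967935669) (nat_lit 420) (nat_lit 7651496455) (nat_lit 98) (nat_lit 5) (nat_lit 102) (nat_lit 5) (nat_lit 103) (nat_lit 5) (nat_lit 270) (nat_lit 249) (nat_lit 201)))))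 (XT.nd (nat_lit 376) (nat_lit 924) (nat_lit 0) (XT.nd (nat_lit 188) (nat_lit 420) (nat_lit 0) (XT.nd (nat_lit 94) (nat_lit 336) (nat_lit 0) (XT.lf (nat_lit 0) (nat_lit 6341319559) (nat_lit 420) (nat_lit 3640599568) (nat_lit 84) (nat_lit 1743062337) (nat_lit 98) (nat_lit 5) (nat_lit 103) (nat_lit 5) (nat_lit 99) (nat_lit 5) (nat_lit 271) (nat_lit 249) (nat_lit 200)) (XT.lf (nat_lit 0) (nat_lit 3702979004) (nat_lit 336) (nat_lit 5396544785) (nat_lit 420) (nat_lit 2936258145) (nat_lit 94) (nat_lit 5) (nat_lit 98) (nat_lit 5) (nat_lit 99) (nat_lit 5) (nat_lit 272) (nat_lit 249) (nat_lit 199))) (XT.nd (nat_lit 94) (nat_lit 420) (nat_lit 0) (XT.lf (nat_lit 0) (nat_lit 11486942445) (nat_lit 336) (nat_lit 528146993) (nat_lit 420) (nat_lit 346060432) (nat_lit 94) (nat_lit 5) (nat_lit 98) (nat_lit 5) (nat_lit 99) (nat_lit 5) (nat_lit 273) (nat_lit 249) (nat_lit 198)) (XT.lf (nat_lit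 0) (nat_lit 2441413987) (nat_lit 420) (nat_lit 5675901867) (nat_lit 84) (nat_lit 4576430466) (nat_lit 89) (nat_lit 5) (nat_lit 94) (nat_lit 5) (nat_lit 90) (nat_lit 5) (nat_lit 274) (nat_lit 249) (nat_lit 197)))) (XT.nd (nat_lit 188) (nat_lit 672) (nat_lit 0) (XT.nd (nat_lit 94) (nat_lit 0) (nat_lit 0) (XT.lf (nat_lit 0) (nat_lit 2298640850) (nat_lit 252) (nat_lit 3077699887) (nat_lit 336) (nat_lit 7665362773) (nat_lit 86) (nat_lit 5) (nat_lit 89) (nat_lit 5) (nat_lit 90) (nat_lit 5) (nat_lit 275) (nat_lit 249) (nat_lit 196)) (XT.lf (nat_lit 0) (nat_lit 8551270871) (nat_lit 336) (nat_lit 2623278887) (nat_lit 84) (nat_lit 2227845949) (nat_lit 86) (nat_lit 5) (nat_lit 90) (nat_lit 5) (nat_lit 87) (nat_lit 5) (nat_lit 276) (nat_lit 249) (nat_lit 195))) (XT.nd (nat_lit 94) (nat_lit 336) (nat_lit 0) (XT.lf (nat_lit 0) (nat_lit 5992552616) (nat_lit 336) (nat_lit 5999259020) (nat_lit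 420) (nat_lit 1783967673) (nat_lit 82) (nat_lit 5) (nat_lit 86) (nat_lit 5) (nat_lit 87) (nat_lit 5) (nat_lit 277) (nat_lit 249) (nat_lit 194)) (XT.nd (nat_lit 94) (nat_lit 0) (nat_lit 0) (XT.lf (nat_lit 0) (nat_lit 919228680) (nat_lit 252) (nat_lit 494084527) (nat_lit 336) (nat_lit 12752260240) (nat_lit 78) (nat_lit 5) (nat_lit 81) (nat_lit 5) (nat_lit 82) (nat_lit 5) (nat_lit 278) (nat_lit 249) (nat_lit 193)) (XT.lf (nat_lit 0) (nat_lit 4890973275) (nat_lit 336) (nat_lit 4407581574) (nat_lit 84) (nat_lit 5265816766) (nat_lit 78) (nat_lit 5) (nat_lit 82) (nat_lit 5) (nat_lit 79) (nat_lit 5) (nat_lit 279) (nat_lit 249) (nat_lit 192))))))) (XT.nd (nat_lit 752) (nat_lit 1176) (nat_lit 0) (XT.nd (nat_lit 376) (nat_lit 504) (nat_lit 0) (XT.nd (nat_lit 188) (nat_lit 588) (nat_lit 0) (XT.nd (nat_lit 94) (nat_lit 0) (nat_lit 0) (XT.lf (nat_lit 0) (nat_lit 4974327830) (nat_lit 252)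 (nat_lit 3619627518) (nat_lit 336) (nat_lit 6386582393) (nat_lit 75) (nat_lit 5) (nat_lit 78) (nat_lit 5) (nat_lit 79) (nat_lit 5) (nat_lit 280) (nat_lit 249) (nat_lit 191)) (XT.lf (nat_lit 0) (nat_lit 12560839168) (nat_lit 336) (nat_lit 523759775) (nat_lit 84) (nat_lit 2328975599) (nat_lit 75) (nat_lit 5) (nat_lit 79) (nat_lit 5) (nat_lit 76) (nat_lit 5) (nat_lit 281) (nat_lit 249) (nat_lit 190))) (XT.nd (nat_lit 94) (nat_lit 252) (nat_lit 0) (XT.lf (nat_lit 0) (nat_lit 1010912908) (nat_lit 336) (nat_lit 6241992093) (nat_lit 84) (nat_lit 8605660345) (nat_lit 71) (nat_lit 5) (nat_lit 75) (nat_lit 5) (nat_lit 72) (nat_lit 5) (nat_lit 282) (nat_lit 249) (nat_lit 189)) (XT.lf (nat_lit 0) (nat_lit 3989114011) (nat_lit 252) (nat_lit 1022236306) (nat_lit 336) (nat_lit 11310143201) (nat_lit 68) (nat_lit 5) (nat_lit 71) (nat_lit 5) (nat_lit 72) (nat_lit 5) (nat_lit 283) (nat_lit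 249) (nat_lit 188)))) (XT.nd (nat_lit 188) (nat_lit 336) (nat_lit 0) (XT.nd (nat_lit 94) (nat_lit 168) (nat_lit 0) (XT.lf (nat_lit 0) (nat_lit 9374129547) (nat_lit 336) (nat_lit 1990622992) (nat_lit 84) (nat_lit 5434699560) (nat_lit 68) (nat_lit 5) (nat_lit 72) (nat_lit 5) (nat_lit 69) (nat_lit 5) (nat_lit 284) (nat_lit 249) (nat_lit 187)) (XT.lf (nat_lit 0) (nat_lit 9096012940) (nat_lit 168) (nat_lit 4987991489) (nat_lit 252) (nat_lit 3210856347) (nat_lit 66) (nat_lit 5) (nat_lit 68) (nat_lit 5) (nat_lit 69) (nat_lit 5) (nat_lit 285) (nat_lit 249) (nat_lit 186))) (XT.nd (nat_lit 94) (nat_lit 0) (nat_lit 0) (XT.lf (nat_lit 0) (nat_lit 1255381557) (nat_lit 336) (nat_lit 14816357701) (nat_lit 84) (nat_lit 1738356939) (nat_lit 62) (nat_lit 5) (nat_lit 66) (nat_lit 5) (nat_lit 63) (nat_lit 5) (nat_lit 286) (nat_lit 249) (nat_lit 185)) (XT.lf (nat_lit 0) (nat_lit 6030757268)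 (nat_lit 336) (nat_lit 3497463650) (nat_lit 84) (nat_lit 8810554035) (nat_lit 62) (nat_lit 5) (nat_lit 66) (nat_lit 5) (nat_lit 63) (nat_lit 5) (nat_lit 287) (nat_lit 249) (nat_lit 184))))) (XT.nd (nat_lit 376) (nat_lit 588) (nat_lit 0) (XT.nd (nat_lit 188) (nat_lit 252) (nat_lit 0) (XT.nd (nat_lit 94) (nat_lit 168) (nat_lit 0) (XT.lf (nat_lit 0) (nat_lit 8618232490) (nat_lit 168) (nat_lit 2533446587) (nat_lit 252) (nat_lit 7736869704) (nat_lit 60) (nat_lit 5) (nat_lit 62) (nat_lit 5) (nat_lit 63) (nat_lit 5) (nat_lit 288) (nat_lit 249) (nat_lit 183)) (XT.lf (nat_lit 0) (nat_lit 1938915343) (nat_lit 168) (nat_lit 14727907245) (nat_lit 252) (nat_lit 2792079932) (nat_lit 58) (nat_lit 5) (nat_lit 60) (nat_lit 5) (nat_lit 61) (nat_lit 5) (nat_lit 289) (nat_lit 249) (nat_lit 182))) (XT.nd (nat_lit 94) (nat_lit 168) (nat_lit 0) (XT.lf (nat_lit 0) (nat_lit 2514208665) (nat_lit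 252) (nat_lit 5061273744) (nat_lit 84) (nat_lit 12470864405) (nat_lit 57) (nat_lit 5) (nat_lit 60) (nat_lit 5) (nat_lit 58) (nat_lit 5) (nat_lit 290) (nat_lit 249) (nat_lit 181)) (XT.lf (nat_lit 0) (nat_lit 8095511106) (nat_lit 252) (nat_lit 12463829928) (nat_lit 84) (nat_lit 96357118) (nat_lit 55) (nat_lit 5) (nat_lit 58) (nat_lit 5) (nat_lit 56) (nat_lit 5) (nat_lit 291) (nat_lit 249) (nat_lit 180)))) (XT.nd (nat_lit 188) (nat_lit 420) (nat_lit 0) (XT.nd (nat_lit 94) (nat_lit 0) (nat_lit 0) (XT.lf (nat_lit 0) (nat_lit 850121088) (nat_lit 168) (nat_lit 13304692863) (nat_lit 252) (nat_lit 7130756342) (nat_lit 53) (nat_lit 5) (nat_lit 55) (nat_lit 5) (nat_lit 56) (nat_lit 5) (nat_lit 292) (nat_lit 249) (nat_lit 179)) (XT.lf (nat_lit 0) (nat_lit 15219542988) (nat_lit 168) (nat_lit 5483524715) (nat_lit 252) (nat_lit 1234569051) (nat_lit 53) (nat_lit 5) (nat_lit 55) (nat_lit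 5) (nat_lit 56) (nat_lit 5) (nat_lit 293) (nat_lit 249) (nat_lit 178))) (XT.nd (nat_lit 94) (nat_lit 168) (nat_lit 0) (XT.lf (nat_lit 0) (nat_lit 4941131928) (nat_lit 252) (nat_lit 14842937996) (nat_lit 84) (nat_lit 2827200378) (nat_lit 50) (nat_lit 5) (nat_lit 53) (nat_lit 5) (nat_lit 51) (nat_lit 5) (nat_lit 294) (nat_lit 249) (nat_lit 177)) (XT.nd (nat_lit 94) (nat_lit 168) (nat_lit 0) (XT.lf (nat_lit 0) (nat_lit 11565616317) (nat_lit 252) (nat_lit 254525772) (nat_lit 84) (nat_lit 11488357098) (nat_lit 50) (nat_lit 5) (nat_lit 53) (nat_lit 5) (nat_lit 51) (nat_lit 5) (nat_lit 295) (nat_lit 249) (nat_lit 176)) (XT.lf (nat_lit 0) (nat_lit 15520096752) (nat_lit 168) (nat_lit 3220640196) (nat_lit 252) (nat_lit 5288881967) (nat_lit 48) (nat_lit 5) (nat_lit 50) (nat_lit 5) (nat_lit 51) (nat_lit 5) (nat_lit 296) (nat_lit 249) (nat_lit 175))))))))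
noncomputable def xc111 : XT := (XT.nd (nat_lit 1598) (nat_lit 1512) (nat_lit 0) (XT.nd (nat_lit 752) (nat_lit 924) (nat_lit 0) (XT.nd (nat_lit 376) (nat_lit 420) (nat_lit 0) (XT.nd (nat_lit 188) (nat_lit 252) (nat_lit 0) (XT.nd (nat_lit 94) (nat_lit 0) (nat_lit 0) (XT.lf (nat_lit 0) (nat_lit 1631391957) (nat_lit 168) (nat_lit 17391689875) (nat_lit 84) (nat_lit 5752991724) (nat_lit 46) (nat_lit 5) (nat_lit 48) (nat_lit 5) (nat_lit 47) (nat_lit 5) (nat_lit 297) (nat_lit 249) (nat_lit 174)) (XT.lf (nat_lit 0) (nat_lit 8896623325) (nat_lit 168) (nat_lit 1366354552) (nat_lit 84) (nat_lit 15283703658) (nat_lit 46) (nat_lit 5) (nat_lit 48) (nat_lit 5) (nat_lit 47) (nat_lit 5) (nat_lit 298) (nat_lit 249) (nat_lit 173))) (XT.nd (nat_lit 94) (nat_lit 84) (nat_lit 0) (XT.lf (nat_lit 0) (nat_lit 15931819924) (nat_lit 168) (nat_lit 820524410) (nat_lit 252) (nat_lit 9592114176) (nat_lit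 44) (nat_lit 5) (nat_lit 46) (nat_lit 5) (nat_lit 47) (nat_lit 5) (nat_lit 299) (nat_lit 249) (nat_lit 172)) (XT.lf (nat_lit 0) (nat_lit 7004682367) (nat_lit 84) (nat_lit 18249697735) (nat_lit 168) (nat_lit 1915067796) (nat_lit 43) (nat_lit 5) (nat_lit 44) (nat_lit 5) (nat_lit 45) (nat_lit 4) (nat_lit 300) (nat_lit 249) (nat_lit 171)))) (XT.nd (nat_lit 188) (nat_lit 168) (nat_lit 0) (XT.nd (nat_lit 94) (nat_lit 168) (nat_lit 0) (XT.lf (nat_lit 0) (nat_lit 6120555725) (nat_lit 168) (nat_lit 2523394929) (nat_lit 84) (nat_lit 19378366931) (nat_lit 42) (nat_lit 5) (nat_lit 44) (nat_lit 5) (nat_lit 43) (nat_lit 5) (nat_lit 301) (nat_lit 249) (nat_lit 170)) (XT.lf (nat_lit 0) (nat_lit 14757308527) (nat_lit 252) (nat_lit 12472743468) (nat_lit 84) (nat_lit 1673023685) (nat_lit 40) (nat_lit 5) (nat_lit 43) (nat_lit 5) (nat_lit 41) (nat_lit 4) (nat_lit 302) (nat_lit 249) (nat_lit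 169))) (XT.nd (nat_lit 94) (nat_lit 84) (nat_lit 0) (XT.lf (nat_lit 0) (nat_lit 6626390161) (nat_lit 84) (nat_lit 17468006035) (nat_lit 168) (nat_lit 5720050624) (nat_lit 39) (nat_lit 5) (nat_lit 40) (nat_lit 5) (nat_lit 41) (nat_lit 4) (nat_lit 303) (nat_lit 249) (nat_lit 168)) (XT.lf (nat_lit 0) (nat_lit 3221532669) (nat_lit 168) (nat_lit 3736577679) (nat_lit 84) (nat_lit 23801101997) (nat_lit 38) (nat_lit 5) (nat_lit 40) (nat_lit 5) (nat_lit 39) (nat_lit 5) (nat_lit 304) (nat_lit 249) (nat_lit 167))))) (XT.nd (nat_lit 376) (nat_lit 420) (nat_lit 0) (XT.nd (nat_lit 188) (nat_lit 252) (nat_lit 0) (XT.nd (nat_lit 94) (nat_lit 84) (nat_lit 0) (XT.lf (nat_lit 0) (nat_lit 12735279678) (nat_lit 252) (nat_lit 14697461487) (nat_lit 84) (nat_lit 4297920627) (nat_lit 36) (nat_lit 5) (nat_lit 39) (nat_lit 5) (nat_lit 37) (nat_lit 4) (nat_lit 305) (nat_lit 249) (nat_lit 166)) (XT.lf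 (nat_lit 0) (nat_lit 6274043434) (nat_lit 84) (nat_lit 16708052312) (nat_lit 168) (nat_lit 9755718882) (nat_lit 35) (nat_lit 5) (nat_lit 36) (nat_lit 5) (nat_lit 37) (nat_lit 4) (nat_lit 306) (nat_lit 249) (nat_lit 165))) (XT.nd (nat_lit 94) (nat_lit 168) (nat_lit 0) (XT.lf (nat_lit 0) (nat_lit 181743205) (nat_lit 168) (nat_lit 5017118222) (nat_lit 84) (nat_lit 28584801637) (nat_lit 34) (nat_lit 5) (nat_lit 36) (nat_lit 5) (nat_lit 35) (nat_lit 5) (nat_lit 307) (nat_lit 249) (nat_lit 164)) (XT.lf (nat_lit 0) (nat_lit 10663843102) (nat_lit 252) (nat_lit 17094686439) (nat_lit 84) (nat_lit 7096496849) (nat_lit 32) (nat_lit 5) (nat_lit 35) (nat_lit 5) (nat_lit 33) (nat_lit 4) (nat_lit 308) (nat_lit 249) (nat_lit 163)))) (XT.nd (nat_lit 188) (nat_lit 336) (nat_lit 0) (XT.nd (nat_lit 94) (nat_lit 0) (nat_lit 0) (XT.lf (nat_lit 0) (nat_lit 5945000441) (nat_lit 84) (nat_lit 15971546955)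 (nat_lit 168) (nat_lit 14051085515) (nat_lit 31) (nat_lit 5) (nat_lit 32) (nat_lit 5) (nat_lit 33) (nat_lit 4) (nat_lit 309) (nat_lit 249) (nat_lit 162)) (XT.lf (nat_lit 0) (nat_lit 30696904668) (nat_lit 84) (nat_lit 3306916300) (nat_lit 168) (nat_lit 3118452088) (nat_lit 31) (nat_lit 5) (nat_lit 32) (nat_lit 5) (nat_lit 33) (nat_lit 4) (nat_lit 310) (nat_lit 249) (nat_lit 161))) (XT.nd (nat_lit 94) (nat_lit 84) (nat_lit 0) (XT.lf (nat_lit 0) (nat_lit 8532273527) (nat_lit 252) (nat_lit 19686600109) (nat_lit 84) (nat_lit 10087291848) (nat_lit 28) (nat_lit 5) (nat_lit 31) (nat_lit 5) (nat_lit 29) (nat_lit 4) (nat_lit 311) (nat_lit 249) (nat_lit 160)) (XT.nd (nat_lit 94) (nat_lit 0) (nat_lit 0) (XT.lf (nat_lit 0) (nat_lit 5636994557) (nat_lit 84) (nat_lit 15259632130) (nat_lit 168) (nat_lit 18638275154) (nat_lit 27) (nat_lit 5) (nat_lit 28) (nat_lit 5) (nat_lit 29) (nat_lit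 4) (nat_lit 312) (nat_lit 249) (nat_lit 159)) (XT.lf (nat_lit 0) (nat_lit 32878449377) (nat_lit 84) (nat_lit 1317530096) (nat_lit 168) (nat_lit 6613256444) (nat_lit 27) (nat_lit 5) (nat_lit 28) (nat_lit 5) (nat_lit 29) (nat_lit 4) (nat_lit 313) (nat_lit 249) (nat_lit 158))))))) (XT.nd (nat_lit 752) (nat_lit 756) (nat_lit 0) (XT.nd (nat_lit 376) (nat_lit 336) (nat_lit 0) (XT.nd (nat_lit 188) (nat_lit 168) (nat_lit 0) (XT.nd (nat_lit 94) (nat_lit 84) (nat_lit 0) (XT.lf (nat_lit 0) (nat_lit 6328686902) (nat_lit 168) (nat_lit 22497114628) (nat_lit 84) (nat_lit 13291384783) (nat_lit 25) (nat_lit 5) (nat_lit 27) (nat_lit 5) (nat_lit 26) (nat_lit 4) (nat_lit 314) (nat_lit 249) (nat_lit 157)) (XT.lf (nat_lit 0) (nat_lit 5348072212) (nat_lit 84) (nat_lit 14572995139) (nat_lit 168) (nat_lit 23552766739) (nat_lit 24) (nat_lit 5) (nat_lit 25) (nat_lit 5) (nat_lit 26) (nat_lit 4) (nat_lit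 315) (nat_lit 249) (nat_lit 156))) (XT.nd (nat_lit 94) (nat_lit 168) (nat_lit 0) (XT.lf (nat_lit 0) (nat_lit 34570477408) (nat_lit 168) (nat_lit 9556007948) (nat_lit 0) (nat_lit 752958374) (nat_lit 24) (nat_lit 5) (nat_lit 26) (nat_lit 4) (nat_lit 24) (nat_lit 4) (nat_lit 316) (nat_lit 249) (nat_lit 155)) (XT.lf (nat_lit 0) (nat_lit 4039982782) (nat_lit 168) (nat_lit 25552134035) (nat_lit 84) (nat_lit 16732504755) (nat_lit 22) (nat_lit 5) (nat_lit 24) (nat_lit 5) (nat_lit 23) (nat_lit 4) (nat_lit 317) (nat_lit 249) (nat_lit 154)))) (XT.nd (nat_lit 188) (nat_lit 252) (nat_lit 0) (XT.nd (nat_lit 94) (nat_lit 0) (nat_lit 0) (XT.lf (nat_lit 0) (nat_lit 5076541616) (nat_lit 84) (nat_lit 13911961092) (nat_lit 168) (nat_lit 28833677017) (nat_lit 21) (nat_lit 5) (nat_lit 22) (nat_lit 5) (nat_lit 23) (nat_lit 4) (nat_lit 318) (nat_lit 249) (nat_lit 153)) (XT.lf (nat_lit 0) (nat_lit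 35149001344) (nat_lit 168) (nat_lit 11325697096) (nat_lit 0) (nat_lit 2896689707) (nat_lit 21) (nat_lit 5) (nat_lit 23) (nat_lit 4) (nat_lit 21) (nat_lit 4) (nat_lit 319) (nat_lit 249) (nat_lit 152))) (XT.nd (nat_lit 94) (nat_lit 84) (nat_lit 0) (XT.lf (nat_lit 0) (nat_lit 1651767560) (nat_lit 168) (nat_lit 28879828302) (nat_lit 84) (nat_lit 20437180748) (nat_lit 19) (nat_lit 5) (nat_lit 21) (nat_lit 5) (nat_lit 20) (nat_lit 4) (nat_lit 320) (nat_lit 249) (nat_lit 151)) (XT.lf (nat_lit 0) (nat_lit 4820930371) (nat_lit 84) (nat_lit 13276568558) (nat_lit 168) (nat_lit 34524086136) (nat_lit 18) (nat_lit 5) (nat_lit 19) (nat_lit 5) (nat_lit 20) (nat_lit 4) (nat_lit 321) (nat_lit 249) (nat_lit 150))))) (XT.nd (nat_lit 376) (nat_lit 504) (nat_lit 0) (XT.nd (nat_lit 188) (nat_lit 168) (nat_lit 0) (XT.nd (nat_lit 94) (nat_lit 84) (nat_lit 0) (XT.lf (nat_lit 0) (nat_lit 35923870099)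 (nat_lit 168) (nat_lit 13235008910) (nat_lit 0) (nat_lit 5170237272) (nat_lit 18) (nat_lit 5) (nat_lit 20) (nat_lit 4) (nat_lit 18) (nat_lit 4) (nat_lit 322) (nat_lit 249) (nat_lit 149)) (XT.lf (nat_lit 0) (nat_lit 23568764558) (nat_lit 84) (nat_lit 31644757994) (nat_lit 84) (nat_lit 879903370) (nat_lit 17) (nat_lit 4) (nat_lit 18) (nat_lit 5) (nat_lit 18) (nat_lit 4) (nat_lit 323) (nat_lit 249) (nat_lit 148))) (XT.nd (nat_lit 94) (nat_lit 0) (nat_lit 0) (XT.lf (nat_lit 0) (nat_lit 4579950414) (nat_lit 84) (nat_lit 12666631275) (nat_lit 168) (nat_lit 40671407250) (nat_lit 15) (nat_lit 5) (nat_lit 16) (nat_lit 5) (nat_lit 17) (nat_lit 4) (nat_lit 324) (nat_lit 249) (nat_lit 147)) (XT.lf (nat_lit 0) (nat_lit 36909417372) (nat_lit 168) (nat_lit 15300978145) (nat_lit 0) (nat_lit 7589683514) (nat_lit 15) (nat_lit 5) (nat_lit 17) (nat_lit 4) (nat_lit 15) (nat_lit 4) (nat_lit 325)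 (nat_lit 249) (nat_lit 146)))) (XT.nd (nat_lit 188) (nat_lit 252) (nat_lit 0) (XT.nd (nat_lit 94) (nat_lit 168) (nat_lit 0) (XT.lf (nat_lit 0) (nat_lit 25211590137) (nat_lit 84) (nat_lit 32932116969) (nat_lit 84) (nat_lit 3603150909) (nat_lit 14) (nat_lit 4) (nat_lit 15) (nat_lit 5) (nat_lit 15) (nat_lit 4) (nat_lit 326) (nat_lit 249) (nat_lit 145)) (XT.lf (nat_lit 0) (nat_lit 4352468984) (nat_lit 84) (nat_lit 12081788388) (nat_lit 168) (nat_lit 47327802628) (nat_lit 12) (nat_lit 5) (nat_lit 13) (nat_lit 5) (nat_lit 14) (nat_lit 4) (nat_lit 327) (nat_lit 249) (nat_lit 144))) (XT.nd (nat_lit 94) (nat_lit 252) (nat_lit 0) (XT.lf (nat_lit 0) (nat_lit 38121591663) (nat_lit 168) (nat_lit 17542125732) (nat_lit 0) (nat_lit 10172894035) (nat_lit 12) (nat_lit 5) (nat_lit 14) (nat_lit 4) (nat_lit 12) (nat_lit 4) (nat_lit 328) (nat_lit 249) (nat_lit 143)) (XT.nd (nat_lit 94) (nat_lit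 168) (nat_lit 0) (XT.lf (nat_lit 0) (nat_lit 27062371803) (nat_lit 84) (nat_lit 34439198855) (nat_lit 84) (nat_lit 6482905873) (nat_lit 11) (nat_lit 4) (nat_lit 12) (nat_lit 5) (nat_lit 12) (nat_lit 4) (nat_lit 329) (nat_lit 249) (nat_lit 142)) (XT.lf (nat_lit 0) (nat_lit 4137484571) (nat_lit 84) (nat_lit 11521545294) (nat_lit 168) (nat_lit 54550649420) (nat_lit 9) (nat_lit 5) (nat_lit 10) (nat_lit 5) (nat_lit 11) (nat_lit 4) (nat_lit 330) (nat_lit 249) (nat_lit 141))))))))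
noncomputable def xc112 : XT := (XT.nd (nat_lit 37788) (nat_lit 0) (nat_lit 8988) (XT.nd (nat_lit 752) (nat_lit 168) (nat_lit 0) (XT.nd (nat_lit 376) (nat_lit 336) (nat_lit 0) (XT.nd (nat_lit 188) (nat_lit 168) (nat_lit 0) (XT.nd (nat_lit 94) (nat_lit 84) (nat_lit 0) (XT.lf (nat_lit 0) (nat_lit 39578137932) (nat_lit 168) (nat_lit 19978646569) (nat_lit 0) (nat_lit 12939646633) (nat_lit 9) (nat_lit 5) (nat_lit 11) (nat_lit 4) (nat_lit 9) (nat_lit 4) (nat_lit 331) (nat_lit 249) (nat_lit 140)) (XT.lf (nat_lit 0) (nat_lit 29140051911) (nat_lit 84) (nat_lit 36185300564) (nat_lit 84) (nat_lit 9540560548) (nat_lit 8) (nat_lit 4) (nat_lit 9) (nat_lit 5) (nat_lit 9) (nat_lit 4) (nat_lit 332) (nat_lit 249) (nat_lit 139))) (XT.nd (nat_lit 94) (nat_lit 0) (nat_lit 0) (XT.lf (nat_lit 0) (nat_lit 3934106954) (nat_lit 84) (nat_lit 10985306766) (nat_lit 168) (nat_lit 62403058825) (nat_lit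 6) (nat_lit 5) (nat_lit 7) (nat_lit 5) (nat_lit 8) (nat_lit 4) (nat_lit 333) (nat_lit 249) (nat_lit 138)) (XT.lf (nat_lit 0) (nat_lit 41298793032) (nat_lit 168) (nat_lit 22632610782) (nat_lit 0) (nat_lit 15911784513) (nat_lit 6) (nat_lit 5) (nat_lit 8) (nat_lit 4) (nat_lit 6) (nat_lit 4) (nat_lit 334) (nat_lit 249) (nat_lit 137)))) (XT.nd (nat_lit 188) (nat_lit 84) (nat_lit 0) (XT.nd (nat_lit 94) (nat_lit 168) (nat_lit 0) (XT.lf (nat_lit 0) (nat_lit 31465714114) (nat_lit 84) (nat_lit 38191681217) (nat_lit 84) (nat_lit 12799531864) (nat_lit 5) (nat_lit 4) (nat_lit 6) (nat_lit 5) (nat_lit 6) (nat_lit 4) (nat_lit 335) (nat_lit 249) (nat_lit 136)) (XT.lf (nat_lit 0) (nat_lit 3741540631) (nat_lit 84) (nat_lit 10472403767) (nat_lit 168) (nat_lit 70954453044) (nat_lit 3) (nat_lit 5) (nat_lit 4) (nat_lit 5) (nat_lit 5) (nat_lit 4) (nat_lit 336) (nat_lit 249) (nat_lit 135))) (XT.nd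 (nat_lit 94) (nat_lit 84) (nat_lit 0) (XT.lf (nat_lit 0) (nat_lit 43305497260) (nat_lit 168) (nat_lit 25528180831) (nat_lit 0) (nat_lit 19113394141) (nat_lit 3) (nat_lit 5) (nat_lit 5) (nat_lit 4) (nat_lit 3) (nat_lit 4) (nat_lit 337) (nat_lit 249) (nat_lit 134)) (XT.lf (nat_lit 0) (nat_lit 34062777970) (nat_lit 84) (nat_lit 40481794038) (nat_lit 84) (nat_lit 16285461541) (nat_lit 2) (nat_lit 4) (nat_lit 3) (nat_lit 5) (nat_lit 3) (nat_lit 4) (nat_lit 338) (nat_lit 249) (nat_lit 133))))) (XT.nd (nat_lit 376) (nat_lit 0) (nat_lit 0) (XT.nd (nat_lit 188) (nat_lit 0) (nat_lit 0) (XT.nd (nat_lit 94) (nat_lit 0) (nat_lit 0) (XT.lf (nat_lit 0) (nat_lit 136145919658) (nat_lit 0) (nat_lit 0) (nat_lit 0) (nat_lit 0) (nat_lit 0) (nat_lit 0) (nat_lit 1) (nat_lit 0) (nat_lit 1) (nat_lit 0) (nat_lit 339) (nat_lit 249) (nat_lit 132)) (XT.lf (nat_lit 0) (nat_lit 142869389843) (nat_lit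 0) (nat_lit 0) (nat_lit 0) (nat_lit 0) (nat_lit 0) (nat_lit 0) (nat_lit 1) (nat_lit 0) (nat_lit 1) (nat_lit 0) (nat_lit 340) (nat_lit 249) (nat_lit 131))) (XT.nd (nat_lit 94) (nat_lit 0) (nat_lit 0) (XT.lf (nat_lit 0) (nat_lit 149929059228) (nat_lit 0) (nat_lit 0) (nat_lit 0) (nat_lit 0) (nat_lit 0) (nat_lit 0) (nat_lit 1) (nat_lit 0) (nat_lit 1) (nat_lit 0) (nat_lit 341) (nat_lit 249) (nat_lit 130)) (XT.lf (nat_lit 0) (nat_lit 157341736549) (nat_lit 0) (nat_lit 0) (nat_lit 0) (nat_lit 0) (nat_lit 0) (nat_lit 0) (nat_lit 1) (nat_lit 0) (nat_lit 1) (nat_lit 0) (nat_lit 342) (nat_lit 249) (nat_lit 129)))) (XT.nd (nat_lit 36472) (nat_lit 0) (nat_lit 13188) (XT.nd (nat_lit 94) (nat_lit 0) (nat_lit 0) (XT.lf (nat_lit 0) (nat_lit 165125071038) (nat_lit 0) (nat_lit 0) (nat_lit 0) (nat_lit 0) (nat_lit 0) (nat_lit 0) (nat_lit 1) (nat_lit 0) (nat_lit 1) (nat_lit 0) (nat_lit 343) (nat_lit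 249) (nat_lit 128)) (XT.lf (nat_lit 0) (nat_lit 173297594444) (nat_lit 0) (nat_lit 0) (nat_lit 0) (nat_lit 0) (nat_lit 0) (nat_lit 0) (nat_lit 1) (nat_lit 0) (nat_lit 1) (nat_lit 0) (nat_lit 344) (nat_lit 249) (nat_lit 127))) (XT.nd (nat_lit 94) (nat_lit 0) (nat_lit 0) (XT.lf (nat_lit 0) (nat_lit 1189983072) (nat_lit 0) (nat_lit 1189983072) (nat_lit 588) (nat_lit 1416455241) (nat_lit 157) (nat_lit 5) (nat_lit 157) (nat_lit 3) (nat_lit 164) (nat_lit 3) (nat_lit 250) (nat_lit 250) (nat_lit 220)) (XT.lf (nat_lit 0) (nat_lit 6262579282) (nat_lit 588) (nat_lit 1394693921) (nat_lit 672) (nat_lit 56208204) (nat_lit 157) (nat_lit 5) (nat_lit 164) (nat_lit 3) (nat_lit 165) (nat_lit 5) (nat_lit 251) (nat_lit 250) (nat_lit 219)))))) (XT.nd (nat_lit 752) (nat_lit 2940) (nat_lit 0) (XT.nd (nat_lit 376) (nat_lit 588) (nat_lit 0) (XT.nd (nat_lit 188) (nat_lit 0) (nat_lit 84) (XT.nd (nat_lit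 94) (nat_lit 672) (nat_lit 0) (XT.lf (nat_lit 84) (nat_lit 2609530362) (nat_lit 0) (nat_lit 5222764382) (nat_lit 672) (nat_lit 8260424) (nat_lit 158) (nat_lit 5) (nat_lit 157) (nat_lit 5) (nat_lit 165) (nat_lit 5) (nat_lit 252) (nat_lit 250) (nat_lit 218)) (XT.lf (nat_lit 0) (nat_lit 1396520749) (nat_lit 672) (nat_lit 1185736230) (nat_lit 756) (nat_lit 5393638331) (nat_lit 149) (nat_lit 5) (nat_lit 157) (nat_lit 5) (nat_lit 158) (nat_lit 5) (nat_lit 253) (nat_lit 250) (nat_lit 217))) (XT.nd (nat_lit 94) (nat_lit 0) (nat_lit 0) (XT.lf (nat_lit 0) (nat_lit 2842439218) (nat_lit 672) (nat_lit 5011600892) (nat_lit 756) (nat_lit 265396787) (nat_lit 150) (nat_lit 5) (nat_lit 158) (nat_lit 5) (nat_lit 159) (nat_lit 5) (nat_lit 254) (nat_lit 250) (nat_lit 216)) (XT.lf (nat_lit 0) (nat_lit 4345311510) (nat_lit 672) (nat_lit 707137159) (nat_lit 756) (nat_lit 3218474000) (nat_lit 150)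 (nat_lit 5) (nat_lit 158) (nat_lit 5) (nat_lit 159) (nat_lit 5) (nat_lit 255) (nat_lit 250) (nat_lit 215)))) (XT.nd (nat_lit 188) (nat_lit 672) (nat_lit 0) (XT.nd (nat_lit 94) (nat_lit 0) (nat_lit 84) (XT.lf (nat_lit 84) (nat_lit 3886880588) (nat_lit 0) (nat_lit 2022765837) (nat_lit 756) (nat_lit 2521020354) (nat_lit 151) (nat_lit 5) (nat_lit 150) (nat_lit 5) (nat_lit 159) (nat_lit 5) (nat_lit 256) (nat_lit 250) (nat_lit 214)) (XT.lf (nat_lit 84) (nat_lit 68051697) (nat_lit 0) (nat_lit 7444221363) (nat_lit 756) (nat_lit 1088121286) (nat_lit 152) (nat_lit 5) (nat_lit 151) (nat_lit 5) (nat_lit 160) (nat_lit 5) (nat_lit 257) (nat_lit 250) (nat_lit 213))) (XT.nd (nat_lit 94) (nat_lit 0) (nat_lit 0) (XT.lf (nat_lit 0) (nat_lit 444671777) (nat_lit 756) (nat_lit 3802096446) (nat_lit 840) (nat_lit 4529436132) (nat_lit 142) (nat_lit 5) (nat_lit 151) (nat_lit 5) (nat_lit 152) (nat_lit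 5) (nat_lit 258) (nat_lit 250) (nat_lit 212)) (XT.lf (nat_lit 84) (nat_lit 1130980472) (nat_lit 0) (nat_lit 837741749) (nat_lit 840) (nat_lit 6993631455) (nat_lit 143) (nat_lit 5) (nat_lit 142) (nat_lit 5) (nat_lit 152) (nat_lit 5) (nat_lit 259) (nat_lit 250) (nat_lit 211))))) (XT.nd (nat_lit 376) (nat_lit 1428) (nat_lit 0) (XT.nd (nat_lit 188) (nat_lit 840) (nat_lit 0) (XT.nd (nat_lit 94) (nat_lit 756) (nat_lit 0) (XT.lf (nat_lit 0) (nat_lit 3613322637) (nat_lit 756) (nat_lit 2810350626) (nat_lit 84) (nat_lit 2731919828) (nat_lit 143) (nat_lit 5) (nat_lit 152) (nat_lit 5) (nat_lit 144) (nat_lit 5) (nat_lit 260) (nat_lit 250) (nat_lit 210)) (XT.lf (nat_lit 0) (nat_lit 2475202640) (nat_lit 756) (nat_lit 2856467175) (nat_lit 840) (nat_lit 4027248824) (nat_lit 134) (nat_lit 5) (nat_lit 143) (nat_lit 5) (nat_lit 144) (nat_lit 5) (nat_lit 261) (nat_lit 250) (nat_lit 209))) (XT.nd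 (nat_lit 94) (nat_lit 840) (nat_lit 0) (XT.lf (nat_lit 0) (nat_lit 7139546792) (nat_lit 840) (nat_lit 1516316415) (nat_lit 84) (nat_lit 916366635) (nat_lit 134) (nat_lit 5) (nat_lit 144) (nat_lit 5) (nat_lit 135) (nat_lit 5) (nat_lit 262) (nat_lit 250) (nat_lit 208)) (XT.lf (nat_lit 0) (nat_lit 4153933133) (nat_lit 840) (nat_lit 4939715134) (nat_lit 924) (nat_lit 699766807) (nat_lit 124) (nat_lit 5) (nat_lit 134) (nat_lit 5) (nat_lit 135) (nat_lit 5) (nat_lit 263) (nat_lit 250) (nat_lit 207)))) (XT.nd (nat_lit 188) (nat_lit 840) (nat_lit 0) (XT.nd (nat_lit 94) (nat_lit 0) (nat_lit 0) (XT.lf (nat_lit 0) (nat_lit 67596276) (nat_lit 504) (nat_lit 988644480) (nat_lit 588) (nat_lit 8969930356) (nat_lit 117) (nat_lit 5) (nat_lit 123) (nat_lit 5) (nat_lit 124) (nat_lit 5) (nat_lit 264) (nat_lit 250) (nat_lit 206)) (XT.lf (nat_lit 0) (nat_lit 2969895777) (nat_lit 588) (nat_lit 4126794868)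 (nat_lit 84) (nat_lit 3168632536) (nat_lit 117) (nat_lit 5) (nat_lit 124) (nat_lit 5) (nat_lit 118) (nat_lit 5) (nat_lit 265) (nat_lit 250) (nat_lit 205))) (XT.nd (nat_lit 94) (nat_lit 420) (nat_lit 0) (XT.lf (nat_lit 0) (nat_lit 1992274566) (nat_lit 420) (nat_lit 2983751870) (nat_lit 504) (nat_lit 5540566774) (nat_lit 112) (nat_lit 5) (nat_lit 117) (nat_lit 5) (nat_lit 118) (nat_lit 5) (nat_lit 266) (nat_lit 250) (nat_lit 204)) (XT.nd (nat_lit 94) (nat_lit 420) (nat_lit 0) (XT.lf (nat_lit 0) (nat_lit 7125395880) (nat_lit 504) (nat_lit 2291781650) (nat_lit 84) (nat_lit 1361102597) (nat_lit 112) (nat_lit 5) (nat_lit 118) (nat_lit 5) (nat_lit 113) (nat_lit 5) (nat_lit 267) (nat_lit 250) (nat_lit 203)) (XT.lf (nat_lit 0) (nat_lit 4289882083) (nat_lit 420) (nat_lit 5161630150) (nat_lit 504) (nat_lit 1598075236) (nat_lit 107) (nat_lit 5) (nat_lit 112) (nat_lit 5) (nat_lit 113)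 (nat_lit 5) (nat_lit 268) (nat_lit 250) (nat_lit 202))))))))
noncomputable def xc113 : XT := (XT.nd (nat_lit 1598) (nat_lit 2184) (nat_lit 0) (XT.nd (nat_lit 752) (nat_lit 1512) (nat_lit 0) (XT.nd (nat_lit 376) (nat_lit 1008) (nat_lit 0) (XT.nd (nat_lit 188) (nat_lit 336) (nat_lit 0) (XT.nd (nat_lit 94) (nat_lit 336) (nat_lit 0) (XT.lf (nat_lit 0) (nat_lit 535101019) (nat_lit 504) (nat_lit 113282835) (nat_lit 84) (nat_lit 10685962901) (nat_lit 106) (nat_lit 5) (nat_lit 112) (nat_lit 5) (nat_lit 107) (nat_lit 5) (nat_lit 269) (nat_lit 250) (nat_lit 201)) (XT.lf (nat_lit 0) (nat_lit 2853024839) (nat_lit 420) (nat_lit 4680104407) (nat_lit 84) (nat_lit 4092315135) (nat_lit 102) (nat_lit 5) (nat_lit 107) (nat_lit 5) (nat_lit 103) (nat_lit 5) (nat_lit 270) (nat_lit 250) (nat_lit 200))) (XT.nd (nat_lit 94) (nat_lit 0) (nat_lit 0) (XT.lf (nat_lit 0) (nat_lit 2447123436) (nat_lit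 336) (nat_lit 2848013217) (nat_lit 420) (nat_lit 6635545644) (nat_lit 98) (nat_lit 5) (nat_lit 102) (nat_lit 5) (nat_lit 103) (nat_lit 5) (nat_lit 271) (nat_lit 250) (nat_lit 199)) (XT.lf (nat_lit 0) (nat_lit 7930879242) (nat_lit 420) (nat_lit 2239147971) (nat_lit 84) (nat_lit 2077578638) (nat_lit 98) (nat_lit 5) (nat_lit 103) (nat_lit 5) (nat_lit 99) (nat_lit 5) (nat_lit 272) (nat_lit 250) (nat_lit 198)))) (XT.nd (nat_lit 188) (nat_lit 252) (nat_lit 0) (XT.nd (nat_lit 94) (nat_lit 420) (nat_lit 0) (XT.lf (nat_lit 0) (nat_lit 5446069504) (nat_lit 336) (nat_lit 5344653076) (nat_lit 420) (nat_lit 1785037322) (nat_lit 94) (nat_lit 5) (nat_lit 98) (nat_lit 5) (nat_lit 99) (nat_lit 5) (nat_lit 273) (nat_lit 250) (nat_lit 197)) (XT.lf (nat_lit 0) (nat_lit 631280957) (nat_lit 336) (nat_lit 223497309) (nat_lit 420) (nat_lit 12064387162) (nat_lit 89) (nat_lit 5) (nat_lit 93) (nat_lit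 5) (nat_lit 94) (nat_lit 5) (nat_lit 274) (nat_lit 250) (nat_lit 196))) (XT.nd (nat_lit 94) (nat_lit 252) (nat_lit 0) (XT.lf (nat_lit 0) (nat_lit 3731797431) (nat_lit 420) (nat_lit 4408033248) (nat_lit 84) (nat_lit 5130187318) (nat_lit 89) (nat_lit 5) (nat_lit 94) (nat_lit 5) (nat_lit 90) (nat_lit 5) (nat_lit 275) (nat_lit 250) (nat_lit 195)) (XT.lf (nat_lit 0) (nat_lit 3940209770) (nat_lit 252) (nat_lit 2841461889) (nat_lit 336) (nat_lit 6855291333) (nat_lit 86) (nat_lit 5) (nat_lit 89) (nat_lit 5) (nat_lit 90) (nat_lit 5) (nat_lit 276) (nat_lit 250) (nat_lit 194))))) (XT.nd (nat_lit 376) (nat_lit 840) (nat_lit 0) (XT.nd (nat_lit 188) (nat_lit 336) (nat_lit 0) (XT.nd (nat_lit 94) (nat_lit 336) (nat_lit 0) (XT.lf (nat_lit 0) (nat_lit 10067029461) (nat_lit 336) (nat_lit 1252184109) (nat_lit 84) (nat_lit 2698892171) (nat_lit 86) (nat_lit 5) (nat_lit 90) (nat_lit 5) (nat_lit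 87) (nat_lit 5) (nat_lit 277) (nat_lit 250) (nat_lit 193)) (XT.lf (nat_lit 0) (nat_lit 7770208990) (nat_lit 336) (nat_lit 5880645633) (nat_lit 420) (nat_lit 760741032) (nat_lit 82) (nat_lit 5) (nat_lit 86) (nat_lit 5) (nat_lit 87) (nat_lit 5) (nat_lit 278) (nat_lit 250) (nat_lit 192))) (XT.nd (nat_lit 94) (nat_lit 0) (nat_lit 0) (XT.lf (nat_lit 0) (nat_lit 2454409965) (nat_lit 252) (nat_lit 78363109) (nat_lit 336) (nat_lit 12288639334) (nat_lit 78) (nat_lit 5) (nat_lit 81) (nat_lit 5) (nat_lit 82) (nat_lit 5) (nat_lit 279) (nat_lit 250) (nat_lit 191)) (XT.lf (nat_lit 0) (nat_lit 6140922401) (nat_lit 336) (nat_lit 3166262288) (nat_lit 84) (nat_lit 5935135483) (nat_lit 78) (nat_lit 5) (nat_lit 82) (nat_lit 5) (nat_lit 79) (nat_lit 5) (nat_lit 280) (nat_lit 250) (nat_lit 190)))) (XT.nd (nat_lit 188) (nat_lit 336) (nat_lit 0) (XT.nd (nat_lit 94) (nat_lit 252) (nat_lit 0) (XT.lf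 (nat_lit 0) (nat_lit 6661166806) (nat_lit 252) (nat_lit 3342463684) (nat_lit 336) (nat_lit 5676935270) (nat_lit 75) (nat_lit 5) (nat_lit 78) (nat_lit 5) (nat_lit 79) (nat_lit 5) (nat_lit 281) (nat_lit 250) (nat_lit 189)) (XT.lf (nat_lit 0) (nat_lit 887966541) (nat_lit 252) (nat_lit 13254902331) (nat_lit 336) (nat_lit 1993685010) (nat_lit 72) (nat_lit 5) (nat_lit 75) (nat_lit 5) (nat_lit 76) (nat_lit 5) (nat_lit 282) (nat_lit 250) (nat_lit 188))) (XT.nd (nat_lit 94) (nat_lit 252) (nat_lit 0) (XT.lf (nat_lit 0) (nat_lit 1993498960) (nat_lit 336) (nat_lit 5136514173) (nat_lit 84) (nat_lit 9474878461) (nat_lit 71) (nat_lit 5) (nat_lit 75) (nat_lit 5) (nat_lit 72) (nat_lit 5) (nat_lit 283) (nat_lit 250) (nat_lit 187)) (XT.nd (nat_lit 94) (nat_lit 0) (nat_lit 0) (XT.lf (nat_lit 0) (nat_lit 5583283082) (nat_lit 252) (nat_lit 588067664) (nat_lit 336) (nat_lit 10920745801) (nat_lit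 68) (nat_lit 5) (nat_lit 71) (nat_lit 5) (nat_lit 72) (nat_lit 5) (nat_lit 284) (nat_lit 250) (nat_lit 186)) (XT.lf (nat_lit 0) (nat_lit 10716178407) (nat_lit 336) (nat_lit 725765162) (nat_lit 84) (nat_lit 6153814016) (nat_lit 68) (nat_lit 5) (nat_lit 72) (nat_lit 5) (nat_lit 69) (nat_lit 5) (nat_lit 285) (nat_lit 250) (nat_lit 185))))))) (XT.nd (nat_lit 752) (nat_lit 924) (nat_lit 0) (XT.nd (nat_lit 376) (nat_lit 588) (nat_lit 0) (XT.nd (nat_lit 188) (nat_lit 168) (nat_lit 0) (XT.nd (nat_lit 94) (nat_lit 336) (nat_lit 0) (XT.lf (nat_lit 0) (nat_lit 10893196293) (nat_lit 168) (nat_lit 4747721364) (nat_lit 252) (nat_lit 2476050508) (nat_lit 66) (nat_lit 5) (nat_lit 68) (nat_lit 5) (nat_lit 69) (nat_lit 5) (nat_lit 286) (nat_lit 250) (nat_lit 184)) (XT.lf (nat_lit 0) (nat_lit 2172476581) (nat_lit 336) (nat_lit 14173770169) (nat_lit 84) (nat_lit 2311637959) (nat_lit 62) (nat_lit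 5) (nat_lit 66) (nat_lit 5) (nat_lit 63) (nat_lit 5) (nat_lit 287) (nat_lit 250) (nat_lit 183))) (XT.nd (nat_lit 94) (nat_lit 168) (nat_lit 0) (XT.lf (nat_lit 0) (nat_lit 7145938890) (nat_lit 336) (nat_lit 2354807864) (nat_lit 84) (nat_lit 9714284759) (nat_lit 62) (nat_lit 5) (nat_lit 66) (nat_lit 5) (nat_lit 63) (nat_lit 5) (nat_lit 288) (nat_lit 250) (nat_lit 182)) (XT.lf (nat_lit 0) (nat_lit 10345422615) (nat_lit 168) (nat_lit 2158977773) (nat_lit 252) (nat_lit 7288818964) (nat_lit 60) (nat_lit 5) (nat_lit 62) (nat_lit 5) (nat_lit 63) (nat_lit 5) (nat_lit 289) (nat_lit 250) (nat_lit 181)))) (XT.nd (nat_lit 188) (nat_lit 336) (nat_lit 0) (XT.nd (nat_lit 94) (nat_lit 84) (nat_lit 0) (XT.lf (nat_lit 0) (nat_lit 3342649501) (nat_lit 168) (nat_lit 14942642156) (nat_lit 252) (nat_lit 2107299593) (nat_lit 58) (nat_lit 5) (nat_lit 60) (nat_lit 5) (nat_lit 61) (nat_lit 5) (nat_lit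 290) (nat_lit 250) (nat_lit 180)) (XT.lf (nat_lit 0) (nat_lit 3399918040) (nat_lit 252) (nat_lit 4044648062) (nat_lit 84) (nat_lit 13566098106) (nat_lit 57) (nat_lit 5) (nat_lit 60) (nat_lit 5) (nat_lit 58) (nat_lit 5) (nat_lit 291) (nat_lit 250) (nat_lit 179))) (XT.nd (nat_lit 94) (nat_lit 168) (nat_lit 0) (XT.lf (nat_lit 0) (nat_lit 9251497344) (nat_lit 252) (nat_lit 11808543797) (nat_lit 84) (nat_lit 590881385) (nat_lit 55) (nat_lit 5) (nat_lit 58) (nat_lit 5) (nat_lit 56) (nat_lit 5) (nat_lit 292) (nat_lit 250) (nat_lit 178)) (XT.lf (nat_lit 0) (nat_lit 2150484164) (nat_lit 168) (nat_lit 13447147905) (nat_lit 252) (nat_lit 6715462869) (nat_lit 53) (nat_lit 5) (nat_lit 55) (nat_lit 5) (nat_lit 56) (nat_lit 5) (nat_lit 293) (nat_lit 250) (nat_lit 177))))) (XT.nd (nat_lit 376) (nat_lit 504) (nat_lit 0) (XT.nd (nat_lit 188) (nat_lit 168) (nat_lit 0) (XT.nd (nat_lit 94) (nat_lit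 252) (nat_lit 0) (XT.lf (nat_lit 0) (nat_lit 17178479205) (nat_lit 168) (nat_lit 5259815616) (nat_lit 252) (nat_lit 561220084) (nat_lit 53) (nat_lit 5) (nat_lit 55) (nat_lit 5) (nat_lit 56) (nat_lit 5) (nat_lit 294) (nat_lit 250) (nat_lit 176)) (XT.lf (nat_lit 0) (nat_lit 5892508754) (nat_lit 252) (nat_lit 14356368638) (nat_lit 84) (nat_lit 3457740414) (nat_lit 50) (nat_lit 5) (nat_lit 53) (nat_lit 5) (nat_lit 51) (nat_lit 5) (nat_lit 295) (nat_lit 250) (nat_lit 175))) (XT.nd (nat_lit 94) (nat_lit 0) (nat_lit 0) (XT.lf (nat_lit 0) (nat_lit 932809631) (nat_lit 168) (nat_lit 11896432445) (nat_lit 252) (nat_lit 11610414824) (nat_lit 48) (nat_lit 5) (nat_lit 50) (nat_lit 5) (nat_lit 51) (nat_lit 5) (nat_lit 296) (nat_lit 250) (nat_lit 174)) (XT.lf (nat_lit 0) (nat_lit 17447433260) (nat_lit 168) (nat_lit 2887155261) (nat_lit 252) (nat_lit 4863670605) (nat_lit 48) (nat_lit 5)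 (nat_lit 50) (nat_lit 5) (nat_lit 51) (nat_lit 5) (nat_lit 297) (nat_lit 250) (nat_lit 173)))) (XT.nd (nat_lit 188) (nat_lit 336) (nat_lit 0) (XT.nd (nat_lit 94) (nat_lit 0) (nat_lit 0) (XT.lf (nat_lit 0) (nat_lit 2374595494) (nat_lit 168) (nat_lit 17081921178) (nat_lit 84) (nat_lit 6525278865) (nat_lit 46) (nat_lit 5) (nat_lit 48) (nat_lit 5) (nat_lit 47) (nat_lit 5) (nat_lit 298) (nat_lit 250) (nat_lit 172)) (XT.lf (nat_lit 0) (nat_lit 9971582053) (nat_lit 168) (nat_lit 311478765) (nat_lit 84) (nat_lit 16509448417) (nat_lit 46) (nat_lit 5) (nat_lit 48) (nat_lit 5) (nat_lit 47) (nat_lit 5) (nat_lit 299) (nat_lit 250) (nat_lit 171))) (XT.nd (nat_lit 94) (nat_lit 168) (nat_lit 0) (XT.lf (nat_lit 0) (nat_lit 17833488411) (nat_lit 168) (nat_lit 373847984) (nat_lit 252) (nat_lit 9423476299) (nat_lit 44) (nat_lit 5) (nat_lit 46) (nat_lit 5) (nat_lit 47) (nat_lit 5) (nat_lit 300)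 (nat_lit 250) (nat_lit 170)) (XT.nd (nat_lit 94) (nat_lit 84) (nat_lit 0) (XT.lf (nat_lit 0) (nat_lit 8465049413) (nat_lit 84) (nat_lit 18664609837) (nat_lit 168) (nat_lit 1367633037) (nat_lit 43) (nat_lit 5) (nat_lit 44) (nat_lit 5) (nat_lit 45) (nat_lit 4) (nat_lit 301) (nat_lit 250) (nat_lit 169)) (XT.lf (nat_lit 0) (nat_lit 7019537903) (nat_lit 168) (nat_lit 1572689471) (nat_lit 84) (nat_lit 20801558370) (nat_lit 42) (nat_lit 5) (nat_lit 44) (nat_lit 5) (nat_lit 43) (nat_lit 5) (nat_lit 302) (nat_lit 250) (nat_lit 168))))))))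
noncomputable def xc114 : XT := (XT.nd (nat_lit 1598) (nat_lit 1344) (nat_lit 0) (XT.nd (nat_lit 752) (nat_lit 840) (nat_lit 0) (XT.nd (nat_lit 376) (nat_lit 420) (nat_lit 0) (XT.nd (nat_lit 188) (nat_lit 252) (nat_lit 0) (XT.nd (nat_lit 94) (nat_lit 84) (nat_lit 0) (XT.lf (nat_lit 0) (nat_lit 16083901043) (nat_lit 252) (nat_lit 12015278134) (nat_lit 84) (nat_lit 2219613932) (nat_lit 40) (nat_lit 5) (nat_lit 43) (nat_lit 5) (nat_lit 41) (nat_lit 4) (nat_lit 303) (nat_lit 250) (nat_lit 167)) (XT.lf (nat_lit 0) (nat_lit 8021375039) (nat_lit 84) (nat_lit 17855040230) (nat_lit 168) (nat_lit 5399888928) (nat_lit 39) (nat_lit 5) (nat_lit 40) (nat_lit 5) (nat_lit 41) (nat_lit 4) (nat_lit 304) (nat_lit 250) (nat_lit 166))) (XT.nd (nat_lit 94) (nat_lit 168) (nat_lit 0) (XT.lf (nat_lit 0) (nat_lit 3941431384) (nat_lit 168) (nat_lit 2891914744) (nat_lit 84) (nat_lit 25435885730) (nat_lit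 38) (nat_lit 5) (nat_lit 40) (nat_lit 5) (nat_lit 39) (nat_lit 5) (nat_lit 305) (nat_lit 250) (nat_lit 165)) (XT.lf (nat_lit 0) (nat_lit 13927387932) (nat_lit 252) (nat_lit 14397364930) (nat_lit 84) (nat_lit 4964674808) (nat_lit 36) (nat_lit 5) (nat_lit 39) (nat_lit 5) (nat_lit 37) (nat_lit 4) (nat_lit 306) (nat_lit 250) (nat_lit 164)))) (XT.nd (nat_lit 188) (nat_lit 252) (nat_lit 0) (XT.nd (nat_lit 94) (nat_lit 84) (nat_lit 0) (XT.lf (nat_lit 0) (nat_lit 7606022179) (nat_lit 84) (nat_lit 17069975810) (nat_lit 168) (nat_lit 9671467498) (nat_lit 35) (nat_lit 5) (nat_lit 36) (nat_lit 5) (nat_lit 37) (nat_lit 4) (nat_lit 307) (nat_lit 250) (nat_lit 163)) (XT.lf (nat_lit 0) (nat_lit 718190900) (nat_lit 168) (nat_lit 4280750000) (nat_lit 84) (nat_lit 30447537291) (nat_lit 34) (nat_lit 5) (nat_lit 36) (nat_lit 5) (nat_lit 35) (nat_lit 5) (nat_lit 308) (nat_lit 250) (nat_lit 162)))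 (XT.nd (nat_lit 94) (nat_lit 84) (nat_lit 0) (XT.lf (nat_lit 0) (nat_lit 11721534587) (nat_lit 252) (nat_lit 16959335423) (nat_lit 84) (nat_lit 7890682733) (nat_lit 32) (nat_lit 5) (nat_lit 35) (nat_lit 5) (nat_lit 33) (nat_lit 4) (nat_lit 309) (nat_lit 250) (nat_lit 161)) (XT.lf (nat_lit 0) (nat_lit 7216366683) (nat_lit 84) (nat_lit 16310739939) (nat_lit 168) (nat_lit 14213171343) (nat_lit 31) (nat_lit 5) (nat_lit 32) (nat_lit 5) (nat_lit 33) (nat_lit 4) (nat_lit 310) (nat_lit 250) (nat_lit 160))))) (XT.nd (nat_lit 376) (nat_lit 504) (nat_lit 0) (XT.nd (nat_lit 188) (nat_lit 84) (nat_lit 0) (XT.nd (nat_lit 94) (nat_lit 252) (nat_lit 0) (XT.lf (nat_lit 0) (nat_lit 33159479635) (nat_lit 84) (nat_lit 3034753196) (nat_lit 168) (nat_lit 2759642837) (nat_lit 31) (nat_lit 5) (nat_lit 32) (nat_lit 5) (nat_lit 33) (nat_lit 4) (nat_lit 311) (nat_lit 250) (nat_lit 159)) (XT.lf (nat_lit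 0) (nat_lit 9454790504) (nat_lit 252) (nat_lit 19724371827) (nat_lit 84) (nat_lit 11017516262) (nat_lit 28) (nat_lit 5) (nat_lit 31) (nat_lit 5) (nat_lit 29) (nat_lit 4) (nat_lit 312) (nat_lit 250) (nat_lit 158))) (XT.nd (nat_lit 94) (nat_lit 0) (nat_lit 0) (XT.lf (nat_lit 0) (nat_lit 6850135503) (nat_lit 84) (nat_lit 15578151442) (nat_lit 168) (nat_lit 19059018541) (nat_lit 27) (nat_lit 5) (nat_lit 28) (nat_lit 5) (nat_lit 29) (nat_lit 4) (nat_lit 313) (nat_lit 250) (nat_lit 157)) (XT.lf (nat_lit 0) (nat_lit 35409315863) (nat_lit 84) (nat_lit 960109178) (nat_lit 168) (nat_lit 6457090342) (nat_lit 27) (nat_lit 5) (nat_lit 28) (nat_lit 5) (nat_lit 29) (nat_lit 4) (nat_lit 314) (nat_lit 250) (nat_lit 156)))) (XT.nd (nat_lit 188) (nat_lit 252) (nat_lit 0) (XT.nd (nat_lit 94) (nat_lit 84) (nat_lit 0) (XT.lf (nat_lit 0) (nat_lit 7114432029) (nat_lit 168) (nat_lit 22717508200)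 (nat_lit 84) (nat_lit 14367639860) (nat_lit 25) (nat_lit 5) (nat_lit 27) (nat_lit 5) (nat_lit 26) (nat_lit 4) (nat_lit 315) (nat_lit 250) (nat_lit 155)) (XT.lf (nat_lit 0) (nat_lit 6505349883) (nat_lit 84) (nat_lit 14872626914) (nat_lit 168) (nat_lit 24246506195) (nat_lit 24) (nat_lit 5) (nat_lit 25) (nat_lit 5) (nat_lit 26) (nat_lit 4) (nat_lit 316) (nat_lit 250) (nat_lit 154))) (XT.nd (nat_lit 94) (nat_lit 252) (nat_lit 0) (XT.lf (nat_lit 0) (nat_lit 36744291041) (nat_lit 168) (nat_lit 9170742925) (nat_lit 0) (nat_lit 1186117461) (nat_lit 24) (nat_lit 5) (nat_lit 26) (nat_lit 4) (nat_lit 24) (nat_lit 4) (nat_lit 317) (nat_lit 250) (nat_lit 153)) (XT.nd (nat_lit 94) (nat_lit 84) (nat_lit 0) (XT.lf (nat_lit 0) (nat_lit 4686494501) (nat_lit 168) (nat_lit 25965898134) (nat_lit 84) (nat_lit 17966234388) (nat_lit 22) (nat_lit 5) (nat_lit 24) (nat_lit 5) (nat_lit 23) (nat_lit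 4) (nat_lit 318) (nat_lit 250) (nat_lit 152)) (XT.lf (nat_lit 0) (nat_lit 6180278354) (nat_lit 84) (nat_lit 14194264274) (nat_lit 168) (nat_lit 29816915343) (nat_lit 21) (nat_lit 5) (nat_lit 22) (nat_lit 5) (nat_lit 23) (nat_lit 4) (nat_lit 319) (nat_lit 250) (nat_lit 151))))))) (XT.nd (nat_lit 752) (nat_lit 756) (nat_lit 0) (XT.nd (nat_lit 376) (nat_lit 336) (nat_lit 0) (XT.nd (nat_lit 188) (nat_lit 84) (nat_lit 0) (XT.nd (nat_lit 94) (nat_lit 168) (nat_lit 0) (XT.lf (nat_lit 0) (nat_lit 37328420437) (nat_lit 168) (nat_lit 11067898422) (nat_lit 0) (nat_lit 3422540246) (nat_lit 21) (nat_lit 5) (nat_lit 23) (nat_lit 4) (nat_lit 21) (nat_lit 4) (nat_lit 320) (nat_lit 250) (nat_lit 150)) (XT.lf (nat_lit 0) (nat_lit 2155685573) (nat_lit 168) (nat_lit 29499096797) (nat_lit 84) (nat_lit 21841366590) (nat_lit 19) (nat_lit 5) (nat_lit 21) (nat_lit 5) (nat_lit 20) (nat_lit 4) (nat_lit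 321) (nat_lit 250) (nat_lit 149))) (XT.nd (nat_lit 94) (nat_lit 0) (nat_lit 0) (XT.lf (nat_lit 0) (nat_lit 5873397827) (nat_lit 84) (nat_lit 13542910922) (nat_lit 168) (nat_lit 35815658826) (nat_lit 18) (nat_lit 5) (nat_lit 19) (nat_lit 5) (nat_lit 20) (nat_lit 4) (nat_lit 322) (nat_lit 250) (nat_lit 148)) (XT.lf (nat_lit 0) (nat_lit 38120197646) (nat_lit 168) (nat_lit 13110176680) (nat_lit 0) (nat_lit 5795191067) (nat_lit 18) (nat_lit 5) (nat_lit 20) (nat_lit 4) (nat_lit 18) (nat_lit 4) (nat_lit 323) (nat_lit 250) (nat_lit 147)))) (XT.nd (nat_lit 188) (nat_lit 84) (nat_lit 0) (XT.nd (nat_lit 94) (nat_lit 168) (nat_lit 0) (XT.lf (nat_lit 0) (nat_lit 25521098645) (nat_lit 84) (nat_lit 32846262758) (nat_lit 84) (nat_lit 511077678) (nat_lit 17) (nat_lit 4) (nat_lit 18) (nat_lit 5) (nat_lit 18) (nat_lit 4) (nat_lit 324) (nat_lit 250) (nat_lit 146)) (XT.lf (nat_lit 0) (nat_lit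 5583361337) (nat_lit 84) (nat_lit 12918219261) (nat_lit 168) (nat_lit 42292674297) (nat_lit 15) (nat_lit 5) (nat_lit 16) (nat_lit 5) (nat_lit 17) (nat_lit 4) (nat_lit 325) (nat_lit 250) (nat_lit 145))) (XT.nd (nat_lit 94) (nat_lit 84) (nat_lit 0) (XT.lf (nat_lit 0) (nat_lit 39134535776) (nat_lit 168) (nat_lit 15315468189) (nat_lit 0) (nat_lit 8321096641) (nat_lit 15) (nat_lit 5) (nat_lit 17) (nat_lit 4) (nat_lit 15) (nat_lit 4) (nat_lit 326) (nat_lit 250) (nat_lit 144)) (XT.lf (nat_lit 0) (nat_lit 27210622719) (nat_lit 84) (nat_lit 34213368145) (nat_lit 84) (nat_lit 3391555132) (nat_lit 14) (nat_lit 4) (nat_lit 15) (nat_lit 5) (nat_lit 15) (nat_lit 4) (nat_lit 327) (nat_lit 250) (nat_lit 143))))) (XT.nd (nat_lit 376) (nat_lit 336) (nat_lit 0) (XT.nd (nat_lit 188) (nat_lit 252) (nat_lit 0) (XT.nd (nat_lit 94) (nat_lit 0) (nat_lit 0) (XT.lf (nat_lit 0) (nat_lit 5308971294)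 (nat_lit 84) (nat_lit 12319691842) (nat_lit 168) (nat_lit 49302865221) (nat_lit 12) (nat_lit 5) (nat_lit 13) (nat_lit 5) (nat_lit 14) (nat_lit 4) (nat_lit 328) (nat_lit 250) (nat_lit 142)) (XT.lf (nat_lit 0) (nat_lit 40388061801) (nat_lit 168) (nat_lit 17703235528) (nat_lit 0) (nat_lit 11019125145) (nat_lit 12) (nat_lit 5) (nat_lit 14) (nat_lit 4) (nat_lit 12) (nat_lit 4) (nat_lit 329) (nat_lit 250) (nat_lit 141))) (XT.nd (nat_lit 94) (nat_lit 168) (nat_lit 0) (XT.lf (nat_lit 0) (nat_lit 29119938554) (nat_lit 84) (nat_lit 35810938147) (nat_lit 84) (nat_lit 6435112280) (nat_lit 11) (nat_lit 4) (nat_lit 12) (nat_lit 5) (nat_lit 12) (nat_lit 4) (nat_lit 330) (nat_lit 250) (nat_lit 140)) (XT.lf (nat_lit 0) (nat_lit 5049157254) (nat_lit 84) (nat_lit 11746718000) (nat_lit 168) (nat_lit 56906593299) (nat_lit 9) (nat_lit 5) (nat_lit 10) (nat_lit 5) (nat_lit 11) (nat_lit 4) (nat_lit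 331) (nat_lit 250) (nat_lit 139)))) (XT.nd (nat_lit 188) (nat_lit 252) (nat_lit 0) (XT.nd (nat_lit 94) (nat_lit 84) (nat_lit 0) (XT.lf (nat_lit 0) (nat_lit 41899304353) (nat_lit 168) (nat_lit 20294707902) (nat_lit 0) (nat_lit 13910127461) (nat_lit 9) (nat_lit 5) (nat_lit 11) (nat_lit 4) (nat_lit 9) (nat_lit 4) (nat_lit 332) (nat_lit 250) (nat_lit 138)) (XT.lf (nat_lit 0) (nat_lit 31268911454) (nat_lit 84) (nat_lit 37659159665) (nat_lit 84) (nat_lit 9664315003) (nat_lit 8) (nat_lit 4) (nat_lit 9) (nat_lit 5) (nat_lit 9) (nat_lit 4) (nat_lit 333) (nat_lit 250) (nat_lit 137))) (XT.nd (nat_lit 94) (nat_lit 84) (nat_lit 0) (XT.lf (nat_lit 0) (nat_lit 4802957438) (nat_lit 84) (nat_lit 11198603526) (nat_lit 168) (nat_lit 65170226381) (nat_lit 6) (nat_lit 5) (nat_lit 7) (nat_lit 5) (nat_lit 8) (nat_lit 4) (nat_lit 334) (nat_lit 250) (nat_lit 136)) (XT.nd (nat_lit 94) (nat_lit 84)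 (nat_lit 0) (XT.lf (nat_lit 0) (nat_lit 43688896462) (nat_lit 168) (nat_lit 23113090318) (nat_lit 0) (nat_lit 17017102773) (nat_lit 6) (nat_lit 5) (nat_lit 8) (nat_lit 4) (nat_lit 6) (nat_lit 4) (nat_lit 335) (nat_lit 250) (nat_lit 135)) (XT.lf (nat_lit 0) (nat_lit 33679648386) (nat_lit 84) (nat_lit 39780298820) (nat_lit 84) (nat_lit 13103842243) (nat_lit 5) (nat_lit 4) (nat_lit 6) (nat_lit 5) (nat_lit 6) (nat_lit 4) (nat_lit 336) (nat_lit 250) (nat_lit 134))))))))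
noncomputable def xc115 : XT := (XT.nd (nat_lit 37882) (nat_lit 0) (nat_lit 7476) (XT.nd (nat_lit 752) (nat_lit 0) (nat_lit 0) (XT.nd (nat_lit 376) (nat_lit 0) (nat_lit 0) (XT.nd (nat_lit 188) (nat_lit 252) (nat_lit 0) (XT.nd (nat_lit 94) (nat_lit 0) (nat_lit 0) (XT.lf (nat_lit 0) (nat_lit 4569503322) (nat_lit 84) (nat_lit 10674594602) (nat_lit 168) (nat_lit 74166746574) (nat_lit 3) (nat_lit 5) (nat_lit 4) (nat_lit 5) (nat_lit 5) (nat_lit 4) (nat_lit 337) (nat_lit 250) (nat_lit 133)) (XT.lf (nat_lit 0) (nat_lit 45779795665) (nat_lit 168) (nat_lit 26183789814) (nat_lit 0) (nat_lit 20365389187) (nat_lit 3) (nat_lit 5) (nat_lit 5) (nat_lit 4) (nat_lit 3) (nat_lit 4) (nat_lit 338) (nat_lit 250) (nat_lit 132))) (XT.nd (nat_lit 94) (nat_lit 168) (nat_lit 0) (XT.lf (nat_lit 0) (nat_lit 36376704023) (nat_lit 84) (nat_lit 42198940820) (nat_lit 84) (nat_lit 16780698172) (nat_lit 2)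 (nat_lit 4) (nat_lit 3) (nat_lit 5) (nat_lit 3) (nat_lit 4) (nat_lit 339) (nat_lit 250) (nat_lit 131)) (XT.lf (nat_lit 0) (nat_lit 142952425505) (nat_lit 0) (nat_lit 0) (nat_lit 0) (nat_lit 0) (nat_lit 0) (nat_lit 0) (nat_lit 1) (nat_lit 0) (nat_lit 1) (nat_lit 0) (nat_lit 340) (nat_lit 250) (nat_lit 130)))) (XT.nd (nat_lit 188) (nat_lit 0) (nat_lit 0) (XT.nd (nat_lit 94) (nat_lit 0) (nat_lit 0) (XT.lf (nat_lit 0) (nat_lit 150012106825) (nat_lit 0) (nat_lit 0) (nat_lit 0) (nat_lit 0) (nat_lit 0) (nat_lit 0) (nat_lit 1) (nat_lit 0) (nat_lit 1) (nat_lit 0) (nat_lit 341) (nat_lit 250) (nat_lit 129)) (XT.lf (nat_lit 0) (nat_lit 157424795512) (nat_lit 0) (nat_lit 0) (nat_lit 0) (nat_lit 0) (nat_lit 0) (nat_lit 0) (nat_lit 1) (nat_lit 0) (nat_lit 1) (nat_lit 0) (nat_lit 342) (nat_lit 250) (nat_lit 128))) (XT.nd (nat_lit 94) (nat_lit 0) (nat_lit 0) (XT.lf (nat_lit 0) (nat_lit 165208140827)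 (nat_lit 0) (nat_lit 0) (nat_lit 0) (nat_lit 0) (nat_lit 0) (nat_lit 0) (nat_lit 1) (nat_lit 0) (nat_lit 1) (nat_lit 0) (nat_lit 343) (nat_lit 250) (nat_lit 127)) (XT.lf (nat_lit 0) (nat_lit 173380674543) (nat_lit 0) (nat_lit 0) (nat_lit 0) (nat_lit 0) (nat_lit 0) (nat_lit 0) (nat_lit 1) (nat_lit 0) (nat_lit 1) (nat_lit 0) (nat_lit 344) (nat_lit 250) (nat_lit 126))))) (XT.nd (nat_lit 36660) (nat_lit 0) (nat_lit 11928) (XT.nd (nat_lit 36472) (nat_lit 0) (nat_lit 12432) (XT.nd (nat_lit 36378) (nat_lit 0) (nat_lit 13188) (XT.lf (nat_lit 0) (nat_lit 181961855074) (nat_lit 0) (nat_lit 0) (nat_lit 0) (nat_lit 0) (nat_lit 0) (nat_lit 0) (nat_lit 1) (nat_lit 0) (nat_lit 1) (nat_lit 0) (nat_lit 345) (nat_lit 250) (nat_lit 125)) (XT.lf (nat_lit 0) (nat_lit 1930059036) (nat_lit 0) (nat_lit 1930059036) (nat_lit 588) (nat_lit 58066701) (nat_lit 157) (nat_lit 5) (nat_lit 157) (nat_lit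 3) (nat_lit 164) (nat_lit 3) (nat_lit 251) (nat_lit 251) (nat_lit 218))) (XT.nd (nat_lit 94) (nat_lit 0) (nat_lit 84) (XT.lf (nat_lit 0) (nat_lit 1159521483) (nat_lit 756) (nat_lit 56208204) (nat_lit 756) (nat_lit 6752904610) (nat_lit 148) (nat_lit 3) (nat_lit 157) (nat_lit 3) (nat_lit 157) (nat_lit 5) (nat_lit 252) (nat_lit 251) (nat_lit 217)) (XT.lf (nat_lit 0) (nat_lit 2504283705) (nat_lit 672) (nat_lit 3986476152) (nat_lit 756) (nat_lit 1616195862) (nat_lit 149) (nat_lit 5) (nat_lit 157) (nat_lit 5) (nat_lit 158) (nat_lit 5) (nat_lit 253) (nat_lit 251) (nat_lit 216)))) (XT.nd (nat_lit 188) (nat_lit 588) (nat_lit 0) (XT.nd (nat_lit 94) (nat_lit 0) (nat_lit 0) (XT.lf (nat_lit 84) (nat_lit 195485600) (nat_lit 0) (nat_lit 3666941403) (nat_lit 756) (nat_lit 4392459062) (nat_lit 150) (nat_lit 5) (nat_lit 149) (nat_lit 5) (nat_lit 158) (nat_lit 5) (nat_lit 254) (nat_lit 251)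 (nat_lit 215)) (XT.lf (nat_lit 84) (nat_lit 4679065948) (nat_lit 0) (nat_lit 602106544) (nat_lit 756) (nat_lit 3129405684) (nat_lit 150) (nat_lit 5) (nat_lit 149) (nat_lit 5) (nat_lit 158) (nat_lit 5) (nat_lit 255) (nat_lit 251) (nat_lit 214))) (XT.nd (nat_lit 94) (nat_lit 672) (nat_lit 0) (XT.lf (nat_lit 84) (nat_lit 748185228) (nat_lit 0) (nat_lit 6004369072) (nat_lit 756) (nat_lit 1822415642) (nat_lit 151) (nat_lit 5) (nat_lit 150) (nat_lit 5) (nat_lit 159) (nat_lit 5) (nat_lit 256) (nat_lit 251) (nat_lit 213)) (XT.nd (nat_lit 94) (nat_lit 672) (nat_lit 0) (XT.lf (nat_lit 84) (nat_lit 5524300286) (nat_lit 0) (nat_lit 2777926484) (nat_lit 756) (nat_lit 445118447) (nat_lit 151) (nat_lit 5) (nat_lit 150) (nat_lit 5) (nat_lit 159) (nat_lit 5) (nat_lit 257) (nat_lit 251) (nat_lit 212)) (XT.lf (nat_lit 0) (nat_lit 938461106) (nat_lit 756) (nat_lit 7340513581) (nat_lit 840)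 (nat_lit 650110256) (nat_lit 142) (nat_lit 5) (nat_lit 151) (nat_lit 5) (nat_lit 152) (nat_lit 5) (nat_lit 258) (nat_lit 251) (nat_lit 211))))))) (XT.nd (nat_lit 752) (nat_lit 2352) (nat_lit 0) (XT.nd (nat_lit 376) (nat_lit 1428) (nat_lit 0) (XT.nd (nat_lit 188) (nat_lit 672) (nat_lit 0) (XT.nd (nat_lit 94) (nat_lit 0) (nat_lit 0) (XT.lf (nat_lit 0) (nat_lit 2413972458) (nat_lit 756) (nat_lit 2467812558) (nat_lit 840) (nat_lit 4235876203) (nat_lit 142) (nat_lit 5) (nat_lit 151) (nat_lit 5) (nat_lit 152) (nat_lit 5) (nat_lit 259) (nat_lit 251) (nat_lit 210)) (XT.lf (nat_lit 84) (nat_lit 2687331292) (nat_lit 0) (nat_lit 1257592761) (nat_lit 840) (nat_lit 5371659022) (nat_lit 143) (nat_lit 5) (nat_lit 142) (nat_lit 5) (nat_lit 152) (nat_lit 5) (nat_lit 260) (nat_lit 251) (nat_lit 209))) (XT.nd (nat_lit 94) (nat_lit 756) (nat_lit 0) (XT.lf (nat_lit 0) (nat_lit 5576717001) (nat_lit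 756) (nat_lit 1427448007) (nat_lit 84) (nat_lit 2520071326) (nat_lit 143) (nat_lit 5) (nat_lit 152) (nat_lit 5) (nat_lit 144) (nat_lit 5) (nat_lit 261) (nat_lit 251) (nat_lit 208)) (XT.lf (nat_lit 0) (nat_lit 4097811630) (nat_lit 756) (nat_lit 3221679319) (nat_lit 840) (nat_lit 2421311740) (nat_lit 134) (nat_lit 5) (nat_lit 143) (nat_lit 5) (nat_lit 144) (nat_lit 5) (nat_lit 262) (nat_lit 251) (nat_lit 207)))) (XT.nd (nat_lit 188) (nat_lit 504) (nat_lit 0) (XT.nd (nat_lit 94) (nat_lit 924) (nat_lit 0) (XT.lf (nat_lit 0) (nat_lit 9132491304) (nat_lit 840) (nat_lit 79386662) (nat_lit 84) (nat_lit 757165010) (nat_lit 134) (nat_lit 5) (nat_lit 144) (nat_lit 5) (nat_lit 135) (nat_lit 5) (nat_lit 263) (nat_lit 251) (nat_lit 206)) (XT.lf (nat_lit 0) (nat_lit 895985809) (nat_lit 924) (nat_lit 4368495910) (nat_lit 84) (nat_lit 4938816478) (nat_lit 123) (nat_lit 5) (nat_lit 134) (nat_lit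 5) (nat_lit 124) (nat_lit 5) (nat_lit 264) (nat_lit 251) (nat_lit 205))) (XT.nd (nat_lit 94) (nat_lit 0) (nat_lit 0) (XT.lf (nat_lit 0) (nat_lit 1587601914) (nat_lit 504) (nat_lit 1075819378) (nat_lit 588) (nat_lit 7786339952) (nat_lit 117) (nat_lit 5) (nat_lit 123) (nat_lit 5) (nat_lit 124) (nat_lit 5) (nat_lit 265) (nat_lit 251) (nat_lit 204)) (XT.lf (nat_lit 0) (nat_lit 4598180307) (nat_lit 588) (nat_lit 2814150309) (nat_lit 84) (nat_lit 3292269237) (nat_lit 117) (nat_lit 5) (nat_lit 124) (nat_lit 5) (nat_lit 118) (nat_lit 5) (nat_lit 266) (nat_lit 251) (nat_lit 203))))) (XT.nd (nat_lit 376) (nat_lit 1092) (nat_lit 0) (XT.nd (nat_lit 188) (nat_lit 840) (nat_lit 0) (XT.nd (nat_lit 94) (nat_lit 0) (nat_lit 0) (XT.lf (nat_lit 0) (nat_lit 3586372850) (nat_lit 420) (nat_lit 3071111564) (nat_lit 504) (nat_lit 4313305624) (nat_lit 112) (nat_lit 5) (nat_lit 117) (nat_lit 5) (nat_lit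 118) (nat_lit 5) (nat_lit 267) (nat_lit 251) (nat_lit 202)) (XT.lf (nat_lit 0) (nat_lit 8847019924) (nat_lit 504) (nat_lit 915749702) (nat_lit 84) (nat_lit 1486156795) (nat_lit 112) (nat_lit 5) (nat_lit 118) (nat_lit 5) (nat_lit 113) (nat_lit 5) (nat_lit 268) (nat_lit 251) (nat_lit 201))) (XT.nd (nat_lit 94) (nat_lit 420) (nat_lit 0) (XT.lf (nat_lit 0) (nat_lit 5970954942) (nat_lit 420) (nat_lit 5276367687) (nat_lit 504) (nat_lit 288582473) (nat_lit 107) (nat_lit 5) (nat_lit 112) (nat_lit 5) (nat_lit 113) (nat_lit 5) (nat_lit 269) (nat_lit 251) (nat_lit 200)) (XT.lf (nat_lit 0) (nat_lit 1363796475) (nat_lit 336) (nat_lit 500235288) (nat_lit 420) (nat_lit 9971923545) (nat_lit 102) (nat_lit 5) (nat_lit 106) (nat_lit 5) (nat_lit 107) (nat_lit 5) (nat_lit 270) (nat_lit 251) (nat_lit 199)))) (XT.nd (nat_lit 188) (nat_lit 756) (nat_lit 0) (XT.nd (nat_lit 94) (nat_lit 336) (nat_lit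 0) (XT.lf (nat_lit 0) (nat_lit 4240385426) (nat_lit 420) (nat_lit 3438842515) (nat_lit 84) (nat_lit 4465253191) (nat_lit 102) (nat_lit 5) (nat_lit 107) (nat_lit 5) (nat_lit 103) (nat_lit 5) (nat_lit 271) (nat_lit 251) (nat_lit 198)) (XT.lf (nat_lit 0) (nat_lit 4020952089) (nat_lit 336) (nat_lit 2747040422) (nat_lit 420) (nat_lit 5698818950) (nat_lit 98) (nat_lit 5) (nat_lit 102) (nat_lit 5) (nat_lit 103) (nat_lit 5) (nat_lit 272) (nat_lit 251) (nat_lit 197))) (XT.nd (nat_lit 94) (nat_lit 756) (nat_lit 0) (XT.lf (nat_lit 0) (nat_lit 9481612506) (nat_lit 420) (nat_lit 914840903) (nat_lit 84) (nat_lit 2405823271) (nat_lit 98) (nat_lit 5) (nat_lit 103) (nat_lit 5) (nat_lit 99) (nat_lit 5) (nat_lit 273) (nat_lit 251) (nat_lit 196)) (XT.nd (nat_lit 94) (nat_lit 420) (nat_lit 0) (XT.lf (nat_lit 0) (nat_lit 7131471890) (nat_lit 336) (nat_lit 5320077159) (nat_lit 420) (nat_lit 696934331)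 (nat_lit 94) (nat_lit 5) (nat_lit 98) (nat_lit 5) (nat_lit 99) (nat_lit 5) (nat_lit 274) (nat_lit 251) (nat_lit 195)) (XT.lf (nat_lit 0) (nat_lit 2006532095) (nat_lit 420) (nat_lit 11420839841) (nat_lit 84) (nat_lit 82301018) (nat_lit 89) (nat_lit 5) (nat_lit 94) (nat_lit 5) (nat_lit 90) (nat_lit 5) (nat_lit 275) (nat_lit 251) (nat_lit 194))))))))
noncomputable def xc116 : XT := (XT.nd (nat_lit 1504) (nat_lit 1932) (nat_lit 0) (XT.nd (nat_lit 752) (nat_lit 1176) (nat_lit 0) (XT.nd (nat_lit 376) (nat_lit 756) (nat_lit 0) (XT.nd (nat_lit 188) (nat_lit 420) (nat_lit 0) (XT.nd (nat_lit 94) (nat_lit 252) (nat_lit 0) (XT.lf (nat_lit 0) (nat_lit 4978081403) (nat_lit 420) (nat_lit 3221030183) (nat_lit 84) (nat_lit 5681422607) (nat_lit 89) (nat_lit 5) (nat_lit 94) (nat_lit 5) (nat_lit 90) (nat_lit 5) (nat_lit 276) (nat_lit 251) (nat_lit 193)) (XT.lf (nat_lit 0) (nat_lit 5521924910)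 (nat_lit 252) (nat_lit 2629681928) (nat_lit 336) (nat_lit 6115661723) (nat_lit 86) (nat_lit 5) (nat_lit 89) (nat_lit 5) (nat_lit 90) (nat_lit 5) (nat_lit 277) (nat_lit 251) (nat_lit 192))) (XT.nd (nat_lit 94) (nat_lit 84) (nat_lit 0) (XT.lf (nat_lit 0) (nat_lit 49380102) (nat_lit 336) (nat_lit 11508796778) (nat_lit 420) (nat_lit 3111444350) (nat_lit 82) (nat_lit 5) (nat_lit 86) (nat_lit 5) (nat_lit 87) (nat_lit 5) (nat_lit 278) (nat_lit 251) (nat_lit 191)) (XT.lf (nat_lit 0) (nat_lit 203495719) (nat_lit 420) (nat_lit 5588074819) (nat_lit 84) (nat_lit 9292393061) (nat_lit 81) (nat_lit 5) (nat_lit 86) (nat_lit 5) (nat_lit 82) (nat_lit 5) (nat_lit 279) (nat_lit 251) (nat_lit 190)))) (XT.nd (nat_lit 188) (nat_lit 504) (nat_lit 0) (XT.nd (nat_lit 94) (nat_lit 0) (nat_lit 0) (XT.lf (nat_lit 0) (nat_lit 3615651338) (nat_lit 336) (nat_lit 11591974244) (nat_lit 84) (nat_lit 307045467)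 (nat_lit 78) (nat_lit 5) (nat_lit 82) (nat_lit 5) (nat_lit 79) (nat_lit 5) (nat_lit 280) (nat_lit 251) (nat_lit 189)) (XT.lf (nat_lit 0) (nat_lit 7359896379) (nat_lit 336) (nat_lit 1998771897) (nat_lit 84) (nat_lit 6600171512) (nat_lit 78) (nat_lit 5) (nat_lit 82) (nat_lit 5) (nat_lit 79) (nat_lit 5) (nat_lit 281) (nat_lit 251) (nat_lit 188))) (XT.nd (nat_lit 94) (nat_lit 252) (nat_lit 0) (XT.lf (nat_lit 0) (nat_lit 8298644725) (nat_lit 252) (nat_lit 3094035657) (nat_lit 336) (nat_lit 5027470248) (nat_lit 75) (nat_lit 5) (nat_lit 78) (nat_lit 5) (nat_lit 79) (nat_lit 5) (nat_lit 282) (nat_lit 251) (nat_lit 187)) (XT.lf (nat_lit 0) (nat_lit 2253088735) (nat_lit 252) (nat_lit 13470264054) (nat_lit 336) (nat_lit 1176361764) (nat_lit 72) (nat_lit 5) (nat_lit 75) (nat_lit 5) (nat_lit 76) (nat_lit 5) (nat_lit 283) (nat_lit 251) (nat_lit 186))))) (XT.nd (nat_lit 376) (nat_lit 672)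 (nat_lit 0) (XT.nd (nat_lit 188) (nat_lit 168) (nat_lit 0) (XT.nd (nat_lit 94) (nat_lit 252) (nat_lit 0) (XT.lf (nat_lit 0) (nat_lit 2938562032) (nat_lit 336) (nat_lit 4107555279) (nat_lit 84) (nat_lit 10346749457) (nat_lit 71) (nat_lit 5) (nat_lit 75) (nat_lit 5) (nat_lit 72) (nat_lit 5) (nat_lit 284) (nat_lit 251) (nat_lit 185)) (XT.lf (nat_lit 0) (nat_lit 7127493378) (nat_lit 252) (nat_lit 177307368) (nat_lit 336) (nat_lit 10600656506) (nat_lit 68) (nat_lit 5) (nat_lit 71) (nat_lit 5) (nat_lit 72) (nat_lit 5) (nat_lit 285) (nat_lit 251) (nat_lit 184))) (XT.nd (nat_lit 94) (nat_lit 0) (nat_lit 0) (XT.lf (nat_lit 0) (nat_lit 491209371) (nat_lit 168) (nat_lit 11560594397) (nat_lit 252) (nat_lit 6383750874) (nat_lit 66) (nat_lit 5) (nat_lit 68) (nat_lit 5) (nat_lit 69) (nat_lit 5) (nat_lit 286) (nat_lit 251) (nat_lit 183)) (XT.lf (nat_lit 0) (nat_lit 12655436793) (nat_lit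 168) (nat_lit 4540962580) (nat_lit 252) (nat_lit 1787745408) (nat_lit 66) (nat_lit 5) (nat_lit 68) (nat_lit 5) (nat_lit 69) (nat_lit 5) (nat_lit 287) (nat_lit 251) (nat_lit 182)))) (XT.nd (nat_lit 188) (nat_lit 336) (nat_lit 0) (XT.nd (nat_lit 94) (nat_lit 0) (nat_lit 0) (XT.lf (nat_lit 0) (nat_lit 3055999228) (nat_lit 336) (nat_lit 13627669184) (nat_lit 84) (nat_lit 2868365593) (nat_lit 62) (nat_lit 5) (nat_lit 66) (nat_lit 5) (nat_lit 63) (nat_lit 5) (nat_lit 288) (nat_lit 251) (nat_lit 181)) (XT.lf (nat_lit 0) (nat_lit 8241234708) (nat_lit 336) (nat_lit 1277510645) (nat_lit 84) (nat_lit 10620137792) (nat_lit 62) (nat_lit 5) (nat_lit 66) (nat_lit 5) (nat_lit 63) (nat_lit 5) (nat_lit 289) (nat_lit 251) (nat_lit 180))) (XT.nd (nat_lit 94) (nat_lit 168) (nat_lit 0) (XT.lf (nat_lit 0) (nat_lit 12038456559) (nat_lit 168) (nat_lit 1812376872) (nat_lit 252) (nat_lit 6895986238)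 (nat_lit 60) (nat_lit 5) (nat_lit 62) (nat_lit 5) (nat_lit 63) (nat_lit 5) (nat_lit 290) (nat_lit 251) (nat_lit 179)) (XT.lf (nat_lit 0) (nat_lit 4695077568) (nat_lit 168) (nat_lit 15216612856) (nat_lit 252) (nat_lit 1464923679) (nat_lit 58) (nat_lit 5) (nat_lit 60) (nat_lit 5) (nat_lit 61) (nat_lit 5) (nat_lit 291) (nat_lit 251) (nat_lit 178)))))) (XT.nd (nat_lit 752) (nat_lit 924) (nat_lit 0) (XT.nd (nat_lit 376) (nat_lit 504) (nat_lit 0) (XT.nd (nat_lit 188) (nat_lit 252) (nat_lit 0) (XT.nd (nat_lit 94) (nat_lit 168) (nat_lit 0) (XT.lf (nat_lit 0) (nat_lit 4259255385) (nat_lit 252) (nat_lit 3095234779) (nat_lit 84) (nat_lit 14672240182) (nat_lit 57) (nat_lit 5) (nat_lit 60) (nat_lit 5) (nat_lit 58) (nat_lit 5) (nat_lit 292) (nat_lit 251) (nat_lit 177)) (XT.lf (nat_lit 0) (nat_lit 10395442446) (nat_lit 252) (nat_lit 11239354091) (nat_lit 84) (nat_lit 1064603604) (nat_lit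 55) (nat_lit 5) (nat_lit 58) (nat_lit 5) (nat_lit 56) (nat_lit 5) (nat_lit 293) (nat_lit 251) (nat_lit 176))) (XT.nd (nat_lit 94) (nat_lit 84) (nat_lit 0) (XT.lf (nat_lit 0) (nat_lit 3398921769) (nat_lit 168) (nat_lit 13645328791) (nat_lit 252) (nat_lit 6351162280) (nat_lit 53) (nat_lit 5) (nat_lit 55) (nat_lit 5) (nat_lit 56) (nat_lit 5) (nat_lit 294) (nat_lit 251) (nat_lit 175)) (XT.lf (nat_lit 0) (nat_lit 74976730) (nat_lit 252) (nat_lit 4994963224) (nat_lit 84) (nat_lit 19047740856) (nat_lit 52) (nat_lit 5) (nat_lit 55) (nat_lit 5) (nat_lit 53) (nat_lit 5) (nat_lit 295) (nat_lit 251) (nat_lit 174)))) (XT.nd (nat_lit 188) (nat_lit 168) (nat_lit 0) (XT.nd (nat_lit 94) (nat_lit 168) (nat_lit 0) (XT.lf (nat_lit 0) (nat_lit 6825973402) (nat_lit 252) (nat_lit 13959705204) (nat_lit 84) (nat_lit 4074328130) (nat_lit 50) (nat_lit 5) (nat_lit 53) (nat_lit 5) (nat_lit 51) (nat_lit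 5) (nat_lit 296) (nat_lit 251) (nat_lit 173)) (XT.lf (nat_lit 0) (nat_lit 2075956465) (nat_lit 168) (nat_lit 12020285547) (nat_lit 252) (nat_lit 11534120841) (nat_lit 48) (nat_lit 5) (nat_lit 50) (nat_lit 5) (nat_lit 51) (nat_lit 5) (nat_lit 297) (nat_lit 251) (nat_lit 172))) (XT.nd (nat_lit 94) (nat_lit 168) (nat_lit 0) (XT.lf (nat_lit 0) (nat_lit 19364096687) (nat_lit 168) (nat_lit 2582971577) (nat_lit 252) (nat_lit 4481316303) (nat_lit 48) (nat_lit 5) (nat_lit 50) (nat_lit 5) (nat_lit 51) (nat_lit 5) (nat_lit 298) (nat_lit 251) (nat_lit 171)) (XT.lf (nat_lit 0) (nat_lit 3093446756) (nat_lit 168) (nat_lit 16866309128) (nat_lit 84) (nat_lit 7291123356) (nat_lit 46) (nat_lit 5) (nat_lit 48) (nat_lit 5) (nat_lit 47) (nat_lit 5) (nat_lit 299) (nat_lit 251) (nat_lit 170))))) (XT.nd (nat_lit 376) (nat_lit 588) (nat_lit 0) (XT.nd (nat_lit 188) (nat_lit 168) (nat_lit 0) (XT.nd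 (nat_lit 94) (nat_lit 0) (nat_lit 0) (XT.lf (nat_lit 0) (nat_lit 714588209) (nat_lit 168) (nat_lit 10338273944) (nat_lit 252) (nat_lit 17050137493) (nat_lit 44) (nat_lit 5) (nat_lit 46) (nat_lit 5) (nat_lit 47) (nat_lit 5) (nat_lit 300) (nat_lit 251) (nat_lit 169)) (XT.lf (nat_lit 0) (nat_lit 19678458232) (nat_lit 252) (nat_lit 9257631614) (nat_lit 84) (nat_lit 48225733) (nat_lit 44) (nat_lit 5) (nat_lit 47) (nat_lit 5) (nat_lit 45) (nat_lit 4) (nat_lit 301) (nat_lit 251) (nat_lit 168))) (XT.nd (nat_lit 94) (nat_lit 84) (nat_lit 0) (XT.lf (nat_lit 0) (nat_lit 9895225173) (nat_lit 84) (nat_lit 19146527145) (nat_lit 168) (nat_lit 852624077) (nat_lit 43) (nat_lit 5) (nat_lit 44) (nat_lit 5) (nat_lit 45) (nat_lit 4) (nat_lit 302) (nat_lit 251) (nat_lit 167)) (XT.lf (nat_lit 0) (nat_lit 7908341911) (nat_lit 168) (nat_lit 674566390) (nat_lit 84) (nat_lit 22253675375) (nat_lit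 42) (nat_lit 5) (nat_lit 44) (nat_lit 5) (nat_lit 43) (nat_lit 5) (nat_lit 303) (nat_lit 251) (nat_lit 166)))) (XT.nd (nat_lit 188) (nat_lit 336) (nat_lit 0) (XT.nd (nat_lit 94) (nat_lit 84) (nat_lit 0) (XT.lf (nat_lit 0) (nat_lit 17422088920) (nat_lit 252) (nat_lit 11635450198) (nat_lit 84) (nat_lit 2750494006) (nat_lit 40) (nat_lit 5) (nat_lit 43) (nat_lit 5) (nat_lit 41) (nat_lit 4) (nat_lit 304) (nat_lit 251) (nat_lit 165)) (XT.lf (nat_lit 0) (nat_lit 9387219636) (nat_lit 84) (nat_lit 18306643846) (nat_lit 168) (nat_lit 5120074552) (nat_lit 39) (nat_lit 5) (nat_lit 40) (nat_lit 5) (nat_lit 41) (nat_lit 4) (nat_lit 305) (nat_lit 251) (nat_lit 164))) (XT.nd (nat_lit 94) (nat_lit 252) (nat_lit 0) (XT.lf (nat_lit 0) (nat_lit 4645371055) (nat_lit 168) (nat_lit 2100916994) (nat_lit 84) (nat_lit 27111061998) (nat_lit 38) (nat_lit 5) (nat_lit 40) (nat_lit 5) (nat_lit 39) (nat_lit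 5) (nat_lit 306) (nat_lit 251) (nat_lit 163)) (XT.nd (nat_lit 94) (nat_lit 84) (nat_lit 0) (XT.lf (nat_lit 0) (nat_lit 15127470951) (nat_lit 252) (nat_lit 14178485211) (nat_lit 84) (nat_lit 5622757209) (nat_lit 36) (nat_lit 5) (nat_lit 39) (nat_lit 5) (nat_lit 37) (nat_lit 4) (nat_lit 307) (nat_lit 251) (nat_lit 162)) (XT.lf (nat_lit 0) (nat_lit 8909930157) (nat_lit 84) (nat_lit 17494015083) (nat_lit 168) (nat_lit 9636186153) (nat_lit 35) (nat_lit 5) (nat_lit 36) (nat_lit 5) (nat_lit 37) (nat_lit 4) (nat_lit 308) (nat_lit 251) (nat_lit 161))))))))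
noncomputable def xc117 : XT := (XT.nd (nat_lit 1598) (nat_lit 1428) (nat_lit 0) (XT.nd (nat_lit 752) (nat_lit 672) (nat_lit 0) (XT.nd (nat_lit 376) (nat_lit 504) (nat_lit 0) (XT.nd (nat_lit 188) (nat_lit 84) (nat_lit 0) (XT.nd (nat_lit 94) (nat_lit 168) (nat_lit 0) (XT.lf (nat_lit 0) (nat_lit 1232431995) (nat_lit 168) (nat_lit 3599346109) (nat_lit 84) (nat_lit 32363107419) (nat_lit 34) (nat_lit 5) (nat_lit 36) (nat_lit 5) (nat_lit 35) (nat_lit 5) (nat_lit 309) (nat_lit 251) (nat_lit 160)) (XT.lf (nat_lit 0) (nat_lit 12783347669) (nat_lit 252) (nat_lit 16909265606) (nat_lit 84) (nat_lit 8683730287) (nat_lit 32) (nat_lit 5) (nat_lit 35) (nat_lit 5) (nat_lit 33) (nat_lit 4) (nat_lit 310) (nat_lit 251) (nat_lit 159))) (XT.nd (nat_lit 94) (nat_lit 0) (nat_lit 0) (XT.lf (nat_lit 0) (nat_lit 8460737144) (nat_lit 84) (nat_lit 16709601775) (nat_lit 168) (nat_lit 14433609095) (nat_lit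 31) (nat_lit 5) (nat_lit 32) (nat_lit 5) (nat_lit 33) (nat_lit 4) (nat_lit 311) (nat_lit 251) (nat_lit 158)) (XT.lf (nat_lit 0) (nat_lit 35658931833) (nat_lit 84) (nat_lit 2789657369) (nat_lit 168) (nat_lit 2430748013) (nat_lit 31) (nat_lit 5) (nat_lit 32) (nat_lit 5) (nat_lit 33) (nat_lit 4) (nat_lit 312) (nat_lit 251) (nat_lit 157)))) (XT.nd (nat_lit 188) (nat_lit 168) (nat_lit 0) (XT.nd (nat_lit 94) (nat_lit 84) (nat_lit 0) (XT.lf (nat_lit 0) (nat_lit 10377328942) (nat_lit 252) (nat_lit 19852034149) (nat_lit 84) (nat_lit 11954659486) (nat_lit 28) (nat_lit 5) (nat_lit 31) (nat_lit 5) (nat_lit 29) (nat_lit 4) (nat_lit 313) (nat_lit 251) (nat_lit 156)) (XT.lf (nat_lit 0) (nat_lit 8037350866) (nat_lit 84) (nat_lit 15953918611) (nat_lit 168) (nat_lit 19548322874) (nat_lit 27) (nat_lit 5) (nat_lit 28) (nat_lit 5) (nat_lit 29) (nat_lit 4) (nat_lit 314) (nat_lit 251) (nat_lit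 155))) (XT.nd (nat_lit 94) (nat_lit 168) (nat_lit 0) (XT.lf (nat_lit 0) (nat_lit 37984266026) (nat_lit 84) (nat_lit 624171396) (nat_lit 168) (nat_lit 6338376674) (nat_lit 27) (nat_lit 5) (nat_lit 28) (nat_lit 5) (nat_lit 29) (nat_lit 4) (nat_lit 315) (nat_lit 251) (nat_lit 154)) (XT.lf (nat_lit 0) (nat_lit 7895832345) (nat_lit 168) (nat_lit 23033009770) (nat_lit 84) (nat_lit 15459433044) (nat_lit 25) (nat_lit 5) (nat_lit 27) (nat_lit 5) (nat_lit 26) (nat_lit 4) (nat_lit 316) (nat_lit 251) (nat_lit 153))))) (XT.nd (nat_lit 376) (nat_lit 336) (nat_lit 0) (XT.nd (nat_lit 188) (nat_lit 252) (nat_lit 0) (XT.nd (nat_lit 94) (nat_lit 0) (nat_lit 0) (XT.lf (nat_lit 0) (nat_lit 7637759381) (nat_lit 84) (nat_lit 15227126303) (nat_lit 168) (nat_lit 25019920954) (nat_lit 24) (nat_lit 5) (nat_lit 25) (nat_lit 5) (nat_lit 26) (nat_lit 4) (nat_lit 317) (nat_lit 251) (nat_lit 152)) (XT.lf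 (nat_lit 0) (nat_lit 38985396534) (nat_lit 168) (nat_lit 8846454294) (nat_lit 0) (nat_lit 1604163624) (nat_lit 24) (nat_lit 5) (nat_lit 26) (nat_lit 4) (nat_lit 24) (nat_lit 4) (nat_lit 318) (nat_lit 251) (nat_lit 151))) (XT.nd (nat_lit 94) (nat_lit 84) (nat_lit 0) (XT.lf (nat_lit 0) (nat_lit 5324005239) (nat_lit 168) (nat_lit 26480662335) (nat_lit 84) (nat_lit 19224731500) (nat_lit 22) (nat_lit 5) (nat_lit 24) (nat_lit 5) (nat_lit 23) (nat_lit 4) (nat_lit 319) (nat_lit 251) (nat_lit 150)) (XT.lf (nat_lit 0) (nat_lit 7260185386) (nat_lit 84) (nat_lit 14529106855) (nat_lit 168) (nat_lit 30891937505) (nat_lit 21) (nat_lit 5) (nat_lit 22) (nat_lit 5) (nat_lit 23) (nat_lit 4) (nat_lit 320) (nat_lit 251) (nat_lit 149)))) (XT.nd (nat_lit 188) (nat_lit 168) (nat_lit 0) (XT.nd (nat_lit 94) (nat_lit 168) (nat_lit 0) (XT.lf (nat_lit 0) (nat_lit 39577579803) (nat_lit 168) (nat_lit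 10873825289) (nat_lit 0) (nat_lit 3939260050) (nat_lit 21) (nat_lit 5) (nat_lit 23) (nat_lit 4) (nat_lit 21) (nat_lit 4) (nat_lit 321) (nat_lit 251) (nat_lit 148)) (XT.lf (nat_lit 0) (nat_lit 2645628250) (nat_lit 168) (nat_lit 30226003637) (nat_lit 84) (nat_lit 23280216601) (nat_lit 19) (nat_lit 5) (nat_lit 21) (nat_lit 5) (nat_lit 20) (nat_lit 4) (nat_lit 322) (nat_lit 251) (nat_lit 147))) (XT.nd (nat_lit 94) (nat_lit 84) (nat_lit 0) (XT.lf (nat_lit 0) (nat_lit 6903050428) (nat_lit 84) (nat_lit 13859524891) (nat_lit 168) (nat_lit 37212218078) (nat_lit 18) (nat_lit 5) (nat_lit 19) (nat_lit 5) (nat_lit 20) (nat_lit 4) (nat_lit 323) (nat_lit 251) (nat_lit 146)) (XT.nd (nat_lit 94) (nat_lit 84) (nat_lit 0) (XT.lf (nat_lit 0) (nat_lit 40389140901) (nat_lit 168) (nat_lit 13052231839) (nat_lit 0) (nat_lit 6417324254) (nat_lit 18) (nat_lit 5) (nat_lit 20) (nat_lit 4) (nat_lit 18)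 (nat_lit 4) (nat_lit 324) (nat_lit 251) (nat_lit 145)) (XT.lf (nat_lit 0) (nat_lit 27499099934) (nat_lit 84) (nat_lit 34143239720) (nat_lit 84) (nat_lit 162190873) (nat_lit 17) (nat_lit 4) (nat_lit 18) (nat_lit 5) (nat_lit 18) (nat_lit 4) (nat_lit 325) (nat_lit 251) (nat_lit 144))))))) (XT.nd (nat_lit 752) (nat_lit 756) (nat_lit 0) (XT.nd (nat_lit 376) (nat_lit 252) (nat_lit 0) (XT.nd (nat_lit 188) (nat_lit 252) (nat_lit 0) (XT.nd (nat_lit 94) (nat_lit 0) (nat_lit 0) (XT.lf (nat_lit 0) (nat_lit 6564945188) (nat_lit 84) (nat_lit 13217877546) (nat_lit 168) (nat_lit 44033336750) (nat_lit 15) (nat_lit 5) (nat_lit 16) (nat_lit 5) (nat_lit 17) (nat_lit 4) (nat_lit 326) (nat_lit 251) (nat_lit 143)) (XT.lf (nat_lit 0) (nat_lit 41435614071) (nat_lit 168) (nat_lit 15400462584) (nat_lit 0) (nat_lit 9056361407) (nat_lit 15) (nat_lit 5) (nat_lit 17) (nat_lit 4) (nat_lit 15) (nat_lit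 4) (nat_lit 327) (nat_lit 251) (nat_lit 142))) (XT.nd (nat_lit 94) (nat_lit 168) (nat_lit 0) (XT.lf (nat_lit 0) (nat_lit 29240952563) (nat_lit 84) (nat_lit 35592649094) (nat_lit 84) (nat_lit 3205801076) (nat_lit 14) (nat_lit 4) (nat_lit 15) (nat_lit 5) (nat_lit 15) (nat_lit 4) (nat_lit 328) (nat_lit 251) (nat_lit 141)) (XT.lf (nat_lit 0) (nat_lit 6244604766) (nat_lit 84) (nat_lit 12603534968) (nat_lit 168) (nat_lit 51413062869) (nat_lit 12) (nat_lit 5) (nat_lit 13) (nat_lit 5) (nat_lit 14) (nat_lit 4) (nat_lit 329) (nat_lit 251) (nat_lit 140)))) (XT.nd (nat_lit 188) (nat_lit 168) (nat_lit 0) (XT.nd (nat_lit 94) (nat_lit 84) (nat_lit 0) (XT.lf (nat_lit 0) (nat_lit 42734349749) (nat_lit 168) (nat_lit 17938967380) (nat_lit 0) (nat_lit 11876282226) (nat_lit 12) (nat_lit 5) (nat_lit 14) (nat_lit 4) (nat_lit 12) (nat_lit 4) (nat_lit 330) (nat_lit 251) (nat_lit 139)) (XT.lf (nat_lit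 0) (nat_lit 31214890729) (nat_lit 84) (nat_lit 37283824601) (nat_lit 84) (nat_lit 6419508361) (nat_lit 11) (nat_lit 4) (nat_lit 12) (nat_lit 5) (nat_lit 12) (nat_lit 4) (nat_lit 331) (nat_lit 251) (nat_lit 138))) (XT.nd (nat_lit 94) (nat_lit 0) (nat_lit 0) (XT.lf (nat_lit 0) (nat_lit 5940888092) (nat_lit 84) (nat_lit 12015773122) (nat_lit 168) (nat_lit 59414881157) (nat_lit 9) (nat_lit 5) (nat_lit 10) (nat_lit 5) (nat_lit 11) (nat_lit 4) (nat_lit 332) (nat_lit 251) (nat_lit 137)) (XT.lf (nat_lit 0) (nat_lit 44304709048) (nat_lit 168) (nat_lit 20690059173) (nat_lit 0) (nat_lit 14899056506) (nat_lit 9) (nat_lit 5) (nat_lit 11) (nat_lit 4) (nat_lit 9) (nat_lit 4) (nat_lit 333) (nat_lit 251) (nat_lit 136))))) (XT.nd (nat_lit 376) (nat_lit 420) (nat_lit 0) (XT.nd (nat_lit 188) (nat_lit 84) (nat_lit 0) (XT.nd (nat_lit 94) (nat_lit 168) (nat_lit 0) (XT.lf (nat_lit 0) (nat_lit 33441751084)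 (nat_lit 84) (nat_lit 39237894586) (nat_lit 84) (nat_lit 9827101209) (nat_lit 8) (nat_lit 4) (nat_lit 9) (nat_lit 5) (nat_lit 9) (nat_lit 4) (nat_lit 334) (nat_lit 251) (nat_lit 135)) (XT.lf (nat_lit 0) (nat_lit 5652760762) (nat_lit 84) (nat_lit 11453800297) (nat_lit 168) (nat_lit 68108569551) (nat_lit 6) (nat_lit 5) (nat_lit 7) (nat_lit 5) (nat_lit 8) (nat_lit 4) (nat_lit 335) (nat_lit 251) (nat_lit 134))) (XT.nd (nat_lit 94) (nat_lit 84) (nat_lit 0) (XT.lf (nat_lit 0) (nat_lit 46168274418) (nat_lit 168) (nat_lit 23678131680) (nat_lit 0) (nat_lit 18148891276) (nat_lit 6) (nat_lit 5) (nat_lit 8) (nat_lit 4) (nat_lit 6) (nat_lit 4) (nat_lit 336) (nat_lit 251) (nat_lit 133)) (XT.lf (nat_lit 0) (nat_lit 35944717941) (nat_lit 84) (nat_lit 41478187723) (nat_lit 84) (nat_lit 13454575203) (nat_lit 5) (nat_lit 4) (nat_lit 6) (nat_lit 5) (nat_lit 6) (nat_lit 4) (nat_lit 337) (nat_lit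 251) (nat_lit 132)))) (XT.nd (nat_lit 188) (nat_lit 252) (nat_lit 0) (XT.nd (nat_lit 94) (nat_lit 0) (nat_lit 0) (XT.lf (nat_lit 0) (nat_lit 5379280674) (nat_lit 84) (nat_lit 10916778434) (nat_lit 168) (nat_lit 77570839802) (nat_lit 3) (nat_lit 5) (nat_lit 4) (nat_lit 5) (nat_lit 5) (nat_lit 4) (nat_lit 338) (nat_lit 251) (nat_lit 131)) (XT.lf (nat_lit 0) (nat_lit 48349078911) (nat_lit 168) (nat_lit 26929895351) (nat_lit 0) (nat_lit 21652434465) (nat_lit 3) (nat_lit 5) (nat_lit 5) (nat_lit 4) (nat_lit 3) (nat_lit 4) (nat_lit 339) (nat_lit 251) (nat_lit 130))) (XT.nd (nat_lit 94) (nat_lit 168) (nat_lit 0) (XT.lf (nat_lit 0) (nat_lit 38749541179) (nat_lit 84) (nat_lit 44030481584) (nat_lit 84) (nat_lit 17330357619) (nat_lit 2) (nat_lit 4) (nat_lit 3) (nat_lit 5) (nat_lit 3) (nat_lit 4) (nat_lit 340) (nat_lit 251) (nat_lit 129)) (XT.nd (nat_lit 94) (nat_lit 0) (nat_lit 0) (XT.lf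 (nat_lit 0) (nat_lit 150099330103) (nat_lit 0) (nat_lit 0) (nat_lit 0) (nat_lit 0) (nat_lit 0) (nat_lit 0) (nat_lit 1) (nat_lit 0) (nat_lit 1) (nat_lit 0) (nat_lit 341) (nat_lit 251) (nat_lit 128)) (XT.lf (nat_lit 0) (nat_lit 157512029616) (nat_lit 0) (nat_lit 0) (nat_lit 0) (nat_lit 0) (nat_lit 0) (nat_lit 0) (nat_lit 1) (nat_lit 0) (nat_lit 1) (nat_lit 0) (nat_lit 342) (nat_lit 251) (nat_lit 127))))))))
noncomputable def xc118 : XT := (XT.nd (nat_lit 37976) (nat_lit 0) (nat_lit 6552) (XT.nd (nat_lit 37130) (nat_lit 0) (nat_lit 10332) (XT.nd (nat_lit 36754) (nat_lit 0) (nat_lit 12432) (XT.nd (nat_lit 188) (nat_lit 0) (nat_lit 0) (XT.nd (nat_lit 94) (nat_lit 0) (nat_lit 0) (XT.lf (nat_lit 0) (nat_lit 165295385241) (nat_lit 0) (nat_lit 0) (nat_lit 0) (nat_lit 0) (nat_lit 0) (nat_lit 0) (nat_lit 1) (nat_lit 0) (nat_lit 1) (nat_lit 0) (nat_lit 343) (nat_lit 251) (nat_lit 126))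 (XT.lf (nat_lit 0) (nat_lit 173467928776) (nat_lit 0) (nat_lit 0) (nat_lit 0) (nat_lit 0) (nat_lit 0) (nat_lit 0) (nat_lit 1) (nat_lit 0) (nat_lit 1) (nat_lit 0) (nat_lit 344) (nat_lit 251) (nat_lit 125))) (XT.nd (nat_lit 36472) (nat_lit 0) (nat_lit 12432) (XT.lf (nat_lit 0) (nat_lit 182049118658) (nat_lit 0) (nat_lit 0) (nat_lit 0) (nat_lit 0) (nat_lit 0) (nat_lit 0) (nat_lit 1) (nat_lit 0) (nat_lit 1) (nat_lit 0) (nat_lit 345) (nat_lit 251) (nat_lit 124)) (XT.lf (nat_lit 0) (nat_lit 1195827294) (nat_lit 756) (nat_lit 1427786009) (nat_lit 756) (nat_lit 1427786009) (nat_lit 148) (nat_lit 3) (nat_lit 157) (nat_lit 3) (nat_lit 157) (nat_lit 5) (nat_lit 252) (nat_lit 252) (nat_lit 216)))) (XT.nd (nat_lit 188) (nat_lit 0) (nat_lit 84) (XT.nd (nat_lit 94) (nat_lit 0) (nat_lit 84) (XT.lf (nat_lit 84) (nat_lit 1235366745) (nat_lit 0) (nat_lit 2391601033) (nat_lit 756) (nat_lit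 4619624723) (nat_lit 149) (nat_lit 5) (nat_lit 148) (nat_lit 3) (nat_lit 157) (nat_lit 5) (nat_lit 253) (nat_lit 252) (nat_lit 215)) (XT.lf (nat_lit 0) (nat_lit 4908572309) (nat_lit 672) (nat_lit 2819845786) (nat_lit 756) (nat_lit 669931690) (nat_lit 149) (nat_lit 5) (nat_lit 157) (nat_lit 5) (nat_lit 158) (nat_lit 5) (nat_lit 254) (nat_lit 252) (nat_lit 214))) (XT.nd (nat_lit 94) (nat_lit 0) (nat_lit 0) (XT.lf (nat_lit 84) (nat_lit 1549182536) (nat_lit 0) (nat_lit 4697895282) (nat_lit 756) (nat_lit 2310976078) (nat_lit 150) (nat_lit 5) (nat_lit 149) (nat_lit 5) (nat_lit 158) (nat_lit 5) (nat_lit 255) (nat_lit 252) (nat_lit 213)) (XT.lf (nat_lit 84) (nat_lit 6192945584) (nat_lit 0) (nat_lit 1439456451) (nat_lit 756) (nat_lit 1094346504) (nat_lit 150) (nat_lit 5) (nat_lit 149) (nat_lit 5) (nat_lit 158) (nat_lit 5) (nat_lit 256) (nat_lit 252) (nat_lit 212))))) (XT.nd (nat_lit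 376) (nat_lit 1512) (nat_lit 0) (XT.nd (nat_lit 188) (nat_lit 0) (nat_lit 84) (XT.nd (nat_lit 94) (nat_lit 0) (nat_lit 0) (XT.lf (nat_lit 0) (nat_lit 177686481) (nat_lit 756) (nat_lit 6746770272) (nat_lit 840) (nat_lit 1979256581) (nat_lit 141) (nat_lit 5) (nat_lit 150) (nat_lit 5) (nat_lit 151) (nat_lit 5) (nat_lit 257) (nat_lit 252) (nat_lit 211)) (XT.lf (nat_lit 0) (nat_lit 1480896709) (nat_lit 756) (nat_lit 2004063952) (nat_lit 840) (nat_lit 5603451058) (nat_lit 141) (nat_lit 5) (nat_lit 150) (nat_lit 5) (nat_lit 151) (nat_lit 5) (nat_lit 258) (nat_lit 252) (nat_lit 210))) (XT.nd (nat_lit 94) (nat_lit 0) (nat_lit 0) (XT.lf (nat_lit 0) (nat_lit 2839733772) (nat_lit 756) (nat_lit 6255740488) (nat_lit 840) (nat_lit 187347450) (nat_lit 142) (nat_lit 5) (nat_lit 151) (nat_lit 5) (nat_lit 152) (nat_lit 5) (nat_lit 259) (nat_lit 252) (nat_lit 209)) (XT.lf (nat_lit 0) (nat_lit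 4300718329) (nat_lit 756) (nat_lit 1208537688) (nat_lit 840) (nat_lit 3975985899) (nat_lit 142) (nat_lit 5) (nat_lit 151) (nat_lit 5) (nat_lit 152) (nat_lit 5) (nat_lit 260) (nat_lit 252) (nat_lit 208)))) (XT.nd (nat_lit 188) (nat_lit 1596) (nat_lit 0) (XT.nd (nat_lit 94) (nat_lit 0) (nat_lit 84) (XT.lf (nat_lit 84) (nat_lit 4182062297) (nat_lit 0) (nat_lit 1663296820) (nat_lit 840) (nat_lit 3851893668) (nat_lit 143) (nat_lit 5) (nat_lit 142) (nat_lit 5) (nat_lit 152) (nat_lit 5) (nat_lit 261) (nat_lit 252) (nat_lit 207)) (XT.lf (nat_lit 0) (nat_lit 7472539911) (nat_lit 756) (nat_lit 117033422) (nat_lit 84) (nat_lit 2330025465) (nat_lit 143) (nat_lit 5) (nat_lit 152) (nat_lit 5) (nat_lit 144) (nat_lit 5) (nat_lit 262) (nat_lit 252) (nat_lit 206))) (XT.nd (nat_lit 94) (nat_lit 924) (nat_lit 0) (XT.lf (nat_lit 0) (nat_lit 5662202310) (nat_lit 756) (nat_lit 3584476469) (nat_lit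 840) (nat_lit 903103381) (nat_lit 134) (nat_lit 5) (nat_lit 143) (nat_lit 5) (nat_lit 144) (nat_lit 5) (nat_lit 263) (nat_lit 252) (nat_lit 205)) (XT.nd (nat_lit 94) (nat_lit 0) (nat_lit 0) (XT.lf (nat_lit 0) (nat_lit 679057591) (nat_lit 924) (nat_lit 9071854142) (nat_lit 84) (nat_lit 640802928) (nat_lit 123) (nat_lit 5) (nat_lit 134) (nat_lit 5) (nat_lit 124) (nat_lit 5) (nat_lit 264) (nat_lit 252) (nat_lit 204)) (XT.lf (nat_lit 0) (nat_lit 2398584831) (nat_lit 924) (nat_lit 3188745157) (nat_lit 84) (nat_lit 5053243132) (nat_lit 123) (nat_lit 5) (nat_lit 134) (nat_lit 5) (nat_lit 124) (nat_lit 5) (nat_lit 265) (nat_lit 252) (nat_lit 203))))))) (XT.nd (nat_lit 752) (nat_lit 1680) (nat_lit 0) (XT.nd (nat_lit 376) (nat_lit 756) (nat_lit 0) (XT.nd (nat_lit 188) (nat_lit 840) (nat_lit 0) (XT.nd (nat_lit 94) (nat_lit 0) (nat_lit 0) (XT.lf (nat_lit 0) (nat_lit 3042606339) (nat_lit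 504) (nat_lit 1163844064) (nat_lit 588) (nat_lit 6695305999) (nat_lit 117) (nat_lit 5) (nat_lit 123) (nat_lit 5) (nat_lit 124) (nat_lit 5) (nat_lit 266) (nat_lit 252) (nat_lit 202)) (XT.lf (nat_lit 0) (nat_lit 6170302240) (nat_lit 588) (nat_lit 1577094285) (nat_lit 84) (nat_lit 3425322675) (nat_lit 117) (nat_lit 5) (nat_lit 124) (nat_lit 5) (nat_lit 118) (nat_lit 5) (nat_lit 267) (nat_lit 252) (nat_lit 201))) (XT.nd (nat_lit 94) (nat_lit 420) (nat_lit 0) (XT.lf (nat_lit 0) (nat_lit 5121233039) (nat_lit 420) (nat_lit 3168587414) (nat_lit 504) (nat_lit 3164535995) (nat_lit 112) (nat_lit 5) (nat_lit 117) (nat_lit 5) (nat_lit 118) (nat_lit 5) (nat_lit 268) (nat_lit 252) (nat_lit 200)) (XT.lf (nat_lit 0) (nat_lit 403411722) (nat_lit 420) (nat_lit 10130674139) (nat_lit 504) (nat_lit 1215051135) (nat_lit 107) (nat_lit 5) (nat_lit 112) (nat_lit 5) (nat_lit 113) (nat_lit 5) (nat_lit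 269) (nat_lit 252) (nat_lit 199)))) (XT.nd (nat_lit 188) (nat_lit 336) (nat_lit 0) (XT.nd (nat_lit 94) (nat_lit 336) (nat_lit 0) (XT.lf (nat_lit 0) (nat_lit 926575245) (nat_lit 504) (nat_lit 4467901619) (nat_lit 84) (nat_lit 6657465607) (nat_lit 106) (nat_lit 5) (nat_lit 112) (nat_lit 5) (nat_lit 107) (nat_lit 5) (nat_lit 270) (nat_lit 252) (nat_lit 198)) (XT.lf (nat_lit 0) (nat_lit 2780445598) (nat_lit 336) (nat_lit 359639629) (nat_lit 420) (nat_lit 9228525253) (nat_lit 102) (nat_lit 5) (nat_lit 106) (nat_lit 5) (nat_lit 107) (nat_lit 5) (nat_lit 271) (nat_lit 252) (nat_lit 197))) (XT.nd (nat_lit 94) (nat_lit 336) (nat_lit 0) (XT.lf (nat_lit 0) (nat_lit 5581392766) (nat_lit 420) (nat_lit 2272673882) (nat_lit 84) (nat_lit 4841189138) (nat_lit 102) (nat_lit 5) (nat_lit 107) (nat_lit 5) (nat_lit 103) (nat_lit 5) (nat_lit 272) (nat_lit 252) (nat_lit 196)) (XT.lf (nat_lit 0)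 (nat_lit 5538528021) (nat_lit 336) (nat_lit 2663645545) (nat_lit 420) (nat_lit 4833189398) (nat_lit 98) (nat_lit 5) (nat_lit 102) (nat_lit 5) (nat_lit 103) (nat_lit 5) (nat_lit 273) (nat_lit 252) (nat_lit 195))))) (XT.nd (nat_lit 376) (nat_lit 924) (nat_lit 0) (XT.nd (nat_lit 188) (nat_lit 336) (nat_lit 0) (XT.nd (nat_lit 94) (nat_lit 84) (nat_lit 0) (XT.lf (nat_lit 0) (nat_lit 353464328) (nat_lit 336) (nat_lit 10654631092) (nat_lit 420) (nat_lit 2381674979) (nat_lit 94) (nat_lit 5) (nat_lit 98) (nat_lit 5) (nat_lit 99) (nat_lit 5) (nat_lit 274) (nat_lit 252) (nat_lit 194)) (XT.lf (nat_lit 0) (nat_lit 325356751) (nat_lit 420) (nat_lit 4990535216) (nat_lit 84) (nat_lit 8438901028) (nat_lit 93) (nat_lit 5) (nat_lit 98) (nat_lit 5) (nat_lit 94) (nat_lit 5) (nat_lit 275) (nat_lit 252) (nat_lit 193))) (XT.nd (nat_lit 94) (nat_lit 0) (nat_lit 0) (XT.lf (nat_lit 0) (nat_lit 3116091176)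 (nat_lit 420) (nat_lit 10651496379) (nat_lit 84) (nat_lit 367107424) (nat_lit 89) (nat_lit 5) (nat_lit 94) (nat_lit 5) (nat_lit 90) (nat_lit 5) (nat_lit 276) (nat_lit 252) (nat_lit 192)) (XT.lf (nat_lit 0) (nat_lit 6188159260) (nat_lit 420) (nat_lit 2105524117) (nat_lit 84) (nat_lit 6232818836) (nat_lit 89) (nat_lit 5) (nat_lit 94) (nat_lit 5) (nat_lit 90) (nat_lit 5) (nat_lit 277) (nat_lit 252) (nat_lit 191)))) (XT.nd (nat_lit 188) (nat_lit 336) (nat_lit 0) (XT.nd (nat_lit 94) (nat_lit 336) (nat_lit 0) (XT.lf (nat_lit 0) (nat_lit 7053989092) (nat_lit 252) (nat_lit 2440210873) (nat_lit 336) (nat_lit 5439681384) (nat_lit 86) (nat_lit 5) (nat_lit 89) (nat_lit 5) (nat_lit 90) (nat_lit 5) (nat_lit 278) (nat_lit 252) (nat_lit 190)) (XT.lf (nat_lit 0) (nat_lit 1328625907) (nat_lit 336) (nat_lit 11722654639) (nat_lit 420) (nat_lit 2306062005) (nat_lit 82) (nat_lit 5) (nat_lit 86)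 (nat_lit 5) (nat_lit 87) (nat_lit 5) (nat_lit 279) (nat_lit 252) (nat_lit 189))) (XT.nd (nat_lit 94) (nat_lit 252) (nat_lit 0) (XT.lf (nat_lit 0) (nat_lit 1099573377) (nat_lit 420) (nat_lit 4622208705) (nat_lit 84) (nat_lit 10072084554) (nat_lit 81) (nat_lit 5) (nat_lit 86) (nat_lit 5) (nat_lit 82) (nat_lit 5) (nat_lit 280) (nat_lit 252) (nat_lit 188)) (XT.nd (nat_lit 94) (nat_lit 0) (nat_lit 0) (XT.lf (nat_lit 0) (nat_lit 4664936626) (nat_lit 336) (nat_lit 10908902951) (nat_lit 84) (nat_lit 673139888) (nat_lit 78) (nat_lit 5) (nat_lit 82) (nat_lit 5) (nat_lit 79) (nat_lit 5) (nat_lit 281) (nat_lit 252) (nat_lit 187)) (XT.lf (nat_lit 0) (nat_lit 8555036647) (nat_lit 336) (nat_lit 896167630) (nat_lit 84) (nat_lit 7264220228) (nat_lit 78) (nat_lit 5) (nat_lit 82) (nat_lit 5) (nat_lit 79) (nat_lit 5) (nat_lit 282) (nat_lit 252) (nat_lit 186))))))))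
noncomputable def xc119 : XT := (XT.nd (nat_lit 1598) (nat_lit 1764) (nat_lit 0) (XT.nd (nat_lit 752) (nat_lit 1176) (nat_lit 0) (XT.nd (nat_lit 376) (nat_lit 504) (nat_lit 0) (XT.nd (nat_lit 188) (nat_lit 336) (nat_lit 0) (XT.nd (nat_lit 94) (nat_lit 252) (nat_lit 0) (XT.lf (nat_lit 0) (nat_lit 9896723970) (nat_lit 252) (nat_lit 2871820241) (nat_lit 336) (nat_lit 4432302459) (nat_lit 75) (nat_lit 5) (nat_lit 78) (nat_lit 5) (nat_lit 79) (nat_lit 5) (nat_lit 283) (nat_lit 252) (nat_lit 185)) (XT.lf (nat_lit 0) (nat_lit 3563678651) (nat_lit 252) (nat_lit 13737987331) (nat_lit 336) (nat_lit 403427021) (nat_lit 72) (nat_lit 5) (nat_lit 75) (nat_lit 5) (nat_lit 76) (nat_lit 5) (nat_lit 284) (nat_lit 252) (nat_lit 184))) (XT.nd (nat_lit 94) (nat_lit 252) (nat_lit 0) (XT.lf (nat_lit 0) (nat_lit 3852282082) (nat_lit 336) (nat_lit 3146688505) (nat_lit 84) (nat_lit 11225199921) (nat_lit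 71) (nat_lit 5) (nat_lit 75) (nat_lit 5) (nat_lit 72) (nat_lit 5) (nat_lit 285) (nat_lit 252) (nat_lit 183)) (XT.lf (nat_lit 0) (nat_lit 8421560092) (nat_lit 336) (nat_lit 10135344890) (nat_lit 84) (nat_lit 206249167) (nat_lit 68) (nat_lit 5) (nat_lit 72) (nat_lit 5) (nat_lit 69) (nat_lit 5) (nat_lit 286) (nat_lit 252) (nat_lit 182)))) (XT.nd (nat_lit 188) (nat_lit 336) (nat_lit 0) (XT.nd (nat_lit 94) (nat_lit 0) (nat_lit 0) (XT.lf (nat_lit 0) (nat_lit 1675370493) (nat_lit 168) (nat_lit 11715629019) (nat_lit 252) (nat_lit 5929502585) (nat_lit 66) (nat_lit 5) (nat_lit 68) (nat_lit 5) (nat_lit 69) (nat_lit 5) (nat_lit 287) (nat_lit 252) (nat_lit 181)) (XT.lf (nat_lit 0) (nat_lit 14392590207) (nat_lit 168) (nat_lit 4365158235) (nat_lit 252) (nat_lit 1140527123) (nat_lit 66) (nat_lit 5) (nat_lit 68) (nat_lit 5) (nat_lit 69) (nat_lit 5) (nat_lit 288) (nat_lit 252) (nat_lit 180)))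 (XT.nd (nat_lit 94) (nat_lit 0) (nat_lit 0) (XT.lf (nat_lit 0) (nat_lit 3911655259) (nat_lit 336) (nat_lit 13170921584) (nat_lit 84) (nat_lit 3411916058) (nat_lit 62) (nat_lit 5) (nat_lit 66) (nat_lit 5) (nat_lit 63) (nat_lit 5) (nat_lit 289) (nat_lit 252) (nat_lit 179)) (XT.lf (nat_lit 0) (nat_lit 9322683177) (nat_lit 336) (nat_lit 257451834) (nat_lit 84) (nat_lit 11532222954) (nat_lit 62) (nat_lit 5) (nat_lit 66) (nat_lit 5) (nat_lit 63) (nat_lit 5) (nat_lit 290) (nat_lit 252) (nat_lit 178))))) (XT.nd (nat_lit 376) (nat_lit 588) (nat_lit 0) (XT.nd (nat_lit 188) (nat_lit 252) (nat_lit 0) (XT.nd (nat_lit 94) (nat_lit 168) (nat_lit 0) (XT.lf (nat_lit 0) (nat_lit 13706830917) (nat_lit 168) (nat_lit 1490705657) (nat_lit 252) (nat_lit 6553916005) (nat_lit 60) (nat_lit 5) (nat_lit 62) (nat_lit 5) (nat_lit 63) (nat_lit 5) (nat_lit 291) (nat_lit 252) (nat_lit 177)) (XT.lf (nat_lit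 0) (nat_lit 6004929489) (nat_lit 168) (nat_lit 15548272154) (nat_lit 252) (nat_lit 859946829) (nat_lit 58) (nat_lit 5) (nat_lit 60) (nat_lit 5) (nat_lit 61) (nat_lit 5) (nat_lit 292) (nat_lit 252) (nat_lit 176))) (XT.nd (nat_lit 94) (nat_lit 168) (nat_lit 0) (XT.lf (nat_lit 0) (nat_lit 5097471165) (nat_lit 252) (nat_lit 2205419931) (nat_lit 84) (nat_lit 15793913117) (nat_lit 57) (nat_lit 5) (nat_lit 60) (nat_lit 5) (nat_lit 58) (nat_lit 5) (nat_lit 293) (nat_lit 252) (nat_lit 175)) (XT.lf (nat_lit 0) (nat_lit 11533237456) (nat_lit 252) (nat_lit 10749515088) (nat_lit 84) (nat_lit 1520716460) (nat_lit 55) (nat_lit 5) (nat_lit 58) (nat_lit 5) (nat_lit 56) (nat_lit 5) (nat_lit 294) (nat_lit 252) (nat_lit 174)))) (XT.nd (nat_lit 188) (nat_lit 336) (nat_lit 0) (XT.nd (nat_lit 94) (nat_lit 84) (nat_lit 0) (XT.lf (nat_lit 0) (nat_lit 4603709942) (nat_lit 168) (nat_lit 13897503158)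 (nat_lit 252) (nat_lit 6033732881) (nat_lit 53) (nat_lit 5) (nat_lit 55) (nat_lit 5) (nat_lit 56) (nat_lit 5) (nat_lit 295) (nat_lit 252) (nat_lit 173)) (XT.lf (nat_lit 0) (nat_lit 664119801) (nat_lit 252) (nat_lit 4239791718) (nat_lit 84) (nat_lit 20390383619) (nat_lit 52) (nat_lit 5) (nat_lit 55) (nat_lit 5) (nat_lit 53) (nat_lit 5) (nat_lit 296) (nat_lit 252) (nat_lit 172))) (XT.nd (nat_lit 94) (nat_lit 168) (nat_lit 0) (XT.lf (nat_lit 0) (nat_lit 7746718068) (nat_lit 252) (nat_lit 13646822559) (nat_lit 84) (nat_lit 4680494146) (nat_lit 50) (nat_lit 5) (nat_lit 53) (nat_lit 5) (nat_lit 51) (nat_lit 5) (nat_lit 297) (nat_lit 252) (nat_lit 171)) (XT.nd (nat_lit 94) (nat_lit 0) (nat_lit 0) (XT.lf (nat_lit 0) (nat_lit 3174317873) (nat_lit 168) (nat_lit 12194117494) (nat_lit 252) (nat_lit 11515076566) (nat_lit 48) (nat_lit 5) (nat_lit 50) (nat_lit 5) (nat_lit 51) (nat_lit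 5) (nat_lit 298) (nat_lit 252) (nat_lit 170)) (XT.lf (nat_lit 0) (nat_lit 21279504935) (nat_lit 168) (nat_lit 2305279840) (nat_lit 252) (nat_lit 4138000864) (nat_lit 48) (nat_lit 5) (nat_lit 50) (nat_lit 5) (nat_lit 51) (nat_lit 5) (nat_lit 299) (nat_lit 252) (nat_lit 169))))))) (XT.nd (nat_lit 752) (nat_lit 924) (nat_lit 0) (XT.nd (nat_lit 376) (nat_lit 420) (nat_lit 0) (XT.nd (nat_lit 188) (nat_lit 84) (nat_lit 0) (XT.nd (nat_lit 94) (nat_lit 168) (nat_lit 0) (XT.lf (nat_lit 0) (nat_lit 3792446973) (nat_lit 168) (nat_lit 16739367796) (nat_lit 84) (nat_lit 8054392039) (nat_lit 46) (nat_lit 5) (nat_lit 48) (nat_lit 5) (nat_lit 47) (nat_lit 5) (nat_lit 300) (nat_lit 252) (nat_lit 168)) (XT.lf (nat_lit 0) (nat_lit 1704925105) (nat_lit 168) (nat_lit 10433891758) (nat_lit 252) (nat_lit 17342667186) (nat_lit 44) (nat_lit 5) (nat_lit 46) (nat_lit 5) (nat_lit 47) (nat_lit 5) (nat_lit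 301) (nat_lit 252) (nat_lit 167))) (XT.nd (nat_lit 94) (nat_lit 84) (nat_lit 0) (XT.lf (nat_lit 0) (nat_lit 21176561345) (nat_lit 252) (nat_lit 8792231808) (nat_lit 84) (nat_lit 439029194) (nat_lit 44) (nat_lit 5) (nat_lit 47) (nat_lit 5) (nat_lit 45) (nat_lit 4) (nat_lit 302) (nat_lit 252) (nat_lit 166)) (XT.lf (nat_lit 0) (nat_lit 11303295538) (nat_lit 84) (nat_lit 19694499141) (nat_lit 168) (nat_lit 366102799) (nat_lit 43) (nat_lit 5) (nat_lit 44) (nat_lit 5) (nat_lit 45) (nat_lit 4) (nat_lit 303) (nat_lit 252) (nat_lit 165)))) (XT.nd (nat_lit 188) (nat_lit 168) (nat_lit 0) (XT.nd (nat_lit 94) (nat_lit 0) (nat_lit 0) (XT.lf (nat_lit 0) (nat_lit 183527202) (nat_lit 168) (nat_lit 8610922224) (nat_lit 252) (nat_lit 23559428913) (nat_lit 40) (nat_lit 5) (nat_lit 42) (nat_lit 5) (nat_lit 43) (nat_lit 5) (nat_lit 304) (nat_lit 252) (nat_lit 164)) (XT.lf (nat_lit 0) (nat_lit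 18777540600) (nat_lit 252) (nat_lit 11327797000) (nat_lit 84) (nat_lit 3268879819) (nat_lit 40) (nat_lit 5) (nat_lit 43) (nat_lit 5) (nat_lit 41) (nat_lit 4) (nat_lit 305) (nat_lit 252) (nat_lit 163))) (XT.nd (nat_lit 94) (nat_lit 84) (nat_lit 0) (XT.lf (nat_lit 0) (nat_lit 10731660750) (nat_lit 84) (nat_lit 18821841439) (nat_lit 168) (nat_lit 4877385470) (nat_lit 39) (nat_lit 5) (nat_lit 40) (nat_lit 5) (nat_lit 41) (nat_lit 4) (nat_lit 306) (nat_lit 252) (nat_lit 162)) (XT.lf (nat_lit 0) (nat_lit 5337383917) (nat_lit 168) (nat_lit 1357351971) (nat_lit 84) (nat_lit 28832494445) (nat_lit 38) (nat_lit 5) (nat_lit 40) (nat_lit 5) (nat_lit 39) (nat_lit 5) (nat_lit 307) (nat_lit 252) (nat_lit 161))))) (XT.nd (nat_lit 376) (nat_lit 420) (nat_lit 0) (XT.nd (nat_lit 188) (nat_lit 252) (nat_lit 0) (XT.nd (nat_lit 94) (nat_lit 84) (nat_lit 0) (XT.lf (nat_lit 0) (nat_lit 16340727604)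 (nat_lit 252) (nat_lit 14035937394) (nat_lit 84) (nat_lit 6275639887) (nat_lit 36) (nat_lit 5) (nat_lit 39) (nat_lit 5) (nat_lit 37) (nat_lit 4) (nat_lit 308) (nat_lit 252) (nat_lit 160)) (XT.lf (nat_lit 0) (nat_lit 10193165322) (nat_lit 84) (nat_lit 17979183395) (nat_lit 168) (nat_lit 9647378936) (nat_lit 35) (nat_lit 5) (nat_lit 36) (nat_lit 5) (nat_lit 37) (nat_lit 4) (nat_lit 309) (nat_lit 252) (nat_lit 159))) (XT.nd (nat_lit 94) (nat_lit 168) (nat_lit 0) (XT.lf (nat_lit 0) (nat_lit 1727914412) (nat_lit 168) (nat_lit 2967121677) (nat_lit 84) (nat_lit 34337900670) (nat_lit 34) (nat_lit 5) (nat_lit 36) (nat_lit 5) (nat_lit 35) (nat_lit 5) (nat_lit 310) (nat_lit 252) (nat_lit 158)) (XT.lf (nat_lit 0) (nat_lit 13854021950) (nat_lit 252) (nat_lit 16940183229) (nat_lit 84) (nat_lit 9479380218) (nat_lit 32) (nat_lit 5) (nat_lit 35) (nat_lit 5) (nat_lit 33) (nat_lit 4) (nat_lit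 311) (nat_lit 252) (nat_lit 157)))) (XT.nd (nat_lit 188) (nat_lit 336) (nat_lit 0) (XT.nd (nat_lit 94) (nat_lit 0) (nat_lit 0) (XT.lf (nat_lit 0) (nat_lit 9685181826) (nat_lit 84) (nat_lit 17167145210) (nat_lit 168) (nat_lit 14710644820) (nat_lit 31) (nat_lit 5) (nat_lit 32) (nat_lit 5) (nat_lit 33) (nat_lit 4) (nat_lit 312) (nat_lit 252) (nat_lit 156)) (XT.lf (nat_lit 0) (nat_lit 38205123972) (nat_lit 84) (nat_lit 2569200568) (nat_lit 168) (nat_lit 2128814243) (nat_lit 31) (nat_lit 5) (nat_lit 32) (nat_lit 5) (nat_lit 33) (nat_lit 4) (nat_lit 313) (nat_lit 252) (nat_lit 155))) (XT.nd (nat_lit 94) (nat_lit 84) (nat_lit 0) (XT.lf (nat_lit 0) (nat_lit 11304176263) (nat_lit 252) (nat_lit 20065900011) (nat_lit 84) (nat_lit 12902748390) (nat_lit 28) (nat_lit 5) (nat_lit 31) (nat_lit 5) (nat_lit 29) (nat_lit 4) (nat_lit 314) (nat_lit 252) (nat_lit 154)) (XT.nd (nat_lit 94) (nat_lit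 0) (nat_lit 0) (XT.lf (nat_lit 0) (nat_lit 9205394000) (nat_lit 84) (nat_lit 16385954313) (nat_lit 168) (nat_lit 20105197889) (nat_lit 27) (nat_lit 5) (nat_lit 28) (nat_lit 5) (nat_lit 29) (nat_lit 4) (nat_lit 315) (nat_lit 252) (nat_lit 153)) (XT.lf (nat_lit 0) (nat_lit 40613170365) (nat_lit 84) (nat_lit 307132128) (nat_lit 168) (nat_lit 6254780147) (nat_lit 27) (nat_lit 5) (nat_lit 28) (nat_lit 5) (nat_lit 29) (nat_lit 4) (nat_lit 316) (nat_lit 252) (nat_lit 152))))))))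
noncomputable def xc120 : XT := (XT.nd (nat_lit 1504) (nat_lit 924) (nat_lit 0) (XT.nd (nat_lit 752) (nat_lit 588) (nat_lit 0) (XT.nd (nat_lit 376) (nat_lit 336) (nat_lit 0) (XT.nd (nat_lit 188) (nat_lit 168) (nat_lit 0) (XT.nd (nat_lit 94) (nat_lit 84) (nat_lit 0) (XT.lf (nat_lit 0) (nat_lit 8676727104) (nat_lit 168) (nat_lit 23440557002) (nat_lit 84) (nat_lit 16571099654) (nat_lit 25) (nat_lit 5) (nat_lit 27) (nat_lit 5) (nat_lit 26) (nat_lit 4) (nat_lit 317) (nat_lit 252) (nat_lit 151)) (XT.lf (nat_lit 0) (nat_lit 8751748942) (nat_lit 84) (nat_lit 15635528463) (nat_lit 168) (nat_lit 25872812195) (nat_lit 24) (nat_lit 5) (nat_lit 25) (nat_lit 5) (nat_lit 26) (nat_lit 4) (nat_lit 318) (nat_lit 252) (nat_lit 150))) (XT.nd (nat_lit 94) (nat_lit 168) (nat_lit 0) (XT.lf (nat_lit 0) (nat_lit 41301007351) (nat_lit 168) (nat_lit 8578730952) (nat_lit 0) (nat_lit 2009759823) (nat_lit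 24) (nat_lit 5) (nat_lit 26) (nat_lit 4) (nat_lit 24) (nat_lit 4) (nat_lit 319) (nat_lit 252) (nat_lit 149)) (XT.lf (nat_lit 0) (nat_lit 5955907099) (nat_lit 168) (nat_lit 27094010005) (nat_lit 84) (nat_lit 20512666843) (nat_lit 22) (nat_lit 5) (nat_lit 24) (nat_lit 5) (nat_lit 23) (nat_lit 4) (nat_lit 320) (nat_lit 252) (nat_lit 148)))) (XT.nd (nat_lit 188) (nat_lit 252) (nat_lit 0) (XT.nd (nat_lit 94) (nat_lit 0) (nat_lit 0) (XT.lf (nat_lit 0) (nat_lit 8322417434) (nat_lit 84) (nat_lit 14915543483) (nat_lit 168) (nat_lit 32059370113) (nat_lit 21) (nat_lit 5) (nat_lit 22) (nat_lit 5) (nat_lit 23) (nat_lit 4) (nat_lit 321) (nat_lit 252) (nat_lit 147)) (XT.lf (nat_lit 0) (nat_lit 41903613755) (nat_lit 168) (nat_lit 10739540994) (nat_lit 0) (nat_lit 4449685902) (nat_lit 21) (nat_lit 5) (nat_lit 23) (nat_lit 4) (nat_lit 21) (nat_lit 4) (nat_lit 322) (nat_lit 252) (nat_lit 146)))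 (XT.nd (nat_lit 94) (nat_lit 84) (nat_lit 0) (XT.lf (nat_lit 0) (nat_lit 3124538595) (nat_lit 168) (nat_lit 31058802232) (nat_lit 84) (nat_lit 24758768638) (nat_lit 19) (nat_lit 5) (nat_lit 21) (nat_lit 5) (nat_lit 20) (nat_lit 4) (nat_lit 323) (nat_lit 252) (nat_lit 145)) (XT.lf (nat_lit 0) (nat_lit 7915760963) (nat_lit 84) (nat_lit 14225488367) (nat_lit 168) (nat_lit 38715256475) (nat_lit 18) (nat_lit 5) (nat_lit 19) (nat_lit 5) (nat_lit 20) (nat_lit 4) (nat_lit 324) (nat_lit 252) (nat_lit 144))))) (XT.nd (nat_lit 376) (nat_lit 336) (nat_lit 0) (XT.nd (nat_lit 188) (nat_lit 84) (nat_lit 0) (XT.nd (nat_lit 94) (nat_lit 168) (nat_lit 0) (XT.lf (nat_lit 0) (nat_lit 42737789213) (nat_lit 168) (nat_lit 13057719917) (nat_lit 0) (nat_lit 7039663151) (nat_lit 18) (nat_lit 5) (nat_lit 20) (nat_lit 4) (nat_lit 18) (nat_lit 4) (nat_lit 325) (nat_lit 252) (nat_lit 143)) (XT.lf (nat_lit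 0) (nat_lit 163908762) (nat_lit 168) (nat_lit 35370486977) (nat_lit 84) (nat_lit 29344056332) (nat_lit 16) (nat_lit 5) (nat_lit 18) (nat_lit 5) (nat_lit 17) (nat_lit 4) (nat_lit 326) (nat_lit 252) (nat_lit 142))) (XT.nd (nat_lit 94) (nat_lit 0) (nat_lit 0) (XT.lf (nat_lit 0) (nat_lit 7530304271) (nat_lit 84) (nat_lit 13564710037) (nat_lit 168) (nat_lit 45895800629) (nat_lit 15) (nat_lit 5) (nat_lit 16) (nat_lit 5) (nat_lit 17) (nat_lit 4) (nat_lit 327) (nat_lit 252) (nat_lit 141)) (XT.lf (nat_lit 0) (nat_lit 43819731741) (nat_lit 168) (nat_lit 15552999078) (nat_lit 0) (nat_lit 9798712297) (nat_lit 15) (nat_lit 5) (nat_lit 17) (nat_lit 4) (nat_lit 15) (nat_lit 4) (nat_lit 328) (nat_lit 252) (nat_lit 140)))) (XT.nd (nat_lit 188) (nat_lit 84) (nat_lit 0) (XT.nd (nat_lit 94) (nat_lit 168) (nat_lit 0) (XT.lf (nat_lit 0) (nat_lit 31310527363) (nat_lit 84) (nat_lit 37071703356)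 (nat_lit 84) (nat_lit 3043794701) (nat_lit 14) (nat_lit 4) (nat_lit 15) (nat_lit 5) (nat_lit 15) (nat_lit 4) (nat_lit 329) (nat_lit 252) (nat_lit 139)) (XT.lf (nat_lit 0) (nat_lit 7164712471) (nat_lit 84) (nat_lit 12932449615) (nat_lit 168) (nat_lit 53661769878) (nat_lit 12) (nat_lit 5) (nat_lit 13) (nat_lit 5) (nat_lit 14) (nat_lit 4) (nat_lit 330) (nat_lit 252) (nat_lit 138))) (XT.nd (nat_lit 94) (nat_lit 84) (nat_lit 0) (XT.lf (nat_lit 0) (nat_lit 45167561438) (nat_lit 168) (nat_lit 18246863664) (nat_lit 0) (nat_lit 12747829510) (nat_lit 12) (nat_lit 5) (nat_lit 14) (nat_lit 4) (nat_lit 12) (nat_lit 4) (nat_lit 331) (nat_lit 252) (nat_lit 137)) (XT.lf (nat_lit 0) (nat_lit 33355186511) (nat_lit 84) (nat_lit 38859888435) (nat_lit 84) (nat_lit 6434488737) (nat_lit 11) (nat_lit 4) (nat_lit 12) (nat_lit 5) (nat_lit 12) (nat_lit 4) (nat_lit 332) (nat_lit 252) (nat_lit 136))))))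 (XT.nd (nat_lit 752) (nat_lit 252) (nat_lit 0) (XT.nd (nat_lit 376) (nat_lit 252) (nat_lit 0) (XT.nd (nat_lit 188) (nat_lit 252) (nat_lit 0) (XT.nd (nat_lit 94) (nat_lit 0) (nat_lit 0) (XT.lf (nat_lit 0) (nat_lit 6817771929) (nat_lit 84) (nat_lit 12327871730) (nat_lit 168) (nat_lit 62079918361) (nat_lit 9) (nat_lit 5) (nat_lit 10) (nat_lit 5) (nat_lit 11) (nat_lit 4) (nat_lit 333) (nat_lit 252) (nat_lit 135)) (XT.lf (nat_lit 0) (nat_lit 46801522258) (nat_lit 168) (nat_lit 21162762473) (nat_lit 0) (nat_lit 15910152344) (nat_lit 9) (nat_lit 5) (nat_lit 11) (nat_lit 4) (nat_lit 9) (nat_lit 4) (nat_lit 334) (nat_lit 252) (nat_lit 134))) (XT.nd (nat_lit 94) (nat_lit 168) (nat_lit 0) (XT.lf (nat_lit 0) (nat_lit 35666577012) (nat_lit 84) (nat_lit 40923850030) (nat_lit 84) (nat_lit 10027817227) (nat_lit 8) (nat_lit 4) (nat_lit 9) (nat_lit 5) (nat_lit 9) (nat_lit 4) (nat_lit 335)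 (nat_lit 252) (nat_lit 133)) (XT.lf (nat_lit 0) (nat_lit 6488374266) (nat_lit 84) (nat_lit 11750088131) (nat_lit 168) (nat_lit 71223596079) (nat_lit 6) (nat_lit 5) (nat_lit 7) (nat_lit 5) (nat_lit 8) (nat_lit 4) (nat_lit 336) (nat_lit 252) (nat_lit 132)))) (XT.nd (nat_lit 188) (nat_lit 168) (nat_lit 0) (XT.nd (nat_lit 94) (nat_lit 84) (nat_lit 0) (XT.lf (nat_lit 0) (nat_lit 48744201185) (nat_lit 168) (nat_lit 24326334723) (nat_lit 0) (nat_lit 19311150683) (nat_lit 6) (nat_lit 5) (nat_lit 8) (nat_lit 4) (nat_lit 6) (nat_lit 4) (nat_lit 337) (nat_lit 252) (nat_lit 131)) (XT.lf (nat_lit 0) (nat_lit 38269017000) (nat_lit 84) (nat_lit 43288037210) (nat_lit 84) (nat_lit 13851150538) (nat_lit 5) (nat_lit 4) (nat_lit 6) (nat_lit 5) (nat_lit 6) (nat_lit 4) (nat_lit 338) (nat_lit 252) (nat_lit 130))) (XT.nd (nat_lit 94) (nat_lit 0) (nat_lit 0) (XT.lf (nat_lit 0) (nat_lit 6175502926)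 (nat_lit 84) (nat_lit 11198176631) (nat_lit 168) (nat_lit 81173423424) (nat_lit 3) (nat_lit 5) (nat_lit 4) (nat_lit 5) (nat_lit 5) (nat_lit 4) (nat_lit 339) (nat_lit 252) (nat_lit 129)) (XT.lf (nat_lit 0) (nat_lit 51020767289) (nat_lit 168) (nat_lit 27765656373) (nat_lit 0) (nat_lit 22978843779) (nat_lit 3) (nat_lit 5) (nat_lit 5) (nat_lit 4) (nat_lit 3) (nat_lit 4) (nat_lit 340) (nat_lit 252) (nat_lit 128))))) (XT.nd (nat_lit 376) (nat_lit 0) (nat_lit 0) (XT.nd (nat_lit 188) (nat_lit 0) (nat_lit 0) (XT.nd (nat_lit 94) (nat_lit 168) (nat_lit 0) (XT.lf (nat_lit 0) (nat_lit 41189514342) (nat_lit 84) (nat_lit 45979482963) (nat_lit 84) (nat_lit 17934403426) (nat_lit 2) (nat_lit 4) (nat_lit 3) (nat_lit 5) (nat_lit 3) (nat_lit 4) (nat_lit 341) (nat_lit 252) (nat_lit 127)) (XT.lf (nat_lit 0) (nat_lit 157603646561) (nat_lit 0) (nat_lit 0) (nat_lit 0) (nat_lit 0) (nat_lit 0) (nat_lit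 0) (nat_lit 1) (nat_lit 0) (nat_lit 1) (nat_lit 0) (nat_lit 342) (nat_lit 252) (nat_lit 126))) (XT.nd (nat_lit 94) (nat_lit 0) (nat_lit 0) (XT.lf (nat_lit 0) (nat_lit 165387012005) (nat_lit 0) (nat_lit 0) (nat_lit 0) (nat_lit 0) (nat_lit 0) (nat_lit 0) (nat_lit 1) (nat_lit 0) (nat_lit 1) (nat_lit 0) (nat_lit 343) (nat_lit 252) (nat_lit 125)) (XT.lf (nat_lit 0) (nat_lit 173559564891) (nat_lit 0) (nat_lit 0) (nat_lit 0) (nat_lit 0) (nat_lit 0) (nat_lit 0) (nat_lit 1) (nat_lit 0) (nat_lit 1) (nat_lit 0) (nat_lit 344) (nat_lit 252) (nat_lit 124)))) (XT.nd (nat_lit 36566) (nat_lit 0) (nat_lit 12432) (XT.nd (nat_lit 94) (nat_lit 0) (nat_lit 0) (XT.lf (nat_lit 0) (nat_lit 182140763680) (nat_lit 0) (nat_lit 0) (nat_lit 0) (nat_lit 0) (nat_lit 0) (nat_lit 0) (nat_lit 1) (nat_lit 0) (nat_lit 1) (nat_lit 0) (nat_lit 345) (nat_lit 252) (nat_lit 123)) (XT.lf (nat_lit 0) (nat_lit 191151039796)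 (nat_lit 0) (nat_lit 0) (nat_lit 0) (nat_lit 0) (nat_lit 0) (nat_lit 0) (nat_lit 1) (nat_lit 0) (nat_lit 1) (nat_lit 0) (nat_lit 346) (nat_lit 252) (nat_lit 122))) (XT.nd (nat_lit 94) (nat_lit 0) (nat_lit 0) (XT.lf (nat_lit 0) (nat_lit 2393800889) (nat_lit 756) (nat_lit 901629639) (nat_lit 756) (nat_lit 901629639) (nat_lit 148) (nat_lit 3) (nat_lit 157) (nat_lit 3) (nat_lit 157) (nat_lit 5) (nat_lit 253) (nat_lit 253) (nat_lit 214)) (XT.nd (nat_lit 94) (nat_lit 0) (nat_lit 0) (XT.lf (nat_lit 84) (nat_lit 2472950757) (nat_lit 0) (nat_lit 3521689341) (nat_lit 756) (nat_lit 2554965831) (nat_lit 149) (nat_lit 5) (nat_lit 148) (nat_lit 3) (nat_lit 157) (nat_lit 5) (nat_lit 254) (nat_lit 253) (nat_lit 213)) (XT.lf (nat_lit 84) (nat_lit 6989166550) (nat_lit 0) (nat_lit 235702024) (nat_lit 756) (nat_lit 1489855318) (nat_lit 149) (nat_lit 5) (nat_lit 148) (nat_lit 3) (nat_lit 157)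 (nat_lit 5) (nat_lit 255) (nat_lit 253) (nat_lit 212))))))))
noncomputable def xc121 : XT := (XT.nd (nat_lit 1598) (nat_lit 3024) (nat_lit 0) (XT.nd (nat_lit 752) (nat_lit 2688) (nat_lit 0) (XT.nd (nat_lit 376) (nat_lit 504) (nat_lit 0) (XT.nd (nat_lit 188) (nat_lit 0) (nat_lit 84) (XT.nd (nat_lit 94) (nat_lit 756) (nat_lit 0) (XT.lf (nat_lit 84) (nat_lit 2845619128) (nat_lit 0) (nat_lit 5701594408) (nat_lit 756) (nat_lit 339353963) (nat_lit 150) (nat_lit 5) (nat_lit 149) (nat_lit 5) (nat_lit 158) (nat_lit 5) (nat_lit 256) (nat_lit 253) (nat_lit 211)) (XT.lf (nat_lit 0) (nat_lit 811873783) (nat_lit 756) (nat_lit 1418000646) (nat_lit 840) (nat_lit 6837900524) (nat_lit 140) (nat_lit 5) (nat_lit 149) (nat_lit 5) (nat_lit 150) (nat_lit 5) (nat_lit 257) (nat_lit 253) (nat_lit 210))) (XT.nd (nat_lit 94) (nat_lit 0) (nat_lit 0) (XT.lf (nat_lit 0) (nat_lit 2027820501) (nat_lit 756)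 (nat_lit 5776645735) (nat_lit 840) (nat_lit 1452370279) (nat_lit 141) (nat_lit 5) (nat_lit 150) (nat_lit 5) (nat_lit 151) (nat_lit 5) (nat_lit 258) (nat_lit 253) (nat_lit 209)) (XT.lf (nat_lit 0) (nat_lit 3308512684) (nat_lit 756) (nat_lit 859064245) (nat_lit 840) (nat_lit 5287576820) (nat_lit 141) (nat_lit 5) (nat_lit 150) (nat_lit 5) (nat_lit 151) (nat_lit 5) (nat_lit 259) (nat_lit 253) (nat_lit 208)))) (XT.nd (nat_lit 188) (nat_lit 588) (nat_lit 0) (XT.nd (nat_lit 94) (nat_lit 0) (nat_lit 84) (XT.lf (nat_lit 84) (nat_lit 4406885731) (nat_lit 0) (nat_lit 260857202) (nat_lit 840) (nat_lit 4994918739) (nat_lit 142) (nat_lit 5) (nat_lit 141) (nat_lit 5) (nat_lit 151) (nat_lit 5) (nat_lit 260) (nat_lit 253) (nat_lit 207)) (XT.lf (nat_lit 0) (nat_lit 6117611161) (nat_lit 756) (nat_lit 14846208) (nat_lit 840) (nat_lit 3746953799) (nat_lit 142) (nat_lit 5) (nat_lit 151) (nat_lit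 5) (nat_lit 152) (nat_lit 5) (nat_lit 261) (nat_lit 253) (nat_lit 206))) (XT.nd (nat_lit 94) (nat_lit 672) (nat_lit 0) (XT.lf (nat_lit 84) (nat_lit 5625056062) (nat_lit 0) (nat_lit 2057413517) (nat_lit 840) (nat_lit 2422403720) (nat_lit 143) (nat_lit 5) (nat_lit 142) (nat_lit 5) (nat_lit 152) (nat_lit 5) (nat_lit 262) (nat_lit 253) (nat_lit 205)) (XT.lf (nat_lit 0) (nat_lit 1167813767) (nat_lit 756) (nat_lit 8163240913) (nat_lit 840) (nat_lit 1010279669) (nat_lit 134) (nat_lit 5) (nat_lit 143) (nat_lit 5) (nat_lit 144) (nat_lit 5) (nat_lit 263) (nat_lit 253) (nat_lit 204))))) (XT.nd (nat_lit 376) (nat_lit 1260) (nat_lit 0) (XT.nd (nat_lit 188) (nat_lit 504) (nat_lit 0) (XT.nd (nat_lit 94) (nat_lit 840) (nat_lit 0) (XT.lf (nat_lit 0) (nat_lit 521372318) (nat_lit 840) (nat_lit 3416458085) (nat_lit 84) (nat_lit 6648217079) (nat_lit 133) (nat_lit 5) (nat_lit 143) (nat_lit 5)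 (nat_lit 134) (nat_lit 5) (nat_lit 264) (nat_lit 253) (nat_lit 203)) (XT.lf (nat_lit 0) (nat_lit 2101391168) (nat_lit 924) (nat_lit 8193851089) (nat_lit 84) (nat_lit 546639104) (nat_lit 123) (nat_lit 5) (nat_lit 134) (nat_lit 5) (nat_lit 124) (nat_lit 5) (nat_lit 265) (nat_lit 253) (nat_lit 202))) (XT.nd (nat_lit 94) (nat_lit 504) (nat_lit 0) (XT.lf (nat_lit 0) (nat_lit 3840781403) (nat_lit 924) (nat_lit 2079995976) (nat_lit 84) (nat_lit 5185711031) (nat_lit 123) (nat_lit 5) (nat_lit 134) (nat_lit 5) (nat_lit 124) (nat_lit 5) (nat_lit 266) (nat_lit 253) (nat_lit 201)) (XT.lf (nat_lit 0) (nat_lit 4442468475) (nat_lit 504) (nat_lit 1253087259) (nat_lit 588) (nat_lit 5687349349) (nat_lit 117) (nat_lit 5) (nat_lit 123) (nat_lit 5) (nat_lit 124) (nat_lit 5) (nat_lit 267) (nat_lit 253) (nat_lit 200)))) (XT.nd (nat_lit 188) (nat_lit 840) (nat_lit 0) (XT.nd (nat_lit 94) (nat_lit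 420) (nat_lit 0) (XT.lf (nat_lit 0) (nat_lit 7696244035) (nat_lit 588) (nat_lit 406276855) (nat_lit 84) (nat_lit 3567962937) (nat_lit 117) (nat_lit 5) (nat_lit 124) (nat_lit 5) (nat_lit 118) (nat_lit 5) (nat_lit 268) (nat_lit 253) (nat_lit 199)) (XT.lf (nat_lit 0) (nat_lit 6606810833) (nat_lit 420) (nat_lit 3276150819) (nat_lit 504) (nat_lit 2085180110) (nat_lit 112) (nat_lit 5) (nat_lit 117) (nat_lit 5) (nat_lit 118) (nat_lit 5) (nat_lit 269) (nat_lit 253) (nat_lit 198))) (XT.nd (nat_lit 94) (nat_lit 420) (nat_lit 0) (XT.lf (nat_lit 0) (nat_lit 1690468178) (nat_lit 420) (nat_lit 10513381935) (nat_lit 504) (nat_lit 75590734) (nat_lit 107) (nat_lit 5) (nat_lit 112) (nat_lit 5) (nat_lit 113) (nat_lit 5) (nat_lit 270) (nat_lit 253) (nat_lit 197)) (XT.nd (nat_lit 94) (nat_lit 336) (nat_lit 0) (XT.lf (nat_lit 0) (nat_lit 2079378909) (nat_lit 504) (nat_lit 3448153672) (nat_lit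 84) (nat_lit 7071683269) (nat_lit 106) (nat_lit 5) (nat_lit 112) (nat_lit 5) (nat_lit 107) (nat_lit 5) (nat_lit 271) (nat_lit 253) (nat_lit 196)) (XT.lf (nat_lit 0) (nat_lit 4142560213) (nat_lit 336) (nat_lit 227410796) (nat_lit 420) (nat_lit 8563425919) (nat_lit 102) (nat_lit 5) (nat_lit 106) (nat_lit 5) (nat_lit 107) (nat_lit 5) (nat_lit 272) (nat_lit 253) (nat_lit 195))))))) (XT.nd (nat_lit 752) (nat_lit 1344) (nat_lit 0) (XT.nd (nat_lit 376) (nat_lit 924) (nat_lit 0) (XT.nd (nat_lit 188) (nat_lit 420) (nat_lit 0) (XT.nd (nat_lit 94) (nat_lit 336) (nat_lit 0) (XT.lf (nat_lit 0) (nat_lit 6884487863) (nat_lit 420) (nat_lit 1172601673) (nat_lit 84) (nat_lit 5221727767) (nat_lit 102) (nat_lit 5) (nat_lit 107) (nat_lit 5) (nat_lit 103) (nat_lit 5) (nat_lit 273) (nat_lit 253) (nat_lit 194)) (XT.lf (nat_lit 0) (nat_lit 7009584424) (nat_lit 336) (nat_lit 2596603878) (nat_lit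 420) (nat_lit 4031247507) (nat_lit 98) (nat_lit 5) (nat_lit 102) (nat_lit 5) (nat_lit 103) (nat_lit 5) (nat_lit 274) (nat_lit 253) (nat_lit 193))) (XT.nd (nat_lit 94) (nat_lit 84) (nat_lit 0) (XT.lf (nat_lit 0) (nat_lit 1591825514) (nat_lit 336) (nat_lit 10935287432) (nat_lit 420) (nat_lit 1483715335) (nat_lit 94) (nat_lit 5) (nat_lit 98) (nat_lit 5) (nat_lit 99) (nat_lit 5) (nat_lit 275) (nat_lit 253) (nat_lit 192)) (XT.lf (nat_lit 0) (nat_lit 1279235686) (nat_lit 420) (nat_lit 4046500348) (nat_lit 84) (nat_lit 9069916056) (nat_lit 93) (nat_lit 5) (nat_lit 98) (nat_lit 5) (nat_lit 94) (nat_lit 5) (nat_lit 276) (nat_lit 253) (nat_lit 191)))) (XT.nd (nat_lit 188) (nat_lit 588) (nat_lit 0) (XT.nd (nat_lit 94) (nat_lit 0) (nat_lit 0) (XT.lf (nat_lit 0) (nat_lit 4187299341) (nat_lit 420) (nat_lit 9968302078) (nat_lit 84) (nat_lit 640058128) (nat_lit 89) (nat_lit 5) (nat_lit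 94) (nat_lit 5) (nat_lit 90) (nat_lit 5) (nat_lit 277) (nat_lit 253) (nat_lit 190)) (XT.lf (nat_lit 0) (nat_lit 7369380182) (nat_lit 420) (nat_lit 1052924970) (nat_lit 84) (nat_lit 6786931524) (nat_lit 89) (nat_lit 5) (nat_lit 94) (nat_lit 5) (nat_lit 90) (nat_lit 5) (nat_lit 278) (nat_lit 253) (nat_lit 189))) (XT.nd (nat_lit 94) (nat_lit 336) (nat_lit 0) (XT.lf (nat_lit 0) (nat_lit 8545888490) (nat_lit 252) (nat_lit 2271105633) (nat_lit 336) (nat_lit 4821177086) (nat_lit 86) (nat_lit 5) (nat_lit 89) (nat_lit 5) (nat_lit 90) (nat_lit 5) (nat_lit 279) (nat_lit 253) (nat_lit 188)) (XT.lf (nat_lit 0) (nat_lit 2553131398) (nat_lit 336) (nat_lit 11980821857) (nat_lit 420) (nat_lit 1549750990) (nat_lit 82) (nat_lit 5) (nat_lit 86) (nat_lit 5) (nat_lit 87) (nat_lit 5) (nat_lit 280) (nat_lit 253) (nat_lit 187))))) (XT.nd (nat_lit 376) (nat_lit 756) (nat_lit 0) (XT.nd (nat_lit 188)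 (nat_lit 252) (nat_lit 0) (XT.nd (nat_lit 94) (nat_lit 252) (nat_lit 0) (XT.lf (nat_lit 0) (nat_lit 1958092065) (nat_lit 420) (nat_lit 3723822674) (nat_lit 84) (nat_lit 10861468228) (nat_lit 81) (nat_lit 5) (nat_lit 86) (nat_lit 5) (nat_lit 82) (nat_lit 5) (nat_lit 281) (nat_lit 253) (nat_lit 186)) (XT.lf (nat_lit 0) (nat_lit 5685941027) (nat_lit 336) (nat_lit 10309069183) (nat_lit 84) (nat_lit 1024930350) (nat_lit 78) (nat_lit 5) (nat_lit 82) (nat_lit 5) (nat_lit 79) (nat_lit 5) (nat_lit 282) (nat_lit 253) (nat_lit 185))) (XT.nd (nat_lit 94) (nat_lit 0) (nat_lit 0) (XT.lf (nat_lit 0) (nat_lit 154717746) (nat_lit 252) (nat_lit 9580731615) (nat_lit 336) (nat_lit 7778113325) (nat_lit 75) (nat_lit 5) (nat_lit 78) (nat_lit 5) (nat_lit 79) (nat_lit 5) (nat_lit 283) (nat_lit 253) (nat_lit 184)) (XT.lf (nat_lit 0) (nat_lit 11464709383) (nat_lit 252) (nat_lit 2673536243) (nat_lit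 336) (nat_lit 3886079667) (nat_lit 75) (nat_lit 5) (nat_lit 78) (nat_lit 5) (nat_lit 79) (nat_lit 5) (nat_lit 284) (nat_lit 253) (nat_lit 183)))) (XT.nd (nat_lit 188) (nat_lit 420) (nat_lit 0) (XT.nd (nat_lit 94) (nat_lit 0) (nat_lit 0) (XT.lf (nat_lit 0) (nat_lit 320237467) (nat_lit 336) (nat_lit 13731162428) (nat_lit 84) (nat_lit 4502764533) (nat_lit 71) (nat_lit 5) (nat_lit 75) (nat_lit 5) (nat_lit 72) (nat_lit 5) (nat_lit 285) (nat_lit 253) (nat_lit 182)) (XT.lf (nat_lit 0) (nat_lit 4740399087) (nat_lit 336) (nat_lit 2246204756) (nat_lit 84) (nat_lit 12114000045) (nat_lit 71) (nat_lit 5) (nat_lit 75) (nat_lit 5) (nat_lit 72) (nat_lit 5) (nat_lit 286) (nat_lit 253) (nat_lit 181))) (XT.nd (nat_lit 94) (nat_lit 168) (nat_lit 0) (XT.lf (nat_lit 0) (nat_lit 9526924706) (nat_lit 336) (nat_lit 9573077668) (nat_lit 84) (nat_lit 567095152) (nat_lit 68) (nat_lit 5) (nat_lit 72)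 (nat_lit 5) (nat_lit 69) (nat_lit 5) (nat_lit 287) (nat_lit 253) (nat_lit 180)) (XT.nd (nat_lit 94) (nat_lit 0) (nat_lit 0) (XT.lf (nat_lit 0) (nat_lit 2810930993) (nat_lit 168) (nat_lit 11917741448) (nat_lit 252) (nat_lit 5524448613) (nat_lit 66) (nat_lit 5) (nat_lit 68) (nat_lit 5) (nat_lit 69) (nat_lit 5) (nat_lit 288) (nat_lit 253) (nat_lit 179)) (XT.lf (nat_lit 0) (nat_lit 16113926361) (nat_lit 168) (nat_lit 4218017078) (nat_lit 252) (nat_lit 529430526) (nat_lit 66) (nat_lit 5) (nat_lit 68) (nat_lit 5) (nat_lit 69) (nat_lit 5) (nat_lit 289) (nat_lit 253) (nat_lit 178))))))))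
noncomputable def xc122 : XT := (XT.nd (nat_lit 1598) (nat_lit 1596) (nat_lit 0) (XT.nd (nat_lit 752) (nat_lit 1008) (nat_lit 0) (XT.nd (nat_lit 376) (nat_lit 504) (nat_lit 0) (XT.nd (nat_lit 188) (nat_lit 168) (nat_lit 0) (XT.nd (nat_lit 94) (nat_lit 168) (nat_lit 0) (XT.lf (nat_lit 0) (nat_lit 4744749197) (nat_lit 336) (nat_lit 12797149241) (nat_lit 84) (nat_lit 3945443549) (nat_lit 62) (nat_lit 5) (nat_lit 66) (nat_lit 5) (nat_lit 63) (nat_lit 5) (nat_lit 290) (nat_lit 253) (nat_lit 177)) (XT.lf (nat_lit 0) (nat_lit 736405551) (nat_lit 168) (nat_lit 9671062638) (nat_lit 252) (nat_lit 11729575132) (nat_lit 60) (nat_lit 5) (nat_lit 62) (nat_lit 5) (nat_lit 63) (nat_lit 5) (nat_lit 291) (nat_lit 253) (nat_lit 176))) (XT.nd (nat_lit 94) (nat_lit 168) (nat_lit 0) (XT.lf (nat_lit 0) (nat_lit 15359475439) (nat_lit 168) (nat_lit 1191281703) (nat_lit 252) (nat_lit 6258600880)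 (nat_lit 60) (nat_lit 5) (nat_lit 62) (nat_lit 5) (nat_lit 63) (nat_lit 5) (nat_lit 292) (nat_lit 253) (nat_lit 175)) (XT.lf (nat_lit 0) (nat_lit 7280321581) (nat_lit 168) (nat_lit 15936414701) (nat_lit 252) (nat_lit 287775887) (nat_lit 58) (nat_lit 5) (nat_lit 60) (nat_lit 5) (nat_lit 61) (nat_lit 5) (nat_lit 293) (nat_lit 253) (nat_lit 174)))) (XT.nd (nat_lit 188) (nat_lit 252) (nat_lit 0) (XT.nd (nat_lit 94) (nat_lit 168) (nat_lit 0) (XT.lf (nat_lit 0) (nat_lit 5919467635) (nat_lit 252) (nat_lit 1368229172) (nat_lit 84) (nat_lit 16935591472) (nat_lit 57) (nat_lit 5) (nat_lit 60) (nat_lit 5) (nat_lit 58) (nat_lit 5) (nat_lit 294) (nat_lit 253) (nat_lit 173)) (XT.lf (nat_lit 0) (nat_lit 12670464307) (nat_lit 252) (nat_lit 10332971152) (nat_lit 84) (nat_lit 1962178746) (nat_lit 55) (nat_lit 5) (nat_lit 58) (nat_lit 5) (nat_lit 56) (nat_lit 5) (nat_lit 295) (nat_lit 253)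 (nat_lit 172))) (XT.nd (nat_lit 94) (nat_lit 84) (nat_lit 0) (XT.lf (nat_lit 0) (nat_lit 5772527714) (nat_lit 168) (nat_lit 14202272129) (nat_lit 252) (nat_lit 5759467133) (nat_lit 53) (nat_lit 5) (nat_lit 55) (nat_lit 5) (nat_lit 56) (nat_lit 5) (nat_lit 296) (nat_lit 253) (nat_lit 171)) (XT.lf (nat_lit 0) (nat_lit 1228295618) (nat_lit 252) (nat_lit 3540289543) (nat_lit 84) (nat_lit 21763876242) (nat_lit 52) (nat_lit 5) (nat_lit 55) (nat_lit 5) (nat_lit 53) (nat_lit 5) (nat_lit 297) (nat_lit 253) (nat_lit 170))))) (XT.nd (nat_lit 376) (nat_lit 504) (nat_lit 0) (XT.nd (nat_lit 188) (nat_lit 168) (nat_lit 0) (XT.nd (nat_lit 94) (nat_lit 168) (nat_lit 0) (XT.lf (nat_lit 0) (nat_lit 8659628570) (nat_lit 252) (nat_lit 13412276697) (nat_lit 84) (nat_lit 5279552514) (nat_lit 50) (nat_lit 5) (nat_lit 53) (nat_lit 5) (nat_lit 51) (nat_lit 5) (nat_lit 298) (nat_lit 253) (nat_lit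 169)) (XT.lf (nat_lit 0) (nat_lit 4235132256) (nat_lit 168) (nat_lit 12416356402) (nat_lit 252) (nat_lit 11550467296) (nat_lit 48) (nat_lit 5) (nat_lit 50) (nat_lit 5) (nat_lit 51) (nat_lit 5) (nat_lit 299) (nat_lit 253) (nat_lit 168))) (XT.nd (nat_lit 94) (nat_lit 168) (nat_lit 0) (XT.lf (nat_lit 0) (nat_lit 23202621600) (nat_lit 168) (nat_lit 2051527674) (nat_lit 252) (nat_lit 3830269385) (nat_lit 48) (nat_lit 5) (nat_lit 50) (nat_lit 5) (nat_lit 51) (nat_lit 5) (nat_lit 300) (nat_lit 253) (nat_lit 167)) (XT.lf (nat_lit 0) (nat_lit 4475790754) (nat_lit 168) (nat_lit 16696284677) (nat_lit 84) (nat_lit 8818755645) (nat_lit 46) (nat_lit 5) (nat_lit 48) (nat_lit 5) (nat_lit 47) (nat_lit 5) (nat_lit 301) (nat_lit 253) (nat_lit 166)))) (XT.nd (nat_lit 188) (nat_lit 336) (nat_lit 0) (XT.nd (nat_lit 94) (nat_lit 0) (nat_lit 0) (XT.lf (nat_lit 0) (nat_lit 2656028490) (nat_lit 168)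 (nat_lit 10573458560) (nat_lit 252) (nat_lit 17701884733) (nat_lit 44) (nat_lit 5) (nat_lit 46) (nat_lit 5) (nat_lit 47) (nat_lit 5) (nat_lit 302) (nat_lit 253) (nat_lit 165)) (XT.lf (nat_lit 0) (nat_lit 22701766012) (nat_lit 252) (nat_lit 8389864816) (nat_lit 84) (nat_lit 813263806) (nat_lit 44) (nat_lit 5) (nat_lit 47) (nat_lit 5) (nat_lit 45) (nat_lit 4) (nat_lit 303) (nat_lit 253) (nat_lit 164))) (XT.nd (nat_lit 94) (nat_lit 168) (nat_lit 0) (XT.lf (nat_lit 0) (nat_lit 92490796) (nat_lit 168) (nat_lit 20213870452) (nat_lit 84) (nat_lit 12602801424) (nat_lit 42) (nat_lit 5) (nat_lit 44) (nat_lit 5) (nat_lit 43) (nat_lit 5) (nat_lit 304) (nat_lit 253) (nat_lit 163)) (XT.nd (nat_lit 94) (nat_lit 0) (nat_lit 0) (XT.lf (nat_lit 0) (nat_lit 1022854432) (nat_lit 168) (nat_lit 8666750144) (nat_lit 252) (nat_lit 24259196047) (nat_lit 40) (nat_lit 5) (nat_lit 42) (nat_lit 5) (nat_lit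 43) (nat_lit 5) (nat_lit 305) (nat_lit 253) (nat_lit 162)) (XT.lf (nat_lit 0) (nat_lit 20155734849) (nat_lit 252) (nat_lit 11087451514) (nat_lit 84) (nat_lit 3777776066) (nat_lit 40) (nat_lit 5) (nat_lit 43) (nat_lit 5) (nat_lit 41) (nat_lit 4) (nat_lit 306) (nat_lit 253) (nat_lit 161))))))) (XT.nd (nat_lit 752) (nat_lit 840) (nat_lit 0) (XT.nd (nat_lit 376) (nat_lit 336) (nat_lit 0) (XT.nd (nat_lit 188) (nat_lit 252) (nat_lit 0) (XT.nd (nat_lit 94) (nat_lit 84) (nat_lit 0) (XT.lf (nat_lit 0) (nat_lit 12061967263) (nat_lit 84) (nat_lit 19399999635) (nat_lit 168) (nat_lit 4668925665) (nat_lit 39) (nat_lit 5) (nat_lit 40) (nat_lit 5) (nat_lit 41) (nat_lit 4) (nat_lit 307) (nat_lit 253) (nat_lit 160)) (XT.lf (nat_lit 0) (nat_lit 6021254754) (nat_lit 168) (nat_lit 655504492) (nat_lit 84) (nat_lit 30605982521) (nat_lit 38) (nat_lit 5) (nat_lit 40) (nat_lit 5) (nat_lit 39) (nat_lit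 5) (nat_lit 308) (nat_lit 253) (nat_lit 159))) (XT.nd (nat_lit 94) (nat_lit 84) (nat_lit 0) (XT.lf (nat_lit 0) (nat_lit 17572170429) (nat_lit 252) (nat_lit 13965423990) (nat_lit 84) (nat_lit 6926605389) (nat_lit 36) (nat_lit 5) (nat_lit 39) (nat_lit 5) (nat_lit 37) (nat_lit 4) (nat_lit 309) (nat_lit 253) (nat_lit 158)) (XT.lf (nat_lit 0) (nat_lit 11462677245) (nat_lit 84) (nat_lit 18524825157) (nat_lit 168) (nat_lit 9702884821) (nat_lit 35) (nat_lit 5) (nat_lit 36) (nat_lit 5) (nat_lit 37) (nat_lit 4) (nat_lit 310) (nat_lit 253) (nat_lit 157)))) (XT.nd (nat_lit 188) (nat_lit 84) (nat_lit 0) (XT.nd (nat_lit 94) (nat_lit 168) (nat_lit 0) (XT.lf (nat_lit 0) (nat_lit 2207834683) (nat_lit 168) (nat_lit 2378795912) (nat_lit 84) (nat_lit 36378276774) (nat_lit 34) (nat_lit 5) (nat_lit 36) (nat_lit 5) (nat_lit 35) (nat_lit 5) (nat_lit 311) (nat_lit 253) (nat_lit 156)) (XT.lf (nat_lit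 0) (nat_lit 14938112522) (nat_lit 252) (nat_lit 17048375467) (nat_lit 84) (nat_lit 10281207203) (nat_lit 32) (nat_lit 5) (nat_lit 35) (nat_lit 5) (nat_lit 33) (nat_lit 4) (nat_lit 312) (nat_lit 253) (nat_lit 155))) (XT.nd (nat_lit 94) (nat_lit 0) (nat_lit 0) (XT.lf (nat_lit 0) (nat_lit 10896341439) (nat_lit 84) (nat_lit 17682702785) (nat_lit 168) (nat_lit 15042871184) (nat_lit 31) (nat_lit 5) (nat_lit 32) (nat_lit 5) (nat_lit 33) (nat_lit 4) (nat_lit 313) (nat_lit 253) (nat_lit 154)) (XT.lf (nat_lit 0) (nat_lit 40807666381) (nat_lit 84) (nat_lit 2371184705) (nat_lit 168) (nat_lit 1851154119) (nat_lit 31) (nat_lit 5) (nat_lit 32) (nat_lit 5) (nat_lit 33) (nat_lit 4) (nat_lit 314) (nat_lit 253) (nat_lit 153))))) (XT.nd (nat_lit 376) (nat_lit 336) (nat_lit 0) (XT.nd (nat_lit 188) (nat_lit 168) (nat_lit 0) (XT.nd (nat_lit 94) (nat_lit 84) (nat_lit 0) (XT.lf (nat_lit 0) (nat_lit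 12239435754) (nat_lit 252) (nat_lit 20362858644) (nat_lit 84) (nat_lit 13865668964) (nat_lit 28) (nat_lit 5) (nat_lit 31) (nat_lit 5) (nat_lit 29) (nat_lit 4) (nat_lit 315) (nat_lit 253) (nat_lit 152)) (XT.lf (nat_lit 0) (nat_lit 10360607546) (nat_lit 84) (nat_lit 16873587421) (nat_lit 168) (nat_lit 20729014583) (nat_lit 27) (nat_lit 5) (nat_lit 28) (nat_lit 5) (nat_lit 29) (nat_lit 4) (nat_lit 316) (nat_lit 253) (nat_lit 151))) (XT.nd (nat_lit 94) (nat_lit 168) (nat_lit 0) (XT.lf (nat_lit 0) (nat_lit 43305680165) (nat_lit 84) (nat_lit 6617680) (nat_lit 168) (nat_lit 6204239916) (nat_lit 27) (nat_lit 5) (nat_lit 28) (nat_lit 5) (nat_lit 29) (nat_lit 4) (nat_lit 317) (nat_lit 253) (nat_lit 150)) (XT.lf (nat_lit 0) (nat_lit 9460770391) (nat_lit 168) (nat_lit 23937661263) (nat_lit 84) (nat_lit 17706860948) (nat_lit 25) (nat_lit 5) (nat_lit 27) (nat_lit 5) (nat_lit 26) (nat_lit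 4) (nat_lit 318) (nat_lit 253) (nat_lit 149)))) (XT.nd (nat_lit 188) (nat_lit 252) (nat_lit 0) (XT.nd (nat_lit 94) (nat_lit 0) (nat_lit 0) (XT.lf (nat_lit 0) (nat_lit 9853374114) (nat_lit 84) (nat_lit 16097165062) (nat_lit 168) (nat_lit 26805360009) (nat_lit 24) (nat_lit 5) (nat_lit 25) (nat_lit 5) (nat_lit 26) (nat_lit 4) (nat_lit 319) (nat_lit 253) (nat_lit 148)) (XT.lf (nat_lit 0) (nat_lit 43698339795) (nat_lit 168) (nat_lit 8363634795) (nat_lit 0) (nat_lit 2405384338) (nat_lit 24) (nat_lit 5) (nat_lit 26) (nat_lit 4) (nat_lit 24) (nat_lit 4) (nat_lit 320) (nat_lit 253) (nat_lit 147))) (XT.nd (nat_lit 94) (nat_lit 84) (nat_lit 0) (XT.lf (nat_lit 0) (nat_lit 6585404585) (nat_lit 168) (nat_lit 27804097854) (nat_lit 84) (nat_lit 21834625599) (nat_lit 22) (nat_lit 5) (nat_lit 24) (nat_lit 5) (nat_lit 23) (nat_lit 4) (nat_lit 321) (nat_lit 253) (nat_lit 146)) (XT.nd (nat_lit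 94) (nat_lit 0) (nat_lit 0) (XT.lf (nat_lit 0) (nat_lit 9372753978) (nat_lit 84) (nat_lit 15352913660) (nat_lit 168) (nat_lit 33320239510) (nat_lit 21) (nat_lit 5) (nat_lit 22) (nat_lit 5) (nat_lit 23) (nat_lit 4) (nat_lit 322) (nat_lit 253) (nat_lit 145)) (XT.lf (nat_lit 0) (nat_lit 44313674226) (nat_lit 168) (nat_lit 10661574226) (nat_lit 0) (nat_lit 4956490243) (nat_lit 21) (nat_lit 5) (nat_lit 23) (nat_lit 4) (nat_lit 21) (nat_lit 4) (nat_lit 323) (nat_lit 253) (nat_lit 144))))))))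
noncomputable def xc123 : XT := (XT.nd (nat_lit 1598) (nat_lit 252) (nat_lit 0) (XT.nd (nat_lit 752) (nat_lit 756) (nat_lit 0) (XT.nd (nat_lit 376) (nat_lit 336) (nat_lit 0) (XT.nd (nat_lit 188) (nat_lit 168) (nat_lit 0) (XT.nd (nat_lit 94) (nat_lit 84) (nat_lit 0) (XT.lf (nat_lit 0) (nat_lit 3595168185) (nat_lit 168) (nat_lit 31996321402) (nat_lit 84) (nat_lit 26282005218) (nat_lit 19) (nat_lit 5) (nat_lit 21) (nat_lit 5) (nat_lit 20) (nat_lit 4) (nat_lit 324) (nat_lit 253) (nat_lit 143)) (XT.lf (nat_lit 0) (nat_lit 8917043808) (nat_lit 84) (nat_lit 14640152564) (nat_lit 168) (nat_lit 40326690495) (nat_lit 18) (nat_lit 5) (nat_lit 19) (nat_lit 5) (nat_lit 20) (nat_lit 4) (nat_lit 325) (nat_lit 253) (nat_lit 142))) (XT.nd (nat_lit 94) (nat_lit 168) (nat_lit 0) (XT.lf (nat_lit 0) (nat_lit 45173264857) (nat_lit 168) (nat_lit 13123645809) (nat_lit 0) (nat_lit 7665090919) (nat_lit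 18) (nat_lit 5) (nat_lit 20) (nat_lit 4) (nat_lit 18) (nat_lit 4) (nat_lit 326) (nat_lit 253) (nat_lit 141)) (XT.lf (nat_lit 0) (nat_lit 470297853) (nat_lit 168) (nat_lit 36551658692) (nat_lit 84) (nat_lit 31085508447) (nat_lit 16) (nat_lit 5) (nat_lit 18) (nat_lit 5) (nat_lit 17) (nat_lit 4) (nat_lit 327) (nat_lit 253) (nat_lit 140)))) (XT.nd (nat_lit 188) (nat_lit 252) (nat_lit 0) (XT.nd (nat_lit 94) (nat_lit 0) (nat_lit 0) (XT.lf (nat_lit 0) (nat_lit 8484698689) (nat_lit 84) (nat_lit 13958082604) (nat_lit 168) (nat_lit 47882923578) (nat_lit 15) (nat_lit 5) (nat_lit 16) (nat_lit 5) (nat_lit 17) (nat_lit 4) (nat_lit 328) (nat_lit 253) (nat_lit 139)) (XT.lf (nat_lit 0) (nat_lit 46294017164) (nat_lit 168) (nat_lit 15770570452) (nat_lit 0) (nat_lit 10551262714) (nat_lit 15) (nat_lit 5) (nat_lit 17) (nat_lit 4) (nat_lit 15) (nat_lit 4) (nat_lit 329) (nat_lit 253) (nat_lit 138)))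 (XT.nd (nat_lit 94) (nat_lit 168) (nat_lit 0) (XT.lf (nat_lit 0) (nat_lit 33427098786) (nat_lit 84) (nat_lit 38652655242) (nat_lit 84) (nat_lit 2903652075) (nat_lit 14) (nat_lit 4) (nat_lit 15) (nat_lit 5) (nat_lit 15) (nat_lit 4) (nat_lit 330) (nat_lit 253) (nat_lit 137)) (XT.lf (nat_lit 0) (nat_lit 8074310876) (nat_lit 84) (nat_lit 13305818490) (nat_lit 168) (nat_lit 56052843738) (nat_lit 12) (nat_lit 5) (nat_lit 13) (nat_lit 5) (nat_lit 14) (nat_lit 4) (nat_lit 331) (nat_lit 253) (nat_lit 136))))) (XT.nd (nat_lit 376) (nat_lit 504) (nat_lit 0) (XT.nd (nat_lit 188) (nat_lit 168) (nat_lit 0) (XT.nd (nat_lit 94) (nat_lit 84) (nat_lit 0) (XT.lf (nat_lit 0) (nat_lit 47694868491) (nat_lit 168) (nat_lit 18624919242) (nat_lit 0) (nat_lit 13637133161) (nat_lit 12) (nat_lit 5) (nat_lit 14) (nat_lit 4) (nat_lit 12) (nat_lit 4) (nat_lit 332) (nat_lit 253) (nat_lit 135)) (XT.lf (nat_lit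 0) (nat_lit 35548615900) (nat_lit 84) (nat_lit 40541542816) (nat_lit 84) (nat_lit 6478666651) (nat_lit 11) (nat_lit 4) (nat_lit 12) (nat_lit 5) (nat_lit 12) (nat_lit 4) (nat_lit 333) (nat_lit 253) (nat_lit 134))) (XT.nd (nat_lit 94) (nat_lit 0) (nat_lit 0) (XT.lf (nat_lit 0) (nat_lit 7684591984) (nat_lit 84) (nat_lit 12682414933) (nat_lit 168) (nat_lit 64906629151) (nat_lit 9) (nat_lit 5) (nat_lit 10) (nat_lit 5) (nat_lit 11) (nat_lit 4) (nat_lit 334) (nat_lit 253) (nat_lit 133)) (XT.lf (nat_lit 0) (nat_lit 49396997697) (nat_lit 168) (nat_lit 21711331746) (nat_lit 0) (nat_lit 16947059520) (nat_lit 9) (nat_lit 5) (nat_lit 11) (nat_lit 4) (nat_lit 9) (nat_lit 4) (nat_lit 335) (nat_lit 253) (nat_lit 132)))) (XT.nd (nat_lit 188) (nat_lit 252) (nat_lit 0) (XT.nd (nat_lit 94) (nat_lit 168) (nat_lit 0) (XT.lf (nat_lit 0) (nat_lit 37951255861) (nat_lit 84) (nat_lit 42719757465)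 (nat_lit 84) (nat_lit 10265589910) (nat_lit 8) (nat_lit 4) (nat_lit 9) (nat_lit 5) (nat_lit 9) (nat_lit 4) (nat_lit 336) (nat_lit 253) (nat_lit 131)) (XT.lf (nat_lit 0) (nat_lit 7314358029) (nat_lit 84) (nat_lit 12086887611) (nat_lit 168) (nat_lit 74521372754) (nat_lit 6) (nat_lit 5) (nat_lit 7) (nat_lit 5) (nat_lit 8) (nat_lit 4) (nat_lit 337) (nat_lit 253) (nat_lit 130))) (XT.nd (nat_lit 94) (nat_lit 252) (nat_lit 0) (XT.lf (nat_lit 0) (nat_lit 51424053462) (nat_lit 168) (nat_lit 25056752556) (nat_lit 0) (nat_lit 20507832792) (nat_lit 6) (nat_lit 5) (nat_lit 8) (nat_lit 4) (nat_lit 6) (nat_lit 4) (nat_lit 338) (nat_lit 253) (nat_lit 129)) (XT.nd (nat_lit 94) (nat_lit 168) (nat_lit 0) (XT.lf (nat_lit 0) (nat_lit 40660529674) (nat_lit 84) (nat_lit 45212928957) (nat_lit 84) (nat_lit 14293228768) (nat_lit 5) (nat_lit 4) (nat_lit 6) (nat_lit 5) (nat_lit 6) (nat_lit 4) (nat_lit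 339) (nat_lit 253) (nat_lit 128)) (XT.lf (nat_lit 0) (nat_lit 6962516819) (nat_lit 84) (nat_lit 11518229930) (nat_lit 168) (nat_lit 84981792220) (nat_lit 3) (nat_lit 5) (nat_lit 4) (nat_lit 5) (nat_lit 5) (nat_lit 4) (nat_lit 340) (nat_lit 253) (nat_lit 127))))))) (XT.nd (nat_lit 37130) (nat_lit 0) (nat_lit 11676) (XT.nd (nat_lit 376) (nat_lit 0) (nat_lit 0) (XT.nd (nat_lit 188) (nat_lit 168) (nat_lit 0) (XT.nd (nat_lit 94) (nat_lit 84) (nat_lit 0) (XT.lf (nat_lit 0) (nat_lit 53802403779) (nat_lit 168) (nat_lit 28690688630) (nat_lit 0) (nat_lit 24348908499) (nat_lit 3) (nat_lit 5) (nat_lit 5) (nat_lit 4) (nat_lit 3) (nat_lit 4) (nat_lit 341) (nat_lit 253) (nat_lit 126)) (XT.lf (nat_lit 0) (nat_lit 43704768838) (nat_lit 84) (nat_lit 48049411578) (nat_lit 84) (nat_lit 18593053689) (nat_lit 2) (nat_lit 4) (nat_lit 3) (nat_lit 5) (nat_lit 3) (nat_lit 4) (nat_lit 342) (nat_lit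 253) (nat_lit 125))) (XT.nd (nat_lit 94) (nat_lit 0) (nat_lit 0) (XT.lf (nat_lit 0) (nat_lit 165483239277) (nat_lit 0) (nat_lit 0) (nat_lit 0) (nat_lit 0) (nat_lit 0) (nat_lit 0) (nat_lit 1) (nat_lit 0) (nat_lit 1) (nat_lit 0) (nat_lit 343) (nat_lit 253) (nat_lit 124)) (XT.lf (nat_lit 0) (nat_lit 173655801070) (nat_lit 0) (nat_lit 0) (nat_lit 0) (nat_lit 0) (nat_lit 0) (nat_lit 0) (nat_lit 1) (nat_lit 0) (nat_lit 1) (nat_lit 0) (nat_lit 344) (nat_lit 253) (nat_lit 123)))) (XT.nd (nat_lit 188) (nat_lit 0) (nat_lit 0) (XT.nd (nat_lit 94) (nat_lit 0) (nat_lit 0) (XT.lf (nat_lit 0) (nat_lit 182237008340) (nat_lit 0) (nat_lit 0) (nat_lit 0) (nat_lit 0) (nat_lit 0) (nat_lit 0) (nat_lit 1) (nat_lit 0) (nat_lit 1) (nat_lit 0) (nat_lit 345) (nat_lit 253) (nat_lit 122)) (XT.lf (nat_lit 0) (nat_lit 191247292535) (nat_lit 0) (nat_lit 0) (nat_lit 0) (nat_lit 0) (nat_lit 0) (nat_lit 0)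 (nat_lit 1) (nat_lit 0) (nat_lit 1) (nat_lit 0) (nat_lit 346) (nat_lit 253) (nat_lit 121))) (XT.nd (nat_lit 36472) (nat_lit 0) (nat_lit 12432) (XT.lf (nat_lit 0) (nat_lit 200708106710) (nat_lit 0) (nat_lit 0) (nat_lit 0) (nat_lit 0) (nat_lit 0) (nat_lit 0) (nat_lit 1) (nat_lit 0) (nat_lit 1) (nat_lit 0) (nat_lit 347) (nat_lit 253) (nat_lit 120)) (XT.lf (nat_lit 0) (nat_lit 3545855768) (nat_lit 756) (nat_lit 404719582) (nat_lit 756) (nat_lit 404719582) (nat_lit 148) (nat_lit 3) (nat_lit 157) (nat_lit 3) (nat_lit 157) (nat_lit 5) (nat_lit 254) (nat_lit 254) (nat_lit 212))))) (XT.nd (nat_lit 376) (nat_lit 0) (nat_lit 168) (XT.nd (nat_lit 188) (nat_lit 0) (nat_lit 84) (XT.nd (nat_lit 94) (nat_lit 756) (nat_lit 0) (XT.lf (nat_lit 84) (nat_lit 3663097774) (nat_lit 0) (nat_lit 4614334584) (nat_lit 756) (nat_lit 600500855) (nat_lit 149) (nat_lit 5) (nat_lit 148) (nat_lit 3) (nat_lit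 157) (nat_lit 5) (nat_lit 255) (nat_lit 254) (nat_lit 211)) (XT.lf (nat_lit 0) (nat_lit 405310766) (nat_lit 756) (nat_lit 708227250) (nat_lit 840) (nat_lit 7942163766) (nat_lit 139) (nat_lit 5) (nat_lit 148) (nat_lit 3) (nat_lit 149) (nat_lit 5) (nat_lit 256) (nat_lit 254) (nat_lit 210))) (XT.nd (nat_lit 94) (nat_lit 0) (nat_lit 0) (XT.lf (nat_lit 0) (nat_lit 1487616565) (nat_lit 756) (nat_lit 5171192275) (nat_lit 840) (nat_lit 2580738507) (nat_lit 140) (nat_lit 5) (nat_lit 149) (nat_lit 5) (nat_lit 150) (nat_lit 5) (nat_lit 257) (nat_lit 254) (nat_lit 209)) (XT.lf (nat_lit 0) (nat_lit 2597737671) (nat_lit 756) (nat_lit 378195597) (nat_lit 840) (nat_lit 6457966922) (nat_lit 140) (nat_lit 5) (nat_lit 149) (nat_lit 5) (nat_lit 150) (nat_lit 5) (nat_lit 258) (nat_lit 254) (nat_lit 208)))) (XT.nd (nat_lit 188) (nat_lit 0) (nat_lit 0) (XT.nd (nat_lit 94) (nat_lit 0) (nat_lit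 0) (XT.lf (nat_lit 0) (nat_lit 3799279278) (nat_lit 756) (nat_lit 4879570494) (nat_lit 840) (nat_lit 957325182) (nat_lit 141) (nat_lit 5) (nat_lit 150) (nat_lit 5) (nat_lit 151) (nat_lit 5) (nat_lit 259) (nat_lit 254) (nat_lit 207)) (XT.lf (nat_lit 84) (nat_lit 234937758) (nat_lit 0) (nat_lit 4833209312) (nat_lit 840) (nat_lit 4780053928) (nat_lit 142) (nat_lit 5) (nat_lit 141) (nat_lit 5) (nat_lit 151) (nat_lit 5) (nat_lit 260) (nat_lit 254) (nat_lit 206))) (XT.nd (nat_lit 94) (nat_lit 0) (nat_lit 84) (XT.lf (nat_lit 84) (nat_lit 5738449053) (nat_lit 0) (nat_lit 694830952) (nat_lit 840) (nat_lit 3635907254) (nat_lit 142) (nat_lit 5) (nat_lit 141) (nat_lit 5) (nat_lit 151) (nat_lit 5) (nat_lit 261) (nat_lit 254) (nat_lit 205)) (XT.nd (nat_lit 94) (nat_lit 0) (nat_lit 0) (XT.lf (nat_lit 84) (nat_lit 1159030006) (nat_lit 0) (nat_lit 6735488861) (nat_lit 840) (nat_lit 2405311501)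 (nat_lit 143) (nat_lit 5) (nat_lit 142) (nat_lit 5) (nat_lit 152) (nat_lit 5) (nat_lit 262) (nat_lit 254) (nat_lit 204)) (XT.lf (nat_lit 84) (nat_lit 7025484057) (nat_lit 0) (nat_lit 2442326693) (nat_lit 840) (nat_lit 1072245330) (nat_lit 143) (nat_lit 5) (nat_lit 142) (nat_lit 5) (nat_lit 152) (nat_lit 5) (nat_lit 263) (nat_lit 254) (nat_lit 203))))))))
noncomputable def xc124 : XT := (XT.nd (nat_lit 1598) (nat_lit 2772) (nat_lit 0) (XT.nd (nat_lit 752) (nat_lit 1680) (nat_lit 0) (XT.nd (nat_lit 376) (nat_lit 1428) (nat_lit 0) (XT.nd (nat_lit 188) (nat_lit 840) (nat_lit 0) (XT.nd (nat_lit 94) (nat_lit 0) (nat_lit 0) (XT.lf (nat_lit 0) (nat_lit 343901867) (nat_lit 840) (nat_lit 8395924379) (nat_lit 84) (nat_lit 2050865744) (nat_lit 133) (nat_lit 5) (nat_lit 143) (nat_lit 5) (nat_lit 134) (nat_lit 5) (nat_lit 264) (nat_lit 254) (nat_lit 202)) (XT.lf (nat_lit 0) (nat_lit 1852910933)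 (nat_lit 840) (nat_lit 2425652161) (nat_lit 84) (nat_lit 6771513263) (nat_lit 133) (nat_lit 5) (nat_lit 143) (nat_lit 5) (nat_lit 134) (nat_lit 5) (nat_lit 265) (nat_lit 254) (nat_lit 201))) (XT.nd (nat_lit 94) (nat_lit 0) (nat_lit 0) (XT.lf (nat_lit 0) (nat_lit 3465762945) (nat_lit 924) (nat_lit 7395747035) (nat_lit 84) (nat_lit 459500337) (nat_lit 123) (nat_lit 5) (nat_lit 134) (nat_lit 5) (nat_lit 124) (nat_lit 5) (nat_lit 266) (nat_lit 254) (nat_lit 200)) (XT.lf (nat_lit 0) (nat_lit 5232155920) (nat_lit 924) (nat_lit 1033713291) (nat_lit 84) (nat_lit 5335976847) (nat_lit 123) (nat_lit 5) (nat_lit 134) (nat_lit 5) (nat_lit 124) (nat_lit 5) (nat_lit 267) (nat_lit 254) (nat_lit 199)))) (XT.nd (nat_lit 188) (nat_lit 504) (nat_lit 0) (XT.nd (nat_lit 94) (nat_lit 420) (nat_lit 0) (XT.lf (nat_lit 0) (nat_lit 5796321439) (nat_lit 504) (nat_lit 1343905786) (nat_lit 588) (nat_lit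 4753828426) (nat_lit 117) (nat_lit 5) (nat_lit 123) (nat_lit 5) (nat_lit 124) (nat_lit 5) (nat_lit 268) (nat_lit 254) (nat_lit 198)) (XT.lf (nat_lit 0) (nat_lit 730272041) (nat_lit 420) (nat_lit 8466427677) (nat_lit 504) (nat_lit 3001526125) (nat_lit 112) (nat_lit 5) (nat_lit 117) (nat_lit 5) (nat_lit 118) (nat_lit 5) (nat_lit 269) (nat_lit 254) (nat_lit 197))) (XT.nd (nat_lit 94) (nat_lit 504) (nat_lit 0) (XT.lf (nat_lit 0) (nat_lit 8052358761) (nat_lit 420) (nat_lit 3393821429) (nat_lit 504) (nat_lit 1066915138) (nat_lit 112) (nat_lit 5) (nat_lit 117) (nat_lit 5) (nat_lit 118) (nat_lit 5) (nat_lit 270) (nat_lit 254) (nat_lit 196)) (XT.lf (nat_lit 0) (nat_lit 976955693) (nat_lit 504) (nat_lit 9933236369) (nat_lit 84) (nat_lit 1930593506) (nat_lit 106) (nat_lit 5) (nat_lit 112) (nat_lit 5) (nat_lit 107) (nat_lit 5) (nat_lit 271) (nat_lit 254) (nat_lit 195))))) (XT.nd (nat_lit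 376) (nat_lit 1008) (nat_lit 0) (XT.nd (nat_lit 188) (nat_lit 336) (nat_lit 0) (XT.nd (nat_lit 94) (nat_lit 336) (nat_lit 0) (XT.lf (nat_lit 0) (nat_lit 3186953208) (nat_lit 504) (nat_lit 2492993982) (nat_lit 84) (nat_lit 7499049185) (nat_lit 106) (nat_lit 5) (nat_lit 112) (nat_lit 5) (nat_lit 107) (nat_lit 5) (nat_lit 272) (nat_lit 254) (nat_lit 194)) (XT.lf (nat_lit 0) (nat_lit 5459069026) (nat_lit 336) (nat_lit 102535699) (nat_lit 420) (nat_lit 7969805291) (nat_lit 102) (nat_lit 5) (nat_lit 106) (nat_lit 5) (nat_lit 107) (nat_lit 5) (nat_lit 273) (nat_lit 254) (nat_lit 193))) (XT.nd (nat_lit 94) (nat_lit 336) (nat_lit 0) (XT.lf (nat_lit 0) (nat_lit 8157533534) (nat_lit 420) (nat_lit 130364723) (nat_lit 84) (nat_lit 5608418846) (nat_lit 102) (nat_lit 5) (nat_lit 107) (nat_lit 5) (nat_lit 103) (nat_lit 5) (nat_lit 274) (nat_lit 254) (nat_lit 192)) (XT.lf (nat_lit 0) (nat_lit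 8443174758) (nat_lit 336) (nat_lit 2544825052) (nat_lit 420) (nat_lit 3286232685) (nat_lit 98) (nat_lit 5) (nat_lit 102) (nat_lit 5) (nat_lit 103) (nat_lit 5) (nat_lit 275) (nat_lit 254) (nat_lit 191)))) (XT.nd (nat_lit 188) (nat_lit 588) (nat_lit 0) (XT.nd (nat_lit 94) (nat_lit 84) (nat_lit 0) (XT.lf (nat_lit 0) (nat_lit 2778616762) (nat_lit 336) (nat_lit 11253412153) (nat_lit 420) (nat_lit 635412764) (nat_lit 94) (nat_lit 5) (nat_lit 98) (nat_lit 5) (nat_lit 99) (nat_lit 5) (nat_lit 276) (nat_lit 254) (nat_lit 190)) (XT.lf (nat_lit 0) (nat_lit 2193638375) (nat_lit 420) (nat_lit 3166229784) (nat_lit 84) (nat_lit 9713044490) (nat_lit 93) (nat_lit 5) (nat_lit 98) (nat_lit 5) (nat_lit 94) (nat_lit 5) (nat_lit 277) (nat_lit 254) (nat_lit 189))) (XT.nd (nat_lit 94) (nat_lit 252) (nat_lit 0) (XT.lf (nat_lit 0) (nat_lit 5226962364) (nat_lit 420) (nat_lit 9363978751) (nat_lit 84)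 (nat_lit 902986506) (nat_lit 89) (nat_lit 5) (nat_lit 94) (nat_lit 5) (nat_lit 90) (nat_lit 5) (nat_lit 278) (nat_lit 254) (nat_lit 188)) (XT.nd (nat_lit 94) (nat_lit 252) (nat_lit 0) (XT.lf (nat_lit 0) (nat_lit 8528609244) (nat_lit 420) (nat_lit 55344142) (nat_lit 84) (nat_lit 7346207121) (nat_lit 89) (nat_lit 5) (nat_lit 94) (nat_lit 5) (nat_lit 90) (nat_lit 5) (nat_lit 279) (nat_lit 254) (nat_lit 187)) (XT.lf (nat_lit 0) (nat_lit 10006470845) (nat_lit 252) (nat_lit 2120610318) (nat_lit 336) (nat_lit 4254536740) (nat_lit 86) (nat_lit 5) (nat_lit 89) (nat_lit 5) (nat_lit 90) (nat_lit 5) (nat_lit 280) (nat_lit 254) (nat_lit 186))))))) (XT.nd (nat_lit 752) (nat_lit 1260) (nat_lit 0) (XT.nd (nat_lit 376) (nat_lit 588) (nat_lit 0) (XT.nd (nat_lit 188) (nat_lit 504) (nat_lit 0) (XT.nd (nat_lit 94) (nat_lit 84) (nat_lit 0) (XT.lf (nat_lit 0) (nat_lit 3731195401) (nat_lit 336)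 (nat_lit 12282388561) (nat_lit 420) (nat_lit 836658843) (nat_lit 82) (nat_lit 5) (nat_lit 86) (nat_lit 5) (nat_lit 87) (nat_lit 5) (nat_lit 281) (nat_lit 254) (nat_lit 185)) (XT.lf (nat_lit 0) (nat_lit 2784831153) (nat_lit 420) (nat_lit 2885527216) (nat_lit 84) (nat_lit 11663752021) (nat_lit 81) (nat_lit 5) (nat_lit 86) (nat_lit 5) (nat_lit 82) (nat_lit 5) (nat_lit 282) (nat_lit 254) (nat_lit 184))) (XT.nd (nat_lit 94) (nat_lit 252) (nat_lit 0) (XT.lf (nat_lit 0) (nat_lit 6684757417) (nat_lit 336) (nat_lit 9785720904) (nat_lit 84) (nat_lit 1364733300) (nat_lit 78) (nat_lit 5) (nat_lit 82) (nat_lit 5) (nat_lit 79) (nat_lit 5) (nat_lit 283) (nat_lit 254) (nat_lit 183)) (XT.lf (nat_lit 0) (nat_lit 1184500505) (nat_lit 252) (nat_lit 9734172948) (nat_lit 336) (nat_lit 7435744787) (nat_lit 75) (nat_lit 5) (nat_lit 78) (nat_lit 5) (nat_lit 79) (nat_lit 5) (nat_lit 284) (nat_lit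 254) (nat_lit 182)))) (XT.nd (nat_lit 188) (nat_lit 252) (nat_lit 0) (XT.nd (nat_lit 94) (nat_lit 336) (nat_lit 0) (XT.lf (nat_lit 0) (nat_lit 13011322825) (nat_lit 252) (nat_lit 2497122343) (nat_lit 336) (nat_lit 3383932027) (nat_lit 75) (nat_lit 5) (nat_lit 78) (nat_lit 5) (nat_lit 79) (nat_lit 5) (nat_lit 285) (nat_lit 254) (nat_lit 181)) (XT.lf (nat_lit 0) (nat_lit 998633056) (nat_lit 336) (nat_lit 13410274669) (nat_lit 84) (nat_lit 5039845739) (nat_lit 71) (nat_lit 5) (nat_lit 75) (nat_lit 5) (nat_lit 72) (nat_lit 5) (nat_lit 286) (nat_lit 254) (nat_lit 180))) (XT.nd (nat_lit 94) (nat_lit 252) (nat_lit 0) (XT.lf (nat_lit 0) (nat_lit 5608260676) (nat_lit 336) (nat_lit 1399042726) (nat_lit 84) (nat_lit 13016788600) (nat_lit 71) (nat_lit 5) (nat_lit 75) (nat_lit 5) (nat_lit 72) (nat_lit 5) (nat_lit 287) (nat_lit 254) (nat_lit 179)) (XT.lf (nat_lit 0) (nat_lit 10623939068)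 (nat_lit 336) (nat_lit 9082085777) (nat_lit 84) (nat_lit 913394152) (nat_lit 68) (nat_lit 5) (nat_lit 72) (nat_lit 5) (nat_lit 69) (nat_lit 5) (nat_lit 288) (nat_lit 254) (nat_lit 178))))) (XT.nd (nat_lit 376) (nat_lit 588) (nat_lit 0) (XT.nd (nat_lit 188) (nat_lit 420) (nat_lit 0) (XT.nd (nat_lit 94) (nat_lit 84) (nat_lit 0) (XT.lf (nat_lit 0) (nat_lit 3905483870) (nat_lit 168) (nat_lit 12165629407) (nat_lit 252) (nat_lit 5164363470) (nat_lit 66) (nat_lit 5) (nat_lit 68) (nat_lit 5) (nat_lit 69) (nat_lit 5) (nat_lit 289) (nat_lit 254) (nat_lit 177)) (XT.lf (nat_lit 0) (nat_lit 48501483) (nat_lit 252) (nat_lit 4048167326) (nat_lit 84) (nat_lit 17778877254) (nat_lit 65) (nat_lit 5) (nat_lit 68) (nat_lit 5) (nat_lit 66) (nat_lit 5) (nat_lit 290) (nat_lit 254) (nat_lit 176))) (XT.nd (nat_lit 94) (nat_lit 168) (nat_lit 0) (XT.lf (nat_lit 0) (nat_lit 5560228085) (nat_lit 336)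 (nat_lit 12500663464) (nat_lit 84) (nat_lit 4471905467) (nat_lit 62) (nat_lit 5) (nat_lit 66) (nat_lit 5) (nat_lit 63) (nat_lit 5) (nat_lit 291) (nat_lit 254) (nat_lit 175)) (XT.lf (nat_lit 0) (nat_lit 1694466758) (nat_lit 168) (nat_lit 9798464116) (nat_lit 252) (nat_lit 11722710150) (nat_lit 60) (nat_lit 5) (nat_lit 62) (nat_lit 5) (nat_lit 63) (nat_lit 5) (nat_lit 292) (nat_lit 254) (nat_lit 174)))) (XT.nd (nat_lit 188) (nat_lit 336) (nat_lit 0) (XT.nd (nat_lit 94) (nat_lit 252) (nat_lit 0) (XT.lf (nat_lit 0) (nat_lit 17004821524) (nat_lit 168) (nat_lit 911653736) (nat_lit 252) (nat_lit 6006441649) (nat_lit 60) (nat_lit 5) (nat_lit 62) (nat_lit 5) (nat_lit 63) (nat_lit 5) (nat_lit 293) (nat_lit 254) (nat_lit 173)) (XT.lf (nat_lit 0) (nat_lit 247623533) (nat_lit 252) (nat_lit 16128337951) (nat_lit 84) (nat_lit 8277006322) (nat_lit 57) (nat_lit 5) (nat_lit 60) (nat_lit 5)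 (nat_lit 58) (nat_lit 5) (nat_lit 294) (nat_lit 254) (nat_lit 172))) (XT.nd (nat_lit 94) (nat_lit 336) (nat_lit 0) (XT.lf (nat_lit 0) (nat_lit 6729838215) (nat_lit 252) (nat_lit 577264888) (nat_lit 84) (nat_lit 18101629729) (nat_lit 57) (nat_lit 5) (nat_lit 60) (nat_lit 5) (nat_lit 58) (nat_lit 5) (nat_lit 295) (nat_lit 254) (nat_lit 171)) (XT.nd (nat_lit 94) (nat_lit 168) (nat_lit 0) (XT.lf (nat_lit 0) (nat_lit 13812436482) (nat_lit 252) (nat_lit 9984295728) (nat_lit 84) (nat_lit 2391740257) (nat_lit 55) (nat_lit 5) (nat_lit 58) (nat_lit 5) (nat_lit 56) (nat_lit 5) (nat_lit 296) (nat_lit 254) (nat_lit 170)) (XT.lf (nat_lit 0) (nat_lit 6912521243) (nat_lit 168) (nat_lit 14558547923) (nat_lit 252) (nat_lit 5525034692) (nat_lit 53) (nat_lit 5) (nat_lit 55) (nat_lit 5) (nat_lit 56) (nat_lit 5) (nat_lit 297) (nat_lit 254) (nat_lit 169))))))))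
noncomputable def xc125 : XT := (XT.nd (nat_lit 1598) (nat_lit 1428) (nat_lit 0) (XT.nd (nat_lit 752) (nat_lit 924) (nat_lit 0) (XT.nd (nat_lit 376) (nat_lit 504) (nat_lit 0) (XT.nd (nat_lit 188) (nat_lit 168) (nat_lit 0) (XT.nd (nat_lit 94) (nat_lit 168) (nat_lit 0) (XT.lf (nat_lit 0) (nat_lit 1771315685) (nat_lit 252) (nat_lit 2890554124) (nat_lit 84) (nat_lit 23173134401) (nat_lit 52) (nat_lit 5) (nat_lit 55) (nat_lit 5) (nat_lit 53) (nat_lit 5) (nat_lit 298) (nat_lit 254) (nat_lit 168)) (XT.lf (nat_lit 0) (nat_lit 9569321653) (nat_lit 252) (nat_lit 13251247005) (nat_lit 84) (nat_lit 5874626430) (nat_lit 50) (nat_lit 5) (nat_lit 53) (nat_lit 5) (nat_lit 51) (nat_lit 5) (nat_lit 299) (nat_lit 254) (nat_lit 167))) (XT.nd (nat_lit 94) (nat_lit 0) (nat_lit 0) (XT.lf (nat_lit 0) (nat_lit 5265118791) (nat_lit 168) (nat_lit 12685730262) (nat_lit 252) (nat_lit 11637865401) (nat_lit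 48) (nat_lit 5) (nat_lit 50) (nat_lit 5) (nat_lit 51) (nat_lit 5) (nat_lit 300) (nat_lit 254) (nat_lit 166)) (XT.lf (nat_lit 0) (nat_lit 25142019273) (nat_lit 168) (nat_lit 1819395524) (nat_lit 252) (nat_lit 3554996892) (nat_lit 48) (nat_lit 5) (nat_lit 50) (nat_lit 5) (nat_lit 51) (nat_lit 5) (nat_lit 301) (nat_lit 254) (nat_lit 165)))) (XT.nd (nat_lit 188) (nat_lit 168) (nat_lit 0) (XT.nd (nat_lit 94) (nat_lit 168) (nat_lit 0) (XT.lf (nat_lit 0) (nat_lit 5147400185) (nat_lit 168) (nat_lit 16732866249) (nat_lit 84) (nat_lit 9587715201) (nat_lit 46) (nat_lit 5) (nat_lit 48) (nat_lit 5) (nat_lit 47) (nat_lit 5) (nat_lit 302) (nat_lit 254) (nat_lit 164)) (XT.lf (nat_lit 0) (nat_lit 3574187855) (nat_lit 168) (nat_lit 10755530323) (nat_lit 252) (nat_lit 18126284356) (nat_lit 44) (nat_lit 5) (nat_lit 46) (nat_lit 5) (nat_lit 47) (nat_lit 5) (nat_lit 303) (nat_lit 254) (nat_lit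 163))) (XT.nd (nat_lit 94) (nat_lit 168) (nat_lit 0) (XT.lf (nat_lit 0) (nat_lit 24259871637) (nat_lit 252) (nat_lit 8045658662) (nat_lit 84) (nat_lit 1173458200) (nat_lit 44) (nat_lit 5) (nat_lit 47) (nat_lit 5) (nat_lit 45) (nat_lit 4) (nat_lit 304) (nat_lit 254) (nat_lit 162)) (XT.lf (nat_lit 0) (nat_lit 518516952) (nat_lit 168) (nat_lit 20459248872) (nat_lit 84) (nat_lit 13555784901) (nat_lit 42) (nat_lit 5) (nat_lit 44) (nat_lit 5) (nat_lit 43) (nat_lit 5) (nat_lit 305) (nat_lit 254) (nat_lit 161))))) (XT.nd (nat_lit 376) (nat_lit 420) (nat_lit 0) (XT.nd (nat_lit 188) (nat_lit 336) (nat_lit 0) (XT.nd (nat_lit 94) (nat_lit 0) (nat_lit 0) (XT.lf (nat_lit 0) (nat_lit 1826968464) (nat_lit 168) (nat_lit 8760207205) (nat_lit 252) (nat_lit 25038410441) (nat_lit 40) (nat_lit 5) (nat_lit 42) (nat_lit 5) (nat_lit 43) (nat_lit 5) (nat_lit 306) (nat_lit 254) (nat_lit 160)) (XT.lf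 (nat_lit 0) (nat_lit 21561995259) (nat_lit 252) (nat_lit 10910091359) (nat_lit 84) (nat_lit 4280000250) (nat_lit 40) (nat_lit 5) (nat_lit 43) (nat_lit 5) (nat_lit 41) (nat_lit 4) (nat_lit 307) (nat_lit 254) (nat_lit 159))) (XT.nd (nat_lit 94) (nat_lit 252) (nat_lit 0) (XT.lf (nat_lit 0) (nat_lit 13384996217) (nat_lit 84) (nat_lit 20040807891) (nat_lit 168) (nat_lit 4492096140) (nat_lit 39) (nat_lit 5) (nat_lit 40) (nat_lit 5) (nat_lit 41) (nat_lit 4) (nat_lit 308) (nat_lit 254) (nat_lit 158)) (XT.lf (nat_lit 0) (nat_lit 10201044) (nat_lit 168) (nat_lit 6690508496) (nat_lit 252) (nat_lit 32427249714) (nat_lit 36) (nat_lit 5) (nat_lit 38) (nat_lit 5) (nat_lit 39) (nat_lit 5) (nat_lit 309) (nat_lit 254) (nat_lit 157)))) (XT.nd (nat_lit 188) (nat_lit 336) (nat_lit 0) (XT.nd (nat_lit 94) (nat_lit 84) (nat_lit 0) (XT.lf (nat_lit 0) (nat_lit 18826657811) (nat_lit 252) (nat_lit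 13963187004) (nat_lit 84) (nat_lit 7578771040) (nat_lit 36) (nat_lit 5) (nat_lit 39) (nat_lit 5) (nat_lit 37) (nat_lit 4) (nat_lit 310) (nat_lit 254) (nat_lit 156)) (XT.lf (nat_lit 0) (nat_lit 12725020773) (nat_lit 84) (nat_lit 19130597111) (nat_lit 168) (nat_lit 9800851682) (nat_lit 35) (nat_lit 5) (nat_lit 36) (nat_lit 5) (nat_lit 37) (nat_lit 4) (nat_lit 311) (nat_lit 254) (nat_lit 155))) (XT.nd (nat_lit 94) (nat_lit 252) (nat_lit 0) (XT.lf (nat_lit 0) (nat_lit 2675164785) (nat_lit 168) (nat_lit 1829543555) (nat_lit 84) (nat_lit 38490597479) (nat_lit 34) (nat_lit 5) (nat_lit 36) (nat_lit 5) (nat_lit 35) (nat_lit 5) (nat_lit 312) (nat_lit 254) (nat_lit 154)) (XT.nd (nat_lit 94) (nat_lit 84) (nat_lit 0) (XT.lf (nat_lit 0) (nat_lit 16040019940) (nat_lit 252) (nat_lit 17230665511) (nat_lit 84) (nat_lit 11092644410) (nat_lit 32) (nat_lit 5) (nat_lit 35) (nat_lit 5) (nat_lit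 33) (nat_lit 4) (nat_lit 313) (nat_lit 254) (nat_lit 153)) (XT.lf (nat_lit 0) (nat_lit 12100478712) (nat_lit 84) (nat_lit 18255908504) (nat_lit 168) (nat_lit 15429204424) (nat_lit 31) (nat_lit 5) (nat_lit 32) (nat_lit 5) (nat_lit 33) (nat_lit 4) (nat_lit 314) (nat_lit 254) (nat_lit 152))))))) (XT.nd (nat_lit 752) (nat_lit 672) (nat_lit 0) (XT.nd (nat_lit 376) (nat_lit 420) (nat_lit 0) (XT.nd (nat_lit 188) (nat_lit 84) (nat_lit 0) (XT.nd (nat_lit 94) (nat_lit 252) (nat_lit 0) (XT.lf (nat_lit 0) (nat_lit 43475973701) (nat_lit 84) (nat_lit 2193620683) (nat_lit 168) (nat_lit 1595321045) (nat_lit 31) (nat_lit 5) (nat_lit 32) (nat_lit 5) (nat_lit 33) (nat_lit 4) (nat_lit 315) (nat_lit 254) (nat_lit 151)) (XT.lf (nat_lit 0) (nat_lit 13187054416) (nat_lit 252) (nat_lit 20740333669) (nat_lit 84) (nat_lit 14847191102) (nat_lit 28) (nat_lit 5) (nat_lit 31) (nat_lit 5) (nat_lit 29)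 (nat_lit 4) (nat_lit 316) (nat_lit 254) (nat_lit 150))) (XT.nd (nat_lit 94) (nat_lit 0) (nat_lit 0) (XT.lf (nat_lit 0) (nat_lit 11508972477) (nat_lit 84) (nat_lit 17416437217) (nat_lit 168) (nat_lit 21419485085) (nat_lit 27) (nat_lit 5) (nat_lit 28) (nat_lit 5) (nat_lit 29) (nat_lit 4) (nat_lit 317) (nat_lit 254) (nat_lit 149)) (XT.lf (nat_lit 0) (nat_lit 45796091653) (nat_lit 168) (nat_lit 5909755790) (nat_lit 0) (nat_lit 270608261) (nat_lit 27) (nat_lit 5) (nat_lit 29) (nat_lit 4) (nat_lit 27) (nat_lit 4) (nat_lit 318) (nat_lit 254) (nat_lit 148)))) (XT.nd (nat_lit 188) (nat_lit 168) (nat_lit 0) (XT.nd (nat_lit 94) (nat_lit 84) (nat_lit 0) (XT.lf (nat_lit 0) (nat_lit 10251456920) (nat_lit 168) (nat_lit 24522368735) (nat_lit 84) (nat_lit 18870849175) (nat_lit 25) (nat_lit 5) (nat_lit 27) (nat_lit 5) (nat_lit 26) (nat_lit 4) (nat_lit 319) (nat_lit 254) (nat_lit 147)) (XT.lf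 (nat_lit 0) (nat_lit 10948344610) (nat_lit 84) (nat_lit 16611647058) (nat_lit 168) (nat_lit 27818106199) (nat_lit 24) (nat_lit 5) (nat_lit 25) (nat_lit 5) (nat_lit 26) (nat_lit 4) (nat_lit 320) (nat_lit 254) (nat_lit 146))) (XT.nd (nat_lit 94) (nat_lit 168) (nat_lit 0) (XT.lf (nat_lit 0) (nat_lit 46184646424) (nat_lit 168) (nat_lit 8197659887) (nat_lit 0) (nat_lit 2793351082) (nat_lit 24) (nat_lit 5) (nat_lit 26) (nat_lit 4) (nat_lit 24) (nat_lit 4) (nat_lit 321) (nat_lit 254) (nat_lit 145)) (XT.lf (nat_lit 0) (nat_lit 7215538425) (nat_lit 168) (nat_lit 28609620070) (nat_lit 84) (nat_lit 23195132764) (nat_lit 22) (nat_lit 5) (nat_lit 24) (nat_lit 5) (nat_lit 23) (nat_lit 4) (nat_lit 322) (nat_lit 254) (nat_lit 144))))) (XT.nd (nat_lit 376) (nat_lit 336) (nat_lit 0) (XT.nd (nat_lit 188) (nat_lit 252) (nat_lit 0) (XT.nd (nat_lit 94) (nat_lit 0) (nat_lit 0) (XT.lf (nat_lit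 0) (nat_lit 10416643988) (nat_lit 84) (nat_lit 15840825105) (nat_lit 168) (nat_lit 34675957509) (nat_lit 21) (nat_lit 5) (nat_lit 22) (nat_lit 5) (nat_lit 23) (nat_lit 4) (nat_lit 323) (nat_lit 254) (nat_lit 143)) (XT.lf (nat_lit 0) (nat_lit 46814963183) (nat_lit 168) (nat_lit 10636880767) (nat_lit 0) (nat_lit 5462201417) (nat_lit 21) (nat_lit 5) (nat_lit 23) (nat_lit 4) (nat_lit 21) (nat_lit 4) (nat_lit 324) (nat_lit 254) (nat_lit 142))) (XT.nd (nat_lit 94) (nat_lit 84) (nat_lit 0) (XT.lf (nat_lit 0) (nat_lit 4060099076) (nat_lit 168) (nat_lit 33037932538) (nat_lit 84) (nat_lit 27854879309) (nat_lit 19) (nat_lit 5) (nat_lit 21) (nat_lit 5) (nat_lit 20) (nat_lit 4) (nat_lit 325) (nat_lit 254) (nat_lit 141)) (XT.lf (nat_lit 0) (nat_lit 9912097628) (nat_lit 84) (nat_lit 15103125978) (nat_lit 168) (nat_lit 42048849233) (nat_lit 18) (nat_lit 5) (nat_lit 19) (nat_lit 5) (nat_lit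 20) (nat_lit 4) (nat_lit 326) (nat_lit 254) (nat_lit 140)))) (XT.nd (nat_lit 188) (nat_lit 168) (nat_lit 0) (XT.nd (nat_lit 94) (nat_lit 168) (nat_lit 0) (XT.lf (nat_lit 0) (nat_lit 47702754570) (nat_lit 168) (nat_lit 13247437983) (nat_lit 0) (nat_lit 8296367788) (nat_lit 18) (nat_lit 5) (nat_lit 20) (nat_lit 4) (nat_lit 18) (nat_lit 4) (nat_lit 327) (nat_lit 254) (nat_lit 139)) (XT.lf (nat_lit 0) (nat_lit 764283179) (nat_lit 168) (nat_lit 37846495473) (nat_lit 84) (nat_lit 32888536068) (nat_lit 16) (nat_lit 5) (nat_lit 18) (nat_lit 5) (nat_lit 17) (nat_lit 4) (nat_lit 328) (nat_lit 254) (nat_lit 138))) (XT.nd (nat_lit 94) (nat_lit 84) (nat_lit 0) (XT.lf (nat_lit 0) (nat_lit 9433087096) (nat_lit 84) (nat_lit 14397607654) (nat_lit 168) (nat_lit 49998006644) (nat_lit 15) (nat_lit 5) (nat_lit 16) (nat_lit 5) (nat_lit 17) (nat_lit 4) (nat_lit 329) (nat_lit 254) (nat_lit 137))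 (XT.nd (nat_lit 94) (nat_lit 84) (nat_lit 0) (XT.lf (nat_lit 0) (nat_lit 48865678418) (nat_lit 168) (nat_lit 16051091193) (nat_lit 0) (nat_lit 11317025217) (nat_lit 15) (nat_lit 5) (nat_lit 17) (nat_lit 4) (nat_lit 15) (nat_lit 4) (nat_lit 330) (nat_lit 254) (nat_lit 136)) (XT.lf (nat_lit 0) (nat_lit 35598267834) (nat_lit 84) (nat_lit 40338001581) (nat_lit 84) (nat_lit 2783680609) (nat_lit 14) (nat_lit 4) (nat_lit 15) (nat_lit 5) (nat_lit 15) (nat_lit 4) (nat_lit 331) (nat_lit 254) (nat_lit 135))))))))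
noncomputable def xc126 : XT := (XT.nd (nat_lit 37976) (nat_lit 0) (nat_lit 9408) (XT.nd (nat_lit 752) (nat_lit 504) (nat_lit 0) (XT.nd (nat_lit 376) (nat_lit 252) (nat_lit 0) (XT.nd (nat_lit 188) (nat_lit 252) (nat_lit 0) (XT.nd (nat_lit 94) (nat_lit 0) (nat_lit 0) (XT.lf (nat_lit 0) (nat_lit 8978128716) (nat_lit 84) (nat_lit 13723260339) (nat_lit 168) (nat_lit 58590620043) (nat_lit 12) (nat_lit 5) (nat_lit 13) (nat_lit 5) (nat_lit 14) (nat_lit 4) (nat_lit 332) (nat_lit 254) (nat_lit 134)) (XT.lf (nat_lit 0) (nat_lit 50323538429) (nat_lit 168) (nat_lit 19071550596) (nat_lit 0) (nat_lit 14547481588) (nat_lit 12) (nat_lit 5) (nat_lit 14) (nat_lit 4) (nat_lit 12) (nat_lit 4) (nat_lit 333) (nat_lit 254) (nat_lit 133))) (XT.nd (nat_lit 94) (nat_lit 168) (nat_lit 0) (XT.lf (nat_lit 0) (nat_lit 37802844939) (nat_lit 84) (nat_lit 42331576835) (nat_lit 84) (nat_lit 6550857105) (nat_lit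 11) (nat_lit 4) (nat_lit 12) (nat_lit 5) (nat_lit 12) (nat_lit 4) (nat_lit 334) (nat_lit 254) (nat_lit 132)) (XT.lf (nat_lit 0) (nat_lit 8545856920) (nat_lit 84) (nat_lit 13079029663) (nat_lit 168) (nat_lit 67900454823) (nat_lit 9) (nat_lit 5) (nat_lit 10) (nat_lit 5) (nat_lit 11) (nat_lit 4) (nat_lit 335) (nat_lit 254) (nat_lit 131)))) (XT.nd (nat_lit 188) (nat_lit 168) (nat_lit 0) (XT.nd (nat_lit 94) (nat_lit 84) (nat_lit 0) (XT.lf (nat_lit 0) (nat_lit 52098502300) (nat_lit 168) (nat_lit 22334704364) (nat_lit 0) (nat_lit 18013369011) (nat_lit 9) (nat_lit 5) (nat_lit 11) (nat_lit 4) (nat_lit 9) (nat_lit 4) (nat_lit 336) (nat_lit 254) (nat_lit 130)) (XT.lf (nat_lit 0) (nat_lit 40303557882) (nat_lit 84) (nat_lit 44628729405) (nat_lit 84) (nat_lit 10539759946) (nat_lit 8) (nat_lit 4) (nat_lit 9) (nat_lit 5) (nat_lit 9) (nat_lit 4) (nat_lit 337) (nat_lit 254) (nat_lit 129)))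 (XT.nd (nat_lit 94) (nat_lit 0) (nat_lit 0) (XT.lf (nat_lit 0) (nat_lit 8135010215) (nat_lit 84) (nat_lit 12463835233) (nat_lit 168) (nat_lit 78008526990) (nat_lit 6) (nat_lit 5) (nat_lit 7) (nat_lit 5) (nat_lit 8) (nat_lit 4) (nat_lit 338) (nat_lit 254) (nat_lit 128)) (XT.lf (nat_lit 0) (nat_lit 54215339780) (nat_lit 168) (nat_lit 25868865555) (nat_lit 0) (nat_lit 21742861234) (nat_lit 6) (nat_lit 5) (nat_lit 8) (nat_lit 4) (nat_lit 6) (nat_lit 4) (nat_lit 339) (nat_lit 254) (nat_lit 127))))) (XT.nd (nat_lit 376) (nat_lit 168) (nat_lit 0) (XT.nd (nat_lit 188) (nat_lit 84) (nat_lit 0) (XT.nd (nat_lit 94) (nat_lit 168) (nat_lit 0) (XT.lf (nat_lit 0) (nat_lit 43127172325) (nat_lit 84) (nat_lit 47256332673) (nat_lit 84) (nat_lit 14780698100) (nat_lit 5) (nat_lit 4) (nat_lit 6) (nat_lit 5) (nat_lit 6) (nat_lit 4) (nat_lit 340) (nat_lit 254) (nat_lit 126)) (XT.lf (nat_lit 0)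 (nat_lit 7744419301) (nat_lit 84) (nat_lit 11876585388) (nat_lit 168) (nat_lit 89003850198) (nat_lit 3) (nat_lit 5) (nat_lit 4) (nat_lit 5) (nat_lit 5) (nat_lit 4) (nat_lit 341) (nat_lit 254) (nat_lit 125))) (XT.nd (nat_lit 94) (nat_lit 84) (nat_lit 0) (XT.lf (nat_lit 0) (nat_lit 56701683265) (nat_lit 168) (nat_lit 29705041145) (nat_lit 0) (nat_lit 25766918577) (nat_lit 3) (nat_lit 5) (nat_lit 5) (nat_lit 4) (nat_lit 3) (nat_lit 4) (nat_lit 342) (nat_lit 254) (nat_lit 124)) (XT.lf (nat_lit 0) (nat_lit 46303412068) (nat_lit 84) (nat_lit 50244131107) (nat_lit 84) (nat_lit 19306769949) (nat_lit 2) (nat_lit 4) (nat_lit 3) (nat_lit 5) (nat_lit 3) (nat_lit 4) (nat_lit 343) (nat_lit 254) (nat_lit 123)))) (XT.nd (nat_lit 188) (nat_lit 0) (nat_lit 0) (XT.nd (nat_lit 94) (nat_lit 0) (nat_lit 0) (XT.lf (nat_lit 0) (nat_lit 173756866445) (nat_lit 0) (nat_lit 0) (nat_lit 0) (nat_lit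 0) (nat_lit 0) (nat_lit 0) (nat_lit 1) (nat_lit 0) (nat_lit 1) (nat_lit 0) (nat_lit 344) (nat_lit 254) (nat_lit 122)) (XT.lf (nat_lit 0) (nat_lit 182338081794) (nat_lit 0) (nat_lit 0) (nat_lit 0) (nat_lit 0) (nat_lit 0) (nat_lit 0) (nat_lit 1) (nat_lit 0) (nat_lit 1) (nat_lit 0) (nat_lit 345) (nat_lit 254) (nat_lit 121))) (XT.nd (nat_lit 94) (nat_lit 0) (nat_lit 0) (XT.lf (nat_lit 0) (nat_lit 191348373682) (nat_lit 0) (nat_lit 0) (nat_lit 0) (nat_lit 0) (nat_lit 0) (nat_lit 0) (nat_lit 1) (nat_lit 0) (nat_lit 1) (nat_lit 0) (nat_lit 346) (nat_lit 254) (nat_lit 120)) (XT.nd (nat_lit 94) (nat_lit 0) (nat_lit 0) (XT.lf (nat_lit 0) (nat_lit 200809195185) (nat_lit 0) (nat_lit 0) (nat_lit 0) (nat_lit 0) (nat_lit 0) (nat_lit 0) (nat_lit 1) (nat_lit 0) (nat_lit 1) (nat_lit 0) (nat_lit 347) (nat_lit 254) (nat_lit 119)) (XT.lf (nat_lit 0) (nat_lit 210743072068) (nat_lit 0) (nat_lit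 0) (nat_lit 0) (nat_lit 0) (nat_lit 0) (nat_lit 0) (nat_lit 1) (nat_lit 0) (nat_lit 1) (nat_lit 0) (nat_lit 348) (nat_lit 254) (nat_lit 118))))))) (XT.nd (nat_lit 752) (nat_lit 2268) (nat_lit 0) (XT.nd (nat_lit 376) (nat_lit 0) (nat_lit 84) (XT.nd (nat_lit 188) (nat_lit 0) (nat_lit 0) (XT.nd (nat_lit 94) (nat_lit 0) (nat_lit 0) (XT.lf (nat_lit 0) (nat_lit 65571792) (nat_lit 0) (nat_lit 65571792) (nat_lit 756) (nat_lit 4394886957) (nat_lit 139) (nat_lit 5) (nat_lit 139) (nat_lit 3) (nat_lit 148) (nat_lit 3) (nat_lit 255) (nat_lit 255) (nat_lit 210)) (XT.lf (nat_lit 0) (nat_lit 1217835765) (nat_lit 756) (nat_lit 4437938553) (nat_lit 840) (nat_lit 3575138725) (nat_lit 139) (nat_lit 5) (nat_lit 148) (nat_lit 3) (nat_lit 149) (nat_lit 5) (nat_lit 256) (nat_lit 255) (nat_lit 209))) (XT.nd (nat_lit 94) (nat_lit 0) (nat_lit 84) (XT.lf (nat_lit 84) (nat_lit 242990390) (nat_lit 0)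 (nat_lit 1927504339) (nat_lit 840) (nat_lit 7250746221) (nat_lit 140) (nat_lit 5) (nat_lit 139) (nat_lit 5) (nat_lit 149) (nat_lit 5) (nat_lit 257) (nat_lit 255) (nat_lit 208)) (XT.lf (nat_lit 0) (nat_lit 3224159488) (nat_lit 756) (nat_lit 4371937527) (nat_lit 840) (nat_lit 2022319596) (nat_lit 140) (nat_lit 5) (nat_lit 149) (nat_lit 5) (nat_lit 150) (nat_lit 5) (nat_lit 258) (nat_lit 255) (nat_lit 207)))) (XT.nd (nat_lit 188) (nat_lit 0) (nat_lit 84) (XT.nd (nat_lit 94) (nat_lit 0) (nat_lit 84) (XT.lf (nat_lit 84) (nat_lit 630517366) (nat_lit 0) (nat_lit 3689962850) (nat_lit 840) (nat_lit 5505472201) (nat_lit 141) (nat_lit 5) (nat_lit 140) (nat_lit 5) (nat_lit 150) (nat_lit 5) (nat_lit 259) (nat_lit 255) (nat_lit 206)) (XT.lf (nat_lit 0) (nat_lit 5504043923) (nat_lit 756) (nat_lit 4047895932) (nat_lit 840) (nat_lit 490303812) (nat_lit 141) (nat_lit 5) (nat_lit 150) (nat_lit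 5) (nat_lit 151) (nat_lit 5) (nat_lit 260) (nat_lit 255) (nat_lit 205))) (XT.nd (nat_lit 94) (nat_lit 0) (nat_lit 0) (XT.lf (nat_lit 84) (nat_lit 1304988490) (nat_lit 0) (nat_lit 5475756339) (nat_lit 840) (nat_lit 3486906700) (nat_lit 142) (nat_lit 5) (nat_lit 141) (nat_lit 5) (nat_lit 151) (nat_lit 5) (nat_lit 261) (nat_lit 255) (nat_lit 204)) (XT.lf (nat_lit 84) (nat_lit 7033279928) (nat_lit 0) (nat_lit 1111369224) (nat_lit 840) (nat_lit 2358512212) (nat_lit 142) (nat_lit 5) (nat_lit 141) (nat_lit 5) (nat_lit 151) (nat_lit 5) (nat_lit 262) (nat_lit 255) (nat_lit 203))))) (XT.nd (nat_lit 376) (nat_lit 1680) (nat_lit 0) (XT.nd (nat_lit 188) (nat_lit 0) (nat_lit 84) (XT.nd (nat_lit 94) (nat_lit 840) (nat_lit 0) (XT.lf (nat_lit 84) (nat_lit 2282862641) (nat_lit 0) (nat_lit 7340875209) (nat_lit 840) (nat_lit 1124359385) (nat_lit 143) (nat_lit 5) (nat_lit 142) (nat_lit 5) (nat_lit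 152) (nat_lit 5) (nat_lit 263) (nat_lit 255) (nat_lit 202)) (XT.lf (nat_lit 0) (nat_lit 201957805) (nat_lit 840) (nat_lit 2614885830) (nat_lit 924) (nat_lit 8186505092) (nat_lit 132) (nat_lit 5) (nat_lit 142) (nat_lit 5) (nat_lit 143) (nat_lit 5) (nat_lit 264) (nat_lit 255) (nat_lit 201))) (XT.nd (nat_lit 94) (nat_lit 0) (nat_lit 0) (XT.lf (nat_lit 0) (nat_lit 1604401721) (nat_lit 840) (nat_lit 7709407428) (nat_lit 84) (nat_lit 1954252203) (nat_lit 133) (nat_lit 5) (nat_lit 143) (nat_lit 5) (nat_lit 134) (nat_lit 5) (nat_lit 265) (nat_lit 255) (nat_lit 200)) (XT.lf (nat_lit 0) (nat_lit 3129656251) (nat_lit 840) (nat_lit 1493303178) (nat_lit 84) (nat_lit 6920415757) (nat_lit 133) (nat_lit 5) (nat_lit 143) (nat_lit 5) (nat_lit 134) (nat_lit 5) (nat_lit 266) (nat_lit 255) (nat_lit 199)))) (XT.nd (nat_lit 188) (nat_lit 924) (nat_lit 0) (XT.nd (nat_lit 94) (nat_lit 0) (nat_lit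 0) (XT.lf (nat_lit 0) (nat_lit 4781275328) (nat_lit 924) (nat_lit 6670027260) (nat_lit 84) (nat_lit 378647034) (nat_lit 123) (nat_lit 5) (nat_lit 134) (nat_lit 5) (nat_lit 124) (nat_lit 5) (nat_lit 267) (nat_lit 255) (nat_lit 198)) (XT.lf (nat_lit 0) (nat_lit 6581596321) (nat_lit 924) (nat_lit 42058834) (nat_lit 84) (nat_lit 5503891576) (nat_lit 123) (nat_lit 5) (nat_lit 134) (nat_lit 5) (nat_lit 124) (nat_lit 5) (nat_lit 268) (nat_lit 255) (nat_lit 197))) (XT.nd (nat_lit 94) (nat_lit 420) (nat_lit 0) (XT.lf (nat_lit 0) (nat_lit 7112649566) (nat_lit 504) (nat_lit 1436646803) (nat_lit 588) (nat_lit 3886859176) (nat_lit 117) (nat_lit 5) (nat_lit 123) (nat_lit 5) (nat_lit 124) (nat_lit 5) (nat_lit 269) (nat_lit 255) (nat_lit 196)) (XT.nd (nat_lit 94) (nat_lit 0) (nat_lit 0) (XT.lf (nat_lit 0) (nat_lit 1828887915) (nat_lit 420) (nat_lit 8845809127) (nat_lit 504) (nat_lit 2082531977)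 (nat_lit 112) (nat_lit 5) (nat_lit 117) (nat_lit 5) (nat_lit 118) (nat_lit 5) (nat_lit 270) (nat_lit 255) (nat_lit 195)) (XT.lf (nat_lit 0) (nat_lit 9466502672) (nat_lit 420) (nat_lit 3521664944) (nat_lit 504) (nat_lit 102098558) (nat_lit 112) (nat_lit 5) (nat_lit 117) (nat_lit 5) (nat_lit 118) (nat_lit 5) (nat_lit 271) (nat_lit 255) (nat_lit 194))))))))
noncomputable def xc127 : XT := (XT.nd (nat_lit 1598) (nat_lit 2268) (nat_lit 0) (XT.nd (nat_lit 752) (nat_lit 1512) (nat_lit 0) (XT.nd (nat_lit 376) (nat_lit 756) (nat_lit 0) (XT.nd (nat_lit 188) (nat_lit 672) (nat_lit 0) (XT.nd (nat_lit 94) (nat_lit 0) (nat_lit 0) (XT.lf (nat_lit 0) (nat_lit 1981618100) (nat_lit 504) (nat_lit 9356024499) (nat_lit 84) (nat_lit 2097391516) (nat_lit 106) (nat_lit 5) (nat_lit 112) (nat_lit 5) (nat_lit 107) (nat_lit 5) (nat_lit 272) (nat_lit 255) (nat_lit 193)) (XT.lf (nat_lit 0) (nat_lit 4256600509)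 (nat_lit 504) (nat_lit 1594906835) (nat_lit 84) (nat_lit 7940923868) (nat_lit 106) (nat_lit 5) (nat_lit 112) (nat_lit 5) (nat_lit 107) (nat_lit 5) (nat_lit 273) (nat_lit 255) (nat_lit 192))) (XT.nd (nat_lit 94) (nat_lit 336) (nat_lit 0) (XT.lf (nat_lit 0) (nat_lit 6722595742) (nat_lit 420) (nat_lit 7425832334) (nat_lit 84) (nat_lit 15406903) (nat_lit 102) (nat_lit 5) (nat_lit 107) (nat_lit 5) (nat_lit 103) (nat_lit 5) (nat_lit 274) (nat_lit 255) (nat_lit 191)) (XT.lf (nat_lit 0) (nat_lit 890125464) (nat_lit 336) (nat_lit 8531650379) (nat_lit 420) (nat_lit 5126538835) (nat_lit 98) (nat_lit 5) (nat_lit 102) (nat_lit 5) (nat_lit 103) (nat_lit 5) (nat_lit 275) (nat_lit 255) (nat_lit 190)))) (XT.nd (nat_lit 188) (nat_lit 336) (nat_lit 0) (XT.nd (nat_lit 94) (nat_lit 420) (nat_lit 0) (XT.lf (nat_lit 0) (nat_lit 9847747204) (nat_lit 336) (nat_lit 2507341569) (nat_lit 420) (nat_lit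 2591970897) (nat_lit 98) (nat_lit 5) (nat_lit 102) (nat_lit 5) (nat_lit 103) (nat_lit 5) (nat_lit 276) (nat_lit 255) (nat_lit 189)) (XT.lf (nat_lit 0) (nat_lit 164114352) (nat_lit 420) (nat_lit 11441806149) (nat_lit 84) (nat_lit 3754916906) (nat_lit 93) (nat_lit 5) (nat_lit 98) (nat_lit 5) (nat_lit 94) (nat_lit 5) (nat_lit 277) (nat_lit 255) (nat_lit 188))) (XT.nd (nat_lit 94) (nat_lit 336) (nat_lit 0) (XT.lf (nat_lit 0) (nat_lit 3074695264) (nat_lit 420) (nat_lit 2342595168) (nat_lit 84) (nat_lit 10370699101) (nat_lit 93) (nat_lit 5) (nat_lit 98) (nat_lit 5) (nat_lit 94) (nat_lit 5) (nat_lit 278) (nat_lit 255) (nat_lit 187)) (XT.lf (nat_lit 0) (nat_lit 6241415295) (nat_lit 420) (nat_lit 8831961425) (nat_lit 84) (nat_lit 1157592042) (nat_lit 89) (nat_lit 5) (nat_lit 94) (nat_lit 5) (nat_lit 90) (nat_lit 5) (nat_lit 279) (nat_lit 255) (nat_lit 186))))) (XT.nd (nat_lit 376)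 (nat_lit 840) (nat_lit 0) (XT.nd (nat_lit 188) (nat_lit 420) (nat_lit 0) (XT.nd (nat_lit 94) (nat_lit 0) (nat_lit 0) (XT.lf (nat_lit 0) (nat_lit 924050969) (nat_lit 252) (nat_lit 8762658441) (nat_lit 336) (nat_lit 7003375638) (nat_lit 86) (nat_lit 5) (nat_lit 89) (nat_lit 5) (nat_lit 90) (nat_lit 5) (nat_lit 280) (nat_lit 255) (nat_lit 185)) (XT.lf (nat_lit 0) (nat_lit 11444017000) (nat_lit 252) (nat_lit 1987139158) (nat_lit 336) (nat_lit 3734656594) (nat_lit 86) (nat_lit 5) (nat_lit 89) (nat_lit 5) (nat_lit 90) (nat_lit 5) (nat_lit 281) (nat_lit 255) (nat_lit 184))) (XT.nd (nat_lit 94) (nat_lit 84) (nat_lit 0) (XT.lf (nat_lit 0) (nat_lit 4870505677) (nat_lit 336) (nat_lit 12626689950) (nat_lit 420) (nat_lit 161412695) (nat_lit 82) (nat_lit 5) (nat_lit 86) (nat_lit 5) (nat_lit 87) (nat_lit 5) (nat_lit 282) (nat_lit 255) (nat_lit 183)) (XT.lf (nat_lit 0) (nat_lit 3585147074)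 (nat_lit 420) (nat_lit 2100564038) (nat_lit 84) (nat_lit 12482051080) (nat_lit 81) (nat_lit 5) (nat_lit 86) (nat_lit 5) (nat_lit 82) (nat_lit 5) (nat_lit 283) (nat_lit 255) (nat_lit 182)))) (XT.nd (nat_lit 188) (nat_lit 336) (nat_lit 0) (XT.nd (nat_lit 94) (nat_lit 252) (nat_lit 0) (XT.lf (nat_lit 0) (nat_lit 7667085390) (nat_lit 336) (nat_lit 9332783150) (nat_lit 84) (nat_lit 1694699156) (nat_lit 78) (nat_lit 5) (nat_lit 82) (nat_lit 5) (nat_lit 79) (nat_lit 5) (nat_lit 284) (nat_lit 255) (nat_lit 181)) (XT.lf (nat_lit 0) (nat_lit 2170752171) (nat_lit 252) (nat_lit 9925557108) (nat_lit 336) (nat_lit 7144244766) (nat_lit 75) (nat_lit 5) (nat_lit 78) (nat_lit 5) (nat_lit 79) (nat_lit 5) (nat_lit 285) (nat_lit 255) (nat_lit 180))) (XT.nd (nat_lit 94) (nat_lit 336) (nat_lit 0) (XT.lf (nat_lit 0) (nat_lit 14544771482) (nat_lit 252) (nat_lit 2340717044) (nat_lit 336) (nat_lit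 2921426475) (nat_lit 75) (nat_lit 5) (nat_lit 78) (nat_lit 5) (nat_lit 79) (nat_lit 5) (nat_lit 286) (nat_lit 255) (nat_lit 179)) (XT.nd (nat_lit 94) (nat_lit 0) (nat_lit 0) (XT.lf (nat_lit 0) (nat_lit 1649366265) (nat_lit 336) (nat_lit 13167005291) (nat_lit 84) (nat_lit 5574779504) (nat_lit 71) (nat_lit 5) (nat_lit 75) (nat_lit 5) (nat_lit 72) (nat_lit 5) (nat_lit 287) (nat_lit 255) (nat_lit 178)) (XT.lf (nat_lit 0) (nat_lit 6460865668) (nat_lit 336) (nat_lit 598725232) (nat_lit 84) (nat_lit 13937096104) (nat_lit 71) (nat_lit 5) (nat_lit 75) (nat_lit 5) (nat_lit 72) (nat_lit 5) (nat_lit 288) (nat_lit 255) (nat_lit 177))))))) (XT.nd (nat_lit 752) (nat_lit 924) (nat_lit 0) (XT.nd (nat_lit 376) (nat_lit 588) (nat_lit 0) (XT.nd (nat_lit 188) (nat_lit 336) (nat_lit 0) (XT.nd (nat_lit 94) (nat_lit 168) (nat_lit 0) (XT.lf (nat_lit 0) (nat_lit 11718100308) (nat_lit 336) (nat_lit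 8656692764) (nat_lit 84) (nat_lit 1247448660) (nat_lit 68) (nat_lit 5) (nat_lit 72) (nat_lit 5) (nat_lit 69) (nat_lit 5) (nat_lit 289) (nat_lit 255) (nat_lit 176)) (XT.lf (nat_lit 0) (nat_lit 4966069924) (nat_lit 168) (nat_lit 12458265423) (nat_lit 252) (nat_lit 4845431916) (nat_lit 66) (nat_lit 5) (nat_lit 68) (nat_lit 5) (nat_lit 69) (nat_lit 5) (nat_lit 290) (nat_lit 255) (nat_lit 175))) (XT.nd (nat_lit 94) (nat_lit 252) (nat_lit 0) (XT.lf (nat_lit 0) (nat_lit 583000206) (nat_lit 252) (nat_lit 3408876400) (nat_lit 84) (nat_lit 18950843077) (nat_lit 65) (nat_lit 5) (nat_lit 68) (nat_lit 5) (nat_lit 66) (nat_lit 5) (nat_lit 291) (nat_lit 255) (nat_lit 174)) (XT.lf (nat_lit 0) (nat_lit 6362721510) (nat_lit 336) (nat_lit 12276405717) (nat_lit 84) (nat_lit 4994085538) (nat_lit 62) (nat_lit 5) (nat_lit 66) (nat_lit 5) (nat_lit 63) (nat_lit 5) (nat_lit 292) (nat_lit 255) (nat_lit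 173)))) (XT.nd (nat_lit 188) (nat_lit 420) (nat_lit 0) (XT.nd (nat_lit 94) (nat_lit 0) (nat_lit 0) (XT.lf (nat_lit 0) (nat_lit 2614782776) (nat_lit 168) (nat_lit 9965347273) (nat_lit 252) (nat_lit 11770665395) (nat_lit 60) (nat_lit 5) (nat_lit 62) (nat_lit 5) (nat_lit 63) (nat_lit 5) (nat_lit 293) (nat_lit 255) (nat_lit 172)) (XT.lf (nat_lit 0) (nat_lit 18650865152) (nat_lit 168) (nat_lit 649579233) (nat_lit 252) (nat_lit 5794211101) (nat_lit 60) (nat_lit 5) (nat_lit 62) (nat_lit 5) (nat_lit 63) (nat_lit 5) (nat_lit 294) (nat_lit 255) (nat_lit 171))) (XT.nd (nat_lit 94) (nat_lit 168) (nat_lit 0) (XT.lf (nat_lit 0) (nat_lit 749906804) (nat_lit 252) (nat_lit 16116301760) (nat_lit 84) (nat_lit 8994912528) (nat_lit 57) (nat_lit 5) (nat_lit 60) (nat_lit 5) (nat_lit 58) (nat_lit 5) (nat_lit 295) (nat_lit 255) (nat_lit 170)) (XT.lf (nat_lit 0) (nat_lit 179082765) (nat_lit 168)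 (nat_lit 7356616767) (nat_lit 252) (nat_lit 19120001472) (nat_lit 55) (nat_lit 5) (nat_lit 57) (nat_lit 5) (nat_lit 58) (nat_lit 5) (nat_lit 296) (nat_lit 255) (nat_lit 169))))) (XT.nd (nat_lit 376) (nat_lit 504) (nat_lit 0) (XT.nd (nat_lit 188) (nat_lit 252) (nat_lit 0) (XT.nd (nat_lit 94) (nat_lit 168) (nat_lit 0) (XT.lf (nat_lit 0) (nat_lit 14964236501) (nat_lit 252) (nat_lit 9698636155) (nat_lit 84) (nat_lit 2811964526) (nat_lit 55) (nat_lit 5) (nat_lit 58) (nat_lit 5) (nat_lit 56) (nat_lit 5) (nat_lit 297) (nat_lit 255) (nat_lit 168)) (XT.lf (nat_lit 0) (nat_lit 8030362402) (nat_lit 168) (nat_lit 14965533993) (nat_lit 252) (nat_lit 5327448968) (nat_lit 53) (nat_lit 5) (nat_lit 55) (nat_lit 5) (nat_lit 56) (nat_lit 5) (nat_lit 298) (nat_lit 255) (nat_lit 167))) (XT.nd (nat_lit 94) (nat_lit 168) (nat_lit 0) (XT.lf (nat_lit 0) (nat_lit 2296711660) (nat_lit 252) (nat_lit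 2285195303) (nat_lit 84) (nat_lit 24623005948) (nat_lit 52) (nat_lit 5) (nat_lit 55) (nat_lit 5) (nat_lit 53) (nat_lit 5) (nat_lit 299) (nat_lit 255) (nat_lit 166)) (XT.lf (nat_lit 0) (nat_lit 10480179259) (nat_lit 252) (nat_lit 13159484160) (nat_lit 84) (nat_lit 6468671847) (nat_lit 50) (nat_lit 5) (nat_lit 53) (nat_lit 5) (nat_lit 51) (nat_lit 5) (nat_lit 300) (nat_lit 255) (nat_lit 165)))) (XT.nd (nat_lit 188) (nat_lit 336) (nat_lit 0) (XT.nd (nat_lit 94) (nat_lit 0) (nat_lit 0) (XT.lf (nat_lit 0) (nat_lit 6270533391) (nat_lit 168) (nat_lit 13001246742) (nat_lit 252) (nat_lit 11775200612) (nat_lit 48) (nat_lit 5) (nat_lit 50) (nat_lit 5) (nat_lit 51) (nat_lit 5) (nat_lit 301) (nat_lit 255) (nat_lit 164)) (XT.lf (nat_lit 0) (nat_lit 27105938008) (nat_lit 168) (nat_lit 1606774793) (nat_lit 252) (nat_lit 3309358109) (nat_lit 48) (nat_lit 5) (nat_lit 50) (nat_lit 5) (nat_lit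 51) (nat_lit 5) (nat_lit 302) (nat_lit 255) (nat_lit 163))) (XT.nd (nat_lit 94) (nat_lit 168) (nat_lit 0) (XT.lf (nat_lit 0) (nat_lit 5810956039) (nat_lit 168) (nat_lit 16845489008) (nat_lit 84) (nat_lit 10364626378) (nat_lit 46) (nat_lit 5) (nat_lit 48) (nat_lit 5) (nat_lit 47) (nat_lit 5) (nat_lit 303) (nat_lit 255) (nat_lit 162)) (XT.nd (nat_lit 94) (nat_lit 0) (nat_lit 0) (XT.lf (nat_lit 0) (nat_lit 4465240051) (nat_lit 168) (nat_lit 10978929364) (nat_lit 252) (nat_lit 18614734979) (nat_lit 44) (nat_lit 5) (nat_lit 46) (nat_lit 5) (nat_lit 47) (nat_lit 5) (nat_lit 304) (nat_lit 255) (nat_lit 161)) (XT.lf (nat_lit 0) (nat_lit 25856554402) (nat_lit 252) (nat_lit 7755243732) (nat_lit 84) (nat_lit 1521955331) (nat_lit 44) (nat_lit 5) (nat_lit 47) (nat_lit 5) (nat_lit 45) (nat_lit 4) (nat_lit 305) (nat_lit 255) (nat_lit 160))))))))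
noncomputable def xc128 : XT := (XT.nd (nat_lit 1504) (nat_lit 1344) (nat_lit 0) (XT.nd (nat_lit 752) (nat_lit 840) (nat_lit 0) (XT.nd (nat_lit 376) (nat_lit 420) (nat_lit 0) (XT.nd (nat_lit 188) (nat_lit 84) (nat_lit 0) (XT.nd (nat_lit 94) (nat_lit 168) (nat_lit 0) (XT.lf (nat_lit 0) (nat_lit 926666488) (nat_lit 168) (nat_lit 20788047958) (nat_lit 84) (nat_lit 14526402633) (nat_lit 42) (nat_lit 5) (nat_lit 44) (nat_lit 5) (nat_lit 43) (nat_lit 5) (nat_lit 306) (nat_lit 255) (nat_lit 159)) (XT.lf (nat_lit 0) (nat_lit 2601284063) (nat_lit 168) (nat_lit 8889935982) (nat_lit 252) (nat_lit 25896911092) (nat_lit 40) (nat_lit 5) (nat_lit 42) (nat_lit 5) (nat_lit 43) (nat_lit 5) (nat_lit 307) (nat_lit 255) (nat_lit 158))) (XT.nd (nat_lit 94) (nat_lit 84) (nat_lit 0) (XT.lf (nat_lit 0) (nat_lit 23001522384) (nat_lit 252) (nat_lit 10791892769) (nat_lit 84) (nat_lit 4778204689) (nat_lit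 40) (nat_lit 5) (nat_lit 43) (nat_lit 5) (nat_lit 41) (nat_lit 4) (nat_lit 308) (nat_lit 255) (nat_lit 157)) (XT.lf (nat_lit 0) (nat_lit 14707244295) (nat_lit 84) (nat_lit 20744261687) (nat_lit 168) (nat_lit 4344568694) (nat_lit 39) (nat_lit 5) (nat_lit 40) (nat_lit 5) (nat_lit 41) (nat_lit 4) (nat_lit 309) (nat_lit 255) (nat_lit 156)))) (XT.nd (nat_lit 188) (nat_lit 168) (nat_lit 0) (XT.nd (nat_lit 94) (nat_lit 0) (nat_lit 0) (XT.lf (nat_lit 0) (nat_lit 664895584) (nat_lit 168) (nat_lit 6724131368) (nat_lit 252) (nat_lit 33677666168) (nat_lit 36) (nat_lit 5) (nat_lit 38) (nat_lit 5) (nat_lit 39) (nat_lit 5) (nat_lit 310) (nat_lit 255) (nat_lit 155)) (XT.lf (nat_lit 0) (nat_lit 20108923909) (nat_lit 252) (nat_lit 14025964780) (nat_lit 84) (nat_lit 8235111298) (nat_lit 36) (nat_lit 5) (nat_lit 39) (nat_lit 5) (nat_lit 37) (nat_lit 4) (nat_lit 311) (nat_lit 255) (nat_lit 154)))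 (XT.nd (nat_lit 94) (nat_lit 84) (nat_lit 0) (XT.lf (nat_lit 0) (nat_lit 13986405296) (nat_lit 84) (nat_lit 19796451861) (nat_lit 168) (nat_lit 9939712968) (nat_lit 35) (nat_lit 5) (nat_lit 36) (nat_lit 5) (nat_lit 37) (nat_lit 4) (nat_lit 312) (nat_lit 255) (nat_lit 153)) (XT.lf (nat_lit 0) (nat_lit 3132676645) (nat_lit 168) (nat_lit 1314950753) (nat_lit 84) (nat_lit 40681256031) (nat_lit 34) (nat_lit 5) (nat_lit 36) (nat_lit 5) (nat_lit 35) (nat_lit 5) (nat_lit 313) (nat_lit 255) (nat_lit 152))))) (XT.nd (nat_lit 376) (nat_lit 336) (nat_lit 0) (XT.nd (nat_lit 188) (nat_lit 252) (nat_lit 0) (XT.nd (nat_lit 94) (nat_lit 84) (nat_lit 0) (XT.lf (nat_lit 0) (nat_lit 17164018027) (nat_lit 252) (nat_lit 17484372276) (nat_lit 84) (nat_lit 11917006198) (nat_lit 32) (nat_lit 5) (nat_lit 35) (nat_lit 5) (nat_lit 33) (nat_lit 4) (nat_lit 314) (nat_lit 255) (nat_lit 151)) (XT.lf (nat_lit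 0) (nat_lit 13303525505) (nat_lit 84) (nat_lit 18886681779) (nat_lit 168) (nat_lit 15868863902) (nat_lit 31) (nat_lit 5) (nat_lit 32) (nat_lit 5) (nat_lit 33) (nat_lit 4) (nat_lit 315) (nat_lit 255) (nat_lit 150))) (XT.nd (nat_lit 94) (nat_lit 252) (nat_lit 0) (XT.lf (nat_lit 0) (nat_lit 46219317965) (nat_lit 84) (nat_lit 2034709193) (nat_lit 168) (nat_lit 1359086389) (nat_lit 31) (nat_lit 5) (nat_lit 32) (nat_lit 5) (nat_lit 33) (nat_lit 4) (nat_lit 316) (nat_lit 255) (nat_lit 149)) (XT.lf (nat_lit 0) (nat_lit 14150848746) (nat_lit 252) (nat_lit 21196245674) (nat_lit 84) (nat_lit 15850991646) (nat_lit 28) (nat_lit 5) (nat_lit 31) (nat_lit 5) (nat_lit 29) (nat_lit 4) (nat_lit 317) (nat_lit 255) (nat_lit 148)))) (XT.nd (nat_lit 188) (nat_lit 252) (nat_lit 0) (XT.nd (nat_lit 94) (nat_lit 0) (nat_lit 0) (XT.lf (nat_lit 0) (nat_lit 12656153122) (nat_lit 84) (nat_lit 18014397784)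 (nat_lit 168) (nat_lit 22176645074) (nat_lit 27) (nat_lit 5) (nat_lit 28) (nat_lit 5) (nat_lit 29) (nat_lit 4) (nat_lit 318) (nat_lit 255) (nat_lit 147)) (XT.lf (nat_lit 0) (nat_lit 48374592291) (nat_lit 168) (nat_lit 5650562218) (nat_lit 0) (nat_lit 535689177) (nat_lit 27) (nat_lit 5) (nat_lit 29) (nat_lit 4) (nat_lit 27) (nat_lit 4) (nat_lit 319) (nat_lit 255) (nat_lit 146))) (XT.nd (nat_lit 94) (nat_lit 84) (nat_lit 0) (XT.lf (nat_lit 0) (nat_lit 11052145876) (nat_lit 168) (nat_lit 25193225865) (nat_lit 84) (nat_lit 20067131026) (nat_lit 25) (nat_lit 5) (nat_lit 27) (nat_lit 5) (nat_lit 26) (nat_lit 4) (nat_lit 320) (nat_lit 255) (nat_lit 145)) (XT.lf (nat_lit 0) (nat_lit 12042067320) (nat_lit 84) (nat_lit 17178849586) (nat_lit 168) (nat_lit 28911939572) (nat_lit 24) (nat_lit 5) (nat_lit 25) (nat_lit 5) (nat_lit 26) (nat_lit 4) (nat_lit 321) (nat_lit 255) (nat_lit 144))))))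 (XT.nd (nat_lit 752) (nat_lit 672) (nat_lit 0) (XT.nd (nat_lit 376) (nat_lit 420) (nat_lit 0) (XT.nd (nat_lit 188) (nat_lit 84) (nat_lit 0) (XT.nd (nat_lit 94) (nat_lit 168) (nat_lit 0) (XT.lf (nat_lit 0) (nat_lit 48767248032) (nat_lit 168) (nat_lit 8077695582) (nat_lit 0) (nat_lit 3175828185) (nat_lit 24) (nat_lit 5) (nat_lit 26) (nat_lit 4) (nat_lit 24) (nat_lit 4) (nat_lit 322) (nat_lit 255) (nat_lit 143)) (XT.lf (nat_lit 0) (nat_lit 7849207510) (nat_lit 168) (nat_lit 29509776651) (nat_lit 84) (nat_lit 24598677053) (nat_lit 22) (nat_lit 5) (nat_lit 24) (nat_lit 5) (nat_lit 23) (nat_lit 4) (nat_lit 323) (nat_lit 255) (nat_lit 142))) (XT.nd (nat_lit 94) (nat_lit 0) (nat_lit 0) (XT.lf (nat_lit 0) (nat_lit 11459246990) (nat_lit 84) (nat_lit 16379139160) (nat_lit 168) (nat_lit 36128309601) (nat_lit 21) (nat_lit 5) (nat_lit 22) (nat_lit 5) (nat_lit 23) (nat_lit 4) (nat_lit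 324) (nat_lit 255) (nat_lit 141)) (XT.lf (nat_lit 0) (nat_lit 49414763719) (nat_lit 168) (nat_lit 10662809005) (nat_lit 0) (nat_lit 5969222293) (nat_lit 21) (nat_lit 5) (nat_lit 23) (nat_lit 4) (nat_lit 21) (nat_lit 4) (nat_lit 325) (nat_lit 255) (nat_lit 140)))) (XT.nd (nat_lit 188) (nat_lit 168) (nat_lit 0) (XT.nd (nat_lit 94) (nat_lit 84) (nat_lit 0) (XT.lf (nat_lit 0) (nat_lit 4521763876) (nat_lit 168) (nat_lit 34183520833) (nat_lit 84) (nat_lit 29482338767) (nat_lit 19) (nat_lit 5) (nat_lit 21) (nat_lit 5) (nat_lit 20) (nat_lit 4) (nat_lit 326) (nat_lit 255) (nat_lit 139)) (XT.lf (nat_lit 0) (nat_lit 10905844577) (nat_lit 84) (nat_lit 15614260314) (nat_lit 168) (nat_lit 43884465585) (nat_lit 18) (nat_lit 5) (nat_lit 19) (nat_lit 5) (nat_lit 20) (nat_lit 4) (nat_lit 327) (nat_lit 255) (nat_lit 138))) (XT.nd (nat_lit 94) (nat_lit 168) (nat_lit 0) (XT.lf (nat_lit 0) (nat_lit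 50333539890) (nat_lit 168) (nat_lit 13426916353) (nat_lit 0) (nat_lit 8936149736) (nat_lit 18) (nat_lit 5) (nat_lit 20) (nat_lit 4) (nat_lit 18) (nat_lit 4) (nat_lit 328) (nat_lit 255) (nat_lit 137)) (XT.lf (nat_lit 0) (nat_lit 1047821994) (nat_lit 168) (nat_lit 39255603781) (nat_lit 84) (nat_lit 34758588448) (nat_lit 16) (nat_lit 5) (nat_lit 18) (nat_lit 5) (nat_lit 17) (nat_lit 4) (nat_lit 329) (nat_lit 255) (nat_lit 136))))) (XT.nd (nat_lit 376) (nat_lit 336) (nat_lit 0) (XT.nd (nat_lit 188) (nat_lit 252) (nat_lit 0) (XT.nd (nat_lit 94) (nat_lit 0) (nat_lit 0) (XT.lf (nat_lit 0) (nat_lit 10380164103) (nat_lit 84) (nat_lit 14883130595) (nat_lit 168) (nat_lit 52244788506) (nat_lit 15) (nat_lit 5) (nat_lit 16) (nat_lit 5) (nat_lit 17) (nat_lit 4) (nat_lit 330) (nat_lit 255) (nat_lit 135)) (XT.lf (nat_lit 0) (nat_lit 51542032992) (nat_lit 168) (nat_lit 16392867718) (nat_lit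 0) (nat_lit 12098930325) (nat_lit 15) (nat_lit 5) (nat_lit 17) (nat_lit 4) (nat_lit 15) (nat_lit 4) (nat_lit 331) (nat_lit 255) (nat_lit 134))) (XT.nd (nat_lit 94) (nat_lit 168) (nat_lit 0) (XT.lf (nat_lit 0) (nat_lit 37831527356) (nat_lit 84) (nat_lit 42130605584) (nat_lit 84) (nat_lit 2682362082) (nat_lit 14) (nat_lit 4) (nat_lit 15) (nat_lit 5) (nat_lit 15) (nat_lit 4) (nat_lit 332) (nat_lit 255) (nat_lit 133)) (XT.lf (nat_lit 0) (nat_lit 9880642677) (nat_lit 84) (nat_lit 14184616938) (nat_lit 168) (nat_lit 61279909883) (nat_lit 12) (nat_lit 5) (nat_lit 13) (nat_lit 5) (nat_lit 14) (nat_lit 4) (nat_lit 333) (nat_lit 255) (nat_lit 132)))) (XT.nd (nat_lit 188) (nat_lit 252) (nat_lit 0) (XT.nd (nat_lit 94) (nat_lit 84) (nat_lit 0) (XT.lf (nat_lit 0) (nat_lit 53060963889) (nat_lit 168) (nat_lit 19585568390) (nat_lit 0) (nat_lit 15482104438) (nat_lit 12) (nat_lit 5) (nat_lit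 14) (nat_lit 4) (nat_lit 12) (nat_lit 4) (nat_lit 334) (nat_lit 255) (nat_lit 131)) (XT.lf (nat_lit 0) (nat_lit 40125457248) (nat_lit 84) (nat_lit 44233150578) (nat_lit 84) (nat_lit 6650061749) (nat_lit 11) (nat_lit 4) (nat_lit 12) (nat_lit 5) (nat_lit 12) (nat_lit 4) (nat_lit 335) (nat_lit 255) (nat_lit 130))) (XT.nd (nat_lit 94) (nat_lit 84) (nat_lit 0) (XT.lf (nat_lit 0) (nat_lit 9405834879) (nat_lit 84) (nat_lit 13517556187) (nat_lit 168) (nat_lit 71067354403) (nat_lit 9) (nat_lit 5) (nat_lit 10) (nat_lit 5) (nat_lit 11) (nat_lit 4) (nat_lit 336) (nat_lit 255) (nat_lit 129)) (XT.nd (nat_lit 94) (nat_lit 84) (nat_lit 0) (XT.lf (nat_lit 0) (nat_lit 54913545073) (nat_lit 168) (nat_lit 23032216027) (nat_lit 0) (nat_lit 19112637476) (nat_lit 9) (nat_lit 5) (nat_lit 11) (nat_lit 4) (nat_lit 9) (nat_lit 4) (nat_lit 337) (nat_lit 255) (nat_lit 128)) (XT.lf (nat_lit 0) (nat_lit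 42731197661) (nat_lit 84) (nat_lit 46654255732) (nat_lit 84) (nat_lit 10849868615) (nat_lit 8) (nat_lit 4) (nat_lit 9) (nat_lit 5) (nat_lit 9) (nat_lit 4) (nat_lit 338) (nat_lit 255) (nat_lit 127))))))))
noncomputable def xc129 : XT := (XT.nd (nat_lit 38070) (nat_lit 0) (nat_lit 7812) (XT.nd (nat_lit 752) (nat_lit 0) (nat_lit 0) (XT.nd (nat_lit 376) (nat_lit 252) (nat_lit 0) (XT.nd (nat_lit 188) (nat_lit 252) (nat_lit 0) (XT.nd (nat_lit 94) (nat_lit 0) (nat_lit 0) (XT.lf (nat_lit 0) (nat_lit 8954399533) (nat_lit 84) (nat_lit 12880771431) (nat_lit 168) (nat_lit 81692250933) (nat_lit 6) (nat_lit 5) (nat_lit 7) (nat_lit 5) (nat_lit 8) (nat_lit 4) (nat_lit 339) (nat_lit 255) (nat_lit 126)) (XT.lf (nat_lit 0) (nat_lit 57125729123) (nat_lit 168) (nat_lit 26762558602) (nat_lit 0) (nat_lit 23020151055) (nat_lit 6) (nat_lit 5) (nat_lit 8) (nat_lit 4) (nat_lit 6) (nat_lit 4) (nat_lit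 340) (nat_lit 255) (nat_lit 125))) (XT.nd (nat_lit 94) (nat_lit 168) (nat_lit 0) (XT.lf (nat_lit 0) (nat_lit 45676833587) (nat_lit 84) (nat_lit 49422103744) (nat_lit 84) (nat_lit 15313663067) (nat_lit 5) (nat_lit 4) (nat_lit 6) (nat_lit 5) (nat_lit 6) (nat_lit 4) (nat_lit 341) (nat_lit 255) (nat_lit 124)) (XT.lf (nat_lit 0) (nat_lit 8525088466) (nat_lit 84) (nat_lit 12273084917) (nat_lit 168) (nat_lit 93248118325) (nat_lit 3) (nat_lit 5) (nat_lit 4) (nat_lit 5) (nat_lit 5) (nat_lit 4) (nat_lit 342) (nat_lit 255) (nat_lit 123)))) (XT.nd (nat_lit 188) (nat_lit 168) (nat_lit 0) (XT.nd (nat_lit 94) (nat_lit 84) (nat_lit 0) (XT.lf (nat_lit 0) (nat_lit 59726481076) (nat_lit 168) (nat_lit 30809175819) (nat_lit 0) (nat_lit 27237182560) (nat_lit 3) (nat_lit 5) (nat_lit 5) (nat_lit 4) (nat_lit 3) (nat_lit 4) (nat_lit 343) (nat_lit 255) (nat_lit 122)) (XT.lf (nat_lit 0) (nat_lit 48993553001)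 (nat_lit 84) (nat_lit 52567901335) (nat_lit 84) (nat_lit 20076247743) (nat_lit 2) (nat_lit 4) (nat_lit 3) (nat_lit 5) (nat_lit 3) (nat_lit 4) (nat_lit 344) (nat_lit 255) (nat_lit 121))) (XT.nd (nat_lit 94) (nat_lit 0) (nat_lit 0) (XT.lf (nat_lit 0) (nat_lit 182444224693) (nat_lit 0) (nat_lit 0) (nat_lit 0) (nat_lit 0) (nat_lit 0) (nat_lit 0) (nat_lit 1) (nat_lit 0) (nat_lit 1) (nat_lit 0) (nat_lit 345) (nat_lit 255) (nat_lit 120)) (XT.lf (nat_lit 0) (nat_lit 191454523908) (nat_lit 0) (nat_lit 0) (nat_lit 0) (nat_lit 0) (nat_lit 0) (nat_lit 0) (nat_lit 1) (nat_lit 0) (nat_lit 1) (nat_lit 0) (nat_lit 346) (nat_lit 255) (nat_lit 119))))) (XT.nd (nat_lit 36848) (nat_lit 0) (nat_lit 11676) (XT.nd (nat_lit 36660) (nat_lit 0) (nat_lit 11676) (XT.nd (nat_lit 94) (nat_lit 0) (nat_lit 0) (XT.lf (nat_lit 0) (nat_lit 200915352389) (nat_lit 0) (nat_lit 0) (nat_lit 0) (nat_lit 0) (nat_lit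 0) (nat_lit 0) (nat_lit 1) (nat_lit 0) (nat_lit 1) (nat_lit 0) (nat_lit 347) (nat_lit 255) (nat_lit 118)) (XT.lf (nat_lit 0) (nat_lit 210849235918) (nat_lit 0) (nat_lit 0) (nat_lit 0) (nat_lit 0) (nat_lit 0) (nat_lit 0) (nat_lit 1) (nat_lit 0) (nat_lit 1) (nat_lit 0) (nat_lit 348) (nat_lit 255) (nat_lit 117))) (XT.nd (nat_lit 94) (nat_lit 0) (nat_lit 0) (XT.lf (nat_lit 0) (nat_lit 507556262) (nat_lit 0) (nat_lit 507556262) (nat_lit 756) (nat_lit 3693348957) (nat_lit 139) (nat_lit 5) (nat_lit 139) (nat_lit 3) (nat_lit 148) (nat_lit 3) (nat_lit 256) (nat_lit 256) (nat_lit 208)) (XT.lf (nat_lit 0) (nat_lit 2936941519) (nat_lit 756) (nat_lit 3727595678) (nat_lit 840) (nat_lit 2945010800) (nat_lit 139) (nat_lit 5) (nat_lit 148) (nat_lit 3) (nat_lit 149) (nat_lit 5) (nat_lit 257) (nat_lit 256) (nat_lit 207)))) (XT.nd (nat_lit 188) (nat_lit 0) (nat_lit 84) (XT.nd (nat_lit 94) (nat_lit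 0) (nat_lit 84) (XT.lf (nat_lit 84) (nat_lit 1172343586) (nat_lit 0) (nat_lit 2700247395) (nat_lit 840) (nat_lit 5940033440) (nat_lit 140) (nat_lit 5) (nat_lit 139) (nat_lit 5) (nat_lit 149) (nat_lit 5) (nat_lit 258) (nat_lit 256) (nat_lit 206)) (XT.lf (nat_lit 0) (nat_lit 4892997480) (nat_lit 756) (nat_lit 3631065593) (nat_lit 840) (nat_lit 1499892867) (nat_lit 140) (nat_lit 5) (nat_lit 149) (nat_lit 5) (nat_lit 150) (nat_lit 5) (nat_lit 259) (nat_lit 256) (nat_lit 205))) (XT.nd (nat_lit 94) (nat_lit 0) (nat_lit 84) (XT.lf (nat_lit 84) (nat_lit 1606036740) (nat_lit 0) (nat_lit 4381043982) (nat_lit 840) (nat_lit 4257640491) (nat_lit 141) (nat_lit 5) (nat_lit 140) (nat_lit 5) (nat_lit 150) (nat_lit 5) (nat_lit 260) (nat_lit 256) (nat_lit 204)) (XT.nd (nat_lit 94) (nat_lit 0) (nat_lit 0) (XT.lf (nat_lit 0) (nat_lit 7153214992) (nat_lit 756) (nat_lit 3274641670) (nat_lit 840)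 (nat_lit 47800745) (nat_lit 141) (nat_lit 5) (nat_lit 150) (nat_lit 5) (nat_lit 151) (nat_lit 5) (nat_lit 261) (nat_lit 256) (nat_lit 203)) (XT.lf (nat_lit 84) (nat_lit 2330150698) (nat_lit 0) (nat_lit 6113160085) (nat_lit 840) (nat_lit 2271546887) (nat_lit 142) (nat_lit 5) (nat_lit 141) (nat_lit 5) (nat_lit 151) (nat_lit 5) (nat_lit 262) (nat_lit 256) (nat_lit 202))))))) (XT.nd (nat_lit 752) (nat_lit 2016) (nat_lit 0) (XT.nd (nat_lit 376) (nat_lit 1260) (nat_lit 0) (XT.nd (nat_lit 188) (nat_lit 0) (nat_lit 0) (XT.nd (nat_lit 94) (nat_lit 756) (nat_lit 0) (XT.lf (nat_lit 84) (nat_lit 8299146576) (nat_lit 0) (nat_lit 1513238570) (nat_lit 840) (nat_lit 1152909111) (nat_lit 142) (nat_lit 5) (nat_lit 141) (nat_lit 5) (nat_lit 151) (nat_lit 5) (nat_lit 263) (nat_lit 256) (nat_lit 201)) (XT.lf (nat_lit 0) (nat_lit 87476044) (nat_lit 840) (nat_lit 7862600391) (nat_lit 924) (nat_lit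 3274833890) (nat_lit 132) (nat_lit 5) (nat_lit 142) (nat_lit 5) (nat_lit 143) (nat_lit 5) (nat_lit 264) (nat_lit 256) (nat_lit 200))) (XT.nd (nat_lit 94) (nat_lit 0) (nat_lit 84) (XT.lf (nat_lit 0) (nat_lit 1383739077) (nat_lit 840) (nat_lit 1786140777) (nat_lit 924) (nat_lit 8325052140) (nat_lit 132) (nat_lit 5) (nat_lit 142) (nat_lit 5) (nat_lit 143) (nat_lit 5) (nat_lit 265) (nat_lit 256) (nat_lit 199)) (XT.lf (nat_lit 0) (nat_lit 2812335875) (nat_lit 840) (nat_lit 7091419141) (nat_lit 84) (nat_lit 1871323699) (nat_lit 133) (nat_lit 5) (nat_lit 143) (nat_lit 5) (nat_lit 134) (nat_lit 5) (nat_lit 266) (nat_lit 256) (nat_lit 198)))) (XT.nd (nat_lit 188) (nat_lit 504) (nat_lit 0) (XT.nd (nat_lit 94) (nat_lit 840) (nat_lit 0) (XT.lf (nat_lit 0) (nat_lit 4360152462) (nat_lit 840) (nat_lit 612293425) (nat_lit 84) (nat_lit 7094397388) (nat_lit 133) (nat_lit 5) (nat_lit 143)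 (nat_lit 5) (nat_lit 134) (nat_lit 5) (nat_lit 267) (nat_lit 256) (nat_lit 197)) (XT.lf (nat_lit 0) (nat_lit 6056370146) (nat_lit 924) (nat_lit 6009871364) (nat_lit 84) (nat_lit 303404039) (nat_lit 123) (nat_lit 5) (nat_lit 134) (nat_lit 5) (nat_lit 124) (nat_lit 5) (nat_lit 268) (nat_lit 256) (nat_lit 196))) (XT.nd (nat_lit 94) (nat_lit 0) (nat_lit 0) (XT.lf (nat_lit 0) (nat_lit 932008564) (nat_lit 504) (nat_lit 6979915079) (nat_lit 588) (nat_lit 4771938050) (nat_lit 117) (nat_lit 5) (nat_lit 123) (nat_lit 5) (nat_lit 124) (nat_lit 5) (nat_lit 269) (nat_lit 256) (nat_lit 195)) (XT.lf (nat_lit 0) (nat_lit 8399358738) (nat_lit 504) (nat_lit 1531649871) (nat_lit 588) (nat_lit 3079242343) (nat_lit 117) (nat_lit 5) (nat_lit 123) (nat_lit 5) (nat_lit 124) (nat_lit 5) (nat_lit 270) (nat_lit 256) (nat_lit 194))))) (XT.nd (nat_lit 376) (nat_lit 1092) (nat_lit 0) (XT.nd (nat_lit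 188) (nat_lit 420) (nat_lit 0) (XT.nd (nat_lit 94) (nat_lit 84) (nat_lit 0) (XT.lf (nat_lit 0) (nat_lit 2883690381) (nat_lit 420) (nat_lit 9248244768) (nat_lit 504) (nat_lit 1216980159) (nat_lit 112) (nat_lit 5) (nat_lit 117) (nat_lit 5) (nat_lit 118) (nat_lit 5) (nat_lit 271) (nat_lit 256) (nat_lit 193)) (XT.lf (nat_lit 0) (nat_lit 790173077) (nat_lit 504) (nat_lit 2856236183) (nat_lit 84) (nat_lit 10053756640) (nat_lit 111) (nat_lit 5) (nat_lit 117) (nat_lit 5) (nat_lit 112) (nat_lit 5) (nat_lit 272) (nat_lit 256) (nat_lit 192))) (XT.nd (nat_lit 94) (nat_lit 0) (nat_lit 0) (XT.lf (nat_lit 0) (nat_lit 2947651043) (nat_lit 504) (nat_lit 8849790632) (nat_lit 84) (nat_lit 2265996544) (nat_lit 106) (nat_lit 5) (nat_lit 112) (nat_lit 5) (nat_lit 107) (nat_lit 5) (nat_lit 273) (nat_lit 256) (nat_lit 191)) (XT.lf (nat_lit 0) (nat_lit 5295099142) (nat_lit 504) (nat_lit 746999709)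 (nat_lit 84) (nat_lit 8398670491) (nat_lit 106) (nat_lit 5) (nat_lit 112) (nat_lit 5) (nat_lit 107) (nat_lit 5) (nat_lit 274) (nat_lit 256) (nat_lit 190)))) (XT.nd (nat_lit 188) (nat_lit 420) (nat_lit 0) (XT.nd (nat_lit 94) (nat_lit 336) (nat_lit 0) (XT.lf (nat_lit 0) (nat_lit 7861076271) (nat_lit 420) (nat_lit 6846153617) (nat_lit 84) (nat_lit 124679302) (nat_lit 102) (nat_lit 5) (nat_lit 107) (nat_lit 5) (nat_lit 103) (nat_lit 5) (nat_lit 275) (nat_lit 256) (nat_lit 189)) (XT.lf (nat_lit 0) (nat_lit 1870263840) (nat_lit 336) (nat_lit 8801352198) (nat_lit 420) (nat_lit 4565176803) (nat_lit 98) (nat_lit 5) (nat_lit 102) (nat_lit 5) (nat_lit 103) (nat_lit 5) (nat_lit 276) (nat_lit 256) (nat_lit 188))) (XT.nd (nat_lit 94) (nat_lit 420) (nat_lit 0) (XT.lf (nat_lit 0) (nat_lit 11231212757) (nat_lit 336) (nat_lit 2483298458) (nat_lit 420) (nat_lit 1942818039) (nat_lit 98) (nat_lit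 5) (nat_lit 102) (nat_lit 5) (nat_lit 103) (nat_lit 5) (nat_lit 277) (nat_lit 256) (nat_lit 187)) (XT.nd (nat_lit 94) (nat_lit 0) (nat_lit 0) (XT.lf (nat_lit 0) (nat_lit 906962898) (nat_lit 420) (nat_lit 11078709689) (nat_lit 84) (nat_lit 4106474548) (nat_lit 93) (nat_lit 5) (nat_lit 98) (nat_lit 5) (nat_lit 94) (nat_lit 5) (nat_lit 278) (nat_lit 256) (nat_lit 186)) (XT.lf (nat_lit 0) (nat_lit 3928089865) (nat_lit 420) (nat_lit 1569070862) (nat_lit 84) (nat_lit 11045245291) (nat_lit 93) (nat_lit 5) (nat_lit 98) (nat_lit 5) (nat_lit 94) (nat_lit 5) (nat_lit 279) (nat_lit 256) (nat_lit 185))))))))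
noncomputable def xc130 : XT := (XT.nd (nat_lit 1598) (nat_lit 1848) (nat_lit 0) (XT.nd (nat_lit 752) (nat_lit 1512) (nat_lit 0) (XT.nd (nat_lit 376) (nat_lit 504) (nat_lit 0) (XT.nd (nat_lit 188) (nat_lit 420) (nat_lit 0) (XT.nd (nat_lit 94) (nat_lit 252) (nat_lit 0) (XT.lf (nat_lit 0) (nat_lit 7236574325) (nat_lit 420) (nat_lit 8366333860) (nat_lit 84) (nat_lit 1405454601) (nat_lit 89) (nat_lit 5) (nat_lit 94) (nat_lit 5) (nat_lit 90) (nat_lit 5) (nat_lit 280) (nat_lit 256) (nat_lit 184)) (XT.lf (nat_lit 0) (nat_lit 1862846482) (nat_lit 252) (nat_lit 8972694529) (nat_lit 336) (nat_lit 6655823483) (nat_lit 86) (nat_lit 5) (nat_lit 89) (nat_lit 5) (nat_lit 90) (nat_lit 5) (nat_lit 281) (nat_lit 256) (nat_lit 183))) (XT.nd (nat_lit 94) (nat_lit 420) (nat_lit 0) (XT.lf (nat_lit 0) (nat_lit 12866306388) (nat_lit 252) (nat_lit 1869261036) (nat_lit 336) (nat_lit 3256893293) (nat_lit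 86) (nat_lit 5) (nat_lit 89) (nat_lit 5) (nat_lit 90) (nat_lit 5) (nat_lit 282) (nat_lit 256) (nat_lit 182)) (XT.lf (nat_lit 0) (nat_lit 465535826) (nat_lit 420) (nat_lit 12539871631) (nat_lit 84) (nat_lit 5504783855) (nat_lit 81) (nat_lit 5) (nat_lit 86) (nat_lit 5) (nat_lit 82) (nat_lit 5) (nat_lit 283) (nat_lit 256) (nat_lit 181)))) (XT.nd (nat_lit 188) (nat_lit 252) (nat_lit 0) (XT.nd (nat_lit 94) (nat_lit 252) (nat_lit 0) (XT.lf (nat_lit 0) (nat_lit 4364018362) (nat_lit 420) (nat_lit 1362744586) (nat_lit 84) (nat_lit 13319406657) (nat_lit 81) (nat_lit 5) (nat_lit 86) (nat_lit 5) (nat_lit 82) (nat_lit 5) (nat_lit 284) (nat_lit 256) (nat_lit 180)) (XT.lf (nat_lit 0) (nat_lit 8638276488) (nat_lit 336) (nat_lit 8944797547) (nat_lit 84) (nat_lit 2016830206) (nat_lit 78) (nat_lit 5) (nat_lit 82) (nat_lit 5) (nat_lit 79) (nat_lit 5) (nat_lit 285) (nat_lit 256) (nat_lit 179)))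 (XT.nd (nat_lit 94) (nat_lit 0) (nat_lit 0) (XT.lf (nat_lit 0) (nat_lit 3120130270) (nat_lit 252) (nat_lit 10153966947) (nat_lit 336) (nat_lit 6899835906) (nat_lit 75) (nat_lit 5) (nat_lit 78) (nat_lit 5) (nat_lit 79) (nat_lit 5) (nat_lit 286) (nat_lit 256) (nat_lit 178)) (XT.lf (nat_lit 0) (nat_lit 16072810523) (nat_lit 252) (nat_lit 2202640500) (nat_lit 336) (nat_lit 2494525325) (nat_lit 75) (nat_lit 5) (nat_lit 78) (nat_lit 5) (nat_lit 79) (nat_lit 5) (nat_lit 287) (nat_lit 256) (nat_lit 177))))) (XT.nd (nat_lit 376) (nat_lit 756) (nat_lit 0) (XT.nd (nat_lit 188) (nat_lit 168) (nat_lit 0) (XT.nd (nat_lit 94) (nat_lit 252) (nat_lit 0) (XT.lf (nat_lit 0) (nat_lit 2276779300) (nat_lit 336) (nat_lit 12996527336) (nat_lit 84) (nat_lit 6110154740) (nat_lit 71) (nat_lit 5) (nat_lit 75) (nat_lit 5) (nat_lit 72) (nat_lit 5) (nat_lit 288) (nat_lit 256) (nat_lit 176)) (XT.lf (nat_lit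 0) (nat_lit 166012139) (nat_lit 252) (nat_lit 7139483700) (nat_lit 336) (nat_lit 14714946171) (nat_lit 68) (nat_lit 5) (nat_lit 71) (nat_lit 5) (nat_lit 72) (nat_lit 5) (nat_lit 289) (nat_lit 256) (nat_lit 175))) (XT.nd (nat_lit 94) (nat_lit 168) (nat_lit 0) (XT.lf (nat_lit 0) (nat_lit 12814630527) (nat_lit 336) (nat_lit 8291797423) (nat_lit 84) (nat_lit 1571394608) (nat_lit 68) (nat_lit 5) (nat_lit 72) (nat_lit 5) (nat_lit 69) (nat_lit 5) (nat_lit 290) (nat_lit 256) (nat_lit 174)) (XT.lf (nat_lit 0) (nat_lit 5999236787) (nat_lit 168) (nat_lit 12794878962) (nat_lit 252) (nat_lit 4564211696) (nat_lit 66) (nat_lit 5) (nat_lit 68) (nat_lit 5) (nat_lit 69) (nat_lit 5) (nat_lit 291) (nat_lit 256) (nat_lit 173)))) (XT.nd (nat_lit 188) (nat_lit 420) (nat_lit 0) (XT.nd (nat_lit 94) (nat_lit 252) (nat_lit 0) (XT.lf (nat_lit 0) (nat_lit 1094756701) (nat_lit 252) (nat_lit 2815874150)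 (nat_lit 84) (nat_lit 20155094493) (nat_lit 65) (nat_lit 5) (nat_lit 68) (nat_lit 5) (nat_lit 66) (nat_lit 5) (nat_lit 292) (nat_lit 256) (nat_lit 172)) (XT.lf (nat_lit 0) (nat_lit 7156578240) (nat_lit 336) (nat_lit 12119894102) (nat_lit 84) (nat_lit 5514615029) (nat_lit 62) (nat_lit 5) (nat_lit 66) (nat_lit 5) (nat_lit 63) (nat_lit 5) (nat_lit 293) (nat_lit 256) (nat_lit 171))) (XT.nd (nat_lit 94) (nat_lit 252) (nat_lit 0) (XT.lf (nat_lit 0) (nat_lit 3503429107) (nat_lit 168) (nat_lit 10170607789) (nat_lit 252) (nat_lit 11871053303) (nat_lit 60) (nat_lit 5) (nat_lit 62) (nat_lit 5) (nat_lit 63) (nat_lit 5) (nat_lit 294) (nat_lit 256) (nat_lit 170)) (XT.nd (nat_lit 94) (nat_lit 252) (nat_lit 0) (XT.lf (nat_lit 0) (nat_lit 20305224784) (nat_lit 168) (nat_lit 403004054) (nat_lit 252) (nat_lit 5619021311) (nat_lit 60) (nat_lit 5) (nat_lit 62) (nat_lit 5) (nat_lit 63) (nat_lit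 5) (nat_lit 295) (nat_lit 256) (nat_lit 169)) (XT.lf (nat_lit 0) (nat_lit 1231757785) (nat_lit 252) (nat_lit 16179755770) (nat_lit 84) (nat_lit 9720445809) (nat_lit 57) (nat_lit 5) (nat_lit 60) (nat_lit 5) (nat_lit 58) (nat_lit 5) (nat_lit 296) (nat_lit 256) (nat_lit 168))))))) (XT.nd (nat_lit 752) (nat_lit 924) (nat_lit 0) (XT.nd (nat_lit 376) (nat_lit 504) (nat_lit 0) (XT.nd (nat_lit 188) (nat_lit 252) (nat_lit 0) (XT.nd (nat_lit 94) (nat_lit 0) (nat_lit 0) (XT.lf (nat_lit 0) (nat_lit 918424416) (nat_lit 168) (nat_lit 7428659338) (nat_lit 252) (nat_lit 19619672339) (nat_lit 55) (nat_lit 5) (nat_lit 57) (nat_lit 5) (nat_lit 58) (nat_lit 5) (nat_lit 297) (nat_lit 256) (nat_lit 167)) (XT.lf (nat_lit 0) (nat_lit 16130750543) (nat_lit 252) (nat_lit 9471663781) (nat_lit 84) (nat_lit 3225249605) (nat_lit 55) (nat_lit 5) (nat_lit 58) (nat_lit 5) (nat_lit 56) (nat_lit 5) (nat_lit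 298) (nat_lit 256) (nat_lit 166))) (XT.nd (nat_lit 94) (nat_lit 84) (nat_lit 0) (XT.lf (nat_lit 0) (nat_lit 9132302378) (nat_lit 168) (nat_lit 15422707449) (nat_lit 252) (nat_lit 5164036874) (nat_lit 53) (nat_lit 5) (nat_lit 55) (nat_lit 5) (nat_lit 56) (nat_lit 5) (nat_lit 299) (nat_lit 256) (nat_lit 165)) (XT.lf (nat_lit 0) (nat_lit 2807765104) (nat_lit 252) (nat_lit 1719285882) (nat_lit 84) (nat_lit 26118296677) (nat_lit 52) (nat_lit 5) (nat_lit 55) (nat_lit 5) (nat_lit 53) (nat_lit 5) (nat_lit 300) (nat_lit 256) (nat_lit 164)))) (XT.nd (nat_lit 188) (nat_lit 168) (nat_lit 0) (XT.nd (nat_lit 94) (nat_lit 168) (nat_lit 0) (XT.lf (nat_lit 0) (nat_lit 11396380080) (nat_lit 252) (nat_lit 13133263179) (nat_lit 84) (nat_lit 7064499177) (nat_lit 50) (nat_lit 5) (nat_lit 53) (nat_lit 5) (nat_lit 51) (nat_lit 5) (nat_lit 301) (nat_lit 256) (nat_lit 163)) (XT.lf (nat_lit 0) (nat_lit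 7257219842) (nat_lit 168) (nat_lit 13362175263) (nat_lit 252) (nat_lit 11960733378) (nat_lit 48) (nat_lit 5) (nat_lit 50) (nat_lit 5) (nat_lit 51) (nat_lit 5) (nat_lit 302) (nat_lit 256) (nat_lit 162))) (XT.nd (nat_lit 94) (nat_lit 168) (nat_lit 0) (XT.lf (nat_lit 0) (nat_lit 29102339463) (nat_lit 168) (nat_lit 1411747993) (nat_lit 252) (nat_lit 3090800049) (nat_lit 48) (nat_lit 5) (nat_lit 50) (nat_lit 5) (nat_lit 51) (nat_lit 5) (nat_lit 303) (nat_lit 256) (nat_lit 161)) (XT.lf (nat_lit 0) (nat_lit 6469926376) (nat_lit 168) (nat_lit 17031055472) (nat_lit 84) (nat_lit 11152722022) (nat_lit 46) (nat_lit 5) (nat_lit 48) (nat_lit 5) (nat_lit 47) (nat_lit 5) (nat_lit 304) (nat_lit 256) (nat_lit 160))))) (XT.nd (nat_lit 376) (nat_lit 420) (nat_lit 0) (XT.nd (nat_lit 188) (nat_lit 336) (nat_lit 0) (XT.nd (nat_lit 94) (nat_lit 0) (nat_lit 0) (XT.lf (nat_lit 0) (nat_lit 5334617976)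 (nat_lit 168) (nat_lit 11242726196) (nat_lit 252) (nat_lit 19166457129) (nat_lit 44) (nat_lit 5) (nat_lit 46) (nat_lit 5) (nat_lit 47) (nat_lit 5) (nat_lit 305) (nat_lit 256) (nat_lit 159)) (XT.lf (nat_lit 0) (nat_lit 27497399522) (nat_lit 252) (nat_lit 7514708537) (nat_lit 84) (nat_lit 1860932210) (nat_lit 44) (nat_lit 5) (nat_lit 47) (nat_lit 5) (nat_lit 45) (nat_lit 4) (nat_lit 306) (nat_lit 256) (nat_lit 158))) (XT.nd (nat_lit 94) (nat_lit 168) (nat_lit 0) (XT.lf (nat_lit 0) (nat_lit 1319687964) (nat_lit 168) (nat_lit 21197823727) (nat_lit 84) (nat_lit 15518326833) (nat_lit 42) (nat_lit 5) (nat_lit 44) (nat_lit 5) (nat_lit 43) (nat_lit 5) (nat_lit 307) (nat_lit 256) (nat_lit 157)) (XT.lf (nat_lit 0) (nat_lit 3350819626) (nat_lit 168) (nat_lit 9054812297) (nat_lit 252) (nat_lit 26834913226) (nat_lit 40) (nat_lit 5) (nat_lit 42) (nat_lit 5) (nat_lit 43) (nat_lit 5) (nat_lit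 308) (nat_lit 256) (nat_lit 156)))) (XT.nd (nat_lit 188) (nat_lit 336) (nat_lit 0) (XT.nd (nat_lit 94) (nat_lit 84) (nat_lit 0) (XT.lf (nat_lit 0) (nat_lit 24479423776) (nat_lit 252) (nat_lit 10729489079) (nat_lit 84) (nat_lit 5274896716) (nat_lit 40) (nat_lit 5) (nat_lit 43) (nat_lit 5) (nat_lit 41) (nat_lit 4) (nat_lit 309) (nat_lit 256) (nat_lit 155)) (XT.lf (nat_lit 0) (nat_lit 16034895188) (nat_lit 84) (nat_lit 21510647925) (nat_lit 168) (nat_lit 4224262206) (nat_lit 39) (nat_lit 5) (nat_lit 40) (nat_lit 5) (nat_lit 41) (nat_lit 4) (nat_lit 310) (nat_lit 256) (nat_lit 154))) (XT.nd (nat_lit 94) (nat_lit 84) (nat_lit 0) (XT.lf (nat_lit 0) (nat_lit 1291504978) (nat_lit 168) (nat_lit 6787410451) (nat_lit 252) (nat_lit 35025090490) (nat_lit 36) (nat_lit 5) (nat_lit 38) (nat_lit 5) (nat_lit 39) (nat_lit 5) (nat_lit 311) (nat_lit 256) (nat_lit 153)) (XT.nd (nat_lit 94) (nat_lit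 84) (nat_lit 0) (XT.lf (nat_lit 0) (nat_lit 21423606574) (nat_lit 252) (nat_lit 14150953202) (nat_lit 84) (nat_lit 8898478388) (nat_lit 36) (nat_lit 5) (nat_lit 39) (nat_lit 5) (nat_lit 37) (nat_lit 4) (nat_lit 312) (nat_lit 256) (nat_lit 152)) (XT.lf (nat_lit 0) (nat_lit 15252740059) (nat_lit 84) (nat_lit 20522623565) (nat_lit 168) (nat_lit 10118166828) (nat_lit 35) (nat_lit 5) (nat_lit 36) (nat_lit 5) (nat_lit 37) (nat_lit 4) (nat_lit 313) (nat_lit 256) (nat_lit 151))))))))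
noncomputable def xc131 : XT := (XT.nd (nat_lit 1598) (nat_lit 1344) (nat_lit 0) (XT.nd (nat_lit 752) (nat_lit 756) (nat_lit 0) (XT.nd (nat_lit 376) (nat_lit 504) (nat_lit 0) (XT.nd (nat_lit 188) (nat_lit 84) (nat_lit 0) (XT.nd (nat_lit 94) (nat_lit 168) (nat_lit 0) (XT.lf (nat_lit 0) (nat_lit 3582964556) (nat_lit 168) (nat_lit 830974953) (nat_lit 84) (nat_lit 42956705387) (nat_lit 34) (nat_lit 5) (nat_lit 36) (nat_lit 5) (nat_lit 35) (nat_lit 5) (nat_lit 314) (nat_lit 256) (nat_lit 150)) (XT.lf (nat_lit 0) (nat_lit 18314279781) (nat_lit 252) (nat_lit 17807274326) (nat_lit 84) (nat_lit 12757509176) (nat_lit 32) (nat_lit 5) (nat_lit 35) (nat_lit 5) (nat_lit 33) (nat_lit 4) (nat_lit 315) (nat_lit 256) (nat_lit 149))) (XT.nd (nat_lit 94) (nat_lit 0) (nat_lit 0) (XT.lf (nat_lit 0) (nat_lit 14511126141) (nat_lit 84) (nat_lit 19575213465) (nat_lit 168) (nat_lit 16361354041) (nat_lit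 31) (nat_lit 5) (nat_lit 32) (nat_lit 5) (nat_lit 33) (nat_lit 4) (nat_lit 316) (nat_lit 256) (nat_lit 148)) (XT.lf (nat_lit 0) (nat_lit 49046878493) (nat_lit 84) (nat_lit 1892823316) (nat_lit 168) (nat_lit 1140418751) (nat_lit 31) (nat_lit 5) (nat_lit 32) (nat_lit 5) (nat_lit 33) (nat_lit 4) (nat_lit 317) (nat_lit 256) (nat_lit 147)))) (XT.nd (nat_lit 188) (nat_lit 168) (nat_lit 0) (XT.nd (nat_lit 94) (nat_lit 84) (nat_lit 0) (XT.lf (nat_lit 0) (nat_lit 15134528697) (nat_lit 252) (nat_lit 21728978885) (nat_lit 84) (nat_lit 16880675912) (nat_lit 28) (nat_lit 5) (nat_lit 31) (nat_lit 5) (nat_lit 29) (nat_lit 4) (nat_lit 318) (nat_lit 256) (nat_lit 146)) (XT.lf (nat_lit 0) (nat_lit 13807538576) (nat_lit 84) (nat_lit 18667624437) (nat_lit 168) (nat_lit 23000838539) (nat_lit 27) (nat_lit 5) (nat_lit 28) (nat_lit 5) (nat_lit 29) (nat_lit 4) (nat_lit 319) (nat_lit 256) (nat_lit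 145))) (XT.nd (nat_lit 94) (nat_lit 168) (nat_lit 0) (XT.lf (nat_lit 0) (nat_lit 51055177738) (nat_lit 168) (nat_lit 5429977984) (nat_lit 0) (nat_lit 790637357) (nat_lit 27) (nat_lit 5) (nat_lit 29) (nat_lit 4) (nat_lit 27) (nat_lit 4) (nat_lit 320) (nat_lit 256) (nat_lit 144)) (XT.lf (nat_lit 0) (nat_lit 11866082974) (nat_lit 168) (nat_lit 25949248785) (nat_lit 84) (nat_lit 21299729656) (nat_lit 25) (nat_lit 5) (nat_lit 27) (nat_lit 5) (nat_lit 26) (nat_lit 4) (nat_lit 321) (nat_lit 256) (nat_lit 143))))) (XT.nd (nat_lit 376) (nat_lit 420) (nat_lit 0) (XT.nd (nat_lit 188) (nat_lit 252) (nat_lit 0) (XT.nd (nat_lit 94) (nat_lit 0) (nat_lit 0) (XT.lf (nat_lit 0) (nat_lit 13139685860) (nat_lit 84) (nat_lit 17798898799) (nat_lit 168) (nat_lit 30088083547) (nat_lit 24) (nat_lit 5) (nat_lit 25) (nat_lit 5) (nat_lit 26) (nat_lit 4) (nat_lit 322) (nat_lit 256) (nat_lit 142)) (XT.lf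 (nat_lit 0) (nat_lit 51453564435) (nat_lit 168) (nat_lit 8000993241) (nat_lit 0) (nat_lit 3554855012) (nat_lit 24) (nat_lit 5) (nat_lit 26) (nat_lit 4) (nat_lit 24) (nat_lit 4) (nat_lit 323) (nat_lit 256) (nat_lit 141))) (XT.nd (nat_lit 94) (nat_lit 84) (nat_lit 0) (XT.lf (nat_lit 0) (nat_lit 8489189122) (nat_lit 168) (nat_lit 30504245599) (nat_lit 84) (nat_lit 26049733492) (nat_lit 22) (nat_lit 5) (nat_lit 24) (nat_lit 5) (nat_lit 23) (nat_lit 4) (nat_lit 324) (nat_lit 256) (nat_lit 140)) (XT.lf (nat_lit 0) (nat_lit 12505470840) (nat_lit 84) (nat_lit 16967958068) (nat_lit 168) (nat_lit 37679445459) (nat_lit 21) (nat_lit 5) (nat_lit 22) (nat_lit 5) (nat_lit 23) (nat_lit 4) (nat_lit 325) (nat_lit 256) (nat_lit 139)))) (XT.nd (nat_lit 188) (nat_lit 252) (nat_lit 0) (XT.nd (nat_lit 94) (nat_lit 168) (nat_lit 0) (XT.lf (nat_lit 0) (nat_lit 52120470048) (nat_lit 168) (nat_lit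 10737068910) (nat_lit 0) (nat_lit 6479847403) (nat_lit 21) (nat_lit 5) (nat_lit 23) (nat_lit 4) (nat_lit 21) (nat_lit 4) (nat_lit 326) (nat_lit 256) (nat_lit 138)) (XT.lf (nat_lit 0) (nat_lit 4982464176) (nat_lit 168) (nat_lit 35433460293) (nat_lit 84) (nat_lit 31169349575) (nat_lit 19) (nat_lit 5) (nat_lit 21) (nat_lit 5) (nat_lit 20) (nat_lit 4) (nat_lit 327) (nat_lit 256) (nat_lit 137))) (XT.nd (nat_lit 94) (nat_lit 168) (nat_lit 0) (XT.lf (nat_lit 0) (nat_lit 11902966346) (nat_lit 84) (nat_lit 16173638216) (nat_lit 168) (nat_lit 45836669716) (nat_lit 18) (nat_lit 5) (nat_lit 19) (nat_lit 5) (nat_lit 20) (nat_lit 4) (nat_lit 328) (nat_lit 256) (nat_lit 136)) (XT.nd (nat_lit 94) (nat_lit 168) (nat_lit 0) (XT.lf (nat_lit 0) (nat_lit 53073026492) (nat_lit 168) (nat_lit 13660263504) (nat_lit 0) (nat_lit 9587005802) (nat_lit 18) (nat_lit 5) (nat_lit 20) (nat_lit 4) (nat_lit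 18) (nat_lit 4) (nat_lit 329) (nat_lit 256) (nat_lit 135)) (XT.lf (nat_lit 0) (nat_lit 1322729789) (nat_lit 168) (nat_lit 40780092392) (nat_lit 84) (nat_lit 36701166919) (nat_lit 16) (nat_lit 5) (nat_lit 18) (nat_lit 5) (nat_lit 17) (nat_lit 4) (nat_lit 330) (nat_lit 256) (nat_lit 134))))))) (XT.nd (nat_lit 752) (nat_lit 756) (nat_lit 0) (XT.nd (nat_lit 376) (nat_lit 252) (nat_lit 0) (XT.nd (nat_lit 188) (nat_lit 252) (nat_lit 0) (XT.nd (nat_lit 94) (nat_lit 0) (nat_lit 0) (XT.lf (nat_lit 0) (nat_lit 11330394668) (nat_lit 84) (nat_lit 15414718017) (nat_lit 168) (nat_lit 54627442017) (nat_lit 15) (nat_lit 5) (nat_lit 16) (nat_lit 5) (nat_lit 17) (nat_lit 4) (nat_lit 331) (nat_lit 256) (nat_lit 133)) (XT.lf (nat_lit 0) (nat_lit 54330536595) (nat_lit 168) (nat_lit 16794571845) (nat_lit 0) (nat_lit 12899844050) (nat_lit 15) (nat_lit 5) (nat_lit 17) (nat_lit 4) (nat_lit 15) (nat_lit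 4) (nat_lit 332) (nat_lit 256) (nat_lit 132))) (XT.nd (nat_lit 94) (nat_lit 168) (nat_lit 0) (XT.lf (nat_lit 0) (nat_lit 40134302028) (nat_lit 84) (nat_lit 44033692711) (nat_lit 84) (nat_lit 2598337277) (nat_lit 14) (nat_lit 4) (nat_lit 15) (nat_lit 5) (nat_lit 15) (nat_lit 4) (nat_lit 333) (nat_lit 256) (nat_lit 131)) (XT.lf (nat_lit 0) (nat_lit 10786110207) (nat_lit 84) (nat_lit 14689941737) (nat_lit 168) (nat_lit 64125999561) (nat_lit 12) (nat_lit 5) (nat_lit 13) (nat_lit 5) (nat_lit 14) (nat_lit 4) (nat_lit 334) (nat_lit 256) (nat_lit 130)))) (XT.nd (nat_lit 188) (nat_lit 168) (nat_lit 0) (XT.nd (nat_lit 94) (nat_lit 84) (nat_lit 0) (XT.lf (nat_lit 0) (nat_lit 55914691030) (nat_lit 168) (nat_lit 20166153172) (nat_lit 0) (nat_lit 16444190404) (nat_lit 12) (nat_lit 5) (nat_lit 14) (nat_lit 4) (nat_lit 12) (nat_lit 4) (nat_lit 335) (nat_lit 256) (nat_lit 129)) (XT.lf (nat_lit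 0) (nat_lit 42523993205) (nat_lit 84) (nat_lit 46249792144) (nat_lit 84) (nat_lit 6775455348) (nat_lit 11) (nat_lit 4) (nat_lit 12) (nat_lit 5) (nat_lit 12) (nat_lit 4) (nat_lit 336) (nat_lit 256) (nat_lit 128))) (XT.nd (nat_lit 94) (nat_lit 0) (nat_lit 0) (XT.lf (nat_lit 0) (nat_lit 10268584774) (nat_lit 84) (nat_lit 13998037208) (nat_lit 168) (nat_lit 74413807692) (nat_lit 9) (nat_lit 5) (nat_lit 10) (nat_lit 5) (nat_lit 11) (nat_lit 4) (nat_lit 337) (nat_lit 256) (nat_lit 127)) (XT.lf (nat_lit 0) (nat_lit 57849805237) (nat_lit 168) (nat_lit 23803578706) (nat_lit 0) (nat_lit 20248405417) (nat_lit 9) (nat_lit 5) (nat_lit 11) (nat_lit 4) (nat_lit 9) (nat_lit 4) (nat_lit 338) (nat_lit 256) (nat_lit 126))))) (XT.nd (nat_lit 376) (nat_lit 420) (nat_lit 0) (XT.nd (nat_lit 188) (nat_lit 84) (nat_lit 0) (XT.nd (nat_lit 94) (nat_lit 168) (nat_lit 0) (XT.lf (nat_lit 0) (nat_lit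 45241872633) (nat_lit 84) (nat_lit 48800201948) (nat_lit 84) (nat_lit 11195646102) (nat_lit 8) (nat_lit 4) (nat_lit 9) (nat_lit 5) (nat_lit 9) (nat_lit 4) (nat_lit 339) (nat_lit 256) (nat_lit 125)) (XT.lf (nat_lit 0) (nat_lit 9776395072) (nat_lit 84) (nat_lit 13337730127) (nat_lit 168) (nat_lit 85580308010) (nat_lit 6) (nat_lit 5) (nat_lit 7) (nat_lit 5) (nat_lit 8) (nat_lit 4) (nat_lit 340) (nat_lit 256) (nat_lit 124))) (XT.nd (nat_lit 94) (nat_lit 84) (nat_lit 0) (XT.lf (nat_lit 0) (nat_lit 60163078938) (nat_lit 168) (nat_lit 27738101289) (nat_lit 0) (nat_lit 24343627323) (nat_lit 6) (nat_lit 5) (nat_lit 8) (nat_lit 4) (nat_lit 6) (nat_lit 4) (nat_lit 341) (nat_lit 256) (nat_lit 123)) (XT.lf (nat_lit 0) (nat_lit 48317412361) (nat_lit 84) (nat_lit 51714482798) (nat_lit 84) (nat_lit 15892434712) (nat_lit 5) (nat_lit 4) (nat_lit 6) (nat_lit 5) (nat_lit 6) (nat_lit 4) (nat_lit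 342) (nat_lit 256) (nat_lit 122)))) (XT.nd (nat_lit 188) (nat_lit 252) (nat_lit 0) (XT.nd (nat_lit 94) (nat_lit 0) (nat_lit 0) (XT.lf (nat_lit 0) (nat_lit 9308212006) (nat_lit 84) (nat_lit 12707755272) (nat_lit 168) (nat_lit 97723744755) (nat_lit 3) (nat_lit 5) (nat_lit 4) (nat_lit 5) (nat_lit 5) (nat_lit 4) (nat_lit 343) (nat_lit 256) (nat_lit 121)) (XT.lf (nat_lit 0) (nat_lit 62884881002) (nat_lit 168) (nat_lit 32003949908) (nat_lit 0) (nat_lit 28764046725) (nat_lit 3) (nat_lit 5) (nat_lit 5) (nat_lit 4) (nat_lit 3) (nat_lit 4) (nat_lit 344) (nat_lit 256) (nat_lit 120))) (XT.nd (nat_lit 94) (nat_lit 168) (nat_lit 0) (XT.lf (nat_lit 0) (nat_lit 51783339793) (nat_lit 84) (nat_lit 55025379099) (nat_lit 84) (nat_lit 20902408699) (nat_lit 2) (nat_lit 4) (nat_lit 3) (nat_lit 5) (nat_lit 3) (nat_lit 4) (nat_lit 345) (nat_lit 256) (nat_lit 119)) (XT.nd (nat_lit 94) (nat_lit 0)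 (nat_lit 0) (XT.lf (nat_lit 0) (nat_lit 191565995950) (nat_lit 0) (nat_lit 0) (nat_lit 0) (nat_lit 0) (nat_lit 0) (nat_lit 0) (nat_lit 1) (nat_lit 0) (nat_lit 1) (nat_lit 0) (nat_lit 346) (nat_lit 256) (nat_lit 118)) (XT.lf (nat_lit 0) (nat_lit 201026831077) (nat_lit 0) (nat_lit 0) (nat_lit 0) (nat_lit 0) (nat_lit 0) (nat_lit 0) (nat_lit 1) (nat_lit 0) (nat_lit 1) (nat_lit 0) (nat_lit 347) (nat_lit 256) (nat_lit 117))))))))
noncomputable def xc132 : XT := (XT.nd (nat_lit 37976) (nat_lit 0) (nat_lit 6300) (XT.nd (nat_lit 37224) (nat_lit 0) (nat_lit 9828) (XT.nd (nat_lit 36848) (nat_lit 0) (nat_lit 11676) (XT.nd (nat_lit 36660) (nat_lit 0) (nat_lit 11676) (XT.nd (nat_lit 94) (nat_lit 0) (nat_lit 0) (XT.lf (nat_lit 0) (nat_lit 210960720936) (nat_lit 0) (nat_lit 0) (nat_lit 0) (nat_lit 0) (nat_lit 0) (nat_lit 0) (nat_lit 1) (nat_lit 0) (nat_lit 1) (nat_lit 0) (nat_lit 348) (nat_lit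 256) (nat_lit 116)) (XT.lf (nat_lit 0) (nat_lit 221391317645) (nat_lit 0) (nat_lit 0) (nat_lit 0) (nat_lit 0) (nat_lit 0) (nat_lit 0) (nat_lit 1) (nat_lit 0) (nat_lit 1) (nat_lit 0) (nat_lit 349) (nat_lit 256) (nat_lit 115))) (XT.nd (nat_lit 94) (nat_lit 0) (nat_lit 0) (XT.lf (nat_lit 0) (nat_lit 930853241) (nat_lit 0) (nat_lit 930853241) (nat_lit 756) (nat_lit 3042386157) (nat_lit 139) (nat_lit 5) (nat_lit 139) (nat_lit 3) (nat_lit 148) (nat_lit 3) (nat_lit 257) (nat_lit 257) (nat_lit 206)) (XT.lf (nat_lit 0) (nat_lit 4587837544) (nat_lit 756) (nat_lit 3068406479) (nat_lit 840) (nat_lit 2358578926) (nat_lit 139) (nat_lit 5) (nat_lit 148) (nat_lit 3) (nat_lit 149) (nat_lit 5) (nat_lit 258) (nat_lit 257) (nat_lit 205)))) (XT.nd (nat_lit 188) (nat_lit 0) (nat_lit 84) (XT.nd (nat_lit 94) (nat_lit 0) (nat_lit 84) (XT.lf (nat_lit 84) (nat_lit 2062891538) (nat_lit 0) (nat_lit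 3448745333) (nat_lit 840) (nat_lit 4719347954) (nat_lit 140) (nat_lit 5) (nat_lit 139) (nat_lit 5) (nat_lit 149) (nat_lit 5) (nat_lit 259) (nat_lit 257) (nat_lit 204)) (XT.lf (nat_lit 0) (nat_lit 6505112222) (nat_lit 756) (nat_lit 2942352379) (nat_lit 840) (nat_lit 1009315892) (nat_lit 140) (nat_lit 5) (nat_lit 149) (nat_lit 5) (nat_lit 150) (nat_lit 5) (nat_lit 260) (nat_lit 257) (nat_lit 203))) (XT.nd (nat_lit 94) (nat_lit 0) (nat_lit 0) (XT.lf (nat_lit 84) (nat_lit 2542568515) (nat_lit 0) (nat_lit 5059581886) (nat_lit 840) (nat_lit 3089021090) (nat_lit 141) (nat_lit 5) (nat_lit 140) (nat_lit 5) (nat_lit 150) (nat_lit 5) (nat_lit 261) (nat_lit 257) (nat_lit 202)) (XT.lf (nat_lit 84) (nat_lit 8377373613) (nat_lit 0) (nat_lit 385755116) (nat_lit 840) (nat_lit 2173698898) (nat_lit 141) (nat_lit 5) (nat_lit 140) (nat_lit 5) (nat_lit 150) (nat_lit 5) (nat_lit 262) (nat_lit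 257) (nat_lit 201))))) (XT.nd (nat_lit 376) (nat_lit 1260) (nat_lit 0) (XT.nd (nat_lit 188) (nat_lit 756) (nat_lit 0) (XT.nd (nat_lit 94) (nat_lit 0) (nat_lit 0) (XT.lf (nat_lit 84) (nat_lit 3317327424) (nat_lit 0) (nat_lit 6748628455) (nat_lit 840) (nat_lit 1124620697) (nat_lit 142) (nat_lit 5) (nat_lit 141) (nat_lit 5) (nat_lit 151) (nat_lit 5) (nat_lit 263) (nat_lit 257) (nat_lit 200)) (XT.lf (nat_lit 84) (nat_lit 9543312658) (nat_lit 0) (nat_lit 1903005609) (nat_lit 840) (nat_lit 10075009) (nat_lit 142) (nat_lit 5) (nat_lit 141) (nat_lit 5) (nat_lit 151) (nat_lit 5) (nat_lit 264) (nat_lit 257) (nat_lit 199))) (XT.nd (nat_lit 94) (nat_lit 0) (nat_lit 0) (XT.lf (nat_lit 0) (nat_lit 1207738782) (nat_lit 840) (nat_lit 7341931035) (nat_lit 924) (nat_lit 3180691578) (nat_lit 132) (nat_lit 5) (nat_lit 142) (nat_lit 5) (nat_lit 143) (nat_lit 5) (nat_lit 265) (nat_lit 257) (nat_lit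 198)) (XT.lf (nat_lit 0) (nat_lit 2515677398) (nat_lit 840) (nat_lit 1005162696) (nat_lit 924) (nat_lit 8495700931) (nat_lit 132) (nat_lit 5) (nat_lit 142) (nat_lit 5) (nat_lit 143) (nat_lit 5) (nat_lit 266) (nat_lit 257) (nat_lit 197)))) (XT.nd (nat_lit 188) (nat_lit 504) (nat_lit 0) (XT.nd (nat_lit 94) (nat_lit 840) (nat_lit 0) (XT.lf (nat_lit 0) (nat_lit 3975822572) (nat_lit 840) (nat_lit 6535823515) (nat_lit 84) (nat_lit 1801043069) (nat_lit 133) (nat_lit 5) (nat_lit 143) (nat_lit 5) (nat_lit 134) (nat_lit 5) (nat_lit 267) (nat_lit 257) (nat_lit 196)) (XT.lf (nat_lit 0) (nat_lit 231320935) (nat_lit 840) (nat_lit 5324612531) (nat_lit 924) (nat_lit 7065363305) (nat_lit 123) (nat_lit 5) (nat_lit 133) (nat_lit 5) (nat_lit 134) (nat_lit 5) (nat_lit 268) (nat_lit 257) (nat_lit 195))) (XT.nd (nat_lit 94) (nat_lit 504) (nat_lit 0) (XT.lf (nat_lit 0) (nat_lit 7298899359) (nat_lit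 924) (nat_lit 5409088508) (nat_lit 84) (nat_lit 233154426) (nat_lit 123) (nat_lit 5) (nat_lit 134) (nat_lit 5) (nat_lit 124) (nat_lit 5) (nat_lit 269) (nat_lit 257) (nat_lit 194)) (XT.lf (nat_lit 0) (nat_lit 1865348700) (nat_lit 504) (nat_lit 7350978192) (nat_lit 588) (nat_lit 4056287531) (nat_lit 117) (nat_lit 5) (nat_lit 123) (nat_lit 5) (nat_lit 124) (nat_lit 5) (nat_lit 270) (nat_lit 257) (nat_lit 193)))))) (XT.nd (nat_lit 752) (nat_lit 1932) (nat_lit 0) (XT.nd (nat_lit 376) (nat_lit 672) (nat_lit 0) (XT.nd (nat_lit 188) (nat_lit 504) (nat_lit 0) (XT.nd (nat_lit 94) (nat_lit 420) (nat_lit 0) (XT.lf (nat_lit 0) (nat_lit 9663840683) (nat_lit 504) (nat_lit 1629248897) (nat_lit 588) (nat_lit 2324397392) (nat_lit 117) (nat_lit 5) (nat_lit 123) (nat_lit 5) (nat_lit 124) (nat_lit 5) (nat_lit 271) (nat_lit 257) (nat_lit 192)) (XT.lf (nat_lit 0) (nat_lit 3901669067) (nat_lit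 420) (nat_lit 9674507513) (nat_lit 504) (nat_lit 398302259) (nat_lit 112) (nat_lit 5) (nat_lit 117) (nat_lit 5) (nat_lit 118) (nat_lit 5) (nat_lit 272) (nat_lit 257) (nat_lit 191))) (XT.nd (nat_lit 94) (nat_lit 420) (nat_lit 0) (XT.lf (nat_lit 0) (nat_lit 1640516545) (nat_lit 504) (nat_lit 2140053210) (nat_lit 84) (nat_lit 10564062700) (nat_lit 111) (nat_lit 5) (nat_lit 117) (nat_lit 5) (nat_lit 112) (nat_lit 5) (nat_lit 273) (nat_lit 257) (nat_lit 190)) (XT.lf (nat_lit 0) (nat_lit 3881384651) (nat_lit 504) (nat_lit 8408801623) (nat_lit 84) (nat_lit 2437106304) (nat_lit 106) (nat_lit 5) (nat_lit 112) (nat_lit 5) (nat_lit 107) (nat_lit 5) (nat_lit 274) (nat_lit 257) (nat_lit 189)))) (XT.nd (nat_lit 188) (nat_lit 336) (nat_lit 0) (XT.nd (nat_lit 94) (nat_lit 0) (nat_lit 0) (XT.lf (nat_lit 0) (nat_lit 58945049) (nat_lit 336) (nat_lit 6250735114) (nat_lit 420) (nat_lit 8815636343)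 (nat_lit 102) (nat_lit 5) (nat_lit 106) (nat_lit 5) (nat_lit 107) (nat_lit 5) (nat_lit 275) (nat_lit 257) (nat_lit 188)) (XT.lf (nat_lit 0) (nat_lit 8981885860) (nat_lit 420) (nat_lit 6325903171) (nat_lit 84) (nat_lit 229327830) (nat_lit 102) (nat_lit 5) (nat_lit 107) (nat_lit 5) (nat_lit 103) (nat_lit 5) (nat_lit 276) (nat_lit 257) (nat_lit 187))) (XT.nd (nat_lit 94) (nat_lit 0) (nat_lit 0) (XT.lf (nat_lit 0) (nat_lit 2812422930) (nat_lit 336) (nat_lit 9099124389) (nat_lit 420) (nat_lit 4051767640) (nat_lit 98) (nat_lit 5) (nat_lit 102) (nat_lit 5) (nat_lit 103) (nat_lit 5) (nat_lit 277) (nat_lit 257) (nat_lit 186)) (XT.lf (nat_lit 0) (nat_lit 12601007584) (nat_lit 336) (nat_lit 2471943934) (nat_lit 420) (nat_lit 1333608462) (nat_lit 98) (nat_lit 5) (nat_lit 102) (nat_lit 5) (nat_lit 103) (nat_lit 5) (nat_lit 278) (nat_lit 257) (nat_lit 185))))) (XT.nd (nat_lit 376) (nat_lit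 924) (nat_lit 0) (XT.nd (nat_lit 188) (nat_lit 588) (nat_lit 0) (XT.nd (nat_lit 94) (nat_lit 0) (nat_lit 0) (XT.lf (nat_lit 0) (nat_lit 1618653745) (nat_lit 420) (nat_lit 10784403208) (nat_lit 84) (nat_lit 4460380405) (nat_lit 93) (nat_lit 5) (nat_lit 98) (nat_lit 5) (nat_lit 94) (nat_lit 5) (nat_lit 279) (nat_lit 257) (nat_lit 184)) (XT.lf (nat_lit 0) (nat_lit 4759106455) (nat_lit 420) (nat_lit 839674914) (nat_lit 84) (nat_lit 11739014345) (nat_lit 93) (nat_lit 5) (nat_lit 98) (nat_lit 5) (nat_lit 94) (nat_lit 5) (nat_lit 280) (nat_lit 257) (nat_lit 183))) (XT.nd (nat_lit 94) (nat_lit 252) (nat_lit 0) (XT.lf (nat_lit 0) (nat_lit 8217984234) (nat_lit 420) (nat_lit 7961770158) (nat_lit 84) (nat_lit 1648047474) (nat_lit 89) (nat_lit 5) (nat_lit 94) (nat_lit 5) (nat_lit 90) (nat_lit 5) (nat_lit 281) (nat_lit 257) (nat_lit 182)) (XT.lf (nat_lit 0) (nat_lit 2765596937) (nat_lit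 252) (nat_lit 9214438703) (nat_lit 336) (nat_lit 6355761200) (nat_lit 86) (nat_lit 5) (nat_lit 89) (nat_lit 5) (nat_lit 90) (nat_lit 5) (nat_lit 282) (nat_lit 257) (nat_lit 181)))) (XT.nd (nat_lit 188) (nat_lit 504) (nat_lit 0) (XT.nd (nat_lit 94) (nat_lit 420) (nat_lit 0) (XT.lf (nat_lit 0) (nat_lit 14280677070) (nat_lit 252) (nat_lit 1765685466) (nat_lit 336) (nat_lit 2817020379) (nat_lit 86) (nat_lit 5) (nat_lit 89) (nat_lit 5) (nat_lit 90) (nat_lit 5) (nat_lit 283) (nat_lit 257) (nat_lit 180)) (XT.lf (nat_lit 0) (nat_lit 1059873507) (nat_lit 420) (nat_lit 12364153161) (nat_lit 84) (nat_lit 5983121165) (nat_lit 81) (nat_lit 5) (nat_lit 86) (nat_lit 5) (nat_lit 82) (nat_lit 5) (nat_lit 284) (nat_lit 257) (nat_lit 179))) (XT.nd (nat_lit 94) (nat_lit 504) (nat_lit 0) (XT.lf (nat_lit 0) (nat_lit 5126086794) (nat_lit 420) (nat_lit 666394148) (nat_lit 84) (nat_lit 14178803768)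 (nat_lit 81) (nat_lit 5) (nat_lit 86) (nat_lit 5) (nat_lit 82) (nat_lit 5) (nat_lit 285) (nat_lit 257) (nat_lit 178)) (XT.nd (nat_lit 94) (nat_lit 252) (nat_lit 0) (XT.lf (nat_lit 0) (nat_lit 9603375644) (nat_lit 336) (nat_lit 8616867574) (nat_lit 84) (nat_lit 2332996969) (nat_lit 78) (nat_lit 5) (nat_lit 82) (nat_lit 5) (nat_lit 79) (nat_lit 5) (nat_lit 286) (nat_lit 257) (nat_lit 177)) (XT.lf (nat_lit 0) (nat_lit 4038803895) (nat_lit 252) (nat_lit 10418701108) (nat_lit 336) (nat_lit 6699139630) (nat_lit 75) (nat_lit 5) (nat_lit 78) (nat_lit 5) (nat_lit 79) (nat_lit 5) (nat_lit 287) (nat_lit 257) (nat_lit 176))))))))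
noncomputable def xc133 : XT := (XT.nd (nat_lit 1598) (nat_lit 1764) (nat_lit 0) (XT.nd (nat_lit 752) (nat_lit 1008) (nat_lit 0) (XT.nd (nat_lit 376) (nat_lit 672) (nat_lit 0) (XT.nd (nat_lit 188) (nat_lit 252) (nat_lit 0) (XT.nd (nat_lit 94) (nat_lit 336) (nat_lit 0) (XT.lf (nat_lit 0) (nat_lit 17602800679) (nat_lit 252) (nat_lit 2081378061) (nat_lit 336) (nat_lit 2099548666) (nat_lit 75) (nat_lit 5) (nat_lit 78) (nat_lit 5) (nat_lit 79) (nat_lit 5) (nat_lit 288) (nat_lit 257) (nat_lit 175)) (XT.lf (nat_lit 0) (nat_lit 2884899192) (nat_lit 336) (nat_lit 12894582075) (nat_lit 84) (nat_lit 6648439131) (nat_lit 71) (nat_lit 5) (nat_lit 75) (nat_lit 5) (nat_lit 72) (nat_lit 5) (nat_lit 289) (nat_lit 257) (nat_lit 174))) (XT.nd (nat_lit 94) (nat_lit 0) (nat_lit 0) (XT.lf (nat_lit 0) (nat_lit 913959025) (nat_lit 252) (nat_lit 7239103297) (nat_lit 336) (nat_lit 14944287204) (nat_lit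 68) (nat_lit 5) (nat_lit 71) (nat_lit 5) (nat_lit 72) (nat_lit 5) (nat_lit 290) (nat_lit 257) (nat_lit 173)) (XT.lf (nat_lit 0) (nat_lit 13918514165) (nat_lit 336) (nat_lit 7982822688) (nat_lit 84) (nat_lit 1887219228) (nat_lit 68) (nat_lit 5) (nat_lit 72) (nat_lit 5) (nat_lit 69) (nat_lit 5) (nat_lit 291) (nat_lit 257) (nat_lit 172)))) (XT.nd (nat_lit 188) (nat_lit 420) (nat_lit 0) (XT.nd (nat_lit 94) (nat_lit 84) (nat_lit 0) (XT.lf (nat_lit 0) (nat_lit 7011092836) (nat_lit 168) (nat_lit 13174940614) (nat_lit 252) (nat_lit 4317599771) (nat_lit 66) (nat_lit 5) (nat_lit 68) (nat_lit 5) (nat_lit 69) (nat_lit 5) (nat_lit 292) (nat_lit 257) (nat_lit 171)) (XT.lf (nat_lit 0) (nat_lit 1587232844) (nat_lit 252) (nat_lit 2264199767) (nat_lit 84) (nat_lit 21395692085) (nat_lit 65) (nat_lit 5) (nat_lit 68) (nat_lit 5) (nat_lit 66) (nat_lit 5) (nat_lit 293) (nat_lit 257) (nat_lit 170)))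 (XT.nd (nat_lit 94) (nat_lit 168) (nat_lit 0) (XT.lf (nat_lit 0) (nat_lit 7945899809) (nat_lit 336) (nat_lit 12027175066) (nat_lit 84) (nat_lit 6035992232) (nat_lit 62) (nat_lit 5) (nat_lit 66) (nat_lit 5) (nat_lit 63) (nat_lit 5) (nat_lit 294) (nat_lit 257) (nat_lit 169)) (XT.lf (nat_lit 0) (nat_lit 4366044728) (nat_lit 168) (nat_lit 10413372330) (nat_lit 252) (nat_lit 12021843735) (nat_lit 60) (nat_lit 5) (nat_lit 62) (nat_lit 5) (nat_lit 63) (nat_lit 5) (nat_lit 295) (nat_lit 257) (nat_lit 168))))) (XT.nd (nat_lit 376) (nat_lit 588) (nat_lit 0) (XT.nd (nat_lit 188) (nat_lit 168) (nat_lit 0) (XT.nd (nat_lit 94) (nat_lit 252) (nat_lit 0) (XT.lf (nat_lit 0) (nat_lit 21975194752) (nat_lit 168) (nat_lit 170043926) (nat_lit 252) (nat_lit 5478294059) (nat_lit 60) (nat_lit 5) (nat_lit 62) (nat_lit 5) (nat_lit 63) (nat_lit 5) (nat_lit 296) (nat_lit 257) (nat_lit 167)) (XT.lf (nat_lit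 0) (nat_lit 1696389340) (nat_lit 252) (nat_lit 16315400178) (nat_lit 84) (nat_lit 10456615632) (nat_lit 57) (nat_lit 5) (nat_lit 60) (nat_lit 5) (nat_lit 58) (nat_lit 5) (nat_lit 297) (nat_lit 257) (nat_lit 166))) (XT.nd (nat_lit 94) (nat_lit 0) (nat_lit 0) (XT.lf (nat_lit 0) (nat_lit 1626828641) (nat_lit 168) (nat_lit 7531803626) (nat_lit 252) (nat_lit 20186751913) (nat_lit 55) (nat_lit 5) (nat_lit 57) (nat_lit 5) (nat_lit 58) (nat_lit 5) (nat_lit 298) (nat_lit 257) (nat_lit 165)) (XT.lf (nat_lit 0) (nat_lit 17316700512) (nat_lit 252) (nat_lit 9299528892) (nat_lit 84) (nat_lit 3633847100) (nat_lit 55) (nat_lit 5) (nat_lit 58) (nat_lit 5) (nat_lit 56) (nat_lit 5) (nat_lit 299) (nat_lit 257) (nat_lit 164)))) (XT.nd (nat_lit 188) (nat_lit 336) (nat_lit 0) (XT.nd (nat_lit 94) (nat_lit 84) (nat_lit 0) (XT.lf (nat_lit 0) (nat_lit 10224220767) (nat_lit 168) (nat_lit 15929803599)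 (nat_lit 252) (nat_lit 5032411468) (nat_lit 53) (nat_lit 5) (nat_lit 55) (nat_lit 5) (nat_lit 56) (nat_lit 5) (nat_lit 300) (nat_lit 257) (nat_lit 163)) (XT.lf (nat_lit 0) (nat_lit 3307534638) (nat_lit 252) (nat_lit 1188316674) (nat_lit 84) (nat_lit 27663794670) (nat_lit 52) (nat_lit 5) (nat_lit 55) (nat_lit 5) (nat_lit 53) (nat_lit 5) (nat_lit 301) (nat_lit 257) (nat_lit 162))) (XT.nd (nat_lit 94) (nat_lit 168) (nat_lit 0) (XT.lf (nat_lit 0) (nat_lit 12321928661) (nat_lit 252) (nat_lit 13169341133) (nat_lit 84) (nat_lit 7664793286) (nat_lit 50) (nat_lit 5) (nat_lit 53) (nat_lit 5) (nat_lit 51) (nat_lit 5) (nat_lit 302) (nat_lit 257) (nat_lit 161)) (XT.nd (nat_lit 94) (nat_lit 0) (nat_lit 0) (XT.lf (nat_lit 0) (nat_lit 8230656601) (nat_lit 168) (nat_lit 13768031132) (nat_lit 252) (nat_lit 12193031032) (nat_lit 48) (nat_lit 5) (nat_lit 50) (nat_lit 5) (nat_lit 51) (nat_lit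 5) (nat_lit 303) (nat_lit 257) (nat_lit 160)) (XT.lf (nat_lit 0) (nat_lit 31138957165) (nat_lit 168) (nat_lit 1232570732) (nat_lit 252) (nat_lit 2897017180) (nat_lit 48) (nat_lit 5) (nat_lit 50) (nat_lit 5) (nat_lit 51) (nat_lit 5) (nat_lit 304) (nat_lit 257) (nat_lit 159))))))) (XT.nd (nat_lit 752) (nat_lit 756) (nat_lit 0) (XT.nd (nat_lit 376) (nat_lit 504) (nat_lit 0) (XT.nd (nat_lit 188) (nat_lit 168) (nat_lit 0) (XT.nd (nat_lit 94) (nat_lit 168) (nat_lit 0) (XT.lf (nat_lit 0) (nat_lit 7127592794) (nat_lit 168) (nat_lit 17286954744) (nat_lit 84) (nat_lit 11955133020) (nat_lit 46) (nat_lit 5) (nat_lit 48) (nat_lit 5) (nat_lit 47) (nat_lit 5) (nat_lit 305) (nat_lit 257) (nat_lit 158)) (XT.lf (nat_lit 0) (nat_lit 6187395062) (nat_lit 168) (nat_lit 11546223379) (nat_lit 252) (nat_lit 19781002571) (nat_lit 44) (nat_lit 5) (nat_lit 46) (nat_lit 5) (nat_lit 47) (nat_lit 5)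 (nat_lit 306) (nat_lit 257) (nat_lit 157))) (XT.nd (nat_lit 94) (nat_lit 168) (nat_lit 0) (XT.lf (nat_lit 0) (nat_lit 29187931539) (nat_lit 252) (nat_lit 7320559718) (nat_lit 84) (nat_lit 2192417924) (nat_lit 44) (nat_lit 5) (nat_lit 47) (nat_lit 5) (nat_lit 45) (nat_lit 4) (nat_lit 307) (nat_lit 257) (nat_lit 156)) (XT.lf (nat_lit 0) (nat_lit 1700128737) (nat_lit 168) (nat_lit 21686625000) (nat_lit 84) (nat_lit 16535153895) (nat_lit 42) (nat_lit 5) (nat_lit 44) (nat_lit 5) (nat_lit 43) (nat_lit 5) (nat_lit 308) (nat_lit 257) (nat_lit 155)))) (XT.nd (nat_lit 188) (nat_lit 336) (nat_lit 0) (XT.nd (nat_lit 94) (nat_lit 0) (nat_lit 0) (XT.lf (nat_lit 0) (nat_lit 4080239393) (nat_lit 168) (nat_lit 9253928890) (nat_lit 252) (nat_lit 27852991386) (nat_lit 40) (nat_lit 5) (nat_lit 42) (nat_lit 5) (nat_lit 43) (nat_lit 5) (nat_lit 309) (nat_lit 257) (nat_lit 154)) (XT.lf (nat_lit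 0) (nat_lit 26000742151) (nat_lit 252) (nat_lit 10719933303) (nat_lit 84) (nat_lit 5772457236) (nat_lit 40) (nat_lit 5) (nat_lit 43) (nat_lit 5) (nat_lit 41) (nat_lit 4) (nat_lit 310) (nat_lit 257) (nat_lit 153))) (XT.nd (nat_lit 94) (nat_lit 252) (nat_lit 0) (XT.lf (nat_lit 0) (nat_lit 17373863239) (nat_lit 84) (nat_lit 22340532387) (nat_lit 168) (nat_lit 4129321191) (nat_lit 39) (nat_lit 5) (nat_lit 40) (nat_lit 5) (nat_lit 41) (nat_lit 4) (nat_lit 311) (nat_lit 257) (nat_lit 152)) (XT.lf (nat_lit 0) (nat_lit 1894279425) (nat_lit 168) (nat_lit 6879227699) (nat_lit 252) (nat_lit 36471166795) (nat_lit 36) (nat_lit 5) (nat_lit 38) (nat_lit 5) (nat_lit 39) (nat_lit 5) (nat_lit 312) (nat_lit 257) (nat_lit 151))))) (XT.nd (nat_lit 376) (nat_lit 420) (nat_lit 0) (XT.nd (nat_lit 188) (nat_lit 252) (nat_lit 0) (XT.nd (nat_lit 94) (nat_lit 84) (nat_lit 0) (XT.lf (nat_lit 0) (nat_lit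 22775273496) (nat_lit 252) (nat_lit 14335770869) (nat_lit 84) (nat_lit 9571621377) (nat_lit 36) (nat_lit 5) (nat_lit 39) (nat_lit 5) (nat_lit 37) (nat_lit 4) (nat_lit 313) (nat_lit 257) (nat_lit 150)) (XT.lf (nat_lit 0) (nat_lit 16529675926) (nat_lit 84) (nat_lit 21309615614) (nat_lit 168) (nat_lit 10335157447) (nat_lit 35) (nat_lit 5) (nat_lit 36) (nat_lit 5) (nat_lit 37) (nat_lit 4) (nat_lit 314) (nat_lit 257) (nat_lit 149))) (XT.nd (nat_lit 94) (nat_lit 168) (nat_lit 0) (XT.lf (nat_lit 0) (nat_lit 4028465689) (nat_lit 168) (nat_lit 373908429) (nat_lit 84) (nat_lit 45323485378) (nat_lit 34) (nat_lit 5) (nat_lit 36) (nat_lit 5) (nat_lit 35) (nat_lit 5) (nat_lit 315) (nat_lit 257) (nat_lit 148)) (XT.lf (nat_lit 0) (nat_lit 19494901573) (nat_lit 252) (nat_lit 18197577667) (nat_lit 84) (nat_lit 13617291817) (nat_lit 32) (nat_lit 5) (nat_lit 35) (nat_lit 5) (nat_lit 33) (nat_lit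 4) (nat_lit 316) (nat_lit 257) (nat_lit 147)))) (XT.nd (nat_lit 188) (nat_lit 336) (nat_lit 0) (XT.nd (nat_lit 94) (nat_lit 0) (nat_lit 0) (XT.lf (nat_lit 0) (nat_lit 15728677333) (nat_lit 84) (nat_lit 20321953817) (nat_lit 168) (nat_lit 16906448451) (nat_lit 31) (nat_lit 5) (nat_lit 32) (nat_lit 5) (nat_lit 33) (nat_lit 4) (nat_lit 317) (nat_lit 257) (nat_lit 146)) (XT.lf (nat_lit 0) (nat_lit 51967788975) (nat_lit 84) (nat_lit 1766492748) (nat_lit 168) (nat_lit 937465124) (nat_lit 31) (nat_lit 5) (nat_lit 32) (nat_lit 5) (nat_lit 33) (nat_lit 4) (nat_lit 318) (nat_lit 257) (nat_lit 145))) (XT.nd (nat_lit 94) (nat_lit 84) (nat_lit 0) (XT.lf (nat_lit 0) (nat_lit 16141719997) (nat_lit 252) (nat_lit 22337351573) (nat_lit 84) (nat_lit 17939797855) (nat_lit 28) (nat_lit 5) (nat_lit 31) (nat_lit 5) (nat_lit 29) (nat_lit 4) (nat_lit 319) (nat_lit 257) (nat_lit 144)) (XT.nd (nat_lit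 94) (nat_lit 0) (nat_lit 0) (XT.lf (nat_lit 0) (nat_lit 14968280854) (nat_lit 84) (nat_lit 19376521998) (nat_lit 168) (nat_lit 23892704693) (nat_lit 27) (nat_lit 5) (nat_lit 28) (nat_lit 5) (nat_lit 29) (nat_lit 4) (nat_lit 320) (nat_lit 257) (nat_lit 143)) (XT.lf (nat_lit 0) (nat_lit 53845447584) (nat_lit 168) (nat_lit 5245139155) (nat_lit 0) (nat_lit 1037120445) (nat_lit 27) (nat_lit 5) (nat_lit 29) (nat_lit 4) (nat_lit 27) (nat_lit 4) (nat_lit 321) (nat_lit 257) (nat_lit 142))))))))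
noncomputable def xc134 : XT := (XT.nd (nat_lit 1598) (nat_lit 756) (nat_lit 0) (XT.nd (nat_lit 752) (nat_lit 756) (nat_lit 0) (XT.nd (nat_lit 376) (nat_lit 336) (nat_lit 0) (XT.nd (nat_lit 188) (nat_lit 168) (nat_lit 0) (XT.nd (nat_lit 94) (nat_lit 84) (nat_lit 0) (XT.lf (nat_lit 0) (nat_lit 12696420959) (nat_lit 168) (nat_lit 26789896373) (nat_lit 84) (nat_lit 22572645462) (nat_lit 25) (nat_lit 5) (nat_lit 27) (nat_lit 5) (nat_lit 26) (nat_lit 4) (nat_lit 322) (nat_lit 257) (nat_lit 141)) (XT.lf (nat_lit 0) (nat_lit 14246117023) (nat_lit 84) (nat_lit 18472160505) (nat_lit 168) (nat_lit 31348085907) (nat_lit 24) (nat_lit 5) (nat_lit 25) (nat_lit 5) (nat_lit 26) (nat_lit 4) (nat_lit 323) (nat_lit 257) (nat_lit 140))) (XT.nd (nat_lit 94) (nat_lit 168) (nat_lit 0) (XT.lf (nat_lit 0) (nat_lit 54251144246) (nat_lit 168) (nat_lit 7965136218) (nat_lit 0) (nat_lit 3932357779) (nat_lit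 24) (nat_lit 5) (nat_lit 26) (nat_lit 4) (nat_lit 24) (nat_lit 4) (nat_lit 324) (nat_lit 257) (nat_lit 139)) (XT.lf (nat_lit 0) (nat_lit 9138157637) (nat_lit 168) (nat_lit 31593158663) (nat_lit 84) (nat_lit 27552784871) (nat_lit 22) (nat_lit 5) (nat_lit 24) (nat_lit 5) (nat_lit 23) (nat_lit 4) (nat_lit 325) (nat_lit 257) (nat_lit 138)))) (XT.nd (nat_lit 188) (nat_lit 252) (nat_lit 0) (XT.nd (nat_lit 94) (nat_lit 0) (nat_lit 0) (XT.lf (nat_lit 0) (nat_lit 13560006513) (nat_lit 84) (nat_lit 17607613976) (nat_lit 168) (nat_lit 39331871590) (nat_lit 21) (nat_lit 5) (nat_lit 22) (nat_lit 5) (nat_lit 23) (nat_lit 4) (nat_lit 326) (nat_lit 257) (nat_lit 137)) (XT.lf (nat_lit 0) (nat_lit 54939616582) (nat_lit 168) (nat_lit 10857704175) (nat_lit 0) (nat_lit 6996278771) (nat_lit 21) (nat_lit 5) (nat_lit 23) (nat_lit 4) (nat_lit 21) (nat_lit 4) (nat_lit 327) (nat_lit 257) (nat_lit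 136))) (XT.nd (nat_lit 94) (nat_lit 84) (nat_lit 0) (XT.lf (nat_lit 0) (nat_lit 5444387481) (nat_lit 168) (nat_lit 36788592191) (nat_lit 84) (nat_lit 32920918070) (nat_lit 19) (nat_lit 5) (nat_lit 21) (nat_lit 5) (nat_lit 20) (nat_lit 4) (nat_lit 328) (nat_lit 257) (nat_lit 135)) (XT.lf (nat_lit 0) (nat_lit 12907937375) (nat_lit 84) (nat_lit 16781562654) (nat_lit 168) (nat_lit 47908984701) (nat_lit 18) (nat_lit 5) (nat_lit 19) (nat_lit 5) (nat_lit 20) (nat_lit 4) (nat_lit 329) (nat_lit 257) (nat_lit 134))))) (XT.nd (nat_lit 376) (nat_lit 504) (nat_lit 0) (XT.nd (nat_lit 188) (nat_lit 84) (nat_lit 0) (XT.nd (nat_lit 94) (nat_lit 168) (nat_lit 0) (XT.lf (nat_lit 0) (nat_lit 55928772699) (nat_lit 168) (nat_lit 13945998977) (nat_lit 0) (nat_lit 10251434168) (nat_lit 18) (nat_lit 5) (nat_lit 20) (nat_lit 4) (nat_lit 18) (nat_lit 4) (nat_lit 330) (nat_lit 257) (nat_lit 133)) (XT.lf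 (nat_lit 0) (nat_lit 1590695480) (nat_lit 168) (nat_lit 42421553629) (nat_lit 84) (nat_lit 38721847985) (nat_lit 16) (nat_lit 5) (nat_lit 18) (nat_lit 5) (nat_lit 17) (nat_lit 4) (nat_lit 331) (nat_lit 257) (nat_lit 132))) (XT.nd (nat_lit 94) (nat_lit 0) (nat_lit 0) (XT.lf (nat_lit 0) (nat_lit 12288045793) (nat_lit 84) (nat_lit 15992647470) (nat_lit 168) (nat_lit 57150572926) (nat_lit 15) (nat_lit 5) (nat_lit 16) (nat_lit 5) (nat_lit 17) (nat_lit 4) (nat_lit 332) (nat_lit 257) (nat_lit 131)) (XT.lf (nat_lit 0) (nat_lit 57238811228) (nat_lit 168) (nat_lit 17255217208) (nat_lit 0) (nat_lit 13722584288) (nat_lit 15) (nat_lit 5) (nat_lit 17) (nat_lit 4) (nat_lit 15) (nat_lit 4) (nat_lit 333) (nat_lit 257) (nat_lit 130)))) (XT.nd (nat_lit 188) (nat_lit 252) (nat_lit 0) (XT.nd (nat_lit 94) (nat_lit 168) (nat_lit 0) (XT.lf (nat_lit 0) (nat_lit 42513986112) (nat_lit 84) (nat_lit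 46050848410) (nat_lit 84) (nat_lit 2530392092) (nat_lit 14) (nat_lit 4) (nat_lit 15) (nat_lit 5) (nat_lit 15) (nat_lit 4) (nat_lit 334) (nat_lit 257) (nat_lit 129)) (XT.lf (nat_lit 0) (nat_lit 11698599751) (nat_lit 84) (nat_lit 15239490027) (nat_lit 168) (nat_lit 67134652540) (nat_lit 12) (nat_lit 5) (nat_lit 13) (nat_lit 5) (nat_lit 14) (nat_lit 4) (nat_lit 335) (nat_lit 257) (nat_lit 128))) (XT.nd (nat_lit 94) (nat_lit 252) (nat_lit 0) (XT.lf (nat_lit 0) (nat_lit 58892447301) (nat_lit 168) (nat_lit 20812833949) (nat_lit 0) (nat_lit 17436904000) (nat_lit 12) (nat_lit 5) (nat_lit 14) (nat_lit 4) (nat_lit 12) (nat_lit 4) (nat_lit 336) (nat_lit 257) (nat_lit 127)) (XT.nd (nat_lit 94) (nat_lit 168) (nat_lit 0) (XT.lf (nat_lit 0) (nat_lit 45005987056) (nat_lit 84) (nat_lit 48385396524) (nat_lit 84) (nat_lit 6926373703) (nat_lit 11) (nat_lit 4) (nat_lit 12) (nat_lit 5) (nat_lit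 12) (nat_lit 4) (nat_lit 337) (nat_lit 257) (nat_lit 126)) (XT.lf (nat_lit 0) (nat_lit 11137985126) (nat_lit 84) (nat_lit 14520708422) (nat_lit 168) (nat_lit 77946820587) (nat_lit 9) (nat_lit 5) (nat_lit 10) (nat_lit 5) (nat_lit 11) (nat_lit 4) (nat_lit 338) (nat_lit 257) (nat_lit 125))))))) (XT.nd (nat_lit 752) (nat_lit 168) (nat_lit 0) (XT.nd (nat_lit 376) (nat_lit 336) (nat_lit 0) (XT.nd (nat_lit 188) (nat_lit 168) (nat_lit 0) (XT.nd (nat_lit 94) (nat_lit 84) (nat_lit 0) (XT.lf (nat_lit 0) (nat_lit 60915159816) (nat_lit 168) (nat_lit 24648861385) (nat_lit 0) (nat_lit 21424214411) (nat_lit 9) (nat_lit 5) (nat_lit 11) (nat_lit 4) (nat_lit 9) (nat_lit 4) (nat_lit 339) (nat_lit 257) (nat_lit 124)) (XT.lf (nat_lit 0) (nat_lit 47843299678) (nat_lit 84) (nat_lit 51070809261) (nat_lit 84) (nat_lit 11577001247) (nat_lit 8) (nat_lit 4) (nat_lit 9) (nat_lit 5) (nat_lit 9) (nat_lit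 4) (nat_lit 340) (nat_lit 257) (nat_lit 123))) (XT.nd (nat_lit 94) (nat_lit 0) (nat_lit 0) (XT.lf (nat_lit 0) (nat_lit 10604693793) (nat_lit 84) (nat_lit 13834929671) (nat_lit 168) (nat_lit 89681041804) (nat_lit 6) (nat_lit 5) (nat_lit 7) (nat_lit 5) (nat_lit 8) (nat_lit 4) (nat_lit 341) (nat_lit 257) (nat_lit 122)) (XT.lf (nat_lit 0) (nat_lit 63335462689) (nat_lit 168) (nat_lit 28796130850) (nat_lit 0) (nat_lit 25717242899) (nat_lit 6) (nat_lit 5) (nat_lit 8) (nat_lit 4) (nat_lit 6) (nat_lit 4) (nat_lit 342) (nat_lit 257) (nat_lit 121)))) (XT.nd (nat_lit 188) (nat_lit 84) (nat_lit 0) (XT.nd (nat_lit 94) (nat_lit 168) (nat_lit 0) (XT.lf (nat_lit 0) (nat_lit 51056854039) (nat_lit 84) (nat_lit 54138097066) (nat_lit 84) (nat_lit 16517522200) (nat_lit 5) (nat_lit 4) (nat_lit 6) (nat_lit 5) (nat_lit 6) (nat_lit 4) (nat_lit 343) (nat_lit 257) (nat_lit 120)) (XT.lf (nat_lit 0)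 (nat_lit 10097313414) (nat_lit 84) (nat_lit 13180799370) (nat_lit 168) (nat_lit 102440517493) (nat_lit 3) (nat_lit 5) (nat_lit 4) (nat_lit 5) (nat_lit 5) (nat_lit 4) (nat_lit 344) (nat_lit 257) (nat_lit 119))) (XT.nd (nat_lit 94) (nat_lit 84) (nat_lit 0) (XT.lf (nat_lit 0) (nat_lit 66185202940) (nat_lit 168) (nat_lit 33290601188) (nat_lit 0) (nat_lit 30351913494) (nat_lit 3) (nat_lit 5) (nat_lit 5) (nat_lit 4) (nat_lit 3) (nat_lit 4) (nat_lit 345) (nat_lit 257) (nat_lit 118)) (XT.lf (nat_lit 0) (nat_lit 54680995801) (nat_lit 84) (nat_lit 57621621022) (nat_lit 84) (nat_lit 21786394049) (nat_lit 2) (nat_lit 4) (nat_lit 3) (nat_lit 5) (nat_lit 3) (nat_lit 4) (nat_lit 346) (nat_lit 257) (nat_lit 117))))) (XT.nd (nat_lit 36848) (nat_lit 0) (nat_lit 11676) (XT.nd (nat_lit 188) (nat_lit 0) (nat_lit 0) (XT.nd (nat_lit 94) (nat_lit 0) (nat_lit 0) (XT.lf (nat_lit 0) (nat_lit 201143896675)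 (nat_lit 0) (nat_lit 0) (nat_lit 0) (nat_lit 0) (nat_lit 0) (nat_lit 0) (nat_lit 1) (nat_lit 0) (nat_lit 1) (nat_lit 0) (nat_lit 347) (nat_lit 257) (nat_lit 116)) (XT.lf (nat_lit 0) (nat_lit 211077792561) (nat_lit 0) (nat_lit 0) (nat_lit 0) (nat_lit 0) (nat_lit 0) (nat_lit 0) (nat_lit 1) (nat_lit 0) (nat_lit 1) (nat_lit 0) (nat_lit 348) (nat_lit 257) (nat_lit 115))) (XT.nd (nat_lit 94) (nat_lit 0) (nat_lit 0) (XT.lf (nat_lit 0) (nat_lit 221508395012) (nat_lit 0) (nat_lit 0) (nat_lit 0) (nat_lit 0) (nat_lit 0) (nat_lit 0) (nat_lit 1) (nat_lit 0) (nat_lit 1) (nat_lit 0) (nat_lit 349) (nat_lit 257) (nat_lit 114)) (XT.lf (nat_lit 0) (nat_lit 232460538793) (nat_lit 0) (nat_lit 0) (nat_lit 0) (nat_lit 0) (nat_lit 0) (nat_lit 0) (nat_lit 1) (nat_lit 0) (nat_lit 1) (nat_lit 0) (nat_lit 350) (nat_lit 257) (nat_lit 113)))) (XT.nd (nat_lit 188) (nat_lit 0) (nat_lit 0) (XT.nd (nat_lit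 94) (nat_lit 0) (nat_lit 0) (XT.lf (nat_lit 0) (nat_lit 1338320316) (nat_lit 0) (nat_lit 1338320316) (nat_lit 756) (nat_lit 2436564197) (nat_lit 139) (nat_lit 5) (nat_lit 139) (nat_lit 3) (nat_lit 148) (nat_lit 3) (nat_lit 258) (nat_lit 258) (nat_lit 204)) (XT.lf (nat_lit 0) (nat_lit 6181446154) (nat_lit 756) (nat_lit 2454870811) (nat_lit 840) (nat_lit 1811036295) (nat_lit 139) (nat_lit 5) (nat_lit 148) (nat_lit 3) (nat_lit 149) (nat_lit 5) (nat_lit 259) (nat_lit 258) (nat_lit 203))) (XT.nd (nat_lit 94) (nat_lit 0) (nat_lit 84) (XT.lf (nat_lit 84) (nat_lit 2920621850) (nat_lit 0) (nat_lit 4177632095) (nat_lit 840) (nat_lit 3578728361) (nat_lit 140) (nat_lit 5) (nat_lit 139) (nat_lit 5) (nat_lit 149) (nat_lit 5) (nat_lit 260) (nat_lit 258) (nat_lit 202)) (XT.nd (nat_lit 94) (nat_lit 0) (nat_lit 0) (XT.lf (nat_lit 0) (nat_lit 8070698780) (nat_lit 756) (nat_lit 2300112633)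 (nat_lit 840) (nat_lit 546791557) (nat_lit 140) (nat_lit 5) (nat_lit 149) (nat_lit 5) (nat_lit 150) (nat_lit 5) (nat_lit 261) (nat_lit 258) (nat_lit 201)) (XT.lf (nat_lit 84) (nat_lit 3446322735) (nat_lit 0) (nat_lit 5729328060) (nat_lit 840) (nat_lit 1990409628) (nat_lit 141) (nat_lit 5) (nat_lit 140) (nat_lit 5) (nat_lit 150) (nat_lit 5) (nat_lit 262) (nat_lit 258) (nat_lit 200))))))))
noncomputable def xc135 : XT := (XT.nd (nat_lit 1598) (nat_lit 3192) (nat_lit 0) (XT.nd (nat_lit 752) (nat_lit 2100) (nat_lit 0) (XT.nd (nat_lit 376) (nat_lit 672) (nat_lit 0) (XT.nd (nat_lit 188) (nat_lit 756) (nat_lit 0) (XT.nd (nat_lit 94) (nat_lit 0) (nat_lit 84) (XT.lf (nat_lit 84) (nat_lit 9535885907) (nat_lit 0) (nat_lit 801963900) (nat_lit 840) (nat_lit 1088990970) (nat_lit 141) (nat_lit 5) (nat_lit 140) (nat_lit 5) (nat_lit 150) (nat_lit 5) (nat_lit 263) (nat_lit 258) (nat_lit 199))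 (XT.lf (nat_lit 84) (nat_lit 4272916417) (nat_lit 0) (nat_lit 7385207602) (nat_lit 840) (nat_lit 37537867) (nat_lit 142) (nat_lit 5) (nat_lit 141) (nat_lit 5) (nat_lit 151) (nat_lit 5) (nat_lit 264) (nat_lit 258) (nat_lit 198))) (XT.nd (nat_lit 94) (nat_lit 0) (nat_lit 84) (XT.lf (nat_lit 0) (nat_lit 1043779521) (nat_lit 840) (nat_lit 1221602051) (nat_lit 924) (nat_lit 9711138641) (nat_lit 131) (nat_lit 5) (nat_lit 141) (nat_lit 5) (nat_lit 142) (nat_lit 5) (nat_lit 265) (nat_lit 258) (nat_lit 197)) (XT.lf (nat_lit 0) (nat_lit 2280269880) (nat_lit 840) (nat_lit 6880184616) (nat_lit 924) (nat_lit 3105817761) (nat_lit 132) (nat_lit 5) (nat_lit 142) (nat_lit 5) (nat_lit 143) (nat_lit 5) (nat_lit 266) (nat_lit 258) (nat_lit 196)))) (XT.nd (nat_lit 188) (nat_lit 756) (nat_lit 0) (XT.nd (nat_lit 94) (nat_lit 0) (nat_lit 84) (XT.lf (nat_lit 0) (nat_lit 3605408086) (nat_lit 840)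 (nat_lit 266046573) (nat_lit 924) (nat_lit 8697716077) (nat_lit 132) (nat_lit 5) (nat_lit 142) (nat_lit 5) (nat_lit 143) (nat_lit 5) (nat_lit 267) (nat_lit 258) (nat_lit 195)) (XT.lf (nat_lit 0) (nat_lit 5102386856) (nat_lit 840) (nat_lit 6037066769) (nat_lit 84) (nat_lit 1742481331) (nat_lit 133) (nat_lit 5) (nat_lit 143) (nat_lit 5) (nat_lit 134) (nat_lit 5) (nat_lit 268) (nat_lit 258) (nat_lit 194))) (XT.nd (nat_lit 94) (nat_lit 0) (nat_lit 0) (XT.lf (nat_lit 0) (nat_lit 1055119614) (nat_lit 840) (nat_lit 5674885234) (nat_lit 924) (nat_lit 6477543026) (nat_lit 123) (nat_lit 5) (nat_lit 133) (nat_lit 5) (nat_lit 134) (nat_lit 5) (nat_lit 269) (nat_lit 258) (nat_lit 193)) (XT.lf (nat_lit 0) (nat_lit 8516189637) (nat_lit 924) (nat_lit 4862058647) (nat_lit 84) (nat_lit 167333857) (nat_lit 123) (nat_lit 5) (nat_lit 134) (nat_lit 5) (nat_lit 124) (nat_lit 5) (nat_lit 270) (nat_lit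 258) (nat_lit 192))))) (XT.nd (nat_lit 376) (nat_lit 1092) (nat_lit 0) (XT.nd (nat_lit 188) (nat_lit 504) (nat_lit 0) (XT.nd (nat_lit 94) (nat_lit 0) (nat_lit 0) (XT.lf (nat_lit 0) (nat_lit 2762915190) (nat_lit 504) (nat_lit 7738542848) (nat_lit 588) (nat_lit 3393571366) (nat_lit 117) (nat_lit 5) (nat_lit 123) (nat_lit 5) (nat_lit 124) (nat_lit 5) (nat_lit 271) (nat_lit 258) (nat_lit 191)) (XT.lf (nat_lit 0) (nat_lit 10913031817) (nat_lit 504) (nat_lit 1729773957) (nat_lit 588) (nat_lit 1616302460) (nat_lit 117) (nat_lit 5) (nat_lit 123) (nat_lit 5) (nat_lit 124) (nat_lit 5) (nat_lit 272) (nat_lit 258) (nat_lit 190))) (XT.nd (nat_lit 94) (nat_lit 0) (nat_lit 0) (XT.lf (nat_lit 0) (nat_lit 367391828) (nat_lit 504) (nat_lit 9751830447) (nat_lit 84) (nat_lit 4515695802) (nat_lit 111) (nat_lit 5) (nat_lit 117) (nat_lit 5) (nat_lit 112) (nat_lit 5) (nat_lit 273) (nat_lit 258)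 (nat_lit 189)) (XT.lf (nat_lit 0) (nat_lit 2457993451) (nat_lit 504) (nat_lit 1467922281) (nat_lit 84) (nat_lit 11099175792) (nat_lit 111) (nat_lit 5) (nat_lit 117) (nat_lit 5) (nat_lit 112) (nat_lit 5) (nat_lit 274) (nat_lit 258) (nat_lit 188)))) (XT.nd (nat_lit 188) (nat_lit 336) (nat_lit 0) (XT.nd (nat_lit 94) (nat_lit 336) (nat_lit 0) (XT.lf (nat_lit 0) (nat_lit 4788697471) (nat_lit 504) (nat_lit 8027900623) (nat_lit 84) (nat_lit 2611396933) (nat_lit 106) (nat_lit 5) (nat_lit 112) (nat_lit 5) (nat_lit 107) (nat_lit 5) (nat_lit 275) (nat_lit 258) (nat_lit 187)) (XT.lf (nat_lit 0) (nat_lit 850308526) (nat_lit 336) (nat_lit 6466444639) (nat_lit 420) (nat_lit 8530249717) (nat_lit 102) (nat_lit 5) (nat_lit 106) (nat_lit 5) (nat_lit 107) (nat_lit 5) (nat_lit 276) (nat_lit 258) (nat_lit 186))) (XT.nd (nat_lit 94) (nat_lit 336) (nat_lit 0) (XT.lf (nat_lit 0) (nat_lit 10091076094)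 (nat_lit 420) (nat_lit 5859832683) (nat_lit 84) (nat_lit 330059130) (nat_lit 102) (nat_lit 5) (nat_lit 107) (nat_lit 5) (nat_lit 103) (nat_lit 5) (nat_lit 277) (nat_lit 258) (nat_lit 185)) (XT.nd (nat_lit 94) (nat_lit 0) (nat_lit 0) (XT.lf (nat_lit 0) (nat_lit 3722790923) (nat_lit 336) (nat_lit 9425014469) (nat_lit 420) (nat_lit 3581641281) (nat_lit 98) (nat_lit 5) (nat_lit 102) (nat_lit 5) (nat_lit 103) (nat_lit 5) (nat_lit 278) (nat_lit 258) (nat_lit 184)) (XT.lf (nat_lit 0) (nat_lit 13964150198) (nat_lit 336) (nat_lit 2472620997) (nat_lit 420) (nat_lit 759608178) (nat_lit 98) (nat_lit 5) (nat_lit 102) (nat_lit 5) (nat_lit 103) (nat_lit 5) (nat_lit 279) (nat_lit 258) (nat_lit 183))))))) (XT.nd (nat_lit 752) (nat_lit 1512) (nat_lit 0) (XT.nd (nat_lit 376) (nat_lit 672) (nat_lit 0) (XT.nd (nat_lit 188) (nat_lit 588) (nat_lit 0) (XT.nd (nat_lit 94) (nat_lit 0) (nat_lit 0)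 (XT.lf (nat_lit 0) (nat_lit 2303978906) (nat_lit 420) (nat_lit 10554242901) (nat_lit 84) (nat_lit 4818167795) (nat_lit 93) (nat_lit 5) (nat_lit 98) (nat_lit 5) (nat_lit 94) (nat_lit 5) (nat_lit 280) (nat_lit 258) (nat_lit 182)) (XT.lf (nat_lit 0) (nat_lit 5572673658) (nat_lit 420) (nat_lit 148915357) (nat_lit 84) (nat_lit 12454315891) (nat_lit 93) (nat_lit 5) (nat_lit 98) (nat_lit 5) (nat_lit 94) (nat_lit 5) (nat_lit 281) (nat_lit 258) (nat_lit 181))) (XT.nd (nat_lit 94) (nat_lit 252) (nat_lit 0) (XT.lf (nat_lit 0) (nat_lit 9190861852) (nat_lit 420) (nat_lit 7613481890) (nat_lit 84) (nat_lit 1886749297) (nat_lit 89) (nat_lit 5) (nat_lit 94) (nat_lit 5) (nat_lit 90) (nat_lit 5) (nat_lit 282) (nat_lit 258) (nat_lit 180)) (XT.lf (nat_lit 0) (nat_lit 3638215225) (nat_lit 252) (nat_lit 9487504808) (nat_lit 336) (nat_lit 6099532518) (nat_lit 86) (nat_lit 5) (nat_lit 89) (nat_lit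 5) (nat_lit 90) (nat_lit 5) (nat_lit 283) (nat_lit 258) (nat_lit 179)))) (XT.nd (nat_lit 188) (nat_lit 252) (nat_lit 0) (XT.nd (nat_lit 94) (nat_lit 420) (nat_lit 0) (XT.lf (nat_lit 0) (nat_lit 15694080867) (nat_lit 252) (nat_lit 1675249902) (nat_lit 336) (nat_lit 2411188787) (nat_lit 86) (nat_lit 5) (nat_lit 89) (nat_lit 5) (nat_lit 90) (nat_lit 5) (nat_lit 284) (nat_lit 258) (nat_lit 178)) (XT.lf (nat_lit 0) (nat_lit 1630836244) (nat_lit 420) (nat_lit 12254277326) (nat_lit 84) (nat_lit 6466493202) (nat_lit 81) (nat_lit 5) (nat_lit 86) (nat_lit 5) (nat_lit 82) (nat_lit 5) (nat_lit 285) (nat_lit 258) (nat_lit 177))) (XT.nd (nat_lit 94) (nat_lit 252) (nat_lit 0) (XT.lf (nat_lit 0) (nat_lit 5875695002) (nat_lit 420) (nat_lit 6301004) (nat_lit 84) (nat_lit 15063187746) (nat_lit 81) (nat_lit 5) (nat_lit 86) (nat_lit 5) (nat_lit 82) (nat_lit 5) (nat_lit 286) (nat_lit 258) (nat_lit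 176)) (XT.lf (nat_lit 0) (nat_lit 10567159239) (nat_lit 336) (nat_lit 8344609047) (nat_lit 84) (nat_lit 2644953169) (nat_lit 78) (nat_lit 5) (nat_lit 82) (nat_lit 5) (nat_lit 79) (nat_lit 5) (nat_lit 287) (nat_lit 258) (nat_lit 175))))) (XT.nd (nat_lit 376) (nat_lit 672) (nat_lit 0) (XT.nd (nat_lit 188) (nat_lit 588) (nat_lit 0) (XT.nd (nat_lit 94) (nat_lit 0) (nat_lit 0) (XT.lf (nat_lit 0) (nat_lit 4932505642) (nat_lit 252) (nat_lit 10719260484) (nat_lit 336) (nat_lit 6539141446) (nat_lit 75) (nat_lit 5) (nat_lit 78) (nat_lit 5) (nat_lit 79) (nat_lit 5) (nat_lit 288) (nat_lit 258) (nat_lit 174)) (XT.lf (nat_lit 0) (nat_lit 19141761239) (nat_lit 252) (nat_lit 1975565365) (nat_lit 336) (nat_lit 1733140227) (nat_lit 75) (nat_lit 5) (nat_lit 78) (nat_lit 5) (nat_lit 79) (nat_lit 5) (nat_lit 289) (nat_lit 258) (nat_lit 173))) (XT.nd (nat_lit 94) (nat_lit 252) (nat_lit 0) (XT.lf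 (nat_lit 0) (nat_lit 3477471523) (nat_lit 336) (nat_lit 12857432152) (nat_lit 84) (nat_lit 7191996375) (nat_lit 71) (nat_lit 5) (nat_lit 75) (nat_lit 5) (nat_lit 72) (nat_lit 5) (nat_lit 290) (nat_lit 258) (nat_lit 172)) (XT.lf (nat_lit 0) (nat_lit 1630537954) (nat_lit 252) (nat_lit 7367630265) (nat_lit 336) (nat_lit 15232176143) (nat_lit 68) (nat_lit 5) (nat_lit 71) (nat_lit 5) (nat_lit 72) (nat_lit 5) (nat_lit 291) (nat_lit 258) (nat_lit 171)))) (XT.nd (nat_lit 188) (nat_lit 504) (nat_lit 0) (XT.nd (nat_lit 94) (nat_lit 168) (nat_lit 0) (XT.lf (nat_lit 0) (nat_lit 15034532492) (nat_lit 336) (nat_lit 7725669395) (nat_lit 84) (nat_lit 2196777367) (nat_lit 68) (nat_lit 5) (nat_lit 72) (nat_lit 5) (nat_lit 69) (nat_lit 5) (nat_lit 292) (nat_lit 258) (nat_lit 170)) (XT.lf (nat_lit 0) (nat_lit 8007356511) (nat_lit 168) (nat_lit 13598148147) (nat_lit 252) (nat_lit 4102801747)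 (nat_lit 66) (nat_lit 5) (nat_lit 68) (nat_lit 5) (nat_lit 69) (nat_lit 5) (nat_lit 293) (nat_lit 258) (nat_lit 169))) (XT.nd (nat_lit 94) (nat_lit 420) (nat_lit 0) (XT.lf (nat_lit 0) (nat_lit 2063636035) (nat_lit 252) (nat_lit 1749320784) (nat_lit 84) (nat_lit 22676672034) (nat_lit 65) (nat_lit 5) (nat_lit 68) (nat_lit 5) (nat_lit 66) (nat_lit 5) (nat_lit 294) (nat_lit 258) (nat_lit 168)) (XT.nd (nat_lit 94) (nat_lit 168) (nat_lit 0) (XT.lf (nat_lit 0) (nat_lit 8734571359) (nat_lit 336) (nat_lit 11994779858) (nat_lit 84) (nat_lit 6560600417) (nat_lit 62) (nat_lit 5) (nat_lit 66) (nat_lit 5) (nat_lit 63) (nat_lit 5) (nat_lit 295) (nat_lit 258) (nat_lit 167)) (XT.lf (nat_lit 0) (nat_lit 5207879087) (nat_lit 168) (nat_lit 10692983488) (nat_lit 252) (nat_lit 12221337524) (nat_lit 60) (nat_lit 5) (nat_lit 62) (nat_lit 5) (nat_lit 63) (nat_lit 5) (nat_lit 296) (nat_lit 258) (nat_lit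 166))))))))
noncomputable def xc136 : XT := (XT.nd (nat_lit 1504) (nat_lit 1680) (nat_lit 0) (XT.nd (nat_lit 752) (nat_lit 756) (nat_lit 0) (XT.nd (nat_lit 376) (nat_lit 588) (nat_lit 0) (XT.nd (nat_lit 188) (nat_lit 168) (nat_lit 0) (XT.nd (nat_lit 94) (nat_lit 252) (nat_lit 0) (XT.lf (nat_lit 0) (nat_lit 23617558956) (nat_lit 252) (nat_lit 5319498448) (nat_lit 84) (nat_lit 49399053) (nat_lit 60) (nat_lit 5) (nat_lit 63) (nat_lit 5) (nat_lit 61) (nat_lit 5) (nat_lit 297) (nat_lit 258) (nat_lit 165)) (XT.lf (nat_lit 0) (nat_lit 2146781292) (nat_lit 252) (nat_lit 16520427891) (nat_lit 84) (nat_lit 11206337600) (nat_lit 57) (nat_lit 5) (nat_lit 60) (nat_lit 5) (nat_lit 58) (nat_lit 5) (nat_lit 298) (nat_lit 258) (nat_lit 164))) (XT.nd (nat_lit 94) (nat_lit 0) (nat_lit 0) (XT.lf (nat_lit 0) (nat_lit 2309061686) (nat_lit 168) (nat_lit 7665048068) (nat_lit 252) (nat_lit 20820666341)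 (nat_lit 55) (nat_lit 5) (nat_lit 57) (nat_lit 5) (nat_lit 58) (nat_lit 5) (nat_lit 299) (nat_lit 258) (nat_lit 163)) (XT.lf (nat_lit 0) (nat_lit 18526673807) (nat_lit 252) (nat_lit 9178820005) (nat_lit 84) (nat_lit 4039879604) (nat_lit 55) (nat_lit 5) (nat_lit 58) (nat_lit 5) (nat_lit 56) (nat_lit 5) (nat_lit 300) (nat_lit 258) (nat_lit 162)))) (XT.nd (nat_lit 188) (nat_lit 336) (nat_lit 0) (XT.nd (nat_lit 94) (nat_lit 84) (nat_lit 0) (XT.lf (nat_lit 0) (nat_lit 11311670600) (nat_lit 168) (nat_lit 16486802420) (nat_lit 252) (nat_lit 4930447234) (nat_lit 53) (nat_lit 5) (nat_lit 55) (nat_lit 5) (nat_lit 56) (nat_lit 5) (nat_lit 301) (nat_lit 258) (nat_lit 161)) (XT.lf (nat_lit 0) (nat_lit 3798880785) (nat_lit 252) (nat_lit 688155635) (nat_lit 84) (nat_lit 29264293391) (nat_lit 52) (nat_lit 5) (nat_lit 55) (nat_lit 5) (nat_lit 53) (nat_lit 5) (nat_lit 302) (nat_lit 258) (nat_lit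 160))) (XT.nd (nat_lit 94) (nat_lit 168) (nat_lit 0) (XT.lf (nat_lit 0) (nat_lit 13260682306) (nat_lit 252) (nat_lit 13264919115) (nat_lit 84) (nat_lit 8272131952) (nat_lit 50) (nat_lit 5) (nat_lit 53) (nat_lit 5) (nat_lit 51) (nat_lit 5) (nat_lit 303) (nat_lit 258) (nat_lit 159)) (XT.lf (nat_lit 0) (nat_lit 9195999649) (nat_lit 168) (nat_lit 14218561583) (nat_lit 252) (nat_lit 12470946515) (nat_lit 48) (nat_lit 5) (nat_lit 50) (nat_lit 5) (nat_lit 51) (nat_lit 5) (nat_lit 304) (nat_lit 258) (nat_lit 158))))) (XT.nd (nat_lit 376) (nat_lit 420) (nat_lit 0) (XT.nd (nat_lit 188) (nat_lit 168) (nat_lit 0) (XT.nd (nat_lit 94) (nat_lit 168) (nat_lit 0) (XT.lf (nat_lit 0) (nat_lit 33223343327) (nat_lit 168) (nat_lit 1067655358) (nat_lit 252) (nat_lit 2725928926) (nat_lit 48) (nat_lit 5) (nat_lit 50) (nat_lit 5) (nat_lit 51) (nat_lit 5) (nat_lit 305) (nat_lit 258) (nat_lit 157))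 (XT.lf (nat_lit 0) (nat_lit 7787074565) (nat_lit 168) (nat_lit 17611027196) (nat_lit 84) (nat_lit 12774907719) (nat_lit 46) (nat_lit 5) (nat_lit 48) (nat_lit 5) (nat_lit 47) (nat_lit 5) (nat_lit 306) (nat_lit 258) (nat_lit 156))) (XT.nd (nat_lit 94) (nat_lit 0) (nat_lit 0) (XT.lf (nat_lit 0) (nat_lit 7028325982) (nat_lit 168) (nat_lit 11888941237) (nat_lit 252) (nat_lit 20458236451) (nat_lit 44) (nat_lit 5) (nat_lit 46) (nat_lit 5) (nat_lit 47) (nat_lit 5) (nat_lit 307) (nat_lit 258) (nat_lit 155)) (XT.lf (nat_lit 0) (nat_lit 30933642892) (nat_lit 252) (nat_lit 7169685893) (nat_lit 84) (nat_lit 2518310116) (nat_lit 44) (nat_lit 5) (nat_lit 47) (nat_lit 5) (nat_lit 45) (nat_lit 4) (nat_lit 308) (nat_lit 258) (nat_lit 154)))) (XT.nd (nat_lit 188) (nat_lit 84) (nat_lit 0) (XT.nd (nat_lit 94) (nat_lit 168) (nat_lit 0) (XT.lf (nat_lit 0) (nat_lit 2070356374) (nat_lit 168) (nat_lit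 22252960864) (nat_lit 84) (nat_lit 17580424715) (nat_lit 42) (nat_lit 5) (nat_lit 44) (nat_lit 5) (nat_lit 43) (nat_lit 5) (nat_lit 309) (nat_lit 258) (nat_lit 153)) (XT.lf (nat_lit 0) (nat_lit 4793891984) (nat_lit 168) (nat_lit 9486580870) (nat_lit 252) (nat_lit 28952064990) (nat_lit 40) (nat_lit 5) (nat_lit 42) (nat_lit 5) (nat_lit 43) (nat_lit 5) (nat_lit 310) (nat_lit 258) (nat_lit 152))) (XT.nd (nat_lit 94) (nat_lit 84) (nat_lit 0) (XT.lf (nat_lit 0) (nat_lit 27570481922) (nat_lit 252) (nat_lit 10760664453) (nat_lit 84) (nat_lit 6273157817) (nat_lit 40) (nat_lit 5) (nat_lit 43) (nat_lit 5) (nat_lit 41) (nat_lit 4) (nat_lit 311) (nat_lit 258) (nat_lit 151)) (XT.lf (nat_lit 0) (nat_lit 18729833762) (nat_lit 84) (nat_lit 23234749090) (nat_lit 168) (nat_lit 4058096434) (nat_lit 39) (nat_lit 5) (nat_lit 40) (nat_lit 5) (nat_lit 41) (nat_lit 4) (nat_lit 312) (nat_lit 258)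 (nat_lit 150)))))) (XT.nd (nat_lit 752) (nat_lit 756) (nat_lit 0) (XT.nd (nat_lit 376) (nat_lit 336) (nat_lit 0) (XT.nd (nat_lit 188) (nat_lit 336) (nat_lit 0) (XT.nd (nat_lit 94) (nat_lit 0) (nat_lit 0) (XT.lf (nat_lit 0) (nat_lit 2477155933) (nat_lit 168) (nat_lit 6998650967) (nat_lit 252) (nat_lit 38017919495) (nat_lit 36) (nat_lit 5) (nat_lit 38) (nat_lit 5) (nat_lit 39) (nat_lit 5) (nat_lit 313) (nat_lit 258) (nat_lit 149)) (XT.lf (nat_lit 0) (nat_lit 24168446779) (nat_lit 252) (nat_lit 14578427899) (nat_lit 84) (nat_lit 10257203870) (nat_lit 36) (nat_lit 5) (nat_lit 39) (nat_lit 5) (nat_lit 37) (nat_lit 4) (nat_lit 314) (nat_lit 258) (nat_lit 148))) (XT.nd (nat_lit 94) (nat_lit 252) (nat_lit 0) (XT.lf (nat_lit 0) (nat_lit 17822643953) (nat_lit 84) (nat_lit 22158190155) (nat_lit 168) (nat_lit 10589858429) (nat_lit 35) (nat_lit 5) (nat_lit 36) (nat_lit 5) (nat_lit 37)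 (nat_lit 4) (nat_lit 315) (nat_lit 258) (nat_lit 147)) (XT.lf (nat_lit 0) (nat_lit 61627360) (nat_lit 168) (nat_lit 4410813727) (nat_lit 252) (nat_lit 47727583779) (nat_lit 32) (nat_lit 5) (nat_lit 34) (nat_lit 5) (nat_lit 35) (nat_lit 5) (nat_lit 316) (nat_lit 258) (nat_lit 146)))) (XT.nd (nat_lit 188) (nat_lit 252) (nat_lit 0) (XT.nd (nat_lit 94) (nat_lit 84) (nat_lit 0) (XT.lf (nat_lit 0) (nat_lit 20709925838) (nat_lit 252) (nat_lit 18653887050) (nat_lit 84) (nat_lit 14499432763) (nat_lit 32) (nat_lit 5) (nat_lit 35) (nat_lit 5) (nat_lit 33) (nat_lit 4) (nat_lit 317) (nat_lit 258) (nat_lit 145)) (XT.lf (nat_lit 0) (nat_lit 16961365064) (nat_lit 84) (nat_lit 21127602238) (nat_lit 168) (nat_lit 17504176050) (nat_lit 31) (nat_lit 5) (nat_lit 32) (nat_lit 5) (nat_lit 33) (nat_lit 4) (nat_lit 318) (nat_lit 258) (nat_lit 144))) (XT.nd (nat_lit 94) (nat_lit 252) (nat_lit 0)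 (XT.lf (nat_lit 0) (nat_lit 54991182103) (nat_lit 84) (nat_lit 1654389509) (nat_lit 168) (nat_lit 748533787) (nat_lit 31) (nat_lit 5) (nat_lit 32) (nat_lit 5) (nat_lit 33) (nat_lit 4) (nat_lit 319) (nat_lit 258) (nat_lit 143)) (XT.lf (nat_lit 0) (nat_lit 17175985013) (nat_lit 252) (nat_lit 23020589894) (nat_lit 84) (nat_lit 19031879039) (nat_lit 28) (nat_lit 5) (nat_lit 31) (nat_lit 5) (nat_lit 29) (nat_lit 4) (nat_lit 320) (nat_lit 258) (nat_lit 142))))) (XT.nd (nat_lit 376) (nat_lit 420) (nat_lit 0) (XT.nd (nat_lit 188) (nat_lit 252) (nat_lit 0) (XT.nd (nat_lit 94) (nat_lit 0) (nat_lit 0) (XT.lf (nat_lit 0) (nat_lit 16143330134) (nat_lit 84) (nat_lit 20141734800) (nat_lit 168) (nat_lit 24853166891) (nat_lit 27) (nat_lit 5) (nat_lit 28) (nat_lit 5) (nat_lit 29) (nat_lit 4) (nat_lit 321) (nat_lit 258) (nat_lit 141)) (XT.lf (nat_lit 0) (nat_lit 56753149405) (nat_lit 168)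 (nat_lit 5093484341) (nat_lit 0) (nat_lit 1276687326) (nat_lit 27) (nat_lit 5) (nat_lit 29) (nat_lit 4) (nat_lit 27) (nat_lit 4) (nat_lit 322) (nat_lit 258) (nat_lit 140))) (XT.nd (nat_lit 94) (nat_lit 84) (nat_lit 0) (XT.lf (nat_lit 0) (nat_lit 13546238683) (nat_lit 168) (nat_lit 27715046655) (nat_lit 84) (nat_lit 23889875761) (nat_lit 25) (nat_lit 5) (nat_lit 27) (nat_lit 5) (nat_lit 26) (nat_lit 4) (nat_lit 323) (nat_lit 258) (nat_lit 139)) (XT.lf (nat_lit 0) (nat_lit 15366084434) (nat_lit 84) (nat_lit 19199230450) (nat_lit 168) (nat_lit 32693810549) (nat_lit 24) (nat_lit 5) (nat_lit 25) (nat_lit 5) (nat_lit 26) (nat_lit 4) (nat_lit 324) (nat_lit 258) (nat_lit 138)))) (XT.nd (nat_lit 188) (nat_lit 252) (nat_lit 0) (XT.nd (nat_lit 94) (nat_lit 168) (nat_lit 0) (XT.lf (nat_lit 0) (nat_lit 57167693829) (nat_lit 168) (nat_lit 7968012816) (nat_lit 0) (nat_lit 4310163892) (nat_lit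 24) (nat_lit 5) (nat_lit 26) (nat_lit 4) (nat_lit 24) (nat_lit 4) (nat_lit 325) (nat_lit 258) (nat_lit 137)) (XT.lf (nat_lit 0) (nat_lit 9798701853) (nat_lit 168) (nat_lit 32777080347) (nat_lit 84) (nat_lit 29112342213) (nat_lit 22) (nat_lit 5) (nat_lit 24) (nat_lit 5) (nat_lit 23) (nat_lit 4) (nat_lit 326) (nat_lit 258) (nat_lit 136))) (XT.nd (nat_lit 94) (nat_lit 168) (nat_lit 0) (XT.lf (nat_lit 0) (nat_lit 14627360245) (nat_lit 84) (nat_lit 18298659532) (nat_lit 168) (nat_lit 41088445992) (nat_lit 21) (nat_lit 5) (nat_lit 22) (nat_lit 5) (nat_lit 23) (nat_lit 4) (nat_lit 327) (nat_lit 258) (nat_lit 135)) (XT.nd (nat_lit 94) (nat_lit 168) (nat_lit 0) (XT.lf (nat_lit 0) (nat_lit 57879906283) (nat_lit 168) (nat_lit 11023067223) (nat_lit 0) (nat_lit 7520640553) (nat_lit 21) (nat_lit 5) (nat_lit 23) (nat_lit 4) (nat_lit 21) (nat_lit 4) (nat_lit 328) (nat_lit 258) (nat_lit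 134)) (XT.lf (nat_lit 0) (nat_lit 5909622815) (nat_lit 168) (nat_lit 38250206729) (nat_lit 84) (nat_lit 34742112288) (nat_lit 19) (nat_lit 5) (nat_lit 21) (nat_lit 5) (nat_lit 20) (nat_lit 4) (nat_lit 329) (nat_lit 258) (nat_lit 133))))))))
noncomputable def xc137 : XT := (XT.nd (nat_lit 1598) (nat_lit 252) (nat_lit 0) (XT.nd (nat_lit 752) (nat_lit 756) (nat_lit 0) (XT.nd (nat_lit 376) (nat_lit 252) (nat_lit 0) (XT.nd (nat_lit 188) (nat_lit 252) (nat_lit 0) (XT.nd (nat_lit 94) (nat_lit 0) (nat_lit 0) (XT.lf (nat_lit 0) (nat_lit 13925055524) (nat_lit 84) (nat_lit 17438547841) (nat_lit 168) (nat_lit 50105324185) (nat_lit 18) (nat_lit 5) (nat_lit 19) (nat_lit 5) (nat_lit 20) (nat_lit 4) (nat_lit 330) (nat_lit 258) (nat_lit 132)) (XT.lf (nat_lit 0) (nat_lit 58908517349) (nat_lit 168) (nat_lit 14282956339) (nat_lit 0) (nat_lit 10931877147) (nat_lit 18) (nat_lit 5) (nat_lit 20)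 (nat_lit 4) (nat_lit 18) (nat_lit 4) (nat_lit 331) (nat_lit 258) (nat_lit 131))) (XT.nd (nat_lit 94) (nat_lit 84) (nat_lit 0) (XT.lf (nat_lit 0) (nat_lit 1853295290) (nat_lit 168) (nat_lit 44182047744) (nat_lit 84) (nat_lit 40826305663) (nat_lit 16) (nat_lit 5) (nat_lit 18) (nat_lit 5) (nat_lit 17) (nat_lit 4) (nat_lit 332) (nat_lit 258) (nat_lit 130)) (XT.lf (nat_lit 0) (nat_lit 13257215785) (nat_lit 84) (nat_lit 16617398713) (nat_lit 168) (nat_lit 59819220673) (nat_lit 15) (nat_lit 5) (nat_lit 16) (nat_lit 5) (nat_lit 17) (nat_lit 4) (nat_lit 333) (nat_lit 258) (nat_lit 129)))) (XT.nd (nat_lit 188) (nat_lit 168) (nat_lit 0) (XT.nd (nat_lit 94) (nat_lit 84) (nat_lit 0) (XT.lf (nat_lit 0) (nat_lit 60274672700) (nat_lit 168) (nat_lit 17774138405) (nat_lit 0) (nat_lit 14569936210) (nat_lit 15) (nat_lit 5) (nat_lit 17) (nat_lit 4) (nat_lit 15) (nat_lit 4) (nat_lit 334) (nat_lit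 258) (nat_lit 128)) (XT.lf (nat_lit 0) (nat_lit 44977979280) (nat_lit 84) (nat_lit 48186017645) (nat_lit 84) (nat_lit 2477444986) (nat_lit 14) (nat_lit 4) (nat_lit 15) (nat_lit 5) (nat_lit 15) (nat_lit 4) (nat_lit 335) (nat_lit 258) (nat_lit 127))) (XT.nd (nat_lit 94) (nat_lit 0) (nat_lit 0) (XT.lf (nat_lit 0) (nat_lit 12622018658) (nat_lit 84) (nat_lit 15833710518) (nat_lit 168) (nat_lit 70312113513) (nat_lit 12) (nat_lit 5) (nat_lit 13) (nat_lit 5) (nat_lit 14) (nat_lit 4) (nat_lit 336) (nat_lit 258) (nat_lit 126)) (XT.lf (nat_lit 0) (nat_lit 62002168732) (nat_lit 168) (nat_lit 21525469404) (nat_lit 0) (nat_lit 18463401423) (nat_lit 12) (nat_lit 5) (nat_lit 14) (nat_lit 4) (nat_lit 12) (nat_lit 4) (nat_lit 337) (nat_lit 258) (nat_lit 125))))) (XT.nd (nat_lit 376) (nat_lit 420) (nat_lit 0) (XT.nd (nat_lit 188) (nat_lit 84) (nat_lit 0) (XT.nd (nat_lit 94) (nat_lit 168) (nat_lit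 0) (XT.lf (nat_lit 0) (nat_lit 47579002228) (nat_lit 84) (nat_lit 50644226235) (nat_lit 84) (nat_lit 7102302900) (nat_lit 11) (nat_lit 4) (nat_lit 12) (nat_lit 5) (nat_lit 12) (nat_lit 4) (nat_lit 338) (nat_lit 258) (nat_lit 124)) (XT.lf (nat_lit 0) (nat_lit 12017760675) (nat_lit 84) (nat_lit 15085990422) (nat_lit 168) (nat_lit 81673932601) (nat_lit 9) (nat_lit 5) (nat_lit 10) (nat_lit 5) (nat_lit 11) (nat_lit 4) (nat_lit 339) (nat_lit 258) (nat_lit 123))) (XT.nd (nat_lit 94) (nat_lit 84) (nat_lit 0) (XT.lf (nat_lit 0) (nat_lit 64117710838) (nat_lit 168) (nat_lit 25568473383) (nat_lit 0) (nat_lit 22643623520) (nat_lit 9) (nat_lit 5) (nat_lit 11) (nat_lit 4) (nat_lit 9) (nat_lit 4) (nat_lit 340) (nat_lit 258) (nat_lit 122)) (XT.lf (nat_lit 0) (nat_lit 50543250070) (nat_lit 84) (nat_lit 53470696404) (nat_lit 84) (nat_lit 11994012615) (nat_lit 8) (nat_lit 4) (nat_lit 9) (nat_lit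 5) (nat_lit 9) (nat_lit 4) (nat_lit 341) (nat_lit 258) (nat_lit 121)))) (XT.nd (nat_lit 188) (nat_lit 252) (nat_lit 0) (XT.nd (nat_lit 94) (nat_lit 0) (nat_lit 0) (XT.lf (nat_lit 0) (nat_lit 11442845914) (nat_lit 84) (nat_lit 14372765077) (nat_lit 168) (nat_lit 94003387223) (nat_lit 6) (nat_lit 5) (nat_lit 7) (nat_lit 5) (nat_lit 8) (nat_lit 4) (nat_lit 342) (nat_lit 258) (nat_lit 120)) (XT.lf (nat_lit 0) (nat_lit 66651197097) (nat_lit 168) (nat_lit 29937637616) (nat_lit 0) (nat_lit 27144995483) (nat_lit 6) (nat_lit 5) (nat_lit 8) (nat_lit 4) (nat_lit 6) (nat_lit 4) (nat_lit 343) (nat_lit 258) (nat_lit 119))) (XT.nd (nat_lit 94) (nat_lit 168) (nat_lit 0) (XT.lf (nat_lit 0) (nat_lit 53903185231) (nat_lit 84) (nat_lit 56697963486) (nat_lit 84) (nat_lit 17189625750) (nat_lit 5) (nat_lit 4) (nat_lit 6) (nat_lit 5) (nat_lit 6) (nat_lit 4) (nat_lit 344) (nat_lit 258) (nat_lit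 118)) (XT.nd (nat_lit 94) (nat_lit 0) (nat_lit 0) (XT.lf (nat_lit 0) (nat_lit 10895776190) (nat_lit 84) (nat_lit 13692588848) (nat_lit 168) (nat_lit 107408879422) (nat_lit 3) (nat_lit 5) (nat_lit 4) (nat_lit 5) (nat_lit 5) (nat_lit 4) (nat_lit 345) (nat_lit 258) (nat_lit 117)) (XT.lf (nat_lit 0) (nat_lit 69636030332) (nat_lit 168) (nat_lit 34670735587) (nat_lit 0) (nat_lit 32005259221) (nat_lit 3) (nat_lit 5) (nat_lit 5) (nat_lit 4) (nat_lit 3) (nat_lit 4) (nat_lit 346) (nat_lit 258) (nat_lit 116))))))) (XT.nd (nat_lit 37224) (nat_lit 0) (nat_lit 10332) (XT.nd (nat_lit 376) (nat_lit 0) (nat_lit 0) (XT.nd (nat_lit 188) (nat_lit 0) (nat_lit 0) (XT.nd (nat_lit 94) (nat_lit 168) (nat_lit 0) (XT.lf (nat_lit 0) (nat_lit 57694854224) (nat_lit 84) (nat_lit 60362087984) (nat_lit 84) (nat_lit 22729559480) (nat_lit 2) (nat_lit 4) (nat_lit 3) (nat_lit 5) (nat_lit 3) (nat_lit 4) (nat_lit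 347) (nat_lit 258) (nat_lit 115)) (XT.lf (nat_lit 0) (nat_lit 211200729538) (nat_lit 0) (nat_lit 0) (nat_lit 0) (nat_lit 0) (nat_lit 0) (nat_lit 0) (nat_lit 1) (nat_lit 0) (nat_lit 1) (nat_lit 0) (nat_lit 348) (nat_lit 258) (nat_lit 114))) (XT.nd (nat_lit 94) (nat_lit 0) (nat_lit 0) (XT.lf (nat_lit 0) (nat_lit 221631337456) (nat_lit 0) (nat_lit 0) (nat_lit 0) (nat_lit 0) (nat_lit 0) (nat_lit 0) (nat_lit 1) (nat_lit 0) (nat_lit 1) (nat_lit 0) (nat_lit 349) (nat_lit 258) (nat_lit 113)) (XT.lf (nat_lit 0) (nat_lit 232583486444) (nat_lit 0) (nat_lit 0) (nat_lit 0) (nat_lit 0) (nat_lit 0) (nat_lit 0) (nat_lit 1) (nat_lit 0) (nat_lit 1) (nat_lit 0) (nat_lit 350) (nat_lit 258) (nat_lit 112)))) (XT.nd (nat_lit 36660) (nat_lit 0) (nat_lit 11676) (XT.nd (nat_lit 36566) (nat_lit 0) (nat_lit 11676) (XT.lf (nat_lit 0) (nat_lit 244083253049) (nat_lit 0) (nat_lit 0) (nat_lit 0) (nat_lit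 0) (nat_lit 0) (nat_lit 0) (nat_lit 1) (nat_lit 0) (nat_lit 1) (nat_lit 0) (nat_lit 351) (nat_lit 258) (nat_lit 111)) (XT.lf (nat_lit 0) (nat_lit 1732605415) (nat_lit 0) (nat_lit 1732605415) (nat_lit 756) (nat_lit 1870917334) (nat_lit 139) (nat_lit 5) (nat_lit 139) (nat_lit 3) (nat_lit 148) (nat_lit 3) (nat_lit 259) (nat_lit 259) (nat_lit 202))) (XT.nd (nat_lit 94) (nat_lit 0) (nat_lit 0) (XT.lf (nat_lit 0) (nat_lit 7727903254) (nat_lit 756) (nat_lit 1881962657) (nat_lit 840) (nat_lit 1297985772) (nat_lit 139) (nat_lit 5) (nat_lit 148) (nat_lit 3) (nat_lit 149) (nat_lit 5) (nat_lit 260) (nat_lit 259) (nat_lit 201)) (XT.lf (nat_lit 84) (nat_lit 3751084448) (nat_lit 0) (nat_lit 4891229795) (nat_lit 840) (nat_lit 2509059798) (nat_lit 140) (nat_lit 5) (nat_lit 139) (nat_lit 5) (nat_lit 149) (nat_lit 5) (nat_lit 261) (nat_lit 259) (nat_lit 200))))) (XT.nd (nat_lit 376) (nat_lit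 672) (nat_lit 0) (XT.nd (nat_lit 188) (nat_lit 756) (nat_lit 0) (XT.nd (nat_lit 94) (nat_lit 0) (nat_lit 0) (XT.lf (nat_lit 0) (nat_lit 9599250451) (nat_lit 756) (nat_lit 1699147867) (nat_lit 840) (nat_lit 108833965) (nat_lit 140) (nat_lit 5) (nat_lit 149) (nat_lit 5) (nat_lit 150) (nat_lit 5) (nat_lit 262) (nat_lit 259) (nat_lit 199)) (XT.lf (nat_lit 84) (nat_lit 4323061360) (nat_lit 0) (nat_lit 6393814490) (nat_lit 840) (nat_lit 953365468) (nat_lit 141) (nat_lit 5) (nat_lit 140) (nat_lit 5) (nat_lit 150) (nat_lit 5) (nat_lit 263) (nat_lit 259) (nat_lit 198))) (XT.nd (nat_lit 94) (nat_lit 756) (nat_lit 0) (XT.lf (nat_lit 84) (nat_lit 10683558763) (nat_lit 0) (nat_lit 1202081168) (nat_lit 840) (nat_lit 60998003) (nat_lit 141) (nat_lit 5) (nat_lit 140) (nat_lit 5) (nat_lit 150) (nat_lit 5) (nat_lit 264) (nat_lit 259) (nat_lit 197)) (XT.lf (nat_lit 0) (nat_lit 965675038) (nat_lit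 840) (nat_lit 7043774574) (nat_lit 924) (nat_lit 4220834724) (nat_lit 131) (nat_lit 5) (nat_lit 141) (nat_lit 5) (nat_lit 142) (nat_lit 5) (nat_lit 265) (nat_lit 259) (nat_lit 196)))) (XT.nd (nat_lit 188) (nat_lit 672) (nat_lit 0) (XT.nd (nat_lit 94) (nat_lit 0) (nat_lit 84) (XT.lf (nat_lit 0) (nat_lit 2051995432) (nat_lit 840) (nat_lit 568879492) (nat_lit 924) (nat_lit 9906669953) (nat_lit 131) (nat_lit 5) (nat_lit 141) (nat_lit 5) (nat_lit 142) (nat_lit 5) (nat_lit 266) (nat_lit 259) (nat_lit 195)) (XT.lf (nat_lit 0) (nat_lit 3312327962) (nat_lit 840) (nat_lit 6472408839) (nat_lit 924) (nat_lit 3048946839) (nat_lit 132) (nat_lit 5) (nat_lit 142) (nat_lit 5) (nat_lit 143) (nat_lit 5) (nat_lit 267) (nat_lit 259) (nat_lit 194))) (XT.nd (nat_lit 94) (nat_lit 756) (nat_lit 0) (XT.lf (nat_lit 84) (nat_lit 451074005) (nat_lit 0) (nat_lit 4215975194) (nat_lit 924) (nat_lit 8486511538)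 (nat_lit 133) (nat_lit 5) (nat_lit 132) (nat_lit 5) (nat_lit 143) (nat_lit 5) (nat_lit 268) (nat_lit 259) (nat_lit 193)) (XT.nd (nat_lit 94) (nat_lit 840) (nat_lit 0) (XT.lf (nat_lit 0) (nat_lit 6199023800) (nat_lit 840) (nat_lit 5590123808) (nat_lit 84) (nat_lit 1694808217) (nat_lit 133) (nat_lit 5) (nat_lit 143) (nat_lit 5) (nat_lit 134) (nat_lit 5) (nat_lit 269) (nat_lit 259) (nat_lit 192)) (XT.lf (nat_lit 0) (nat_lit 1844594535) (nat_lit 840) (nat_lit 6034858136) (nat_lit 924) (nat_lit 5947825217) (nat_lit 123) (nat_lit 5) (nat_lit 133) (nat_lit 5) (nat_lit 134) (nat_lit 5) (nat_lit 270) (nat_lit 259) (nat_lit 191))))))))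
noncomputable def xc138 : XT := (XT.nd (nat_lit 1598) (nat_lit 2352) (nat_lit 0) (XT.nd (nat_lit 752) (nat_lit 2016) (nat_lit 0) (XT.nd (nat_lit 376) (nat_lit 756) (nat_lit 0) (XT.nd (nat_lit 188) (nat_lit 504) (nat_lit 0) (XT.nd (nat_lit 94) (nat_lit 504) (nat_lit 0) (XT.lf (nat_lit 0) (nat_lit 9715101442) (nat_lit 924) (nat_lit 4363679234) (nat_lit 84) (nat_lit 105425456) (nat_lit 123) (nat_lit 5) (nat_lit 134) (nat_lit 5) (nat_lit 124) (nat_lit 5) (nat_lit 271) (nat_lit 259) (nat_lit 190)) (XT.lf (nat_lit 0) (nat_lit 3630583903) (nat_lit 504) (nat_lit 8143624861) (nat_lit 588) (nat_lit 2778188219) (nat_lit 117) (nat_lit 5) (nat_lit 123) (nat_lit 5) (nat_lit 124) (nat_lit 5) (nat_lit 272) (nat_lit 259) (nat_lit 189))) (XT.nd (nat_lit 94) (nat_lit 504) (nat_lit 0) (XT.lf (nat_lit 0) (nat_lit 12153467173) (nat_lit 504) (nat_lit 1833553009) (nat_lit 588) (nat_lit 949439759)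 (nat_lit 117) (nat_lit 5) (nat_lit 123) (nat_lit 5) (nat_lit 124) (nat_lit 5) (nat_lit 273) (nat_lit 259) (nat_lit 188)) (XT.lf (nat_lit 0) (nat_lit 1086191018) (nat_lit 504) (nat_lit 9497389980) (nat_lit 84) (nat_lit 4748061503) (nat_lit 111) (nat_lit 5) (nat_lit 117) (nat_lit 5) (nat_lit 112) (nat_lit 5) (nat_lit 274) (nat_lit 259) (nat_lit 187)))) (XT.nd (nat_lit 188) (nat_lit 336) (nat_lit 0) (XT.nd (nat_lit 94) (nat_lit 420) (nat_lit 0) (XT.lf (nat_lit 0) (nat_lit 3247968932) (nat_lit 504) (nat_lit 834621262) (nat_lit 84) (nat_lit 11660402116) (nat_lit 111) (nat_lit 5) (nat_lit 117) (nat_lit 5) (nat_lit 112) (nat_lit 5) (nat_lit 275) (nat_lit 259) (nat_lit 186)) (XT.lf (nat_lit 0) (nat_lit 5675065303) (nat_lit 504) (nat_lit 7702455672) (nat_lit 84) (nat_lit 2789527155) (nat_lit 106) (nat_lit 5) (nat_lit 112) (nat_lit 5) (nat_lit 107) (nat_lit 5) (nat_lit 276) (nat_lit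 259) (nat_lit 185))) (XT.nd (nat_lit 94) (nat_lit 0) (nat_lit 0) (XT.lf (nat_lit 0) (nat_lit 1607940709) (nat_lit 336) (nat_lit 6701941719) (nat_lit 420) (nat_lit 8298106018) (nat_lit 102) (nat_lit 5) (nat_lit 106) (nat_lit 5) (nat_lit 107) (nat_lit 5) (nat_lit 277) (nat_lit 259) (nat_lit 184)) (XT.lf (nat_lit 0) (nat_lit 11194356376) (nat_lit 420) (nat_lit 5443195612) (nat_lit 84) (nat_lit 427527991) (nat_lit 102) (nat_lit 5) (nat_lit 107) (nat_lit 5) (nat_lit 103) (nat_lit 5) (nat_lit 278) (nat_lit 259) (nat_lit 183))))) (XT.nd (nat_lit 376) (nat_lit 924) (nat_lit 0) (XT.nd (nat_lit 188) (nat_lit 756) (nat_lit 0) (XT.nd (nat_lit 94) (nat_lit 0) (nat_lit 0) (XT.lf (nat_lit 0) (nat_lit 4607113550) (nat_lit 336) (nat_lit 9779198398) (nat_lit 420) (nat_lit 3150551243) (nat_lit 98) (nat_lit 5) (nat_lit 102) (nat_lit 5) (nat_lit 103) (nat_lit 5) (nat_lit 279) (nat_lit 259) (nat_lit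 182)) (XT.lf (nat_lit 0) (nat_lit 15327293975) (nat_lit 336) (nat_lit 2484759863) (nat_lit 420) (nat_lit 216472300) (nat_lit 98) (nat_lit 5) (nat_lit 102) (nat_lit 5) (nat_lit 103) (nat_lit 5) (nat_lit 280) (nat_lit 259) (nat_lit 181))) (XT.nd (nat_lit 94) (nat_lit 336) (nat_lit 0) (XT.lf (nat_lit 0) (nat_lit 2967379642) (nat_lit 420) (nat_lit 10384104281) (nat_lit 84) (nat_lit 5181315070) (nat_lit 93) (nat_lit 5) (nat_lit 98) (nat_lit 5) (nat_lit 94) (nat_lit 5) (nat_lit 281) (nat_lit 259) (nat_lit 180)) (XT.lf (nat_lit 0) (nat_lit 525063976) (nat_lit 336) (nat_lit 5856538027) (nat_lit 420) (nat_lit 12676583415) (nat_lit 89) (nat_lit 5) (nat_lit 93) (nat_lit 5) (nat_lit 94) (nat_lit 5) (nat_lit 282) (nat_lit 259) (nat_lit 179)))) (XT.nd (nat_lit 188) (nat_lit 672) (nat_lit 0) (XT.nd (nat_lit 94) (nat_lit 252) (nat_lit 0) (XT.lf (nat_lit 0) (nat_lit 10160135926) (nat_lit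 420) (nat_lit 7317170247) (nat_lit 84) (nat_lit 2122854970) (nat_lit 89) (nat_lit 5) (nat_lit 94) (nat_lit 5) (nat_lit 90) (nat_lit 5) (nat_lit 283) (nat_lit 259) (nat_lit 178)) (XT.lf (nat_lit 0) (nat_lit 4486192599) (nat_lit 252) (nat_lit 9791670679) (nat_lit 336) (nat_lit 5883859038) (nat_lit 86) (nat_lit 5) (nat_lit 89) (nat_lit 5) (nat_lit 90) (nat_lit 5) (nat_lit 284) (nat_lit 259) (nat_lit 177))) (XT.nd (nat_lit 94) (nat_lit 672) (nat_lit 0) (XT.lf (nat_lit 0) (nat_lit 17113134066) (nat_lit 252) (nat_lit 1596908235) (nat_lit 336) (nat_lit 2035890983) (nat_lit 86) (nat_lit 5) (nat_lit 89) (nat_lit 5) (nat_lit 90) (nat_lit 5) (nat_lit 285) (nat_lit 259) (nat_lit 176)) (XT.nd (nat_lit 94) (nat_lit 252) (nat_lit 0) (XT.lf (nat_lit 0) (nat_lit 2182191263) (nat_lit 420) (nat_lit 12206598001) (nat_lit 84) (nat_lit 6956907186) (nat_lit 81) (nat_lit 5) (nat_lit 86) (nat_lit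 5) (nat_lit 82) (nat_lit 5) (nat_lit 286) (nat_lit 259) (nat_lit 175)) (XT.lf (nat_lit 0) (nat_lit 642906876) (nat_lit 252) (nat_lit 5984051604) (nat_lit 336) (nat_lit 15342610524) (nat_lit 78) (nat_lit 5) (nat_lit 81) (nat_lit 5) (nat_lit 82) (nat_lit 5) (nat_lit 287) (nat_lit 259) (nat_lit 174))))))) (XT.nd (nat_lit 752) (nat_lit 1260) (nat_lit 0) (XT.nd (nat_lit 376) (nat_lit 504) (nat_lit 0) (XT.nd (nat_lit 188) (nat_lit 336) (nat_lit 0) (XT.nd (nat_lit 94) (nat_lit 252) (nat_lit 0) (XT.lf (nat_lit 0) (nat_lit 11534170092) (nat_lit 336) (nat_lit 8124105344) (nat_lit 84) (nat_lit 2954349447) (nat_lit 78) (nat_lit 5) (nat_lit 82) (nat_lit 5) (nat_lit 79) (nat_lit 5) (nat_lit 288) (nat_lit 259) (nat_lit 173)) (XT.lf (nat_lit 0) (nat_lit 5806579044) (nat_lit 252) (nat_lit 11055336270) (nat_lit 336) (nat_lit 6417159591) (nat_lit 75) (nat_lit 5) (nat_lit 78) (nat_lit 5) (nat_lit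 79) (nat_lit 5) (nat_lit 289) (nat_lit 259) (nat_lit 172))) (XT.nd (nat_lit 94) (nat_lit 336) (nat_lit 0) (XT.lf (nat_lit 0) (nat_lit 20696418939) (nat_lit 252) (nat_lit 1883974835) (nat_lit 336) (nat_lit 1392236356) (nat_lit 75) (nat_lit 5) (nat_lit 78) (nat_lit 5) (nat_lit 79) (nat_lit 5) (nat_lit 290) (nat_lit 259) (nat_lit 171)) (XT.lf (nat_lit 0) (nat_lit 4057991241) (nat_lit 336) (nat_lit 12881819381) (nat_lit 84) (nat_lit 7743102123) (nat_lit 71) (nat_lit 5) (nat_lit 75) (nat_lit 5) (nat_lit 72) (nat_lit 5) (nat_lit 291) (nat_lit 259) (nat_lit 170)))) (XT.nd (nat_lit 188) (nat_lit 252) (nat_lit 0) (XT.nd (nat_lit 94) (nat_lit 0) (nat_lit 0) (XT.lf (nat_lit 0) (nat_lit 2320573676) (nat_lit 252) (nat_lit 7524285523) (nat_lit 336) (nat_lit 15577163254) (nat_lit 68) (nat_lit 5) (nat_lit 71) (nat_lit 5) (nat_lit 72) (nat_lit 5) (nat_lit 292) (nat_lit 259) (nat_lit 169))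 (XT.lf (nat_lit 0) (nat_lit 16167295506) (nat_lit 336) (nat_lit 7516674472) (nat_lit 84) (nat_lit 2501806420) (nat_lit 68) (nat_lit 5) (nat_lit 72) (nat_lit 5) (nat_lit 69) (nat_lit 5) (nat_lit 293) (nat_lit 259) (nat_lit 168))) (XT.nd (nat_lit 94) (nat_lit 84) (nat_lit 0) (XT.lf (nat_lit 0) (nat_lit 8993401465) (nat_lit 168) (nat_lit 14064414287) (nat_lit 252) (nat_lit 3917304182) (nat_lit 66) (nat_lit 5) (nat_lit 68) (nat_lit 5) (nat_lit 69) (nat_lit 5) (nat_lit 294) (nat_lit 259) (nat_lit 167)) (XT.lf (nat_lit 0) (nat_lit 2526946226) (nat_lit 252) (nat_lit 1267091611) (nat_lit 84) (nat_lit 24002066039) (nat_lit 65) (nat_lit 5) (nat_lit 68) (nat_lit 5) (nat_lit 66) (nat_lit 5) (nat_lit 295) (nat_lit 259) (nat_lit 166))))) (XT.nd (nat_lit 376) (nat_lit 588) (nat_lit 0) (XT.nd (nat_lit 188) (nat_lit 252) (nat_lit 0) (XT.nd (nat_lit 94) (nat_lit 168) (nat_lit 0) (XT.lf (nat_lit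 0) (nat_lit 9526290003) (nat_lit 336) (nat_lit 12019685326) (nat_lit 84) (nat_lit 7090724382) (nat_lit 62) (nat_lit 5) (nat_lit 66) (nat_lit 5) (nat_lit 63) (nat_lit 5) (nat_lit 296) (nat_lit 259) (nat_lit 165)) (XT.lf (nat_lit 0) (nat_lit 6033835057) (nat_lit 168) (nat_lit 11008986442) (nat_lit 252) (nat_lit 12468142815) (nat_lit 60) (nat_lit 5) (nat_lit 62) (nat_lit 5) (nat_lit 63) (nat_lit 5) (nat_lit 297) (nat_lit 259) (nat_lit 164))) (XT.nd (nat_lit 94) (nat_lit 252) (nat_lit 0) (XT.lf (nat_lit 0) (nat_lit 25132084024) (nat_lit 252) (nat_lit 5033574203) (nat_lit 84) (nat_lit 253438697) (nat_lit 60) (nat_lit 5) (nat_lit 63) (nat_lit 5) (nat_lit 61) (nat_lit 5) (nat_lit 298) (nat_lit 259) (nat_lit 163)) (XT.lf (nat_lit 0) (nat_lit 2585705378) (nat_lit 252) (nat_lit 16792488019) (nat_lit 84) (nat_lit 11972451475) (nat_lit 57) (nat_lit 5) (nat_lit 60) (nat_lit 5) (nat_lit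 58) (nat_lit 5) (nat_lit 299) (nat_lit 259) (nat_lit 162)))) (XT.nd (nat_lit 188) (nat_lit 420) (nat_lit 0) (XT.nd (nat_lit 94) (nat_lit 0) (nat_lit 0) (XT.lf (nat_lit 0) (nat_lit 2969541178) (nat_lit 168) (nat_lit 7827578712) (nat_lit 252) (nat_lit 21521179778) (nat_lit 55) (nat_lit 5) (nat_lit 57) (nat_lit 5) (nat_lit 58) (nat_lit 5) (nat_lit 300) (nat_lit 259) (nat_lit 161)) (XT.lf (nat_lit 0) (nat_lit 19765151053) (nat_lit 252) (nat_lit 9106527144) (nat_lit 84) (nat_lit 4445356712) (nat_lit 55) (nat_lit 5) (nat_lit 58) (nat_lit 5) (nat_lit 56) (nat_lit 5) (nat_lit 301) (nat_lit 259) (nat_lit 160))) (XT.nd (nat_lit 94) (nat_lit 252) (nat_lit 0) (XT.lf (nat_lit 0) (nat_lit 12399919703) (nat_lit 168) (nat_lit 17093916818) (nat_lit 252) (nat_lit 4856257753) (nat_lit 53) (nat_lit 5) (nat_lit 55) (nat_lit 5) (nat_lit 56) (nat_lit 5) (nat_lit 302) (nat_lit 259) (nat_lit 159))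 (XT.nd (nat_lit 94) (nat_lit 168) (nat_lit 0) (XT.lf (nat_lit 0) (nat_lit 4284488692) (nat_lit 252) (nat_lit 215010698) (nat_lit 84) (nat_lit 30924613718) (nat_lit 52) (nat_lit 5) (nat_lit 55) (nat_lit 5) (nat_lit 53) (nat_lit 5) (nat_lit 303) (nat_lit 259) (nat_lit 158)) (XT.lf (nat_lit 0) (nat_lit 14216376024) (nat_lit 252) (nat_lit 13417608087) (nat_lit 84) (nat_lit 8889002950) (nat_lit 50) (nat_lit 5) (nat_lit 53) (nat_lit 5) (nat_lit 51) (nat_lit 5) (nat_lit 304) (nat_lit 259) (nat_lit 157))))))))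
noncomputable def xc139 : XT := (XT.nd (nat_lit 1598) (nat_lit 1344) (nat_lit 0) (XT.nd (nat_lit 752) (nat_lit 1008) (nat_lit 0) (XT.nd (nat_lit 376) (nat_lit 336) (nat_lit 0) (XT.nd (nat_lit 188) (nat_lit 336) (nat_lit 0) (XT.nd (nat_lit 94) (nat_lit 0) (nat_lit 0) (XT.lf (nat_lit 0) (nat_lit 10158121826) (nat_lit 168) (nat_lit 14713733557) (nat_lit 252) (nat_lit 12793599448) (nat_lit 48) (nat_lit 5) (nat_lit 50) (nat_lit 5) (nat_lit 51) (nat_lit 5) (nat_lit 305) (nat_lit 259) (nat_lit 156)) (XT.lf (nat_lit 0) (nat_lit 35362912583) (nat_lit 168) (nat_lit 915556121) (nat_lit 252) (nat_lit 2575659284) (nat_lit 48) (nat_lit 5) (nat_lit 50) (nat_lit 5) (nat_lit 51) (nat_lit 5) (nat_lit 306) (nat_lit 259) (nat_lit 155))) (XT.nd (nat_lit 94) (nat_lit 168) (nat_lit 0) (XT.lf (nat_lit 0) (nat_lit 8451350861) (nat_lit 168) (nat_lit 18001532946) (nat_lit 84) (nat_lit 13615030019)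 (nat_lit 46) (nat_lit 5) (nat_lit 48) (nat_lit 5) (nat_lit 47) (nat_lit 5) (nat_lit 307) (nat_lit 259) (nat_lit 154)) (XT.lf (nat_lit 0) (nat_lit 7861883930) (nat_lit 168) (nat_lit 12270605249) (nat_lit 252) (nat_lit 21198321745) (nat_lit 44) (nat_lit 5) (nat_lit 46) (nat_lit 5) (nat_lit 47) (nat_lit 5) (nat_lit 308) (nat_lit 259) (nat_lit 153)))) (XT.nd (nat_lit 188) (nat_lit 168) (nat_lit 0) (XT.nd (nat_lit 94) (nat_lit 168) (nat_lit 0) (XT.lf (nat_lit 0) (nat_lit 32740020978) (nat_lit 252) (nat_lit 7059325008) (nat_lit 84) (nat_lit 2840390063) (nat_lit 44) (nat_lit 5) (nat_lit 47) (nat_lit 5) (nat_lit 45) (nat_lit 4) (nat_lit 309) (nat_lit 259) (nat_lit 152)) (XT.lf (nat_lit 0) (nat_lit 2432578230) (nat_lit 168) (nat_lit 22895771823) (nat_lit 84) (nat_lit 18657643796) (nat_lit 42) (nat_lit 5) (nat_lit 44) (nat_lit 5) (nat_lit 43) (nat_lit 5) (nat_lit 310) (nat_lit 259)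 (nat_lit 151))) (XT.nd (nat_lit 94) (nat_lit 0) (nat_lit 0) (XT.lf (nat_lit 0) (nat_lit 5495845650) (nat_lit 168) (nat_lit 9752252803) (nat_lit 252) (nat_lit 30133386185) (nat_lit 40) (nat_lit 5) (nat_lit 42) (nat_lit 5) (nat_lit 43) (nat_lit 5) (nat_lit 311) (nat_lit 259) (nat_lit 150)) (XT.lf (nat_lit 0) (nat_lit 29193634283) (nat_lit 252) (nat_lit 10849477254) (nat_lit 84) (nat_lit 6779176450) (nat_lit 40) (nat_lit 5) (nat_lit 43) (nat_lit 5) (nat_lit 41) (nat_lit 4) (nat_lit 312) (nat_lit 259) (nat_lit 149))))) (XT.nd (nat_lit 376) (nat_lit 588) (nat_lit 0) (XT.nd (nat_lit 188) (nat_lit 84) (nat_lit 0) (XT.nd (nat_lit 94) (nat_lit 252) (nat_lit 0) (XT.lf (nat_lit 0) (nat_lit 20108300381) (nat_lit 84) (nat_lit 24194391381) (nat_lit 168) (nat_lit 4009127500) (nat_lit 39) (nat_lit 5) (nat_lit 40) (nat_lit 5) (nat_lit 41) (nat_lit 4) (nat_lit 313) (nat_lit 259) (nat_lit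 148)) (XT.lf (nat_lit 0) (nat_lit 3043791541) (nat_lit 168) (nat_lit 7144920824) (nat_lit 252) (nat_lit 39667744593) (nat_lit 36) (nat_lit 5) (nat_lit 38) (nat_lit 5) (nat_lit 39) (nat_lit 5) (nat_lit 314) (nat_lit 259) (nat_lit 147))) (XT.nd (nat_lit 94) (nat_lit 84) (nat_lit 0) (XT.lf (nat_lit 0) (nat_lit 25607626133) (nat_lit 252) (nat_lit 14877298035) (nat_lit 84) (nat_lit 10957820458) (nat_lit 36) (nat_lit 5) (nat_lit 39) (nat_lit 5) (nat_lit 37) (nat_lit 4) (nat_lit 315) (nat_lit 259) (nat_lit 146)) (XT.lf (nat_lit 0) (nat_lit 19136891100) (nat_lit 84) (nat_lit 23069359310) (nat_lit 168) (nat_lit 10881658025) (nat_lit 35) (nat_lit 5) (nat_lit 36) (nat_lit 5) (nat_lit 37) (nat_lit 4) (nat_lit 316) (nat_lit 259) (nat_lit 145)))) (XT.nd (nat_lit 188) (nat_lit 336) (nat_lit 0) (XT.nd (nat_lit 94) (nat_lit 0) (nat_lit 0) (XT.lf (nat_lit 0) (nat_lit 488484208) (nat_lit 168)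 (nat_lit 4433324450) (nat_lit 252) (nat_lit 49876930175) (nat_lit 32) (nat_lit 5) (nat_lit 34) (nat_lit 5) (nat_lit 35) (nat_lit 5) (nat_lit 317) (nat_lit 259) (nat_lit 144)) (XT.lf (nat_lit 0) (nat_lit 21963362435) (nat_lit 252) (nat_lit 19175180494) (nat_lit 84) (nat_lit 15406967990) (nat_lit 32) (nat_lit 5) (nat_lit 35) (nat_lit 5) (nat_lit 33) (nat_lit 4) (nat_lit 318) (nat_lit 259) (nat_lit 143))) (XT.nd (nat_lit 94) (nat_lit 252) (nat_lit 0) (XT.lf (nat_lit 0) (nat_lit 18214198727) (nat_lit 84) (nat_lit 21993098658) (nat_lit 168) (nat_lit 18154809049) (nat_lit 31) (nat_lit 5) (nat_lit 32) (nat_lit 5) (nat_lit 33) (nat_lit 4) (nat_lit 319) (nat_lit 259) (nat_lit 142)) (XT.nd (nat_lit 94) (nat_lit 252) (nat_lit 0) (XT.lf (nat_lit 0) (nat_lit 58126232075) (nat_lit 84) (nat_lit 1555314992) (nat_lit 168) (nat_lit 572078759) (nat_lit 31) (nat_lit 5) (nat_lit 32) (nat_lit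 5) (nat_lit 33) (nat_lit 4) (nat_lit 320) (nat_lit 259) (nat_lit 141)) (XT.lf (nat_lit 0) (nat_lit 18240842328) (nat_lit 252) (nat_lit 23778304869) (nat_lit 84) (nat_lit 20160426543) (nat_lit 28) (nat_lit 5) (nat_lit 31) (nat_lit 5) (nat_lit 29) (nat_lit 4) (nat_lit 321) (nat_lit 259) (nat_lit 140))))))) (XT.nd (nat_lit 752) (nat_lit 756) (nat_lit 0) (XT.nd (nat_lit 376) (nat_lit 252) (nat_lit 0) (XT.nd (nat_lit 188) (nat_lit 252) (nat_lit 0) (XT.nd (nat_lit 94) (nat_lit 0) (nat_lit 0) (XT.lf (nat_lit 0) (nat_lit 17337467378) (nat_lit 84) (nat_lit 20964138276) (nat_lit 168) (nat_lit 25883423389) (nat_lit 27) (nat_lit 5) (nat_lit 28) (nat_lit 5) (nat_lit 29) (nat_lit 4) (nat_lit 322) (nat_lit 259) (nat_lit 139)) (XT.lf (nat_lit 0) (nat_lit 59786207729) (nat_lit 168) (nat_lit 4972728380) (nat_lit 0) (nat_lit 1510780974) (nat_lit 27) (nat_lit 5) (nat_lit 29) (nat_lit 4) (nat_lit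 27) (nat_lit 4) (nat_lit 323) (nat_lit 259) (nat_lit 138))) (XT.nd (nat_lit 94) (nat_lit 84) (nat_lit 0) (XT.lf (nat_lit 0) (nat_lit 14418558941) (nat_lit 168) (nat_lit 28724976279) (nat_lit 84) (nat_lit 25255433518) (nat_lit 25) (nat_lit 5) (nat_lit 27) (nat_lit 5) (nat_lit 26) (nat_lit 4) (nat_lit 324) (nat_lit 259) (nat_lit 137)) (XT.lf (nat_lit 0) (nat_lit 16504149708) (nat_lit 84) (nat_lit 19980926139) (nat_lit 168) (nat_lit 34127431096) (nat_lit 24) (nat_lit 5) (nat_lit 25) (nat_lit 5) (nat_lit 26) (nat_lit 4) (nat_lit 325) (nat_lit 259) (nat_lit 136)))) (XT.nd (nat_lit 188) (nat_lit 84) (nat_lit 0) (XT.nd (nat_lit 94) (nat_lit 168) (nat_lit 0) (XT.lf (nat_lit 0) (nat_lit 60211105614) (nat_lit 168) (nat_lit 8007791948) (nat_lit 0) (nat_lit 4690015146) (nat_lit 24) (nat_lit 5) (nat_lit 26) (nat_lit 4) (nat_lit 24) (nat_lit 4) (nat_lit 326) (nat_lit 259) (nat_lit 135))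 (XT.lf (nat_lit 0) (nat_lit 10473341104) (nat_lit 168) (nat_lit 34056989920) (nat_lit 84) (nat_lit 30732964402) (nat_lit 22) (nat_lit 5) (nat_lit 24) (nat_lit 5) (nat_lit 23) (nat_lit 4) (nat_lit 327) (nat_lit 259) (nat_lit 134))) (XT.nd (nat_lit 94) (nat_lit 0) (nat_lit 0) (XT.lf (nat_lit 0) (nat_lit 15711883275) (nat_lit 84) (nat_lit 19041859953) (nat_lit 168) (nat_lit 42952374707) (nat_lit 21) (nat_lit 5) (nat_lit 22) (nat_lit 5) (nat_lit 23) (nat_lit 4) (nat_lit 328) (nat_lit 259) (nat_lit 133)) (XT.lf (nat_lit 0) (nat_lit 60949238443) (nat_lit 168) (nat_lit 11231796857) (nat_lit 0) (nat_lit 8054992621) (nat_lit 21) (nat_lit 5) (nat_lit 23) (nat_lit 4) (nat_lit 21) (nat_lit 4) (nat_lit 329) (nat_lit 259) (nat_lit 132))))) (XT.nd (nat_lit 376) (nat_lit 336) (nat_lit 0) (XT.nd (nat_lit 188) (nat_lit 168) (nat_lit 0) (XT.nd (nat_lit 94) (nat_lit 84) (nat_lit 0) (XT.lf (nat_lit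 0) (nat_lit 6380175121) (nat_lit 168) (nat_lit 39820027657) (nat_lit 84) (nat_lit 36638082586) (nat_lit 19) (nat_lit 5) (nat_lit 21) (nat_lit 5) (nat_lit 20) (nat_lit 4) (nat_lit 330) (nat_lit 259) (nat_lit 131)) (XT.lf (nat_lit 0) (nat_lit 14958470460) (nat_lit 84) (nat_lit 18145311564) (nat_lit 168) (nat_lit 52429991980) (nat_lit 18) (nat_lit 5) (nat_lit 19) (nat_lit 5) (nat_lit 20) (nat_lit 4) (nat_lit 331) (nat_lit 259) (nat_lit 130))) (XT.nd (nat_lit 94) (nat_lit 168) (nat_lit 0) (XT.lf (nat_lit 0) (nat_lit 62020207176) (nat_lit 168) (nat_lit 14670262808) (nat_lit 0) (nat_lit 11630735196) (nat_lit 18) (nat_lit 5) (nat_lit 20) (nat_lit 4) (nat_lit 18) (nat_lit 4) (nat_lit 332) (nat_lit 259) (nat_lit 129)) (XT.lf (nat_lit 0) (nat_lit 2112005438) (nat_lit 168) (nat_lit 46064090207) (nat_lit 84) (nat_lit 43020333218) (nat_lit 16) (nat_lit 5) (nat_lit 18) (nat_lit 5) (nat_lit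 17) (nat_lit 4) (nat_lit 333) (nat_lit 259) (nat_lit 128)))) (XT.nd (nat_lit 188) (nat_lit 252) (nat_lit 0) (XT.nd (nat_lit 94) (nat_lit 0) (nat_lit 0) (XT.lf (nat_lit 0) (nat_lit 14241861339) (nat_lit 84) (nat_lit 17289646307) (nat_lit 168) (nat_lit 62638861162) (nat_lit 15) (nat_lit 5) (nat_lit 16) (nat_lit 5) (nat_lit 17) (nat_lit 4) (nat_lit 334) (nat_lit 259) (nat_lit 127)) (XT.lf (nat_lit 0) (nat_lit 63446157727) (nat_lit 168) (nat_lit 18350972615) (nat_lit 0) (nat_lit 15444666769) (nat_lit 15) (nat_lit 5) (nat_lit 17) (nat_lit 4) (nat_lit 15) (nat_lit 4) (nat_lit 335) (nat_lit 259) (nat_lit 126))) (XT.nd (nat_lit 94) (nat_lit 168) (nat_lit 0) (XT.lf (nat_lit 0) (nat_lit 47533720750) (nat_lit 84) (nat_lit 50443506115) (nat_lit 84) (nat_lit 2438535637) (nat_lit 14) (nat_lit 4) (nat_lit 15) (nat_lit 5) (nat_lit 15) (nat_lit 4) (nat_lit 336) (nat_lit 259) (nat_lit 125))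 (XT.nd (nat_lit 94) (nat_lit 0) (nat_lit 0) (XT.lf (nat_lit 0) (nat_lit 13560139019) (nat_lit 84) (nat_lit 16473238212) (nat_lit 168) (nat_lit 73665114513) (nat_lit 12) (nat_lit 5) (nat_lit 13) (nat_lit 5) (nat_lit 14) (nat_lit 4) (nat_lit 337) (nat_lit 259) (nat_lit 124)) (XT.lf (nat_lit 0) (nat_lit 65252026888) (nat_lit 168) (nat_lit 22304231543) (nat_lit 0) (nat_lit 19526845620) (nat_lit 12) (nat_lit 5) (nat_lit 14) (nat_lit 4) (nat_lit 12) (nat_lit 4) (nat_lit 338) (nat_lit 259) (nat_lit 123))))))))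
noncomputable def xc140 : XT := (XT.nd (nat_lit 37976) (nat_lit 0) (nat_lit 8568) (XT.nd (nat_lit 752) (nat_lit 252) (nat_lit 0) (XT.nd (nat_lit 376) (nat_lit 420) (nat_lit 0) (XT.nd (nat_lit 188) (nat_lit 84) (nat_lit 0) (XT.nd (nat_lit 94) (nat_lit 168) (nat_lit 0) (XT.lf (nat_lit 0) (nat_lit 50250665100) (nat_lit 84) (nat_lit 53030913633) (nat_lit 84) (nat_lit 7302869755) (nat_lit 11) (nat_lit 4) (nat_lit 12) (nat_lit 5) (nat_lit 12) (nat_lit 4) (nat_lit 339) (nat_lit 259) (nat_lit 122)) (XT.lf (nat_lit 0) (nat_lit 12911507024) (nat_lit 84) (nat_lit 15694481851) (nat_lit 168) (nat_lit 85603226496) (nat_lit 9) (nat_lit 5) (nat_lit 10) (nat_lit 5) (nat_lit 11) (nat_lit 4) (nat_lit 340) (nat_lit 259) (nat_lit 121))) (XT.nd (nat_lit 94) (nat_lit 84) (nat_lit 0) (XT.lf (nat_lit 0) (nat_lit 67465812282) (nat_lit 168) (nat_lit 26563150048) (nat_lit 0) (nat_lit 23910225002) (nat_lit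 9) (nat_lit 5) (nat_lit 11) (nat_lit 4) (nat_lit 9) (nat_lit 4) (nat_lit 341) (nat_lit 259) (nat_lit 120)) (XT.lf (nat_lit 0) (nat_lit 53349583013) (nat_lit 84) (nat_lit 56004863134) (nat_lit 84) (nat_lit 12446920780) (nat_lit 8) (nat_lit 4) (nat_lit 9) (nat_lit 5) (nat_lit 9) (nat_lit 4) (nat_lit 342) (nat_lit 259) (nat_lit 119)))) (XT.nd (nat_lit 188) (nat_lit 252) (nat_lit 0) (XT.nd (nat_lit 94) (nat_lit 0) (nat_lit 0) (XT.lf (nat_lit 0) (nat_lit 12294278396) (nat_lit 84) (nat_lit 14951801447) (nat_lit 168) (nat_lit 98556883866) (nat_lit 6) (nat_lit 5) (nat_lit 7) (nat_lit 5) (nat_lit 8) (nat_lit 4) (nat_lit 343) (nat_lit 259) (nat_lit 118)) (XT.lf (nat_lit 0) (nat_lit 70118869218) (nat_lit 168) (nat_lit 31163952806) (nat_lit 0) (nat_lit 28630944069) (nat_lit 6) (nat_lit 5) (nat_lit 8) (nat_lit 4) (nat_lit 6) (nat_lit 4) (nat_lit 344) (nat_lit 259) (nat_lit 117))) (XT.nd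 (nat_lit 94) (nat_lit 168) (nat_lit 0) (XT.lf (nat_lit 0) (nat_lit 56864547205) (nat_lit 84) (nat_lit 59399493468) (nat_lit 84) (nat_lit 17909630792) (nat_lit 5) (nat_lit 4) (nat_lit 6) (nat_lit 5) (nat_lit 6) (nat_lit 4) (nat_lit 345) (nat_lit 259) (nat_lit 116)) (XT.lf (nat_lit 0) (nat_lit 11706866228) (nat_lit 84) (nat_lit 14243657755) (nat_lit 168) (nat_lit 112639945665) (nat_lit 3) (nat_lit 5) (nat_lit 4) (nat_lit 5) (nat_lit 5) (nat_lit 4) (nat_lit 346) (nat_lit 259) (nat_lit 115))))) (XT.nd (nat_lit 376) (nat_lit 0) (nat_lit 0) (XT.nd (nat_lit 188) (nat_lit 168) (nat_lit 0) (XT.nd (nat_lit 94) (nat_lit 84) (nat_lit 0) (XT.lf (nat_lit 0) (nat_lit 73246237513) (nat_lit 168) (nat_lit 36146317120) (nat_lit 0) (nat_lit 33728651481) (nat_lit 3) (nat_lit 5) (nat_lit 5) (nat_lit 4) (nat_lit 3) (nat_lit 4) (nat_lit 347) (nat_lit 259) (nat_lit 114)) (XT.lf (nat_lit 0) (nat_lit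 60833391614) (nat_lit 84) (nat_lit 63252651260) (nat_lit 84) (nat_lit 23733471221) (nat_lit 2) (nat_lit 4) (nat_lit 3) (nat_lit 5) (nat_lit 3) (nat_lit 4) (nat_lit 348) (nat_lit 259) (nat_lit 113))) (XT.nd (nat_lit 94) (nat_lit 0) (nat_lit 0) (XT.lf (nat_lit 0) (nat_lit 221760437697) (nat_lit 0) (nat_lit 0) (nat_lit 0) (nat_lit 0) (nat_lit 0) (nat_lit 0) (nat_lit 1) (nat_lit 0) (nat_lit 1) (nat_lit 0) (nat_lit 349) (nat_lit 259) (nat_lit 112)) (XT.lf (nat_lit 0) (nat_lit 232712591645) (nat_lit 0) (nat_lit 0) (nat_lit 0) (nat_lit 0) (nat_lit 0) (nat_lit 0) (nat_lit 1) (nat_lit 0) (nat_lit 1) (nat_lit 0) (nat_lit 350) (nat_lit 259) (nat_lit 111)))) (XT.nd (nat_lit 36660) (nat_lit 0) (nat_lit 11676) (XT.nd (nat_lit 94) (nat_lit 0) (nat_lit 0) (XT.lf (nat_lit 0) (nat_lit 244212362972) (nat_lit 0) (nat_lit 0) (nat_lit 0) (nat_lit 0) (nat_lit 0) (nat_lit 0) (nat_lit 1) (nat_lit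 0) (nat_lit 1) (nat_lit 0) (nat_lit 351) (nat_lit 259) (nat_lit 110)) (XT.lf (nat_lit 0) (nat_lit 256287132088) (nat_lit 0) (nat_lit 0) (nat_lit 0) (nat_lit 0) (nat_lit 0) (nat_lit 0) (nat_lit 1) (nat_lit 0) (nat_lit 1) (nat_lit 0) (nat_lit 352) (nat_lit 259) (nat_lit 109))) (XT.nd (nat_lit 94) (nat_lit 0) (nat_lit 0) (XT.lf (nat_lit 0) (nat_lit 2116169094) (nat_lit 0) (nat_lit 2116169094) (nat_lit 756) (nat_lit 1340903043) (nat_lit 139) (nat_lit 5) (nat_lit 139) (nat_lit 3) (nat_lit 148) (nat_lit 3) (nat_lit 260) (nat_lit 260) (nat_lit 200)) (XT.lf (nat_lit 0) (nat_lit 9236642900) (nat_lit 756) (nat_lit 1345084196) (nat_lit 840) (nat_lit 815399947) (nat_lit 139) (nat_lit 5) (nat_lit 148) (nat_lit 3) (nat_lit 149) (nat_lit 5) (nat_lit 261) (nat_lit 260) (nat_lit 199)))))) (XT.nd (nat_lit 752) (nat_lit 2352) (nat_lit 0) (XT.nd (nat_lit 376) (nat_lit 0) (nat_lit 84) (XT.nd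 (nat_lit 188) (nat_lit 756) (nat_lit 0) (XT.nd (nat_lit 94) (nat_lit 0) (nat_lit 0) (XT.lf (nat_lit 84) (nat_lit 4559438222) (nat_lit 0) (nat_lit 5593583661) (nat_lit 840) (nat_lit 1501991263) (nat_lit 140) (nat_lit 5) (nat_lit 139) (nat_lit 5) (nat_lit 149) (nat_lit 5) (nat_lit 262) (nat_lit 260) (nat_lit 198)) (XT.lf (nat_lit 84) (nat_lit 10786661619) (nat_lit 0) (nat_lit 317938605) (nat_lit 840) (nat_lit 821724310) (nat_lit 140) (nat_lit 5) (nat_lit 139) (nat_lit 5) (nat_lit 149) (nat_lit 5) (nat_lit 263) (nat_lit 260) (nat_lit 197))) (XT.nd (nat_lit 94) (nat_lit 0) (nat_lit 0) (XT.lf (nat_lit 0) (nat_lit 28908060) (nat_lit 840) (nat_lit 7026982889) (nat_lit 924) (nat_lit 5148748758) (nat_lit 130) (nat_lit 5) (nat_lit 140) (nat_lit 5) (nat_lit 141) (nat_lit 5) (nat_lit 264) (nat_lit 260) (nat_lit 196)) (XT.lf (nat_lit 0) (nat_lit 888385335) (nat_lit 840) (nat_lit 685302568)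 (nat_lit 924) (nat_lit 10922812761) (nat_lit 130) (nat_lit 5) (nat_lit 140) (nat_lit 5) (nat_lit 141) (nat_lit 5) (nat_lit 265) (nat_lit 260) (nat_lit 195)))) (XT.nd (nat_lit 188) (nat_lit 0) (nat_lit 84) (XT.nd (nat_lit 94) (nat_lit 0) (nat_lit 0) (XT.lf (nat_lit 0) (nat_lit 1924460633) (nat_lit 840) (nat_lit 6716151244) (nat_lit 924) (nat_lit 4155661584) (nat_lit 131) (nat_lit 5) (nat_lit 141) (nat_lit 5) (nat_lit 142) (nat_lit 5) (nat_lit 266) (nat_lit 260) (nat_lit 194)) (XT.lf (nat_lit 84) (nat_lit 51773669) (nat_lit 0) (nat_lit 2970774478) (nat_lit 924) (nat_lit 10087976327) (nat_lit 132) (nat_lit 5) (nat_lit 131) (nat_lit 5) (nat_lit 142) (nat_lit 5) (nat_lit 267) (nat_lit 260) (nat_lit 193))) (XT.nd (nat_lit 94) (nat_lit 0) (nat_lit 0) (XT.lf (nat_lit 0) (nat_lit 4310637865) (nat_lit 840) (nat_lit 6114138117) (nat_lit 924) (nat_lit 3008957165) (nat_lit 132) (nat_lit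 5) (nat_lit 142) (nat_lit 5) (nat_lit 143) (nat_lit 5) (nat_lit 268) (nat_lit 260) (nat_lit 192)) (XT.lf (nat_lit 84) (nat_lit 1144520624) (nat_lit 0) (nat_lit 4559396986) (nat_lit 924) (nat_lit 8067145366) (nat_lit 133) (nat_lit 5) (nat_lit 132) (nat_lit 5) (nat_lit 143) (nat_lit 5) (nat_lit 269) (nat_lit 260) (nat_lit 191))))) (XT.nd (nat_lit 376) (nat_lit 1260) (nat_lit 0) (XT.nd (nat_lit 188) (nat_lit 504) (nat_lit 0) (XT.nd (nat_lit 94) (nat_lit 840) (nat_lit 0) (XT.lf (nat_lit 0) (nat_lit 7272256260) (nat_lit 840) (nat_lit 5190449680) (nat_lit 84) (nat_lit 1657283611) (nat_lit 133) (nat_lit 5) (nat_lit 143) (nat_lit 5) (nat_lit 134) (nat_lit 5) (nat_lit 270) (nat_lit 260) (nat_lit 190)) (XT.lf (nat_lit 0) (nat_lit 2605050059) (nat_lit 840) (nat_lit 6405742667) (nat_lit 924) (nat_lit 5470980686) (nat_lit 123) (nat_lit 5) (nat_lit 133) (nat_lit 5) (nat_lit 134) (nat_lit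 5) (nat_lit 271) (nat_lit 260) (nat_lit 189))) (XT.nd (nat_lit 94) (nat_lit 504) (nat_lit 0) (XT.lf (nat_lit 0) (nat_lit 10902083110) (nat_lit 924) (nat_lit 3909316851) (nat_lit 84) (nat_lit 46955148) (nat_lit 123) (nat_lit 5) (nat_lit 134) (nat_lit 5) (nat_lit 124) (nat_lit 5) (nat_lit 272) (nat_lit 260) (nat_lit 188)) (XT.lf (nat_lit 0) (nat_lit 4473811921) (nat_lit 504) (nat_lit 8567273108) (nat_lit 588) (nat_lit 2205023512) (nat_lit 117) (nat_lit 5) (nat_lit 123) (nat_lit 5) (nat_lit 124) (nat_lit 5) (nat_lit 273) (nat_lit 260) (nat_lit 187)))) (XT.nd (nat_lit 188) (nat_lit 756) (nat_lit 0) (XT.nd (nat_lit 94) (nat_lit 504) (nat_lit 0) (XT.lf (nat_lit 0) (nat_lit 13391329887) (nat_lit 504) (nat_lit 1940913520) (nat_lit 588) (nat_lit 318745920) (nat_lit 117) (nat_lit 5) (nat_lit 123) (nat_lit 5) (nat_lit 124) (nat_lit 5) (nat_lit 274) (nat_lit 260) (nat_lit 186)) (XT.lf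 (nat_lit 0) (nat_lit 1775810862) (nat_lit 504) (nat_lit 9299214590) (nat_lit 84) (nat_lit 4991433659) (nat_lit 111) (nat_lit 5) (nat_lit 117) (nat_lit 5) (nat_lit 112) (nat_lit 5) (nat_lit 275) (nat_lit 260) (nat_lit 185))) (XT.nd (nat_lit 94) (nat_lit 756) (nat_lit 0) (XT.lf (nat_lit 0) (nat_lit 4015424801) (nat_lit 504) (nat_lit 235357193) (nat_lit 84) (nat_lit 12249107060) (nat_lit 111) (nat_lit 5) (nat_lit 117) (nat_lit 5) (nat_lit 112) (nat_lit 5) (nat_lit 276) (nat_lit 260) (nat_lit 184)) (XT.nd (nat_lit 94) (nat_lit 336) (nat_lit 0) (XT.lf (nat_lit 0) (nat_lit 6545605833) (nat_lit 504) (nat_lit 7428313166) (nat_lit 84) (nat_lit 2972142175) (nat_lit 106) (nat_lit 5) (nat_lit 112) (nat_lit 5) (nat_lit 107) (nat_lit 5) (nat_lit 277) (nat_lit 260) (nat_lit 183)) (XT.lf (nat_lit 0) (nat_lit 2336969723) (nat_lit 336) (nat_lit 6957378802) (nat_lit 420) (nat_lit 8115590743)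 (nat_lit 102) (nat_lit 5) (nat_lit 106) (nat_lit 5) (nat_lit 107) (nat_lit 5) (nat_lit 278) (nat_lit 260) (nat_lit 182))))))))
noncomputable def xc141 : XT := (XT.nd (nat_lit 1598) (nat_lit 2184) (nat_lit 0) (XT.nd (nat_lit 752) (nat_lit 1680) (nat_lit 0) (XT.nd (nat_lit 376) (nat_lit 588) (nat_lit 0) (XT.nd (nat_lit 188) (nat_lit 420) (nat_lit 0) (XT.nd (nat_lit 94) (nat_lit 336) (nat_lit 0) (XT.lf (nat_lit 0) (nat_lit 12297136759) (nat_lit 420) (nat_lit 5071701238) (nat_lit 84) (nat_lit 522342852) (nat_lit 102) (nat_lit 5) (nat_lit 107) (nat_lit 5) (nat_lit 103) (nat_lit 5) (nat_lit 279) (nat_lit 260) (nat_lit 181)) (XT.lf (nat_lit 0) (nat_lit 5470741863) (nat_lit 336) (nat_lit 10161975286) (nat_lit 420) (nat_lit 2754634722) (nat_lit 98) (nat_lit 5) (nat_lit 102) (nat_lit 5) (nat_lit 103) (nat_lit 5) (nat_lit 280) (nat_lit 260) (nat_lit 180))) (XT.nd (nat_lit 94) (nat_lit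 336) (nat_lit 0) (XT.lf (nat_lit 0) (nat_lit 290198417) (nat_lit 420) (nat_lit 2212758091) (nat_lit 84) (nat_lit 16401662402) (nat_lit 97) (nat_lit 5) (nat_lit 102) (nat_lit 5) (nat_lit 98) (nat_lit 5) (nat_lit 281) (nat_lit 260) (nat_lit 179)) (XT.lf (nat_lit 0) (nat_lit 3612983807) (nat_lit 420) (nat_lit 10270338280) (nat_lit 84) (nat_lit 5551255096) (nat_lit 93) (nat_lit 5) (nat_lit 98) (nat_lit 5) (nat_lit 94) (nat_lit 5) (nat_lit 282) (nat_lit 260) (nat_lit 178)))) (XT.nd (nat_lit 188) (nat_lit 252) (nat_lit 0) (XT.nd (nat_lit 94) (nat_lit 0) (nat_lit 0) (XT.lf (nat_lit 0) (nat_lit 1174079177) (nat_lit 336) (nat_lit 6009883305) (nat_lit 420) (nat_lit 12802968189) (nat_lit 89) (nat_lit 5) (nat_lit 93) (nat_lit 5) (nat_lit 94) (nat_lit 5) (nat_lit 283) (nat_lit 260) (nat_lit 177)) (XT.lf (nat_lit 0) (nat_lit 11130483748) (nat_lit 420) (nat_lit 7068982739) (nat_lit 84)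 (nat_lit 2357585662) (nat_lit 89) (nat_lit 5) (nat_lit 94) (nat_lit 5) (nat_lit 90) (nat_lit 5) (nat_lit 284) (nat_lit 260) (nat_lit 176))) (XT.nd (nat_lit 94) (nat_lit 0) (nat_lit 0) (XT.lf (nat_lit 0) (nat_lit 5314644281) (nat_lit 252) (nat_lit 10126869297) (nat_lit 336) (nat_lit 5705806997) (nat_lit 86) (nat_lit 5) (nat_lit 89) (nat_lit 5) (nat_lit 90) (nat_lit 5) (nat_lit 285) (nat_lit 260) (nat_lit 175)) (XT.lf (nat_lit 0) (nat_lit 18544164152) (nat_lit 252) (nat_lit 1529720394) (nat_lit 336) (nat_lit 1687928395) (nat_lit 86) (nat_lit 5) (nat_lit 89) (nat_lit 5) (nat_lit 90) (nat_lit 5) (nat_lit 286) (nat_lit 260) (nat_lit 174))))) (XT.nd (nat_lit 376) (nat_lit 756) (nat_lit 0) (XT.nd (nat_lit 188) (nat_lit 252) (nat_lit 0) (XT.nd (nat_lit 94) (nat_lit 252) (nat_lit 0) (XT.lf (nat_lit 0) (nat_lit 2717435255) (nat_lit 420) (nat_lit 12217931809) (nat_lit 84) (nat_lit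 7456307487) (nat_lit 81) (nat_lit 5) (nat_lit 86) (nat_lit 5) (nat_lit 82) (nat_lit 5) (nat_lit 287) (nat_lit 260) (nat_lit 173)) (XT.lf (nat_lit 0) (nat_lit 1264387084) (nat_lit 252) (nat_lit 6108962801) (nat_lit 336) (nat_lit 15673945394) (nat_lit 78) (nat_lit 5) (nat_lit 81) (nat_lit 5) (nat_lit 82) (nat_lit 5) (nat_lit 288) (nat_lit 260) (nat_lit 172))) (XT.nd (nat_lit 94) (nat_lit 252) (nat_lit 0) (XT.lf (nat_lit 0) (nat_lit 12508749700) (nat_lit 336) (nat_lit 7951866934) (nat_lit 84) (nat_lit 3262745938) (nat_lit 78) (nat_lit 5) (nat_lit 82) (nat_lit 5) (nat_lit 79) (nat_lit 5) (nat_lit 289) (nat_lit 260) (nat_lit 171)) (XT.lf (nat_lit 0) (nat_lit 6666021937) (nat_lit 252) (nat_lit 11426799467) (nat_lit 336) (nat_lit 6330816731) (nat_lit 75) (nat_lit 5) (nat_lit 78) (nat_lit 5) (nat_lit 79) (nat_lit 5) (nat_lit 290) (nat_lit 260) (nat_lit 170)))) (XT.nd (nat_lit 188)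 (nat_lit 420) (nat_lit 0) (XT.nd (nat_lit 94) (nat_lit 336) (nat_lit 0) (XT.lf (nat_lit 0) (nat_lit 22273253163) (nat_lit 252) (nat_lit 1805503465) (nat_lit 336) (nat_lit 1074037850) (nat_lit 75) (nat_lit 5) (nat_lit 78) (nat_lit 5) (nat_lit 79) (nat_lit 5) (nat_lit 291) (nat_lit 260) (nat_lit 169)) (XT.lf (nat_lit 0) (nat_lit 4629730842) (nat_lit 336) (nat_lit 12964926787) (nat_lit 84) (nat_lit 8303958753) (nat_lit 71) (nat_lit 5) (nat_lit 75) (nat_lit 5) (nat_lit 72) (nat_lit 5) (nat_lit 292) (nat_lit 260) (nat_lit 168))) (XT.nd (nat_lit 94) (nat_lit 168) (nat_lit 0) (XT.lf (nat_lit 0) (nat_lit 2988537801) (nat_lit 252) (nat_lit 7708457843) (nat_lit 336) (nat_lit 15978133257) (nat_lit 68) (nat_lit 5) (nat_lit 71) (nat_lit 5) (nat_lit 72) (nat_lit 5) (nat_lit 293) (nat_lit 260) (nat_lit 167)) (XT.nd (nat_lit 94) (nat_lit 168) (nat_lit 0) (XT.lf (nat_lit 0) (nat_lit 17321271518)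 (nat_lit 336) (nat_lit 7352573146) (nat_lit 84) (nat_lit 2803939992) (nat_lit 68) (nat_lit 5) (nat_lit 72) (nat_lit 5) (nat_lit 69) (nat_lit 5) (nat_lit 294) (nat_lit 260) (nat_lit 166)) (XT.lf (nat_lit 0) (nat_lit 9974297958) (nat_lit 168) (nat_lit 14573856073) (nat_lit 252) (nat_lit 3758849524) (nat_lit 66) (nat_lit 5) (nat_lit 68) (nat_lit 5) (nat_lit 69) (nat_lit 5) (nat_lit 295) (nat_lit 260) (nat_lit 165))))))) (XT.nd (nat_lit 752) (nat_lit 1092) (nat_lit 0) (XT.nd (nat_lit 376) (nat_lit 588) (nat_lit 0) (XT.nd (nat_lit 188) (nat_lit 168) (nat_lit 0) (XT.nd (nat_lit 94) (nat_lit 252) (nat_lit 0) (XT.lf (nat_lit 0) (nat_lit 2979940602) (nat_lit 252) (nat_lit 813715841) (nat_lit 84) (nat_lit 25375920273) (nat_lit 65) (nat_lit 5) (nat_lit 68) (nat_lit 5) (nat_lit 66) (nat_lit 5) (nat_lit 296) (nat_lit 260) (nat_lit 164)) (XT.lf (nat_lit 0) (nat_lit 10324590968) (nat_lit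 336) (nat_lit 12099278641) (nat_lit 84) (nat_lit 7628565766) (nat_lit 62) (nat_lit 5) (nat_lit 66) (nat_lit 5) (nat_lit 63) (nat_lit 5) (nat_lit 297) (nat_lit 260) (nat_lit 163))) (XT.nd (nat_lit 94) (nat_lit 0) (nat_lit 0) (XT.lf (nat_lit 0) (nat_lit 6848508231) (nat_lit 168) (nat_lit 11361117196) (nat_lit 252) (nat_lit 12761153960) (nat_lit 60) (nat_lit 5) (nat_lit 62) (nat_lit 5) (nat_lit 63) (nat_lit 5) (nat_lit 298) (nat_lit 260) (nat_lit 162)) (XT.lf (nat_lit 0) (nat_lit 26691315998) (nat_lit 252) (nat_lit 4784664099) (nat_lit 84) (nat_lit 448940285) (nat_lit 60) (nat_lit 5) (nat_lit 63) (nat_lit 5) (nat_lit 61) (nat_lit 5) (nat_lit 299) (nat_lit 260) (nat_lit 161)))) (XT.nd (nat_lit 188) (nat_lit 168) (nat_lit 0) (XT.nd (nat_lit 94) (nat_lit 168) (nat_lit 0) (XT.lf (nat_lit 0) (nat_lit 3015748035) (nat_lit 252) (nat_lit 17129653222) (nat_lit 84) (nat_lit 12757737989)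 (nat_lit 57) (nat_lit 5) (nat_lit 60) (nat_lit 5) (nat_lit 58) (nat_lit 5) (nat_lit 300) (nat_lit 260) (nat_lit 160)) (XT.lf (nat_lit 0) (nat_lit 3612373254) (nat_lit 168) (nat_lit 8018756505) (nat_lit 252) (nat_lit 22288377198) (nat_lit 55) (nat_lit 5) (nat_lit 57) (nat_lit 5) (nat_lit 58) (nat_lit 5) (nat_lit 301) (nat_lit 260) (nat_lit 159))) (XT.nd (nat_lit 94) (nat_lit 168) (nat_lit 0) (XT.lf (nat_lit 0) (nat_lit 21036532011) (nat_lit 252) (nat_lit 9080008729) (nat_lit 84) (nat_lit 4852189743) (nat_lit 55) (nat_lit 5) (nat_lit 58) (nat_lit 5) (nat_lit 56) (nat_lit 5) (nat_lit 302) (nat_lit 260) (nat_lit 158)) (XT.lf (nat_lit 0) (nat_lit 13493988770) (nat_lit 168) (nat_lit 17751582526) (nat_lit 252) (nat_lit 4808175544) (nat_lit 53) (nat_lit 5) (nat_lit 55) (nat_lit 5) (nat_lit 56) (nat_lit 5) (nat_lit 303) (nat_lit 260) (nat_lit 157))))) (XT.nd (nat_lit 376) (nat_lit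 672) (nat_lit 0) (XT.nd (nat_lit 188) (nat_lit 168) (nat_lit 0) (XT.nd (nat_lit 94) (nat_lit 0) (nat_lit 0) (XT.lf (nat_lit 0) (nat_lit 242361113) (nat_lit 168) (nat_lit 4528311793) (nat_lit 252) (nat_lit 32411047869) (nat_lit 50) (nat_lit 5) (nat_lit 52) (nat_lit 5) (nat_lit 53) (nat_lit 5) (nat_lit 304) (nat_lit 260) (nat_lit 156)) (XT.lf (nat_lit 0) (nat_lit 15192645712) (nat_lit 252) (nat_lit 13625398257) (nat_lit 84) (nat_lit 9517819901) (nat_lit 50) (nat_lit 5) (nat_lit 53) (nat_lit 5) (nat_lit 51) (nat_lit 5) (nat_lit 305) (nat_lit 260) (nat_lit 155))) (XT.nd (nat_lit 94) (nat_lit 0) (nat_lit 0) (XT.lf (nat_lit 0) (nat_lit 11121648954) (nat_lit 168) (nat_lit 15253723087) (nat_lit 252) (nat_lit 13160359336) (nat_lit 48) (nat_lit 5) (nat_lit 50) (nat_lit 5) (nat_lit 51) (nat_lit 5) (nat_lit 306) (nat_lit 260) (nat_lit 154)) (XT.lf (nat_lit 0) (nat_lit 37564983010) (nat_lit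 168) (nat_lit 774955691) (nat_lit 252) (nat_lit 2444518358) (nat_lit 48) (nat_lit 5) (nat_lit 50) (nat_lit 5) (nat_lit 51) (nat_lit 5) (nat_lit 307) (nat_lit 260) (nat_lit 153)))) (XT.nd (nat_lit 188) (nat_lit 336) (nat_lit 0) (XT.nd (nat_lit 94) (nat_lit 168) (nat_lit 0) (XT.lf (nat_lit 0) (nat_lit 9123281277) (nat_lit 168) (nat_lit 18457123779) (nat_lit 84) (nat_lit 14478436317) (nat_lit 46) (nat_lit 5) (nat_lit 48) (nat_lit 5) (nat_lit 47) (nat_lit 5) (nat_lit 308) (nat_lit 260) (nat_lit 152)) (XT.lf (nat_lit 0) (nat_lit 8692294815) (nat_lit 168) (nat_lit 12691135013) (nat_lit 252) (nat_lit 22001705833) (nat_lit 44) (nat_lit 5) (nat_lit 46) (nat_lit 5) (nat_lit 47) (nat_lit 5) (nat_lit 309) (nat_lit 260) (nat_lit 151))) (XT.nd (nat_lit 94) (nat_lit 336) (nat_lit 0) (XT.lf (nat_lit 0) (nat_lit 34612573902) (nat_lit 252) (nat_lit 6987034859) (nat_lit 84) (nat_lit 3160336497)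 (nat_lit 44) (nat_lit 5) (nat_lit 47) (nat_lit 5) (nat_lit 45) (nat_lit 4) (nat_lit 310) (nat_lit 260) (nat_lit 150)) (XT.nd (nat_lit 94) (nat_lit 168) (nat_lit 0) (XT.lf (nat_lit 0) (nat_lit 2788859330) (nat_lit 168) (nat_lit 23614404328) (nat_lit 84) (nat_lit 19770297274) (nat_lit 42) (nat_lit 5) (nat_lit 44) (nat_lit 5) (nat_lit 43) (nat_lit 5) (nat_lit 311) (nat_lit 260) (nat_lit 149)) (XT.lf (nat_lit 0) (nat_lit 6189920534) (nat_lit 168) (nat_lit 10050607294) (nat_lit 252) (nat_lit 31398529821) (nat_lit 40) (nat_lit 5) (nat_lit 42) (nat_lit 5) (nat_lit 43) (nat_lit 5) (nat_lit 312) (nat_lit 260) (nat_lit 148))))))))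
noncomputable def xc142 : XT := (XT.nd (nat_lit 1598) (nat_lit 1344) (nat_lit 0) (XT.nd (nat_lit 752) (nat_lit 840) (nat_lit 0) (XT.nd (nat_lit 376) (nat_lit 420) (nat_lit 0) (XT.nd (nat_lit 188) (nat_lit 252) (nat_lit 0) (XT.nd (nat_lit 94) (nat_lit 84) (nat_lit 0) (XT.lf (nat_lit 0) (nat_lit 30875201046) (nat_lit 252) (nat_lit 10984494952) (nat_lit 84) (nat_lit 7292612137) (nat_lit 40) (nat_lit 5) (nat_lit 43) (nat_lit 5) (nat_lit 41) (nat_lit 4) (nat_lit 313) (nat_lit 260) (nat_lit 147)) (XT.lf (nat_lit 0) (nat_lit 21514599691) (nat_lit 84) (nat_lit 25220804680) (nat_lit 168) (nat_lit 3981126953) (nat_lit 39) (nat_lit 5) (nat_lit 40) (nat_lit 5) (nat_lit 41) (nat_lit 4) (nat_lit 314) (nat_lit 260) (nat_lit 146))) (XT.nd (nat_lit 94) (nat_lit 0) (nat_lit 0) (XT.lf (nat_lit 0) (nat_lit 3597593646) (nat_lit 168) (nat_lit 7317438800) (nat_lit 252) (nat_lit 41423403138) (nat_lit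 36) (nat_lit 5) (nat_lit 38) (nat_lit 5) (nat_lit 39) (nat_lit 5) (nat_lit 315) (nat_lit 260) (nat_lit 145)) (XT.lf (nat_lit 0) (nat_lit 27097310854) (nat_lit 252) (nat_lit 15231093767) (nat_lit 84) (nat_lit 11676012065) (nat_lit 36) (nat_lit 5) (nat_lit 39) (nat_lit 5) (nat_lit 37) (nat_lit 4) (nat_lit 316) (nat_lit 260) (nat_lit 144)))) (XT.nd (nat_lit 188) (nat_lit 84) (nat_lit 0) (XT.nd (nat_lit 94) (nat_lit 252) (nat_lit 0) (XT.lf (nat_lit 0) (nat_lit 20477513386) (nat_lit 84) (nat_lit 24044377976) (nat_lit 168) (nat_lit 11210146073) (nat_lit 35) (nat_lit 5) (nat_lit 36) (nat_lit 5) (nat_lit 37) (nat_lit 4) (nat_lit 317) (nat_lit 260) (nat_lit 143)) (XT.lf (nat_lit 0) (nat_lit 897285271) (nat_lit 168) (nat_lit 4475371659) (nat_lit 252) (nat_lit 52155780952) (nat_lit 32) (nat_lit 5) (nat_lit 34) (nat_lit 5) (nat_lit 35) (nat_lit 5) (nat_lit 318) (nat_lit 260) (nat_lit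 142))) (XT.nd (nat_lit 94) (nat_lit 84) (nat_lit 0) (XT.lf (nat_lit 0) (nat_lit 23259208838) (nat_lit 252) (nat_lit 19760786768) (nat_lit 84) (nat_lit 16342906945) (nat_lit 32) (nat_lit 5) (nat_lit 35) (nat_lit 5) (nat_lit 33) (nat_lit 4) (nat_lit 319) (nat_lit 260) (nat_lit 141)) (XT.lf (nat_lit 0) (nat_lit 19492042822) (nat_lit 84) (nat_lit 22919616455) (nat_lit 168) (nat_lit 18858852628) (nat_lit 31) (nat_lit 5) (nat_lit 32) (nat_lit 5) (nat_lit 33) (nat_lit 4) (nat_lit 320) (nat_lit 260) (nat_lit 140))))) (XT.nd (nat_lit 376) (nat_lit 504) (nat_lit 0) (XT.nd (nat_lit 188) (nat_lit 84) (nat_lit 0) (XT.nd (nat_lit 94) (nat_lit 252) (nat_lit 0) (XT.lf (nat_lit 0) (nat_lit 61382195258) (nat_lit 84) (nat_lit 1468188232) (nat_lit 168) (nat_lit 406685674) (nat_lit 31) (nat_lit 5) (nat_lit 32) (nat_lit 5) (nat_lit 33) (nat_lit 4) (nat_lit 321) (nat_lit 260) (nat_lit 139)) (XT.lf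 (nat_lit 0) (nat_lit 19339785183) (nat_lit 252) (nat_lit 24610472249) (nat_lit 84) (nat_lit 21328949958) (nat_lit 28) (nat_lit 5) (nat_lit 31) (nat_lit 5) (nat_lit 29) (nat_lit 4) (nat_lit 322) (nat_lit 260) (nat_lit 138))) (XT.nd (nat_lit 94) (nat_lit 0) (nat_lit 0) (XT.lf (nat_lit 0) (nat_lit 18555334612) (nat_lit 84) (nat_lit 21844832026) (nat_lit 168) (nat_lit 26984939822) (nat_lit 27) (nat_lit 5) (nat_lit 28) (nat_lit 5) (nat_lit 29) (nat_lit 4) (nat_lit 323) (nat_lit 260) (nat_lit 137)) (XT.lf (nat_lit 0) (nat_lit 62952752450) (nat_lit 168) (nat_lit 4880838560) (nat_lit 0) (nat_lit 1740750210) (nat_lit 27) (nat_lit 5) (nat_lit 29) (nat_lit 4) (nat_lit 27) (nat_lit 4) (nat_lit 324) (nat_lit 260) (nat_lit 136)))) (XT.nd (nat_lit 188) (nat_lit 252) (nat_lit 0) (XT.nd (nat_lit 94) (nat_lit 84) (nat_lit 0) (XT.lf (nat_lit 0) (nat_lit 15316365186) (nat_lit 168) (nat_lit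 29820342818) (nat_lit 84) (nat_lit 26673365257) (nat_lit 25) (nat_lit 5) (nat_lit 27) (nat_lit 5) (nat_lit 26) (nat_lit 4) (nat_lit 325) (nat_lit 260) (nat_lit 135)) (XT.lf (nat_lit 0) (nat_lit 17664741368) (nat_lit 84) (nat_lit 20818280081) (nat_lit 168) (nat_lit 35651426252) (nat_lit 24) (nat_lit 5) (nat_lit 25) (nat_lit 5) (nat_lit 26) (nat_lit 4) (nat_lit 326) (nat_lit 260) (nat_lit 134))) (XT.nd (nat_lit 94) (nat_lit 252) (nat_lit 0) (XT.lf (nat_lit 0) (nat_lit 63389485923) (nat_lit 168) (nat_lit 8082901266) (nat_lit 0) (nat_lit 5073579904) (nat_lit 24) (nat_lit 5) (nat_lit 26) (nat_lit 4) (nat_lit 24) (nat_lit 4) (nat_lit 327) (nat_lit 260) (nat_lit 133)) (XT.nd (nat_lit 94) (nat_lit 84) (nat_lit 0) (XT.lf (nat_lit 0) (nat_lit 11164540275) (nat_lit 168) (nat_lit 35434266224) (nat_lit 84) (nat_lit 32419277092) (nat_lit 22) (nat_lit 5) (nat_lit 24) (nat_lit 5) (nat_lit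 23) (nat_lit 4) (nat_lit 328) (nat_lit 260) (nat_lit 132)) (XT.lf (nat_lit 0) (nat_lit 16817799450) (nat_lit 84) (nat_lit 19838186459) (nat_lit 168) (nat_lit 44927210146) (nat_lit 21) (nat_lit 5) (nat_lit 22) (nat_lit 5) (nat_lit 23) (nat_lit 4) (nat_lit 329) (nat_lit 260) (nat_lit 131))))))) (XT.nd (nat_lit 752) (nat_lit 756) (nat_lit 0) (XT.nd (nat_lit 376) (nat_lit 336) (nat_lit 0) (XT.nd (nat_lit 188) (nat_lit 84) (nat_lit 0) (XT.nd (nat_lit 94) (nat_lit 168) (nat_lit 0) (XT.lf (nat_lit 0) (nat_lit 64155736053) (nat_lit 168) (nat_lit 11482798284) (nat_lit 0) (nat_lit 8601343195) (nat_lit 21) (nat_lit 5) (nat_lit 23) (nat_lit 4) (nat_lit 21) (nat_lit 4) (nat_lit 330) (nat_lit 260) (nat_lit 130)) (XT.lf (nat_lit 0) (nat_lit 6857978585) (nat_lit 168) (nat_lit 41500199645) (nat_lit 84) (nat_lit 38614081667) (nat_lit 19) (nat_lit 5) (nat_lit 21) (nat_lit 5) (nat_lit 20) (nat_lit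 4) (nat_lit 331) (nat_lit 260) (nat_lit 129))) (XT.nd (nat_lit 94) (nat_lit 0) (nat_lit 0) (XT.lf (nat_lit 0) (nat_lit 16012210000) (nat_lit 84) (nat_lit 18902768825) (nat_lit 168) (nat_lit 54887683493) (nat_lit 18) (nat_lit 5) (nat_lit 19) (nat_lit 5) (nat_lit 20) (nat_lit 4) (nat_lit 332) (nat_lit 260) (nat_lit 128)) (XT.lf (nat_lit 0) (nat_lit 65272023847) (nat_lit 168) (nat_lit 15107321210) (nat_lit 0) (nat_lit 12350380065) (nat_lit 18) (nat_lit 5) (nat_lit 20) (nat_lit 4) (nat_lit 18) (nat_lit 4) (nat_lit 333) (nat_lit 260) (nat_lit 127)))) (XT.nd (nat_lit 188) (nat_lit 84) (nat_lit 0) (XT.nd (nat_lit 94) (nat_lit 84) (nat_lit 0) (XT.lf (nat_lit 0) (nat_lit 2368213768) (nat_lit 168) (nat_lit 48070641725) (nat_lit 84) (nat_lit 45309864411) (nat_lit 16) (nat_lit 5) (nat_lit 18) (nat_lit 5) (nat_lit 17) (nat_lit 4) (nat_lit 334) (nat_lit 260) (nat_lit 126)) (XT.lf (nat_lit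 0) (nat_lit 15245822672) (nat_lit 84) (nat_lit 18010253483) (nat_lit 168) (nat_lit 65615411437) (nat_lit 15) (nat_lit 5) (nat_lit 16) (nat_lit 5) (nat_lit 17) (nat_lit 4) (nat_lit 335) (nat_lit 260) (nat_lit 125))) (XT.nd (nat_lit 94) (nat_lit 84) (nat_lit 0) (XT.lf (nat_lit 0) (nat_lit 66761550777) (nat_lit 168) (nat_lit 18985643504) (nat_lit 0) (nat_lit 16349538428) (nat_lit 15) (nat_lit 5) (nat_lit 17) (nat_lit 4) (nat_lit 15) (nat_lit 4) (nat_lit 336) (nat_lit 260) (nat_lit 124)) (XT.lf (nat_lit 0) (nat_lit 50188721985) (nat_lit 84) (nat_lit 52827983087) (nat_lit 84) (nat_lit 2412814712) (nat_lit 14) (nat_lit 4) (nat_lit 15) (nat_lit 5) (nat_lit 15) (nat_lit 4) (nat_lit 337) (nat_lit 260) (nat_lit 123))))) (XT.nd (nat_lit 376) (nat_lit 336) (nat_lit 0) (XT.nd (nat_lit 188) (nat_lit 252) (nat_lit 0) (XT.nd (nat_lit 94) (nat_lit 0) (nat_lit 0) (XT.lf (nat_lit 0) (nat_lit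 14516621641) (nat_lit 84) (nat_lit 17158888483) (nat_lit 168) (nat_lit 77200883005) (nat_lit 12) (nat_lit 5) (nat_lit 13) (nat_lit 5) (nat_lit 14) (nat_lit 4) (nat_lit 338) (nat_lit 260) (nat_lit 122)) (XT.lf (nat_lit 0) (nat_lit 68650455643) (nat_lit 168) (nat_lit 23149591573) (nat_lit 0) (nat_lit 20630420667) (nat_lit 12) (nat_lit 5) (nat_lit 14) (nat_lit 4) (nat_lit 12) (nat_lit 4) (nat_lit 339) (nat_lit 260) (nat_lit 121))) (XT.nd (nat_lit 94) (nat_lit 168) (nat_lit 0) (XT.lf (nat_lit 0) (nat_lit 53028697458) (nat_lit 84) (nat_lit 55550464835) (nat_lit 84) (nat_lit 7527833389) (nat_lit 11) (nat_lit 4) (nat_lit 12) (nat_lit 5) (nat_lit 12) (nat_lit 4) (nat_lit 340) (nat_lit 260) (nat_lit 120)) (XT.lf (nat_lit 0) (nat_lit 13822713501) (nat_lit 84) (nat_lit 16346953707) (nat_lit 168) (nat_lit 89743339989) (nat_lit 9) (nat_lit 5) (nat_lit 10) (nat_lit 5) (nat_lit 11) (nat_lit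 4) (nat_lit 341) (nat_lit 260) (nat_lit 119)))) (XT.nd (nat_lit 188) (nat_lit 252) (nat_lit 0) (XT.nd (nat_lit 94) (nat_lit 84) (nat_lit 0) (XT.lf (nat_lit 0) (nat_lit 70968096911) (nat_lit 168) (nat_lit 27633940654) (nat_lit 0) (nat_lit 25227659433) (nat_lit 9) (nat_lit 5) (nat_lit 11) (nat_lit 4) (nat_lit 9) (nat_lit 4) (nat_lit 342) (nat_lit 260) (nat_lit 118)) (XT.lf (nat_lit 0) (nat_lit 56270277981) (nat_lit 84) (nat_lit 58678695325) (nat_lit 84) (nat_lit 12936121724) (nat_lit 8) (nat_lit 4) (nat_lit 9) (nat_lit 5) (nat_lit 9) (nat_lit 4) (nat_lit 343) (nat_lit 260) (nat_lit 117))) (XT.nd (nat_lit 94) (nat_lit 84) (nat_lit 0) (XT.lf (nat_lit 0) (nat_lit 13162316749) (nat_lit 84) (nat_lit 15572768495) (nat_lit 168) (nat_lit 103351691580) (nat_lit 6) (nat_lit 5) (nat_lit 7) (nat_lit 5) (nat_lit 8) (nat_lit 4) (nat_lit 344) (nat_lit 260) (nat_lit 116)) (XT.nd (nat_lit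 94) (nat_lit 84) (nat_lit 0) (XT.lf (nat_lit 0) (nat_lit 73747363488) (nat_lit 168) (nat_lit 32476738481) (nat_lit 0) (nat_lit 30179224888) (nat_lit 6) (nat_lit 5) (nat_lit 8) (nat_lit 4) (nat_lit 6) (nat_lit 4) (nat_lit 345) (nat_lit 260) (nat_lit 115)) (XT.lf (nat_lit 0) (nat_lit 59949228272) (nat_lit 84) (nat_lit 62248499259) (nat_lit 84) (nat_lit 18678603265) (nat_lit 5) (nat_lit 4) (nat_lit 6) (nat_lit 5) (nat_lit 6) (nat_lit 4) (nat_lit 346) (nat_lit 260) (nat_lit 114))))))))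
noncomputable def xc143 : XT := (XT.nd (nat_lit 38070) (nat_lit 0) (nat_lit 7224) (XT.nd (nat_lit 37224) (nat_lit 0) (nat_lit 10836) (XT.nd (nat_lit 376) (nat_lit 0) (nat_lit 0) (XT.nd (nat_lit 188) (nat_lit 252) (nat_lit 0) (XT.nd (nat_lit 94) (nat_lit 0) (nat_lit 0) (XT.lf (nat_lit 0) (nat_lit 12533752605) (nat_lit 84) (nat_lit 14834697300) (nat_lit 168) (nat_lit 118145523240) (nat_lit 3) (nat_lit 5) (nat_lit 4) (nat_lit 5) (nat_lit 5) (nat_lit 4) (nat_lit 347) (nat_lit 260) (nat_lit 113)) (XT.lf (nat_lit 0) (nat_lit 77025017112) (nat_lit 168) (nat_lit 37719659963) (nat_lit 0) (nat_lit 35526765959) (nat_lit 3) (nat_lit 5) (nat_lit 5) (nat_lit 4) (nat_lit 3) (nat_lit 4) (nat_lit 348) (nat_lit 260) (nat_lit 112))) (XT.nd (nat_lit 94) (nat_lit 168) (nat_lit 0) (XT.lf (nat_lit 0) (nat_lit 64105260450) (nat_lit 84) (nat_lit 66299600265) (nat_lit 84) (nat_lit 24799903300) (nat_lit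 2) (nat_lit 4) (nat_lit 3) (nat_lit 5) (nat_lit 3) (nat_lit 4) (nat_lit 349) (nat_lit 260) (nat_lit 111)) (XT.lf (nat_lit 0) (nat_lit 232848161787) (nat_lit 0) (nat_lit 0) (nat_lit 0) (nat_lit 0) (nat_lit 0) (nat_lit 0) (nat_lit 1) (nat_lit 0) (nat_lit 1) (nat_lit 0) (nat_lit 350) (nat_lit 260) (nat_lit 110)))) (XT.nd (nat_lit 188) (nat_lit 0) (nat_lit 0) (XT.nd (nat_lit 94) (nat_lit 0) (nat_lit 0) (XT.lf (nat_lit 0) (nat_lit 244347937613) (nat_lit 0) (nat_lit 0) (nat_lit 0) (nat_lit 0) (nat_lit 0) (nat_lit 0) (nat_lit 1) (nat_lit 0) (nat_lit 1) (nat_lit 0) (nat_lit 351) (nat_lit 260) (nat_lit 109)) (XT.lf (nat_lit 0) (nat_lit 256422711013) (nat_lit 0) (nat_lit 0) (nat_lit 0) (nat_lit 0) (nat_lit 0) (nat_lit 0) (nat_lit 1) (nat_lit 0) (nat_lit 1) (nat_lit 0) (nat_lit 352) (nat_lit 260) (nat_lit 108))) (XT.nd (nat_lit 36566) (nat_lit 0) (nat_lit 11676) (XT.lf (nat_lit 0)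 (nat_lit 269101231447) (nat_lit 0) (nat_lit 0) (nat_lit 0) (nat_lit 0) (nat_lit 0) (nat_lit 0) (nat_lit 1) (nat_lit 0) (nat_lit 1) (nat_lit 0) (nat_lit 353) (nat_lit 260) (nat_lit 107)) (XT.lf (nat_lit 0) (nat_lit 2491304902) (nat_lit 0) (nat_lit 2491304902) (nat_lit 756) (nat_lit 842360752) (nat_lit 139) (nat_lit 5) (nat_lit 139) (nat_lit 3) (nat_lit 148) (nat_lit 3) (nat_lit 261) (nat_lit 261) (nat_lit 198))))) (XT.nd (nat_lit 376) (nat_lit 0) (nat_lit 84) (XT.nd (nat_lit 188) (nat_lit 840) (nat_lit 0) (XT.nd (nat_lit 94) (nat_lit 0) (nat_lit 0) (XT.lf (nat_lit 0) (nat_lit 10716474576) (nat_lit 756) (nat_lit 840024036) (nat_lit 840) (nat_lit 359584807) (nat_lit 139) (nat_lit 5) (nat_lit 148) (nat_lit 3) (nat_lit 149) (nat_lit 5) (nat_lit 262) (nat_lit 261) (nat_lit 197)) (XT.lf (nat_lit 84) (nat_lit 5350493627) (nat_lit 0) (nat_lit 6288494025) (nat_lit 840) (nat_lit 549860418)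 (nat_lit 140) (nat_lit 5) (nat_lit 139) (nat_lit 5) (nat_lit 149) (nat_lit 5) (nat_lit 263) (nat_lit 261) (nat_lit 196))) (XT.nd (nat_lit 94) (nat_lit 0) (nat_lit 84) (XT.lf (nat_lit 0) (nat_lit 111807294) (nat_lit 840) (nat_lit 615592998) (nat_lit 924) (nat_lit 11748563889) (nat_lit 129) (nat_lit 5) (nat_lit 139) (nat_lit 5) (nat_lit 140) (nat_lit 5) (nat_lit 264) (nat_lit 261) (nat_lit 195)) (XT.lf (nat_lit 0) (nat_lit 935480421) (nat_lit 840) (nat_lit 6768874324) (nat_lit 924) (nat_lit 5065260600) (nat_lit 130) (nat_lit 5) (nat_lit 140) (nat_lit 5) (nat_lit 141) (nat_lit 5) (nat_lit 265) (nat_lit 261) (nat_lit 194)))) (XT.nd (nat_lit 188) (nat_lit 0) (nat_lit 84) (XT.nd (nat_lit 94) (nat_lit 0) (nat_lit 84) (XT.lf (nat_lit 0) (nat_lit 1794830276) (nat_lit 840) (nat_lit 139131782) (nat_lit 924) (nat_lit 11144262355) (nat_lit 130) (nat_lit 5) (nat_lit 140) (nat_lit 5) (nat_lit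 141) (nat_lit 5) (nat_lit 266) (nat_lit 261) (nat_lit 193)) (XT.lf (nat_lit 0) (nat_lit 2846535676) (nat_lit 840) (nat_lit 6435349229) (nat_lit 924) (nat_lit 4112909628) (nat_lit 131) (nat_lit 5) (nat_lit 141) (nat_lit 5) (nat_lit 142) (nat_lit 5) (nat_lit 267) (nat_lit 261) (nat_lit 192))) (XT.nd (nat_lit 94) (nat_lit 0) (nat_lit 84) (XT.lf (nat_lit 84) (nat_lit 661026614) (nat_lit 0) (nat_lit 3308646396) (nat_lit 924) (nat_lit 9756577816) (nat_lit 132) (nat_lit 5) (nat_lit 131) (nat_lit 5) (nat_lit 142) (nat_lit 5) (nat_lit 268) (nat_lit 261) (nat_lit 191)) (XT.nd (nat_lit 94) (nat_lit 0) (nat_lit 0) (XT.lf (nat_lit 0) (nat_lit 5281447313) (nat_lit 840) (nat_lit 5801349637) (nat_lit 924) (nat_lit 2984858977) (nat_lit 132) (nat_lit 5) (nat_lit 142) (nat_lit 5) (nat_lit 143) (nat_lit 5) (nat_lit 269) (nat_lit 261) (nat_lit 190)) (XT.lf (nat_lit 84) (nat_lit 1810266310) (nat_lit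 0) (nat_lit 4907659835) (nat_lit 924) (nat_lit 7705249348) (nat_lit 133) (nat_lit 5) (nat_lit 132) (nat_lit 5) (nat_lit 143) (nat_lit 5) (nat_lit 270) (nat_lit 261) (nat_lit 189))))))) (XT.nd (nat_lit 752) (nat_lit 1680) (nat_lit 0) (XT.nd (nat_lit 376) (nat_lit 924) (nat_lit 0) (XT.nd (nat_lit 188) (nat_lit 504) (nat_lit 0) (XT.nd (nat_lit 94) (nat_lit 840) (nat_lit 0) (XT.lf (nat_lit 0) (nat_lit 8328187686) (nat_lit 840) (nat_lit 4833935595) (nat_lit 84) (nat_lit 1629249818) (nat_lit 133) (nat_lit 5) (nat_lit 143) (nat_lit 5) (nat_lit 134) (nat_lit 5) (nat_lit 271) (nat_lit 261) (nat_lit 188)) (XT.lf (nat_lit 0) (nat_lit 3341403057) (nat_lit 840) (nat_lit 6788743292) (nat_lit 924) (nat_lit 5042275034) (nat_lit 123) (nat_lit 5) (nat_lit 133) (nat_lit 5) (nat_lit 134) (nat_lit 5) (nat_lit 272) (nat_lit 261) (nat_lit 187))) (XT.nd (nat_lit 94) (nat_lit 504) (nat_lit 0) (XT.lf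 (nat_lit 0) (nat_lit 12074563707) (nat_lit 840) (nat_lit 8794052) (nat_lit 924) (nat_lit 3486106581) (nat_lit 123) (nat_lit 5) (nat_lit 133) (nat_lit 5) (nat_lit 134) (nat_lit 5) (nat_lit 273) (nat_lit 261) (nat_lit 186)) (XT.lf (nat_lit 0) (nat_lit 5297682856) (nat_lit 504) (nat_lit 9010572821) (nat_lit 588) (nat_lit 1669402472) (nat_lit 117) (nat_lit 5) (nat_lit 123) (nat_lit 5) (nat_lit 124) (nat_lit 5) (nat_lit 274) (nat_lit 261) (nat_lit 185)))) (XT.nd (nat_lit 188) (nat_lit 420) (nat_lit 0) (XT.nd (nat_lit 94) (nat_lit 420) (nat_lit 0) (XT.lf (nat_lit 0) (nat_lit 271457566) (nat_lit 588) (nat_lit 1776129181) (nat_lit 84) (nat_lit 14356441872) (nat_lit 116) (nat_lit 5) (nat_lit 123) (nat_lit 5) (nat_lit 117) (nat_lit 5) (nat_lit 275) (nat_lit 261) (nat_lit 184)) (XT.lf (nat_lit 0) (nat_lit 2440846570) (nat_lit 504) (nat_lit 9153703765) (nat_lit 84) (nat_lit 5246419474)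 (nat_lit 111) (nat_lit 5) (nat_lit 117) (nat_lit 5) (nat_lit 112) (nat_lit 5) (nat_lit 276) (nat_lit 261) (nat_lit 183))) (XT.nd (nat_lit 94) (nat_lit 0) (nat_lit 0) (XT.lf (nat_lit 0) (nat_lit 345329115) (nat_lit 420) (nat_lit 4425063399) (nat_lit 504) (nat_lit 12526781169) (nat_lit 106) (nat_lit 5) (nat_lit 111) (nat_lit 5) (nat_lit 112) (nat_lit 5) (nat_lit 277) (nat_lit 261) (nat_lit 182)) (XT.lf (nat_lit 0) (nat_lit 7405119471) (nat_lit 504) (nat_lit 7201755772) (nat_lit 84) (nat_lit 3159877322) (nat_lit 106) (nat_lit 5) (nat_lit 112) (nat_lit 5) (nat_lit 107) (nat_lit 5) (nat_lit 278) (nat_lit 261) (nat_lit 181))))) (XT.nd (nat_lit 376) (nat_lit 924) (nat_lit 0) (XT.nd (nat_lit 188) (nat_lit 420) (nat_lit 0) (XT.nd (nat_lit 94) (nat_lit 0) (nat_lit 0) (XT.lf (nat_lit 0) (nat_lit 3042146535) (nat_lit 336) (nat_lit 7232993772) (nat_lit 420) (nat_lit 7979492208) (nat_lit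 102) (nat_lit 5) (nat_lit 106) (nat_lit 5) (nat_lit 107) (nat_lit 5) (nat_lit 279) (nat_lit 261) (nat_lit 180)) (XT.lf (nat_lit 0) (nat_lit 13404567352) (nat_lit 420) (nat_lit 4741473008) (nat_lit 84) (nat_lit 615070844) (nat_lit 102) (nat_lit 5) (nat_lit 107) (nat_lit 5) (nat_lit 103) (nat_lit 5) (nat_lit 280) (nat_lit 261) (nat_lit 179))) (XT.nd (nat_lit 94) (nat_lit 84) (nat_lit 0) (XT.lf (nat_lit 0) (nat_lit 6318675905) (nat_lit 336) (nat_lit 10573762909) (nat_lit 420) (nat_lit 2390376360) (nat_lit 98) (nat_lit 5) (nat_lit 102) (nat_lit 5) (nat_lit 103) (nat_lit 5) (nat_lit 281) (nat_lit 261) (nat_lit 178)) (XT.lf (nat_lit 0) (nat_lit 767492414) (nat_lit 420) (nat_lit 1761049551) (nat_lit 84) (nat_lit 17298168687) (nat_lit 97) (nat_lit 5) (nat_lit 102) (nat_lit 5) (nat_lit 98) (nat_lit 5) (nat_lit 282) (nat_lit 261) (nat_lit 177)))) (XT.nd (nat_lit 188) (nat_lit 252)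 (nat_lit 0) (XT.nd (nat_lit 94) (nat_lit 336) (nat_lit 0) (XT.lf (nat_lit 0) (nat_lit 4244639967) (nat_lit 420) (nat_lit 10209731643) (nat_lit 84) (nat_lit 5929384084) (nat_lit 93) (nat_lit 5) (nat_lit 98) (nat_lit 5) (nat_lit 94) (nat_lit 5) (nat_lit 283) (nat_lit 261) (nat_lit 176)) (XT.lf (nat_lit 0) (nat_lit 1797646629) (nat_lit 336) (nat_lit 6183863525) (nat_lit 420) (nat_lit 12982849572) (nat_lit 89) (nat_lit 5) (nat_lit 93) (nat_lit 5) (nat_lit 94) (nat_lit 5) (nat_lit 284) (nat_lit 261) (nat_lit 175))) (XT.nd (nat_lit 94) (nat_lit 252) (nat_lit 0) (XT.lf (nat_lit 0) (nat_lit 12106364875) (nat_lit 420) (nat_lit 6865474034) (nat_lit 84) (nat_lit 2592098000) (nat_lit 89) (nat_lit 5) (nat_lit 94) (nat_lit 5) (nat_lit 90) (nat_lit 5) (nat_lit 285) (nat_lit 261) (nat_lit 174)) (XT.nd (nat_lit 94) (nat_lit 0) (nat_lit 0) (XT.lf (nat_lit 0) (nat_lit 6128351146) (nat_lit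 252) (nat_lit 10493181093) (nat_lit 336) (nat_lit 5562757216) (nat_lit 86) (nat_lit 5) (nat_lit 89) (nat_lit 5) (nat_lit 90) (nat_lit 5) (nat_lit 286) (nat_lit 261) (nat_lit 173)) (XT.lf (nat_lit 0) (nat_lit 19993252980) (nat_lit 252) (nat_lit 1472842919) (nat_lit 336) (nat_lit 1364381834) (nat_lit 86) (nat_lit 5) (nat_lit 89) (nat_lit 5) (nat_lit 90) (nat_lit 5) (nat_lit 287) (nat_lit 261) (nat_lit 172))))))))
noncomputable def xc144 : XT := (XT.nd (nat_lit 1504) (nat_lit 1932) (nat_lit 0) (XT.nd (nat_lit 752) (nat_lit 1092) (nat_lit 0) (XT.nd (nat_lit 376) (nat_lit 588) (nat_lit 0) (XT.nd (nat_lit 188) (nat_lit 252) (nat_lit 0) (XT.nd (nat_lit 94) (nat_lit 252) (nat_lit 0) (XT.lf (nat_lit 0) (nat_lit 3239823506) (nat_lit 420) (nat_lit 12285521287) (nat_lit 84) (nat_lit 7966587661) (nat_lit 81) (nat_lit 5) (nat_lit 86) (nat_lit 5) (nat_lit 82) (nat_lit 5) (nat_lit 288)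 (nat_lit 261) (nat_lit 171)) (XT.lf (nat_lit 0) (nat_lit 1862150533) (nat_lit 252) (nat_lit 6256323519) (nat_lit 336) (nat_lit 16062363158) (nat_lit 78) (nat_lit 5) (nat_lit 81) (nat_lit 5) (nat_lit 82) (nat_lit 5) (nat_lit 289) (nat_lit 261) (nat_lit 170))) (XT.nd (nat_lit 94) (nat_lit 252) (nat_lit 0) (XT.lf (nat_lit 0) (nat_lit 13495068005) (nat_lit 336) (nat_lit 7824794813) (nat_lit 84) (nat_lit 3571623842) (nat_lit 78) (nat_lit 5) (nat_lit 82) (nat_lit 5) (nat_lit 79) (nat_lit 5) (nat_lit 290) (nat_lit 261) (nat_lit 169)) (XT.lf (nat_lit 0) (nat_lit 7515526155) (nat_lit 252) (nat_lit 11833691715) (nat_lit 336) (nat_lit 6278014402) (nat_lit 75) (nat_lit 5) (nat_lit 78) (nat_lit 5) (nat_lit 79) (nat_lit 5) (nat_lit 291) (nat_lit 261) (nat_lit 168)))) (XT.nd (nat_lit 188) (nat_lit 252) (nat_lit 0) (XT.nd (nat_lit 94) (nat_lit 336) (nat_lit 0) (XT.lf (nat_lit 0) (nat_lit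 23878537841) (nat_lit 252) (nat_lit 1739161757) (nat_lit 336) (nat_lit 775984347) (nat_lit 75) (nat_lit 5) (nat_lit 78) (nat_lit 5) (nat_lit 79) (nat_lit 5) (nat_lit 292) (nat_lit 261) (nat_lit 167)) (XT.lf (nat_lit 0) (nat_lit 5195766171) (nat_lit 336) (nat_lit 13104344498) (nat_lit 84) (nat_lit 8876709092) (nat_lit 71) (nat_lit 5) (nat_lit 75) (nat_lit 5) (nat_lit 72) (nat_lit 5) (nat_lit 293) (nat_lit 261) (nat_lit 166))) (XT.nd (nat_lit 94) (nat_lit 0) (nat_lit 0) (XT.lf (nat_lit 0) (nat_lit 3638586406) (nat_lit 252) (nat_lit 7919693021) (nat_lit 336) (nat_lit 16434284219) (nat_lit 68) (nat_lit 5) (nat_lit 71) (nat_lit 5) (nat_lit 72) (nat_lit 5) (nat_lit 294) (nat_lit 261) (nat_lit 165)) (XT.lf (nat_lit 0) (nat_lit 18500814674) (nat_lit 336) (nat_lit 7230464796) (nat_lit 84) (nat_lit 3104720439) (nat_lit 68) (nat_lit 5) (nat_lit 72) (nat_lit 5) (nat_lit 69) (nat_lit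 5) (nat_lit 295) (nat_lit 261) (nat_lit 164))))) (XT.nd (nat_lit 376) (nat_lit 420) (nat_lit 0) (XT.nd (nat_lit 188) (nat_lit 420) (nat_lit 0) (XT.nd (nat_lit 94) (nat_lit 84) (nat_lit 0) (XT.lf (nat_lit 0) (nat_lit 10954850879) (nat_lit 168) (nat_lit 15126785677) (nat_lit 252) (nat_lit 3625413436) (nat_lit 66) (nat_lit 5) (nat_lit 68) (nat_lit 5) (nat_lit 69) (nat_lit 5) (nat_lit 296) (nat_lit 261) (nat_lit 163)) (XT.lf (nat_lit 0) (nat_lit 3425216150) (nat_lit 252) (nat_lit 385711972) (nat_lit 84) (nat_lit 26802313505) (nat_lit 65) (nat_lit 5) (nat_lit 68) (nat_lit 5) (nat_lit 66) (nat_lit 5) (nat_lit 297) (nat_lit 261) (nat_lit 162))) (XT.nd (nat_lit 94) (nat_lit 168) (nat_lit 0) (XT.lf (nat_lit 0) (nat_lit 11132871731) (nat_lit 336) (nat_lit 12231325610) (nat_lit 84) (nat_lit 8176257243) (nat_lit 62) (nat_lit 5) (nat_lit 66) (nat_lit 5) (nat_lit 63) (nat_lit 5) (nat_lit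 298) (nat_lit 261) (nat_lit 161)) (XT.lf (nat_lit 0) (nat_lit 7656222913) (nat_lit 168) (nat_lit 11749292269) (nat_lit 252) (nat_lit 13099532751) (nat_lit 60) (nat_lit 5) (nat_lit 62) (nat_lit 5) (nat_lit 63) (nat_lit 5) (nat_lit 299) (nat_lit 261) (nat_lit 160)))) (XT.nd (nat_lit 188) (nat_lit 168) (nat_lit 0) (XT.nd (nat_lit 94) (nat_lit 252) (nat_lit 0) (XT.lf (nat_lit 0) (nat_lit 28300374109) (nat_lit 252) (nat_lit 4569848493) (nat_lit 84) (nat_lit 637219183) (nat_lit 60) (nat_lit 5) (nat_lit 63) (nat_lit 5) (nat_lit 61) (nat_lit 5) (nat_lit 300) (nat_lit 261) (nat_lit 159)) (XT.lf (nat_lit 0) (nat_lit 3439331254) (nat_lit 252) (nat_lit 17530390578) (nat_lit 84) (nat_lit 13564934585) (nat_lit 57) (nat_lit 5) (nat_lit 60) (nat_lit 5) (nat_lit 58) (nat_lit 5) (nat_lit 301) (nat_lit 261) (nat_lit 158))) (XT.nd (nat_lit 94) (nat_lit 0) (nat_lit 0) (XT.lf (nat_lit 0) (nat_lit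 4241386491) (nat_lit 168) (nat_lit 8238105993) (nat_lit 252) (nat_lit 23122649510) (nat_lit 55) (nat_lit 5) (nat_lit 57) (nat_lit 5) (nat_lit 58) (nat_lit 5) (nat_lit 302) (nat_lit 261) (nat_lit 157)) (XT.lf (nat_lit 0) (nat_lit 22345159887) (nat_lit 252) (nat_lit 9096961753) (nat_lit 84) (nat_lit 5262205304) (nat_lit 55) (nat_lit 5) (nat_lit 58) (nat_lit 5) (nat_lit 56) (nat_lit 5) (nat_lit 303) (nat_lit 261) (nat_lit 156)))))) (XT.nd (nat_lit 752) (nat_lit 1008) (nat_lit 0) (XT.nd (nat_lit 376) (nat_lit 336) (nat_lit 0) (XT.nd (nat_lit 188) (nat_lit 168) (nat_lit 0) (XT.nd (nat_lit 94) (nat_lit 252) (nat_lit 0) (XT.lf (nat_lit 0) (nat_lit 14598686469) (nat_lit 168) (nat_lit 18460449512) (nat_lit 252) (nat_lit 4784733895) (nat_lit 53) (nat_lit 5) (nat_lit 55) (nat_lit 5) (nat_lit 56) (nat_lit 5) (nat_lit 304) (nat_lit 261) (nat_lit 155)) (XT.lf (nat_lit 0) (nat_lit 685850627)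 (nat_lit 168) (nat_lit 4573334237) (nat_lit 252) (nat_lit 33769123033) (nat_lit 50) (nat_lit 5) (nat_lit 52) (nat_lit 5) (nat_lit 53) (nat_lit 5) (nat_lit 305) (nat_lit 261) (nat_lit 154))) (XT.nd (nat_lit 94) (nat_lit 168) (nat_lit 0) (XT.lf (nat_lit 0) (nat_lit 16193049778) (nat_lit 252) (nat_lit 13886631676) (nat_lit 84) (nat_lit 10160937022) (nat_lit 50) (nat_lit 5) (nat_lit 53) (nat_lit 5) (nat_lit 51) (nat_lit 5) (nat_lit 306) (nat_lit 261) (nat_lit 153)) (XT.lf (nat_lit 0) (nat_lit 12090993114) (nat_lit 168) (nat_lit 15838906159) (nat_lit 252) (nat_lit 13570830741) (nat_lit 48) (nat_lit 5) (nat_lit 50) (nat_lit 5) (nat_lit 51) (nat_lit 5) (nat_lit 307) (nat_lit 261) (nat_lit 152)))) (XT.nd (nat_lit 188) (nat_lit 168) (nat_lit 0) (XT.nd (nat_lit 94) (nat_lit 168) (nat_lit 0) (XT.lf (nat_lit 0) (nat_lit 39836814743) (nat_lit 168) (nat_lit 644652921) (nat_lit 252) (nat_lit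 2330985646) (nat_lit 48) (nat_lit 5) (nat_lit 50) (nat_lit 5) (nat_lit 51) (nat_lit 5) (nat_lit 308) (nat_lit 261) (nat_lit 151)) (XT.lf (nat_lit 0) (nat_lit 9805624818) (nat_lit 168) (nat_lit 18976818232) (nat_lit 84) (nat_lit 15368031418) (nat_lit 46) (nat_lit 5) (nat_lit 48) (nat_lit 5) (nat_lit 47) (nat_lit 5) (nat_lit 309) (nat_lit 261) (nat_lit 150))) (XT.nd (nat_lit 94) (nat_lit 0) (nat_lit 0) (XT.lf (nat_lit 0) (nat_lit 9523568683) (nat_lit 168) (nat_lit 13150634623) (nat_lit 252) (nat_lit 22869109039) (nat_lit 44) (nat_lit 5) (nat_lit 46) (nat_lit 5) (nat_lit 47) (nat_lit 5) (nat_lit 310) (nat_lit 261) (nat_lit 149)) (XT.lf (nat_lit 0) (nat_lit 36556855091) (nat_lit 252) (nat_lit 6950666513) (nat_lit 84) (nat_lit 3479738292) (nat_lit 44) (nat_lit 5) (nat_lit 47) (nat_lit 5) (nat_lit 45) (nat_lit 4) (nat_lit 311) (nat_lit 261) (nat_lit 148))))) (XT.nd (nat_lit 376)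 (nat_lit 588) (nat_lit 0) (XT.nd (nat_lit 188) (nat_lit 84) (nat_lit 0) (XT.nd (nat_lit 94) (nat_lit 168) (nat_lit 0) (XT.lf (nat_lit 0) (nat_lit 3141138748) (nat_lit 168) (nat_lit 24408588412) (nat_lit 84) (nat_lit 20921869996) (nat_lit 42) (nat_lit 5) (nat_lit 44) (nat_lit 5) (nat_lit 43) (nat_lit 5) (nat_lit 312) (nat_lit 261) (nat_lit 147)) (XT.lf (nat_lit 0) (nat_lit 6879718239) (nat_lit 168) (nat_lit 10381474937) (nat_lit 252) (nat_lit 32749385407) (nat_lit 40) (nat_lit 5) (nat_lit 42) (nat_lit 5) (nat_lit 43) (nat_lit 5) (nat_lit 313) (nat_lit 261) (nat_lit 146))) (XT.nd (nat_lit 94) (nat_lit 84) (nat_lit 0) (XT.lf (nat_lit 0) (nat_lit 32620217378) (nat_lit 252) (nat_lit 11164144947) (nat_lit 84) (nat_lit 7815498403) (nat_lit 40) (nat_lit 5) (nat_lit 43) (nat_lit 5) (nat_lit 41) (nat_lit 4) (nat_lit 314) (nat_lit 261) (nat_lit 145)) (XT.lf (nat_lit 0) (nat_lit 22953943545)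 (nat_lit 84) (nat_lit 26315580723) (nat_lit 168) (nat_lit 3972966138) (nat_lit 39) (nat_lit 5) (nat_lit 40) (nat_lit 5) (nat_lit 41) (nat_lit 4) (nat_lit 315) (nat_lit 261) (nat_lit 144)))) (XT.nd (nat_lit 188) (nat_lit 336) (nat_lit 0) (XT.nd (nat_lit 94) (nat_lit 0) (nat_lit 0) (XT.lf (nat_lit 0) (nat_lit 4141747729) (nat_lit 168) (nat_lit 7515756939) (nat_lit 252) (nat_lit 43288016664) (nat_lit 36) (nat_lit 5) (nat_lit 38) (nat_lit 5) (nat_lit 39) (nat_lit 5) (nat_lit 316) (nat_lit 261) (nat_lit 143)) (XT.lf (nat_lit 0) (nat_lit 28642020764) (nat_lit 252) (nat_lit 15638844220) (nat_lit 84) (nat_lit 12414280318) (nat_lit 36) (nat_lit 5) (nat_lit 39) (nat_lit 5) (nat_lit 37) (nat_lit 4) (nat_lit 317) (nat_lit 261) (nat_lit 142))) (XT.nd (nat_lit 94) (nat_lit 252) (nat_lit 0) (XT.lf (nat_lit 0) (nat_lit 21849486770) (nat_lit 84) (nat_lit 25084738099) (nat_lit 168) (nat_lit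 11575102490) (nat_lit 35) (nat_lit 5) (nat_lit 36) (nat_lit 5) (nat_lit 37) (nat_lit 4) (nat_lit 318) (nat_lit 261) (nat_lit 141)) (XT.nd (nat_lit 94) (nat_lit 0) (nat_lit 0) (XT.lf (nat_lit 0) (nat_lit 1290790671) (nat_lit 168) (nat_lit 4536220501) (nat_lit 252) (nat_lit 54568562534) (nat_lit 32) (nat_lit 5) (nat_lit 34) (nat_lit 5) (nat_lit 35) (nat_lit 5) (nat_lit 319) (nat_lit 261) (nat_lit 140)) (XT.lf (nat_lit 0) (nat_lit 24601469308) (nat_lit 252) (nat_lit 20410365561) (nat_lit 84) (nat_lit 17310247808) (nat_lit 32) (nat_lit 5) (nat_lit 35) (nat_lit 5) (nat_lit 33) (nat_lit 4) (nat_lit 320) (nat_lit 261) (nat_lit 139))))))))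
noncomputable def xc145 : XT := (XT.nd (nat_lit 1598) (nat_lit 1260) (nat_lit 0) (XT.nd (nat_lit 752) (nat_lit 756) (nat_lit 0) (XT.nd (nat_lit 376) (nat_lit 252) (nat_lit 0) (XT.nd (nat_lit 188) (nat_lit 336) (nat_lit 0) (XT.nd (nat_lit 94) (nat_lit 0) (nat_lit 0) (XT.lf (nat_lit 0) (nat_lit 20799646467) (nat_lit 84) (nat_lit 23908556792) (nat_lit 168) (nat_lit 19617036190) (nat_lit 31) (nat_lit 5) (nat_lit 32) (nat_lit 5) (nat_lit 33) (nat_lit 4) (nat_lit 321) (nat_lit 261) (nat_lit 138)) (XT.lf (nat_lit 0) (nat_lit 64768449311) (nat_lit 84) (nat_lit 1392035276) (nat_lit 168) (nat_lit 251058939) (nat_lit 31) (nat_lit 5) (nat_lit 32) (nat_lit 5) (nat_lit 33) (nat_lit 4) (nat_lit 322) (nat_lit 261) (nat_lit 137))) (XT.nd (nat_lit 94) (nat_lit 84) (nat_lit 0) (XT.lf (nat_lit 0) (nat_lit 20476298922) (nat_lit 252) (nat_lit 25517415033) (nat_lit 84) (nat_lit 22540977580) (nat_lit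 28) (nat_lit 5) (nat_lit 31) (nat_lit 5) (nat_lit 29) (nat_lit 4) (nat_lit 323) (nat_lit 261) (nat_lit 136)) (XT.lf (nat_lit 0) (nat_lit 19801463126) (nat_lit 84) (nat_lit 22785134249) (nat_lit 168) (nat_lit 28159443288) (nat_lit 27) (nat_lit 5) (nat_lit 28) (nat_lit 5) (nat_lit 29) (nat_lit 4) (nat_lit 324) (nat_lit 261) (nat_lit 135)))) (XT.nd (nat_lit 188) (nat_lit 84) (nat_lit 0) (XT.nd (nat_lit 94) (nat_lit 168) (nat_lit 0) (XT.lf (nat_lit 0) (nat_lit 66261146839) (nat_lit 168) (nat_lit 4816013152) (nat_lit 0) (nat_lit 1967860453) (nat_lit 27) (nat_lit 5) (nat_lit 29) (nat_lit 4) (nat_lit 27) (nat_lit 4) (nat_lit 325) (nat_lit 261) (nat_lit 134)) (XT.lf (nat_lit 0) (nat_lit 16242617276) (nat_lit 168) (nat_lit 31002169686) (nat_lit 84) (nat_lit 28147768270) (nat_lit 25) (nat_lit 5) (nat_lit 27) (nat_lit 5) (nat_lit 26) (nat_lit 4) (nat_lit 326) (nat_lit 261) (nat_lit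 133))) (XT.nd (nat_lit 94) (nat_lit 0) (nat_lit 0) (XT.lf (nat_lit 0) (nat_lit 18852181769) (nat_lit 84) (nat_lit 21712534343) (nat_lit 168) (nat_lit 37268576794) (nat_lit 24) (nat_lit 5) (nat_lit 25) (nat_lit 5) (nat_lit 26) (nat_lit 4) (nat_lit 327) (nat_lit 261) (nat_lit 132)) (XT.lf (nat_lit 0) (nat_lit 66711182467) (nat_lit 168) (nat_lit 8192007527) (nat_lit 0) (nat_lit 5462464341) (nat_lit 24) (nat_lit 5) (nat_lit 26) (nat_lit 4) (nat_lit 24) (nat_lit 4) (nat_lit 328) (nat_lit 261) (nat_lit 131))))) (XT.nd (nat_lit 376) (nat_lit 336) (nat_lit 0) (XT.nd (nat_lit 188) (nat_lit 168) (nat_lit 0) (XT.nd (nat_lit 94) (nat_lit 84) (nat_lit 0) (XT.lf (nat_lit 0) (nat_lit 11874723857) (nat_lit 168) (nat_lit 36910675053) (nat_lit 84) (nat_lit 34175991033) (nat_lit 22) (nat_lit 5) (nat_lit 24) (nat_lit 5) (nat_lit 23) (nat_lit 4) (nat_lit 329) (nat_lit 261) (nat_lit 130)) (XT.lf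 (nat_lit 0) (nat_lit 17949230930) (nat_lit 84) (nat_lit 20688810983) (nat_lit 168) (nat_lit 47016851110) (nat_lit 21) (nat_lit 5) (nat_lit 22) (nat_lit 5) (nat_lit 23) (nat_lit 4) (nat_lit 330) (nat_lit 261) (nat_lit 129))) (XT.nd (nat_lit 94) (nat_lit 168) (nat_lit 0) (XT.lf (nat_lit 0) (nat_lit 67507772913) (nat_lit 168) (nat_lit 11775225350) (nat_lit 0) (nat_lit 9161660644) (nat_lit 21) (nat_lit 5) (nat_lit 23) (nat_lit 4) (nat_lit 21) (nat_lit 4) (nat_lit 331) (nat_lit 261) (nat_lit 128)) (XT.lf (nat_lit 0) (nat_lit 7344908996) (nat_lit 168) (nat_lit 43293278204) (nat_lit 84) (nat_lit 40675484119) (nat_lit 19) (nat_lit 5) (nat_lit 21) (nat_lit 5) (nat_lit 20) (nat_lit 4) (nat_lit 332) (nat_lit 261) (nat_lit 127)))) (XT.nd (nat_lit 188) (nat_lit 252) (nat_lit 0) (XT.nd (nat_lit 94) (nat_lit 0) (nat_lit 0) (XT.lf (nat_lit 0) (nat_lit 17090204643) (nat_lit 84) (nat_lit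 19712026706) (nat_lit 168) (nat_lit 57483488906) (nat_lit 18) (nat_lit 5) (nat_lit 19) (nat_lit 5) (nat_lit 20) (nat_lit 4) (nat_lit 333) (nat_lit 261) (nat_lit 126)) (XT.lf (nat_lit 0) (nat_lit 68672410810) (nat_lit 168) (nat_lit 15593794084) (nat_lit 0) (nat_lit 13093167196) (nat_lit 18) (nat_lit 5) (nat_lit 20) (nat_lit 4) (nat_lit 18) (nat_lit 4) (nat_lit 334) (nat_lit 261) (nat_lit 125))) (XT.nd (nat_lit 94) (nat_lit 84) (nat_lit 0) (XT.lf (nat_lit 0) (nat_lit 2623230405) (nat_lit 168) (nat_lit 50205100802) (nat_lit 84) (nat_lit 47700994395) (nat_lit 16) (nat_lit 5) (nat_lit 18) (nat_lit 5) (nat_lit 17) (nat_lit 4) (nat_lit 335) (nat_lit 261) (nat_lit 124)) (XT.nd (nat_lit 94) (nat_lit 0) (nat_lit 0) (XT.lf (nat_lit 0) (nat_lit 16272846928) (nat_lit 84) (nat_lit 18780267164) (nat_lit 168) (nat_lit 68755236173) (nat_lit 15) (nat_lit 5) (nat_lit 16) (nat_lit 5) (nat_lit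 17) (nat_lit 4) (nat_lit 336) (nat_lit 261) (nat_lit 123)) (XT.lf (nat_lit 0) (nat_lit 70229410777) (nat_lit 168) (nat_lit 19678347228) (nat_lit 0) (nat_lit 17287322216) (nat_lit 15) (nat_lit 5) (nat_lit 17) (nat_lit 4) (nat_lit 15) (nat_lit 4) (nat_lit 337) (nat_lit 261) (nat_lit 122))))))) (XT.nd (nat_lit 752) (nat_lit 504) (nat_lit 0) (XT.nd (nat_lit 376) (nat_lit 420) (nat_lit 0) (XT.nd (nat_lit 188) (nat_lit 84) (nat_lit 0) (XT.nd (nat_lit 94) (nat_lit 168) (nat_lit 0) (XT.lf (nat_lit 0) (nat_lit 52950598173) (nat_lit 84) (nat_lit 55344485794) (nat_lit 84) (nat_lit 2399534624) (nat_lit 14) (nat_lit 4) (nat_lit 15) (nat_lit 5) (nat_lit 15) (nat_lit 4) (nat_lit 338) (nat_lit 261) (nat_lit 121)) (XT.lf (nat_lit 0) (nat_lit 15495038366) (nat_lit 84) (nat_lit 17891652282) (nat_lit 168) (nat_lit 80927151887) (nat_lit 12) (nat_lit 5) (nat_lit 13) (nat_lit 5) (nat_lit 14) (nat_lit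 4) (nat_lit 339) (nat_lit 261) (nat_lit 120))) (XT.nd (nat_lit 94) (nat_lit 84) (nat_lit 0) (XT.lf (nat_lit 0) (nat_lit 72206177890) (nat_lit 168) (nat_lit 24062307844) (nat_lit 0) (nat_lit 21777345571) (nat_lit 12) (nat_lit 5) (nat_lit 14) (nat_lit 4) (nat_lit 12) (nat_lit 4) (nat_lit 340) (nat_lit 261) (nat_lit 119)) (XT.lf (nat_lit 0) (nat_lit 55920947844) (nat_lit 84) (nat_lit 58208265193) (nat_lit 84) (nat_lit 7777077798) (nat_lit 11) (nat_lit 4) (nat_lit 12) (nat_lit 5) (nat_lit 12) (nat_lit 4) (nat_lit 341) (nat_lit 261) (nat_lit 118)))) (XT.nd (nat_lit 188) (nat_lit 252) (nat_lit 0) (XT.nd (nat_lit 94) (nat_lit 0) (nat_lit 0) (XT.lf (nat_lit 0) (nat_lit 14754784436) (nat_lit 84) (nat_lit 17044344714) (nat_lit 168) (nat_lit 94103479476) (nat_lit 9) (nat_lit 5) (nat_lit 10) (nat_lit 5) (nat_lit 11) (nat_lit 4) (nat_lit 342) (nat_lit 261) (nat_lit 117)) (XT.lf (nat_lit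 0) (nat_lit 74633503131) (nat_lit 168) (nat_lit 28782198325) (nat_lit 0) (nat_lit 26599630324) (nat_lit 9) (nat_lit 5) (nat_lit 11) (nat_lit 4) (nat_lit 9) (nat_lit 4) (nat_lit 343) (nat_lit 261) (nat_lit 116))) (XT.nd (nat_lit 94) (nat_lit 168) (nat_lit 0) (XT.lf (nat_lit 0) (nat_lit 59313466091) (nat_lit 84) (nat_lit 61497971619) (nat_lit 84) (nat_lit 13462161286) (nat_lit 8) (nat_lit 4) (nat_lit 9) (nat_lit 5) (nat_lit 9) (nat_lit 4) (nat_lit 344) (nat_lit 261) (nat_lit 115)) (XT.lf (nat_lit 0) (nat_lit 14050205314) (nat_lit 84) (nat_lit 16236556105) (nat_lit 168) (nat_lit 108398608151) (nat_lit 6) (nat_lit 5) (nat_lit 7) (nat_lit 5) (nat_lit 8) (nat_lit 4) (nat_lit 345) (nat_lit 261) (nat_lit 114))))) (XT.nd (nat_lit 376) (nat_lit 252) (nat_lit 0) (XT.nd (nat_lit 188) (nat_lit 168) (nat_lit 0) (XT.nd (nat_lit 94) (nat_lit 84) (nat_lit 0) (XT.lf (nat_lit 0) (nat_lit 77545888858)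 (nat_lit 168) (nat_lit 33877979519) (nat_lit 0) (nat_lit 31794066963) (nat_lit 6) (nat_lit 5) (nat_lit 8) (nat_lit 4) (nat_lit 6) (nat_lit 4) (nat_lit 346) (nat_lit 261) (nat_lit 113)) (XT.lf (nat_lit 0) (nat_lit 63165695316) (nat_lit 84) (nat_lit 65251201880) (nat_lit 84) (nat_lit 19497785977) (nat_lit 5) (nat_lit 4) (nat_lit 6) (nat_lit 5) (nat_lit 6) (nat_lit 4) (nat_lit 347) (nat_lit 261) (nat_lit 112))) (XT.nd (nat_lit 94) (nat_lit 0) (nat_lit 0) (XT.lf (nat_lit 0) (nat_lit 13379526915) (nat_lit 84) (nat_lit 15466551582) (nat_lit 168) (nat_lit 123938133000) (nat_lit 3) (nat_lit 5) (nat_lit 4) (nat_lit 5) (nat_lit 5) (nat_lit 4) (nat_lit 348) (nat_lit 261) (nat_lit 111)) (XT.lf (nat_lit 0) (nat_lit 80981907625) (nat_lit 168) (nat_lit 39393422541) (nat_lit 0) (nat_lit 37404403037) (nat_lit 3) (nat_lit 5) (nat_lit 5) (nat_lit 4) (nat_lit 3) (nat_lit 4) (nat_lit 349) (nat_lit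 261) (nat_lit 110)))) (XT.nd (nat_lit 188) (nat_lit 0) (nat_lit 0) (XT.nd (nat_lit 94) (nat_lit 168) (nat_lit 0) (XT.lf (nat_lit 0) (nat_lit 67519320982) (nat_lit 84) (nat_lit 69509651881) (nat_lit 84) (nat_lit 25930835897) (nat_lit 2) (nat_lit 4) (nat_lit 3) (nat_lit 5) (nat_lit 3) (nat_lit 4) (nat_lit 350) (nat_lit 261) (nat_lit 109)) (XT.lf (nat_lit 0) (nat_lit 244490299769) (nat_lit 0) (nat_lit 0) (nat_lit 0) (nat_lit 0) (nat_lit 0) (nat_lit 0) (nat_lit 1) (nat_lit 0) (nat_lit 1) (nat_lit 0) (nat_lit 351) (nat_lit 261) (nat_lit 108))) (XT.nd (nat_lit 94) (nat_lit 0) (nat_lit 0) (XT.lf (nat_lit 0) (nat_lit 256565077248) (nat_lit 0) (nat_lit 0) (nat_lit 0) (nat_lit 0) (nat_lit 0) (nat_lit 0) (nat_lit 1) (nat_lit 0) (nat_lit 1) (nat_lit 0) (nat_lit 352) (nat_lit 261) (nat_lit 107)) (XT.nd (nat_lit 36660) (nat_lit 0) (nat_lit 11676) (XT.lf (nat_lit 0) (nat_lit 269243601568)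 (nat_lit 0) (nat_lit 0) (nat_lit 0) (nat_lit 0) (nat_lit 0) (nat_lit 0) (nat_lit 1) (nat_lit 0) (nat_lit 1) (nat_lit 0) (nat_lit 353) (nat_lit 261) (nat_lit 106)) (XT.lf (nat_lit 0) (nat_lit 2860157997) (nat_lit 0) (nat_lit 2860157997) (nat_lit 756) (nat_lit 371474305) (nat_lit 139) (nat_lit 5) (nat_lit 139) (nat_lit 3) (nat_lit 148) (nat_lit 3) (nat_lit 262) (nat_lit 262) (nat_lit 196))))))))
noncomputable def xc146 : XT := (XT.nd (nat_lit 1598) (nat_lit 3192) (nat_lit 0) (XT.nd (nat_lit 752) (nat_lit 1932) (nat_lit 0) (XT.nd (nat_lit 376) (nat_lit 0) (nat_lit 84) (XT.nd (nat_lit 188) (nat_lit 0) (nat_lit 0) (XT.nd (nat_lit 94) (nat_lit 840) (nat_lit 0) (XT.lf (nat_lit 0) (nat_lit 12101566772) (nat_lit 0) (nat_lit 75262168) (nat_lit 756) (nat_lit 288832117) (nat_lit 139) (nat_lit 5) (nat_lit 139) (nat_lit 3) (nat_lit 148) (nat_lit 3) (nat_lit 263) (nat_lit 262) (nat_lit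 195)) (XT.lf (nat_lit 0) (nat_lit 343032613) (nat_lit 840) (nat_lit 6630703611) (nat_lit 924) (nat_lit 5779909598) (nat_lit 129) (nat_lit 5) (nat_lit 139) (nat_lit 5) (nat_lit 140) (nat_lit 5) (nat_lit 264) (nat_lit 262) (nat_lit 194))) (XT.nd (nat_lit 94) (nat_lit 0) (nat_lit 84) (XT.lf (nat_lit 0) (nat_lit 976356837) (nat_lit 840) (nat_lit 131558886) (nat_lit 924) (nat_lit 11948898708) (nat_lit 129) (nat_lit 5) (nat_lit 139) (nat_lit 5) (nat_lit 140) (nat_lit 5) (nat_lit 265) (nat_lit 262) (nat_lit 193)) (XT.lf (nat_lit 0) (nat_lit 1803231275) (nat_lit 840) (nat_lit 6554521932) (nat_lit 924) (nat_lit 5009294064) (nat_lit 130) (nat_lit 5) (nat_lit 140) (nat_lit 5) (nat_lit 141) (nat_lit 5) (nat_lit 266) (nat_lit 262) (nat_lit 192)))) (XT.nd (nat_lit 188) (nat_lit 0) (nat_lit 84) (XT.nd (nat_lit 94) (nat_lit 0) (nat_lit 84) (XT.lf (nat_lit 84) (nat_lit 392961328) (nat_lit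 0) (nat_lit 2279628386) (nat_lit 924) (nat_lit 11020145023) (nat_lit 131) (nat_lit 5) (nat_lit 130) (nat_lit 5) (nat_lit 141) (nat_lit 5) (nat_lit 267) (nat_lit 262) (nat_lit 191)) (XT.lf (nat_lit 0) (nat_lit 3737934579) (nat_lit 840) (nat_lit 6197833627) (nat_lit 924) (nat_lit 4091312447) (nat_lit 131) (nat_lit 5) (nat_lit 141) (nat_lit 5) (nat_lit 142) (nat_lit 5) (nat_lit 268) (nat_lit 262) (nat_lit 190))) (XT.nd (nat_lit 94) (nat_lit 0) (nat_lit 84) (XT.lf (nat_lit 84) (nat_lit 1244340313) (nat_lit 0) (nat_lit 3645809503) (nat_lit 924) (nat_lit 9486313893) (nat_lit 132) (nat_lit 5) (nat_lit 131) (nat_lit 5) (nat_lit 142) (nat_lit 5) (nat_lit 269) (nat_lit 262) (nat_lit 189)) (XT.lf (nat_lit 0) (nat_lit 6230578685) (nat_lit 840) (nat_lit 5530423571) (nat_lit 924) (nat_lit 2975783517) (nat_lit 132) (nat_lit 5) (nat_lit 142) (nat_lit 5) (nat_lit 143) (nat_lit 5) (nat_lit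 270) (nat_lit 262) (nat_lit 188))))) (XT.nd (nat_lit 376) (nat_lit 1428) (nat_lit 0) (XT.nd (nat_lit 188) (nat_lit 756) (nat_lit 0) (XT.nd (nat_lit 94) (nat_lit 0) (nat_lit 84) (XT.lf (nat_lit 84) (nat_lit 2452724890) (nat_lit 0) (nat_lit 5262152124) (nat_lit 924) (nat_lit 7396404525) (nat_lit 133) (nat_lit 5) (nat_lit 132) (nat_lit 5) (nat_lit 143) (nat_lit 5) (nat_lit 271) (nat_lit 262) (nat_lit 187)) (XT.lf (nat_lit 0) (nat_lit 9372550461) (nat_lit 840) (nat_lit 4516869046) (nat_lit 84) (nat_lit 1610124578) (nat_lit 133) (nat_lit 5) (nat_lit 143) (nat_lit 5) (nat_lit 134) (nat_lit 5) (nat_lit 272) (nat_lit 262) (nat_lit 186))) (XT.nd (nat_lit 94) (nat_lit 0) (nat_lit 0) (XT.lf (nat_lit 0) (nat_lit 4058224227) (nat_lit 840) (nat_lit 7185063442) (nat_lit 924) (nat_lit 4657423083) (nat_lit 123) (nat_lit 5) (nat_lit 133) (nat_lit 5) (nat_lit 134) (nat_lit 5) (nat_lit 273)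 (nat_lit 262) (nat_lit 185)) (XT.lf (nat_lit 0) (nat_lit 13201864290) (nat_lit 840) (nat_lit 63408026) (nat_lit 924) (nat_lit 3053777908) (nat_lit 123) (nat_lit 5) (nat_lit 133) (nat_lit 5) (nat_lit 134) (nat_lit 5) (nat_lit 274) (nat_lit 262) (nat_lit 184)))) (XT.nd (nat_lit 188) (nat_lit 840) (nat_lit 0) (XT.nd (nat_lit 94) (nat_lit 84) (nat_lit 0) (XT.lf (nat_lit 0) (nat_lit 6106948258) (nat_lit 504) (nat_lit 9474648907) (nat_lit 588) (nat_lit 1167047456) (nat_lit 117) (nat_lit 5) (nat_lit 123) (nat_lit 5) (nat_lit 124) (nat_lit 5) (nat_lit 275) (nat_lit 262) (nat_lit 183)) (XT.lf (nat_lit 0) (nat_lit 825101945) (nat_lit 588) (nat_lit 1328620095) (nat_lit 84) (nat_lit 15043504435) (nat_lit 116) (nat_lit 5) (nat_lit 123) (nat_lit 5) (nat_lit 117) (nat_lit 5) (nat_lit 276) (nat_lit 262) (nat_lit 182))) (XT.nd (nat_lit 94) (nat_lit 420) (nat_lit 0) (XT.lf (nat_lit 0) (nat_lit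 3085560249) (nat_lit 504) (nat_lit 9057673258) (nat_lit 84) (nat_lit 5513651225) (nat_lit 111) (nat_lit 5) (nat_lit 117) (nat_lit 5) (nat_lit 112) (nat_lit 5) (nat_lit 277) (nat_lit 262) (nat_lit 181)) (XT.nd (nat_lit 94) (nat_lit 0) (nat_lit 0) (XT.lf (nat_lit 0) (nat_lit 907380368) (nat_lit 420) (nat_lit 4607819628) (nat_lit 504) (nat_lit 12621517979) (nat_lit 106) (nat_lit 5) (nat_lit 111) (nat_lit 5) (nat_lit 112) (nat_lit 5) (nat_lit 278) (nat_lit 262) (nat_lit 180)) (XT.lf (nat_lit 0) (nat_lit 8258126779) (nat_lit 504) (nat_lit 7019464375) (nat_lit 84) (nat_lit 3353361473) (nat_lit 106) (nat_lit 5) (nat_lit 112) (nat_lit 5) (nat_lit 107) (nat_lit 5) (nat_lit 279) (nat_lit 262) (nat_lit 179))))))) (XT.nd (nat_lit 752) (nat_lit 1512) (nat_lit 0) (XT.nd (nat_lit 376) (nat_lit 924) (nat_lit 0) (XT.nd (nat_lit 188) (nat_lit 420) (nat_lit 0) (XT.nd (nat_lit 94) (nat_lit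 0) (nat_lit 0) (XT.lf (nat_lit 0) (nat_lit 3727884996) (nat_lit 336) (nat_lit 7529106980) (nat_lit 420) (nat_lit 7886967432) (nat_lit 102) (nat_lit 5) (nat_lit 106) (nat_lit 5) (nat_lit 107) (nat_lit 5) (nat_lit 280) (nat_lit 262) (nat_lit 178)) (XT.lf (nat_lit 0) (nat_lit 14521574635) (nat_lit 420) (nat_lit 4449010793) (nat_lit 84) (nat_lit 706242390) (nat_lit 102) (nat_lit 5) (nat_lit 107) (nat_lit 5) (nat_lit 103) (nat_lit 5) (nat_lit 281) (nat_lit 262) (nat_lit 177))) (XT.nd (nat_lit 94) (nat_lit 84) (nat_lit 0) (XT.lf (nat_lit 0) (nat_lit 7155604665) (nat_lit 336) (nat_lit 11015094011) (nat_lit 420) (nat_lit 2054575361) (nat_lit 98) (nat_lit 5) (nat_lit 102) (nat_lit 5) (nat_lit 103) (nat_lit 5) (nat_lit 282) (nat_lit 262) (nat_lit 176)) (XT.lf (nat_lit 0) (nat_lit 1225625833) (nat_lit 420) (nat_lit 1339037227) (nat_lit 84) (nat_lit 18232395184) (nat_lit 97) (nat_lit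 5) (nat_lit 102) (nat_lit 5) (nat_lit 98) (nat_lit 5) (nat_lit 283) (nat_lit 262) (nat_lit 175)))) (XT.nd (nat_lit 188) (nat_lit 252) (nat_lit 0) (XT.nd (nat_lit 94) (nat_lit 336) (nat_lit 0) (XT.lf (nat_lit 0) (nat_lit 4865948582) (nat_lit 420) (nat_lit 10199471241) (nat_lit 84) (nat_lit 6317069826) (nat_lit 93) (nat_lit 5) (nat_lit 98) (nat_lit 5) (nat_lit 94) (nat_lit 5) (nat_lit 284) (nat_lit 262) (nat_lit 174)) (XT.lf (nat_lit 0) (nat_lit 2399876801) (nat_lit 336) (nat_lit 6378304825) (nat_lit 420) (nat_lit 13214516289) (nat_lit 89) (nat_lit 5) (nat_lit 93) (nat_lit 5) (nat_lit 94) (nat_lit 5) (nat_lit 285) (nat_lit 262) (nat_lit 173))) (XT.nd (nat_lit 94) (nat_lit 252) (nat_lit 0) (XT.lf (nat_lit 0) (nat_lit 13092052225) (nat_lit 420) (nat_lit 6703570555) (nat_lit 84) (nat_lit 2827492520) (nat_lit 89) (nat_lit 5) (nat_lit 94) (nat_lit 5) (nat_lit 90) (nat_lit 5) (nat_lit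 286) (nat_lit 262) (nat_lit 172)) (XT.lf (nat_lit 0) (nat_lit 6931797866) (nat_lit 252) (nat_lit 10890827295) (nat_lit 336) (nat_lit 5452377952) (nat_lit 86) (nat_lit 5) (nat_lit 89) (nat_lit 5) (nat_lit 90) (nat_lit 5) (nat_lit 287) (nat_lit 262) (nat_lit 171))))) (XT.nd (nat_lit 376) (nat_lit 840) (nat_lit 0) (XT.nd (nat_lit 188) (nat_lit 252) (nat_lit 0) (XT.nd (nat_lit 94) (nat_lit 420) (nat_lit 0) (XT.lf (nat_lit 0) (nat_lit 21466276735) (nat_lit 252) (nat_lit 1425520444) (nat_lit 336) (nat_lit 1062584616) (nat_lit 86) (nat_lit 5) (nat_lit 89) (nat_lit 5) (nat_lit 90) (nat_lit 5) (nat_lit 288) (nat_lit 262) (nat_lit 170)) (XT.lf (nat_lit 0) (nat_lit 3752396530) (nat_lit 420) (nat_lit 12407001784) (nat_lit 84) (nat_lit 8489601670) (nat_lit 81) (nat_lit 5) (nat_lit 86) (nat_lit 5) (nat_lit 82) (nat_lit 5) (nat_lit 289) (nat_lit 262) (nat_lit 169))) (XT.nd (nat_lit 94)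 (nat_lit 0) (nat_lit 0) (XT.lf (nat_lit 0) (nat_lit 2440105312) (nat_lit 252) (nat_lit 6425749743) (nat_lit 336) (nat_lit 16506951151) (nat_lit 78) (nat_lit 5) (nat_lit 81) (nat_lit 5) (nat_lit 82) (nat_lit 5) (nat_lit 290) (nat_lit 262) (nat_lit 168)) (XT.lf (nat_lit 0) (nat_lit 14497150947) (nat_lit 336) (nat_lit 7740147508) (nat_lit 84) (nat_lit 3882396061) (nat_lit 78) (nat_lit 5) (nat_lit 82) (nat_lit 5) (nat_lit 79) (nat_lit 5) (nat_lit 291) (nat_lit 262) (nat_lit 167)))) (XT.nd (nat_lit 188) (nat_lit 588) (nat_lit 0) (XT.nd (nat_lit 94) (nat_lit 0) (nat_lit 0) (XT.lf (nat_lit 0) (nat_lit 8359513911) (nat_lit 252) (nat_lit 12276217366) (nat_lit 336) (nat_lit 6256909983) (nat_lit 75) (nat_lit 5) (nat_lit 78) (nat_lit 5) (nat_lit 79) (nat_lit 5) (nat_lit 292) (nat_lit 262) (nat_lit 166)) (XT.lf (nat_lit 0) (nat_lit 25518380398) (nat_lit 252) (nat_lit 1684063717) (nat_lit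 336) (nat_lit 495731051) (nat_lit 75) (nat_lit 5) (nat_lit 78) (nat_lit 5) (nat_lit 79) (nat_lit 5) (nat_lit 293) (nat_lit 262) (nat_lit 165))) (XT.nd (nat_lit 94) (nat_lit 252) (nat_lit 0) (XT.lf (nat_lit 0) (nat_lit 5759000092) (nat_lit 336) (nat_lit 13298039157) (nat_lit 84) (nat_lit 9463449220) (nat_lit 71) (nat_lit 5) (nat_lit 75) (nat_lit 5) (nat_lit 72) (nat_lit 5) (nat_lit 294) (nat_lit 262) (nat_lit 164)) (XT.nd (nat_lit 94) (nat_lit 0) (nat_lit 0) (XT.lf (nat_lit 0) (nat_lit 4274594380) (nat_lit 252) (nat_lit 8157684280) (nat_lit 336) (nat_lit 16945108906) (nat_lit 68) (nat_lit 5) (nat_lit 71) (nat_lit 5) (nat_lit 72) (nat_lit 5) (nat_lit 295) (nat_lit 262) (nat_lit 163)) (XT.lf (nat_lit 0) (nat_lit 19710190628) (nat_lit 336) (nat_lit 7147782134) (nat_lit 84) (nat_lit 3405610382) (nat_lit 68) (nat_lit 5) (nat_lit 72) (nat_lit 5) (nat_lit 69) (nat_lit 5) (nat_lit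 296) (nat_lit 262) (nat_lit 162))))))))
noncomputable def xc147 : XT := (XT.nd (nat_lit 1598) (nat_lit 1680) (nat_lit 0) (XT.nd (nat_lit 752) (nat_lit 1092) (nat_lit 0) (XT.nd (nat_lit 376) (nat_lit 420) (nat_lit 0) (XT.nd (nat_lit 188) (nat_lit 168) (nat_lit 0) (XT.nd (nat_lit 94) (nat_lit 336) (nat_lit 0) (XT.lf (nat_lit 0) (nat_lit 11939634713) (nat_lit 168) (nat_lit 15723702557) (nat_lit 252) (nat_lit 3515184277) (nat_lit 66) (nat_lit 5) (nat_lit 68) (nat_lit 5) (nat_lit 69) (nat_lit 5) (nat_lit 297) (nat_lit 262) (nat_lit 161)) (XT.lf (nat_lit 0) (nat_lit 20782951) (nat_lit 252) (nat_lit 3844751834) (nat_lit 336) (nat_lit 28264916031) (nat_lit 62) (nat_lit 5) (nat_lit 65) (nat_lit 5) (nat_lit 66) (nat_lit 5) (nat_lit 298) (nat_lit 262) (nat_lit 160))) (XT.nd (nat_lit 94) (nat_lit 168) (nat_lit 0) (XT.lf (nat_lit 0) (nat_lit 11954414378) (nat_lit 336) (nat_lit 12413942263)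 (nat_lit 84) (nat_lit 8735875718) (nat_lit 62) (nat_lit 5) (nat_lit 66) (nat_lit 5) (nat_lit 63) (nat_lit 5) (nat_lit 299) (nat_lit 262) (nat_lit 159)) (XT.lf (nat_lit 0) (nat_lit 8461065142) (nat_lit 168) (nat_lit 12173599706) (nat_lit 252) (nat_lit 13482691785) (nat_lit 60) (nat_lit 5) (nat_lit 62) (nat_lit 5) (nat_lit 63) (nat_lit 5) (nat_lit 300) (nat_lit 262) (nat_lit 158)))) (XT.nd (nat_lit 188) (nat_lit 168) (nat_lit 0) (XT.nd (nat_lit 94) (nat_lit 252) (nat_lit 0) (XT.lf (nat_lit 0) (nat_lit 29964365432) (nat_lit 252) (nat_lit 4386505262) (nat_lit 84) (nat_lit 819494550) (nat_lit 60) (nat_lit 5) (nat_lit 63) (nat_lit 5) (nat_lit 61) (nat_lit 5) (nat_lit 301) (nat_lit 262) (nat_lit 157)) (XT.lf (nat_lit 0) (nat_lit 3858731664) (nat_lit 252) (nat_lit 17993535681) (nat_lit 84) (nat_lit 14396750200) (nat_lit 57) (nat_lit 5) (nat_lit 60) (nat_lit 5) (nat_lit 58) (nat_lit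 5) (nat_lit 302) (nat_lit 262) (nat_lit 156))) (XT.nd (nat_lit 94) (nat_lit 0) (nat_lit 0) (XT.lf (nat_lit 0) (nat_lit 4860162912) (nat_lit 168) (nat_lit 8485305317) (nat_lit 252) (nat_lit 24024680809) (nat_lit 55) (nat_lit 5) (nat_lit 57) (nat_lit 5) (nat_lit 58) (nat_lit 5) (nat_lit 303) (nat_lit 262) (nat_lit 155)) (XT.lf (nat_lit 0) (nat_lit 23695344208) (nat_lit 252) (nat_lit 9155394955) (nat_lit 84) (nat_lit 5677157812) (nat_lit 55) (nat_lit 5) (nat_lit 58) (nat_lit 5) (nat_lit 56) (nat_lit 5) (nat_lit 304) (nat_lit 262) (nat_lit 154))))) (XT.nd (nat_lit 376) (nat_lit 504) (nat_lit 0) (XT.nd (nat_lit 188) (nat_lit 168) (nat_lit 0) (XT.nd (nat_lit 94) (nat_lit 252) (nat_lit 0) (XT.lf (nat_lit 0) (nat_lit 15718641890) (nat_lit 168) (nat_lit 19221374809) (nat_lit 252) (nat_lit 4784650474) (nat_lit 53) (nat_lit 5) (nat_lit 55) (nat_lit 5) (nat_lit 56) (nat_lit 5) (nat_lit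 305) (nat_lit 262) (nat_lit 153)) (XT.lf (nat_lit 0) (nat_lit 1111409788) (nat_lit 168) (nat_lit 4637472019) (nat_lit 252) (nat_lit 35219504601) (nat_lit 50) (nat_lit 5) (nat_lit 52) (nat_lit 5) (nat_lit 53) (nat_lit 5) (nat_lit 306) (nat_lit 262) (nat_lit 152))) (XT.nd (nat_lit 94) (nat_lit 168) (nat_lit 0) (XT.lf (nat_lit 0) (nat_lit 17221089368) (nat_lit 252) (nat_lit 14199977777) (nat_lit 84) (nat_lit 10820662899) (nat_lit 50) (nat_lit 5) (nat_lit 53) (nat_lit 5) (nat_lit 51) (nat_lit 5) (nat_lit 307) (nat_lit 262) (nat_lit 151)) (XT.lf (nat_lit 0) (nat_lit 13070383325) (nat_lit 168) (nat_lit 16469850940) (nat_lit 252) (nat_lit 14024840250) (nat_lit 48) (nat_lit 5) (nat_lit 50) (nat_lit 5) (nat_lit 51) (nat_lit 5) (nat_lit 308) (nat_lit 262) (nat_lit 150)))) (XT.nd (nat_lit 188) (nat_lit 336) (nat_lit 0) (XT.nd (nat_lit 94) (nat_lit 168) (nat_lit 0) (XT.lf (nat_lit 0)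 (nat_lit 42185646485) (nat_lit 168) (nat_lit 523551731) (nat_lit 252) (nat_lit 2233694901) (nat_lit 48) (nat_lit 5) (nat_lit 50) (nat_lit 5) (nat_lit 51) (nat_lit 5) (nat_lit 309) (nat_lit 262) (nat_lit 149)) (XT.lf (nat_lit 0) (nat_lit 10501057512) (nat_lit 168) (nat_lit 19559979564) (nat_lit 84) (nat_lit 16286703543) (nat_lit 46) (nat_lit 5) (nat_lit 48) (nat_lit 5) (nat_lit 47) (nat_lit 5) (nat_lit 310) (nat_lit 262) (nat_lit 148))) (XT.nd (nat_lit 94) (nat_lit 168) (nat_lit 0) (XT.lf (nat_lit 0) (nat_lit 10359528639) (nat_lit 168) (nat_lit 13649384366) (nat_lit 252) (nat_lit 23801514980) (nat_lit 44) (nat_lit 5) (nat_lit 46) (nat_lit 5) (nat_lit 47) (nat_lit 5) (nat_lit 311) (nat_lit 262) (nat_lit 147)) (XT.nd (nat_lit 94) (nat_lit 168) (nat_lit 0) (XT.lf (nat_lit 0) (nat_lit 38578486956) (nat_lit 252) (nat_lit 6948340346) (nat_lit 84) (nat_lit 3800106133) (nat_lit 44)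 (nat_lit 5) (nat_lit 47) (nat_lit 5) (nat_lit 45) (nat_lit 4) (nat_lit 312) (nat_lit 262) (nat_lit 146)) (XT.lf (nat_lit 0) (nat_lit 3491244621) (nat_lit 168) (nat_lit 25278418167) (nat_lit 84) (nat_lit 22115861780) (nat_lit 42) (nat_lit 5) (nat_lit 44) (nat_lit 5) (nat_lit 43) (nat_lit 5) (nat_lit 313) (nat_lit 262) (nat_lit 145))))))) (XT.nd (nat_lit 752) (nat_lit 840) (nat_lit 0) (XT.nd (nat_lit 376) (nat_lit 336) (nat_lit 0) (XT.nd (nat_lit 188) (nat_lit 336) (nat_lit 0) (XT.nd (nat_lit 94) (nat_lit 0) (nat_lit 0) (XT.lf (nat_lit 0) (nat_lit 7568648984) (nat_lit 168) (nat_lit 10744845536) (nat_lit 252) (nat_lit 34188150908) (nat_lit 40) (nat_lit 5) (nat_lit 42) (nat_lit 5) (nat_lit 43) (nat_lit 5) (nat_lit 314) (nat_lit 262) (nat_lit 144)) (XT.lf (nat_lit 0) (nat_lit 34433773625) (nat_lit 252) (nat_lit 11387137000) (nat_lit 84) (nat_lit 8349815871) (nat_lit 40) (nat_lit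 5) (nat_lit 43) (nat_lit 5) (nat_lit 41) (nat_lit 4) (nat_lit 315) (nat_lit 262) (nat_lit 143))) (XT.nd (nat_lit 94) (nat_lit 252) (nat_lit 0) (XT.lf (nat_lit 0) (nat_lit 24431449221) (nat_lit 84) (nat_lit 27480553237) (nat_lit 168) (nat_lit 3983662370) (nat_lit 39) (nat_lit 5) (nat_lit 40) (nat_lit 5) (nat_lit 41) (nat_lit 4) (nat_lit 316) (nat_lit 262) (nat_lit 142)) (XT.lf (nat_lit 0) (nat_lit 4679242736) (nat_lit 168) (nat_lit 7739568550) (nat_lit 252) (nat_lit 45265064543) (nat_lit 36) (nat_lit 5) (nat_lit 38) (nat_lit 5) (nat_lit 39) (nat_lit 5) (nat_lit 317) (nat_lit 262) (nat_lit 141)))) (XT.nd (nat_lit 188) (nat_lit 252) (nat_lit 0) (XT.nd (nat_lit 94) (nat_lit 84) (nat_lit 0) (XT.lf (nat_lit 0) (nat_lit 30246316239) (nat_lit 252) (nat_lit 16099875560) (nat_lit 84) (nat_lit 13175101046) (nat_lit 36) (nat_lit 5) (nat_lit 39) (nat_lit 5) (nat_lit 37) (nat_lit 4) (nat_lit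 318) (nat_lit 262) (nat_lit 140)) (XT.lf (nat_lit 0) (nat_lit 23257695998) (nat_lit 84) (nat_lit 26192164323) (nat_lit 168) (nat_lit 11976487196) (nat_lit 35) (nat_lit 5) (nat_lit 36) (nat_lit 5) (nat_lit 37) (nat_lit 4) (nat_lit 319) (nat_lit 262) (nat_lit 139))) (XT.nd (nat_lit 94) (nat_lit 0) (nat_lit 0) (XT.lf (nat_lit 0) (nat_lit 1671557993) (nat_lit 168) (nat_lit 4615258519) (nat_lit 252) (nat_lit 57120113141) (nat_lit 32) (nat_lit 5) (nat_lit 34) (nat_lit 5) (nat_lit 35) (nat_lit 5) (nat_lit 320) (nat_lit 262) (nat_lit 138)) (XT.lf (nat_lit 0) (nat_lit 25994173184) (nat_lit 252) (nat_lit 21123890147) (nat_lit 84) (nat_lit 18311991958) (nat_lit 32) (nat_lit 5) (nat_lit 35) (nat_lit 5) (nat_lit 33) (nat_lit 4) (nat_lit 321) (nat_lit 262) (nat_lit 137))))) (XT.nd (nat_lit 376) (nat_lit 420) (nat_lit 0) (XT.nd (nat_lit 188) (nat_lit 336) (nat_lit 0) (XT.nd (nat_lit 94)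 (nat_lit 0) (nat_lit 0) (XT.lf (nat_lit 0) (nat_lit 22141670971) (nat_lit 84) (nat_lit 24961544282) (nat_lit 168) (nat_lit 20430306077) (nat_lit 31) (nat_lit 5) (nat_lit 32) (nat_lit 5) (nat_lit 33) (nat_lit 4) (nat_lit 322) (nat_lit 262) (nat_lit 136)) (XT.lf (nat_lit 0) (nat_lit 68294530996) (nat_lit 84) (nat_lit 1325979564) (nat_lit 168) (nat_lit 104010055) (nat_lit 31) (nat_lit 5) (nat_lit 32) (nat_lit 5) (nat_lit 33) (nat_lit 4) (nat_lit 323) (nat_lit 262) (nat_lit 135))) (XT.nd (nat_lit 94) (nat_lit 84) (nat_lit 0) (XT.lf (nat_lit 0) (nat_lit 21653877568) (nat_lit 252) (nat_lit 26499788435) (nat_lit 84) (nat_lit 23800071924) (nat_lit 28) (nat_lit 5) (nat_lit 31) (nat_lit 5) (nat_lit 29) (nat_lit 4) (nat_lit 324) (nat_lit 262) (nat_lit 134)) (XT.lf (nat_lit 0) (nat_lit 21080299804) (nat_lit 84) (nat_lit 23786577467) (nat_lit 168) (nat_lit 29408917924) (nat_lit 27) (nat_lit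 5) (nat_lit 28) (nat_lit 5) (nat_lit 29) (nat_lit 4) (nat_lit 325) (nat_lit 262) (nat_lit 133)))) (XT.nd (nat_lit 188) (nat_lit 252) (nat_lit 0) (XT.nd (nat_lit 94) (nat_lit 168) (nat_lit 0) (XT.lf (nat_lit 0) (nat_lit 69720015307) (nat_lit 168) (nat_lit 4776662030) (nat_lit 0) (nat_lit 2193303573) (nat_lit 27) (nat_lit 5) (nat_lit 29) (nat_lit 4) (nat_lit 27) (nat_lit 4) (nat_lit 326) (nat_lit 262) (nat_lit 132)) (XT.lf (nat_lit 0) (nat_lit 17200266353) (nat_lit 168) (nat_lit 32271833479) (nat_lit 84) (nat_lit 29682807251) (nat_lit 25) (nat_lit 5) (nat_lit 27) (nat_lit 5) (nat_lit 26) (nat_lit 4) (nat_lit 327) (nat_lit 262) (nat_lit 131))) (XT.nd (nat_lit 94) (nat_lit 168) (nat_lit 0) (XT.lf (nat_lit 0) (nat_lit 20070712247) (nat_lit 84) (nat_lit 22665136351) (nat_lit 168) (nat_lit 38981964119) (nat_lit 24) (nat_lit 5) (nat_lit 25) (nat_lit 5) (nat_lit 26) (nat_lit 4) (nat_lit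 328) (nat_lit 262) (nat_lit 130)) (XT.nd (nat_lit 94) (nat_lit 168) (nat_lit 0) (XT.lf (nat_lit 0) (nat_lit 70184811657) (nat_lit 168) (nat_lit 8333999012) (nat_lit 0) (nat_lit 5858222880) (nat_lit 24) (nat_lit 5) (nat_lit 26) (nat_lit 4) (nat_lit 24) (nat_lit 4) (nat_lit 329) (nat_lit 262) (nat_lit 129)) (XT.lf (nat_lit 0) (nat_lit 12606289136) (nat_lit 168) (nat_lit 38488358935) (nat_lit 84) (nat_lit 36007919914) (nat_lit 22) (nat_lit 5) (nat_lit 24) (nat_lit 5) (nat_lit 23) (nat_lit 4) (nat_lit 330) (nat_lit 262) (nat_lit 128))))))))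
noncomputable def xc148 : XT := (XT.nd (nat_lit 1504) (nat_lit 504) (nat_lit 0) (XT.nd (nat_lit 752) (nat_lit 756) (nat_lit 0) (XT.nd (nat_lit 376) (nat_lit 252) (nat_lit 0) (XT.nd (nat_lit 188) (nat_lit 252) (nat_lit 0) (XT.nd (nat_lit 94) (nat_lit 0) (nat_lit 0) (XT.lf (nat_lit 0) (nat_lit 19110222188) (nat_lit 84) (nat_lit 21595102055) (nat_lit 168) (nat_lit 49225544420) (nat_lit 21) (nat_lit 5) (nat_lit 22) (nat_lit 5) (nat_lit 23) (nat_lit 4) (nat_lit 331) (nat_lit 262) (nat_lit 127)) (XT.lf (nat_lit 0) (nat_lit 71014000612) (nat_lit 168) (nat_lit 12108464760) (nat_lit 0) (nat_lit 9737884527) (nat_lit 21) (nat_lit 5) (nat_lit 23) (nat_lit 4) (nat_lit 21) (nat_lit 4) (nat_lit 332) (nat_lit 262) (nat_lit 126))) (XT.nd (nat_lit 94) (nat_lit 84) (nat_lit 0) (XT.lf (nat_lit 0) (nat_lit 7842795245) (nat_lit 168) (nat_lit 45202222001) (nat_lit 84) (nat_lit 42827805598) (nat_lit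 19) (nat_lit 5) (nat_lit 21) (nat_lit 5) (nat_lit 20) (nat_lit 4) (nat_lit 333) (nat_lit 262) (nat_lit 125)) (XT.lf (nat_lit 0) (nat_lit 18196310470) (nat_lit 84) (nat_lit 20574380368) (nat_lit 168) (nat_lit 60222898034) (nat_lit 18) (nat_lit 5) (nat_lit 19) (nat_lit 5) (nat_lit 20) (nat_lit 4) (nat_lit 334) (nat_lit 262) (nat_lit 124)))) (XT.nd (nat_lit 188) (nat_lit 84) (nat_lit 0) (XT.nd (nat_lit 94) (nat_lit 168) (nat_lit 0) (XT.lf (nat_lit 0) (nat_lit 72230100077) (nat_lit 168) (nat_lit 16129589742) (nat_lit 0) (nat_lit 13861447439) (nat_lit 18) (nat_lit 5) (nat_lit 20) (nat_lit 4) (nat_lit 18) (nat_lit 4) (nat_lit 335) (nat_lit 262) (nat_lit 123)) (XT.lf (nat_lit 0) (nat_lit 2878297547) (nat_lit 168) (nat_lit 52471298692) (nat_lit 84) (nat_lit 50200000362) (nat_lit 16) (nat_lit 5) (nat_lit 18) (nat_lit 5) (nat_lit 17) (nat_lit 4) (nat_lit 336) (nat_lit 262) (nat_lit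 122))) (XT.nd (nat_lit 94) (nat_lit 0) (nat_lit 0) (XT.lf (nat_lit 0) (nat_lit 17326610020) (nat_lit 84) (nat_lit 19600914089) (nat_lit 168) (nat_lit 72065155955) (nat_lit 15) (nat_lit 5) (nat_lit 16) (nat_lit 5) (nat_lit 17) (nat_lit 4) (nat_lit 337) (nat_lit 262) (nat_lit 121)) (XT.lf (nat_lit 0) (nat_lit 73858597833) (nat_lit 168) (nat_lit 20429540371) (nat_lit 0) (nat_lit 18260810202) (nat_lit 15) (nat_lit 5) (nat_lit 17) (nat_lit 4) (nat_lit 15) (nat_lit 4) (nat_lit 338) (nat_lit 262) (nat_lit 120))))) (XT.nd (nat_lit 376) (nat_lit 420) (nat_lit 0) (XT.nd (nat_lit 188) (nat_lit 84) (nat_lit 0) (XT.nd (nat_lit 94) (nat_lit 168) (nat_lit 0) (XT.lf (nat_lit 0) (nat_lit 55827098684) (nat_lit 84) (nat_lit 57998425324) (nat_lit 84) (nat_lit 2398041221) (nat_lit 14) (nat_lit 4) (nat_lit 15) (nat_lit 5) (nat_lit 15) (nat_lit 4) (nat_lit 339) (nat_lit 262) (nat_lit 119)) (XT.lf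 (nat_lit 0) (nat_lit 16498892909) (nat_lit 84) (nat_lit 18672692379) (nat_lit 168) (nat_lit 84852171369) (nat_lit 12) (nat_lit 5) (nat_lit 13) (nat_lit 5) (nat_lit 14) (nat_lit 4) (nat_lit 340) (nat_lit 262) (nat_lit 118))) (XT.nd (nat_lit 94) (nat_lit 84) (nat_lit 0) (XT.lf (nat_lit 0) (nat_lit 75928232331) (nat_lit 168) (nat_lit 25043415700) (nat_lit 0) (nat_lit 22970887561) (nat_lit 12) (nat_lit 5) (nat_lit 14) (nat_lit 4) (nat_lit 12) (nat_lit 4) (nat_lit 341) (nat_lit 262) (nat_lit 117)) (XT.lf (nat_lit 0) (nat_lit 58935422005) (nat_lit 84) (nat_lit 61010086267) (nat_lit 84) (nat_lit 8050605375) (nat_lit 11) (nat_lit 4) (nat_lit 12) (nat_lit 5) (nat_lit 12) (nat_lit 4) (nat_lit 342) (nat_lit 262) (nat_lit 116)))) (XT.nd (nat_lit 188) (nat_lit 252) (nat_lit 0) (XT.nd (nat_lit 94) (nat_lit 0) (nat_lit 0) (XT.lf (nat_lit 0) (nat_lit 15711059042) (nat_lit 84) (nat_lit 17787757707)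 (nat_lit 168) (nat_lit 98693435752) (nat_lit 9) (nat_lit 5) (nat_lit 10) (nat_lit 5) (nat_lit 11) (nat_lit 4) (nat_lit 343) (nat_lit 262) (nat_lit 115)) (XT.lf (nat_lit 0) (nat_lit 78471301983) (nat_lit 168) (nat_lit 30009571858) (nat_lit 0) (nat_lit 28029918343) (nat_lit 9) (nat_lit 5) (nat_lit 11) (nat_lit 4) (nat_lit 9) (nat_lit 4) (nat_lit 344) (nat_lit 262) (nat_lit 114))) (XT.nd (nat_lit 94) (nat_lit 168) (nat_lit 0) (XT.lf (nat_lit 0) (nat_lit 62487460676) (nat_lit 84) (nat_lit 64468871585) (nat_lit 84) (nat_lit 14025730551) (nat_lit 8) (nat_lit 4) (nat_lit 9) (nat_lit 5) (nat_lit 9) (nat_lit 4) (nat_lit 345) (nat_lit 262) (nat_lit 113)) (XT.lf (nat_lit 0) (nat_lit 14961126218) (nat_lit 84) (nat_lit 16944210835) (nat_lit 168) (nat_lit 113709089118) (nat_lit 6) (nat_lit 5) (nat_lit 7) (nat_lit 5) (nat_lit 8) (nat_lit 4) (nat_lit 346) (nat_lit 262) (nat_lit 112))))))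 (XT.nd (nat_lit 37318) (nat_lit 0) (nat_lit 10752) (XT.nd (nat_lit 376) (nat_lit 252) (nat_lit 0) (XT.nd (nat_lit 188) (nat_lit 168) (nat_lit 0) (XT.nd (nat_lit 94) (nat_lit 84) (nat_lit 0) (XT.lf (nat_lit 0) (nat_lit 81524006154) (nat_lit 168) (nat_lit 35369977465) (nat_lit 0) (nat_lit 33479807345) (nat_lit 6) (nat_lit 5) (nat_lit 8) (nat_lit 4) (nat_lit 6) (nat_lit 4) (nat_lit 347) (nat_lit 262) (nat_lit 111)) (XT.lf (nat_lit 0) (nat_lit 66522624644) (nat_lit 84) (nat_lit 68414240575) (nat_lit 84) (nat_lit 20368595954) (nat_lit 5) (nat_lit 4) (nat_lit 6) (nat_lit 5) (nat_lit 6) (nat_lit 4) (nat_lit 348) (nat_lit 262) (nat_lit 110))) (XT.nd (nat_lit 94) (nat_lit 0) (nat_lit 0) (XT.lf (nat_lit 0) (nat_lit 14247221338) (nat_lit 84) (nat_lit 16140214234) (nat_lit 168) (nat_lit 130031033843) (nat_lit 3) (nat_lit 5) (nat_lit 4) (nat_lit 5) (nat_lit 5) (nat_lit 4) (nat_lit 349)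 (nat_lit 262) (nat_lit 109)) (XT.lf (nat_lit 0) (nat_lit 85126821291) (nat_lit 168) (nat_lit 41170603491) (nat_lit 0) (nat_lit 39366504167) (nat_lit 3) (nat_lit 5) (nat_lit 5) (nat_lit 4) (nat_lit 3) (nat_lit 4) (nat_lit 350) (nat_lit 262) (nat_lit 108)))) (XT.nd (nat_lit 188) (nat_lit 0) (nat_lit 0) (XT.nd (nat_lit 94) (nat_lit 168) (nat_lit 0) (XT.lf (nat_lit 0) (nat_lit 71084672528) (nat_lit 84) (nat_lit 72889961325) (nat_lit 84) (nat_lit 27128454728) (nat_lit 2) (nat_lit 4) (nat_lit 3) (nat_lit 5) (nat_lit 3) (nat_lit 4) (nat_lit 351) (nat_lit 262) (nat_lit 107)) (XT.lf (nat_lit 0) (nat_lit 256714569761) (nat_lit 0) (nat_lit 0) (nat_lit 0) (nat_lit 0) (nat_lit 0) (nat_lit 0) (nat_lit 1) (nat_lit 0) (nat_lit 1) (nat_lit 0) (nat_lit 352) (nat_lit 262) (nat_lit 106))) (XT.nd (nat_lit 94) (nat_lit 0) (nat_lit 0) (XT.lf (nat_lit 0) (nat_lit 269393097781) (nat_lit 0) (nat_lit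 0) (nat_lit 0) (nat_lit 0) (nat_lit 0) (nat_lit 0) (nat_lit 1) (nat_lit 0) (nat_lit 1) (nat_lit 0) (nat_lit 353) (nat_lit 262) (nat_lit 105)) (XT.lf (nat_lit 0) (nat_lit 282705559428) (nat_lit 0) (nat_lit 0) (nat_lit 0) (nat_lit 0) (nat_lit 0) (nat_lit 0) (nat_lit 1) (nat_lit 0) (nat_lit 1) (nat_lit 0) (nat_lit 354) (nat_lit 262) (nat_lit 104))))) (XT.nd (nat_lit 376) (nat_lit 0) (nat_lit 168) (XT.nd (nat_lit 188) (nat_lit 0) (nat_lit 84) (XT.nd (nat_lit 94) (nat_lit 0) (nat_lit 0) (XT.lf (nat_lit 0) (nat_lit 72853309) (nat_lit 924) (nat_lit 3150655062) (nat_lit 924) (nat_lit 3150655062) (nat_lit 128) (nat_lit 3) (nat_lit 139) (nat_lit 3) (nat_lit 139) (nat_lit 5) (nat_lit 263) (nat_lit 263) (nat_lit 194)) (XT.lf (nat_lit 84) (nat_lit 75262168) (nat_lit 0) (nat_lit 490283638) (nat_lit 924) (nat_lit 12480679409) (nat_lit 129) (nat_lit 5) (nat_lit 128) (nat_lit 3) (nat_lit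 139) (nat_lit 5) (nat_lit 264) (nat_lit 263) (nat_lit 193))) (XT.nd (nat_lit 94) (nat_lit 0) (nat_lit 0) (XT.lf (nat_lit 0) (nat_lit 1178240605) (nat_lit 840) (nat_lit 6471939970) (nat_lit 924) (nat_lit 5700244721) (nat_lit 129) (nat_lit 5) (nat_lit 139) (nat_lit 5) (nat_lit 140) (nat_lit 5) (nat_lit 265) (nat_lit 263) (nat_lit 192)) (XT.lf (nat_lit 84) (nat_lit 339686517) (nat_lit 0) (nat_lit 1469892916) (nat_lit 924) (nat_lit 11860855482) (nat_lit 130) (nat_lit 5) (nat_lit 129) (nat_lit 5) (nat_lit 140) (nat_lit 5) (nat_lit 266) (nat_lit 263) (nat_lit 191)))) (XT.nd (nat_lit 188) (nat_lit 0) (nat_lit 84) (XT.nd (nat_lit 94) (nat_lit 0) (nat_lit 0) (XT.lf (nat_lit 0) (nat_lit 2638043028) (nat_lit 840) (nat_lit 6380845662) (nat_lit 924) (nat_lit 4979278435) (nat_lit 130) (nat_lit 5) (nat_lit 140) (nat_lit 5) (nat_lit 141) (nat_lit 5) (nat_lit 267) (nat_lit 263) (nat_lit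 190)) (XT.lf (nat_lit 84) (nat_lit 905924626) (nat_lit 0) (nat_lit 2617187264) (nat_lit 924) (nat_lit 10818414951) (nat_lit 131) (nat_lit 5) (nat_lit 130) (nat_lit 5) (nat_lit 141) (nat_lit 5) (nat_lit 268) (nat_lit 263) (nat_lit 189))) (XT.nd (nat_lit 94) (nat_lit 0) (nat_lit 0) (XT.lf (nat_lit 0) (nat_lit 4604261801) (nat_lit 840) (nat_lit 6000439084) (nat_lit 924) (nat_lit 4089762277) (nat_lit 131) (nat_lit 5) (nat_lit 141) (nat_lit 5) (nat_lit 142) (nat_lit 5) (nat_lit 269) (nat_lit 263) (nat_lit 188)) (XT.nd (nat_lit 94) (nat_lit 0) (nat_lit 84) (XT.lf (nat_lit 84) (nat_lit 1805661518) (nat_lit 0) (nat_lit 3983864865) (nat_lit 924) (nat_lit 9273017058) (nat_lit 132) (nat_lit 5) (nat_lit 131) (nat_lit 5) (nat_lit 142) (nat_lit 5) (nat_lit 270) (nat_lit 263) (nat_lit 187)) (XT.lf (nat_lit 0) (nat_lit 7163476333) (nat_lit 840) (nat_lit 5298107064) (nat_lit 924) (nat_lit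 2980973228) (nat_lit 132) (nat_lit 5) (nat_lit 142) (nat_lit 5) (nat_lit 143) (nat_lit 5) (nat_lit 271) (nat_lit 263) (nat_lit 186))))))))
noncomputable def xc149 : XT := (XT.nd (nat_lit 1598) (nat_lit 2604) (nat_lit 0) (XT.nd (nat_lit 752) (nat_lit 1680) (nat_lit 0) (XT.nd (nat_lit 376) (nat_lit 1428) (nat_lit 0) (XT.nd (nat_lit 188) (nat_lit 756) (nat_lit 0) (XT.nd (nat_lit 94) (nat_lit 0) (nat_lit 84) (XT.lf (nat_lit 84) (nat_lit 3075991760) (nat_lit 0) (nat_lit 5624225079) (nat_lit 924) (nat_lit 7136648979) (nat_lit 133) (nat_lit 5) (nat_lit 132) (nat_lit 5) (nat_lit 143) (nat_lit 5) (nat_lit 272) (nat_lit 263) (nat_lit 185)) (XT.lf (nat_lit 0) (nat_lit 10410750220) (nat_lit 840) (nat_lit 4235897688) (nat_lit 84) (nat_lit 1599394769) (nat_lit 133) (nat_lit 5) (nat_lit 143) (nat_lit 5) (nat_lit 134) (nat_lit 5) (nat_lit 273) (nat_lit 263) (nat_lit 184))) (XT.nd (nat_lit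 94) (nat_lit 0) (nat_lit 0) (XT.lf (nat_lit 0) (nat_lit 4759775816) (nat_lit 840) (nat_lit 7595911158) (nat_lit 924) (nat_lit 4312547569) (nat_lit 123) (nat_lit 5) (nat_lit 133) (nat_lit 5) (nat_lit 134) (nat_lit 5) (nat_lit 274) (nat_lit 263) (nat_lit 183)) (XT.lf (nat_lit 0) (nat_lit 14336853102) (nat_lit 840) (nat_lit 115716089) (nat_lit 924) (nat_lit 2656231881) (nat_lit 123) (nat_lit 5) (nat_lit 133) (nat_lit 5) (nat_lit 134) (nat_lit 5) (nat_lit 275) (nat_lit 263) (nat_lit 182)))) (XT.nd (nat_lit 188) (nat_lit 840) (nat_lit 0) (XT.nd (nat_lit 94) (nat_lit 84) (nat_lit 0) (XT.lf (nat_lit 0) (nat_lit 6906065521) (nat_lit 504) (nat_lit 9960669284) (nat_lit 588) (nat_lit 694039159) (nat_lit 117) (nat_lit 5) (nat_lit 123) (nat_lit 5) (nat_lit 124) (nat_lit 5) (nat_lit 276) (nat_lit 263) (nat_lit 181)) (XT.lf (nat_lit 0) (nat_lit 1356217815) (nat_lit 588) (nat_lit 908597091)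 (nat_lit 84) (nat_lit 15767779855) (nat_lit 116) (nat_lit 5) (nat_lit 123) (nat_lit 5) (nat_lit 117) (nat_lit 5) (nat_lit 277) (nat_lit 263) (nat_lit 180))) (XT.nd (nat_lit 94) (nat_lit 420) (nat_lit 0) (XT.lf (nat_lit 0) (nat_lit 3713916584) (nat_lit 504) (nat_lit 9008320462) (nat_lit 84) (nat_lit 5793788006) (nat_lit 111) (nat_lit 5) (nat_lit 117) (nat_lit 5) (nat_lit 112) (nat_lit 5) (nat_lit 278) (nat_lit 263) (nat_lit 179)) (XT.lf (nat_lit 0) (nat_lit 1446885257) (nat_lit 420) (nat_lit 4803292749) (nat_lit 504) (nat_lit 12770414967) (nat_lit 106) (nat_lit 5) (nat_lit 111) (nat_lit 5) (nat_lit 112) (nat_lit 5) (nat_lit 279) (nat_lit 263) (nat_lit 178))))) (XT.nd (nat_lit 376) (nat_lit 1008) (nat_lit 0) (XT.nd (nat_lit 188) (nat_lit 336) (nat_lit 0) (XT.nd (nat_lit 94) (nat_lit 336) (nat_lit 0) (XT.lf (nat_lit 0) (nat_lit 9108902810) (nat_lit 504) (nat_lit 6878483684)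 (nat_lit 84) (nat_lit 3553220280) (nat_lit 106) (nat_lit 5) (nat_lit 112) (nat_lit 5) (nat_lit 107) (nat_lit 5) (nat_lit 280) (nat_lit 263) (nat_lit 177)) (XT.lf (nat_lit 0) (nat_lit 4398298416) (nat_lit 336) (nat_lit 7846118809) (nat_lit 420) (nat_lit 7835511372) (nat_lit 102) (nat_lit 5) (nat_lit 106) (nat_lit 5) (nat_lit 107) (nat_lit 5) (nat_lit 281) (nat_lit 263) (nat_lit 176))) (XT.nd (nat_lit 94) (nat_lit 336) (nat_lit 0) (XT.lf (nat_lit 0) (nat_lit 15652895014) (nat_lit 420) (nat_lit 4191156693) (nat_lit 84) (nat_lit 796355420) (nat_lit 102) (nat_lit 5) (nat_lit 107) (nat_lit 5) (nat_lit 103) (nat_lit 5) (nat_lit 282) (nat_lit 263) (nat_lit 175)) (XT.lf (nat_lit 0) (nat_lit 7985942689) (nat_lit 336) (nat_lit 11486613298) (nat_lit 420) (nat_lit 1744315634) (nat_lit 98) (nat_lit 5) (nat_lit 102) (nat_lit 5) (nat_lit 103) (nat_lit 5) (nat_lit 283) (nat_lit 263) (nat_lit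 174)))) (XT.nd (nat_lit 188) (nat_lit 588) (nat_lit 0) (XT.nd (nat_lit 94) (nat_lit 336) (nat_lit 0) (XT.lf (nat_lit 0) (nat_lit 1667640730) (nat_lit 420) (nat_lit 943345277) (nat_lit 84) (nat_lit 19206888470) (nat_lit 97) (nat_lit 5) (nat_lit 102) (nat_lit 5) (nat_lit 98) (nat_lit 5) (nat_lit 284) (nat_lit 263) (nat_lit 173)) (XT.lf (nat_lit 0) (nat_lit 5480290561) (nat_lit 420) (nat_lit 10237111936) (nat_lit 84) (nat_lit 6715659406) (nat_lit 93) (nat_lit 5) (nat_lit 98) (nat_lit 5) (nat_lit 94) (nat_lit 5) (nat_lit 285) (nat_lit 263) (nat_lit 172))) (XT.nd (nat_lit 94) (nat_lit 252) (nat_lit 0) (XT.lf (nat_lit 0) (nat_lit 2984585235) (nat_lit 336) (nat_lit 6593136731) (nat_lit 420) (nat_lit 13496579282) (nat_lit 89) (nat_lit 5) (nat_lit 93) (nat_lit 5) (nat_lit 94) (nat_lit 5) (nat_lit 286) (nat_lit 263) (nat_lit 171)) (XT.nd (nat_lit 94) (nat_lit 252) (nat_lit 0) (XT.lf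 (nat_lit 0) (nat_lit 14091660828) (nat_lit 420) (nat_lit 6580538488) (nat_lit 84) (nat_lit 3064821449) (nat_lit 89) (nat_lit 5) (nat_lit 94) (nat_lit 5) (nat_lit 90) (nat_lit 5) (nat_lit 287) (nat_lit 263) (nat_lit 170)) (XT.lf (nat_lit 0) (nat_lit 7729207860) (nat_lit 252) (nat_lit 11320164259) (nat_lit 336) (nat_lit 5372600364) (nat_lit 86) (nat_lit 5) (nat_lit 89) (nat_lit 5) (nat_lit 90) (nat_lit 5) (nat_lit 288) (nat_lit 263) (nat_lit 169))))))) (XT.nd (nat_lit 752) (nat_lit 1092) (nat_lit 0) (XT.nd (nat_lit 376) (nat_lit 840) (nat_lit 0) (XT.nd (nat_lit 188) (nat_lit 252) (nat_lit 0) (XT.nd (nat_lit 94) (nat_lit 420) (nat_lit 0) (XT.lf (nat_lit 0) (nat_lit 22968943049) (nat_lit 252) (nat_lit 1387077989) (nat_lit 336) (nat_lit 780098146) (nat_lit 86) (nat_lit 5) (nat_lit 89) (nat_lit 5) (nat_lit 90) (nat_lit 5) (nat_lit 289) (nat_lit 263) (nat_lit 168)) (XT.lf (nat_lit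 0) (nat_lit 4258004429) (nat_lit 420) (nat_lit 12580371767) (nat_lit 84) (nat_lit 9027174385) (nat_lit 81) (nat_lit 5) (nat_lit 86) (nat_lit 5) (nat_lit 82) (nat_lit 5) (nat_lit 290) (nat_lit 263) (nat_lit 167))) (XT.nd (nat_lit 94) (nat_lit 0) (nat_lit 0) (XT.lf (nat_lit 0) (nat_lit 3001881327) (nat_lit 252) (nat_lit 6616978317) (nat_lit 336) (nat_lit 17007101280) (nat_lit 78) (nat_lit 5) (nat_lit 81) (nat_lit 5) (nat_lit 82) (nat_lit 5) (nat_lit 291) (nat_lit 263) (nat_lit 166)) (XT.lf (nat_lit 0) (nat_lit 15518906037) (nat_lit 336) (nat_lit 7695511305) (nat_lit 84) (nat_lit 4196417022) (nat_lit 78) (nat_lit 5) (nat_lit 82) (nat_lit 5) (nat_lit 79) (nat_lit 5) (nat_lit 292) (nat_lit 263) (nat_lit 165)))) (XT.nd (nat_lit 188) (nat_lit 588) (nat_lit 0) (XT.nd (nat_lit 94) (nat_lit 0) (nat_lit 0) (XT.lf (nat_lit 0) (nat_lit 9202171191) (nat_lit 252) (nat_lit 12754736684)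 (nat_lit 336) (nat_lit 6265895945) (nat_lit 75) (nat_lit 5) (nat_lit 78) (nat_lit 5) (nat_lit 79) (nat_lit 5) (nat_lit 293) (nat_lit 263) (nat_lit 164)) (XT.lf (nat_lit 0) (nat_lit 27198758070) (nat_lit 252) (nat_lit 1639417807) (nat_lit 336) (nat_lit 231127568) (nat_lit 75) (nat_lit 5) (nat_lit 78) (nat_lit 5) (nat_lit 79) (nat_lit 5) (nat_lit 294) (nat_lit 263) (nat_lit 163))) (XT.nd (nat_lit 94) (nat_lit 252) (nat_lit 0) (XT.lf (nat_lit 0) (nat_lit 6322184212) (nat_lit 336) (nat_lit 13544326543) (nat_lit 84) (nat_lit 10066240432) (nat_lit 71) (nat_lit 5) (nat_lit 75) (nat_lit 5) (nat_lit 72) (nat_lit 5) (nat_lit 295) (nat_lit 263) (nat_lit 162)) (XT.lf (nat_lit 0) (nat_lit 4900186823) (nat_lit 252) (nat_lit 8422263830) (nat_lit 336) (nat_lit 17510378388) (nat_lit 68) (nat_lit 5) (nat_lit 71) (nat_lit 5) (nat_lit 72) (nat_lit 5) (nat_lit 296) (nat_lit 263) (nat_lit 161)))))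 (XT.nd (nat_lit 376) (nat_lit 588) (nat_lit 0) (XT.nd (nat_lit 188) (nat_lit 336) (nat_lit 0) (XT.nd (nat_lit 94) (nat_lit 168) (nat_lit 0) (XT.lf (nat_lit 0) (nat_lit 20953600586) (nat_lit 336) (nat_lit 7102263394) (nat_lit 84) (nat_lit 3708003301) (nat_lit 68) (nat_lit 5) (nat_lit 72) (nat_lit 5) (nat_lit 69) (nat_lit 5) (nat_lit 297) (nat_lit 263) (nat_lit 160)) (XT.lf (nat_lit 0) (nat_lit 12933025783) (nat_lit 168) (nat_lit 16365286866) (nat_lit 252) (nat_lit 3426544550) (nat_lit 66) (nat_lit 5) (nat_lit 68) (nat_lit 5) (nat_lit 69) (nat_lit 5) (nat_lit 298) (nat_lit 263) (nat_lit 159))) (XT.nd (nat_lit 94) (nat_lit 0) (nat_lit 0) (XT.lf (nat_lit 0) (nat_lit 420163660) (nat_lit 252) (nat_lit 3888616162) (nat_lit 336) (nat_lit 29415695120) (nat_lit 62) (nat_lit 5) (nat_lit 65) (nat_lit 5) (nat_lit 66) (nat_lit 5) (nat_lit 299) (nat_lit 263) (nat_lit 158)) (XT.lf (nat_lit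 0) (nat_lit 12792406354) (nat_lit 336) (nat_lit 12645569421) (nat_lit 84) (nat_lit 9309454640) (nat_lit 62) (nat_lit 5) (nat_lit 66) (nat_lit 5) (nat_lit 63) (nat_lit 5) (nat_lit 300) (nat_lit 263) (nat_lit 157)))) (XT.nd (nat_lit 188) (nat_lit 420) (nat_lit 0) (XT.nd (nat_lit 94) (nat_lit 0) (nat_lit 0) (XT.lf (nat_lit 0) (nat_lit 9266913034) (nat_lit 168) (nat_lit 12634291323) (nat_lit 252) (nat_lit 13910279796) (nat_lit 60) (nat_lit 5) (nat_lit 62) (nat_lit 5) (nat_lit 63) (nat_lit 5) (nat_lit 301) (nat_lit 263) (nat_lit 156)) (XT.lf (nat_lit 0) (nat_lit 31688409207) (nat_lit 252) (nat_lit 4232283445) (nat_lit 84) (nat_lit 996899579) (nat_lit 60) (nat_lit 5) (nat_lit 63) (nat_lit 5) (nat_lit 61) (nat_lit 5) (nat_lit 302) (nat_lit 263) (nat_lit 155))) (XT.nd (nat_lit 94) (nat_lit 168) (nat_lit 0) (XT.lf (nat_lit 0) (nat_lit 4276098042) (nat_lit 252) (nat_lit 18518269676)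 (nat_lit 84) (nat_lit 15255879216) (nat_lit 57) (nat_lit 5) (nat_lit 60) (nat_lit 5) (nat_lit 58) (nat_lit 5) (nat_lit 303) (nat_lit 263) (nat_lit 154)) (XT.nd (nat_lit 94) (nat_lit 0) (nat_lit 0) (XT.lf (nat_lit 0) (nat_lit 5472066383) (nat_lit 168) (nat_lit 8760177408) (nat_lit 252) (nat_lit 24995437591) (nat_lit 55) (nat_lit 5) (nat_lit 57) (nat_lit 5) (nat_lit 58) (nat_lit 5) (nat_lit 304) (nat_lit 263) (nat_lit 153)) (XT.lf (nat_lit 0) (nat_lit 25091382463) (nat_lit 252) (nat_lit 9253604715) (nat_lit 84) (nat_lit 6098741094) (nat_lit 55) (nat_lit 5) (nat_lit 58) (nat_lit 5) (nat_lit 56) (nat_lit 5) (nat_lit 305) (nat_lit 263) (nat_lit 152))))))))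
noncomputable def xc150 : XT := (XT.nd (nat_lit 1598) (nat_lit 1428) (nat_lit 0) (XT.nd (nat_lit 752) (nat_lit 1008) (nat_lit 0) (XT.nd (nat_lit 376) (nat_lit 336) (nat_lit 0) (XT.nd (nat_lit 188) (nat_lit 168) (nat_lit 0) (XT.nd (nat_lit 94) (nat_lit 252) (nat_lit 0) (XT.lf (nat_lit 0) (nat_lit 16858334618) (nat_lit 168) (nat_lit 20035416631) (nat_lit 252) (nat_lit 4806812599) (nat_lit 53) (nat_lit 5) (nat_lit 55) (nat_lit 5) (nat_lit 56) (nat_lit 5) (nat_lit 306) (nat_lit 263) (nat_lit 151)) (XT.lf (nat_lit 0) (nat_lit 1521870644) (nat_lit 168) (nat_lit 4720113030) (nat_lit 252) (nat_lit 36764539165) (nat_lit 50) (nat_lit 5) (nat_lit 52) (nat_lit 5) (nat_lit 53) (nat_lit 5) (nat_lit 307) (nat_lit 263) (nat_lit 150))) (XT.nd (nat_lit 94) (nat_lit 168) (nat_lit 0) (XT.lf (nat_lit 0) (nat_lit 18280227376) (nat_lit 252) (nat_lit 14564411603) (nat_lit 84) (nat_lit 11499273391)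 (nat_lit 50) (nat_lit 5) (nat_lit 53) (nat_lit 5) (nat_lit 51) (nat_lit 5) (nat_lit 308) (nat_lit 263) (nat_lit 149)) (XT.lf (nat_lit 0) (nat_lit 14063893924) (nat_lit 168) (nat_lit 17147311262) (nat_lit 252) (nat_lit 14522425093) (nat_lit 48) (nat_lit 5) (nat_lit 50) (nat_lit 5) (nat_lit 51) (nat_lit 5) (nat_lit 309) (nat_lit 263) (nat_lit 148)))) (XT.nd (nat_lit 188) (nat_lit 168) (nat_lit 0) (XT.nd (nat_lit 94) (nat_lit 168) (nat_lit 0) (XT.lf (nat_lit 0) (nat_lit 44618730174) (nat_lit 168) (nat_lit 410651009) (nat_lit 252) (nat_lit 2151420438) (nat_lit 48) (nat_lit 5) (nat_lit 50) (nat_lit 5) (nat_lit 51) (nat_lit 5) (nat_lit 310) (nat_lit 263) (nat_lit 147)) (XT.lf (nat_lit 0) (nat_lit 11212188803) (nat_lit 168) (nat_lit 20206296385) (nat_lit 84) (nat_lit 17237338542) (nat_lit 46) (nat_lit 5) (nat_lit 48) (nat_lit 5) (nat_lit 47) (nat_lit 5) (nat_lit 311) (nat_lit 263)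 (nat_lit 146))) (XT.nd (nat_lit 94) (nat_lit 0) (nat_lit 0) (XT.lf (nat_lit 0) (nat_lit 11203837516) (nat_lit 168) (nat_lit 14187833641) (nat_lit 252) (nat_lit 24800162601) (nat_lit 44) (nat_lit 5) (nat_lit 46) (nat_lit 5) (nat_lit 47) (nat_lit 5) (nat_lit 312) (nat_lit 263) (nat_lit 145)) (XT.lf (nat_lit 0) (nat_lit 40683183739) (nat_lit 252) (nat_lit 6978424491) (nat_lit 84) (nat_lit 4122883255) (nat_lit 44) (nat_lit 5) (nat_lit 47) (nat_lit 5) (nat_lit 45) (nat_lit 4) (nat_lit 313) (nat_lit 263) (nat_lit 144))))) (XT.nd (nat_lit 376) (nat_lit 588) (nat_lit 0) (XT.nd (nat_lit 188) (nat_lit 84) (nat_lit 0) (XT.nd (nat_lit 94) (nat_lit 168) (nat_lit 0) (XT.lf (nat_lit 0) (nat_lit 3840907927) (nat_lit 168) (nat_lit 26224334842) (nat_lit 84) (nat_lit 23355802972) (nat_lit 42) (nat_lit 5) (nat_lit 44) (nat_lit 5) (nat_lit 43) (nat_lit 5) (nat_lit 314) (nat_lit 263) (nat_lit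 143)) (XT.lf (nat_lit 0) (nat_lit 8259956565) (nat_lit 168) (nat_lit 11140860467) (nat_lit 252) (nat_lit 35717328278) (nat_lit 40) (nat_lit 5) (nat_lit 42) (nat_lit 5) (nat_lit 43) (nat_lit 5) (nat_lit 315) (nat_lit 263) (nat_lit 142))) (XT.nd (nat_lit 94) (nat_lit 84) (nat_lit 0) (XT.lf (nat_lit 0) (nat_lit 36321036346) (nat_lit 252) (nat_lit 11652443786) (nat_lit 84) (nat_lit 8897503987) (nat_lit 40) (nat_lit 5) (nat_lit 43) (nat_lit 5) (nat_lit 41) (nat_lit 4) (nat_lit 316) (nat_lit 263) (nat_lit 141)) (XT.lf (nat_lit 0) (nat_lit 25952167712) (nat_lit 84) (nat_lit 28717794938) (nat_lit 168) (nat_lit 4012367416) (nat_lit 39) (nat_lit 5) (nat_lit 40) (nat_lit 5) (nat_lit 41) (nat_lit 4) (nat_lit 317) (nat_lit 263) (nat_lit 140)))) (XT.nd (nat_lit 188) (nat_lit 336) (nat_lit 0) (XT.nd (nat_lit 94) (nat_lit 0) (nat_lit 0) (XT.lf (nat_lit 0) (nat_lit 5212894324) (nat_lit 168)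 (nat_lit 7988700051) (nat_lit 252) (nat_lit 47358383119) (nat_lit 36) (nat_lit 5) (nat_lit 38) (nat_lit 5) (nat_lit 39) (nat_lit 5) (nat_lit 318) (nat_lit 263) (nat_lit 139)) (XT.lf (nat_lit 0) (nat_lit 31914817481) (nat_lit 252) (nat_lit 16613793719) (nat_lit 84) (nat_lit 13960937016) (nat_lit 36) (nat_lit 5) (nat_lit 39) (nat_lit 5) (nat_lit 37) (nat_lit 4) (nat_lit 319) (nat_lit 263) (nat_lit 138))) (XT.nd (nat_lit 94) (nat_lit 252) (nat_lit 0) (XT.lf (nat_lit 0) (nat_lit 24706961650) (nat_lit 84) (nat_lit 27368610924) (nat_lit 168) (nat_lit 12414431357) (nat_lit 35) (nat_lit 5) (nat_lit 36) (nat_lit 5) (nat_lit 37) (nat_lit 4) (nat_lit 320) (nat_lit 263) (nat_lit 137)) (XT.nd (nat_lit 94) (nat_lit 0) (nat_lit 0) (XT.lf (nat_lit 0) (nat_lit 2041963819) (nat_lit 168) (nat_lit 4711986971) (nat_lit 252) (nat_lit 59815685674) (nat_lit 32) (nat_lit 5) (nat_lit 34) (nat_lit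 5) (nat_lit 35) (nat_lit 5) (nat_lit 321) (nat_lit 263) (nat_lit 136)) (XT.lf (nat_lit 0) (nat_lit 27441392420) (nat_lit 252) (nat_lit 21901632326) (nat_lit 84) (nat_lit 19351157779) (nat_lit 32) (nat_lit 5) (nat_lit 35) (nat_lit 5) (nat_lit 33) (nat_lit 4) (nat_lit 322) (nat_lit 263) (nat_lit 135))))))) (XT.nd (nat_lit 752) (nat_lit 756) (nat_lit 0) (XT.nd (nat_lit 376) (nat_lit 252) (nat_lit 0) (XT.nd (nat_lit 188) (nat_lit 252) (nat_lit 0) (XT.nd (nat_lit 94) (nat_lit 84) (nat_lit 0) (XT.lf (nat_lit 0) (nat_lit 23522715681) (nat_lit 84) (nat_lit 26080423899) (nat_lit 168) (nat_lit 21299819637) (nat_lit 31) (nat_lit 5) (nat_lit 32) (nat_lit 5) (nat_lit 33) (nat_lit 4) (nat_lit 323) (nat_lit 263) (nat_lit 134)) (XT.lf (nat_lit 0) (nat_lit 34415088) (nat_lit 168) (nat_lit 1234235287) (nat_lit 84) (nat_lit 71935175013) (nat_lit 30) (nat_lit 5) (nat_lit 32) (nat_lit 5) (nat_lit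 31) (nat_lit 5) (nat_lit 324) (nat_lit 263) (nat_lit 133))) (XT.nd (nat_lit 94) (nat_lit 84) (nat_lit 0) (XT.lf (nat_lit 0) (nat_lit 22876039655) (nat_lit 252) (nat_lit 27558567108) (nat_lit 84) (nat_lit 25109844650) (nat_lit 28) (nat_lit 5) (nat_lit 31) (nat_lit 5) (nat_lit 29) (nat_lit 4) (nat_lit 325) (nat_lit 263) (nat_lit 132)) (XT.lf (nat_lit 0) (nat_lit 22396231821) (nat_lit 84) (nat_lit 24850905438) (nat_lit 168) (nat_lit 30735601889) (nat_lit 27) (nat_lit 5) (nat_lit 28) (nat_lit 5) (nat_lit 29) (nat_lit 4) (nat_lit 326) (nat_lit 263) (nat_lit 131)))) (XT.nd (nat_lit 188) (nat_lit 84) (nat_lit 0) (XT.nd (nat_lit 94) (nat_lit 168) (nat_lit 0) (XT.lf (nat_lit 0) (nat_lit 73338271061) (nat_lit 168) (nat_lit 4761389209) (nat_lit 0) (nat_lit 2418206935) (nat_lit 27) (nat_lit 5) (nat_lit 29) (nat_lit 4) (nat_lit 27) (nat_lit 4) (nat_lit 327) (nat_lit 263) (nat_lit 130))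 (XT.lf (nat_lit 0) (nat_lit 18192268980) (nat_lit 168) (nat_lit 33631053550) (nat_lit 84) (nat_lit 31282730442) (nat_lit 25) (nat_lit 5) (nat_lit 27) (nat_lit 5) (nat_lit 26) (nat_lit 4) (nat_lit 328) (nat_lit 263) (nat_lit 129))) (XT.nd (nat_lit 94) (nat_lit 0) (nat_lit 0) (XT.lf (nat_lit 0) (nat_lit 21324516694) (nat_lit 84) (nat_lit 23677735836) (nat_lit 168) (nat_lit 40794970248) (nat_lit 24) (nat_lit 5) (nat_lit 25) (nat_lit 5) (nat_lit 26) (nat_lit 4) (nat_lit 329) (nat_lit 263) (nat_lit 128)) (XT.lf (nat_lit 0) (nat_lit 73819285859) (nat_lit 168) (nat_lit 8507969810) (nat_lit 0) (nat_lit 6262367876) (nat_lit 24) (nat_lit 5) (nat_lit 26) (nat_lit 4) (nat_lit 24) (nat_lit 4) (nat_lit 330) (nat_lit 263) (nat_lit 127))))) (XT.nd (nat_lit 376) (nat_lit 336) (nat_lit 0) (XT.nd (nat_lit 188) (nat_lit 168) (nat_lit 0) (XT.nd (nat_lit 94) (nat_lit 84) (nat_lit 0) (XT.lf (nat_lit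 0) (nat_lit 13361618637) (nat_lit 168) (nat_lit 40169829153) (nat_lit 84) (nat_lit 37919997842) (nat_lit 22) (nat_lit 5) (nat_lit 24) (nat_lit 5) (nat_lit 23) (nat_lit 4) (nat_lit 331) (nat_lit 263) (nat_lit 126)) (XT.lf (nat_lit 0) (nat_lit 20304762514) (nat_lit 84) (nat_lit 22558621804) (nat_lit 168) (nat_lit 51557888085) (nat_lit 21) (nat_lit 5) (nat_lit 22) (nat_lit 5) (nat_lit 23) (nat_lit 4) (nat_lit 332) (nat_lit 263) (nat_lit 125))) (XT.nd (nat_lit 94) (nat_lit 168) (nat_lit 0) (XT.lf (nat_lit 0) (nat_lit 74683375521) (nat_lit 168) (nat_lit 12482122141) (nat_lit 0) (nat_lit 10331935988) (nat_lit 21) (nat_lit 5) (nat_lit 23) (nat_lit 4) (nat_lit 21) (nat_lit 4) (nat_lit 333) (nat_lit 263) (nat_lit 124)) (XT.lf (nat_lit 0) (nat_lit 8353430063) (nat_lit 168) (nat_lit 47230387421) (nat_lit 84) (nat_lit 45076721750) (nat_lit 19) (nat_lit 5) (nat_lit 21) (nat_lit 5) (nat_lit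 20) (nat_lit 4) (nat_lit 334) (nat_lit 263) (nat_lit 123)))) (XT.nd (nat_lit 188) (nat_lit 252) (nat_lit 0) (XT.nd (nat_lit 94) (nat_lit 0) (nat_lit 0) (XT.lf (nat_lit 0) (nat_lit 19334330614) (nat_lit 84) (nat_lit 21491310114) (nat_lit 168) (nat_lit 63111806820) (nat_lit 18) (nat_lit 5) (nat_lit 19) (nat_lit 5) (nat_lit 20) (nat_lit 4) (nat_lit 335) (nat_lit 263) (nat_lit 122)) (XT.lf (nat_lit 0) (nat_lit 75954139073) (nat_lit 168) (nat_lit 16714850139) (nat_lit 0) (nat_lit 14657578209) (nat_lit 18) (nat_lit 5) (nat_lit 20) (nat_lit 4) (nat_lit 18) (nat_lit 4) (nat_lit 336) (nat_lit 263) (nat_lit 121))) (XT.nd (nat_lit 94) (nat_lit 84) (nat_lit 0) (XT.lf (nat_lit 0) (nat_lit 3134598476) (nat_lit 168) (nat_lit 54873496596) (nat_lit 84) (nat_lit 52813362057) (nat_lit 16) (nat_lit 5) (nat_lit 18) (nat_lit 5) (nat_lit 17) (nat_lit 4) (nat_lit 337) (nat_lit 263) (nat_lit 120))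 (XT.nd (nat_lit 94) (nat_lit 0) (nat_lit 0) (XT.lf (nat_lit 0) (nat_lit 18410737115) (nat_lit 84) (nat_lit 20473597949) (nat_lit 168) (nat_lit 75552457265) (nat_lit 15) (nat_lit 5) (nat_lit 16) (nat_lit 5) (nat_lit 17) (nat_lit 4) (nat_lit 338) (nat_lit 263) (nat_lit 119)) (XT.lf (nat_lit 0) (nat_lit 77658300077) (nat_lit 168) (nat_lit 21239929663) (nat_lit 0) (nat_lit 19272827469) (nat_lit 15) (nat_lit 5) (nat_lit 17) (nat_lit 4) (nat_lit 15) (nat_lit 4) (nat_lit 339) (nat_lit 263) (nat_lit 118))))))))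
noncomputable def xc151 : XT := (XT.nd (nat_lit 38164) (nat_lit 0) (nat_lit 8904) (XT.nd (nat_lit 752) (nat_lit 504) (nat_lit 0) (XT.nd (nat_lit 376) (nat_lit 420) (nat_lit 0) (XT.nd (nat_lit 188) (nat_lit 84) (nat_lit 0) (XT.nd (nat_lit 94) (nat_lit 168) (nat_lit 0) (XT.lf (nat_lit 0) (nat_lit 58826136703) (nat_lit 84) (nat_lit 60795593974) (nat_lit 84) (nat_lit 2407766290) (nat_lit 14) (nat_lit 4) (nat_lit 15) (nat_lit 5) (nat_lit 15) (nat_lit 4) (nat_lit 340) (nat_lit 263) (nat_lit 117)) (XT.lf (nat_lit 0) (nat_lit 17531640388) (nat_lit 84) (nat_lit 19503340587) (nat_lit 168) (nat_lit 88984722693) (nat_lit 12) (nat_lit 5) (nat_lit 13) (nat_lit 5) (nat_lit 14) (nat_lit 4) (nat_lit 341) (nat_lit 263) (nat_lit 116))) (XT.nd (nat_lit 94) (nat_lit 84) (nat_lit 0) (XT.lf (nat_lit 0) (nat_lit 79826000452) (nat_lit 168) (nat_lit 26094219106) (nat_lit 0) (nat_lit 24214374989)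 (nat_lit 12) (nat_lit 5) (nat_lit 14) (nat_lit 4) (nat_lit 12) (nat_lit 4) (nat_lit 342) (nat_lit 263) (nat_lit 115)) (XT.lf (nat_lit 0) (nat_lit 62080312624) (nat_lit 84) (nat_lit 63962094267) (nat_lit 84) (nat_lit 8348531278) (nat_lit 11) (nat_lit 4) (nat_lit 12) (nat_lit 5) (nat_lit 12) (nat_lit 4) (nat_lit 343) (nat_lit 263) (nat_lit 114)))) (XT.nd (nat_lit 188) (nat_lit 252) (nat_lit 0) (XT.nd (nat_lit 94) (nat_lit 0) (nat_lit 0) (XT.lf (nat_lit 0) (nat_lit 16694830030) (nat_lit 84) (nat_lit 18578456936) (nat_lit 168) (nat_lit 103523601691) (nat_lit 9) (nat_lit 5) (nat_lit 10) (nat_lit 5) (nat_lit 11) (nat_lit 4) (nat_lit 344) (nat_lit 263) (nat_lit 113)) (XT.lf (nat_lit 0) (nat_lit 82491124402) (nat_lit 168) (nat_lit 31317999310) (nat_lit 0) (nat_lit 29522395215) (nat_lit 9) (nat_lit 5) (nat_lit 11) (nat_lit 4) (nat_lit 9) (nat_lit 4) (nat_lit 345) (nat_lit 263) (nat_lit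 112))) (XT.nd (nat_lit 94) (nat_lit 168) (nat_lit 0) (XT.lf (nat_lit 0) (nat_lit 65800787251) (nat_lit 84) (nat_lit 67597985355) (nat_lit 84) (nat_lit 14627662160) (nat_lit 8) (nat_lit 4) (nat_lit 9) (nat_lit 5) (nat_lit 9) (nat_lit 4) (nat_lit 346) (nat_lit 263) (nat_lit 111)) (XT.lf (nat_lit 0) (nat_lit 15898217120) (nat_lit 84) (nat_lit 17696933327) (nat_lit 168) (nat_lit 119295269705) (nat_lit 6) (nat_lit 5) (nat_lit 7) (nat_lit 5) (nat_lit 8) (nat_lit 4) (nat_lit 347) (nat_lit 263) (nat_lit 110))))) (XT.nd (nat_lit 376) (nat_lit 252) (nat_lit 0) (XT.nd (nat_lit 188) (nat_lit 168) (nat_lit 0) (XT.nd (nat_lit 94) (nat_lit 84) (nat_lit 0) (XT.lf (nat_lit 0) (nat_lit 85691655762) (nat_lit 168) (nat_lit 36955346151) (nat_lit 0) (nat_lit 35240906134) (nat_lit 6) (nat_lit 5) (nat_lit 8) (nat_lit 4) (nat_lit 6) (nat_lit 4) (nat_lit 348) (nat_lit 263) (nat_lit 109)) (XT.lf (nat_lit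 0) (nat_lit 70028932350) (nat_lit 84) (nat_lit 71744683761) (nat_lit 84) (nat_lit 21292622739) (nat_lit 5) (nat_lit 4) (nat_lit 6) (nat_lit 5) (nat_lit 6) (nat_lit 4) (nat_lit 349) (nat_lit 263) (nat_lit 108))) (XT.nd (nat_lit 94) (nat_lit 0) (nat_lit 0) (XT.lf (nat_lit 0) (nat_lit 15139825559) (nat_lit 84) (nat_lit 16856825918) (nat_lit 168) (nat_lit 136438249203) (nat_lit 3) (nat_lit 5) (nat_lit 4) (nat_lit 5) (nat_lit 5) (nat_lit 4) (nat_lit 350) (nat_lit 263) (nat_lit 107)) (XT.lf (nat_lit 0) (nat_lit 89470072363) (nat_lit 168) (nat_lit 43054539400) (nat_lit 0) (nat_lit 41418168132) (nat_lit 3) (nat_lit 5) (nat_lit 5) (nat_lit 4) (nat_lit 3) (nat_lit 4) (nat_lit 351) (nat_lit 263) (nat_lit 106)))) (XT.nd (nat_lit 188) (nat_lit 0) (nat_lit 0) (XT.nd (nat_lit 94) (nat_lit 168) (nat_lit 0) (XT.lf (nat_lit 0) (nat_lit 74810684383) (nat_lit 84) (nat_lit 76448134539) (nat_lit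 84) (nat_lit 28395151420) (nat_lit 2) (nat_lit 4) (nat_lit 3) (nat_lit 5) (nat_lit 3) (nat_lit 4) (nat_lit 352) (nat_lit 263) (nat_lit 105)) (XT.lf (nat_lit 0) (nat_lit 269550076031) (nat_lit 0) (nat_lit 0) (nat_lit 0) (nat_lit 0) (nat_lit 0) (nat_lit 0) (nat_lit 1) (nat_lit 0) (nat_lit 1) (nat_lit 0) (nat_lit 353) (nat_lit 263) (nat_lit 104))) (XT.nd (nat_lit 94) (nat_lit 0) (nat_lit 0) (XT.lf (nat_lit 0) (nat_lit 282862541034) (nat_lit 0) (nat_lit 0) (nat_lit 0) (nat_lit 0) (nat_lit 0) (nat_lit 0) (nat_lit 1) (nat_lit 0) (nat_lit 1) (nat_lit 0) (nat_lit 354) (nat_lit 263) (nat_lit 103)) (XT.nd (nat_lit 36660) (nat_lit 0) (nat_lit 10752) (XT.lf (nat_lit 0) (nat_lit 296840635840) (nat_lit 0) (nat_lit 0) (nat_lit 0) (nat_lit 0) (nat_lit 0) (nat_lit 0) (nat_lit 1) (nat_lit 0) (nat_lit 1) (nat_lit 0) (nat_lit 355) (nat_lit 263) (nat_lit 102)) (XT.lf (nat_lit 0) (nat_lit 485037796)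 (nat_lit 924) (nat_lit 3093703359) (nat_lit 924) (nat_lit 3093703359) (nat_lit 128) (nat_lit 3) (nat_lit 139) (nat_lit 3) (nat_lit 139) (nat_lit 5) (nat_lit 264) (nat_lit 264) (nat_lit 192))))))) (XT.nd (nat_lit 752) (nat_lit 1848) (nat_lit 0) (XT.nd (nat_lit 376) (nat_lit 0) (nat_lit 168) (XT.nd (nat_lit 188) (nat_lit 0) (nat_lit 84) (XT.nd (nat_lit 94) (nat_lit 0) (nat_lit 84) (XT.lf (nat_lit 84) (nat_lit 501075336) (nat_lit 0) (nat_lit 877512043) (nat_lit 924) (nat_lit 12280710883) (nat_lit 129) (nat_lit 5) (nat_lit 128) (nat_lit 3) (nat_lit 139) (nat_lit 5) (nat_lit 265) (nat_lit 264) (nat_lit 191)) (XT.lf (nat_lit 0) (nat_lit 1979153870) (nat_lit 840) (nat_lit 6350821484) (nat_lit 924) (nat_lit 5650871145) (nat_lit 129) (nat_lit 5) (nat_lit 139) (nat_lit 5) (nat_lit 140) (nat_lit 5) (nat_lit 266) (nat_lit 264) (nat_lit 190))) (XT.nd (nat_lit 94) (nat_lit 0) (nat_lit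 84) (XT.lf (nat_lit 84) (nat_lit 794213497) (nat_lit 0) (nat_lit 1819344017) (nat_lit 924) (nat_lit 11704724191) (nat_lit 130) (nat_lit 5) (nat_lit 129) (nat_lit 5) (nat_lit 140) (nat_lit 5) (nat_lit 267) (nat_lit 264) (nat_lit 189)) (XT.lf (nat_lit 0) (nat_lit 3445364851) (nat_lit 840) (nat_lit 6245101219) (nat_lit 924) (nat_lit 4973838428) (nat_lit 130) (nat_lit 5) (nat_lit 140) (nat_lit 5) (nat_lit 141) (nat_lit 5) (nat_lit 268) (nat_lit 264) (nat_lit 188)))) (XT.nd (nat_lit 188) (nat_lit 0) (nat_lit 84) (XT.nd (nat_lit 94) (nat_lit 0) (nat_lit 84) (XT.lf (nat_lit 84) (nat_lit 1398672314) (nat_lit 0) (nat_lit 2950837972) (nat_lit 924) (nat_lit 10676580757) (nat_lit 131) (nat_lit 5) (nat_lit 130) (nat_lit 5) (nat_lit 141) (nat_lit 5) (nat_lit 269) (nat_lit 264) (nat_lit 187)) (XT.lf (nat_lit 0) (nat_lit 5450738378) (nat_lit 840) (nat_lit 5840337478) (nat_lit 924) (nat_lit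 4107297290) (nat_lit 131) (nat_lit 5) (nat_lit 141) (nat_lit 5) (nat_lit 142) (nat_lit 5) (nat_lit 270) (nat_lit 264) (nat_lit 186))) (XT.nd (nat_lit 94) (nat_lit 0) (nat_lit 84) (XT.lf (nat_lit 84) (nat_lit 2348646806) (nat_lit 0) (nat_lit 4324341452) (nat_lit 924) (nat_lit 9112983077) (nat_lit 132) (nat_lit 5) (nat_lit 131) (nat_lit 5) (nat_lit 142) (nat_lit 5) (nat_lit 271) (nat_lit 264) (nat_lit 185)) (XT.lf (nat_lit 0) (nat_lit 8085249890) (nat_lit 840) (nat_lit 5101481637) (nat_lit 924) (nat_lit 2999772943) (nat_lit 132) (nat_lit 5) (nat_lit 142) (nat_lit 5) (nat_lit 143) (nat_lit 5) (nat_lit 272) (nat_lit 264) (nat_lit 184))))) (XT.nd (nat_lit 376) (nat_lit 1428) (nat_lit 0) (XT.nd (nat_lit 188) (nat_lit 756) (nat_lit 0) (XT.nd (nat_lit 94) (nat_lit 0) (nat_lit 84) (XT.lf (nat_lit 84) (nat_lit 3683878083) (nat_lit 0) (nat_lit 5995200822) (nat_lit 924) (nat_lit 6922437643)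 (nat_lit 133) (nat_lit 5) (nat_lit 132) (nat_lit 5) (nat_lit 143) (nat_lit 5) (nat_lit 273) (nat_lit 264) (nat_lit 183)) (XT.lf (nat_lit 0) (nat_lit 11447906539) (nat_lit 840) (nat_lit 3987996600) (nat_lit 84) (nat_lit 1596610732) (nat_lit 133) (nat_lit 5) (nat_lit 143) (nat_lit 5) (nat_lit 134) (nat_lit 5) (nat_lit 274) (nat_lit 264) (nat_lit 182))) (XT.nd (nat_lit 94) (nat_lit 0) (nat_lit 0) (XT.lf (nat_lit 0) (nat_lit 5450046129) (nat_lit 840) (nat_lit 8022504489) (nat_lit 924) (nat_lit 4004141688) (nat_lit 123) (nat_lit 5) (nat_lit 133) (nat_lit 5) (nat_lit 134) (nat_lit 5) (nat_lit 275) (nat_lit 264) (nat_lit 181)) (XT.lf (nat_lit 0) (nat_lit 15484440064) (nat_lit 840) (nat_lit 166071201) (nat_lit 924) (nat_lit 2289964180) (nat_lit 123) (nat_lit 5) (nat_lit 133) (nat_lit 5) (nat_lit 134) (nat_lit 5) (nat_lit 276) (nat_lit 264) (nat_lit 180)))) (XT.nd (nat_lit 188) (nat_lit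 840) (nat_lit 0) (XT.nd (nat_lit 94) (nat_lit 84) (nat_lit 0) (XT.lf (nat_lit 0) (nat_lit 7699232606) (nat_lit 504) (nat_lit 10469848264) (nat_lit 588) (nat_lit 246781325) (nat_lit 117) (nat_lit 5) (nat_lit 123) (nat_lit 5) (nat_lit 124) (nat_lit 5) (nat_lit 277) (nat_lit 264) (nat_lit 179)) (XT.lf (nat_lit 0) (nat_lit 1868346866) (nat_lit 588) (nat_lit 512798819) (nat_lit 84) (nat_lit 16530862906) (nat_lit 116) (nat_lit 5) (nat_lit 123) (nat_lit 5) (nat_lit 117) (nat_lit 5) (nat_lit 278) (nat_lit 264) (nat_lit 178))) (XT.nd (nat_lit 94) (nat_lit 420) (nat_lit 0) (XT.lf (nat_lit 0) (nat_lit 4329615427) (nat_lit 504) (nat_lit 9003193212) (nat_lit 84) (nat_lit 6087517515) (nat_lit 111) (nat_lit 5) (nat_lit 117) (nat_lit 5) (nat_lit 112) (nat_lit 5) (nat_lit 279) (nat_lit 264) (nat_lit 177)) (XT.nd (nat_lit 94) (nat_lit 0) (nat_lit 0) (XT.lf (nat_lit 0) (nat_lit 1967425321)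 (nat_lit 420) (nat_lit 5011785858) (nat_lit 504) (nat_lit 12971585229) (nat_lit 106) (nat_lit 5) (nat_lit 111) (nat_lit 5) (nat_lit 112) (nat_lit 5) (nat_lit 280) (nat_lit 264) (nat_lit 176)) (XT.lf (nat_lit 0) (nat_lit 9961508668) (nat_lit 504) (nat_lit 6776191170) (nat_lit 84) (nat_lit 3760079239) (nat_lit 106) (nat_lit 5) (nat_lit 112) (nat_lit 5) (nat_lit 107) (nat_lit 5) (nat_lit 281) (nat_lit 264) (nat_lit 175))))))))
noncomputable def xc152 : XT := (XT.nd (nat_lit 1504) (nat_lit 2016) (nat_lit 0) (XT.nd (nat_lit 752) (nat_lit 1512) (nat_lit 0) (XT.nd (nat_lit 376) (nat_lit 924) (nat_lit 0) (XT.nd (nat_lit 188) (nat_lit 420) (nat_lit 0) (XT.nd (nat_lit 94) (nat_lit 0) (nat_lit 0) (XT.lf (nat_lit 0) (nat_lit 5057232991) (nat_lit 336) (nat_lit 8184507724) (nat_lit 420) (nat_lit 7822929179) (nat_lit 102) (nat_lit 5) (nat_lit 106) (nat_lit 5) (nat_lit 107) (nat_lit 5)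 (nat_lit 282) (nat_lit 264) (nat_lit 174)) (XT.lf (nat_lit 0) (nat_lit 16803105884) (nat_lit 420) (nat_lit 3965064061) (nat_lit 84) (nat_lit 885879233) (nat_lit 102) (nat_lit 5) (nat_lit 107) (nat_lit 5) (nat_lit 103) (nat_lit 5) (nat_lit 283) (nat_lit 264) (nat_lit 173))) (XT.nd (nat_lit 94) (nat_lit 84) (nat_lit 0) (XT.lf (nat_lit 0) (nat_lit 8813863670) (nat_lit 336) (nat_lit 11989075107) (nat_lit 420) (nat_lit 1456938675) (nat_lit 98) (nat_lit 5) (nat_lit 102) (nat_lit 5) (nat_lit 103) (nat_lit 5) (nat_lit 284) (nat_lit 264) (nat_lit 172)) (XT.lf (nat_lit 0) (nat_lit 2096359369) (nat_lit 420) (nat_lit 570880965) (nat_lit 84) (nat_lit 20224261035) (nat_lit 97) (nat_lit 5) (nat_lit 102) (nat_lit 5) (nat_lit 98) (nat_lit 5) (nat_lit 285) (nat_lit 264) (nat_lit 171)))) (XT.nd (nat_lit 188) (nat_lit 252) (nat_lit 0) (XT.nd (nat_lit 94) (nat_lit 336) (nat_lit 0) (XT.lf (nat_lit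 0) (nat_lit 6090853433) (nat_lit 420) (nat_lit 10320547700) (nat_lit 84) (nat_lit 7126486448) (nat_lit 93) (nat_lit 5) (nat_lit 98) (nat_lit 5) (nat_lit 94) (nat_lit 5) (nat_lit 286) (nat_lit 264) (nat_lit 170)) (XT.lf (nat_lit 0) (nat_lit 3555324333) (nat_lit 336) (nat_lit 6828386914) (nat_lit 420) (nat_lit 13827949904) (nat_lit 89) (nat_lit 5) (nat_lit 93) (nat_lit 5) (nat_lit 94) (nat_lit 5) (nat_lit 287) (nat_lit 264) (nat_lit 169))) (XT.nd (nat_lit 94) (nat_lit 252) (nat_lit 0) (XT.lf (nat_lit 0) (nat_lit 15109174474) (nat_lit 420) (nat_lit 6493954895) (nat_lit 84) (nat_lit 3305095903) (nat_lit 89) (nat_lit 5) (nat_lit 94) (nat_lit 5) (nat_lit 90) (nat_lit 5) (nat_lit 288) (nat_lit 264) (nat_lit 168)) (XT.lf (nat_lit 0) (nat_lit 8524575375) (nat_lit 252) (nat_lit 11781678684) (nat_lit 336) (nat_lit 5321596382) (nat_lit 86) (nat_lit 5) (nat_lit 89) (nat_lit 5) (nat_lit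 90) (nat_lit 5) (nat_lit 289) (nat_lit 264) (nat_lit 167))))) (XT.nd (nat_lit 376) (nat_lit 840) (nat_lit 0) (XT.nd (nat_lit 188) (nat_lit 252) (nat_lit 0) (XT.nd (nat_lit 94) (nat_lit 420) (nat_lit 0) (XT.lf (nat_lit 0) (nat_lit 24506825556) (nat_lit 252) (nat_lit 1356913996) (nat_lit 336) (nat_lit 514689720) (nat_lit 86) (nat_lit 5) (nat_lit 89) (nat_lit 5) (nat_lit 90) (nat_lit 5) (nat_lit 290) (nat_lit 264) (nat_lit 166)) (XT.lf (nat_lit 0) (nat_lit 4759329205) (nat_lit 420) (nat_lit 12803966222) (nat_lit 84) (nat_lit 9581111454) (nat_lit 81) (nat_lit 5) (nat_lit 86) (nat_lit 5) (nat_lit 82) (nat_lit 5) (nat_lit 291) (nat_lit 264) (nat_lit 165))) (XT.nd (nat_lit 94) (nat_lit 0) (nat_lit 0) (XT.lf (nat_lit 0) (nat_lit 3550860427) (nat_lit 252) (nat_lit 6829859964) (nat_lit 336) (nat_lit 17562492691) (nat_lit 78) (nat_lit 5) (nat_lit 81) (nat_lit 5) (nat_lit 82) (nat_lit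 5) (nat_lit 292) (nat_lit 264) (nat_lit 164)) (XT.lf (nat_lit 0) (nat_lit 16564146163) (nat_lit 336) (nat_lit 7688773421) (nat_lit 84) (nat_lit 4514991758) (nat_lit 78) (nat_lit 5) (nat_lit 82) (nat_lit 5) (nat_lit 79) (nat_lit 5) (nat_lit 293) (nat_lit 264) (nat_lit 163)))) (XT.nd (nat_lit 188) (nat_lit 504) (nat_lit 0) (XT.nd (nat_lit 94) (nat_lit 84) (nat_lit 0) (XT.lf (nat_lit 0) (nat_lit 10047478468) (nat_lit 252) (nat_lit 13269760094) (nat_lit 336) (nat_lit 6303581186) (nat_lit 75) (nat_lit 5) (nat_lit 78) (nat_lit 5) (nat_lit 79) (nat_lit 5) (nat_lit 294) (nat_lit 264) (nat_lit 162)) (XT.lf (nat_lit 0) (nat_lit 19167578) (nat_lit 336) (nat_lit 1585026579) (nat_lit 84) (nat_lit 28906059704) (nat_lit 74) (nat_lit 5) (nat_lit 78) (nat_lit 5) (nat_lit 75) (nat_lit 5) (nat_lit 295) (nat_lit 264) (nat_lit 161))) (XT.nd (nat_lit 94) (nat_lit 252) (nat_lit 0) (XT.lf (nat_lit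 0) (nat_lit 6887938878) (nat_lit 336) (nat_lit 13841847113) (nat_lit 84) (nat_lit 10687120482) (nat_lit 71) (nat_lit 5) (nat_lit 75) (nat_lit 5) (nat_lit 72) (nat_lit 5) (nat_lit 296) (nat_lit 264) (nat_lit 160)) (XT.lf (nat_lit 0) (nat_lit 5518767796) (nat_lit 252) (nat_lit 8713395467) (nat_lit 336) (nat_lit 18130127726) (nat_lit 68) (nat_lit 5) (nat_lit 71) (nat_lit 5) (nat_lit 72) (nat_lit 5) (nat_lit 297) (nat_lit 264) (nat_lit 159)))))) (XT.nd (nat_lit 752) (nat_lit 924) (nat_lit 0) (XT.nd (nat_lit 376) (nat_lit 588) (nat_lit 0) (XT.nd (nat_lit 188) (nat_lit 336) (nat_lit 0) (XT.nd (nat_lit 94) (nat_lit 168) (nat_lit 0) (XT.lf (nat_lit 0) (nat_lit 22235203904) (nat_lit 336) (nat_lit 7091927269) (nat_lit 84) (nat_lit 4013233307) (nat_lit 68) (nat_lit 5) (nat_lit 72) (nat_lit 5) (nat_lit 69) (nat_lit 5) (nat_lit 298) (nat_lit 264) (nat_lit 158)) (XT.lf (nat_lit 0) (nat_lit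 13939232023) (nat_lit 168) (nat_lit 17052394003) (nat_lit 252) (nat_lit 3358054145) (nat_lit 66) (nat_lit 5) (nat_lit 68) (nat_lit 5) (nat_lit 69) (nat_lit 5) (nat_lit 299) (nat_lit 264) (nat_lit 157))) (XT.nd (nat_lit 94) (nat_lit 0) (nat_lit 0) (XT.lf (nat_lit 0) (nat_lit 802479382) (nat_lit 252) (nat_lit 3948468046) (nat_lit 336) (nat_lit 30648414831) (nat_lit 62) (nat_lit 5) (nat_lit 65) (nat_lit 5) (nat_lit 66) (nat_lit 5) (nat_lit 300) (nat_lit 264) (nat_lit 156)) (XT.lf (nat_lit 0) (nat_lit 13649959785) (nat_lit 336) (nat_lit 12924949972) (nat_lit 84) (nat_lit 9898995523) (nat_lit 62) (nat_lit 5) (nat_lit 66) (nat_lit 5) (nat_lit 63) (nat_lit 5) (nat_lit 301) (nat_lit 264) (nat_lit 155)))) (XT.nd (nat_lit 188) (nat_lit 420) (nat_lit 0) (XT.nd (nat_lit 94) (nat_lit 0) (nat_lit 0) (XT.lf (nat_lit 0) (nat_lit 10077464703) (nat_lit 168) (nat_lit 13131776076) (nat_lit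 252) (nat_lit 14382168771) (nat_lit 60) (nat_lit 5) (nat_lit 62) (nat_lit 5) (nat_lit 63) (nat_lit 5) (nat_lit 302) (nat_lit 264) (nat_lit 154)) (XT.lf (nat_lit 0) (nat_lit 33477660056) (nat_lit 252) (nat_lit 4105079403) (nat_lit 84) (nat_lit 1170490863) (nat_lit 60) (nat_lit 5) (nat_lit 63) (nat_lit 5) (nat_lit 61) (nat_lit 5) (nat_lit 303) (nat_lit 264) (nat_lit 153))) (XT.nd (nat_lit 94) (nat_lit 168) (nat_lit 0) (XT.lf (nat_lit 0) (nat_lit 4693467383) (nat_lit 252) (nat_lit 19104098996) (nat_lit 84) (nat_lit 16145014679) (nat_lit 57) (nat_lit 5) (nat_lit 60) (nat_lit 5) (nat_lit 58) (nat_lit 5) (nat_lit 304) (nat_lit 264) (nat_lit 152)) (XT.lf (nat_lit 0) (nat_lit 6080268637) (nat_lit 168) (nat_lit 9062682265) (nat_lit 252) (nat_lit 26036159803) (nat_lit 55) (nat_lit 5) (nat_lit 57) (nat_lit 5) (nat_lit 58) (nat_lit 5) (nat_lit 305) (nat_lit 264) (nat_lit 151))))) (XT.nd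 (nat_lit 376) (nat_lit 504) (nat_lit 0) (XT.nd (nat_lit 188) (nat_lit 252) (nat_lit 0) (XT.nd (nat_lit 94) (nat_lit 168) (nat_lit 0) (XT.lf (nat_lit 0) (nat_lit 26537580652) (nat_lit 252) (nat_lit 9390153443) (nat_lit 84) (nat_lit 6528599138) (nat_lit 55) (nat_lit 5) (nat_lit 58) (nat_lit 5) (nat_lit 56) (nat_lit 5) (nat_lit 306) (nat_lit 264) (nat_lit 150)) (XT.lf (nat_lit 0) (nat_lit 18022122671) (nat_lit 168) (nat_lit 20903829712) (nat_lit 252) (nat_lit 4850263978) (nat_lit 53) (nat_lit 5) (nat_lit 55) (nat_lit 5) (nat_lit 56) (nat_lit 5) (nat_lit 307) (nat_lit 264) (nat_lit 149))) (XT.nd (nat_lit 94) (nat_lit 0) (nat_lit 0) (XT.lf (nat_lit 0) (nat_lit 1919860200) (nat_lit 168) (nat_lit 4820760324) (nat_lit 252) (nat_lit 38406901574) (nat_lit 50) (nat_lit 5) (nat_lit 52) (nat_lit 5) (nat_lit 53) (nat_lit 5) (nat_lit 308) (nat_lit 264) (nat_lit 148)) (XT.lf (nat_lit 0)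 (nat_lit 19373906353) (nat_lit 252) (nat_lit 14979194484) (nat_lit 84) (nat_lit 12199023770) (nat_lit 50) (nat_lit 5) (nat_lit 53) (nat_lit 5) (nat_lit 51) (nat_lit 5) (nat_lit 309) (nat_lit 264) (nat_lit 147)))) (XT.nd (nat_lit 188) (nat_lit 336) (nat_lit 0) (XT.nd (nat_lit 94) (nat_lit 0) (nat_lit 0) (XT.lf (nat_lit 0) (nat_lit 15075470873) (nat_lit 168) (nat_lit 17872221293) (nat_lit 252) (nat_lit 15063823292) (nat_lit 48) (nat_lit 5) (nat_lit 50) (nat_lit 5) (nat_lit 51) (nat_lit 5) (nat_lit 310) (nat_lit 264) (nat_lit 146)) (XT.lf (nat_lit 0) (nat_lit 47143364066) (nat_lit 168) (nat_lit 305035433) (nat_lit 252) (nat_lit 2083064740) (nat_lit 48) (nat_lit 5) (nat_lit 50) (nat_lit 5) (nat_lit 51) (nat_lit 5) (nat_lit 311) (nat_lit 264) (nat_lit 145))) (XT.nd (nat_lit 94) (nat_lit 168) (nat_lit 0) (XT.lf (nat_lit 0) (nat_lit 11941576851) (nat_lit 168) (nat_lit 20915765709)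 (nat_lit 84) (nat_lit 18222833425) (nat_lit 46) (nat_lit 5) (nat_lit 48) (nat_lit 5) (nat_lit 47) (nat_lit 5) (nat_lit 312) (nat_lit 264) (nat_lit 144)) (XT.nd (nat_lit 94) (nat_lit 0) (nat_lit 0) (XT.lf (nat_lit 0) (nat_lit 12060022540) (nat_lit 168) (nat_lit 14766594989) (nat_lit 252) (nat_lit 25866539777) (nat_lit 44) (nat_lit 5) (nat_lit 46) (nat_lit 5) (nat_lit 47) (nat_lit 5) (nat_lit 313) (nat_lit 264) (nat_lit 143)) (XT.lf (nat_lit 0) (nat_lit 42876773707) (nat_lit 252) (nat_lit 7039515446) (nat_lit 84) (nat_lit 4449455368) (nat_lit 44) (nat_lit 5) (nat_lit 47) (nat_lit 5) (nat_lit 45) (nat_lit 4) (nat_lit 314) (nat_lit 264) (nat_lit 142))))))))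
noncomputable def xc153 : XT := (XT.nd (nat_lit 1598) (nat_lit 1512) (nat_lit 0) (XT.nd (nat_lit 752) (nat_lit 672) (nat_lit 0) (XT.nd (nat_lit 376) (nat_lit 588) (nat_lit 0) (XT.nd (nat_lit 188) (nat_lit 84) (nat_lit 0) (XT.nd (nat_lit 94) (nat_lit 168) (nat_lit 0) (XT.lf (nat_lit 0) (nat_lit 4191775161) (nat_lit 168) (nat_lit 27247112371) (nat_lit 84) (nat_lit 24645269405) (nat_lit 42) (nat_lit 5) (nat_lit 44) (nat_lit 5) (nat_lit 43) (nat_lit 5) (nat_lit 315) (nat_lit 264) (nat_lit 141)) (XT.lf (nat_lit 0) (nat_lit 8956741361) (nat_lit 168) (nat_lit 11569806125) (nat_lit 252) (nat_lit 37339720609) (nat_lit 40) (nat_lit 5) (nat_lit 42) (nat_lit 5) (nat_lit 43) (nat_lit 5) (nat_lit 316) (nat_lit 264) (nat_lit 140))) (XT.nd (nat_lit 94) (nat_lit 84) (nat_lit 0) (XT.lf (nat_lit 0) (nat_lit 38287268698) (nat_lit 252) (nat_lit 11959283605) (nat_lit 84) (nat_lit 9460471995)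 (nat_lit 40) (nat_lit 5) (nat_lit 43) (nat_lit 5) (nat_lit 41) (nat_lit 4) (nat_lit 317) (nat_lit 264) (nat_lit 139)) (XT.lf (nat_lit 0) (nat_lit 27521110366) (nat_lit 84) (nat_lit 30029615786) (nat_lit 168) (nat_lit 4058357149) (nat_lit 39) (nat_lit 5) (nat_lit 40) (nat_lit 5) (nat_lit 41) (nat_lit 4) (nat_lit 318) (nat_lit 264) (nat_lit 138)))) (XT.nd (nat_lit 188) (nat_lit 336) (nat_lit 0) (XT.nd (nat_lit 94) (nat_lit 0) (nat_lit 0) (XT.lf (nat_lit 0) (nat_lit 5745366208) (nat_lit 168) (nat_lit 8263103828) (nat_lit 252) (nat_lit 49572166537) (nat_lit 36) (nat_lit 5) (nat_lit 38) (nat_lit 5) (nat_lit 39) (nat_lit 5) (nat_lit 319) (nat_lit 264) (nat_lit 137)) (XT.lf (nat_lit 0) (nat_lit 33652223145) (nat_lit 252) (nat_lit 17180469237) (nat_lit 84) (nat_lit 14774250006) (nat_lit 36) (nat_lit 5) (nat_lit 39) (nat_lit 5) (nat_lit 37) (nat_lit 4) (nat_lit 320) (nat_lit 264)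 (nat_lit 136))) (XT.nd (nat_lit 94) (nat_lit 252) (nat_lit 0) (XT.lf (nat_lit 0) (nat_lit 26202065607) (nat_lit 84) (nat_lit 28616259960) (nat_lit 168) (nat_lit 12889229842) (nat_lit 35) (nat_lit 5) (nat_lit 36) (nat_lit 5) (nat_lit 37) (nat_lit 4) (nat_lit 321) (nat_lit 264) (nat_lit 135)) (XT.lf (nat_lit 0) (nat_lit 2404223393) (nat_lit 168) (nat_lit 4826013101) (nat_lit 252) (nat_lit 62660952384) (nat_lit 32) (nat_lit 5) (nat_lit 34) (nat_lit 5) (nat_lit 35) (nat_lit 5) (nat_lit 322) (nat_lit 264) (nat_lit 134))))) (XT.nd (nat_lit 376) (nat_lit 336) (nat_lit 0) (XT.nd (nat_lit 188) (nat_lit 252) (nat_lit 0) (XT.nd (nat_lit 94) (nat_lit 84) (nat_lit 0) (XT.lf (nat_lit 0) (nat_lit 28947258483) (nat_lit 252) (nat_lit 22744149473) (nat_lit 84) (nat_lit 20430793874) (nat_lit 32) (nat_lit 5) (nat_lit 35) (nat_lit 5) (nat_lit 33) (nat_lit 4) (nat_lit 323) (nat_lit 264) (nat_lit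 133)) (XT.lf (nat_lit 0) (nat_lit 24947342315) (nat_lit 84) (nat_lit 27267259066) (nat_lit 168) (nat_lit 22226940557) (nat_lit 31) (nat_lit 5) (nat_lit 32) (nat_lit 5) (nat_lit 33) (nat_lit 4) (nat_lit 324) (nat_lit 264) (nat_lit 132))) (XT.nd (nat_lit 94) (nat_lit 168) (nat_lit 0) (XT.lf (nat_lit 0) (nat_lit 163238089) (nat_lit 168) (nat_lit 1055086526) (nat_lit 84) (nat_lit 75639336931) (nat_lit 30) (nat_lit 5) (nat_lit 32) (nat_lit 5) (nat_lit 31) (nat_lit 5) (nat_lit 325) (nat_lit 264) (nat_lit 131)) (XT.lf (nat_lit 0) (nat_lit 24146343415) (nat_lit 252) (nat_lit 28695034467) (nat_lit 84) (nat_lit 26473971013) (nat_lit 28) (nat_lit 5) (nat_lit 31) (nat_lit 5) (nat_lit 29) (nat_lit 4) (nat_lit 326) (nat_lit 264) (nat_lit 130)))) (XT.nd (nat_lit 188) (nat_lit 252) (nat_lit 0) (XT.nd (nat_lit 94) (nat_lit 0) (nat_lit 0) (XT.lf (nat_lit 0) (nat_lit 23753609876) (nat_lit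 84) (nat_lit 25980071207) (nat_lit 168) (nat_lit 32141985675) (nat_lit 27) (nat_lit 5) (nat_lit 28) (nat_lit 5) (nat_lit 29) (nat_lit 4) (nat_lit 327) (nat_lit 264) (nat_lit 129)) (XT.lf (nat_lit 0) (nat_lit 77125143788) (nat_lit 168) (nat_lit 4768977107) (nat_lit 0) (nat_lit 2643641711) (nat_lit 27) (nat_lit 5) (nat_lit 29) (nat_lit 4) (nat_lit 27) (nat_lit 4) (nat_lit 328) (nat_lit 264) (nat_lit 128))) (XT.nd (nat_lit 94) (nat_lit 84) (nat_lit 0) (XT.lf (nat_lit 0) (nat_lit 19221600624) (nat_lit 168) (nat_lit 35081883686) (nat_lit 84) (nat_lit 32951885401) (nat_lit 25) (nat_lit 5) (nat_lit 27) (nat_lit 5) (nat_lit 26) (nat_lit 4) (nat_lit 329) (nat_lit 264) (nat_lit 127)) (XT.nd (nat_lit 94) (nat_lit 0) (nat_lit 0) (XT.lf (nat_lit 0) (nat_lit 22617743739) (nat_lit 84) (nat_lit 24752182870) (nat_lit 168) (nat_lit 42711279235) (nat_lit 24) (nat_lit 5) (nat_lit 25) (nat_lit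 5) (nat_lit 26) (nat_lit 4) (nat_lit 330) (nat_lit 264) (nat_lit 126)) (XT.lf (nat_lit 0) (nat_lit 77623840738) (nat_lit 168) (nat_lit 8713205803) (nat_lit 0) (nat_lit 6676378652) (nat_lit 24) (nat_lit 5) (nat_lit 26) (nat_lit 4) (nat_lit 24) (nat_lit 4) (nat_lit 331) (nat_lit 264) (nat_lit 125))))))) (XT.nd (nat_lit 752) (nat_lit 756) (nat_lit 0) (XT.nd (nat_lit 376) (nat_lit 336) (nat_lit 0) (XT.nd (nat_lit 188) (nat_lit 168) (nat_lit 0) (XT.nd (nat_lit 94) (nat_lit 84) (nat_lit 0) (XT.lf (nat_lit 0) (nat_lit 14143091900) (nat_lit 168) (nat_lit 41957959859) (nat_lit 84) (nat_lit 39917296538) (nat_lit 22) (nat_lit 5) (nat_lit 24) (nat_lit 5) (nat_lit 23) (nat_lit 4) (nat_lit 332) (nat_lit 264) (nat_lit 124)) (XT.lf (nat_lit 0) (nat_lit 21536807186) (nat_lit 84) (nat_lit 23581124002) (nat_lit 168) (nat_lit 54018835953) (nat_lit 21) (nat_lit 5) (nat_lit 22) (nat_lit 5) (nat_lit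 23) (nat_lit 4) (nat_lit 333) (nat_lit 264) (nat_lit 123))) (XT.nd (nat_lit 94) (nat_lit 168) (nat_lit 0) (XT.lf (nat_lit 0) (nat_lit 78525185911) (nat_lit 168) (nat_lit 12896009783) (nat_lit 0) (nat_lit 10945727558) (nat_lit 21) (nat_lit 5) (nat_lit 23) (nat_lit 4) (nat_lit 21) (nat_lit 4) (nat_lit 334) (nat_lit 264) (nat_lit 122)) (XT.lf (nat_lit 0) (nat_lit 8878580075) (nat_lit 168) (nat_lit 49381525223) (nat_lit 84) (nat_lit 47428086972) (nat_lit 19) (nat_lit 5) (nat_lit 21) (nat_lit 5) (nat_lit 20) (nat_lit 4) (nat_lit 335) (nat_lit 264) (nat_lit 121)))) (XT.nd (nat_lit 188) (nat_lit 252) (nat_lit 0) (XT.nd (nat_lit 94) (nat_lit 0) (nat_lit 0) (XT.lf (nat_lit 0) (nat_lit 20508035463) (nat_lit 84) (nat_lit 22464479454) (nat_lit 168) (nat_lit 66156525401) (nat_lit 18) (nat_lit 5) (nat_lit 19) (nat_lit 5) (nat_lit 20) (nat_lit 4) (nat_lit 336) (nat_lit 264) (nat_lit 120))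 (XT.lf (nat_lit 0) (nat_lit 79853917675) (nat_lit 168) (nat_lit 17349940410) (nat_lit 0) (nat_lit 15483934125) (nat_lit 18) (nat_lit 5) (nat_lit 20) (nat_lit 4) (nat_lit 18) (nat_lit 4) (nat_lit 337) (nat_lit 264) (nat_lit 119))) (XT.nd (nat_lit 94) (nat_lit 84) (nat_lit 0) (XT.lf (nat_lit 0) (nat_lit 3393265862) (nat_lit 168) (nat_lit 57416385003) (nat_lit 84) (nat_lit 55547782247) (nat_lit 16) (nat_lit 5) (nat_lit 18) (nat_lit 5) (nat_lit 17) (nat_lit 4) (nat_lit 338) (nat_lit 264) (nat_lit 118)) (XT.lf (nat_lit 0) (nat_lit 19528821903) (nat_lit 84) (nat_lit 21399897488) (nat_lit 168) (nat_lit 79224904175) (nat_lit 15) (nat_lit 5) (nat_lit 16) (nat_lit 5) (nat_lit 17) (nat_lit 4) (nat_lit 339) (nat_lit 264) (nat_lit 117))))) (XT.nd (nat_lit 376) (nat_lit 504) (nat_lit 0) (XT.nd (nat_lit 188) (nat_lit 168) (nat_lit 0) (XT.nd (nat_lit 94) (nat_lit 84) (nat_lit 0) (XT.lf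 (nat_lit 0) (nat_lit 81638060751) (nat_lit 168) (nat_lit 22110463356) (nat_lit 0) (nat_lit 20326243679) (nat_lit 15) (nat_lit 5) (nat_lit 17) (nat_lit 4) (nat_lit 15) (nat_lit 4) (nat_lit 340) (nat_lit 264) (nat_lit 116)) (XT.lf (nat_lit 0) (nat_lit 61955818219) (nat_lit 84) (nat_lit 63742174020) (nat_lit 84) (nat_lit 2428220824) (nat_lit 14) (nat_lit 4) (nat_lit 15) (nat_lit 5) (nat_lit 15) (nat_lit 4) (nat_lit 341) (nat_lit 264) (nat_lit 115))) (XT.nd (nat_lit 94) (nat_lit 0) (nat_lit 0) (XT.lf (nat_lit 0) (nat_lit 18596705703) (nat_lit 84) (nat_lit 20385095907) (nat_lit 168) (nat_lit 93334133663) (nat_lit 12) (nat_lit 5) (nat_lit 13) (nat_lit 5) (nat_lit 14) (nat_lit 4) (nat_lit 342) (nat_lit 264) (nat_lit 114)) (XT.lf (nat_lit 0) (nat_lit 83909233812) (nat_lit 168) (nat_lit 27216283912) (nat_lit 0) (nat_lit 25511209883) (nat_lit 12) (nat_lit 5) (nat_lit 14) (nat_lit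 4) (nat_lit 12) (nat_lit 4) (nat_lit 343) (nat_lit 264) (nat_lit 113)))) (XT.nd (nat_lit 188) (nat_lit 252) (nat_lit 0) (XT.nd (nat_lit 94) (nat_lit 168) (nat_lit 0) (XT.lf (nat_lit 0) (nat_lit 65364028499) (nat_lit 84) (nat_lit 67070859921) (nat_lit 84) (nat_lit 8671078599) (nat_lit 11) (nat_lit 4) (nat_lit 12) (nat_lit 5) (nat_lit 12) (nat_lit 4) (nat_lit 344) (nat_lit 264) (nat_lit 112)) (XT.lf (nat_lit 0) (nat_lit 17709361133) (nat_lit 84) (nat_lit 19417866263) (nat_lit 168) (nat_lit 108604991890) (nat_lit 9) (nat_lit 5) (nat_lit 10) (nat_lit 5) (nat_lit 11) (nat_lit 4) (nat_lit 345) (nat_lit 264) (nat_lit 111))) (XT.nd (nat_lit 94) (nat_lit 252) (nat_lit 0) (XT.lf (nat_lit 0) (nat_lit 86702988849) (nat_lit 168) (nat_lit 32709703230) (nat_lit 0) (nat_lit 31081037384) (nat_lit 9) (nat_lit 5) (nat_lit 11) (nat_lit 4) (nat_lit 9) (nat_lit 4) (nat_lit 346) (nat_lit 264)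 (nat_lit 110)) (XT.nd (nat_lit 94) (nat_lit 168) (nat_lit 0) (XT.lf (nat_lit 0) (nat_lit 69262213047) (nat_lit 84) (nat_lit 70892324705) (nat_lit 84) (nat_lit 15268927427) (nat_lit 8) (nat_lit 4) (nat_lit 9) (nat_lit 5) (nat_lit 9) (nat_lit 4) (nat_lit 347) (nat_lit 264) (nat_lit 109)) (XT.lf (nat_lit 0) (nat_lit 16864587924) (nat_lit 84) (nat_lit 18496076546) (nat_lit 168) (nat_lit 125169988864) (nat_lit 6) (nat_lit 5) (nat_lit 7) (nat_lit 5) (nat_lit 8) (nat_lit 4) (nat_lit 348) (nat_lit 264) (nat_lit 108))))))))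
noncomputable def xc154 : XT := (XT.nd (nat_lit 38164) (nat_lit 0) (nat_lit 7224) (XT.nd (nat_lit 37318) (nat_lit 0) (nat_lit 10752) (XT.nd (nat_lit 376) (nat_lit 252) (nat_lit 0) (XT.nd (nat_lit 188) (nat_lit 168) (nat_lit 0) (XT.nd (nat_lit 94) (nat_lit 84) (nat_lit 0) (XT.lf (nat_lit 0) (nat_lit 90059185762) (nat_lit 168) (nat_lit 38637008981) (nat_lit 0) (nat_lit 37081961347) (nat_lit 6) (nat_lit 5) (nat_lit 8) (nat_lit 4) (nat_lit 6) (nat_lit 4) (nat_lit 349) (nat_lit 264) (nat_lit 107)) (XT.lf (nat_lit 0) (nat_lit 73693804340) (nat_lit 84) (nat_lit 75250041448) (nat_lit 84) (nat_lit 22271627560) (nat_lit 5) (nat_lit 4) (nat_lit 6) (nat_lit 5) (nat_lit 6) (nat_lit 4) (nat_lit 350) (nat_lit 264) (nat_lit 106))) (XT.nd (nat_lit 94) (nat_lit 0) (nat_lit 0) (XT.lf (nat_lit 0) (nat_lit 16060302691) (nat_lit 84) (nat_lit 17617672631) (nat_lit 168) (nat_lit 143174595828) (nat_lit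 3) (nat_lit 5) (nat_lit 4) (nat_lit 5) (nat_lit 5) (nat_lit 4) (nat_lit 351) (nat_lit 264) (nat_lit 105)) (XT.lf (nat_lit 0) (nat_lit 94022405921) (nat_lit 168) (nat_lit 45048904225) (nat_lit 0) (nat_lit 43564667247) (nat_lit 3) (nat_lit 5) (nat_lit 5) (nat_lit 4) (nat_lit 3) (nat_lit 4) (nat_lit 352) (nat_lit 264) (nat_lit 104)))) (XT.nd (nat_lit 188) (nat_lit 0) (nat_lit 0) (XT.nd (nat_lit 94) (nat_lit 168) (nat_lit 0) (XT.lf (nat_lit 0) (nat_lit 78707026519) (nat_lit 84) (nat_lit 80192242080) (nat_lit 84) (nat_lit 29733524823) (nat_lit 2) (nat_lit 4) (nat_lit 3) (nat_lit 5) (nat_lit 3) (nat_lit 4) (nat_lit 353) (nat_lit 264) (nat_lit 103)) (XT.lf (nat_lit 0) (nat_lit 283027378274) (nat_lit 0) (nat_lit 0) (nat_lit 0) (nat_lit 0) (nat_lit 0) (nat_lit 0) (nat_lit 1) (nat_lit 0) (nat_lit 1) (nat_lit 0) (nat_lit 354) (nat_lit 264) (nat_lit 102))) (XT.nd (nat_lit 94) (nat_lit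 0) (nat_lit 0) (XT.lf (nat_lit 0) (nat_lit 297005476125) (nat_lit 0) (nat_lit 0) (nat_lit 0) (nat_lit 0) (nat_lit 0) (nat_lit 0) (nat_lit 1) (nat_lit 0) (nat_lit 1) (nat_lit 0) (nat_lit 355) (nat_lit 264) (nat_lit 101)) (XT.lf (nat_lit 0) (nat_lit 311682484813) (nat_lit 0) (nat_lit 0) (nat_lit 0) (nat_lit 0) (nat_lit 0) (nat_lit 0) (nat_lit 1) (nat_lit 0) (nat_lit 1) (nat_lit 0) (nat_lit 356) (nat_lit 264) (nat_lit 100))))) (XT.nd (nat_lit 376) (nat_lit 0) (nat_lit 168) (XT.nd (nat_lit 188) (nat_lit 0) (nat_lit 84) (XT.nd (nat_lit 94) (nat_lit 0) (nat_lit 0) (XT.lf (nat_lit 0) (nat_lit 879849160) (nat_lit 924) (nat_lit 3053844803) (nat_lit 924) (nat_lit 3053844803) (nat_lit 128) (nat_lit 3) (nat_lit 139) (nat_lit 3) (nat_lit 139) (nat_lit 5) (nat_lit 265) (nat_lit 265) (nat_lit 190)) (XT.lf (nat_lit 84) (nat_lit 908940947) (nat_lit 0) (nat_lit 1250380137) (nat_lit 924) (nat_lit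 12147351873) (nat_lit 129) (nat_lit 5) (nat_lit 128) (nat_lit 3) (nat_lit 139) (nat_lit 5) (nat_lit 266) (nat_lit 265) (nat_lit 189))) (XT.nd (nat_lit 94) (nat_lit 0) (nat_lit 0) (XT.lf (nat_lit 0) (nat_lit 2751128556) (nat_lit 840) (nat_lit 6264992505) (nat_lit 924) (nat_lit 5630116913) (nat_lit 129) (nat_lit 5) (nat_lit 139) (nat_lit 5) (nat_lit 140) (nat_lit 5) (nat_lit 267) (nat_lit 265) (nat_lit 188)) (XT.lf (nat_lit 84) (nat_lit 1230788257) (nat_lit 0) (nat_lit 2160611858) (nat_lit 924) (nat_lit 11610437439) (nat_lit 130) (nat_lit 5) (nat_lit 129) (nat_lit 5) (nat_lit 140) (nat_lit 5) (nat_lit 268) (nat_lit 265) (nat_lit 187)))) (XT.nd (nat_lit 188) (nat_lit 0) (nat_lit 84) (XT.nd (nat_lit 94) (nat_lit 0) (nat_lit 0) (XT.lf (nat_lit 0) (nat_lit 4230258647) (nat_lit 840) (nat_lit 6144851312) (nat_lit 924) (nat_lit 4991778486) (nat_lit 130) (nat_lit 5) (nat_lit 140)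 (nat_lit 5) (nat_lit 141) (nat_lit 5) (nat_lit 269) (nat_lit 265) (nat_lit 186)) (XT.lf (nat_lit 84) (nat_lit 1874457591) (nat_lit 0) (nat_lit 3282317598) (nat_lit 924) (nat_lit 10591130936) (nat_lit 131) (nat_lit 5) (nat_lit 130) (nat_lit 5) (nat_lit 141) (nat_lit 5) (nat_lit 270) (nat_lit 265) (nat_lit 185))) (XT.nd (nat_lit 94) (nat_lit 0) (nat_lit 0) (XT.lf (nat_lit 0) (nat_lit 6282244445) (nat_lit 840) (nat_lit 5715008719) (nat_lit 924) (nat_lit 4143090181) (nat_lit 131) (nat_lit 5) (nat_lit 141) (nat_lit 5) (nat_lit 142) (nat_lit 5) (nat_lit 271) (nat_lit 265) (nat_lit 184)) (XT.nd (nat_lit 94) (nat_lit 0) (nat_lit 84) (XT.lf (nat_lit 84) (nat_lit 2876693398) (nat_lit 0) (nat_lit 4668706682) (nat_lit 924) (nat_lit 9002931701) (nat_lit 132) (nat_lit 5) (nat_lit 131) (nat_lit 5) (nat_lit 142) (nat_lit 5) (nat_lit 272) (nat_lit 265) (nat_lit 183)) (XT.lf (nat_lit 0) (nat_lit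 9000713963) (nat_lit 840) (nat_lit 4937933696) (nat_lit 924) (nat_lit 3031621955) (nat_lit 132) (nat_lit 5) (nat_lit 142) (nat_lit 5) (nat_lit 143) (nat_lit 5) (nat_lit 273) (nat_lit 265) (nat_lit 182))))))) (XT.nd (nat_lit 752) (nat_lit 1680) (nat_lit 0) (XT.nd (nat_lit 376) (nat_lit 1428) (nat_lit 0) (XT.nd (nat_lit 188) (nat_lit 756) (nat_lit 0) (XT.nd (nat_lit 94) (nat_lit 0) (nat_lit 84) (XT.lf (nat_lit 84) (nat_lit 4279942042) (nat_lit 0) (nat_lit 6376379900) (nat_lit 924) (nat_lit 6750605978) (nat_lit 133) (nat_lit 5) (nat_lit 132) (nat_lit 5) (nat_lit 143) (nat_lit 5) (nat_lit 274) (nat_lit 265) (nat_lit 181)) (XT.lf (nat_lit 0) (nat_lit 12488890354) (nat_lit 840) (nat_lit 3770438631) (nat_lit 84) (nat_lit 1601381154) (nat_lit 133) (nat_lit 5) (nat_lit 143) (nat_lit 5) (nat_lit 134) (nat_lit 5) (nat_lit 275) (nat_lit 265) (nat_lit 180))) (XT.nd (nat_lit 94) (nat_lit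 0) (nat_lit 0) (XT.lf (nat_lit 0) (nat_lit 6132781108) (nat_lit 840) (nat_lit 8466076673) (nat_lit 924) (nat_lit 3729035158) (nat_lit 123) (nat_lit 5) (nat_lit 133) (nat_lit 5) (nat_lit 134) (nat_lit 5) (nat_lit 276) (nat_lit 265) (nat_lit 179)) (XT.lf (nat_lit 0) (nat_lit 16649359851) (nat_lit 840) (nat_lit 214800437) (nat_lit 924) (nat_lit 1951782757) (nat_lit 123) (nat_lit 5) (nat_lit 133) (nat_lit 5) (nat_lit 134) (nat_lit 5) (nat_lit 277) (nat_lit 265) (nat_lit 178)))) (XT.nd (nat_lit 188) (nat_lit 840) (nat_lit 0) (XT.nd (nat_lit 94) (nat_lit 0) (nat_lit 0) (XT.lf (nat_lit 0) (nat_lit 172333232) (nat_lit 588) (nat_lit 10828198210) (nat_lit 84) (nat_lit 8315168135) (nat_lit 116) (nat_lit 5) (nat_lit 123) (nat_lit 5) (nat_lit 117) (nat_lit 5) (nat_lit 278) (nat_lit 265) (nat_lit 177)) (XT.lf (nat_lit 0) (nat_lit 2364773879) (nat_lit 588) (nat_lit 138231843) (nat_lit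 84) (nat_lit 17334452815) (nat_lit 116) (nat_lit 5) (nat_lit 123) (nat_lit 5) (nat_lit 117) (nat_lit 5) (nat_lit 279) (nat_lit 265) (nat_lit 176))) (XT.nd (nat_lit 94) (nat_lit 420) (nat_lit 0) (XT.lf (nat_lit 0) (nat_lit 4936121608) (nat_lit 504) (nat_lit 9040161695) (nat_lit 84) (nat_lit 6395557888) (nat_lit 111) (nat_lit 5) (nat_lit 117) (nat_lit 5) (nat_lit 112) (nat_lit 5) (nat_lit 280) (nat_lit 265) (nat_lit 175)) (XT.lf (nat_lit 0) (nat_lit 2472323390) (nat_lit 420) (nat_lit 5233648140) (nat_lit 504) (nat_lit 13223474708) (nat_lit 106) (nat_lit 5) (nat_lit 111) (nat_lit 5) (nat_lit 112) (nat_lit 5) (nat_lit 281) (nat_lit 265) (nat_lit 174))))) (XT.nd (nat_lit 376) (nat_lit 1008) (nat_lit 0) (XT.nd (nat_lit 188) (nat_lit 336) (nat_lit 0) (XT.nd (nat_lit 94) (nat_lit 336) (nat_lit 0) (XT.lf (nat_lit 0) (nat_lit 10819820580) (nat_lit 504) (nat_lit 6710269029) (nat_lit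 84) (nat_lit 3974566598) (nat_lit 106) (nat_lit 5) (nat_lit 112) (nat_lit 5) (nat_lit 107) (nat_lit 5) (nat_lit 282) (nat_lit 265) (nat_lit 173)) (XT.lf (nat_lit 0) (nat_lit 5708298409) (nat_lit 336) (nat_lit 8544828780) (nat_lit 420) (nat_lit 7847311229) (nat_lit 102) (nat_lit 5) (nat_lit 106) (nat_lit 5) (nat_lit 107) (nat_lit 5) (nat_lit 283) (nat_lit 265) (nat_lit 172))) (XT.nd (nat_lit 94) (nat_lit 336) (nat_lit 0) (XT.lf (nat_lit 0) (nat_lit 17976654484) (nat_lit 420) (nat_lit 3768169448) (nat_lit 84) (nat_lit 975258039) (nat_lit 102) (nat_lit 5) (nat_lit 107) (nat_lit 5) (nat_lit 103) (nat_lit 5) (nat_lit 284) (nat_lit 265) (nat_lit 171)) (XT.lf (nat_lit 0) (nat_lit 9643331317) (nat_lit 336) (nat_lit 12523341691) (nat_lit 420) (nat_lit 1190018951) (nat_lit 98) (nat_lit 5) (nat_lit 102) (nat_lit 5) (nat_lit 103) (nat_lit 5) (nat_lit 285) (nat_lit 265) (nat_lit 170))))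 (XT.nd (nat_lit 188) (nat_lit 588) (nat_lit 0) (XT.nd (nat_lit 94) (nat_lit 336) (nat_lit 0) (XT.lf (nat_lit 0) (nat_lit 2514407817) (nat_lit 420) (nat_lit 218806805) (nat_lit 84) (nat_lit 21287200293) (nat_lit 97) (nat_lit 5) (nat_lit 102) (nat_lit 5) (nat_lit 98) (nat_lit 5) (nat_lit 286) (nat_lit 265) (nat_lit 169)) (XT.lf (nat_lit 0) (nat_lit 6700655374) (nat_lit 420) (nat_lit 10447985667) (nat_lit 84) (nat_lit 7550877955) (nat_lit 93) (nat_lit 5) (nat_lit 98) (nat_lit 5) (nat_lit 94) (nat_lit 5) (nat_lit 287) (nat_lit 265) (nat_lit 168))) (XT.nd (nat_lit 94) (nat_lit 252) (nat_lit 0) (XT.lf (nat_lit 0) (nat_lit 4115412396) (nat_lit 336) (nat_lit 7084176642) (nat_lit 420) (nat_lit 14207820558) (nat_lit 89) (nat_lit 5) (nat_lit 93) (nat_lit 5) (nat_lit 94) (nat_lit 5) (nat_lit 288) (nat_lit 265) (nat_lit 167)) (XT.nd (nat_lit 94) (nat_lit 252) (nat_lit 0) (XT.lf (nat_lit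 0) (nat_lit 16148470481) (nat_lit 420) (nat_lit 6441681650) (nat_lit 84) (nat_lit 3549292541) (nat_lit 89) (nat_lit 5) (nat_lit 94) (nat_lit 5) (nat_lit 90) (nat_lit 5) (nat_lit 289) (nat_lit 265) (nat_lit 166)) (XT.lf (nat_lit 0) (nat_lit 9321694956) (nat_lit 252) (nat_lit 12275983673) (nat_lit 336) (nat_lit 5297758740) (nat_lit 86) (nat_lit 5) (nat_lit 89) (nat_lit 5) (nat_lit 90) (nat_lit 5) (nat_lit 290) (nat_lit 265) (nat_lit 165))))))))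
noncomputable def xc155 : XT := (XT.nd (nat_lit 1598) (nat_lit 1932) (nat_lit 0) (XT.nd (nat_lit 752) (nat_lit 1092) (nat_lit 0) (XT.nd (nat_lit 376) (nat_lit 840) (nat_lit 0) (XT.nd (nat_lit 188) (nat_lit 252) (nat_lit 0) (XT.nd (nat_lit 94) (nat_lit 420) (nat_lit 0) (XT.lf (nat_lit 0) (nat_lit 26085396179) (nat_lit 252) (nat_lit 1334494033) (nat_lit 336) (nat_lit 264312339) (nat_lit 86) (nat_lit 5) (nat_lit 89) (nat_lit 5) (nat_lit 90) (nat_lit 5) (nat_lit 291) (nat_lit 265) (nat_lit 164)) (XT.lf (nat_lit 0) (nat_lit 5258905238) (nat_lit 420) (nat_lit 13076432894) (nat_lit 84) (nat_lit 10153208614) (nat_lit 81) (nat_lit 5) (nat_lit 86) (nat_lit 5) (nat_lit 82) (nat_lit 5) (nat_lit 292) (nat_lit 265) (nat_lit 163))) (XT.nd (nat_lit 94) (nat_lit 0) (nat_lit 0) (XT.lf (nat_lit 0) (nat_lit 4090203932) (nat_lit 252) (nat_lit 7064353173) (nat_lit 336) (nat_lit 18173076596) (nat_lit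 78) (nat_lit 5) (nat_lit 81) (nat_lit 5) (nat_lit 82) (nat_lit 5) (nat_lit 293) (nat_lit 265) (nat_lit 162)) (XT.lf (nat_lit 0) (nat_lit 17636611815) (nat_lit 336) (nat_lit 7718097852) (nat_lit 84) (nat_lit 4839384325) (nat_lit 78) (nat_lit 5) (nat_lit 82) (nat_lit 5) (nat_lit 79) (nat_lit 5) (nat_lit 294) (nat_lit 265) (nat_lit 161)))) (XT.nd (nat_lit 188) (nat_lit 504) (nat_lit 0) (XT.nd (nat_lit 94) (nat_lit 84) (nat_lit 0) (XT.lf (nat_lit 0) (nat_lit 10899238982) (nat_lit 252) (nat_lit 13821943405) (nat_lit 336) (nat_lit 6368774253) (nat_lit 75) (nat_lit 5) (nat_lit 78) (nat_lit 5) (nat_lit 79) (nat_lit 5) (nat_lit 295) (nat_lit 265) (nat_lit 160)) (XT.lf (nat_lit 0) (nat_lit 250587747) (nat_lit 336) (nat_lit 1323908666) (nat_lit 84) (nat_lit 30449747052) (nat_lit 74) (nat_lit 5) (nat_lit 78) (nat_lit 5) (nat_lit 75) (nat_lit 5) (nat_lit 296) (nat_lit 265) (nat_lit 159)))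 (XT.nd (nat_lit 94) (nat_lit 252) (nat_lit 0) (XT.lf (nat_lit 0) (nat_lit 7458771610) (nat_lit 336) (nat_lit 14189544224) (nat_lit 84) (nat_lit 11328114173) (nat_lit 71) (nat_lit 5) (nat_lit 75) (nat_lit 5) (nat_lit 72) (nat_lit 5) (nat_lit 297) (nat_lit 265) (nat_lit 158)) (XT.lf (nat_lit 0) (nat_lit 6133546669) (nat_lit 252) (nat_lit 9031168138) (nat_lit 336) (nat_lit 18804643563) (nat_lit 68) (nat_lit 5) (nat_lit 71) (nat_lit 5) (nat_lit 72) (nat_lit 5) (nat_lit 298) (nat_lit 265) (nat_lit 157))))) (XT.nd (nat_lit 376) (nat_lit 588) (nat_lit 0) (XT.nd (nat_lit 188) (nat_lit 336) (nat_lit 0) (XT.nd (nat_lit 94) (nat_lit 168) (nat_lit 0) (XT.lf (nat_lit 0) (nat_lit 23559139418) (nat_lit 336) (nat_lit 7115050349) (nat_lit 84) (nat_lit 4322584170) (nat_lit 68) (nat_lit 5) (nat_lit 72) (nat_lit 5) (nat_lit 69) (nat_lit 5) (nat_lit 299) (nat_lit 265) (nat_lit 156)) (XT.lf (nat_lit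 0) (nat_lit 14962320564) (nat_lit 168) (nat_lit 17786050251) (nat_lit 252) (nat_lit 3308435190) (nat_lit 66) (nat_lit 5) (nat_lit 68) (nat_lit 5) (nat_lit 69) (nat_lit 5) (nat_lit 300) (nat_lit 265) (nat_lit 155))) (XT.nd (nat_lit 94) (nat_lit 0) (nat_lit 0) (XT.lf (nat_lit 0) (nat_lit 1170319940) (nat_lit 252) (nat_lit 4023824397) (nat_lit 336) (nat_lit 31964903559) (nat_lit 62) (nat_lit 5) (nat_lit 65) (nat_lit 5) (nat_lit 66) (nat_lit 5) (nat_lit 301) (nat_lit 265) (nat_lit 154)) (XT.lf (nat_lit 0) (nat_lit 14530129531) (nat_lit 336) (nat_lit 13251108655) (nat_lit 84) (nat_lit 10506478769) (nat_lit 62) (nat_lit 5) (nat_lit 66) (nat_lit 5) (nat_lit 63) (nat_lit 5) (nat_lit 302) (nat_lit 265) (nat_lit 153)))) (XT.nd (nat_lit 188) (nat_lit 420) (nat_lit 0) (XT.nd (nat_lit 94) (nat_lit 0) (nat_lit 0) (XT.lf (nat_lit 0) (nat_lit 10896264031) (nat_lit 168) (nat_lit 13666614483)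 (nat_lit 252) (nat_lit 14898442729) (nat_lit 60) (nat_lit 5) (nat_lit 62) (nat_lit 5) (nat_lit 63) (nat_lit 5) (nat_lit 303) (nat_lit 265) (nat_lit 152)) (XT.lf (nat_lit 0) (nat_lit 35337330260) (nat_lit 252) (nat_lit 4003015266) (nat_lit 84) (nat_lit 1341256953) (nat_lit 60) (nat_lit 5) (nat_lit 63) (nat_lit 5) (nat_lit 61) (nat_lit 5) (nat_lit 304) (nat_lit 265) (nat_lit 151))) (XT.nd (nat_lit 94) (nat_lit 168) (nat_lit 0) (XT.lf (nat_lit 0) (nat_lit 5112779699) (nat_lit 252) (nat_lit 19750837585) (nat_lit 84) (nat_lit 17066860880) (nat_lit 57) (nat_lit 5) (nat_lit 60) (nat_lit 5) (nat_lit 58) (nat_lit 5) (nat_lit 305) (nat_lit 265) (nat_lit 150)) (XT.nd (nat_lit 94) (nat_lit 0) (nat_lit 0) (XT.lf (nat_lit 0) (nat_lit 6687773166) (nat_lit 168) (nat_lit 9392910244) (nat_lit 252) (nat_lit 27148353582) (nat_lit 55) (nat_lit 5) (nat_lit 57) (nat_lit 5) (nat_lit 58) (nat_lit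 5) (nat_lit 306) (nat_lit 265) (nat_lit 149)) (XT.lf (nat_lit 0) (nat_lit 28038272896) (nat_lit 252) (nat_lit 9563850223) (nat_lit 84) (nat_lit 6968336114) (nat_lit 55) (nat_lit 5) (nat_lit 58) (nat_lit 5) (nat_lit 56) (nat_lit 5) (nat_lit 307) (nat_lit 265) (nat_lit 148))))))) (XT.nd (nat_lit 752) (nat_lit 1008) (nat_lit 0) (XT.nd (nat_lit 376) (nat_lit 336) (nat_lit 0) (XT.nd (nat_lit 188) (nat_lit 168) (nat_lit 0) (XT.nd (nat_lit 94) (nat_lit 252) (nat_lit 0) (XT.lf (nat_lit 0) (nat_lit 19214268553) (nat_lit 168) (nat_lit 21828061787) (nat_lit 252) (nat_lit 4914192822) (nat_lit 53) (nat_lit 5) (nat_lit 55) (nat_lit 5) (nat_lit 56) (nat_lit 5) (nat_lit 308) (nat_lit 265) (nat_lit 147)) (XT.lf (nat_lit 0) (nat_lit 2307822393) (nat_lit 168) (nat_lit 4939024319) (nat_lit 252) (nat_lit 40149591733) (nat_lit 50) (nat_lit 5) (nat_lit 52) (nat_lit 5) (nat_lit 53) (nat_lit 5)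 (nat_lit 309) (nat_lit 265) (nat_lit 146))) (XT.nd (nat_lit 94) (nat_lit 168) (nat_lit 0) (XT.lf (nat_lit 0) (nat_lit 20505565489) (nat_lit 252) (nat_lit 15443856975) (nat_lit 84) (nat_lit 12922160183) (nat_lit 50) (nat_lit 5) (nat_lit 53) (nat_lit 5) (nat_lit 51) (nat_lit 5) (nat_lit 310) (nat_lit 265) (nat_lit 145)) (XT.lf (nat_lit 0) (nat_lit 16108956210) (nat_lit 168) (nat_lit 18645691285) (nat_lit 252) (nat_lit 15649465200) (nat_lit 48) (nat_lit 5) (nat_lit 50) (nat_lit 5) (nat_lit 51) (nat_lit 5) (nat_lit 311) (nat_lit 265) (nat_lit 144)))) (XT.nd (nat_lit 188) (nat_lit 168) (nat_lit 0) (XT.nd (nat_lit 94) (nat_lit 168) (nat_lit 0) (XT.lf (nat_lit 0) (nat_lit 49766924454) (nat_lit 168) (nat_lit 205867135) (nat_lit 252) (nat_lit 2027647256) (nat_lit 48) (nat_lit 5) (nat_lit 50) (nat_lit 5) (nat_lit 51) (nat_lit 5) (nat_lit 312) (nat_lit 265) (nat_lit 143)) (XT.lf (nat_lit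 0) (nat_lit 12691742866) (nat_lit 168) (nat_lit 21688678262) (nat_lit 84) (nat_lit 19246109297) (nat_lit 46) (nat_lit 5) (nat_lit 48) (nat_lit 5) (nat_lit 47) (nat_lit 5) (nat_lit 313) (nat_lit 265) (nat_lit 142))) (XT.nd (nat_lit 94) (nat_lit 0) (nat_lit 0) (XT.lf (nat_lit 0) (nat_lit 12931498178) (nat_lit 168) (nat_lit 15386439175) (nat_lit 252) (nat_lit 27002378371) (nat_lit 44) (nat_lit 5) (nat_lit 46) (nat_lit 5) (nat_lit 47) (nat_lit 5) (nat_lit 314) (nat_lit 265) (nat_lit 141)) (XT.lf (nat_lit 0) (nat_lit 45165220810) (nat_lit 252) (nat_lit 7130420679) (nat_lit 84) (nat_lit 4781159837) (nat_lit 44) (nat_lit 5) (nat_lit 47) (nat_lit 5) (nat_lit 45) (nat_lit 4) (nat_lit 315) (nat_lit 265) (nat_lit 140))))) (XT.nd (nat_lit 376) (nat_lit 588) (nat_lit 0) (XT.nd (nat_lit 188) (nat_lit 84) (nat_lit 0) (XT.nd (nat_lit 94) (nat_lit 168) (nat_lit 0) (XT.lf (nat_lit 0) (nat_lit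 4545420007) (nat_lit 168) (nat_lit 28347845121) (nat_lit 84) (nat_lit 25987896852) (nat_lit 42) (nat_lit 5) (nat_lit 44) (nat_lit 5) (nat_lit 43) (nat_lit 5) (nat_lit 316) (nat_lit 265) (nat_lit 139)) (XT.lf (nat_lit 0) (nat_lit 9661981575) (nat_lit 168) (nat_lit 12032108345) (nat_lit 252) (nat_lit 39058430828) (nat_lit 40) (nat_lit 5) (nat_lit 42) (nat_lit 5) (nat_lit 43) (nat_lit 5) (nat_lit 317) (nat_lit 265) (nat_lit 138))) (XT.nd (nat_lit 94) (nat_lit 84) (nat_lit 0) (XT.lf (nat_lit 0) (nat_lit 40337850304) (nat_lit 252) (nat_lit 12307105045) (nat_lit 84) (nat_lit 10040609254) (nat_lit 40) (nat_lit 5) (nat_lit 43) (nat_lit 5) (nat_lit 41) (nat_lit 4) (nat_lit 318) (nat_lit 265) (nat_lit 137)) (XT.lf (nat_lit 0) (nat_lit 29143274064) (nat_lit 84) (nat_lit 31418562427) (nat_lit 168) (nat_lit 4121022274) (nat_lit 39) (nat_lit 5) (nat_lit 40) (nat_lit 5) (nat_lit 41) (nat_lit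 4) (nat_lit 319) (nat_lit 265) (nat_lit 136)))) (XT.nd (nat_lit 188) (nat_lit 336) (nat_lit 0) (XT.nd (nat_lit 94) (nat_lit 0) (nat_lit 0) (XT.lf (nat_lit 0) (nat_lit 6279189771) (nat_lit 168) (nat_lit 8562852013) (nat_lit 252) (nat_lit 51910969206) (nat_lit 36) (nat_lit 5) (nat_lit 38) (nat_lit 5) (nat_lit 39) (nat_lit 5) (nat_lit 320) (nat_lit 265) (nat_lit 135)) (XT.lf (nat_lit 0) (nat_lit 35463328442) (nat_lit 252) (nat_lit 17800024066) (nat_lit 84) (nat_lit 15617512291) (nat_lit 36) (nat_lit 5) (nat_lit 39) (nat_lit 5) (nat_lit 37) (nat_lit 4) (nat_lit 321) (nat_lit 265) (nat_lit 134))) (XT.nd (nat_lit 94) (nat_lit 252) (nat_lit 0) (XT.lf (nat_lit 0) (nat_lit 27747775123) (nat_lit 84) (nat_lit 29937520568) (nat_lit 168) (nat_lit 13401334797) (nat_lit 35) (nat_lit 5) (nat_lit 36) (nat_lit 5) (nat_lit 37) (nat_lit 4) (nat_lit 322) (nat_lit 265) (nat_lit 133)) (XT.nd (nat_lit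 94) (nat_lit 0) (nat_lit 0) (XT.lf (nat_lit 0) (nat_lit 2760408607) (nat_lit 168) (nat_lit 4957043263) (nat_lit 252) (nat_lit 65662011275) (nat_lit 32) (nat_lit 5) (nat_lit 34) (nat_lit 5) (nat_lit 35) (nat_lit 5) (nat_lit 323) (nat_lit 265) (nat_lit 132)) (XT.lf (nat_lit 0) (nat_lit 30515978724) (nat_lit 252) (nat_lit 23652273527) (nat_lit 84) (nat_lit 21553991805) (nat_lit 32) (nat_lit 5) (nat_lit 35) (nat_lit 5) (nat_lit 33) (nat_lit 4) (nat_lit 324) (nat_lit 265) (nat_lit 131))))))))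
noncomputable def xc156 : XT := (XT.nd (nat_lit 1598) (nat_lit 1260) (nat_lit 0) (XT.nd (nat_lit 752) (nat_lit 756) (nat_lit 0) (XT.nd (nat_lit 376) (nat_lit 252) (nat_lit 0) (XT.nd (nat_lit 188) (nat_lit 252) (nat_lit 0) (XT.nd (nat_lit 94) (nat_lit 84) (nat_lit 0) (XT.lf (nat_lit 0) (nat_lit 26420097956) (nat_lit 84) (nat_lit 28524330837) (nat_lit 168) (nat_lit 23213235374) (nat_lit 31) (nat_lit 5) (nat_lit 32) (nat_lit 5) (nat_lit 33) (nat_lit 4) (nat_lit 325) (nat_lit 265) (nat_lit 130)) (XT.lf (nat_lit 0) (nat_lit 286685478) (nat_lit 168) (nat_lit 889373254) (nat_lit 84) (nat_lit 79518721616) (nat_lit 30) (nat_lit 5) (nat_lit 32) (nat_lit 5) (nat_lit 31) (nat_lit 5) (nat_lit 326) (nat_lit 265) (nat_lit 129))) (XT.nd (nat_lit 94) (nat_lit 84) (nat_lit 0) (XT.lf (nat_lit 0) (nat_lit 25468401426) (nat_lit 252) (nat_lit 29910773949) (nat_lit 84) (nat_lit 27896203922) (nat_lit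 28) (nat_lit 5) (nat_lit 31) (nat_lit 5) (nat_lit 29) (nat_lit 4) (nat_lit 327) (nat_lit 265) (nat_lit 128)) (XT.lf (nat_lit 0) (nat_lit 25156770156) (nat_lit 84) (nat_lit 27176236216) (nat_lit 168) (nat_lit 33630811663) (nat_lit 27) (nat_lit 5) (nat_lit 28) (nat_lit 5) (nat_lit 29) (nat_lit 4) (nat_lit 328) (nat_lit 265) (nat_lit 127)))) (XT.nd (nat_lit 188) (nat_lit 84) (nat_lit 0) (XT.nd (nat_lit 94) (nat_lit 168) (nat_lit 0) (XT.lf (nat_lit 0) (nat_lit 81090207485) (nat_lit 168) (nat_lit 4798372391) (nat_lit 0) (nat_lit 2870630536) (nat_lit 27) (nat_lit 5) (nat_lit 29) (nat_lit 4) (nat_lit 27) (nat_lit 4) (nat_lit 329) (nat_lit 265) (nat_lit 126)) (XT.lf (nat_lit 0) (nat_lit 20291268586) (nat_lit 168) (nat_lit 36626705723) (nat_lit 84) (nat_lit 34694734490) (nat_lit 25) (nat_lit 5) (nat_lit 27) (nat_lit 5) (nat_lit 26) (nat_lit 4) (nat_lit 330) (nat_lit 265) (nat_lit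 125))) (XT.nd (nat_lit 94) (nat_lit 0) (nat_lit 0) (XT.lf (nat_lit 0) (nat_lit 23954527716) (nat_lit 84) (nat_lit 25890526928) (nat_lit 168) (nat_lit 44734879908) (nat_lit 24) (nat_lit 5) (nat_lit 25) (nat_lit 5) (nat_lit 26) (nat_lit 4) (nat_lit 331) (nat_lit 265) (nat_lit 124)) (XT.lf (nat_lit 0) (nat_lit 81608062784) (nat_lit 168) (nat_lit 8949172218) (nat_lit 0) (nat_lit 7101709950) (nat_lit 24) (nat_lit 5) (nat_lit 26) (nat_lit 4) (nat_lit 24) (nat_lit 4) (nat_lit 332) (nat_lit 265) (nat_lit 123))))) (XT.nd (nat_lit 376) (nat_lit 336) (nat_lit 0) (XT.nd (nat_lit 188) (nat_lit 168) (nat_lit 0) (XT.nd (nat_lit 94) (nat_lit 84) (nat_lit 0) (XT.lf (nat_lit 0) (nat_lit 14953096681) (nat_lit 168) (nat_lit 43855984155) (nat_lit 84) (nat_lit 42005042367) (nat_lit 22) (nat_lit 5) (nat_lit 24) (nat_lit 5) (nat_lit 23) (nat_lit 4) (nat_lit 333) (nat_lit 265) (nat_lit 122)) (XT.lf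 (nat_lit 0) (nat_lit 22810297473) (nat_lit 84) (nat_lit 24664553089) (nat_lit 168) (nat_lit 56613703795) (nat_lit 21) (nat_lit 5) (nat_lit 22) (nat_lit 5) (nat_lit 23) (nat_lit 4) (nat_lit 334) (nat_lit 265) (nat_lit 121))) (XT.nd (nat_lit 94) (nat_lit 168) (nat_lit 0) (XT.lf (nat_lit 0) (nat_lit 82549079323) (nat_lit 168) (nat_lit 13350135927) (nat_lit 0) (nat_lit 11581172459) (nat_lit 21) (nat_lit 5) (nat_lit 23) (nat_lit 4) (nat_lit 21) (nat_lit 4) (nat_lit 335) (nat_lit 265) (nat_lit 120)) (XT.lf (nat_lit 0) (nat_lit 9419995255) (nat_lit 168) (nat_lit 51659779199) (nat_lit 84) (nat_lit 49887953121) (nat_lit 19) (nat_lit 5) (nat_lit 21) (nat_lit 5) (nat_lit 20) (nat_lit 4) (nat_lit 336) (nat_lit 265) (nat_lit 119)))) (XT.nd (nat_lit 188) (nat_lit 252) (nat_lit 0) (XT.nd (nat_lit 94) (nat_lit 0) (nat_lit 0) (XT.lf (nat_lit 0) (nat_lit 21721181743) (nat_lit 84) (nat_lit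 23495734115) (nat_lit 168) (nat_lit 69363787717) (nat_lit 18) (nat_lit 5) (nat_lit 19) (nat_lit 5) (nat_lit 20) (nat_lit 4) (nat_lit 337) (nat_lit 265) (nat_lit 118)) (XT.lf (nat_lit 0) (nat_lit 83939195553) (nat_lit 168) (nat_lit 18035439938) (nat_lit 0) (nat_lit 16342917230) (nat_lit 18) (nat_lit 5) (nat_lit 20) (nat_lit 4) (nat_lit 18) (nat_lit 4) (nat_lit 338) (nat_lit 265) (nat_lit 117))) (XT.nd (nat_lit 94) (nat_lit 84) (nat_lit 0) (XT.lf (nat_lit 0) (nat_lit 3655389438) (nat_lit 168) (nat_lit 60105085050) (nat_lit 84) (nat_lit 58410207266) (nat_lit 16) (nat_lit 5) (nat_lit 18) (nat_lit 5) (nat_lit 17) (nat_lit 4) (nat_lit 339) (nat_lit 265) (nat_lit 116)) (XT.nd (nat_lit 94) (nat_lit 0) (nat_lit 0) (XT.lf (nat_lit 0) (nat_lit 20684444795) (nat_lit 84) (nat_lit 22381565508) (nat_lit 168) (nat_lit 83090751695) (nat_lit 15) (nat_lit 5) (nat_lit 16) (nat_lit 5) (nat_lit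 17) (nat_lit 4) (nat_lit 340) (nat_lit 265) (nat_lit 115)) (XT.lf (nat_lit 0) (nat_lit 85807805667) (nat_lit 168) (nat_lit 23042324129) (nat_lit 0) (nat_lit 21423984286) (nat_lit 15) (nat_lit 5) (nat_lit 17) (nat_lit 4) (nat_lit 15) (nat_lit 4) (nat_lit 341) (nat_lit 265) (nat_lit 114))))))) (XT.nd (nat_lit 752) (nat_lit 504) (nat_lit 0) (XT.nd (nat_lit 376) (nat_lit 420) (nat_lit 0) (XT.nd (nat_lit 188) (nat_lit 84) (nat_lit 0) (XT.nd (nat_lit 94) (nat_lit 168) (nat_lit 0) (XT.lf (nat_lit 0) (nat_lit 65224470519) (nat_lit 84) (nat_lit 66844747889) (nat_lit 84) (nat_lit 2458988981) (nat_lit 14) (nat_lit 4) (nat_lit 15) (nat_lit 5) (nat_lit 15) (nat_lit 4) (nat_lit 342) (nat_lit 265) (nat_lit 113)) (XT.lf (nat_lit 0) (nat_lit 19697500894) (nat_lit 84) (nat_lit 21319623527) (nat_lit 168) (nat_lit 97910295978) (nat_lit 12) (nat_lit 5) (nat_lit 13) (nat_lit 5) (nat_lit 14) (nat_lit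 4) (nat_lit 343) (nat_lit 265) (nat_lit 112))) (XT.nd (nat_lit 94) (nat_lit 84) (nat_lit 0) (XT.lf (nat_lit 0) (nat_lit 88188081750) (nat_lit 168) (nat_lit 28411432666) (nat_lit 0) (nat_lit 26864880259) (nat_lit 12) (nat_lit 5) (nat_lit 14) (nat_lit 4) (nat_lit 12) (nat_lit 4) (nat_lit 344) (nat_lit 265) (nat_lit 111)) (XT.lf (nat_lit 0) (nat_lit 68795223342) (nat_lit 84) (nat_lit 70343369757) (nat_lit 84) (nat_lit 9018574258) (nat_lit 11) (nat_lit 4) (nat_lit 12) (nat_lit 5) (nat_lit 12) (nat_lit 4) (nat_lit 345) (nat_lit 265) (nat_lit 110)))) (XT.nd (nat_lit 188) (nat_lit 252) (nat_lit 0) (XT.nd (nat_lit 94) (nat_lit 0) (nat_lit 0) (XT.lf (nat_lit 0) (nat_lit 18757903658) (nat_lit 84) (nat_lit 20307568175) (nat_lit 168) (nat_lit 113949264264) (nat_lit 9) (nat_lit 5) (nat_lit 10) (nat_lit 5) (nat_lit 11) (nat_lit 4) (nat_lit 346) (nat_lit 265) (nat_lit 109)) (XT.lf (nat_lit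 0) (nat_lit 91117329427) (nat_lit 168) (nat_lit 34187187443) (nat_lit 0) (nat_lit 32709939509) (nat_lit 9) (nat_lit 5) (nat_lit 11) (nat_lit 4) (nat_lit 9) (nat_lit 4) (nat_lit 347) (nat_lit 265) (nat_lit 108))) (XT.nd (nat_lit 94) (nat_lit 168) (nat_lit 0) (XT.lf (nat_lit 0) (nat_lit 72880776245) (nat_lit 84) (nat_lit 74359335573) (nat_lit 84) (nat_lit 15950634261) (nat_lit 8) (nat_lit 4) (nat_lit 9) (nat_lit 5) (nat_lit 9) (nat_lit 4) (nat_lit 348) (nat_lit 265) (nat_lit 107)) (XT.lf (nat_lit 0) (nat_lit 17863336547) (nat_lit 84) (nat_lit 19343144821) (nat_lit 168) (nat_lit 131346815450) (nat_lit 6) (nat_lit 5) (nat_lit 7) (nat_lit 5) (nat_lit 8) (nat_lit 4) (nat_lit 349) (nat_lit 265) (nat_lit 106))))) (XT.nd (nat_lit 376) (nat_lit 252) (nat_lit 0) (XT.nd (nat_lit 188) (nat_lit 168) (nat_lit 0) (XT.nd (nat_lit 94) (nat_lit 84) (nat_lit 0) (XT.lf (nat_lit 0) (nat_lit 94637380615)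 (nat_lit 168) (nat_lit 40418197773) (nat_lit 0) (nat_lit 39007723728) (nat_lit 6) (nat_lit 5) (nat_lit 8) (nat_lit 4) (nat_lit 6) (nat_lit 4) (nat_lit 350) (nat_lit 265) (nat_lit 105)) (XT.lf (nat_lit 0) (nat_lit 77526726188) (nat_lit 84) (nat_lit 78938279121) (nat_lit 84) (nat_lit 23307543346) (nat_lit 5) (nat_lit 4) (nat_lit 6) (nat_lit 5) (nat_lit 6) (nat_lit 4) (nat_lit 351) (nat_lit 265) (nat_lit 104))) (XT.nd (nat_lit 94) (nat_lit 0) (nat_lit 0) (XT.lf (nat_lit 0) (nat_lit 17011604314) (nat_lit 84) (nat_lit 18424184759) (nat_lit 168) (nat_lit 150255714885) (nat_lit 3) (nat_lit 5) (nat_lit 4) (nat_lit 5) (nat_lit 5) (nat_lit 4) (nat_lit 352) (nat_lit 265) (nat_lit 103)) (XT.lf (nat_lit 0) (nat_lit 98795027296) (nat_lit 168) (nat_lit 47157710303) (nat_lit 0) (nat_lit 45811463611) (nat_lit 3) (nat_lit 5) (nat_lit 5) (nat_lit 4) (nat_lit 3) (nat_lit 4) (nat_lit 353) (nat_lit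 265) (nat_lit 102)))) (XT.nd (nat_lit 188) (nat_lit 0) (nat_lit 0) (XT.nd (nat_lit 94) (nat_lit 168) (nat_lit 0) (XT.lf (nat_lit 0) (nat_lit 82783700218) (nat_lit 84) (nat_lit 84130834514) (nat_lit 84) (nat_lit 31146383226) (nat_lit 2) (nat_lit 4) (nat_lit 3) (nat_lit 5) (nat_lit 3) (nat_lit 4) (nat_lit 354) (nat_lit 265) (nat_lit 101)) (XT.lf (nat_lit 0) (nat_lit 297178564368) (nat_lit 0) (nat_lit 0) (nat_lit 0) (nat_lit 0) (nat_lit 0) (nat_lit 0) (nat_lit 1) (nat_lit 0) (nat_lit 1) (nat_lit 0) (nat_lit 355) (nat_lit 265) (nat_lit 100))) (XT.nd (nat_lit 36754) (nat_lit 0) (nat_lit 10752) (XT.lf (nat_lit 0) (nat_lit 311855575817) (nat_lit 0) (nat_lit 0) (nat_lit 0) (nat_lit 0) (nat_lit 0) (nat_lit 0) (nat_lit 1) (nat_lit 0) (nat_lit 1) (nat_lit 0) (nat_lit 356) (nat_lit 265) (nat_lit 99)) (XT.nd (nat_lit 94) (nat_lit 0) (nat_lit 0) (XT.lf (nat_lit 0) (nat_lit 1259949986)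 (nat_lit 924) (nat_lit 3030080150) (nat_lit 924) (nat_lit 3030080150) (nat_lit 128) (nat_lit 3) (nat_lit 139) (nat_lit 3) (nat_lit 139) (nat_lit 5) (nat_lit 266) (nat_lit 266) (nat_lit 188)) (XT.lf (nat_lit 84) (nat_lit 1301609623) (nat_lit 0) (nat_lit 1611305033) (nat_lit 924) (nat_lit 12076810575) (nat_lit 129) (nat_lit 5) (nat_lit 128) (nat_lit 3) (nat_lit 139) (nat_lit 5) (nat_lit 267) (nat_lit 266) (nat_lit 187))))))))
noncomputable def xc157 : XT := (XT.nd (nat_lit 1598) (nat_lit 3024) (nat_lit 0) (XT.nd (nat_lit 752) (nat_lit 2268) (nat_lit 0) (XT.nd (nat_lit 376) (nat_lit 0) (nat_lit 168) (XT.nd (nat_lit 188) (nat_lit 0) (nat_lit 84) (XT.nd (nat_lit 94) (nat_lit 0) (nat_lit 0) (XT.lf (nat_lit 0) (nat_lit 3499131236) (nat_lit 840) (nat_lit 6212373600) (nat_lit 924) (nat_lit 5636522724) (nat_lit 129) (nat_lit 5) (nat_lit 139) (nat_lit 5) (nat_lit 140) (nat_lit 5) (nat_lit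 268) (nat_lit 266) (nat_lit 186)) (XT.lf (nat_lit 84) (nat_lit 1652295094) (nat_lit 0) (nat_lit 2495672510) (nat_lit 924) (nat_lit 11574611954) (nat_lit 130) (nat_lit 5) (nat_lit 129) (nat_lit 5) (nat_lit 140) (nat_lit 5) (nat_lit 269) (nat_lit 266) (nat_lit 185))) (XT.nd (nat_lit 94) (nat_lit 0) (nat_lit 0) (XT.lf (nat_lit 0) (nat_lit 4997441015) (nat_lit 840) (nat_lit 6077939713) (nat_lit 924) (nat_lit 5032068668) (nat_lit 130) (nat_lit 5) (nat_lit 140) (nat_lit 5) (nat_lit 141) (nat_lit 5) (nat_lit 270) (nat_lit 266) (nat_lit 184)) (XT.lf (nat_lit 84) (nat_lit 2336299892) (nat_lit 0) (nat_lit 3613270420) (nat_lit 924) (nat_lit 10558983302) (nat_lit 131) (nat_lit 5) (nat_lit 130) (nat_lit 5) (nat_lit 141) (nat_lit 5) (nat_lit 271) (nat_lit 266) (nat_lit 183)))) (XT.nd (nat_lit 188) (nat_lit 0) (nat_lit 84) (XT.nd (nat_lit 94) (nat_lit 0) (nat_lit 0) (XT.lf (nat_lit 0)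 (nat_lit 7103358163) (nat_lit 840) (nat_lit 5622214363) (nat_lit 924) (nat_lit 4196437912) (nat_lit 131) (nat_lit 5) (nat_lit 141) (nat_lit 5) (nat_lit 142) (nat_lit 5) (nat_lit 272) (nat_lit 266) (nat_lit 182)) (XT.lf (nat_lit 84) (nat_lit 3392967298) (nat_lit 0) (nat_lit 5018376173) (nat_lit 924) (nat_lit 8939971230) (nat_lit 132) (nat_lit 5) (nat_lit 131) (nat_lit 5) (nat_lit 142) (nat_lit 5) (nat_lit 273) (nat_lit 266) (nat_lit 181))) (XT.nd (nat_lit 94) (nat_lit 0) (nat_lit 0) (XT.lf (nat_lit 0) (nat_lit 9914424563) (nat_lit 840) (nat_lit 4805127866) (nat_lit 924) (nat_lit 3076046922) (nat_lit 132) (nat_lit 5) (nat_lit 142) (nat_lit 5) (nat_lit 143) (nat_lit 5) (nat_lit 274) (nat_lit 266) (nat_lit 180)) (XT.lf (nat_lit 84) (nat_lit 4867517425) (nat_lit 0) (nat_lit 6769048362) (nat_lit 924) (nat_lit 6618337142) (nat_lit 133) (nat_lit 5) (nat_lit 132) (nat_lit 5) (nat_lit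 143) (nat_lit 5) (nat_lit 275) (nat_lit 266) (nat_lit 179))))) (XT.nd (nat_lit 376) (nat_lit 1176) (nat_lit 0) (XT.nd (nat_lit 188) (nat_lit 588) (nat_lit 0) (XT.nd (nat_lit 94) (nat_lit 840) (nat_lit 0) (XT.lf (nat_lit 0) (nat_lit 13538358444) (nat_lit 840) (nat_lit 3580767548) (nat_lit 84) (nat_lit 1613368476) (nat_lit 133) (nat_lit 5) (nat_lit 143) (nat_lit 5) (nat_lit 134) (nat_lit 5) (nat_lit 276) (nat_lit 266) (nat_lit 178)) (XT.lf (nat_lit 0) (nat_lit 6811513291) (nat_lit 840) (nat_lit 8927881150) (nat_lit 924) (nat_lit 3484363457) (nat_lit 123) (nat_lit 5) (nat_lit 133) (nat_lit 5) (nat_lit 134) (nat_lit 5) (nat_lit 277) (nat_lit 266) (nat_lit 177))) (XT.nd (nat_lit 94) (nat_lit 588) (nat_lit 0) (XT.lf (nat_lit 0) (nat_lit 17836202250) (nat_lit 840) (nat_lit 262207738) (nat_lit 924) (nat_lit 1638778124) (nat_lit 123) (nat_lit 5) (nat_lit 133) (nat_lit 5) (nat_lit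 134) (nat_lit 5) (nat_lit 278) (nat_lit 266) (nat_lit 176)) (XT.lf (nat_lit 0) (nat_lit 564768626) (nat_lit 588) (nat_lit 10988458676) (nat_lit 84) (nat_lit 8709066317) (nat_lit 116) (nat_lit 5) (nat_lit 123) (nat_lit 5) (nat_lit 117) (nat_lit 5) (nat_lit 279) (nat_lit 266) (nat_lit 175)))) (XT.nd (nat_lit 188) (nat_lit 756) (nat_lit 0) (XT.nd (nat_lit 94) (nat_lit 0) (nat_lit 0) (XT.lf (nat_lit 0) (nat_lit 225059340) (nat_lit 420) (nat_lit 2627008689) (nat_lit 504) (nat_lit 17958810661) (nat_lit 111) (nat_lit 5) (nat_lit 116) (nat_lit 5) (nat_lit 117) (nat_lit 5) (nat_lit 280) (nat_lit 266) (nat_lit 174)) (XT.lf (nat_lit 0) (nat_lit 5536692232) (nat_lit 504) (nat_lit 9117393202) (nat_lit 84) (nat_lit 6718659590) (nat_lit 111) (nat_lit 5) (nat_lit 117) (nat_lit 5) (nat_lit 112) (nat_lit 5) (nat_lit 281) (nat_lit 266) (nat_lit 173))) (XT.nd (nat_lit 94) (nat_lit 336) (nat_lit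 0) (XT.lf (nat_lit 0) (nat_lit 2964671355) (nat_lit 420) (nat_lit 5469274302) (nat_lit 504) (nat_lit 13524839116) (nat_lit 106) (nat_lit 5) (nat_lit 111) (nat_lit 5) (nat_lit 112) (nat_lit 5) (nat_lit 282) (nat_lit 266) (nat_lit 172)) (XT.nd (nat_lit 94) (nat_lit 336) (nat_lit 0) (XT.lf (nat_lit 0) (nat_lit 11687556714) (nat_lit 504) (nat_lit 6678678898) (nat_lit 84) (nat_lit 4197316149) (nat_lit 106) (nat_lit 5) (nat_lit 112) (nat_lit 5) (nat_lit 107) (nat_lit 5) (nat_lit 283) (nat_lit 266) (nat_lit 171)) (XT.lf (nat_lit 0) (nat_lit 6354895886) (nat_lit 336) (nat_lit 8927712549) (nat_lit 420) (nat_lit 7907010659) (nat_lit 102) (nat_lit 5) (nat_lit 106) (nat_lit 5) (nat_lit 107) (nat_lit 5) (nat_lit 284) (nat_lit 266) (nat_lit 170))))))) (XT.nd (nat_lit 752) (nat_lit 1680) (nat_lit 0) (XT.nd (nat_lit 376) (nat_lit 588) (nat_lit 0) (XT.nd (nat_lit 188) (nat_lit 420) (nat_lit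 0) (XT.nd (nat_lit 94) (nat_lit 336) (nat_lit 0) (XT.lf (nat_lit 0) (nat_lit 19177884765) (nat_lit 420) (nat_lit 3598167203) (nat_lit 84) (nat_lit 1064914224) (nat_lit 102) (nat_lit 5) (nat_lit 107) (nat_lit 5) (nat_lit 103) (nat_lit 5) (nat_lit 285) (nat_lit 266) (nat_lit 169)) (XT.lf (nat_lit 0) (nat_lit 10478127783) (nat_lit 336) (nat_lit 13090382090) (nat_lit 420) (nat_lit 941341525) (nat_lit 98) (nat_lit 5) (nat_lit 102) (nat_lit 5) (nat_lit 103) (nat_lit 5) (nat_lit 286) (nat_lit 266) (nat_lit 168))) (XT.nd (nat_lit 94) (nat_lit 0) (nat_lit 0) (XT.lf (nat_lit 0) (nat_lit 119303237) (nat_lit 336) (nat_lit 2806796905) (nat_lit 420) (nat_lit 22281036921) (nat_lit 93) (nat_lit 5) (nat_lit 97) (nat_lit 5) (nat_lit 98) (nat_lit 5) (nat_lit 287) (nat_lit 266) (nat_lit 167)) (XT.lf (nat_lit 0) (nat_lit 7312567299) (nat_lit 420) (nat_lit 10617922893) (nat_lit 84) (nat_lit 7990160797)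 (nat_lit 93) (nat_lit 5) (nat_lit 98) (nat_lit 5) (nat_lit 94) (nat_lit 5) (nat_lit 288) (nat_lit 266) (nat_lit 166)))) (XT.nd (nat_lit 188) (nat_lit 252) (nat_lit 0) (XT.nd (nat_lit 94) (nat_lit 0) (nat_lit 0) (XT.lf (nat_lit 0) (nat_lit 4667960202) (nat_lit 336) (nat_lit 7360716887) (nat_lit 420) (nat_lit 14635647559) (nat_lit 89) (nat_lit 5) (nat_lit 93) (nat_lit 5) (nat_lit 94) (nat_lit 5) (nat_lit 289) (nat_lit 266) (nat_lit 165)) (XT.lf (nat_lit 0) (nat_lit 17213342788) (nat_lit 420) (nat_lit 6421841931) (nat_lit 84) (nat_lit 3798359747) (nat_lit 89) (nat_lit 5) (nat_lit 94) (nat_lit 5) (nat_lit 90) (nat_lit 5) (nat_lit 290) (nat_lit 266) (nat_lit 164))) (XT.nd (nat_lit 94) (nat_lit 0) (nat_lit 0) (XT.lf (nat_lit 0) (nat_lit 10124188605) (nat_lit 252) (nat_lit 12803815559) (nat_lit 336) (nat_lit 5299682994) (nat_lit 86) (nat_lit 5) (nat_lit 89) (nat_lit 5) (nat_lit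 90) (nat_lit 5) (nat_lit 291) (nat_lit 266) (nat_lit 163)) (XT.lf (nat_lit 0) (nat_lit 27710055418) (nat_lit 252) (nat_lit 1319345117) (nat_lit 336) (nat_lit 27086353) (nat_lit 86) (nat_lit 5) (nat_lit 89) (nat_lit 5) (nat_lit 90) (nat_lit 5) (nat_lit 292) (nat_lit 266) (nat_lit 162))))) (XT.nd (nat_lit 376) (nat_lit 756) (nat_lit 0) (XT.nd (nat_lit 188) (nat_lit 252) (nat_lit 0) (XT.nd (nat_lit 94) (nat_lit 252) (nat_lit 0) (XT.lf (nat_lit 0) (nat_lit 5759138095) (nat_lit 420) (nat_lit 13396711101) (nat_lit 84) (nat_lit 10745260508) (nat_lit 81) (nat_lit 5) (nat_lit 86) (nat_lit 5) (nat_lit 82) (nat_lit 5) (nat_lit 293) (nat_lit 266) (nat_lit 161)) (XT.lf (nat_lit 0) (nat_lit 4622877834) (nat_lit 252) (nat_lit 7320518868) (nat_lit 336) (nat_lit 18839063098) (nat_lit 78) (nat_lit 5) (nat_lit 81) (nat_lit 5) (nat_lit 82) (nat_lit 5) (nat_lit 294) (nat_lit 266) (nat_lit 160)))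 (XT.nd (nat_lit 94) (nat_lit 252) (nat_lit 0) (XT.lf (nat_lit 0) (nat_lit 18739991924) (nat_lit 336) (nat_lit 7781903660) (nat_lit 84) (nat_lit 5170825631) (nat_lit 78) (nat_lit 5) (nat_lit 82) (nat_lit 5) (nat_lit 79) (nat_lit 5) (nat_lit 295) (nat_lit 266) (nat_lit 159)) (XT.lf (nat_lit 0) (nat_lit 11761104869) (nat_lit 252) (nat_lit 14412083937) (nat_lit 336) (nat_lit 6460468301) (nat_lit 75) (nat_lit 5) (nat_lit 78) (nat_lit 5) (nat_lit 79) (nat_lit 5) (nat_lit 296) (nat_lit 266) (nat_lit 158)))) (XT.nd (nat_lit 188) (nat_lit 420) (nat_lit 0) (XT.nd (nat_lit 94) (nat_lit 252) (nat_lit 0) (XT.lf (nat_lit 0) (nat_lit 472152772) (nat_lit 336) (nat_lit 1081379163) (nat_lit 84) (nat_lit 32061471921) (nat_lit 74) (nat_lit 5) (nat_lit 78) (nat_lit 5) (nat_lit 75) (nat_lit 5) (nat_lit 297) (nat_lit 266) (nat_lit 157)) (XT.lf (nat_lit 0) (nat_lit 8037094125) (nat_lit 336) (nat_lit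 14586644796) (nat_lit 84) (nat_lit 11991243390) (nat_lit 71) (nat_lit 5) (nat_lit 75) (nat_lit 5) (nat_lit 72) (nat_lit 5) (nat_lit 298) (nat_lit 266) (nat_lit 156))) (XT.nd (nat_lit 94) (nat_lit 168) (nat_lit 0) (XT.lf (nat_lit 0) (nat_lit 6747562308) (nat_lit 252) (nat_lit 9375790399) (nat_lit 336) (nat_lit 19534453473) (nat_lit 68) (nat_lit 5) (nat_lit 71) (nat_lit 5) (nat_lit 72) (nat_lit 5) (nat_lit 299) (nat_lit 266) (nat_lit 155)) (XT.nd (nat_lit 94) (nat_lit 168) (nat_lit 0) (XT.lf (nat_lit 0) (nat_lit 24929545658) (nat_lit 336) (nat_lit 7170146827) (nat_lit 84) (nat_lit 4637297686) (nat_lit 68) (nat_lit 5) (nat_lit 72) (nat_lit 5) (nat_lit 69) (nat_lit 5) (nat_lit 300) (nat_lit 266) (nat_lit 154)) (XT.lf (nat_lit 0) (nat_lit 16006243341) (nat_lit 168) (nat_lit 18567449406) (nat_lit 252) (nat_lit 3276558390) (nat_lit 66) (nat_lit 5) (nat_lit 68) (nat_lit 5) (nat_lit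 69) (nat_lit 5) (nat_lit 301) (nat_lit 266) (nat_lit 153))))))))
noncomputable def xc158 : XT := (XT.nd (nat_lit 1598) (nat_lit 1596) (nat_lit 0) (XT.nd (nat_lit 752) (nat_lit 1092) (nat_lit 0) (XT.nd (nat_lit 376) (nat_lit 588) (nat_lit 0) (XT.nd (nat_lit 188) (nat_lit 168) (nat_lit 0) (XT.nd (nat_lit 94) (nat_lit 0) (nat_lit 0) (XT.lf (nat_lit 0) (nat_lit 1526084543) (nat_lit 252) (nat_lit 4114297202) (nat_lit 336) (nat_lit 33367292035) (nat_lit 62) (nat_lit 5) (nat_lit 65) (nat_lit 5) (nat_lit 66) (nat_lit 5) (nat_lit 302) (nat_lit 266) (nat_lit 152)) (XT.lf (nat_lit 0) (nat_lit 15435930119) (nat_lit 336) (nat_lit 13623334096) (nat_lit 84) (nat_lit 11133873882) (nat_lit 62) (nat_lit 5) (nat_lit 66) (nat_lit 5) (nat_lit 63) (nat_lit 5) (nat_lit 303) (nat_lit 266) (nat_lit 151))) (XT.nd (nat_lit 94) (nat_lit 0) (nat_lit 0) (XT.lf (nat_lit 0) (nat_lit 11726724482) (nat_lit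 168) (nat_lit 14239514008) (nat_lit 252) (nat_lit 15459388012) (nat_lit 60) (nat_lit 5) (nat_lit 62) (nat_lit 5) (nat_lit 63) (nat_lit 5) (nat_lit 304) (nat_lit 266) (nat_lit 150)) (XT.lf (nat_lit 0) (nat_lit 37272711240) (nat_lit 252) (nat_lit 3924419447) (nat_lit 84) (nat_lit 1510126192) (nat_lit 60) (nat_lit 5) (nat_lit 63) (nat_lit 5) (nat_lit 61) (nat_lit 5) (nat_lit 305) (nat_lit 266) (nat_lit 149)))) (XT.nd (nat_lit 188) (nat_lit 168) (nat_lit 0) (XT.nd (nat_lit 94) (nat_lit 168) (nat_lit 0) (XT.lf (nat_lit 0) (nat_lit 5535891651) (nat_lit 252) (nat_lit 20458591382) (nat_lit 84) (nat_lit 18024145391) (nat_lit 57) (nat_lit 5) (nat_lit 60) (nat_lit 5) (nat_lit 58) (nat_lit 5) (nat_lit 306) (nat_lit 266) (nat_lit 148)) (XT.lf (nat_lit 0) (nat_lit 7297437196) (nat_lit 168) (nat_lit 9751076269) (nat_lit 252) (nat_lit 28333785583) (nat_lit 55) (nat_lit 5) (nat_lit 57) (nat_lit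 5) (nat_lit 58) (nat_lit 5) (nat_lit 307) (nat_lit 266) (nat_lit 147))) (XT.nd (nat_lit 94) (nat_lit 168) (nat_lit 0) (XT.lf (nat_lit 0) (nat_lit 29597840247) (nat_lit 252) (nat_lit 9773733536) (nat_lit 84) (nat_lit 7419525727) (nat_lit 55) (nat_lit 5) (nat_lit 58) (nat_lit 5) (nat_lit 56) (nat_lit 5) (nat_lit 308) (nat_lit 266) (nat_lit 146)) (XT.lf (nat_lit 0) (nat_lit 20438963611) (nat_lit 168) (nat_lit 22809751126) (nat_lit 252) (nat_lit 4997921189) (nat_lit 53) (nat_lit 5) (nat_lit 55) (nat_lit 5) (nat_lit 56) (nat_lit 5) (nat_lit 309) (nat_lit 266) (nat_lit 145))))) (XT.nd (nat_lit 376) (nat_lit 672) (nat_lit 0) (XT.nd (nat_lit 188) (nat_lit 168) (nat_lit 0) (XT.nd (nat_lit 94) (nat_lit 0) (nat_lit 0) (XT.lf (nat_lit 0) (nat_lit 2688038168) (nat_lit 168) (nat_lit 5074615879) (nat_lit 252) (nat_lit 41995933070) (nat_lit 50) (nat_lit 5) (nat_lit 52) (nat_lit 5) (nat_lit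 53) (nat_lit 5) (nat_lit 310) (nat_lit 266) (nat_lit 144)) (XT.lf (nat_lit 0) (nat_lit 21678656750) (nat_lit 252) (nat_lit 15958183853) (nat_lit 84) (nat_lit 13670930527) (nat_lit 50) (nat_lit 5) (nat_lit 53) (nat_lit 5) (nat_lit 51) (nat_lit 5) (nat_lit 311) (nat_lit 266) (nat_lit 143))) (XT.nd (nat_lit 94) (nat_lit 0) (nat_lit 0) (XT.lf (nat_lit 0) (nat_lit 17168110863) (nat_lit 168) (nat_lit 19469004354) (nat_lit 252) (nat_lit 16279966345) (nat_lit 48) (nat_lit 5) (nat_lit 50) (nat_lit 5) (nat_lit 51) (nat_lit 5) (nat_lit 312) (nat_lit 266) (nat_lit 142)) (XT.lf (nat_lit 0) (nat_lit 52496896240) (nat_lit 168) (nat_lit 112378117) (nat_lit 252) (nat_lit 1984294271) (nat_lit 48) (nat_lit 5) (nat_lit 50) (nat_lit 5) (nat_lit 51) (nat_lit 5) (nat_lit 313) (nat_lit 266) (nat_lit 141)))) (XT.nd (nat_lit 188) (nat_lit 336) (nat_lit 0) (XT.nd (nat_lit 94) (nat_lit 168) (nat_lit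 0) (XT.lf (nat_lit 0) (nat_lit 13465184588) (nat_lit 168) (nat_lit 22525605842) (nat_lit 84) (nat_lit 20310123788) (nat_lit 46) (nat_lit 5) (nat_lit 48) (nat_lit 5) (nat_lit 47) (nat_lit 5) (nat_lit 314) (nat_lit 266) (nat_lit 140)) (XT.lf (nat_lit 0) (nat_lit 13821587383) (nat_lit 168) (nat_lit 16048291235) (nat_lit 252) (nat_lit 28209650674) (nat_lit 44) (nat_lit 5) (nat_lit 46) (nat_lit 5) (nat_lit 47) (nat_lit 5) (nat_lit 315) (nat_lit 266) (nat_lit 139))) (XT.nd (nat_lit 94) (nat_lit 336) (nat_lit 0) (XT.lf (nat_lit 0) (nat_lit 47554645948) (nat_lit 252) (nat_lit 7250143038) (nat_lit 84) (nat_lit 5119294201) (nat_lit 44) (nat_lit 5) (nat_lit 47) (nat_lit 5) (nat_lit 45) (nat_lit 4) (nat_lit 316) (nat_lit 266) (nat_lit 138)) (XT.nd (nat_lit 94) (nat_lit 168) (nat_lit 0) (XT.lf (nat_lit 0) (nat_lit 4903354126) (nat_lit 168) (nat_lit 29527937722) (nat_lit 84) (nat_lit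 27387395075) (nat_lit 42) (nat_lit 5) (nat_lit 44) (nat_lit 5) (nat_lit 43) (nat_lit 5) (nat_lit 317) (nat_lit 266) (nat_lit 137)) (XT.lf (nat_lit 0) (nat_lit 10378552895) (nat_lit 168) (nat_lit 12528327742) (nat_lit 252) (nat_lit 40876861837) (nat_lit 40) (nat_lit 5) (nat_lit 42) (nat_lit 5) (nat_lit 43) (nat_lit 5) (nat_lit 318) (nat_lit 266) (nat_lit 136))))))) (XT.nd (nat_lit 752) (nat_lit 840) (nat_lit 0) (XT.nd (nat_lit 376) (nat_lit 420) (nat_lit 0) (XT.nd (nat_lit 188) (nat_lit 252) (nat_lit 0) (XT.nd (nat_lit 94) (nat_lit 84) (nat_lit 0) (XT.lf (nat_lit 0) (nat_lit 42478296717) (nat_lit 252) (nat_lit 12695573459) (nat_lit 84) (nat_lit 10639794964) (nat_lit 40) (nat_lit 5) (nat_lit 43) (nat_lit 5) (nat_lit 41) (nat_lit 4) (nat_lit 319) (nat_lit 266) (nat_lit 135)) (XT.lf (nat_lit 0) (nat_lit 30823665141) (nat_lit 84) (nat_lit 32887418758) (nat_lit 168) (nat_lit 4199860026)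 (nat_lit 39) (nat_lit 5) (nat_lit 40) (nat_lit 5) (nat_lit 41) (nat_lit 4) (nat_lit 320) (nat_lit 266) (nat_lit 134))) (XT.nd (nat_lit 94) (nat_lit 0) (nat_lit 0) (XT.lf (nat_lit 0) (nat_lit 6816782143) (nat_lit 168) (nat_lit 8888131114) (nat_lit 252) (nat_lit 54379709812) (nat_lit 36) (nat_lit 5) (nat_lit 38) (nat_lit 5) (nat_lit 39) (nat_lit 5) (nat_lit 321) (nat_lit 266) (nat_lit 133)) (XT.lf (nat_lit 0) (nat_lit 37353042838) (nat_lit 252) (nat_lit 18472820160) (nat_lit 84) (nat_lit 16493217644) (nat_lit 36) (nat_lit 5) (nat_lit 39) (nat_lit 5) (nat_lit 37) (nat_lit 4) (nat_lit 322) (nat_lit 266) (nat_lit 132)))) (XT.nd (nat_lit 188) (nat_lit 84) (nat_lit 0) (XT.nd (nat_lit 94) (nat_lit 252) (nat_lit 0) (XT.lf (nat_lit 0) (nat_lit 29348865680) (nat_lit 84) (nat_lit 31335029349) (nat_lit 168) (nat_lit 13951350256) (nat_lit 35) (nat_lit 5) (nat_lit 36) (nat_lit 5) (nat_lit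 37) (nat_lit 4) (nat_lit 323) (nat_lit 266) (nat_lit 131)) (XT.lf (nat_lit 0) (nat_lit 3112464452) (nat_lit 168) (nat_lit 5104876838) (nat_lit 252) (nat_lit 68825394171) (nat_lit 32) (nat_lit 5) (nat_lit 34) (nat_lit 5) (nat_lit 35) (nat_lit 5) (nat_lit 324) (nat_lit 266) (nat_lit 130))) (XT.nd (nat_lit 94) (nat_lit 84) (nat_lit 0) (XT.lf (nat_lit 0) (nat_lit 32151852324) (nat_lit 252) (nat_lit 24627101789) (nat_lit 84) (nat_lit 22723898413) (nat_lit 32) (nat_lit 5) (nat_lit 35) (nat_lit 5) (nat_lit 33) (nat_lit 4) (nat_lit 325) (nat_lit 266) (nat_lit 129)) (XT.lf (nat_lit 0) (nat_lit 27945536891) (nat_lit 84) (nat_lit 29854138143) (nat_lit 168) (nat_lit 24260471102) (nat_lit 31) (nat_lit 5) (nat_lit 32) (nat_lit 5) (nat_lit 33) (nat_lit 4) (nat_lit 326) (nat_lit 266) (nat_lit 128))))) (XT.nd (nat_lit 376) (nat_lit 504) (nat_lit 0) (XT.nd (nat_lit 188) (nat_lit 84) (nat_lit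 0) (XT.nd (nat_lit 94) (nat_lit 168) (nat_lit 0) (XT.lf (nat_lit 0) (nat_lit 405587085) (nat_lit 168) (nat_lit 735685366) (nat_lit 84) (nat_lit 83583018548) (nat_lit 30) (nat_lit 5) (nat_lit 32) (nat_lit 5) (nat_lit 31) (nat_lit 5) (nat_lit 327) (nat_lit 266) (nat_lit 127)) (XT.lf (nat_lit 0) (nat_lit 26845894823) (nat_lit 252) (nat_lit 31207662087) (nat_lit 84) (nat_lit 29380387687) (nat_lit 28) (nat_lit 5) (nat_lit 31) (nat_lit 5) (nat_lit 29) (nat_lit 4) (nat_lit 328) (nat_lit 266) (nat_lit 126))) (XT.nd (nat_lit 94) (nat_lit 0) (nat_lit 0) (XT.lf (nat_lit 0) (nat_lit 26610055182) (nat_lit 84) (nat_lit 28441770429) (nat_lit 168) (nat_lit 35205074880) (nat_lit 27) (nat_lit 5) (nat_lit 28) (nat_lit 5) (nat_lit 29) (nat_lit 4) (nat_lit 329) (nat_lit 266) (nat_lit 125)) (XT.lf (nat_lit 0) (nat_lit 85243408568) (nat_lit 168) (nat_lit 4848673259) (nat_lit 0) (nat_lit 3100154569)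 (nat_lit 27) (nat_lit 5) (nat_lit 29) (nat_lit 4) (nat_lit 27) (nat_lit 4) (nat_lit 330) (nat_lit 266) (nat_lit 124)))) (XT.nd (nat_lit 188) (nat_lit 252) (nat_lit 0) (XT.nd (nat_lit 94) (nat_lit 84) (nat_lit 0) (XT.lf (nat_lit 0) (nat_lit 21404324470) (nat_lit 168) (nat_lit 38268225004) (nat_lit 84) (nat_lit 36515870144) (nat_lit 25) (nat_lit 5) (nat_lit 27) (nat_lit 5) (nat_lit 26) (nat_lit 4) (nat_lit 331) (nat_lit 266) (nat_lit 123)) (XT.lf (nat_lit 0) (nat_lit 25339008560) (nat_lit 84) (nat_lit 27095016915) (nat_lit 168) (nat_lit 46870069900) (nat_lit 24) (nat_lit 5) (nat_lit 25) (nat_lit 5) (nat_lit 26) (nat_lit 4) (nat_lit 332) (nat_lit 266) (nat_lit 122))) (XT.nd (nat_lit 94) (nat_lit 252) (nat_lit 0) (XT.lf (nat_lit 0) (nat_lit 85781917178) (nat_lit 168) (nat_lit 9215502598) (nat_lit 0) (nat_lit 7539799861) (nat_lit 24) (nat_lit 5) (nat_lit 26) (nat_lit 4) (nat_lit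 24) (nat_lit 4) (nat_lit 333) (nat_lit 266) (nat_lit 121)) (XT.nd (nat_lit 94) (nat_lit 84) (nat_lit 0) (XT.lf (nat_lit 0) (nat_lit 15794039666) (nat_lit 168) (nat_lit 45867492027) (nat_lit 84) (nat_lit 44188633263) (nat_lit 22) (nat_lit 5) (nat_lit 24) (nat_lit 5) (nat_lit 23) (nat_lit 4) (nat_lit 334) (nat_lit 266) (nat_lit 120)) (XT.lf (nat_lit 0) (nat_lit 24129179629) (nat_lit 84) (nat_lit 25811044133) (nat_lit 168) (nat_lit 59348176780) (nat_lit 21) (nat_lit 5) (nat_lit 22) (nat_lit 5) (nat_lit 23) (nat_lit 4) (nat_lit 335) (nat_lit 266) (nat_lit 119))))))))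
noncomputable def xc159 : XT := (XT.nd (nat_lit 1598) (nat_lit 420) (nat_lit 0) (XT.nd (nat_lit 752) (nat_lit 756) (nat_lit 0) (XT.nd (nat_lit 376) (nat_lit 336) (nat_lit 0) (XT.nd (nat_lit 188) (nat_lit 84) (nat_lit 0) (XT.nd (nat_lit 94) (nat_lit 168) (nat_lit 0) (XT.lf (nat_lit 0) (nat_lit 86765090311) (nat_lit 168) (nat_lit 13844695473) (nat_lit 0) (nat_lit 12240193460) (nat_lit 21) (nat_lit 5) (nat_lit 23) (nat_lit 4) (nat_lit 21) (nat_lit 4) (nat_lit 336) (nat_lit 266) (nat_lit 118)) (XT.lf (nat_lit 0) (nat_lit 9979417853) (nat_lit 168) (nat_lit 54069686721) (nat_lit 84) (nat_lit 52462588238) (nat_lit 19) (nat_lit 5) (nat_lit 21) (nat_lit 5) (nat_lit 20) (nat_lit 4) (nat_lit 337) (nat_lit 266) (nat_lit 117))) (XT.nd (nat_lit 94) (nat_lit 0) (nat_lit 0) (XT.lf (nat_lit 0) (nat_lit 22977530632) (nat_lit 84) (nat_lit 24587101945) (nat_lit 168) (nat_lit 72740762631) (nat_lit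 18) (nat_lit 5) (nat_lit 19) (nat_lit 5) (nat_lit 20) (nat_lit 4) (nat_lit 338) (nat_lit 266) (nat_lit 116)) (XT.lf (nat_lit 0) (nat_lit 88220129928) (nat_lit 168) (nat_lit 18772134844) (nat_lit 0) (nat_lit 17236966855) (nat_lit 18) (nat_lit 5) (nat_lit 20) (nat_lit 4) (nat_lit 18) (nat_lit 4) (nat_lit 339) (nat_lit 266) (nat_lit 115)))) (XT.nd (nat_lit 188) (nat_lit 84) (nat_lit 0) (XT.nd (nat_lit 94) (nat_lit 84) (nat_lit 0) (XT.lf (nat_lit 0) (nat_lit 3922023112) (nat_lit 168) (nat_lit 62945151816) (nat_lit 84) (nat_lit 61407847704) (nat_lit 16) (nat_lit 5) (nat_lit 18) (nat_lit 5) (nat_lit 17) (nat_lit 4) (nat_lit 340) (nat_lit 266) (nat_lit 114)) (XT.lf (nat_lit 0) (nat_lit 21881190207) (nat_lit 84) (nat_lit 23420528722) (nat_lit 168) (nat_lit 87158760763) (nat_lit 15) (nat_lit 5) (nat_lit 16) (nat_lit 5) (nat_lit 17) (nat_lit 4) (nat_lit 341) (nat_lit 266) (nat_lit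 113))) (XT.nd (nat_lit 94) (nat_lit 84) (nat_lit 0) (XT.lf (nat_lit 0) (nat_lit 90177871123) (nat_lit 168) (nat_lit 24036923424) (nat_lit 0) (nat_lit 22569041480) (nat_lit 15) (nat_lit 5) (nat_lit 17) (nat_lit 4) (nat_lit 15) (nat_lit 4) (nat_lit 342) (nat_lit 266) (nat_lit 112)) (XT.lf (nat_lit 0) (nat_lit 68640670361) (nat_lit 84) (nat_lit 70110309699) (nat_lit 84) (nat_lit 2499722662) (nat_lit 14) (nat_lit 4) (nat_lit 15) (nat_lit 5) (nat_lit 15) (nat_lit 4) (nat_lit 343) (nat_lit 266) (nat_lit 111))))) (XT.nd (nat_lit 376) (nat_lit 336) (nat_lit 0) (XT.nd (nat_lit 188) (nat_lit 252) (nat_lit 0) (XT.nd (nat_lit 94) (nat_lit 0) (nat_lit 0) (XT.lf (nat_lit 0) (nat_lit 20837441613) (nat_lit 84) (nat_lit 22308754659) (nat_lit 168) (nat_lit 102723684367) (nat_lit 12) (nat_lit 5) (nat_lit 13) (nat_lit 5) (nat_lit 14) (nat_lit 4) (nat_lit 344) (nat_lit 266) (nat_lit 110)) (XT.lf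 (nat_lit 0) (nat_lit 92673119622) (nat_lit 168) (nat_lit 29681740861) (nat_lit 0) (nat_lit 28278972238) (nat_lit 12) (nat_lit 5) (nat_lit 14) (nat_lit 4) (nat_lit 12) (nat_lit 4) (nat_lit 345) (nat_lit 266) (nat_lit 109))) (XT.nd (nat_lit 94) (nat_lit 168) (nat_lit 0) (XT.lf (nat_lit 0) (nat_lit 72382824344) (nat_lit 84) (nat_lit 73787038779) (nat_lit 84) (nat_lit 9391445583) (nat_lit 11) (nat_lit 4) (nat_lit 12) (nat_lit 5) (nat_lit 12) (nat_lit 4) (nat_lit 346) (nat_lit 266) (nat_lit 108)) (XT.lf (nat_lit 0) (nat_lit 19843712190) (nat_lit 84) (nat_lit 21249303590) (nat_lit 168) (nat_lit 119568743604) (nat_lit 9) (nat_lit 5) (nat_lit 10) (nat_lit 5) (nat_lit 11) (nat_lit 4) (nat_lit 347) (nat_lit 266) (nat_lit 107)))) (XT.nd (nat_lit 188) (nat_lit 252) (nat_lit 0) (XT.nd (nat_lit 94) (nat_lit 84) (nat_lit 0) (XT.lf (nat_lit 0) (nat_lit 95745024593) (nat_lit 168) (nat_lit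 35753235296) (nat_lit 0) (nat_lit 34413327874) (nat_lit 9) (nat_lit 5) (nat_lit 11) (nat_lit 4) (nat_lit 9) (nat_lit 4) (nat_lit 348) (nat_lit 266) (nat_lit 106)) (XT.lf (nat_lit 0) (nat_lit 76665815100) (nat_lit 84) (nat_lit 78006911995) (nat_lit 84) (nat_lit 16674025804) (nat_lit 8) (nat_lit 4) (nat_lit 9) (nat_lit 5) (nat_lit 9) (nat_lit 4) (nat_lit 349) (nat_lit 266) (nat_lit 105))) (XT.nd (nat_lit 94) (nat_lit 84) (nat_lit 0) (XT.lf (nat_lit 0) (nat_lit 18897563897) (nat_lit 84) (nat_lit 20239793624) (nat_lit 168) (nat_lit 137840076533) (nat_lit 6) (nat_lit 5) (nat_lit 7) (nat_lit 5) (nat_lit 8) (nat_lit 4) (nat_lit 350) (nat_lit 266) (nat_lit 104)) (XT.nd (nat_lit 94) (nat_lit 84) (nat_lit 0) (XT.lf (nat_lit 0) (nat_lit 99437490522) (nat_lit 168) (nat_lit 42302453097) (nat_lit 0) (nat_lit 41023111559) (nat_lit 6) (nat_lit 5) (nat_lit 8) (nat_lit 4) (nat_lit 6) (nat_lit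 4) (nat_lit 351) (nat_lit 266) (nat_lit 103)) (XT.lf (nat_lit 0) (nat_lit 81537512956) (nat_lit 84) (nat_lit 82817833077) (nat_lit 84) (nat_lit 24402475532) (nat_lit 5) (nat_lit 4) (nat_lit 6) (nat_lit 5) (nat_lit 6) (nat_lit 4) (nat_lit 352) (nat_lit 266) (nat_lit 102))))))) (XT.nd (nat_lit 37412) (nat_lit 0) (nat_lit 10332) (XT.nd (nat_lit 376) (nat_lit 0) (nat_lit 0) (XT.nd (nat_lit 188) (nat_lit 252) (nat_lit 0) (XT.nd (nat_lit 94) (nat_lit 0) (nat_lit 0) (XT.lf (nat_lit 0) (nat_lit 17996684747) (nat_lit 84) (nat_lit 19277936850) (nat_lit 168) (nat_lit 157698105406) (nat_lit 3) (nat_lit 5) (nat_lit 4) (nat_lit 5) (nat_lit 5) (nat_lit 4) (nat_lit 353) (nat_lit 266) (nat_lit 101)) (XT.lf (nat_lit 0) (nat_lit 103799632247) (nat_lit 168) (nat_lit 49385310890) (nat_lit 0) (nat_lit 48164225454) (nat_lit 3) (nat_lit 5) (nat_lit 5) (nat_lit 4) (nat_lit 3) (nat_lit 4) (nat_lit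 354) (nat_lit 266) (nat_lit 100))) (XT.nd (nat_lit 94) (nat_lit 168) (nat_lit 0) (XT.lf (nat_lit 0) (nat_lit 87051068788) (nat_lit 84) (nat_lit 88272959306) (nat_lit 84) (nat_lit 32636747431) (nat_lit 2) (nat_lit 4) (nat_lit 3) (nat_lit 5) (nat_lit 3) (nat_lit 4) (nat_lit 355) (nat_lit 266) (nat_lit 99)) (XT.lf (nat_lit 0) (nat_lit 312037326763) (nat_lit 0) (nat_lit 0) (nat_lit 0) (nat_lit 0) (nat_lit 0) (nat_lit 0) (nat_lit 1) (nat_lit 0) (nat_lit 1) (nat_lit 0) (nat_lit 356) (nat_lit 266) (nat_lit 98)))) (XT.nd (nat_lit 36848) (nat_lit 0) (nat_lit 10752) (XT.nd (nat_lit 36754) (nat_lit 0) (nat_lit 10752) (XT.lf (nat_lit 0) (nat_lit 327448196681) (nat_lit 0) (nat_lit 0) (nat_lit 0) (nat_lit 0) (nat_lit 0) (nat_lit 0) (nat_lit 1) (nat_lit 0) (nat_lit 1) (nat_lit 0) (nat_lit 357) (nat_lit 266) (nat_lit 97)) (XT.lf (nat_lit 0) (nat_lit 1627807682) (nat_lit 924) (nat_lit 3021532554)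 (nat_lit 924) (nat_lit 3021532554) (nat_lit 128) (nat_lit 3) (nat_lit 139) (nat_lit 3) (nat_lit 139) (nat_lit 5) (nat_lit 267) (nat_lit 267) (nat_lit 186))) (XT.nd (nat_lit 94) (nat_lit 0) (nat_lit 84) (XT.lf (nat_lit 84) (nat_lit 1681630356) (nat_lit 0) (nat_lit 1962533222) (nat_lit 924) (nat_lit 12065767754) (nat_lit 129) (nat_lit 5) (nat_lit 128) (nat_lit 3) (nat_lit 139) (nat_lit 5) (nat_lit 268) (nat_lit 267) (nat_lit 185)) (XT.lf (nat_lit 0) (nat_lit 4227780543) (nat_lit 840) (nat_lit 6191138739) (nat_lit 924) (nat_lit 5668825019) (nat_lit 129) (nat_lit 5) (nat_lit 139) (nat_lit 5) (nat_lit 140) (nat_lit 5) (nat_lit 269) (nat_lit 267) (nat_lit 184))))) (XT.nd (nat_lit 376) (nat_lit 504) (nat_lit 0) (XT.nd (nat_lit 188) (nat_lit 0) (nat_lit 84) (XT.nd (nat_lit 94) (nat_lit 0) (nat_lit 84) (XT.lf (nat_lit 84) (nat_lit 2061410914) (nat_lit 0) (nat_lit 2826379092) (nat_lit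 924) (nat_lit 11594297330) (nat_lit 130) (nat_lit 5) (nat_lit 129) (nat_lit 5) (nat_lit 140) (nat_lit 5) (nat_lit 270) (nat_lit 267) (nat_lit 183)) (XT.lf (nat_lit 0) (nat_lit 5751321624) (nat_lit 840) (nat_lit 6042467841) (nat_lit 924) (nat_lit 5093831973) (nat_lit 130) (nat_lit 5) (nat_lit 140) (nat_lit 5) (nat_lit 141) (nat_lit 5) (nat_lit 271) (nat_lit 267) (nat_lit 182))) (XT.nd (nat_lit 94) (nat_lit 0) (nat_lit 84) (XT.lf (nat_lit 84) (nat_lit 2787010053) (nat_lit 0) (nat_lit 3945259965) (nat_lit 924) (nat_lit 10577450217) (nat_lit 131) (nat_lit 5) (nat_lit 130) (nat_lit 5) (nat_lit 141) (nat_lit 5) (nat_lit 272) (nat_lit 267) (nat_lit 181)) (XT.lf (nat_lit 0) (nat_lit 7918391373) (nat_lit 840) (nat_lit 5559973797) (nat_lit 924) (nat_lit 4266752525) (nat_lit 131) (nat_lit 5) (nat_lit 141) (nat_lit 5) (nat_lit 142) (nat_lit 5) (nat_lit 273) (nat_lit 267) (nat_lit 180))))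 (XT.nd (nat_lit 188) (nat_lit 672) (nat_lit 0) (XT.nd (nat_lit 94) (nat_lit 0) (nat_lit 84) (XT.lf (nat_lit 84) (nat_lit 3900429024) (nat_lit 0) (nat_lit 5374722788) (nat_lit 924) (nat_lit 8921566566) (nat_lit 132) (nat_lit 5) (nat_lit 131) (nat_lit 5) (nat_lit 142) (nat_lit 5) (nat_lit 274) (nat_lit 267) (nat_lit 179)) (XT.lf (nat_lit 0) (nat_lit 10830712594) (nat_lit 840) (nat_lit 4700982885) (nat_lit 924) (nat_lit 3132655498) (nat_lit 132) (nat_lit 5) (nat_lit 142) (nat_lit 5) (nat_lit 143) (nat_lit 5) (nat_lit 275) (nat_lit 267) (nat_lit 178))) (XT.nd (nat_lit 94) (nat_lit 756) (nat_lit 0) (XT.lf (nat_lit 84) (nat_lit 5449739810) (nat_lit 0) (nat_lit 7174484424) (nat_lit 924) (nat_lit 6523132334) (nat_lit 133) (nat_lit 5) (nat_lit 132) (nat_lit 5) (nat_lit 143) (nat_lit 5) (nat_lit 276) (nat_lit 267) (nat_lit 177)) (XT.nd (nat_lit 94) (nat_lit 840) (nat_lit 0) (XT.lf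 (nat_lit 0) (nat_lit 14600785275) (nat_lit 840) (nat_lit 3416773712) (nat_lit 84) (nat_lit 1632284758) (nat_lit 133) (nat_lit 5) (nat_lit 143) (nat_lit 5) (nat_lit 134) (nat_lit 5) (nat_lit 277) (nat_lit 267) (nat_lit 176)) (XT.lf (nat_lit 0) (nat_lit 7489588391) (nat_lit 840) (nat_lit 9409196426) (nat_lit 924) (nat_lit 3267539943) (nat_lit 123) (nat_lit 5) (nat_lit 133) (nat_lit 5) (nat_lit 134) (nat_lit 5) (nat_lit 278) (nat_lit 267) (nat_lit 175))))))))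
noncomputable def xc160 : XT := (XT.nd (nat_lit 1504) (nat_lit 2604) (nat_lit 0) (XT.nd (nat_lit 752) (nat_lit 1764) (nat_lit 0) (XT.nd (nat_lit 376) (nat_lit 756) (nat_lit 0) (XT.nd (nat_lit 188) (nat_lit 420) (nat_lit 0) (XT.nd (nat_lit 94) (nat_lit 588) (nat_lit 0) (XT.lf (nat_lit 0) (nat_lit 19049440396) (nat_lit 840) (nat_lit 308576428) (nat_lit 924) (nat_lit 1348296377) (nat_lit 123) (nat_lit 5) (nat_lit 133) (nat_lit 5) (nat_lit 134) (nat_lit 5) (nat_lit 279) (nat_lit 267) (nat_lit 174)) (XT.lf (nat_lit 0) (nat_lit 941141963) (nat_lit 588) (nat_lit 11192167827) (nat_lit 84) (nat_lit 9124691765) (nat_lit 116) (nat_lit 5) (nat_lit 123) (nat_lit 5) (nat_lit 117) (nat_lit 5) (nat_lit 280) (nat_lit 267) (nat_lit 173))) (XT.nd (nat_lit 94) (nat_lit 0) (nat_lit 0) (XT.lf (nat_lit 0) (nat_lit 576450061) (nat_lit 420) (nat_lit 2755088926) (nat_lit 504) (nat_lit 18503040260)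 (nat_lit 111) (nat_lit 5) (nat_lit 116) (nat_lit 5) (nat_lit 117) (nat_lit 5) (nat_lit 281) (nat_lit 267) (nat_lit 172)) (XT.lf (nat_lit 0) (nat_lit 6134401713) (nat_lit 504) (nat_lit 9233329458) (nat_lit 84) (nat_lit 7057607361) (nat_lit 111) (nat_lit 5) (nat_lit 117) (nat_lit 5) (nat_lit 112) (nat_lit 5) (nat_lit 282) (nat_lit 267) (nat_lit 171)))) (XT.nd (nat_lit 188) (nat_lit 336) (nat_lit 0) (XT.nd (nat_lit 94) (nat_lit 0) (nat_lit 0) (XT.lf (nat_lit 0) (nat_lit 3447355530) (nat_lit 420) (nat_lit 5719104235) (nat_lit 504) (nat_lit 13874723405) (nat_lit 106) (nat_lit 5) (nat_lit 111) (nat_lit 5) (nat_lit 112) (nat_lit 5) (nat_lit 283) (nat_lit 267) (nat_lit 170)) (XT.lf (nat_lit 0) (nat_lit 12568301993) (nat_lit 504) (nat_lit 6679639073) (nat_lit 84) (nat_lit 4428969912) (nat_lit 106) (nat_lit 5) (nat_lit 112) (nat_lit 5) (nat_lit 107) (nat_lit 5) (nat_lit 284) (nat_lit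 267) (nat_lit 169))) (XT.nd (nat_lit 94) (nat_lit 0) (nat_lit 0) (XT.lf (nat_lit 0) (nat_lit 7000243906) (nat_lit 336) (nat_lit 9333864462) (nat_lit 420) (nat_lit 8000623205) (nat_lit 102) (nat_lit 5) (nat_lit 106) (nat_lit 5) (nat_lit 107) (nat_lit 5) (nat_lit 285) (nat_lit 267) (nat_lit 168)) (XT.lf (nat_lit 0) (nat_lit 20411062501) (nat_lit 420) (nat_lit 3452986477) (nat_lit 84) (nat_lit 1155251349) (nat_lit 102) (nat_lit 5) (nat_lit 107) (nat_lit 5) (nat_lit 103) (nat_lit 5) (nat_lit 286) (nat_lit 267) (nat_lit 167))))) (XT.nd (nat_lit 376) (nat_lit 672) (nat_lit 0) (XT.nd (nat_lit 188) (nat_lit 336) (nat_lit 0) (XT.nd (nat_lit 94) (nat_lit 420) (nat_lit 0) (XT.lf (nat_lit 0) (nat_lit 11321879886) (nat_lit 336) (nat_lit 13691271547) (nat_lit 420) (nat_lit 708881731) (nat_lit 98) (nat_lit 5) (nat_lit 102) (nat_lit 5) (nat_lit 103) (nat_lit 5) (nat_lit 287) (nat_lit 267)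 (nat_lit 166)) (XT.lf (nat_lit 0) (nat_lit 448757617) (nat_lit 336) (nat_lit 2886393596) (nat_lit 420) (nat_lit 23119205400) (nat_lit 93) (nat_lit 5) (nat_lit 97) (nat_lit 5) (nat_lit 98) (nat_lit 5) (nat_lit 288) (nat_lit 267) (nat_lit 165))) (XT.nd (nat_lit 94) (nat_lit 336) (nat_lit 0) (XT.lf (nat_lit 0) (nat_lit 7929333220) (nat_lit 420) (nat_lit 10829125562) (nat_lit 84) (nat_lit 8445667878) (nat_lit 93) (nat_lit 5) (nat_lit 98) (nat_lit 5) (nat_lit 94) (nat_lit 5) (nat_lit 289) (nat_lit 267) (nat_lit 164)) (XT.lf (nat_lit 0) (nat_lit 5215895341) (nat_lit 336) (nat_lit 7658305033) (nat_lit 420) (nat_lit 15111136034) (nat_lit 89) (nat_lit 5) (nat_lit 93) (nat_lit 5) (nat_lit 94) (nat_lit 5) (nat_lit 290) (nat_lit 267) (nat_lit 163)))) (XT.nd (nat_lit 188) (nat_lit 420) (nat_lit 0) (XT.nd (nat_lit 94) (nat_lit 252) (nat_lit 0) (XT.lf (nat_lit 0) (nat_lit 18307523563)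 (nat_lit 420) (nat_lit 6432799061) (nat_lit 84) (nat_lit 4053223384) (nat_lit 89) (nat_lit 5) (nat_lit 94) (nat_lit 5) (nat_lit 90) (nat_lit 5) (nat_lit 291) (nat_lit 267) (nat_lit 162)) (XT.lf (nat_lit 0) (nat_lit 10935530825) (nat_lit 252) (nat_lit 13366031463) (nat_lit 336) (nat_lit 5326151332) (nat_lit 86) (nat_lit 5) (nat_lit 89) (nat_lit 5) (nat_lit 90) (nat_lit 5) (nat_lit 292) (nat_lit 267) (nat_lit 161))) (XT.nd (nat_lit 94) (nat_lit 336) (nat_lit 0) (XT.lf (nat_lit 0) (nat_lit 192357052) (nat_lit 336) (nat_lit 1115435877) (nat_lit 84) (nat_lit 29190546133) (nat_lit 85) (nat_lit 5) (nat_lit 89) (nat_lit 5) (nat_lit 86) (nat_lit 5) (nat_lit 293) (nat_lit 267) (nat_lit 160)) (XT.lf (nat_lit 0) (nat_lit 6262321844) (nat_lit 420) (nat_lit 13764012927) (nat_lit 84) (nat_lit 11359069077) (nat_lit 81) (nat_lit 5) (nat_lit 86) (nat_lit 5) (nat_lit 82) (nat_lit 5) (nat_lit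 294) (nat_lit 267) (nat_lit 159)))))) (XT.nd (nat_lit 752) (nat_lit 1344) (nat_lit 0) (XT.nd (nat_lit 376) (nat_lit 672) (nat_lit 0) (XT.nd (nat_lit 188) (nat_lit 336) (nat_lit 0) (XT.nd (nat_lit 94) (nat_lit 0) (nat_lit 0) (XT.lf (nat_lit 0) (nat_lit 5151675879) (nat_lit 252) (nat_lit 7598515819) (nat_lit 336) (nat_lit 19560909833) (nat_lit 78) (nat_lit 5) (nat_lit 81) (nat_lit 5) (nat_lit 82) (nat_lit 5) (nat_lit 295) (nat_lit 267) (nat_lit 158)) (XT.lf (nat_lit 0) (nat_lit 19877943464) (nat_lit 336) (nat_lit 7878845479) (nat_lit 84) (nat_lit 5510520736) (nat_lit 78) (nat_lit 5) (nat_lit 82) (nat_lit 5) (nat_lit 79) (nat_lit 5) (nat_lit 296) (nat_lit 267) (nat_lit 157))) (XT.nd (nat_lit 94) (nat_lit 84) (nat_lit 0) (XT.lf (nat_lit 0) (nat_lit 12636601326) (nat_lit 252) (nat_lit 15041117487) (nat_lit 336) (nat_lit 6577827621) (nat_lit 75) (nat_lit 5) (nat_lit 78) (nat_lit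 5) (nat_lit 79) (nat_lit 5) (nat_lit 297) (nat_lit 267) (nat_lit 156)) (XT.lf (nat_lit 0) (nat_lit 685361895) (nat_lit 336) (nat_lit 855425504) (nat_lit 84) (nat_lit 33745486576) (nat_lit 74) (nat_lit 5) (nat_lit 78) (nat_lit 5) (nat_lit 75) (nat_lit 5) (nat_lit 298) (nat_lit 267) (nat_lit 155)))) (XT.nd (nat_lit 188) (nat_lit 168) (nat_lit 0) (XT.nd (nat_lit 94) (nat_lit 252) (nat_lit 0) (XT.lf (nat_lit 0) (nat_lit 8625238114) (nat_lit 336) (nat_lit 15032642216) (nat_lit 84) (nat_lit 12678536632) (nat_lit 71) (nat_lit 5) (nat_lit 75) (nat_lit 5) (nat_lit 72) (nat_lit 5) (nat_lit 299) (nat_lit 267) (nat_lit 154)) (XT.lf (nat_lit 0) (nat_lit 7363705327) (nat_lit 252) (nat_lit 9747585681) (nat_lit 336) (nat_lit 20320316948) (nat_lit 68) (nat_lit 5) (nat_lit 71) (nat_lit 5) (nat_lit 72) (nat_lit 5) (nat_lit 300) (nat_lit 267) (nat_lit 153))) (XT.nd (nat_lit 94) (nat_lit 168)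 (nat_lit 0) (XT.lf (nat_lit 0) (nat_lit 26350580101) (nat_lit 336) (nat_lit 7255950278) (nat_lit 84) (nat_lit 4958581442) (nat_lit 68) (nat_lit 5) (nat_lit 72) (nat_lit 5) (nat_lit 69) (nat_lit 5) (nat_lit 301) (nat_lit 267) (nat_lit 152)) (XT.lf (nat_lit 0) (nat_lit 17074860948) (nat_lit 168) (nat_lit 19397950350) (nat_lit 252) (nat_lit 3261430700) (nat_lit 66) (nat_lit 5) (nat_lit 68) (nat_lit 5) (nat_lit 69) (nat_lit 5) (nat_lit 302) (nat_lit 267) (nat_lit 151))))) (XT.nd (nat_lit 376) (nat_lit 840) (nat_lit 0) (XT.nd (nat_lit 188) (nat_lit 168) (nat_lit 0) (XT.nd (nat_lit 94) (nat_lit 0) (nat_lit 0) (XT.lf (nat_lit 0) (nat_lit 1872002018) (nat_lit 252) (nat_lit 4219587197) (nat_lit 336) (nat_lit 34858008835) (nat_lit 62) (nat_lit 5) (nat_lit 65) (nat_lit 5) (nat_lit 66) (nat_lit 5) (nat_lit 303) (nat_lit 267) (nat_lit 150)) (XT.lf (nat_lit 0) (nat_lit 16370351670) (nat_lit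 336) (nat_lit 14041162940) (nat_lit 84) (nat_lit 11783149140) (nat_lit 62) (nat_lit 5) (nat_lit 66) (nat_lit 5) (nat_lit 63) (nat_lit 5) (nat_lit 304) (nat_lit 267) (nat_lit 149))) (XT.nd (nat_lit 94) (nat_lit 0) (nat_lit 0) (XT.lf (nat_lit 0) (nat_lit 12572151183) (nat_lit 168) (nat_lit 14851325355) (nat_lit 252) (nat_lit 16065484983) (nat_lit 60) (nat_lit 5) (nat_lit 62) (nat_lit 5) (nat_lit 63) (nat_lit 5) (nat_lit 305) (nat_lit 267) (nat_lit 148)) (XT.lf (nat_lit 0) (nat_lit 39289194392) (nat_lit 252) (nat_lit 3867809052) (nat_lit 84) (nat_lit 1677973900) (nat_lit 60) (nat_lit 5) (nat_lit 63) (nat_lit 5) (nat_lit 61) (nat_lit 5) (nat_lit 306) (nat_lit 267) (nat_lit 147)))) (XT.nd (nat_lit 188) (nat_lit 420) (nat_lit 0) (XT.nd (nat_lit 94) (nat_lit 168) (nat_lit 0) (XT.lf (nat_lit 0) (nat_lit 5964589153) (nat_lit 252) (nat_lit 21227744912) (nat_lit 84) (nat_lit 19019630634)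 (nat_lit 57) (nat_lit 5) (nat_lit 60) (nat_lit 5) (nat_lit 58) (nat_lit 5) (nat_lit 307) (nat_lit 267) (nat_lit 146)) (XT.lf (nat_lit 0) (nat_lit 7911991933) (nat_lit 168) (nat_lit 10137514901) (nat_lit 252) (nat_lit 29594478782) (nat_lit 55) (nat_lit 5) (nat_lit 57) (nat_lit 5) (nat_lit 58) (nat_lit 5) (nat_lit 308) (nat_lit 267) (nat_lit 145))) (XT.nd (nat_lit 94) (nat_lit 420) (nat_lit 0) (XT.lf (nat_lit 0) (nat_lit 31220728818) (nat_lit 252) (nat_lit 10019055860) (nat_lit 84) (nat_lit 7883719979) (nat_lit 55) (nat_lit 5) (nat_lit 58) (nat_lit 5) (nat_lit 56) (nat_lit 5) (nat_lit 309) (nat_lit 267) (nat_lit 144)) (XT.nd (nat_lit 94) (nat_lit 252) (nat_lit 0) (XT.lf (nat_lit 0) (nat_lit 21700350913) (nat_lit 168) (nat_lit 23850725076) (nat_lit 252) (nat_lit 5100895458) (nat_lit 53) (nat_lit 5) (nat_lit 55) (nat_lit 5) (nat_lit 56) (nat_lit 5) (nat_lit 310) (nat_lit 267)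 (nat_lit 143)) (XT.lf (nat_lit 0) (nat_lit 3062643846) (nat_lit 168) (nat_lit 5227340182) (nat_lit 252) (nat_lit 43949572581) (nat_lit 50) (nat_lit 5) (nat_lit 52) (nat_lit 5) (nat_lit 53) (nat_lit 5) (nat_lit 311) (nat_lit 267) (nat_lit 142))))))))
noncomputable def xc161 : XT := (XT.nd (nat_lit 1598) (nat_lit 1512) (nat_lit 0) (XT.nd (nat_lit 752) (nat_lit 840) (nat_lit 0) (XT.nd (nat_lit 376) (nat_lit 504) (nat_lit 0) (XT.nd (nat_lit 188) (nat_lit 168) (nat_lit 0) (XT.nd (nat_lit 94) (nat_lit 168) (nat_lit 0) (XT.lf (nat_lit 0) (nat_lit 22896660323) (nat_lit 252) (nat_lit 16522201009) (nat_lit 84) (nat_lit 14447594817) (nat_lit 50) (nat_lit 5) (nat_lit 53) (nat_lit 5) (nat_lit 51) (nat_lit 5) (nat_lit 312) (nat_lit 267) (nat_lit 141)) (XT.lf (nat_lit 0) (nat_lit 18256635991) (nat_lit 168) (nat_lit 20343614214) (nat_lit 252) (nat_lit 16956121474) (nat_lit 48) (nat_lit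 5) (nat_lit 50) (nat_lit 5) (nat_lit 51) (nat_lit 5) (nat_lit 313) (nat_lit 267) (nat_lit 140))) (XT.nd (nat_lit 94) (nat_lit 168) (nat_lit 0) (XT.lf (nat_lit 0) (nat_lit 55340902562) (nat_lit 168) (nat_lit 23863348) (nat_lit 252) (nat_lit 1952229758) (nat_lit 48) (nat_lit 5) (nat_lit 50) (nat_lit 5) (nat_lit 51) (nat_lit 5) (nat_lit 314) (nat_lit 267) (nat_lit 139)) (XT.lf (nat_lit 0) (nat_lit 14264389014) (nat_lit 168) (nat_lit 23427390594) (nat_lit 84) (nat_lit 21417883062) (nat_lit 46) (nat_lit 5) (nat_lit 48) (nat_lit 5) (nat_lit 47) (nat_lit 5) (nat_lit 315) (nat_lit 267) (nat_lit 138)))) (XT.nd (nat_lit 188) (nat_lit 336) (nat_lit 0) (XT.nd (nat_lit 94) (nat_lit 0) (nat_lit 0) (XT.lf (nat_lit 0) (nat_lit 14733541396) (nat_lit 168) (nat_lit 16753227430) (nat_lit 252) (nat_lit 29490567116) (nat_lit 44) (nat_lit 5) (nat_lit 46) (nat_lit 5) (nat_lit 47) (nat_lit 5) (nat_lit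 316) (nat_lit 267) (nat_lit 137)) (XT.lf (nat_lit 0) (nat_lit 50051347949) (nat_lit 252) (nat_lit 7397866811) (nat_lit 84) (nat_lit 5465124102) (nat_lit 44) (nat_lit 5) (nat_lit 47) (nat_lit 5) (nat_lit 45) (nat_lit 4) (nat_lit 317) (nat_lit 267) (nat_lit 136))) (XT.nd (nat_lit 94) (nat_lit 168) (nat_lit 0) (XT.lf (nat_lit 0) (nat_lit 5267037132) (nat_lit 168) (nat_lit 30789096826) (nat_lit 84) (nat_lit 28847561546) (nat_lit 42) (nat_lit 5) (nat_lit 44) (nat_lit 5) (nat_lit 43) (nat_lit 5) (nat_lit 318) (nat_lit 267) (nat_lit 135)) (XT.lf (nat_lit 0) (nat_lit 11109246744) (nat_lit 168) (nat_lit 13059155903) (nat_lit 252) (nat_lit 42798718051) (nat_lit 40) (nat_lit 5) (nat_lit 42) (nat_lit 5) (nat_lit 43) (nat_lit 5) (nat_lit 319) (nat_lit 267) (nat_lit 134))))) (XT.nd (nat_lit 376) (nat_lit 504) (nat_lit 0) (XT.nd (nat_lit 188) (nat_lit 252) (nat_lit 0) (XT.nd (nat_lit 94)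 (nat_lit 84) (nat_lit 0) (XT.lf (nat_lit 0) (nat_lit 44714278580) (nat_lit 252) (nat_lit 13124559081) (nat_lit 84) (nat_lit 11259907384) (nat_lit 40) (nat_lit 5) (nat_lit 43) (nat_lit 5) (nat_lit 41) (nat_lit 4) (nat_lit 320) (nat_lit 267) (nat_lit 133)) (XT.lf (nat_lit 0) (nat_lit 32567322206) (nat_lit 84) (nat_lit 34439207573) (nat_lit 168) (nat_lit 4294466757) (nat_lit 39) (nat_lit 5) (nat_lit 40) (nat_lit 5) (nat_lit 41) (nat_lit 4) (nat_lit 321) (nat_lit 267) (nat_lit 132))) (XT.nd (nat_lit 94) (nat_lit 0) (nat_lit 0) (XT.lf (nat_lit 0) (nat_lit 7360462867) (nat_lit 168) (nat_lit 9239237445) (nat_lit 252) (nat_lit 56983676842) (nat_lit 36) (nat_lit 5) (nat_lit 38) (nat_lit 5) (nat_lit 39) (nat_lit 5) (nat_lit 322) (nat_lit 267) (nat_lit 131)) (XT.lf (nat_lit 0) (nat_lit 39326407427) (nat_lit 252) (nat_lit 19199449731) (nat_lit 84) (nat_lit 17403891893) (nat_lit 36)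 (nat_lit 5) (nat_lit 39) (nat_lit 5) (nat_lit 37) (nat_lit 4) (nat_lit 323) (nat_lit 267) (nat_lit 130)))) (XT.nd (nat_lit 188) (nat_lit 168) (nat_lit 0) (XT.nd (nat_lit 94) (nat_lit 252) (nat_lit 0) (XT.lf (nat_lit 0) (nat_lit 31010142797) (nat_lit 84) (nat_lit 32811651794) (nat_lit 168) (nat_lit 14540027717) (nat_lit 35) (nat_lit 5) (nat_lit 36) (nat_lit 5) (nat_lit 37) (nat_lit 4) (nat_lit 324) (nat_lit 267) (nat_lit 129)) (XT.lf (nat_lit 0) (nat_lit 3462224105) (nat_lit 168) (nat_lit 5269400872) (nat_lit 252) (nat_lit 72158076425) (nat_lit 32) (nat_lit 5) (nat_lit 34) (nat_lit 5) (nat_lit 35) (nat_lit 5) (nat_lit 325) (nat_lit 267) (nat_lit 128))) (XT.nd (nat_lit 94) (nat_lit 168) (nat_lit 0) (XT.lf (nat_lit 0) (nat_lit 33859285905) (nat_lit 252) (nat_lit 25669989382) (nat_lit 84) (nat_lit 23943727816) (nat_lit 32) (nat_lit 5) (nat_lit 35) (nat_lit 5) (nat_lit 33) (nat_lit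 4) (nat_lit 326) (nat_lit 267) (nat_lit 127)) (XT.nd (nat_lit 94) (nat_lit 84) (nat_lit 0) (XT.lf (nat_lit 0) (nat_lit 29528241433) (nat_lit 84) (nat_lit 31259399032) (nat_lit 168) (nat_lit 25370613894) (nat_lit 31) (nat_lit 5) (nat_lit 32) (nat_lit 5) (nat_lit 33) (nat_lit 4) (nat_lit 327) (nat_lit 267) (nat_lit 126)) (XT.lf (nat_lit 0) (nat_lit 520712093) (nat_lit 168) (nat_lit 592735801) (nat_lit 84) (nat_lit 87842315373) (nat_lit 30) (nat_lit 5) (nat_lit 32) (nat_lit 5) (nat_lit 31) (nat_lit 5) (nat_lit 328) (nat_lit 267) (nat_lit 125))))))) (XT.nd (nat_lit 752) (nat_lit 756) (nat_lit 0) (XT.nd (nat_lit 376) (nat_lit 336) (nat_lit 0) (XT.nd (nat_lit 188) (nat_lit 168) (nat_lit 0) (XT.nd (nat_lit 94) (nat_lit 84) (nat_lit 0) (XT.lf (nat_lit 0) (nat_lit 28282587137) (nat_lit 252) (nat_lit 32587863279) (nat_lit 84) (nat_lit 30930471532) (nat_lit 28) (nat_lit 5) (nat_lit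 31) (nat_lit 5) (nat_lit 29) (nat_lit 4) (nat_lit 329) (nat_lit 267) (nat_lit 124)) (XT.lf (nat_lit 0) (nat_lit 28117833694) (nat_lit 84) (nat_lit 29779253419) (nat_lit 168) (nat_lit 36868024890) (nat_lit 27) (nat_lit 5) (nat_lit 28) (nat_lit 5) (nat_lit 29) (nat_lit 4) (nat_lit 330) (nat_lit 267) (nat_lit 123))) (XT.nd (nat_lit 94) (nat_lit 168) (nat_lit 0) (XT.lf (nat_lit 0) (nat_lit 89595094379) (nat_lit 168) (nat_lit 4919118032) (nat_lit 0) (nat_lit 3333160037) (nat_lit 27) (nat_lit 5) (nat_lit 29) (nat_lit 4) (nat_lit 27) (nat_lit 4) (nat_lit 331) (nat_lit 267) (nat_lit 122)) (XT.lf (nat_lit 0) (nat_lit 22563876254) (nat_lit 168) (nat_lit 40009467541) (nat_lit 84) (nat_lit 38420030026) (nat_lit 25) (nat_lit 5) (nat_lit 27) (nat_lit 5) (nat_lit 26) (nat_lit 4) (nat_lit 332) (nat_lit 267) (nat_lit 121)))) (XT.nd (nat_lit 188) (nat_lit 252) (nat_lit 0) (XT.nd (nat_lit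 94) (nat_lit 0) (nat_lit 0) (XT.lf (nat_lit 0) (nat_lit 26775350786) (nat_lit 84) (nat_lit 28368102129) (nat_lit 168) (nat_lit 49121460921) (nat_lit 24) (nat_lit 5) (nat_lit 25) (nat_lit 5) (nat_lit 26) (nat_lit 4) (nat_lit 333) (nat_lit 267) (nat_lit 120)) (XT.lf (nat_lit 0) (nat_lit 90155776081) (nat_lit 168) (nat_lit 9511989083) (nat_lit 0) (nat_lit 7992077303) (nat_lit 24) (nat_lit 5) (nat_lit 26) (nat_lit 4) (nat_lit 24) (nat_lit 4) (nat_lit 334) (nat_lit 267) (nat_lit 119))) (XT.nd (nat_lit 94) (nat_lit 84) (nat_lit 0) (XT.lf (nat_lit 0) (nat_lit 16668356753) (nat_lit 168) (nat_lit 47996430043) (nat_lit 84) (nat_lit 46473655653) (nat_lit 22) (nat_lit 5) (nat_lit 24) (nat_lit 5) (nat_lit 23) (nat_lit 4) (nat_lit 335) (nat_lit 267) (nat_lit 118)) (XT.lf (nat_lit 0) (nat_lit 25497422993) (nat_lit 84) (nat_lit 27022923677) (nat_lit 168) (nat_lit 62228318313) (nat_lit 21)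 (nat_lit 5) (nat_lit 22) (nat_lit 5) (nat_lit 23) (nat_lit 4) (nat_lit 336) (nat_lit 267) (nat_lit 117))))) (XT.nd (nat_lit 376) (nat_lit 504) (nat_lit 0) (XT.nd (nat_lit 188) (nat_lit 84) (nat_lit 0) (XT.nd (nat_lit 94) (nat_lit 168) (nat_lit 0) (XT.lf (nat_lit 0) (nat_lit 91183668656) (nat_lit 168) (nat_lit 14380061991) (nat_lit 0) (nat_lit 12924731368) (nat_lit 21) (nat_lit 5) (nat_lit 23) (nat_lit 4) (nat_lit 21) (nat_lit 4) (nat_lit 337) (nat_lit 267) (nat_lit 116)) (XT.lf (nat_lit 0) (nat_lit 10558590864) (nat_lit 168) (nat_lit 56616181091) (nat_lit 84) (nat_lit 55158495392) (nat_lit 19) (nat_lit 5) (nat_lit 21) (nat_lit 5) (nat_lit 20) (nat_lit 4) (nat_lit 338) (nat_lit 267) (nat_lit 115))) (XT.nd (nat_lit 94) (nat_lit 0) (nat_lit 0) (XT.lf (nat_lit 0) (nat_lit 24280865033) (nat_lit 84) (nat_lit 25740793662) (nat_lit 168) (nat_lit 76295066548) (nat_lit 18) (nat_lit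 5) (nat_lit 19) (nat_lit 5) (nat_lit 20) (nat_lit 4) (nat_lit 339) (nat_lit 267) (nat_lit 114)) (XT.lf (nat_lit 0) (nat_lit 92707303860) (nat_lit 168) (nat_lit 19561011799) (nat_lit 0) (nat_lit 18168569178) (nat_lit 18) (nat_lit 5) (nat_lit 20) (nat_lit 4) (nat_lit 18) (nat_lit 4) (nat_lit 340) (nat_lit 267) (nat_lit 113)))) (XT.nd (nat_lit 188) (nat_lit 252) (nat_lit 0) (XT.nd (nat_lit 94) (nat_lit 84) (nat_lit 0) (XT.lf (nat_lit 0) (nat_lit 4194191571) (nat_lit 168) (nat_lit 65942579487) (nat_lit 84) (nat_lit 64548199340) (nat_lit 16) (nat_lit 5) (nat_lit 18) (nat_lit 5) (nat_lit 17) (nat_lit 4) (nat_lit 341) (nat_lit 267) (nat_lit 112)) (XT.lf (nat_lit 0) (nat_lit 23122663025) (nat_lit 84) (nat_lit 24518888436) (nat_lit 168) (nat_lit 91438214886) (nat_lit 15) (nat_lit 5) (nat_lit 16) (nat_lit 5) (nat_lit 17) (nat_lit 4) (nat_lit 342) (nat_lit 267) (nat_lit 111))) (XT.nd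 (nat_lit 94) (nat_lit 252) (nat_lit 0) (XT.lf (nat_lit 0) (nat_lit 94759032410) (nat_lit 168) (nat_lit 25095897113) (nat_lit 0) (nat_lit 23764484919) (nat_lit 15) (nat_lit 5) (nat_lit 17) (nat_lit 4) (nat_lit 15) (nat_lit 4) (nat_lit 343) (nat_lit 267) (nat_lit 110)) (XT.nd (nat_lit 94) (nat_lit 168) (nat_lit 0) (XT.lf (nat_lit 0) (nat_lit 72213271966) (nat_lit 84) (nat_lit 73546278169) (nat_lit 84) (nat_lit 2550136670) (nat_lit 14) (nat_lit 4) (nat_lit 15) (nat_lit 5) (nat_lit 15) (nat_lit 4) (nat_lit 344) (nat_lit 267) (nat_lit 109)) (XT.lf (nat_lit 0) (nat_lit 22019962831) (nat_lit 84) (nat_lit 23354487136) (nat_lit 168) (nat_lit 107785377510) (nat_lit 12) (nat_lit 5) (nat_lit 13) (nat_lit 5) (nat_lit 14) (nat_lit 4) (nat_lit 345) (nat_lit 267) (nat_lit 108))))))))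
noncomputable def xc162 : XT := (XT.nd (nat_lit 38258) (nat_lit 0) (nat_lit 8232) (XT.nd (nat_lit 752) (nat_lit 420) (nat_lit 0) (XT.nd (nat_lit 376) (nat_lit 336) (nat_lit 0) (XT.nd (nat_lit 188) (nat_lit 168) (nat_lit 0) (XT.nd (nat_lit 94) (nat_lit 84) (nat_lit 0) (XT.lf (nat_lit 0) (nat_lit 97375377675) (nat_lit 168) (nat_lit 31029534535) (nat_lit 0) (nat_lit 29757182042) (nat_lit 12) (nat_lit 5) (nat_lit 14) (nat_lit 4) (nat_lit 12) (nat_lit 4) (nat_lit 346) (nat_lit 267) (nat_lit 107)) (XT.lf (nat_lit 0) (nat_lit 76136060650) (nat_lit 84) (nat_lit 77409724537) (nat_lit 84) (nat_lit 9790217510) (nat_lit 11) (nat_lit 4) (nat_lit 12) (nat_lit 5) (nat_lit 12) (nat_lit 4) (nat_lit 347) (nat_lit 267) (nat_lit 106))) (XT.nd (nat_lit 94) (nat_lit 0) (nat_lit 0) (XT.lf (nat_lit 0) (nat_lit 20970059569) (nat_lit 84) (nat_lit 22244972402) (nat_lit 168) (nat_lit 125476447113)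 (nat_lit 9) (nat_lit 5) (nat_lit 10) (nat_lit 5) (nat_lit 11) (nat_lit 4) (nat_lit 348) (nat_lit 267) (nat_lit 105)) (XT.lf (nat_lit 0) (nat_lit 100597426565) (nat_lit 168) (nat_lit 37410909290) (nat_lit 0) (nat_lit 36195573759) (nat_lit 9) (nat_lit 5) (nat_lit 11) (nat_lit 4) (nat_lit 9) (nat_lit 4) (nat_lit 349) (nat_lit 267) (nat_lit 104)))) (XT.nd (nat_lit 188) (nat_lit 84) (nat_lit 0) (XT.nd (nat_lit 94) (nat_lit 168) (nat_lit 0) (XT.lf (nat_lit 0) (nat_lit 80626997049) (nat_lit 84) (nat_lit 81843411467) (nat_lit 84) (nat_lit 17440479774) (nat_lit 8) (nat_lit 4) (nat_lit 9) (nat_lit 5) (nat_lit 9) (nat_lit 4) (nat_lit 350) (nat_lit 267) (nat_lit 103)) (XT.lf (nat_lit 0) (nat_lit 19970388145) (nat_lit 84) (nat_lit 21187830074) (nat_lit 168) (nat_lit 144664887897) (nat_lit 6) (nat_lit 5) (nat_lit 7) (nat_lit 5) (nat_lit 8) (nat_lit 4) (nat_lit 351) (nat_lit 267) (nat_lit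 102))) (XT.nd (nat_lit 94) (nat_lit 84) (nat_lit 0) (XT.lf (nat_lit 0) (nat_lit 104471261534) (nat_lit 168) (nat_lit 44293626033) (nat_lit 0) (nat_lit 43133225546) (nat_lit 6) (nat_lit 5) (nat_lit 8) (nat_lit 4) (nat_lit 6) (nat_lit 4) (nat_lit 352) (nat_lit 267) (nat_lit 101)) (XT.lf (nat_lit 0) (nat_lit 85736339134) (nat_lit 84) (nat_lit 86897627225) (nat_lit 84) (nat_lit 25558703633) (nat_lit 5) (nat_lit 4) (nat_lit 6) (nat_lit 5) (nat_lit 6) (nat_lit 4) (nat_lit 353) (nat_lit 267) (nat_lit 100))))) (XT.nd (nat_lit 376) (nat_lit 0) (nat_lit 0) (XT.nd (nat_lit 188) (nat_lit 252) (nat_lit 0) (XT.nd (nat_lit 94) (nat_lit 0) (nat_lit 0) (XT.lf (nat_lit 0) (nat_lit 19018514645) (nat_lit 84) (nat_lit 20180648073) (nat_lit 168) (nat_lit 165519160133) (nat_lit 3) (nat_lit 5) (nat_lit 4) (nat_lit 5) (nat_lit 5) (nat_lit 4) (nat_lit 354) (nat_lit 267) (nat_lit 99)) (XT.lf (nat_lit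 0) (nat_lit 109048437973) (nat_lit 168) (nat_lit 51736404163) (nat_lit 0) (nat_lit 50628843678) (nat_lit 3) (nat_lit 5) (nat_lit 5) (nat_lit 4) (nat_lit 3) (nat_lit 4) (nat_lit 355) (nat_lit 267) (nat_lit 98))) (XT.nd (nat_lit 94) (nat_lit 168) (nat_lit 0) (XT.lf (nat_lit 0) (nat_lit 91519888494) (nat_lit 84) (nat_lit 92628179213) (nat_lit 84) (nat_lit 34207854684) (nat_lit 2) (nat_lit 4) (nat_lit 3) (nat_lit 5) (nat_lit 3) (nat_lit 4) (nat_lit 356) (nat_lit 267) (nat_lit 97)) (XT.lf (nat_lit 0) (nat_lit 327639042695) (nat_lit 0) (nat_lit 0) (nat_lit 0) (nat_lit 0) (nat_lit 0) (nat_lit 0) (nat_lit 1) (nat_lit 0) (nat_lit 1) (nat_lit 0) (nat_lit 357) (nat_lit 267) (nat_lit 96)))) (XT.nd (nat_lit 36848) (nat_lit 0) (nat_lit 10752) (XT.nd (nat_lit 36754) (nat_lit 0) (nat_lit 10752) (XT.lf (nat_lit 0) (nat_lit 343820463271) (nat_lit 0) (nat_lit 0) (nat_lit 0) (nat_lit 0) (nat_lit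 0) (nat_lit 0) (nat_lit 1) (nat_lit 0) (nat_lit 1) (nat_lit 0) (nat_lit 358) (nat_lit 267) (nat_lit 95)) (XT.lf (nat_lit 0) (nat_lit 1985715252) (nat_lit 924) (nat_lit 3027437660) (nat_lit 924) (nat_lit 3027437660) (nat_lit 128) (nat_lit 3) (nat_lit 139) (nat_lit 3) (nat_lit 139) (nat_lit 5) (nat_lit 268) (nat_lit 268) (nat_lit 184))) (XT.nd (nat_lit 94) (nat_lit 0) (nat_lit 84) (XT.lf (nat_lit 84) (nat_lit 2051371966) (nat_lit 0) (nat_lit 2306159147) (nat_lit 924) (nat_lit 12111338818) (nat_lit 129) (nat_lit 5) (nat_lit 128) (nat_lit 3) (nat_lit 139) (nat_lit 5) (nat_lit 269) (nat_lit 268) (nat_lit 183)) (XT.nd (nat_lit 94) (nat_lit 0) (nat_lit 0) (XT.lf (nat_lit 0) (nat_lit 4941385212) (nat_lit 840) (nat_lit 6199694731) (nat_lit 924) (nat_lit 5725940790) (nat_lit 129) (nat_lit 5) (nat_lit 139) (nat_lit 5) (nat_lit 140) (nat_lit 5) (nat_lit 270) (nat_lit 268) (nat_lit 182))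 (XT.lf (nat_lit 84) (nat_lit 2460627550) (nat_lit 0) (nat_lit 3154476237) (nat_lit 924) (nat_lit 11666941701) (nat_lit 130) (nat_lit 5) (nat_lit 129) (nat_lit 5) (nat_lit 140) (nat_lit 5) (nat_lit 271) (nat_lit 268) (nat_lit 181))))))) (XT.nd (nat_lit 752) (nat_lit 2100) (nat_lit 0) (XT.nd (nat_lit 376) (nat_lit 588) (nat_lit 0) (XT.nd (nat_lit 188) (nat_lit 0) (nat_lit 84) (XT.nd (nat_lit 94) (nat_lit 0) (nat_lit 0) (XT.lf (nat_lit 0) (nat_lit 6496038325) (nat_lit 840) (nat_lit 6036773675) (nat_lit 924) (nat_lit 5176332978) (nat_lit 130) (nat_lit 5) (nat_lit 140) (nat_lit 5) (nat_lit 141) (nat_lit 5) (nat_lit 272) (nat_lit 268) (nat_lit 180)) (XT.lf (nat_lit 84) (nat_lit 3229213314) (nat_lit 0) (nat_lit 4279780127) (nat_lit 924) (nat_lit 10644207309) (nat_lit 131) (nat_lit 5) (nat_lit 130) (nat_lit 5) (nat_lit 141) (nat_lit 5) (nat_lit 273) (nat_lit 268) (nat_lit 179)))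 (XT.nd (nat_lit 94) (nat_lit 0) (nat_lit 0) (XT.lf (nat_lit 0) (nat_lit 8731422326) (nat_lit 840) (nat_lit 5526542750) (nat_lit 924) (nat_lit 4353552935) (nat_lit 131) (nat_lit 5) (nat_lit 141) (nat_lit 5) (nat_lit 142) (nat_lit 5) (nat_lit 274) (nat_lit 268) (nat_lit 178)) (XT.lf (nat_lit 84) (nat_lit 4401857152) (nat_lit 0) (nat_lit 5739085056) (nat_lit 924) (nat_lit 8945510449) (nat_lit 132) (nat_lit 5) (nat_lit 131) (nat_lit 5) (nat_lit 142) (nat_lit 5) (nat_lit 275) (nat_lit 268) (nat_lit 177)))) (XT.nd (nat_lit 188) (nat_lit 756) (nat_lit 0) (XT.nd (nat_lit 94) (nat_lit 0) (nat_lit 0) (XT.lf (nat_lit 0) (nat_lit 11753714713) (nat_lit 840) (nat_lit 4623649831) (nat_lit 924) (nat_lit 3201130659) (nat_lit 132) (nat_lit 5) (nat_lit 142) (nat_lit 5) (nat_lit 143) (nat_lit 5) (nat_lit 276) (nat_lit 268) (nat_lit 176)) (XT.lf (nat_lit 84) (nat_lit 6029570576) (nat_lit 0)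 (nat_lit 7593964784) (nat_lit 924) (nat_lit 6462784040) (nat_lit 133) (nat_lit 5) (nat_lit 132) (nat_lit 5) (nat_lit 143) (nat_lit 5) (nat_lit 277) (nat_lit 268) (nat_lit 175))) (XT.nd (nat_lit 94) (nat_lit 840) (nat_lit 0) (XT.lf (nat_lit 0) (nat_lit 15680492483) (nat_lit 840) (nat_lit 3276472069) (nat_lit 84) (nat_lit 1657887984) (nat_lit 133) (nat_lit 5) (nat_lit 143) (nat_lit 5) (nat_lit 134) (nat_lit 5) (nat_lit 278) (nat_lit 268) (nat_lit 174)) (XT.lf (nat_lit 0) (nat_lit 8170189747) (nat_lit 840) (nat_lit 9911330822) (nat_lit 924) (nat_lit 3076230603) (nat_lit 123) (nat_lit 5) (nat_lit 133) (nat_lit 5) (nat_lit 134) (nat_lit 5) (nat_lit 279) (nat_lit 268) (nat_lit 173))))) (XT.nd (nat_lit 376) (nat_lit 1092) (nat_lit 0) (XT.nd (nat_lit 188) (nat_lit 420) (nat_lit 0) (XT.nd (nat_lit 94) (nat_lit 588) (nat_lit 0) (XT.lf (nat_lit 0) (nat_lit 20293457118) (nat_lit 840)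 (nat_lit 354171512) (nat_lit 924) (nat_lit 1077914684) (nat_lit 123) (nat_lit 5) (nat_lit 133) (nat_lit 5) (nat_lit 134) (nat_lit 5) (nat_lit 280) (nat_lit 268) (nat_lit 172)) (XT.lf (nat_lit 0) (nat_lit 1303967682) (nat_lit 588) (nat_lit 11438203627) (nat_lit 84) (nat_lit 9562941892) (nat_lit 116) (nat_lit 5) (nat_lit 123) (nat_lit 5) (nat_lit 117) (nat_lit 5) (nat_lit 281) (nat_lit 268) (nat_lit 171))) (XT.nd (nat_lit 94) (nat_lit 0) (nat_lit 0) (XT.lf (nat_lit 0) (nat_lit 913787533) (nat_lit 420) (nat_lit 2889877207) (nat_lit 504) (nat_lit 19107366029) (nat_lit 111) (nat_lit 5) (nat_lit 116) (nat_lit 5) (nat_lit 117) (nat_lit 5) (nat_lit 282) (nat_lit 268) (nat_lit 170)) (XT.lf (nat_lit 0) (nat_lit 6732164764) (nat_lit 504) (nat_lit 9386666312) (nat_lit 84) (nat_lit 7413222234) (nat_lit 111) (nat_lit 5) (nat_lit 117) (nat_lit 5) (nat_lit 112) (nat_lit 5) (nat_lit 283)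 (nat_lit 268) (nat_lit 169)))) (XT.nd (nat_lit 188) (nat_lit 672) (nat_lit 0) (XT.nd (nat_lit 94) (nat_lit 0) (nat_lit 0) (XT.lf (nat_lit 0) (nat_lit 3923079866) (nat_lit 420) (nat_lit 5983622910) (nat_lit 504) (nat_lit 14272443552) (nat_lit 106) (nat_lit 5) (nat_lit 111) (nat_lit 5) (nat_lit 112) (nat_lit 5) (nat_lit 284) (nat_lit 268) (nat_lit 168)) (XT.lf (nat_lit 0) (nat_lit 13465531099) (nat_lit 504) (nat_lit 6711604001) (nat_lit 84) (nat_lit 4670180726) (nat_lit 106) (nat_lit 5) (nat_lit 112) (nat_lit 5) (nat_lit 107) (nat_lit 5) (nat_lit 285) (nat_lit 268) (nat_lit 167))) (XT.nd (nat_lit 94) (nat_lit 336) (nat_lit 0) (XT.lf (nat_lit 0) (nat_lit 7647401885) (nat_lit 336) (nat_lit 9764064520) (nat_lit 420) (nat_lit 8126969116) (nat_lit 102) (nat_lit 5) (nat_lit 106) (nat_lit 5) (nat_lit 107) (nat_lit 5) (nat_lit 286) (nat_lit 268) (nat_lit 166)) (XT.nd (nat_lit 94)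 (nat_lit 336) (nat_lit 0) (XT.lf (nat_lit 0) (nat_lit 21680398844) (nat_lit 420) (nat_lit 3330770417) (nat_lit 84) (nat_lit 1246656922) (nat_lit 102) (nat_lit 5) (nat_lit 107) (nat_lit 5) (nat_lit 103) (nat_lit 5) (nat_lit 287) (nat_lit 268) (nat_lit 165)) (XT.lf (nat_lit 0) (nat_lit 12178083371) (nat_lit 336) (nat_lit 14327191454) (nat_lit 420) (nat_lit 490786706) (nat_lit 98) (nat_lit 5) (nat_lit 102) (nat_lit 5) (nat_lit 103) (nat_lit 5) (nat_lit 288) (nat_lit 268) (nat_lit 164))))))))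
noncomputable def xc163 : XT := (XT.nd (nat_lit 1598) (nat_lit 1932) (nat_lit 0) (XT.nd (nat_lit 752) (nat_lit 1344) (nat_lit 0) (XT.nd (nat_lit 376) (nat_lit 924) (nat_lit 0) (XT.nd (nat_lit 188) (nat_lit 336) (nat_lit 0) (XT.nd (nat_lit 94) (nat_lit 0) (nat_lit 0) (XT.lf (nat_lit 0) (nat_lit 764609754) (nat_lit 336) (nat_lit 2975617445) (nat_lit 420) (nat_lit 24024931324) (nat_lit 93) (nat_lit 5) (nat_lit 97) (nat_lit 5) (nat_lit 98) (nat_lit 5) (nat_lit 289) (nat_lit 268) (nat_lit 163)) (XT.lf (nat_lit 0) (nat_lit 8553589048) (nat_lit 420) (nat_lit 11080610434) (nat_lit 84) (nat_lit 8918744053) (nat_lit 93) (nat_lit 5) (nat_lit 98) (nat_lit 5) (nat_lit 94) (nat_lit 5) (nat_lit 290) (nat_lit 268) (nat_lit 162))) (XT.nd (nat_lit 94) (nat_lit 0) (nat_lit 0) (XT.lf (nat_lit 0) (nat_lit 5761984557) (nat_lit 336) (nat_lit 7977322146) (nat_lit 420) (nat_lit 15634226710) (nat_lit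 89) (nat_lit 5) (nat_lit 93) (nat_lit 5) (nat_lit 94) (nat_lit 5) (nat_lit 291) (nat_lit 268) (nat_lit 161)) (XT.lf (nat_lit 0) (nat_lit 19434703492) (nat_lit 420) (nat_lit 6473137457) (nat_lit 84) (nat_lit 4314792172) (nat_lit 89) (nat_lit 5) (nat_lit 94) (nat_lit 5) (nat_lit 90) (nat_lit 5) (nat_lit 292) (nat_lit 268) (nat_lit 160)))) (XT.nd (nat_lit 188) (nat_lit 588) (nat_lit 0) (XT.nd (nat_lit 94) (nat_lit 84) (nat_lit 0) (XT.lf (nat_lit 0) (nat_lit 11759071802) (nat_lit 252) (nat_lit 13963607528) (nat_lit 336) (nat_lit 5376118025) (nat_lit 86) (nat_lit 5) (nat_lit 89) (nat_lit 5) (nat_lit 90) (nat_lit 5) (nat_lit 293) (nat_lit 268) (nat_lit 159)) (XT.lf (nat_lit 0) (nat_lit 401419299) (nat_lit 336) (nat_lit 901027962) (nat_lit 84) (nat_lit 30710836534) (nat_lit 85) (nat_lit 5) (nat_lit 89) (nat_lit 5) (nat_lit 86) (nat_lit 5) (nat_lit 294) (nat_lit 268) (nat_lit 158)))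 (XT.nd (nat_lit 94) (nat_lit 252) (nat_lit 0) (XT.lf (nat_lit 0) (nat_lit 6770655028) (nat_lit 420) (nat_lit 14177806562) (nat_lit 84) (nat_lit 11996451596) (nat_lit 81) (nat_lit 5) (nat_lit 86) (nat_lit 5) (nat_lit 82) (nat_lit 5) (nat_lit 295) (nat_lit 268) (nat_lit 157)) (XT.lf (nat_lit 0) (nat_lit 5679240765) (nat_lit 252) (nat_lit 7898596720) (nat_lit 336) (nat_lit 20339312314) (nat_lit 78) (nat_lit 5) (nat_lit 81) (nat_lit 5) (nat_lit 82) (nat_lit 5) (nat_lit 296) (nat_lit 268) (nat_lit 156))))) (XT.nd (nat_lit 376) (nat_lit 756) (nat_lit 0) (XT.nd (nat_lit 188) (nat_lit 336) (nat_lit 0) (XT.nd (nat_lit 94) (nat_lit 252) (nat_lit 0) (XT.lf (nat_lit 0) (nat_lit 21054109974) (nat_lit 336) (nat_lit 8007796039) (nat_lit 84) (nat_lit 5859655683) (nat_lit 78) (nat_lit 5) (nat_lit 82) (nat_lit 5) (nat_lit 79) (nat_lit 5) (nat_lit 297) (nat_lit 268) (nat_lit 155)) (XT.lf (nat_lit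 0) (nat_lit 13529149046) (nat_lit 252) (nat_lit 15710116086) (nat_lit 336) (nat_lit 6720175605) (nat_lit 75) (nat_lit 5) (nat_lit 78) (nat_lit 5) (nat_lit 79) (nat_lit 5) (nat_lit 298) (nat_lit 268) (nat_lit 154))) (XT.nd (nat_lit 94) (nat_lit 252) (nat_lit 0) (XT.lf (nat_lit 0) (nat_lit 891604126) (nat_lit 336) (nat_lit 644208010) (nat_lit 84) (nat_lit 35506176830) (nat_lit 74) (nat_lit 5) (nat_lit 78) (nat_lit 5) (nat_lit 75) (nat_lit 5) (nat_lit 299) (nat_lit 268) (nat_lit 153)) (XT.lf (nat_lit 0) (nat_lit 9225469891) (nat_lit 336) (nat_lit 15527281293) (nat_lit 84) (nat_lit 13392038133) (nat_lit 71) (nat_lit 5) (nat_lit 75) (nat_lit 5) (nat_lit 72) (nat_lit 5) (nat_lit 300) (nat_lit 268) (nat_lit 152)))) (XT.nd (nat_lit 188) (nat_lit 504) (nat_lit 0) (XT.nd (nat_lit 94) (nat_lit 0) (nat_lit 0) (XT.lf (nat_lit 0) (nat_lit 7984738579) (nat_lit 252) (nat_lit 10146988333)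 (nat_lit 336) (nat_lit 21163217875) (nat_lit 68) (nat_lit 5) (nat_lit 71) (nat_lit 5) (nat_lit 72) (nat_lit 5) (nat_lit 301) (nat_lit 268) (nat_lit 151)) (XT.lf (nat_lit 0) (nat_lit 27826437596) (nat_lit 336) (nat_lit 7371397325) (nat_lit 84) (nat_lit 5287616068) (nat_lit 68) (nat_lit 5) (nat_lit 72) (nat_lit 5) (nat_lit 69) (nat_lit 5) (nat_lit 302) (nat_lit 268) (nat_lit 150))) (XT.nd (nat_lit 94) (nat_lit 336) (nat_lit 0) (XT.lf (nat_lit 0) (nat_lit 18171964940) (nat_lit 168) (nat_lit 20279075508) (nat_lit 252) (nat_lit 3262184221) (nat_lit 66) (nat_lit 5) (nat_lit 68) (nat_lit 5) (nat_lit 69) (nat_lit 5) (nat_lit 303) (nat_lit 268) (nat_lit 149)) (XT.nd (nat_lit 94) (nat_lit 0) (nat_lit 0) (XT.lf (nat_lit 0) (nat_lit 2210149283) (nat_lit 252) (nat_lit 4339478244) (nat_lit 336) (nat_lit 36439777483) (nat_lit 62) (nat_lit 5) (nat_lit 65) (nat_lit 5) (nat_lit 66) (nat_lit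 5) (nat_lit 304) (nat_lit 268) (nat_lit 148)) (XT.lf (nat_lit 0) (nat_lit 17336374962) (nat_lit 336) (nat_lit 14504365885) (nat_lit 84) (nat_lit 12456280806) (nat_lit 62) (nat_lit 5) (nat_lit 66) (nat_lit 5) (nat_lit 63) (nat_lit 5) (nat_lit 305) (nat_lit 268) (nat_lit 147))))))) (XT.nd (nat_lit 752) (nat_lit 924) (nat_lit 0) (XT.nd (nat_lit 376) (nat_lit 420) (nat_lit 0) (XT.nd (nat_lit 188) (nat_lit 420) (nat_lit 0) (XT.nd (nat_lit 94) (nat_lit 0) (nat_lit 0) (XT.lf (nat_lit 0) (nat_lit 13435761441) (nat_lit 168) (nat_lit 15503039602) (nat_lit 252) (nat_lit 16717401020) (nat_lit 60) (nat_lit 5) (nat_lit 62) (nat_lit 5) (nat_lit 63) (nat_lit 5) (nat_lit 306) (nat_lit 268) (nat_lit 146)) (XT.lf (nat_lit 0) (nat_lit 41392291381) (nat_lit 252) (nat_lit 3831874001) (nat_lit 84) (nat_lit 1845628965) (nat_lit 60) (nat_lit 5) (nat_lit 63) (nat_lit 5) (nat_lit 61) (nat_lit 5) (nat_lit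 307) (nat_lit 268) (nat_lit 145))) (XT.nd (nat_lit 94) (nat_lit 168) (nat_lit 0) (XT.lf (nat_lit 0) (nat_lit 6400599035) (nat_lit 252) (nat_lit 22058949809) (nat_lit 84) (nat_lit 20056125068) (nat_lit 57) (nat_lit 5) (nat_lit 60) (nat_lit 5) (nat_lit 58) (nat_lit 5) (nat_lit 308) (nat_lit 268) (nat_lit 144)) (XT.lf (nat_lit 0) (nat_lit 8534061259) (nat_lit 168) (nat_lit 10552676196) (nat_lit 252) (nat_lit 30932709677) (nat_lit 55) (nat_lit 5) (nat_lit 57) (nat_lit 5) (nat_lit 58) (nat_lit 5) (nat_lit 309) (nat_lit 268) (nat_lit 143)))) (XT.nd (nat_lit 188) (nat_lit 252) (nat_lit 0) (XT.nd (nat_lit 94) (nat_lit 168) (nat_lit 0) (XT.lf (nat_lit 0) (nat_lit 32911467354) (nat_lit 252) (nat_lit 10299270011) (nat_lit 84) (nat_lit 8362457421) (nat_lit 55) (nat_lit 5) (nat_lit 58) (nat_lit 5) (nat_lit 56) (nat_lit 5) (nat_lit 310) (nat_lit 268) (nat_lit 142)) (XT.lf (nat_lit 0)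 (nat_lit 23002546800) (nat_lit 168) (nat_lit 24952999555) (nat_lit 252) (nat_lit 5222677835) (nat_lit 53) (nat_lit 5) (nat_lit 55) (nat_lit 5) (nat_lit 56) (nat_lit 5) (nat_lit 311) (nat_lit 268) (nat_lit 141))) (XT.nd (nat_lit 94) (nat_lit 0) (nat_lit 0) (XT.lf (nat_lit 0) (nat_lit 3433647938) (nat_lit 168) (nat_lit 5397091327) (nat_lit 252) (nat_lit 46014482374) (nat_lit 50) (nat_lit 5) (nat_lit 52) (nat_lit 5) (nat_lit 53) (nat_lit 5) (nat_lit 312) (nat_lit 268) (nat_lit 140)) (XT.lf (nat_lit 0) (nat_lit 24163099449) (nat_lit 252) (nat_lit 17136164087) (nat_lit 84) (nat_lit 15254435115) (nat_lit 50) (nat_lit 5) (nat_lit 53) (nat_lit 5) (nat_lit 51) (nat_lit 5) (nat_lit 313) (nat_lit 268) (nat_lit 139))))) (XT.nd (nat_lit 376) (nat_lit 420) (nat_lit 0) (XT.nd (nat_lit 188) (nat_lit 336) (nat_lit 0) (XT.nd (nat_lit 94) (nat_lit 0) (nat_lit 0) (XT.lf (nat_lit 0) (nat_lit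 19378193037) (nat_lit 168) (nat_lit 21271143807) (nat_lit 252) (nat_lit 17678899712) (nat_lit 48) (nat_lit 5) (nat_lit 50) (nat_lit 5) (nat_lit 51) (nat_lit 5) (nat_lit 314) (nat_lit 268) (nat_lit 138)) (XT.lf (nat_lit 0) (nat_lit 58247349989) (nat_lit 252) (nat_lit 1871383466) (nat_lit 84) (nat_lit 58394708) (nat_lit 48) (nat_lit 5) (nat_lit 51) (nat_lit 5) (nat_lit 49) (nat_lit 4) (nat_lit 315) (nat_lit 268) (nat_lit 137))) (XT.nd (nat_lit 94) (nat_lit 168) (nat_lit 0) (XT.lf (nat_lit 0) (nat_lit 15091844470) (nat_lit 168) (nat_lit 24395136051) (nat_lit 84) (nat_lit 22572453482) (nat_lit 46) (nat_lit 5) (nat_lit 48) (nat_lit 5) (nat_lit 47) (nat_lit 5) (nat_lit 316) (nat_lit 268) (nat_lit 136)) (XT.lf (nat_lit 0) (nat_lit 15670558280) (nat_lit 168) (nat_lit 17502473049) (nat_lit 252) (nat_lit 30847575207) (nat_lit 44) (nat_lit 5) (nat_lit 46) (nat_lit 5) (nat_lit 47) (nat_lit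 5) (nat_lit 317) (nat_lit 268) (nat_lit 135)))) (XT.nd (nat_lit 188) (nat_lit 252) (nat_lit 0) (XT.nd (nat_lit 94) (nat_lit 168) (nat_lit 0) (XT.lf (nat_lit 0) (nat_lit 52661824374) (nat_lit 252) (nat_lit 7572945295) (nat_lit 84) (nat_lit 5819890684) (nat_lit 44) (nat_lit 5) (nat_lit 47) (nat_lit 5) (nat_lit 45) (nat_lit 4) (nat_lit 318) (nat_lit 268) (nat_lit 134)) (XT.lf (nat_lit 0) (nat_lit 5637885860) (nat_lit 168) (nat_lit 32133324655) (nat_lit 84) (nat_lit 30372294921) (nat_lit 42) (nat_lit 5) (nat_lit 44) (nat_lit 5) (nat_lit 43) (nat_lit 5) (nat_lit 319) (nat_lit 268) (nat_lit 133))) (XT.nd (nat_lit 94) (nat_lit 84) (nat_lit 0) (XT.lf (nat_lit 0) (nat_lit 11856787272) (nat_lit 168) (nat_lit 13625412359) (nat_lit 252) (nat_lit 44828008260) (nat_lit 40) (nat_lit 5) (nat_lit 42) (nat_lit 5) (nat_lit 43) (nat_lit 5) (nat_lit 320) (nat_lit 268) (nat_lit 132)) (XT.nd (nat_lit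 94) (nat_lit 84) (nat_lit 0) (XT.lf (nat_lit 0) (nat_lit 47051640606) (nat_lit 252) (nat_lit 13594126671) (nat_lit 84) (nat_lit 11902832615) (nat_lit 40) (nat_lit 5) (nat_lit 43) (nat_lit 5) (nat_lit 41) (nat_lit 4) (nat_lit 321) (nat_lit 268) (nat_lit 131)) (XT.lf (nat_lit 0) (nat_lit 34379338029) (nat_lit 84) (nat_lit 36077193237) (nat_lit 168) (nat_lit 4404531347) (nat_lit 39) (nat_lit 5) (nat_lit 40) (nat_lit 5) (nat_lit 41) (nat_lit 4) (nat_lit 322) (nat_lit 268) (nat_lit 130))))))))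
noncomputable def xc164 : XT := (XT.nd (nat_lit 1504) (nat_lit 1512) (nat_lit 0) (XT.nd (nat_lit 752) (nat_lit 588) (nat_lit 0) (XT.nd (nat_lit 376) (nat_lit 336) (nat_lit 0) (XT.nd (nat_lit 188) (nat_lit 336) (nat_lit 0) (XT.nd (nat_lit 94) (nat_lit 0) (nat_lit 0) (XT.lf (nat_lit 0) (nat_lit 7912469337) (nat_lit 168) (nat_lit 9616573262) (nat_lit 252) (nat_lit 59728535549) (nat_lit 36) (nat_lit 5) (nat_lit 38) (nat_lit 5) (nat_lit 39) (nat_lit 5) (nat_lit 323) (nat_lit 268) (nat_lit 129)) (XT.lf (nat_lit 0) (nat_lit 41388612104) (nat_lit 252) (nat_lit 19980727037) (nat_lit 84) (nat_lit 18352103148) (nat_lit 36) (nat_lit 5) (nat_lit 39) (nat_lit 5) (nat_lit 37) (nat_lit 4) (nat_lit 324) (nat_lit 268) (nat_lit 128))) (XT.nd (nat_lit 94) (nat_lit 252) (nat_lit 0) (XT.lf (nat_lit 0) (nat_lit 32736462937) (nat_lit 84) (nat_lit 34370484703) (nat_lit 168) (nat_lit 15168262617)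 (nat_lit 35) (nat_lit 5) (nat_lit 36) (nat_lit 5) (nat_lit 37) (nat_lit 4) (nat_lit 325) (nat_lit 268) (nat_lit 127)) (XT.lf (nat_lit 0) (nat_lit 3811422776) (nat_lit 168) (nat_lit 5450585376) (nat_lit 252) (nat_lit 75667488225) (nat_lit 32) (nat_lit 5) (nat_lit 34) (nat_lit 5) (nat_lit 35) (nat_lit 5) (nat_lit 326) (nat_lit 268) (nat_lit 126)))) (XT.nd (nat_lit 188) (nat_lit 252) (nat_lit 0) (XT.nd (nat_lit 94) (nat_lit 84) (nat_lit 0) (XT.lf (nat_lit 0) (nat_lit 35642808899) (nat_lit 252) (nat_lit 26782543276) (nat_lit 84) (nat_lit 25216773149) (nat_lit 32) (nat_lit 5) (nat_lit 35) (nat_lit 5) (nat_lit 33) (nat_lit 4) (nat_lit 327) (nat_lit 268) (nat_lit 125)) (XT.lf (nat_lit 0) (nat_lit 31172841893) (nat_lit 84) (nat_lit 32743052867) (nat_lit 168) (nat_lit 26545828704) (nat_lit 31) (nat_lit 5) (nat_lit 32) (nat_lit 5) (nat_lit 33) (nat_lit 4) (nat_lit 328) (nat_lit 268)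 (nat_lit 124))) (XT.nd (nat_lit 94) (nat_lit 168) (nat_lit 0) (XT.lf (nat_lit 0) (nat_lit 632775501) (nat_lit 168) (nat_lit 459348707) (nat_lit 84) (nat_lit 92307125832) (nat_lit 30) (nat_lit 5) (nat_lit 32) (nat_lit 5) (nat_lit 31) (nat_lit 5) (nat_lit 329) (nat_lit 268) (nat_lit 123)) (XT.lf (nat_lit 0) (nat_lit 29782337876) (nat_lit 252) (nat_lit 34053826136) (nat_lit 84) (nat_lit 32550522964) (nat_lit 28) (nat_lit 5) (nat_lit 31) (nat_lit 5) (nat_lit 29) (nat_lit 4) (nat_lit 330) (nat_lit 268) (nat_lit 122))))) (XT.nd (nat_lit 376) (nat_lit 252) (nat_lit 0) (XT.nd (nat_lit 188) (nat_lit 252) (nat_lit 0) (XT.nd (nat_lit 94) (nat_lit 0) (nat_lit 0) (XT.lf (nat_lit 0) (nat_lit 29684519713) (nat_lit 84) (nat_lit 31191476380) (nat_lit 168) (nat_lit 38623168780) (nat_lit 27) (nat_lit 5) (nat_lit 28) (nat_lit 5) (nat_lit 29) (nat_lit 4) (nat_lit 331) (nat_lit 268) (nat_lit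 121)) (XT.lf (nat_lit 0) (nat_lit 94156042189) (nat_lit 168) (nat_lit 5009074940) (nat_lit 0) (nat_lit 3570564287) (nat_lit 27) (nat_lit 5) (nat_lit 29) (nat_lit 4) (nat_lit 27) (nat_lit 4) (nat_lit 332) (nat_lit 268) (nat_lit 120))) (XT.nd (nat_lit 94) (nat_lit 84) (nat_lit 0) (XT.lf (nat_lit 0) (nat_lit 23773100053) (nat_lit 168) (nat_lit 41853778820) (nat_lit 84) (nat_lit 40412112140) (nat_lit 25) (nat_lit 5) (nat_lit 27) (nat_lit 5) (nat_lit 26) (nat_lit 4) (nat_lit 333) (nat_lit 268) (nat_lit 119)) (XT.lf (nat_lit 0) (nat_lit 28267761680) (nat_lit 84) (nat_lit 29712434099) (nat_lit 168) (nat_lit 51493985237) (nat_lit 24) (nat_lit 5) (nat_lit 25) (nat_lit 5) (nat_lit 26) (nat_lit 4) (nat_lit 334) (nat_lit 268) (nat_lit 118)))) (XT.nd (nat_lit 188) (nat_lit 84) (nat_lit 0) (XT.nd (nat_lit 94) (nat_lit 168) (nat_lit 0) (XT.lf (nat_lit 0) (nat_lit 94740447464) (nat_lit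 168) (nat_lit 9838573893) (nat_lit 0) (nat_lit 8459969104) (nat_lit 24) (nat_lit 5) (nat_lit 26) (nat_lit 4) (nat_lit 24) (nat_lit 4) (nat_lit 335) (nat_lit 268) (nat_lit 117)) (XT.lf (nat_lit 0) (nat_lit 17578522983) (nat_lit 168) (nat_lit 50247102714) (nat_lit 84) (nat_lit 48865901454) (nat_lit 22) (nat_lit 5) (nat_lit 24) (nat_lit 5) (nat_lit 23) (nat_lit 4) (nat_lit 336) (nat_lit 268) (nat_lit 116))) (XT.nd (nat_lit 94) (nat_lit 0) (nat_lit 0) (XT.lf (nat_lit 0) (nat_lit 26919037347) (nat_lit 84) (nat_lit 28302711436) (nat_lit 168) (nat_lit 65260580209) (nat_lit 21) (nat_lit 5) (nat_lit 22) (nat_lit 5) (nat_lit 23) (nat_lit 4) (nat_lit 337) (nat_lit 268) (nat_lit 115)) (XT.lf (nat_lit 0) (nat_lit 95815708169) (nat_lit 168) (nat_lit 14956780959) (nat_lit 0) (nat_lit 13636753183) (nat_lit 21) (nat_lit 5) (nat_lit 23) (nat_lit 4) (nat_lit 21) (nat_lit 4) (nat_lit 338) (nat_lit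 268) (nat_lit 114)))))) (XT.nd (nat_lit 752) (nat_lit 756) (nat_lit 0) (XT.nd (nat_lit 376) (nat_lit 336) (nat_lit 0) (XT.nd (nat_lit 188) (nat_lit 168) (nat_lit 0) (XT.nd (nat_lit 94) (nat_lit 84) (nat_lit 0) (XT.lf (nat_lit 0) (nat_lit 11159266092) (nat_lit 168) (nat_lit 59304595619) (nat_lit 84) (nat_lit 57982431719) (nat_lit 19) (nat_lit 5) (nat_lit 21) (nat_lit 5) (nat_lit 20) (nat_lit 4) (nat_lit 339) (nat_lit 268) (nat_lit 113)) (XT.lf (nat_lit 0) (nat_lit 25635006126) (nat_lit 84) (nat_lit 26959204429) (nat_lit 168) (nat_lit 80034777504) (nat_lit 18) (nat_lit 5) (nat_lit 19) (nat_lit 5) (nat_lit 20) (nat_lit 4) (nat_lit 340) (nat_lit 268) (nat_lit 112))) (XT.nd (nat_lit 94) (nat_lit 168) (nat_lit 0) (XT.lf (nat_lit 0) (nat_lit 97411755162) (nat_lit 168) (nat_lit 20403253057) (nat_lit 0) (nat_lit 19140266554) (nat_lit 18) (nat_lit 5) (nat_lit 20) (nat_lit 4) (nat_lit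 18) (nat_lit 4) (nat_lit 341) (nat_lit 268) (nat_lit 111)) (XT.lf (nat_lit 0) (nat_lit 4472896436) (nat_lit 168) (nat_lit 69103808307) (nat_lit 84) (nat_lit 67839064410) (nat_lit 16) (nat_lit 5) (nat_lit 18) (nat_lit 5) (nat_lit 17) (nat_lit 4) (nat_lit 342) (nat_lit 268) (nat_lit 110)))) (XT.nd (nat_lit 188) (nat_lit 252) (nat_lit 0) (XT.nd (nat_lit 94) (nat_lit 0) (nat_lit 0) (XT.lf (nat_lit 0) (nat_lit 24412504393) (nat_lit 84) (nat_lit 25678921999) (nat_lit 168) (nat_lit 95938938406) (nat_lit 15) (nat_lit 5) (nat_lit 16) (nat_lit 5) (nat_lit 17) (nat_lit 4) (nat_lit 343) (nat_lit 268) (nat_lit 109)) (XT.lf (nat_lit 0) (nat_lit 99562532992) (nat_lit 168) (nat_lit 26221102416) (nat_lit 0) (nat_lit 25013472308) (nat_lit 15) (nat_lit 5) (nat_lit 17) (nat_lit 4) (nat_lit 15) (nat_lit 4) (nat_lit 344) (nat_lit 268) (nat_lit 108))) (XT.nd (nat_lit 94) (nat_lit 168) (nat_lit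 0) (XT.lf (nat_lit 0) (nat_lit 75951434964) (nat_lit 84) (nat_lit 77160510884) (nat_lit 84) (nat_lit 2610004387) (nat_lit 14) (nat_lit 4) (nat_lit 15) (nat_lit 5) (nat_lit 15) (nat_lit 4) (nat_lit 345) (nat_lit 268) (nat_lit 107)) (XT.lf (nat_lit 0) (nat_lit 23248533886) (nat_lit 84) (nat_lit 24458986770) (nat_lit 168) (nat_lit 113107080784) (nat_lit 12) (nat_lit 5) (nat_lit 13) (nat_lit 5) (nat_lit 14) (nat_lit 4) (nat_lit 346) (nat_lit 268) (nat_lit 106))))) (XT.nd (nat_lit 376) (nat_lit 504) (nat_lit 0) (XT.nd (nat_lit 188) (nat_lit 168) (nat_lit 0) (XT.nd (nat_lit 94) (nat_lit 84) (nat_lit 0) (XT.lf (nat_lit 0) (nat_lit 102306370660) (nat_lit 168) (nat_lit 32457389159) (nat_lit 0) (nat_lit 31303327941) (nat_lit 12) (nat_lit 5) (nat_lit 14) (nat_lit 4) (nat_lit 12) (nat_lit 4) (nat_lit 347) (nat_lit 268) (nat_lit 105)) (XT.lf (nat_lit 0) (nat_lit 80064491880) (nat_lit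 84) (nat_lit 81219742571) (nat_lit 84) (nat_lit 10215510379) (nat_lit 11) (nat_lit 4) (nat_lit 12) (nat_lit 5) (nat_lit 12) (nat_lit 4) (nat_lit 348) (nat_lit 268) (nat_lit 104))) (XT.nd (nat_lit 94) (nat_lit 0) (nat_lit 0) (XT.lf (nat_lit 0) (nat_lit 22140251226) (nat_lit 84) (nat_lit 23296634749) (nat_lit 168) (nat_lit 131686111943) (nat_lit 9) (nat_lit 5) (nat_lit 10) (nat_lit 5) (nat_lit 11) (nat_lit 4) (nat_lit 349) (nat_lit 268) (nat_lit 103)) (XT.lf (nat_lit 0) (nat_lit 105686391538) (nat_lit 168) (nat_lit 39163552013) (nat_lit 0) (nat_lit 38061206861) (nat_lit 9) (nat_lit 5) (nat_lit 11) (nat_lit 4) (nat_lit 9) (nat_lit 4) (nat_lit 350) (nat_lit 268) (nat_lit 102)))) (XT.nd (nat_lit 188) (nat_lit 252) (nat_lit 0) (XT.nd (nat_lit 94) (nat_lit 168) (nat_lit 0) (XT.lf (nat_lit 0) (nat_lit 84774347986) (nat_lit 84) (nat_lit 85877671720) (nat_lit 84) (nat_lit 18251508461)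 (nat_lit 8) (nat_lit 4) (nat_lit 9) (nat_lit 5) (nat_lit 9) (nat_lit 4) (nat_lit 351) (nat_lit 268) (nat_lit 101)) (XT.lf (nat_lit 0) (nat_lit 21084958393) (nat_lit 84) (nat_lit 22189214112) (nat_lit 168) (nat_lit 151837186748) (nat_lit 6) (nat_lit 5) (nat_lit 7) (nat_lit 5) (nat_lit 8) (nat_lit 4) (nat_lit 352) (nat_lit 268) (nat_lit 100))) (XT.nd (nat_lit 94) (nat_lit 252) (nat_lit 0) (XT.lf (nat_lit 0) (nat_lit 109750966548) (nat_lit 168) (nat_lit 46395881286) (nat_lit 0) (nat_lit 45343363837) (nat_lit 6) (nat_lit 5) (nat_lit 8) (nat_lit 4) (nat_lit 6) (nat_lit 4) (nat_lit 353) (nat_lit 268) (nat_lit 99)) (XT.nd (nat_lit 94) (nat_lit 168) (nat_lit 0) (XT.lf (nat_lit 0) (nat_lit 90133768816) (nat_lit 84) (nat_lit 91187091347) (nat_lit 84) (nat_lit 26778683554) (nat_lit 5) (nat_lit 4) (nat_lit 6) (nat_lit 5) (nat_lit 6) (nat_lit 4) (nat_lit 354) (nat_lit 268) (nat_lit 98))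 (XT.lf (nat_lit 0) (nat_lit 20080094039) (nat_lit 84) (nat_lit 21134183315) (nat_lit 168) (nat_lit 173737203815) (nat_lit 3) (nat_lit 5) (nat_lit 4) (nat_lit 5) (nat_lit 5) (nat_lit 4) (nat_lit 355) (nat_lit 268) (nat_lit 97))))))))
noncomputable def xc165 : XT := (XT.nd (nat_lit 38352) (nat_lit 0) (nat_lit 6300) (XT.nd (nat_lit 37506) (nat_lit 0) (nat_lit 9744) (XT.nd (nat_lit 37130) (nat_lit 0) (nat_lit 10752) (XT.nd (nat_lit 188) (nat_lit 168) (nat_lit 0) (XT.nd (nat_lit 94) (nat_lit 84) (nat_lit 0) (XT.lf (nat_lit 0) (nat_lit 114554215078) (nat_lit 168) (nat_lit 54216038638) (nat_lit 0) (nat_lit 53211448629) (nat_lit 3) (nat_lit 5) (nat_lit 5) (nat_lit 4) (nat_lit 3) (nat_lit 4) (nat_lit 356) (nat_lit 268) (nat_lit 96)) (XT.lf (nat_lit 0) (nat_lit 96201339850) (nat_lit 84) (nat_lit 97206592202) (nat_lit 84) (nat_lit 35863163410) (nat_lit 2) (nat_lit 4) (nat_lit 3) (nat_lit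 5) (nat_lit 3) (nat_lit 4) (nat_lit 357) (nat_lit 268) (nat_lit 95))) (XT.nd (nat_lit 36848) (nat_lit 0) (nat_lit 10752) (XT.lf (nat_lit 0) (nat_lit 344020858407) (nat_lit 0) (nat_lit 0) (nat_lit 0) (nat_lit 0) (nat_lit 0) (nat_lit 0) (nat_lit 1) (nat_lit 0) (nat_lit 1) (nat_lit 0) (nat_lit 358) (nat_lit 268) (nat_lit 94)) (XT.lf (nat_lit 0) (nat_lit 2335810253) (nat_lit 924) (nat_lit 3047134693) (nat_lit 924) (nat_lit 3047134693) (nat_lit 128) (nat_lit 3) (nat_lit 139) (nat_lit 3) (nat_lit 139) (nat_lit 5) (nat_lit 269) (nat_lit 269) (nat_lit 182)))) (XT.nd (nat_lit 188) (nat_lit 0) (nat_lit 84) (XT.nd (nat_lit 94) (nat_lit 0) (nat_lit 84) (XT.lf (nat_lit 84) (nat_lit 2413042689) (nat_lit 0) (nat_lit 2644142173) (nat_lit 924) (nat_lit 12211039706) (nat_lit 129) (nat_lit 5) (nat_lit 128) (nat_lit 3) (nat_lit 139) (nat_lit 5) (nat_lit 270) (nat_lit 269) (nat_lit 181)) (XT.lf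 (nat_lit 0) (nat_lit 5643978865) (nat_lit 840) (nat_lit 6236662738) (nat_lit 924) (nat_lit 5806953948) (nat_lit 129) (nat_lit 5) (nat_lit 139) (nat_lit 5) (nat_lit 140) (nat_lit 5) (nat_lit 271) (nat_lit 269) (nat_lit 180))) (XT.nd (nat_lit 94) (nat_lit 0) (nat_lit 84) (XT.lf (nat_lit 84) (nat_lit 2852272162) (nat_lit 0) (nat_lit 3481613375) (nat_lit 924) (nat_lit 11790360898) (nat_lit 130) (nat_lit 5) (nat_lit 129) (nat_lit 5) (nat_lit 140) (nat_lit 5) (nat_lit 272) (nat_lit 269) (nat_lit 179)) (XT.lf (nat_lit 0) (nat_lit 7235489330) (nat_lit 840) (nat_lit 6059412760) (nat_lit 924) (nat_lit 5278967683) (nat_lit 130) (nat_lit 5) (nat_lit 140) (nat_lit 5) (nat_lit 141) (nat_lit 5) (nat_lit 273) (nat_lit 269) (nat_lit 178))))) (XT.nd (nat_lit 376) (nat_lit 1176) (nat_lit 0) (XT.nd (nat_lit 188) (nat_lit 0) (nat_lit 84) (XT.nd (nat_lit 94) (nat_lit 0) (nat_lit 84) (XT.lf (nat_lit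 84) (nat_lit 3665370359) (nat_lit 0) (nat_lit 4618265428) (nat_lit 924) (nat_lit 10757265367) (nat_lit 131) (nat_lit 5) (nat_lit 130) (nat_lit 5) (nat_lit 141) (nat_lit 5) (nat_lit 274) (nat_lit 269) (nat_lit 177)) (XT.lf (nat_lit 0) (nat_lit 9546325765) (nat_lit 840) (nat_lit 5520393935) (nat_lit 924) (nat_lit 4456457595) (nat_lit 131) (nat_lit 5) (nat_lit 141) (nat_lit 5) (nat_lit 142) (nat_lit 5) (nat_lit 275) (nat_lit 269) (nat_lit 176))) (XT.nd (nat_lit 94) (nat_lit 0) (nat_lit 84) (XT.lf (nat_lit 84) (nat_lit 4899869898) (nat_lit 0) (nat_lit 6112775026) (nat_lit 924) (nat_lit 9009897586) (nat_lit 132) (nat_lit 5) (nat_lit 131) (nat_lit 5) (nat_lit 142) (nat_lit 5) (nat_lit 276) (nat_lit 269) (nat_lit 175)) (XT.lf (nat_lit 0) (nat_lit 12687401799) (nat_lit 840) (nat_lit 4571492460) (nat_lit 924) (nat_lit 3281225637) (nat_lit 132) (nat_lit 5) (nat_lit 142) (nat_lit 5)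 (nat_lit 143) (nat_lit 5) (nat_lit 277) (nat_lit 269) (nat_lit 174)))) (XT.nd (nat_lit 188) (nat_lit 1344) (nat_lit 0) (XT.nd (nat_lit 94) (nat_lit 0) (nat_lit 84) (XT.lf (nat_lit 84) (nat_lit 6609818970) (nat_lit 0) (nat_lit 8028770633) (nat_lit 924) (nat_lit 6435351894) (nat_lit 133) (nat_lit 5) (nat_lit 132) (nat_lit 5) (nat_lit 143) (nat_lit 5) (nat_lit 278) (nat_lit 269) (nat_lit 173)) (XT.lf (nat_lit 0) (nat_lit 16781676241) (nat_lit 840) (nat_lit 3158082222) (nat_lit 84) (nat_lit 1689978743) (nat_lit 133) (nat_lit 5) (nat_lit 143) (nat_lit 5) (nat_lit 134) (nat_lit 5) (nat_lit 279) (nat_lit 269) (nat_lit 172))) (XT.nd (nat_lit 94) (nat_lit 588) (nat_lit 0) (XT.lf (nat_lit 0) (nat_lit 8856360855) (nat_lit 840) (nat_lit 10435627137) (nat_lit 924) (nat_lit 2908331170) (nat_lit 123) (nat_lit 5) (nat_lit 133) (nat_lit 5) (nat_lit 134) (nat_lit 5) (nat_lit 280) (nat_lit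 269) (nat_lit 171)) (XT.nd (nat_lit 94) (nat_lit 588) (nat_lit 0) (XT.lf (nat_lit 0) (nat_lit 21572569612) (nat_lit 840) (nat_lit 399241776) (nat_lit 924) (nat_lit 825419025) (nat_lit 123) (nat_lit 5) (nat_lit 133) (nat_lit 5) (nat_lit 134) (nat_lit 5) (nat_lit 281) (nat_lit 269) (nat_lit 170)) (XT.lf (nat_lit 0) (nat_lit 1655577514) (nat_lit 588) (nat_lit 11725694224) (nat_lit 84) (nat_lit 10024776551) (nat_lit 116) (nat_lit 5) (nat_lit 123) (nat_lit 5) (nat_lit 117) (nat_lit 5) (nat_lit 282) (nat_lit 269) (nat_lit 169))))))) (XT.nd (nat_lit 752) (nat_lit 1512) (nat_lit 0) (XT.nd (nat_lit 376) (nat_lit 1092) (nat_lit 0) (XT.nd (nat_lit 188) (nat_lit 420) (nat_lit 0) (XT.nd (nat_lit 94) (nat_lit 0) (nat_lit 0) (XT.lf (nat_lit 0) (nat_lit 1239309081) (nat_lit 420) (nat_lit 3031680668) (nat_lit 504) (nat_lit 19771735470) (nat_lit 111) (nat_lit 5) (nat_lit 116) (nat_lit 5)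 (nat_lit 117) (nat_lit 5) (nat_lit 283) (nat_lit 269) (nat_lit 168)) (XT.lf (nat_lit 0) (nat_lit 7332757551) (nat_lit 504) (nat_lit 9576335575) (nat_lit 84) (nat_lit 7786363622) (nat_lit 111) (nat_lit 5) (nat_lit 117) (nat_lit 5) (nat_lit 112) (nat_lit 5) (nat_lit 284) (nat_lit 269) (nat_lit 167))) (XT.nd (nat_lit 94) (nat_lit 0) (nat_lit 0) (XT.lf (nat_lit 0) (nat_lit 4394387202) (nat_lit 420) (nat_lit 6263360484) (nat_lit 504) (nat_lit 14717570470) (nat_lit 106) (nat_lit 5) (nat_lit 111) (nat_lit 5) (nat_lit 112) (nat_lit 5) (nat_lit 285) (nat_lit 269) (nat_lit 166)) (XT.lf (nat_lit 0) (nat_lit 14382629883) (nat_lit 504) (nat_lit 6773245856) (nat_lit 84) (nat_lit 4921614768) (nat_lit 106) (nat_lit 5) (nat_lit 112) (nat_lit 5) (nat_lit 107) (nat_lit 5) (nat_lit 286) (nat_lit 269) (nat_lit 165)))) (XT.nd (nat_lit 188) (nat_lit 756) (nat_lit 0) (XT.nd (nat_lit 94) (nat_lit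 0) (nat_lit 0) (XT.lf (nat_lit 0) (nat_lit 8299291964) (nat_lit 336) (nat_lit 10219167370) (nat_lit 420) (nat_lit 8285076983) (nat_lit 102) (nat_lit 5) (nat_lit 106) (nat_lit 5) (nat_lit 107) (nat_lit 5) (nat_lit 287) (nat_lit 269) (nat_lit 164)) (XT.lf (nat_lit 0) (nat_lit 22990072499) (nat_lit 420) (nat_lit 3229857342) (nat_lit 84) (nat_lit 1339504966) (nat_lit 102) (nat_lit 5) (nat_lit 107) (nat_lit 5) (nat_lit 103) (nat_lit 5) (nat_lit 288) (nat_lit 269) (nat_lit 163))) (XT.nd (nat_lit 94) (nat_lit 420) (nat_lit 0) (XT.lf (nat_lit 0) (nat_lit 13050125400) (nat_lit 336) (nat_lit 14999429784) (nat_lit 420) (nat_lit 285358594) (nat_lit 98) (nat_lit 5) (nat_lit 102) (nat_lit 5) (nat_lit 103) (nat_lit 5) (nat_lit 289) (nat_lit 269) (nat_lit 162)) (XT.lf (nat_lit 0) (nat_lit 1068975621) (nat_lit 336) (nat_lit 3074424774) (nat_lit 420) (nat_lit 24999207962) (nat_lit 93) (nat_lit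 5) (nat_lit 97) (nat_lit 5) (nat_lit 98) (nat_lit 5) (nat_lit 290) (nat_lit 269) (nat_lit 161))))) (XT.nd (nat_lit 376) (nat_lit 924) (nat_lit 0) (XT.nd (nat_lit 188) (nat_lit 252) (nat_lit 0) (XT.nd (nat_lit 94) (nat_lit 336) (nat_lit 0) (XT.lf (nat_lit 0) (nat_lit 9187879990) (nat_lit 420) (nat_lit 11371628342) (nat_lit 84) (nat_lit 9410751806) (nat_lit 93) (nat_lit 5) (nat_lit 98) (nat_lit 5) (nat_lit 94) (nat_lit 5) (nat_lit 291) (nat_lit 269) (nat_lit 160)) (XT.lf (nat_lit 0) (nat_lit 6308854259) (nat_lit 336) (nat_lit 8318230757) (nat_lit 420) (nat_lit 16205084418) (nat_lit 89) (nat_lit 5) (nat_lit 93) (nat_lit 5) (nat_lit 94) (nat_lit 5) (nat_lit 292) (nat_lit 269) (nat_lit 159))) (XT.nd (nat_lit 94) (nat_lit 252) (nat_lit 0) (XT.lf (nat_lit 0) (nat_lit 20598550913) (nat_lit 420) (nat_lit 6541645526) (nat_lit 84) (nat_lit 4583962727) (nat_lit 89) (nat_lit 5) (nat_lit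 94) (nat_lit 5) (nat_lit 90) (nat_lit 5) (nat_lit 293) (nat_lit 269) (nat_lit 158)) (XT.lf (nat_lit 0) (nat_lit 12598058893) (nat_lit 252) (nat_lit 14597637783) (nat_lit 336) (nat_lit 5448696378) (nat_lit 86) (nat_lit 5) (nat_lit 89) (nat_lit 5) (nat_lit 90) (nat_lit 5) (nat_lit 294) (nat_lit 269) (nat_lit 157)))) (XT.nd (nat_lit 188) (nat_lit 504) (nat_lit 0) (XT.nd (nat_lit 94) (nat_lit 336) (nat_lit 0) (XT.lf (nat_lit 0) (nat_lit 602392209) (nat_lit 336) (nat_lit 701018399) (nat_lit 84) (nat_lit 32301492279) (nat_lit 85) (nat_lit 5) (nat_lit 89) (nat_lit 5) (nat_lit 86) (nat_lit 5) (nat_lit 295) (nat_lit 269) (nat_lit 156)) (XT.lf (nat_lit 0) (nat_lit 7286255436) (nat_lit 420) (nat_lit 14637801641) (nat_lit 84) (nat_lit 12659248385) (nat_lit 81) (nat_lit 5) (nat_lit 86) (nat_lit 5) (nat_lit 82) (nat_lit 5) (nat_lit 296) (nat_lit 269) (nat_lit 155))) (XT.nd (nat_lit 94)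 (nat_lit 252) (nat_lit 0) (XT.lf (nat_lit 0) (nat_lit 6208083612) (nat_lit 252) (nat_lit 8221104886) (nat_lit 336) (nat_lit 21175195833) (nat_lit 78) (nat_lit 5) (nat_lit 81) (nat_lit 5) (nat_lit 82) (nat_lit 5) (nat_lit 297) (nat_lit 269) (nat_lit 154)) (XT.nd (nat_lit 94) (nat_lit 252) (nat_lit 0) (XT.lf (nat_lit 0) (nat_lit 22272139134) (nat_lit 336) (nat_lit 8167830546) (nat_lit 84) (nat_lit 6219403919) (nat_lit 78) (nat_lit 5) (nat_lit 82) (nat_lit 5) (nat_lit 79) (nat_lit 5) (nat_lit 298) (nat_lit 269) (nat_lit 153)) (XT.lf (nat_lit 0) (nat_lit 14442085096) (nat_lit 252) (nat_lit 16420286492) (nat_lit 336) (nat_lit 6886984026) (nat_lit 75) (nat_lit 5) (nat_lit 78) (nat_lit 5) (nat_lit 79) (nat_lit 5) (nat_lit 299) (nat_lit 269) (nat_lit 152))))))))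
noncomputable def xc166 : XT := (XT.nd (nat_lit 1598) (nat_lit 1764) (nat_lit 0) (XT.nd (nat_lit 752) (nat_lit 1008) (nat_lit 0) (XT.nd (nat_lit 376) (nat_lit 672) (nat_lit 0) (XT.nd (nat_lit 188) (nat_lit 252) (nat_lit 0) (XT.nd (nat_lit 94) (nat_lit 252) (nat_lit 0) (XT.lf (nat_lit 0) (nat_lit 1092169944) (nat_lit 336) (nat_lit 446043110) (nat_lit 84) (nat_lit 37348076081) (nat_lit 74) (nat_lit 5) (nat_lit 78) (nat_lit 5) (nat_lit 75) (nat_lit 5) (nat_lit 300) (nat_lit 269) (nat_lit 151)) (XT.lf (nat_lit 0) (nat_lit 9840004040) (nat_lit 336) (nat_lit 16070545100) (nat_lit 84) (nat_lit 14133816610) (nat_lit 71) (nat_lit 5) (nat_lit 75) (nat_lit 5) (nat_lit 72) (nat_lit 5) (nat_lit 301) (nat_lit 269) (nat_lit 150))) (XT.nd (nat_lit 94) (nat_lit 0) (nat_lit 0) (XT.lf (nat_lit 0) (nat_lit 8613316084) (nat_lit 252) (nat_lit 10574540350) (nat_lit 336) (nat_lit 22064358433) (nat_lit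 68) (nat_lit 5) (nat_lit 71) (nat_lit 5) (nat_lit 72) (nat_lit 5) (nat_lit 302) (nat_lit 269) (nat_lit 149)) (XT.lf (nat_lit 0) (nat_lit 29361368083) (nat_lit 336) (nat_lit 7515613026) (nat_lit 84) (nat_lit 5625561999) (nat_lit 68) (nat_lit 5) (nat_lit 72) (nat_lit 5) (nat_lit 69) (nat_lit 5) (nat_lit 303) (nat_lit 269) (nat_lit 148)))) (XT.nd (nat_lit 188) (nat_lit 168) (nat_lit 0) (XT.nd (nat_lit 94) (nat_lit 336) (nat_lit 0) (XT.lf (nat_lit 0) (nat_lit 19301298737) (nat_lit 168) (nat_lit 21212510137) (nat_lit 252) (nat_lit 3278066209) (nat_lit 66) (nat_lit 5) (nat_lit 68) (nat_lit 5) (nat_lit 69) (nat_lit 5) (nat_lit 304) (nat_lit 269) (nat_lit 147)) (XT.lf (nat_lit 0) (nat_lit 2542468234) (nat_lit 252) (nat_lit 4473832370) (nat_lit 336) (nat_lit 38115615071) (nat_lit 62) (nat_lit 5) (nat_lit 65) (nat_lit 5) (nat_lit 66) (nat_lit 5) (nat_lit 305) (nat_lit 269) (nat_lit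 146))) (XT.nd (nat_lit 94) (nat_lit 168) (nat_lit 0) (XT.lf (nat_lit 0) (nat_lit 18336985737) (nat_lit 336) (nat_lit 15012935469) (nat_lit 84) (nat_lit 13155261928) (nat_lit 62) (nat_lit 5) (nat_lit 66) (nat_lit 5) (nat_lit 63) (nat_lit 5) (nat_lit 306) (nat_lit 269) (nat_lit 145)) (XT.lf (nat_lit 0) (nat_lit 14320703889) (nat_lit 168) (nat_lit 16195786121) (nat_lit 252) (nat_lit 17415984711) (nat_lit 60) (nat_lit 5) (nat_lit 62) (nat_lit 5) (nat_lit 63) (nat_lit 5) (nat_lit 307) (nat_lit 269) (nat_lit 144))))) (XT.nd (nat_lit 376) (nat_lit 588) (nat_lit 0) (XT.nd (nat_lit 188) (nat_lit 168) (nat_lit 0) (XT.nd (nat_lit 94) (nat_lit 252) (nat_lit 0) (XT.lf (nat_lit 0) (nat_lit 43587654041) (nat_lit 252) (nat_lit 3815462709) (nat_lit 84) (nat_lit 2013879911) (nat_lit 60) (nat_lit 5) (nat_lit 63) (nat_lit 5) (nat_lit 61) (nat_lit 5) (nat_lit 308) (nat_lit 269) (nat_lit 143))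 (XT.lf (nat_lit 0) (nat_lit 6845599894) (nat_lit 252) (nat_lit 22953115125) (nat_lit 84) (nat_lit 21136494044) (nat_lit 57) (nat_lit 5) (nat_lit 60) (nat_lit 5) (nat_lit 58) (nat_lit 5) (nat_lit 309) (nat_lit 269) (nat_lit 142))) (XT.nd (nat_lit 94) (nat_lit 0) (nat_lit 0) (XT.lf (nat_lit 0) (nat_lit 9166179042) (nat_lit 168) (nat_lit 10997122297) (nat_lit 252) (nat_lit 32351006800) (nat_lit 55) (nat_lit 5) (nat_lit 57) (nat_lit 5) (nat_lit 58) (nat_lit 5) (nat_lit 310) (nat_lit 269) (nat_lit 141)) (XT.lf (nat_lit 0) (nat_lit 34674684344) (nat_lit 252) (nat_lit 10614017056) (nat_lit 84) (nat_lit 8857270943) (nat_lit 55) (nat_lit 5) (nat_lit 58) (nat_lit 5) (nat_lit 56) (nat_lit 5) (nat_lit 311) (nat_lit 269) (nat_lit 140)))) (XT.nd (nat_lit 188) (nat_lit 168) (nat_lit 0) (XT.nd (nat_lit 94) (nat_lit 252) (nat_lit 0) (XT.lf (nat_lit 0) (nat_lit 24349661297) (nat_lit 168)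 (nat_lit 26118779443) (nat_lit 252) (nat_lit 5362938807) (nat_lit 53) (nat_lit 5) (nat_lit 55) (nat_lit 5) (nat_lit 56) (nat_lit 5) (nat_lit 312) (nat_lit 269) (nat_lit 139)) (XT.lf (nat_lit 0) (nat_lit 3802946570) (nat_lit 168) (nat_lit 5583847603) (nat_lit 252) (nat_lit 48194962649) (nat_lit 50) (nat_lit 5) (nat_lit 52) (nat_lit 5) (nat_lit 53) (nat_lit 5) (nat_lit 313) (nat_lit 269) (nat_lit 138))) (XT.nd (nat_lit 94) (nat_lit 168) (nat_lit 0) (XT.lf (nat_lit 0) (nat_lit 25481554748) (nat_lit 252) (nat_lit 17800548734) (nat_lit 84) (nat_lit 16093765086) (nat_lit 50) (nat_lit 5) (nat_lit 53) (nat_lit 5) (nat_lit 51) (nat_lit 5) (nat_lit 314) (nat_lit 269) (nat_lit 137)) (XT.nd (nat_lit 94) (nat_lit 0) (nat_lit 0) (XT.lf (nat_lit 0) (nat_lit 20536422641) (nat_lit 168) (nat_lit 22253384790) (nat_lit 252) (nat_lit 18449440766) (nat_lit 48) (nat_lit 5) (nat_lit 50) (nat_lit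 5) (nat_lit 51) (nat_lit 5) (nat_lit 315) (nat_lit 269) (nat_lit 136)) (XT.lf (nat_lit 0) (nat_lit 61263787315) (nat_lit 252) (nat_lit 1780714006) (nat_lit 84) (nat_lit 136279758) (nat_lit 48) (nat_lit 5) (nat_lit 51) (nat_lit 5) (nat_lit 49) (nat_lit 4) (nat_lit 316) (nat_lit 269) (nat_lit 135))))))) (XT.nd (nat_lit 752) (nat_lit 756) (nat_lit 0) (XT.nd (nat_lit 376) (nat_lit 504) (nat_lit 0) (XT.nd (nat_lit 188) (nat_lit 168) (nat_lit 0) (XT.nd (nat_lit 94) (nat_lit 168) (nat_lit 0) (XT.lf (nat_lit 0) (nat_lit 15950052118) (nat_lit 168) (nat_lit 25430199817) (nat_lit 84) (nat_lit 23776972997) (nat_lit 46) (nat_lit 5) (nat_lit 48) (nat_lit 5) (nat_lit 47) (nat_lit 5) (nat_lit 317) (nat_lit 269) (nat_lit 134)) (XT.lf (nat_lit 0) (nat_lit 16635800310) (nat_lit 168) (nat_lit 18297401008) (nat_lit 252) (nat_lit 32283359623) (nat_lit 44) (nat_lit 5) (nat_lit 46) (nat_lit 5)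 (nat_lit 47) (nat_lit 5) (nat_lit 318) (nat_lit 269) (nat_lit 133))) (XT.nd (nat_lit 94) (nat_lit 168) (nat_lit 0) (XT.lf (nat_lit 0) (nat_lit 55392792262) (nat_lit 252) (nat_lit 7774889743) (nat_lit 84) (nat_lit 6184817533) (nat_lit 44) (nat_lit 5) (nat_lit 47) (nat_lit 5) (nat_lit 45) (nat_lit 4) (nat_lit 319) (nat_lit 269) (nat_lit 132)) (XT.lf (nat_lit 0) (nat_lit 6017282984) (nat_lit 168) (nat_lit 33562914232) (nat_lit 84) (nat_lit 31965608351) (nat_lit 42) (nat_lit 5) (nat_lit 44) (nat_lit 5) (nat_lit 43) (nat_lit 5) (nat_lit 320) (nat_lit 269) (nat_lit 131)))) (XT.nd (nat_lit 188) (nat_lit 336) (nat_lit 0) (XT.nd (nat_lit 94) (nat_lit 0) (nat_lit 0) (XT.lf (nat_lit 0) (nat_lit 12623847216) (nat_lit 168) (nat_lit 14228042307) (nat_lit 252) (nat_lit 46969049767) (nat_lit 40) (nat_lit 5) (nat_lit 42) (nat_lit 5) (nat_lit 43) (nat_lit 5) (nat_lit 321) (nat_lit 269) (nat_lit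 130)) (XT.lf (nat_lit 0) (nat_lit 49496420457) (nat_lit 252) (nat_lit 14104526552) (nat_lit 84) (nat_lit 12570472987) (nat_lit 40) (nat_lit 5) (nat_lit 43) (nat_lit 5) (nat_lit 41) (nat_lit 4) (nat_lit 322) (nat_lit 269) (nat_lit 129))) (XT.nd (nat_lit 94) (nat_lit 252) (nat_lit 0) (XT.lf (nat_lit 0) (nat_lit 36264880634) (nat_lit 84) (nat_lit 37804885358) (nat_lit 168) (nat_lit 4529829344) (nat_lit 39) (nat_lit 5) (nat_lit 40) (nat_lit 5) (nat_lit 41) (nat_lit 4) (nat_lit 323) (nat_lit 269) (nat_lit 128)) (XT.lf (nat_lit 0) (nat_lit 8474971104) (nat_lit 168) (nat_lit 10020643598) (nat_lit 252) (nat_lit 62620336354) (nat_lit 36) (nat_lit 5) (nat_lit 38) (nat_lit 5) (nat_lit 39) (nat_lit 5) (nat_lit 324) (nat_lit 269) (nat_lit 127))))) (XT.nd (nat_lit 376) (nat_lit 420) (nat_lit 0) (XT.nd (nat_lit 188) (nat_lit 252) (nat_lit 0) (XT.nd (nat_lit 94) (nat_lit 84) (nat_lit 0)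 (XT.lf (nat_lit 0) (nat_lit 43545012601) (nat_lit 252) (nat_lit 20817681592) (nat_lit 84) (nat_lit 19340471715) (nat_lit 36) (nat_lit 5) (nat_lit 39) (nat_lit 5) (nat_lit 37) (nat_lit 4) (nat_lit 325) (nat_lit 269) (nat_lit 126)) (XT.lf (nat_lit 0) (nat_lit 34532753658) (nat_lit 84) (nat_lit 36014859569) (nat_lit 168) (nat_lit 15837091634) (nat_lit 35) (nat_lit 5) (nat_lit 36) (nat_lit 5) (nat_lit 37) (nat_lit 4) (nat_lit 326) (nat_lit 269) (nat_lit 125))) (XT.nd (nat_lit 94) (nat_lit 0) (nat_lit 0) (XT.lf (nat_lit 0) (nat_lit 4161710436) (nat_lit 168) (nat_lit 5648479235) (nat_lit 252) (nat_lit 79361527470) (nat_lit 32) (nat_lit 5) (nat_lit 34) (nat_lit 5) (nat_lit 35) (nat_lit 5) (nat_lit 327) (nat_lit 269) (nat_lit 124)) (XT.lf (nat_lit 0) (nat_lit 37507088752) (nat_lit 252) (nat_lit 27966617765) (nat_lit 84) (nat_lit 26546418102) (nat_lit 32) (nat_lit 5) (nat_lit 35)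 (nat_lit 5) (nat_lit 33) (nat_lit 4) (nat_lit 328) (nat_lit 269) (nat_lit 123)))) (XT.nd (nat_lit 188) (nat_lit 252) (nat_lit 0) (XT.nd (nat_lit 94) (nat_lit 84) (nat_lit 0) (XT.lf (nat_lit 0) (nat_lit 32884035814) (nat_lit 84) (nat_lit 34308263454) (nat_lit 168) (nat_lit 27788479880) (nat_lit 31) (nat_lit 5) (nat_lit 32) (nat_lit 5) (nat_lit 33) (nat_lit 4) (nat_lit 329) (nat_lit 269) (nat_lit 122)) (XT.lf (nat_lit 0) (nat_lit 742444030) (nat_lit 168) (nat_lit 334448673) (nat_lit 84) (nat_lit 96988418352) (nat_lit 30) (nat_lit 5) (nat_lit 32) (nat_lit 5) (nat_lit 31) (nat_lit 5) (nat_lit 330) (nat_lit 269) (nat_lit 121))) (XT.nd (nat_lit 94) (nat_lit 84) (nat_lit 0) (XT.lf (nat_lit 0) (nat_lit 31349115887) (nat_lit 252) (nat_lit 35608281337) (nat_lit 84) (nat_lit 34244741045) (nat_lit 28) (nat_lit 5) (nat_lit 31) (nat_lit 5) (nat_lit 29) (nat_lit 4) (nat_lit 331) (nat_lit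 269) (nat_lit 120)) (XT.nd (nat_lit 94) (nat_lit 0) (nat_lit 0) (XT.lf (nat_lit 0) (nat_lit 31314590900) (nat_lit 84) (nat_lit 32681445019) (nat_lit 168) (nat_lit 40474275197) (nat_lit 27) (nat_lit 5) (nat_lit 28) (nat_lit 5) (nat_lit 29) (nat_lit 4) (nat_lit 332) (nat_lit 269) (nat_lit 119)) (XT.lf (nat_lit 0) (nat_lit 98937488826) (nat_lit 168) (nat_lit 5118033001) (nat_lit 0) (nat_lit 3813261434) (nat_lit 27) (nat_lit 5) (nat_lit 29) (nat_lit 4) (nat_lit 27) (nat_lit 4) (nat_lit 333) (nat_lit 269) (nat_lit 118))))))))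
noncomputable def xc167 : XT := (XT.nd (nat_lit 1598) (nat_lit 588) (nat_lit 0) (XT.nd (nat_lit 752) (nat_lit 756) (nat_lit 0) (XT.nd (nat_lit 376) (nat_lit 336) (nat_lit 0) (XT.nd (nat_lit 188) (nat_lit 168) (nat_lit 0) (XT.nd (nat_lit 94) (nat_lit 84) (nat_lit 0) (XT.lf (nat_lit 0) (nat_lit 25035251642) (nat_lit 168) (nat_lit 43804824134) (nat_lit 84) (nat_lit 42497189957) (nat_lit 25) (nat_lit 5) (nat_lit 27) (nat_lit 5) (nat_lit 26) (nat_lit 4) (nat_lit 334) (nat_lit 269) (nat_lit 117)) (XT.lf (nat_lit 0) (nat_lit 29820508815) (nat_lit 84) (nat_lit 31130869287) (nat_lit 168) (nat_lit 53992903338) (nat_lit 24) (nat_lit 5) (nat_lit 25) (nat_lit 5) (nat_lit 26) (nat_lit 4) (nat_lit 335) (nat_lit 269) (nat_lit 116))) (XT.nd (nat_lit 94) (nat_lit 168) (nat_lit 0) (XT.lf (nat_lit 0) (nat_lit 99547204603) (nat_lit 168) (nat_lit 10195341913) (nat_lit 0) (nat_lit 8944906730)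 (nat_lit 24) (nat_lit 5) (nat_lit 26) (nat_lit 4) (nat_lit 24) (nat_lit 4) (nat_lit 336) (nat_lit 269) (nat_lit 115)) (XT.lf (nat_lit 0) (nat_lit 18527062187) (nat_lit 168) (nat_lit 52624175464) (nat_lit 84) (nat_lit 51371385205) (nat_lit 22) (nat_lit 5) (nat_lit 24) (nat_lit 5) (nat_lit 23) (nat_lit 4) (nat_lit 337) (nat_lit 269) (nat_lit 114)))) (XT.nd (nat_lit 188) (nat_lit 252) (nat_lit 0) (XT.nd (nat_lit 94) (nat_lit 0) (nat_lit 0) (XT.lf (nat_lit 0) (nat_lit 28398089626) (nat_lit 84) (nat_lit 29653122814) (nat_lit 168) (nat_lit 68451814191) (nat_lit 21) (nat_lit 5) (nat_lit 22) (nat_lit 5) (nat_lit 23) (nat_lit 4) (nat_lit 338) (nat_lit 269) (nat_lit 113)) (XT.lf (nat_lit 0) (nat_lit 100672576191) (nat_lit 168) (nat_lit 15575564105) (nat_lit 0) (nat_lit 14378260000) (nat_lit 21) (nat_lit 5) (nat_lit 23) (nat_lit 4) (nat_lit 21) (nat_lit 4) (nat_lit 339) (nat_lit 269)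 (nat_lit 112))) (XT.nd (nat_lit 94) (nat_lit 84) (nat_lit 0) (XT.lf (nat_lit 0) (nat_lit 11783211878) (nat_lit 168) (nat_lit 62140669366) (nat_lit 84) (nat_lit 60941427734) (nat_lit 19) (nat_lit 5) (nat_lit 21) (nat_lit 5) (nat_lit 20) (nat_lit 4) (nat_lit 340) (nat_lit 269) (nat_lit 111)) (XT.lf (nat_lit 0) (nat_lit 27043829304) (nat_lit 84) (nat_lit 28244916200) (nat_lit 168) (nat_lit 83968450737) (nat_lit 18) (nat_lit 5) (nat_lit 19) (nat_lit 5) (nat_lit 20) (nat_lit 4) (nat_lit 341) (nat_lit 269) (nat_lit 110))))) (XT.nd (nat_lit 376) (nat_lit 504) (nat_lit 0) (XT.nd (nat_lit 188) (nat_lit 84) (nat_lit 0) (XT.nd (nat_lit 94) (nat_lit 168) (nat_lit 0) (XT.lf (nat_lit 0) (nat_lit 102345006058) (nat_lit 168) (nat_lit 21300232644) (nat_lit 0) (nat_lit 20154666654) (nat_lit 18) (nat_lit 5) (nat_lit 20) (nat_lit 4) (nat_lit 18) (nat_lit 4) (nat_lit 342) (nat_lit 269) (nat_lit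 109)) (XT.lf (nat_lit 0) (nat_lit 4759122017) (nat_lit 168) (nat_lit 72435733277) (nat_lit 84) (nat_lit 71288573279) (nat_lit 16) (nat_lit 5) (nat_lit 18) (nat_lit 5) (nat_lit 17) (nat_lit 4) (nat_lit 343) (nat_lit 269) (nat_lit 108))) (XT.nd (nat_lit 94) (nat_lit 0) (nat_lit 0) (XT.lf (nat_lit 0) (nat_lit 25754406906) (nat_lit 84) (nat_lit 26903085006) (nat_lit 168) (nat_lit 100671316415) (nat_lit 15) (nat_lit 5) (nat_lit 16) (nat_lit 5) (nat_lit 17) (nat_lit 4) (nat_lit 344) (nat_lit 269) (nat_lit 107)) (XT.lf (nat_lit 0) (nat_lit 104600114483) (nat_lit 168) (nat_lit 27414615992) (nat_lit 0) (nat_lit 26319259885) (nat_lit 15) (nat_lit 5) (nat_lit 17) (nat_lit 4) (nat_lit 15) (nat_lit 4) (nat_lit 345) (nat_lit 269) (nat_lit 106)))) (XT.nd (nat_lit 188) (nat_lit 252) (nat_lit 0) (XT.nd (nat_lit 94) (nat_lit 168) (nat_lit 0) (XT.lf (nat_lit 0) (nat_lit 79864652425) (nat_lit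 84) (nat_lit 80961319927) (nat_lit 84) (nat_lit 2679153935) (nat_lit 14) (nat_lit 4) (nat_lit 15) (nat_lit 5) (nat_lit 15) (nat_lit 4) (nat_lit 346) (nat_lit 269) (nat_lit 105)) (XT.lf (nat_lit 0) (nat_lit 24526672973) (nat_lit 84) (nat_lit 25624589422) (nat_lit 168) (nat_lit 118701150832) (nat_lit 12) (nat_lit 5) (nat_lit 13) (nat_lit 5) (nat_lit 14) (nat_lit 4) (nat_lit 347) (nat_lit 269) (nat_lit 104))) (XT.nd (nat_lit 94) (nat_lit 252) (nat_lit 0) (XT.lf (nat_lit 0) (nat_lit 107478128287) (nat_lit 168) (nat_lit 33968129725) (nat_lit 0) (nat_lit 32921362181) (nat_lit 12) (nat_lit 5) (nat_lit 14) (nat_lit 4) (nat_lit 12) (nat_lit 4) (nat_lit 348) (nat_lit 269) (nat_lit 103)) (XT.nd (nat_lit 94) (nat_lit 168) (nat_lit 0) (XT.lf (nat_lit 0) (nat_lit 84178036835) (nat_lit 84) (nat_lit 85225883267) (nat_lit 84) (nat_lit 10668038273) (nat_lit 11) (nat_lit 4) (nat_lit 12) (nat_lit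 5) (nat_lit 12) (nat_lit 4) (nat_lit 349) (nat_lit 269) (nat_lit 102)) (XT.lf (nat_lit 0) (nat_lit 23357639006) (nat_lit 84) (nat_lit 24406512950) (nat_lit 168) (nat_lit 138212224773) (nat_lit 9) (nat_lit 5) (nat_lit 10) (nat_lit 5) (nat_lit 11) (nat_lit 4) (nat_lit 350) (nat_lit 269) (nat_lit 101))))))) (XT.nd (nat_lit 37600) (nat_lit 0) (nat_lit 10584) (XT.nd (nat_lit 376) (nat_lit 336) (nat_lit 0) (XT.nd (nat_lit 188) (nat_lit 168) (nat_lit 0) (XT.nd (nat_lit 94) (nat_lit 84) (nat_lit 0) (XT.lf (nat_lit 0) (nat_lit 111024310793) (nat_lit 168) (nat_lit 41014788353) (nat_lit 0) (nat_lit 40014928804) (nat_lit 9) (nat_lit 5) (nat_lit 11) (nat_lit 4) (nat_lit 9) (nat_lit 4) (nat_lit 351) (nat_lit 269) (nat_lit 100)) (XT.lf (nat_lit 0) (nat_lit 89118281787) (nat_lit 84) (nat_lit 90119028939) (nat_lit 84) (nat_lit 19108759347) (nat_lit 8) (nat_lit 4) (nat_lit 9) (nat_lit 5)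 (nat_lit 9) (nat_lit 4) (nat_lit 352) (nat_lit 269) (nat_lit 99))) (XT.nd (nat_lit 94) (nat_lit 0) (nat_lit 0) (XT.lf (nat_lit 0) (nat_lit 22244467847) (nat_lit 84) (nat_lit 23246060335) (nat_lit 168) (nat_lit 159373766681) (nat_lit 6) (nat_lit 5) (nat_lit 7) (nat_lit 5) (nat_lit 8) (nat_lit 4) (nat_lit 353) (nat_lit 269) (nat_lit 98)) (XT.lf (nat_lit 0) (nat_lit 115289437268) (nat_lit 168) (nat_lit 48613701610) (nat_lit 0) (nat_lit 47659037257) (nat_lit 6) (nat_lit 5) (nat_lit 8) (nat_lit 4) (nat_lit 6) (nat_lit 4) (nat_lit 354) (nat_lit 269) (nat_lit 97)))) (XT.nd (nat_lit 188) (nat_lit 84) (nat_lit 0) (XT.nd (nat_lit 94) (nat_lit 168) (nat_lit 0) (XT.lf (nat_lit 0) (nat_lit 94740786259) (nat_lit 84) (nat_lit 95696180845) (nat_lit 84) (nat_lit 28065050602) (nat_lit 5) (nat_lit 4) (nat_lit 6) (nat_lit 5) (nat_lit 6) (nat_lit 4) (nat_lit 355) (nat_lit 269) (nat_lit 96))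 (XT.lf (nat_lit 0) (nat_lit 21184464873) (nat_lit 84) (nat_lit 22140554920) (nat_lit 168) (nat_lit 182371534005) (nat_lit 3) (nat_lit 5) (nat_lit 4) (nat_lit 5) (nat_lit 5) (nat_lit 4) (nat_lit 356) (nat_lit 269) (nat_lit 95))) (XT.nd (nat_lit 94) (nat_lit 84) (nat_lit 0) (XT.lf (nat_lit 0) (nat_lit 120330320576) (nat_lit 168) (nat_lit 56829619950) (nat_lit 0) (nat_lit 55918427198) (nat_lit 3) (nat_lit 5) (nat_lit 5) (nat_lit 4) (nat_lit 3) (nat_lit 4) (nat_lit 357) (nat_lit 269) (nat_lit 94)) (XT.lf (nat_lit 0) (nat_lit 101107059387) (nat_lit 84) (nat_lit 102018852905) (nat_lit 84) (nat_lit 37606358761) (nat_lit 2) (nat_lit 4) (nat_lit 3) (nat_lit 5) (nat_lit 3) (nat_lit 4) (nat_lit 358) (nat_lit 269) (nat_lit 93))))) (XT.nd (nat_lit 376) (nat_lit 0) (nat_lit 168) (XT.nd (nat_lit 188) (nat_lit 0) (nat_lit 84) (XT.nd (nat_lit 94) (nat_lit 0) (nat_lit 0) (XT.lf (nat_lit 0)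 (nat_lit 2680092139) (nat_lit 924) (nat_lit 3080058456) (nat_lit 924) (nat_lit 3080058456) (nat_lit 128) (nat_lit 3) (nat_lit 139) (nat_lit 3) (nat_lit 139) (nat_lit 5) (nat_lit 270) (nat_lit 270) (nat_lit 180)) (XT.lf (nat_lit 84) (nat_lit 2768708089) (nat_lit 0) (nat_lit 2978322133) (nat_lit 924) (nat_lit 12362756269) (nat_lit 129) (nat_lit 5) (nat_lit 128) (nat_lit 3) (nat_lit 139) (nat_lit 5) (nat_lit 271) (nat_lit 270) (nat_lit 179))) (XT.nd (nat_lit 94) (nat_lit 0) (nat_lit 0) (XT.lf (nat_lit 0) (nat_lit 6339351860) (nat_lit 840) (nat_lit 6300861653) (nat_lit 924) (nat_lit 5911103113) (nat_lit 129) (nat_lit 5) (nat_lit 139) (nat_lit 5) (nat_lit 140) (nat_lit 5) (nat_lit 272) (nat_lit 270) (nat_lit 178)) (XT.lf (nat_lit 84) (nat_lit 3238525892) (nat_lit 0) (nat_lit 3809356924) (nat_lit 924) (nat_lit 11962710791) (nat_lit 130) (nat_lit 5) (nat_lit 129) (nat_lit 5) (nat_lit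 140) (nat_lit 5) (nat_lit 273) (nat_lit 270) (nat_lit 177)))) (XT.nd (nat_lit 188) (nat_lit 0) (nat_lit 84) (XT.nd (nat_lit 94) (nat_lit 0) (nat_lit 0) (XT.lf (nat_lit 0) (nat_lit 7973362743) (nat_lit 840) (nat_lit 6109141131) (nat_lit 924) (nat_lit 5401254440) (nat_lit 130) (nat_lit 5) (nat_lit 140) (nat_lit 5) (nat_lit 141) (nat_lit 5) (nat_lit 274) (nat_lit 270) (nat_lit 176)) (XT.lf (nat_lit 84) (nat_lit 4097796591) (nat_lit 0) (nat_lit 4962100509) (nat_lit 924) (nat_lit 10914945136) (nat_lit 131) (nat_lit 5) (nat_lit 130) (nat_lit 5) (nat_lit 141) (nat_lit 5) (nat_lit 275) (nat_lit 270) (nat_lit 175))) (XT.nd (nat_lit 94) (nat_lit 0) (nat_lit 0) (XT.lf (nat_lit 0) (nat_lit 10366800621) (nat_lit 840) (nat_lit 5540199617) (nat_lit 924) (nat_lit 4575177993) (nat_lit 131) (nat_lit 5) (nat_lit 141) (nat_lit 5) (nat_lit 142) (nat_lit 5) (nat_lit 276) (nat_lit 270) (nat_lit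 174)) (XT.nd (nat_lit 94) (nat_lit 0) (nat_lit 84) (XT.lf (nat_lit 84) (nat_lit 5396944924) (nat_lit 0) (nat_lit 6497085629) (nat_lit 924) (nat_lit 9113101412) (nat_lit 132) (nat_lit 5) (nat_lit 131) (nat_lit 5) (nat_lit 142) (nat_lit 5) (nat_lit 277) (nat_lit 270) (nat_lit 173)) (XT.lf (nat_lit 0) (nat_lit 13635605313) (nat_lit 840) (nat_lit 4543069475) (nat_lit 924) (nat_lit 3372759431) (nat_lit 132) (nat_lit 5) (nat_lit 142) (nat_lit 5) (nat_lit 143) (nat_lit 5) (nat_lit 278) (nat_lit 270) (nat_lit 172))))))))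
noncomputable def xc168 : XT := (XT.nd (nat_lit 1504) (nat_lit 2856) (nat_lit 0) (XT.nd (nat_lit 752) (nat_lit 1428) (nat_lit 0) (XT.nd (nat_lit 376) (nat_lit 1428) (nat_lit 0) (XT.nd (nat_lit 188) (nat_lit 756) (nat_lit 0) (XT.nd (nat_lit 94) (nat_lit 0) (nat_lit 84) (XT.lf (nat_lit 84) (nat_lit 7193162404) (nat_lit 0) (nat_lit 8480193390) (nat_lit 924) (nat_lit 6439140942) (nat_lit 133) (nat_lit 5) (nat_lit 132) (nat_lit 5) (nat_lit 143) (nat_lit 5) (nat_lit 279) (nat_lit 270) (nat_lit 171)) (XT.lf (nat_lit 0) (nat_lit 17908432737) (nat_lit 840) (nat_lit 3060010414) (nat_lit 84) (nat_lit 1728397282) (nat_lit 133) (nat_lit 5) (nat_lit 143) (nat_lit 5) (nat_lit 134) (nat_lit 5) (nat_lit 280) (nat_lit 270) (nat_lit 170))) (XT.nd (nat_lit 94) (nat_lit 0) (nat_lit 0) (XT.lf (nat_lit 0) (nat_lit 9551026173) (nat_lit 840) (nat_lit 10983467244) (nat_lit 924) (nat_lit 2761946402)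 (nat_lit 123) (nat_lit 5) (nat_lit 133) (nat_lit 5) (nat_lit 134) (nat_lit 5) (nat_lit 281) (nat_lit 270) (nat_lit 169)) (XT.lf (nat_lit 0) (nat_lit 22891052640) (nat_lit 840) (nat_lit 444021723) (nat_lit 924) (nat_lit 588783950) (nat_lit 123) (nat_lit 5) (nat_lit 133) (nat_lit 5) (nat_lit 134) (nat_lit 5) (nat_lit 282) (nat_lit 270) (nat_lit 168)))) (XT.nd (nat_lit 188) (nat_lit 420) (nat_lit 0) (XT.nd (nat_lit 94) (nat_lit 420) (nat_lit 0) (XT.lf (nat_lit 0) (nat_lit 1998140016) (nat_lit 588) (nat_lit 12054001988) (nat_lit 84) (nat_lit 10511219518) (nat_lit 116) (nat_lit 5) (nat_lit 123) (nat_lit 5) (nat_lit 117) (nat_lit 5) (nat_lit 283) (nat_lit 270) (nat_lit 167)) (XT.lf (nat_lit 0) (nat_lit 1555090564) (nat_lit 420) (nat_lit 3180824429) (nat_lit 504) (nat_lit 20496377699) (nat_lit 111) (nat_lit 5) (nat_lit 116) (nat_lit 5) (nat_lit 117) (nat_lit 5) (nat_lit 284) (nat_lit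 270) (nat_lit 166))) (XT.nd (nat_lit 94) (nat_lit 420) (nat_lit 0) (XT.lf (nat_lit 0) (nat_lit 7938837197) (nat_lit 504) (nat_lit 9801488814) (nat_lit 84) (nat_lit 8177931486) (nat_lit 111) (nat_lit 5) (nat_lit 117) (nat_lit 5) (nat_lit 112) (nat_lit 5) (nat_lit 285) (nat_lit 270) (nat_lit 165)) (XT.lf (nat_lit 0) (nat_lit 4863678755) (nat_lit 420) (nat_lit 6558892616) (nat_lit 504) (nat_lit 15209915878) (nat_lit 106) (nat_lit 5) (nat_lit 111) (nat_lit 5) (nat_lit 112) (nat_lit 5) (nat_lit 286) (nat_lit 270) (nat_lit 164))))) (XT.nd (nat_lit 376) (nat_lit 756) (nat_lit 0) (XT.nd (nat_lit 188) (nat_lit 336) (nat_lit 0) (XT.nd (nat_lit 94) (nat_lit 336) (nat_lit 0) (XT.lf (nat_lit 0) (nat_lit 15322915325) (nat_lit 504) (nat_lit 6863437995) (nat_lit 84) (nat_lit 5183954014) (nat_lit 106) (nat_lit 5) (nat_lit 112) (nat_lit 5) (nat_lit 107) (nat_lit 5) (nat_lit 287) (nat_lit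 270) (nat_lit 163)) (XT.lf (nat_lit 0) (nat_lit 8958719133) (nat_lit 336) (nat_lit 10700102722) (nat_lit 420) (nat_lit 8474169301) (nat_lit 102) (nat_lit 5) (nat_lit 106) (nat_lit 5) (nat_lit 107) (nat_lit 5) (nat_lit 288) (nat_lit 270) (nat_lit 162))) (XT.nd (nat_lit 94) (nat_lit 336) (nat_lit 0) (XT.lf (nat_lit 0) (nat_lit 24344250693) (nat_lit 420) (nat_lit 3148763728) (nat_lit 84) (nat_lit 1434158398) (nat_lit 102) (nat_lit 5) (nat_lit 107) (nat_lit 5) (nat_lit 103) (nat_lit 5) (nat_lit 289) (nat_lit 270) (nat_lit 161)) (XT.lf (nat_lit 0) (nat_lit 13941305466) (nat_lit 336) (nat_lit 15709382004) (nat_lit 420) (nat_lit 91039269) (nat_lit 98) (nat_lit 5) (nat_lit 102) (nat_lit 5) (nat_lit 103) (nat_lit 5) (nat_lit 290) (nat_lit 270) (nat_lit 160)))) (XT.nd (nat_lit 188) (nat_lit 336) (nat_lit 0) (XT.nd (nat_lit 94) (nat_lit 0) (nat_lit 0) (XT.lf (nat_lit 0) (nat_lit 1363817037)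 (nat_lit 336) (nat_lit 3182818536) (nat_lit 420) (nat_lit 26043299944) (nat_lit 93) (nat_lit 5) (nat_lit 97) (nat_lit 5) (nat_lit 98) (nat_lit 5) (nat_lit 291) (nat_lit 270) (nat_lit 159)) (XT.lf (nat_lit 0) (nat_lit 9834676701) (nat_lit 420) (nat_lit 11701649565) (nat_lit 84) (nat_lit 9923076744) (nat_lit 93) (nat_lit 5) (nat_lit 98) (nat_lit 5) (nat_lit 94) (nat_lit 5) (nat_lit 292) (nat_lit 270) (nat_lit 158))) (XT.nd (nat_lit 94) (nat_lit 0) (nat_lit 0) (XT.lf (nat_lit 0) (nat_lit 6859009421) (nat_lit 336) (nat_lit 8681573138) (nat_lit 420) (nat_lit 16824088182) (nat_lit 89) (nat_lit 5) (nat_lit 93) (nat_lit 5) (nat_lit 94) (nat_lit 5) (nat_lit 293) (nat_lit 270) (nat_lit 157)) (XT.lf (nat_lit 0) (nat_lit 21802729929) (nat_lit 420) (nat_lit 6637300315) (nat_lit 84) (nat_lit 4861624307) (nat_lit 89) (nat_lit 5) (nat_lit 94) (nat_lit 5) (nat_lit 90) (nat_lit 5) (nat_lit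 294) (nat_lit 270) (nat_lit 156)))))) (XT.nd (nat_lit 752) (nat_lit 1344) (nat_lit 0) (XT.nd (nat_lit 376) (nat_lit 588) (nat_lit 0) (XT.nd (nat_lit 188) (nat_lit 588) (nat_lit 0) (XT.nd (nat_lit 94) (nat_lit 84) (nat_lit 0) (XT.lf (nat_lit 0) (nat_lit 13455656624) (nat_lit 252) (nat_lit 15269333621) (nat_lit 336) (nat_lit 5543147025) (nat_lit 86) (nat_lit 5) (nat_lit 89) (nat_lit 5) (nat_lit 90) (nat_lit 5) (nat_lit 295) (nat_lit 270) (nat_lit 155)) (XT.lf (nat_lit 0) (nat_lit 796595216) (nat_lit 336) (nat_lit 513791804) (nat_lit 84) (nat_lit 33966556842) (nat_lit 85) (nat_lit 5) (nat_lit 89) (nat_lit 5) (nat_lit 86) (nat_lit 5) (nat_lit 296) (nat_lit 270) (nat_lit 154))) (XT.nd (nat_lit 94) (nat_lit 252) (nat_lit 0) (XT.lf (nat_lit 0) (nat_lit 7811173792) (nat_lit 420) (nat_lit 15143936396) (nat_lit 84) (nat_lit 13349330268) (nat_lit 81) (nat_lit 5) (nat_lit 86) (nat_lit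 5) (nat_lit 82) (nat_lit 5) (nat_lit 297) (nat_lit 270) (nat_lit 153)) (XT.lf (nat_lit 0) (nat_lit 6740601905) (nat_lit 252) (nat_lit 8566471541) (nat_lit 336) (nat_lit 22069708826) (nat_lit 78) (nat_lit 5) (nat_lit 81) (nat_lit 5) (nat_lit 82) (nat_lit 5) (nat_lit 298) (nat_lit 270) (nat_lit 152)))) (XT.nd (nat_lit 188) (nat_lit 336) (nat_lit 0) (XT.nd (nat_lit 94) (nat_lit 252) (nat_lit 0) (XT.lf (nat_lit 0) (nat_lit 23535699525) (nat_lit 336) (nat_lit 8358212734) (nat_lit 84) (nat_lit 6590932347) (nat_lit 78) (nat_lit 5) (nat_lit 82) (nat_lit 5) (nat_lit 79) (nat_lit 5) (nat_lit 299) (nat_lit 270) (nat_lit 151)) (XT.lf (nat_lit 0) (nat_lit 15378682409) (nat_lit 252) (nat_lit 17172969391) (nat_lit 336) (nat_lit 7077863513) (nat_lit 75) (nat_lit 5) (nat_lit 78) (nat_lit 5) (nat_lit 79) (nat_lit 5) (nat_lit 300) (nat_lit 270) (nat_lit 150))) (XT.nd (nat_lit 94) (nat_lit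 252) (nat_lit 0) (XT.lf (nat_lit 0) (nat_lit 1288261988) (nat_lit 336) (nat_lit 259388077) (nat_lit 84) (nat_lit 39275879349) (nat_lit 74) (nat_lit 5) (nat_lit 78) (nat_lit 5) (nat_lit 75) (nat_lit 5) (nat_lit 301) (nat_lit 270) (nat_lit 149)) (XT.lf (nat_lit 0) (nat_lit 10471016173) (nat_lit 336) (nat_lit 16662643550) (nat_lit 84) (nat_lit 14905973718) (nat_lit 71) (nat_lit 5) (nat_lit 75) (nat_lit 5) (nat_lit 72) (nat_lit 5) (nat_lit 302) (nat_lit 270) (nat_lit 148))))) (XT.nd (nat_lit 376) (nat_lit 588) (nat_lit 0) (XT.nd (nat_lit 188) (nat_lit 504) (nat_lit 0) (XT.nd (nat_lit 94) (nat_lit 0) (nat_lit 0) (XT.lf (nat_lit 0) (nat_lit 9252000551) (nat_lit 252) (nat_lit 11030888775) (nat_lit 336) (nat_lit 23025154281) (nat_lit 68) (nat_lit 5) (nat_lit 71) (nat_lit 5) (nat_lit 72) (nat_lit 5) (nat_lit 303) (nat_lit 270) (nat_lit 147)) (XT.lf (nat_lit 0) (nat_lit 30959693728)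 (nat_lit 336) (nat_lit 7687897835) (nat_lit 84) (nat_lit 5973565838) (nat_lit 68) (nat_lit 5) (nat_lit 72) (nat_lit 5) (nat_lit 69) (nat_lit 5) (nat_lit 304) (nat_lit 270) (nat_lit 146))) (XT.nd (nat_lit 94) (nat_lit 336) (nat_lit 0) (XT.lf (nat_lit 0) (nat_lit 20466577324) (nat_lit 168) (nat_lit 22200102404) (nat_lit 252) (nat_lit 3308430088) (nat_lit 66) (nat_lit 5) (nat_lit 68) (nat_lit 5) (nat_lit 69) (nat_lit 5) (nat_lit 305) (nat_lit 270) (nat_lit 145)) (XT.lf (nat_lit 0) (nat_lit 2870781203) (nat_lit 252) (nat_lit 4622585408) (nat_lit 336) (nat_lit 39888832300) (nat_lit 62) (nat_lit 5) (nat_lit 65) (nat_lit 5) (nat_lit 66) (nat_lit 5) (nat_lit 306) (nat_lit 270) (nat_lit 144)))) (XT.nd (nat_lit 188) (nat_lit 420) (nat_lit 0) (XT.nd (nat_lit 94) (nat_lit 168) (nat_lit 0) (XT.lf (nat_lit 0) (nat_lit 19375188336) (nat_lit 336) (nat_lit 15567075476) (nat_lit 84) (nat_lit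 13882110813) (nat_lit 62) (nat_lit 5) (nat_lit 66) (nat_lit 5) (nat_lit 63) (nat_lit 5) (nat_lit 307) (nat_lit 270) (nat_lit 143)) (XT.lf (nat_lit 0) (nat_lit 15230076386) (nat_lit 168) (nat_lit 16930831245) (nat_lit 252) (nat_lit 18162261171) (nat_lit 60) (nat_lit 5) (nat_lit 62) (nat_lit 5) (nat_lit 63) (nat_lit 5) (nat_lit 308) (nat_lit 270) (nat_lit 142))) (XT.nd (nat_lit 94) (nat_lit 420) (nat_lit 0) (XT.lf (nat_lit 0) (nat_lit 45881093968) (nat_lit 252) (nat_lit 3817569186) (nat_lit 84) (nat_lit 2183480479) (nat_lit 60) (nat_lit 5) (nat_lit 63) (nat_lit 5) (nat_lit 61) (nat_lit 5) (nat_lit 309) (nat_lit 270) (nat_lit 141)) (XT.nd (nat_lit 94) (nat_lit 168) (nat_lit 0) (XT.lf (nat_lit 0) (nat_lit 7301232185) (nat_lit 252) (nat_lit 23911399294) (nat_lit 84) (nat_lit 22263670422) (nat_lit 57) (nat_lit 5) (nat_lit 60) (nat_lit 5) (nat_lit 58) (nat_lit 5) (nat_lit 310)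 (nat_lit 270) (nat_lit 140)) (XT.lf (nat_lit 0) (nat_lit 9810805202) (nat_lit 168) (nat_lit 11471524706) (nat_lit 252) (nat_lit 33852150463) (nat_lit 55) (nat_lit 5) (nat_lit 57) (nat_lit 5) (nat_lit 58) (nat_lit 5) (nat_lit 311) (nat_lit 270) (nat_lit 139))))))))
noncomputable def xc169 : XT := (XT.nd (nat_lit 1598) (nat_lit 1428) (nat_lit 0) (XT.nd (nat_lit 752) (nat_lit 1008) (nat_lit 0) (XT.nd (nat_lit 376) (nat_lit 504) (nat_lit 0) (XT.nd (nat_lit 188) (nat_lit 252) (nat_lit 0) (XT.nd (nat_lit 94) (nat_lit 168) (nat_lit 0) (XT.lf (nat_lit 0) (nat_lit 36515124796) (nat_lit 252) (nat_lit 10963115682) (nat_lit 84) (nat_lit 9369695171) (nat_lit 55) (nat_lit 5) (nat_lit 58) (nat_lit 5) (nat_lit 56) (nat_lit 5) (nat_lit 312) (nat_lit 270) (nat_lit 138)) (XT.lf (nat_lit 0) (nat_lit 25745817521) (nat_lit 168) (nat_lit 27350459830) (nat_lit 252) (nat_lit 5521450445) (nat_lit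 53) (nat_lit 5) (nat_lit 55) (nat_lit 5) (nat_lit 56) (nat_lit 5) (nat_lit 313) (nat_lit 270) (nat_lit 137))) (XT.nd (nat_lit 94) (nat_lit 0) (nat_lit 0) (XT.lf (nat_lit 0) (nat_lit 4172337650) (nat_lit 168) (nat_lit 5787667385) (nat_lit 252) (nat_lit 50495646072) (nat_lit 50) (nat_lit 5) (nat_lit 52) (nat_lit 5) (nat_lit 53) (nat_lit 5) (nat_lit 314) (nat_lit 270) (nat_lit 136)) (XT.lf (nat_lit 0) (nat_lit 26855678133) (nat_lit 252) (nat_lit 18516042332) (nat_lit 84) (nat_lit 16967939249) (nat_lit 50) (nat_lit 5) (nat_lit 53) (nat_lit 5) (nat_lit 51) (nat_lit 5) (nat_lit 315) (nat_lit 270) (nat_lit 135)))) (XT.nd (nat_lit 188) (nat_lit 336) (nat_lit 0) (XT.nd (nat_lit 94) (nat_lit 0) (nat_lit 0) (XT.lf (nat_lit 0) (nat_lit 21734962550) (nat_lit 168) (nat_lit 23292297833) (nat_lit 252) (nat_lit 19269052095) (nat_lit 48) (nat_lit 5) (nat_lit 50) (nat_lit 5) (nat_lit 51) (nat_lit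 5) (nat_lit 316) (nat_lit 270) (nat_lit 134)) (XT.lf (nat_lit 0) (nat_lit 64421371082) (nat_lit 252) (nat_lit 1702639834) (nat_lit 84) (nat_lit 211089496) (nat_lit 48) (nat_lit 5) (nat_lit 51) (nat_lit 5) (nat_lit 49) (nat_lit 4) (nat_lit 317) (nat_lit 270) (nat_lit 133))) (XT.nd (nat_lit 94) (nat_lit 168) (nat_lit 0) (XT.lf (nat_lit 0) (nat_lit 16841536968) (nat_lit 168) (nat_lit 26534187779) (nat_lit 84) (nat_lit 25034662319) (nat_lit 46) (nat_lit 5) (nat_lit 48) (nat_lit 5) (nat_lit 47) (nat_lit 5) (nat_lit 318) (nat_lit 270) (nat_lit 132)) (XT.lf (nat_lit 0) (nat_lit 17632410386) (nat_lit 168) (nat_lit 19139531201) (nat_lit 252) (nat_lit 33800843392) (nat_lit 44) (nat_lit 5) (nat_lit 46) (nat_lit 5) (nat_lit 47) (nat_lit 5) (nat_lit 319) (nat_lit 270) (nat_lit 131))))) (XT.nd (nat_lit 376) (nat_lit 672) (nat_lit 0) (XT.nd (nat_lit 188) (nat_lit 168) (nat_lit 0) (XT.nd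 (nat_lit 94) (nat_lit 168) (nat_lit 0) (XT.lf (nat_lit 0) (nat_lit 58251208900) (nat_lit 252) (nat_lit 8003359565) (nat_lit 84) (nat_lit 6561117198) (nat_lit 44) (nat_lit 5) (nat_lit 47) (nat_lit 5) (nat_lit 45) (nat_lit 4) (nat_lit 320) (nat_lit 270) (nat_lit 130)) (XT.lf (nat_lit 0) (nat_lit 6406585075) (nat_lit 168) (nat_lit 35080446196) (nat_lit 84) (nat_lit 33631642677) (nat_lit 42) (nat_lit 5) (nat_lit 44) (nat_lit 5) (nat_lit 43) (nat_lit 5) (nat_lit 321) (nat_lit 270) (nat_lit 129))) (XT.nd (nat_lit 94) (nat_lit 0) (nat_lit 0) (XT.lf (nat_lit 0) (nat_lit 13413062779) (nat_lit 168) (nat_lit 14868115016) (nat_lit 252) (nat_lit 49226473770) (nat_lit 40) (nat_lit 5) (nat_lit 42) (nat_lit 5) (nat_lit 43) (nat_lit 5) (nat_lit 322) (nat_lit 270) (nat_lit 128)) (XT.lf (nat_lit 0) (nat_lit 52054867621) (nat_lit 252) (nat_lit 14656186936) (nat_lit 84) (nat_lit 13264755131)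 (nat_lit 40) (nat_lit 5) (nat_lit 43) (nat_lit 5) (nat_lit 41) (nat_lit 4) (nat_lit 323) (nat_lit 270) (nat_lit 127)))) (XT.nd (nat_lit 188) (nat_lit 336) (nat_lit 0) (XT.nd (nat_lit 94) (nat_lit 252) (nat_lit 0) (XT.lf (nat_lit 0) (nat_lit 38229213738) (nat_lit 84) (nat_lit 39626043420) (nat_lit 168) (nat_lit 4670217800) (nat_lit 39) (nat_lit 5) (nat_lit 40) (nat_lit 5) (nat_lit 41) (nat_lit 4) (nat_lit 324) (nat_lit 270) (nat_lit 126)) (XT.lf (nat_lit 0) (nat_lit 9050083197) (nat_lit 168) (nat_lit 10452053713) (nat_lit 252) (nat_lit 65665524626) (nat_lit 36) (nat_lit 5) (nat_lit 38) (nat_lit 5) (nat_lit 39) (nat_lit 5) (nat_lit 325) (nat_lit 270) (nat_lit 125))) (XT.nd (nat_lit 94) (nat_lit 336) (nat_lit 0) (XT.lf (nat_lit 0) (nat_lit 45801147487) (nat_lit 252) (nat_lit 21711552704) (nat_lit 84) (nat_lit 20371679800) (nat_lit 36) (nat_lit 5) (nat_lit 39) (nat_lit 5) (nat_lit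 37) (nat_lit 4) (nat_lit 326) (nat_lit 270) (nat_lit 124)) (XT.nd (nat_lit 94) (nat_lit 252) (nat_lit 0) (XT.lf (nat_lit 0) (nat_lit 36404033132) (nat_lit 84) (nat_lit 37748346883) (nat_lit 168) (nat_lit 16547690783) (nat_lit 35) (nat_lit 5) (nat_lit 36) (nat_lit 5) (nat_lit 37) (nat_lit 4) (nat_lit 327) (nat_lit 270) (nat_lit 123)) (XT.lf (nat_lit 0) (nat_lit 4514663551) (nat_lit 168) (nat_lit 5863206679) (nat_lit 252) (nat_lit 83248574213) (nat_lit 32) (nat_lit 5) (nat_lit 34) (nat_lit 5) (nat_lit 35) (nat_lit 5) (nat_lit 328) (nat_lit 270) (nat_lit 122))))))) (XT.nd (nat_lit 752) (nat_lit 756) (nat_lit 0) (XT.nd (nat_lit 376) (nat_lit 336) (nat_lit 0) (XT.nd (nat_lit 188) (nat_lit 252) (nat_lit 0) (XT.nd (nat_lit 94) (nat_lit 84) (nat_lit 0) (XT.lf (nat_lit 0) (nat_lit 39456946055) (nat_lit 252) (nat_lit 29224311305) (nat_lit 84) (nat_lit 27936148347) (nat_lit 32) (nat_lit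 5) (nat_lit 35) (nat_lit 5) (nat_lit 33) (nat_lit 4) (nat_lit 329) (nat_lit 270) (nat_lit 121)) (XT.lf (nat_lit 0) (nat_lit 34666606607) (nat_lit 84) (nat_lit 35958423062) (nat_lit 168) (nat_lit 29101132665) (nat_lit 31) (nat_lit 5) (nat_lit 32) (nat_lit 5) (nat_lit 33) (nat_lit 4) (nat_lit 330) (nat_lit 270) (nat_lit 120))) (XT.nd (nat_lit 94) (nat_lit 168) (nat_lit 0) (XT.lf (nat_lit 0) (nat_lit 850341519) (nat_lit 168) (nat_lit 217050953) (nat_lit 84) (nat_lit 101897645372) (nat_lit 30) (nat_lit 5) (nat_lit 32) (nat_lit 5) (nat_lit 31) (nat_lit 5) (nat_lit 331) (nat_lit 270) (nat_lit 119)) (XT.lf (nat_lit 0) (nat_lit 32987012604) (nat_lit 252) (nat_lit 37254240886) (nat_lit 84) (nat_lit 36017469646) (nat_lit 28) (nat_lit 5) (nat_lit 31) (nat_lit 5) (nat_lit 29) (nat_lit 4) (nat_lit 332) (nat_lit 270) (nat_lit 118)))) (XT.nd (nat_lit 188) (nat_lit 252) (nat_lit 0) (XT.nd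 (nat_lit 94) (nat_lit 0) (nat_lit 0) (XT.lf (nat_lit 0) (nat_lit 33012606341) (nat_lit 84) (nat_lit 34252383320) (nat_lit 168) (nat_lit 42425379413) (nat_lit 27) (nat_lit 5) (nat_lit 28) (nat_lit 5) (nat_lit 29) (nat_lit 4) (nat_lit 333) (nat_lit 270) (nat_lit 117)) (XT.lf (nat_lit 0) (nat_lit 103951161024) (nat_lit 168) (nat_lit 5245593893) (nat_lit 0) (nat_lit 4062127619) (nat_lit 27) (nat_lit 5) (nat_lit 29) (nat_lit 4) (nat_lit 27) (nat_lit 4) (nat_lit 334) (nat_lit 270) (nat_lit 116))) (XT.nd (nat_lit 94) (nat_lit 84) (nat_lit 0) (XT.lf (nat_lit 0) (nat_lit 26353677794) (nat_lit 168) (nat_lit 45866590397) (nat_lit 84) (nat_lit 44680527651) (nat_lit 25) (nat_lit 5) (nat_lit 27) (nat_lit 5) (nat_lit 26) (nat_lit 4) (nat_lit 335) (nat_lit 270) (nat_lit 115)) (XT.lf (nat_lit 0) (nat_lit 31437937024) (nat_lit 84) (nat_lit 32626472599) (nat_lit 168) (nat_lit 56623812758)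 (nat_lit 24) (nat_lit 5) (nat_lit 25) (nat_lit 5) (nat_lit 26) (nat_lit 4) (nat_lit 336) (nat_lit 270) (nat_lit 114))))) (XT.nd (nat_lit 376) (nat_lit 504) (nat_lit 0) (XT.nd (nat_lit 188) (nat_lit 84) (nat_lit 0) (XT.nd (nat_lit 94) (nat_lit 168) (nat_lit 0) (XT.lf (nat_lit 0) (nat_lit 104587816321) (nat_lit 168) (nat_lit 10582514292) (nat_lit 0) (nat_lit 9448332720) (nat_lit 24) (nat_lit 5) (nat_lit 26) (nat_lit 4) (nat_lit 24) (nat_lit 4) (nat_lit 337) (nat_lit 270) (nat_lit 113)) (XT.lf (nat_lit 0) (nat_lit 19516556389) (nat_lit 168) (nat_lit 55132679125) (nat_lit 84) (nat_lit 53996361430) (nat_lit 22) (nat_lit 5) (nat_lit 24) (nat_lit 5) (nat_lit 23) (nat_lit 4) (nat_lit 338) (nat_lit 270) (nat_lit 112))) (XT.nd (nat_lit 94) (nat_lit 0) (nat_lit 0) (XT.lf (nat_lit 0) (nat_lit 29938720105) (nat_lit 84) (nat_lit 31077072203) (nat_lit 168) (nat_lit 71809284694) (nat_lit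 21) (nat_lit 5) (nat_lit 22) (nat_lit 5) (nat_lit 23) (nat_lit 4) (nat_lit 339) (nat_lit 270) (nat_lit 111)) (XT.lf (nat_lit 0) (nat_lit 105766143879) (nat_lit 168) (nat_lit 16237284803) (nat_lit 0) (nat_lit 15151294685) (nat_lit 21) (nat_lit 5) (nat_lit 23) (nat_lit 4) (nat_lit 21) (nat_lit 4) (nat_lit 340) (nat_lit 270) (nat_lit 110)))) (XT.nd (nat_lit 188) (nat_lit 252) (nat_lit 0) (XT.nd (nat_lit 94) (nat_lit 84) (nat_lit 0) (XT.lf (nat_lit 0) (nat_lit 12432220528) (nat_lit 168) (nat_lit 65130554504) (nat_lit 84) (nat_lit 64042806992) (nat_lit 19) (nat_lit 5) (nat_lit 21) (nat_lit 5) (nat_lit 20) (nat_lit 4) (nat_lit 341) (nat_lit 270) (nat_lit 109)) (XT.lf (nat_lit 0) (nat_lit 28511279610) (nat_lit 84) (nat_lit 29600700831) (nat_lit 168) (nat_lit 88105135729) (nat_lit 18) (nat_lit 5) (nat_lit 19) (nat_lit 5) (nat_lit 20) (nat_lit 4) (nat_lit 342) (nat_lit 270) (nat_lit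 108))) (XT.nd (nat_lit 94) (nat_lit 252) (nat_lit 0) (XT.lf (nat_lit 0) (nat_lit 107519093674) (nat_lit 168) (nat_lit 22253513603) (nat_lit 0) (nat_lit 21214451480) (nat_lit 18) (nat_lit 5) (nat_lit 20) (nat_lit 4) (nat_lit 18) (nat_lit 4) (nat_lit 343) (nat_lit 270) (nat_lit 107)) (XT.nd (nat_lit 94) (nat_lit 84) (nat_lit 0) (XT.lf (nat_lit 0) (nat_lit 5053840710) (nat_lit 168) (nat_lit 75945714548) (nat_lit 84) (nat_lit 74905206613) (nat_lit 16) (nat_lit 5) (nat_lit 18) (nat_lit 5) (nat_lit 17) (nat_lit 4) (nat_lit 344) (nat_lit 270) (nat_lit 106)) (XT.lf (nat_lit 0) (nat_lit 27152129331) (nat_lit 84) (nat_lit 28194014230) (nat_lit 168) (nat_lit 105646316330) (nat_lit 15) (nat_lit 5) (nat_lit 16) (nat_lit 5) (nat_lit 17) (nat_lit 4) (nat_lit 345) (nat_lit 270) (nat_lit 105))))))))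
noncomputable def xc170 : XT := (XT.nd (nat_lit 38540) (nat_lit 0) (nat_lit 7896) (XT.nd (nat_lit 752) (nat_lit 420) (nat_lit 0) (XT.nd (nat_lit 376) (nat_lit 336) (nat_lit 0) (XT.nd (nat_lit 188) (nat_lit 168) (nat_lit 0) (XT.nd (nat_lit 94) (nat_lit 84) (nat_lit 0) (XT.lf (nat_lit 0) (nat_lit 109884047500) (nat_lit 168) (nat_lit 28678733146) (nat_lit 0) (nat_lit 27685212867) (nat_lit 15) (nat_lit 5) (nat_lit 17) (nat_lit 4) (nat_lit 15) (nat_lit 4) (nat_lit 346) (nat_lit 270) (nat_lit 104)) (XT.lf (nat_lit 0) (nat_lit 83962779117) (nat_lit 84) (nat_lit 84957488869) (nat_lit 84) (nat_lit 2757464763) (nat_lit 14) (nat_lit 4) (nat_lit 15) (nat_lit 5) (nat_lit 15) (nat_lit 4) (nat_lit 347) (nat_lit 270) (nat_lit 103))) (XT.nd (nat_lit 94) (nat_lit 0) (nat_lit 0) (XT.lf (nat_lit 0) (nat_lit 25857961174) (nat_lit 84) (nat_lit 26853803758) (nat_lit 168) (nat_lit 124580621986)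 (nat_lit 12) (nat_lit 5) (nat_lit 13) (nat_lit 5) (nat_lit 14) (nat_lit 4) (nat_lit 348) (nat_lit 270) (nat_lit 102)) (XT.lf (nat_lit 0) (nat_lit 112903226624) (nat_lit 168) (nat_lit 35564832001) (nat_lit 0) (nat_lit 34615382981) (nat_lit 12) (nat_lit 5) (nat_lit 14) (nat_lit 4) (nat_lit 12) (nat_lit 4) (nat_lit 349) (nat_lit 270) (nat_lit 101)))) (XT.nd (nat_lit 188) (nat_lit 84) (nat_lit 0) (XT.nd (nat_lit 94) (nat_lit 168) (nat_lit 0) (XT.lf (nat_lit 0) (nat_lit 88487002497) (nat_lit 84) (nat_lit 89437430099) (nat_lit 84) (nat_lit 11148607874) (nat_lit 11) (nat_lit 4) (nat_lit 12) (nat_lit 5) (nat_lit 12) (nat_lit 4) (nat_lit 350) (nat_lit 270) (nat_lit 100)) (XT.lf (nat_lit 0) (nat_lit 24625634534) (nat_lit 84) (nat_lit 25576994120) (nat_lit 168) (nat_lit 145070053456) (nat_lit 9) (nat_lit 5) (nat_lit 10) (nat_lit 5) (nat_lit 11) (nat_lit 4) (nat_lit 351) (nat_lit 270)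 (nat_lit 99))) (XT.nd (nat_lit 94) (nat_lit 84) (nat_lit 0) (XT.lf (nat_lit 0) (nat_lit 116624142820) (nat_lit 168) (nat_lit 42968528894) (nat_lit 0) (nat_lit 42061626809) (nat_lit 9) (nat_lit 5) (nat_lit 11) (nat_lit 4) (nat_lit 9) (nat_lit 4) (nat_lit 352) (nat_lit 270) (nat_lit 98)) (XT.lf (nat_lit 0) (nat_lit 93669630255) (nat_lit 84) (nat_lit 94577337422) (nat_lit 84) (nat_lit 20014016329) (nat_lit 8) (nat_lit 4) (nat_lit 9) (nat_lit 5) (nat_lit 9) (nat_lit 4) (nat_lit 353) (nat_lit 270) (nat_lit 97))))) (XT.nd (nat_lit 376) (nat_lit 0) (nat_lit 0) (XT.nd (nat_lit 188) (nat_lit 252) (nat_lit 0) (XT.nd (nat_lit 94) (nat_lit 0) (nat_lit 0) (XT.lf (nat_lit 0) (nat_lit 23452166554) (nat_lit 84) (nat_lit 24360640466) (nat_lit 168) (nat_lit 167292314965) (nat_lit 6) (nat_lit 5) (nat_lit 7) (nat_lit 5) (nat_lit 8) (nat_lit 4) (nat_lit 354) (nat_lit 270) (nat_lit 96)) (XT.lf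 (nat_lit 0) (nat_lit 121100097242) (nat_lit 168) (nat_lit 50951893503) (nat_lit 0) (nat_lit 50085984792) (nat_lit 6) (nat_lit 5) (nat_lit 8) (nat_lit 4) (nat_lit 6) (nat_lit 4) (nat_lit 355) (nat_lit 270) (nat_lit 95))) (XT.nd (nat_lit 94) (nat_lit 168) (nat_lit 0) (XT.lf (nat_lit 0) (nat_lit 99568826935) (nat_lit 84) (nat_lit 100435397988) (nat_lit 84) (nat_lit 29420623195) (nat_lit 5) (nat_lit 4) (nat_lit 6) (nat_lit 5) (nat_lit 6) (nat_lit 4) (nat_lit 356) (nat_lit 270) (nat_lit 94)) (XT.lf (nat_lit 0) (nat_lit 22334723158) (nat_lit 84) (nat_lit 23201925014) (nat_lit 168) (nat_lit 191442464447) (nat_lit 3) (nat_lit 5) (nat_lit 4) (nat_lit 5) (nat_lit 5) (nat_lit 4) (nat_lit 357) (nat_lit 270) (nat_lit 93)))) (XT.nd (nat_lit 37130) (nat_lit 0) (nat_lit 10500) (XT.nd (nat_lit 37036) (nat_lit 0) (nat_lit 10500) (XT.lf (nat_lit 0) (nat_lit 126390732065) (nat_lit 168) (nat_lit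 59582918980) (nat_lit 0) (nat_lit 58756440293) (nat_lit 3) (nat_lit 5) (nat_lit 5) (nat_lit 4) (nat_lit 3) (nat_lit 4) (nat_lit 358) (nat_lit 270) (nat_lit 92)) (XT.lf (nat_lit 0) (nat_lit 3020438127) (nat_lit 924) (nat_lit 3125732154) (nat_lit 924) (nat_lit 3125732154) (nat_lit 128) (nat_lit 3) (nat_lit 139) (nat_lit 3) (nat_lit 139) (nat_lit 5) (nat_lit 271) (nat_lit 271) (nat_lit 178))) (XT.nd (nat_lit 94) (nat_lit 0) (nat_lit 84) (XT.lf (nat_lit 84) (nat_lit 3120307452) (nat_lit 0) (nat_lit 3310433569) (nat_lit 924) (nat_lit 12564716829) (nat_lit 129) (nat_lit 5) (nat_lit 128) (nat_lit 3) (nat_lit 139) (nat_lit 5) (nat_lit 272) (nat_lit 271) (nat_lit 177)) (XT.nd (nat_lit 94) (nat_lit 0) (nat_lit 0) (XT.lf (nat_lit 0) (nat_lit 7031080497) (nat_lit 840) (nat_lit 6391293197) (nat_lit 924) (nat_lit 6037770711) (nat_lit 129) (nat_lit 5) (nat_lit 139) (nat_lit 5) (nat_lit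 140) (nat_lit 5) (nat_lit 273) (nat_lit 271) (nat_lit 176)) (XT.lf (nat_lit 84) (nat_lit 3621440959) (nat_lit 0) (nat_lit 4139201532) (nat_lit 924) (nat_lit 12182462519) (nat_lit 130) (nat_lit 5) (nat_lit 129) (nat_lit 5) (nat_lit 140) (nat_lit 5) (nat_lit 274) (nat_lit 271) (nat_lit 175))))))) (XT.nd (nat_lit 752) (nat_lit 2184) (nat_lit 0) (XT.nd (nat_lit 376) (nat_lit 588) (nat_lit 0) (XT.nd (nat_lit 188) (nat_lit 0) (nat_lit 84) (XT.nd (nat_lit 94) (nat_lit 0) (nat_lit 0) (XT.lf (nat_lit 0) (nat_lit 8713163711) (nat_lit 840) (nat_lit 6184899986) (nat_lit 924) (nat_lit 5542825891) (nat_lit 130) (nat_lit 5) (nat_lit 140) (nat_lit 5) (nat_lit 141) (nat_lit 5) (nat_lit 275) (nat_lit 271) (nat_lit 174)) (XT.lf (nat_lit 84) (nat_lit 4528679812) (nat_lit 0) (nat_lit 5312628944) (nat_lit 924) (nat_lit 11115854752) (nat_lit 131) (nat_lit 5) (nat_lit 130) (nat_lit 5) (nat_lit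 141) (nat_lit 5) (nat_lit 276) (nat_lit 271) (nat_lit 173))) (XT.nd (nat_lit 94) (nat_lit 0) (nat_lit 0) (XT.lf (nat_lit 0) (nat_lit 11196395590) (nat_lit 840) (nat_lit 5584815933) (nat_lit 924) (nat_lit 4709512873) (nat_lit 131) (nat_lit 5) (nat_lit 141) (nat_lit 5) (nat_lit 142) (nat_lit 5) (nat_lit 277) (nat_lit 271) (nat_lit 172)) (XT.lf (nat_lit 84) (nat_lit 5895437550) (nat_lit 0) (nat_lit 6893297600) (nat_lit 924) (nat_lit 9253753260) (nat_lit 132) (nat_lit 5) (nat_lit 131) (nat_lit 5) (nat_lit 142) (nat_lit 5) (nat_lit 278) (nat_lit 271) (nat_lit 171)))) (XT.nd (nat_lit 188) (nat_lit 756) (nat_lit 0) (XT.nd (nat_lit 94) (nat_lit 0) (nat_lit 0) (XT.lf (nat_lit 0) (nat_lit 14602041746) (nat_lit 840) (nat_lit 4537118542) (nat_lit 924) (nat_lit 3475612834) (nat_lit 132) (nat_lit 5) (nat_lit 142) (nat_lit 5) (nat_lit 143) (nat_lit 5) (nat_lit 279) (nat_lit 271) (nat_lit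 170)) (XT.lf (nat_lit 84) (nat_lit 7782165182) (nat_lit 0) (nat_lit 8949540226) (nat_lit 924) (nat_lit 6472682073) (nat_lit 133) (nat_lit 5) (nat_lit 132) (nat_lit 5) (nat_lit 143) (nat_lit 5) (nat_lit 280) (nat_lit 271) (nat_lit 169))) (XT.nd (nat_lit 94) (nat_lit 840) (nat_lit 0) (XT.lf (nat_lit 0) (nat_lit 19064781977) (nat_lit 840) (nat_lit 2980833231) (nat_lit 84) (nat_lit 1773020866) (nat_lit 133) (nat_lit 5) (nat_lit 143) (nat_lit 5) (nat_lit 134) (nat_lit 5) (nat_lit 281) (nat_lit 271) (nat_lit 168)) (XT.lf (nat_lit 0) (nat_lit 10257010384) (nat_lit 840) (nat_lit 11556276662) (nat_lit 924) (nat_lit 2635371316) (nat_lit 123) (nat_lit 5) (nat_lit 133) (nat_lit 5) (nat_lit 134) (nat_lit 5) (nat_lit 282) (nat_lit 271) (nat_lit 167))))) (XT.nd (nat_lit 376) (nat_lit 1176) (nat_lit 0) (XT.nd (nat_lit 188) (nat_lit 420) (nat_lit 0) (XT.nd (nat_lit 94) (nat_lit 588) (nat_lit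 0) (XT.lf (nat_lit 0) (nat_lit 24253160418) (nat_lit 840) (nat_lit 488733338) (nat_lit 924) (nat_lit 366154190) (nat_lit 123) (nat_lit 5) (nat_lit 133) (nat_lit 5) (nat_lit 134) (nat_lit 5) (nat_lit 283) (nat_lit 271) (nat_lit 166)) (XT.lf (nat_lit 0) (nat_lit 2333678424) (nat_lit 588) (nat_lit 12422709392) (nat_lit 84) (nat_lit 11023360213) (nat_lit 116) (nat_lit 5) (nat_lit 123) (nat_lit 5) (nat_lit 117) (nat_lit 5) (nat_lit 284) (nat_lit 271) (nat_lit 165))) (XT.nd (nat_lit 94) (nat_lit 0) (nat_lit 0) (XT.lf (nat_lit 0) (nat_lit 1863063713) (nat_lit 420) (nat_lit 3337652252) (nat_lit 504) (nat_lit 21281791101) (nat_lit 111) (nat_lit 5) (nat_lit 116) (nat_lit 5) (nat_lit 117) (nat_lit 5) (nat_lit 285) (nat_lit 271) (nat_lit 164)) (XT.lf (nat_lit 0) (nat_lit 8552959799) (nat_lit 504) (nat_lit 10061482946) (nat_lit 84) (nat_lit 8588868590) (nat_lit 111) (nat_lit 5) (nat_lit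 117) (nat_lit 5) (nat_lit 112) (nat_lit 5) (nat_lit 286) (nat_lit 271) (nat_lit 163)))) (XT.nd (nat_lit 188) (nat_lit 756) (nat_lit 0) (XT.nd (nat_lit 94) (nat_lit 0) (nat_lit 0) (XT.lf (nat_lit 0) (nat_lit 5333232028) (nat_lit 420) (nat_lit 6870840973) (nat_lit 504) (nat_lit 15749519957) (nat_lit 106) (nat_lit 5) (nat_lit 111) (nat_lit 5) (nat_lit 112) (nat_lit 5) (nat_lit 287) (nat_lit 271) (nat_lit 162)) (XT.lf (nat_lit 0) (nat_lit 16289654242) (nat_lit 504) (nat_lit 6981240140) (nat_lit 84) (nat_lit 5457898661) (nat_lit 106) (nat_lit 5) (nat_lit 112) (nat_lit 5) (nat_lit 107) (nat_lit 5) (nat_lit 288) (nat_lit 271) (nat_lit 161))) (XT.nd (nat_lit 94) (nat_lit 420) (nat_lit 0) (XT.lf (nat_lit 0) (nat_lit 9628389848) (nat_lit 336) (nat_lit 11207876096) (nat_lit 420) (nat_lit 8693649619) (nat_lit 102) (nat_lit 5) (nat_lit 106) (nat_lit 5) (nat_lit 107) (nat_lit 5) (nat_lit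 289) (nat_lit 271) (nat_lit 160)) (XT.nd (nat_lit 94) (nat_lit 420) (nat_lit 0) (XT.lf (nat_lit 0) (nat_lit 25747109095) (nat_lit 420) (nat_lit 3086168824) (nat_lit 84) (nat_lit 1530971246) (nat_lit 102) (nat_lit 5) (nat_lit 107) (nat_lit 5) (nat_lit 103) (nat_lit 5) (nat_lit 290) (nat_lit 271) (nat_lit 159)) (XT.lf (nat_lit 0) (nat_lit 90607657) (nat_lit 420) (nat_lit 16366410307) (nat_lit 84) (nat_lit 14762712766) (nat_lit 97) (nat_lit 5) (nat_lit 102) (nat_lit 5) (nat_lit 98) (nat_lit 5) (nat_lit 291) (nat_lit 271) (nat_lit 158))))))))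
noncomputable def xc171 : XT := (XT.nd (nat_lit 1598) (nat_lit 1932) (nat_lit 0) (XT.nd (nat_lit 752) (nat_lit 1344) (nat_lit 0) (XT.nd (nat_lit 376) (nat_lit 924) (nat_lit 0) (XT.nd (nat_lit 188) (nat_lit 336) (nat_lit 0) (XT.nd (nat_lit 94) (nat_lit 0) (nat_lit 0) (XT.lf (nat_lit 0) (nat_lit 1650958124) (nat_lit 336) (nat_lit 3300846105) (nat_lit 420) (nat_lit 27158736220) (nat_lit 93) (nat_lit 5) (nat_lit 97) (nat_lit 5) (nat_lit 98) (nat_lit 5) (nat_lit 292) (nat_lit 271) (nat_lit 157)) (XT.lf (nat_lit 0) (nat_lit 10496390319) (nat_lit 420) (nat_lit 12070350915) (nat_lit 84) (nat_lit 10457132937) (nat_lit 93) (nat_lit 5) (nat_lit 98) (nat_lit 5) (nat_lit 94) (nat_lit 5) (nat_lit 293) (nat_lit 271) (nat_lit 156))) (XT.nd (nat_lit 94) (nat_lit 0) (nat_lit 0) (XT.lf (nat_lit 0) (nat_lit 7414851002) (nat_lit 336) (nat_lit 9067970020) (nat_lit 420) (nat_lit 17491822790) (nat_lit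 89) (nat_lit 5) (nat_lit 93) (nat_lit 5) (nat_lit 94) (nat_lit 5) (nat_lit 294) (nat_lit 271) (nat_lit 155)) (XT.lf (nat_lit 0) (nat_lit 23050917645) (nat_lit 420) (nat_lit 6759253777) (nat_lit 84) (nat_lit 5148663294) (nat_lit 89) (nat_lit 5) (nat_lit 94) (nat_lit 5) (nat_lit 90) (nat_lit 5) (nat_lit 295) (nat_lit 271) (nat_lit 154)))) (XT.nd (nat_lit 188) (nat_lit 588) (nat_lit 0) (XT.nd (nat_lit 94) (nat_lit 84) (nat_lit 0) (XT.lf (nat_lit 0) (nat_lit 14334965337) (nat_lit 252) (nat_lit 15980023839) (nat_lit 336) (nat_lit 5658867486) (nat_lit 86) (nat_lit 5) (nat_lit 89) (nat_lit 5) (nat_lit 90) (nat_lit 5) (nat_lit 296) (nat_lit 271) (nat_lit 153)) (XT.lf (nat_lit 0) (nat_lit 985253455) (nat_lit 336) (nat_lit 337869136) (nat_lit 84) (nat_lit 35710227041) (nat_lit 85) (nat_lit 5) (nat_lit 89) (nat_lit 5) (nat_lit 86) (nat_lit 5) (nat_lit 297) (nat_lit 271) (nat_lit 152)))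 (XT.nd (nat_lit 94) (nat_lit 252) (nat_lit 0) (XT.lf (nat_lit 0) (nat_lit 8347406481) (nat_lit 420) (nat_lit 15696366479) (nat_lit 84) (nat_lit 14068605819) (nat_lit 81) (nat_lit 5) (nat_lit 86) (nat_lit 5) (nat_lit 82) (nat_lit 5) (nat_lit 298) (nat_lit 271) (nat_lit 151)) (XT.lf (nat_lit 0) (nat_lit 7279096047) (nat_lit 252) (nat_lit 8935213632) (nat_lit 336) (nat_lit 23024217578) (nat_lit 78) (nat_lit 5) (nat_lit 81) (nat_lit 5) (nat_lit 82) (nat_lit 5) (nat_lit 299) (nat_lit 271) (nat_lit 150))))) (XT.nd (nat_lit 376) (nat_lit 756) (nat_lit 0) (XT.nd (nat_lit 188) (nat_lit 336) (nat_lit 0) (XT.nd (nat_lit 94) (nat_lit 252) (nat_lit 0) (XT.lf (nat_lit 0) (nat_lit 24848496687) (nat_lit 336) (nat_lit 8578382474) (nat_lit 84) (nat_lit 6975407066) (nat_lit 78) (nat_lit 5) (nat_lit 82) (nat_lit 5) (nat_lit 79) (nat_lit 5) (nat_lit 300) (nat_lit 271) (nat_lit 149)) (XT.lf (nat_lit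 0) (nat_lit 16342168057) (nat_lit 252) (nat_lit 17969639242) (nat_lit 336) (nat_lit 7292555134) (nat_lit 75) (nat_lit 5) (nat_lit 78) (nat_lit 5) (nat_lit 79) (nat_lit 5) (nat_lit 301) (nat_lit 271) (nat_lit 148))) (XT.nd (nat_lit 94) (nat_lit 252) (nat_lit 0) (XT.lf (nat_lit 0) (nat_lit 1481004836) (nat_lit 336) (nat_lit 82827150) (nat_lit 84) (nat_lit 41294457411) (nat_lit 74) (nat_lit 5) (nat_lit 78) (nat_lit 5) (nat_lit 75) (nat_lit 5) (nat_lit 302) (nat_lit 271) (nat_lit 147)) (XT.lf (nat_lit 0) (nat_lit 11120654901) (nat_lit 336) (nat_lit 17304003569) (nat_lit 84) (nat_lit 15710652247) (nat_lit 71) (nat_lit 5) (nat_lit 75) (nat_lit 5) (nat_lit 72) (nat_lit 5) (nat_lit 303) (nat_lit 271) (nat_lit 146)))) (XT.nd (nat_lit 188) (nat_lit 504) (nat_lit 0) (XT.nd (nat_lit 94) (nat_lit 0) (nat_lit 0) (XT.lf (nat_lit 0) (nat_lit 9903279638) (nat_lit 252) (nat_lit 11516783696)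 (nat_lit 336) (nat_lit 24047230977) (nat_lit 68) (nat_lit 5) (nat_lit 71) (nat_lit 5) (nat_lit 72) (nat_lit 5) (nat_lit 304) (nat_lit 271) (nat_lit 145)) (XT.lf (nat_lit 0) (nat_lit 32625825571) (nat_lit 336) (nat_lit 7887716000) (nat_lit 84) (nat_lit 6332766343) (nat_lit 68) (nat_lit 5) (nat_lit 72) (nat_lit 5) (nat_lit 69) (nat_lit 5) (nat_lit 305) (nat_lit 271) (nat_lit 144))) (XT.nd (nat_lit 94) (nat_lit 336) (nat_lit 0) (XT.lf (nat_lit 0) (nat_lit 21671505874) (nat_lit 168) (nat_lit 23243864222) (nat_lit 252) (nat_lit 3352727392) (nat_lit 66) (nat_lit 5) (nat_lit 68) (nat_lit 5) (nat_lit 69) (nat_lit 5) (nat_lit 306) (nat_lit 271) (nat_lit 143)) (XT.nd (nat_lit 94) (nat_lit 0) (nat_lit 0) (XT.lf (nat_lit 0) (nat_lit 3196805122) (nat_lit 252) (nat_lit 4785743177) (nat_lit 336) (nat_lit 41763034890) (nat_lit 62) (nat_lit 5) (nat_lit 65) (nat_lit 5) (nat_lit 66) (nat_lit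 5) (nat_lit 307) (nat_lit 271) (nat_lit 142)) (XT.lf (nat_lit 0) (nat_lit 20454018784) (nat_lit 336) (nat_lit 16167191821) (nat_lit 84) (nat_lit 14638879201) (nat_lit 62) (nat_lit 5) (nat_lit 66) (nat_lit 5) (nat_lit 63) (nat_lit 5) (nat_lit 308) (nat_lit 271) (nat_lit 141))))))) (XT.nd (nat_lit 752) (nat_lit 924) (nat_lit 0) (XT.nd (nat_lit 376) (nat_lit 420) (nat_lit 0) (XT.nd (nat_lit 188) (nat_lit 420) (nat_lit 0) (XT.nd (nat_lit 94) (nat_lit 0) (nat_lit 0) (XT.lf (nat_lit 0) (nat_lit 16166942837) (nat_lit 168) (nat_lit 17709577631) (nat_lit 252) (nat_lit 18957428401) (nat_lit 60) (nat_lit 5) (nat_lit 62) (nat_lit 5) (nat_lit 63) (nat_lit 5) (nat_lit 309) (nat_lit 271) (nat_lit 140)) (XT.lf (nat_lit 0) (nat_lit 48278601931) (nat_lit 252) (nat_lit 3837321423) (nat_lit 84) (nat_lit 2355154796) (nat_lit 60) (nat_lit 5) (nat_lit 63) (nat_lit 5) (nat_lit 61) (nat_lit 5) (nat_lit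 310) (nat_lit 271) (nat_lit 139))) (XT.nd (nat_lit 94) (nat_lit 168) (nat_lit 0) (XT.lf (nat_lit 0) (nat_lit 7769107669) (nat_lit 252) (nat_lit 24935203646) (nat_lit 84) (nat_lit 23440664987) (nat_lit 57) (nat_lit 5) (nat_lit 60) (nat_lit 5) (nat_lit 58) (nat_lit 5) (nat_lit 311) (nat_lit 271) (nat_lit 138)) (XT.lf (nat_lit 0) (nat_lit 10470340661) (nat_lit 168) (nat_lit 11976662207) (nat_lit 252) (nat_lit 35439173698) (nat_lit 55) (nat_lit 5) (nat_lit 57) (nat_lit 5) (nat_lit 58) (nat_lit 5) (nat_lit 312) (nat_lit 271) (nat_lit 137)))) (XT.nd (nat_lit 188) (nat_lit 252) (nat_lit 0) (XT.nd (nat_lit 94) (nat_lit 168) (nat_lit 0) (XT.lf (nat_lit 0) (nat_lit 38437666735) (nat_lit 252) (nat_lit 11346552893) (nat_lit 84) (nat_lit 9901273518) (nat_lit 55) (nat_lit 5) (nat_lit 58) (nat_lit 5) (nat_lit 56) (nat_lit 5) (nat_lit 313) (nat_lit 271) (nat_lit 136)) (XT.lf (nat_lit 0)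 (nat_lit 27195170219) (nat_lit 168) (nat_lit 28650628096) (nat_lit 252) (nat_lit 5698080516) (nat_lit 53) (nat_lit 5) (nat_lit 55) (nat_lit 5) (nat_lit 56) (nat_lit 5) (nat_lit 314) (nat_lit 271) (nat_lit 135))) (XT.nd (nat_lit 94) (nat_lit 0) (nat_lit 0) (XT.lf (nat_lit 0) (nat_lit 4543533898) (nat_lit 168) (nat_lit 6008685585) (nat_lit 252) (nat_lit 52921503469) (nat_lit 50) (nat_lit 5) (nat_lit 52) (nat_lit 5) (nat_lit 53) (nat_lit 5) (nat_lit 315) (nat_lit 271) (nat_lit 134)) (XT.lf (nat_lit 0) (nat_lit 28289206391) (nat_lit 252) (nat_lit 19283537111) (nat_lit 84) (nat_lit 17879361980) (nat_lit 50) (nat_lit 5) (nat_lit 53) (nat_lit 5) (nat_lit 51) (nat_lit 5) (nat_lit 316) (nat_lit 271) (nat_lit 133))))) (XT.nd (nat_lit 376) (nat_lit 420) (nat_lit 0) (XT.nd (nat_lit 188) (nat_lit 336) (nat_lit 0) (XT.nd (nat_lit 94) (nat_lit 0) (nat_lit 0) (XT.lf (nat_lit 0) (nat_lit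 22977464671) (nat_lit 168) (nat_lit 24390013680) (nat_lit 252) (nat_lit 20139207004) (nat_lit 48) (nat_lit 5) (nat_lit 50) (nat_lit 5) (nat_lit 51) (nat_lit 5) (nat_lit 317) (nat_lit 271) (nat_lit 132)) (XT.lf (nat_lit 0) (nat_lit 67728058141) (nat_lit 252) (nat_lit 1636198246) (nat_lit 84) (nat_lit 283318121) (nat_lit 48) (nat_lit 5) (nat_lit 51) (nat_lit 5) (nat_lit 49) (nat_lit 4) (nat_lit 318) (nat_lit 271) (nat_lit 131))) (XT.nd (nat_lit 94) (nat_lit 168) (nat_lit 0) (XT.lf (nat_lit 0) (nat_lit 17768858482) (nat_lit 168) (nat_lit 27708949750) (nat_lit 84) (nat_lit 26348835954) (nat_lit 46) (nat_lit 5) (nat_lit 48) (nat_lit 5) (nat_lit 47) (nat_lit 5) (nat_lit 319) (nat_lit 271) (nat_lit 130)) (XT.lf (nat_lit 0) (nat_lit 18663527559) (nat_lit 168) (nat_lit 20030530565) (nat_lit 252) (nat_lit 35403190130) (nat_lit 44) (nat_lit 5) (nat_lit 46) (nat_lit 5) (nat_lit 47)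 (nat_lit 5) (nat_lit 320) (nat_lit 271) (nat_lit 129)))) (XT.nd (nat_lit 188) (nat_lit 252) (nat_lit 0) (XT.nd (nat_lit 94) (nat_lit 168) (nat_lit 0) (XT.lf (nat_lit 0) (nat_lit 61244292723) (nat_lit 252) (nat_lit 8258153699) (nat_lit 84) (nat_lit 6949997357) (nat_lit 44) (nat_lit 5) (nat_lit 47) (nat_lit 5) (nat_lit 45) (nat_lit 4) (nat_lit 321) (nat_lit 271) (nat_lit 128)) (XT.lf (nat_lit 0) (nat_lit 6807130149) (nat_lit 168) (nat_lit 36688787103) (nat_lit 84) (nat_lit 35374679602) (nat_lit 42) (nat_lit 5) (nat_lit 44) (nat_lit 5) (nat_lit 43) (nat_lit 5) (nat_lit 322) (nat_lit 271) (nat_lit 127))) (XT.nd (nat_lit 94) (nat_lit 84) (nat_lit 0) (XT.lf (nat_lit 0) (nat_lit 14227047621) (nat_lit 168) (nat_lit 15546822892) (nat_lit 252) (nat_lit 51605231938) (nat_lit 40) (nat_lit 5) (nat_lit 42) (nat_lit 5) (nat_lit 43) (nat_lit 5) (nat_lit 323) (nat_lit 271) (nat_lit 126))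 (XT.nd (nat_lit 94) (nat_lit 84) (nat_lit 0) (XT.lf (nat_lit 0) (nat_lit 54733462378) (nat_lit 252) (nat_lit 15249707446) (nat_lit 84) (nat_lit 13987637781) (nat_lit 40) (nat_lit 5) (nat_lit 43) (nat_lit 5) (nat_lit 41) (nat_lit 4) (nat_lit 324) (nat_lit 271) (nat_lit 125)) (XT.lf (nat_lit 0) (nat_lit 40277716669) (nat_lit 84) (nat_lit 41544682366) (nat_lit 168) (nat_lit 4825630721) (nat_lit 39) (nat_lit 5) (nat_lit 40) (nat_lit 5) (nat_lit 41) (nat_lit 4) (nat_lit 325) (nat_lit 271) (nat_lit 124))))))))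
noncomputable def xc172 : XT := (XT.nd (nat_lit 1504) (nat_lit 1344) (nat_lit 0) (XT.nd (nat_lit 752) (nat_lit 588) (nat_lit 0) (XT.nd (nat_lit 376) (nat_lit 336) (nat_lit 0) (XT.nd (nat_lit 188) (nat_lit 336) (nat_lit 0) (XT.nd (nat_lit 94) (nat_lit 0) (nat_lit 0) (XT.lf (nat_lit 0) (nat_lit 9639878548) (nat_lit 168) (nat_lit 10911507134) (nat_lit 252) (nat_lit 68870951835) (nat_lit 36) (nat_lit 5) (nat_lit 38) (nat_lit 5) (nat_lit 39) (nat_lit 5) (nat_lit 326) (nat_lit 271) (nat_lit 123)) (XT.lf (nat_lit 0) (nat_lit 48162755206) (nat_lit 252) (nat_lit 22663785244) (nat_lit 84) (nat_lit 21448481023) (nat_lit 36) (nat_lit 5) (nat_lit 39) (nat_lit 5) (nat_lit 37) (nat_lit 4) (nat_lit 327) (nat_lit 271) (nat_lit 122))) (XT.nd (nat_lit 94) (nat_lit 252) (nat_lit 0) (XT.lf (nat_lit 0) (nat_lit 38355429157) (nat_lit 84) (nat_lit 39574761357) (nat_lit 168) (nat_lit 17301374249)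 (nat_lit 35) (nat_lit 5) (nat_lit 36) (nat_lit 5) (nat_lit 37) (nat_lit 4) (nat_lit 328) (nat_lit 271) (nat_lit 121)) (XT.lf (nat_lit 0) (nat_lit 4871795906) (nat_lit 168) (nat_lit 6094964277) (nat_lit 252) (nat_lit 87337506661) (nat_lit 32) (nat_lit 5) (nat_lit 34) (nat_lit 5) (nat_lit 35) (nat_lit 5) (nat_lit 329) (nat_lit 271) (nat_lit 120)))) (XT.nd (nat_lit 188) (nat_lit 252) (nat_lit 0) (XT.nd (nat_lit 94) (nat_lit 84) (nat_lit 0) (XT.lf (nat_lit 0) (nat_lit 41497369653) (nat_lit 252) (nat_lit 30557964651) (nat_lit 84) (nat_lit 29389562874) (nat_lit 32) (nat_lit 5) (nat_lit 35) (nat_lit 5) (nat_lit 33) (nat_lit 4) (nat_lit 330) (nat_lit 271) (nat_lit 119)) (XT.lf (nat_lit 0) (nat_lit 36525441702) (nat_lit 84) (nat_lit 37697157307) (nat_lit 168) (nat_lit 30486555548) (nat_lit 31) (nat_lit 5) (nat_lit 32) (nat_lit 5) (nat_lit 33) (nat_lit 4) (nat_lit 331) (nat_lit 271)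 (nat_lit 118))) (XT.nd (nat_lit 94) (nat_lit 168) (nat_lit 0) (XT.lf (nat_lit 0) (nat_lit 957053866) (nat_lit 168) (nat_lit 106252567) (nat_lit 84) (nat_lit 107046773538) (nat_lit 30) (nat_lit 5) (nat_lit 32) (nat_lit 5) (nat_lit 31) (nat_lit 5) (nat_lit 332) (nat_lit 271) (nat_lit 117)) (XT.lf (nat_lit 0) (nat_lit 34700255228) (nat_lit 252) (nat_lit 38994998719) (nat_lit 84) (nat_lit 37873210747) (nat_lit 28) (nat_lit 5) (nat_lit 31) (nat_lit 5) (nat_lit 29) (nat_lit 4) (nat_lit 333) (nat_lit 271) (nat_lit 116))))) (XT.nd (nat_lit 376) (nat_lit 252) (nat_lit 0) (XT.nd (nat_lit 188) (nat_lit 252) (nat_lit 0) (XT.nd (nat_lit 94) (nat_lit 0) (nat_lit 0) (XT.lf (nat_lit 0) (nat_lit 34783223866) (nat_lit 84) (nat_lit 35907738133) (nat_lit 168) (nat_lit 44480789387) (nat_lit 27) (nat_lit 5) (nat_lit 28) (nat_lit 5) (nat_lit 29) (nat_lit 4) (nat_lit 334) (nat_lit 271) (nat_lit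 115)) (XT.lf (nat_lit 0) (nat_lit 109209306609) (nat_lit 168) (nat_lit 5391464737) (nat_lit 0) (nat_lit 4318025939) (nat_lit 27) (nat_lit 5) (nat_lit 29) (nat_lit 4) (nat_lit 27) (nat_lit 4) (nat_lit 335) (nat_lit 271) (nat_lit 114))) (XT.nd (nat_lit 94) (nat_lit 84) (nat_lit 0) (XT.lf (nat_lit 0) (nat_lit 27731827507) (nat_lit 168) (nat_lit 48043389354) (nat_lit 84) (nat_lit 46967595481) (nat_lit 25) (nat_lit 5) (nat_lit 27) (nat_lit 5) (nat_lit 26) (nat_lit 4) (nat_lit 336) (nat_lit 271) (nat_lit 113)) (XT.lf (nat_lit 0) (nat_lit 33124484912) (nat_lit 84) (nat_lit 34202521715) (nat_lit 168) (nat_lit 59392658047) (nat_lit 24) (nat_lit 5) (nat_lit 25) (nat_lit 5) (nat_lit 26) (nat_lit 4) (nat_lit 337) (nat_lit 271) (nat_lit 112)))) (XT.nd (nat_lit 188) (nat_lit 84) (nat_lit 0) (XT.nd (nat_lit 94) (nat_lit 168) (nat_lit 0) (XT.lf (nat_lit 0) (nat_lit 109874578102) (nat_lit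 168) (nat_lit 11000442985) (nat_lit 0) (nat_lit 9971706866) (nat_lit 24) (nat_lit 5) (nat_lit 26) (nat_lit 4) (nat_lit 24) (nat_lit 4) (nat_lit 338) (nat_lit 271) (nat_lit 111)) (XT.lf (nat_lit 0) (nat_lit 20549655040) (nat_lit 168) (nat_lit 57778015928) (nat_lit 84) (nat_lit 56747342282) (nat_lit 22) (nat_lit 5) (nat_lit 24) (nat_lit 5) (nat_lit 23) (nat_lit 4) (nat_lit 339) (nat_lit 271) (nat_lit 110))) (XT.nd (nat_lit 94) (nat_lit 0) (nat_lit 0) (XT.lf (nat_lit 0) (nat_lit 31545158148) (nat_lit 84) (nat_lit 32577677058) (nat_lit 168) (nat_lit 75340682981) (nat_lit 21) (nat_lit 5) (nat_lit 22) (nat_lit 5) (nat_lit 23) (nat_lit 4) (nat_lit 340) (nat_lit 271) (nat_lit 109)) (XT.lf (nat_lit 0) (nat_lit 111108817402) (nat_lit 168) (nat_lit 16942974434) (nat_lit 0) (nat_lit 15957949383) (nat_lit 21) (nat_lit 5) (nat_lit 23) (nat_lit 4) (nat_lit 21) (nat_lit 4) (nat_lit 341)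 (nat_lit 271) (nat_lit 108)))))) (XT.nd (nat_lit 752) (nat_lit 588) (nat_lit 0) (XT.nd (nat_lit 376) (nat_lit 336) (nat_lit 0) (XT.nd (nat_lit 188) (nat_lit 168) (nat_lit 0) (XT.nd (nat_lit 94) (nat_lit 84) (nat_lit 0) (XT.lf (nat_lit 0) (nat_lit 13108115504) (nat_lit 168) (nat_lit 68280825241) (nat_lit 84) (nat_lit 67294206182) (nat_lit 19) (nat_lit 5) (nat_lit 21) (nat_lit 5) (nat_lit 20) (nat_lit 4) (nat_lit 342) (nat_lit 271) (nat_lit 107)) (XT.lf (nat_lit 0) (nat_lit 30041386757) (nat_lit 84) (nat_lit 31029523919) (nat_lit 168) (nat_lit 92454394743) (nat_lit 18) (nat_lit 5) (nat_lit 19) (nat_lit 5) (nat_lit 20) (nat_lit 4) (nat_lit 343) (nat_lit 271) (nat_lit 106))) (XT.nd (nat_lit 94) (nat_lit 168) (nat_lit 0) (XT.lf (nat_lit 0) (nat_lit 112946601477) (nat_lit 168) (nat_lit 23264846269) (nat_lit 0) (nat_lit 22322386294) (nat_lit 18) (nat_lit 5) (nat_lit 20) (nat_lit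 4) (nat_lit 18) (nat_lit 4) (nat_lit 344) (nat_lit 271) (nat_lit 105)) (XT.lf (nat_lit 0) (nat_lit 5358018091) (nat_lit 168) (nat_lit 79641589488) (nat_lit 84) (nat_lit 78697818119) (nat_lit 16) (nat_lit 5) (nat_lit 18) (nat_lit 5) (nat_lit 17) (nat_lit 4) (nat_lit 345) (nat_lit 271) (nat_lit 104)))) (XT.nd (nat_lit 188) (nat_lit 252) (nat_lit 0) (XT.nd (nat_lit 94) (nat_lit 0) (nat_lit 0) (XT.lf (nat_lit 0) (nat_lit 28609510927) (nat_lit 84) (nat_lit 29554531243) (nat_lit 168) (nat_lit 110875511144) (nat_lit 15) (nat_lit 5) (nat_lit 16) (nat_lit 5) (nat_lit 17) (nat_lit 4) (nat_lit 346) (nat_lit 271) (nat_lit 103)) (XT.lf (nat_lit 0) (nat_lit 115427163520) (nat_lit 168) (nat_lit 30015968084) (nat_lit 0) (nat_lit 29114815904) (nat_lit 15) (nat_lit 5) (nat_lit 17) (nat_lit 4) (nat_lit 15) (nat_lit 4) (nat_lit 347) (nat_lit 271) (nat_lit 102))) (XT.nd (nat_lit 94) (nat_lit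 168) (nat_lit 0) (XT.lf (nat_lit 0) (nat_lit 88256060088) (nat_lit 84) (nat_lit 89158291155) (nat_lit 84) (nat_lit 2844864652) (nat_lit 14) (nat_lit 4) (nat_lit 15) (nat_lit 5) (nat_lit 15) (nat_lit 4) (nat_lit 348) (nat_lit 271) (nat_lit 101)) (XT.lf (nat_lit 0) (nat_lit 27246056105) (nat_lit 84) (nat_lit 28149314684) (nat_lit 168) (nat_lit 130759234594) (nat_lit 12) (nat_lit 5) (nat_lit 13) (nat_lit 5) (nat_lit 14) (nat_lit 4) (nat_lit 349) (nat_lit 271) (nat_lit 100))))) (XT.nd (nat_lit 376) (nat_lit 336) (nat_lit 0) (XT.nd (nat_lit 188) (nat_lit 168) (nat_lit 0) (XT.nd (nat_lit 94) (nat_lit 84) (nat_lit 0) (XT.lf (nat_lit 0) (nat_lit 118594820538) (nat_lit 168) (nat_lit 37250824885) (nat_lit 0) (nat_lit 36389646635) (nat_lit 12) (nat_lit 5) (nat_lit 14) (nat_lit 4) (nat_lit 12) (nat_lit 4) (nat_lit 350) (nat_lit 271) (nat_lit 99)) (XT.lf (nat_lit 0) (nat_lit 93002113456)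 (nat_lit 84) (nat_lit 93864179308) (nat_lit 84) (nat_lit 11658117803) (nat_lit 11) (nat_lit 4) (nat_lit 12) (nat_lit 5) (nat_lit 12) (nat_lit 4) (nat_lit 351) (nat_lit 271) (nat_lit 98))) (XT.nd (nat_lit 94) (nat_lit 0) (nat_lit 0) (XT.lf (nat_lit 0) (nat_lit 25947722227) (nat_lit 84) (nat_lit 26810633416) (nat_lit 168) (nat_lit 152275680796) (nat_lit 9) (nat_lit 5) (nat_lit 10) (nat_lit 5) (nat_lit 11) (nat_lit 4) (nat_lit 352) (nat_lit 271) (nat_lit 97)) (XT.lf (nat_lit 0) (nat_lit 122499446549) (nat_lit 168) (nat_lit 45028974498) (nat_lit 0) (nat_lit 44206387573) (nat_lit 9) (nat_lit 5) (nat_lit 11) (nat_lit 4) (nat_lit 9) (nat_lit 4) (nat_lit 353) (nat_lit 271) (nat_lit 96)))) (XT.nd (nat_lit 188) (nat_lit 84) (nat_lit 0) (XT.nd (nat_lit 94) (nat_lit 168) (nat_lit 0) (XT.lf (nat_lit 0) (nat_lit 98439673563) (nat_lit 84) (nat_lit 99262990721) (nat_lit 84) (nat_lit 20969201512)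 (nat_lit 8) (nat_lit 4) (nat_lit 9) (nat_lit 5) (nat_lit 9) (nat_lit 4) (nat_lit 354) (nat_lit 271) (nat_lit 95)) (XT.lf (nat_lit 0) (nat_lit 24711373806) (nat_lit 84) (nat_lit 25535386425) (nat_lit 168) (nat_lit 175611452210) (nat_lit 6) (nat_lit 5) (nat_lit 7) (nat_lit 5) (nat_lit 8) (nat_lit 4) (nat_lit 355) (nat_lit 271) (nat_lit 94))) (XT.nd (nat_lit 94) (nat_lit 84) (nat_lit 0) (XT.lf (nat_lit 0) (nat_lit 127196996082) (nat_lit 168) (nat_lit 53415594129) (nat_lit 0) (nat_lit 52630189403) (nat_lit 6) (nat_lit 5) (nat_lit 8) (nat_lit 4) (nat_lit 6) (nat_lit 4) (nat_lit 356) (nat_lit 271) (nat_lit 93)) (XT.nd (nat_lit 37224) (nat_lit 0) (nat_lit 10332) (XT.lf (nat_lit 0) (nat_lit 104629809200) (nat_lit 84) (nat_lit 105415814691) (nat_lit 84) (nat_lit 30848407247) (nat_lit 5) (nat_lit 4) (nat_lit 6) (nat_lit 5) (nat_lit 6) (nat_lit 4) (nat_lit 357) (nat_lit 271) (nat_lit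 92)) (XT.lf (nat_lit 0) (nat_lit 3358617749) (nat_lit 924) (nat_lit 3183760961) (nat_lit 924) (nat_lit 3183760961) (nat_lit 128) (nat_lit 3) (nat_lit 139) (nat_lit 3) (nat_lit 139) (nat_lit 5) (nat_lit 272) (nat_lit 272) (nat_lit 176))))))))
noncomputable def xc173 : XT := (XT.nd (nat_lit 1598) (nat_lit 3192) (nat_lit 0) (XT.nd (nat_lit 752) (nat_lit 1848) (nat_lit 0) (XT.nd (nat_lit 376) (nat_lit 0) (nat_lit 168) (XT.nd (nat_lit 188) (nat_lit 0) (nat_lit 84) (XT.nd (nat_lit 94) (nat_lit 0) (nat_lit 84) (XT.lf (nat_lit 84) (nat_lit 3469668820) (nat_lit 0) (nat_lit 3642118813) (nat_lit 924) (nat_lit 12815467633) (nat_lit 129) (nat_lit 5) (nat_lit 128) (nat_lit 3) (nat_lit 139) (nat_lit 5) (nat_lit 273) (nat_lit 272) (nat_lit 175)) (XT.lf (nat_lit 0) (nat_lit 7722553837) (nat_lit 840) (nat_lit 6507128569) (nat_lit 924) (nat_lit 6186473254) (nat_lit 129) (nat_lit 5) (nat_lit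 139) (nat_lit 5) (nat_lit 140) (nat_lit 5) (nat_lit 274) (nat_lit 272) (nat_lit 174))) (XT.nd (nat_lit 94) (nat_lit 0) (nat_lit 84) (XT.lf (nat_lit 84) (nat_lit 4002956338) (nat_lit 0) (nat_lit 4472580441) (nat_lit 924) (nat_lit 12448380374) (nat_lit 130) (nat_lit 5) (nat_lit 129) (nat_lit 5) (nat_lit 140) (nat_lit 5) (nat_lit 275) (nat_lit 272) (nat_lit 173)) (XT.lf (nat_lit 0) (nat_lit 9458239431) (nat_lit 840) (nat_lit 6285801946) (nat_lit 924) (nat_lit 5703421814) (nat_lit 130) (nat_lit 5) (nat_lit 140) (nat_lit 5) (nat_lit 141) (nat_lit 5) (nat_lit 276) (nat_lit 272) (nat_lit 172)))) (XT.nd (nat_lit 188) (nat_lit 0) (nat_lit 84) (XT.nd (nat_lit 94) (nat_lit 0) (nat_lit 84) (XT.lf (nat_lit 84) (nat_lit 4960096471) (nat_lit 0) (nat_lit 5671161443) (nat_lit 924) (nat_lit 11358869584) (nat_lit 131) (nat_lit 5) (nat_lit 130) (nat_lit 5) (nat_lit 141) (nat_lit 5) (nat_lit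 277) (nat_lit 272) (nat_lit 171)) (XT.lf (nat_lit 0) (nat_lit 12038532773) (nat_lit 840) (nat_lit 5653268825) (nat_lit 924) (nat_lit 4859343147) (nat_lit 131) (nat_lit 5) (nat_lit 141) (nat_lit 5) (nat_lit 142) (nat_lit 5) (nat_lit 278) (nat_lit 272) (nat_lit 170))) (XT.nd (nat_lit 94) (nat_lit 0) (nat_lit 84) (XT.lf (nat_lit 84) (nat_lit 6397597527) (nat_lit 0) (nat_lit 7302686008) (nat_lit 924) (nat_lit 9430723715) (nat_lit 132) (nat_lit 5) (nat_lit 131) (nat_lit 5) (nat_lit 142) (nat_lit 5) (nat_lit 279) (nat_lit 272) (nat_lit 169)) (XT.lf (nat_lit 0) (nat_lit 15590335368) (nat_lit 840) (nat_lit 4552541901) (nat_lit 924) (nat_lit 3589724932) (nat_lit 132) (nat_lit 5) (nat_lit 142) (nat_lit 5) (nat_lit 143) (nat_lit 5) (nat_lit 280) (nat_lit 272) (nat_lit 168))))) (XT.nd (nat_lit 376) (nat_lit 1428) (nat_lit 0) (XT.nd (nat_lit 188) (nat_lit 756) (nat_lit 0) (XT.nd (nat_lit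 94) (nat_lit 0) (nat_lit 84) (XT.lf (nat_lit 84) (nat_lit 8379295807) (nat_lit 0) (nat_lit 9438139384) (nat_lit 924) (nat_lit 6534714439) (nat_lit 133) (nat_lit 5) (nat_lit 132) (nat_lit 5) (nat_lit 143) (nat_lit 5) (nat_lit 281) (nat_lit 272) (nat_lit 167)) (XT.lf (nat_lit 0) (nat_lit 20254690105) (nat_lit 840) (nat_lit 2919282871) (nat_lit 84) (nat_lit 1823761451) (nat_lit 133) (nat_lit 5) (nat_lit 143) (nat_lit 5) (nat_lit 134) (nat_lit 5) (nat_lit 282) (nat_lit 272) (nat_lit 166))) (XT.nd (nat_lit 94) (nat_lit 0) (nat_lit 0) (XT.lf (nat_lit 0) (nat_lit 10977056279) (nat_lit 840) (nat_lit 12155529094) (nat_lit 924) (nat_lit 2527074208) (nat_lit 123) (nat_lit 5) (nat_lit 133) (nat_lit 5) (nat_lit 134) (nat_lit 5) (nat_lit 283) (nat_lit 272) (nat_lit 165)) (XT.lf (nat_lit 0) (nat_lit 25663147368) (nat_lit 840) (nat_lit 533587718) (nat_lit 924) (nat_lit 155827924) (nat_lit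 123) (nat_lit 5) (nat_lit 133) (nat_lit 5) (nat_lit 134) (nat_lit 5) (nat_lit 284) (nat_lit 272) (nat_lit 164)))) (XT.nd (nat_lit 188) (nat_lit 420) (nat_lit 0) (XT.nd (nat_lit 94) (nat_lit 420) (nat_lit 0) (XT.lf (nat_lit 0) (nat_lit 2664086978) (nat_lit 588) (nat_lit 12831606589) (nat_lit 84) (nat_lit 11562355632) (nat_lit 116) (nat_lit 5) (nat_lit 123) (nat_lit 5) (nat_lit 117) (nat_lit 5) (nat_lit 285) (nat_lit 272) (nat_lit 163)) (XT.lf (nat_lit 0) (nat_lit 2165031973) (nat_lit 420) (nat_lit 3502527247) (nat_lit 504) (nat_lit 22128732826) (nat_lit 111) (nat_lit 5) (nat_lit 116) (nat_lit 5) (nat_lit 117) (nat_lit 5) (nat_lit 286) (nat_lit 272) (nat_lit 162))) (XT.nd (nat_lit 94) (nat_lit 420) (nat_lit 0) (XT.lf (nat_lit 0) (nat_lit 9177597124) (nat_lit 504) (nat_lit 10355867471) (nat_lit 84) (nat_lit 9020162840) (nat_lit 111) (nat_lit 5) (nat_lit 117) (nat_lit 5) (nat_lit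 112) (nat_lit 5) (nat_lit 287) (nat_lit 272) (nat_lit 161)) (XT.nd (nat_lit 94) (nat_lit 0) (nat_lit 0) (XT.lf (nat_lit 0) (nat_lit 5805217290) (nat_lit 420) (nat_lit 7199873929) (nat_lit 504) (nat_lit 16336640658) (nat_lit 106) (nat_lit 5) (nat_lit 111) (nat_lit 5) (nat_lit 112) (nat_lit 5) (nat_lit 288) (nat_lit 272) (nat_lit 160)) (XT.lf (nat_lit 0) (nat_lit 17286080855) (nat_lit 504) (nat_lit 7125885136) (nat_lit 84) (nat_lit 5744169509) (nat_lit 106) (nat_lit 5) (nat_lit 112) (nat_lit 5) (nat_lit 107) (nat_lit 5) (nat_lit 289) (nat_lit 272) (nat_lit 159))))))) (XT.nd (nat_lit 752) (nat_lit 1512) (nat_lit 0) (XT.nd (nat_lit 376) (nat_lit 588) (nat_lit 0) (XT.nd (nat_lit 188) (nat_lit 756) (nat_lit 0) (XT.nd (nat_lit 94) (nat_lit 0) (nat_lit 0) (XT.lf (nat_lit 0) (nat_lit 10310929303) (nat_lit 336) (nat_lit 11743569891) (nat_lit 420) (nat_lit 8943091150) (nat_lit 102)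 (nat_lit 5) (nat_lit 106) (nat_lit 5) (nat_lit 107) (nat_lit 5) (nat_lit 290) (nat_lit 272) (nat_lit 158)) (XT.lf (nat_lit 0) (nat_lit 27202850824) (nat_lit 420) (nat_lit 3040900767) (nat_lit 84) (nat_lit 1630290719) (nat_lit 102) (nat_lit 5) (nat_lit 107) (nat_lit 5) (nat_lit 103) (nat_lit 5) (nat_lit 291) (nat_lit 272) (nat_lit 157))) (XT.nd (nat_lit 94) (nat_lit 336) (nat_lit 0) (XT.lf (nat_lit 0) (nat_lit 261250850) (nat_lit 420) (nat_lit 16982880860) (nat_lit 84) (nat_lit 15528279916) (nat_lit 97) (nat_lit 5) (nat_lit 102) (nat_lit 5) (nat_lit 98) (nat_lit 5) (nat_lit 292) (nat_lit 272) (nat_lit 156)) (XT.lf (nat_lit 0) (nat_lit 1932100348) (nat_lit 336) (nat_lit 3428597383) (nat_lit 420) (nat_lit 28347304576) (nat_lit 93) (nat_lit 5) (nat_lit 97) (nat_lit 5) (nat_lit 98) (nat_lit 5) (nat_lit 293) (nat_lit 272) (nat_lit 155)))) (XT.nd (nat_lit 188) (nat_lit 252) (nat_lit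 0) (XT.nd (nat_lit 94) (nat_lit 336) (nat_lit 0) (XT.lf (nat_lit 0) (nat_lit 11175386509) (nat_lit 420) (nat_lit 12477604399) (nat_lit 84) (nat_lit 11014368137) (nat_lit 93) (nat_lit 5) (nat_lit 98) (nat_lit 5) (nat_lit 94) (nat_lit 5) (nat_lit 294) (nat_lit 272) (nat_lit 154)) (XT.lf (nat_lit 0) (nat_lit 7978692065) (nat_lit 336) (nat_lit 9478119745) (nat_lit 420) (nat_lit 18209071706) (nat_lit 89) (nat_lit 5) (nat_lit 93) (nat_lit 5) (nat_lit 94) (nat_lit 5) (nat_lit 295) (nat_lit 272) (nat_lit 153))) (XT.nd (nat_lit 94) (nat_lit 252) (nat_lit 0) (XT.lf (nat_lit 0) (nat_lit 24346820643) (nat_lit 420) (nat_lit 6906820500) (nat_lit 84) (nat_lit 5445967454) (nat_lit 89) (nat_lit 5) (nat_lit 94) (nat_lit 5) (nat_lit 90) (nat_lit 5) (nat_lit 296) (nat_lit 272) (nat_lit 152)) (XT.lf (nat_lit 0) (nat_lit 15239038668) (nat_lit 252) (nat_lit 16731155223) (nat_lit 336) (nat_lit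 5795382842) (nat_lit 86) (nat_lit 5) (nat_lit 89) (nat_lit 5) (nat_lit 90) (nat_lit 5) (nat_lit 297) (nat_lit 272) (nat_lit 151))))) (XT.nd (nat_lit 376) (nat_lit 840) (nat_lit 0) (XT.nd (nat_lit 188) (nat_lit 252) (nat_lit 0) (XT.nd (nat_lit 94) (nat_lit 336) (nat_lit 0) (XT.lf (nat_lit 0) (nat_lit 1169507944) (nat_lit 336) (nat_lit 171894331) (nat_lit 84) (nat_lit 37536865247) (nat_lit 85) (nat_lit 5) (nat_lit 89) (nat_lit 5) (nat_lit 86) (nat_lit 5) (nat_lit 298) (nat_lit 272) (nat_lit 150)) (XT.lf (nat_lit 0) (nat_lit 8896907417) (nat_lit 420) (nat_lit 16295455337) (nat_lit 84) (nat_lit 14819028434) (nat_lit 81) (nat_lit 5) (nat_lit 86) (nat_lit 5) (nat_lit 82) (nat_lit 5) (nat_lit 299) (nat_lit 272) (nat_lit 149))) (XT.nd (nat_lit 94) (nat_lit 0) (nat_lit 0) (XT.lf (nat_lit 0) (nat_lit 7825784680) (nat_lit 252) (nat_lit 9327932148) (nat_lit 336) (nat_lit 24040302209)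 (nat_lit 78) (nat_lit 5) (nat_lit 81) (nat_lit 5) (nat_lit 82) (nat_lit 5) (nat_lit 300) (nat_lit 272) (nat_lit 148)) (XT.lf (nat_lit 0) (nat_lit 26214288583) (nat_lit 336) (nat_lit 8827944776) (nat_lit 84) (nat_lit 7373998827) (nat_lit 78) (nat_lit 5) (nat_lit 82) (nat_lit 5) (nat_lit 79) (nat_lit 5) (nat_lit 301) (nat_lit 272) (nat_lit 147)))) (XT.nd (nat_lit 188) (nat_lit 252) (nat_lit 0) (XT.nd (nat_lit 94) (nat_lit 336) (nat_lit 0) (XT.lf (nat_lit 0) (nat_lit 17335740431) (nat_lit 252) (nat_lit 18811904770) (nat_lit 336) (nat_lit 7530922977) (nat_lit 75) (nat_lit 5) (nat_lit 78) (nat_lit 5) (nat_lit 79) (nat_lit 5) (nat_lit 302) (nat_lit 272) (nat_lit 146)) (XT.lf (nat_lit 0) (nat_lit 87749623) (nat_lit 252) (nat_lit 1585074336) (nat_lit 336) (nat_lit 43322491464) (nat_lit 71) (nat_lit 5) (nat_lit 74) (nat_lit 5) (nat_lit 75) (nat_lit 5) (nat_lit 303) (nat_lit 272)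 (nat_lit 145))) (XT.nd (nat_lit 94) (nat_lit 252) (nat_lit 0) (XT.lf (nat_lit 0) (nat_lit 11791053106) (nat_lit 336) (nat_lit 17995260746) (nat_lit 84) (nat_lit 16550044128) (nat_lit 71) (nat_lit 5) (nat_lit 75) (nat_lit 5) (nat_lit 72) (nat_lit 5) (nat_lit 304) (nat_lit 272) (nat_lit 144)) (XT.nd (nat_lit 94) (nat_lit 0) (nat_lit 0) (XT.lf (nat_lit 0) (nat_lit 10569581088) (nat_lit 252) (nat_lit 12033076833) (nat_lit 336) (nat_lit 25132421533) (nat_lit 68) (nat_lit 5) (nat_lit 71) (nat_lit 5) (nat_lit 72) (nat_lit 5) (nat_lit 305) (nat_lit 272) (nat_lit 143)) (XT.lf (nat_lit 0) (nat_lit 34364279804) (nat_lit 336) (nat_lit 8114685267) (nat_lit 84) (nat_lit 6704300091) (nat_lit 68) (nat_lit 5) (nat_lit 72) (nat_lit 5) (nat_lit 69) (nat_lit 5) (nat_lit 306) (nat_lit 272) (nat_lit 142))))))))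
noncomputable def xc174 : XT := (XT.nd (nat_lit 1598) (nat_lit 1680) (nat_lit 0) (XT.nd (nat_lit 752) (nat_lit 1092) (nat_lit 0) (XT.nd (nat_lit 376) (nat_lit 420) (nat_lit 0) (XT.nd (nat_lit 188) (nat_lit 168) (nat_lit 0) (XT.nd (nat_lit 94) (nat_lit 336) (nat_lit 0) (XT.lf (nat_lit 0) (nat_lit 22919797433) (nat_lit 168) (nat_lit 24345972806) (nat_lit 252) (nat_lit 3410500541) (nat_lit 66) (nat_lit 5) (nat_lit 68) (nat_lit 5) (nat_lit 69) (nat_lit 5) (nat_lit 307) (nat_lit 272) (nat_lit 141)) (XT.lf (nat_lit 0) (nat_lit 3522164525) (nat_lit 252) (nat_lit 4963378180) (nat_lit 336) (nat_lit 43742126294) (nat_lit 62) (nat_lit 5) (nat_lit 65) (nat_lit 5) (nat_lit 66) (nat_lit 5) (nat_lit 308) (nat_lit 272) (nat_lit 140))) (XT.nd (nat_lit 94) (nat_lit 168) (nat_lit 0) (XT.lf (nat_lit 0) (nat_lit 21576557393) (nat_lit 336) (nat_lit 16813884809) (nat_lit 84) (nat_lit 15427660210)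 (nat_lit 62) (nat_lit 5) (nat_lit 66) (nat_lit 5) (nat_lit 63) (nat_lit 5) (nat_lit 309) (nat_lit 272) (nat_lit 139)) (XT.lf (nat_lit 0) (nat_lit 17134349056) (nat_lit 168) (nat_lit 18533564288) (nat_lit 252) (nat_lit 19802854625) (nat_lit 60) (nat_lit 5) (nat_lit 62) (nat_lit 5) (nat_lit 63) (nat_lit 5) (nat_lit 310) (nat_lit 272) (nat_lit 138)))) (XT.nd (nat_lit 188) (nat_lit 168) (nat_lit 0) (XT.nd (nat_lit 94) (nat_lit 252) (nat_lit 0) (XT.lf (nat_lit 0) (nat_lit 50786367189) (nat_lit 252) (nat_lit 3873970967) (nat_lit 84) (nat_lit 2529602144) (nat_lit 60) (nat_lit 5) (nat_lit 63) (nat_lit 5) (nat_lit 61) (nat_lit 5) (nat_lit 311) (nat_lit 272) (nat_lit 137)) (XT.lf (nat_lit 0) (nat_lit 8250818267) (nat_lit 252) (nat_lit 26026167355) (nat_lit 84) (nat_lit 24670576735) (nat_lit 57) (nat_lit 5) (nat_lit 60) (nat_lit 5) (nat_lit 58) (nat_lit 5) (nat_lit 312) (nat_lit 272)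 (nat_lit 136))) (XT.nd (nat_lit 94) (nat_lit 0) (nat_lit 0) (XT.lf (nat_lit 0) (nat_lit 11147141321) (nat_lit 168) (nat_lit 12513419368) (nat_lit 252) (nat_lit 37115364322) (nat_lit 55) (nat_lit 5) (nat_lit 57) (nat_lit 5) (nat_lit 58) (nat_lit 5) (nat_lit 313) (nat_lit 272) (nat_lit 135)) (XT.lf (nat_lit 0) (nat_lit 40447337555) (nat_lit 252) (nat_lit 11764475936) (nat_lit 84) (nat_lit 10453564938) (nat_lit 55) (nat_lit 5) (nat_lit 58) (nat_lit 5) (nat_lit 56) (nat_lit 5) (nat_lit 314) (nat_lit 272) (nat_lit 134))))) (XT.nd (nat_lit 376) (nat_lit 504) (nat_lit 0) (XT.nd (nat_lit 188) (nat_lit 168) (nat_lit 0) (XT.nd (nat_lit 94) (nat_lit 252) (nat_lit 0) (XT.lf (nat_lit 0) (nat_lit 28701923580) (nat_lit 168) (nat_lit 30022066779) (nat_lit 252) (nat_lit 5892787307) (nat_lit 53) (nat_lit 5) (nat_lit 55) (nat_lit 5) (nat_lit 56) (nat_lit 5) (nat_lit 315) (nat_lit 272) (nat_lit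 133)) (XT.lf (nat_lit 0) (nat_lit 4918174871) (nat_lit 168) (nat_lit 6247110641) (nat_lit 252) (nat_lit 55477850835) (nat_lit 50) (nat_lit 5) (nat_lit 52) (nat_lit 5) (nat_lit 53) (nat_lit 5) (nat_lit 316) (nat_lit 272) (nat_lit 132))) (XT.nd (nat_lit 94) (nat_lit 168) (nat_lit 0) (XT.lf (nat_lit 0) (nat_lit 29785974513) (nat_lit 252) (nat_lit 20104124546) (nat_lit 84) (nat_lit 18830496309) (nat_lit 50) (nat_lit 5) (nat_lit 53) (nat_lit 5) (nat_lit 51) (nat_lit 5) (nat_lit 317) (nat_lit 272) (nat_lit 131)) (XT.lf (nat_lit 0) (nat_lit 24267611367) (nat_lit 168) (nat_lit 25548834958) (nat_lit 252) (nat_lit 21061543594) (nat_lit 48) (nat_lit 5) (nat_lit 50) (nat_lit 5) (nat_lit 51) (nat_lit 5) (nat_lit 318) (nat_lit 272) (nat_lit 130)))) (XT.nd (nat_lit 188) (nat_lit 336) (nat_lit 0) (XT.nd (nat_lit 94) (nat_lit 168) (nat_lit 0) (XT.lf (nat_lit 0) (nat_lit 71192119556) (nat_lit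 252) (nat_lit 1580526454) (nat_lit 84) (nat_lit 353424299) (nat_lit 48) (nat_lit 5) (nat_lit 51) (nat_lit 5) (nat_lit 49) (nat_lit 4) (nat_lit 319) (nat_lit 272) (nat_lit 129)) (XT.lf (nat_lit 0) (nat_lit 18734620832) (nat_lit 168) (nat_lit 28956576450) (nat_lit 84) (nat_lit 27722913143) (nat_lit 46) (nat_lit 5) (nat_lit 48) (nat_lit 5) (nat_lit 47) (nat_lit 5) (nat_lit 320) (nat_lit 272) (nat_lit 128))) (XT.nd (nat_lit 94) (nat_lit 168) (nat_lit 0) (XT.lf (nat_lit 0) (nat_lit 19732301809) (nat_lit 168) (nat_lit 20972213833) (nat_lit 252) (nat_lit 37093807296) (nat_lit 44) (nat_lit 5) (nat_lit 46) (nat_lit 5) (nat_lit 47) (nat_lit 5) (nat_lit 321) (nat_lit 272) (nat_lit 127)) (XT.nd (nat_lit 94) (nat_lit 168) (nat_lit 0) (XT.lf (nat_lit 0) (nat_lit 64379544437) (nat_lit 252) (nat_lit 8539203020) (nat_lit 84) (nat_lit 7352666656) (nat_lit 44) (nat_lit 5) (nat_lit 47) (nat_lit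 5) (nat_lit 45) (nat_lit 4) (nat_lit 322) (nat_lit 272) (nat_lit 126)) (XT.lf (nat_lit 0) (nat_lit 7220244770) (nat_lit 168) (nat_lit 38391089131) (nat_lit 84) (nat_lit 37199154890) (nat_lit 42) (nat_lit 5) (nat_lit 44) (nat_lit 5) (nat_lit 43) (nat_lit 5) (nat_lit 323) (nat_lit 272) (nat_lit 125))))))) (XT.nd (nat_lit 752) (nat_lit 840) (nat_lit 0) (XT.nd (nat_lit 376) (nat_lit 336) (nat_lit 0) (XT.nd (nat_lit 188) (nat_lit 336) (nat_lit 0) (XT.nd (nat_lit 94) (nat_lit 0) (nat_lit 0) (XT.lf (nat_lit 0) (nat_lit 15068406082) (nat_lit 168) (nat_lit 16265481158) (nat_lit 252) (nat_lit 54110604174) (nat_lit 40) (nat_lit 5) (nat_lit 42) (nat_lit 5) (nat_lit 43) (nat_lit 5) (nat_lit 324) (nat_lit 272) (nat_lit 124)) (XT.lf (nat_lit 0) (nat_lit 57538934930) (nat_lit 252) (nat_lit 15885853737) (nat_lit 84) (nat_lit 14741119347) (nat_lit 40) (nat_lit 5) (nat_lit 43) (nat_lit 5)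 (nat_lit 41) (nat_lit 4) (nat_lit 325) (nat_lit 272) (nat_lit 123))) (XT.nd (nat_lit 94) (nat_lit 252) (nat_lit 0) (XT.lf (nat_lit 0) (nat_lit 42415903857) (nat_lit 84) (nat_lit 43565079093) (nat_lit 168) (nat_lit 4996075097) (nat_lit 39) (nat_lit 5) (nat_lit 40) (nat_lit 5) (nat_lit 41) (nat_lit 4) (nat_lit 326) (nat_lit 272) (nat_lit 122)) (XT.lf (nat_lit 0) (nat_lit 10246399632) (nat_lit 168) (nat_lit 11399804246) (nat_lit 252) (nat_lit 72243888069) (nat_lit 36) (nat_lit 5) (nat_lit 38) (nat_lit 5) (nat_lit 39) (nat_lit 5) (nat_lit 327) (nat_lit 272) (nat_lit 121)))) (XT.nd (nat_lit 188) (nat_lit 252) (nat_lit 0) (XT.nd (nat_lit 94) (nat_lit 84) (nat_lit 0) (XT.lf (nat_lit 0) (nat_lit 50635791239) (nat_lit 252) (nat_lit 23676026574) (nat_lit 84) (nat_lit 22573709820) (nat_lit 36) (nat_lit 5) (nat_lit 39) (nat_lit 5) (nat_lit 37) (nat_lit 4) (nat_lit 328) (nat_lit 272)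 (nat_lit 120)) (XT.lf (nat_lit 0) (nat_lit 40392197774) (nat_lit 84) (nat_lit 41498168023) (nat_lit 168) (nat_lit 18099593916) (nat_lit 35) (nat_lit 5) (nat_lit 36) (nat_lit 5) (nat_lit 37) (nat_lit 4) (nat_lit 329) (nat_lit 272) (nat_lit 119))) (XT.nd (nat_lit 94) (nat_lit 0) (nat_lit 0) (XT.lf (nat_lit 0) (nat_lit 5234568629) (nat_lit 168) (nat_lit 6344018398) (nat_lit 252) (nat_lit 91637718717) (nat_lit 32) (nat_lit 5) (nat_lit 34) (nat_lit 5) (nat_lit 35) (nat_lit 5) (nat_lit 330) (nat_lit 272) (nat_lit 118)) (XT.lf (nat_lit 0) (nat_lit 43633531827) (nat_lit 252) (nat_lit 31970160190) (nat_lit 84) (nat_lit 30910385335) (nat_lit 32) (nat_lit 5) (nat_lit 35) (nat_lit 5) (nat_lit 33) (nat_lit 4) (nat_lit 331) (nat_lit 272) (nat_lit 117))))) (XT.nd (nat_lit 376) (nat_lit 420) (nat_lit 0) (XT.nd (nat_lit 188) (nat_lit 252) (nat_lit 0) (XT.nd (nat_lit 94) (nat_lit 84) (nat_lit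 0) (XT.lf (nat_lit 0) (nat_lit 38465550309) (nat_lit 84) (nat_lit 39528330903) (nat_lit 168) (nat_lit 31947723462) (nat_lit 31) (nat_lit 5) (nat_lit 32) (nat_lit 5) (nat_lit 33) (nat_lit 4) (nat_lit 332) (nat_lit 272) (nat_lit 116)) (XT.lf (nat_lit 0) (nat_lit 1063133564) (nat_lit 168) (nat_lit 1224214) (nat_lit 84) (nat_lit 112448314843) (nat_lit 30) (nat_lit 5) (nat_lit 32) (nat_lit 5) (nat_lit 31) (nat_lit 5) (nat_lit 333) (nat_lit 272) (nat_lit 115))) (XT.nd (nat_lit 94) (nat_lit 84) (nat_lit 0) (XT.lf (nat_lit 0) (nat_lit 36493219911) (nat_lit 252) (nat_lit 40834132591) (nat_lit 84) (nat_lit 39816637831) (nat_lit 28) (nat_lit 5) (nat_lit 31) (nat_lit 5) (nat_lit 29) (nat_lit 4) (nat_lit 334) (nat_lit 272) (nat_lit 114)) (XT.lf (nat_lit 0) (nat_lit 36631216994) (nat_lit 84) (nat_lit 37651184582) (nat_lit 168) (nat_lit 46645092804) (nat_lit 27) (nat_lit 5) (nat_lit 28)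 (nat_lit 5) (nat_lit 29) (nat_lit 4) (nat_lit 335) (nat_lit 272) (nat_lit 113)))) (XT.nd (nat_lit 188) (nat_lit 252) (nat_lit 0) (XT.nd (nat_lit 94) (nat_lit 168) (nat_lit 0) (XT.lf (nat_lit 0) (nat_lit 114724726619) (nat_lit 168) (nat_lit 5555451715) (nat_lit 0) (nat_lit 4581811082) (nat_lit 27) (nat_lit 5) (nat_lit 29) (nat_lit 4) (nat_lit 27) (nat_lit 4) (nat_lit 336) (nat_lit 272) (nat_lit 112)) (XT.lf (nat_lit 0) (nat_lit 29173263167) (nat_lit 168) (nat_lit 50339862167) (nat_lit 84) (nat_lit 49364085411) (nat_lit 25) (nat_lit 5) (nat_lit 27) (nat_lit 5) (nat_lit 26) (nat_lit 4) (nat_lit 337) (nat_lit 272) (nat_lit 111))) (XT.nd (nat_lit 94) (nat_lit 168) (nat_lit 0) (XT.lf (nat_lit 0) (nat_lit 34884701028) (nat_lit 84) (nat_lit 35862512187) (nat_lit 168) (nat_lit 62305741881) (nat_lit 24) (nat_lit 5) (nat_lit 25) (nat_lit 5) (nat_lit 26) (nat_lit 4) (nat_lit 338) (nat_lit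 272) (nat_lit 110)) (XT.nd (nat_lit 94) (nat_lit 168) (nat_lit 0) (XT.lf (nat_lit 0) (nat_lit 115420344163) (nat_lit 168) (nat_lit 11449606158) (nat_lit 0) (nat_lit 10516512172) (nat_lit 24) (nat_lit 5) (nat_lit 26) (nat_lit 4) (nat_lit 24) (nat_lit 4) (nat_lit 339) (nat_lit 272) (nat_lit 109)) (XT.lf (nat_lit 0) (nat_lit 21629084126) (nat_lit 168) (nat_lit 60565966925) (nat_lit 84) (nat_lit 59631115545) (nat_lit 22) (nat_lit 5) (nat_lit 24) (nat_lit 5) (nat_lit 23) (nat_lit 4) (nat_lit 340) (nat_lit 272) (nat_lit 108))))))))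
noncomputable def xc175 : XT := (XT.nd (nat_lit 38822) (nat_lit 0) (nat_lit 8400) (XT.nd (nat_lit 752) (nat_lit 756) (nat_lit 0) (XT.nd (nat_lit 376) (nat_lit 252) (nat_lit 0) (XT.nd (nat_lit 188) (nat_lit 252) (nat_lit 0) (XT.nd (nat_lit 94) (nat_lit 0) (nat_lit 0) (XT.lf (nat_lit 0) (nat_lit 33221737632) (nat_lit 84) (nat_lit 34158262721) (nat_lit 168) (nat_lit 79054142574) (nat_lit 21) (nat_lit 5) (nat_lit 22) (nat_lit 5) (nat_lit 23) (nat_lit 4) (nat_lit 341) (nat_lit 272) (nat_lit 107)) (XT.lf (nat_lit 0) (nat_lit 116713570135) (nat_lit 168) (nat_lit 17693819655) (nat_lit 0) (nat_lit 16800372897) (nat_lit 21) (nat_lit 5) (nat_lit 23) (nat_lit 4) (nat_lit 21) (nat_lit 4) (nat_lit 342) (nat_lit 272) (nat_lit 106))) (XT.nd (nat_lit 94) (nat_lit 84) (nat_lit 0) (XT.lf (nat_lit 0) (nat_lit 13812758423) (nat_lit 168) (nat_lit 71598488282) (nat_lit 84) (nat_lit 70703595712)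 (nat_lit 19) (nat_lit 5) (nat_lit 21) (nat_lit 5) (nat_lit 20) (nat_lit 4) (nat_lit 343) (nat_lit 272) (nat_lit 105)) (XT.lf (nat_lit 0) (nat_lit 31638279828) (nat_lit 84) (nat_lit 32534549363) (nat_lit 168) (nat_lit 97026322849) (nat_lit 18) (nat_lit 5) (nat_lit 19) (nat_lit 5) (nat_lit 20) (nat_lit 4) (nat_lit 344) (nat_lit 272) (nat_lit 104)))) (XT.nd (nat_lit 188) (nat_lit 84) (nat_lit 0) (XT.nd (nat_lit 94) (nat_lit 168) (nat_lit 0) (XT.lf (nat_lit 0) (nat_lit 118640691749) (nat_lit 168) (nat_lit 24336167481) (nat_lit 0) (nat_lit 23481328502) (nat_lit 18) (nat_lit 5) (nat_lit 20) (nat_lit 4) (nat_lit 18) (nat_lit 4) (nat_lit 345) (nat_lit 272) (nat_lit 103)) (XT.lf (nat_lit 0) (nat_lit 5672617722) (nat_lit 168) (nat_lit 83531686389) (nat_lit 84) (nat_lit 82675657936) (nat_lit 16) (nat_lit 5) (nat_lit 18) (nat_lit 5) (nat_lit 17) (nat_lit 4) (nat_lit 346) (nat_lit 272)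 (nat_lit 102))) (XT.nd (nat_lit 94) (nat_lit 0) (nat_lit 0) (XT.lf (nat_lit 0) (nat_lit 30130485457) (nat_lit 84) (nat_lit 30987646741) (nat_lit 168) (nat_lit 116371104385) (nat_lit 15) (nat_lit 5) (nat_lit 16) (nat_lit 5) (nat_lit 17) (nat_lit 4) (nat_lit 347) (nat_lit 272) (nat_lit 101)) (XT.lf (nat_lit 0) (nat_lit 121242887813) (nat_lit 168) (nat_lit 31429055178) (nat_lit 0) (nat_lit 30611683586) (nat_lit 15) (nat_lit 5) (nat_lit 17) (nat_lit 4) (nat_lit 15) (nat_lit 4) (nat_lit 348) (nat_lit 272) (nat_lit 100))))) (XT.nd (nat_lit 376) (nat_lit 420) (nat_lit 0) (XT.nd (nat_lit 188) (nat_lit 84) (nat_lit 0) (XT.nd (nat_lit 94) (nat_lit 168) (nat_lit 0) (XT.lf (nat_lit 0) (nat_lit 92755159704) (nat_lit 84) (nat_lit 93573509878) (nat_lit 84) (nat_lit 2941327068) (nat_lit 14) (nat_lit 4) (nat_lit 15) (nat_lit 5) (nat_lit 15) (nat_lit 4) (nat_lit 349) (nat_lit 272) (nat_lit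 99)) (XT.lf (nat_lit 0) (nat_lit 28694705280) (nat_lit 84) (nat_lit 29513987438) (nat_lit 168) (nat_lit 137251465265) (nat_lit 12) (nat_lit 5) (nat_lit 13) (nat_lit 5) (nat_lit 14) (nat_lit 4) (nat_lit 350) (nat_lit 272) (nat_lit 98))) (XT.nd (nat_lit 94) (nat_lit 84) (nat_lit 0) (XT.lf (nat_lit 0) (nat_lit 124566677286) (nat_lit 168) (nat_lit 39029693824) (nat_lit 0) (nat_lit 38248579765) (nat_lit 12) (nat_lit 5) (nat_lit 14) (nat_lit 4) (nat_lit 12) (nat_lit 4) (nat_lit 351) (nat_lit 272) (nat_lit 97)) (XT.lf (nat_lit 0) (nat_lit 97734541881) (nat_lit 84) (nat_lit 98516461021) (nat_lit 84) (nat_lit 12197558418) (nat_lit 11) (nat_lit 4) (nat_lit 12) (nat_lit 5) (nat_lit 12) (nat_lit 4) (nat_lit 352) (nat_lit 272) (nat_lit 96)))) (XT.nd (nat_lit 188) (nat_lit 252) (nat_lit 0) (XT.nd (nat_lit 94) (nat_lit 0) (nat_lit 0) (XT.lf (nat_lit 0) (nat_lit 27327472026) (nat_lit 84)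 (nat_lit 28110157912) (nat_lit 168) (nat_lit 159846040497) (nat_lit 9) (nat_lit 5) (nat_lit 10) (nat_lit 5) (nat_lit 11) (nat_lit 4) (nat_lit 353) (nat_lit 272) (nat_lit 95)) (XT.lf (nat_lit 0) (nat_lit 128664415781) (nat_lit 168) (nat_lit 47200622007) (nat_lit 0) (nat_lit 46454511418) (nat_lit 9) (nat_lit 5) (nat_lit 11) (nat_lit 4) (nat_lit 9) (nat_lit 4) (nat_lit 354) (nat_lit 272) (nat_lit 94))) (XT.nd (nat_lit 94) (nat_lit 168) (nat_lit 0) (XT.lf (nat_lit 0) (nat_lit 103440171340) (nat_lit 84) (nat_lit 104186944273) (nat_lit 84) (nat_lit 21976377567) (nat_lit 8) (nat_lit 4) (nat_lit 9) (nat_lit 5) (nat_lit 9) (nat_lit 4) (nat_lit 355) (nat_lit 272) (nat_lit 93)) (XT.nd (nat_lit 94) (nat_lit 0) (nat_lit 0) (XT.lf (nat_lit 0) (nat_lit 26025490274) (nat_lit 84) (nat_lit 26772894010) (nat_lit 168) (nat_lit 184350774478) (nat_lit 6) (nat_lit 5) (nat_lit 7) (nat_lit 5) (nat_lit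 8) (nat_lit 4) (nat_lit 356) (nat_lit 272) (nat_lit 92)) (XT.lf (nat_lit 0) (nat_lit 133594844959) (nat_lit 168) (nat_lit 56010279461) (nat_lit 0) (nat_lit 55297894222) (nat_lit 6) (nat_lit 5) (nat_lit 8) (nat_lit 4) (nat_lit 6) (nat_lit 4) (nat_lit 357) (nat_lit 272) (nat_lit 91))))))) (XT.nd (nat_lit 752) (nat_lit 1848) (nat_lit 0) (XT.nd (nat_lit 376) (nat_lit 0) (nat_lit 168) (XT.nd (nat_lit 188) (nat_lit 0) (nat_lit 84) (XT.nd (nat_lit 94) (nat_lit 0) (nat_lit 0) (XT.lf (nat_lit 0) (nat_lit 3696306202) (nat_lit 924) (nat_lit 3253826288) (nat_lit 924) (nat_lit 3253826288) (nat_lit 128) (nat_lit 3) (nat_lit 139) (nat_lit 3) (nat_lit 139) (nat_lit 5) (nat_lit 273) (nat_lit 273) (nat_lit 174)) (XT.lf (nat_lit 84) (nat_lit 3818522778) (nat_lit 0) (nat_lit 3974940005) (nat_lit 924) (nat_lit 13113850958) (nat_lit 129) (nat_lit 5) (nat_lit 128) (nat_lit 3) (nat_lit 139) (nat_lit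 5) (nat_lit 274) (nat_lit 273) (nat_lit 173))) (XT.nd (nat_lit 94) (nat_lit 0) (nat_lit 0) (XT.lf (nat_lit 0) (nat_lit 8416998368) (nat_lit 840) (nat_lit 6647696528) (nat_lit 924) (nat_lit 6356852705) (nat_lit 129) (nat_lit 5) (nat_lit 139) (nat_lit 5) (nat_lit 140) (nat_lit 5) (nat_lit 275) (nat_lit 273) (nat_lit 172)) (XT.lf (nat_lit 84) (nat_lit 4384912165) (nat_lit 0) (nat_lit 4810875070) (nat_lit 924) (nat_lit 12759502095) (nat_lit 130) (nat_lit 5) (nat_lit 129) (nat_lit 5) (nat_lit 140) (nat_lit 5) (nat_lit 276) (nat_lit 273) (nat_lit 171)))) (XT.nd (nat_lit 188) (nat_lit 0) (nat_lit 84) (XT.nd (nat_lit 94) (nat_lit 0) (nat_lit 0) (XT.lf (nat_lit 0) (nat_lit 10211802227) (nat_lit 840) (nat_lit 6411118765) (nat_lit 924) (nat_lit 5882882818) (nat_lit 130) (nat_lit 5) (nat_lit 140) (nat_lit 5) (nat_lit 141) (nat_lit 5) (nat_lit 277) (nat_lit 273) (nat_lit 170)) (XT.lf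 (nat_lit 84) (nat_lit 5394026617) (nat_lit 0) (nat_lit 6038983507) (nat_lit 924) (nat_lit 11643114283) (nat_lit 131) (nat_lit 5) (nat_lit 130) (nat_lit 5) (nat_lit 141) (nat_lit 5) (nat_lit 278) (nat_lit 273) (nat_lit 169))) (XT.nd (nat_lit 94) (nat_lit 0) (nat_lit 0) (XT.lf (nat_lit 0) (nat_lit 12896529619) (nat_lit 840) (nat_lit 5744741424) (nat_lit 924) (nat_lit 5024627430) (nat_lit 131) (nat_lit 5) (nat_lit 141) (nat_lit 5) (nat_lit 142) (nat_lit 5) (nat_lit 279) (nat_lit 273) (nat_lit 168)) (XT.lf (nat_lit 84) (nat_lit 6905584523) (nat_lit 0) (nat_lit 7726526456) (nat_lit 924) (nat_lit 9643105970) (nat_lit 132) (nat_lit 5) (nat_lit 131) (nat_lit 5) (nat_lit 142) (nat_lit 5) (nat_lit 280) (nat_lit 273) (nat_lit 167))))) (XT.nd (nat_lit 376) (nat_lit 1428) (nat_lit 0) (XT.nd (nat_lit 188) (nat_lit 756) (nat_lit 0) (XT.nd (nat_lit 94) (nat_lit 0) (nat_lit 0) (XT.lf (nat_lit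 0) (nat_lit 16604039469) (nat_lit 840) (nat_lit 4588393424) (nat_lit 924) (nat_lit 3715090051) (nat_lit 132) (nat_lit 5) (nat_lit 142) (nat_lit 5) (nat_lit 143) (nat_lit 5) (nat_lit 281) (nat_lit 273) (nat_lit 166)) (XT.lf (nat_lit 84) (nat_lit 8986943015) (nat_lit 0) (nat_lit 9947345353) (nat_lit 924) (nat_lit 6624169674) (nat_lit 133) (nat_lit 5) (nat_lit 132) (nat_lit 5) (nat_lit 143) (nat_lit 5) (nat_lit 282) (nat_lit 273) (nat_lit 165))) (XT.nd (nat_lit 94) (nat_lit 840) (nat_lit 0) (XT.lf (nat_lit 0) (nat_lit 21482090396) (nat_lit 840) (nat_lit 2874233842) (nat_lit 84) (nat_lit 1880563620) (nat_lit 133) (nat_lit 5) (nat_lit 143) (nat_lit 5) (nat_lit 134) (nat_lit 5) (nat_lit 283) (nat_lit 273) (nat_lit 164)) (XT.lf (nat_lit 0) (nat_lit 11713841408) (nat_lit 840) (nat_lit 12782750990) (nat_lit 924) (nat_lit 2435681275) (nat_lit 123) (nat_lit 5) (nat_lit 133) (nat_lit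 5) (nat_lit 134) (nat_lit 5) (nat_lit 284) (nat_lit 273) (nat_lit 163)))) (XT.nd (nat_lit 188) (nat_lit 840) (nat_lit 0) (XT.nd (nat_lit 94) (nat_lit 504) (nat_lit 0) (XT.lf (nat_lit 0) (nat_lit 42357891) (nat_lit 924) (nat_lit 535711329) (nat_lit 84) (nat_lit 27082212650) (nat_lit 122) (nat_lit 5) (nat_lit 133) (nat_lit 5) (nat_lit 123) (nat_lit 5) (nat_lit 285) (nat_lit 273) (nat_lit 162)) (XT.lf (nat_lit 0) (nat_lit 2991145868) (nat_lit 588) (nat_lit 13280680548) (nat_lit 84) (nat_lit 12129432515) (nat_lit 116) (nat_lit 5) (nat_lit 123) (nat_lit 5) (nat_lit 117) (nat_lit 5) (nat_lit 286) (nat_lit 273) (nat_lit 161))) (XT.nd (nat_lit 94) (nat_lit 420) (nat_lit 0) (XT.lf (nat_lit 0) (nat_lit 2462685000) (nat_lit 420) (nat_lit 3675832641) (nat_lit 504) (nat_lit 23038209984) (nat_lit 111) (nat_lit 5) (nat_lit 116) (nat_lit 5) (nat_lit 117) (nat_lit 5) (nat_lit 287) (nat_lit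 273) (nat_lit 160)) (XT.nd (nat_lit 94) (nat_lit 420) (nat_lit 0) (XT.lf (nat_lit 0) (nat_lit 9815152114) (nat_lit 504) (nat_lit 10684373205) (nat_lit 84) (nat_lit 9472849730) (nat_lit 111) (nat_lit 5) (nat_lit 117) (nat_lit 5) (nat_lit 112) (nat_lit 5) (nat_lit 288) (nat_lit 273) (nat_lit 159)) (XT.lf (nat_lit 0) (nat_lit 6281712768) (nat_lit 420) (nat_lit 7546707451) (nat_lit 504) (nat_lit 16971744531) (nat_lit 106) (nat_lit 5) (nat_lit 111) (nat_lit 5) (nat_lit 112) (nat_lit 5) (nat_lit 289) (nat_lit 273) (nat_lit 158))))))))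
noncomputable def xc176 : XT := (XT.nd (nat_lit 1504) (nat_lit 2268) (nat_lit 0) (XT.nd (nat_lit 752) (nat_lit 1512) (nat_lit 0) (XT.nd (nat_lit 376) (nat_lit 672) (nat_lit 0) (XT.nd (nat_lit 188) (nat_lit 420) (nat_lit 0) (XT.nd (nat_lit 94) (nat_lit 336) (nat_lit 0) (XT.lf (nat_lit 0) (nat_lit 18315413380) (nat_lit 504) (nat_lit 7296767138) (nat_lit 84) (nat_lit 6043510334) (nat_lit 106) (nat_lit 5) (nat_lit 112) (nat_lit 5) (nat_lit 107) (nat_lit 5) (nat_lit 290) (nat_lit 273) (nat_lit 157)) (XT.lf (nat_lit 0) (nat_lit 11008897502) (nat_lit 336) (nat_lit 12308344748) (nat_lit 420) (nat_lit 9222226706) (nat_lit 102) (nat_lit 5) (nat_lit 106) (nat_lit 5) (nat_lit 107) (nat_lit 5) (nat_lit 291) (nat_lit 273) (nat_lit 156))) (XT.nd (nat_lit 94) (nat_lit 420) (nat_lit 0) (XT.lf (nat_lit 0) (nat_lit 28715724680) (nat_lit 420) (nat_lit 3011924038) (nat_lit 84) (nat_lit 1732459142)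 (nat_lit 102) (nat_lit 5) (nat_lit 107) (nat_lit 5) (nat_lit 103) (nat_lit 5) (nat_lit 292) (nat_lit 273) (nat_lit 155)) (XT.lf (nat_lit 0) (nat_lit 424982608) (nat_lit 420) (nat_lit 17648941037) (nat_lit 84) (nat_lit 16329575101) (nat_lit 97) (nat_lit 5) (nat_lit 102) (nat_lit 5) (nat_lit 98) (nat_lit 5) (nat_lit 293) (nat_lit 273) (nat_lit 154)))) (XT.nd (nat_lit 188) (nat_lit 336) (nat_lit 0) (XT.nd (nat_lit 94) (nat_lit 0) (nat_lit 0) (XT.lf (nat_lit 0) (nat_lit 2208836266) (nat_lit 336) (nat_lit 3566203192) (nat_lit 420) (nat_lit 29611047623) (nat_lit 93) (nat_lit 5) (nat_lit 97) (nat_lit 5) (nat_lit 98) (nat_lit 5) (nat_lit 294) (nat_lit 273) (nat_lit 153)) (XT.lf (nat_lit 0) (nat_lit 11873998623) (nat_lit 420) (nat_lit 12923467329) (nat_lit 84) (nat_lit 11596268906) (nat_lit 93) (nat_lit 5) (nat_lit 98) (nat_lit 5) (nat_lit 94) (nat_lit 5) (nat_lit 295) (nat_lit 273)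 (nat_lit 152))) (XT.nd (nat_lit 94) (nat_lit 0) (nat_lit 0) (XT.lf (nat_lit 0) (nat_lit 8552772711) (nat_lit 336) (nat_lit 9912797818) (nat_lit 420) (nat_lit 18976811256) (nat_lit 89) (nat_lit 5) (nat_lit 93) (nat_lit 5) (nat_lit 94) (nat_lit 5) (nat_lit 296) (nat_lit 273) (nat_lit 151)) (XT.lf (nat_lit 0) (nat_lit 25694190805) (nat_lit 420) (nat_lit 7079466771) (nat_lit 84) (nat_lit 5754429994) (nat_lit 89) (nat_lit 5) (nat_lit 94) (nat_lit 5) (nat_lit 90) (nat_lit 5) (nat_lit 297) (nat_lit 273) (nat_lit 150))))) (XT.nd (nat_lit 376) (nat_lit 588) (nat_lit 0) (XT.nd (nat_lit 188) (nat_lit 588) (nat_lit 0) (XT.nd (nat_lit 94) (nat_lit 84) (nat_lit 0) (XT.lf (nat_lit 0) (nat_lit 16170899956) (nat_lit 252) (nat_lit 17524293657) (nat_lit 336) (nat_lit 5952337455) (nat_lit 86) (nat_lit 5) (nat_lit 89) (nat_lit 5) (nat_lit 90) (nat_lit 5) (nat_lit 298) (nat_lit 273) (nat_lit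 149)) (XT.lf (nat_lit 0) (nat_lit 1350424898) (nat_lit 336) (nat_lit 14622144) (nat_lit 84) (nat_lit 39451011779) (nat_lit 85) (nat_lit 5) (nat_lit 89) (nat_lit 5) (nat_lit 86) (nat_lit 5) (nat_lit 299) (nat_lit 273) (nat_lit 148))) (XT.nd (nat_lit 94) (nat_lit 252) (nat_lit 0) (XT.lf (nat_lit 0) (nat_lit 9461599148) (nat_lit 420) (nat_lit 16941766003) (nat_lit 84) (nat_lit 15602603279) (nat_lit 81) (nat_lit 5) (nat_lit 86) (nat_lit 5) (nat_lit 82) (nat_lit 5) (nat_lit 300) (nat_lit 273) (nat_lit 147)) (XT.lf (nat_lit 0) (nat_lit 8382818884) (nat_lit 252) (nat_lit 9745310919) (nat_lit 336) (nat_lit 25119753829) (nat_lit 78) (nat_lit 5) (nat_lit 81) (nat_lit 5) (nat_lit 82) (nat_lit 5) (nat_lit 301) (nat_lit 273) (nat_lit 146)))) (XT.nd (nat_lit 188) (nat_lit 336) (nat_lit 0) (XT.nd (nat_lit 94) (nat_lit 252) (nat_lit 0) (XT.lf (nat_lit 0) (nat_lit 27636900573) (nat_lit 336)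 (nat_lit 9106660089) (nat_lit 84) (nat_lit 7787888254) (nat_lit 78) (nat_lit 5) (nat_lit 82) (nat_lit 5) (nat_lit 79) (nat_lit 5) (nat_lit 302) (nat_lit 273) (nat_lit 145)) (XT.lf (nat_lit 0) (nat_lit 18362585475) (nat_lit 252) (nat_lit 19701510047) (nat_lit 336) (nat_lit 7792947662) (nat_lit 75) (nat_lit 5) (nat_lit 78) (nat_lit 5) (nat_lit 79) (nat_lit 5) (nat_lit 303) (nat_lit 273) (nat_lit 144))) (XT.nd (nat_lit 94) (nat_lit 0) (nat_lit 0) (XT.lf (nat_lit 0) (nat_lit 253219829) (nat_lit 252) (nat_lit 1611337483) (nat_lit 336) (nat_lit 45375119275) (nat_lit 71) (nat_lit 5) (nat_lit 74) (nat_lit 5) (nat_lit 75) (nat_lit 5) (nat_lit 304) (nat_lit 273) (nat_lit 143)) (XT.lf (nat_lit 0) (nat_lit 12484338605) (nat_lit 336) (nat_lit 18737252354) (nat_lit 84) (nat_lit 17426398278) (nat_lit 71) (nat_lit 5) (nat_lit 75) (nat_lit 5) (nat_lit 72) (nat_lit 5) (nat_lit 305) (nat_lit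 273) (nat_lit 142)))))) (XT.nd (nat_lit 752) (nat_lit 1092) (nat_lit 0) (XT.nd (nat_lit 376) (nat_lit 420) (nat_lit 0) (XT.nd (nat_lit 188) (nat_lit 504) (nat_lit 0) (XT.nd (nat_lit 94) (nat_lit 0) (nat_lit 0) (XT.lf (nat_lit 0) (nat_lit 11253286872) (nat_lit 252) (nat_lit 12580720654) (nat_lit 336) (nat_lit 26282765066) (nat_lit 68) (nat_lit 5) (nat_lit 71) (nat_lit 5) (nat_lit 72) (nat_lit 5) (nat_lit 306) (nat_lit 273) (nat_lit 141)) (XT.lf (nat_lit 0) (nat_lit 36179693752) (nat_lit 336) (nat_lit 8368567800) (nat_lit 84) (nat_lit 7089306869) (nat_lit 68) (nat_lit 5) (nat_lit 72) (nat_lit 5) (nat_lit 69) (nat_lit 5) (nat_lit 307) (nat_lit 273) (nat_lit 140))) (XT.nd (nat_lit 94) (nat_lit 336) (nat_lit 0) (XT.lf (nat_lit 0) (nat_lit 24215189814) (nat_lit 168) (nat_lit 25508772918) (nat_lit 252) (nat_lit 3481376388) (nat_lit 66) (nat_lit 5) (nat_lit 68) (nat_lit 5) (nat_lit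 69) (nat_lit 5) (nat_lit 308) (nat_lit 273) (nat_lit 139)) (XT.lf (nat_lit 0) (nat_lit 3848403496) (nat_lit 252) (nat_lit 5155626766) (nat_lit 336) (nat_lit 45830311665) (nat_lit 62) (nat_lit 5) (nat_lit 65) (nat_lit 5) (nat_lit 66) (nat_lit 5) (nat_lit 309) (nat_lit 273) (nat_lit 138)))) (XT.nd (nat_lit 188) (nat_lit 252) (nat_lit 0) (XT.nd (nat_lit 94) (nat_lit 168) (nat_lit 0) (XT.lf (nat_lit 0) (nat_lit 22745940972) (nat_lit 336) (nat_lit 17507942675) (nat_lit 84) (nat_lit 16250596100) (nat_lit 62) (nat_lit 5) (nat_lit 66) (nat_lit 5) (nat_lit 63) (nat_lit 5) (nat_lit 310) (nat_lit 273) (nat_lit 137)) (XT.lf (nat_lit 0) (nat_lit 18135337781) (nat_lit 168) (nat_lit 19404467243) (nat_lit 252) (nat_lit 20700076543) (nat_lit 60) (nat_lit 5) (nat_lit 62) (nat_lit 5) (nat_lit 63) (nat_lit 5) (nat_lit 311) (nat_lit 273) (nat_lit 136))) (XT.nd (nat_lit 94) (nat_lit 252) (nat_lit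 0) (XT.lf (nat_lit 0) (nat_lit 53410796806) (nat_lit 252) (nat_lit 3926883550) (nat_lit 84) (nat_lit 2707501398) (nat_lit 60) (nat_lit 5) (nat_lit 63) (nat_lit 5) (nat_lit 61) (nat_lit 5) (nat_lit 312) (nat_lit 273) (nat_lit 135)) (XT.lf (nat_lit 0) (nat_lit 8747944410) (nat_lit 252) (nat_lit 27186163729) (nat_lit 84) (nat_lit 25956603075) (nat_lit 57) (nat_lit 5) (nat_lit 60) (nat_lit 5) (nat_lit 58) (nat_lit 5) (nat_lit 313) (nat_lit 273) (nat_lit 134))))) (XT.nd (nat_lit 376) (nat_lit 504) (nat_lit 0) (XT.nd (nat_lit 188) (nat_lit 420) (nat_lit 0) (XT.nd (nat_lit 94) (nat_lit 0) (nat_lit 0) (XT.lf (nat_lit 0) (nat_lit 11843531156) (nat_lit 168) (nat_lit 13082785620) (nat_lit 252) (nat_lit 38884268083) (nat_lit 55) (nat_lit 5) (nat_lit 57) (nat_lit 5) (nat_lit 58) (nat_lit 5) (nat_lit 314) (nat_lit 273) (nat_lit 133)) (XT.lf (nat_lit 0) (nat_lit 42549330268) (nat_lit 252)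 (nat_lit 12217185355) (nat_lit 84) (nat_lit 11028150437) (nat_lit 55) (nat_lit 5) (nat_lit 58) (nat_lit 5) (nat_lit 56) (nat_lit 5) (nat_lit 315) (nat_lit 273) (nat_lit 132))) (XT.nd (nat_lit 94) (nat_lit 252) (nat_lit 0) (XT.lf (nat_lit 0) (nat_lit 30270348421) (nat_lit 168) (nat_lit 31467757218) (nat_lit 252) (nat_lit 6105615122) (nat_lit 53) (nat_lit 5) (nat_lit 55) (nat_lit 5) (nat_lit 56) (nat_lit 5) (nat_lit 316) (nat_lit 273) (nat_lit 131)) (XT.lf (nat_lit 0) (nat_lit 5297838061) (nat_lit 168) (nat_lit 6503221980) (nat_lit 252) (nat_lit 58170357611) (nat_lit 50) (nat_lit 5) (nat_lit 52) (nat_lit 5) (nat_lit 53) (nat_lit 5) (nat_lit 317) (nat_lit 273) (nat_lit 130)))) (XT.nd (nat_lit 188) (nat_lit 336) (nat_lit 0) (XT.nd (nat_lit 94) (nat_lit 168) (nat_lit 0) (XT.lf (nat_lit 0) (nat_lit 31349928841) (nat_lit 252) (nat_lit 20979090935) (nat_lit 84) (nat_lit 19823872579)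 (nat_lit 50) (nat_lit 5) (nat_lit 53) (nat_lit 5) (nat_lit 51) (nat_lit 5) (nat_lit 318) (nat_lit 273) (nat_lit 129)) (XT.lf (nat_lit 0) (nat_lit 25609131131) (nat_lit 168) (nat_lit 26771238697) (nat_lit 252) (nat_lit 22037864529) (nat_lit 48) (nat_lit 5) (nat_lit 50) (nat_lit 5) (nat_lit 51) (nat_lit 5) (nat_lit 319) (nat_lit 273) (nat_lit 128))) (XT.nd (nat_lit 94) (nat_lit 336) (nat_lit 0) (XT.lf (nat_lit 0) (nat_lit 74822164089) (nat_lit 252) (nat_lit 1534852817) (nat_lit 84) (nat_lit 421834990) (nat_lit 48) (nat_lit 5) (nat_lit 51) (nat_lit 5) (nat_lit 49) (nat_lit 4) (nat_lit 320) (nat_lit 273) (nat_lit 127)) (XT.nd (nat_lit 94) (nat_lit 168) (nat_lit 0) (XT.lf (nat_lit 0) (nat_lit 19741482871) (nat_lit 168) (nat_lit 30279397755) (nat_lit 84) (nat_lit 29160428769) (nat_lit 46) (nat_lit 5) (nat_lit 48) (nat_lit 5) (nat_lit 47) (nat_lit 5) (nat_lit 321) (nat_lit 273)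 (nat_lit 126)) (XT.lf (nat_lit 0) (nat_lit 20841908166) (nat_lit 168) (nat_lit 21966544922) (nat_lit 252) (nat_lit 38876350413) (nat_lit 44) (nat_lit 5) (nat_lit 46) (nat_lit 5) (nat_lit 47) (nat_lit 5) (nat_lit 322) (nat_lit 273) (nat_lit 125))))))))
noncomputable def xc177 : XT := (XT.nd (nat_lit 1598) (nat_lit 1344) (nat_lit 0) (XT.nd (nat_lit 752) (nat_lit 924) (nat_lit 0) (XT.nd (nat_lit 376) (nat_lit 420) (nat_lit 0) (XT.nd (nat_lit 188) (nat_lit 168) (nat_lit 0) (XT.nd (nat_lit 94) (nat_lit 168) (nat_lit 0) (XT.lf (nat_lit 0) (nat_lit 67664768441) (nat_lit 252) (nat_lit 8846563749) (nat_lit 84) (nat_lit 7770340289) (nat_lit 44) (nat_lit 5) (nat_lit 47) (nat_lit 5) (nat_lit 45) (nat_lit 4) (nat_lit 323) (nat_lit 273) (nat_lit 124)) (XT.lf (nat_lit 0) (nat_lit 7647250762) (nat_lit 168) (nat_lit 40190791137) (nat_lit 84) (nat_lit 39109671644) (nat_lit 42) (nat_lit 5)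 (nat_lit 44) (nat_lit 5) (nat_lit 43) (nat_lit 5) (nat_lit 324) (nat_lit 273) (nat_lit 123))) (XT.nd (nat_lit 94) (nat_lit 0) (nat_lit 0) (XT.lf (nat_lit 0) (nat_lit 15939745733) (nat_lit 168) (nat_lit 17025528115) (nat_lit 252) (nat_lit 56748207525) (nat_lit 40) (nat_lit 5) (nat_lit 42) (nat_lit 5) (nat_lit 43) (nat_lit 5) (nat_lit 325) (nat_lit 273) (nat_lit 122)) (XT.lf (nat_lit 0) (nat_lit 60478284790) (nat_lit 252) (nat_lit 16565553152) (nat_lit 84) (nat_lit 15527245316) (nat_lit 40) (nat_lit 5) (nat_lit 43) (nat_lit 5) (nat_lit 41) (nat_lit 4) (nat_lit 326) (nat_lit 273) (nat_lit 121)))) (XT.nd (nat_lit 188) (nat_lit 84) (nat_lit 0) (XT.nd (nat_lit 94) (nat_lit 252) (nat_lit 0) (XT.lf (nat_lit 0) (nat_lit 44649444042) (nat_lit 84) (nat_lit 45691779857) (nat_lit 168) (nat_lit 5181627459) (nat_lit 39) (nat_lit 5) (nat_lit 40) (nat_lit 5) (nat_lit 41) (nat_lit 4) (nat_lit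 327) (nat_lit 273) (nat_lit 120)) (XT.lf (nat_lit 0) (nat_lit 10871669416) (nat_lit 168) (nat_lit 11917841401) (nat_lit 252) (nat_lit 75792035890) (nat_lit 36) (nat_lit 5) (nat_lit 38) (nat_lit 5) (nat_lit 39) (nat_lit 5) (nat_lit 328) (nat_lit 273) (nat_lit 119))) (XT.nd (nat_lit 94) (nat_lit 84) (nat_lit 0) (XT.lf (nat_lit 0) (nat_lit 53226445447) (nat_lit 252) (nat_lit 24750124563) (nat_lit 84) (nat_lit 23750290773) (nat_lit 36) (nat_lit 5) (nat_lit 39) (nat_lit 5) (nat_lit 37) (nat_lit 4) (nat_lit 329) (nat_lit 273) (nat_lit 118)) (XT.lf (nat_lit 0) (nat_lit 42519741593) (nat_lit 84) (nat_lit 43522889212) (nat_lit 168) (nat_lit 18943939557) (nat_lit 35) (nat_lit 5) (nat_lit 36) (nat_lit 5) (nat_lit 37) (nat_lit 4) (nat_lit 330) (nat_lit 273) (nat_lit 117))))) (XT.nd (nat_lit 376) (nat_lit 336) (nat_lit 0) (XT.nd (nat_lit 188) (nat_lit 336) (nat_lit 0) (XT.nd (nat_lit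 94) (nat_lit 0) (nat_lit 0) (XT.lf (nat_lit 0) (nat_lit 5604399489) (nat_lit 168) (nat_lit 6610703135) (nat_lit 252) (nat_lit 96159139096) (nat_lit 32) (nat_lit 5) (nat_lit 34) (nat_lit 5) (nat_lit 35) (nat_lit 5) (nat_lit 331) (nat_lit 273) (nat_lit 116)) (XT.lf (nat_lit 0) (nat_lit 45870803603) (nat_lit 252) (nat_lit 33463722445) (nat_lit 84) (nat_lit 32502475412) (nat_lit 32) (nat_lit 5) (nat_lit 35) (nat_lit 5) (nat_lit 33) (nat_lit 4) (nat_lit 332) (nat_lit 273) (nat_lit 115))) (XT.nd (nat_lit 94) (nat_lit 252) (nat_lit 0) (XT.lf (nat_lit 0) (nat_lit 40492080905) (nat_lit 84) (nat_lit 41456054233) (nat_lit 168) (nat_lit 33487821776) (nat_lit 31) (nat_lit 5) (nat_lit 32) (nat_lit 5) (nat_lit 33) (nat_lit 4) (nat_lit 333) (nat_lit 273) (nat_lit 114)) (XT.lf (nat_lit 0) (nat_lit 102063777) (nat_lit 168) (nat_lit 1068633575) (nat_lit 252) (nat_lit 118014888544) (nat_lit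 28) (nat_lit 5) (nat_lit 30) (nat_lit 5) (nat_lit 31) (nat_lit 5) (nat_lit 334) (nat_lit 273) (nat_lit 113)))) (XT.nd (nat_lit 188) (nat_lit 252) (nat_lit 0) (XT.nd (nat_lit 94) (nat_lit 84) (nat_lit 0) (XT.lf (nat_lit 0) (nat_lit 38370445008) (nat_lit 252) (nat_lit 42775507189) (nat_lit 84) (nat_lit 41852609448) (nat_lit 28) (nat_lit 5) (nat_lit 31) (nat_lit 5) (nat_lit 29) (nat_lit 4) (nat_lit 335) (nat_lit 273) (nat_lit 112)) (XT.lf (nat_lit 0) (nat_lit 38561491616) (nat_lit 84) (nat_lit 39486632286) (nat_lit 168) (nat_lit 48923165085) (nat_lit 27) (nat_lit 5) (nat_lit 28) (nat_lit 5) (nat_lit 29) (nat_lit 4) (nat_lit 336) (nat_lit 273) (nat_lit 111))) (XT.nd (nat_lit 94) (nat_lit 252) (nat_lit 0) (XT.lf (nat_lit 0) (nat_lit 120510808465) (nat_lit 168) (nat_lit 5737454451) (nat_lit 0) (nat_lit 4854333695) (nat_lit 27) (nat_lit 5) (nat_lit 29) (nat_lit 4) (nat_lit 27)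 (nat_lit 4) (nat_lit 337) (nat_lit 273) (nat_lit 110)) (XT.nd (nat_lit 94) (nat_lit 84) (nat_lit 0) (XT.lf (nat_lit 0) (nat_lit 30681671708) (nat_lit 168) (nat_lit 52760985294) (nat_lit 84) (nat_lit 51875927012) (nat_lit 25) (nat_lit 5) (nat_lit 27) (nat_lit 5) (nat_lit 26) (nat_lit 4) (nat_lit 338) (nat_lit 273) (nat_lit 109)) (XT.lf (nat_lit 0) (nat_lit 36723259771) (nat_lit 84) (nat_lit 37610163316) (nat_lit 168) (nat_lit 65369737302) (nat_lit 24) (nat_lit 5) (nat_lit 25) (nat_lit 5) (nat_lit 26) (nat_lit 4) (nat_lit 339) (nat_lit 273) (nat_lit 108))))))) (XT.nd (nat_lit 752) (nat_lit 672) (nat_lit 0) (XT.nd (nat_lit 376) (nat_lit 420) (nat_lit 0) (XT.nd (nat_lit 188) (nat_lit 84) (nat_lit 0) (XT.nd (nat_lit 94) (nat_lit 168) (nat_lit 0) (XT.lf (nat_lit 0) (nat_lit 121238560605) (nat_lit 168) (nat_lit 11930604401) (nat_lit 0) (nat_lit 11084260650) (nat_lit 24) (nat_lit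 5) (nat_lit 26) (nat_lit 4) (nat_lit 24) (nat_lit 4) (nat_lit 340) (nat_lit 273) (nat_lit 107)) (XT.lf (nat_lit 0) (nat_lit 22757655187) (nat_lit 168) (nat_lit 63502700828) (nat_lit 84) (nat_lit 62654763068) (nat_lit 22) (nat_lit 5) (nat_lit 24) (nat_lit 5) (nat_lit 23) (nat_lit 4) (nat_lit 341) (nat_lit 273) (nat_lit 106))) (XT.nd (nat_lit 94) (nat_lit 0) (nat_lit 0) (XT.lf (nat_lit 0) (nat_lit 34972912112) (nat_lit 84) (nat_lit 35822367974) (nat_lit 168) (nat_lit 82958256001) (nat_lit 21) (nat_lit 5) (nat_lit 22) (nat_lit 5) (nat_lit 23) (nat_lit 4) (nat_lit 342) (nat_lit 273) (nat_lit 105)) (XT.lf (nat_lit 0) (nat_lit 122593975956) (nat_lit 168) (nat_lit 18491160523) (nat_lit 0) (nat_lit 17680777976) (nat_lit 21) (nat_lit 5) (nat_lit 23) (nat_lit 4) (nat_lit 21) (nat_lit 4) (nat_lit 343) (nat_lit 273) (nat_lit 104)))) (XT.nd (nat_lit 188) (nat_lit 168) (nat_lit 0) (XT.nd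 (nat_lit 94) (nat_lit 84) (nat_lit 0) (XT.lf (nat_lit 0) (nat_lit 14548055885) (nat_lit 168) (nat_lit 75090994809) (nat_lit 84) (nat_lit 74279300868) (nat_lit 19) (nat_lit 5) (nat_lit 21) (nat_lit 5) (nat_lit 20) (nat_lit 4) (nat_lit 344) (nat_lit 273) (nat_lit 103)) (XT.lf (nat_lit 0) (nat_lit 33306201741) (nat_lit 84) (nat_lit 34119144630) (nat_lit 168) (nat_lit 101831569485) (nat_lit 18) (nat_lit 5) (nat_lit 19) (nat_lit 5) (nat_lit 20) (nat_lit 4) (nat_lit 345) (nat_lit 273) (nat_lit 102))) (XT.nd (nat_lit 94) (nat_lit 168) (nat_lit 0) (XT.lf (nat_lit 0) (nat_lit 124615139214) (nat_lit 168) (nat_lit 25469600707) (nat_lit 0) (nat_lit 24694236553) (nat_lit 18) (nat_lit 5) (nat_lit 20) (nat_lit 4) (nat_lit 18) (nat_lit 4) (nat_lit 346) (nat_lit 273) (nat_lit 101)) (XT.lf (nat_lit 0) (nat_lit 5998605729) (nat_lit 168) (nat_lit 87624839803) (nat_lit 84) (nat_lit 86848396762)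 (nat_lit 16) (nat_lit 5) (nat_lit 18) (nat_lit 5) (nat_lit 17) (nat_lit 4) (nat_lit 347) (nat_lit 273) (nat_lit 100))))) (XT.nd (nat_lit 376) (nat_lit 336) (nat_lit 0) (XT.nd (nat_lit 188) (nat_lit 252) (nat_lit 0) (XT.nd (nat_lit 94) (nat_lit 0) (nat_lit 0) (XT.lf (nat_lit 0) (nat_lit 31719094976) (nat_lit 84) (nat_lit 32496565529) (nat_lit 168) (nat_lit 122145956824) (nat_lit 15) (nat_lit 5) (nat_lit 16) (nat_lit 5) (nat_lit 17) (nat_lit 4) (nat_lit 348) (nat_lit 273) (nat_lit 99)) (XT.lf (nat_lit 0) (nat_lit 127345273580) (nat_lit 168) (nat_lit 32920951193) (nat_lit 0) (nat_lit 32179571064) (nat_lit 15) (nat_lit 5) (nat_lit 17) (nat_lit 4) (nat_lit 15) (nat_lit 4) (nat_lit 349) (nat_lit 273) (nat_lit 98))) (XT.nd (nat_lit 94) (nat_lit 168) (nat_lit 0) (XT.lf (nat_lit 0) (nat_lit 97471191260) (nat_lit 84) (nat_lit 98213458992) (nat_lit 84) (nat_lit 3046868872) (nat_lit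 14) (nat_lit 4) (nat_lit 15) (nat_lit 5) (nat_lit 15) (nat_lit 4) (nat_lit 350) (nat_lit 273) (nat_lit 97)) (XT.lf (nat_lit 0) (nat_lit 30207759246) (nat_lit 84) (nat_lit 30950872315) (nat_lit 168) (nat_lit 144072559110) (nat_lit 12) (nat_lit 5) (nat_lit 13) (nat_lit 5) (nat_lit 14) (nat_lit 4) (nat_lit 351) (nat_lit 273) (nat_lit 96)))) (XT.nd (nat_lit 188) (nat_lit 252) (nat_lit 0) (XT.nd (nat_lit 94) (nat_lit 84) (nat_lit 0) (XT.lf (nat_lit 0) (nat_lit 130833211351) (nat_lit 168) (nat_lit 40905285267) (nat_lit 0) (nat_lit 40196791790) (nat_lit 12) (nat_lit 5) (nat_lit 14) (nat_lit 4) (nat_lit 12) (nat_lit 4) (nat_lit 352) (nat_lit 273) (nat_lit 95)) (XT.lf (nat_lit 0) (nat_lit 102695938138) (nat_lit 84) (nat_lit 103405161848) (nat_lit 84) (nat_lit 12768012054) (nat_lit 11) (nat_lit 4) (nat_lit 12) (nat_lit 5) (nat_lit 12) (nat_lit 4) (nat_lit 353) (nat_lit 273) (nat_lit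 94))) (XT.nd (nat_lit 94) (nat_lit 84) (nat_lit 0) (XT.lf (nat_lit 0) (nat_lit 28768551920) (nat_lit 84) (nat_lit 29478471091) (nat_lit 168) (nat_lit 167798955367) (nat_lit 9) (nat_lit 5) (nat_lit 10) (nat_lit 5) (nat_lit 11) (nat_lit 4) (nat_lit 354) (nat_lit 273) (nat_lit 93)) (XT.nd (nat_lit 94) (nat_lit 84) (nat_lit 0) (XT.lf (nat_lit 0) (nat_lit 135133914941) (nat_lit 168) (nat_lit 49488271052) (nat_lit 0) (nat_lit 48811526753) (nat_lit 9) (nat_lit 5) (nat_lit 11) (nat_lit 4) (nat_lit 9) (nat_lit 4) (nat_lit 355) (nat_lit 273) (nat_lit 92)) (XT.lf (nat_lit 0) (nat_lit 108683394510) (nat_lit 84) (nat_lit 109360739574) (nat_lit 84) (nat_lit 23037750621) (nat_lit 8) (nat_lit 4) (nat_lit 9) (nat_lit 5) (nat_lit 9) (nat_lit 4) (nat_lit 356) (nat_lit 273) (nat_lit 91))))))))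
noncomputable def xc178 : XT := (XT.nd (nat_lit 1598) (nat_lit 3192) (nat_lit 0) (XT.nd (nat_lit 752) (nat_lit 1848) (nat_lit 0) (XT.nd (nat_lit 376) (nat_lit 0) (nat_lit 168) (XT.nd (nat_lit 188) (nat_lit 0) (nat_lit 84) (XT.nd (nat_lit 94) (nat_lit 0) (nat_lit 0) (XT.lf (nat_lit 0) (nat_lit 4035096627) (nat_lit 924) (nat_lit 3335680666) (nat_lit 924) (nat_lit 3335680666) (nat_lit 128) (nat_lit 3) (nat_lit 139) (nat_lit 3) (nat_lit 139) (nat_lit 5) (nat_lit 274) (nat_lit 274) (nat_lit 172)) (XT.lf (nat_lit 84) (nat_lit 4168515145) (nat_lit 0) (nat_lit 4310390181) (nat_lit 924) (nat_lit 13458985632) (nat_lit 129) (nat_lit 5) (nat_lit 128) (nat_lit 3) (nat_lit 139) (nat_lit 5) (nat_lit 275) (nat_lit 274) (nat_lit 171))) (XT.nd (nat_lit 94) (nat_lit 0) (nat_lit 0) (XT.lf (nat_lit 0) (nat_lit 9117500748) (nat_lit 840) (nat_lit 6812472766) (nat_lit 924) (nat_lit 6548668844)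 (nat_lit 129) (nat_lit 5) (nat_lit 139) (nat_lit 5) (nat_lit 140) (nat_lit 5) (nat_lit 276) (nat_lit 274) (nat_lit 170)) (XT.lf (nat_lit 84) (nat_lit 4769062997) (nat_lit 0) (nat_lit 5155423909) (nat_lit 924) (nat_lit 13115121374) (nat_lit 130) (nat_lit 5) (nat_lit 129) (nat_lit 5) (nat_lit 140) (nat_lit 5) (nat_lit 277) (nat_lit 274) (nat_lit 169)))) (XT.nd (nat_lit 188) (nat_lit 0) (nat_lit 84) (XT.nd (nat_lit 94) (nat_lit 0) (nat_lit 0) (XT.lf (nat_lit 0) (nat_lit 10976950909) (nat_lit 840) (nat_lit 6560270369) (nat_lit 924) (nat_lit 6081144793) (nat_lit 130) (nat_lit 5) (nat_lit 140) (nat_lit 5) (nat_lit 141) (nat_lit 5) (nat_lit 278) (nat_lit 274) (nat_lit 168)) (XT.lf (nat_lit 84) (nat_lit 5832367696) (nat_lit 0) (nat_lit 6417362608) (nat_lit 924) (nat_lit 11967946840) (nat_lit 131) (nat_lit 5) (nat_lit 130) (nat_lit 5) (nat_lit 141) (nat_lit 5) (nat_lit 279) (nat_lit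 274) (nat_lit 167))) (XT.nd (nat_lit 94) (nat_lit 0) (nat_lit 0) (XT.lf (nat_lit 0) (nat_lit 13773619327) (nat_lit 840) (nat_lit 5858562764) (nat_lit 924) (nat_lit 5205398144) (nat_lit 131) (nat_lit 5) (nat_lit 141) (nat_lit 5) (nat_lit 142) (nat_lit 5) (nat_lit 280) (nat_lit 274) (nat_lit 166)) (XT.lf (nat_lit 84) (nat_lit 7421482452) (nat_lit 0) (nat_lit 8166100985) (nat_lit 924) (nat_lit 9890201014) (nat_lit 132) (nat_lit 5) (nat_lit 131) (nat_lit 5) (nat_lit 142) (nat_lit 5) (nat_lit 281) (nat_lit 274) (nat_lit 165))))) (XT.nd (nat_lit 376) (nat_lit 1428) (nat_lit 0) (XT.nd (nat_lit 188) (nat_lit 756) (nat_lit 0) (XT.nd (nat_lit 94) (nat_lit 0) (nat_lit 0) (XT.lf (nat_lit 0) (nat_lit 17646656257) (nat_lit 840) (nat_lit 4643866998) (nat_lit 924) (nat_lit 3851755095) (nat_lit 132) (nat_lit 5) (nat_lit 142) (nat_lit 5) (nat_lit 143) (nat_lit 5) (nat_lit 282) (nat_lit 274)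 (nat_lit 164)) (XT.lf (nat_lit 84) (nat_lit 9607430680) (nat_lit 0) (nat_lit 10478543912) (nat_lit 924) (nat_lit 6740157761) (nat_lit 133) (nat_lit 5) (nat_lit 132) (nat_lit 5) (nat_lit 143) (nat_lit 5) (nat_lit 283) (nat_lit 274) (nat_lit 163))) (XT.nd (nat_lit 94) (nat_lit 840) (nat_lit 0) (XT.lf (nat_lit 0) (nat_lit 22750903111) (nat_lit 840) (nat_lit 2844690957) (nat_lit 84) (nat_lit 1943402774) (nat_lit 133) (nat_lit 5) (nat_lit 143) (nat_lit 5) (nat_lit 134) (nat_lit 5) (nat_lit 284) (nat_lit 274) (nat_lit 162)) (XT.lf (nat_lit 0) (nat_lit 12469993627) (nat_lit 840) (nat_lit 13439526128) (nat_lit 924) (nat_lit 2359962715) (nat_lit 123) (nat_lit 5) (nat_lit 133) (nat_lit 5) (nat_lit 134) (nat_lit 5) (nat_lit 285) (nat_lit 274) (nat_lit 161)))) (XT.nd (nat_lit 188) (nat_lit 840) (nat_lit 0) (XT.nd (nat_lit 94) (nat_lit 504) (nat_lit 0) (XT.lf (nat_lit 0) (nat_lit 226553220)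 (nat_lit 924) (nat_lit 394133594) (nat_lit 84) (nat_lit 28413505277) (nat_lit 122) (nat_lit 5) (nat_lit 133) (nat_lit 5) (nat_lit 123) (nat_lit 5) (nat_lit 286) (nat_lit 274) (nat_lit 160)) (XT.lf (nat_lit 0) (nat_lit 3316534946) (nat_lit 588) (nat_lit 13770105623) (nat_lit 84) (nat_lit 12725889720) (nat_lit 116) (nat_lit 5) (nat_lit 123) (nat_lit 5) (nat_lit 117) (nat_lit 5) (nat_lit 287) (nat_lit 274) (nat_lit 159))) (XT.nd (nat_lit 94) (nat_lit 420) (nat_lit 0) (XT.lf (nat_lit 0) (nat_lit 2757611929) (nat_lit 420) (nat_lit 3857972601) (nat_lit 504) (nat_lit 24011472426) (nat_lit 111) (nat_lit 5) (nat_lit 116) (nat_lit 5) (nat_lit 117) (nat_lit 5) (nat_lit 288) (nat_lit 274) (nat_lit 158)) (XT.nd (nat_lit 94) (nat_lit 420) (nat_lit 0) (XT.lf (nat_lit 0) (nat_lit 10467973333) (nat_lit 504) (nat_lit 11046902397) (nat_lit 84) (nat_lit 9948014891) (nat_lit 111) (nat_lit 5)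 (nat_lit 117) (nat_lit 5) (nat_lit 112) (nat_lit 5) (nat_lit 289) (nat_lit 274) (nat_lit 157)) (XT.lf (nat_lit 0) (nat_lit 6764718690) (nat_lit 420) (nat_lit 7912106158) (nat_lit 504) (nat_lit 17655498959) (nat_lit 106) (nat_lit 5) (nat_lit 111) (nat_lit 5) (nat_lit 112) (nat_lit 5) (nat_lit 290) (nat_lit 274) (nat_lit 156))))))) (XT.nd (nat_lit 752) (nat_lit 1764) (nat_lit 0) (XT.nd (nat_lit 376) (nat_lit 672) (nat_lit 0) (XT.nd (nat_lit 188) (nat_lit 420) (nat_lit 0) (XT.nd (nat_lit 94) (nat_lit 336) (nat_lit 0) (XT.lf (nat_lit 0) (nat_lit 19380869746) (nat_lit 504) (nat_lit 7493431114) (nat_lit 84) (nat_lit 6356690249) (nat_lit 106) (nat_lit 5) (nat_lit 112) (nat_lit 5) (nat_lit 107) (nat_lit 5) (nat_lit 291) (nat_lit 274) (nat_lit 155)) (XT.lf (nat_lit 0) (nat_lit 11724804268) (nat_lit 336) (nat_lit 12903441225) (nat_lit 420) (nat_lit 9530939854) (nat_lit 102) (nat_lit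 5) (nat_lit 106) (nat_lit 5) (nat_lit 107) (nat_lit 5) (nat_lit 292) (nat_lit 274) (nat_lit 154))) (XT.nd (nat_lit 94) (nat_lit 420) (nat_lit 0) (XT.lf (nat_lit 0) (nat_lit 30290042719) (nat_lit 420) (nat_lit 2998328161) (nat_lit 84) (nat_lit 1837815783) (nat_lit 102) (nat_lit 5) (nat_lit 107) (nat_lit 5) (nat_lit 103) (nat_lit 5) (nat_lit 293) (nat_lit 274) (nat_lit 153)) (XT.lf (nat_lit 0) (nat_lit 582893159) (nat_lit 420) (nat_lit 18365325625) (nat_lit 84) (nat_lit 17168621829) (nat_lit 97) (nat_lit 5) (nat_lit 102) (nat_lit 5) (nat_lit 98) (nat_lit 5) (nat_lit 294) (nat_lit 274) (nat_lit 152)))) (XT.nd (nat_lit 188) (nat_lit 336) (nat_lit 0) (XT.nd (nat_lit 94) (nat_lit 0) (nat_lit 0) (XT.lf (nat_lit 0) (nat_lit 2482662116) (nat_lit 336) (nat_lit 3713833931) (nat_lit 420) (nat_lit 30952260157) (nat_lit 93) (nat_lit 5) (nat_lit 97) (nat_lit 5) (nat_lit 98) (nat_lit 5)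 (nat_lit 295) (nat_lit 274) (nat_lit 151)) (XT.lf (nat_lit 0) (nat_lit 12594540086) (nat_lit 420) (nat_lit 13408173766) (nat_lit 84) (nat_lit 12204365672) (nat_lit 93) (nat_lit 5) (nat_lit 98) (nat_lit 5) (nat_lit 94) (nat_lit 5) (nat_lit 296) (nat_lit 274) (nat_lit 150))) (XT.nd (nat_lit 94) (nat_lit 0) (nat_lit 0) (XT.lf (nat_lit 0) (nat_lit 9139273971) (nat_lit 336) (nat_lit 10372856834) (nat_lit 420) (nat_lit 19796205982) (nat_lit 89) (nat_lit 5) (nat_lit 93) (nat_lit 5) (nat_lit 94) (nat_lit 5) (nat_lit 297) (nat_lit 274) (nat_lit 149)) (XT.lf (nat_lit 0) (nat_lit 27096840599) (nat_lit 420) (nat_lit 7276800877) (nat_lit 84) (nat_lit 6074953460) (nat_lit 89) (nat_lit 5) (nat_lit 94) (nat_lit 5) (nat_lit 90) (nat_lit 5) (nat_lit 298) (nat_lit 274) (nat_lit 148))))) (XT.nd (nat_lit 376) (nat_lit 840) (nat_lit 0) (XT.nd (nat_lit 188) (nat_lit 252) (nat_lit 0) (XT.nd (nat_lit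 94) (nat_lit 420) (nat_lit 0) (XT.lf (nat_lit 0) (nat_lit 17133557748) (nat_lit 252) (nat_lit 18361125730) (nat_lit 336) (nat_lit 6129487635) (nat_lit 86) (nat_lit 5) (nat_lit 89) (nat_lit 5) (nat_lit 90) (nat_lit 5) (nat_lit 299) (nat_lit 274) (nat_lit 147)) (XT.lf (nat_lit 0) (nat_lit 139559702) (nat_lit 336) (nat_lit 1391623461) (nat_lit 420) (nat_lit 41320016749) (nat_lit 81) (nat_lit 5) (nat_lit 85) (nat_lit 5) (nat_lit 86) (nat_lit 5) (nat_lit 300) (nat_lit 274) (nat_lit 146))) (XT.nd (nat_lit 94) (nat_lit 252) (nat_lit 0) (XT.lf (nat_lit 0) (nat_lit 10043383286) (nat_lit 420) (nat_lit 17636054211) (nat_lit 84) (nat_lit 16421394144) (nat_lit 81) (nat_lit 5) (nat_lit 86) (nat_lit 5) (nat_lit 82) (nat_lit 5) (nat_lit 301) (nat_lit 274) (nat_lit 145)) (XT.lf (nat_lit 0) (nat_lit 8952295402) (nat_lit 252) (nat_lit 10188115842) (nat_lit 336) (nat_lit 26264572822) (nat_lit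 78) (nat_lit 5) (nat_lit 81) (nat_lit 5) (nat_lit 82) (nat_lit 5) (nat_lit 302) (nat_lit 274) (nat_lit 144)))) (XT.nd (nat_lit 188) (nat_lit 588) (nat_lit 0) (XT.nd (nat_lit 94) (nat_lit 252) (nat_lit 0) (XT.lf (nat_lit 0) (nat_lit 29120239989) (nat_lit 336) (nat_lit 9414435792) (nat_lit 84) (nat_lit 8218270862) (nat_lit 78) (nat_lit 5) (nat_lit 82) (nat_lit 5) (nat_lit 79) (nat_lit 5) (nat_lit 303) (nat_lit 274) (nat_lit 143)) (XT.lf (nat_lit 0) (nat_lit 19425892094) (nat_lit 252) (nat_lit 20640336150) (nat_lit 336) (nat_lit 8078720702) (nat_lit 75) (nat_lit 5) (nat_lit 78) (nat_lit 5) (nat_lit 79) (nat_lit 5) (nat_lit 304) (nat_lit 274) (nat_lit 142))) (XT.nd (nat_lit 94) (nat_lit 252) (nat_lit 0) (XT.lf (nat_lit 0) (nat_lit 411987600) (nat_lit 252) (nat_lit 1643840347) (nat_lit 336) (nat_lit 47540930330) (nat_lit 71) (nat_lit 5) (nat_lit 74) (nat_lit 5) (nat_lit 75) (nat_lit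 5) (nat_lit 305) (nat_lit 274) (nat_lit 141)) (XT.nd (nat_lit 94) (nat_lit 252) (nat_lit 0) (XT.lf (nat_lit 0) (nat_lit 13202644282) (nat_lit 336) (nat_lit 19531011634) (nat_lit 84) (nat_lit 18342028346) (nat_lit 71) (nat_lit 5) (nat_lit 75) (nat_lit 5) (nat_lit 72) (nat_lit 5) (nat_lit 306) (nat_lit 274) (nat_lit 140)) (XT.lf (nat_lit 0) (nat_lit 11956746435) (nat_lit 252) (nat_lit 13160768005) (nat_lit 336) (nat_lit 27500506454) (nat_lit 68) (nat_lit 5) (nat_lit 71) (nat_lit 5) (nat_lit 72) (nat_lit 5) (nat_lit 307) (nat_lit 274) (nat_lit 139))))))))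
noncomputable def xc179 : XT := (XT.nd (nat_lit 1598) (nat_lit 1680) (nat_lit 0) (XT.nd (nat_lit 752) (nat_lit 924) (nat_lit 0) (XT.nd (nat_lit 376) (nat_lit 588) (nat_lit 0) (XT.nd (nat_lit 188) (nat_lit 336) (nat_lit 0) (XT.nd (nat_lit 94) (nat_lit 168) (nat_lit 0) (XT.lf (nat_lit 0) (nat_lit 38076841667) (nat_lit 336) (nat_lit 8649262195) (nat_lit 84) (nat_lit 7488934819) (nat_lit 68) (nat_lit 5) (nat_lit 72) (nat_lit 5) (nat_lit 69) (nat_lit 5) (nat_lit 308) (nat_lit 274) (nat_lit 138)) (XT.lf (nat_lit 0) (nat_lit 25561461784) (nat_lit 168) (nat_lit 26734779793) (nat_lit 252) (nat_lit 3565060464) (nat_lit 66) (nat_lit 5) (nat_lit 68) (nat_lit 5) (nat_lit 69) (nat_lit 5) (nat_lit 309) (nat_lit 274) (nat_lit 137))) (XT.nd (nat_lit 94) (nat_lit 0) (nat_lit 0) (XT.lf (nat_lit 0) (nat_lit 4176996682) (nat_lit 252) (nat_lit 5362686723) (nat_lit 336) (nat_lit 48032103037) (nat_lit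 62) (nat_lit 5) (nat_lit 65) (nat_lit 5) (nat_lit 66) (nat_lit 5) (nat_lit 310) (nat_lit 274) (nat_lit 136)) (XT.lf (nat_lit 0) (nat_lit 23965374719) (nat_lit 336) (nat_lit 18250336294) (nat_lit 84) (nat_lit 17109885886) (nat_lit 62) (nat_lit 5) (nat_lit 66) (nat_lit 5) (nat_lit 63) (nat_lit 5) (nat_lit 311) (nat_lit 274) (nat_lit 135)))) (XT.nd (nat_lit 188) (nat_lit 420) (nat_lit 0) (XT.nd (nat_lit 94) (nat_lit 0) (nat_lit 0) (XT.lf (nat_lit 0) (nat_lit 19172962966) (nat_lit 168) (nat_lit 20324100800) (nat_lit 252) (nat_lit 21650798454) (nat_lit 60) (nat_lit 5) (nat_lit 62) (nat_lit 5) (nat_lit 63) (nat_lit 5) (nat_lit 312) (nat_lit 274) (nat_lit 134)) (XT.lf (nat_lit 0) (nat_lit 56158535065) (nat_lit 252) (nat_lit 3995530706) (nat_lit 84) (nat_lit 2889515148) (nat_lit 60) (nat_lit 5) (nat_lit 63) (nat_lit 5) (nat_lit 61) (nat_lit 5) (nat_lit 313) (nat_lit 274) (nat_lit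 133))) (XT.nd (nat_lit 94) (nat_lit 168) (nat_lit 0) (XT.lf (nat_lit 0) (nat_lit 9262062926) (nat_lit 252) (nat_lit 28417297771) (nat_lit 84) (nat_lit 27302050012) (nat_lit 57) (nat_lit 5) (nat_lit 60) (nat_lit 5) (nat_lit 58) (nat_lit 5) (nat_lit 314) (nat_lit 274) (nat_lit 132)) (XT.lf (nat_lit 0) (nat_lit 12561814533) (nat_lit 168) (nat_lit 13685854863) (nat_lit 252) (nat_lit 40749692866) (nat_lit 55) (nat_lit 5) (nat_lit 57) (nat_lit 5) (nat_lit 58) (nat_lit 5) (nat_lit 315) (nat_lit 274) (nat_lit 131))))) (XT.nd (nat_lit 376) (nat_lit 504) (nat_lit 0) (XT.nd (nat_lit 188) (nat_lit 252) (nat_lit 0) (XT.nd (nat_lit 94) (nat_lit 168) (nat_lit 0) (XT.lf (nat_lit 0) (nat_lit 44749019760) (nat_lit 252) (nat_lit 12705129088) (nat_lit 84) (nat_lit 11626639366) (nat_lit 55) (nat_lit 5) (nat_lit 58) (nat_lit 5) (nat_lit 56) (nat_lit 5) (nat_lit 316) (nat_lit 274) (nat_lit 130))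 (XT.lf (nat_lit 0) (nat_lit 31904798869) (nat_lit 168) (nat_lit 32990883945) (nat_lit 252) (nat_lit 6336690390) (nat_lit 53) (nat_lit 5) (nat_lit 55) (nat_lit 5) (nat_lit 56) (nat_lit 5) (nat_lit 317) (nat_lit 274) (nat_lit 129))) (XT.nd (nat_lit 94) (nat_lit 0) (nat_lit 0) (XT.lf (nat_lit 0) (nat_lit 5684049190) (nat_lit 168) (nat_lit 6777367937) (nat_lit 252) (nat_lit 61005056203) (nat_lit 50) (nat_lit 5) (nat_lit 52) (nat_lit 5) (nat_lit 53) (nat_lit 5) (nat_lit 318) (nat_lit 274) (nat_lit 128)) (XT.lf (nat_lit 0) (nat_lit 32985140115) (nat_lit 252) (nat_lit 21909914109) (nat_lit 84) (nat_lit 20862097007) (nat_lit 50) (nat_lit 5) (nat_lit 53) (nat_lit 5) (nat_lit 51) (nat_lit 5) (nat_lit 319) (nat_lit 274) (nat_lit 127)))) (XT.nd (nat_lit 188) (nat_lit 336) (nat_lit 0) (XT.nd (nat_lit 94) (nat_lit 0) (nat_lit 0) (XT.lf (nat_lit 0) (nat_lit 27005813715) (nat_lit 168) (nat_lit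 28059879534) (nat_lit 252) (nat_lit 23070137578) (nat_lit 48) (nat_lit 5) (nat_lit 50) (nat_lit 5) (nat_lit 51) (nat_lit 5) (nat_lit 320) (nat_lit 274) (nat_lit 126)) (XT.lf (nat_lit 0) (nat_lit 78627162140) (nat_lit 252) (nat_lit 1498488919) (nat_lit 84) (nat_lit 488948940) (nat_lit 48) (nat_lit 5) (nat_lit 51) (nat_lit 5) (nat_lit 49) (nat_lit 4) (nat_lit 321) (nat_lit 274) (nat_lit 125))) (XT.nd (nat_lit 94) (nat_lit 168) (nat_lit 0) (XT.lf (nat_lit 0) (nat_lit 20792167897) (nat_lit 168) (nat_lit 31679982140) (nat_lit 84) (nat_lit 30665044284) (nat_lit 46) (nat_lit 5) (nat_lit 48) (nat_lit 5) (nat_lit 47) (nat_lit 5) (nat_lit 322) (nat_lit 274) (nat_lit 124)) (XT.nd (nat_lit 94) (nat_lit 0) (nat_lit 0) (XT.lf (nat_lit 0) (nat_lit 21995560279) (nat_lit 168) (nat_lit 23015638969) (nat_lit 252) (nat_lit 40754728253) (nat_lit 44) (nat_lit 5) (nat_lit 46) (nat_lit 5) (nat_lit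 47) (nat_lit 5) (nat_lit 323) (nat_lit 274) (nat_lit 123)) (XT.lf (nat_lit 0) (nat_lit 71108094647) (nat_lit 252) (nat_lit 9180411735) (nat_lit 84) (nat_lit 8204245332) (nat_lit 44) (nat_lit 5) (nat_lit 47) (nat_lit 5) (nat_lit 45) (nat_lit 4) (nat_lit 324) (nat_lit 274) (nat_lit 122))))))) (XT.nd (nat_lit 752) (nat_lit 672) (nat_lit 0) (XT.nd (nat_lit 376) (nat_lit 588) (nat_lit 0) (XT.nd (nat_lit 188) (nat_lit 84) (nat_lit 0) (XT.nd (nat_lit 94) (nat_lit 168) (nat_lit 0) (XT.lf (nat_lit 0) (nat_lit 8089471580) (nat_lit 168) (nat_lit 42091620988) (nat_lit 84) (nat_lit 41111013738) (nat_lit 42) (nat_lit 5) (nat_lit 44) (nat_lit 5) (nat_lit 43) (nat_lit 5) (nat_lit 325) (nat_lit 274) (nat_lit 121)) (XT.lf (nat_lit 0) (nat_lit 16843689343) (nat_lit 168) (nat_lit 17828525971) (nat_lit 252) (nat_lit 59524006239) (nat_lit 40) (nat_lit 5) (nat_lit 42) (nat_lit 5) (nat_lit 43)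 (nat_lit 5) (nat_lit 326) (nat_lit 274) (nat_lit 120))) (XT.nd (nat_lit 94) (nat_lit 84) (nat_lit 0) (XT.lf (nat_lit 0) (nat_lit 63558800494) (nat_lit 252) (nat_lit 17289891335) (nat_lit 84) (nat_lit 16348115520) (nat_lit 40) (nat_lit 5) (nat_lit 43) (nat_lit 5) (nat_lit 41) (nat_lit 4) (nat_lit 327) (nat_lit 274) (nat_lit 119)) (XT.lf (nat_lit 0) (nat_lit 46984179276) (nat_lit 84) (nat_lit 47929608587) (nat_lit 168) (nat_lit 5382430925) (nat_lit 39) (nat_lit 5) (nat_lit 40) (nat_lit 5) (nat_lit 41) (nat_lit 4) (nat_lit 328) (nat_lit 274) (nat_lit 118)))) (XT.nd (nat_lit 188) (nat_lit 336) (nat_lit 0) (XT.nd (nat_lit 94) (nat_lit 0) (nat_lit 0) (XT.lf (nat_lit 0) (nat_lit 11517701687) (nat_lit 168) (nat_lit 12466610517) (nat_lit 252) (nat_lit 79523545545) (nat_lit 36) (nat_lit 5) (nat_lit 38) (nat_lit 5) (nat_lit 39) (nat_lit 5) (nat_lit 329) (nat_lit 274) (nat_lit 117))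 (XT.lf (nat_lit 0) (nat_lit 55941159689) (nat_lit 252) (nat_lit 25888126628) (nat_lit 84) (nat_lit 24981247907) (nat_lit 36) (nat_lit 5) (nat_lit 39) (nat_lit 5) (nat_lit 37) (nat_lit 4) (nat_lit 330) (nat_lit 274) (nat_lit 116))) (XT.nd (nat_lit 94) (nat_lit 252) (nat_lit 0) (XT.lf (nat_lit 0) (nat_lit 44743627930) (nat_lit 84) (nat_lit 45653512392) (nat_lit 168) (nat_lit 19836139660) (nat_lit 35) (nat_lit 5) (nat_lit 36) (nat_lit 5) (nat_lit 37) (nat_lit 4) (nat_lit 331) (nat_lit 274) (nat_lit 115)) (XT.lf (nat_lit 0) (nat_lit 5982671553) (nat_lit 168) (nat_lit 6895418624) (nat_lit 252) (nat_lit 100912252007) (nat_lit 32) (nat_lit 5) (nat_lit 34) (nat_lit 5) (nat_lit 35) (nat_lit 5) (nat_lit 332) (nat_lit 274) (nat_lit 114))))) (XT.nd (nat_lit 376) (nat_lit 336) (nat_lit 0) (XT.nd (nat_lit 188) (nat_lit 252) (nat_lit 0) (XT.nd (nat_lit 94) (nat_lit 84) (nat_lit 0) (XT.lf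 (nat_lit 0) (nat_lit 48214770255) (nat_lit 252) (nat_lit 35041719675) (nat_lit 84) (nat_lit 34169840280) (nat_lit 32) (nat_lit 5) (nat_lit 35) (nat_lit 5) (nat_lit 33) (nat_lit 4) (nat_lit 333) (nat_lit 274) (nat_lit 113)) (XT.lf (nat_lit 0) (nat_lit 42610338538) (nat_lit 84) (nat_lit 43484690763) (nat_lit 168) (nat_lit 35110251089) (nat_lit 31) (nat_lit 5) (nat_lit 32) (nat_lit 5) (nat_lit 33) (nat_lit 4) (nat_lit 334) (nat_lit 274) (nat_lit 112))) (XT.nd (nat_lit 94) (nat_lit 0) (nat_lit 0) (XT.lf (nat_lit 0) (nat_lit 200946289) (nat_lit 168) (nat_lit 1077653589) (nat_lit 252) (nat_lit 123863796930) (nat_lit 28) (nat_lit 5) (nat_lit 30) (nat_lit 5) (nat_lit 31) (nat_lit 5) (nat_lit 335) (nat_lit 274) (nat_lit 111)) (XT.lf (nat_lit 0) (nat_lit 40336644447) (nat_lit 252) (nat_lit 44823278438) (nat_lit 84) (nat_lit 43986182982) (nat_lit 28) (nat_lit 5) (nat_lit 31) (nat_lit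 5) (nat_lit 29) (nat_lit 4) (nat_lit 336) (nat_lit 274) (nat_lit 110)))) (XT.nd (nat_lit 188) (nat_lit 252) (nat_lit 0) (XT.nd (nat_lit 94) (nat_lit 0) (nat_lit 0) (XT.lf (nat_lit 0) (nat_lit 40579102499) (nat_lit 84) (nat_lit 41418232358) (nat_lit 168) (nat_lit 51320178342) (nat_lit 27) (nat_lit 5) (nat_lit 28) (nat_lit 5) (nat_lit 29) (nat_lit 4) (nat_lit 337) (nat_lit 274) (nat_lit 109)) (XT.lf (nat_lit 0) (nat_lit 126581560239) (nat_lit 168) (nat_lit 5937461097) (nat_lit 0) (nat_lit 5136444538) (nat_lit 27) (nat_lit 5) (nat_lit 29) (nat_lit 4) (nat_lit 27) (nat_lit 4) (nat_lit 338) (nat_lit 274) (nat_lit 108))) (XT.nd (nat_lit 94) (nat_lit 84) (nat_lit 0) (XT.lf (nat_lit 0) (nat_lit 32260875821) (nat_lit 168) (nat_lit 55312077659) (nat_lit 84) (nat_lit 54509303707) (nat_lit 25) (nat_lit 5) (nat_lit 27) (nat_lit 5) (nat_lit 26) (nat_lit 4) (nat_lit 339) (nat_lit 274)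 (nat_lit 107)) (XT.nd (nat_lit 94) (nat_lit 0) (nat_lit 0) (XT.lf (nat_lit 0) (nat_lit 38644977128) (nat_lit 84) (nat_lit 39449424789) (nat_lit 168) (nat_lit 68591701108) (nat_lit 24) (nat_lit 5) (nat_lit 25) (nat_lit 5) (nat_lit 26) (nat_lit 4) (nat_lit 340) (nat_lit 274) (nat_lit 106)) (XT.lf (nat_lit 0) (nat_lit 127343299732) (nat_lit 168) (nat_lit 12444157692) (nat_lit 0) (nat_lit 11676498960) (nat_lit 24) (nat_lit 5) (nat_lit 26) (nat_lit 4) (nat_lit 24) (nat_lit 4) (nat_lit 341) (nat_lit 274) (nat_lit 105))))))))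
noncomputable def xc180 : XT := (XT.nd (nat_lit 39010) (nat_lit 0) (nat_lit 8148) (XT.nd (nat_lit 752) (nat_lit 504) (nat_lit 0) (XT.nd (nat_lit 376) (nat_lit 336) (nat_lit 0) (XT.nd (nat_lit 188) (nat_lit 168) (nat_lit 0) (XT.nd (nat_lit 94) (nat_lit 84) (nat_lit 0) (XT.lf (nat_lit 0) (nat_lit 23938274324) (nat_lit 168) (nat_lit 66594784219) (nat_lit 84) (nat_lit 65825679676) (nat_lit 22) (nat_lit 5) (nat_lit 24) (nat_lit 5) (nat_lit 23) (nat_lit 4) (nat_lit 342) (nat_lit 274) (nat_lit 104)) (XT.lf (nat_lit 0) (nat_lit 36803269825) (nat_lit 84) (nat_lit 37573751332) (nat_lit 168) (nat_lit 87062092882) (nat_lit 21) (nat_lit 5) (nat_lit 22) (nat_lit 5) (nat_lit 23) (nat_lit 4) (nat_lit 343) (nat_lit 274) (nat_lit 103))) (XT.nd (nat_lit 94) (nat_lit 168) (nat_lit 0) (XT.lf (nat_lit 0) (nat_lit 128764243746) (nat_lit 168) (nat_lit 19336489421) (nat_lit 0) (nat_lit 18601448562)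 (nat_lit 21) (nat_lit 5) (nat_lit 23) (nat_lit 4) (nat_lit 21) (nat_lit 4) (nat_lit 344) (nat_lit 274) (nat_lit 102)) (XT.lf (nat_lit 0) (nat_lit 15315966198) (nat_lit 168) (nat_lit 78766253948) (nat_lit 84) (nat_lit 78030023616) (nat_lit 19) (nat_lit 5) (nat_lit 21) (nat_lit 5) (nat_lit 20) (nat_lit 4) (nat_lit 345) (nat_lit 274) (nat_lit 101)))) (XT.nd (nat_lit 188) (nat_lit 252) (nat_lit 0) (XT.nd (nat_lit 94) (nat_lit 0) (nat_lit 0) (XT.lf (nat_lit 0) (nat_lit 35049523549) (nat_lit 84) (nat_lit 35786886713) (nat_lit 168) (nat_lit 106881361559) (nat_lit 18) (nat_lit 5) (nat_lit 19) (nat_lit 5) (nat_lit 20) (nat_lit 4) (nat_lit 346) (nat_lit 274) (nat_lit 100)) (XT.lf (nat_lit 0) (nat_lit 130884365906) (nat_lit 168) (nat_lit 26667457025) (nat_lit 0) (nat_lit 25964178881) (nat_lit 18) (nat_lit 5) (nat_lit 20) (nat_lit 4) (nat_lit 18) (nat_lit 4) (nat_lit 347) (nat_lit 274)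 (nat_lit 99))) (XT.nd (nat_lit 94) (nat_lit 84) (nat_lit 0) (XT.lf (nat_lit 0) (nat_lit 6336955172) (nat_lit 168) (nat_lit 91930407502) (nat_lit 84) (nat_lit 91226150776) (nat_lit 16) (nat_lit 5) (nat_lit 18) (nat_lit 5) (nat_lit 17) (nat_lit 4) (nat_lit 348) (nat_lit 274) (nat_lit 98)) (XT.lf (nat_lit 0) (nat_lit 33379503462) (nat_lit 84) (nat_lit 34084692172) (nat_lit 168) (nat_lit 128213614955) (nat_lit 15) (nat_lit 5) (nat_lit 16) (nat_lit 5) (nat_lit 17) (nat_lit 4) (nat_lit 349) (nat_lit 274) (nat_lit 97))))) (XT.nd (nat_lit 376) (nat_lit 252) (nat_lit 0) (XT.nd (nat_lit 188) (nat_lit 168) (nat_lit 0) (XT.nd (nat_lit 94) (nat_lit 84) (nat_lit 0) (XT.lf (nat_lit 0) (nat_lit 133749037374) (nat_lit 168) (nat_lit 34494838440) (nat_lit 0) (nat_lit 33822384809) (nat_lit 15) (nat_lit 5) (nat_lit 17) (nat_lit 4) (nat_lit 15) (nat_lit 4) (nat_lit 350) (nat_lit 274) (nat_lit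 96)) (XT.lf (nat_lit 0) (nat_lit 102415747259) (nat_lit 84) (nat_lit 103089005973) (nat_lit 84) (nat_lit 3161548325) (nat_lit 14) (nat_lit 4) (nat_lit 15) (nat_lit 5) (nat_lit 15) (nat_lit 4) (nat_lit 351) (nat_lit 274) (nat_lit 95))) (XT.nd (nat_lit 94) (nat_lit 0) (nat_lit 0) (XT.lf (nat_lit 0) (nat_lit 31789184581) (nat_lit 84) (nat_lit 32463210040) (nat_lit 168) (nat_lit 151238564011) (nat_lit 12) (nat_lit 5) (nat_lit 13) (nat_lit 5) (nat_lit 14) (nat_lit 4) (nat_lit 352) (nat_lit 274) (nat_lit 94)) (XT.lf (nat_lit 0) (nat_lit 137409520627) (nat_lit 168) (nat_lit 42881712118) (nat_lit 0) (nat_lit 42239087649) (nat_lit 12) (nat_lit 5) (nat_lit 14) (nat_lit 4) (nat_lit 12) (nat_lit 4) (nat_lit 353) (nat_lit 274) (nat_lit 93)))) (XT.nd (nat_lit 188) (nat_lit 0) (nat_lit 0) (XT.nd (nat_lit 94) (nat_lit 168) (nat_lit 0) (XT.lf (nat_lit 0) (nat_lit 107898462176) (nat_lit 84)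 (nat_lit 108541748988) (nat_lit 84) (nat_lit 13370653668) (nat_lit 11) (nat_lit 4) (nat_lit 12) (nat_lit 5) (nat_lit 12) (nat_lit 4) (nat_lit 354) (nat_lit 274) (nat_lit 92)) (XT.lf (nat_lit 0) (nat_lit 30274740326) (nat_lit 84) (nat_lit 30918657941) (nat_lit 168) (nat_lit 176153177824) (nat_lit 9) (nat_lit 5) (nat_lit 10) (nat_lit 5) (nat_lit 11) (nat_lit 4) (nat_lit 355) (nat_lit 274) (nat_lit 91))) (XT.nd (nat_lit 37600) (nat_lit 0) (nat_lit 9996) (XT.lf (nat_lit 0) (nat_lit 141923516241) (nat_lit 168) (nat_lit 51897031947) (nat_lit 0) (nat_lit 51283204919) (nat_lit 9) (nat_lit 5) (nat_lit 11) (nat_lit 4) (nat_lit 9) (nat_lit 4) (nat_lit 356) (nat_lit 274) (nat_lit 90)) (XT.lf (nat_lit 0) (nat_lit 4376511428) (nat_lit 924) (nat_lit 3429143216) (nat_lit 924) (nat_lit 3429143216) (nat_lit 128) (nat_lit 3) (nat_lit 139) (nat_lit 3) (nat_lit 139) (nat_lit 5) (nat_lit 275)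 (nat_lit 275) (nat_lit 170)))))) (XT.nd (nat_lit 752) (nat_lit 1848) (nat_lit 0) (XT.nd (nat_lit 376) (nat_lit 0) (nat_lit 168) (XT.nd (nat_lit 188) (nat_lit 0) (nat_lit 84) (XT.nd (nat_lit 94) (nat_lit 0) (nat_lit 84) (XT.lf (nat_lit 84) (nat_lit 4521218660) (nat_lit 0) (nat_lit 4649903500) (nat_lit 924) (nat_lit 13850249766) (nat_lit 129) (nat_lit 5) (nat_lit 128) (nat_lit 3) (nat_lit 139) (nat_lit 5) (nat_lit 276) (nat_lit 275) (nat_lit 169)) (XT.lf (nat_lit 0) (nat_lit 9827028811) (nat_lit 840) (nat_lit 7001070473) (nat_lit 924) (nat_lit 6761792540) (nat_lit 129) (nat_lit 5) (nat_lit 139) (nat_lit 5) (nat_lit 140) (nat_lit 5) (nat_lit 277) (nat_lit 275) (nat_lit 168))) (XT.nd (nat_lit 94) (nat_lit 0) (nat_lit 84) (XT.lf (nat_lit 84) (nat_lit 5157090047) (nat_lit 0) (nat_lit 5507530783) (nat_lit 924) (nat_lit 13514772385) (nat_lit 130) (nat_lit 5) (nat_lit 129) (nat_lit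 5) (nat_lit 140) (nat_lit 5) (nat_lit 278) (nat_lit 275) (nat_lit 167)) (XT.lf (nat_lit 0) (nat_lit 11756690582) (nat_lit 840) (nat_lit 6732815104) (nat_lit 924) (nat_lit 6298234083) (nat_lit 130) (nat_lit 5) (nat_lit 140) (nat_lit 5) (nat_lit 141) (nat_lit 5) (nat_lit 279) (nat_lit 275) (nat_lit 166)))) (XT.nd (nat_lit 188) (nat_lit 0) (nat_lit 84) (XT.nd (nat_lit 94) (nat_lit 0) (nat_lit 84) (XT.lf (nat_lit 84) (nat_lit 6276947303) (nat_lit 0) (nat_lit 6807554933) (nat_lit 924) (nat_lit 12332944493) (nat_lit 131) (nat_lit 5) (nat_lit 130) (nat_lit 5) (nat_lit 141) (nat_lit 5) (nat_lit 280) (nat_lit 275) (nat_lit 165)) (XT.lf (nat_lit 0) (nat_lit 14672969887) (nat_lit 840) (nat_lit 5994197723) (nat_lit 924) (nat_lit 5401758158) (nat_lit 131) (nat_lit 5) (nat_lit 141) (nat_lit 5) (nat_lit 142) (nat_lit 5) (nat_lit 281) (nat_lit 275) (nat_lit 164))) (XT.nd (nat_lit 94) (nat_lit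 0) (nat_lit 84) (XT.lf (nat_lit 84) (nat_lit 7947312767) (nat_lit 0) (nat_lit 8622703727) (nat_lit 924) (nat_lit 10171504485) (nat_lit 132) (nat_lit 5) (nat_lit 131) (nat_lit 5) (nat_lit 142) (nat_lit 5) (nat_lit 282) (nat_lit 275) (nat_lit 163)) (XT.lf (nat_lit 0) (nat_lit 18721655569) (nat_lit 840) (nat_lit 4718286111) (nat_lit 924) (nat_lit 3999817264) (nat_lit 132) (nat_lit 5) (nat_lit 142) (nat_lit 5) (nat_lit 143) (nat_lit 5) (nat_lit 283) (nat_lit 275) (nat_lit 162))))) (XT.nd (nat_lit 376) (nat_lit 1344) (nat_lit 0) (XT.nd (nat_lit 188) (nat_lit 840) (nat_lit 0) (XT.nd (nat_lit 94) (nat_lit 0) (nat_lit 84) (XT.lf (nat_lit 84) (nat_lit 10243031706) (nat_lit 0) (nat_lit 11033157086) (nat_lit 924) (nat_lit 6881954404) (nat_lit 133) (nat_lit 5) (nat_lit 132) (nat_lit 5) (nat_lit 143) (nat_lit 5) (nat_lit 284) (nat_lit 275) (nat_lit 161)) (XT.lf (nat_lit 0) (nat_lit 24065054339)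 (nat_lit 840) (nat_lit 2829778496) (nat_lit 84) (nat_lit 2012283545) (nat_lit 133) (nat_lit 5) (nat_lit 143) (nat_lit 5) (nat_lit 134) (nat_lit 5) (nat_lit 285) (nat_lit 275) (nat_lit 160))) (XT.nd (nat_lit 94) (nat_lit 84) (nat_lit 0) (XT.lf (nat_lit 0) (nat_lit 13248105688) (nat_lit 840) (nat_lit 14127500247) (nat_lit 924) (nat_lit 2298820148) (nat_lit 123) (nat_lit 5) (nat_lit 133) (nat_lit 5) (nat_lit 134) (nat_lit 5) (nat_lit 286) (nat_lit 275) (nat_lit 159)) (XT.lf (nat_lit 0) (nat_lit 403030482) (nat_lit 924) (nat_lit 261129796) (nat_lit 84) (nat_lit 29813483938) (nat_lit 122) (nat_lit 5) (nat_lit 133) (nat_lit 5) (nat_lit 123) (nat_lit 5) (nat_lit 287) (nat_lit 275) (nat_lit 158)))) (XT.nd (nat_lit 188) (nat_lit 420) (nat_lit 0) (XT.nd (nat_lit 94) (nat_lit 420) (nat_lit 0) (XT.lf (nat_lit 0) (nat_lit 3641846304) (nat_lit 588) (nat_lit 14300235437) (nat_lit 84) (nat_lit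 13353100832) (nat_lit 116) (nat_lit 5) (nat_lit 123) (nat_lit 5) (nat_lit 117) (nat_lit 5) (nat_lit 288) (nat_lit 275) (nat_lit 157)) (XT.lf (nat_lit 0) (nat_lit 3051313550) (nat_lit 420) (nat_lit 4049373116) (nat_lit 504) (nat_lit 25050006993) (nat_lit 111) (nat_lit 5) (nat_lit 116) (nat_lit 5) (nat_lit 117) (nat_lit 5) (nat_lit 289) (nat_lit 275) (nat_lit 156))) (XT.nd (nat_lit 94) (nat_lit 420) (nat_lit 0) (XT.lf (nat_lit 0) (nat_lit 11138368475) (nat_lit 504) (nat_lit 11443520108) (nat_lit 84) (nat_lit 10446796747) (nat_lit 111) (nat_lit 5) (nat_lit 117) (nat_lit 5) (nat_lit 112) (nat_lit 5) (nat_lit 290) (nat_lit 275) (nat_lit 155)) (XT.nd (nat_lit 94) (nat_lit 0) (nat_lit 0) (XT.lf (nat_lit 0) (nat_lit 7256170301) (nat_lit 420) (nat_lit 8296884558) (nat_lit 504) (nat_lit 18388765700) (nat_lit 106) (nat_lit 5) (nat_lit 111) (nat_lit 5) (nat_lit 112) (nat_lit 5) (nat_lit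 291) (nat_lit 275) (nat_lit 154)) (XT.lf (nat_lit 0) (nat_lit 20485682574) (nat_lit 504) (nat_lit 7715563549) (nat_lit 84) (nat_lit 6684506075) (nat_lit 106) (nat_lit 5) (nat_lit 112) (nat_lit 5) (nat_lit 107) (nat_lit 5) (nat_lit 292) (nat_lit 275) (nat_lit 153))))))))
noncomputable def xc181 : XT := (XT.nd (nat_lit 1598) (nat_lit 2184) (nat_lit 0) (XT.nd (nat_lit 752) (nat_lit 1512) (nat_lit 0) (XT.nd (nat_lit 376) (nat_lit 588) (nat_lit 0) (XT.nd (nat_lit 188) (nat_lit 756) (nat_lit 0) (XT.nd (nat_lit 94) (nat_lit 0) (nat_lit 0) (XT.lf (nat_lit 0) (nat_lit 12461123294) (nat_lit 336) (nat_lit 13530181759) (nat_lit 420) (nat_lit 9869257198) (nat_lit 102) (nat_lit 5) (nat_lit 106) (nat_lit 5) (nat_lit 107) (nat_lit 5) (nat_lit 293) (nat_lit 275) (nat_lit 152)) (XT.lf (nat_lit 0) (nat_lit 31930197286) (nat_lit 420) (nat_lit 2999317513) (nat_lit 84) (nat_lit 1946698576) (nat_lit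 102) (nat_lit 5) (nat_lit 107) (nat_lit 5) (nat_lit 103) (nat_lit 5) (nat_lit 294) (nat_lit 275) (nat_lit 151))) (XT.nd (nat_lit 94) (nat_lit 336) (nat_lit 0) (XT.lf (nat_lit 0) (nat_lit 735993754) (nat_lit 420) (nat_lit 19132968357) (nat_lit 84) (nat_lit 18047522736) (nat_lit 97) (nat_lit 5) (nat_lit 102) (nat_lit 5) (nat_lit 98) (nat_lit 5) (nat_lit 295) (nat_lit 275) (nat_lit 150)) (XT.lf (nat_lit 0) (nat_lit 2754989360) (nat_lit 336) (nat_lit 3871698489) (nat_lit 420) (nat_lit 32373487816) (nat_lit 93) (nat_lit 5) (nat_lit 97) (nat_lit 5) (nat_lit 98) (nat_lit 5) (nat_lit 296) (nat_lit 275) (nat_lit 149)))) (XT.nd (nat_lit 188) (nat_lit 252) (nat_lit 0) (XT.nd (nat_lit 94) (nat_lit 336) (nat_lit 0) (XT.lf (nat_lit 0) (nat_lit 13339316099) (nat_lit 420) (nat_lit 13932127190) (nat_lit 84) (nat_lit 12840237762) (nat_lit 93) (nat_lit 5) (nat_lit 98) (nat_lit 5) (nat_lit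 94) (nat_lit 5) (nat_lit 297) (nat_lit 275) (nat_lit 148)) (XT.lf (nat_lit 0) (nat_lit 9740330753) (nat_lit 336) (nat_lit 10859226774) (nat_lit 420) (nat_lit 20668605091) (nat_lit 89) (nat_lit 5) (nat_lit 93) (nat_lit 5) (nat_lit 94) (nat_lit 5) (nat_lit 298) (nat_lit 275) (nat_lit 147))) (XT.nd (nat_lit 94) (nat_lit 252) (nat_lit 0) (XT.lf (nat_lit 0) (nat_lit 28558657916) (nat_lit 420) (nat_lit 7498564519) (nat_lit 84) (nat_lit 6408453484) (nat_lit 89) (nat_lit 5) (nat_lit 94) (nat_lit 5) (nat_lit 90) (nat_lit 5) (nat_lit 299) (nat_lit 275) (nat_lit 146)) (XT.lf (nat_lit 0) (nat_lit 18130020482) (nat_lit 252) (nat_lit 19243460829) (nat_lit 336) (nat_lit 6326695175) (nat_lit 86) (nat_lit 5) (nat_lit 89) (nat_lit 5) (nat_lit 90) (nat_lit 5) (nat_lit 300) (nat_lit 275) (nat_lit 145))))) (XT.nd (nat_lit 376) (nat_lit 840) (nat_lit 0) (XT.nd (nat_lit 188) (nat_lit 252) (nat_lit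 0) (XT.nd (nat_lit 94) (nat_lit 0) (nat_lit 0) (XT.lf (nat_lit 0) (nat_lit 287508754) (nat_lit 336) (nat_lit 1423167492) (nat_lit 420) (nat_lit 43277936965) (nat_lit 81) (nat_lit 5) (nat_lit 85) (nat_lit 5) (nat_lit 86) (nat_lit 5) (nat_lit 301) (nat_lit 275) (nat_lit 144)) (XT.lf (nat_lit 0) (nat_lit 10644150347) (nat_lit 420) (nat_lit 18379262734) (nat_lit 84) (nat_lit 17277530247) (nat_lit 81) (nat_lit 5) (nat_lit 86) (nat_lit 5) (nat_lit 82) (nat_lit 5) (nat_lit 302) (nat_lit 275) (nat_lit 143))) (XT.nd (nat_lit 94) (nat_lit 0) (nat_lit 0) (XT.lf (nat_lit 0) (nat_lit 9536268970) (nat_lit 252) (nat_lit 10657194539) (nat_lit 336) (nat_lit 27476968176) (nat_lit 78) (nat_lit 5) (nat_lit 81) (nat_lit 5) (nat_lit 82) (nat_lit 5) (nat_lit 303) (nat_lit 275) (nat_lit 142)) (XT.lf (nat_lit 0) (nat_lit 30668310389) (nat_lit 336) (nat_lit 9751318760) (nat_lit 84) (nat_lit 8666361907)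 (nat_lit 78) (nat_lit 5) (nat_lit 82) (nat_lit 5) (nat_lit 79) (nat_lit 5) (nat_lit 304) (nat_lit 275) (nat_lit 141)))) (XT.nd (nat_lit 188) (nat_lit 252) (nat_lit 0) (XT.nd (nat_lit 94) (nat_lit 336) (nat_lit 0) (XT.lf (nat_lit 0) (nat_lit 20528866831) (nat_lit 252) (nat_lit 21630403389) (nat_lit 336) (nat_lit 8388439646) (nat_lit 75) (nat_lit 5) (nat_lit 78) (nat_lit 5) (nat_lit 79) (nat_lit 5) (nat_lit 305) (nat_lit 275) (nat_lit 140)) (XT.lf (nat_lit 0) (nat_lit 565110137) (nat_lit 252) (nat_lit 1682436891) (nat_lit 336) (nat_lit 49824602780) (nat_lit 71) (nat_lit 5) (nat_lit 74) (nat_lit 5) (nat_lit 75) (nat_lit 5) (nat_lit 306) (nat_lit 275) (nat_lit 139))) (XT.nd (nat_lit 94) (nat_lit 252) (nat_lit 0) (XT.lf (nat_lit 0) (nat_lit 13948117763) (nat_lit 336) (nat_lit 20377763270) (nat_lit 84) (nat_lit 19299320378) (nat_lit 71) (nat_lit 5) (nat_lit 75) (nat_lit 5) (nat_lit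 72) (nat_lit 5) (nat_lit 307) (nat_lit 275) (nat_lit 138)) (XT.nd (nat_lit 94) (nat_lit 0) (nat_lit 0) (XT.lf (nat_lit 0) (nat_lit 12682289171) (nat_lit 252) (nat_lit 13774372228) (nat_lit 336) (nat_lit 28788096979) (nat_lit 68) (nat_lit 5) (nat_lit 71) (nat_lit 5) (nat_lit 72) (nat_lit 5) (nat_lit 308) (nat_lit 275) (nat_lit 137)) (XT.lf (nat_lit 0) (nat_lit 40060650397) (nat_lit 336) (nat_lit 8956796510) (nat_lit 84) (nat_lit 7904345376) (nat_lit 68) (nat_lit 5) (nat_lit 72) (nat_lit 5) (nat_lit 69) (nat_lit 5) (nat_lit 309) (nat_lit 275) (nat_lit 136))))))) (XT.nd (nat_lit 752) (nat_lit 1092) (nat_lit 0) (XT.nd (nat_lit 376) (nat_lit 420) (nat_lit 0) (XT.nd (nat_lit 188) (nat_lit 168) (nat_lit 0) (XT.nd (nat_lit 94) (nat_lit 336) (nat_lit 0) (XT.lf (nat_lit 0) (nat_lit 26962448687) (nat_lit 168) (nat_lit 28026682709) (nat_lit 252) (nat_lit 3661331861) (nat_lit 66) (nat_lit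 5) (nat_lit 68) (nat_lit 5) (nat_lit 69) (nat_lit 5) (nat_lit 310) (nat_lit 275) (nat_lit 135)) (XT.lf (nat_lit 0) (nat_lit 4509359452) (nat_lit 252) (nat_lit 5584815271) (nat_lit 336) (nat_lit 50352325684) (nat_lit 62) (nat_lit 5) (nat_lit 65) (nat_lit 5) (nat_lit 66) (nat_lit 5) (nat_lit 311) (nat_lit 275) (nat_lit 134))) (XT.nd (nat_lit 94) (nat_lit 168) (nat_lit 0) (XT.lf (nat_lit 0) (nat_lit 25238143862) (nat_lit 336) (nat_lit 19042215001) (nat_lit 84) (nat_lit 18007792862) (nat_lit 62) (nat_lit 5) (nat_lit 66) (nat_lit 5) (nat_lit 63) (nat_lit 5) (nat_lit 312) (nat_lit 275) (nat_lit 133)) (XT.lf (nat_lit 0) (nat_lit 20250303447) (nat_lit 168) (nat_lit 21294419396) (nat_lit 252) (nat_lit 22656892195) (nat_lit 60) (nat_lit 5) (nat_lit 62) (nat_lit 5) (nat_lit 63) (nat_lit 5) (nat_lit 313) (nat_lit 275) (nat_lit 132)))) (XT.nd (nat_lit 188) (nat_lit 168) (nat_lit 0) (XT.nd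 (nat_lit 94) (nat_lit 252) (nat_lit 0) (XT.lf (nat_lit 0) (nat_lit 59036483060) (nat_lit 252) (nat_lit 4079482279) (nat_lit 84) (nat_lit 3076293564) (nat_lit 60) (nat_lit 5) (nat_lit 63) (nat_lit 5) (nat_lit 61) (nat_lit 5) (nat_lit 314) (nat_lit 275) (nat_lit 131)) (XT.lf (nat_lit 0) (nat_lit 9794754550) (nat_lit 252) (nat_lit 29721904932) (nat_lit 84) (nat_lit 28710342339) (nat_lit 57) (nat_lit 5) (nat_lit 60) (nat_lit 5) (nat_lit 58) (nat_lit 5) (nat_lit 315) (nat_lit 275) (nat_lit 130))) (XT.nd (nat_lit 94) (nat_lit 0) (nat_lit 0) (XT.lf (nat_lit 0) (nat_lit 13304287862) (nat_lit 168) (nat_lit 14323825577) (nat_lit 252) (nat_lit 42715713908) (nat_lit 55) (nat_lit 5) (nat_lit 57) (nat_lit 5) (nat_lit 58) (nat_lit 5) (nat_lit 316) (nat_lit 275) (nat_lit 129)) (XT.lf (nat_lit 0) (nat_lit 47051979120) (nat_lit 252) (nat_lit 13228897528) (nat_lit 84) (nat_lit 12250675558)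 (nat_lit 55) (nat_lit 5) (nat_lit 58) (nat_lit 5) (nat_lit 56) (nat_lit 5) (nat_lit 317) (nat_lit 275) (nat_lit 128))))) (XT.nd (nat_lit 376) (nat_lit 504) (nat_lit 0) (XT.nd (nat_lit 188) (nat_lit 168) (nat_lit 0) (XT.nd (nat_lit 94) (nat_lit 252) (nat_lit 0) (XT.lf (nat_lit 0) (nat_lit 33609728632) (nat_lit 168) (nat_lit 34594839813) (nat_lit 252) (nat_lit 6586218345) (nat_lit 53) (nat_lit 5) (nat_lit 55) (nat_lit 5) (nat_lit 56) (nat_lit 5) (nat_lit 318) (nat_lit 275) (nat_lit 127)) (XT.lf (nat_lit 0) (nat_lit 6078291764) (nat_lit 168) (nat_lit 7069964097) (nat_lit 252) (nat_lit 63988352742) (nat_lit 50) (nat_lit 5) (nat_lit 52) (nat_lit 5) (nat_lit 53) (nat_lit 5) (nat_lit 319) (nat_lit 275) (nat_lit 126))) (XT.nd (nat_lit 94) (nat_lit 168) (nat_lit 0) (XT.lf (nat_lit 0) (nat_lit 34695816470) (nat_lit 252) (nat_lit 22898261178) (nat_lit 84) (nat_lit 21947860178) (nat_lit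 50) (nat_lit 5) (nat_lit 53) (nat_lit 5) (nat_lit 51) (nat_lit 5) (nat_lit 320) (nat_lit 275) (nat_lit 125)) (XT.lf (nat_lit 0) (nat_lit 28461524834) (nat_lit 168) (nat_lit 29417593604) (nat_lit 252) (nat_lit 24160496904) (nat_lit 48) (nat_lit 5) (nat_lit 50) (nat_lit 5) (nat_lit 51) (nat_lit 5) (nat_lit 321) (nat_lit 275) (nat_lit 124)))) (XT.nd (nat_lit 188) (nat_lit 336) (nat_lit 0) (XT.nd (nat_lit 94) (nat_lit 168) (nat_lit 0) (XT.lf (nat_lit 0) (nat_lit 82616470221) (nat_lit 252) (nat_lit 1470822400) (nat_lit 84) (nat_lit 555139879) (nat_lit 48) (nat_lit 5) (nat_lit 51) (nat_lit 5) (nat_lit 49) (nat_lit 4) (nat_lit 322) (nat_lit 275) (nat_lit 123)) (XT.lf (nat_lit 0) (nat_lit 21889473237) (nat_lit 168) (nat_lit 33161137254) (nat_lit 84) (nat_lit 32240558700) (nat_lit 46) (nat_lit 5) (nat_lit 48) (nat_lit 5) (nat_lit 47) (nat_lit 5) (nat_lit 323) (nat_lit 275) (nat_lit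 122))) (XT.nd (nat_lit 94) (nat_lit 168) (nat_lit 0) (XT.lf (nat_lit 0) (nat_lit 23196523512) (nat_lit 168) (nat_lit 24121764955) (nat_lit 252) (nat_lit 42733108946) (nat_lit 44) (nat_lit 5) (nat_lit 46) (nat_lit 5) (nat_lit 47) (nat_lit 5) (nat_lit 324) (nat_lit 275) (nat_lit 121)) (XT.nd (nat_lit 94) (nat_lit 168) (nat_lit 0) (XT.lf (nat_lit 0) (nat_lit 74718000772) (nat_lit 252) (nat_lit 9541037582) (nat_lit 84) (nat_lit 8655625878) (nat_lit 44) (nat_lit 5) (nat_lit 47) (nat_lit 5) (nat_lit 45) (nat_lit 4) (nat_lit 325) (nat_lit 275) (nat_lit 120)) (XT.lf (nat_lit 0) (nat_lit 8548238384) (nat_lit 168) (nat_lit 44097599130) (nat_lit 84) (nat_lit 43208159447) (nat_lit 42) (nat_lit 5) (nat_lit 44) (nat_lit 5) (nat_lit 43) (nat_lit 5) (nat_lit 326) (nat_lit 275) (nat_lit 119))))))))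
noncomputable def xc182 : XT := (XT.nd (nat_lit 1598) (nat_lit 924) (nat_lit 0) (XT.nd (nat_lit 752) (nat_lit 840) (nat_lit 0) (XT.nd (nat_lit 376) (nat_lit 336) (nat_lit 0) (XT.nd (nat_lit 188) (nat_lit 336) (nat_lit 0) (XT.nd (nat_lit 94) (nat_lit 0) (nat_lit 0) (XT.lf (nat_lit 0) (nat_lit 17782886349) (nat_lit 168) (nat_lit 18676162201) (nat_lit 252) (nat_lit 62444322957) (nat_lit 40) (nat_lit 5) (nat_lit 42) (nat_lit 5) (nat_lit 43) (nat_lit 5) (nat_lit 327) (nat_lit 275) (nat_lit 118)) (XT.lf (nat_lit 0) (nat_lit 66788079715) (nat_lit 252) (nat_lit 18060109734) (nat_lit 84) (nat_lit 17205891307) (nat_lit 40) (nat_lit 5) (nat_lit 43) (nat_lit 5) (nat_lit 41) (nat_lit 4) (nat_lit 328) (nat_lit 275) (nat_lit 117))) (XT.nd (nat_lit 94) (nat_lit 252) (nat_lit 0) (XT.lf (nat_lit 0) (nat_lit 49426143824) (nat_lit 84) (nat_lit 50283676079) (nat_lit 168) (nat_lit 5598692691)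 (nat_lit 39) (nat_lit 5) (nat_lit 40) (nat_lit 5) (nat_lit 41) (nat_lit 4) (nat_lit 329) (nat_lit 275) (nat_lit 116)) (XT.lf (nat_lit 0) (nat_lit 12186510854) (nat_lit 168) (nat_lit 13047199135) (nat_lit 252) (nat_lit 83447031541) (nat_lit 36) (nat_lit 5) (nat_lit 38) (nat_lit 5) (nat_lit 39) (nat_lit 5) (nat_lit 330) (nat_lit 275) (nat_lit 115)))) (XT.nd (nat_lit 188) (nat_lit 252) (nat_lit 0) (XT.nd (nat_lit 94) (nat_lit 84) (nat_lit 0) (XT.lf (nat_lit 0) (nat_lit 58786645763) (nat_lit 252) (nat_lit 27092279751) (nat_lit 84) (nat_lit 26269714017) (nat_lit 36) (nat_lit 5) (nat_lit 39) (nat_lit 5) (nat_lit 37) (nat_lit 4) (nat_lit 331) (nat_lit 275) (nat_lit 114)) (XT.lf (nat_lit 0) (nat_lit 47069606839) (nat_lit 84) (nat_lit 47894898868) (nat_lit 168) (nat_lit 20778062856) (nat_lit 35) (nat_lit 5) (nat_lit 36) (nat_lit 5) (nat_lit 37) (nat_lit 4) (nat_lit 332) (nat_lit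 275) (nat_lit 113))) (XT.nd (nat_lit 94) (nat_lit 0) (nat_lit 0) (XT.lf (nat_lit 0) (nat_lit 6370741266) (nat_lit 168) (nat_lit 7198629766) (nat_lit 252) (nat_lit 105908119444) (nat_lit 32) (nat_lit 5) (nat_lit 34) (nat_lit 5) (nat_lit 35) (nat_lit 5) (nat_lit 333) (nat_lit 275) (nat_lit 112)) (XT.lf (nat_lit 0) (nat_lit 50671247065) (nat_lit 252) (nat_lit 36707466527) (nat_lit 84) (nat_lit 35916646214) (nat_lit 32) (nat_lit 5) (nat_lit 35) (nat_lit 5) (nat_lit 33) (nat_lit 4) (nat_lit 334) (nat_lit 275) (nat_lit 111))))) (XT.nd (nat_lit 376) (nat_lit 420) (nat_lit 0) (XT.nd (nat_lit 188) (nat_lit 84) (nat_lit 0) (XT.nd (nat_lit 94) (nat_lit 252) (nat_lit 0) (XT.lf (nat_lit 0) (nat_lit 44825802030) (nat_lit 84) (nat_lit 45618865272) (nat_lit 168) (nat_lit 36818632780) (nat_lit 31) (nat_lit 5) (nat_lit 32) (nat_lit 5) (nat_lit 33) (nat_lit 4) (nat_lit 335) (nat_lit 275) (nat_lit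 110)) (XT.lf (nat_lit 0) (nat_lit 296054214) (nat_lit 168) (nat_lit 1091253579) (nat_lit 252) (nat_lit 130009969960) (nat_lit 28) (nat_lit 5) (nat_lit 30) (nat_lit 5) (nat_lit 31) (nat_lit 5) (nat_lit 336) (nat_lit 275) (nat_lit 109))) (XT.nd (nat_lit 94) (nat_lit 84) (nat_lit 0) (XT.lf (nat_lit 0) (nat_lit 42396721286) (nat_lit 252) (nat_lit 46981898950) (nat_lit 84) (nat_lit 46222628694) (nat_lit 28) (nat_lit 5) (nat_lit 31) (nat_lit 5) (nat_lit 29) (nat_lit 4) (nat_lit 337) (nat_lit 275) (nat_lit 108)) (XT.lf (nat_lit 0) (nat_lit 42689269689) (nat_lit 84) (nat_lit 43450385208) (nat_lit 168) (nat_lit 53841611298) (nat_lit 27) (nat_lit 5) (nat_lit 28) (nat_lit 5) (nat_lit 29) (nat_lit 4) (nat_lit 338) (nat_lit 275) (nat_lit 107)))) (XT.nd (nat_lit 188) (nat_lit 252) (nat_lit 0) (XT.nd (nat_lit 94) (nat_lit 168) (nat_lit 0) (XT.lf (nat_lit 0) (nat_lit 132951646280) (nat_lit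 168) (nat_lit 6155544059) (nat_lit 0) (nat_lit 5428998428) (nat_lit 27) (nat_lit 5) (nat_lit 29) (nat_lit 4) (nat_lit 27) (nat_lit 4) (nat_lit 339) (nat_lit 275) (nat_lit 106)) (XT.lf (nat_lit 0) (nat_lit 33914845262) (nat_lit 168) (nat_lit 57998809071) (nat_lit 84) (nat_lit 57270669432) (nat_lit 25) (nat_lit 5) (nat_lit 27) (nat_lit 5) (nat_lit 26) (nat_lit 4) (nat_lit 340) (nat_lit 275) (nat_lit 105))) (XT.nd (nat_lit 94) (nat_lit 168) (nat_lit 0) (XT.lf (nat_lit 0) (nat_lit 40654826319) (nat_lit 84) (nat_lit 41384484061) (nat_lit 168) (nat_lit 71979088378) (nat_lit 24) (nat_lit 5) (nat_lit 25) (nat_lit 5) (nat_lit 26) (nat_lit 4) (nat_lit 341) (nat_lit 275) (nat_lit 104)) (XT.nd (nat_lit 94) (nat_lit 168) (nat_lit 0) (XT.lf (nat_lit 0) (nat_lit 133749295646) (nat_lit 168) (nat_lit 12991103055) (nat_lit 0) (nat_lit 12294813956) (nat_lit 24) (nat_lit 5) (nat_lit 26) (nat_lit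 4) (nat_lit 24) (nat_lit 4) (nat_lit 342) (nat_lit 275) (nat_lit 103)) (XT.lf (nat_lit 0) (nat_lit 25173951193) (nat_lit 168) (nat_lit 69849193136) (nat_lit 84) (nat_lit 69151592643) (nat_lit 22) (nat_lit 5) (nat_lit 24) (nat_lit 5) (nat_lit 23) (nat_lit 4) (nat_lit 343) (nat_lit 275) (nat_lit 102))))))) (XT.nd (nat_lit 752) (nat_lit 336) (nat_lit 0) (XT.nd (nat_lit 376) (nat_lit 252) (nat_lit 0) (XT.nd (nat_lit 188) (nat_lit 252) (nat_lit 0) (XT.nd (nat_lit 94) (nat_lit 0) (nat_lit 0) (XT.lf (nat_lit 0) (nat_lit 38717548606) (nat_lit 84) (nat_lit 39416398046) (nat_lit 168) (nat_lit 91375219368) (nat_lit 21) (nat_lit 5) (nat_lit 22) (nat_lit 5) (nat_lit 23) (nat_lit 4) (nat_lit 344) (nat_lit 275) (nat_lit 101)) (XT.lf (nat_lit 0) (nat_lit 135239253205) (nat_lit 168) (nat_lit 20231450737) (nat_lit 0) (nat_lit 19564747010) (nat_lit 21) (nat_lit 5) (nat_lit 23) (nat_lit 4)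 (nat_lit 21) (nat_lit 4) (nat_lit 345) (nat_lit 275) (nat_lit 100))) (XT.nd (nat_lit 94) (nat_lit 84) (nat_lit 0) (XT.lf (nat_lit 0) (nat_lit 16118506023) (nat_lit 168) (nat_lit 82632647734) (nat_lit 84) (nat_lit 81964865119) (nat_lit 19) (nat_lit 5) (nat_lit 21) (nat_lit 5) (nat_lit 20) (nat_lit 4) (nat_lit 346) (nat_lit 275) (nat_lit 99)) (XT.lf (nat_lit 0) (nat_lit 36872758656) (nat_lit 84) (nat_lit 37541568782) (nat_lit 168) (nat_lit 112187528140) (nat_lit 18) (nat_lit 5) (nat_lit 19) (nat_lit 5) (nat_lit 20) (nat_lit 4) (nat_lit 347) (nat_lit 275) (nat_lit 98)))) (XT.nd (nat_lit 188) (nat_lit 84) (nat_lit 0) (XT.nd (nat_lit 94) (nat_lit 168) (nat_lit 0) (XT.lf (nat_lit 0) (nat_lit 137463477381) (nat_lit 168) (nat_lit 27932236936) (nat_lit 0) (nat_lit 27294342927) (nat_lit 18) (nat_lit 5) (nat_lit 20) (nat_lit 4) (nat_lit 18) (nat_lit 4) (nat_lit 348) (nat_lit 275) (nat_lit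 97)) (XT.lf (nat_lit 0) (nat_lit 6688650239) (nat_lit 168) (nat_lit 96458289065) (nat_lit 84) (nat_lit 95819507453) (nat_lit 16) (nat_lit 5) (nat_lit 18) (nat_lit 5) (nat_lit 17) (nat_lit 4) (nat_lit 349) (nat_lit 275) (nat_lit 96))) (XT.nd (nat_lit 94) (nat_lit 0) (nat_lit 0) (XT.lf (nat_lit 0) (nat_lit 35116010370) (nat_lit 84) (nat_lit 35755637318) (nat_lit 168) (nat_lit 134588341317) (nat_lit 15) (nat_lit 5) (nat_lit 16) (nat_lit 5) (nat_lit 17) (nat_lit 4) (nat_lit 350) (nat_lit 275) (nat_lit 95)) (XT.lf (nat_lit 0) (nat_lit 140469595923) (nat_lit 168) (nat_lit 36154128832) (nat_lit 0) (nat_lit 35544193565) (nat_lit 15) (nat_lit 5) (nat_lit 17) (nat_lit 4) (nat_lit 15) (nat_lit 4) (nat_lit 351) (nat_lit 275) (nat_lit 94))))) (XT.nd (nat_lit 38070) (nat_lit 0) (nat_lit 9828) (XT.nd (nat_lit 188) (nat_lit 84) (nat_lit 0) (XT.nd (nat_lit 94) (nat_lit 168) (nat_lit 0) (XT.lf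 (nat_lit 0) (nat_lit 107600930482) (nat_lit 84) (nat_lit 108211595982) (nat_lit 84) (nat_lit 3285463391) (nat_lit 14) (nat_lit 4) (nat_lit 15) (nat_lit 5) (nat_lit 15) (nat_lit 4) (nat_lit 352) (nat_lit 275) (nat_lit 93)) (XT.lf (nat_lit 0) (nat_lit 33443076800) (nat_lit 84) (nat_lit 34054437761) (nat_lit 168) (nat_lit 158766366992) (nat_lit 12) (nat_lit 5) (nat_lit 13) (nat_lit 5) (nat_lit 14) (nat_lit 4) (nat_lit 353) (nat_lit 275) (nat_lit 92))) (XT.nd (nat_lit 94) (nat_lit 84) (nat_lit 0) (XT.lf (nat_lit 0) (nat_lit 144311424057) (nat_lit 168) (nat_lit 44963360162) (nat_lit 0) (nat_lit 44380480825) (nat_lit 12) (nat_lit 5) (nat_lit 14) (nat_lit 4) (nat_lit 12) (nat_lit 4) (nat_lit 354) (nat_lit 275) (nat_lit 91)) (XT.lf (nat_lit 0) (nat_lit 113354815790) (nat_lit 84) (nat_lit 113938295892) (nat_lit 84) (nat_lit 14006751894) (nat_lit 11) (nat_lit 4) (nat_lit 12) (nat_lit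 5) (nat_lit 12) (nat_lit 4) (nat_lit 355) (nat_lit 275) (nat_lit 90)))) (XT.nd (nat_lit 188) (nat_lit 0) (nat_lit 84) (XT.nd (nat_lit 94) (nat_lit 0) (nat_lit 0) (XT.lf (nat_lit 0) (nat_lit 4722012708) (nat_lit 924) (nat_lit 3534095630) (nat_lit 924) (nat_lit 3534095630) (nat_lit 128) (nat_lit 3) (nat_lit 139) (nat_lit 3) (nat_lit 139) (nat_lit 5) (nat_lit 276) (nat_lit 276) (nat_lit 168)) (XT.lf (nat_lit 84) (nat_lit 4878143773) (nat_lit 0) (nat_lit 4994864716) (nat_lit 924) (nat_lit 14287265523) (nat_lit 129) (nat_lit 5) (nat_lit 128) (nat_lit 3) (nat_lit 139) (nat_lit 5) (nat_lit 277) (nat_lit 276) (nat_lit 167))) (XT.nd (nat_lit 94) (nat_lit 0) (nat_lit 0) (XT.lf (nat_lit 0) (nat_lit 10548451024) (nat_lit 840) (nat_lit 7213231996) (nat_lit 924) (nat_lit 6996199857) (nat_lit 129) (nat_lit 5) (nat_lit 139) (nat_lit 5) (nat_lit 140) (nat_lit 5) (nat_lit 278) (nat_lit 276)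 (nat_lit 166)) (XT.nd (nat_lit 94) (nat_lit 0) (nat_lit 84) (XT.lf (nat_lit 84) (nat_lit 5550612486) (nat_lit 0) (nat_lit 5868472564) (nat_lit 924) (nat_lit 13958216167) (nat_lit 130) (nat_lit 5) (nat_lit 129) (nat_lit 5) (nat_lit 140) (nat_lit 5) (nat_lit 279) (nat_lit 276) (nat_lit 165)) (XT.lf (nat_lit 0) (nat_lit 12553951078) (nat_lit 840) (nat_lit 6928441089) (nat_lit 924) (nat_lit 6534263292) (nat_lit 130) (nat_lit 5) (nat_lit 140) (nat_lit 5) (nat_lit 141) (nat_lit 5) (nat_lit 280) (nat_lit 276) (nat_lit 164))))))))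
noncomputable def xc183 : XT := (XT.nd (nat_lit 1598) (nat_lit 2772) (nat_lit 0) (XT.nd (nat_lit 752) (nat_lit 2436) (nat_lit 0) (XT.nd (nat_lit 376) (nat_lit 672) (nat_lit 0) (XT.nd (nat_lit 188) (nat_lit 0) (nat_lit 84) (XT.nd (nat_lit 94) (nat_lit 0) (nat_lit 84) (XT.lf (nat_lit 84) (nat_lit 6729535007) (nat_lit 0) (nat_lit 7210811769) (nat_lit 924) (nat_lit 12737891320) (nat_lit 131) (nat_lit 5) (nat_lit 130) (nat_lit 5) (nat_lit 141) (nat_lit 5) (nat_lit 281) (nat_lit 276) (nat_lit 163)) (XT.lf (nat_lit 0) (nat_lit 15597701912) (nat_lit 840) (nat_lit 6151238058) (nat_lit 924) (nat_lit 5613877909) (nat_lit 131) (nat_lit 5) (nat_lit 141) (nat_lit 5) (nat_lit 142) (nat_lit 5) (nat_lit 282) (nat_lit 276) (nat_lit 162))) (XT.nd (nat_lit 94) (nat_lit 0) (nat_lit 84) (XT.lf (nat_lit 84) (nat_lit 8485046835) (nat_lit 0) (nat_lit 9097646345) (nat_lit 924) (nat_lit 10486695056)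 (nat_lit 132) (nat_lit 5) (nat_lit 131) (nat_lit 5) (nat_lit 142) (nat_lit 5) (nat_lit 283) (nat_lit 276) (nat_lit 161)) (XT.lf (nat_lit 0) (nat_lit 19832492541) (nat_lit 840) (nat_lit 4811094532) (nat_lit 924) (nat_lit 4159422109) (nat_lit 132) (nat_lit 5) (nat_lit 142) (nat_lit 5) (nat_lit 143) (nat_lit 5) (nat_lit 284) (nat_lit 276) (nat_lit 160)))) (XT.nd (nat_lit 188) (nat_lit 840) (nat_lit 0) (XT.nd (nat_lit 94) (nat_lit 0) (nat_lit 84) (XT.lf (nat_lit 84) (nat_lit 10895981017) (nat_lit 0) (nat_lit 11612648028) (nat_lit 924) (nat_lit 7048989772) (nat_lit 133) (nat_lit 5) (nat_lit 132) (nat_lit 5) (nat_lit 143) (nat_lit 5) (nat_lit 285) (nat_lit 276) (nat_lit 159)) (XT.lf (nat_lit 0) (nat_lit 25428493971) (nat_lit 840) (nat_lit 2828730451) (nat_lit 84) (nat_lit 2087238432) (nat_lit 133) (nat_lit 5) (nat_lit 143) (nat_lit 5) (nat_lit 134) (nat_lit 5) (nat_lit 286) (nat_lit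 276) (nat_lit 158))) (XT.nd (nat_lit 94) (nat_lit 84) (nat_lit 0) (XT.lf (nat_lit 0) (nat_lit 14050748959) (nat_lit 840) (nat_lit 14848385747) (nat_lit 924) (nat_lit 2251275258) (nat_lit 123) (nat_lit 5) (nat_lit 133) (nat_lit 5) (nat_lit 134) (nat_lit 5) (nat_lit 287) (nat_lit 276) (nat_lit 157)) (XT.lf (nat_lit 0) (nat_lit 572977563) (nat_lit 924) (nat_lit 135673382) (nat_lit 84) (nat_lit 31285385705) (nat_lit 122) (nat_lit 5) (nat_lit 133) (nat_lit 5) (nat_lit 123) (nat_lit 5) (nat_lit 288) (nat_lit 276) (nat_lit 156))))) (XT.nd (nat_lit 376) (nat_lit 1092) (nat_lit 0) (XT.nd (nat_lit 188) (nat_lit 420) (nat_lit 0) (XT.nd (nat_lit 94) (nat_lit 420) (nat_lit 0) (XT.lf (nat_lit 0) (nat_lit 3968595863) (nat_lit 588) (nat_lit 14871595992) (nat_lit 84) (nat_lit 14012516985) (nat_lit 116) (nat_lit 5) (nat_lit 123) (nat_lit 5) (nat_lit 117) (nat_lit 5) (nat_lit 289) (nat_lit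 276) (nat_lit 155)) (XT.lf (nat_lit 0) (nat_lit 3345213490) (nat_lit 420) (nat_lit 4250482938) (nat_lit 504) (nat_lit 26155533144) (nat_lit 111) (nat_lit 5) (nat_lit 116) (nat_lit 5) (nat_lit 117) (nat_lit 5) (nat_lit 290) (nat_lit 276) (nat_lit 154))) (XT.nd (nat_lit 94) (nat_lit 420) (nat_lit 0) (XT.lf (nat_lit 0) (nat_lit 11828617034) (nat_lit 504) (nat_lit 11874446763) (nat_lit 84) (nat_lit 10970389292) (nat_lit 111) (nat_lit 5) (nat_lit 117) (nat_lit 5) (nat_lit 112) (nat_lit 5) (nat_lit 291) (nat_lit 276) (nat_lit 153)) (XT.lf (nat_lit 0) (nat_lit 7757949951) (nat_lit 420) (nat_lit 8701908461) (nat_lit 504) (nat_lit 19172595633) (nat_lit 106) (nat_lit 5) (nat_lit 111) (nat_lit 5) (nat_lit 112) (nat_lit 5) (nat_lit 292) (nat_lit 276) (nat_lit 152)))) (XT.nd (nat_lit 188) (nat_lit 756) (nat_lit 0) (XT.nd (nat_lit 94) (nat_lit 336) (nat_lit 0) (XT.lf (nat_lit 0) (nat_lit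 21633113496) (nat_lit 504) (nat_lit 7962984248) (nat_lit 84) (nat_lit 7027784724) (nat_lit 106) (nat_lit 5) (nat_lit 112) (nat_lit 5) (nat_lit 107) (nat_lit 5) (nat_lit 293) (nat_lit 276) (nat_lit 151)) (XT.lf (nat_lit 0) (nat_lit 13220305366) (nat_lit 336) (nat_lit 14189972907) (nat_lit 420) (nat_lit 10237341692) (nat_lit 102) (nat_lit 5) (nat_lit 106) (nat_lit 5) (nat_lit 107) (nat_lit 5) (nat_lit 294) (nat_lit 276) (nat_lit 150))) (XT.nd (nat_lit 94) (nat_lit 756) (nat_lit 0) (XT.lf (nat_lit 0) (nat_lit 33640677609) (nat_lit 420) (nat_lit 3014202159) (nat_lit 84) (nat_lit 2059445753) (nat_lit 102) (nat_lit 5) (nat_lit 107) (nat_lit 5) (nat_lit 103) (nat_lit 5) (nat_lit 295) (nat_lit 276) (nat_lit 149)) (XT.nd (nat_lit 94) (nat_lit 336) (nat_lit 0) (XT.lf (nat_lit 0) (nat_lit 885225131) (nat_lit 420) (nat_lit 19952996775) (nat_lit 84) (nat_lit 18968465600) (nat_lit 97)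 (nat_lit 5) (nat_lit 102) (nat_lit 5) (nat_lit 98) (nat_lit 5) (nat_lit 296) (nat_lit 276) (nat_lit 148)) (XT.lf (nat_lit 0) (nat_lit 3027155279) (nat_lit 336) (nat_lit 4040043378) (nat_lit 420) (nat_lit 33877526970) (nat_lit 93) (nat_lit 5) (nat_lit 97) (nat_lit 5) (nat_lit 98) (nat_lit 5) (nat_lit 297) (nat_lit 276) (nat_lit 147))))))) (XT.nd (nat_lit 752) (nat_lit 1512) (nat_lit 0) (XT.nd (nat_lit 376) (nat_lit 672) (nat_lit 0) (XT.nd (nat_lit 188) (nat_lit 252) (nat_lit 0) (XT.nd (nat_lit 94) (nat_lit 336) (nat_lit 0) (XT.lf (nat_lit 0) (nat_lit 14110634746) (nat_lit 420) (nat_lit 14495894307) (nat_lit 84) (nat_lit 13505518409) (nat_lit 93) (nat_lit 5) (nat_lit 98) (nat_lit 5) (nat_lit 94) (nat_lit 5) (nat_lit 298) (nat_lit 276) (nat_lit 146)) (XT.lf (nat_lit 0) (nat_lit 10358043964) (nat_lit 336) (nat_lit 11372915639) (nat_lit 420) (nat_lit 21595539935) (nat_lit 89)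 (nat_lit 5) (nat_lit 93) (nat_lit 5) (nat_lit 94) (nat_lit 5) (nat_lit 299) (nat_lit 276) (nat_lit 145))) (XT.nd (nat_lit 94) (nat_lit 252) (nat_lit 0) (XT.lf (nat_lit 0) (nat_lit 30083620551) (nat_lit 420) (nat_lit 7744625260) (nat_lit 84) (nat_lit 6755862417) (nat_lit 89) (nat_lit 5) (nat_lit 94) (nat_lit 5) (nat_lit 90) (nat_lit 5) (nat_lit 300) (nat_lit 276) (nat_lit 144)) (XT.lf (nat_lit 0) (nat_lit 19163310483) (nat_lit 252) (nat_lit 20173233700) (nat_lit 336) (nat_lit 6543921687) (nat_lit 86) (nat_lit 5) (nat_lit 89) (nat_lit 5) (nat_lit 90) (nat_lit 5) (nat_lit 301) (nat_lit 276) (nat_lit 143)))) (XT.nd (nat_lit 188) (nat_lit 252) (nat_lit 0) (XT.nd (nat_lit 94) (nat_lit 0) (nat_lit 0) (XT.lf (nat_lit 0) (nat_lit 429749105) (nat_lit 336) (nat_lit 1459825058) (nat_lit 420) (nat_lit 45343801503) (nat_lit 81) (nat_lit 5) (nat_lit 85) (nat_lit 5) (nat_lit 86) (nat_lit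 5) (nat_lit 302) (nat_lit 276) (nat_lit 142)) (XT.lf (nat_lit 0) (nat_lit 11265789064) (nat_lit 420) (nat_lit 19172516857) (nat_lit 84) (nat_lit 18173213014) (nat_lit 81) (nat_lit 5) (nat_lit 86) (nat_lit 5) (nat_lit 82) (nat_lit 5) (nat_lit 303) (nat_lit 276) (nat_lit 141))) (XT.nd (nat_lit 94) (nat_lit 0) (nat_lit 0) (XT.lf (nat_lit 0) (nat_lit 10136763867) (nat_lit 252) (nat_lit 11153476402) (nat_lit 336) (nat_lit 28759357821) (nat_lit 78) (nat_lit 5) (nat_lit 81) (nat_lit 5) (nat_lit 82) (nat_lit 5) (nat_lit 304) (nat_lit 276) (nat_lit 140)) (XT.lf (nat_lit 0) (nat_lit 32285225592) (nat_lit 336) (nat_lit 10117488940) (nat_lit 84) (nat_lit 9133401092) (nat_lit 78) (nat_lit 5) (nat_lit 82) (nat_lit 5) (nat_lit 79) (nat_lit 5) (nat_lit 305) (nat_lit 276) (nat_lit 139))))) (XT.nd (nat_lit 376) (nat_lit 672) (nat_lit 0) (XT.nd (nat_lit 188) (nat_lit 252) (nat_lit 0) (XT.nd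 (nat_lit 94) (nat_lit 336) (nat_lit 0) (XT.lf (nat_lit 0) (nat_lit 21674747933) (nat_lit 252) (nat_lit 22673874063) (nat_lit 336) (nat_lit 8722403949) (nat_lit 75) (nat_lit 5) (nat_lit 78) (nat_lit 5) (nat_lit 79) (nat_lit 5) (nat_lit 306) (nat_lit 276) (nat_lit 138)) (XT.lf (nat_lit 0) (nat_lit 713568053) (nat_lit 252) (nat_lit 1727016356) (nat_lit 336) (nat_lit 52231139887) (nat_lit 71) (nat_lit 5) (nat_lit 74) (nat_lit 5) (nat_lit 75) (nat_lit 5) (nat_lit 307) (nat_lit 276) (nat_lit 137))) (XT.nd (nat_lit 94) (nat_lit 252) (nat_lit 0) (XT.lf (nat_lit 0) (nat_lit 14722930696) (nat_lit 336) (nat_lit 21278919964) (nat_lit 84) (nat_lit 20300740470) (nat_lit 71) (nat_lit 5) (nat_lit 75) (nat_lit 5) (nat_lit 72) (nat_lit 5) (nat_lit 308) (nat_lit 276) (nat_lit 136)) (XT.lf (nat_lit 0) (nat_lit 13432236205) (nat_lit 252) (nat_lit 14422787730) (nat_lit 336) (nat_lit 30148195888)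 (nat_lit 68) (nat_lit 5) (nat_lit 71) (nat_lit 5) (nat_lit 72) (nat_lit 5) (nat_lit 309) (nat_lit 276) (nat_lit 135)))) (XT.nd (nat_lit 188) (nat_lit 504) (nat_lit 0) (XT.nd (nat_lit 94) (nat_lit 168) (nat_lit 0) (XT.lf (nat_lit 0) (nat_lit 42136215022) (nat_lit 336) (nat_lit 9291322237) (nat_lit 84) (nat_lit 8336718033) (nat_lit 68) (nat_lit 5) (nat_lit 72) (nat_lit 5) (nat_lit 69) (nat_lit 5) (nat_lit 310) (nat_lit 276) (nat_lit 134)) (XT.lf (nat_lit 0) (nat_lit 28422057574) (nat_lit 168) (nat_lit 29387349203) (nat_lit 252) (nat_lit 3770038701) (nat_lit 66) (nat_lit 5) (nat_lit 68) (nat_lit 5) (nat_lit 69) (nat_lit 5) (nat_lit 311) (nat_lit 276) (nat_lit 133))) (XT.nd (nat_lit 94) (nat_lit 168) (nat_lit 0) (XT.lf (nat_lit 0) (nat_lit 4846857298) (nat_lit 252) (nat_lit 5822327429) (nat_lit 336) (nat_lit 52796125637) (nat_lit 62) (nat_lit 5) (nat_lit 65) (nat_lit 5) (nat_lit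 66) (nat_lit 5) (nat_lit 312) (nat_lit 276) (nat_lit 132)) (XT.nd (nat_lit 94) (nat_lit 168) (nat_lit 0) (XT.lf (nat_lit 0) (nat_lit 26567625120) (nat_lit 336) (nat_lit 19884903430) (nat_lit 84) (nat_lit 18946652057) (nat_lit 62) (nat_lit 5) (nat_lit 66) (nat_lit 5) (nat_lit 63) (nat_lit 5) (nat_lit 313) (nat_lit 276) (nat_lit 131)) (XT.lf (nat_lit 0) (nat_lit 21370476064) (nat_lit 168) (nat_lit 22317520009) (nat_lit 252) (nat_lit 23720397863) (nat_lit 60) (nat_lit 5) (nat_lit 62) (nat_lit 5) (nat_lit 63) (nat_lit 5) (nat_lit 314) (nat_lit 276) (nat_lit 130))))))))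
noncomputable def xc184 : XT := (XT.nd (nat_lit 1504) (nat_lit 1680) (nat_lit 0) (XT.nd (nat_lit 752) (nat_lit 756) (nat_lit 0) (XT.nd (nat_lit 376) (nat_lit 588) (nat_lit 0) (XT.nd (nat_lit 188) (nat_lit 168) (nat_lit 0) (XT.nd (nat_lit 94) (nat_lit 252) (nat_lit 0) (XT.lf (nat_lit 0) (nat_lit 62051818544) (nat_lit 252) (nat_lit 4178399737) (nat_lit 84) (nat_lit 3268478001) (nat_lit 60) (nat_lit 5) (nat_lit 63) (nat_lit 5) (nat_lit 61) (nat_lit 5) (nat_lit 315) (nat_lit 276) (nat_lit 129)) (XT.lf (nat_lit 0) (nat_lit 10347611078) (nat_lit 252) (nat_lit 31102550993) (nat_lit 84) (nat_lit 30185033902) (nat_lit 57) (nat_lit 5) (nat_lit 60) (nat_lit 5) (nat_lit 58) (nat_lit 5) (nat_lit 316) (nat_lit 276) (nat_lit 128))) (XT.nd (nat_lit 94) (nat_lit 0) (nat_lit 0) (XT.lf (nat_lit 0) (nat_lit 14073250648) (nat_lit 168) (nat_lit 14998001409) (nat_lit 252) (nat_lit 44786680010)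 (nat_lit 55) (nat_lit 5) (nat_lit 57) (nat_lit 5) (nat_lit 58) (nat_lit 5) (nat_lit 317) (nat_lit 276) (nat_lit 127)) (XT.lf (nat_lit 0) (nat_lit 49463996100) (nat_lit 252) (nat_lit 13789219490) (nat_lit 84) (nat_lit 12901943326) (nat_lit 55) (nat_lit 5) (nat_lit 58) (nat_lit 5) (nat_lit 56) (nat_lit 5) (nat_lit 318) (nat_lit 276) (nat_lit 126)))) (XT.nd (nat_lit 188) (nat_lit 168) (nat_lit 0) (XT.nd (nat_lit 94) (nat_lit 252) (nat_lit 0) (XT.lf (nat_lit 0) (nat_lit 35389706965) (nat_lit 168) (nat_lit 36283231845) (nat_lit 252) (nat_lit 6854480223) (nat_lit 53) (nat_lit 5) (nat_lit 55) (nat_lit 5) (nat_lit 56) (nat_lit 5) (nat_lit 319) (nat_lit 276) (nat_lit 125)) (XT.lf (nat_lit 0) (nat_lit 6482015979) (nat_lit 168) (nat_lit 7381492019) (nat_lit 252) (nat_lit 67127039068) (nat_lit 50) (nat_lit 5) (nat_lit 52) (nat_lit 5) (nat_lit 53) (nat_lit 5) (nat_lit 320) (nat_lit 276)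 (nat_lit 124))) (XT.nd (nat_lit 94) (nat_lit 168) (nat_lit 0) (XT.lf (nat_lit 0) (nat_lit 36486316453) (nat_lit 252) (nat_lit 23945987264) (nat_lit 84) (nat_lit 23083945541) (nat_lit 50) (nat_lit 5) (nat_lit 53) (nat_lit 5) (nat_lit 51) (nat_lit 5) (nat_lit 321) (nat_lit 276) (nat_lit 123)) (XT.lf (nat_lit 0) (nat_lit 29980220516) (nat_lit 168) (nat_lit 30847403075) (nat_lit 252) (nat_lit 25311245058) (nat_lit 48) (nat_lit 5) (nat_lit 50) (nat_lit 5) (nat_lit 51) (nat_lit 5) (nat_lit 322) (nat_lit 276) (nat_lit 122))))) (XT.nd (nat_lit 376) (nat_lit 420) (nat_lit 0) (XT.nd (nat_lit 188) (nat_lit 168) (nat_lit 0) (XT.nd (nat_lit 94) (nat_lit 168) (nat_lit 0) (XT.lf (nat_lit 0) (nat_lit 86799856067) (nat_lit 252) (nat_lit 1451310490) (nat_lit 84) (nat_lit 620759451) (nat_lit 48) (nat_lit 5) (nat_lit 51) (nat_lit 5) (nat_lit 49) (nat_lit 4) (nat_lit 323) (nat_lit 276) (nat_lit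 121)) (XT.lf (nat_lit 0) (nat_lit 23036279729) (nat_lit 168) (nat_lit 34725911582) (nat_lit 84) (nat_lit 33890919697) (nat_lit 46) (nat_lit 5) (nat_lit 48) (nat_lit 5) (nat_lit 47) (nat_lit 5) (nat_lit 324) (nat_lit 276) (nat_lit 120))) (XT.nd (nat_lit 94) (nat_lit 0) (nat_lit 0) (XT.lf (nat_lit 0) (nat_lit 24448127665) (nat_lit 168) (nat_lit 25287348928) (nat_lit 252) (nat_lit 44815927006) (nat_lit 44) (nat_lit 5) (nat_lit 46) (nat_lit 5) (nat_lit 47) (nat_lit 5) (nat_lit 325) (nat_lit 276) (nat_lit 119)) (XT.lf (nat_lit 0) (nat_lit 78503335179) (nat_lit 252) (nat_lit 9928842530) (nat_lit 84) (nat_lit 9125748014) (nat_lit 44) (nat_lit 5) (nat_lit 47) (nat_lit 5) (nat_lit 45) (nat_lit 4) (nat_lit 326) (nat_lit 276) (nat_lit 118)))) (XT.nd (nat_lit 188) (nat_lit 84) (nat_lit 0) (XT.nd (nat_lit 94) (nat_lit 168) (nat_lit 0) (XT.lf (nat_lit 0) (nat_lit 9024895858) (nat_lit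 168) (nat_lit 46213043342) (nat_lit 84) (nat_lit 45406295331) (nat_lit 42) (nat_lit 5) (nat_lit 44) (nat_lit 5) (nat_lit 43) (nat_lit 5) (nat_lit 327) (nat_lit 276) (nat_lit 117)) (XT.lf (nat_lit 0) (nat_lit 18760023898) (nat_lit 168) (nat_lit 19570251429) (nat_lit 252) (nat_lit 65515851038) (nat_lit 40) (nat_lit 5) (nat_lit 42) (nat_lit 5) (nat_lit 43) (nat_lit 5) (nat_lit 328) (nat_lit 276) (nat_lit 116))) (XT.nd (nat_lit 94) (nat_lit 84) (nat_lit 0) (XT.lf (nat_lit 0) (nat_lit 70174049865) (nat_lit 252) (nat_lit 18877603957) (nat_lit 84) (nat_lit 18102802663) (nat_lit 40) (nat_lit 5) (nat_lit 43) (nat_lit 5) (nat_lit 41) (nat_lit 4) (nat_lit 329) (nat_lit 276) (nat_lit 115)) (XT.lf (nat_lit 0) (nat_lit 51981583065) (nat_lit 84) (nat_lit 52759390099) (nat_lit 168) (nat_lit 5830681947) (nat_lit 39) (nat_lit 5) (nat_lit 40) (nat_lit 5) (nat_lit 41) (nat_lit 4) (nat_lit 330)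 (nat_lit 276) (nat_lit 114)))))) (XT.nd (nat_lit 752) (nat_lit 756) (nat_lit 0) (XT.nd (nat_lit 376) (nat_lit 336) (nat_lit 0) (XT.nd (nat_lit 188) (nat_lit 336) (nat_lit 0) (XT.nd (nat_lit 94) (nat_lit 0) (nat_lit 0) (XT.lf (nat_lit 0) (nat_lit 12880121278) (nat_lit 168) (nat_lit 13660790921) (nat_lit 252) (nat_lit 87571590571) (nat_lit 36) (nat_lit 5) (nat_lit 38) (nat_lit 5) (nat_lit 39) (nat_lit 5) (nat_lit 331) (nat_lit 276) (nat_lit 113)) (XT.lf (nat_lit 0) (nat_lit 61769903757) (nat_lit 252) (nat_lit 28365031417) (nat_lit 84) (nat_lit 27618940048) (nat_lit 36) (nat_lit 5) (nat_lit 39) (nat_lit 5) (nat_lit 37) (nat_lit 4) (nat_lit 332) (nat_lit 276) (nat_lit 112))) (XT.nd (nat_lit 94) (nat_lit 252) (nat_lit 0) (XT.lf (nat_lit 0) (nat_lit 49503629142) (nat_lit 84) (nat_lit 50252193341) (nat_lit 168) (nat_lit 21771719934) (nat_lit 35) (nat_lit 5) (nat_lit 36) (nat_lit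 5) (nat_lit 37) (nat_lit 4) (nat_lit 333) (nat_lit 276) (nat_lit 111)) (XT.lf (nat_lit 0) (nat_lit 6769946026) (nat_lit 168) (nat_lit 7520865300) (nat_lit 252) (nat_lit 111158405086) (nat_lit 32) (nat_lit 5) (nat_lit 34) (nat_lit 5) (nat_lit 35) (nat_lit 5) (nat_lit 334) (nat_lit 276) (nat_lit 110)))) (XT.nd (nat_lit 188) (nat_lit 252) (nat_lit 0) (XT.nd (nat_lit 94) (nat_lit 84) (nat_lit 0) (XT.lf (nat_lit 0) (nat_lit 53246295401) (nat_lit 252) (nat_lit 38464527716) (nat_lit 84) (nat_lit 37747230380) (nat_lit 32) (nat_lit 5) (nat_lit 35) (nat_lit 5) (nat_lit 33) (nat_lit 4) (nat_lit 335) (nat_lit 276) (nat_lit 109)) (XT.lf (nat_lit 0) (nat_lit 47144141170) (nat_lit 84) (nat_lit 47863472909) (nat_lit 168) (nat_lit 38616815337) (nat_lit 31) (nat_lit 5) (nat_lit 32) (nat_lit 5) (nat_lit 33) (nat_lit 4) (nat_lit 336) (nat_lit 276) (nat_lit 108))) (XT.nd (nat_lit 94) (nat_lit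 0) (nat_lit 0) (XT.lf (nat_lit 0) (nat_lit 388009406) (nat_lit 168) (nat_lit 1109278671) (nat_lit 252) (nat_lit 136467822818) (nat_lit 28) (nat_lit 5) (nat_lit 30) (nat_lit 5) (nat_lit 31) (nat_lit 5) (nat_lit 337) (nat_lit 276) (nat_lit 107)) (XT.lf (nat_lit 0) (nat_lit 44555781492) (nat_lit 252) (nat_lit 49256124591) (nat_lit 84) (nat_lit 48567444087) (nat_lit 28) (nat_lit 5) (nat_lit 31) (nat_lit 5) (nat_lit 29) (nat_lit 4) (nat_lit 338) (nat_lit 276) (nat_lit 106))))) (XT.nd (nat_lit 376) (nat_lit 420) (nat_lit 0) (XT.nd (nat_lit 188) (nat_lit 252) (nat_lit 0) (XT.nd (nat_lit 94) (nat_lit 0) (nat_lit 0) (XT.lf (nat_lit 0) (nat_lit 44897394910) (nat_lit 84) (nat_lit 45587749122) (nat_lit 168) (nat_lit 56493260151) (nat_lit 27) (nat_lit 5) (nat_lit 28) (nat_lit 5) (nat_lit 29) (nat_lit 4) (nat_lit 339) (nat_lit 276) (nat_lit 105)) (XT.lf (nat_lit 0) (nat_lit 139636424084)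 (nat_lit 168) (nat_lit 6391856326) (nat_lit 0) (nat_lit 5732858021) (nat_lit 27) (nat_lit 5) (nat_lit 29) (nat_lit 4) (nat_lit 27) (nat_lit 4) (nat_lit 340) (nat_lit 276) (nat_lit 104))) (XT.nd (nat_lit 94) (nat_lit 84) (nat_lit 0) (XT.lf (nat_lit 0) (nat_lit 35647708295) (nat_lit 168) (nat_lit 60827209868) (nat_lit 84) (nat_lit 60166765751) (nat_lit 25) (nat_lit 5) (nat_lit 27) (nat_lit 5) (nat_lit 26) (nat_lit 4) (nat_lit 341) (nat_lit 276) (nat_lit 103)) (XT.lf (nat_lit 0) (nat_lit 42757953426) (nat_lit 84) (nat_lit 43419774507) (nat_lit 168) (nat_lit 75539768161) (nat_lit 24) (nat_lit 5) (nat_lit 25) (nat_lit 5) (nat_lit 26) (nat_lit 4) (nat_lit 342) (nat_lit 276) (nat_lit 102)))) (XT.nd (nat_lit 188) (nat_lit 252) (nat_lit 0) (XT.nd (nat_lit 94) (nat_lit 168) (nat_lit 0) (XT.lf (nat_lit 0) (nat_lit 140471981223) (nat_lit 168) (nat_lit 13572392882) (nat_lit 0) (nat_lit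 12940838144) (nat_lit 24) (nat_lit 5) (nat_lit 26) (nat_lit 4) (nat_lit 24) (nat_lit 4) (nat_lit 343) (nat_lit 276) (nat_lit 101)) (XT.lf (nat_lit 0) (nat_lit 26467808076) (nat_lit 168) (nat_lit 73273325995) (nat_lit 84) (nat_lit 72640581784) (nat_lit 22) (nat_lit 5) (nat_lit 24) (nat_lit 5) (nat_lit 23) (nat_lit 4) (nat_lit 344) (nat_lit 276) (nat_lit 100))) (XT.nd (nat_lit 94) (nat_lit 168) (nat_lit 0) (XT.lf (nat_lit 0) (nat_lit 40720650788) (nat_lit 84) (nat_lit 41354527832) (nat_lit 168) (nat_lit 95907718968) (nat_lit 21) (nat_lit 5) (nat_lit 22) (nat_lit 5) (nat_lit 23) (nat_lit 4) (nat_lit 345) (nat_lit 276) (nat_lit 99)) (XT.nd (nat_lit 94) (nat_lit 168) (nat_lit 0) (XT.lf (nat_lit 0) (nat_lit 142034592075) (nat_lit 168) (nat_lit 21177841274) (nat_lit 0) (nat_lit 20573121340) (nat_lit 21) (nat_lit 5) (nat_lit 23) (nat_lit 4) (nat_lit 21) (nat_lit 4) (nat_lit 346)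 (nat_lit 276) (nat_lit 98)) (XT.lf (nat_lit 0) (nat_lit 16957756961) (nat_lit 168) (nat_lit 86699047547) (nat_lit 84) (nat_lit 86093349030) (nat_lit 19) (nat_lit 5) (nat_lit 21) (nat_lit 5) (nat_lit 20) (nat_lit 4) (nat_lit 347) (nat_lit 276) (nat_lit 97))))))))
noncomputable def xc185 : XT := (XT.nd (nat_lit 39386) (nat_lit 0) (nat_lit 6216) (XT.nd (nat_lit 38540) (nat_lit 0) (nat_lit 9744) (XT.nd (nat_lit 376) (nat_lit 252) (nat_lit 0) (XT.nd (nat_lit 188) (nat_lit 252) (nat_lit 0) (XT.nd (nat_lit 94) (nat_lit 0) (nat_lit 0) (XT.lf (nat_lit 0) (nat_lit 38780577024) (nat_lit 84) (nat_lit 39387207524) (nat_lit 168) (nat_lit 117762526772) (nat_lit 18) (nat_lit 5) (nat_lit 19) (nat_lit 5) (nat_lit 20) (nat_lit 4) (nat_lit 348) (nat_lit 276) (nat_lit 96)) (XT.lf (nat_lit 0) (nat_lit 144368300392) (nat_lit 168) (nat_lit 29266632963) (nat_lit 0) (nat_lit 28688044293) (nat_lit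 18) (nat_lit 5) (nat_lit 20) (nat_lit 4) (nat_lit 18) (nat_lit 4) (nat_lit 349) (nat_lit 276) (nat_lit 95))) (XT.nd (nat_lit 94) (nat_lit 84) (nat_lit 0) (XT.lf (nat_lit 0) (nat_lit 7054690287) (nat_lit 168) (nat_lit 101218946092) (nat_lit 84) (nat_lit 100639552340) (nat_lit 16) (nat_lit 5) (nat_lit 18) (nat_lit 5) (nat_lit 17) (nat_lit 4) (nat_lit 350) (nat_lit 276) (nat_lit 94)) (XT.lf (nat_lit 0) (nat_lit 36933064163) (nat_lit 84) (nat_lit 37513224660) (nat_lit 168) (nat_lit 141285146695) (nat_lit 15) (nat_lit 5) (nat_lit 16) (nat_lit 5) (nat_lit 17) (nat_lit 4) (nat_lit 351) (nat_lit 276) (nat_lit 93)))) (XT.nd (nat_lit 188) (nat_lit 168) (nat_lit 0) (XT.nd (nat_lit 94) (nat_lit 84) (nat_lit 0) (XT.lf (nat_lit 0) (nat_lit 147523104454) (nat_lit 168) (nat_lit 37902468806) (nat_lit 0) (nat_lit 37349239539) (nat_lit 15) (nat_lit 5) (nat_lit 17) (nat_lit 4) (nat_lit 15)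 (nat_lit 4) (nat_lit 352) (nat_lit 276) (nat_lit 92)) (XT.lf (nat_lit 0) (nat_lit 113039385950) (nat_lit 84) (nat_lit 113593277560) (nat_lit 84) (nat_lit 3418750303) (nat_lit 14) (nat_lit 4) (nat_lit 15) (nat_lit 5) (nat_lit 15) (nat_lit 4) (nat_lit 353) (nat_lit 276) (nat_lit 91))) (XT.nd (nat_lit 94) (nat_lit 0) (nat_lit 0) (XT.lf (nat_lit 0) (nat_lit 35173673262) (nat_lit 84) (nat_lit 35728195675) (nat_lit 168) (nat_lit 166673732761) (nat_lit 12) (nat_lit 5) (nat_lit 13) (nat_lit 5) (nat_lit 14) (nat_lit 4) (nat_lit 354) (nat_lit 276) (nat_lit 90)) (XT.lf (nat_lit 0) (nat_lit 151555500838) (nat_lit 168) (nat_lit 47154895460) (nat_lit 0) (nat_lit 46626206719) (nat_lit 12) (nat_lit 5) (nat_lit 14) (nat_lit 4) (nat_lit 12) (nat_lit 4) (nat_lit 355) (nat_lit 276) (nat_lit 89))))) (XT.nd (nat_lit 376) (nat_lit 0) (nat_lit 168) (XT.nd (nat_lit 188) (nat_lit 0) (nat_lit 84)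 (XT.nd (nat_lit 94) (nat_lit 0) (nat_lit 0) (XT.lf (nat_lit 0) (nat_lit 5073011945) (nat_lit 924) (nat_lit 3650478645) (nat_lit 924) (nat_lit 3650478645) (nat_lit 128) (nat_lit 3) (nat_lit 139) (nat_lit 3) (nat_lit 139) (nat_lit 5) (nat_lit 277) (nat_lit 277) (nat_lit 166)) (XT.lf (nat_lit 84) (nat_lit 5240748631) (nat_lit 0) (nat_lit 5346617967) (nat_lit 924) (nat_lit 14769885731) (nat_lit 129) (nat_lit 5) (nat_lit 128) (nat_lit 3) (nat_lit 139) (nat_lit 5) (nat_lit 278) (nat_lit 277) (nat_lit 165))) (XT.nd (nat_lit 94) (nat_lit 0) (nat_lit 0) (XT.lf (nat_lit 0) (nat_lit 11284554548) (nat_lit 840) (nat_lit 7448821486) (nat_lit 924) (nat_lit 7251966938) (nat_lit 129) (nat_lit 5) (nat_lit 139) (nat_lit 5) (nat_lit 140) (nat_lit 5) (nat_lit 279) (nat_lit 277) (nat_lit 164)) (XT.lf (nat_lit 84) (nat_lit 5951197928) (nat_lit 0) (nat_lit 6239506389) (nat_lit 924) (nat_lit 14445428711)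 (nat_lit 130) (nat_lit 5) (nat_lit 129) (nat_lit 5) (nat_lit 140) (nat_lit 5) (nat_lit 280) (nat_lit 277) (nat_lit 163)))) (XT.nd (nat_lit 188) (nat_lit 0) (nat_lit 84) (XT.nd (nat_lit 94) (nat_lit 0) (nat_lit 0) (XT.lf (nat_lit 0) (nat_lit 13371604157) (nat_lit 840) (nat_lit 7146958590) (nat_lit 924) (nat_lit 6789427709) (nat_lit 130) (nat_lit 5) (nat_lit 140) (nat_lit 5) (nat_lit 141) (nat_lit 5) (nat_lit 281) (nat_lit 277) (nat_lit 162)) (XT.lf (nat_lit 84) (nat_lit 7191853334) (nat_lit 0) (nat_lit 7628385544) (nat_lit 924) (nat_lit 13182767384) (nat_lit 131) (nat_lit 5) (nat_lit 130) (nat_lit 5) (nat_lit 141) (nat_lit 5) (nat_lit 282) (nat_lit 277) (nat_lit 161))) (XT.nd (nat_lit 94) (nat_lit 0) (nat_lit 0) (XT.lf (nat_lit 0) (nat_lit 16550905404) (nat_lit 840) (nat_lit 6329394473) (nat_lit 924) (nat_lit 5841992977) (nat_lit 131) (nat_lit 5) (nat_lit 141) (nat_lit 5)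 (nat_lit 142) (nat_lit 5) (nat_lit 283) (nat_lit 277) (nat_lit 160)) (XT.nd (nat_lit 94) (nat_lit 0) (nat_lit 84) (XT.lf (nat_lit 84) (nat_lit 9036617479) (nat_lit 0) (nat_lit 9592263293) (nat_lit 924) (nat_lit 10835624227) (nat_lit 132) (nat_lit 5) (nat_lit 131) (nat_lit 5) (nat_lit 142) (nat_lit 5) (nat_lit 284) (nat_lit 277) (nat_lit 159)) (XT.lf (nat_lit 0) (nat_lit 20982624373) (nat_lit 840) (nat_lit 4921848002) (nat_lit 924) (nat_lit 4330761905) (nat_lit 132) (nat_lit 5) (nat_lit 142) (nat_lit 5) (nat_lit 143) (nat_lit 5) (nat_lit 285) (nat_lit 277) (nat_lit 158))))))) (XT.nd (nat_lit 752) (nat_lit 1680) (nat_lit 0) (XT.nd (nat_lit 376) (nat_lit 1344) (nat_lit 0) (XT.nd (nat_lit 188) (nat_lit 840) (nat_lit 0) (XT.nd (nat_lit 94) (nat_lit 0) (nat_lit 84) (XT.lf (nat_lit 84) (nat_lit 11568487755) (nat_lit 0) (nat_lit 12218525860) (nat_lit 924) (nat_lit 7240838486) (nat_lit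 133) (nat_lit 5) (nat_lit 132) (nat_lit 5) (nat_lit 143) (nat_lit 5) (nat_lit 286) (nat_lit 277) (nat_lit 157)) (XT.lf (nat_lit 0) (nat_lit 26845212923) (nat_lit 840) (nat_lit 2840881740) (nat_lit 84) (nat_lit 2168326621) (nat_lit 133) (nat_lit 5) (nat_lit 143) (nat_lit 5) (nat_lit 134) (nat_lit 5) (nat_lit 287) (nat_lit 277) (nat_lit 156))) (XT.nd (nat_lit 94) (nat_lit 84) (nat_lit 0) (XT.lf (nat_lit 0) (nat_lit 14880486394) (nat_lit 840) (nat_lit 15603966474) (nat_lit 924) (nat_lit 2216459522) (nat_lit 123) (nat_lit 5) (nat_lit 133) (nat_lit 5) (nat_lit 134) (nat_lit 5) (nat_lit 288) (nat_lit 277) (nat_lit 155)) (XT.lf (nat_lit 0) (nat_lit 737495427) (nat_lit 924) (nat_lit 16821763) (nat_lit 84) (nat_lit 32832627843) (nat_lit 122) (nat_lit 5) (nat_lit 133) (nat_lit 5) (nat_lit 123) (nat_lit 5) (nat_lit 289) (nat_lit 277) (nat_lit 154)))) (XT.nd (nat_lit 188) (nat_lit 420)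 (nat_lit 0) (XT.nd (nat_lit 94) (nat_lit 420) (nat_lit 0) (XT.lf (nat_lit 0) (nat_lit 4298234040) (nat_lit 588) (nat_lit 15484879903) (nat_lit 84) (nat_lit 14705669919) (nat_lit 116) (nat_lit 5) (nat_lit 123) (nat_lit 5) (nat_lit 117) (nat_lit 5) (nat_lit 290) (nat_lit 277) (nat_lit 153)) (XT.lf (nat_lit 0) (nat_lit 3640668506) (nat_lit 420) (nat_lit 4461774581) (nat_lit 504) (nat_lit 27329999871) (nat_lit 111) (nat_lit 5) (nat_lit 116) (nat_lit 5) (nat_lit 117) (nat_lit 5) (nat_lit 291) (nat_lit 277) (nat_lit 152))) (XT.nd (nat_lit 94) (nat_lit 420) (nat_lit 0) (XT.lf (nat_lit 0) (nat_lit 12540982250) (nat_lit 504) (nat_lit 12340051776) (nat_lit 84) (nat_lit 11520045000) (nat_lit 111) (nat_lit 5) (nat_lit 117) (nat_lit 5) (nat_lit 112) (nat_lit 5) (nat_lit 292) (nat_lit 277) (nat_lit 151)) (XT.lf (nat_lit 0) (nat_lit 8271898365) (nat_lit 420) (nat_lit 9128096560) (nat_lit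 504) (nat_lit 20008224643) (nat_lit 106) (nat_lit 5) (nat_lit 111) (nat_lit 5) (nat_lit 112) (nat_lit 5) (nat_lit 293) (nat_lit 277) (nat_lit 150))))) (XT.nd (nat_lit 376) (nat_lit 924) (nat_lit 0) (XT.nd (nat_lit 188) (nat_lit 420) (nat_lit 0) (XT.nd (nat_lit 94) (nat_lit 336) (nat_lit 0) (XT.lf (nat_lit 0) (nat_lit 22826466943) (nat_lit 504) (nat_lit 8235639148) (nat_lit 84) (nat_lit 7387385612) (nat_lit 106) (nat_lit 5) (nat_lit 112) (nat_lit 5) (nat_lit 107) (nat_lit 5) (nat_lit 294) (nat_lit 277) (nat_lit 149)) (XT.lf (nat_lit 0) (nat_lit 14004790844) (nat_lit 336) (nat_lit 14884307889) (nat_lit 420) (nat_lit 10635486903) (nat_lit 102) (nat_lit 5) (nat_lit 106) (nat_lit 5) (nat_lit 107) (nat_lit 5) (nat_lit 295) (nat_lit 277) (nat_lit 148))) (XT.nd (nat_lit 94) (nat_lit 420) (nat_lit 0) (XT.lf (nat_lit 0) (nat_lit 35426086055) (nat_lit 420) (nat_lit 3042389609) (nat_lit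 84) (nat_lit 2176397405) (nat_lit 102) (nat_lit 5) (nat_lit 107) (nat_lit 5) (nat_lit 103) (nat_lit 5) (nat_lit 296) (nat_lit 277) (nat_lit 147)) (XT.lf (nat_lit 0) (nat_lit 1031465243) (nat_lit 420) (nat_lit 20826728246) (nat_lit 84) (nat_lit 19933729448) (nat_lit 97) (nat_lit 5) (nat_lit 102) (nat_lit 5) (nat_lit 98) (nat_lit 5) (nat_lit 297) (nat_lit 277) (nat_lit 146)))) (XT.nd (nat_lit 188) (nat_lit 588) (nat_lit 0) (XT.nd (nat_lit 94) (nat_lit 0) (nat_lit 0) (XT.lf (nat_lit 0) (nat_lit 3300432727) (nat_lit 336) (nat_lit 4219152091) (nat_lit 420) (nat_lit 35467425779) (nat_lit 93) (nat_lit 5) (nat_lit 97) (nat_lit 5) (nat_lit 98) (nat_lit 5) (nat_lit 298) (nat_lit 277) (nat_lit 145)) (XT.lf (nat_lit 0) (nat_lit 14910817587) (nat_lit 420) (nat_lit 15100199913) (nat_lit 84) (nat_lit 14201899779) (nat_lit 93) (nat_lit 5) (nat_lit 98) (nat_lit 5) (nat_lit 94) (nat_lit 5)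 (nat_lit 299) (nat_lit 277) (nat_lit 144))) (XT.nd (nat_lit 94) (nat_lit 252) (nat_lit 0) (XT.lf (nat_lit 0) (nat_lit 10994491899) (nat_lit 336) (nat_lit 11915010424) (nat_lit 420) (nat_lit 22578722456) (nat_lit 89) (nat_lit 5) (nat_lit 93) (nat_lit 5) (nat_lit 94) (nat_lit 5) (nat_lit 300) (nat_lit 277) (nat_lit 143)) (XT.nd (nat_lit 94) (nat_lit 252) (nat_lit 0) (XT.lf (nat_lit 0) (nat_lit 31675810411) (nat_lit 420) (nat_lit 8014969916) (nat_lit 84) (nat_lit 7118132870) (nat_lit 89) (nat_lit 5) (nat_lit 94) (nat_lit 5) (nat_lit 90) (nat_lit 5) (nat_lit 301) (nat_lit 277) (nat_lit 142)) (XT.lf (nat_lit 0) (nat_lit 20236477346) (nat_lit 252) (nat_lit 21152507475) (nat_lit 336) (nat_lit 6781223670) (nat_lit 86) (nat_lit 5) (nat_lit 89) (nat_lit 5) (nat_lit 90) (nat_lit 5) (nat_lit 302) (nat_lit 277) (nat_lit 141))))))))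
noncomputable def xc186 : XT := (XT.nd (nat_lit 1598) (nat_lit 1932) (nat_lit 0) (XT.nd (nat_lit 752) (nat_lit 1092) (nat_lit 0) (XT.nd (nat_lit 376) (nat_lit 840) (nat_lit 0) (XT.nd (nat_lit 188) (nat_lit 252) (nat_lit 0) (XT.nd (nat_lit 94) (nat_lit 0) (nat_lit 0) (XT.lf (nat_lit 0) (nat_lit 567213806) (nat_lit 336) (nat_lit 1501523060) (nat_lit 420) (nat_lit 47522073384) (nat_lit 81) (nat_lit 5) (nat_lit 85) (nat_lit 5) (nat_lit 86) (nat_lit 5) (nat_lit 303) (nat_lit 277) (nat_lit 140)) (XT.lf (nat_lit 0) (nat_lit 11910195251) (nat_lit 420) (nat_lit 20017120919) (nat_lit 84) (nat_lit 19110722875) (nat_lit 81) (nat_lit 5) (nat_lit 86) (nat_lit 5) (nat_lit 82) (nat_lit 5) (nat_lit 304) (nat_lit 277) (nat_lit 139))) (XT.nd (nat_lit 94) (nat_lit 0) (nat_lit 0) (XT.lf (nat_lit 0) (nat_lit 10755784781) (nat_lit 252) (nat_lit 11677973021) (nat_lit 336) (nat_lit 30114369917)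 (nat_lit 78) (nat_lit 5) (nat_lit 81) (nat_lit 5) (nat_lit 82) (nat_lit 5) (nat_lit 305) (nat_lit 277) (nat_lit 138)) (XT.lf (nat_lit 0) (nat_lit 33975223546) (nat_lit 336) (nat_lit 10513253857) (nat_lit 84) (nat_lit 9620657169) (nat_lit 78) (nat_lit 5) (nat_lit 82) (nat_lit 5) (nat_lit 79) (nat_lit 5) (nat_lit 306) (nat_lit 277) (nat_lit 137)))) (XT.nd (nat_lit 188) (nat_lit 252) (nat_lit 0) (XT.nd (nat_lit 94) (nat_lit 336) (nat_lit 0) (XT.lf (nat_lit 0) (nat_lit 22866818900) (nat_lit 252) (nat_lit 23773055753) (nat_lit 336) (nat_lit 9081011512) (nat_lit 75) (nat_lit 5) (nat_lit 78) (nat_lit 5) (nat_lit 79) (nat_lit 5) (nat_lit 307) (nat_lit 277) (nat_lit 136)) (XT.lf (nat_lit 0) (nat_lit 858273584) (nat_lit 252) (nat_lit 1777501070) (nat_lit 336) (nat_lit 54765877806) (nat_lit 71) (nat_lit 5) (nat_lit 74) (nat_lit 5) (nat_lit 75) (nat_lit 5) (nat_lit 308) (nat_lit 277)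 (nat_lit 135))) (XT.nd (nat_lit 94) (nat_lit 252) (nat_lit 0) (XT.lf (nat_lit 0) (nat_lit 15529287702) (nat_lit 336) (nat_lit 22236080049) (nat_lit 84) (nat_lit 21348842412) (nat_lit 71) (nat_lit 5) (nat_lit 75) (nat_lit 5) (nat_lit 72) (nat_lit 5) (nat_lit 309) (nat_lit 277) (nat_lit 134)) (XT.lf (nat_lit 0) (nat_lit 14208911575) (nat_lit 252) (nat_lit 15107371009) (nat_lit 336) (nat_lit 31583672858) (nat_lit 68) (nat_lit 5) (nat_lit 71) (nat_lit 5) (nat_lit 72) (nat_lit 5) (nat_lit 310) (nat_lit 277) (nat_lit 133))))) (XT.nd (nat_lit 376) (nat_lit 588) (nat_lit 0) (XT.nd (nat_lit 188) (nat_lit 336) (nat_lit 0) (XT.nd (nat_lit 94) (nat_lit 168) (nat_lit 0) (XT.lf (nat_lit 0) (nat_lit 44308814531) (nat_lit 336) (nat_lit 9653109120) (nat_lit 84) (nat_lit 8787254968) (nat_lit 68) (nat_lit 5) (nat_lit 72) (nat_lit 5) (nat_lit 69) (nat_lit 5) (nat_lit 311) (nat_lit 277) (nat_lit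 132)) (XT.lf (nat_lit 0) (nat_lit 29944281951) (nat_lit 168) (nat_lit 30819829915) (nat_lit 252) (nat_lit 3891094149) (nat_lit 66) (nat_lit 5) (nat_lit 68) (nat_lit 5) (nat_lit 69) (nat_lit 5) (nat_lit 312) (nat_lit 277) (nat_lit 131))) (XT.nd (nat_lit 94) (nat_lit 0) (nat_lit 0) (XT.lf (nat_lit 0) (nat_lit 5190814561) (nat_lit 252) (nat_lit 6075594725) (nat_lit 336) (nat_lit 55368978330) (nat_lit 62) (nat_lit 5) (nat_lit 65) (nat_lit 5) (nat_lit 66) (nat_lit 5) (nat_lit 313) (nat_lit 277) (nat_lit 130)) (XT.lf (nat_lit 0) (nat_lit 27957298045) (nat_lit 336) (nat_lit 20779899332) (nat_lit 84) (nat_lit 19928877678) (nat_lit 62) (nat_lit 5) (nat_lit 66) (nat_lit 5) (nat_lit 63) (nat_lit 5) (nat_lit 314) (nat_lit 277) (nat_lit 129)))) (XT.nd (nat_lit 188) (nat_lit 420) (nat_lit 0) (XT.nd (nat_lit 94) (nat_lit 0) (nat_lit 0) (XT.lf (nat_lit 0) (nat_lit 22536648342) (nat_lit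 168) (nat_lit 23395645118) (nat_lit 252) (nat_lit 24843525293) (nat_lit 60) (nat_lit 5) (nat_lit 62) (nat_lit 5) (nat_lit 63) (nat_lit 5) (nat_lit 315) (nat_lit 277) (nat_lit 128)) (XT.lf (nat_lit 0) (nat_lit 65212016120) (nat_lit 252) (nat_lit 4292030241) (nat_lit 84) (nat_lit 3466704403) (nat_lit 60) (nat_lit 5) (nat_lit 63) (nat_lit 5) (nat_lit 61) (nat_lit 5) (nat_lit 316) (nat_lit 277) (nat_lit 127))) (XT.nd (nat_lit 94) (nat_lit 168) (nat_lit 0) (XT.lf (nat_lit 0) (nat_lit 10922242244) (nat_lit 252) (nat_lit 32562033022) (nat_lit 84) (nat_lit 31729817974) (nat_lit 57) (nat_lit 5) (nat_lit 60) (nat_lit 5) (nat_lit 58) (nat_lit 5) (nat_lit 317) (nat_lit 277) (nat_lit 126)) (XT.nd (nat_lit 94) (nat_lit 0) (nat_lit 0) (XT.lf (nat_lit 0) (nat_lit 14871016031) (nat_lit 168) (nat_lit 15709792231) (nat_lit 252) (nat_lit 46967220728) (nat_lit 55) (nat_lit 5) (nat_lit 57) (nat_lit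 5) (nat_lit 58) (nat_lit 5) (nat_lit 318) (nat_lit 277) (nat_lit 125)) (XT.lf (nat_lit 0) (nat_lit 51991089804) (nat_lit 252) (nat_lit 14386958999) (nat_lit 84) (nat_lit 13582173363) (nat_lit 55) (nat_lit 5) (nat_lit 58) (nat_lit 5) (nat_lit 56) (nat_lit 5) (nat_lit 319) (nat_lit 277) (nat_lit 124))))))) (XT.nd (nat_lit 752) (nat_lit 1008) (nat_lit 0) (XT.nd (nat_lit 376) (nat_lit 336) (nat_lit 0) (XT.nd (nat_lit 188) (nat_lit 168) (nat_lit 0) (XT.nd (nat_lit 94) (nat_lit 252) (nat_lit 0) (XT.lf (nat_lit 0) (nat_lit 37249434399) (nat_lit 168) (nat_lit 38059887806) (nat_lit 252) (nat_lit 7141830957) (nat_lit 53) (nat_lit 5) (nat_lit 55) (nat_lit 5) (nat_lit 56) (nat_lit 5) (nat_lit 320) (nat_lit 277) (nat_lit 123)) (XT.lf (nat_lit 0) (nat_lit 6896647053) (nat_lit 168) (nat_lit 7712498336) (nat_lit 252) (nat_lit 70428305931) (nat_lit 50) (nat_lit 5) (nat_lit 52) (nat_lit 5)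 (nat_lit 53) (nat_lit 5) (nat_lit 321) (nat_lit 277) (nat_lit 122))) (XT.nd (nat_lit 94) (nat_lit 168) (nat_lit 0) (XT.lf (nat_lit 0) (nat_lit 38361162127) (nat_lit 252) (nat_lit 25055135179) (nat_lit 84) (nat_lit 24273237924) (nat_lit 50) (nat_lit 5) (nat_lit 53) (nat_lit 5) (nat_lit 51) (nat_lit 5) (nat_lit 322) (nat_lit 277) (nat_lit 121)) (XT.lf (nat_lit 0) (nat_lit 31565961193) (nat_lit 168) (nat_lit 32352521337) (nat_lit 252) (nat_lit 26524855662) (nat_lit 48) (nat_lit 5) (nat_lit 50) (nat_lit 5) (nat_lit 51) (nat_lit 5) (nat_lit 323) (nat_lit 277) (nat_lit 120)))) (XT.nd (nat_lit 188) (nat_lit 168) (nat_lit 0) (XT.nd (nat_lit 94) (nat_lit 168) (nat_lit 0) (XT.lf (nat_lit 0) (nat_lit 91187524457) (nat_lit 252) (nat_lit 1439474174) (nat_lit 84) (nat_lit 686139898) (nat_lit 48) (nat_lit 5) (nat_lit 51) (nat_lit 5) (nat_lit 49) (nat_lit 4) (nat_lit 324) (nat_lit 277)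 (nat_lit 119)) (XT.lf (nat_lit 0) (nat_lit 24235561136) (nat_lit 168) (nat_lit 36377597154) (nat_lit 84) (nat_lit 35620234899) (nat_lit 46) (nat_lit 5) (nat_lit 48) (nat_lit 5) (nat_lit 47) (nat_lit 5) (nat_lit 325) (nat_lit 277) (nat_lit 118))) (XT.nd (nat_lit 94) (nat_lit 0) (nat_lit 0) (XT.lf (nat_lit 0) (nat_lit 25753779379) (nat_lit 168) (nat_lit 26514977803) (nat_lit 252) (nat_lit 47007891259) (nat_lit 44) (nat_lit 5) (nat_lit 46) (nat_lit 5) (nat_lit 47) (nat_lit 5) (nat_lit 326) (nat_lit 277) (nat_lit 117)) (XT.lf (nat_lit 0) (nat_lit 82473340368) (nat_lit 252) (nat_lit 10344335060) (nat_lit 84) (nat_lit 9615904660) (nat_lit 44) (nat_lit 5) (nat_lit 47) (nat_lit 5) (nat_lit 45) (nat_lit 4) (nat_lit 327) (nat_lit 277) (nat_lit 116))))) (XT.nd (nat_lit 376) (nat_lit 588) (nat_lit 0) (XT.nd (nat_lit 188) (nat_lit 84) (nat_lit 0) (XT.nd (nat_lit 94) (nat_lit 168) (nat_lit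 0) (XT.lf (nat_lit 0) (nat_lit 9520807821) (nat_lit 168) (nat_lit 48442574653) (nat_lit 84) (nat_lit 47710830425) (nat_lit 42) (nat_lit 5) (nat_lit 44) (nat_lit 5) (nat_lit 43) (nat_lit 5) (nat_lit 328) (nat_lit 277) (nat_lit 115)) (XT.lf (nat_lit 0) (nat_lit 19777837549) (nat_lit 168) (nat_lit 20512737803) (nat_lit 252) (nat_lit 68745668018) (nat_lit 40) (nat_lit 5) (nat_lit 42) (nat_lit 5) (nat_lit 43) (nat_lit 5) (nat_lit 329) (nat_lit 277) (nat_lit 114))) (XT.nd (nat_lit 94) (nat_lit 84) (nat_lit 0) (XT.lf (nat_lit 0) (nat_lit 73724989242) (nat_lit 252) (nat_lit 19743922919) (nat_lit 84) (nat_lit 19041155305) (nat_lit 40) (nat_lit 5) (nat_lit 43) (nat_lit 5) (nat_lit 41) (nat_lit 4) (nat_lit 330) (nat_lit 277) (nat_lit 113)) (XT.lf (nat_lit 0) (nat_lit 54656972467) (nat_lit 84) (nat_lit 55362466375) (nat_lit 168) (nat_lit 6078728173) (nat_lit 39) (nat_lit 5) (nat_lit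 40) (nat_lit 5) (nat_lit 41) (nat_lit 4) (nat_lit 331) (nat_lit 277) (nat_lit 112)))) (XT.nd (nat_lit 188) (nat_lit 336) (nat_lit 0) (XT.nd (nat_lit 94) (nat_lit 0) (nat_lit 0) (XT.lf (nat_lit 0) (nat_lit 13600576214) (nat_lit 168) (nat_lit 14308666593) (nat_lit 252) (nat_lit 91906820852) (nat_lit 36) (nat_lit 5) (nat_lit 38) (nat_lit 5) (nat_lit 39) (nat_lit 5) (nat_lit 332) (nat_lit 277) (nat_lit 111)) (XT.lf (nat_lit 0) (nat_lit 64898240854) (nat_lit 252) (nat_lit 29709031449) (nat_lit 84) (nat_lit 29032304584) (nat_lit 36) (nat_lit 5) (nat_lit 39) (nat_lit 5) (nat_lit 37) (nat_lit 4) (nat_lit 333) (nat_lit 277) (nat_lit 110))) (XT.nd (nat_lit 94) (nat_lit 252) (nat_lit 0) (XT.lf (nat_lit 0) (nat_lit 52051864533) (nat_lit 84) (nat_lit 52730834327) (nat_lit 168) (nat_lit 22819266415) (nat_lit 35) (nat_lit 5) (nat_lit 36) (nat_lit 5) (nat_lit 37) (nat_lit 4) (nat_lit 334)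 (nat_lit 277) (nat_lit 109)) (XT.nd (nat_lit 94) (nat_lit 0) (nat_lit 0) (XT.lf (nat_lit 0) (nat_lit 7181611307) (nat_lit 168) (nat_lit 7862717224) (nat_lit 252) (nat_lit 116675399872) (nat_lit 32) (nat_lit 5) (nat_lit 34) (nat_lit 5) (nat_lit 35) (nat_lit 5) (nat_lit 335) (nat_lit 277) (nat_lit 108)) (XT.lf (nat_lit 0) (nat_lit 55946239181) (nat_lit 252) (nat_lit 40316722685) (nat_lit 84) (nat_lit 39666112856) (nat_lit 32) (nat_lit 5) (nat_lit 35) (nat_lit 5) (nat_lit 33) (nat_lit 4) (nat_lit 336) (nat_lit 277) (nat_lit 107))))))))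
noncomputable def xc187 : XT := (XT.nd (nat_lit 1598) (nat_lit 84) (nat_lit 0) (XT.nd (nat_lit 752) (nat_lit 756) (nat_lit 0) (XT.nd (nat_lit 376) (nat_lit 252) (nat_lit 0) (XT.nd (nat_lit 188) (nat_lit 84) (nat_lit 0) (XT.nd (nat_lit 94) (nat_lit 252) (nat_lit 0) (XT.lf (nat_lit 0) (nat_lit 49571233977) (nat_lit 84) (nat_lit 50223689069) (nat_lit 168) (nat_lit 40508881426) (nat_lit 31) (nat_lit 5) (nat_lit 32) (nat_lit 5) (nat_lit 33) (nat_lit 4) (nat_lit 337) (nat_lit 277) (nat_lit 106)) (XT.lf (nat_lit 0) (nat_lit 477389451) (nat_lit 168) (nat_lit 1131601937) (nat_lit 252) (nat_lit 143252533107) (nat_lit 28) (nat_lit 5) (nat_lit 30) (nat_lit 5) (nat_lit 31) (nat_lit 5) (nat_lit 338) (nat_lit 277) (nat_lit 105))) (XT.nd (nat_lit 94) (nat_lit 84) (nat_lit 0) (XT.lf (nat_lit 0) (nat_lit 46819148019) (nat_lit 252) (nat_lit 51651022152) (nat_lit 84) (nat_lit 51026368634) (nat_lit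 28) (nat_lit 5) (nat_lit 31) (nat_lit 5) (nat_lit 29) (nat_lit 4) (nat_lit 339) (nat_lit 277) (nat_lit 104)) (XT.lf (nat_lit 0) (nat_lit 47209078023) (nat_lit 84) (nat_lit 47835249644) (nat_lit 168) (nat_lit 59281250405) (nat_lit 27) (nat_lit 5) (nat_lit 28) (nat_lit 5) (nat_lit 29) (nat_lit 4) (nat_lit 340) (nat_lit 277) (nat_lit 103)))) (XT.nd (nat_lit 188) (nat_lit 84) (nat_lit 0) (XT.nd (nat_lit 94) (nat_lit 168) (nat_lit 0) (XT.lf (nat_lit 0) (nat_lit 146651982694) (nat_lit 168) (nat_lit 6646628338) (nat_lit 0) (nat_lit 6048897449) (nat_lit 27) (nat_lit 5) (nat_lit 29) (nat_lit 4) (nat_lit 27) (nat_lit 4) (nat_lit 341) (nat_lit 277) (nat_lit 102)) (XT.lf (nat_lit 0) (nat_lit 37463763343) (nat_lit 168) (nat_lit 63803681785) (nat_lit 84) (nat_lit 63204639502) (nat_lit 25) (nat_lit 5) (nat_lit 27) (nat_lit 5) (nat_lit 26) (nat_lit 4) (nat_lit 342) (nat_lit 277) (nat_lit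 101))) (XT.nd (nat_lit 94) (nat_lit 0) (nat_lit 0) (XT.lf (nat_lit 0) (nat_lit 44959693085) (nat_lit 84) (nat_lit 45559984315) (nat_lit 168) (nat_lit 79282040346) (nat_lit 24) (nat_lit 5) (nat_lit 25) (nat_lit 5) (nat_lit 26) (nat_lit 4) (nat_lit 343) (nat_lit 277) (nat_lit 100)) (XT.lf (nat_lit 0) (nat_lit 147527526584) (nat_lit 168) (nat_lit 14189093864) (nat_lit 0) (nat_lit 13616255099) (nat_lit 24) (nat_lit 5) (nat_lit 26) (nat_lit 4) (nat_lit 24) (nat_lit 4) (nat_lit 344) (nat_lit 277) (nat_lit 99))))) (XT.nd (nat_lit 376) (nat_lit 336) (nat_lit 0) (XT.nd (nat_lit 188) (nat_lit 168) (nat_lit 0) (XT.nd (nat_lit 94) (nat_lit 84) (nat_lit 0) (XT.lf (nat_lit 0) (nat_lit 27823089022) (nat_lit 168) (nat_lit 76875017875) (nat_lit 84) (nat_lit 76301100223) (nat_lit 22) (nat_lit 5) (nat_lit 24) (nat_lit 5) (nat_lit 23) (nat_lit 4) (nat_lit 345) (nat_lit 277) (nat_lit 98)) (XT.lf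 (nat_lit 0) (nat_lit 42817658160) (nat_lit 84) (nat_lit 43392603324) (nat_lit 168) (nat_lit 100670214787) (nat_lit 21) (nat_lit 5) (nat_lit 22) (nat_lit 5) (nat_lit 23) (nat_lit 4) (nat_lit 346) (nat_lit 277) (nat_lit 97))) (XT.nd (nat_lit 94) (nat_lit 168) (nat_lit 0) (XT.lf (nat_lit 0) (nat_lit 149166594885) (nat_lit 168) (nat_lit 22177611342) (nat_lit 0) (nat_lit 21629112536) (nat_lit 21) (nat_lit 5) (nat_lit 23) (nat_lit 4) (nat_lit 21) (nat_lit 4) (nat_lit 347) (nat_lit 277) (nat_lit 96)) (XT.lf (nat_lit 0) (nat_lit 17835872143) (nat_lit 168) (nat_lit 90974832057) (nat_lit 84) (nat_lit 90425445647) (nat_lit 19) (nat_lit 5) (nat_lit 21) (nat_lit 5) (nat_lit 20) (nat_lit 4) (nat_lit 348) (nat_lit 277) (nat_lit 95)))) (XT.nd (nat_lit 188) (nat_lit 252) (nat_lit 0) (XT.nd (nat_lit 94) (nat_lit 0) (nat_lit 0) (XT.lf (nat_lit 0) (nat_lit 40777819422) (nat_lit 84) (nat_lit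 41328051168) (nat_lit 168) (nat_lit 123619471456) (nat_lit 18) (nat_lit 5) (nat_lit 19) (nat_lit 5) (nat_lit 20) (nat_lit 4) (nat_lit 349) (nat_lit 277) (nat_lit 94)) (XT.lf (nat_lit 0) (nat_lit 151615422117) (nat_lit 168) (nat_lit 30673533029) (nat_lit 0) (nat_lit 30148736050) (nat_lit 18) (nat_lit 5) (nat_lit 20) (nat_lit 4) (nat_lit 18) (nat_lit 4) (nat_lit 350) (nat_lit 277) (nat_lit 93))) (XT.nd (nat_lit 94) (nat_lit 84) (nat_lit 0) (XT.lf (nat_lit 0) (nat_lit 7436093768) (nat_lit 168) (nat_lit 106223424075) (nat_lit 84) (nat_lit 105697896863) (nat_lit 16) (nat_lit 5) (nat_lit 18) (nat_lit 5) (nat_lit 17) (nat_lit 4) (nat_lit 351) (nat_lit 277) (nat_lit 92)) (XT.nd (nat_lit 94) (nat_lit 0) (nat_lit 0) (XT.lf (nat_lit 0) (nat_lit 38835275897) (nat_lit 84) (nat_lit 39361498570) (nat_lit 168) (nat_lit 148319824267) (nat_lit 15) (nat_lit 5) (nat_lit 16) (nat_lit 5) (nat_lit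 17) (nat_lit 4) (nat_lit 352) (nat_lit 277) (nat_lit 91)) (XT.lf (nat_lit 0) (nat_lit 154926496624) (nat_lit 168) (nat_lit 39743745111) (nat_lit 0) (nat_lit 39241949857) (nat_lit 15) (nat_lit 5) (nat_lit 17) (nat_lit 4) (nat_lit 15) (nat_lit 4) (nat_lit 353) (nat_lit 277) (nat_lit 90))))))) (XT.nd (nat_lit 38728) (nat_lit 0) (nat_lit 8148) (XT.nd (nat_lit 38352) (nat_lit 0) (nat_lit 9660) (XT.nd (nat_lit 38164) (nat_lit 0) (nat_lit 9576) (XT.nd (nat_lit 38070) (nat_lit 0) (nat_lit 9576) (XT.lf (nat_lit 0) (nat_lit 118744333881) (nat_lit 84) (nat_lit 119246729899) (nat_lit 84) (nat_lit 3561582368) (nat_lit 14) (nat_lit 4) (nat_lit 15) (nat_lit 5) (nat_lit 15) (nat_lit 4) (nat_lit 354) (nat_lit 277) (nat_lit 89)) (XT.lf (nat_lit 0) (nat_lit 5430878962) (nat_lit 924) (nat_lit 3778288957) (nat_lit 924) (nat_lit 3778288957) (nat_lit 128) (nat_lit 3) (nat_lit 139) (nat_lit 3)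 (nat_lit 139) (nat_lit 5) (nat_lit 278) (nat_lit 278) (nat_lit 164))) (XT.nd (nat_lit 94) (nat_lit 0) (nat_lit 84) (XT.lf (nat_lit 84) (nat_lit 5610448347) (nat_lit 0) (nat_lit 5706474956) (nat_lit 924) (nat_lit 15298182224) (nat_lit 129) (nat_lit 5) (nat_lit 128) (nat_lit 3) (nat_lit 139) (nat_lit 5) (nat_lit 279) (nat_lit 278) (nat_lit 163)) (XT.lf (nat_lit 0) (nat_lit 12038062069) (nat_lit 840) (nat_lit 7707818470) (nat_lit 924) (nat_lit 7529265592) (nat_lit 129) (nat_lit 5) (nat_lit 139) (nat_lit 5) (nat_lit 140) (nat_lit 5) (nat_lit 280) (nat_lit 278) (nat_lit 162)))) (XT.nd (nat_lit 188) (nat_lit 0) (nat_lit 84) (XT.nd (nat_lit 94) (nat_lit 0) (nat_lit 84) (XT.lf (nat_lit 84) (nat_lit 6360372171) (nat_lit 0) (nat_lit 6621876444) (nat_lit 924) (nat_lit 14976590610) (nat_lit 130) (nat_lit 5) (nat_lit 129) (nat_lit 5) (nat_lit 140) (nat_lit 5) (nat_lit 281) (nat_lit 278)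 (nat_lit 161)) (XT.lf (nat_lit 0) (nat_lit 14212479625) (nat_lit 840) (nat_lit 7388293320) (nat_lit 924) (nat_lit 7064002271) (nat_lit 130) (nat_lit 5) (nat_lit 140) (nat_lit 5) (nat_lit 141) (nat_lit 5) (nat_lit 282) (nat_lit 278) (nat_lit 160))) (XT.nd (nat_lit 94) (nat_lit 0) (nat_lit 84) (XT.lf (nat_lit 84) (nat_lit 7665588020) (nat_lit 0) (nat_lit 8061535603) (nat_lit 924) (nat_lit 13667739312) (nat_lit 131) (nat_lit 5) (nat_lit 130) (nat_lit 5) (nat_lit 141) (nat_lit 5) (nat_lit 283) (nat_lit 278) (nat_lit 159)) (XT.lf (nat_lit 0) (nat_lit 17535655568) (nat_lit 840) (nat_lit 6528489604) (nat_lit 924) (nat_lit 6086402079) (nat_lit 131) (nat_lit 5) (nat_lit 141) (nat_lit 5) (nat_lit 142) (nat_lit 5) (nat_lit 284) (nat_lit 278) (nat_lit 158))))) (XT.nd (nat_lit 376) (nat_lit 1680) (nat_lit 0) (XT.nd (nat_lit 188) (nat_lit 0) (nat_lit 84) (XT.nd (nat_lit 94) (nat_lit 0)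 (nat_lit 84) (XT.lf (nat_lit 84) (nat_lit 9603929807) (nat_lit 0) (nat_lit 10107916940) (nat_lit 924) (nat_lit 11218307406) (nat_lit 132) (nat_lit 5) (nat_lit 131) (nat_lit 5) (nat_lit 142) (nat_lit 5) (nat_lit 285) (nat_lit 278) (nat_lit 157)) (XT.lf (nat_lit 0) (nat_lit 22175526300) (nat_lit 840) (nat_lit 5050206837) (nat_lit 924) (nat_lit 4514074322) (nat_lit 132) (nat_lit 5) (nat_lit 142) (nat_lit 5) (nat_lit 143) (nat_lit 5) (nat_lit 286) (nat_lit 278) (nat_lit 156))) (XT.nd (nat_lit 94) (nat_lit 0) (nat_lit 84) (XT.lf (nat_lit 84) (nat_lit 12262746779) (nat_lit 0) (nat_lit 12852350503) (nat_lit 924) (nat_lit 7457210775) (nat_lit 133) (nat_lit 5) (nat_lit 132) (nat_lit 5) (nat_lit 143) (nat_lit 5) (nat_lit 287) (nat_lit 278) (nat_lit 155)) (XT.lf (nat_lit 0) (nat_lit 28319259739) (nat_lit 840) (nat_lit 2865660309) (nat_lit 84) (nat_lit 2255632990) (nat_lit 133) (nat_lit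 5) (nat_lit 143) (nat_lit 5) (nat_lit 134) (nat_lit 5) (nat_lit 288) (nat_lit 278) (nat_lit 154)))) (XT.nd (nat_lit 188) (nat_lit 420) (nat_lit 0) (XT.nd (nat_lit 94) (nat_lit 588) (nat_lit 0) (XT.lf (nat_lit 0) (nat_lit 15739884853) (nat_lit 840) (nat_lit 16396102612) (nat_lit 924) (nat_lit 2193604948) (nat_lit 123) (nat_lit 5) (nat_lit 133) (nat_lit 5) (nat_lit 134) (nat_lit 5) (nat_lit 289) (nat_lit 278) (nat_lit 153)) (XT.lf (nat_lit 0) (nat_lit 99475907) (nat_lit 504) (nat_lit 799684563) (nat_lit 588) (nat_lit 34360892301) (nat_lit 116) (nat_lit 5) (nat_lit 122) (nat_lit 5) (nat_lit 123) (nat_lit 5) (nat_lit 290) (nat_lit 278) (nat_lit 152))) (XT.nd (nat_lit 94) (nat_lit 420) (nat_lit 0) (XT.lf (nat_lit 0) (nat_lit 4632155615) (nat_lit 588) (nat_lit 16140941686) (nat_lit 84) (nat_lit 15434175261) (nat_lit 116) (nat_lit 5) (nat_lit 123) (nat_lit 5) (nat_lit 117) (nat_lit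 5) (nat_lit 291) (nat_lit 278) (nat_lit 151)) (XT.nd (nat_lit 94) (nat_lit 0) (nat_lit 0) (XT.lf (nat_lit 0) (nat_lit 3938977979) (nat_lit 420) (nat_lit 4683745394) (nat_lit 504) (nat_lit 28575583827) (nat_lit 111) (nat_lit 5) (nat_lit 116) (nat_lit 5) (nat_lit 117) (nat_lit 5) (nat_lit 292) (nat_lit 278) (nat_lit 150)) (XT.lf (nat_lit 0) (nat_lit 13277722395) (nat_lit 504) (nat_lit 12840848174) (nat_lit 84) (nat_lit 12097077856) (nat_lit 111) (nat_lit 5) (nat_lit 117) (nat_lit 5) (nat_lit 112) (nat_lit 5) (nat_lit 293) (nat_lit 278) (nat_lit 149))))))))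
noncomputable def xc188 : XT := (XT.nd (nat_lit 1598) (nat_lit 2268) (nat_lit 0) (XT.nd (nat_lit 752) (nat_lit 1512) (nat_lit 0) (XT.nd (nat_lit 376) (nat_lit 1092) (nat_lit 0) (XT.nd (nat_lit 188) (nat_lit 336) (nat_lit 0) (XT.nd (nat_lit 94) (nat_lit 0) (nat_lit 0) (XT.lf (nat_lit 0) (nat_lit 8799825181) (nat_lit 420) (nat_lit 9576422183) (nat_lit 504) (nat_lit 20897070549) (nat_lit 106) (nat_lit 5) (nat_lit 111) (nat_lit 5) (nat_lit 112) (nat_lit 5) (nat_lit 294) (nat_lit 278) (nat_lit 148)) (XT.lf (nat_lit 0) (nat_lit 24069103462) (nat_lit 504) (nat_lit 8533594065) (nat_lit 84) (nat_lit 7764203102) (nat_lit 106) (nat_lit 5) (nat_lit 112) (nat_lit 5) (nat_lit 107) (nat_lit 5) (nat_lit 295) (nat_lit 278) (nat_lit 147))) (XT.nd (nat_lit 94) (nat_lit 0) (nat_lit 0) (XT.lf (nat_lit 0) (nat_lit 14817021507) (nat_lit 336) (nat_lit 15614769393) (nat_lit 420) (nat_lit 11064112156)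 (nat_lit 102) (nat_lit 5) (nat_lit 106) (nat_lit 5) (nat_lit 107) (nat_lit 5) (nat_lit 296) (nat_lit 278) (nat_lit 146)) (XT.lf (nat_lit 0) (nat_lit 37291154136) (nat_lit 420) (nat_lit 3083377427) (nat_lit 84) (nat_lit 2297896970) (nat_lit 102) (nat_lit 5) (nat_lit 107) (nat_lit 5) (nat_lit 103) (nat_lit 5) (nat_lit 297) (nat_lit 278) (nat_lit 145)))) (XT.nd (nat_lit 188) (nat_lit 336) (nat_lit 0) (XT.nd (nat_lit 94) (nat_lit 336) (nat_lit 0) (XT.lf (nat_lit 0) (nat_lit 1175536334) (nat_lit 420) (nat_lit 21755667047) (nat_lit 84) (nat_lit 20945690812) (nat_lit 97) (nat_lit 5) (nat_lit 102) (nat_lit 5) (nat_lit 98) (nat_lit 5) (nat_lit 298) (nat_lit 278) (nat_lit 144)) (XT.lf (nat_lit 0) (nat_lit 3576039111) (nat_lit 336) (nat_lit 4409344656) (nat_lit 420) (nat_lit 37146486375) (nat_lit 93) (nat_lit 5) (nat_lit 97) (nat_lit 5) (nat_lit 98) (nat_lit 5) (nat_lit 299) (nat_lit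 278) (nat_lit 143))) (XT.nd (nat_lit 94) (nat_lit 336) (nat_lit 0) (XT.lf (nat_lit 0) (nat_lit 15742209807) (nat_lit 420) (nat_lit 15745922735) (nat_lit 84) (nat_lit 14931138033) (nat_lit 93) (nat_lit 5) (nat_lit 98) (nat_lit 5) (nat_lit 94) (nat_lit 5) (nat_lit 300) (nat_lit 278) (nat_lit 142)) (XT.lf (nat_lit 0) (nat_lit 11651740971) (nat_lit 336) (nat_lit 12486678409) (nat_lit 420) (nat_lit 23620044541) (nat_lit 89) (nat_lit 5) (nat_lit 93) (nat_lit 5) (nat_lit 94) (nat_lit 5) (nat_lit 301) (nat_lit 278) (nat_lit 141))))) (XT.nd (nat_lit 376) (nat_lit 840) (nat_lit 0) (XT.nd (nat_lit 188) (nat_lit 420) (nat_lit 0) (XT.nd (nat_lit 94) (nat_lit 252) (nat_lit 0) (XT.lf (nat_lit 0) (nat_lit 33339427538) (nat_lit 420) (nat_lit 8309698814) (nat_lit 84) (nat_lit 7496241175) (nat_lit 89) (nat_lit 5) (nat_lit 94) (nat_lit 5) (nat_lit 90) (nat_lit 5) (nat_lit 302) (nat_lit 278)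 (nat_lit 140)) (XT.lf (nat_lit 0) (nat_lit 21352610818) (nat_lit 252) (nat_lit 22183477148) (nat_lit 336) (nat_lit 7038748254) (nat_lit 86) (nat_lit 5) (nat_lit 89) (nat_lit 5) (nat_lit 90) (nat_lit 5) (nat_lit 303) (nat_lit 278) (nat_lit 139))) (XT.nd (nat_lit 94) (nat_lit 0) (nat_lit 0) (XT.lf (nat_lit 0) (nat_lit 700769277) (nat_lit 336) (nat_lit 1548215312) (nat_lit 420) (nat_lit 49817525629) (nat_lit 81) (nat_lit 5) (nat_lit 85) (nat_lit 5) (nat_lit 86) (nat_lit 5) (nat_lit 304) (nat_lit 278) (nat_lit 138)) (XT.lf (nat_lit 0) (nat_lit 12579280282) (nat_lit 420) (nat_lit 20914555848) (nat_lit 84) (nat_lit 20092426104) (nat_lit 81) (nat_lit 5) (nat_lit 86) (nat_lit 5) (nat_lit 82) (nat_lit 5) (nat_lit 305) (nat_lit 278) (nat_lit 137)))) (XT.nd (nat_lit 188) (nat_lit 588) (nat_lit 0) (XT.nd (nat_lit 94) (nat_lit 0) (nat_lit 0) (XT.lf (nat_lit 0) (nat_lit 11395327054) (nat_lit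 252) (nat_lit 12231778972) (nat_lit 336) (nat_lit 31544845062) (nat_lit 78) (nat_lit 5) (nat_lit 81) (nat_lit 5) (nat_lit 82) (nat_lit 5) (nat_lit 306) (nat_lit 278) (nat_lit 136)) (XT.lf (nat_lit 0) (nat_lit 35742680119) (nat_lit 336) (nat_lit 10939043960) (nat_lit 84) (nat_lit 10129432452) (nat_lit 78) (nat_lit 5) (nat_lit 82) (nat_lit 5) (nat_lit 79) (nat_lit 5) (nat_lit 307) (nat_lit 278) (nat_lit 135))) (XT.nd (nat_lit 94) (nat_lit 336) (nat_lit 0) (XT.lf (nat_lit 0) (nat_lit 24108421587) (nat_lit 252) (nat_lit 24930405127) (nat_lit 336) (nat_lit 9464755843) (nat_lit 75) (nat_lit 5) (nat_lit 78) (nat_lit 5) (nat_lit 79) (nat_lit 5) (nat_lit 308) (nat_lit 278) (nat_lit 134)) (XT.nd (nat_lit 94) (nat_lit 0) (nat_lit 0) (XT.lf (nat_lit 0) (nat_lit 1000078083) (nat_lit 252) (nat_lit 1833844510) (nat_lit 336) (nat_lit 57434494530) (nat_lit 71) (nat_lit 5) (nat_lit 74) (nat_lit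 5) (nat_lit 75) (nat_lit 5) (nat_lit 309) (nat_lit 278) (nat_lit 133)) (XT.lf (nat_lit 0) (nat_lit 16369435055) (nat_lit 336) (nat_lit 23251026079) (nat_lit 84) (nat_lit 22446275389) (nat_lit 71) (nat_lit 5) (nat_lit 75) (nat_lit 5) (nat_lit 72) (nat_lit 5) (nat_lit 310) (nat_lit 278) (nat_lit 132))))))) (XT.nd (nat_lit 752) (nat_lit 1092) (nat_lit 0) (XT.nd (nat_lit 376) (nat_lit 420) (nat_lit 0) (XT.nd (nat_lit 188) (nat_lit 504) (nat_lit 0) (XT.nd (nat_lit 94) (nat_lit 0) (nat_lit 0) (XT.lf (nat_lit 0) (nat_lit 15014652900) (nat_lit 252) (nat_lit 15829582092) (nat_lit 336) (nat_lit 33097611308) (nat_lit 68) (nat_lit 5) (nat_lit 71) (nat_lit 5) (nat_lit 72) (nat_lit 5) (nat_lit 311) (nat_lit 278) (nat_lit 131)) (XT.lf (nat_lit 0) (nat_lit 46583927600) (nat_lit 336) (nat_lit 10042540786) (nat_lit 84) (nat_lit 9257185546) (nat_lit 68) (nat_lit 5) (nat_lit 72) (nat_lit 5)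 (nat_lit 69) (nat_lit 5) (nat_lit 312) (nat_lit 278) (nat_lit 130))) (XT.nd (nat_lit 94) (nat_lit 336) (nat_lit 0) (XT.lf (nat_lit 0) (nat_lit 31533216229) (nat_lit 168) (nat_lit 32327364042) (nat_lit 252) (nat_lit 4024472905) (nat_lit 66) (nat_lit 5) (nat_lit 68) (nat_lit 5) (nat_lit 69) (nat_lit 5) (nat_lit 313) (nat_lit 278) (nat_lit 129)) (XT.lf (nat_lit 0) (nat_lit 5542522543) (nat_lit 252) (nat_lit 6345044234) (nat_lit 336) (nat_lit 58076698369) (nat_lit 62) (nat_lit 5) (nat_lit 65) (nat_lit 5) (nat_lit 66) (nat_lit 5) (nat_lit 314) (nat_lit 278) (nat_lit 128)))) (XT.nd (nat_lit 188) (nat_lit 252) (nat_lit 0) (XT.nd (nat_lit 94) (nat_lit 168) (nat_lit 0) (XT.lf (nat_lit 0) (nat_lit 29410756297) (nat_lit 336) (nat_lit 21728872284) (nat_lit 84) (nat_lit 20956970558) (nat_lit 62) (nat_lit 5) (nat_lit 66) (nat_lit 5) (nat_lit 63) (nat_lit 5) (nat_lit 315) (nat_lit 278)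 (nat_lit 127)) (XT.lf (nat_lit 0) (nat_lit 23752050805) (nat_lit 168) (nat_lit 24531186203) (nat_lit 252) (nat_lit 26028656239) (nat_lit 60) (nat_lit 5) (nat_lit 62) (nat_lit 5) (nat_lit 63) (nat_lit 5) (nat_lit 316) (nat_lit 278) (nat_lit 126))) (XT.nd (nat_lit 94) (nat_lit 252) (nat_lit 0) (XT.lf (nat_lit 0) (nat_lit 68524867855) (nat_lit 252) (nat_lit 4420201382) (nat_lit 84) (nat_lit 3671606518) (nat_lit 60) (nat_lit 5) (nat_lit 63) (nat_lit 5) (nat_lit 61) (nat_lit 5) (nat_lit 317) (nat_lit 278) (nat_lit 125)) (XT.lf (nat_lit 0) (nat_lit 11520282349) (nat_lit 252) (nat_lit 34103381367) (nat_lit 84) (nat_lit 33348537786) (nat_lit 57) (nat_lit 5) (nat_lit 60) (nat_lit 5) (nat_lit 58) (nat_lit 5) (nat_lit 318) (nat_lit 278) (nat_lit 124))))) (XT.nd (nat_lit 376) (nat_lit 504) (nat_lit 0) (XT.nd (nat_lit 188) (nat_lit 420) (nat_lit 0) (XT.nd (nat_lit 94) (nat_lit 0) (nat_lit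 0) (XT.lf (nat_lit 0) (nat_lit 15699920891) (nat_lit 168) (nat_lit 16460715631) (nat_lit 252) (nat_lit 49262254525) (nat_lit 55) (nat_lit 5) (nat_lit 57) (nat_lit 5) (nat_lit 58) (nat_lit 5) (nat_lit 319) (nat_lit 278) (nat_lit 123)) (XT.lf (nat_lit 0) (nat_lit 54639527649) (nat_lit 252) (nat_lit 15023112876) (nat_lit 84) (nat_lit 14293148581) (nat_lit 55) (nat_lit 5) (nat_lit 58) (nat_lit 5) (nat_lit 56) (nat_lit 5) (nat_lit 320) (nat_lit 278) (nat_lit 122))) (XT.nd (nat_lit 94) (nat_lit 252) (nat_lit 0) (XT.lf (nat_lit 0) (nat_lit 39193758352) (nat_lit 168) (nat_lit 39928863482) (nat_lit 252) (nat_lit 7448697310) (nat_lit 53) (nat_lit 5) (nat_lit 55) (nat_lit 5) (nat_lit 56) (nat_lit 5) (nat_lit 321) (nat_lit 278) (nat_lit 121)) (XT.lf (nat_lit 0) (nat_lit 7323593033) (nat_lit 168) (nat_lit 8063594197) (nat_lit 252) (nat_lit 73899757428) (nat_lit 50) (nat_lit 5) (nat_lit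 52) (nat_lit 5) (nat_lit 53) (nat_lit 5) (nat_lit 322) (nat_lit 278) (nat_lit 120)))) (XT.nd (nat_lit 188) (nat_lit 336) (nat_lit 0) (XT.nd (nat_lit 94) (nat_lit 168) (nat_lit 0) (XT.lf (nat_lit 0) (nat_lit 40325052297) (nat_lit 252) (nat_lit 26227935975) (nat_lit 84) (nat_lit 25518732116) (nat_lit 50) (nat_lit 5) (nat_lit 53) (nat_lit 5) (nat_lit 51) (nat_lit 5) (nat_lit 323) (nat_lit 278) (nat_lit 119)) (XT.lf (nat_lit 0) (nat_lit 33222925604) (nat_lit 168) (nat_lit 33936358840) (nat_lit 252) (nat_lit 27803976769) (nat_lit 48) (nat_lit 5) (nat_lit 50) (nat_lit 5) (nat_lit 51) (nat_lit 5) (nat_lit 324) (nat_lit 278) (nat_lit 118))) (XT.nd (nat_lit 94) (nat_lit 336) (nat_lit 0) (XT.lf (nat_lit 0) (nat_lit 95790143843) (nat_lit 252) (nat_lit 1434892925) (nat_lit 84) (nat_lit 751596530) (nat_lit 48) (nat_lit 5) (nat_lit 51) (nat_lit 5) (nat_lit 49) (nat_lit 4) (nat_lit 325)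 (nat_lit 278) (nat_lit 117)) (XT.nd (nat_lit 94) (nat_lit 168) (nat_lit 0) (XT.lf (nat_lit 0) (nat_lit 25490393541) (nat_lit 168) (nat_lit 38119733240) (nat_lit 84) (nat_lit 37432783349) (nat_lit 46) (nat_lit 5) (nat_lit 48) (nat_lit 5) (nat_lit 47) (nat_lit 5) (nat_lit 326) (nat_lit 278) (nat_lit 116)) (XT.lf (nat_lit 0) (nat_lit 27116974316) (nat_lit 168) (nat_lit 27807403726) (nat_lit 252) (nat_lit 49313993670) (nat_lit 44) (nat_lit 5) (nat_lit 46) (nat_lit 5) (nat_lit 47) (nat_lit 5) (nat_lit 327) (nat_lit 278) (nat_lit 115))))))))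
noncomputable def xc189 : XT := (XT.nd (nat_lit 1598) (nat_lit 756) (nat_lit 0) (XT.nd (nat_lit 752) (nat_lit 924) (nat_lit 0) (XT.nd (nat_lit 376) (nat_lit 420) (nat_lit 0) (XT.nd (nat_lit 188) (nat_lit 168) (nat_lit 0) (XT.nd (nat_lit 94) (nat_lit 168) (nat_lit 0) (XT.lf (nat_lit 0) (nat_lit 86637677164) (nat_lit 252) (nat_lit 10788128143) (nat_lit 84) (nat_lit 10127420297) (nat_lit 44) (nat_lit 5) (nat_lit 47) (nat_lit 5) (nat_lit 45) (nat_lit 4) (nat_lit 328) (nat_lit 278) (nat_lit 114)) (XT.lf (nat_lit 0) (nat_lit 10037362652) (nat_lit 168) (nat_lit 50791124378) (nat_lit 84) (nat_lit 50127410792) (nat_lit 42) (nat_lit 5) (nat_lit 44) (nat_lit 5) (nat_lit 43) (nat_lit 5) (nat_lit 329) (nat_lit 278) (nat_lit 113))) (XT.nd (nat_lit 94) (nat_lit 0) (nat_lit 0) (XT.lf (nat_lit 0) (nat_lit 20839121676) (nat_lit 168) (nat_lit 21505697871) (nat_lit 252) (nat_lit 72141250221)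 (nat_lit 40) (nat_lit 5) (nat_lit 42) (nat_lit 5) (nat_lit 43) (nat_lit 5) (nat_lit 330) (nat_lit 278) (nat_lit 112)) (XT.lf (nat_lit 0) (nat_lit 77449548803) (nat_lit 252) (nat_lit 20660768737) (nat_lit 84) (nat_lit 20023337795) (nat_lit 40) (nat_lit 5) (nat_lit 43) (nat_lit 5) (nat_lit 41) (nat_lit 4) (nat_lit 331) (nat_lit 278) (nat_lit 111)))) (XT.nd (nat_lit 188) (nat_lit 84) (nat_lit 0) (XT.nd (nat_lit 94) (nat_lit 252) (nat_lit 0) (XT.lf (nat_lit 0) (nat_lit 57459036736) (nat_lit 84) (nat_lit 58098940507) (nat_lit 168) (nat_lit 6343219800) (nat_lit 39) (nat_lit 5) (nat_lit 40) (nat_lit 5) (nat_lit 41) (nat_lit 4) (nat_lit 332) (nat_lit 278) (nat_lit 110)) (XT.lf (nat_lit 0) (nat_lit 14349946405) (nat_lit 168) (nat_lit 14992205253) (nat_lit 252) (nat_lit 96462842848) (nat_lit 36) (nat_lit 5) (nat_lit 38) (nat_lit 5) (nat_lit 39) (nat_lit 5) (nat_lit 333) (nat_lit 278)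 (nat_lit 109))) (XT.nd (nat_lit 94) (nat_lit 84) (nat_lit 0) (XT.lf (nat_lit 0) (nat_lit 68179290683) (nat_lit 252) (nat_lit 31127134687) (nat_lit 84) (nat_lit 30513323472) (nat_lit 36) (nat_lit 5) (nat_lit 39) (nat_lit 5) (nat_lit 37) (nat_lit 4) (nat_lit 334) (nat_lit 278) (nat_lit 108)) (XT.lf (nat_lit 0) (nat_lit 54720719830) (nat_lit 84) (nat_lit 55336565449) (nat_lit 168) (nat_lit 23923005686) (nat_lit 35) (nat_lit 5) (nat_lit 36) (nat_lit 5) (nat_lit 37) (nat_lit 4) (nat_lit 335) (nat_lit 278) (nat_lit 107))))) (XT.nd (nat_lit 376) (nat_lit 336) (nat_lit 0) (XT.nd (nat_lit 188) (nat_lit 336) (nat_lit 0) (XT.nd (nat_lit 94) (nat_lit 0) (nat_lit 0) (XT.lf (nat_lit 0) (nat_lit 7607057386) (nat_lit 168) (nat_lit 8224840531) (nat_lit 252) (nat_lit 122472049258) (nat_lit 32) (nat_lit 5) (nat_lit 34) (nat_lit 5) (nat_lit 35) (nat_lit 5) (nat_lit 336) (nat_lit 278) (nat_lit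 106)) (XT.lf (nat_lit 0) (nat_lit 58777681761) (nat_lit 252) (nat_lit 42268131230) (nat_lit 84) (nat_lit 41678008936) (nat_lit 32) (nat_lit 5) (nat_lit 35) (nat_lit 5) (nat_lit 33) (nat_lit 4) (nat_lit 337) (nat_lit 278) (nat_lit 105))) (XT.nd (nat_lit 94) (nat_lit 252) (nat_lit 0) (XT.lf (nat_lit 0) (nat_lit 52113184111) (nat_lit 84) (nat_lit 52704980113) (nat_lit 168) (nat_lit 42499155722) (nat_lit 31) (nat_lit 5) (nat_lit 32) (nat_lit 5) (nat_lit 33) (nat_lit 4) (nat_lit 338) (nat_lit 278) (nat_lit 104)) (XT.lf (nat_lit 0) (nat_lit 564732461) (nat_lit 168) (nat_lit 1158122470) (nat_lit 252) (nat_lit 150380075090) (nat_lit 28) (nat_lit 5) (nat_lit 30) (nat_lit 5) (nat_lit 31) (nat_lit 5) (nat_lit 339) (nat_lit 278) (nat_lit 103)))) (XT.nd (nat_lit 188) (nat_lit 252) (nat_lit 0) (XT.nd (nat_lit 94) (nat_lit 84) (nat_lit 0) (XT.lf (nat_lit 0) (nat_lit 49192375218) (nat_lit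 252) (nat_lit 54171978096) (nat_lit 84) (nat_lit 53605398941) (nat_lit 28) (nat_lit 5) (nat_lit 31) (nat_lit 5) (nat_lit 29) (nat_lit 4) (nat_lit 340) (nat_lit 278) (nat_lit 102)) (XT.lf (nat_lit 0) (nat_lit 49630133617) (nat_lit 84) (nat_lit 50198089736) (nat_lit 168) (nat_lit 62212049657) (nat_lit 27) (nat_lit 5) (nat_lit 28) (nat_lit 5) (nat_lit 29) (nat_lit 4) (nat_lit 341) (nat_lit 278) (nat_lit 101))) (XT.nd (nat_lit 94) (nat_lit 252) (nat_lit 0) (XT.lf (nat_lit 0) (nat_lit 154015182651) (nat_lit 168) (nat_lit 6920165375) (nat_lit 0) (nat_lit 6378005839) (nat_lit 27) (nat_lit 5) (nat_lit 29) (nat_lit 4) (nat_lit 27) (nat_lit 4) (nat_lit 342) (nat_lit 278) (nat_lit 100)) (XT.nd (nat_lit 94) (nat_lit 84) (nat_lit 0) (XT.lf (nat_lit 0) (nat_lit 39367490860) (nat_lit 168) (nat_lit 66935010021) (nat_lit 84) (nat_lit 66391661012) (nat_lit 25) (nat_lit 5) (nat_lit 27) (nat_lit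 5) (nat_lit 26) (nat_lit 4) (nat_lit 343) (nat_lit 278) (nat_lit 99)) (XT.lf (nat_lit 0) (nat_lit 47265584304) (nat_lit 84) (nat_lit 47810066145) (nat_lit 168) (nat_lit 83214653726) (nat_lit 24) (nat_lit 5) (nat_lit 25) (nat_lit 5) (nat_lit 26) (nat_lit 4) (nat_lit 344) (nat_lit 278) (nat_lit 98))))))) (XT.nd (nat_lit 752) (nat_lit 84) (nat_lit 0) (XT.nd (nat_lit 376) (nat_lit 420) (nat_lit 0) (XT.nd (nat_lit 188) (nat_lit 84) (nat_lit 0) (XT.nd (nat_lit 94) (nat_lit 168) (nat_lit 0) (XT.lf (nat_lit 0) (nat_lit 154932879149) (nat_lit 168) (nat_lit 14842386505) (nat_lit 0) (nat_lit 14322804859) (nat_lit 24) (nat_lit 5) (nat_lit 26) (nat_lit 4) (nat_lit 24) (nat_lit 4) (nat_lit 345) (nat_lit 278) (nat_lit 97)) (XT.lf (nat_lit 0) (nat_lit 29243169136) (nat_lit 168) (nat_lit 80662556143) (nat_lit 84) (nat_lit 80141995915) (nat_lit 22) (nat_lit 5) (nat_lit 24) (nat_lit 5) (nat_lit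 23) (nat_lit 4) (nat_lit 346) (nat_lit 278) (nat_lit 96))) (XT.nd (nat_lit 94) (nat_lit 0) (nat_lit 0) (XT.lf (nat_lit 0) (nat_lit 45013847039) (nat_lit 84) (nat_lit 45535339251) (nat_lit 168) (nat_lit 105673893209) (nat_lit 21) (nat_lit 5) (nat_lit 22) (nat_lit 5) (nat_lit 23) (nat_lit 4) (nat_lit 347) (nat_lit 278) (nat_lit 95)) (XT.lf (nat_lit 0) (nat_lit 156652383320) (nat_lit 168) (nat_lit 23232866516) (nat_lit 0) (nat_lit 22735361930) (nat_lit 21) (nat_lit 5) (nat_lit 23) (nat_lit 4) (nat_lit 21) (nat_lit 4) (nat_lit 348) (nat_lit 278) (nat_lit 94)))) (XT.nd (nat_lit 188) (nat_lit 168) (nat_lit 0) (XT.nd (nat_lit 94) (nat_lit 84) (nat_lit 0) (XT.lf (nat_lit 0) (nat_lit 18755082834) (nat_lit 168) (nat_lit 95469906660) (nat_lit 84) (nat_lit 94971596992) (nat_lit 19) (nat_lit 5) (nat_lit 21) (nat_lit 5) (nat_lit 20) (nat_lit 4) (nat_lit 349) (nat_lit 278) (nat_lit 93))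 (XT.lf (nat_lit 0) (nat_lit 42869511796) (nat_lit 84) (nat_lit 43368588210) (nat_lit 168) (nat_lit 129772162348) (nat_lit 18) (nat_lit 5) (nat_lit 19) (nat_lit 5) (nat_lit 20) (nat_lit 4) (nat_lit 350) (nat_lit 278) (nat_lit 92))) (XT.nd (nat_lit 94) (nat_lit 168) (nat_lit 0) (XT.lf (nat_lit 0) (nat_lit 159222231051) (nat_lit 168) (nat_lit 32156024572) (nat_lit 0) (nat_lit 31680018241) (nat_lit 18) (nat_lit 5) (nat_lit 20) (nat_lit 4) (nat_lit 18) (nat_lit 4) (nat_lit 351) (nat_lit 278) (nat_lit 91)) (XT.lf (nat_lit 0) (nat_lit 7833902054) (nat_lit 168) (nat_lit 111483375941) (nat_lit 84) (nat_lit 111006707267) (nat_lit 16) (nat_lit 5) (nat_lit 18) (nat_lit 5) (nat_lit 17) (nat_lit 4) (nat_lit 352) (nat_lit 278) (nat_lit 90))))) (XT.nd (nat_lit 38446) (nat_lit 0) (nat_lit 9576) (XT.nd (nat_lit 38258) (nat_lit 0) (nat_lit 9492) (XT.nd (nat_lit 94) (nat_lit 0) (nat_lit 0)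 (XT.lf (nat_lit 0) (nat_lit 40827432912) (nat_lit 84) (nat_lit 41304732389) (nat_lit 168) (nat_lit 155708985764) (nat_lit 15) (nat_lit 5) (nat_lit 16) (nat_lit 5) (nat_lit 17) (nat_lit 4) (nat_lit 353) (nat_lit 278) (nat_lit 89)) (XT.lf (nat_lit 0) (nat_lit 162697526169) (nat_lit 168) (nat_lit 41682091427) (nat_lit 0) (nat_lit 41226948340) (nat_lit 15) (nat_lit 5) (nat_lit 17) (nat_lit 4) (nat_lit 15) (nat_lit 4) (nat_lit 354) (nat_lit 278) (nat_lit 88))) (XT.nd (nat_lit 94) (nat_lit 0) (nat_lit 0) (XT.lf (nat_lit 0) (nat_lit 5796950274) (nat_lit 924) (nat_lit 3917576539) (nat_lit 924) (nat_lit 3917576539) (nat_lit 128) (nat_lit 3) (nat_lit 139) (nat_lit 3) (nat_lit 139) (nat_lit 5) (nat_lit 279) (nat_lit 279) (nat_lit 162)) (XT.lf (nat_lit 84) (nat_lit 5988623630) (nat_lit 0) (nat_lit 6075722595) (nat_lit 924) (nat_lit 15872435740) (nat_lit 129) (nat_lit 5) (nat_lit 128)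 (nat_lit 3) (nat_lit 139) (nat_lit 5) (nat_lit 280) (nat_lit 279) (nat_lit 161)))) (XT.nd (nat_lit 188) (nat_lit 0) (nat_lit 84) (XT.nd (nat_lit 94) (nat_lit 0) (nat_lit 0) (XT.lf (nat_lit 0) (nat_lit 12811647525) (nat_lit 840) (nat_lit 7990312260) (nat_lit 924) (nat_lit 7828359536) (nat_lit 129) (nat_lit 5) (nat_lit 139) (nat_lit 5) (nat_lit 140) (nat_lit 5) (nat_lit 281) (nat_lit 279) (nat_lit 160)) (XT.lf (nat_lit 84) (nat_lit 6779628282) (nat_lit 0) (nat_lit 7016820367) (nat_lit 924) (nat_lit 15552078157) (nat_lit 130) (nat_lit 5) (nat_lit 129) (nat_lit 5) (nat_lit 140) (nat_lit 5) (nat_lit 282) (nat_lit 279) (nat_lit 159))) (XT.nd (nat_lit 94) (nat_lit 0) (nat_lit 0) (XT.lf (nat_lit 0) (nat_lit 15079380487) (nat_lit 840) (nat_lit 7652480593) (nat_lit 924) (nat_lit 7358339052) (nat_lit 130) (nat_lit 5) (nat_lit 140) (nat_lit 5) (nat_lit 141) (nat_lit 5) (nat_lit 283)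 (nat_lit 279) (nat_lit 158)) (XT.nd (nat_lit 94) (nat_lit 0) (nat_lit 84) (XT.lf (nat_lit 84) (nat_lit 8152397597) (nat_lit 0) (nat_lit 8511533727) (nat_lit 924) (nat_lit 14193152181) (nat_lit 131) (nat_lit 5) (nat_lit 130) (nat_lit 5) (nat_lit 141) (nat_lit 5) (nat_lit 284) (nat_lit 279) (nat_lit 157)) (XT.lf (nat_lit 0) (nat_lit 18555027820) (nat_lit 840) (nat_lit 6748451869) (nat_lit 924) (nat_lit 6347465452) (nat_lit 131) (nat_lit 5) (nat_lit 141) (nat_lit 5) (nat_lit 142) (nat_lit 5) (nat_lit 285) (nat_lit 279) (nat_lit 156))))))))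
noncomputable def xc190 : XT := (XT.nd (nat_lit 1598) (nat_lit 2688) (nat_lit 0) (XT.nd (nat_lit 752) (nat_lit 1848) (nat_lit 0) (XT.nd (nat_lit 376) (nat_lit 1680) (nat_lit 0) (XT.nd (nat_lit 188) (nat_lit 0) (nat_lit 84) (XT.nd (nat_lit 94) (nat_lit 0) (nat_lit 84) (XT.lf (nat_lit 84) (nat_lit 10188871380) (nat_lit 0) (nat_lit 10646002567) (nat_lit 924) (nat_lit 11634916171) (nat_lit 132) (nat_lit 5) (nat_lit 131) (nat_lit 5) (nat_lit 142) (nat_lit 5) (nat_lit 286) (nat_lit 279) (nat_lit 155)) (XT.lf (nat_lit 0) (nat_lit 23414706884) (nat_lit 840) (nat_lit 5195929365) (nat_lit 924) (nat_lit 4709641369) (nat_lit 132) (nat_lit 5) (nat_lit 142) (nat_lit 5) (nat_lit 143) (nat_lit 5) (nat_lit 287) (nat_lit 279) (nat_lit 154))) (XT.nd (nat_lit 94) (nat_lit 0) (nat_lit 84) (XT.lf (nat_lit 84) (nat_lit 12980949549) (nat_lit 0) (nat_lit 13515737507) (nat_lit 924) (nat_lit 7697944659)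 (nat_lit 133) (nat_lit 5) (nat_lit 132) (nat_lit 5) (nat_lit 143) (nat_lit 5) (nat_lit 288) (nat_lit 279) (nat_lit 153)) (XT.lf (nat_lit 0) (nat_lit 29854756668) (nat_lit 840) (nat_lit 2902580043) (nat_lit 84) (nat_lit 2349267283) (nat_lit 133) (nat_lit 5) (nat_lit 143) (nat_lit 5) (nat_lit 134) (nat_lit 5) (nat_lit 289) (nat_lit 279) (nat_lit 152)))) (XT.nd (nat_lit 188) (nat_lit 420) (nat_lit 0) (XT.nd (nat_lit 94) (nat_lit 588) (nat_lit 0) (XT.lf (nat_lit 0) (nat_lit 16631526840) (nat_lit 840) (nat_lit 17226735692) (nat_lit 924) (nat_lit 2182035717) (nat_lit 123) (nat_lit 5) (nat_lit 133) (nat_lit 5) (nat_lit 134) (nat_lit 5) (nat_lit 290) (nat_lit 279) (nat_lit 151)) (XT.lf (nat_lit 0) (nat_lit 211227728) (nat_lit 504) (nat_lit 846337620) (nat_lit 588) (nat_lit 35959817719) (nat_lit 116) (nat_lit 5) (nat_lit 122) (nat_lit 5) (nat_lit 123) (nat_lit 5) (nat_lit 291) (nat_lit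 279) (nat_lit 150))) (XT.nd (nat_lit 94) (nat_lit 420) (nat_lit 0) (XT.lf (nat_lit 0) (nat_lit 4971708858) (nat_lit 588) (nat_lit 16840794020) (nat_lit 84) (nat_lit 16199736038) (nat_lit 116) (nat_lit 5) (nat_lit 123) (nat_lit 5) (nat_lit 117) (nat_lit 5) (nat_lit 292) (nat_lit 279) (nat_lit 149)) (XT.lf (nat_lit 0) (nat_lit 4241392680) (nat_lit 420) (nat_lit 4916918680) (nat_lit 504) (nat_lit 29894688608) (nat_lit 111) (nat_lit 5) (nat_lit 116) (nat_lit 5) (nat_lit 117) (nat_lit 5) (nat_lit 293) (nat_lit 279) (nat_lit 148))))) (XT.nd (nat_lit 376) (nat_lit 1092) (nat_lit 0) (XT.nd (nat_lit 188) (nat_lit 336) (nat_lit 0) (XT.nd (nat_lit 94) (nat_lit 420) (nat_lit 0) (XT.lf (nat_lit 0) (nat_lit 14041101515) (nat_lit 504) (nat_lit 13377488143) (nat_lit 84) (nat_lit 12702866539) (nat_lit 111) (nat_lit 5) (nat_lit 117) (nat_lit 5) (nat_lit 112) (nat_lit 5) (nat_lit 294) (nat_lit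 279) (nat_lit 147)) (XT.lf (nat_lit 0) (nat_lit 9343518841) (nat_lit 420) (nat_lit 10047915214) (nat_lit 504) (nat_lit 21840731037) (nat_lit 106) (nat_lit 5) (nat_lit 111) (nat_lit 5) (nat_lit 112) (nat_lit 5) (nat_lit 295) (nat_lit 279) (nat_lit 146))) (XT.nd (nat_lit 94) (nat_lit 336) (nat_lit 0) (XT.lf (nat_lit 0) (nat_lit 25364452669) (nat_lit 504) (nat_lit 8857029287) (nat_lit 84) (nat_lit 8159169004) (nat_lit 106) (nat_lit 5) (nat_lit 112) (nat_lit 5) (nat_lit 107) (nat_lit 5) (nat_lit 296) (nat_lit 279) (nat_lit 145)) (XT.lf (nat_lit 0) (nat_lit 15659451830) (nat_lit 336) (nat_lit 16383032679) (nat_lit 420) (nat_lit 11523758497) (nat_lit 102) (nat_lit 5) (nat_lit 106) (nat_lit 5) (nat_lit 107) (nat_lit 5) (nat_lit 297) (nat_lit 279) (nat_lit 144)))) (XT.nd (nat_lit 188) (nat_lit 672) (nat_lit 0) (XT.nd (nat_lit 94) (nat_lit 420) (nat_lit 0) (XT.lf (nat_lit 0) (nat_lit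 39240758354) (nat_lit 420) (nat_lit 3136746605) (nat_lit 84) (nat_lit 2424292676) (nat_lit 102) (nat_lit 5) (nat_lit 107) (nat_lit 5) (nat_lit 103) (nat_lit 5) (nat_lit 298) (nat_lit 279) (nat_lit 143)) (XT.lf (nat_lit 0) (nat_lit 1318211408) (nat_lit 420) (nat_lit 22741502452) (nat_lit 84) (nat_lit 22006830130) (nat_lit 97) (nat_lit 5) (nat_lit 102) (nat_lit 5) (nat_lit 98) (nat_lit 5) (nat_lit 299) (nat_lit 279) (nat_lit 142))) (XT.nd (nat_lit 94) (nat_lit 336) (nat_lit 0) (XT.lf (nat_lit 0) (nat_lit 3855144692) (nat_lit 336) (nat_lit 4610977386) (nat_lit 420) (nat_lit 38918268114) (nat_lit 93) (nat_lit 5) (nat_lit 97) (nat_lit 5) (nat_lit 98) (nat_lit 5) (nat_lit 300) (nat_lit 279) (nat_lit 141)) (XT.nd (nat_lit 94) (nat_lit 336) (nat_lit 0) (XT.lf (nat_lit 0) (nat_lit 16607189995) (nat_lit 420) (nat_lit 16434092184) (nat_lit 84) (nat_lit 15695058441) (nat_lit 93) (nat_lit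 5) (nat_lit 98) (nat_lit 5) (nat_lit 94) (nat_lit 5) (nat_lit 301) (nat_lit 279) (nat_lit 140)) (XT.lf (nat_lit 0) (nat_lit 12331855890) (nat_lit 336) (nat_lit 13089168759) (nat_lit 420) (nat_lit 24721578253) (nat_lit 89) (nat_lit 5) (nat_lit 93) (nat_lit 5) (nat_lit 94) (nat_lit 5) (nat_lit 302) (nat_lit 279) (nat_lit 139))))))) (XT.nd (nat_lit 752) (nat_lit 1176) (nat_lit 0) (XT.nd (nat_lit 376) (nat_lit 840) (nat_lit 0) (XT.nd (nat_lit 188) (nat_lit 420) (nat_lit 0) (XT.nd (nat_lit 94) (nat_lit 252) (nat_lit 0) (XT.lf (nat_lit 0) (nat_lit 35078804000) (nat_lit 420) (nat_lit 8629020853) (nat_lit 84) (nat_lit 7891190796) (nat_lit 89) (nat_lit 5) (nat_lit 94) (nat_lit 5) (nat_lit 90) (nat_lit 5) (nat_lit 303) (nat_lit 279) (nat_lit 138)) (XT.lf (nat_lit 0) (nat_lit 22514853246) (nat_lit 252) (nat_lit 23268473500) (nat_lit 336) (nat_lit 7316729567) (nat_lit 86) (nat_lit 5)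 (nat_lit 89) (nat_lit 5) (nat_lit 90) (nat_lit 5) (nat_lit 304) (nat_lit 279) (nat_lit 137))) (XT.nd (nat_lit 94) (nat_lit 0) (nat_lit 0) (XT.lf (nat_lit 0) (nat_lit 831222507) (nat_lit 336) (nat_lit 1599881043) (nat_lit 420) (nat_lit 52235248691) (nat_lit 81) (nat_lit 5) (nat_lit 85) (nat_lit 5) (nat_lit 86) (nat_lit 5) (nat_lit 305) (nat_lit 279) (nat_lit 136)) (XT.lf (nat_lit 0) (nat_lit 13274979234) (nat_lit 420) (nat_lit 21866477639) (nat_lit 84) (nat_lit 21120781726) (nat_lit 81) (nat_lit 5) (nat_lit 86) (nat_lit 5) (nat_lit 82) (nat_lit 5) (nat_lit 306) (nat_lit 279) (nat_lit 135)))) (XT.nd (nat_lit 188) (nat_lit 588) (nat_lit 0) (XT.nd (nat_lit 94) (nat_lit 0) (nat_lit 0) (XT.lf (nat_lit 0) (nat_lit 12057386408) (nat_lit 252) (nat_lit 12816072955) (nat_lit 336) (nat_lit 33053839377) (nat_lit 78) (nat_lit 5) (nat_lit 81) (nat_lit 5) (nat_lit 82) (nat_lit 5) (nat_lit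 307) (nat_lit 279) (nat_lit 134)) (XT.lf (nat_lit 0) (nat_lit 37592122874) (nat_lit 336) (nat_lit 11395408775) (nat_lit 84) (nat_lit 10661067271) (nat_lit 78) (nat_lit 5) (nat_lit 82) (nat_lit 5) (nat_lit 79) (nat_lit 5) (nat_lit 308) (nat_lit 279) (nat_lit 133))) (XT.nd (nat_lit 94) (nat_lit 336) (nat_lit 0) (XT.lf (nat_lit 0) (nat_lit 25402968963) (nat_lit 252) (nat_lit 26148532264) (nat_lit 336) (nat_lit 9874223799) (nat_lit 75) (nat_lit 5) (nat_lit 78) (nat_lit 5) (nat_lit 79) (nat_lit 5) (nat_lit 309) (nat_lit 279) (nat_lit 132)) (XT.lf (nat_lit 0) (nat_lit 1139778876) (nat_lit 252) (nat_lit 1896029603) (nat_lit 336) (nat_lit 60243020012) (nat_lit 71) (nat_lit 5) (nat_lit 74) (nat_lit 5) (nat_lit 75) (nat_lit 5) (nat_lit 310) (nat_lit 279) (nat_lit 131))))) (XT.nd (nat_lit 376) (nat_lit 756) (nat_lit 0) (XT.nd (nat_lit 188) (nat_lit 168) (nat_lit 0) (XT.nd (nat_lit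 94) (nat_lit 252) (nat_lit 0) (XT.lf (nat_lit 0) (nat_lit 17245669136) (nat_lit 336) (nat_lit 24325724348) (nat_lit 84) (nat_lit 23595791749) (nat_lit 71) (nat_lit 5) (nat_lit 75) (nat_lit 5) (nat_lit 72) (nat_lit 5) (nat_lit 311) (nat_lit 279) (nat_lit 130)) (XT.lf (nat_lit 0) (nat_lit 15851821596) (nat_lit 252) (nat_lit 16590986396) (nat_lit 336) (nat_lit 34693312560) (nat_lit 68) (nat_lit 5) (nat_lit 71) (nat_lit 5) (nat_lit 72) (nat_lit 5) (nat_lit 312) (nat_lit 279) (nat_lit 129))) (XT.nd (nat_lit 94) (nat_lit 168) (nat_lit 0) (XT.lf (nat_lit 0) (nat_lit 48967248554) (nat_lit 336) (nat_lit 10460111100) (nat_lit 84) (nat_lit 9747770746) (nat_lit 68) (nat_lit 5) (nat_lit 72) (nat_lit 5) (nat_lit 69) (nat_lit 5) (nat_lit 313) (nat_lit 279) (nat_lit 128)) (XT.lf (nat_lit 0) (nat_lit 33193069948) (nat_lit 168) (nat_lit 33913385424) (nat_lit 252) (nat_lit 4170208158) (nat_lit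 66) (nat_lit 5) (nat_lit 68) (nat_lit 5) (nat_lit 69) (nat_lit 5) (nat_lit 314) (nat_lit 279) (nat_lit 127)))) (XT.nd (nat_lit 188) (nat_lit 420) (nat_lit 0) (XT.nd (nat_lit 94) (nat_lit 0) (nat_lit 0) (XT.lf (nat_lit 0) (nat_lit 5903247087) (nat_lit 252) (nat_lit 6631157917) (nat_lit 336) (nat_lit 60925450404) (nat_lit 62) (nat_lit 5) (nat_lit 65) (nat_lit 5) (nat_lit 66) (nat_lit 5) (nat_lit 315) (nat_lit 279) (nat_lit 126)) (XT.lf (nat_lit 0) (nat_lit 30931718920) (nat_lit 336) (nat_lit 22733663278) (nat_lit 84) (nat_lit 22033525658) (nat_lit 62) (nat_lit 5) (nat_lit 66) (nat_lit 5) (nat_lit 63) (nat_lit 5) (nat_lit 316) (nat_lit 279) (nat_lit 125))) (XT.nd (nat_lit 94) (nat_lit 252) (nat_lit 0) (XT.lf (nat_lit 0) (nat_lit 25019988988) (nat_lit 168) (nat_lit 25726687761) (nat_lit 252) (nat_lit 27278347266) (nat_lit 60) (nat_lit 5) (nat_lit 62) (nat_lit 5) (nat_lit 63)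 (nat_lit 5) (nat_lit 317) (nat_lit 279) (nat_lit 124)) (XT.nd (nat_lit 94) (nat_lit 252) (nat_lit 0) (XT.lf (nat_lit 0) (nat_lit 71998504381) (nat_lit 252) (nat_lit 4562816558) (nat_lit 84) (nat_lit 3883818948) (nat_lit 60) (nat_lit 5) (nat_lit 63) (nat_lit 5) (nat_lit 61) (nat_lit 5) (nat_lit 318) (nat_lit 279) (nat_lit 123)) (XT.lf (nat_lit 0) (nat_lit 12143396687) (nat_lit 252) (nat_lit 35729862630) (nat_lit 84) (nat_lit 35045197250) (nat_lit 57) (nat_lit 5) (nat_lit 60) (nat_lit 5) (nat_lit 58) (nat_lit 5) (nat_lit 319) (nat_lit 279) (nat_lit 122))))))))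
noncomputable def xc191 : XT := (XT.nd (nat_lit 1598) (nat_lit 1596) (nat_lit 0) (XT.nd (nat_lit 752) (nat_lit 924) (nat_lit 0) (XT.nd (nat_lit 376) (nat_lit 336) (nat_lit 0) (XT.nd (nat_lit 188) (nat_lit 420) (nat_lit 0) (XT.nd (nat_lit 94) (nat_lit 0) (nat_lit 0) (XT.lf (nat_lit 0) (nat_lit 16562335584) (nat_lit 168) (nat_lit 17252398840) (nat_lit 252) (nat_lit 51676997872) (nat_lit 55) (nat_lit 5) (nat_lit 57) (nat_lit 5) (nat_lit 58) (nat_lit 5) (nat_lit 320) (nat_lit 279) (nat_lit 121)) (XT.lf (nat_lit 0) (nat_lit 57415842676) (nat_lit 252) (nat_lit 15698809044) (nat_lit 84) (nat_lit 15036709910) (nat_lit 55) (nat_lit 5) (nat_lit 58) (nat_lit 5) (nat_lit 56) (nat_lit 5) (nat_lit 321) (nat_lit 279) (nat_lit 120))) (XT.nd (nat_lit 94) (nat_lit 252) (nat_lit 0) (XT.lf (nat_lit 0) (nat_lit 41227688658) (nat_lit 168) (nat_lit 41894450681) (nat_lit 252) (nat_lit 7775576443)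 (nat_lit 53) (nat_lit 5) (nat_lit 55) (nat_lit 5) (nat_lit 56) (nat_lit 5) (nat_lit 322) (nat_lit 279) (nat_lit 119)) (XT.lf (nat_lit 0) (nat_lit 7764252165) (nat_lit 168) (nat_lit 8435455035) (nat_lit 252) (nat_lit 77549426659) (nat_lit 50) (nat_lit 5) (nat_lit 52) (nat_lit 5) (nat_lit 53) (nat_lit 5) (nat_lit 323) (nat_lit 279) (nat_lit 118)))) (XT.nd (nat_lit 188) (nat_lit 168) (nat_lit 0) (XT.nd (nat_lit 94) (nat_lit 168) (nat_lit 0) (XT.lf (nat_lit 0) (nat_lit 42382875945) (nat_lit 252) (nat_lit 27466810359) (nat_lit 84) (nat_lit 26823541552) (nat_lit 50) (nat_lit 5) (nat_lit 53) (nat_lit 5) (nat_lit 51) (nat_lit 5) (nat_lit 324) (nat_lit 279) (nat_lit 117)) (XT.lf (nat_lit 0) (nat_lit 34955424582) (nat_lit 168) (nat_lit 35602529559) (nat_lit 252) (nat_lit 29151434859) (nat_lit 48) (nat_lit 5) (nat_lit 50) (nat_lit 5) (nat_lit 51) (nat_lit 5) (nat_lit 325) (nat_lit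 279) (nat_lit 116))) (XT.nd (nat_lit 94) (nat_lit 168) (nat_lit 0) (XT.lf (nat_lit 0) (nat_lit 100618873859) (nat_lit 252) (nat_lit 1437199968) (nat_lit 84) (nat_lit 817429995) (nat_lit 48) (nat_lit 5) (nat_lit 51) (nat_lit 5) (nat_lit 49) (nat_lit 4) (nat_lit 326) (nat_lit 279) (nat_lit 115)) (XT.lf (nat_lit 0) (nat_lit 26803964782) (nat_lit 168) (nat_lit 39956111039) (nat_lit 84) (nat_lit 39333027238) (nat_lit 46) (nat_lit 5) (nat_lit 48) (nat_lit 5) (nat_lit 47) (nat_lit 5) (nat_lit 327) (nat_lit 279) (nat_lit 114))))) (XT.nd (nat_lit 376) (nat_lit 420) (nat_lit 0) (XT.nd (nat_lit 188) (nat_lit 336) (nat_lit 0) (XT.nd (nat_lit 94) (nat_lit 0) (nat_lit 0) (XT.lf (nat_lit 0) (nat_lit 28541309171) (nat_lit 168) (nat_lit 29167548999) (nat_lit 252) (nat_lit 51739519066) (nat_lit 44) (nat_lit 5) (nat_lit 46) (nat_lit 5) (nat_lit 47) (nat_lit 5) (nat_lit 328) (nat_lit 279) (nat_lit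 113)) (XT.lf (nat_lit 0) (nat_lit 91006449710) (nat_lit 252) (nat_lit 11260937117) (nat_lit 84) (nat_lit 10661655624) (nat_lit 44) (nat_lit 5) (nat_lit 47) (nat_lit 5) (nat_lit 45) (nat_lit 4) (nat_lit 329) (nat_lit 279) (nat_lit 112))) (XT.nd (nat_lit 94) (nat_lit 168) (nat_lit 0) (XT.lf (nat_lit 0) (nat_lit 10575978576) (nat_lit 168) (nat_lit 53263942267) (nat_lit 84) (nat_lit 52661934480) (nat_lit 42) (nat_lit 5) (nat_lit 44) (nat_lit 5) (nat_lit 43) (nat_lit 5) (nat_lit 330) (nat_lit 279) (nat_lit 111)) (XT.lf (nat_lit 0) (nat_lit 21946739664) (nat_lit 168) (nat_lit 22551343923) (nat_lit 252) (nat_lit 75710488516) (nat_lit 40) (nat_lit 5) (nat_lit 42) (nat_lit 5) (nat_lit 43) (nat_lit 5) (nat_lit 331) (nat_lit 279) (nat_lit 110)))) (XT.nd (nat_lit 188) (nat_lit 336) (nat_lit 0) (XT.nd (nat_lit 94) (nat_lit 84) (nat_lit 0) (XT.lf (nat_lit 0) (nat_lit 81356774632) (nat_lit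 252) (nat_lit 21629997352) (nat_lit 84) (nat_lit 21051828697) (nat_lit 40) (nat_lit 5) (nat_lit 43) (nat_lit 5) (nat_lit 41) (nat_lit 4) (nat_lit 332) (nat_lit 279) (nat_lit 109)) (XT.lf (nat_lit 0) (nat_lit 60394769203) (nat_lit 84) (nat_lit 60975180787) (nat_lit 168) (nat_lit 6624603211) (nat_lit 39) (nat_lit 5) (nat_lit 40) (nat_lit 5) (nat_lit 41) (nat_lit 4) (nat_lit 333) (nat_lit 279) (nat_lit 108))) (XT.nd (nat_lit 94) (nat_lit 84) (nat_lit 0) (XT.lf (nat_lit 0) (nat_lit 15130338402) (nat_lit 168) (nat_lit 15712886109) (nat_lit 252) (nat_lit 101250321457) (nat_lit 36) (nat_lit 5) (nat_lit 38) (nat_lit 5) (nat_lit 39) (nat_lit 5) (nat_lit 334) (nat_lit 279) (nat_lit 107)) (XT.nd (nat_lit 94) (nat_lit 84) (nat_lit 0) (XT.lf (nat_lit 0) (nat_lit 71621033255) (nat_lit 252) (nat_lit 32622404497) (nat_lit 84) (nat_lit 32065659631) (nat_lit 36) (nat_lit 5) (nat_lit 39) (nat_lit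 5) (nat_lit 37) (nat_lit 4) (nat_lit 335) (nat_lit 279) (nat_lit 106)) (XT.lf (nat_lit 0) (nat_lit 57516857473) (nat_lit 84) (nat_lit 58075447603) (nat_lit 168) (nat_lit 25085392660) (nat_lit 35) (nat_lit 5) (nat_lit 36) (nat_lit 5) (nat_lit 37) (nat_lit 4) (nat_lit 336) (nat_lit 279) (nat_lit 105))))))) (XT.nd (nat_lit 752) (nat_lit 756) (nat_lit 0) (XT.nd (nat_lit 376) (nat_lit 252) (nat_lit 0) (XT.nd (nat_lit 188) (nat_lit 336) (nat_lit 0) (XT.nd (nat_lit 94) (nat_lit 0) (nat_lit 0) (XT.lf (nat_lit 0) (nat_lit 8047605732) (nat_lit 168) (nat_lit 8607953256) (nat_lit 252) (nat_lit 128561982236) (nat_lit 32) (nat_lit 5) (nat_lit 34) (nat_lit 5) (nat_lit 35) (nat_lit 5) (nat_lit 337) (nat_lit 279) (nat_lit 104)) (XT.lf (nat_lit 0) (nat_lit 61747523328) (nat_lit 252) (nat_lit 44323100069) (nat_lit 84) (nat_lit 43787841753) (nat_lit 32) (nat_lit 5) (nat_lit 35) (nat_lit 5)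 (nat_lit 33) (nat_lit 4) (nat_lit 338) (nat_lit 279) (nat_lit 103))) (XT.nd (nat_lit 94) (nat_lit 252) (nat_lit 0) (XT.lf (nat_lit 0) (nat_lit 54776338495) (nat_lit 84) (nat_lit 55313114914) (nat_lit 168) (nat_lit 44592213485) (nat_lit 31) (nat_lit 5) (nat_lit 32) (nat_lit 5) (nat_lit 33) (nat_lit 4) (nat_lit 339) (nat_lit 279) (nat_lit 102)) (XT.lf (nat_lit 0) (nat_lit 650541453) (nat_lit 168) (nat_lit 1188763684) (nat_lit 252) (nat_lit 157867256012) (nat_lit 28) (nat_lit 5) (nat_lit 30) (nat_lit 5) (nat_lit 31) (nat_lit 5) (nat_lit 340) (nat_lit 279) (nat_lit 101)))) (XT.nd (nat_lit 188) (nat_lit 168) (nat_lit 0) (XT.nd (nat_lit 94) (nat_lit 84) (nat_lit 0) (XT.lf (nat_lit 0) (nat_lit 51681263637) (nat_lit 252) (nat_lit 56824708372) (nat_lit 84) (nat_lit 56310804376) (nat_lit 28) (nat_lit 5) (nat_lit 31) (nat_lit 5) (nat_lit 29) (nat_lit 4) (nat_lit 341) (nat_lit 279)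 (nat_lit 100)) (XT.lf (nat_lit 0) (nat_lit 52166607821) (nat_lit 84) (nat_lit 52681760763) (nat_lit 168) (nat_lit 65292481374) (nat_lit 27) (nat_lit 5) (nat_lit 28) (nat_lit 5) (nat_lit 29) (nat_lit 4) (nat_lit 342) (nat_lit 279) (nat_lit 99))) (XT.nd (nat_lit 94) (nat_lit 168) (nat_lit 0) (XT.lf (nat_lit 0) (nat_lit 161743697631) (nat_lit 168) (nat_lit 7212845408) (nat_lit 0) (nat_lit 6721090727) (nat_lit 27) (nat_lit 5) (nat_lit 29) (nat_lit 4) (nat_lit 27) (nat_lit 4) (nat_lit 343) (nat_lit 279) (nat_lit 98)) (XT.lf (nat_lit 0) (nat_lit 41363565493) (nat_lit 168) (nat_lit 70228376529) (nat_lit 84) (nat_lit 69735542961) (nat_lit 25) (nat_lit 5) (nat_lit 27) (nat_lit 5) (nat_lit 26) (nat_lit 4) (nat_lit 344) (nat_lit 279) (nat_lit 97))))) (XT.nd (nat_lit 376) (nat_lit 420) (nat_lit 0) (XT.nd (nat_lit 188) (nat_lit 252) (nat_lit 0) (XT.nd (nat_lit 94) (nat_lit 0) (nat_lit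 0) (XT.lf (nat_lit 0) (nat_lit 49681386480) (nat_lit 84) (nat_lit 50175247560) (nat_lit 168) (nat_lit 87346825290) (nat_lit 24) (nat_lit 5) (nat_lit 25) (nat_lit 5) (nat_lit 26) (nat_lit 4) (nat_lit 345) (nat_lit 279) (nat_lit 96)) (XT.lf (nat_lit 0) (nat_lit 162705805406) (nat_lit 168) (nat_lit 15533565194) (nat_lit 0) (nat_lit 15062289324) (nat_lit 24) (nat_lit 5) (nat_lit 26) (nat_lit 4) (nat_lit 24) (nat_lit 4) (nat_lit 346) (nat_lit 279) (nat_lit 95))) (XT.nd (nat_lit 94) (nat_lit 84) (nat_lit 0) (XT.lf (nat_lit 0) (nat_lit 30731564020) (nat_lit 168) (nat_lit 84644697442) (nat_lit 84) (nat_lit 84172533969) (nat_lit 22) (nat_lit 5) (nat_lit 24) (nat_lit 5) (nat_lit 23) (nat_lit 4) (nat_lit 347) (nat_lit 279) (nat_lit 94)) (XT.lf (nat_lit 0) (nat_lit 47314703536) (nat_lit 84) (nat_lit 47787712345) (nat_lit 168) (nat_lit 110930529078) (nat_lit 21) (nat_lit 5) (nat_lit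 22) (nat_lit 5) (nat_lit 23) (nat_lit 4) (nat_lit 348) (nat_lit 279) (nat_lit 93)))) (XT.nd (nat_lit 188) (nat_lit 252) (nat_lit 0) (XT.nd (nat_lit 94) (nat_lit 168) (nat_lit 0) (XT.lf (nat_lit 0) (nat_lit 164509908328) (nat_lit 168) (nat_lit 24345870030) (nat_lit 0) (nat_lit 23894618705) (nat_lit 21) (nat_lit 5) (nat_lit 23) (nat_lit 4) (nat_lit 21) (nat_lit 4) (nat_lit 349) (nat_lit 279) (nat_lit 92)) (XT.lf (nat_lit 0) (nat_lit 19717705079) (nat_lit 168) (nat_lit 100194724442) (nat_lit 84) (nat_lit 99742742884) (nat_lit 19) (nat_lit 5) (nat_lit 21) (nat_lit 5) (nat_lit 20) (nat_lit 4) (nat_lit 350) (nat_lit 279) (nat_lit 91))) (XT.nd (nat_lit 94) (nat_lit 168) (nat_lit 0) (XT.lf (nat_lit 0) (nat_lit 45060879815) (nat_lit 84) (nat_lit 45513556834) (nat_lit 168) (nat_lit 136235117241) (nat_lit 18) (nat_lit 5) (nat_lit 19) (nat_lit 5) (nat_lit 20) (nat_lit 4) (nat_lit 351)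 (nat_lit 279) (nat_lit 90)) (XT.nd (nat_lit 94) (nat_lit 168) (nat_lit 0) (XT.lf (nat_lit 0) (nat_lit 167206959682) (nat_lit 168) (nat_lit 33717399398) (nat_lit 0) (nat_lit 33285647624) (nat_lit 18) (nat_lit 5) (nat_lit 20) (nat_lit 4) (nat_lit 18) (nat_lit 4) (nat_lit 352) (nat_lit 279) (nat_lit 89)) (XT.lf (nat_lit 0) (nat_lit 8249183187) (nat_lit 168) (nat_lit 117011087288) (nat_lit 84) (nat_lit 116578734749) (nat_lit 16) (nat_lit 5) (nat_lit 18) (nat_lit 5) (nat_lit 17) (nat_lit 4) (nat_lit 353) (nat_lit 279) (nat_lit 88))))))))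
noncomputable def xc192 : XT := (XT.nd (nat_lit 1504) (nat_lit 3360) (nat_lit 0) (XT.nd (nat_lit 752) (nat_lit 1428) (nat_lit 0) (XT.nd (nat_lit 376) (nat_lit 0) (nat_lit 168) (XT.nd (nat_lit 188) (nat_lit 0) (nat_lit 84) (XT.nd (nat_lit 94) (nat_lit 0) (nat_lit 0) (XT.lf (nat_lit 0) (nat_lit 6172536894) (nat_lit 924) (nat_lit 4068442335) (nat_lit 924) (nat_lit 4068442335) (nat_lit 128) (nat_lit 3) (nat_lit 139) (nat_lit 3) (nat_lit 139) (nat_lit 5) (nat_lit 280) (nat_lit 280) (nat_lit 160)) (XT.lf (nat_lit 84) (nat_lit 6376628839) (nat_lit 0) (nat_lit 6455630168) (nat_lit 924) (nat_lit 16493127282) (nat_lit 129) (nat_lit 5) (nat_lit 128) (nat_lit 3) (nat_lit 139) (nat_lit 5) (nat_lit 281) (nat_lit 280) (nat_lit 159))) (XT.nd (nat_lit 94) (nat_lit 0) (nat_lit 0) (XT.lf (nat_lit 0) (nat_lit 13607950856) (nat_lit 840) (nat_lit 8296497139) (nat_lit 924) (nat_lit 8149601244)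 (nat_lit 129) (nat_lit 5) (nat_lit 139) (nat_lit 5) (nat_lit 140) (nat_lit 5) (nat_lit 282) (nat_lit 280) (nat_lit 158)) (XT.lf (nat_lit 84) (nat_lit 7210435096) (nat_lit 0) (nat_lit 7425575309) (nat_lit 924) (nat_lit 16172455775) (nat_lit 130) (nat_lit 5) (nat_lit 129) (nat_lit 5) (nat_lit 140) (nat_lit 5) (nat_lit 283) (nat_lit 280) (nat_lit 157)))) (XT.nd (nat_lit 188) (nat_lit 0) (nat_lit 84) (XT.nd (nat_lit 94) (nat_lit 0) (nat_lit 0) (XT.lf (nat_lit 0) (nat_lit 15975097249) (nat_lit 840) (nat_lit 7939660276) (nat_lit 924) (nat_lit 7672865227) (nat_lit 130) (nat_lit 5) (nat_lit 140) (nat_lit 5) (nat_lit 141) (nat_lit 5) (nat_lit 284) (nat_lit 280) (nat_lit 156)) (XT.lf (nat_lit 84) (nat_lit 8653922399) (nat_lit 0) (nat_lit 8979669456) (nat_lit 924) (nat_lit 14759522628) (nat_lit 131) (nat_lit 5) (nat_lit 130) (nat_lit 5) (nat_lit 141) (nat_lit 5) (nat_lit 285) (nat_lit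 280) (nat_lit 155))) (XT.nd (nat_lit 94) (nat_lit 0) (nat_lit 0) (XT.lf (nat_lit 0) (nat_lit 19612112066) (nat_lit 840) (nat_lit 6989310095) (nat_lit 924) (nat_lit 6625603594) (nat_lit 131) (nat_lit 5) (nat_lit 141) (nat_lit 5) (nat_lit 142) (nat_lit 5) (nat_lit 286) (nat_lit 280) (nat_lit 154)) (XT.lf (nat_lit 84) (nat_lit 10793321827) (nat_lit 0) (nat_lit 11207953289) (nat_lit 924) (nat_lit 12085771634) (nat_lit 132) (nat_lit 5) (nat_lit 131) (nat_lit 5) (nat_lit 142) (nat_lit 5) (nat_lit 287) (nat_lit 280) (nat_lit 153))))) (XT.nd (nat_lit 376) (nat_lit 1008) (nat_lit 0) (XT.nd (nat_lit 188) (nat_lit 756) (nat_lit 0) (XT.nd (nat_lit 94) (nat_lit 0) (nat_lit 0) (XT.lf (nat_lit 0) (nat_lit 24703722746) (nat_lit 840) (nat_lit 5358866137) (nat_lit 924) (nat_lit 4917788590) (nat_lit 132) (nat_lit 5) (nat_lit 142) (nat_lit 5) (nat_lit 143) (nat_lit 5) (nat_lit 288) (nat_lit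 280) (nat_lit 152)) (XT.lf (nat_lit 84) (nat_lit 13725294468) (nat_lit 0) (nat_lit 14210362911) (nat_lit 924) (nat_lit 7962999122) (nat_lit 133) (nat_lit 5) (nat_lit 132) (nat_lit 5) (nat_lit 143) (nat_lit 5) (nat_lit 289) (nat_lit 280) (nat_lit 151))) (XT.nd (nat_lit 94) (nat_lit 840) (nat_lit 0) (XT.lf (nat_lit 0) (nat_lit 31455915311) (nat_lit 840) (nat_lit 2951234414) (nat_lit 84) (nat_lit 2449363429) (nat_lit 133) (nat_lit 5) (nat_lit 143) (nat_lit 5) (nat_lit 134) (nat_lit 5) (nat_lit 290) (nat_lit 280) (nat_lit 150)) (XT.lf (nat_lit 0) (nat_lit 17558021771) (nat_lit 840) (nat_lit 18097893746) (nat_lit 924) (nat_lit 2181160652) (nat_lit 123) (nat_lit 5) (nat_lit 133) (nat_lit 5) (nat_lit 134) (nat_lit 5) (nat_lit 291) (nat_lit 280) (nat_lit 149)))) (XT.nd (nat_lit 188) (nat_lit 420) (nat_lit 0) (XT.nd (nat_lit 94) (nat_lit 0) (nat_lit 0) (XT.lf (nat_lit 0) (nat_lit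 318639932) (nat_lit 504) (nat_lit 894703325) (nat_lit 588) (nat_lit 37649763981) (nat_lit 116) (nat_lit 5) (nat_lit 122) (nat_lit 5) (nat_lit 123) (nat_lit 5) (nat_lit 292) (nat_lit 280) (nat_lit 148)) (XT.lf (nat_lit 0) (nat_lit 5318204018) (nat_lit 588) (nat_lit 17585604923) (nat_lit 84) (nat_lit 17004146436) (nat_lit 116) (nat_lit 5) (nat_lit 123) (nat_lit 5) (nat_lit 117) (nat_lit 5) (nat_lit 293) (nat_lit 280) (nat_lit 147))) (XT.nd (nat_lit 94) (nat_lit 0) (nat_lit 0) (XT.lf (nat_lit 0) (nat_lit 4549122906) (nat_lit 420) (nat_lit 5161844902) (nat_lit 504) (nat_lit 31289945116) (nat_lit 111) (nat_lit 5) (nat_lit 116) (nat_lit 5) (nat_lit 117) (nat_lit 5) (nat_lit 294) (nat_lit 280) (nat_lit 146)) (XT.lf (nat_lit 0) (nat_lit 14833399675) (nat_lit 504) (nat_lit 13950759429) (nat_lit 84) (nat_lit 13338857748) (nat_lit 111) (nat_lit 5) (nat_lit 117) (nat_lit 5) (nat_lit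 112) (nat_lit 5) (nat_lit 295) (nat_lit 280) (nat_lit 145)))))) (XT.nd (nat_lit 752) (nat_lit 1512) (nat_lit 0) (XT.nd (nat_lit 376) (nat_lit 1092) (nat_lit 0) (XT.nd (nat_lit 188) (nat_lit 336) (nat_lit 0) (XT.nd (nat_lit 94) (nat_lit 0) (nat_lit 0) (XT.lf (nat_lit 0) (nat_lit 9904755917) (nat_lit 420) (nat_lit 10543664193) (nat_lit 504) (nat_lit 22840982519) (nat_lit 106) (nat_lit 5) (nat_lit 111) (nat_lit 5) (nat_lit 112) (nat_lit 5) (nat_lit 296) (nat_lit 280) (nat_lit 144)) (XT.lf (nat_lit 0) (nat_lit 26716025900) (nat_lit 504) (nat_lit 9206234963) (nat_lit 84) (nat_lit 8573255115) (nat_lit 106) (nat_lit 5) (nat_lit 112) (nat_lit 5) (nat_lit 107) (nat_lit 5) (nat_lit 297) (nat_lit 280) (nat_lit 143))) (XT.nd (nat_lit 94) (nat_lit 0) (nat_lit 0) (XT.lf (nat_lit 0) (nat_lit 16534559794) (nat_lit 336) (nat_lit 17190868954) (nat_lit 420) (nat_lit 12015085408) (nat_lit 102)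 (nat_lit 5) (nat_lit 106) (nat_lit 5) (nat_lit 107) (nat_lit 5) (nat_lit 298) (nat_lit 280) (nat_lit 142)) (XT.lf (nat_lit 0) (nat_lit 41279935964) (nat_lit 420) (nat_lit 3202155642) (nat_lit 84) (nat_lit 2555938926) (nat_lit 102) (nat_lit 5) (nat_lit 107) (nat_lit 5) (nat_lit 103) (nat_lit 5) (nat_lit 299) (nat_lit 280) (nat_lit 141)))) (XT.nd (nat_lit 188) (nat_lit 336) (nat_lit 0) (XT.nd (nat_lit 94) (nat_lit 336) (nat_lit 0) (XT.lf (nat_lit 0) (nat_lit 1460220171) (nat_lit 420) (nat_lit 23786107781) (nat_lit 84) (nat_lit 23119738328) (nat_lit 97) (nat_lit 5) (nat_lit 102) (nat_lit 5) (nat_lit 98) (nat_lit 5) (nat_lit 300) (nat_lit 280) (nat_lit 140)) (XT.lf (nat_lit 0) (nat_lit 4138880272) (nat_lit 336) (nat_lit 4824442806) (nat_lit 420) (nat_lit 40786591879) (nat_lit 93) (nat_lit 5) (nat_lit 97) (nat_lit 5) (nat_lit 98) (nat_lit 5) (nat_lit 301) (nat_lit 280) (nat_lit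 139))) (XT.nd (nat_lit 94) (nat_lit 336) (nat_lit 0) (XT.lf (nat_lit 0) (nat_lit 17508179606) (nat_lit 420) (nat_lit 17165885965) (nat_lit 84) (nat_lit 16495560575) (nat_lit 93) (nat_lit 5) (nat_lit 98) (nat_lit 5) (nat_lit 94) (nat_lit 5) (nat_lit 302) (nat_lit 280) (nat_lit 138)) (XT.lf (nat_lit 0) (nat_lit 13036909338) (nat_lit 336) (nat_lit 13723814434) (nat_lit 420) (nat_lit 25885576880) (nat_lit 89) (nat_lit 5) (nat_lit 93) (nat_lit 5) (nat_lit 94) (nat_lit 5) (nat_lit 303) (nat_lit 280) (nat_lit 137))))) (XT.nd (nat_lit 376) (nat_lit 840) (nat_lit 0) (XT.nd (nat_lit 188) (nat_lit 420) (nat_lit 0) (XT.nd (nat_lit 94) (nat_lit 252) (nat_lit 0) (XT.lf (nat_lit 0) (nat_lit 36898417747) (nat_lit 420) (nat_lit 8973249310) (nat_lit 84) (nat_lit 8304015698) (nat_lit 89) (nat_lit 5) (nat_lit 94) (nat_lit 5) (nat_lit 90) (nat_lit 5) (nat_lit 304) (nat_lit 280) (nat_lit 136))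 (XT.lf (nat_lit 0) (nat_lit 23726411678) (nat_lit 252) (nat_lit 24409967464) (nat_lit 336) (nat_lit 7615485683) (nat_lit 86) (nat_lit 5) (nat_lit 89) (nat_lit 5) (nat_lit 90) (nat_lit 5) (nat_lit 305) (nat_lit 280) (nat_lit 135))) (XT.nd (nat_lit 94) (nat_lit 0) (nat_lit 0) (XT.lf (nat_lit 0) (nat_lit 959327639) (nat_lit 336) (nat_lit 1656523590) (nat_lit 420) (nat_lit 54780659000) (nat_lit 81) (nat_lit 5) (nat_lit 85) (nat_lit 5) (nat_lit 86) (nat_lit 5) (nat_lit 306) (nat_lit 280) (nat_lit 134)) (XT.lf (nat_lit 0) (nat_lit 13999258751) (nat_lit 420) (nat_lit 22874716713) (nat_lit 84) (nat_lit 22198348537) (nat_lit 81) (nat_lit 5) (nat_lit 86) (nat_lit 5) (nat_lit 82) (nat_lit 5) (nat_lit 307) (nat_lit 280) (nat_lit 133)))) (XT.nd (nat_lit 188) (nat_lit 588) (nat_lit 0) (XT.nd (nat_lit 94) (nat_lit 0) (nat_lit 0) (XT.lf (nat_lit 0) (nat_lit 12743968201) (nat_lit 252) (nat_lit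 13432119265) (nat_lit 336) (nat_lit 34644628455) (nat_lit 78) (nat_lit 5) (nat_lit 81) (nat_lit 5) (nat_lit 82) (nat_lit 5) (nat_lit 308) (nat_lit 280) (nat_lit 132)) (XT.lf (nat_lit 0) (nat_lit 39528244891) (nat_lit 336) (nat_lit 11883013787) (nat_lit 84) (nat_lit 11216944395) (nat_lit 78) (nat_lit 5) (nat_lit 82) (nat_lit 5) (nat_lit 79) (nat_lit 5) (nat_lit 309) (nat_lit 280) (nat_lit 131))) (XT.nd (nat_lit 94) (nat_lit 336) (nat_lit 0) (XT.lf (nat_lit 0) (nat_lit 26753957589) (nat_lit 252) (nat_lit 27430205481) (nat_lit 336) (nat_lit 10310093868) (nat_lit 75) (nat_lit 5) (nat_lit 78) (nat_lit 5) (nat_lit 79) (nat_lit 5) (nat_lit 310) (nat_lit 280) (nat_lit 130)) (XT.nd (nat_lit 94) (nat_lit 0) (nat_lit 0) (XT.lf (nat_lit 0) (nat_lit 1278125541) (nat_lit 252) (nat_lit 1964067245) (nat_lit 336) (nat_lit 63197847436) (nat_lit 71) (nat_lit 5) (nat_lit 74) (nat_lit 5) (nat_lit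 75) (nat_lit 5) (nat_lit 311) (nat_lit 280) (nat_lit 129)) (XT.lf (nat_lit 0) (nat_lit 18160344728) (nat_lit 336) (nat_lit 25462325272) (nat_lit 84) (nat_lit 24800254888) (nat_lit 71) (nat_lit 5) (nat_lit 75) (nat_lit 5) (nat_lit 72) (nat_lit 5) (nat_lit 312) (nat_lit 280) (nat_lit 128))))))))
noncomputable def xc193 : XT := (XT.nd (nat_lit 1598) (nat_lit 1680) (nat_lit 0) (XT.nd (nat_lit 752) (nat_lit 1092) (nat_lit 0) (XT.nd (nat_lit 376) (nat_lit 420) (nat_lit 0) (XT.nd (nat_lit 188) (nat_lit 504) (nat_lit 0) (XT.nd (nat_lit 94) (nat_lit 0) (nat_lit 0) (XT.lf (nat_lit 0) (nat_lit 16722812723) (nat_lit 252) (nat_lit 17393256985) (nat_lit 336) (nat_lit 36374300807) (nat_lit 68) (nat_lit 5) (nat_lit 71) (nat_lit 5) (nat_lit 72) (nat_lit 5) (nat_lit 313) (nat_lit 280) (nat_lit 127)) (XT.lf (nat_lit 0) (nat_lit 51464703566) (nat_lit 336) (nat_lit 10906421213) (nat_lit 84)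 (nat_lit 10260307513) (nat_lit 68) (nat_lit 5) (nat_lit 72) (nat_lit 5) (nat_lit 69) (nat_lit 5) (nat_lit 314) (nat_lit 280) (nat_lit 126))) (XT.nd (nat_lit 94) (nat_lit 336) (nat_lit 0) (XT.lf (nat_lit 0) (nat_lit 34928181865) (nat_lit 168) (nat_lit 35581529235) (nat_lit 252) (nat_lit 4328388959) (nat_lit 66) (nat_lit 5) (nat_lit 68) (nat_lit 5) (nat_lit 69) (nat_lit 5) (nat_lit 315) (nat_lit 280) (nat_lit 125)) (XT.lf (nat_lit 0) (nat_lit 6274235669) (nat_lit 252) (nat_lit 6934472250) (nat_lit 336) (nat_lit 63921761126) (nat_lit 62) (nat_lit 5) (nat_lit 65) (nat_lit 5) (nat_lit 66) (nat_lit 5) (nat_lit 316) (nat_lit 280) (nat_lit 124)))) (XT.nd (nat_lit 188) (nat_lit 252) (nat_lit 0) (XT.nd (nat_lit 94) (nat_lit 168) (nat_lit 0) (XT.lf (nat_lit 0) (nat_lit 32524041653) (nat_lit 336) (nat_lit 23796285109) (nat_lit 84) (nat_lit 23161239648) (nat_lit 62) (nat_lit 5) (nat_lit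 66) (nat_lit 5) (nat_lit 63) (nat_lit 5) (nat_lit 317) (nat_lit 280) (nat_lit 123)) (XT.lf (nat_lit 0) (nat_lit 26343855233) (nat_lit 168) (nat_lit 26984851853) (nat_lit 252) (nat_lit 28595333305) (nat_lit 60) (nat_lit 5) (nat_lit 62) (nat_lit 5) (nat_lit 63) (nat_lit 5) (nat_lit 318) (nat_lit 280) (nat_lit 122))) (XT.nd (nat_lit 94) (nat_lit 252) (nat_lit 0) (XT.lf (nat_lit 0) (nat_lit 75641416568) (nat_lit 252) (nat_lit 4719850906) (nat_lit 84) (nat_lit 4103980059) (nat_lit 60) (nat_lit 5) (nat_lit 63) (nat_lit 5) (nat_lit 61) (nat_lit 5) (nat_lit 319) (nat_lit 280) (nat_lit 121)) (XT.lf (nat_lit 0) (nat_lit 12793287810) (nat_lit 252) (nat_lit 37444983602) (nat_lit 84) (nat_lit 36823971919) (nat_lit 57) (nat_lit 5) (nat_lit 60) (nat_lit 5) (nat_lit 58) (nat_lit 5) (nat_lit 320) (nat_lit 280) (nat_lit 120))))) (XT.nd (nat_lit 376) (nat_lit 504) (nat_lit 0) (XT.nd (nat_lit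 188) (nat_lit 420) (nat_lit 0) (XT.nd (nat_lit 94) (nat_lit 0) (nat_lit 0) (XT.lf (nat_lit 0) (nat_lit 17460673359) (nat_lit 168) (nat_lit 18086581074) (nat_lit 252) (nat_lit 54216975313) (nat_lit 55) (nat_lit 5) (nat_lit 57) (nat_lit 5) (nat_lit 58) (nat_lit 5) (nat_lit 321) (nat_lit 280) (nat_lit 119)) (XT.lf (nat_lit 0) (nat_lit 60326851267) (nat_lit 252) (nat_lit 16415305527) (nat_lit 84) (nat_lit 15814762094) (nat_lit 55) (nat_lit 5) (nat_lit 58) (nat_lit 5) (nat_lit 56) (nat_lit 5) (nat_lit 322) (nat_lit 280) (nat_lit 118))) (XT.nd (nat_lit 94) (nat_lit 252) (nat_lit 0) (XT.lf (nat_lit 0) (nat_lit 43356413125) (nat_lit 168) (nat_lit 43961185935) (nat_lit 252) (nat_lit 8123034872) (nat_lit 53) (nat_lit 5) (nat_lit 55) (nat_lit 5) (nat_lit 56) (nat_lit 5) (nat_lit 323) (nat_lit 280) (nat_lit 117)) (XT.lf (nat_lit 0) (nat_lit 8220019858) (nat_lit 168) (nat_lit 8828820647)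 (nat_lit 252) (nat_lit 81385792650) (nat_lit 50) (nat_lit 5) (nat_lit 52) (nat_lit 5) (nat_lit 53) (nat_lit 5) (nat_lit 324) (nat_lit 280) (nat_lit 116)))) (XT.nd (nat_lit 188) (nat_lit 336) (nat_lit 0) (XT.nd (nat_lit 94) (nat_lit 168) (nat_lit 0) (XT.lf (nat_lit 0) (nat_lit 44539725894) (nat_lit 252) (nat_lit 28774370908) (nat_lit 84) (nat_lit 28190907138) (nat_lit 50) (nat_lit 5) (nat_lit 53) (nat_lit 5) (nat_lit 51) (nat_lit 5) (nat_lit 325) (nat_lit 280) (nat_lit 115)) (XT.lf (nat_lit 0) (nat_lit 36767914813) (nat_lit 168) (nat_lit 37354858102) (nat_lit 252) (nat_lit 30570239482) (nat_lit 48) (nat_lit 5) (nat_lit 50) (nat_lit 5) (nat_lit 51) (nat_lit 5) (nat_lit 326) (nat_lit 280) (nat_lit 114))) (XT.nd (nat_lit 94) (nat_lit 336) (nat_lit 0) (XT.lf (nat_lit 0) (nat_lit 105685393809) (nat_lit 252) (nat_lit 1446078014) (nat_lit 84) (nat_lit 883928378) (nat_lit 48) (nat_lit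 5) (nat_lit 51) (nat_lit 5) (nat_lit 49) (nat_lit 4) (nat_lit 327) (nat_lit 280) (nat_lit 113)) (XT.nd (nat_lit 94) (nat_lit 168) (nat_lit 0) (XT.lf (nat_lit 0) (nat_lit 28179583941) (nat_lit 168) (nat_lit 41890779300) (nat_lit 84) (nat_lit 41325623925) (nat_lit 46) (nat_lit 5) (nat_lit 48) (nat_lit 5) (nat_lit 47) (nat_lit 5) (nat_lit 328) (nat_lit 280) (nat_lit 112)) (XT.lf (nat_lit 0) (nat_lit 30030493577) (nat_lit 168) (nat_lit 30598511562) (nat_lit 252) (nat_lit 54290055756) (nat_lit 44) (nat_lit 5) (nat_lit 46) (nat_lit 5) (nat_lit 47) (nat_lit 5) (nat_lit 329) (nat_lit 280) (nat_lit 111))))))) (XT.nd (nat_lit 752) (nat_lit 924) (nat_lit 0) (XT.nd (nat_lit 376) (nat_lit 420) (nat_lit 0) (XT.nd (nat_lit 188) (nat_lit 168) (nat_lit 0) (XT.nd (nat_lit 94) (nat_lit 168) (nat_lit 0) (XT.lf (nat_lit 0) (nat_lit 95590231322) (nat_lit 252) (nat_lit 11763578137) (nat_lit 84)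 (nat_lit 11220012157) (nat_lit 44) (nat_lit 5) (nat_lit 47) (nat_lit 5) (nat_lit 45) (nat_lit 4) (nat_lit 330) (nat_lit 280) (nat_lit 110)) (XT.lf (nat_lit 0) (nat_lit 11138108835) (nat_lit 168) (nat_lit 55866605749) (nat_lit 84) (nat_lit 55320566939) (nat_lit 42) (nat_lit 5) (nat_lit 44) (nat_lit 5) (nat_lit 43) (nat_lit 5) (nat_lit 331) (nat_lit 280) (nat_lit 109))) (XT.nd (nat_lit 94) (nat_lit 0) (nat_lit 0) (XT.lf (nat_lit 0) (nat_lit 23103633931) (nat_lit 168) (nat_lit 23652027816) (nat_lit 252) (nat_lit 79461705263) (nat_lit 40) (nat_lit 5) (nat_lit 42) (nat_lit 5) (nat_lit 43) (nat_lit 5) (nat_lit 332) (nat_lit 280) (nat_lit 108)) (XT.lf (nat_lit 0) (nat_lit 85456131177) (nat_lit 252) (nat_lit 22653619831) (nat_lit 84) (nat_lit 22129203817) (nat_lit 40) (nat_lit 5) (nat_lit 43) (nat_lit 5) (nat_lit 41) (nat_lit 4) (nat_lit 333) (nat_lit 280) (nat_lit 107)))) (XT.nd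 (nat_lit 188) (nat_lit 84) (nat_lit 0) (XT.nd (nat_lit 94) (nat_lit 252) (nat_lit 0) (XT.lf (nat_lit 0) (nat_lit 63471451546) (nat_lit 84) (nat_lit 63997901963) (nat_lit 168) (nat_lit 6923382052) (nat_lit 39) (nat_lit 5) (nat_lit 40) (nat_lit 5) (nat_lit 41) (nat_lit 4) (nat_lit 334) (nat_lit 280) (nat_lit 106)) (XT.lf (nat_lit 0) (nat_lit 15943902648) (nat_lit 168) (nat_lit 16472290591) (nat_lit 252) (nat_lit 106280489653) (nat_lit 36) (nat_lit 5) (nat_lit 38) (nat_lit 5) (nat_lit 39) (nat_lit 5) (nat_lit 335) (nat_lit 280) (nat_lit 105))) (XT.nd (nat_lit 94) (nat_lit 84) (nat_lit 0) (XT.lf (nat_lit 0) (nat_lit 75231815564) (nat_lit 252) (nat_lit 34198117081) (nat_lit 84) (nat_lit 33693133075) (nat_lit 36) (nat_lit 5) (nat_lit 39) (nat_lit 5) (nat_lit 37) (nat_lit 4) (nat_lit 336) (nat_lit 280) (nat_lit 104)) (XT.lf (nat_lit 0) (nat_lit 60447214317) (nat_lit 84) (nat_lit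 60953872031) (nat_lit 168) (nat_lit 26309037975) (nat_lit 35) (nat_lit 5) (nat_lit 36) (nat_lit 5) (nat_lit 37) (nat_lit 4) (nat_lit 337) (nat_lit 280) (nat_lit 103))))) (XT.nd (nat_lit 376) (nat_lit 336) (nat_lit 0) (XT.nd (nat_lit 188) (nat_lit 336) (nat_lit 0) (XT.nd (nat_lit 94) (nat_lit 0) (nat_lit 0) (XT.lf (nat_lit 0) (nat_lit 8504585091) (nat_lit 168) (nat_lit 9012836813) (nat_lit 252) (nat_lit 134959542133) (nat_lit 32) (nat_lit 5) (nat_lit 34) (nat_lit 5) (nat_lit 35) (nat_lit 5) (nat_lit 338) (nat_lit 280) (nat_lit 102)) (XT.lf (nat_lit 0) (nat_lit 64862978841) (nat_lit 252) (nat_lit 46486250335) (nat_lit 84) (nat_lit 46000755264) (nat_lit 32) (nat_lit 5) (nat_lit 35) (nat_lit 5) (nat_lit 33) (nat_lit 4) (nat_lit 339) (nat_lit 280) (nat_lit 101))) (XT.nd (nat_lit 94) (nat_lit 252) (nat_lit 0) (XT.lf (nat_lit 0) (nat_lit 57567305242) (nat_lit 84) (nat_lit 58054177277)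 (nat_lit 168) (nat_lit 46792889898) (nat_lit 31) (nat_lit 5) (nat_lit 32) (nat_lit 5) (nat_lit 33) (nat_lit 4) (nat_lit 340) (nat_lit 280) (nat_lit 100)) (XT.lf (nat_lit 0) (nat_lit 735288362) (nat_lit 168) (nat_lit 1223471791) (nat_lit 252) (nat_lit 165731754565) (nat_lit 28) (nat_lit 5) (nat_lit 30) (nat_lit 5) (nat_lit 31) (nat_lit 5) (nat_lit 341) (nat_lit 280) (nat_lit 99)))) (XT.nd (nat_lit 188) (nat_lit 252) (nat_lit 0) (XT.nd (nat_lit 94) (nat_lit 84) (nat_lit 0) (XT.lf (nat_lit 0) (nat_lit 54291875262) (nat_lit 252) (nat_lit 59615269297) (nat_lit 84) (nat_lit 59149143224) (nat_lit 28) (nat_lit 5) (nat_lit 31) (nat_lit 5) (nat_lit 29) (nat_lit 4) (nat_lit 342) (nat_lit 280) (nat_lit 98)) (XT.lf (nat_lit 0) (nat_lit 54824795375) (nat_lit 84) (nat_lit 55292054279) (nat_lit 168) (nat_lit 68529739670) (nat_lit 27) (nat_lit 5) (nat_lit 28) (nat_lit 5) (nat_lit 29) (nat_lit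 4) (nat_lit 343) (nat_lit 280) (nat_lit 97))) (XT.nd (nat_lit 94) (nat_lit 252) (nat_lit 0) (XT.lf (nat_lit 0) (nat_lit 169856057885) (nat_lit 168) (nat_lit 7525117396) (nat_lit 0) (nat_lit 7079081404) (nat_lit 27) (nat_lit 5) (nat_lit 29) (nat_lit 4) (nat_lit 27) (nat_lit 4) (nat_lit 344) (nat_lit 280) (nat_lit 96)) (XT.nd (nat_lit 94) (nat_lit 84) (nat_lit 0) (XT.lf (nat_lit 0) (nat_lit 43456868566) (nat_lit 168) (nat_lit 73691374501) (nat_lit 84) (nat_lit 73244359926) (nat_lit 25) (nat_lit 5) (nat_lit 27) (nat_lit 5) (nat_lit 26) (nat_lit 4) (nat_lit 345) (nat_lit 280) (nat_lit 95)) (XT.lf (nat_lit 0) (nat_lit 52213095678) (nat_lit 84) (nat_lit 52661042236) (nat_lit 168) (nat_lit 91688260774) (nat_lit 24) (nat_lit 5) (nat_lit 25) (nat_lit 5) (nat_lit 26) (nat_lit 4) (nat_lit 346) (nat_lit 280) (nat_lit 94))))))))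
noncomputable def xc194 : XT := (XT.nd (nat_lit 39950) (nat_lit 0) (nat_lit 5292) (XT.nd (nat_lit 39104) (nat_lit 0) (nat_lit 9240) (XT.nd (nat_lit 376) (nat_lit 252) (nat_lit 0) (XT.nd (nat_lit 188) (nat_lit 84) (nat_lit 0) (XT.nd (nat_lit 94) (nat_lit 168) (nat_lit 0) (XT.lf (nat_lit 0) (nat_lit 170864934497) (nat_lit 168) (nat_lit 16264038794) (nat_lit 0) (nat_lit 15836577688) (nat_lit 24) (nat_lit 5) (nat_lit 26) (nat_lit 4) (nat_lit 24) (nat_lit 4) (nat_lit 347) (nat_lit 280) (nat_lit 93)) (XT.lf (nat_lit 0) (nat_lit 32291939435) (nat_lit 168) (nat_lit 88830686048) (nat_lit 84) (nat_lit 88402419859) (nat_lit 22) (nat_lit 5) (nat_lit 24) (nat_lit 5) (nat_lit 23) (nat_lit 4) (nat_lit 348) (nat_lit 280) (nat_lit 92))) (XT.nd (nat_lit 94) (nat_lit 0) (nat_lit 0) (XT.lf (nat_lit 0) (nat_lit 49725939071) (nat_lit 84) (nat_lit 50154972005) (nat_lit 168) (nat_lit 116452512411)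 (nat_lit 21) (nat_lit 5) (nat_lit 22) (nat_lit 5) (nat_lit 23) (nat_lit 4) (nat_lit 349) (nat_lit 280) (nat_lit 91)) (XT.lf (nat_lit 0) (nat_lit 172757994077) (nat_lit 168) (nat_lit 25519045788) (nat_lit 0) (nat_lit 25109747534) (nat_lit 21) (nat_lit 5) (nat_lit 23) (nat_lit 4) (nat_lit 21) (nat_lit 4) (nat_lit 350) (nat_lit 280) (nat_lit 90)))) (XT.nd (nat_lit 188) (nat_lit 0) (nat_lit 0) (XT.nd (nat_lit 94) (nat_lit 84) (nat_lit 0) (XT.lf (nat_lit 0) (nat_lit 20726146436) (nat_lit 168) (nat_lit 105160308691) (nat_lit 84) (nat_lit 104750348094) (nat_lit 19) (nat_lit 5) (nat_lit 21) (nat_lit 5) (nat_lit 20) (nat_lit 4) (nat_lit 351) (nat_lit 280) (nat_lit 89)) (XT.lf (nat_lit 0) (nat_lit 47357363651) (nat_lit 84) (nat_lit 47767955051) (nat_lit 168) (nat_lit 143023604871) (nat_lit 18) (nat_lit 5) (nat_lit 19) (nat_lit 5) (nat_lit 20) (nat_lit 4) (nat_lit 352) (nat_lit 280)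 (nat_lit 88))) (XT.nd (nat_lit 38446) (nat_lit 0) (nat_lit 9240) (XT.lf (nat_lit 0) (nat_lit 175588729051) (nat_lit 168) (nat_lit 35361159252) (nat_lit 0) (nat_lit 34969547666) (nat_lit 18) (nat_lit 5) (nat_lit 20) (nat_lit 4) (nat_lit 18) (nat_lit 4) (nat_lit 353) (nat_lit 280) (nat_lit 87)) (XT.lf (nat_lit 0) (nat_lit 6558931635) (nat_lit 924) (nat_lit 4231036306) (nat_lit 924) (nat_lit 4231036306) (nat_lit 128) (nat_lit 3) (nat_lit 139) (nat_lit 3) (nat_lit 139) (nat_lit 5) (nat_lit 281) (nat_lit 281) (nat_lit 158))))) (XT.nd (nat_lit 376) (nat_lit 0) (nat_lit 168) (XT.nd (nat_lit 188) (nat_lit 0) (nat_lit 84) (XT.nd (nat_lit 94) (nat_lit 0) (nat_lit 84) (XT.lf (nat_lit 84) (nat_lit 6775799536) (nat_lit 0) (nat_lit 6847456070) (nat_lit 924) (nat_lit 17160930816) (nat_lit 129) (nat_lit 5) (nat_lit 128) (nat_lit 3) (nat_lit 139) (nat_lit 5) (nat_lit 282) (nat_lit 281) (nat_lit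 157)) (XT.lf (nat_lit 0) (nat_lit 14429591895) (nat_lit 840) (nat_lit 8626668269) (nat_lit 924) (nat_lit 8493429362) (nat_lit 129) (nat_lit 5) (nat_lit 139) (nat_lit 5) (nat_lit 140) (nat_lit 5) (nat_lit 283) (nat_lit 281) (nat_lit 156))) (XT.nd (nat_lit 94) (nat_lit 0) (nat_lit 84) (XT.lf (nat_lit 84) (nat_lit 7654245195) (nat_lit 0) (nat_lit 7849383710) (nat_lit 924) (nat_lit 16838469685) (nat_lit 130) (nat_lit 5) (nat_lit 129) (nat_lit 5) (nat_lit 140) (nat_lit 5) (nat_lit 284) (nat_lit 281) (nat_lit 155)) (XT.lf (nat_lit 0) (nat_lit 16902421488) (nat_lit 840) (nat_lit 8250072454) (nat_lit 924) (nat_lit 8008081480) (nat_lit 130) (nat_lit 5) (nat_lit 140) (nat_lit 5) (nat_lit 141) (nat_lit 5) (nat_lit 285) (nat_lit 281) (nat_lit 154)))) (XT.nd (nat_lit 188) (nat_lit 0) (nat_lit 84) (XT.nd (nat_lit 94) (nat_lit 0) (nat_lit 84) (XT.lf (nat_lit 84) (nat_lit 9171793051) (nat_lit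 0) (nat_lit 9467255234) (nat_lit 924) (nat_lit 15367533079) (nat_lit 131) (nat_lit 5) (nat_lit 130) (nat_lit 5) (nat_lit 141) (nat_lit 5) (nat_lit 286) (nat_lit 281) (nat_lit 153)) (XT.lf (nat_lit 0) (nat_lit 20710026382) (nat_lit 840) (nat_lit 7251188872) (nat_lit 924) (nat_lit 6921296354) (nat_lit 131) (nat_lit 5) (nat_lit 141) (nat_lit 5) (nat_lit 142) (nat_lit 5) (nat_lit 287) (nat_lit 281) (nat_lit 152))) (XT.nd (nat_lit 94) (nat_lit 0) (nat_lit 84) (XT.lf (nat_lit 84) (nat_lit 11419161958) (nat_lit 0) (nat_lit 11795244916) (nat_lit 924) (nat_lit 12571338814) (nat_lit 132) (nat_lit 5) (nat_lit 131) (nat_lit 5) (nat_lit 142) (nat_lit 5) (nat_lit 288) (nat_lit 281) (nat_lit 151)) (XT.nd (nat_lit 94) (nat_lit 0) (nat_lit 0) (XT.lf (nat_lit 0) (nat_lit 26046192799) (nat_lit 840) (nat_lit 5538954845) (nat_lit 924) (nat_lit 5138884508) (nat_lit 132) (nat_lit 5) (nat_lit 142)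 (nat_lit 5) (nat_lit 143) (nat_lit 5) (nat_lit 289) (nat_lit 281) (nat_lit 150)) (XT.lf (nat_lit 84) (nat_lit 14497996781) (nat_lit 0) (nat_lit 14937968158) (nat_lit 924) (nat_lit 8252448153) (nat_lit 133) (nat_lit 5) (nat_lit 132) (nat_lit 5) (nat_lit 143) (nat_lit 5) (nat_lit 290) (nat_lit 281) (nat_lit 149))))))) (XT.nd (nat_lit 752) (nat_lit 2100) (nat_lit 0) (XT.nd (nat_lit 376) (nat_lit 840) (nat_lit 0) (XT.nd (nat_lit 188) (nat_lit 588) (nat_lit 0) (XT.nd (nat_lit 94) (nat_lit 840) (nat_lit 0) (XT.lf (nat_lit 0) (nat_lit 33127051946) (nat_lit 840) (nat_lit 3011290800) (nat_lit 84) (nat_lit 2556079022) (nat_lit 133) (nat_lit 5) (nat_lit 143) (nat_lit 5) (nat_lit 134) (nat_lit 5) (nat_lit 291) (nat_lit 281) (nat_lit 148)) (XT.lf (nat_lit 0) (nat_lit 18522016818) (nat_lit 840) (nat_lit 19011696614) (nat_lit 924) (nat_lit 2190466438) (nat_lit 123) (nat_lit 5) (nat_lit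 133) (nat_lit 5) (nat_lit 134) (nat_lit 5) (nat_lit 292) (nat_lit 281) (nat_lit 147))) (XT.nd (nat_lit 94) (nat_lit 0) (nat_lit 0) (XT.lf (nat_lit 0) (nat_lit 422418474) (nat_lit 504) (nat_lit 944924954) (nat_lit 588) (nat_lit 39434252522) (nat_lit 116) (nat_lit 5) (nat_lit 122) (nat_lit 5) (nat_lit 123) (nat_lit 5) (nat_lit 293) (nat_lit 281) (nat_lit 146)) (XT.lf (nat_lit 0) (nat_lit 5672921218) (nat_lit 588) (nat_lit 18376695783) (nat_lit 84) (nat_lit 17849295795) (nat_lit 116) (nat_lit 5) (nat_lit 123) (nat_lit 5) (nat_lit 117) (nat_lit 5) (nat_lit 294) (nat_lit 281) (nat_lit 145)))) (XT.nd (nat_lit 188) (nat_lit 420) (nat_lit 0) (XT.nd (nat_lit 94) (nat_lit 0) (nat_lit 0) (XT.lf (nat_lit 0) (nat_lit 4863346028) (nat_lit 420) (nat_lit 5419102940) (nat_lit 504) (nat_lit 32764212963) (nat_lit 111) (nat_lit 5) (nat_lit 116) (nat_lit 5) (nat_lit 117) (nat_lit 5) (nat_lit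 295) (nat_lit 281) (nat_lit 144)) (XT.lf (nat_lit 0) (nat_lit 15656922796) (nat_lit 504) (nat_lit 14561582552) (nat_lit 84) (nat_lit 14006569689) (nat_lit 111) (nat_lit 5) (nat_lit 117) (nat_lit 5) (nat_lit 112) (nat_lit 5) (nat_lit 296) (nat_lit 281) (nat_lit 143))) (XT.nd (nat_lit 94) (nat_lit 0) (nat_lit 0) (XT.lf (nat_lit 0) (nat_lit 10485309935) (nat_lit 420) (nat_lit 11064818575) (nat_lit 504) (nat_lit 23899779881) (nat_lit 106) (nat_lit 5) (nat_lit 111) (nat_lit 5) (nat_lit 112) (nat_lit 5) (nat_lit 297) (nat_lit 281) (nat_lit 142)) (XT.lf (nat_lit 0) (nat_lit 28127428644) (nat_lit 504) (nat_lit 9581607221) (nat_lit 84) (nat_lit 9007475839) (nat_lit 106) (nat_lit 5) (nat_lit 112) (nat_lit 5) (nat_lit 107) (nat_lit 5) (nat_lit 298) (nat_lit 281) (nat_lit 141))))) (XT.nd (nat_lit 376) (nat_lit 1008) (nat_lit 0) (XT.nd (nat_lit 188) (nat_lit 756) (nat_lit 0) (XT.nd (nat_lit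 94) (nat_lit 0) (nat_lit 0) (XT.lf (nat_lit 0) (nat_lit 17444857282) (nat_lit 336) (nat_lit 18040149037) (nat_lit 420) (nat_lit 12538868238) (nat_lit 102) (nat_lit 5) (nat_lit 106) (nat_lit 5) (nat_lit 107) (nat_lit 5) (nat_lit 299) (nat_lit 281) (nat_lit 140)) (XT.lf (nat_lit 0) (nat_lit 43413900737) (nat_lit 420) (nat_lit 3279335267) (nat_lit 84) (nat_lit 2693197656) (nat_lit 102) (nat_lit 5) (nat_lit 107) (nat_lit 5) (nat_lit 103) (nat_lit 5) (nat_lit 300) (nat_lit 281) (nat_lit 139))) (XT.nd (nat_lit 94) (nat_lit 336) (nat_lit 0) (XT.lf (nat_lit 0) (nat_lit 1602254483) (nat_lit 420) (nat_lit 24891540341) (nat_lit 84) (nat_lit 24287123604) (nat_lit 97) (nat_lit 5) (nat_lit 102) (nat_lit 5) (nat_lit 98) (nat_lit 5) (nat_lit 301) (nat_lit 281) (nat_lit 138)) (XT.lf (nat_lit 0) (nat_lit 4428344326) (nat_lit 336) (nat_lit 5050169755) (nat_lit 420) (nat_lit 42755545382) (nat_lit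 93) (nat_lit 5) (nat_lit 97) (nat_lit 5) (nat_lit 98) (nat_lit 5) (nat_lit 302) (nat_lit 281) (nat_lit 137)))) (XT.nd (nat_lit 188) (nat_lit 672) (nat_lit 0) (XT.nd (nat_lit 94) (nat_lit 336) (nat_lit 0) (XT.lf (nat_lit 0) (nat_lit 18447652179) (nat_lit 420) (nat_lit 17942628492) (nat_lit 84) (nat_lit 17334623602) (nat_lit 93) (nat_lit 5) (nat_lit 98) (nat_lit 5) (nat_lit 94) (nat_lit 5) (nat_lit 303) (nat_lit 281) (nat_lit 136)) (XT.lf (nat_lit 0) (nat_lit 13768991225) (nat_lit 336) (nat_lit 14392034397) (nat_lit 420) (nat_lit 27114476780) (nat_lit 89) (nat_lit 5) (nat_lit 93) (nat_lit 5) (nat_lit 94) (nat_lit 5) (nat_lit 304) (nat_lit 281) (nat_lit 135))) (XT.nd (nat_lit 94) (nat_lit 672) (nat_lit 0) (XT.lf (nat_lit 0) (nat_lit 38802906477) (nat_lit 420) (nat_lit 9342798319) (nat_lit 84) (nat_lit 8735783705) (nat_lit 89) (nat_lit 5) (nat_lit 94) (nat_lit 5) (nat_lit 90)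 (nat_lit 5) (nat_lit 305) (nat_lit 281) (nat_lit 134)) (XT.nd (nat_lit 94) (nat_lit 420) (nat_lit 0) (XT.lf (nat_lit 0) (nat_lit 24990569695) (nat_lit 252) (nat_lit 25610574943) (nat_lit 336) (nat_lit 7935416101) (nat_lit 86) (nat_lit 5) (nat_lit 89) (nat_lit 5) (nat_lit 90) (nat_lit 5) (nat_lit 306) (nat_lit 281) (nat_lit 133)) (XT.lf (nat_lit 0) (nat_lit 1085791986) (nat_lit 336) (nat_lit 1718169266) (nat_lit 420) (nat_lit 57459508616) (nat_lit 81) (nat_lit 5) (nat_lit 85) (nat_lit 5) (nat_lit 86) (nat_lit 5) (nat_lit 307) (nat_lit 281) (nat_lit 132))))))))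
noncomputable def xc195 : XT := (XT.nd (nat_lit 1598) (nat_lit 1848) (nat_lit 0) (XT.nd (nat_lit 752) (nat_lit 1260) (nat_lit 0) (XT.nd (nat_lit 376) (nat_lit 588) (nat_lit 0) (XT.nd (nat_lit 188) (nat_lit 252) (nat_lit 0) (XT.nd (nat_lit 94) (nat_lit 252) (nat_lit 0) (XT.lf (nat_lit 0) (nat_lit 14754124687) (nat_lit 420) (nat_lit 23941278119) (nat_lit 84) (nat_lit 23327792245) (nat_lit 81) (nat_lit 5) (nat_lit 86) (nat_lit 5) (nat_lit 82) (nat_lit 5) (nat_lit 308) (nat_lit 281) (nat_lit 131)) (XT.lf (nat_lit 0) (nat_lit 13457096292) (nat_lit 252) (nat_lit 14081269592) (nat_lit 336) (nat_lit 36320712130) (nat_lit 78) (nat_lit 5) (nat_lit 81) (nat_lit 5) (nat_lit 82) (nat_lit 5) (nat_lit 309) (nat_lit 281) (nat_lit 130))) (XT.nd (nat_lit 94) (nat_lit 252) (nat_lit 0) (XT.lf (nat_lit 0) (nat_lit 41555918697) (nat_lit 336) (nat_lit 12402638012) (nat_lit 84) (nat_lit 11798493439)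 (nat_lit 78) (nat_lit 5) (nat_lit 82) (nat_lit 5) (nat_lit 79) (nat_lit 5) (nat_lit 310) (nat_lit 281) (nat_lit 129)) (XT.lf (nat_lit 0) (nat_lit 28164979893) (nat_lit 252) (nat_lit 28778356666) (nat_lit 336) (nat_lit 10773134959) (nat_lit 75) (nat_lit 5) (nat_lit 78) (nat_lit 5) (nat_lit 79) (nat_lit 5) (nat_lit 311) (nat_lit 281) (nat_lit 128)))) (XT.nd (nat_lit 188) (nat_lit 252) (nat_lit 0) (XT.nd (nat_lit 94) (nat_lit 0) (nat_lit 0) (XT.lf (nat_lit 0) (nat_lit 1415825671) (nat_lit 252) (nat_lit 2037995016) (nat_lit 336) (nat_lit 66305745633) (nat_lit 71) (nat_lit 5) (nat_lit 74) (nat_lit 5) (nat_lit 75) (nat_lit 5) (nat_lit 312) (nat_lit 281) (nat_lit 127)) (XT.lf (nat_lit 0) (nat_lit 19115883175) (nat_lit 336) (nat_lit 26663164626) (nat_lit 84) (nat_lit 26062647270) (nat_lit 71) (nat_lit 5) (nat_lit 75) (nat_lit 5) (nat_lit 72) (nat_lit 5) (nat_lit 313) (nat_lit 281)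 (nat_lit 126))) (XT.nd (nat_lit 94) (nat_lit 0) (nat_lit 0) (XT.lf (nat_lit 0) (nat_lit 17630064512) (nat_lit 252) (nat_lit 18238177222) (nat_lit 336) (nat_lit 38144328880) (nat_lit 68) (nat_lit 5) (nat_lit 71) (nat_lit 5) (nat_lit 72) (nat_lit 5) (nat_lit 314) (nat_lit 281) (nat_lit 125)) (XT.lf (nat_lit 0) (nat_lit 54082467165) (nat_lit 336) (nat_lit 11382177246) (nat_lit 84) (nat_lit 10796133074) (nat_lit 68) (nat_lit 5) (nat_lit 72) (nat_lit 5) (nat_lit 69) (nat_lit 5) (nat_lit 315) (nat_lit 281) (nat_lit 124))))) (XT.nd (nat_lit 376) (nat_lit 588) (nat_lit 0) (XT.nd (nat_lit 188) (nat_lit 168) (nat_lit 0) (XT.nd (nat_lit 94) (nat_lit 336) (nat_lit 0) (XT.lf (nat_lit 0) (nat_lit 36743033969) (nat_lit 168) (nat_lit 37335639293) (nat_lit 252) (nat_lit 4499157969) (nat_lit 66) (nat_lit 5) (nat_lit 68) (nat_lit 5) (nat_lit 69) (nat_lit 5) (nat_lit 316) (nat_lit 281) (nat_lit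 123)) (XT.lf (nat_lit 0) (nat_lit 6656724077) (nat_lit 252) (nat_lit 7255578119) (nat_lit 336) (nat_lit 67072532359) (nat_lit 62) (nat_lit 5) (nat_lit 65) (nat_lit 5) (nat_lit 66) (nat_lit 5) (nat_lit 317) (nat_lit 281) (nat_lit 122))) (XT.nd (nat_lit 94) (nat_lit 168) (nat_lit 0) (XT.lf (nat_lit 0) (nat_lit 34191728350) (nat_lit 336) (nat_lit 24918923552) (nat_lit 84) (nat_lit 24342918599) (nat_lit 62) (nat_lit 5) (nat_lit 66) (nat_lit 5) (nat_lit 63) (nat_lit 5) (nat_lit 318) (nat_lit 281) (nat_lit 121)) (XT.lf (nat_lit 0) (nat_lit 27727140327) (nat_lit 168) (nat_lit 28308543157) (nat_lit 252) (nat_lit 29982531875) (nat_lit 60) (nat_lit 5) (nat_lit 62) (nat_lit 5) (nat_lit 63) (nat_lit 5) (nat_lit 319) (nat_lit 281) (nat_lit 120)))) (XT.nd (nat_lit 188) (nat_lit 336) (nat_lit 0) (XT.nd (nat_lit 94) (nat_lit 252) (nat_lit 0) (XT.lf (nat_lit 0) (nat_lit 79462477844) (nat_lit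 252) (nat_lit 4891347778) (nat_lit 84) (nat_lit 4332734765) (nat_lit 60) (nat_lit 5) (nat_lit 63) (nat_lit 5) (nat_lit 61) (nat_lit 5) (nat_lit 320) (nat_lit 281) (nat_lit 119)) (XT.lf (nat_lit 0) (nat_lit 13471701669) (nat_lit 252) (nat_lit 39252496129) (nat_lit 84) (nat_lit 38689220227) (nat_lit 57) (nat_lit 5) (nat_lit 60) (nat_lit 5) (nat_lit 58) (nat_lit 5) (nat_lit 321) (nat_lit 281) (nat_lit 118))) (XT.nd (nat_lit 94) (nat_lit 168) (nat_lit 0) (XT.lf (nat_lit 0) (nat_lit 18397399540) (nat_lit 168) (nat_lit 18965116289) (nat_lit 252) (nat_lit 56888030472) (nat_lit 55) (nat_lit 5) (nat_lit 57) (nat_lit 5) (nat_lit 58) (nat_lit 5) (nat_lit 322) (nat_lit 281) (nat_lit 117)) (XT.nd (nat_lit 94) (nat_lit 168) (nat_lit 0) (XT.lf (nat_lit 0) (nat_lit 63379671343) (nat_lit 252) (nat_lit 17173990105) (nat_lit 84) (nat_lit 16629279509) (nat_lit 55) (nat_lit 5) (nat_lit 58) (nat_lit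 5) (nat_lit 56) (nat_lit 5) (nat_lit 323) (nat_lit 281) (nat_lit 116)) (XT.lf (nat_lit 0) (nat_lit 45585313177) (nat_lit 168) (nat_lit 46133859944) (nat_lit 252) (nat_lit 8491707802) (nat_lit 53) (nat_lit 5) (nat_lit 55) (nat_lit 5) (nat_lit 56) (nat_lit 5) (nat_lit 324) (nat_lit 281) (nat_lit 115))))))) (XT.nd (nat_lit 752) (nat_lit 924) (nat_lit 0) (XT.nd (nat_lit 376) (nat_lit 504) (nat_lit 0) (XT.nd (nat_lit 188) (nat_lit 168) (nat_lit 0) (XT.nd (nat_lit 94) (nat_lit 0) (nat_lit 0) (XT.lf (nat_lit 0) (nat_lit 8692295304) (nat_lit 168) (nat_lit 9244495566) (nat_lit 252) (nat_lit 85417798526) (nat_lit 50) (nat_lit 5) (nat_lit 52) (nat_lit 5) (nat_lit 53) (nat_lit 5) (nat_lit 325) (nat_lit 281) (nat_lit 114)) (XT.lf (nat_lit 0) (nat_lit 46800912781) (nat_lit 252) (nat_lit 30153425083) (nat_lit 84) (nat_lit 29624206244) (nat_lit 50) (nat_lit 5) (nat_lit 53) (nat_lit 5) (nat_lit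 51) (nat_lit 5) (nat_lit 326) (nat_lit 281) (nat_lit 113))) (XT.nd (nat_lit 94) (nat_lit 0) (nat_lit 0) (XT.lf (nat_lit 0) (nat_lit 38665012595) (nat_lit 168) (nat_lit 39197387461) (nat_lit 252) (nat_lit 32063588536) (nat_lit 48) (nat_lit 5) (nat_lit 50) (nat_lit 5) (nat_lit 51) (nat_lit 5) (nat_lit 327) (nat_lit 281) (nat_lit 112)) (XT.lf (nat_lit 0) (nat_lit 111001932213) (nat_lit 252) (nat_lit 1461255426) (nat_lit 84) (nat_lit 951369135) (nat_lit 48) (nat_lit 5) (nat_lit 51) (nat_lit 5) (nat_lit 49) (nat_lit 4) (nat_lit 328) (nat_lit 281) (nat_lit 111)))) (XT.nd (nat_lit 188) (nat_lit 168) (nat_lit 0) (XT.nd (nat_lit 94) (nat_lit 168) (nat_lit 0) (XT.lf (nat_lit 0) (nat_lit 29620690956) (nat_lit 168) (nat_lit 43928050881) (nat_lit 84) (nat_lit 43415438296) (nat_lit 46) (nat_lit 5) (nat_lit 48) (nat_lit 5) (nat_lit 47) (nat_lit 5) (nat_lit 329) (nat_lit 281) (nat_lit 110))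 (XT.lf (nat_lit 0) (nat_lit 31588361973) (nat_lit 168) (nat_lit 32103571029) (nat_lit 252) (nat_lit 56971507059) (nat_lit 44) (nat_lit 5) (nat_lit 46) (nat_lit 5) (nat_lit 47) (nat_lit 5) (nat_lit 330) (nat_lit 281) (nat_lit 109))) (XT.nd (nat_lit 94) (nat_lit 168) (nat_lit 0) (XT.lf (nat_lit 0) (nat_lit 100400091302) (nat_lit 252) (nat_lit 12296967171) (nat_lit 84) (nat_lit 11803936803) (nat_lit 44) (nat_lit 5) (nat_lit 47) (nat_lit 5) (nat_lit 45) (nat_lit 4) (nat_lit 331) (nat_lit 281) (nat_lit 108)) (XT.lf (nat_lit 0) (nat_lit 11725246776) (nat_lit 168) (nat_lit 58605030247) (nat_lit 84) (nat_lit 58109756951) (nat_lit 42) (nat_lit 5) (nat_lit 44) (nat_lit 5) (nat_lit 43) (nat_lit 5) (nat_lit 332) (nat_lit 281) (nat_lit 107))))) (XT.nd (nat_lit 376) (nat_lit 420) (nat_lit 0) (XT.nd (nat_lit 188) (nat_lit 336) (nat_lit 0) (XT.nd (nat_lit 94) (nat_lit 0) (nat_lit 0) (XT.lf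 (nat_lit 0) (nat_lit 24312835839) (nat_lit 168) (nat_lit 24810245258) (nat_lit 252) (nat_lit 83403672450) (nat_lit 40) (nat_lit 5) (nat_lit 42) (nat_lit 5) (nat_lit 43) (nat_lit 5) (nat_lit 333) (nat_lit 281) (nat_lit 106)) (XT.lf (nat_lit 0) (nat_lit 89757525322) (nat_lit 252) (nat_lit 23733804324) (nat_lit 84) (nat_lit 23258143541) (nat_lit 40) (nat_lit 5) (nat_lit 43) (nat_lit 5) (nat_lit 41) (nat_lit 4) (nat_lit 334) (nat_lit 281) (nat_lit 105))) (XT.nd (nat_lit 94) (nat_lit 252) (nat_lit 0) (XT.lf (nat_lit 0) (nat_lit 66696673904) (nat_lit 84) (nat_lit 67174179950) (nat_lit 168) (nat_lit 7240116851) (nat_lit 39) (nat_lit 5) (nat_lit 40) (nat_lit 5) (nat_lit 41) (nat_lit 4) (nat_lit 335) (nat_lit 281) (nat_lit 104)) (XT.lf (nat_lit 0) (nat_lit 16792841386) (nat_lit 168) (nat_lit 17272104826) (nat_lit 252) (nat_lit 111565173658) (nat_lit 36) (nat_lit 5) (nat_lit 38) (nat_lit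 5) (nat_lit 39) (nat_lit 5) (nat_lit 336) (nat_lit 281) (nat_lit 103)))) (XT.nd (nat_lit 188) (nat_lit 336) (nat_lit 0) (XT.nd (nat_lit 94) (nat_lit 84) (nat_lit 0) (XT.lf (nat_lit 0) (nat_lit 79020372915) (nat_lit 252) (nat_lit 35857766571) (nat_lit 84) (nat_lit 35399731191) (nat_lit 36) (nat_lit 5) (nat_lit 39) (nat_lit 5) (nat_lit 37) (nat_lit 4) (nat_lit 337) (nat_lit 281) (nat_lit 102)) (XT.lf (nat_lit 0) (nat_lit 63519020810) (nat_lit 84) (nat_lit 63978574292) (nat_lit 168) (nat_lit 27596712715) (nat_lit 35) (nat_lit 5) (nat_lit 36) (nat_lit 5) (nat_lit 37) (nat_lit 4) (nat_lit 338) (nat_lit 281) (nat_lit 101))) (XT.nd (nat_lit 94) (nat_lit 84) (nat_lit 0) (XT.lf (nat_lit 0) (nat_lit 8979337314) (nat_lit 168) (nat_lit 9440336608) (nat_lit 252) (nat_lit 141679819271) (nat_lit 32) (nat_lit 5) (nat_lit 34) (nat_lit 5) (nat_lit 35) (nat_lit 5) (nat_lit 339) (nat_lit 281)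 (nat_lit 100)) (XT.nd (nat_lit 94) (nat_lit 84) (nat_lit 0) (XT.lf (nat_lit 0) (nat_lit 68131596578) (nat_lit 252) (nat_lit 48762485993) (nat_lit 84) (nat_lit 48322127651) (nat_lit 32) (nat_lit 5) (nat_lit 35) (nat_lit 5) (nat_lit 33) (nat_lit 4) (nat_lit 340) (nat_lit 281) (nat_lit 99)) (XT.lf (nat_lit 0) (nat_lit 60492971930) (nat_lit 84) (nat_lit 60934579218) (nat_lit 168) (nat_lit 49106290165) (nat_lit 31) (nat_lit 5) (nat_lit 32) (nat_lit 5) (nat_lit 33) (nat_lit 4) (nat_lit 341) (nat_lit 281) (nat_lit 98))))))))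
noncomputable def xc196 : XT := (XT.nd (nat_lit 40044) (nat_lit 0) (nat_lit 6216) (XT.nd (nat_lit 752) (nat_lit 252) (nat_lit 0) (XT.nd (nat_lit 376) (nat_lit 420) (nat_lit 0) (XT.nd (nat_lit 188) (nat_lit 84) (nat_lit 0) (XT.nd (nat_lit 94) (nat_lit 0) (nat_lit 0) (XT.lf (nat_lit 0) (nat_lit 819417711) (nat_lit 168) (nat_lit 1262214472) (nat_lit 252) (nat_lit 173992161570) (nat_lit 28) (nat_lit 5) (nat_lit 30) (nat_lit 5) (nat_lit 31) (nat_lit 5) (nat_lit 342) (nat_lit 281) (nat_lit 97)) (XT.lf (nat_lit 0) (nat_lit 57030549246) (nat_lit 252) (nat_lit 62550069502) (nat_lit 84) (nat_lit 62127279413) (nat_lit 28) (nat_lit 5) (nat_lit 31) (nat_lit 5) (nat_lit 29) (nat_lit 4) (nat_lit 343) (nat_lit 281) (nat_lit 96))) (XT.nd (nat_lit 94) (nat_lit 0) (nat_lit 0) (XT.lf (nat_lit 0) (nat_lit 57611257060) (nat_lit 84) (nat_lit 58035074661) (nat_lit 168) (nat_lit 71931405090) (nat_lit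 27) (nat_lit 5) (nat_lit 28) (nat_lit 5) (nat_lit 29) (nat_lit 4) (nat_lit 344) (nat_lit 281) (nat_lit 95)) (XT.lf (nat_lit 0) (nat_lit 178371695584) (nat_lit 168) (nat_lit 7857499995) (nat_lit 0) (nat_lit 7452932201) (nat_lit 27) (nat_lit 5) (nat_lit 29) (nat_lit 4) (nat_lit 27) (nat_lit 4) (nat_lit 345) (nat_lit 281) (nat_lit 94)))) (XT.nd (nat_lit 188) (nat_lit 168) (nat_lit 0) (XT.nd (nat_lit 94) (nat_lit 84) (nat_lit 0) (XT.lf (nat_lit 0) (nat_lit 45652500928) (nat_lit 168) (nat_lit 77332024082) (nat_lit 84) (nat_lit 76926568686) (nat_lit 25) (nat_lit 5) (nat_lit 27) (nat_lit 5) (nat_lit 26) (nat_lit 4) (nat_lit 346) (nat_lit 281) (nat_lit 93)) (XT.lf (nat_lit 0) (nat_lit 54866961232) (nat_lit 84) (nat_lit 55273261965) (nat_lit 168) (nat_lit 96249176507) (nat_lit 24) (nat_lit 5) (nat_lit 25) (nat_lit 5) (nat_lit 26) (nat_lit 4) (nat_lit 347) (nat_lit 281) (nat_lit 92)))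 (XT.nd (nat_lit 94) (nat_lit 168) (nat_lit 0) (XT.lf (nat_lit 0) (nat_lit 179429803735) (nat_lit 168) (nat_lit 17035331746) (nat_lit 0) (nat_lit 16647611921) (nat_lit 24) (nat_lit 5) (nat_lit 26) (nat_lit 4) (nat_lit 24) (nat_lit 4) (nat_lit 348) (nat_lit 281) (nat_lit 91)) (XT.lf (nat_lit 0) (nat_lit 33928121181) (nat_lit 168) (nat_lit 93230273624) (nat_lit 84) (nat_lit 92841823566) (nat_lit 22) (nat_lit 5) (nat_lit 24) (nat_lit 5) (nat_lit 23) (nat_lit 4) (nat_lit 349) (nat_lit 281) (nat_lit 90))))) (XT.nd (nat_lit 38916) (nat_lit 0) (nat_lit 9156) (XT.nd (nat_lit 188) (nat_lit 168) (nat_lit 0) (XT.nd (nat_lit 94) (nat_lit 0) (nat_lit 0) (XT.lf (nat_lit 0) (nat_lit 52253506192) (nat_lit 84) (nat_lit 52642651710) (nat_lit 168) (nat_lit 122252876697) (nat_lit 21) (nat_lit 5) (nat_lit 22) (nat_lit 5) (nat_lit 23) (nat_lit 4) (nat_lit 350) (nat_lit 281) (nat_lit 89)) (XT.lf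 (nat_lit 0) (nat_lit 181416383879) (nat_lit 168) (nat_lit 26754981984) (nat_lit 0) (nat_lit 26383736402) (nat_lit 21) (nat_lit 5) (nat_lit 23) (nat_lit 4) (nat_lit 21) (nat_lit 4) (nat_lit 351) (nat_lit 281) (nat_lit 88))) (XT.nd (nat_lit 38634) (nat_lit 0) (nat_lit 9156) (XT.lf (nat_lit 0) (nat_lit 21782912808) (nat_lit 168) (nat_lit 110378276984) (nat_lit 84) (nat_lit 110006430637) (nat_lit 19) (nat_lit 5) (nat_lit 21) (nat_lit 5) (nat_lit 20) (nat_lit 4) (nat_lit 352) (nat_lit 281) (nat_lit 87)) (XT.lf (nat_lit 0) (nat_lit 6957415991) (nat_lit 924) (nat_lit 4405555790) (nat_lit 924) (nat_lit 4405555790) (nat_lit 128) (nat_lit 3) (nat_lit 139) (nat_lit 3) (nat_lit 139) (nat_lit 5) (nat_lit 282) (nat_lit 282) (nat_lit 156)))) (XT.nd (nat_lit 188) (nat_lit 0) (nat_lit 84) (XT.nd (nat_lit 94) (nat_lit 0) (nat_lit 84) (XT.lf (nat_lit 84) (nat_lit 7187459585) (nat_lit 0) (nat_lit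 7252454173) (nat_lit 924) (nat_lit 17876707217) (nat_lit 129) (nat_lit 5) (nat_lit 128) (nat_lit 3) (nat_lit 139) (nat_lit 5) (nat_lit 283) (nat_lit 282) (nat_lit 155)) (XT.lf (nat_lit 0) (nat_lit 15279183504) (nat_lit 840) (nat_lit 8981218257) (nat_lit 924) (nat_lit 8860366641) (nat_lit 129) (nat_lit 5) (nat_lit 139) (nat_lit 5) (nat_lit 140) (nat_lit 5) (nat_lit 284) (nat_lit 282) (nat_lit 154))) (XT.nd (nat_lit 94) (nat_lit 0) (nat_lit 84) (XT.lf (nat_lit 84) (nat_lit 8112502438) (nat_lit 0) (nat_lit 8289498824) (nat_lit 924) (nat_lit 17551042712) (nat_lit 130) (nat_lit 5) (nat_lit 129) (nat_lit 5) (nat_lit 140) (nat_lit 5) (nat_lit 285) (nat_lit 282) (nat_lit 153)) (XT.lf (nat_lit 0) (nat_lit 17864158776) (nat_lit 840) (nat_lit 8584053776) (nat_lit 924) (nat_lit 8364560829) (nat_lit 130) (nat_lit 5) (nat_lit 140) (nat_lit 5) (nat_lit 141) (nat_lit 5) (nat_lit 286) (nat_lit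 282) (nat_lit 152)))))) (XT.nd (nat_lit 752) (nat_lit 1932) (nat_lit 0) (XT.nd (nat_lit 376) (nat_lit 1176) (nat_lit 0) (XT.nd (nat_lit 188) (nat_lit 0) (nat_lit 84) (XT.nd (nat_lit 94) (nat_lit 0) (nat_lit 84) (XT.lf (nat_lit 84) (nat_lit 9707638516) (nat_lit 0) (nat_lit 9975631425) (nat_lit 924) (nat_lit 16018027030) (nat_lit 131) (nat_lit 5) (nat_lit 130) (nat_lit 5) (nat_lit 141) (nat_lit 5) (nat_lit 287) (nat_lit 282) (nat_lit 151)) (XT.lf (nat_lit 0) (nat_lit 21851930161) (nat_lit 840) (nat_lit 7534304571) (nat_lit 924) (nat_lit 7235082333) (nat_lit 131) (nat_lit 5) (nat_lit 141) (nat_lit 5) (nat_lit 142) (nat_lit 5) (nat_lit 288) (nat_lit 282) (nat_lit 150))) (XT.nd (nat_lit 94) (nat_lit 0) (nat_lit 84) (XT.lf (nat_lit 84) (nat_lit 12068282449) (nat_lit 0) (nat_lit 12409400779) (nat_lit 924) (nat_lit 13092221944) (nat_lit 132) (nat_lit 5) (nat_lit 131) (nat_lit 5)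 (nat_lit 142) (nat_lit 5) (nat_lit 289) (nat_lit 282) (nat_lit 149)) (XT.lf (nat_lit 0) (nat_lit 27445812113) (nat_lit 840) (nat_lit 5736215876) (nat_lit 924) (nat_lit 5373340287) (nat_lit 132) (nat_lit 5) (nat_lit 142) (nat_lit 5) (nat_lit 143) (nat_lit 5) (nat_lit 290) (nat_lit 282) (nat_lit 148)))) (XT.nd (nat_lit 188) (nat_lit 1344) (nat_lit 0) (XT.nd (nat_lit 94) (nat_lit 0) (nat_lit 84) (XT.lf (nat_lit 84) (nat_lit 15301298062) (nat_lit 0) (nat_lit 15700365071) (nat_lit 924) (nat_lit 8566475617) (nat_lit 133) (nat_lit 5) (nat_lit 132) (nat_lit 5) (nat_lit 143) (nat_lit 5) (nat_lit 291) (nat_lit 282) (nat_lit 147)) (XT.lf (nat_lit 0) (nat_lit 34872602611) (nat_lit 840) (nat_lit 3082485422) (nat_lit 84) (nat_lit 2669594920) (nat_lit 133) (nat_lit 5) (nat_lit 143) (nat_lit 5) (nat_lit 134) (nat_lit 5) (nat_lit 292) (nat_lit 282) (nat_lit 146))) (XT.nd (nat_lit 94) (nat_lit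 588) (nat_lit 0) (XT.lf (nat_lit 0) (nat_lit 19526207417) (nat_lit 840) (nat_lit 19970361427) (nat_lit 924) (nat_lit 2209511532) (nat_lit 123) (nat_lit 5) (nat_lit 133) (nat_lit 5) (nat_lit 134) (nat_lit 5) (nat_lit 293) (nat_lit 282) (nat_lit 145)) (XT.lf (nat_lit 0) (nat_lit 523218805) (nat_lit 504) (nat_lit 997147585) (nat_lit 588) (nat_lit 41317076568) (nat_lit 116) (nat_lit 5) (nat_lit 122) (nat_lit 5) (nat_lit 123) (nat_lit 5) (nat_lit 294) (nat_lit 282) (nat_lit 144))))) (XT.nd (nat_lit 376) (nat_lit 1092) (nat_lit 0) (XT.nd (nat_lit 188) (nat_lit 420) (nat_lit 0) (XT.nd (nat_lit 94) (nat_lit 420) (nat_lit 0) (XT.lf (nat_lit 0) (nat_lit 6037117845) (nat_lit 588) (nat_lit 19215540200) (nat_lit 84) (nat_lit 18737172863) (nat_lit 116) (nat_lit 5) (nat_lit 123) (nat_lit 5) (nat_lit 117) (nat_lit 5) (nat_lit 295) (nat_lit 282) (nat_lit 143)) (XT.lf (nat_lit 0) (nat_lit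 5185213535) (nat_lit 420) (nat_lit 5689301437) (nat_lit 504) (nat_lit 34320582878) (nat_lit 111) (nat_lit 5) (nat_lit 116) (nat_lit 5) (nat_lit 117) (nat_lit 5) (nat_lit 296) (nat_lit 282) (nat_lit 142))) (XT.nd (nat_lit 94) (nat_lit 420) (nat_lit 0) (XT.lf (nat_lit 0) (nat_lit 16514012145) (nat_lit 504) (nat_lit 15211008756) (nat_lit 84) (nat_lit 14707595728) (nat_lit 111) (nat_lit 5) (nat_lit 117) (nat_lit 5) (nat_lit 112) (nat_lit 5) (nat_lit 297) (nat_lit 282) (nat_lit 141)) (XT.lf (nat_lit 0) (nat_lit 11086959760) (nat_lit 420) (nat_lit 11612591180) (nat_lit 504) (nat_lit 25019257070) (nat_lit 106) (nat_lit 5) (nat_lit 111) (nat_lit 5) (nat_lit 112) (nat_lit 5) (nat_lit 298) (nat_lit 282) (nat_lit 140)))) (XT.nd (nat_lit 188) (nat_lit 756) (nat_lit 0) (XT.nd (nat_lit 94) (nat_lit 336) (nat_lit 0) (XT.lf (nat_lit 0) (nat_lit 29602372819) (nat_lit 504) (nat_lit 9983644961)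 (nat_lit 84) (nat_lit 9462890873) (nat_lit 106) (nat_lit 5) (nat_lit 112) (nat_lit 5) (nat_lit 107) (nat_lit 5) (nat_lit 299) (nat_lit 282) (nat_lit 139)) (XT.lf (nat_lit 0) (nat_lit 18392900145) (nat_lit 336) (nat_lit 18932847315) (nat_lit 420) (nat_lit 13095996284) (nat_lit 102) (nat_lit 5) (nat_lit 106) (nat_lit 5) (nat_lit 107) (nat_lit 5) (nat_lit 300) (nat_lit 282) (nat_lit 138))) (XT.nd (nat_lit 94) (nat_lit 756) (nat_lit 0) (XT.lf (nat_lit 0) (nat_lit 45648058790) (nat_lit 420) (nat_lit 3368083747) (nat_lit 84) (nat_lit 2836439655) (nat_lit 102) (nat_lit 5) (nat_lit 107) (nat_lit 5) (nat_lit 103) (nat_lit 5) (nat_lit 301) (nat_lit 282) (nat_lit 137)) (XT.nd (nat_lit 94) (nat_lit 336) (nat_lit 0) (XT.lf (nat_lit 0) (nat_lit 1744973379) (nat_lit 420) (nat_lit 26060042230) (nat_lit 84) (nat_lit 25511818433) (nat_lit 97) (nat_lit 5) (nat_lit 102) (nat_lit 5) (nat_lit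 98) (nat_lit 5) (nat_lit 302) (nat_lit 282) (nat_lit 136)) (XT.lf (nat_lit 0) (nat_lit 4724609653) (nat_lit 336) (nat_lit 5288623646) (nat_lit 420) (nat_lit 44829489462) (nat_lit 93) (nat_lit 5) (nat_lit 97) (nat_lit 5) (nat_lit 98) (nat_lit 5) (nat_lit 303) (nat_lit 282) (nat_lit 135))))))))
noncomputable def xc197 : XT := (XT.nd (nat_lit 1598) (nat_lit 2016) (nat_lit 0) (XT.nd (nat_lit 752) (nat_lit 1512) (nat_lit 0) (XT.nd (nat_lit 376) (nat_lit 672) (nat_lit 0) (XT.nd (nat_lit 188) (nat_lit 252) (nat_lit 0) (XT.nd (nat_lit 94) (nat_lit 336) (nat_lit 0) (XT.lf (nat_lit 0) (nat_lit 19428142355) (nat_lit 420) (nat_lit 18765790056) (nat_lit 84) (nat_lit 18214311698) (nat_lit 93) (nat_lit 5) (nat_lit 98) (nat_lit 5) (nat_lit 94) (nat_lit 5) (nat_lit 304) (nat_lit 282) (nat_lit 134)) (XT.lf (nat_lit 0) (nat_lit 14530217585) (nat_lit 336) (nat_lit 15095336108) (nat_lit 420)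 (nat_lit 28410899990) (nat_lit 89) (nat_lit 5) (nat_lit 93) (nat_lit 5) (nat_lit 94) (nat_lit 5) (nat_lit 305) (nat_lit 282) (nat_lit 133))) (XT.nd (nat_lit 94) (nat_lit 252) (nat_lit 0) (XT.lf (nat_lit 0) (nat_lit 40797081590) (nat_lit 420) (nat_lit 9738179998) (nat_lit 84) (nat_lit 9187599848) (nat_lit 89) (nat_lit 5) (nat_lit 94) (nat_lit 5) (nat_lit 90) (nat_lit 5) (nat_lit 306) (nat_lit 282) (nat_lit 132)) (XT.lf (nat_lit 0) (nat_lit 26310699027) (nat_lit 252) (nat_lit 26873062063) (nat_lit 336) (nat_lit 8276999726) (nat_lit 86) (nat_lit 5) (nat_lit 89) (nat_lit 5) (nat_lit 90) (nat_lit 5) (nat_lit 307) (nat_lit 282) (nat_lit 131)))) (XT.nd (nat_lit 188) (nat_lit 252) (nat_lit 0) (XT.nd (nat_lit 94) (nat_lit 0) (nat_lit 0) (XT.lf (nat_lit 0) (nat_lit 1211281554) (nat_lit 336) (nat_lit 1784866388) (nat_lit 420) (nat_lit 60277895988) (nat_lit 81) (nat_lit 5) (nat_lit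 85) (nat_lit 5) (nat_lit 86) (nat_lit 5) (nat_lit 308) (nat_lit 282) (nat_lit 130)) (XT.lf (nat_lit 0) (nat_lit 15541629559) (nat_lit 420) (nat_lit 25068342542) (nat_lit 84) (nat_lit 24511892770) (nat_lit 81) (nat_lit 5) (nat_lit 86) (nat_lit 5) (nat_lit 82) (nat_lit 5) (nat_lit 309) (nat_lit 282) (nat_lit 129))) (XT.nd (nat_lit 94) (nat_lit 0) (nat_lit 0) (XT.lf (nat_lit 0) (nat_lit 14198821565) (nat_lit 252) (nat_lit 14764965148) (nat_lit 336) (nat_lit 38085820075) (nat_lit 78) (nat_lit 5) (nat_lit 81) (nat_lit 5) (nat_lit 82) (nat_lit 5) (nat_lit 310) (nat_lit 282) (nat_lit 128)) (XT.lf (nat_lit 0) (nat_lit 43680210380) (nat_lit 336) (nat_lit 12955172212) (nat_lit 84) (nat_lit 12407195276) (nat_lit 78) (nat_lit 5) (nat_lit 82) (nat_lit 5) (nat_lit 79) (nat_lit 5) (nat_lit 311) (nat_lit 282) (nat_lit 127))))) (XT.nd (nat_lit 376) (nat_lit 672) (nat_lit 0) (XT.nd (nat_lit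 188) (nat_lit 252) (nat_lit 0) (XT.nd (nat_lit 94) (nat_lit 336) (nat_lit 0) (XT.lf (nat_lit 0) (nat_lit 29639736302) (nat_lit 252) (nat_lit 30196087117) (nat_lit 336) (nat_lit 11264205674) (nat_lit 75) (nat_lit 5) (nat_lit 78) (nat_lit 5) (nat_lit 79) (nat_lit 5) (nat_lit 312) (nat_lit 282) (nat_lit 126)) (XT.lf (nat_lit 0) (nat_lit 1553550154) (nat_lit 252) (nat_lit 2117876090) (nat_lit 336) (nat_lit 69573872666) (nat_lit 71) (nat_lit 5) (nat_lit 74) (nat_lit 5) (nat_lit 75) (nat_lit 5) (nat_lit 313) (nat_lit 282) (nat_lit 125))) (XT.nd (nat_lit 94) (nat_lit 252) (nat_lit 0) (XT.lf (nat_lit 0) (nat_lit 20114780473) (nat_lit 336) (nat_lit 27930765570) (nat_lit 84) (nat_lit 27386078626) (nat_lit 71) (nat_lit 5) (nat_lit 75) (nat_lit 5) (nat_lit 72) (nat_lit 5) (nat_lit 314) (nat_lit 282) (nat_lit 124)) (XT.lf (nat_lit 0) (nat_lit 18576067650) (nat_lit 252) (nat_lit 19127643804)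 (nat_lit 336) (nat_lit 40007384809) (nat_lit 68) (nat_lit 5) (nat_lit 71) (nat_lit 5) (nat_lit 72) (nat_lit 5) (nat_lit 315) (nat_lit 282) (nat_lit 123)))) (XT.nd (nat_lit 188) (nat_lit 504) (nat_lit 0) (XT.nd (nat_lit 94) (nat_lit 168) (nat_lit 0) (XT.lf (nat_lit 0) (nat_lit 56826979114) (nat_lit 336) (nat_lit 11888188578) (nat_lit 84) (nat_lit 11356629238) (nat_lit 68) (nat_lit 5) (nat_lit 72) (nat_lit 5) (nat_lit 69) (nat_lit 5) (nat_lit 316) (nat_lit 282) (nat_lit 122)) (XT.lf (nat_lit 0) (nat_lit 38642265495) (nat_lit 168) (nat_lit 39179775994) (nat_lit 252) (nat_lit 4682709575) (nat_lit 66) (nat_lit 5) (nat_lit 68) (nat_lit 5) (nat_lit 69) (nat_lit 5) (nat_lit 317) (nat_lit 282) (nat_lit 121))) (XT.nd (nat_lit 94) (nat_lit 168) (nat_lit 0) (XT.lf (nat_lit 0) (nat_lit 7051942706) (nat_lit 252) (nat_lit 7595120976) (nat_lit 336) (nat_lit 70385055281) (nat_lit 62) (nat_lit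 5) (nat_lit 65) (nat_lit 5) (nat_lit 66) (nat_lit 5) (nat_lit 318) (nat_lit 282) (nat_lit 120)) (XT.nd (nat_lit 94) (nat_lit 168) (nat_lit 0) (XT.lf (nat_lit 0) (nat_lit 35938942535) (nat_lit 336) (nat_lit 26103939287) (nat_lit 84) (nat_lit 25581485815) (nat_lit 62) (nat_lit 5) (nat_lit 66) (nat_lit 5) (nat_lit 63) (nat_lit 5) (nat_lit 319) (nat_lit 282) (nat_lit 119)) (XT.lf (nat_lit 0) (nat_lit 29173445037) (nat_lit 168) (nat_lit 29700794542) (nat_lit 252) (nat_lit 31443047952) (nat_lit 60) (nat_lit 5) (nat_lit 62) (nat_lit 5) (nat_lit 63) (nat_lit 5) (nat_lit 320) (nat_lit 282) (nat_lit 118))))))) (XT.nd (nat_lit 752) (nat_lit 1008) (nat_lit 0) (XT.nd (nat_lit 376) (nat_lit 588) (nat_lit 0) (XT.nd (nat_lit 188) (nat_lit 168) (nat_lit 0) (XT.nd (nat_lit 94) (nat_lit 252) (nat_lit 0) (XT.lf (nat_lit 0) (nat_lit 83470967222) (nat_lit 252) (nat_lit 5077415690) (nat_lit 84)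 (nat_lit 4570737220) (nat_lit 60) (nat_lit 5) (nat_lit 63) (nat_lit 5) (nat_lit 61) (nat_lit 5) (nat_lit 321) (nat_lit 282) (nat_lit 117)) (XT.lf (nat_lit 0) (nat_lit 14180433662) (nat_lit 252) (nat_lit 41156402883) (nat_lit 84) (nat_lit 40645495035) (nat_lit 57) (nat_lit 5) (nat_lit 60) (nat_lit 5) (nat_lit 58) (nat_lit 5) (nat_lit 322) (nat_lit 282) (nat_lit 116))) (XT.nd (nat_lit 94) (nat_lit 0) (nat_lit 0) (XT.lf (nat_lit 0) (nat_lit 19375040504) (nat_lit 168) (nat_lit 19889976330) (nat_lit 252) (nat_lit 59696338020) (nat_lit 55) (nat_lit 5) (nat_lit 57) (nat_lit 5) (nat_lit 58) (nat_lit 5) (nat_lit 323) (nat_lit 282) (nat_lit 115)) (XT.lf (nat_lit 0) (nat_lit 66581741089) (nat_lit 252) (nat_lit 17976380588) (nat_lit 84) (nat_lit 17482312020) (nat_lit 55) (nat_lit 5) (nat_lit 58) (nat_lit 5) (nat_lit 56) (nat_lit 5) (nat_lit 324) (nat_lit 282) (nat_lit 114)))) (XT.nd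 (nat_lit 188) (nat_lit 168) (nat_lit 0) (XT.nd (nat_lit 94) (nat_lit 252) (nat_lit 0) (XT.lf (nat_lit 0) (nat_lit 47919979649) (nat_lit 168) (nat_lit 48417527737) (nat_lit 252) (nat_lit 8882298803) (nat_lit 53) (nat_lit 5) (nat_lit 55) (nat_lit 5) (nat_lit 56) (nat_lit 5) (nat_lit 325) (nat_lit 282) (nat_lit 113)) (XT.lf (nat_lit 0) (nat_lit 9182487805) (nat_lit 168) (nat_lit 9683349720) (nat_lit 252) (nat_lit 89654870985) (nat_lit 50) (nat_lit 5) (nat_lit 52) (nat_lit 5) (nat_lit 53) (nat_lit 5) (nat_lit 326) (nat_lit 282) (nat_lit 112))) (XT.nd (nat_lit 94) (nat_lit 168) (nat_lit 0) (XT.lf (nat_lit 0) (nat_lit 49171979365) (nat_lit 252) (nat_lit 31606978995) (nat_lit 84) (nat_lit 31126961907) (nat_lit 50) (nat_lit 5) (nat_lit 53) (nat_lit 5) (nat_lit 51) (nat_lit 5) (nat_lit 327) (nat_lit 282) (nat_lit 111)) (XT.lf (nat_lit 0) (nat_lit 40651507707) (nat_lit 168) (nat_lit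 41134387404) (nat_lit 252) (nat_lit 33634874157) (nat_lit 48) (nat_lit 5) (nat_lit 50) (nat_lit 5) (nat_lit 51) (nat_lit 5) (nat_lit 328) (nat_lit 282) (nat_lit 110))))) (XT.nd (nat_lit 376) (nat_lit 672) (nat_lit 0) (XT.nd (nat_lit 188) (nat_lit 168) (nat_lit 0) (XT.nd (nat_lit 94) (nat_lit 168) (nat_lit 0) (XT.lf (nat_lit 0) (nat_lit 116581297498) (nat_lit 252) (nat_lit 1482502789) (nat_lit 84) (nat_lit 1020020892) (nat_lit 48) (nat_lit 5) (nat_lit 51) (nat_lit 5) (nat_lit 49) (nat_lit 4) (nat_lit 329) (nat_lit 282) (nat_lit 109)) (XT.lf (nat_lit 0) (nat_lit 31130866382) (nat_lit 168) (nat_lit 46072510220) (nat_lit 84) (nat_lit 45607555494) (nat_lit 46) (nat_lit 5) (nat_lit 48) (nat_lit 5) (nat_lit 47) (nat_lit 5) (nat_lit 330) (nat_lit 282) (nat_lit 108))) (XT.nd (nat_lit 94) (nat_lit 0) (nat_lit 0) (XT.lf (nat_lit 0) (nat_lit 33218885483) (nat_lit 168) (nat_lit 33686195285)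 (nat_lit 252) (nat_lit 59790103740) (nat_lit 44) (nat_lit 5) (nat_lit 46) (nat_lit 5) (nat_lit 47) (nat_lit 5) (nat_lit 331) (nat_lit 282) (nat_lit 107)) (XT.lf (nat_lit 0) (nat_lit 105447622774) (nat_lit 252) (nat_lit 12862119499) (nat_lit 84) (nat_lit 12414926422) (nat_lit 44) (nat_lit 5) (nat_lit 47) (nat_lit 5) (nat_lit 45) (nat_lit 4) (nat_lit 332) (nat_lit 282) (nat_lit 106)))) (XT.nd (nat_lit 188) (nat_lit 336) (nat_lit 0) (XT.nd (nat_lit 94) (nat_lit 168) (nat_lit 0) (XT.lf (nat_lit 0) (nat_lit 12338930883) (nat_lit 168) (nat_lit 61485480591) (nat_lit 84) (nat_lit 61036253111) (nat_lit 42) (nat_lit 5) (nat_lit 44) (nat_lit 5) (nat_lit 43) (nat_lit 5) (nat_lit 333) (nat_lit 282) (nat_lit 105)) (XT.lf (nat_lit 0) (nat_lit 25577475555) (nat_lit 168) (nat_lit 26028640561) (nat_lit 252) (nat_lit 87545631060) (nat_lit 40) (nat_lit 5) (nat_lit 42) (nat_lit 5) (nat_lit 43)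 (nat_lit 5) (nat_lit 334) (nat_lit 282) (nat_lit 104))) (XT.nd (nat_lit 94) (nat_lit 336) (nat_lit 0) (XT.lf (nat_lit 0) (nat_lit 94271331371) (nat_lit 252) (nat_lit 24872878670) (nat_lit 84) (nat_lit 24441440318) (nat_lit 40) (nat_lit 5) (nat_lit 43) (nat_lit 5) (nat_lit 41) (nat_lit 4) (nat_lit 335) (nat_lit 282) (nat_lit 103)) (XT.nd (nat_lit 94) (nat_lit 252) (nat_lit 0) (XT.lf (nat_lit 0) (nat_lit 70078355472) (nat_lit 84) (nat_lit 70511467533) (nat_lit 168) (nat_lit 7575424913) (nat_lit 39) (nat_lit 5) (nat_lit 40) (nat_lit 5) (nat_lit 41) (nat_lit 4) (nat_lit 336) (nat_lit 282) (nat_lit 102)) (XT.lf (nat_lit 0) (nat_lit 17679416431) (nat_lit 168) (nat_lit 18114122499) (nat_lit 252) (nat_lit 117116819663) (nat_lit 36) (nat_lit 5) (nat_lit 38) (nat_lit 5) (nat_lit 39) (nat_lit 5) (nat_lit 337) (nat_lit 282) (nat_lit 101))))))))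
noncomputable def xc198 : XT := (XT.nd (nat_lit 40232) (nat_lit 0) (nat_lit 6804) (XT.nd (nat_lit 752) (nat_lit 504) (nat_lit 0) (XT.nd (nat_lit 376) (nat_lit 420) (nat_lit 0) (XT.nd (nat_lit 188) (nat_lit 252) (nat_lit 0) (XT.nd (nat_lit 94) (nat_lit 84) (nat_lit 0) (XT.lf (nat_lit 0) (nat_lit 82995851037) (nat_lit 252) (nat_lit 37605070896) (nat_lit 84) (nat_lit 37189619304) (nat_lit 36) (nat_lit 5) (nat_lit 39) (nat_lit 5) (nat_lit 37) (nat_lit 4) (nat_lit 338) (nat_lit 282) (nat_lit 100)) (XT.lf (nat_lit 0) (nat_lit 66739820628) (nat_lit 84) (nat_lit 67156649184) (nat_lit 168) (nat_lit 28951353648) (nat_lit 35) (nat_lit 5) (nat_lit 36) (nat_lit 5) (nat_lit 37) (nat_lit 4) (nat_lit 339) (nat_lit 282) (nat_lit 99))) (XT.nd (nat_lit 94) (nat_lit 0) (nat_lit 0) (XT.lf (nat_lit 0) (nat_lit 9473222971) (nat_lit 168) (nat_lit 9891362921) (nat_lit 252) (nat_lit 148738685546)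 (nat_lit 32) (nat_lit 5) (nat_lit 34) (nat_lit 5) (nat_lit 35) (nat_lit 5) (nat_lit 340) (nat_lit 282) (nat_lit 98)) (XT.lf (nat_lit 0) (nat_lit 71561277354) (nat_lit 252) (nat_lit 51157003164) (nat_lit 84) (nat_lit 50757585167) (nat_lit 32) (nat_lit 5) (nat_lit 35) (nat_lit 5) (nat_lit 33) (nat_lit 4) (nat_lit 341) (nat_lit 282) (nat_lit 97)))) (XT.nd (nat_lit 188) (nat_lit 84) (nat_lit 0) (XT.nd (nat_lit 94) (nat_lit 252) (nat_lit 0) (XT.lf (nat_lit 0) (nat_lit 63560524314) (nat_lit 84) (nat_lit 63961075142) (nat_lit 168) (nat_lit 51537800384) (nat_lit 31) (nat_lit 5) (nat_lit 32) (nat_lit 5) (nat_lit 33) (nat_lit 4) (nat_lit 342) (nat_lit 282) (nat_lit 96)) (XT.lf (nat_lit 0) (nat_lit 903349985) (nat_lit 168) (nat_lit 1304979701) (nat_lit 252) (nat_lit 182668022961) (nat_lit 28) (nat_lit 5) (nat_lit 30) (nat_lit 5) (nat_lit 31) (nat_lit 5) (nat_lit 343) (nat_lit 282)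 (nat_lit 95))) (XT.nd (nat_lit 94) (nat_lit 84) (nat_lit 0) (XT.lf (nat_lit 0) (nat_lit 59903918178) (nat_lit 252) (nat_lit 65635882946) (nat_lit 84) (nat_lit 65252399872) (nat_lit 28) (nat_lit 5) (nat_lit 31) (nat_lit 5) (nat_lit 29) (nat_lit 4) (nat_lit 344) (nat_lit 282) (nat_lit 94)) (XT.lf (nat_lit 0) (nat_lit 60532837525) (nat_lit 84) (nat_lit 60917252582) (nat_lit 168) (nat_lit 75505461455) (nat_lit 27) (nat_lit 5) (nat_lit 28) (nat_lit 5) (nat_lit 29) (nat_lit 4) (nat_lit 345) (nat_lit 282) (nat_lit 93))))) (XT.nd (nat_lit 376) (nat_lit 252) (nat_lit 0) (XT.nd (nat_lit 188) (nat_lit 84) (nat_lit 0) (XT.nd (nat_lit 94) (nat_lit 168) (nat_lit 0) (XT.lf (nat_lit 0) (nat_lit 187310992204) (nat_lit 168) (nat_lit 8210580644) (nat_lit 0) (nat_lit 7843625729) (nat_lit 27) (nat_lit 5) (nat_lit 29) (nat_lit 4) (nat_lit 27) (nat_lit 4) (nat_lit 346) (nat_lit 282) (nat_lit 92))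 (XT.lf (nat_lit 0) (nat_lit 47955796208) (nat_lit 168) (nat_lit 81158789329) (nat_lit 84) (nat_lit 80791029332) (nat_lit 25) (nat_lit 5) (nat_lit 27) (nat_lit 5) (nat_lit 26) (nat_lit 4) (nat_lit 347) (nat_lit 282) (nat_lit 91))) (XT.nd (nat_lit 94) (nat_lit 0) (nat_lit 0) (XT.lf (nat_lit 0) (nat_lit 57649502735) (nat_lit 84) (nat_lit 58018029477) (nat_lit 168) (nat_lit 101040322583) (nat_lit 24) (nat_lit 5) (nat_lit 25) (nat_lit 5) (nat_lit 26) (nat_lit 4) (nat_lit 348) (nat_lit 282) (nat_lit 90)) (XT.lf (nat_lit 0) (nat_lit 188420906179) (nat_lit 168) (nat_lit 17849085645) (nat_lit 0) (nat_lit 17497412336) (nat_lit 24) (nat_lit 5) (nat_lit 26) (nat_lit 4) (nat_lit 24) (nat_lit 4) (nat_lit 349) (nat_lit 282) (nat_lit 89)))) (XT.nd (nat_lit 188) (nat_lit 0) (nat_lit 0) (XT.nd (nat_lit 94) (nat_lit 84) (nat_lit 0) (XT.lf (nat_lit 0) (nat_lit 35644105267) (nat_lit 168) (nat_lit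 97853740387) (nat_lit 84) (nat_lit 97501404734) (nat_lit 22) (nat_lit 5) (nat_lit 24) (nat_lit 5) (nat_lit 23) (nat_lit 4) (nat_lit 350) (nat_lit 282) (nat_lit 88)) (XT.lf (nat_lit 0) (nat_lit 54903614759) (nat_lit 84) (nat_lit 55256581215) (nat_lit 168) (nat_lit 128345328845) (nat_lit 21) (nat_lit 5) (nat_lit 22) (nat_lit 5) (nat_lit 23) (nat_lit 4) (nat_lit 351) (nat_lit 282) (nat_lit 87))) (XT.nd (nat_lit 38728) (nat_lit 0) (nat_lit 8988) (XT.lf (nat_lit 0) (nat_lit 190505788195) (nat_lit 168) (nat_lit 28056435307) (nat_lit 0) (nat_lit 27719704620) (nat_lit 21) (nat_lit 5) (nat_lit 23) (nat_lit 4) (nat_lit 21) (nat_lit 4) (nat_lit 352) (nat_lit 282) (nat_lit 86)) (XT.nd (nat_lit 94) (nat_lit 0) (nat_lit 0) (XT.lf (nat_lit 0) (nat_lit 7369266632) (nat_lit 924) (nat_lit 4592244163) (nat_lit 924) (nat_lit 4592244163) (nat_lit 128) (nat_lit 3) (nat_lit 139) (nat_lit 3) (nat_lit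 139) (nat_lit 5) (nat_lit 283) (nat_lit 283) (nat_lit 154)) (XT.lf (nat_lit 84) (nat_lit 7612927867) (nat_lit 0) (nat_lit 7671879875) (nat_lit 924) (nat_lit 18641499366) (nat_lit 129) (nat_lit 5) (nat_lit 128) (nat_lit 3) (nat_lit 139) (nat_lit 5) (nat_lit 284) (nat_lit 283) (nat_lit 153))))))) (XT.nd (nat_lit 752) (nat_lit 2268) (nat_lit 0) (XT.nd (nat_lit 376) (nat_lit 0) (nat_lit 168) (XT.nd (nat_lit 188) (nat_lit 0) (nat_lit 84) (XT.nd (nat_lit 94) (nat_lit 0) (nat_lit 0) (XT.lf (nat_lit 0) (nat_lit 16159344054) (nat_lit 840) (nat_lit 9360634339) (nat_lit 924) (nat_lit 9251018361) (nat_lit 129) (nat_lit 5) (nat_lit 139) (nat_lit 5) (nat_lit 140) (nat_lit 5) (nat_lit 285) (nat_lit 283) (nat_lit 152)) (XT.lf (nat_lit 84) (nat_lit 8586649087) (nat_lit 0) (nat_lit 8747190026) (nat_lit 924) (nat_lit 18311270170) (nat_lit 130) (nat_lit 5) (nat_lit 129) (nat_lit 5) (nat_lit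 140) (nat_lit 5) (nat_lit 286) (nat_lit 283) (nat_lit 151))) (XT.nd (nat_lit 94) (nat_lit 0) (nat_lit 0) (XT.lf (nat_lit 0) (nat_lit 18863141059) (nat_lit 840) (nat_lit 8942034424) (nat_lit 924) (nat_lit 8742947851) (nat_lit 130) (nat_lit 5) (nat_lit 140) (nat_lit 5) (nat_lit 141) (nat_lit 5) (nat_lit 287) (nat_lit 283) (nat_lit 150)) (XT.lf (nat_lit 84) (nat_lit 10263093740) (nat_lit 0) (nat_lit 10506171209) (nat_lit 924) (nat_lit 16712005295) (nat_lit 131) (nat_lit 5) (nat_lit 130) (nat_lit 5) (nat_lit 141) (nat_lit 5) (nat_lit 288) (nat_lit 283) (nat_lit 149)))) (XT.nd (nat_lit 188) (nat_lit 0) (nat_lit 84) (XT.nd (nat_lit 94) (nat_lit 0) (nat_lit 0) (XT.lf (nat_lit 0) (nat_lit 23041036838) (nat_lit 840) (nat_lit 7838961981) (nat_lit 924) (nat_lit 7567558591) (nat_lit 131) (nat_lit 5) (nat_lit 141) (nat_lit 5) (nat_lit 142) (nat_lit 5) (nat_lit 289) (nat_lit 283) (nat_lit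 148)) (XT.lf (nat_lit 84) (nat_lit 12742592167) (nat_lit 0) (nat_lit 13051996547) (nat_lit 924) (nat_lit 13649160650) (nat_lit 132) (nat_lit 5) (nat_lit 131) (nat_lit 5) (nat_lit 142) (nat_lit 5) (nat_lit 290) (nat_lit 283) (nat_lit 147))) (XT.nd (nat_lit 94) (nat_lit 0) (nat_lit 0) (XT.lf (nat_lit 0) (nat_lit 28906365461) (nat_lit 840) (nat_lit 5950748474) (nat_lit 924) (nat_lit 5621609617) (nat_lit 132) (nat_lit 5) (nat_lit 142) (nat_lit 5) (nat_lit 143) (nat_lit 5) (nat_lit 291) (nat_lit 283) (nat_lit 146)) (XT.lf (nat_lit 84) (nat_lit 16137475384) (nat_lit 0) (nat_lit 16499440925) (nat_lit 924) (nat_lit 8905370878) (nat_lit 133) (nat_lit 5) (nat_lit 132) (nat_lit 5) (nat_lit 143) (nat_lit 5) (nat_lit 292) (nat_lit 283) (nat_lit 145))))) (XT.nd (nat_lit 376) (nat_lit 1176) (nat_lit 0) (XT.nd (nat_lit 188) (nat_lit 588) (nat_lit 0) (XT.nd (nat_lit 94) (nat_lit 840) (nat_lit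 0) (XT.lf (nat_lit 0) (nat_lit 36697138018) (nat_lit 840) (nat_lit 3164618837) (nat_lit 84) (nat_lit 2790114981) (nat_lit 133) (nat_lit 5) (nat_lit 143) (nat_lit 5) (nat_lit 134) (nat_lit 5) (nat_lit 293) (nat_lit 283) (nat_lit 144)) (XT.lf (nat_lit 0) (nat_lit 20573347501) (nat_lit 840) (nat_lit 20976208281) (nat_lit 924) (nat_lit 2237920689) (nat_lit 123) (nat_lit 5) (nat_lit 133) (nat_lit 5) (nat_lit 134) (nat_lit 5) (nat_lit 294) (nat_lit 283) (nat_lit 143))) (XT.nd (nat_lit 94) (nat_lit 0) (nat_lit 0) (XT.lf (nat_lit 0) (nat_lit 621651316) (nat_lit 504) (nat_lit 1051518690) (nat_lit 588) (nat_lit 43302305835) (nat_lit 116) (nat_lit 5) (nat_lit 122) (nat_lit 5) (nat_lit 123) (nat_lit 5) (nat_lit 295) (nat_lit 283) (nat_lit 142)) (XT.lf (nat_lit 0) (nat_lit 6412035475) (nat_lit 588) (nat_lit 20103763583) (nat_lit 84) (nat_lit 19669870308) (nat_lit 116) (nat_lit 5) (nat_lit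 123) (nat_lit 5) (nat_lit 117) (nat_lit 5) (nat_lit 296) (nat_lit 283) (nat_lit 141)))) (XT.nd (nat_lit 188) (nat_lit 756) (nat_lit 0) (XT.nd (nat_lit 94) (nat_lit 0) (nat_lit 0) (XT.lf (nat_lit 0) (nat_lit 5515857618) (nat_lit 420) (nat_lit 5973080205) (nat_lit 504) (nat_lit 35962380064) (nat_lit 111) (nat_lit 5) (nat_lit 116) (nat_lit 5) (nat_lit 117) (nat_lit 5) (nat_lit 297) (nat_lit 283) (nat_lit 140)) (XT.lf (nat_lit 0) (nat_lit 17407053531) (nat_lit 504) (nat_lit 15900218674) (nat_lit 84) (nat_lit 15443608218) (nat_lit 111) (nat_lit 5) (nat_lit 117) (nat_lit 5) (nat_lit 112) (nat_lit 5) (nat_lit 298) (nat_lit 283) (nat_lit 139))) (XT.nd (nat_lit 94) (nat_lit 336) (nat_lit 0) (XT.lf (nat_lit 0) (nat_lit 11711497615) (nat_lit 420) (nat_lit 12188260807) (nat_lit 504) (nat_lit 26201728492) (nat_lit 106) (nat_lit 5) (nat_lit 111) (nat_lit 5) (nat_lit 112) (nat_lit 5) (nat_lit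 299) (nat_lit 283) (nat_lit 138)) (XT.nd (nat_lit 94) (nat_lit 336) (nat_lit 0) (XT.lf (nat_lit 0) (nat_lit 31144688959) (nat_lit 504) (nat_lit 10412947280) (nat_lit 84) (nat_lit 9940607971) (nat_lit 106) (nat_lit 5) (nat_lit 112) (nat_lit 5) (nat_lit 107) (nat_lit 5) (nat_lit 300) (nat_lit 283) (nat_lit 137)) (XT.lf (nat_lit 0) (nat_lit 19381297985) (nat_lit 336) (nat_lit 19871045985) (nat_lit 420) (nat_lit 13687471504) (nat_lit 102) (nat_lit 5) (nat_lit 106) (nat_lit 5) (nat_lit 107) (nat_lit 5) (nat_lit 301) (nat_lit 283) (nat_lit 136))))))))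
noncomputable def xc199 : XT := (XT.nd (nat_lit 1598) (nat_lit 2184) (nat_lit 0) (XT.nd (nat_lit 752) (nat_lit 1260) (nat_lit 0) (XT.nd (nat_lit 376) (nat_lit 1008) (nat_lit 0) (XT.nd (nat_lit 188) (nat_lit 336) (nat_lit 0) (XT.nd (nat_lit 94) (nat_lit 420) (nat_lit 0) (XT.lf (nat_lit 0) (nat_lit 47988024556) (nat_lit 420) (nat_lit 3468262734) (nat_lit 84) (nat_lit 2986045871) (nat_lit 102) (nat_lit 5) (nat_lit 107) (nat_lit 5) (nat_lit 103) (nat_lit 5) (nat_lit 302) (nat_lit 283) (nat_lit 135)) (XT.lf (nat_lit 0) (nat_lit 1889007690) (nat_lit 420) (nat_lit 27294041958) (nat_lit 84) (nat_lit 26796786813) (nat_lit 97) (nat_lit 5) (nat_lit 102) (nat_lit 5) (nat_lit 98) (nat_lit 5) (nat_lit 303) (nat_lit 283) (nat_lit 134))) (XT.nd (nat_lit 94) (nat_lit 0) (nat_lit 0) (XT.lf (nat_lit 0) (nat_lit 5028729577) (nat_lit 336) (nat_lit 5540306896) (nat_lit 420) (nat_lit 47013065350)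 (nat_lit 93) (nat_lit 5) (nat_lit 97) (nat_lit 5) (nat_lit 98) (nat_lit 5) (nat_lit 304) (nat_lit 283) (nat_lit 133)) (XT.lf (nat_lit 0) (nat_lit 20452254749) (nat_lit 420) (nat_lit 19636986714) (nat_lit 84) (nat_lit 19136779587) (nat_lit 93) (nat_lit 5) (nat_lit 98) (nat_lit 5) (nat_lit 94) (nat_lit 5) (nat_lit 305) (nat_lit 283) (nat_lit 132)))) (XT.nd (nat_lit 188) (nat_lit 672) (nat_lit 0) (XT.nd (nat_lit 94) (nat_lit 0) (nat_lit 0) (XT.lf (nat_lit 0) (nat_lit 15322739166) (nat_lit 336) (nat_lit 15835318325) (nat_lit 420) (nat_lit 29777657571) (nat_lit 89) (nat_lit 5) (nat_lit 93) (nat_lit 5) (nat_lit 94) (nat_lit 5) (nat_lit 306) (nat_lit 283) (nat_lit 131)) (XT.lf (nat_lit 0) (nat_lit 42885942281) (nat_lit 420) (nat_lit 10160002161) (nat_lit 84) (nat_lit 9660609735) (nat_lit 89) (nat_lit 5) (nat_lit 94) (nat_lit 5) (nat_lit 90) (nat_lit 5) (nat_lit 307) (nat_lit 283)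 (nat_lit 130))) (XT.nd (nat_lit 94) (nat_lit 420) (nat_lit 0) (XT.lf (nat_lit 0) (nat_lit 27690271027) (nat_lit 252) (nat_lit 28200350879) (nat_lit 336) (nat_lit 8640793313) (nat_lit 86) (nat_lit 5) (nat_lit 89) (nat_lit 5) (nat_lit 90) (nat_lit 5) (nat_lit 308) (nat_lit 283) (nat_lit 129)) (XT.lf (nat_lit 0) (nat_lit 1336426102) (nat_lit 336) (nat_lit 1856684455) (nat_lit 420) (nat_lit 63242277810) (nat_lit 81) (nat_lit 5) (nat_lit 85) (nat_lit 5) (nat_lit 86) (nat_lit 5) (nat_lit 309) (nat_lit 283) (nat_lit 128))))) (XT.nd (nat_lit 376) (nat_lit 756) (nat_lit 0) (XT.nd (nat_lit 188) (nat_lit 252) (nat_lit 0) (XT.nd (nat_lit 94) (nat_lit 252) (nat_lit 0) (XT.lf (nat_lit 0) (nat_lit 16363879870) (nat_lit 420) (nat_lit 26258268075) (nat_lit 84) (nat_lit 25753551729) (nat_lit 81) (nat_lit 5) (nat_lit 86) (nat_lit 5) (nat_lit 82) (nat_lit 5) (nat_lit 310) (nat_lit 283) (nat_lit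 127)) (XT.lf (nat_lit 0) (nat_lit 14971230180) (nat_lit 252) (nat_lit 15484739098) (nat_lit 336) (nat_lit 39943918188) (nat_lit 78) (nat_lit 5) (nat_lit 81) (nat_lit 5) (nat_lit 82) (nat_lit 5) (nat_lit 311) (nat_lit 283) (nat_lit 126))) (XT.nd (nat_lit 94) (nat_lit 252) (nat_lit 0) (XT.lf (nat_lit 0) (nat_lit 45906393913) (nat_lit 336) (nat_lit 13541617716) (nat_lit 84) (nat_lit 13044586481) (nat_lit 78) (nat_lit 5) (nat_lit 82) (nat_lit 5) (nat_lit 79) (nat_lit 5) (nat_lit 312) (nat_lit 283) (nat_lit 125)) (XT.lf (nat_lit 0) (nat_lit 31182047303) (nat_lit 252) (nat_lit 31686673892) (nat_lit 336) (nat_lit 11784254022) (nat_lit 75) (nat_lit 5) (nat_lit 78) (nat_lit 5) (nat_lit 79) (nat_lit 5) (nat_lit 313) (nat_lit 283) (nat_lit 124)))) (XT.nd (nat_lit 188) (nat_lit 420) (nat_lit 0) (XT.nd (nat_lit 94) (nat_lit 0) (nat_lit 0) (XT.lf (nat_lit 0) (nat_lit 1691938046) (nat_lit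 252) (nat_lit 2203798306) (nat_lit 336) (nat_lit 73009790563) (nat_lit 71) (nat_lit 5) (nat_lit 74) (nat_lit 5) (nat_lit 75) (nat_lit 5) (nat_lit 314) (nat_lit 283) (nat_lit 123)) (XT.lf (nat_lit 0) (nat_lit 21159615314) (nat_lit 336) (nat_lit 29267841456) (nat_lit 84) (nat_lit 28773794341) (nat_lit 71) (nat_lit 5) (nat_lit 75) (nat_lit 5) (nat_lit 72) (nat_lit 5) (nat_lit 315) (nat_lit 283) (nat_lit 122))) (XT.nd (nat_lit 94) (nat_lit 168) (nat_lit 0) (XT.lf (nat_lit 0) (nat_lit 19563374354) (nat_lit 252) (nat_lit 20063670185) (nat_lit 336) (nat_lit 41967699161) (nat_lit 68) (nat_lit 5) (nat_lit 71) (nat_lit 5) (nat_lit 72) (nat_lit 5) (nat_lit 316) (nat_lit 283) (nat_lit 121)) (XT.nd (nat_lit 94) (nat_lit 168) (nat_lit 0) (XT.lf (nat_lit 0) (nat_lit 59704961711) (nat_lit 336) (nat_lit 12425366687) (nat_lit 84) (nat_lit 11943226696) (nat_lit 68) (nat_lit 5) (nat_lit 72)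 (nat_lit 5) (nat_lit 69) (nat_lit 5) (nat_lit 317) (nat_lit 283) (nat_lit 120)) (XT.lf (nat_lit 0) (nat_lit 40630687004) (nat_lit 168) (nat_lit 41118224872) (nat_lit 252) (nat_lit 4879288326) (nat_lit 66) (nat_lit 5) (nat_lit 68) (nat_lit 5) (nat_lit 69) (nat_lit 5) (nat_lit 318) (nat_lit 283) (nat_lit 119))))))) (XT.nd (nat_lit 752) (nat_lit 1092) (nat_lit 0) (XT.nd (nat_lit 376) (nat_lit 588) (nat_lit 0) (XT.nd (nat_lit 188) (nat_lit 168) (nat_lit 0) (XT.nd (nat_lit 94) (nat_lit 0) (nat_lit 0) (XT.lf (nat_lit 0) (nat_lit 7461122541) (nat_lit 252) (nat_lit 7953801243) (nat_lit 336) (nat_lit 73867025782) (nat_lit 62) (nat_lit 5) (nat_lit 65) (nat_lit 5) (nat_lit 66) (nat_lit 5) (nat_lit 319) (nat_lit 283) (nat_lit 118)) (XT.lf (nat_lit 0) (nat_lit 37770019156) (nat_lit 336) (nat_lit 27353870544) (nat_lit 84) (nat_lit 26879989843) (nat_lit 62) (nat_lit 5) (nat_lit 66) (nat_lit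 5) (nat_lit 63) (nat_lit 5) (nat_lit 320) (nat_lit 283) (nat_lit 117))) (XT.nd (nat_lit 94) (nat_lit 0) (nat_lit 0) (XT.lf (nat_lit 0) (nat_lit 30686491614) (nat_lit 168) (nat_lit 31164813160) (nat_lit 252) (nat_lit 32980179473) (nat_lit 60) (nat_lit 5) (nat_lit 62) (nat_lit 5) (nat_lit 63) (nat_lit 5) (nat_lit 321) (nat_lit 283) (nat_lit 116)) (XT.lf (nat_lit 0) (nat_lit 87676593121) (nat_lit 252) (nat_lit 5278225725) (nat_lit 84) (nat_lit 4818653416) (nat_lit 60) (nat_lit 5) (nat_lit 63) (nat_lit 5) (nat_lit 61) (nat_lit 5) (nat_lit 322) (nat_lit 283) (nat_lit 115)))) (XT.nd (nat_lit 188) (nat_lit 168) (nat_lit 0) (XT.nd (nat_lit 94) (nat_lit 168) (nat_lit 0) (XT.lf (nat_lit 0) (nat_lit 14921334628) (nat_lit 252) (nat_lit 43160964023) (nat_lit 84) (nat_lit 42697555544) (nat_lit 57) (nat_lit 5) (nat_lit 60) (nat_lit 5) (nat_lit 58) (nat_lit 5) (nat_lit 323) (nat_lit 283)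 (nat_lit 114)) (XT.lf (nat_lit 0) (nat_lit 20396192517) (nat_lit 168) (nat_lit 20863254492) (nat_lit 252) (nat_lit 62648416622) (nat_lit 55) (nat_lit 5) (nat_lit 57) (nat_lit 5) (nat_lit 58) (nat_lit 5) (nat_lit 324) (nat_lit 283) (nat_lit 113))) (XT.nd (nat_lit 94) (nat_lit 168) (nat_lit 0) (XT.lf (nat_lit 0) (nat_lit 69940838283) (nat_lit 252) (nat_lit 18824125673) (nat_lit 84) (nat_lit 18375990918) (nat_lit 55) (nat_lit 5) (nat_lit 58) (nat_lit 5) (nat_lit 56) (nat_lit 5) (nat_lit 325) (nat_lit 283) (nat_lit 112)) (XT.lf (nat_lit 0) (nat_lit 50366228802) (nat_lit 168) (nat_lit 50817519585) (nat_lit 252) (nat_lit 9295579830) (nat_lit 53) (nat_lit 5) (nat_lit 55) (nat_lit 5) (nat_lit 56) (nat_lit 5) (nat_lit 326) (nat_lit 283) (nat_lit 111))))) (XT.nd (nat_lit 376) (nat_lit 672) (nat_lit 0) (XT.nd (nat_lit 188) (nat_lit 168) (nat_lit 0) (XT.nd (nat_lit 94) (nat_lit 0) (nat_lit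 0) (XT.lf (nat_lit 0) (nat_lit 9692022840) (nat_lit 168) (nat_lit 10146319361) (nat_lit 252) (nat_lit 94106941095) (nat_lit 50) (nat_lit 5) (nat_lit 52) (nat_lit 5) (nat_lit 53) (nat_lit 5) (nat_lit 327) (nat_lit 283) (nat_lit 110)) (XT.lf (nat_lit 0) (nat_lit 51658715244) (nat_lit 252) (nat_lit 33138241919) (nat_lit 84) (nat_lit 32702852271) (nat_lit 50) (nat_lit 5) (nat_lit 53) (nat_lit 5) (nat_lit 51) (nat_lit 5) (nat_lit 328) (nat_lit 283) (nat_lit 109))) (XT.nd (nat_lit 94) (nat_lit 0) (nat_lit 0) (XT.lf (nat_lit 0) (nat_lit 42732377408) (nat_lit 168) (nat_lit 43170363527) (nat_lit 252) (nat_lit 35287689244) (nat_lit 48) (nat_lit 5) (nat_lit 50) (nat_lit 5) (nat_lit 51) (nat_lit 5) (nat_lit 329) (nat_lit 283) (nat_lit 108)) (XT.lf (nat_lit 0) (nat_lit 122436909924) (nat_lit 252) (nat_lit 1509629825) (nat_lit 84) (nat_lit 1090145112) (nat_lit 48) (nat_lit 5) (nat_lit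 51) (nat_lit 5) (nat_lit 49) (nat_lit 4) (nat_lit 330) (nat_lit 283) (nat_lit 107)))) (XT.nd (nat_lit 188) (nat_lit 336) (nat_lit 0) (XT.nd (nat_lit 94) (nat_lit 168) (nat_lit 0) (XT.lf (nat_lit 0) (nat_lit 32713841336) (nat_lit 168) (nat_lit 48329021712) (nat_lit 84) (nat_lit 47907294070) (nat_lit 46) (nat_lit 5) (nat_lit 48) (nat_lit 5) (nat_lit 47) (nat_lit 5) (nat_lit 331) (nat_lit 283) (nat_lit 106)) (XT.lf (nat_lit 0) (nat_lit 34926183872) (nat_lit 168) (nat_lit 35350047638) (nat_lit 252) (nat_lit 62752417388) (nat_lit 44) (nat_lit 5) (nat_lit 46) (nat_lit 5) (nat_lit 47) (nat_lit 5) (nat_lit 332) (nat_lit 283) (nat_lit 105))) (XT.nd (nat_lit 94) (nat_lit 336) (nat_lit 0) (XT.lf (nat_lit 0) (nat_lit 110744971628) (nat_lit 252) (nat_lit 13460149710) (nat_lit 84) (nat_lit 13054532406) (nat_lit 44) (nat_lit 5) (nat_lit 47) (nat_lit 5) (nat_lit 45) (nat_lit 4) (nat_lit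 333) (nat_lit 283) (nat_lit 104)) (XT.nd (nat_lit 94) (nat_lit 168) (nat_lit 0) (XT.lf (nat_lit 0) (nat_lit 12980749779) (nat_lit 168) (nat_lit 64514583492) (nat_lit 84) (nat_lit 64107120926) (nat_lit 42) (nat_lit 5) (nat_lit 44) (nat_lit 5) (nat_lit 43) (nat_lit 5) (nat_lit 334) (nat_lit 283) (nat_lit 103)) (XT.lf (nat_lit 0) (nat_lit 26900791894) (nat_lit 168) (nat_lit 27310011855) (nat_lit 252) (nat_lit 91897311694) (nat_lit 40) (nat_lit 5) (nat_lit 42) (nat_lit 5) (nat_lit 43) (nat_lit 5) (nat_lit 335) (nat_lit 283) (nat_lit 102))))))))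
noncomputable def xc200 : XT := (XT.nd (nat_lit 40326) (nat_lit 0) (nat_lit 7056) (XT.nd (nat_lit 752) (nat_lit 756) (nat_lit 0) (XT.nd (nat_lit 376) (nat_lit 420) (nat_lit 0) (XT.nd (nat_lit 188) (nat_lit 252) (nat_lit 0) (XT.nd (nat_lit 94) (nat_lit 84) (nat_lit 0) (XT.lf (nat_lit 0) (nat_lit 99008417016) (nat_lit 252) (nat_lit 26073333604) (nat_lit 84) (nat_lit 25682006301) (nat_lit 40) (nat_lit 5) (nat_lit 43) (nat_lit 5) (nat_lit 41) (nat_lit 4) (nat_lit 336) (nat_lit 283) (nat_lit 101)) (XT.lf (nat_lit 0) (nat_lit 73624765648) (nat_lit 84) (nat_lit 74017611054) (nat_lit 168) (nat_lit 7929980485) (nat_lit 39) (nat_lit 5) (nat_lit 40) (nat_lit 5) (nat_lit 41) (nat_lit 4) (nat_lit 337) (nat_lit 283) (nat_lit 100))) (XT.nd (nat_lit 94) (nat_lit 0) (nat_lit 0) (XT.lf (nat_lit 0) (nat_lit 18605956845) (nat_lit 168) (nat_lit 19000248064) (nat_lit 252) (nat_lit 122948522163)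 (nat_lit 36) (nat_lit 5) (nat_lit 38) (nat_lit 5) (nat_lit 39) (nat_lit 5) (nat_lit 338) (nat_lit 283) (nat_lit 99)) (XT.lf (nat_lit 0) (nat_lit 87167829055) (nat_lit 252) (nat_lit 39443978406) (nat_lit 84) (nat_lit 39067151565) (nat_lit 36) (nat_lit 5) (nat_lit 39) (nat_lit 5) (nat_lit 37) (nat_lit 4) (nat_lit 339) (nat_lit 283) (nat_lit 98)))) (XT.nd (nat_lit 188) (nat_lit 84) (nat_lit 0) (XT.nd (nat_lit 94) (nat_lit 252) (nat_lit 0) (XT.lf (nat_lit 0) (nat_lit 70117490823) (nat_lit 84) (nat_lit 70495566610) (nat_lit 168) (nat_lit 30376068993) (nat_lit 35) (nat_lit 5) (nat_lit 36) (nat_lit 5) (nat_lit 37) (nat_lit 4) (nat_lit 340) (nat_lit 283) (nat_lit 97)) (XT.lf (nat_lit 0) (nat_lit 9987626788) (nat_lit 168) (nat_lit 10366892049) (nat_lit 252) (nat_lit 156152830991) (nat_lit 32) (nat_lit 5) (nat_lit 34) (nat_lit 5) (nat_lit 35) (nat_lit 5) (nat_lit 341) (nat_lit 283)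 (nat_lit 96))) (XT.nd (nat_lit 94) (nat_lit 84) (nat_lit 0) (XT.lf (nat_lit 0) (nat_lit 75160294462) (nat_lit 252) (nat_lit 53675300371) (nat_lit 84) (nat_lit 53313016474) (nat_lit 32) (nat_lit 5) (nat_lit 35) (nat_lit 5) (nat_lit 33) (nat_lit 4) (nat_lit 342) (nat_lit 283) (nat_lit 95)) (XT.lf (nat_lit 0) (nat_lit 66777465530) (nat_lit 84) (nat_lit 67140776939) (nat_lit 168) (nat_lit 54093099212) (nat_lit 31) (nat_lit 5) (nat_lit 32) (nat_lit 5) (nat_lit 33) (nat_lit 4) (nat_lit 343) (nat_lit 283) (nat_lit 94))))) (XT.nd (nat_lit 376) (nat_lit 420) (nat_lit 0) (XT.nd (nat_lit 188) (nat_lit 84) (nat_lit 0) (XT.nd (nat_lit 94) (nat_lit 0) (nat_lit 0) (XT.lf (nat_lit 0) (nat_lit 987484730) (nat_lit 168) (nat_lit 1351774721) (nat_lit 252) (nat_lit 191779885164) (nat_lit 28) (nat_lit 5) (nat_lit 30) (nat_lit 5) (nat_lit 31) (nat_lit 5) (nat_lit 344) (nat_lit 283) (nat_lit 93))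 (XT.lf (nat_lit 0) (nat_lit 62918924944) (nat_lit 252) (nat_lit 68879863006) (nat_lit 84) (nat_lit 68532032553) (nat_lit 28) (nat_lit 5) (nat_lit 31) (nat_lit 5) (nat_lit 29) (nat_lit 4) (nat_lit 345) (nat_lit 283) (nat_lit 92))) (XT.nd (nat_lit 94) (nat_lit 0) (nat_lit 0) (XT.lf (nat_lit 0) (nat_lit 63596683584) (nat_lit 84) (nat_lit 63945359372) (nat_lit 168) (nat_lit 79260313766) (nat_lit 27) (nat_lit 5) (nat_lit 28) (nat_lit 5) (nat_lit 29) (nat_lit 4) (nat_lit 346) (nat_lit 283) (nat_lit 91)) (XT.lf (nat_lit 0) (nat_lit 196695328064) (nat_lit 168) (nat_lit 8585015027) (nat_lit 0) (nat_lit 8252176102) (nat_lit 27) (nat_lit 5) (nat_lit 29) (nat_lit 4) (nat_lit 27) (nat_lit 4) (nat_lit 347) (nat_lit 283) (nat_lit 90)))) (XT.nd (nat_lit 188) (nat_lit 168) (nat_lit 0) (XT.nd (nat_lit 94) (nat_lit 84) (nat_lit 0) (XT.lf (nat_lit 0) (nat_lit 50372334530) (nat_lit 168) (nat_lit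 85180596408) (nat_lit 84) (nat_lit 84847027249) (nat_lit 25) (nat_lit 5) (nat_lit 27) (nat_lit 5) (nat_lit 26) (nat_lit 4) (nat_lit 348) (nat_lit 283) (nat_lit 89)) (XT.lf (nat_lit 0) (nat_lit 60567527479) (nat_lit 84) (nat_lit 60901792098) (nat_lit 168) (nat_lit 106073007420) (nat_lit 24) (nat_lit 5) (nat_lit 25) (nat_lit 5) (nat_lit 26) (nat_lit 4) (nat_lit 349) (nat_lit 283) (nat_lit 88))) (XT.nd (nat_lit 94) (nat_lit 168) (nat_lit 0) (XT.lf (nat_lit 0) (nat_lit 197859740383) (nat_lit 168) (nat_lit 18707061300) (nat_lit 0) (nat_lit 18388083241) (nat_lit 24) (nat_lit 5) (nat_lit 26) (nat_lit 4) (nat_lit 24) (nat_lit 4) (nat_lit 350) (nat_lit 283) (nat_lit 87)) (XT.lf (nat_lit 0) (nat_lit 37444068378) (nat_lit 168) (nat_lit 102711917731) (nat_lit 84) (nat_lit 102392338907) (nat_lit 22) (nat_lit 5) (nat_lit 24) (nat_lit 5) (nat_lit 23) (nat_lit 4) (nat_lit 351) (nat_lit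 283) (nat_lit 86)))))) (XT.nd (nat_lit 752) (nat_lit 1848) (nat_lit 0) (XT.nd (nat_lit 376) (nat_lit 0) (nat_lit 168) (XT.nd (nat_lit 188) (nat_lit 0) (nat_lit 84) (XT.nd (nat_lit 94) (nat_lit 0) (nat_lit 0) (XT.lf (nat_lit 0) (nat_lit 7795761565) (nat_lit 924) (nat_lit 4791389780) (nat_lit 924) (nat_lit 4791389780) (nat_lit 128) (nat_lit 3) (nat_lit 139) (nat_lit 3) (nat_lit 139) (nat_lit 5) (nat_lit 284) (nat_lit 284) (nat_lit 152)) (XT.lf (nat_lit 84) (nat_lit 8053524649) (nat_lit 0) (nat_lit 8106995858) (nat_lit 924) (nat_lit 19456528338) (nat_lit 129) (nat_lit 5) (nat_lit 128) (nat_lit 3) (nat_lit 139) (nat_lit 5) (nat_lit 285) (nat_lit 284) (nat_lit 151))) (XT.nd (nat_lit 94) (nat_lit 0) (nat_lit 0) (XT.lf (nat_lit 0) (nat_lit 17072709328) (nat_lit 840) (nat_lit 9765496142) (nat_lit 924) (nat_lit 9666071218) (nat_lit 129) (nat_lit 5) (nat_lit 139) (nat_lit 5) (nat_lit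 140) (nat_lit 5) (nat_lit 286) (nat_lit 284) (nat_lit 150)) (XT.lf (nat_lit 84) (nat_lit 9078132586) (nat_lit 0) (nat_lit 9223747951) (nat_lit 924) (nat_lit 19120416738) (nat_lit 130) (nat_lit 5) (nat_lit 129) (nat_lit 5) (nat_lit 140) (nat_lit 5) (nat_lit 287) (nat_lit 284) (nat_lit 149)))) (XT.nd (nat_lit 188) (nat_lit 0) (nat_lit 84) (XT.nd (nat_lit 94) (nat_lit 0) (nat_lit 0) (XT.lf (nat_lit 0) (nat_lit 19902238561) (nat_lit 840) (nat_lit 9324535654) (nat_lit 924) (nat_lit 9143958263) (nat_lit 130) (nat_lit 5) (nat_lit 140) (nat_lit 5) (nat_lit 141) (nat_lit 5) (nat_lit 288) (nat_lit 284) (nat_lit 148)) (XT.lf (nat_lit 84) (nat_lit 10839806975) (nat_lit 0) (nat_lit 11060285405) (nat_lit 924) (nat_lit 17450623168) (nat_lit 131) (nat_lit 5) (nat_lit 130) (nat_lit 5) (nat_lit 141) (nat_lit 5) (nat_lit 289) (nat_lit 284) (nat_lit 147))) (XT.nd (nat_lit 94) (nat_lit 0) (nat_lit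 0) (XT.lf (nat_lit 0) (nat_lit 24280626247) (nat_lit 840) (nat_lit 8165551515) (nat_lit 924) (nat_lit 7919380640) (nat_lit 131) (nat_lit 5) (nat_lit 141) (nat_lit 5) (nat_lit 142) (nat_lit 5) (nat_lit 290) (nat_lit 284) (nat_lit 146)) (XT.lf (nat_lit 84) (nat_lit 13444026170) (nat_lit 0) (nat_lit 13724665064) (nat_lit 924) (nat_lit 14243026945) (nat_lit 132) (nat_lit 5) (nat_lit 131) (nat_lit 5) (nat_lit 142) (nat_lit 5) (nat_lit 291) (nat_lit 284) (nat_lit 145))))) (XT.nd (nat_lit 376) (nat_lit 1428) (nat_lit 0) (XT.nd (nat_lit 188) (nat_lit 756) (nat_lit 0) (XT.nd (nat_lit 94) (nat_lit 0) (nat_lit 0) (XT.lf (nat_lit 0) (nat_lit 30431740644) (nat_lit 840) (nat_lit 6182727443) (nat_lit 924) (nat_lit 5884188797) (nat_lit 132) (nat_lit 5) (nat_lit 142) (nat_lit 5) (nat_lit 143) (nat_lit 5) (nat_lit 292) (nat_lit 284) (nat_lit 144)) (XT.lf (nat_lit 84) (nat_lit 17008850213)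 (nat_lit 0) (nat_lit 17337163629) (nat_lit 924) (nat_lit 9269525118) (nat_lit 133) (nat_lit 5) (nat_lit 132) (nat_lit 5) (nat_lit 143) (nat_lit 5) (nat_lit 293) (nat_lit 284) (nat_lit 143))) (XT.nd (nat_lit 94) (nat_lit 840) (nat_lit 0) (XT.lf (nat_lit 0) (nat_lit 38605378390) (nat_lit 840) (nat_lit 3257551951) (nat_lit 84) (nat_lit 2917865914) (nat_lit 133) (nat_lit 5) (nat_lit 143) (nat_lit 5) (nat_lit 134) (nat_lit 5) (nat_lit 294) (nat_lit 284) (nat_lit 142)) (XT.lf (nat_lit 0) (nat_lit 21666259513) (nat_lit 840) (nat_lit 22031666116) (nat_lit 924) (nat_lit 2275380062) (nat_lit 123) (nat_lit 5) (nat_lit 133) (nat_lit 5) (nat_lit 134) (nat_lit 5) (nat_lit 295) (nat_lit 284) (nat_lit 141)))) (XT.nd (nat_lit 188) (nat_lit 840) (nat_lit 0) (XT.nd (nat_lit 94) (nat_lit 0) (nat_lit 0) (XT.lf (nat_lit 0) (nat_lit 718286327) (nat_lit 504) (nat_lit 1108188707) (nat_lit 588) (nat_lit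 45394292273) (nat_lit 116) (nat_lit 5) (nat_lit 122) (nat_lit 5) (nat_lit 123) (nat_lit 5) (nat_lit 296) (nat_lit 284) (nat_lit 140)) (XT.lf (nat_lit 0) (nat_lit 6798906399) (nat_lit 588) (nat_lit 21043143485) (nat_lit 84) (nat_lit 20649589493) (nat_lit 116) (nat_lit 5) (nat_lit 123) (nat_lit 5) (nat_lit 117) (nat_lit 5) (nat_lit 297) (nat_lit 284) (nat_lit 139))) (XT.nd (nat_lit 94) (nat_lit 420) (nat_lit 0) (XT.lf (nat_lit 0) (nat_lit 5856397353) (nat_lit 420) (nat_lit 6271111718) (nat_lit 504) (nat_lit 37693168493) (nat_lit 111) (nat_lit 5) (nat_lit 116) (nat_lit 5) (nat_lit 117) (nat_lit 5) (nat_lit 298) (nat_lit 284) (nat_lit 138)) (XT.nd (nat_lit 94) (nat_lit 420) (nat_lit 0) (XT.lf (nat_lit 0) (nat_lit 18338486279) (nat_lit 504) (nat_lit 16630521652) (nat_lit 84) (nat_lit 16216362509) (nat_lit 111) (nat_lit 5) (nat_lit 117) (nat_lit 5) (nat_lit 112) (nat_lit 5) (nat_lit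 299) (nat_lit 284) (nat_lit 137)) (XT.lf (nat_lit 0) (nat_lit 12360736774) (nat_lit 420) (nat_lit 12793175044) (nat_lit 504) (nat_lit 27449691168) (nat_lit 106) (nat_lit 5) (nat_lit 111) (nat_lit 5) (nat_lit 112) (nat_lit 5) (nat_lit 300) (nat_lit 284) (nat_lit 136))))))))
noncomputable def xc201 : XT := (XT.nd (nat_lit 1598) (nat_lit 2016) (nat_lit 0) (XT.nd (nat_lit 752) (nat_lit 1764) (nat_lit 0) (XT.nd (nat_lit 376) (nat_lit 672) (nat_lit 0) (XT.nd (nat_lit 188) (nat_lit 420) (nat_lit 0) (XT.nd (nat_lit 94) (nat_lit 336) (nat_lit 0) (XT.lf (nat_lit 0) (nat_lit 32758338372) (nat_lit 504) (nat_lit 10870211489) (nat_lit 84) (nat_lit 10441785812) (nat_lit 106) (nat_lit 5) (nat_lit 112) (nat_lit 5) (nat_lit 107) (nat_lit 5) (nat_lit 301) (nat_lit 284) (nat_lit 135)) (XT.lf (nat_lit 0) (nat_lit 20412723731) (nat_lit 336) (nat_lit 20856939604) (nat_lit 420) (nat_lit 14314407805)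 (nat_lit 102) (nat_lit 5) (nat_lit 106) (nat_lit 5) (nat_lit 107) (nat_lit 5) (nat_lit 302) (nat_lit 284) (nat_lit 134))) (XT.nd (nat_lit 94) (nat_lit 420) (nat_lit 0) (XT.lf (nat_lit 0) (nat_lit 50439636964) (nat_lit 420) (nat_lit 3579793603) (nat_lit 84) (nat_lit 3142408693) (nat_lit 102) (nat_lit 5) (nat_lit 107) (nat_lit 5) (nat_lit 103) (nat_lit 5) (nat_lit 303) (nat_lit 284) (nat_lit 133)) (XT.lf (nat_lit 0) (nat_lit 2034964327) (nat_lit 420) (nat_lit 28596156860) (nat_lit 84) (nat_lit 28145131785) (nat_lit 97) (nat_lit 5) (nat_lit 102) (nat_lit 5) (nat_lit 98) (nat_lit 5) (nat_lit 304) (nat_lit 284) (nat_lit 132)))) (XT.nd (nat_lit 188) (nat_lit 336) (nat_lit 0) (XT.nd (nat_lit 94) (nat_lit 0) (nat_lit 0) (XT.lf (nat_lit 0) (nat_lit 5341743781) (nat_lit 336) (nat_lit 5805759490) (nat_lit 420) (nat_lit 49311202895) (nat_lit 93) (nat_lit 5) (nat_lit 97) (nat_lit 5)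 (nat_lit 98) (nat_lit 5) (nat_lit 305) (nat_lit 284) (nat_lit 131)) (XT.lf (nat_lit 0) (nat_lit 21522672725) (nat_lit 420) (nat_lit 20557980863) (nat_lit 84) (nat_lit 20104278253) (nat_lit 93) (nat_lit 5) (nat_lit 98) (nat_lit 5) (nat_lit 94) (nat_lit 5) (nat_lit 306) (nat_lit 284) (nat_lit 130))) (XT.nd (nat_lit 94) (nat_lit 0) (nat_lit 0) (XT.lf (nat_lit 0) (nat_lit 16148749776) (nat_lit 336) (nat_lit 16613674184) (nat_lit 420) (nat_lit 31217753675) (nat_lit 89) (nat_lit 5) (nat_lit 93) (nat_lit 5) (nat_lit 94) (nat_lit 5) (nat_lit 307) (nat_lit 284) (nat_lit 129)) (XT.lf (nat_lit 0) (nat_lit 45074689836) (nat_lit 420) (nat_lit 10608966590) (nat_lit 84) (nat_lit 10156002938) (nat_lit 89) (nat_lit 5) (nat_lit 94) (nat_lit 5) (nat_lit 90) (nat_lit 5) (nat_lit 308) (nat_lit 284) (nat_lit 128))))) (XT.nd (nat_lit 376) (nat_lit 840) (nat_lit 0) (XT.nd (nat_lit 188) (nat_lit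 252) (nat_lit 0) (XT.nd (nat_lit 94) (nat_lit 420) (nat_lit 0) (XT.lf (nat_lit 0) (nat_lit 29132868069) (nat_lit 252) (nat_lit 29595525531) (nat_lit 336) (nat_lit 9027430349) (nat_lit 86) (nat_lit 5) (nat_lit 89) (nat_lit 5) (nat_lit 90) (nat_lit 5) (nat_lit 309) (nat_lit 284) (nat_lit 127)) (XT.lf (nat_lit 0) (nat_lit 1461823797) (nat_lit 336) (nat_lit 1933713459) (nat_lit 420) (nat_lit 66359481969) (nat_lit 81) (nat_lit 5) (nat_lit 85) (nat_lit 5) (nat_lit 86) (nat_lit 5) (nat_lit 310) (nat_lit 284) (nat_lit 126))) (XT.nd (nat_lit 94) (nat_lit 252) (nat_lit 0) (XT.lf (nat_lit 0) (nat_lit 17223043326) (nat_lit 420) (nat_lit 27513592732) (nat_lit 84) (nat_lit 27055800127) (nat_lit 81) (nat_lit 5) (nat_lit 86) (nat_lit 5) (nat_lit 82) (nat_lit 5) (nat_lit 311) (nat_lit 284) (nat_lit 125)) (XT.lf (nat_lit 0) (nat_lit 15776451586) (nat_lit 252) (nat_lit 16242219312) (nat_lit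 336) (nat_lit 41899215784) (nat_lit 78) (nat_lit 5) (nat_lit 81) (nat_lit 5) (nat_lit 82) (nat_lit 5) (nat_lit 312) (nat_lit 284) (nat_lit 124)))) (XT.nd (nat_lit 188) (nat_lit 588) (nat_lit 0) (XT.nd (nat_lit 94) (nat_lit 252) (nat_lit 0) (XT.lf (nat_lit 0) (nat_lit 48239965776) (nat_lit 336) (nat_lit 14163085807) (nat_lit 84) (nat_lit 13712263825) (nat_lit 78) (nat_lit 5) (nat_lit 82) (nat_lit 5) (nat_lit 79) (nat_lit 5) (nat_lit 313) (nat_lit 284) (nat_lit 123)) (XT.lf (nat_lit 0) (nat_lit 32795865482) (nat_lit 252) (nat_lit 33253576674) (nat_lit 336) (nat_lit 12334317576) (nat_lit 75) (nat_lit 5) (nat_lit 78) (nat_lit 5) (nat_lit 79) (nat_lit 5) (nat_lit 314) (nat_lit 284) (nat_lit 122))) (XT.nd (nat_lit 94) (nat_lit 252) (nat_lit 0) (XT.lf (nat_lit 0) (nat_lit 1831601057) (nat_lit 252) (nat_lit 2295873402) (nat_lit 336) (nat_lit 76621481238) (nat_lit 71) (nat_lit 5)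 (nat_lit 74) (nat_lit 5) (nat_lit 75) (nat_lit 5) (nat_lit 315) (nat_lit 284) (nat_lit 121)) (XT.nd (nat_lit 94) (nat_lit 252) (nat_lit 0) (XT.lf (nat_lit 0) (nat_lit 22253057139) (nat_lit 336) (nat_lit 30677299386) (nat_lit 84) (nat_lit 30229184089) (nat_lit 71) (nat_lit 5) (nat_lit 75) (nat_lit 5) (nat_lit 72) (nat_lit 5) (nat_lit 316) (nat_lit 284) (nat_lit 120)) (XT.lf (nat_lit 0) (nat_lit 20594607309) (nat_lit 252) (nat_lit 21048390376) (nat_lit 336) (nat_lit 44029753155) (nat_lit 68) (nat_lit 5) (nat_lit 71) (nat_lit 5) (nat_lit 72) (nat_lit 5) (nat_lit 317) (nat_lit 284) (nat_lit 119))))))) (XT.nd (nat_lit 752) (nat_lit 924) (nat_lit 0) (XT.nd (nat_lit 376) (nat_lit 588) (nat_lit 0) (XT.nd (nat_lit 188) (nat_lit 336) (nat_lit 0) (XT.nd (nat_lit 94) (nat_lit 168) (nat_lit 0) (XT.lf (nat_lit 0) (nat_lit 62723437590) (nat_lit 336) (nat_lit 12994724527) (nat_lit 84) (nat_lit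 12557409343) (nat_lit 68) (nat_lit 5) (nat_lit 72) (nat_lit 5) (nat_lit 69) (nat_lit 5) (nat_lit 318) (nat_lit 284) (nat_lit 118)) (XT.lf (nat_lit 0) (nat_lit 42713294583) (nat_lit 168) (nat_lit 43155505801) (nat_lit 252) (nat_lit 5089187683) (nat_lit 66) (nat_lit 5) (nat_lit 68) (nat_lit 5) (nat_lit 69) (nat_lit 5) (nat_lit 319) (nat_lit 284) (nat_lit 117))) (XT.nd (nat_lit 94) (nat_lit 0) (nat_lit 0) (XT.lf (nat_lit 0) (nat_lit 7885500844) (nat_lit 252) (nat_lit 8332374950) (nat_lit 336) (nat_lit 77526560960) (nat_lit 62) (nat_lit 5) (nat_lit 65) (nat_lit 5) (nat_lit 66) (nat_lit 5) (nat_lit 320) (nat_lit 284) (nat_lit 116)) (XT.lf (nat_lit 0) (nat_lit 39689476572) (nat_lit 336) (nat_lit 28671436445) (nat_lit 84) (nat_lit 28241612681) (nat_lit 62) (nat_lit 5) (nat_lit 66) (nat_lit 5) (nat_lit 63) (nat_lit 5) (nat_lit 321) (nat_lit 284) (nat_lit 115)))) (XT.nd (nat_lit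 188) (nat_lit 420) (nat_lit 0) (XT.nd (nat_lit 94) (nat_lit 0) (nat_lit 0) (XT.lf (nat_lit 0) (nat_lit 32270135310) (nat_lit 168) (nat_lit 32703987053) (nat_lit 252) (nat_lit 34597423478) (nat_lit 60) (nat_lit 5) (nat_lit 62) (nat_lit 5) (nat_lit 63) (nat_lit 5) (nat_lit 322) (nat_lit 284) (nat_lit 114)) (XT.lf (nat_lit 0) (nat_lit 92089518049) (nat_lit 252) (nat_lit 5494009347) (nat_lit 84) (nat_lit 5077163716) (nat_lit 60) (nat_lit 5) (nat_lit 63) (nat_lit 5) (nat_lit 61) (nat_lit 5) (nat_lit 323) (nat_lit 284) (nat_lit 113))) (XT.nd (nat_lit 94) (nat_lit 168) (nat_lit 0) (XT.lf (nat_lit 0) (nat_lit 15696316809) (nat_lit 252) (nat_lit 45270704737) (nat_lit 84) (nat_lit 44850379586) (nat_lit 57) (nat_lit 5) (nat_lit 60) (nat_lit 5) (nat_lit 58) (nat_lit 5) (nat_lit 324) (nat_lit 284) (nat_lit 112)) (XT.lf (nat_lit 0) (nat_lit 21463530477) (nat_lit 168) (nat_lit 21887169456)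 (nat_lit 252) (nat_lit 65751142850) (nat_lit 55) (nat_lit 5) (nat_lit 57) (nat_lit 5) (nat_lit 58) (nat_lit 5) (nat_lit 325) (nat_lit 284) (nat_lit 111))))) (XT.nd (nat_lit 376) (nat_lit 504) (nat_lit 0) (XT.nd (nat_lit 188) (nat_lit 252) (nat_lit 0) (XT.nd (nat_lit 94) (nat_lit 168) (nat_lit 0) (XT.lf (nat_lit 0) (nat_lit 73465100279) (nat_lit 252) (nat_lit 19719006385) (nat_lit 84) (nat_lit 19312534951) (nat_lit 55) (nat_lit 5) (nat_lit 58) (nat_lit 5) (nat_lit 56) (nat_lit 5) (nat_lit 326) (nat_lit 284) (nat_lit 110)) (XT.lf (nat_lit 0) (nat_lit 52930118628) (nat_lit 168) (nat_lit 53339452671) (nat_lit 252) (nat_lit 9732391554) (nat_lit 53) (nat_lit 5) (nat_lit 55) (nat_lit 5) (nat_lit 56) (nat_lit 5) (nat_lit 327) (nat_lit 284) (nat_lit 109))) (XT.nd (nat_lit 94) (nat_lit 0) (nat_lit 0) (XT.lf (nat_lit 0) (nat_lit 10222347922) (nat_lit 168) (nat_lit 10634408259) (nat_lit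 252) (nat_lit 98784466436) (nat_lit 50) (nat_lit 5) (nat_lit 52) (nat_lit 5) (nat_lit 53) (nat_lit 5) (nat_lit 328) (nat_lit 284) (nat_lit 108)) (XT.lf (nat_lit 0) (nat_lit 54267172015) (nat_lit 252) (nat_lit 34750631543) (nat_lit 84) (nat_lit 34355720298) (nat_lit 50) (nat_lit 5) (nat_lit 53) (nat_lit 5) (nat_lit 51) (nat_lit 5) (nat_lit 329) (nat_lit 284) (nat_lit 107)))) (XT.nd (nat_lit 188) (nat_lit 336) (nat_lit 0) (XT.nd (nat_lit 94) (nat_lit 0) (nat_lit 0) (XT.lf (nat_lit 0) (nat_lit 44912800646) (nat_lit 168) (nat_lit 45310066967) (nat_lit 252) (nat_lit 37025834594) (nat_lit 48) (nat_lit 5) (nat_lit 50) (nat_lit 5) (nat_lit 51) (nat_lit 5) (nat_lit 330) (nat_lit 284) (nat_lit 106)) (XT.lf (nat_lit 0) (nat_lit 128582834832) (nat_lit 252) (nat_lit 1542482651) (nat_lit 84) (nat_lit 1161997651) (nat_lit 48) (nat_lit 5) (nat_lit 51) (nat_lit 5) (nat_lit 49) (nat_lit 4)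 (nat_lit 331) (nat_lit 284) (nat_lit 105))) (XT.nd (nat_lit 94) (nat_lit 168) (nat_lit 0) (XT.lf (nat_lit 0) (nat_lit 34373507676) (nat_lit 168) (nat_lit 50702738994) (nat_lit 84) (nat_lit 50320219591) (nat_lit 46) (nat_lit 5) (nat_lit 48) (nat_lit 5) (nat_lit 47) (nat_lit 5) (nat_lit 332) (nat_lit 284) (nat_lit 104)) (XT.nd (nat_lit 94) (nat_lit 0) (nat_lit 0) (XT.lf (nat_lit 0) (nat_lit 36714537614) (nat_lit 168) (nat_lit 37098994545) (nat_lit 252) (nat_lit 65865374730) (nat_lit 44) (nat_lit 5) (nat_lit 46) (nat_lit 5) (nat_lit 47) (nat_lit 5) (nat_lit 333) (nat_lit 284) (nat_lit 103)) (XT.lf (nat_lit 0) (nat_lit 116304866664) (nat_lit 252) (nat_lit 14092272148) (nat_lit 84) (nat_lit 13724365297) (nat_lit 44) (nat_lit 5) (nat_lit 47) (nat_lit 5) (nat_lit 45) (nat_lit 4) (nat_lit 334) (nat_lit 284) (nat_lit 102))))))))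
noncomputable def xc202 : XT := (XT.nd (nat_lit 40514) (nat_lit 0) (nat_lit 6888) (XT.nd (nat_lit 752) (nat_lit 672) (nat_lit 0) (XT.nd (nat_lit 376) (nat_lit 588) (nat_lit 0) (XT.nd (nat_lit 188) (nat_lit 84) (nat_lit 0) (XT.nd (nat_lit 94) (nat_lit 168) (nat_lit 0) (XT.lf (nat_lit 0) (nat_lit 13652347224) (nat_lit 168) (nat_lit 67699341122) (nat_lit 84) (nat_lit 67329760563) (nat_lit 42) (nat_lit 5) (nat_lit 44) (nat_lit 5) (nat_lit 43) (nat_lit 5) (nat_lit 335) (nat_lit 284) (nat_lit 101)) (XT.lf (nat_lit 0) (nat_lit 28286142202) (nat_lit 168) (nat_lit 28657316770) (nat_lit 252) (nat_lit 96468956492) (nat_lit 40) (nat_lit 5) (nat_lit 42) (nat_lit 5) (nat_lit 43) (nat_lit 5) (nat_lit 336) (nat_lit 284) (nat_lit 100))) (XT.nd (nat_lit 94) (nat_lit 84) (nat_lit 0) (XT.lf (nat_lit 0) (nat_lit 103980170364) (nat_lit 252) (nat_lit 27337826590) (nat_lit 84) (nat_lit 26982881190)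 (nat_lit 40) (nat_lit 5) (nat_lit 43) (nat_lit 5) (nat_lit 41) (nat_lit 4) (nat_lit 337) (nat_lit 284) (nat_lit 99)) (XT.lf (nat_lit 0) (nat_lit 77344545791) (nat_lit 84) (nat_lit 77700868155) (nat_lit 168) (nat_lit 8304515179) (nat_lit 39) (nat_lit 5) (nat_lit 40) (nat_lit 5) (nat_lit 41) (nat_lit 4) (nat_lit 338) (nat_lit 284) (nat_lit 98)))) (XT.nd (nat_lit 188) (nat_lit 336) (nat_lit 0) (XT.nd (nat_lit 94) (nat_lit 0) (nat_lit 0) (XT.lf (nat_lit 0) (nat_lit 19574866563) (nat_lit 168) (nat_lit 19932500321) (nat_lit 252) (nat_lit 129074053955) (nat_lit 36) (nat_lit 5) (nat_lit 38) (nat_lit 5) (nat_lit 39) (nat_lit 5) (nat_lit 339) (nat_lit 284) (nat_lit 97)) (XT.lf (nat_lit 0) (nat_lit 91546343380) (nat_lit 252) (nat_lit 41378675253) (nat_lit 84) (nat_lit 41036882201) (nat_lit 36) (nat_lit 5) (nat_lit 39) (nat_lit 5) (nat_lit 37) (nat_lit 4) (nat_lit 340) (nat_lit 284)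 (nat_lit 96))) (XT.nd (nat_lit 94) (nat_lit 252) (nat_lit 0) (XT.lf (nat_lit 0) (nat_lit 73660262565) (nat_lit 84) (nat_lit 74003188449) (nat_lit 168) (nat_lit 31874144699) (nat_lit 35) (nat_lit 5) (nat_lit 36) (nat_lit 5) (nat_lit 37) (nat_lit 4) (nat_lit 341) (nat_lit 284) (nat_lit 95)) (XT.lf (nat_lit 0) (nat_lit 10523962929) (nat_lit 168) (nat_lit 10867967701) (nat_lit 252) (nat_lit 163939802398) (nat_lit 32) (nat_lit 5) (nat_lit 34) (nat_lit 5) (nat_lit 35) (nat_lit 5) (nat_lit 342) (nat_lit 284) (nat_lit 94))))) (XT.nd (nat_lit 376) (nat_lit 336) (nat_lit 0) (XT.nd (nat_lit 188) (nat_lit 252) (nat_lit 0) (XT.nd (nat_lit 94) (nat_lit 84) (nat_lit 0) (XT.lf (nat_lit 0) (nat_lit 78937314392) (nat_lit 252) (nat_lit 56323189697) (nat_lit 84) (nat_lit 55994587523) (nat_lit 32) (nat_lit 5) (nat_lit 35) (nat_lit 5) (nat_lit 33) (nat_lit 4) (nat_lit 343) (nat_lit 284) (nat_lit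 93)) (XT.lf (nat_lit 0) (nat_lit 70151635859) (nat_lit 84) (nat_lit 70481170016) (nat_lit 168) (nat_lit 56778170326) (nat_lit 31) (nat_lit 5) (nat_lit 32) (nat_lit 5) (nat_lit 33) (nat_lit 4) (nat_lit 344) (nat_lit 284) (nat_lit 92))) (XT.nd (nat_lit 94) (nat_lit 0) (nat_lit 0) (XT.lf (nat_lit 0) (nat_lit 1072203407) (nat_lit 168) (nat_lit 1402625168) (nat_lit 252) (nat_lit 201349342963) (nat_lit 28) (nat_lit 5) (nat_lit 30) (nat_lit 5) (nat_lit 31) (nat_lit 5) (nat_lit 345) (nat_lit 284) (nat_lit 91)) (XT.lf (nat_lit 0) (nat_lit 66082840222) (nat_lit 252) (nat_lit 72289557664) (nat_lit 84) (nat_lit 71974065190) (nat_lit 28) (nat_lit 5) (nat_lit 31) (nat_lit 5) (nat_lit 29) (nat_lit 4) (nat_lit 346) (nat_lit 284) (nat_lit 90)))) (XT.nd (nat_lit 188) (nat_lit 252) (nat_lit 0) (XT.nd (nat_lit 94) (nat_lit 0) (nat_lit 0) (XT.lf (nat_lit 0) (nat_lit 66810263053) (nat_lit 84)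 (nat_lit 67126522272) (nat_lit 168) (nat_lit 83204807222) (nat_lit 27) (nat_lit 5) (nat_lit 28) (nat_lit 5) (nat_lit 29) (nat_lit 4) (nat_lit 347) (nat_lit 284) (nat_lit 89)) (XT.lf (nat_lit 0) (nat_lit 206547134150) (nat_lit 168) (nat_lit 8981526868) (nat_lit 0) (nat_lit 8679632151) (nat_lit 27) (nat_lit 5) (nat_lit 29) (nat_lit 4) (nat_lit 27) (nat_lit 4) (nat_lit 348) (nat_lit 284) (nat_lit 88))) (XT.nd (nat_lit 94) (nat_lit 84) (nat_lit 0) (XT.lf (nat_lit 0) (nat_lit 52907956709) (nat_lit 168) (nat_lit 89406853087) (nat_lit 84) (nat_lit 89104296028) (nat_lit 25) (nat_lit 5) (nat_lit 27) (nat_lit 5) (nat_lit 26) (nat_lit 4) (nat_lit 349) (nat_lit 284) (nat_lit 87)) (XT.nd (nat_lit 94) (nat_lit 0) (nat_lit 0) (XT.lf (nat_lit 0) (nat_lit 63628148395) (nat_lit 84) (nat_lit 63931336258) (nat_lit 168) (nat_lit 111359123739) (nat_lit 24) (nat_lit 5) (nat_lit 25) (nat_lit 5)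 (nat_lit 26) (nat_lit 4) (nat_lit 350) (nat_lit 284) (nat_lit 86)) (XT.lf (nat_lit 0) (nat_lit 207768862454) (nat_lit 168) (nat_lit 19611141232) (nat_lit 0) (nat_lit 19321818730) (nat_lit 24) (nat_lit 5) (nat_lit 26) (nat_lit 4) (nat_lit 24) (nat_lit 4) (nat_lit 351) (nat_lit 284) (nat_lit 85))))))) (XT.nd (nat_lit 752) (nat_lit 1848) (nat_lit 0) (XT.nd (nat_lit 376) (nat_lit 0) (nat_lit 168) (XT.nd (nat_lit 188) (nat_lit 0) (nat_lit 84) (XT.nd (nat_lit 94) (nat_lit 0) (nat_lit 0) (XT.lf (nat_lit 0) (nat_lit 8238186017) (nat_lit 924) (nat_lit 5003325173) (nat_lit 924) (nat_lit 5003325173) (nat_lit 128) (nat_lit 3) (nat_lit 139) (nat_lit 3) (nat_lit 139) (nat_lit 5) (nat_lit 285) (nat_lit 285) (nat_lit 150)) (XT.lf (nat_lit 84) (nat_lit 8510577651) (nat_lit 0) (nat_lit 8559077614) (nat_lit 924) (nat_lit 20323190585) (nat_lit 129) (nat_lit 5) (nat_lit 128) (nat_lit 3) (nat_lit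 139) (nat_lit 5) (nat_lit 286) (nat_lit 285) (nat_lit 149))) (XT.nd (nat_lit 94) (nat_lit 0) (nat_lit 0) (XT.lf (nat_lit 0) (nat_lit 18021943952) (nat_lit 840) (nat_lit 10196473974) (nat_lit 924) (nat_lit 10106292638) (nat_lit 129) (nat_lit 5) (nat_lit 139) (nat_lit 5) (nat_lit 140) (nat_lit 5) (nat_lit 287) (nat_lit 285) (nat_lit 148)) (XT.lf (nat_lit 84) (nat_lit 9588412045) (nat_lit 0) (nat_lit 9720489473) (nat_lit 924) (nat_lit 19979914272) (nat_lit 130) (nat_lit 5) (nat_lit 129) (nat_lit 5) (nat_lit 140) (nat_lit 5) (nat_lit 288) (nat_lit 285) (nat_lit 147)))) (XT.nd (nat_lit 188) (nat_lit 0) (nat_lit 84) (XT.nd (nat_lit 94) (nat_lit 0) (nat_lit 0) (XT.lf (nat_lit 0) (nat_lit 20984371303) (nat_lit 840) (nat_lit 9732167887) (nat_lit 924) (nat_lit 9568378871) (nat_lit 130) (nat_lit 5) (nat_lit 140) (nat_lit 5) (nat_lit 141) (nat_lit 5) (nat_lit 289) (nat_lit 285) (nat_lit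 146)) (XT.lf (nat_lit 84) (nat_lit 11439446800) (nat_lit 0) (nat_lit 11639427235) (nat_lit 924) (nat_lit 18235188438) (nat_lit 131) (nat_lit 5) (nat_lit 130) (nat_lit 5) (nat_lit 141) (nat_lit 5) (nat_lit 290) (nat_lit 285) (nat_lit 145))) (XT.nd (nat_lit 94) (nat_lit 0) (nat_lit 0) (XT.lf (nat_lit 0) (nat_lit 25574056713) (nat_lit 840) (nat_lit 8514546946) (nat_lit 924) (nat_lit 8291262705) (nat_lit 131) (nat_lit 5) (nat_lit 141) (nat_lit 5) (nat_lit 142) (nat_lit 5) (nat_lit 291) (nat_lit 285) (nat_lit 144)) (XT.lf (nat_lit 84) (nat_lit 14174553460) (nat_lit 0) (nat_lit 14429101209) (nat_lit 924) (nat_lit 14874822974) (nat_lit 132) (nat_lit 5) (nat_lit 131) (nat_lit 5) (nat_lit 142) (nat_lit 5) (nat_lit 292) (nat_lit 285) (nat_lit 143))))) (XT.nd (nat_lit 376) (nat_lit 1428) (nat_lit 0) (XT.nd (nat_lit 188) (nat_lit 756) (nat_lit 0) (XT.nd (nat_lit 94) (nat_lit 0) (nat_lit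 0) (XT.lf (nat_lit 0) (nat_lit 32025941653) (nat_lit 840) (nat_lit 6432400364) (nat_lit 924) (nat_lit 6161617012) (nat_lit 132) (nat_lit 5) (nat_lit 142) (nat_lit 5) (nat_lit 143) (nat_lit 5) (nat_lit 293) (nat_lit 285) (nat_lit 142)) (XT.lf (nat_lit 84) (nat_lit 17917797087) (nat_lit 0) (nat_lit 18215587033) (nat_lit 924) (nat_lit 9659428309) (nat_lit 133) (nat_lit 5) (nat_lit 132) (nat_lit 5) (nat_lit 143) (nat_lit 5) (nat_lit 294) (nat_lit 285) (nat_lit 141))) (XT.nd (nat_lit 94) (nat_lit 840) (nat_lit 0) (XT.lf (nat_lit 0) (nat_lit 40602208282) (nat_lit 840) (nat_lit 3361202493) (nat_lit 84) (nat_lit 3053097244) (nat_lit 133) (nat_lit 5) (nat_lit 143) (nat_lit 5) (nat_lit 134) (nat_lit 5) (nat_lit 295) (nat_lit 285) (nat_lit 140)) (XT.lf (nat_lit 0) (nat_lit 22807844269) (nat_lit 840) (nat_lit 23139278829) (nat_lit 924) (nat_lit 2321632818) (nat_lit 123) (nat_lit 5)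 (nat_lit 133) (nat_lit 5) (nat_lit 134) (nat_lit 5) (nat_lit 296) (nat_lit 285) (nat_lit 139)))) (XT.nd (nat_lit 188) (nat_lit 840) (nat_lit 0) (XT.nd (nat_lit 94) (nat_lit 0) (nat_lit 0) (XT.lf (nat_lit 0) (nat_lit 813658644) (nat_lit 504) (nat_lit 1167311596) (nat_lit 588) (nat_lit 47597676860) (nat_lit 116) (nat_lit 5) (nat_lit 122) (nat_lit 5) (nat_lit 123) (nat_lit 5) (nat_lit 297) (nat_lit 285) (nat_lit 138)) (XT.lf (nat_lit 0) (nat_lit 7198959792) (nat_lit 588) (nat_lit 22035610611) (nat_lit 84) (nat_lit 21678645539) (nat_lit 116) (nat_lit 5) (nat_lit 123) (nat_lit 5) (nat_lit 117) (nat_lit 5) (nat_lit 298) (nat_lit 285) (nat_lit 137))) (XT.nd (nat_lit 94) (nat_lit 420) (nat_lit 0) (XT.lf (nat_lit 0) (nat_lit 6207944526) (nat_lit 420) (nat_lit 6584102680) (nat_lit 504) (nat_lit 39516756102) (nat_lit 111) (nat_lit 5) (nat_lit 116) (nat_lit 5) (nat_lit 117) (nat_lit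 5) (nat_lit 299) (nat_lit 285) (nat_lit 136)) (XT.nd (nat_lit 94) (nat_lit 420) (nat_lit 0) (XT.lf (nat_lit 0) (nat_lit 19310812018) (nat_lit 504) (nat_lit 17403355712) (nat_lit 84) (nat_lit 17027701160) (nat_lit 111) (nat_lit 5) (nat_lit 117) (nat_lit 5) (nat_lit 112) (nat_lit 5) (nat_lit 300) (nat_lit 285) (nat_lit 135)) (XT.lf (nat_lit 0) (nat_lit 13036518990) (nat_lit 420) (nat_lit 13428753248) (nat_lit 504) (nat_lit 28765827656) (nat_lit 106) (nat_lit 5) (nat_lit 111) (nat_lit 5) (nat_lit 112) (nat_lit 5) (nat_lit 301) (nat_lit 285) (nat_lit 134))))))))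
noncomputable def xc203 : XT := (XT.nd (nat_lit 1598) (nat_lit 2016) (nat_lit 0) (XT.nd (nat_lit 752) (nat_lit 1764) (nat_lit 0) (XT.nd (nat_lit 376) (nat_lit 672) (nat_lit 0) (XT.nd (nat_lit 188) (nat_lit 420) (nat_lit 0) (XT.nd (nat_lit 94) (nat_lit 336) (nat_lit 0) (XT.lf (nat_lit 0) (nat_lit 34447425327) (nat_lit 504) (nat_lit 11356231673) (nat_lit 84) (nat_lit 10967636955) (nat_lit 106) (nat_lit 5) (nat_lit 112) (nat_lit 5) (nat_lit 107) (nat_lit 5) (nat_lit 302) (nat_lit 285) (nat_lit 133)) (XT.lf (nat_lit 0) (nat_lit 21489923043) (nat_lit 336) (nat_lit 21892839935) (nat_lit 420) (nat_lit 14978030894) (nat_lit 102) (nat_lit 5) (nat_lit 106) (nat_lit 5) (nat_lit 107) (nat_lit 5) (nat_lit 303) (nat_lit 285) (nat_lit 132))) (XT.nd (nat_lit 94) (nat_lit 420) (nat_lit 0) (XT.lf (nat_lit 0) (nat_lit 53008975892) (nat_lit 420) (nat_lit 3702654242) (nat_lit 84) (nat_lit 3305933235)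 (nat_lit 102) (nat_lit 5) (nat_lit 107) (nat_lit 5) (nat_lit 103) (nat_lit 5) (nat_lit 304) (nat_lit 285) (nat_lit 131)) (XT.lf (nat_lit 0) (nat_lit 2183430232) (nat_lit 420) (nat_lit 29969196271) (nat_lit 84) (nat_lit 29560103233) (nat_lit 97) (nat_lit 5) (nat_lit 102) (nat_lit 5) (nat_lit 98) (nat_lit 5) (nat_lit 305) (nat_lit 285) (nat_lit 130)))) (XT.nd (nat_lit 188) (nat_lit 336) (nat_lit 0) (XT.nd (nat_lit 94) (nat_lit 0) (nat_lit 0) (XT.lf (nat_lit 0) (nat_lit 5664683782) (nat_lit 336) (nat_lit 6085559708) (nat_lit 420) (nat_lit 51729129731) (nat_lit 93) (nat_lit 5) (nat_lit 97) (nat_lit 5) (nat_lit 98) (nat_lit 5) (nat_lit 306) (nat_lit 285) (nat_lit 129)) (XT.lf (nat_lit 0) (nat_lit 22642167123) (nat_lit 420) (nat_lit 21530682457) (nat_lit 84) (nat_lit 21119160815) (nat_lit 93) (nat_lit 5) (nat_lit 98) (nat_lit 5) (nat_lit 94) (nat_lit 5) (nat_lit 307) (nat_lit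 285) (nat_lit 128))) (XT.nd (nat_lit 94) (nat_lit 0) (nat_lit 0) (XT.lf (nat_lit 0) (nat_lit 17010494432) (nat_lit 336) (nat_lit 17432194575) (nat_lit 420) (nat_lit 32734390316) (nat_lit 89) (nat_lit 5) (nat_lit 93) (nat_lit 5) (nat_lit 94) (nat_lit 5) (nat_lit 308) (nat_lit 285) (nat_lit 127)) (XT.lf (nat_lit 0) (nat_lit 47368742188) (nat_lit 420) (nat_lit 11085867818) (nat_lit 84) (nat_lit 10675016433) (nat_lit 89) (nat_lit 5) (nat_lit 94) (nat_lit 5) (nat_lit 90) (nat_lit 5) (nat_lit 309) (nat_lit 285) (nat_lit 126))))) (XT.nd (nat_lit 376) (nat_lit 840) (nat_lit 0) (XT.nd (nat_lit 188) (nat_lit 252) (nat_lit 0) (XT.nd (nat_lit 94) (nat_lit 420) (nat_lit 0) (XT.lf (nat_lit 0) (nat_lit 30642194911) (nat_lit 252) (nat_lit 31061838868) (nat_lit 336) (nat_lit 9437620343) (nat_lit 86) (nat_lit 5) (nat_lit 89) (nat_lit 5) (nat_lit 90) (nat_lit 5) (nat_lit 310) (nat_lit 285)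 (nat_lit 125)) (XT.lf (nat_lit 0) (nat_lit 1588045499) (nat_lit 336) (nat_lit 2016063334) (nat_lit 420) (nat_lit 69636721618) (nat_lit 81) (nat_lit 5) (nat_lit 85) (nat_lit 5) (nat_lit 86) (nat_lit 5) (nat_lit 311) (nat_lit 285) (nat_lit 124))) (XT.nd (nat_lit 94) (nat_lit 252) (nat_lit 0) (XT.lf (nat_lit 0) (nat_lit 18121356003) (nat_lit 420) (nat_lit 28837037677) (nat_lit 84) (nat_lit 28421806289) (nat_lit 81) (nat_lit 5) (nat_lit 86) (nat_lit 5) (nat_lit 82) (nat_lit 5) (nat_lit 312) (nat_lit 285) (nat_lit 123)) (XT.lf (nat_lit 0) (nat_lit 16616666362) (nat_lit 252) (nat_lit 17039131420) (nat_lit 336) (nat_lit 43956173568) (nat_lit 78) (nat_lit 5) (nat_lit 81) (nat_lit 5) (nat_lit 82) (nat_lit 5) (nat_lit 313) (nat_lit 285) (nat_lit 122)))) (XT.nd (nat_lit 188) (nat_lit 588) (nat_lit 0) (XT.nd (nat_lit 94) (nat_lit 252) (nat_lit 0) (XT.lf (nat_lit 0) (nat_lit 50686659908)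 (nat_lit 336) (nat_lit 14820797653) (nat_lit 84) (nat_lit 14411888826) (nat_lit 78) (nat_lit 5) (nat_lit 82) (nat_lit 5) (nat_lit 79) (nat_lit 5) (nat_lit 314) (nat_lit 285) (nat_lit 121)) (XT.lf (nat_lit 0) (nat_lit 34485287613) (nat_lit 252) (nat_lit 34900445157) (nat_lit 336) (nat_lit 12915524024) (nat_lit 75) (nat_lit 5) (nat_lit 78) (nat_lit 5) (nat_lit 79) (nat_lit 5) (nat_lit 315) (nat_lit 285) (nat_lit 120))) (XT.nd (nat_lit 94) (nat_lit 252) (nat_lit 0) (XT.lf (nat_lit 0) (nat_lit 1973127694) (nat_lit 252) (nat_lit 2394236397) (nat_lit 336) (nat_lit 80417363596) (nat_lit 71) (nat_lit 5) (nat_lit 74) (nat_lit 5) (nat_lit 75) (nat_lit 5) (nat_lit 316) (nat_lit 285) (nat_lit 119)) (XT.nd (nat_lit 94) (nat_lit 252) (nat_lit 0) (XT.lf (nat_lit 0) (nat_lit 23397874222) (nat_lit 336) (nat_lit 32162244497) (nat_lit 84) (nat_lit 31755790714) (nat_lit 71) (nat_lit 5) (nat_lit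 75) (nat_lit 5) (nat_lit 72) (nat_lit 5) (nat_lit 317) (nat_lit 285) (nat_lit 118)) (XT.lf (nat_lit 0) (nat_lit 21672468502) (nat_lit 252) (nat_lit 22084063121) (nat_lit 336) (nat_lit 46198287556) (nat_lit 68) (nat_lit 5) (nat_lit 71) (nat_lit 5) (nat_lit 72) (nat_lit 5) (nat_lit 318) (nat_lit 285) (nat_lit 117))))))) (XT.nd (nat_lit 752) (nat_lit 924) (nat_lit 0) (XT.nd (nat_lit 376) (nat_lit 588) (nat_lit 0) (XT.nd (nat_lit 188) (nat_lit 336) (nat_lit 0) (XT.nd (nat_lit 94) (nat_lit 168) (nat_lit 0) (XT.lf (nat_lit 0) (nat_lit 65889748058) (nat_lit 336) (nat_lit 13597376405) (nat_lit 84) (nat_lit 13200718641) (nat_lit 68) (nat_lit 5) (nat_lit 72) (nat_lit 5) (nat_lit 69) (nat_lit 5) (nat_lit 319) (nat_lit 285) (nat_lit 116)) (XT.lf (nat_lit 0) (nat_lit 44895284236) (nat_lit 168) (nat_lit 45296382846) (nat_lit 252) (nat_lit 5312749055) (nat_lit 66) (nat_lit 5) (nat_lit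 68) (nat_lit 5) (nat_lit 69) (nat_lit 5) (nat_lit 320) (nat_lit 285) (nat_lit 115))) (XT.nd (nat_lit 94) (nat_lit 0) (nat_lit 0) (XT.lf (nat_lit 0) (nat_lit 8326326612) (nat_lit 252) (nat_lit 8731654600) (nat_lit 336) (nat_lit 81372216797) (nat_lit 62) (nat_lit 5) (nat_lit 65) (nat_lit 5) (nat_lit 66) (nat_lit 5) (nat_lit 321) (nat_lit 285) (nat_lit 114)) (XT.lf (nat_lit 0) (nat_lit 41702028820) (nat_lit 336) (nat_lit 30059541033) (nat_lit 84) (nat_lit 29669678208) (nat_lit 62) (nat_lit 5) (nat_lit 66) (nat_lit 5) (nat_lit 63) (nat_lit 5) (nat_lit 322) (nat_lit 285) (nat_lit 113)))) (XT.nd (nat_lit 188) (nat_lit 420) (nat_lit 0) (XT.nd (nat_lit 94) (nat_lit 0) (nat_lit 0) (XT.lf (nat_lit 0) (nat_lit 33928375967) (nat_lit 168) (nat_lit 34321892287) (nat_lit 252) (nat_lit 36298482890) (nat_lit 60) (nat_lit 5) (nat_lit 62) (nat_lit 5) (nat_lit 63) (nat_lit 5) (nat_lit 323)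 (nat_lit 285) (nat_lit 112)) (XT.lf (nat_lit 0) (nat_lit 96720384221) (nat_lit 252) (nat_lit 5725056604) (nat_lit 84) (nat_lit 5346965328) (nat_lit 60) (nat_lit 5) (nat_lit 63) (nat_lit 5) (nat_lit 61) (nat_lit 5) (nat_lit 324) (nat_lit 285) (nat_lit 111))) (XT.nd (nat_lit 94) (nat_lit 168) (nat_lit 0) (XT.lf (nat_lit 0) (nat_lit 16507359815) (nat_lit 252) (nat_lit 47490423659) (nat_lit 84) (nat_lit 47109176357) (nat_lit 57) (nat_lit 5) (nat_lit 60) (nat_lit 5) (nat_lit 58) (nat_lit 5) (nat_lit 325) (nat_lit 285) (nat_lit 110)) (XT.lf (nat_lit 0) (nat_lit 22579816601) (nat_lit 168) (nat_lit 22964069643) (nat_lit 252) (nat_lit 69011766113) (nat_lit 55) (nat_lit 5) (nat_lit 57) (nat_lit 5) (nat_lit 58) (nat_lit 5) (nat_lit 326) (nat_lit 285) (nat_lit 109))))) (XT.nd (nat_lit 376) (nat_lit 504) (nat_lit 0) (XT.nd (nat_lit 188) (nat_lit 252) (nat_lit 0) (XT.nd (nat_lit 94) (nat_lit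 168) (nat_lit 0) (XT.lf (nat_lit 0) (nat_lit 77163044709) (nat_lit 252) (nat_lit 20662938044) (nat_lit 84) (nat_lit 20294256471) (nat_lit 55) (nat_lit 5) (nat_lit 58) (nat_lit 5) (nat_lit 56) (nat_lit 5) (nat_lit 327) (nat_lit 285) (nat_lit 108)) (XT.lf (nat_lit 0) (nat_lit 55617965499) (nat_lit 168) (nat_lit 55989243543) (nat_lit 252) (nat_lit 10193643995) (nat_lit 53) (nat_lit 5) (nat_lit 55) (nat_lit 5) (nat_lit 56) (nat_lit 5) (nat_lit 328) (nat_lit 285) (nat_lit 107))) (XT.nd (nat_lit 94) (nat_lit 0) (nat_lit 0) (XT.lf (nat_lit 0) (nat_lit 10774938280) (nat_lit 168) (nat_lit 11148689153) (nat_lit 252) (nat_lit 103698454644) (nat_lit 50) (nat_lit 5) (nat_lit 52) (nat_lit 5) (nat_lit 53) (nat_lit 5) (nat_lit 329) (nat_lit 285) (nat_lit 106)) (XT.lf (nat_lit 0) (nat_lit 57003678922) (nat_lit 252) (nat_lit 36447779926) (nat_lit 84) (nat_lit 36089583785) (nat_lit 50) (nat_lit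 5) (nat_lit 53) (nat_lit 5) (nat_lit 51) (nat_lit 5) (nat_lit 330) (nat_lit 285) (nat_lit 105)))) (XT.nd (nat_lit 188) (nat_lit 336) (nat_lit 0) (XT.nd (nat_lit 94) (nat_lit 0) (nat_lit 0) (XT.lf (nat_lit 0) (nat_lit 47198172531) (nat_lit 168) (nat_lit 47558504795) (nat_lit 252) (nat_lit 38853326675) (nat_lit 48) (nat_lit 5) (nat_lit 50) (nat_lit 5) (nat_lit 51) (nat_lit 5) (nat_lit 331) (nat_lit 285) (nat_lit 104)) (XT.lf (nat_lit 0) (nat_lit 135033817309) (nat_lit 252) (nat_lit 1580941328) (nat_lit 84) (nat_lit 1235830216) (nat_lit 48) (nat_lit 5) (nat_lit 51) (nat_lit 5) (nat_lit 49) (nat_lit 4) (nat_lit 332) (nat_lit 285) (nat_lit 103))) (XT.nd (nat_lit 94) (nat_lit 168) (nat_lit 0) (XT.lf (nat_lit 0) (nat_lit 36113928432) (nat_lit 168) (nat_lit 53199115125) (nat_lit 84) (nat_lit 52852158749) (nat_lit 46) (nat_lit 5) (nat_lit 48) (nat_lit 5) (nat_lit 47) (nat_lit 5)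 (nat_lit 333) (nat_lit 285) (nat_lit 102)) (XT.nd (nat_lit 94) (nat_lit 0) (nat_lit 0) (XT.lf (nat_lit 0) (nat_lit 38588400140) (nat_lit 168) (nat_lit 38937113909) (nat_lit 252) (nat_lit 69136272920) (nat_lit 44) (nat_lit 5) (nat_lit 46) (nat_lit 5) (nat_lit 47) (nat_lit 5) (nat_lit 334) (nat_lit 285) (nat_lit 101)) (XT.lf (nat_lit 0) (nat_lit 122140650998) (nat_lit 252) (nat_lit 14759801813) (nat_lit 84) (nat_lit 14426099453) (nat_lit 44) (nat_lit 5) (nat_lit 47) (nat_lit 5) (nat_lit 45) (nat_lit 4) (nat_lit 335) (nat_lit 285) (nat_lit 100))))))))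
noncomputable def xc204 : XT := (XT.nd (nat_lit 40608) (nat_lit 0) (nat_lit 6804) (XT.nd (nat_lit 752) (nat_lit 588) (nat_lit 0) (XT.nd (nat_lit 376) (nat_lit 588) (nat_lit 0) (XT.nd (nat_lit 188) (nat_lit 84) (nat_lit 0) (XT.nd (nat_lit 94) (nat_lit 168) (nat_lit 0) (XT.lf (nat_lit 0) (nat_lit 14355427130) (nat_lit 168) (nat_lit 71047145779) (nat_lit 84) (nat_lit 70711925317) (nat_lit 42) (nat_lit 5) (nat_lit 44) (nat_lit 5) (nat_lit 43) (nat_lit 5) (nat_lit 336) (nat_lit 285) (nat_lit 99)) (XT.lf (nat_lit 0) (nat_lit 29737012318) (nat_lit 168) (nat_lit 30073678592) (nat_lit 252) (nat_lit 101271342377) (nat_lit 40) (nat_lit 5) (nat_lit 42) (nat_lit 5) (nat_lit 43) (nat_lit 5) (nat_lit 337) (nat_lit 285) (nat_lit 98))) (XT.nd (nat_lit 94) (nat_lit 84) (nat_lit 0) (XT.lf (nat_lit 0) (nat_lit 109198528085) (nat_lit 252) (nat_lit 28669186223) (nat_lit 84) (nat_lit 28347240282)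 (nat_lit 40) (nat_lit 5) (nat_lit 43) (nat_lit 5) (nat_lit 41) (nat_lit 4) (nat_lit 338) (nat_lit 285) (nat_lit 97)) (XT.lf (nat_lit 0) (nat_lit 81246731685) (nat_lit 84) (nat_lit 81569926573) (nat_lit 168) (nat_lit 8699818643) (nat_lit 39) (nat_lit 5) (nat_lit 40) (nat_lit 5) (nat_lit 41) (nat_lit 4) (nat_lit 339) (nat_lit 285) (nat_lit 96)))) (XT.nd (nat_lit 188) (nat_lit 336) (nat_lit 0) (XT.nd (nat_lit 94) (nat_lit 0) (nat_lit 0) (XT.lf (nat_lit 0) (nat_lit 20588632000) (nat_lit 168) (nat_lit 20913016362) (nat_lit 252) (nat_lit 135507897862) (nat_lit 36) (nat_lit 5) (nat_lit 38) (nat_lit 5) (nat_lit 39) (nat_lit 5) (nat_lit 340) (nat_lit 285) (nat_lit 95)) (XT.lf (nat_lit 0) (nat_lit 96141912586) (nat_lit 252) (nat_lit 43413593531) (nat_lit 84) (nat_lit 43103577157) (nat_lit 36) (nat_lit 5) (nat_lit 39) (nat_lit 5) (nat_lit 37) (nat_lit 4) (nat_lit 341) (nat_lit 285)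 (nat_lit 94))) (XT.nd (nat_lit 94) (nat_lit 252) (nat_lit 0) (XT.lf (nat_lit 0) (nat_lit 77376742541) (nat_lit 84) (nat_lit 77687786427) (nat_lit 168) (nat_lit 33449051259) (nat_lit 35) (nat_lit 5) (nat_lit 36) (nat_lit 5) (nat_lit 37) (nat_lit 4) (nat_lit 342) (nat_lit 285) (nat_lit 93)) (XT.lf (nat_lit 0) (nat_lit 11083680170) (nat_lit 168) (nat_lit 11395702638) (nat_lit 252) (nat_lit 172118044089) (nat_lit 32) (nat_lit 5) (nat_lit 34) (nat_lit 5) (nat_lit 35) (nat_lit 5) (nat_lit 343) (nat_lit 285) (nat_lit 92))))) (XT.nd (nat_lit 376) (nat_lit 252) (nat_lit 0) (XT.nd (nat_lit 188) (nat_lit 252) (nat_lit 0) (XT.nd (nat_lit 94) (nat_lit 84) (nat_lit 0) (XT.lf (nat_lit 0) (nat_lit 82901418395) (nat_lit 252) (nat_lit 59106808872) (nat_lit 84) (nat_lit 58808757013) (nat_lit 32) (nat_lit 5) (nat_lit 35) (nat_lit 5) (nat_lit 33) (nat_lit 4) (nat_lit 344) (nat_lit 285) (nat_lit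 91)) (XT.lf (nat_lit 0) (nat_lit 73691233118) (nat_lit 84) (nat_lit 73990130314) (nat_lit 168) (nat_lit 59599315716) (nat_lit 31) (nat_lit 5) (nat_lit 32) (nat_lit 5) (nat_lit 33) (nat_lit 4) (nat_lit 345) (nat_lit 285) (nat_lit 90))) (XT.nd (nat_lit 94) (nat_lit 0) (nat_lit 0) (XT.lf (nat_lit 0) (nat_lit 1157872027) (nat_lit 168) (nat_lit 1457574304) (nat_lit 252) (nat_lit 211399089967) (nat_lit 28) (nat_lit 5) (nat_lit 30) (nat_lit 5) (nat_lit 31) (nat_lit 5) (nat_lit 346) (nat_lit 285) (nat_lit 89)) (XT.lf (nat_lit 0) (nat_lit 69403280674) (nat_lit 252) (nat_lit 75872925804) (nat_lit 84) (nat_lit 75586764830) (nat_lit 28) (nat_lit 5) (nat_lit 31) (nat_lit 5) (nat_lit 29) (nat_lit 4) (nat_lit 347) (nat_lit 285) (nat_lit 88)))) (XT.nd (nat_lit 188) (nat_lit 168) (nat_lit 0) (XT.nd (nat_lit 94) (nat_lit 0) (nat_lit 0) (XT.lf (nat_lit 0) (nat_lit 70181384179) (nat_lit 84)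 (nat_lit 70468240614) (nat_lit 168) (nat_lit 87348247372) (nat_lit 27) (nat_lit 5) (nat_lit 28) (nat_lit 5) (nat_lit 29) (nat_lit 4) (nat_lit 348) (nat_lit 285) (nat_lit 87)) (XT.lf (nat_lit 0) (nat_lit 216889946352) (nat_lit 168) (nat_lit 9400908054) (nat_lit 0) (nat_lit 9127080647) (nat_lit 27) (nat_lit 5) (nat_lit 29) (nat_lit 4) (nat_lit 27) (nat_lit 4) (nat_lit 349) (nat_lit 285) (nat_lit 86))) (XT.nd (nat_lit 39198) (nat_lit 0) (nat_lit 8652) (XT.lf (nat_lit 0) (nat_lit 55568778991) (nat_lit 168) (nat_lit 93847469537) (nat_lit 84) (nat_lit 93573041365) (nat_lit 25) (nat_lit 5) (nat_lit 27) (nat_lit 5) (nat_lit 26) (nat_lit 4) (nat_lit 350) (nat_lit 285) (nat_lit 85)) (XT.lf (nat_lit 0) (nat_lit 8697838060) (nat_lit 924) (nat_lit 5228426492) (nat_lit 924) (nat_lit 5228426492) (nat_lit 128) (nat_lit 3) (nat_lit 139) (nat_lit 3) (nat_lit 139) (nat_lit 5) (nat_lit 286)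 (nat_lit 286) (nat_lit 148)))))) (XT.nd (nat_lit 752) (nat_lit 1848) (nat_lit 0) (XT.nd (nat_lit 376) (nat_lit 0) (nat_lit 168) (XT.nd (nat_lit 188) (nat_lit 0) (nat_lit 84) (XT.nd (nat_lit 94) (nat_lit 0) (nat_lit 84) (XT.lf (nat_lit 84) (nat_lit 8985427867) (nat_lit 0) (nat_lit 9029418763) (nat_lit 924) (nat_lit 21243056083) (nat_lit 129) (nat_lit 5) (nat_lit 128) (nat_lit 3) (nat_lit 139) (nat_lit 5) (nat_lit 287) (nat_lit 286) (nat_lit 147)) (XT.lf (nat_lit 0) (nat_lit 19009752404) (nat_lit 840) (nat_lit 10654327628) (nat_lit 924) (nat_lit 10572530497) (nat_lit 129) (nat_lit 5) (nat_lit 139) (nat_lit 5) (nat_lit 140) (nat_lit 5) (nat_lit 288) (nat_lit 286) (nat_lit 146))) (XT.nd (nat_lit 94) (nat_lit 0) (nat_lit 84) (XT.lf (nat_lit 84) (nat_lit 10118964466) (nat_lit 0) (nat_lit 10238762587) (nat_lit 924) (nat_lit 20891360505) (nat_lit 130) (nat_lit 5) (nat_lit 129) (nat_lit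 5) (nat_lit 140) (nat_lit 5) (nat_lit 289) (nat_lit 286) (nat_lit 145)) (XT.lf (nat_lit 0) (nat_lit 22112520313) (nat_lit 840) (nat_lit 10165629298) (nat_lit 924) (nat_lit 10017067832) (nat_lit 130) (nat_lit 5) (nat_lit 140) (nat_lit 5) (nat_lit 141) (nat_lit 5) (nat_lit 290) (nat_lit 286) (nat_lit 144)))) (XT.nd (nat_lit 188) (nat_lit 0) (nat_lit 84) (XT.nd (nat_lit 94) (nat_lit 0) (nat_lit 84) (XT.lf (nat_lit 84) (nat_lit 12063708914) (nat_lit 0) (nat_lit 12245097064) (nat_lit 924) (nat_lit 19067160207) (nat_lit 131) (nat_lit 5) (nat_lit 130) (nat_lit 5) (nat_lit 141) (nat_lit 5) (nat_lit 291) (nat_lit 286) (nat_lit 143)) (XT.lf (nat_lit 0) (nat_lit 26924776922) (nat_lit 840) (nat_lit 8886503640) (nat_lit 924) (nat_lit 8683978251) (nat_lit 131) (nat_lit 5) (nat_lit 141) (nat_lit 5) (nat_lit 142) (nat_lit 5) (nat_lit 292) (nat_lit 286) (nat_lit 142))) (XT.nd (nat_lit 94)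 (nat_lit 0) (nat_lit 84) (XT.lf (nat_lit 84) (nat_lit 14936184517) (nat_lit 0) (nat_lit 15167066830) (nat_lit 924) (nat_lit 15545679481) (nat_lit 132) (nat_lit 5) (nat_lit 131) (nat_lit 5) (nat_lit 142) (nat_lit 5) (nat_lit 293) (nat_lit 286) (nat_lit 141)) (XT.lf (nat_lit 0) (nat_lit 33693101754) (nat_lit 840) (nat_lit 6700085280) (nat_lit 924) (nat_lit 6454476797) (nat_lit 132) (nat_lit 5) (nat_lit 142) (nat_lit 5) (nat_lit 143) (nat_lit 5) (nat_lit 294) (nat_lit 286) (nat_lit 140))))) (XT.nd (nat_lit 376) (nat_lit 840) (nat_lit 0) (XT.nd (nat_lit 188) (nat_lit 1344) (nat_lit 0) (XT.nd (nat_lit 94) (nat_lit 0) (nat_lit 84) (XT.lf (nat_lit 84) (nat_lit 18866752123) (nat_lit 0) (nat_lit 19136856383) (nat_lit 924) (nat_lit 10075666785) (nat_lit 133) (nat_lit 5) (nat_lit 132) (nat_lit 5) (nat_lit 143) (nat_lit 5) (nat_lit 295) (nat_lit 286) (nat_lit 139)) (XT.lf (nat_lit 0)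 (nat_lit 42692691459) (nat_lit 840) (nat_lit 3475541933) (nat_lit 84) (nat_lit 3196081390) (nat_lit 133) (nat_lit 5) (nat_lit 143) (nat_lit 5) (nat_lit 134) (nat_lit 5) (nat_lit 296) (nat_lit 286) (nat_lit 138))) (XT.nd (nat_lit 94) (nat_lit 588) (nat_lit 0) (XT.lf (nat_lit 0) (nat_lit 24001090705) (nat_lit 840) (nat_lit 24301711621) (nat_lit 924) (nat_lit 2376475233) (nat_lit 123) (nat_lit 5) (nat_lit 133) (nat_lit 5) (nat_lit 134) (nat_lit 5) (nat_lit 297) (nat_lit 286) (nat_lit 137)) (XT.lf (nat_lit 0) (nat_lit 908271735) (nat_lit 504) (nat_lit 1229045387) (nat_lit 588) (nat_lit 49917397414) (nat_lit 116) (nat_lit 5) (nat_lit 122) (nat_lit 5) (nat_lit 123) (nat_lit 5) (nat_lit 298) (nat_lit 286) (nat_lit 136)))) (XT.nd (nat_lit 188) (nat_lit 420) (nat_lit 0) (XT.nd (nat_lit 94) (nat_lit 420) (nat_lit 0) (XT.lf (nat_lit 0) (nat_lit 7613427575) (nat_lit 588) (nat_lit 23083250509)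 (nat_lit 84) (nat_lit 22759472666) (nat_lit 116) (nat_lit 5) (nat_lit 123) (nat_lit 5) (nat_lit 117) (nat_lit 5) (nat_lit 299) (nat_lit 286) (nat_lit 135)) (XT.lf (nat_lit 0) (nat_lit 6571609149) (nat_lit 420) (nat_lit 6912795683) (nat_lit 504) (nat_lit 41437200878) (nat_lit 111) (nat_lit 5) (nat_lit 116) (nat_lit 5) (nat_lit 117) (nat_lit 5) (nat_lit 300) (nat_lit 286) (nat_lit 134))) (XT.nd (nat_lit 94) (nat_lit 420) (nat_lit 0) (XT.lf (nat_lit 0) (nat_lit 20326603345) (nat_lit 504) (nat_lit 18220288103) (nat_lit 84) (nat_lit 17879558351) (nat_lit 111) (nat_lit 5) (nat_lit 117) (nat_lit 5) (nat_lit 112) (nat_lit 5) (nat_lit 301) (nat_lit 286) (nat_lit 133)) (XT.nd (nat_lit 94) (nat_lit 0) (nat_lit 0) (XT.lf (nat_lit 0) (nat_lit 13740721699) (nat_lit 420) (nat_lit 14096489734) (nat_lit 504) (nat_lit 30153009677) (nat_lit 106) (nat_lit 5) (nat_lit 111) (nat_lit 5) (nat_lit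 112) (nat_lit 5) (nat_lit 302) (nat_lit 286) (nat_lit 132)) (XT.lf (nat_lit 0) (nat_lit 36216209325) (nat_lit 504) (nat_lit 11871897778) (nat_lit 84) (nat_lit 11519430913) (nat_lit 106) (nat_lit 5) (nat_lit 112) (nat_lit 5) (nat_lit 107) (nat_lit 5) (nat_lit 303) (nat_lit 286) (nat_lit 131))))))))
noncomputable def xc205 : XT := (XT.nd (nat_lit 1598) (nat_lit 2184) (nat_lit 0) (XT.nd (nat_lit 752) (nat_lit 1512) (nat_lit 0) (XT.nd (nat_lit 376) (nat_lit 588) (nat_lit 0) (XT.nd (nat_lit 188) (nat_lit 756) (nat_lit 0) (XT.nd (nat_lit 94) (nat_lit 0) (nat_lit 0) (XT.lf (nat_lit 0) (nat_lit 22615723618) (nat_lit 336) (nat_lit 22981181116) (nat_lit 420) (nat_lit 15679678652) (nat_lit 102) (nat_lit 5) (nat_lit 106) (nat_lit 5) (nat_lit 107) (nat_lit 5) (nat_lit 304) (nat_lit 286) (nat_lit 130)) (XT.lf (nat_lit 0) (nat_lit 55702378953) (nat_lit 420) (nat_lit 3836876259) (nat_lit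 84) (nat_lit 3477038611) (nat_lit 102) (nat_lit 5) (nat_lit 107) (nat_lit 5) (nat_lit 103) (nat_lit 5) (nat_lit 305) (nat_lit 286) (nat_lit 129))) (XT.nd (nat_lit 94) (nat_lit 336) (nat_lit 0) (XT.lf (nat_lit 0) (nat_lit 2334976065) (nat_lit 420) (nat_lit 31416165444) (nat_lit 84) (nat_lit 31045105998) (nat_lit 97) (nat_lit 5) (nat_lit 102) (nat_lit 5) (nat_lit 98) (nat_lit 5) (nat_lit 306) (nat_lit 286) (nat_lit 128)) (XT.lf (nat_lit 0) (nat_lit 5998578118) (nat_lit 336) (nat_lit 6380324990) (nat_lit 420) (nat_lit 54272381402) (nat_lit 93) (nat_lit 5) (nat_lit 97) (nat_lit 5) (nat_lit 98) (nat_lit 5) (nat_lit 307) (nat_lit 286) (nat_lit 127)))) (XT.nd (nat_lit 188) (nat_lit 252) (nat_lit 0) (XT.nd (nat_lit 94) (nat_lit 336) (nat_lit 0) (XT.lf (nat_lit 0) (nat_lit 23813604968) (nat_lit 420) (nat_lit 22557150866) (nat_lit 84) (nat_lit 22183888606) (nat_lit 93) (nat_lit 5)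 (nat_lit 98) (nat_lit 5) (nat_lit 94) (nat_lit 5) (nat_lit 308) (nat_lit 286) (nat_lit 126)) (XT.lf (nat_lit 0) (nat_lit 17910277356) (nat_lit 336) (nat_lit 18292771817) (nat_lit 420) (nat_lit 34330972832) (nat_lit 89) (nat_lit 5) (nat_lit 93) (nat_lit 5) (nat_lit 94) (nat_lit 5) (nat_lit 309) (nat_lit 286) (nat_lit 125))) (XT.nd (nat_lit 94) (nat_lit 252) (nat_lit 0) (XT.lf (nat_lit 0) (nat_lit 49773748786) (nat_lit 420) (nat_lit 11591592409) (nat_lit 84) (nat_lit 11218938092) (nat_lit 89) (nat_lit 5) (nat_lit 94) (nat_lit 5) (nat_lit 90) (nat_lit 5) (nat_lit 310) (nat_lit 286) (nat_lit 124)) (XT.lf (nat_lit 0) (nat_lit 32222090089) (nat_lit 252) (nat_lit 32602719528) (nat_lit 336) (nat_lit 9872148505) (nat_lit 86) (nat_lit 5) (nat_lit 89) (nat_lit 5) (nat_lit 90) (nat_lit 5) (nat_lit 311) (nat_lit 286) (nat_lit 123))))) (XT.nd (nat_lit 376) (nat_lit 840) (nat_lit 0) (XT.nd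 (nat_lit 188) (nat_lit 252) (nat_lit 0) (XT.nd (nat_lit 94) (nat_lit 0) (nat_lit 0) (XT.lf (nat_lit 0) (nat_lit 1715638715) (nat_lit 336) (nat_lit 2103863508) (nat_lit 420) (nat_lit 73081610353) (nat_lit 81) (nat_lit 5) (nat_lit 85) (nat_lit 5) (nat_lit 86) (nat_lit 5) (nat_lit 312) (nat_lit 286) (nat_lit 122)) (XT.lf (nat_lit 0) (nat_lit 19061129481) (nat_lit 420) (nat_lit 30231511155) (nat_lit 84) (nat_lit 29854884047) (nat_lit 81) (nat_lit 5) (nat_lit 86) (nat_lit 5) (nat_lit 82) (nat_lit 5) (nat_lit 313) (nat_lit 286) (nat_lit 121))) (XT.nd (nat_lit 94) (nat_lit 0) (nat_lit 0) (XT.lf (nat_lit 0) (nat_lit 17494113917) (nat_lit 252) (nat_lit 17877302178) (nat_lit 336) (nat_lit 46119512400) (nat_lit 78) (nat_lit 5) (nat_lit 81) (nat_lit 5) (nat_lit 82) (nat_lit 5) (nat_lit 314) (nat_lit 286) (nat_lit 120)) (XT.lf (nat_lit 0) (nat_lit 53252463056) (nat_lit 336) (nat_lit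 15516084751) (nat_lit 84) (nat_lit 15145192391) (nat_lit 78) (nat_lit 5) (nat_lit 82) (nat_lit 5) (nat_lit 79) (nat_lit 5) (nat_lit 315) (nat_lit 286) (nat_lit 119)))) (XT.nd (nat_lit 188) (nat_lit 252) (nat_lit 0) (XT.nd (nat_lit 94) (nat_lit 336) (nat_lit 0) (XT.lf (nat_lit 0) (nat_lit 36254566830) (nat_lit 252) (nat_lit 36631126960) (nat_lit 336) (nat_lit 13529092125) (nat_lit 75) (nat_lit 5) (nat_lit 78) (nat_lit 5) (nat_lit 79) (nat_lit 5) (nat_lit 316) (nat_lit 286) (nat_lit 118)) (XT.lf (nat_lit 0) (nat_lit 2117087102) (nat_lit 252) (nat_lit 2499045109) (nat_lit 336) (nat_lit 84406311863) (nat_lit 71) (nat_lit 5) (nat_lit 74) (nat_lit 5) (nat_lit 75) (nat_lit 5) (nat_lit 317) (nat_lit 286) (nat_lit 117))) (XT.nd (nat_lit 94) (nat_lit 252) (nat_lit 0) (XT.lf (nat_lit 0) (nat_lit 24596941834) (nat_lit 336) (nat_lit 33725984970) (nat_lit 84) (nat_lit 33357319406) (nat_lit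 71) (nat_lit 5) (nat_lit 75) (nat_lit 5) (nat_lit 72) (nat_lit 5) (nat_lit 318) (nat_lit 286) (nat_lit 116)) (XT.nd (nat_lit 94) (nat_lit 0) (nat_lit 0) (XT.lf (nat_lit 0) (nat_lit 22799748006) (nat_lit 252) (nat_lit 23173076459) (nat_lit 336) (nat_lit 48478312360) (nat_lit 68) (nat_lit 5) (nat_lit 71) (nat_lit 5) (nat_lit 72) (nat_lit 5) (nat_lit 319) (nat_lit 286) (nat_lit 115)) (XT.lf (nat_lit 0) (nat_lit 69211572048) (nat_lit 336) (nat_lit 14234538333) (nat_lit 84) (nat_lit 13874758048) (nat_lit 68) (nat_lit 5) (nat_lit 72) (nat_lit 5) (nat_lit 69) (nat_lit 5) (nat_lit 320) (nat_lit 286) (nat_lit 114))))))) (XT.nd (nat_lit 752) (nat_lit 1092) (nat_lit 0) (XT.nd (nat_lit 376) (nat_lit 420) (nat_lit 0) (XT.nd (nat_lit 188) (nat_lit 168) (nat_lit 0) (XT.nd (nat_lit 94) (nat_lit 336) (nat_lit 0) (XT.lf (nat_lit 0) (nat_lit 47182066519) (nat_lit 168) (nat_lit 47545874782)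 (nat_lit 252) (nat_lit 5550361099) (nat_lit 66) (nat_lit 5) (nat_lit 68) (nat_lit 5) (nat_lit 69) (nat_lit 5) (nat_lit 321) (nat_lit 286) (nat_lit 113)) (XT.lf (nat_lit 0) (nat_lit 8784865824) (nat_lit 252) (nat_lit 9152510257) (nat_lit 336) (nat_lit 85413007038) (nat_lit 62) (nat_lit 5) (nat_lit 65) (nat_lit 5) (nat_lit 66) (nat_lit 5) (nat_lit 322) (nat_lit 286) (nat_lit 112))) (XT.nd (nat_lit 94) (nat_lit 168) (nat_lit 0) (XT.lf (nat_lit 0) (nat_lit 43812598216) (nat_lit 336) (nat_lit 31521277963) (nat_lit 84) (nat_lit 31167660889) (nat_lit 62) (nat_lit 5) (nat_lit 66) (nat_lit 5) (nat_lit 63) (nat_lit 5) (nat_lit 323) (nat_lit 286) (nat_lit 111)) (XT.lf (nat_lit 0) (nat_lit 35665369724) (nat_lit 168) (nat_lit 36022300627) (nat_lit 252) (nat_lit 38087273917) (nat_lit 60) (nat_lit 5) (nat_lit 62) (nat_lit 5) (nat_lit 63) (nat_lit 5) (nat_lit 324) (nat_lit 286) (nat_lit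 110)))) (XT.nd (nat_lit 188) (nat_lit 168) (nat_lit 0) (XT.nd (nat_lit 94) (nat_lit 252) (nat_lit 0) (XT.lf (nat_lit 0) (nat_lit 101580340185) (nat_lit 252) (nat_lit 5971714686) (nat_lit 84) (nat_lit 5628774753) (nat_lit 60) (nat_lit 5) (nat_lit 63) (nat_lit 5) (nat_lit 61) (nat_lit 5) (nat_lit 325) (nat_lit 286) (nat_lit 109)) (XT.lf (nat_lit 0) (nat_lit 17356516618) (nat_lit 252) (nat_lit 49825202153) (nat_lit 84) (nat_lit 49479399611) (nat_lit 57) (nat_lit 5) (nat_lit 60) (nat_lit 5) (nat_lit 58) (nat_lit 5) (nat_lit 326) (nat_lit 286) (nat_lit 108))) (XT.nd (nat_lit 94) (nat_lit 0) (nat_lit 0) (XT.lf (nat_lit 0) (nat_lit 23747909109) (nat_lit 168) (nat_lit 24096437946) (nat_lit 252) (nat_lit 72437924595) (nat_lit 55) (nat_lit 5) (nat_lit 57) (nat_lit 5) (nat_lit 58) (nat_lit 5) (nat_lit 327) (nat_lit 286) (nat_lit 107)) (XT.lf (nat_lit 0) (nat_lit 81043590973) (nat_lit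 252) (nat_lit 21657972783) (nat_lit 84) (nat_lit 21323567728) (nat_lit 55) (nat_lit 5) (nat_lit 58) (nat_lit 5) (nat_lit 56) (nat_lit 5) (nat_lit 328) (nat_lit 286) (nat_lit 106))))) (XT.nd (nat_lit 376) (nat_lit 504) (nat_lit 0) (XT.nd (nat_lit 188) (nat_lit 168) (nat_lit 0) (XT.nd (nat_lit 94) (nat_lit 252) (nat_lit 0) (XT.lf (nat_lit 0) (nat_lit 58436361225) (nat_lit 168) (nat_lit 58773121355) (nat_lit 252) (nat_lit 10680317454) (nat_lit 53) (nat_lit 5) (nat_lit 55) (nat_lit 5) (nat_lit 56) (nat_lit 5) (nat_lit 329) (nat_lit 286) (nat_lit 105)) (XT.lf (nat_lit 0) (nat_lit 11351302393) (nat_lit 168) (nat_lit 11690305452) (nat_lit 252) (nat_lit 108860488384) (nat_lit 50) (nat_lit 5) (nat_lit 52) (nat_lit 5) (nat_lit 53) (nat_lit 5) (nat_lit 330) (nat_lit 286) (nat_lit 104))) (XT.nd (nat_lit 94) (nat_lit 168) (nat_lit 0) (XT.lf (nat_lit 0) (nat_lit 59874859065) (nat_lit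 252) (nat_lit 38233540175) (nat_lit 84) (nat_lit 37908645715) (nat_lit 50) (nat_lit 5) (nat_lit 53) (nat_lit 5) (nat_lit 51) (nat_lit 5) (nat_lit 331) (nat_lit 286) (nat_lit 103)) (XT.lf (nat_lit 0) (nat_lit 49594119119) (nat_lit 168) (nat_lit 49920951105) (nat_lit 252) (nat_lit 40774406026) (nat_lit 48) (nat_lit 5) (nat_lit 50) (nat_lit 5) (nat_lit 51) (nat_lit 5) (nat_lit 332) (nat_lit 286) (nat_lit 102)))) (XT.nd (nat_lit 188) (nat_lit 336) (nat_lit 0) (XT.nd (nat_lit 94) (nat_lit 168) (nat_lit 0) (XT.lf (nat_lit 0) (nat_lit 141805318365) (nat_lit 252) (nat_lit 1624917687) (nat_lit 84) (nat_lit 1311891735) (nat_lit 48) (nat_lit 5) (nat_lit 51) (nat_lit 5) (nat_lit 49) (nat_lit 4) (nat_lit 333) (nat_lit 286) (nat_lit 101)) (XT.lf (nat_lit 0) (nat_lit 37939348547) (nat_lit 168) (nat_lit 55823913675) (nat_lit 84) (nat_lit 55509214015) (nat_lit 46) (nat_lit 5) (nat_lit 48)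 (nat_lit 5) (nat_lit 47) (nat_lit 5) (nat_lit 334) (nat_lit 286) (nat_lit 100))) (XT.nd (nat_lit 94) (nat_lit 168) (nat_lit 0) (XT.lf (nat_lit 0) (nat_lit 40552410302) (nat_lit 168) (nat_lit 40868703970) (nat_lit 252) (nat_lit 72572795821) (nat_lit 44) (nat_lit 5) (nat_lit 46) (nat_lit 5) (nat_lit 47) (nat_lit 5) (nat_lit 335) (nat_lit 286) (nat_lit 99)) (XT.nd (nat_lit 94) (nat_lit 168) (nat_lit 0) (XT.lf (nat_lit 0) (nat_lit 128266314842) (nat_lit 252) (nat_lit 15464155674) (nat_lit 84) (nat_lit 15161477797) (nat_lit 44) (nat_lit 5) (nat_lit 47) (nat_lit 5) (nat_lit 45) (nat_lit 4) (nat_lit 336) (nat_lit 286) (nat_lit 98)) (XT.lf (nat_lit 0) (nat_lit 15091758619) (nat_lit 168) (nat_lit 74565795677) (nat_lit 84) (nat_lit 74261740836) (nat_lit 42) (nat_lit 5) (nat_lit 44) (nat_lit 5) (nat_lit 43) (nat_lit 5) (nat_lit 337) (nat_lit 286) (nat_lit 97))))))))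
noncomputable def xc206 : XT := (XT.nd (nat_lit 40796) (nat_lit 0) (nat_lit 5880) (XT.nd (nat_lit 752) (nat_lit 420) (nat_lit 0) (XT.nd (nat_lit 376) (nat_lit 336) (nat_lit 0) (XT.nd (nat_lit 188) (nat_lit 336) (nat_lit 0) (XT.nd (nat_lit 94) (nat_lit 0) (nat_lit 0) (XT.lf (nat_lit 0) (nat_lit 31257026658) (nat_lit 168) (nat_lit 31562392893) (nat_lit 252) (nat_lit 106315805697) (nat_lit 40) (nat_lit 5) (nat_lit 42) (nat_lit 5) (nat_lit 43) (nat_lit 5) (nat_lit 338) (nat_lit 286) (nat_lit 96)) (XT.lf (nat_lit 0) (nat_lit 114676004787) (nat_lit 252) (nat_lit 30070417238) (nat_lit 84) (nat_lit 29778402779) (nat_lit 40) (nat_lit 5) (nat_lit 43) (nat_lit 5) (nat_lit 41) (nat_lit 4) (nat_lit 339) (nat_lit 286) (nat_lit 95))) (XT.nd (nat_lit 94) (nat_lit 252) (nat_lit 0) (XT.lf (nat_lit 0) (nat_lit 85340776754) (nat_lit 84) (nat_lit 85633924045) (nat_lit 168) (nat_lit 9116739466)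 (nat_lit 39) (nat_lit 5) (nat_lit 40) (nat_lit 5) (nat_lit 41) (nat_lit 4) (nat_lit 340) (nat_lit 286) (nat_lit 94)) (XT.lf (nat_lit 0) (nat_lit 21649829686) (nat_lit 168) (nat_lit 21944055864) (nat_lit 252) (nat_lit 142265280247) (nat_lit 36) (nat_lit 5) (nat_lit 38) (nat_lit 5) (nat_lit 39) (nat_lit 5) (nat_lit 341) (nat_lit 286) (nat_lit 93)))) (XT.nd (nat_lit 188) (nat_lit 252) (nat_lit 0) (XT.nd (nat_lit 94) (nat_lit 84) (nat_lit 0) (XT.lf (nat_lit 0) (nat_lit 100965563352) (nat_lit 252) (nat_lit 45553420159) (nat_lit 84) (nat_lit 45272226169) (nat_lit 36) (nat_lit 5) (nat_lit 39) (nat_lit 5) (nat_lit 37) (nat_lit 4) (nat_lit 342) (nat_lit 286) (nat_lit 92)) (XT.lf (nat_lit 0) (nat_lit 81275935087) (nat_lit 84) (nat_lit 81558061060) (nat_lit 168) (nat_lit 35104451056) (nat_lit 35) (nat_lit 5) (nat_lit 36) (nat_lit 5) (nat_lit 37) (nat_lit 4) (nat_lit 343) (nat_lit 286)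 (nat_lit 91))) (XT.nd (nat_lit 94) (nat_lit 0) (nat_lit 0) (XT.lf (nat_lit 0) (nat_lit 11668266985) (nat_lit 168) (nat_lit 11951280562) (nat_lit 252) (nat_lit 180706940915) (nat_lit 32) (nat_lit 5) (nat_lit 34) (nat_lit 5) (nat_lit 35) (nat_lit 5) (nat_lit 344) (nat_lit 286) (nat_lit 90)) (XT.lf (nat_lit 0) (nat_lit 87062124945) (nat_lit 252) (nat_lit 62032634294) (nat_lit 84) (nat_lit 61762292472) (nat_lit 32) (nat_lit 5) (nat_lit 35) (nat_lit 5) (nat_lit 33) (nat_lit 4) (nat_lit 345) (nat_lit 286) (nat_lit 89))))) (XT.nd (nat_lit 376) (nat_lit 0) (nat_lit 0) (XT.nd (nat_lit 188) (nat_lit 84) (nat_lit 0) (XT.nd (nat_lit 94) (nat_lit 252) (nat_lit 0) (XT.lf (nat_lit 0) (nat_lit 77404833747) (nat_lit 84) (nat_lit 77675942314) (nat_lit 168) (nat_lit 62563169822) (nat_lit 31) (nat_lit 5) (nat_lit 32) (nat_lit 5) (nat_lit 33) (nat_lit 4) (nat_lit 346) (nat_lit 286) (nat_lit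 88)) (XT.lf (nat_lit 0) (nat_lit 1244843587) (nat_lit 168) (nat_lit 1516682388) (nat_lit 252) (nat_lit 221952971773) (nat_lit 28) (nat_lit 5) (nat_lit 30) (nat_lit 5) (nat_lit 31) (nat_lit 5) (nat_lit 347) (nat_lit 286) (nat_lit 87))) (XT.nd (nat_lit 94) (nat_lit 84) (nat_lit 0) (XT.lf (nat_lit 0) (nat_lit 72888227874) (nat_lit 252) (nat_lit 79638354640) (nat_lit 84) (nat_lit 79378798201) (nat_lit 28) (nat_lit 5) (nat_lit 31) (nat_lit 5) (nat_lit 29) (nat_lit 4) (nat_lit 348) (nat_lit 286) (nat_lit 86)) (XT.lf (nat_lit 0) (nat_lit 73718215722) (nat_lit 84) (nat_lit 73978402964) (nat_lit 168) (nat_lit 91700421454) (nat_lit 27) (nat_lit 5) (nat_lit 28) (nat_lit 5) (nat_lit 29) (nat_lit 4) (nat_lit 349) (nat_lit 286) (nat_lit 85)))) (XT.nd (nat_lit 39386) (nat_lit 0) (nat_lit 8484) (XT.nd (nat_lit 39292) (nat_lit 0) (nat_lit 8484) (XT.lf (nat_lit 0) (nat_lit 227748462259) (nat_lit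 168) (nat_lit 9844019074) (nat_lit 0) (nat_lit 9595649543) (nat_lit 27) (nat_lit 5) (nat_lit 29) (nat_lit 4) (nat_lit 27) (nat_lit 4) (nat_lit 350) (nat_lit 286) (nat_lit 84)) (XT.lf (nat_lit 0) (nat_lit 9176034038) (nat_lit 924) (nat_lit 5467113178) (nat_lit 924) (nat_lit 5467113178) (nat_lit 128) (nat_lit 3) (nat_lit 139) (nat_lit 3) (nat_lit 139) (nat_lit 5) (nat_lit 287) (nat_lit 287) (nat_lit 146))) (XT.nd (nat_lit 94) (nat_lit 0) (nat_lit 84) (XT.lf (nat_lit 84) (nat_lit 9479435163) (nat_lit 0) (nat_lit 9519336203) (nat_lit 924) (nat_lit 22217867363) (nat_lit 129) (nat_lit 5) (nat_lit 128) (nat_lit 3) (nat_lit 139) (nat_lit 5) (nat_lit 288) (nat_lit 287) (nat_lit 145)) (XT.nd (nat_lit 94) (nat_lit 0) (nat_lit 0) (XT.lf (nat_lit 0) (nat_lit 20038889688) (nat_lit 840) (nat_lit 11139905647) (nat_lit 924) (nat_lit 11065713238) (nat_lit 129) (nat_lit 5) (nat_lit 139) (nat_lit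 5) (nat_lit 140) (nat_lit 5) (nat_lit 289) (nat_lit 287) (nat_lit 144)) (XT.lf (nat_lit 84) (nat_lit 10671290756) (nat_lit 0) (nat_lit 10779951183) (nat_lit 924) (nat_lit 21856518570) (nat_lit 130) (nat_lit 5) (nat_lit 129) (nat_lit 5) (nat_lit 140) (nat_lit 5) (nat_lit 290) (nat_lit 287) (nat_lit 143))))))) (XT.nd (nat_lit 752) (nat_lit 2184) (nat_lit 0) (XT.nd (nat_lit 376) (nat_lit 588) (nat_lit 0) (XT.nd (nat_lit 188) (nat_lit 0) (nat_lit 84) (XT.nd (nat_lit 94) (nat_lit 0) (nat_lit 0) (XT.lf (nat_lit 0) (nat_lit 23289738568) (nat_lit 840) (nat_lit 10625704882) (nat_lit 924) (nat_lit 10490955253) (nat_lit 130) (nat_lit 5) (nat_lit 140) (nat_lit 5) (nat_lit 141) (nat_lit 5) (nat_lit 291) (nat_lit 287) (nat_lit 142)) (XT.lf (nat_lit 84) (nat_lit 12714322726) (nat_lit 0) (nat_lit 12878847125) (nat_lit 924) (nat_lit 19948148463) (nat_lit 131) (nat_lit 5) (nat_lit 130) (nat_lit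 5) (nat_lit 141) (nat_lit 5) (nat_lit 292) (nat_lit 287) (nat_lit 141))) (XT.nd (nat_lit 94) (nat_lit 0) (nat_lit 0) (XT.lf (nat_lit 0) (nat_lit 28336337649) (nat_lit 840) (nat_lit 9282057255) (nat_lit 924) (nat_lit 9098360757) (nat_lit 131) (nat_lit 5) (nat_lit 141) (nat_lit 5) (nat_lit 142) (nat_lit 5) (nat_lit 293) (nat_lit 287) (nat_lit 140)) (XT.lf (nat_lit 84) (nat_lit 15730978673) (nat_lit 0) (nat_lit 15940395736) (nat_lit 924) (nat_lit 16256854937) (nat_lit 132) (nat_lit 5) (nat_lit 131) (nat_lit 5) (nat_lit 142) (nat_lit 5) (nat_lit 294) (nat_lit 287) (nat_lit 139)))) (XT.nd (nat_lit 188) (nat_lit 756) (nat_lit 0) (XT.nd (nat_lit 94) (nat_lit 0) (nat_lit 0) (XT.lf (nat_lit 0) (nat_lit 35437496540) (nat_lit 840) (nat_lit 6986168816) (nat_lit 924) (nat_lit 6763394682) (nat_lit 132) (nat_lit 5) (nat_lit 142) (nat_lit 5) (nat_lit 143) (nat_lit 5) (nat_lit 295) (nat_lit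 287) (nat_lit 138)) (XT.lf (nat_lit 84) (nat_lit 19858221414) (nat_lit 0) (nat_lit 20103213939) (nat_lit 924) (nat_lit 10518921382) (nat_lit 133) (nat_lit 5) (nat_lit 132) (nat_lit 5) (nat_lit 143) (nat_lit 5) (nat_lit 296) (nat_lit 287) (nat_lit 137))) (XT.nd (nat_lit 94) (nat_lit 840) (nat_lit 0) (XT.lf (nat_lit 0) (nat_lit 44882085908) (nat_lit 840) (nat_lit 3600592785) (nat_lit 84) (nat_lit 3347113834) (nat_lit 133) (nat_lit 5) (nat_lit 143) (nat_lit 5) (nat_lit 134) (nat_lit 5) (nat_lit 297) (nat_lit 287) (nat_lit 136)) (XT.lf (nat_lit 0) (nat_lit 25249085577) (nat_lit 840) (nat_lit 25521757611) (nat_lit 924) (nat_lit 2439753212) (nat_lit 123) (nat_lit 5) (nat_lit 133) (nat_lit 5) (nat_lit 134) (nat_lit 5) (nat_lit 298) (nat_lit 287) (nat_lit 135))))) (XT.nd (nat_lit 376) (nat_lit 1176) (nat_lit 0) (XT.nd (nat_lit 188) (nat_lit 420) (nat_lit 0) (XT.nd (nat_lit 94) (nat_lit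 0) (nat_lit 0) (XT.lf (nat_lit 0) (nat_lit 1002601565) (nat_lit 504) (nat_lit 1293552724) (nat_lit 588) (nat_lit 52358697408) (nat_lit 116) (nat_lit 5) (nat_lit 122) (nat_lit 5) (nat_lit 123) (nat_lit 5) (nat_lit 299) (nat_lit 287) (nat_lit 134)) (XT.lf (nat_lit 0) (nat_lit 8043550014) (nat_lit 588) (nat_lit 24188305884) (nat_lit 84) (nat_lit 23894629836) (nat_lit 116) (nat_lit 5) (nat_lit 123) (nat_lit 5) (nat_lit 117) (nat_lit 5) (nat_lit 300) (nat_lit 287) (nat_lit 133))) (XT.nd (nat_lit 94) (nat_lit 0) (nat_lit 0) (XT.lf (nat_lit 0) (nat_lit 6948504706) (nat_lit 420) (nat_lit 7257970950) (nat_lit 504) (nat_lit 43458817811) (nat_lit 111) (nat_lit 5) (nat_lit 116) (nat_lit 5) (nat_lit 117) (nat_lit 5) (nat_lit 301) (nat_lit 287) (nat_lit 132)) (XT.lf (nat_lit 0) (nat_lit 21388512402) (nat_lit 504) (nat_lit 19083016436) (nat_lit 84) (nat_lit 18773964506) (nat_lit 111) (nat_lit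 5) (nat_lit 117) (nat_lit 5) (nat_lit 112) (nat_lit 5) (nat_lit 302) (nat_lit 287) (nat_lit 131)))) (XT.nd (nat_lit 188) (nat_lit 756) (nat_lit 0) (XT.nd (nat_lit 94) (nat_lit 0) (nat_lit 0) (XT.lf (nat_lit 0) (nat_lit 14475265049) (nat_lit 420) (nat_lit 14797957144) (nat_lit 504) (nat_lit 31614302463) (nat_lit 106) (nat_lit 5) (nat_lit 111) (nat_lit 5) (nat_lit 112) (nat_lit 5) (nat_lit 303) (nat_lit 287) (nat_lit 130)) (XT.lf (nat_lit 0) (nat_lit 38069117507) (nat_lit 504) (nat_lit 12418195180) (nat_lit 84) (nat_lit 12098497344) (nat_lit 106) (nat_lit 5) (nat_lit 112) (nat_lit 5) (nat_lit 107) (nat_lit 5) (nat_lit 304) (nat_lit 287) (nat_lit 129))) (XT.nd (nat_lit 94) (nat_lit 420) (nat_lit 0) (XT.lf (nat_lit 0) (nat_lit 23793044423) (nat_lit 336) (nat_lit 24124525147) (nat_lit 420) (nat_lit 16420802006) (nat_lit 102) (nat_lit 5) (nat_lit 106) (nat_lit 5) (nat_lit 107)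 (nat_lit 5) (nat_lit 305) (nat_lit 287) (nat_lit 128)) (XT.nd (nat_lit 94) (nat_lit 420) (nat_lit 0) (XT.lf (nat_lit 0) (nat_lit 58526458688) (nat_lit 420) (nat_lit 3982542571) (nat_lit 84) (nat_lit 3656159217) (nat_lit 102) (nat_lit 5) (nat_lit 107) (nat_lit 5) (nat_lit 103) (nat_lit 5) (nat_lit 306) (nat_lit 287) (nat_lit 127)) (XT.lf (nat_lit 0) (nat_lit 2490159627) (nat_lit 420) (nat_lit 32940270187) (nat_lit 84) (nat_lit 32603708332) (nat_lit 97) (nat_lit 5) (nat_lit 102) (nat_lit 5) (nat_lit 98) (nat_lit 5) (nat_lit 307) (nat_lit 287) (nat_lit 126))))))))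
noncomputable def xc207 : XT := (XT.nd (nat_lit 1598) (nat_lit 1932) (nat_lit 0) (XT.nd (nat_lit 752) (nat_lit 1344) (nat_lit 0) (XT.nd (nat_lit 376) (nat_lit 924) (nat_lit 0) (XT.nd (nat_lit 188) (nat_lit 336) (nat_lit 0) (XT.nd (nat_lit 94) (nat_lit 0) (nat_lit 0) (XT.lf (nat_lit 0) (nat_lit 6344457271) (nat_lit 336) (nat_lit 6690712937) (nat_lit 420) (nat_lit 56946812431) (nat_lit 93) (nat_lit 5) (nat_lit 97) (nat_lit 5) (nat_lit 98) (nat_lit 5) (nat_lit 308) (nat_lit 287) (nat_lit 125)) (XT.lf (nat_lit 0) (nat_lit 25039958222) (nat_lit 420) (nat_lit 23639597332) (nat_lit 84) (nat_lit 23301037459) (nat_lit 93) (nat_lit 5) (nat_lit 98) (nat_lit 5) (nat_lit 94) (nat_lit 5) (nat_lit 309) (nat_lit 287) (nat_lit 124))) (XT.nd (nat_lit 94) (nat_lit 0) (nat_lit 0) (XT.lf (nat_lit 0) (nat_lit 18850469865) (nat_lit 336) (nat_lit 19197403616) (nat_lit 420) (nat_lit 36011116031)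 (nat_lit 89) (nat_lit 5) (nat_lit 93) (nat_lit 5) (nat_lit 94) (nat_lit 5) (nat_lit 310) (nat_lit 287) (nat_lit 123)) (XT.lf (nat_lit 0) (nat_lit 52295605829) (nat_lit 420) (nat_lit 12127118696) (nat_lit 84) (nat_lit 11789110246) (nat_lit 89) (nat_lit 5) (nat_lit 94) (nat_lit 5) (nat_lit 90) (nat_lit 5) (nat_lit 311) (nat_lit 287) (nat_lit 122)))) (XT.nd (nat_lit 188) (nat_lit 252) (nat_lit 0) (XT.nd (nat_lit 94) (nat_lit 420) (nat_lit 0) (XT.lf (nat_lit 0) (nat_lit 33876537389) (nat_lit 252) (nat_lit 34221779510) (nat_lit 336) (nat_lit 10331875789) (nat_lit 86) (nat_lit 5) (nat_lit 89) (nat_lit 5) (nat_lit 90) (nat_lit 5) (nat_lit 312) (nat_lit 287) (nat_lit 121)) (XT.lf (nat_lit 0) (nat_lit 1845131255) (nat_lit 336) (nat_lit 2197262587) (nat_lit 420) (nat_lit 76702178538) (nat_lit 81) (nat_lit 5) (nat_lit 85) (nat_lit 5) (nat_lit 86) (nat_lit 5) (nat_lit 313) (nat_lit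 287) (nat_lit 120))) (XT.nd (nat_lit 94) (nat_lit 252) (nat_lit 0) (XT.lf (nat_lit 0) (nat_lit 20044757999) (nat_lit 420) (nat_lit 31700113103) (nat_lit 84) (nat_lit 31358501213) (nat_lit 81) (nat_lit 5) (nat_lit 86) (nat_lit 5) (nat_lit 82) (nat_lit 5) (nat_lit 314) (nat_lit 287) (nat_lit 119)) (XT.lf (nat_lit 0) (nat_lit 18411100100) (nat_lit 252) (nat_lit 18758663149) (nat_lit 336) (nat_lit 48394222854) (nat_lit 78) (nat_lit 5) (nat_lit 81) (nat_lit 5) (nat_lit 82) (nat_lit 5) (nat_lit 315) (nat_lit 287) (nat_lit 118))))) (XT.nd (nat_lit 376) (nat_lit 756) (nat_lit 0) (XT.nd (nat_lit 188) (nat_lit 336) (nat_lit 0) (XT.nd (nat_lit 94) (nat_lit 252) (nat_lit 0) (XT.lf (nat_lit 0) (nat_lit 55943630565) (nat_lit 336) (nat_lit 16250389865) (nat_lit 84) (nat_lit 15913979561) (nat_lit 78) (nat_lit 5) (nat_lit 82) (nat_lit 5) (nat_lit 79) (nat_lit 5) (nat_lit 316) (nat_lit 287)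 (nat_lit 117)) (XT.lf (nat_lit 0) (nat_lit 38108124955) (nat_lit 252) (nat_lit 38449676093) (nat_lit 336) (nat_lit 14176333034) (nat_lit 75) (nat_lit 5) (nat_lit 78) (nat_lit 5) (nat_lit 79) (nat_lit 5) (nat_lit 317) (nat_lit 287) (nat_lit 116))) (XT.nd (nat_lit 94) (nat_lit 0) (nat_lit 0) (XT.lf (nat_lit 0) (nat_lit 2264032636) (nat_lit 252) (nat_lit 2610479808) (nat_lit 336) (nat_lit 88597675155) (nat_lit 71) (nat_lit 5) (nat_lit 74) (nat_lit 5) (nat_lit 75) (nat_lit 5) (nat_lit 318) (nat_lit 287) (nat_lit 115)) (XT.lf (nat_lit 0) (nat_lit 25853250514) (nat_lit 336) (nat_lit 35372037730) (nat_lit 84) (nat_lit 35037647196) (nat_lit 71) (nat_lit 5) (nat_lit 75) (nat_lit 5) (nat_lit 72) (nat_lit 5) (nat_lit 319) (nat_lit 287) (nat_lit 114)))) (XT.nd (nat_lit 188) (nat_lit 504) (nat_lit 0) (XT.nd (nat_lit 94) (nat_lit 0) (nat_lit 0) (XT.lf (nat_lit 0) (nat_lit 23979332758)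 (nat_lit 252) (nat_lit 24317952669) (nat_lit 336) (nat_lit 50875117252) (nat_lit 68) (nat_lit 5) (nat_lit 71) (nat_lit 5) (nat_lit 72) (nat_lit 5) (nat_lit 320) (nat_lit 287) (nat_lit 113)) (XT.lf (nat_lit 0) (nat_lit 72696945742) (nat_lit 336) (nat_lit 14907528839) (nat_lit 84) (nat_lit 14581197516) (nat_lit 68) (nat_lit 5) (nat_lit 72) (nat_lit 5) (nat_lit 69) (nat_lit 5) (nat_lit 321) (nat_lit 287) (nat_lit 112))) (XT.nd (nat_lit 94) (nat_lit 336) (nat_lit 0) (XT.lf (nat_lit 0) (nat_lit 49579281474) (nat_lit 168) (nat_lit 49909266293) (nat_lit 252) (nat_lit 5802459282) (nat_lit 66) (nat_lit 5) (nat_lit 68) (nat_lit 5) (nat_lit 69) (nat_lit 5) (nat_lit 322) (nat_lit 287) (nat_lit 111)) (XT.nd (nat_lit 94) (nat_lit 0) (nat_lit 0) (XT.lf (nat_lit 0) (nat_lit 9262406513) (nat_lit 252) (nat_lit 9595870851) (nat_lit 336) (nat_lit 89658423287) (nat_lit 62) (nat_lit 5) (nat_lit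 65) (nat_lit 5) (nat_lit 66) (nat_lit 5) (nat_lit 323) (nat_lit 287) (nat_lit 110)) (XT.lf (nat_lit 0) (nat_lit 46026328312) (nat_lit 336) (nat_lit 33059935855) (nat_lit 84) (nat_lit 32739194744) (nat_lit 62) (nat_lit 5) (nat_lit 66) (nat_lit 5) (nat_lit 63) (nat_lit 5) (nat_lit 324) (nat_lit 287) (nat_lit 109))))))) (XT.nd (nat_lit 752) (nat_lit 924) (nat_lit 0) (XT.nd (nat_lit 376) (nat_lit 420) (nat_lit 0) (XT.nd (nat_lit 188) (nat_lit 420) (nat_lit 0) (XT.nd (nat_lit 94) (nat_lit 0) (nat_lit 0) (XT.lf (nat_lit 0) (nat_lit 37485440894) (nat_lit 168) (nat_lit 37809187744) (nat_lit 252) (nat_lit 39967934105) (nat_lit 60) (nat_lit 5) (nat_lit 62) (nat_lit 5) (nat_lit 63) (nat_lit 5) (nat_lit 325) (nat_lit 287) (nat_lit 108)) (XT.lf (nat_lit 0) (nat_lit 106681068534) (nat_lit 252) (nat_lit 6234386816) (nat_lit 84) (nat_lit 5923330188) (nat_lit 60) (nat_lit 5) (nat_lit 63)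 (nat_lit 5) (nat_lit 61) (nat_lit 5) (nat_lit 326) (nat_lit 287) (nat_lit 107))) (XT.nd (nat_lit 94) (nat_lit 168) (nat_lit 0) (XT.lf (nat_lit 0) (nat_lit 18245919602) (nat_lit 252) (nat_lit 52280414470) (nat_lit 84) (nat_lit 51966761371) (nat_lit 57) (nat_lit 5) (nat_lit 60) (nat_lit 5) (nat_lit 58) (nat_lit 5) (nat_lit 327) (nat_lit 287) (nat_lit 106)) (XT.lf (nat_lit 0) (nat_lit 24970770939) (nat_lit 168) (nat_lit 25286896868) (nat_lit 252) (nat_lit 76037662255) (nat_lit 55) (nat_lit 5) (nat_lit 57) (nat_lit 5) (nat_lit 58) (nat_lit 5) (nat_lit 328) (nat_lit 287) (nat_lit 105)))) (XT.nd (nat_lit 188) (nat_lit 252) (nat_lit 0) (XT.nd (nat_lit 94) (nat_lit 168) (nat_lit 0) (XT.lf (nat_lit 0) (nat_lit 85116082565) (nat_lit 252) (nat_lit 22706302566) (nat_lit 84) (nat_lit 22402987324) (nat_lit 55) (nat_lit 5) (nat_lit 58) (nat_lit 5) (nat_lit 56) (nat_lit 5) (nat_lit 329)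 (nat_lit 287) (nat_lit 104)) (XT.lf (nat_lit 0) (nat_lit 61392190580) (nat_lit 168) (nat_lit 61697641945) (nat_lit 252) (nat_lit 11193463721) (nat_lit 53) (nat_lit 5) (nat_lit 55) (nat_lit 5) (nat_lit 56) (nat_lit 5) (nat_lit 330) (nat_lit 287) (nat_lit 103))) (XT.nd (nat_lit 94) (nat_lit 0) (nat_lit 0) (XT.lf (nat_lit 0) (nat_lit 11952987421) (nat_lit 168) (nat_lit 12260473189) (nat_lit 252) (nat_lit 114282751812) (nat_lit 50) (nat_lit 5) (nat_lit 52) (nat_lit 5) (nat_lit 53) (nat_lit 5) (nat_lit 331) (nat_lit 287) (nat_lit 102)) (XT.lf (nat_lit 0) (nat_lit 62887646187) (nat_lit 252) (nat_lit 40111993830) (nat_lit 84) (nat_lit 39817304978) (nat_lit 50) (nat_lit 5) (nat_lit 53) (nat_lit 5) (nat_lit 51) (nat_lit 5) (nat_lit 332) (nat_lit 287) (nat_lit 101))))) (XT.nd (nat_lit 376) (nat_lit 420) (nat_lit 0) (XT.nd (nat_lit 188) (nat_lit 336) (nat_lit 0) (XT.nd (nat_lit 94)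 (nat_lit 0) (nat_lit 0) (XT.lf (nat_lit 0) (nat_lit 52106512568) (nat_lit 168) (nat_lit 52402958814) (nat_lit 252) (nat_lit 42793546297) (nat_lit 48) (nat_lit 5) (nat_lit 50) (nat_lit 5) (nat_lit 51) (nat_lit 5) (nat_lit 333) (nat_lit 287) (nat_lit 100)) (XT.lf (nat_lit 0) (nat_lit 148913552711) (nat_lit 252) (nat_lit 1674353405) (nat_lit 84) (nat_lit 1390429639) (nat_lit 48) (nat_lit 5) (nat_lit 51) (nat_lit 5) (nat_lit 49) (nat_lit 4) (nat_lit 334) (nat_lit 287) (nat_lit 99))) (XT.nd (nat_lit 94) (nat_lit 168) (nat_lit 0) (XT.lf (nat_lit 0) (nat_lit 39854205945) (nat_lit 168) (nat_lit 58583220737) (nat_lit 84) (nat_lit 58297778868) (nat_lit 46) (nat_lit 5) (nat_lit 48) (nat_lit 5) (nat_lit 47) (nat_lit 5) (nat_lit 335) (nat_lit 287) (nat_lit 98)) (XT.lf (nat_lit 0) (nat_lit 42611405106) (nat_lit 168) (nat_lit 42898292787) (nat_lit 252) (nat_lit 76183031308) (nat_lit 44)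 (nat_lit 5) (nat_lit 46) (nat_lit 5) (nat_lit 47) (nat_lit 5) (nat_lit 336) (nat_lit 287) (nat_lit 97)))) (XT.nd (nat_lit 188) (nat_lit 252) (nat_lit 0) (XT.nd (nat_lit 94) (nat_lit 168) (nat_lit 0) (XT.lf (nat_lit 0) (nat_lit 134696529717) (nat_lit 252) (nat_lit 16206854406) (nat_lit 84) (nat_lit 15932316649) (nat_lit 44) (nat_lit 5) (nat_lit 47) (nat_lit 5) (nat_lit 45) (nat_lit 4) (nat_lit 337) (nat_lit 287) (nat_lit 96)) (XT.lf (nat_lit 0) (nat_lit 15863181137) (nat_lit 168) (nat_lit 78263511863) (nat_lit 84) (nat_lit 77987725160) (nat_lit 42) (nat_lit 5) (nat_lit 44) (nat_lit 5) (nat_lit 43) (nat_lit 5) (nat_lit 338) (nat_lit 287) (nat_lit 95))) (XT.nd (nat_lit 94) (nat_lit 84) (nat_lit 0) (XT.lf (nat_lit 0) (nat_lit 32849958466) (nat_lit 168) (nat_lit 33126934642) (nat_lit 252) (nat_lit 111614268273) (nat_lit 40) (nat_lit 5) (nat_lit 42) (nat_lit 5) (nat_lit 43) (nat_lit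 5) (nat_lit 339) (nat_lit 287) (nat_lit 94)) (XT.nd (nat_lit 94) (nat_lit 84) (nat_lit 0) (XT.lf (nat_lit 0) (nat_lit 120425723664) (nat_lit 252) (nat_lit 31544706086) (nat_lit 84) (nat_lit 31279840363) (nat_lit 40) (nat_lit 5) (nat_lit 43) (nat_lit 5) (nat_lit 41) (nat_lit 4) (nat_lit 340) (nat_lit 287) (nat_lit 93)) (XT.lf (nat_lit 0) (nat_lit 89636576122) (nat_lit 84) (nat_lit 89902469356) (nat_lit 168) (nat_lit 9556186318) (nat_lit 39) (nat_lit 5) (nat_lit 40) (nat_lit 5) (nat_lit 41) (nat_lit 4) (nat_lit 341) (nat_lit 287) (nat_lit 92))))))))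
noncomputable def xc208 : XT := (XT.nd (nat_lit 40890) (nat_lit 0) (nat_lit 5124) (XT.nd (nat_lit 40138) (nat_lit 0) (nat_lit 8400) (XT.nd (nat_lit 376) (nat_lit 336) (nat_lit 0) (XT.nd (nat_lit 188) (nat_lit 336) (nat_lit 0) (XT.nd (nat_lit 94) (nat_lit 0) (nat_lit 0) (XT.lf (nat_lit 0) (nat_lit 22761133946) (nat_lit 168) (nat_lit 23028005763) (nat_lit 252) (nat_lit 149362206384) (nat_lit 36) (nat_lit 5) (nat_lit 38) (nat_lit 5) (nat_lit 39) (nat_lit 5) (nat_lit 342) (nat_lit 287) (nat_lit 91)) (XT.lf (nat_lit 0) (nat_lit 106028857516) (nat_lit 252) (nat_lit 47803106543) (nat_lit 84) (nat_lit 47548055305) (nat_lit 36) (nat_lit 5) (nat_lit 39) (nat_lit 5) (nat_lit 37) (nat_lit 4) (nat_lit 343) (nat_lit 287) (nat_lit 90))) (XT.nd (nat_lit 94) (nat_lit 252) (nat_lit 0) (XT.lf (nat_lit 0) (nat_lit 85367265100) (nat_lit 84) (nat_lit 85623161675) (nat_lit 168) (nat_lit 36844206247)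 (nat_lit 35) (nat_lit 5) (nat_lit 36) (nat_lit 5) (nat_lit 37) (nat_lit 4) (nat_lit 344) (nat_lit 287) (nat_lit 89)) (XT.lf (nat_lit 0) (nat_lit 12279256576) (nat_lit 168) (nat_lit 12535958233) (nat_lit 252) (nat_lit 189726863582) (nat_lit 32) (nat_lit 5) (nat_lit 34) (nat_lit 5) (nat_lit 35) (nat_lit 5) (nat_lit 345) (nat_lit 287) (nat_lit 88)))) (XT.nd (nat_lit 188) (nat_lit 252) (nat_lit 0) (XT.nd (nat_lit 94) (nat_lit 84) (nat_lit 0) (XT.lf (nat_lit 0) (nat_lit 91429413171) (nat_lit 252) (nat_lit 65107495015) (nat_lit 84) (nat_lit 64862287013) (nat_lit 32) (nat_lit 5) (nat_lit 35) (nat_lit 5) (nat_lit 33) (nat_lit 4) (nat_lit 346) (nat_lit 287) (nat_lit 87)) (XT.lf (nat_lit 0) (nat_lit 81301414638) (nat_lit 84) (nat_lit 81547318100) (nat_lit 168) (nat_lit 65676714545) (nat_lit 31) (nat_lit 5) (nat_lit 32) (nat_lit 5) (nat_lit 33) (nat_lit 4) (nat_lit 347) (nat_lit 287)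 (nat_lit 86))) (XT.nd (nat_lit 94) (nat_lit 0) (nat_lit 0) (XT.lf (nat_lit 0) (nat_lit 1333460332) (nat_lit 168) (nat_lit 1580026138) (nat_lit 252) (nat_lit 233036041955) (nat_lit 28) (nat_lit 5) (nat_lit 30) (nat_lit 5) (nat_lit 31) (nat_lit 5) (nat_lit 348) (nat_lit 287) (nat_lit 85)) (XT.lf (nat_lit 0) (nat_lit 76546048036) (nat_lit 252) (nat_lit 83594678309) (nat_lit 84) (nat_lit 83359252968) (nat_lit 28) (nat_lit 5) (nat_lit 31) (nat_lit 5) (nat_lit 29) (nat_lit 4) (nat_lit 349) (nat_lit 287) (nat_lit 84))))) (XT.nd (nat_lit 376) (nat_lit 0) (nat_lit 168) (XT.nd (nat_lit 188) (nat_lit 0) (nat_lit 84) (XT.nd (nat_lit 94) (nat_lit 0) (nat_lit 0) (XT.lf (nat_lit 0) (nat_lit 9674113812) (nat_lit 924) (nat_lit 5719847849) (nat_lit 924) (nat_lit 5719847849) (nat_lit 128) (nat_lit 3) (nat_lit 139) (nat_lit 3) (nat_lit 139) (nat_lit 5) (nat_lit 288) (nat_lit 288) (nat_lit 144))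 (XT.lf (nat_lit 84) (nat_lit 9993983704) (nat_lit 0) (nat_lit 10030175123) (nat_lit 924) (nat_lit 23249539393) (nat_lit 129) (nat_lit 5) (nat_lit 128) (nat_lit 3) (nat_lit 139) (nat_lit 5) (nat_lit 289) (nat_lit 288) (nat_lit 143))) (XT.nd (nat_lit 94) (nat_lit 0) (nat_lit 0) (XT.lf (nat_lit 0) (nat_lit 21112171736) (nat_lit 840) (nat_lit 11654145044) (nat_lit 924) (nat_lit 11586850343) (nat_lit 129) (nat_lit 5) (nat_lit 139) (nat_lit 5) (nat_lit 140) (nat_lit 5) (nat_lit 290) (nat_lit 288) (nat_lit 142)) (XT.lf (nat_lit 84) (nat_lit 11246921567) (nat_lit 0) (nat_lit 11345479777) (nat_lit 924) (nat_lit 22877317324) (nat_lit 130) (nat_lit 5) (nat_lit 129) (nat_lit 5) (nat_lit 140) (nat_lit 5) (nat_lit 291) (nat_lit 288) (nat_lit 141)))) (XT.nd (nat_lit 188) (nat_lit 0) (nat_lit 84) (XT.nd (nat_lit 94) (nat_lit 0) (nat_lit 0) (XT.lf (nat_lit 0) (nat_lit 24519161768) (nat_lit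 840) (nat_lit 11113265971) (nat_lit 924) (nat_lit 10991044085) (nat_lit 130) (nat_lit 5) (nat_lit 140) (nat_lit 5) (nat_lit 141) (nat_lit 5) (nat_lit 292) (nat_lit 288) (nat_lit 140)) (XT.lf (nat_lit 84) (nat_lit 13393057789) (nat_lit 0) (nat_lit 13542286269) (nat_lit 924) (nat_lit 20879914386) (nat_lit 131) (nat_lit 5) (nat_lit 130) (nat_lit 5) (nat_lit 141) (nat_lit 5) (nat_lit 293) (nat_lit 288) (nat_lit 139))) (XT.nd (nat_lit 94) (nat_lit 0) (nat_lit 0) (XT.lf (nat_lit 0) (nat_lit 29812403403) (nat_lit 840) (nat_lit 9701922868) (nat_lit 924) (nat_lit 9535304729) (nat_lit 131) (nat_lit 5) (nat_lit 141) (nat_lit 5) (nat_lit 142) (nat_lit 5) (nat_lit 294) (nat_lit 288) (nat_lit 138)) (XT.lf (nat_lit 84) (nat_lit 16561051352) (nat_lit 0) (nat_lit 16750998802) (nat_lit 924) (nat_lit 17009735308) (nat_lit 132) (nat_lit 5) (nat_lit 131) (nat_lit 5) (nat_lit 142) (nat_lit 5)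 (nat_lit 295) (nat_lit 288) (nat_lit 137)))))) (XT.nd (nat_lit 752) (nat_lit 1848) (nat_lit 0) (XT.nd (nat_lit 376) (nat_lit 1008) (nat_lit 0) (XT.nd (nat_lit 188) (nat_lit 756) (nat_lit 0) (XT.nd (nat_lit 94) (nat_lit 0) (nat_lit 0) (XT.lf (nat_lit 0) (nat_lit 37263557034) (nat_lit 840) (nat_lit 7291104714) (nat_lit 924) (nat_lit 7089042007) (nat_lit 132) (nat_lit 5) (nat_lit 142) (nat_lit 5) (nat_lit 143) (nat_lit 5) (nat_lit 296) (nat_lit 288) (nat_lit 136)) (XT.lf (nat_lit 84) (nat_lit 20894789341) (nat_lit 0) (nat_lit 21117004783) (nat_lit 924) (nat_lit 10989966097) (nat_lit 133) (nat_lit 5) (nat_lit 132) (nat_lit 5) (nat_lit 143) (nat_lit 5) (nat_lit 297) (nat_lit 288) (nat_lit 135))) (XT.nd (nat_lit 94) (nat_lit 840) (nat_lit 0) (XT.lf (nat_lit 0) (nat_lit 47175859025) (nat_lit 840) (nat_lit 3736426284) (nat_lit 84) (nat_lit 3506513404) (nat_lit 133) (nat_lit 5) (nat_lit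 143) (nat_lit 5) (nat_lit 134) (nat_lit 5) (nat_lit 298) (nat_lit 288) (nat_lit 134)) (XT.lf (nat_lit 0) (nat_lit 26555023156) (nat_lit 840) (nat_lit 26802344728) (nat_lit 924) (nat_lit 2511359210) (nat_lit 123) (nat_lit 5) (nat_lit 133) (nat_lit 5) (nat_lit 134) (nat_lit 5) (nat_lit 299) (nat_lit 288) (nat_lit 133)))) (XT.nd (nat_lit 188) (nat_lit 420) (nat_lit 0) (XT.nd (nat_lit 94) (nat_lit 0) (nat_lit 0) (XT.lf (nat_lit 0) (nat_lit 1097100119) (nat_lit 504) (nat_lit 1361001397) (nat_lit 588) (nat_lit 54927135791) (nat_lit 116) (nat_lit 5) (nat_lit 122) (nat_lit 5) (nat_lit 123) (nat_lit 5) (nat_lit 300) (nat_lit 288) (nat_lit 132)) (XT.lf (nat_lit 0) (nat_lit 8490581084) (nat_lit 588) (nat_lit 25353179546) (nat_lit 84) (nat_lit 25086806713) (nat_lit 116) (nat_lit 5) (nat_lit 123) (nat_lit 5) (nat_lit 117) (nat_lit 5) (nat_lit 301) (nat_lit 288) (nat_lit 131))) (XT.nd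 (nat_lit 94) (nat_lit 0) (nat_lit 0) (XT.lf (nat_lit 0) (nat_lit 7339753160) (nat_lit 420) (nat_lit 7620448166) (nat_lit 504) (nat_lit 45586186719) (nat_lit 111) (nat_lit 5) (nat_lit 116) (nat_lit 5) (nat_lit 117) (nat_lit 5) (nat_lit 302) (nat_lit 288) (nat_lit 130)) (XT.lf (nat_lit 0) (nat_lit 22499279419) (nat_lit 504) (nat_lit 19993370367) (nat_lit 84) (nat_lit 19713051156) (nat_lit 111) (nat_lit 5) (nat_lit 117) (nat_lit 5) (nat_lit 112) (nat_lit 5) (nat_lit 303) (nat_lit 288) (nat_lit 129))))) (XT.nd (nat_lit 376) (nat_lit 1092) (nat_lit 0) (XT.nd (nat_lit 188) (nat_lit 336) (nat_lit 0) (XT.nd (nat_lit 94) (nat_lit 0) (nat_lit 0) (XT.lf (nat_lit 0) (nat_lit 15242118791) (nat_lit 420) (nat_lit 15534810033) (nat_lit 504) (nat_lit 33152969789) (nat_lit 106) (nat_lit 5) (nat_lit 111) (nat_lit 5) (nat_lit 112) (nat_lit 5) (nat_lit 304) (nat_lit 288) (nat_lit 128)) (XT.lf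 (nat_lit 0) (nat_lit 40010757251) (nat_lit 504) (nat_lit 12996204725) (nat_lit 84) (nat_lit 12706229363) (nat_lit 106) (nat_lit 5) (nat_lit 112) (nat_lit 5) (nat_lit 107) (nat_lit 5) (nat_lit 305) (nat_lit 288) (nat_lit 127))) (XT.nd (nat_lit 94) (nat_lit 0) (nat_lit 0) (XT.lf (nat_lit 0) (nat_lit 25024904919) (nat_lit 336) (nat_lit 25325567708) (nat_lit 420) (nat_lit 17202966298) (nat_lit 102) (nat_lit 5) (nat_lit 106) (nat_lit 5) (nat_lit 107) (nat_lit 5) (nat_lit 306) (nat_lit 288) (nat_lit 126)) (XT.lf (nat_lit 0) (nat_lit 61488120204) (nat_lit 420) (nat_lit 4139785345) (nat_lit 84) (nat_lit 3843746021) (nat_lit 102) (nat_lit 5) (nat_lit 107) (nat_lit 5) (nat_lit 103) (nat_lit 5) (nat_lit 307) (nat_lit 288) (nat_lit 125)))) (XT.nd (nat_lit 188) (nat_lit 336) (nat_lit 0) (XT.nd (nat_lit 94) (nat_lit 336) (nat_lit 0) (XT.lf (nat_lit 0) (nat_lit 2649529067) (nat_lit 420)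 (nat_lit 34544922218) (nat_lit 84) (nat_lit 34239650694) (nat_lit 97) (nat_lit 5) (nat_lit 102) (nat_lit 5) (nat_lit 98) (nat_lit 5) (nat_lit 308) (nat_lit 288) (nat_lit 124)) (XT.lf (nat_lit 0) (nat_lit 6703358363) (nat_lit 336) (nat_lit 7017422459) (nat_lit 420) (nat_lit 59758608344) (nat_lit 93) (nat_lit 5) (nat_lit 97) (nat_lit 5) (nat_lit 98) (nat_lit 5) (nat_lit 309) (nat_lit 288) (nat_lit 123))) (XT.nd (nat_lit 94) (nat_lit 336) (nat_lit 0) (XT.lf (nat_lit 0) (nat_lit 26324312600) (nat_lit 420) (nat_lit 24780388012) (nat_lit 84) (nat_lit 24473304227) (nat_lit 93) (nat_lit 5) (nat_lit 98) (nat_lit 5) (nat_lit 94) (nat_lit 5) (nat_lit 310) (nat_lit 288) (nat_lit 122)) (XT.nd (nat_lit 94) (nat_lit 0) (nat_lit 0) (XT.lf (nat_lit 0) (nat_lit 19833518203) (nat_lit 336) (nat_lit 20148197342) (nat_lit 420) (nat_lit 37778651023) (nat_lit 89) (nat_lit 5) (nat_lit 93) (nat_lit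 5) (nat_lit 94) (nat_lit 5) (nat_lit 311) (nat_lit 288) (nat_lit 121)) (XT.lf (nat_lit 0) (nat_lit 54940471929) (nat_lit 420) (nat_lit 12693516960) (nat_lit 84) (nat_lit 12386933331) (nat_lit 89) (nat_lit 5) (nat_lit 94) (nat_lit 5) (nat_lit 90) (nat_lit 5) (nat_lit 312) (nat_lit 288) (nat_lit 120))))))))
noncomputable def xc209 : XT := (XT.nd (nat_lit 1598) (nat_lit 1932) (nat_lit 0) (XT.nd (nat_lit 752) (nat_lit 1344) (nat_lit 0) (XT.nd (nat_lit 376) (nat_lit 588) (nat_lit 0) (XT.nd (nat_lit 188) (nat_lit 252) (nat_lit 0) (XT.nd (nat_lit 94) (nat_lit 420) (nat_lit 0) (XT.lf (nat_lit 0) (nat_lit 35609677451) (nat_lit 252) (nat_lit 35922822232) (nat_lit 336) (nat_lit 10817739291) (nat_lit 86) (nat_lit 5) (nat_lit 89) (nat_lit 5) (nat_lit 90) (nat_lit 5) (nat_lit 313) (nat_lit 288) (nat_lit 119)) (XT.lf (nat_lit 0) (nat_lit 1977034624) (nat_lit 336) (nat_lit 2296428123) (nat_lit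 420) (nat_lit 80506890791) (nat_lit 81) (nat_lit 5) (nat_lit 85) (nat_lit 5) (nat_lit 86) (nat_lit 5) (nat_lit 314) (nat_lit 288) (nat_lit 118))) (XT.nd (nat_lit 94) (nat_lit 252) (nat_lit 0) (XT.lf (nat_lit 0) (nat_lit 21074725644) (nat_lit 420) (nat_lit 33246140427) (nat_lit 84) (nat_lit 32936288373) (nat_lit 81) (nat_lit 5) (nat_lit 86) (nat_lit 5) (nat_lit 82) (nat_lit 5) (nat_lit 315) (nat_lit 288) (nat_lit 117)) (XT.lf (nat_lit 0) (nat_lit 19370004754) (nat_lit 252) (nat_lit 19685254685) (nat_lit 336) (nat_lit 50785575569) (nat_lit 78) (nat_lit 5) (nat_lit 81) (nat_lit 5) (nat_lit 82) (nat_lit 5) (nat_lit 316) (nat_lit 288) (nat_lit 116)))) (XT.nd (nat_lit 188) (nat_lit 336) (nat_lit 0) (XT.nd (nat_lit 94) (nat_lit 252) (nat_lit 0) (XT.lf (nat_lit 0) (nat_lit 58766702665) (nat_lit 336) (nat_lit 17025268430) (nat_lit 84) (nat_lit 16720134367) (nat_lit 78) (nat_lit 5)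 (nat_lit 82) (nat_lit 5) (nat_lit 79) (nat_lit 5) (nat_lit 317) (nat_lit 288) (nat_lit 115)) (XT.lf (nat_lit 0) (nat_lit 40050565019) (nat_lit 252) (nat_lit 40360361971) (nat_lit 336) (nat_lit 14858652002) (nat_lit 75) (nat_lit 5) (nat_lit 78) (nat_lit 5) (nat_lit 79) (nat_lit 5) (nat_lit 318) (nat_lit 288) (nat_lit 114))) (XT.nd (nat_lit 94) (nat_lit 0) (nat_lit 0) (XT.lf (nat_lit 0) (nat_lit 2414505177) (nat_lit 252) (nat_lit 2728742975) (nat_lit 336) (nat_lit 93001298321) (nat_lit 71) (nat_lit 5) (nat_lit 74) (nat_lit 5) (nat_lit 75) (nat_lit 5) (nat_lit 319) (nat_lit 288) (nat_lit 113)) (XT.lf (nat_lit 0) (nat_lit 27169914481) (nat_lit 336) (nat_lit 37104134866) (nat_lit 84) (nat_lit 36800832794) (nat_lit 71) (nat_lit 5) (nat_lit 75) (nat_lit 5) (nat_lit 72) (nat_lit 5) (nat_lit 320) (nat_lit 288) (nat_lit 112))))) (XT.nd (nat_lit 376) (nat_lit 588) (nat_lit 0) (XT.nd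 (nat_lit 188) (nat_lit 504) (nat_lit 0) (XT.nd (nat_lit 94) (nat_lit 0) (nat_lit 0) (XT.lf (nat_lit 0) (nat_lit 25214215360) (nat_lit 252) (nat_lit 25521353602) (nat_lit 336) (nat_lit 53394282888) (nat_lit 68) (nat_lit 5) (nat_lit 71) (nat_lit 5) (nat_lit 72) (nat_lit 5) (nat_lit 321) (nat_lit 288) (nat_lit 111)) (XT.lf (nat_lit 0) (nat_lit 76354282907) (nat_lit 336) (nat_lit 15617770215) (nat_lit 84) (nat_lit 15321778085) (nat_lit 68) (nat_lit 5) (nat_lit 72) (nat_lit 5) (nat_lit 69) (nat_lit 5) (nat_lit 322) (nat_lit 288) (nat_lit 110))) (XT.nd (nat_lit 94) (nat_lit 336) (nat_lit 0) (XT.lf (nat_lit 0) (nat_lit 52092813919) (nat_lit 168) (nat_lit 52392119878) (nat_lit 252) (nat_lit 6069525673) (nat_lit 66) (nat_lit 5) (nat_lit 68) (nat_lit 5) (nat_lit 69) (nat_lit 5) (nat_lit 323) (nat_lit 288) (nat_lit 109)) (XT.lf (nat_lit 0) (nat_lit 9760263707) (nat_lit 252) (nat_lit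 10062725692) (nat_lit 336) (nat_lit 94118456376) (nat_lit 62) (nat_lit 5) (nat_lit 65) (nat_lit 5) (nat_lit 66) (nat_lit 5) (nat_lit 324) (nat_lit 288) (nat_lit 108)))) (XT.nd (nat_lit 188) (nat_lit 420) (nat_lit 0) (XT.nd (nat_lit 94) (nat_lit 168) (nat_lit 0) (XT.lf (nat_lit 0) (nat_lit 48348597276) (nat_lit 336) (nat_lit 34679004298) (nat_lit 84) (nat_lit 34388082655) (nat_lit 62) (nat_lit 5) (nat_lit 66) (nat_lit 5) (nat_lit 63) (nat_lit 5) (nat_lit 325) (nat_lit 288) (nat_lit 107)) (XT.lf (nat_lit 0) (nat_lit 39393094057) (nat_lit 168) (nat_lit 39686741994) (nat_lit 252) (nat_lit 41944831030) (nat_lit 60) (nat_lit 5) (nat_lit 62) (nat_lit 5) (nat_lit 63) (nat_lit 5) (nat_lit 326) (nat_lit 288) (nat_lit 106))) (XT.nd (nat_lit 94) (nat_lit 420) (nat_lit 0) (XT.lf (nat_lit 0) (nat_lit 112034814787) (nat_lit 252) (nat_lit 6513531459) (nat_lit 84) (nat_lit 6231393928) (nat_lit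 60) (nat_lit 5) (nat_lit 63) (nat_lit 5) (nat_lit 61) (nat_lit 5) (nat_lit 327) (nat_lit 288) (nat_lit 105)) (XT.nd (nat_lit 94) (nat_lit 168) (nat_lit 0) (XT.lf (nat_lit 0) (nat_lit 19177786697) (nat_lit 252) (nat_lit 54861738785) (nat_lit 84) (nat_lit 54577246178) (nat_lit 57) (nat_lit 5) (nat_lit 60) (nat_lit 5) (nat_lit 58) (nat_lit 5) (nat_lit 328) (nat_lit 288) (nat_lit 104)) (XT.lf (nat_lit 0) (nat_lit 26251478534) (nat_lit 168) (nat_lit 26538214070) (nat_lit 252) (nat_lit 79819446892) (nat_lit 55) (nat_lit 5) (nat_lit 57) (nat_lit 5) (nat_lit 58) (nat_lit 5) (nat_lit 329) (nat_lit 288) (nat_lit 103))))))) (XT.nd (nat_lit 752) (nat_lit 1008) (nat_lit 0) (XT.nd (nat_lit 376) (nat_lit 504) (nat_lit 0) (XT.nd (nat_lit 188) (nat_lit 252) (nat_lit 0) (XT.nd (nat_lit 94) (nat_lit 168) (nat_lit 0) (XT.lf (nat_lit 0) (nat_lit 89390310316) (nat_lit 252) (nat_lit 23810262724)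 (nat_lit 84) (nat_lit 23535146858) (nat_lit 55) (nat_lit 5) (nat_lit 58) (nat_lit 5) (nat_lit 56) (nat_lit 5) (nat_lit 330) (nat_lit 288) (nat_lit 102)) (XT.lf (nat_lit 0) (nat_lit 64492649355) (nat_lit 168) (nat_lit 64769702747) (nat_lit 252) (nat_lit 11734207559) (nat_lit 53) (nat_lit 5) (nat_lit 55) (nat_lit 5) (nat_lit 56) (nat_lit 5) (nat_lit 331) (nat_lit 288) (nat_lit 101))) (XT.nd (nat_lit 94) (nat_lit 0) (nat_lit 0) (XT.lf (nat_lit 0) (nat_lit 12581584554) (nat_lit 168) (nat_lit 12860483210) (nat_lit 252) (nat_lit 119978058571) (nat_lit 50) (nat_lit 5) (nat_lit 52) (nat_lit 5) (nat_lit 53) (nat_lit 5) (nat_lit 332) (nat_lit 288) (nat_lit 100)) (XT.lf (nat_lit 0) (nat_lit 66049302119) (nat_lit 252) (nat_lit 42087458960) (nat_lit 84) (nat_lit 41820167484) (nat_lit 50) (nat_lit 5) (nat_lit 53) (nat_lit 5) (nat_lit 51) (nat_lit 5) (nat_lit 333) (nat_lit 288) (nat_lit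 99)))) (XT.nd (nat_lit 188) (nat_lit 336) (nat_lit 0) (XT.nd (nat_lit 94) (nat_lit 0) (nat_lit 0) (XT.lf (nat_lit 0) (nat_lit 54741486717) (nat_lit 168) (nat_lit 55010372200) (nat_lit 252) (nat_lit 44915463948) (nat_lit 48) (nat_lit 5) (nat_lit 50) (nat_lit 5) (nat_lit 51) (nat_lit 5) (nat_lit 334) (nat_lit 288) (nat_lit 98)) (XT.lf (nat_lit 0) (nat_lit 156375528240) (nat_lit 252) (nat_lit 1729218317) (nat_lit 84) (nat_lit 1471691091) (nat_lit 48) (nat_lit 5) (nat_lit 51) (nat_lit 5) (nat_lit 49) (nat_lit 4) (nat_lit 335) (nat_lit 288) (nat_lit 97))) (XT.nd (nat_lit 94) (nat_lit 168) (nat_lit 0) (XT.lf (nat_lit 0) (nat_lit 41863142974) (nat_lit 168) (nat_lit 61483457853) (nat_lit 84) (nat_lit 61224553664) (nat_lit 46) (nat_lit 5) (nat_lit 48) (nat_lit 5) (nat_lit 47) (nat_lit 5) (nat_lit 336) (nat_lit 288) (nat_lit 96)) (XT.lf (nat_lit 0) (nat_lit 44770432767) (nat_lit 168)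 (nat_lit 45030648351) (nat_lit 252) (nat_lit 79975489627) (nat_lit 44) (nat_lit 5) (nat_lit 46) (nat_lit 5) (nat_lit 47) (nat_lit 5) (nat_lit 337) (nat_lit 288) (nat_lit 95))))) (XT.nd (nat_lit 376) (nat_lit 672) (nat_lit 0) (XT.nd (nat_lit 188) (nat_lit 168) (nat_lit 0) (XT.nd (nat_lit 94) (nat_lit 168) (nat_lit 0) (XT.lf (nat_lit 0) (nat_lit 141446684214) (nat_lit 252) (nat_lit 16989524517) (nat_lit 84) (nat_lit 16740510679) (nat_lit 44) (nat_lit 5) (nat_lit 47) (nat_lit 5) (nat_lit 45) (nat_lit 4) (nat_lit 338) (nat_lit 288) (nat_lit 94)) (XT.lf (nat_lit 0) (nat_lit 16671609660) (nat_lit 168) (nat_lit 82148956302) (nat_lit 84) (nat_lit 81898809632) (nat_lit 42) (nat_lit 5) (nat_lit 44) (nat_lit 5) (nat_lit 43) (nat_lit 5) (nat_lit 339) (nat_lit 288) (nat_lit 93))) (XT.nd (nat_lit 94) (nat_lit 0) (nat_lit 0) (XT.lf (nat_lit 0) (nat_lit 34519740266) (nat_lit 168) (nat_lit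 34770965824) (nat_lit 252) (nat_lit 117179264943) (nat_lit 40) (nat_lit 5) (nat_lit 42) (nat_lit 5) (nat_lit 43) (nat_lit 5) (nat_lit 340) (nat_lit 288) (nat_lit 92)) (XT.lf (nat_lit 0) (nat_lit 126461448520) (nat_lit 252) (nat_lit 33095427092) (nat_lit 84) (nat_lit 32855186073) (nat_lit 40) (nat_lit 5) (nat_lit 43) (nat_lit 5) (nat_lit 41) (nat_lit 4) (nat_lit 341) (nat_lit 288) (nat_lit 91)))) (XT.nd (nat_lit 188) (nat_lit 336) (nat_lit 0) (XT.nd (nat_lit 94) (nat_lit 252) (nat_lit 0) (XT.lf (nat_lit 0) (nat_lit 94144491577) (nat_lit 84) (nat_lit 94385664579) (nat_lit 168) (nat_lit 10019129310) (nat_lit 39) (nat_lit 5) (nat_lit 40) (nat_lit 5) (nat_lit 41) (nat_lit 4) (nat_lit 342) (nat_lit 288) (nat_lit 90)) (XT.lf (nat_lit 0) (nat_lit 23925324681) (nat_lit 168) (nat_lit 24167385285) (nat_lit 252) (nat_lit 156815497768) (nat_lit 36) (nat_lit 5) (nat_lit 38) (nat_lit 5)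 (nat_lit 39) (nat_lit 5) (nat_lit 343) (nat_lit 288) (nat_lit 89))) (XT.nd (nat_lit 94) (nat_lit 336) (nat_lit 0) (XT.lf (nat_lit 0) (nat_lit 111343920344) (nat_lit 252) (nat_lit 50167878992) (nat_lit 84) (nat_lit 49936540000) (nat_lit 36) (nat_lit 5) (nat_lit 39) (nat_lit 5) (nat_lit 37) (nat_lit 4) (nat_lit 344) (nat_lit 288) (nat_lit 88)) (XT.nd (nat_lit 94) (nat_lit 252) (nat_lit 0) (XT.lf (nat_lit 0) (nat_lit 89660601833) (nat_lit 84) (nat_lit 89892707569) (nat_lit 168) (nat_lit 38672387207) (nat_lit 35) (nat_lit 5) (nat_lit 36) (nat_lit 5) (nat_lit 37) (nat_lit 4) (nat_lit 345) (nat_lit 288) (nat_lit 87)) (XT.lf (nat_lit 0) (nat_lit 12918231869) (nat_lit 168) (nat_lit 13151067839) (nat_lit 252) (nat_lit 199199216395) (nat_lit 32) (nat_lit 5) (nat_lit 34) (nat_lit 5) (nat_lit 35) (nat_lit 5) (nat_lit 346) (nat_lit 288) (nat_lit 86))))))))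
noncomputable def xc210 : XT := (XT.nd (nat_lit 41078) (nat_lit 0) (nat_lit 3948) (XT.nd (nat_lit 40232) (nat_lit 0) (nat_lit 7392) (XT.nd (nat_lit 39856) (nat_lit 0) (nat_lit 8400) (XT.nd (nat_lit 188) (nat_lit 252) (nat_lit 0) (XT.nd (nat_lit 94) (nat_lit 84) (nat_lit 0) (XT.lf (nat_lit 0) (nat_lit 96013747301) (nat_lit 252) (nat_lit 68338587685) (nat_lit 84) (nat_lit 68116176799) (nat_lit 32) (nat_lit 5) (nat_lit 35) (nat_lit 5) (nat_lit 33) (nat_lit 4) (nat_lit 347) (nat_lit 288) (nat_lit 85)) (XT.lf (nat_lit 0) (nat_lit 85390375804) (nat_lit 84) (nat_lit 85613417493) (nat_lit 168) (nat_lit 68947295154) (nat_lit 31) (nat_lit 5) (nat_lit 32) (nat_lit 5) (nat_lit 33) (nat_lit 4) (nat_lit 348) (nat_lit 288) (nat_lit 84))) (XT.nd (nat_lit 39574) (nat_lit 0) (nat_lit 8400) (XT.lf (nat_lit 0) (nat_lit 1424055857) (nat_lit 168) (nat_lit 1647698311) (nat_lit 252) (nat_lit 244674621009)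 (nat_lit 28) (nat_lit 5) (nat_lit 30) (nat_lit 5) (nat_lit 31) (nat_lit 5) (nat_lit 349) (nat_lit 288) (nat_lit 83)) (XT.lf (nat_lit 0) (nat_lit 10193445872) (nat_lit 924) (nat_lit 5987136397) (nat_lit 924) (nat_lit 5987136397) (nat_lit 128) (nat_lit 3) (nat_lit 139) (nat_lit 3) (nat_lit 139) (nat_lit 5) (nat_lit 289) (nat_lit 289) (nat_lit 142)))) (XT.nd (nat_lit 188) (nat_lit 0) (nat_lit 84) (XT.nd (nat_lit 94) (nat_lit 0) (nat_lit 84) (XT.lf (nat_lit 84) (nat_lit 10530487228) (nat_lit 0) (nat_lit 10563313911) (nat_lit 924) (nat_lit 24340160274) (nat_lit 129) (nat_lit 5) (nat_lit 128) (nat_lit 3) (nat_lit 139) (nat_lit 5) (nat_lit 290) (nat_lit 289) (nat_lit 141)) (XT.lf (nat_lit 0) (nat_lit 22232485596) (nat_lit 840) (nat_lit 12198071449) (nat_lit 924) (nat_lit 12137033171) (nat_lit 129) (nat_lit 5) (nat_lit 139) (nat_lit 5) (nat_lit 140) (nat_lit 5) (nat_lit 291) (nat_lit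 289) (nat_lit 140))) (XT.nd (nat_lit 94) (nat_lit 0) (nat_lit 84) (XT.lf (nat_lit 84) (nat_lit 11847422996) (nat_lit 0) (nat_lit 11936818198) (nat_lit 924) (nat_lit 23955852419) (nat_lit 130) (nat_lit 5) (nat_lit 129) (nat_lit 5) (nat_lit 140) (nat_lit 5) (nat_lit 292) (nat_lit 289) (nat_lit 139)) (XT.lf (nat_lit 0) (nat_lit 25804018969) (nat_lit 840) (nat_lit 11629270172) (nat_lit 924) (nat_lit 11518411319) (nat_lit 130) (nat_lit 5) (nat_lit 140) (nat_lit 5) (nat_lit 141) (nat_lit 5) (nat_lit 293) (nat_lit 289) (nat_lit 138))))) (XT.nd (nat_lit 376) (nat_lit 1176) (nat_lit 0) (XT.nd (nat_lit 188) (nat_lit 0) (nat_lit 84) (XT.nd (nat_lit 94) (nat_lit 0) (nat_lit 84) (XT.lf (nat_lit 84) (nat_lit 14101730114) (nat_lit 0) (nat_lit 14237084744) (nat_lit 924) (nat_lit 21864371330) (nat_lit 131) (nat_lit 5) (nat_lit 130) (nat_lit 5) (nat_lit 141) (nat_lit 5) (nat_lit 294) (nat_lit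 289) (nat_lit 137)) (XT.lf (nat_lit 0) (nat_lit 31356764046) (nat_lit 840) (nat_lit 10146894522) (nat_lit 924) (nat_lit 9995766959) (nat_lit 131) (nat_lit 5) (nat_lit 141) (nat_lit 5) (nat_lit 142) (nat_lit 5) (nat_lit 295) (nat_lit 289) (nat_lit 136))) (XT.nd (nat_lit 94) (nat_lit 0) (nat_lit 84) (XT.lf (nat_lit 84) (nat_lit 17428581239) (nat_lit 0) (nat_lit 17600869176) (nat_lit 924) (nat_lit 17805834432) (nat_lit 132) (nat_lit 5) (nat_lit 131) (nat_lit 5) (nat_lit 142) (nat_lit 5) (nat_lit 296) (nat_lit 289) (nat_lit 135)) (XT.lf (nat_lit 0) (nat_lit 39175882884) (nat_lit 840) (nat_lit 7615412745) (nat_lit 924) (nat_lit 7432135914) (nat_lit 132) (nat_lit 5) (nat_lit 142) (nat_lit 5) (nat_lit 143) (nat_lit 5) (nat_lit 297) (nat_lit 289) (nat_lit 134)))) (XT.nd (nat_lit 188) (nat_lit 1344) (nat_lit 0) (XT.nd (nat_lit 94) (nat_lit 0) (nat_lit 84) (XT.lf (nat_lit 84) (nat_lit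 21979126863) (nat_lit 0) (nat_lit 22180682821) (nat_lit 924) (nat_lit 11489667256) (nat_lit 133) (nat_lit 5) (nat_lit 132) (nat_lit 5) (nat_lit 143) (nat_lit 5) (nat_lit 298) (nat_lit 289) (nat_lit 133)) (XT.lf (nat_lit 0) (nat_lit 49579703062) (nat_lit 840) (nat_lit 3883160396) (nat_lit 84) (nat_lit 3674622636) (nat_lit 133) (nat_lit 5) (nat_lit 143) (nat_lit 5) (nat_lit 134) (nat_lit 5) (nat_lit 299) (nat_lit 289) (nat_lit 132))) (XT.nd (nat_lit 94) (nat_lit 588) (nat_lit 0) (XT.lf (nat_lit 0) (nat_lit 27922214948) (nat_lit 840) (nat_lit 28146542904) (nat_lit 924) (nat_lit 2591229517) (nat_lit 123) (nat_lit 5) (nat_lit 133) (nat_lit 5) (nat_lit 134) (nat_lit 5) (nat_lit 300) (nat_lit 289) (nat_lit 131)) (XT.nd (nat_lit 94) (nat_lit 0) (nat_lit 0) (XT.lf (nat_lit 0) (nat_lit 1192198640) (nat_lit 504) (nat_lit 1431564878) (nat_lit 588) (nat_lit 57628597808) (nat_lit 116)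 (nat_lit 5) (nat_lit 122) (nat_lit 5) (nat_lit 123) (nat_lit 5) (nat_lit 301) (nat_lit 289) (nat_lit 130)) (XT.lf (nat_lit 0) (nat_lit 8955793648) (nat_lit 588) (nat_lit 26580437949) (nat_lit 84) (nat_lit 26338829938) (nat_lit 116) (nat_lit 5) (nat_lit 123) (nat_lit 5) (nat_lit 117) (nat_lit 5) (nat_lit 302) (nat_lit 289) (nat_lit 129))))))) (XT.nd (nat_lit 752) (nat_lit 1512) (nat_lit 0) (XT.nd (nat_lit 376) (nat_lit 1092) (nat_lit 0) (XT.nd (nat_lit 188) (nat_lit 420) (nat_lit 0) (XT.nd (nat_lit 94) (nat_lit 0) (nat_lit 0) (XT.lf (nat_lit 0) (nat_lit 7746489770) (nat_lit 420) (nat_lit 8001088415) (nat_lit 504) (nat_lit 47824160923) (nat_lit 111) (nat_lit 5) (nat_lit 116) (nat_lit 5) (nat_lit 117) (nat_lit 5) (nat_lit 303) (nat_lit 289) (nat_lit 128)) (XT.lf (nat_lit 0) (nat_lit 23661741255) (nat_lit 504) (nat_lit 20953313814) (nat_lit 84) (nat_lit 20699056026) (nat_lit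 111) (nat_lit 5) (nat_lit 117) (nat_lit 5) (nat_lit 112) (nat_lit 5) (nat_lit 304) (nat_lit 289) (nat_lit 127))) (XT.nd (nat_lit 94) (nat_lit 0) (nat_lit 0) (XT.lf (nat_lit 0) (nat_lit 16043309074) (nat_lit 420) (nat_lit 16308788660) (nat_lit 504) (nat_lit 34772479686) (nat_lit 106) (nat_lit 5) (nat_lit 111) (nat_lit 5) (nat_lit 112) (nat_lit 5) (nat_lit 305) (nat_lit 289) (nat_lit 126)) (XT.lf (nat_lit 0) (nat_lit 42045929008) (nat_lit 504) (nat_lit 13607103202) (nat_lit 84) (nat_lit 13344087001) (nat_lit 106) (nat_lit 5) (nat_lit 112) (nat_lit 5) (nat_lit 107) (nat_lit 5) (nat_lit 306) (nat_lit 289) (nat_lit 125)))) (XT.nd (nat_lit 188) (nat_lit 756) (nat_lit 0) (XT.nd (nat_lit 94) (nat_lit 0) (nat_lit 0) (XT.lf (nat_lit 0) (nat_lit 26314434316) (nat_lit 336) (nat_lit 26587144328) (nat_lit 420) (nat_lit 18027853109) (nat_lit 102) (nat_lit 5) (nat_lit 106) (nat_lit 5) (nat_lit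 107) (nat_lit 5) (nat_lit 307) (nat_lit 289) (nat_lit 124)) (XT.lf (nat_lit 0) (nat_lit 64594579350) (nat_lit 420) (nat_lit 4308784267) (nat_lit 84) (nat_lit 4040267874) (nat_lit 102) (nat_lit 5) (nat_lit 107) (nat_lit 5) (nat_lit 103) (nat_lit 5) (nat_lit 308) (nat_lit 289) (nat_lit 123))) (XT.nd (nat_lit 94) (nat_lit 336) (nat_lit 0) (XT.lf (nat_lit 0) (nat_lit 2813625891) (nat_lit 420) (nat_lit 36233745220) (nat_lit 84) (nat_lit 35956854949) (nat_lit 97) (nat_lit 5) (nat_lit 102) (nat_lit 5) (nat_lit 98) (nat_lit 5) (nat_lit 309) (nat_lit 289) (nat_lit 122)) (XT.lf (nat_lit 0) (nat_lit 7076329662) (nat_lit 336) (nat_lit 7361195056) (nat_lit 420) (nat_lit 62714298663) (nat_lit 93) (nat_lit 5) (nat_lit 97) (nat_lit 5) (nat_lit 98) (nat_lit 5) (nat_lit 310) (nat_lit 289) (nat_lit 121))))) (XT.nd (nat_lit 376) (nat_lit 924) (nat_lit 0) (XT.nd (nat_lit 188) (nat_lit 252) (nat_lit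 0) (XT.nd (nat_lit 94) (nat_lit 336) (nat_lit 0) (XT.lf (nat_lit 0) (nat_lit 27669876500) (nat_lit 420) (nat_lit 25982047607) (nat_lit 84) (nat_lit 25703513561) (nat_lit 93) (nat_lit 5) (nat_lit 98) (nat_lit 5) (nat_lit 94) (nat_lit 5) (nat_lit 311) (nat_lit 289) (nat_lit 120)) (XT.lf (nat_lit 0) (nat_lit 20861951342) (nat_lit 336) (nat_lit 21147374597) (nat_lit 420) (nat_lit 39637632727) (nat_lit 89) (nat_lit 5) (nat_lit 93) (nat_lit 5) (nat_lit 94) (nat_lit 5) (nat_lit 312) (nat_lit 289) (nat_lit 119))) (XT.nd (nat_lit 94) (nat_lit 252) (nat_lit 0) (XT.lf (nat_lit 0) (nat_lit 57714784240) (nat_lit 420) (nat_lit 13291950022) (nat_lit 84) (nat_lit 13013869633) (nat_lit 89) (nat_lit 5) (nat_lit 94) (nat_lit 5) (nat_lit 90) (nat_lit 5) (nat_lit 313) (nat_lit 289) (nat_lit 118)) (XT.lf (nat_lit 0) (nat_lit 37425819549) (nat_lit 252) (nat_lit 37709851096) (nat_lit 336) (nat_lit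 11330752980) (nat_lit 86) (nat_lit 5) (nat_lit 89) (nat_lit 5) (nat_lit 90) (nat_lit 5) (nat_lit 314) (nat_lit 289) (nat_lit 117)))) (XT.nd (nat_lit 188) (nat_lit 504) (nat_lit 0) (XT.nd (nat_lit 94) (nat_lit 0) (nat_lit 0) (XT.lf (nat_lit 0) (nat_lit 2111847178) (nat_lit 336) (nat_lit 2401546496) (nat_lit 420) (nat_lit 84504664652) (nat_lit 81) (nat_lit 5) (nat_lit 85) (nat_lit 5) (nat_lit 86) (nat_lit 5) (nat_lit 315) (nat_lit 289) (nat_lit 116)) (XT.lf (nat_lit 0) (nat_lit 22153613623) (nat_lit 420) (nat_lit 34873092953) (nat_lit 84) (nat_lit 34592048006) (nat_lit 81) (nat_lit 5) (nat_lit 86) (nat_lit 5) (nat_lit 82) (nat_lit 5) (nat_lit 316) (nat_lit 289) (nat_lit 115))) (XT.nd (nat_lit 94) (nat_lit 252) (nat_lit 0) (XT.lf (nat_lit 0) (nat_lit 20373289253) (nat_lit 252) (nat_lit 20659230233) (nat_lit 336) (nat_lit 53299132417) (nat_lit 78) (nat_lit 5) (nat_lit 81) (nat_lit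 5) (nat_lit 82) (nat_lit 5) (nat_lit 317) (nat_lit 289) (nat_lit 114)) (XT.nd (nat_lit 94) (nat_lit 252) (nat_lit 0) (XT.lf (nat_lit 0) (nat_lit 61728521311) (nat_lit 336) (nat_lit 17842390419) (nat_lit 84) (nat_lit 17565624829) (nat_lit 78) (nat_lit 5) (nat_lit 82) (nat_lit 5) (nat_lit 79) (nat_lit 5) (nat_lit 318) (nat_lit 289) (nat_lit 113)) (XT.lf (nat_lit 0) (nat_lit 42086684034) (nat_lit 252) (nat_lit 42367679001) (nat_lit 336) (nat_lit 15577550421) (nat_lit 75) (nat_lit 5) (nat_lit 78) (nat_lit 5) (nat_lit 79) (nat_lit 5) (nat_lit 319) (nat_lit 289) (nat_lit 112))))))))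
noncomputable def xc211 : XT := (XT.nd (nat_lit 1598) (nat_lit 1428) (nat_lit 0) (XT.nd (nat_lit 752) (nat_lit 1008) (nat_lit 0) (XT.nd (nat_lit 376) (nat_lit 672) (nat_lit 0) (XT.nd (nat_lit 188) (nat_lit 252) (nat_lit 0) (XT.nd (nat_lit 94) (nat_lit 0) (nat_lit 0) (XT.lf (nat_lit 0) (nat_lit 2569036250) (nat_lit 252) (nat_lit 2854059196) (nat_lit 336) (nat_lit 97627544107) (nat_lit 71) (nat_lit 5) (nat_lit 74) (nat_lit 5) (nat_lit 75) (nat_lit 5) (nat_lit 320) (nat_lit 289) (nat_lit 111)) (XT.lf (nat_lit 0) (nat_lit 28550180219) (nat_lit 336) (nat_lit 38926230724) (nat_lit 84) (nat_lit 38651126804) (nat_lit 71) (nat_lit 5) (nat_lit 75) (nat_lit 5) (nat_lit 72) (nat_lit 5) (nat_lit 321) (nat_lit 289) (nat_lit 110))) (XT.nd (nat_lit 94) (nat_lit 0) (nat_lit 0) (XT.lf (nat_lit 0) (nat_lit 26507502967) (nat_lit 252) (nat_lit 26786086406) (nat_lit 336) (nat_lit 56041692972)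 (nat_lit 68) (nat_lit 5) (nat_lit 71) (nat_lit 5) (nat_lit 72) (nat_lit 5) (nat_lit 322) (nat_lit 289) (nat_lit 109)) (XT.lf (nat_lit 0) (nat_lit 80192396035) (nat_lit 336) (nat_lit 16366790186) (nat_lit 84) (nat_lit 16098316598) (nat_lit 68) (nat_lit 5) (nat_lit 72) (nat_lit 5) (nat_lit 69) (nat_lit 5) (nat_lit 323) (nat_lit 289) (nat_lit 108)))) (XT.nd (nat_lit 188) (nat_lit 168) (nat_lit 0) (XT.nd (nat_lit 94) (nat_lit 336) (nat_lit 0) (XT.lf (nat_lit 0) (nat_lit 54728809147) (nat_lit 168) (nat_lit 55000288475) (nat_lit 252) (nat_lit 6352088965) (nat_lit 66) (nat_lit 5) (nat_lit 68) (nat_lit 5) (nat_lit 69) (nat_lit 5) (nat_lit 324) (nat_lit 289) (nat_lit 107)) (XT.lf (nat_lit 0) (nat_lit 10279784257) (nat_lit 252) (nat_lit 10554126193) (nat_lit 336) (nat_lit 98803619036) (nat_lit 62) (nat_lit 5) (nat_lit 65) (nat_lit 5) (nat_lit 66) (nat_lit 5) (nat_lit 325) (nat_lit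 289) (nat_lit 106))) (XT.nd (nat_lit 94) (nat_lit 168) (nat_lit 0) (XT.lf (nat_lit 0) (nat_lit 50785031720) (nat_lit 336) (nat_lit 36382180499) (nat_lit 84) (nat_lit 36118305993) (nat_lit 62) (nat_lit 5) (nat_lit 66) (nat_lit 5) (nat_lit 63) (nat_lit 5) (nat_lit 326) (nat_lit 289) (nat_lit 105)) (XT.lf (nat_lit 0) (nat_lit 41393026419) (nat_lit 168) (nat_lit 41659373754) (nat_lit 252) (nat_lit 44022571646) (nat_lit 60) (nat_lit 5) (nat_lit 62) (nat_lit 5) (nat_lit 63) (nat_lit 5) (nat_lit 327) (nat_lit 289) (nat_lit 104))))) (XT.nd (nat_lit 376) (nat_lit 588) (nat_lit 0) (XT.nd (nat_lit 188) (nat_lit 168) (nat_lit 0) (XT.nd (nat_lit 94) (nat_lit 252) (nat_lit 0) (XT.lf (nat_lit 0) (nat_lit 117654417499) (nat_lit 252) (nat_lit 6809661821) (nat_lit 84) (nat_lit 6553754763) (nat_lit 60) (nat_lit 5) (nat_lit 63) (nat_lit 5) (nat_lit 61) (nat_lit 5) (nat_lit 328) (nat_lit 289)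 (nat_lit 103)) (XT.lf (nat_lit 0) (nat_lit 20154427610) (nat_lit 252) (nat_lit 57575169118) (nat_lit 84) (nat_lit 57317125937) (nat_lit 57) (nat_lit 5) (nat_lit 60) (nat_lit 5) (nat_lit 58) (nat_lit 5) (nat_lit 329) (nat_lit 289) (nat_lit 102))) (XT.nd (nat_lit 94) (nat_lit 0) (nat_lit 0) (XT.lf (nat_lit 0) (nat_lit 27593230734) (nat_lit 168) (nat_lit 27853308318) (nat_lit 252) (nat_lit 83792189327) (nat_lit 55) (nat_lit 5) (nat_lit 57) (nat_lit 5) (nat_lit 58) (nat_lit 5) (nat_lit 330) (nat_lit 289) (nat_lit 101)) (XT.lf (nat_lit 0) (nat_lit 93876536601) (nat_lit 252) (nat_lit 24972335977) (nat_lit 84) (nat_lit 24722797777) (nat_lit 55) (nat_lit 5) (nat_lit 58) (nat_lit 5) (nat_lit 56) (nat_lit 5) (nat_lit 331) (nat_lit 289) (nat_lit 100)))) (XT.nd (nat_lit 188) (nat_lit 168) (nat_lit 0) (XT.nd (nat_lit 94) (nat_lit 252) (nat_lit 0) (XT.lf (nat_lit 0) (nat_lit 67745262997)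 (nat_lit 168) (nat_lit 67996558592) (nat_lit 252) (nat_lit 12303748461) (nat_lit 53) (nat_lit 5) (nat_lit 55) (nat_lit 5) (nat_lit 56) (nat_lit 5) (nat_lit 332) (nat_lit 289) (nat_lit 99)) (XT.lf (nat_lit 0) (nat_lit 13238734315) (nat_lit 168) (nat_lit 13491703617) (nat_lit 252) (nat_lit 125959881381) (nat_lit 50) (nat_lit 5) (nat_lit 52) (nat_lit 5) (nat_lit 53) (nat_lit 5) (nat_lit 333) (nat_lit 289) (nat_lit 98))) (XT.nd (nat_lit 94) (nat_lit 168) (nat_lit 0) (XT.lf (nat_lit 0) (nat_lit 69367434910) (nat_lit 252) (nat_lit 44164498972) (nat_lit 84) (nat_lit 43922057724) (nat_lit 50) (nat_lit 5) (nat_lit 53) (nat_lit 5) (nat_lit 51) (nat_lit 5) (nat_lit 334) (nat_lit 289) (nat_lit 97)) (XT.nd (nat_lit 94) (nat_lit 0) (nat_lit 0) (XT.lf (nat_lit 0) (nat_lit 57505453134) (nat_lit 168) (nat_lit 57749340194) (nat_lit 252) (nat_lit 47145128607) (nat_lit 48) (nat_lit 5) (nat_lit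 50) (nat_lit 5) (nat_lit 51) (nat_lit 5) (nat_lit 335) (nat_lit 289) (nat_lit 96)) (XT.lf (nat_lit 0) (nat_lit 164209087322) (nat_lit 252) (nat_lit 1789508930) (nat_lit 84) (nat_lit 1555924145) (nat_lit 48) (nat_lit 5) (nat_lit 51) (nat_lit 5) (nat_lit 49) (nat_lit 4) (nat_lit 336) (nat_lit 289) (nat_lit 95))))))) (XT.nd (nat_lit 752) (nat_lit 420) (nat_lit 0) (XT.nd (nat_lit 376) (nat_lit 504) (nat_lit 0) (XT.nd (nat_lit 188) (nat_lit 168) (nat_lit 0) (XT.nd (nat_lit 94) (nat_lit 168) (nat_lit 0) (XT.lf (nat_lit 0) (nat_lit 43971018246) (nat_lit 168) (nat_lit 64531395897) (nat_lit 84) (nat_lit 64296562166) (nat_lit 46) (nat_lit 5) (nat_lit 48) (nat_lit 5) (nat_lit 47) (nat_lit 5) (nat_lit 337) (nat_lit 289) (nat_lit 94)) (XT.lf (nat_lit 0) (nat_lit 47034766111) (nat_lit 168) (nat_lit 47270789316) (nat_lit 252) (nat_lit 83959122842) (nat_lit 44) (nat_lit 5) (nat_lit 46)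 (nat_lit 5) (nat_lit 47) (nat_lit 5) (nat_lit 338) (nat_lit 289) (nat_lit 93))) (XT.nd (nat_lit 94) (nat_lit 168) (nat_lit 0) (XT.lf (nat_lit 0) (nat_lit 148532921383) (nat_lit 252) (nat_lit 17813900871) (nat_lit 84) (nat_lit 17588037979) (nat_lit 44) (nat_lit 5) (nat_lit 47) (nat_lit 5) (nat_lit 45) (nat_lit 4) (nat_lit 339) (nat_lit 289) (nat_lit 92)) (XT.lf (nat_lit 0) (nat_lit 17519039999) (nat_lit 168) (nat_lit 86231251143) (nat_lit 84) (nat_lit 86004360739) (nat_lit 42) (nat_lit 5) (nat_lit 44) (nat_lit 5) (nat_lit 43) (nat_lit 5) (nat_lit 340) (nat_lit 289) (nat_lit 91)))) (XT.nd (nat_lit 188) (nat_lit 336) (nat_lit 0) (XT.nd (nat_lit 94) (nat_lit 0) (nat_lit 0) (XT.lf (nat_lit 0) (nat_lit 36270474561) (nat_lit 168) (nat_lit 36498343547) (nat_lit 252) (nat_lit 123023972641) (nat_lit 40) (nat_lit 5) (nat_lit 42) (nat_lit 5) (nat_lit 43) (nat_lit 5) (nat_lit 341) (nat_lit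 289) (nat_lit 90)) (XT.lf (nat_lit 0) (nat_lit 132797617249) (nat_lit 252) (nat_lit 34726149196) (nat_lit 84) (nat_lit 34508243510) (nat_lit 40) (nat_lit 5) (nat_lit 43) (nat_lit 5) (nat_lit 41) (nat_lit 4) (nat_lit 342) (nat_lit 289) (nat_lit 89))) (XT.nd (nat_lit 94) (nat_lit 252) (nat_lit 0) (XT.lf (nat_lit 0) (nat_lit 98875377515) (nat_lit 84) (nat_lit 99094128537) (nat_lit 168) (nat_lit 10506601582) (nat_lit 39) (nat_lit 5) (nat_lit 40) (nat_lit 5) (nat_lit 41) (nat_lit 4) (nat_lit 343) (nat_lit 289) (nat_lit 88)) (XT.lf (nat_lit 0) (nat_lit 25145295257) (nat_lit 168) (nat_lit 25364851361) (nat_lit 252) (nat_lit 164642831446) (nat_lit 36) (nat_lit 5) (nat_lit 38) (nat_lit 5) (nat_lit 39) (nat_lit 5) (nat_lit 344) (nat_lit 289) (nat_lit 87))))) (XT.nd (nat_lit 376) (nat_lit 84) (nat_lit 0) (XT.nd (nat_lit 188) (nat_lit 252) (nat_lit 0) (XT.nd (nat_lit 94) (nat_lit 84)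 (nat_lit 0) (XT.lf (nat_lit 0) (nat_lit 116923470059) (nat_lit 252) (nat_lit 52653249922) (nat_lit 84) (nat_lit 52443418637) (nat_lit 36) (nat_lit 5) (nat_lit 39) (nat_lit 5) (nat_lit 37) (nat_lit 4) (nat_lit 345) (nat_lit 289) (nat_lit 86)) (XT.lf (nat_lit 0) (nat_lit 94166283605) (nat_lit 84) (nat_lit 94376810350) (nat_lit 168) (nat_lit 40593281531) (nat_lit 35) (nat_lit 5) (nat_lit 36) (nat_lit 5) (nat_lit 37) (nat_lit 4) (nat_lit 346) (nat_lit 289) (nat_lit 85))) (XT.nd (nat_lit 94) (nat_lit 0) (nat_lit 0) (XT.lf (nat_lit 0) (nat_lit 13586830504) (nat_lit 168) (nat_lit 13798019593) (nat_lit 252) (nat_lit 209146487540) (nat_lit 32) (nat_lit 5) (nat_lit 34) (nat_lit 5) (nat_lit 35) (nat_lit 5) (nat_lit 347) (nat_lit 289) (nat_lit 84)) (XT.lf (nat_lit 0) (nat_lit 100826102215) (nat_lit 252) (nat_lit 71733492506) (nat_lit 84) (nat_lit 71531759276) (nat_lit 32) (nat_lit 5)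 (nat_lit 35) (nat_lit 5) (nat_lit 33) (nat_lit 4) (nat_lit 348) (nat_lit 289) (nat_lit 83)))) (XT.nd (nat_lit 39762) (nat_lit 0) (nat_lit 8148) (XT.nd (nat_lit 39668) (nat_lit 0) (nat_lit 8148) (XT.lf (nat_lit 0) (nat_lit 89681563923) (nat_lit 84) (nat_lit 89883869310) (nat_lit 168) (nat_lit 72382637128) (nat_lit 31) (nat_lit 5) (nat_lit 32) (nat_lit 5) (nat_lit 33) (nat_lit 4) (nat_lit 349) (nat_lit 289) (nat_lit 82)) (XT.lf (nat_lit 0) (nat_lit 10735432333) (nat_lit 924) (nat_lit 6269528279) (nat_lit 924) (nat_lit 6269528279) (nat_lit 128) (nat_lit 3) (nat_lit 139) (nat_lit 3) (nat_lit 139) (nat_lit 5) (nat_lit 290) (nat_lit 290) (nat_lit 140))) (XT.nd (nat_lit 94) (nat_lit 0) (nat_lit 84) (XT.lf (nat_lit 84) (nat_lit 11090394209) (nat_lit 0) (nat_lit 11120168979) (nat_lit 924) (nat_lit 25491992697) (nat_lit 129) (nat_lit 5) (nat_lit 128) (nat_lit 3) (nat_lit 139) (nat_lit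 5) (nat_lit 291) (nat_lit 290) (nat_lit 139)) (XT.nd (nat_lit 94) (nat_lit 0) (nat_lit 0) (XT.lf (nat_lit 0) (nat_lit 23402799466) (nat_lit 840) (nat_lit 12772799649) (nat_lit 924) (nat_lit 12717436132) (nat_lit 129) (nat_lit 5) (nat_lit 139) (nat_lit 5) (nat_lit 140) (nat_lit 5) (nat_lit 292) (nat_lit 290) (nat_lit 138)) (XT.lf (nat_lit 84) (nat_lit 12474402173) (nat_lit 0) (nat_lit 12555486256) (nat_lit 924) (nat_lit 25094388106) (nat_lit 130) (nat_lit 5) (nat_lit 129) (nat_lit 5) (nat_lit 140) (nat_lit 5) (nat_lit 293) (nat_lit 290) (nat_lit 137))))))))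
noncomputable def xc212 : XT := (XT.nd (nat_lit 1504) (nat_lit 3360) (nat_lit 0) (XT.nd (nat_lit 752) (nat_lit 1764) (nat_lit 0) (XT.nd (nat_lit 376) (nat_lit 588) (nat_lit 0) (XT.nd (nat_lit 188) (nat_lit 0) (nat_lit 84) (XT.nd (nat_lit 94) (nat_lit 0) (nat_lit 0) (XT.lf (nat_lit 0) (nat_lit 27147643149) (nat_lit 840) (nat_lit 12174761710) (nat_lit 924) (nat_lit 12074209462) (nat_lit 130) (nat_lit 5) (nat_lit 140) (nat_lit 5) (nat_lit 141) (nat_lit 5) (nat_lit 294) (nat_lit 290) (nat_lit 136)) (XT.lf (nat_lit 84) (nat_lit 14842208397) (nat_lit 0) (nat_lit 14964979036) (nat_lit 924) (nat_lit 22903586472) (nat_lit 131) (nat_lit 5) (nat_lit 130) (nat_lit 5) (nat_lit 141) (nat_lit 5) (nat_lit 295) (nat_lit 290) (nat_lit 135))) (XT.nd (nat_lit 94) (nat_lit 0) (nat_lit 0) (XT.lf (nat_lit 0) (nat_lit 32973346441) (nat_lit 840) (nat_lit 10617845154) (nat_lit 924) (nat_lit 10480767999)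 (nat_lit 131) (nat_lit 5) (nat_lit 141) (nat_lit 5) (nat_lit 142) (nat_lit 5) (nat_lit 296) (nat_lit 290) (nat_lit 134)) (XT.lf (nat_lit 84) (nat_lit 18335817394) (nat_lit 0) (nat_lit 18492087632) (nat_lit 924) (nat_lit 18646794959) (nat_lit 132) (nat_lit 5) (nat_lit 131) (nat_lit 5) (nat_lit 142) (nat_lit 5) (nat_lit 297) (nat_lit 290) (nat_lit 133)))) (XT.nd (nat_lit 188) (nat_lit 756) (nat_lit 0) (XT.nd (nat_lit 94) (nat_lit 0) (nat_lit 0) (XT.lf (nat_lit 0) (nat_lit 41179255711) (nat_lit 840) (nat_lit 7959677982) (nat_lit 924) (nat_lit 7793440494) (nat_lit 132) (nat_lit 5) (nat_lit 142) (nat_lit 5) (nat_lit 143) (nat_lit 5) (nat_lit 298) (nat_lit 290) (nat_lit 132)) (XT.lf (nat_lit 84) (nat_lit 23113999810) (nat_lit 0) (nat_lit 23296817005) (nat_lit 924) (nat_lit 12018983139) (nat_lit 133) (nat_lit 5) (nat_lit 132) (nat_lit 5) (nat_lit 143) (nat_lit 5) (nat_lit 299)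 (nat_lit 290) (nat_lit 131))) (XT.nd (nat_lit 94) (nat_lit 840) (nat_lit 0) (XT.lf (nat_lit 0) (nat_lit 52099550878) (nat_lit 840) (nat_lit 4040958142) (nat_lit 84) (nat_lit 3851808246) (nat_lit 133) (nat_lit 5) (nat_lit 143) (nat_lit 5) (nat_lit 134) (nat_lit 5) (nat_lit 300) (nat_lit 290) (nat_lit 130)) (XT.lf (nat_lit 0) (nat_lit 29354099513) (nat_lit 840) (nat_lit 29557571583) (nat_lit 924) (nat_lit 2679341874) (nat_lit 123) (nat_lit 5) (nat_lit 133) (nat_lit 5) (nat_lit 134) (nat_lit 5) (nat_lit 301) (nat_lit 290) (nat_lit 129))))) (XT.nd (nat_lit 376) (nat_lit 756) (nat_lit 0) (XT.nd (nat_lit 188) (nat_lit 420) (nat_lit 0) (XT.nd (nat_lit 94) (nat_lit 0) (nat_lit 0) (XT.lf (nat_lit 0) (nat_lit 1288310626) (nat_lit 504) (nat_lit 1505422860) (nat_lit 588) (nat_lit 60469306816) (nat_lit 116) (nat_lit 5) (nat_lit 122) (nat_lit 5) (nat_lit 123) (nat_lit 5) (nat_lit 302)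 (nat_lit 290) (nat_lit 128)) (XT.lf (nat_lit 0) (nat_lit 9440484472) (nat_lit 588) (nat_lit 27872815335) (nat_lit 84) (nat_lit 27653669747) (nat_lit 116) (nat_lit 5) (nat_lit 123) (nat_lit 5) (nat_lit 117) (nat_lit 5) (nat_lit 303) (nat_lit 290) (nat_lit 127))) (XT.nd (nat_lit 94) (nat_lit 0) (nat_lit 0) (XT.lf (nat_lit 0) (nat_lit 8169867730) (nat_lit 420) (nat_lit 8400796206) (nat_lit 504) (nat_lit 50177876786) (nat_lit 111) (nat_lit 5) (nat_lit 116) (nat_lit 5) (nat_lit 117) (nat_lit 5) (nat_lit 304) (nat_lit 290) (nat_lit 126)) (XT.lf (nat_lit 0) (nat_lit 24878839988) (nat_lit 504) (nat_lit 21964947694) (nat_lit 84) (nat_lit 21734328386) (nat_lit 111) (nat_lit 5) (nat_lit 117) (nat_lit 5) (nat_lit 112) (nat_lit 5) (nat_lit 305) (nat_lit 290) (nat_lit 125)))) (XT.nd (nat_lit 188) (nat_lit 336) (nat_lit 0) (XT.nd (nat_lit 94) (nat_lit 0) (nat_lit 0) (XT.lf (nat_lit 0)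 (nat_lit 16880925181) (nat_lit 420) (nat_lit 17121722990) (nat_lit 504) (nat_lit 36476510842) (nat_lit 106) (nat_lit 5) (nat_lit 111) (nat_lit 5) (nat_lit 112) (nat_lit 5) (nat_lit 306) (nat_lit 290) (nat_lit 124)) (XT.lf (nat_lit 0) (nat_lit 44179639422) (nat_lit 504) (nat_lit 14252164250) (nat_lit 84) (nat_lit 14013600802) (nat_lit 106) (nat_lit 5) (nat_lit 112) (nat_lit 5) (nat_lit 107) (nat_lit 5) (nat_lit 307) (nat_lit 290) (nat_lit 123))) (XT.nd (nat_lit 94) (nat_lit 0) (nat_lit 0) (XT.lf (nat_lit 0) (nat_lit 27664880884) (nat_lit 336) (nat_lit 27912236904) (nat_lit 420) (nat_lit 18897262542) (nat_lit 102) (nat_lit 5) (nat_lit 106) (nat_lit 5) (nat_lit 107) (nat_lit 5) (nat_lit 308) (nat_lit 290) (nat_lit 122)) (XT.lf (nat_lit 0) (nat_lit 67853381456) (nat_lit 420) (nat_lit 4489765119) (nat_lit 84) (nat_lit 4246212835) (nat_lit 102) (nat_lit 5) (nat_lit 107) (nat_lit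 5) (nat_lit 103) (nat_lit 5) (nat_lit 309) (nat_lit 290) (nat_lit 121)))))) (XT.nd (nat_lit 752) (nat_lit 1596) (nat_lit 0) (XT.nd (nat_lit 376) (nat_lit 672) (nat_lit 0) (XT.nd (nat_lit 188) (nat_lit 336) (nat_lit 0) (XT.nd (nat_lit 94) (nat_lit 336) (nat_lit 0) (XT.lf (nat_lit 0) (nat_lit 2982987794) (nat_lit 420) (nat_lit 38010581588) (nat_lit 84) (nat_lit 37759433950) (nat_lit 97) (nat_lit 5) (nat_lit 102) (nat_lit 5) (nat_lit 98) (nat_lit 5) (nat_lit 310) (nat_lit 290) (nat_lit 120)) (XT.lf (nat_lit 0) (nat_lit 7464434927) (nat_lit 336) (nat_lit 7722816236) (nat_lit 420) (nat_lit 65820770877) (nat_lit 93) (nat_lit 5) (nat_lit 97) (nat_lit 5) (nat_lit 98) (nat_lit 5) (nat_lit 311) (nat_lit 290) (nat_lit 119))) (XT.nd (nat_lit 94) (nat_lit 336) (nat_lit 0) (XT.lf (nat_lit 0) (nat_lit 29079990071) (nat_lit 420) (nat_lit 27247263541) (nat_lit 84) (nat_lit 26994624951) (nat_lit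 93) (nat_lit 5) (nat_lit 98) (nat_lit 5) (nat_lit 94) (nat_lit 5) (nat_lit 312) (nat_lit 290) (nat_lit 118)) (XT.lf (nat_lit 0) (nat_lit 21938388799) (nat_lit 336) (nat_lit 22197276105) (nat_lit 420) (nat_lit 41592348062) (nat_lit 89) (nat_lit 5) (nat_lit 93) (nat_lit 5) (nat_lit 94) (nat_lit 5) (nat_lit 313) (nat_lit 290) (nat_lit 117)))) (XT.nd (nat_lit 188) (nat_lit 420) (nat_lit 0) (XT.nd (nat_lit 94) (nat_lit 252) (nat_lit 0) (XT.lf (nat_lit 0) (nat_lit 60625275121) (nat_lit 420) (nat_lit 13923674247) (nat_lit 84) (nat_lit 13671447137) (nat_lit 89) (nat_lit 5) (nat_lit 94) (nat_lit 5) (nat_lit 90) (nat_lit 5) (nat_lit 314) (nat_lit 290) (nat_lit 116)) (XT.lf (nat_lit 0) (nat_lit 39329453587) (nat_lit 252) (nat_lit 39587078574) (nat_lit 336) (nat_lit 11872008746) (nat_lit 86) (nat_lit 5) (nat_lit 89) (nat_lit 5) (nat_lit 90) (nat_lit 5) (nat_lit 315) (nat_lit 290) (nat_lit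 115))) (XT.nd (nat_lit 94) (nat_lit 0) (nat_lit 0) (XT.lf (nat_lit 0) (nat_lit 2250057063) (nat_lit 336) (nat_lit 2512822884) (nat_lit 420) (nat_lit 88704890466) (nat_lit 81) (nat_lit 5) (nat_lit 85) (nat_lit 5) (nat_lit 86) (nat_lit 5) (nat_lit 316) (nat_lit 290) (nat_lit 114)) (XT.lf (nat_lit 0) (nat_lit 23284107633) (nat_lit 420) (nat_lit 36584680031) (nat_lit 84) (nat_lit 36329763979) (nat_lit 81) (nat_lit 5) (nat_lit 86) (nat_lit 5) (nat_lit 82) (nat_lit 5) (nat_lit 317) (nat_lit 290) (nat_lit 113))))) (XT.nd (nat_lit 376) (nat_lit 756) (nat_lit 0) (XT.nd (nat_lit 188) (nat_lit 588) (nat_lit 0) (XT.nd (nat_lit 94) (nat_lit 0) (nat_lit 0) (XT.lf (nat_lit 0) (nat_lit 21423504066) (nat_lit 252) (nat_lit 21682860965) (nat_lit 336) (nat_lit 55940758490) (nat_lit 78) (nat_lit 5) (nat_lit 81) (nat_lit 5) (nat_lit 82) (nat_lit 5) (nat_lit 318) (nat_lit 290) (nat_lit 112)) (XT.lf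 (nat_lit 0) (nat_lit 64836247614) (nat_lit 336) (nat_lit 18703542655) (nat_lit 84) (nat_lit 18452508106) (nat_lit 78) (nat_lit 5) (nat_lit 82) (nat_lit 5) (nat_lit 79) (nat_lit 5) (nat_lit 319) (nat_lit 290) (nat_lit 111))) (XT.nd (nat_lit 94) (nat_lit 336) (nat_lit 0) (XT.lf (nat_lit 0) (nat_lit 44221486049) (nat_lit 252) (nat_lit 44476356767) (nat_lit 336) (nat_lit 16334628232) (nat_lit 75) (nat_lit 5) (nat_lit 78) (nat_lit 5) (nat_lit 79) (nat_lit 5) (nat_lit 320) (nat_lit 290) (nat_lit 110)) (XT.lf (nat_lit 0) (nat_lit 2728150932) (nat_lit 252) (nat_lit 2986675146) (nat_lit 336) (nat_lit 102487316659) (nat_lit 71) (nat_lit 5) (nat_lit 74) (nat_lit 5) (nat_lit 75) (nat_lit 5) (nat_lit 321) (nat_lit 290) (nat_lit 109)))) (XT.nd (nat_lit 188) (nat_lit 504) (nat_lit 0) (XT.nd (nat_lit 94) (nat_lit 252) (nat_lit 0) (XT.lf (nat_lit 0) (nat_lit 29997435275) (nat_lit 336) (nat_lit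 40842509711) (nat_lit 84) (nat_lit 40592982347) (nat_lit 71) (nat_lit 5) (nat_lit 75) (nat_lit 5) (nat_lit 72) (nat_lit 5) (nat_lit 322) (nat_lit 290) (nat_lit 108)) (XT.lf (nat_lit 0) (nat_lit 27862426268) (nat_lit 252) (nat_lit 28115109660) (nat_lit 336) (nat_lit 58823547180) (nat_lit 68) (nat_lit 5) (nat_lit 71) (nat_lit 5) (nat_lit 72) (nat_lit 5) (nat_lit 323) (nat_lit 290) (nat_lit 107))) (XT.nd (nat_lit 94) (nat_lit 504) (nat_lit 0) (XT.lf (nat_lit 0) (nat_lit 84220518315) (nat_lit 336) (nat_lit 17156223989) (nat_lit 84) (nat_lit 16912710531) (nat_lit 68) (nat_lit 5) (nat_lit 72) (nat_lit 5) (nat_lit 69) (nat_lit 5) (nat_lit 324) (nat_lit 290) (nat_lit 106)) (XT.nd (nat_lit 94) (nat_lit 336) (nat_lit 0) (XT.lf (nat_lit 0) (nat_lit 57493689089) (nat_lit 168) (nat_lit 57739928842) (nat_lit 252) (nat_lit 6650724714) (nat_lit 66) (nat_lit 5) (nat_lit 68) (nat_lit 5) (nat_lit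 69) (nat_lit 5) (nat_lit 325) (nat_lit 290) (nat_lit 105)) (XT.lf (nat_lit 0) (nat_lit 10822351577) (nat_lit 252) (nat_lit 11071187801) (nat_lit 336) (nat_lit 103724969911) (nat_lit 62) (nat_lit 5) (nat_lit 65) (nat_lit 5) (nat_lit 66) (nat_lit 5) (nat_lit 326) (nat_lit 290) (nat_lit 104))))))))
noncomputable def xc213 : XT := (XT.nd (nat_lit 1598) (nat_lit 672) (nat_lit 0) (XT.nd (nat_lit 752) (nat_lit 840) (nat_lit 0) (XT.nd (nat_lit 376) (nat_lit 588) (nat_lit 0) (XT.nd (nat_lit 188) (nat_lit 252) (nat_lit 0) (XT.nd (nat_lit 94) (nat_lit 168) (nat_lit 0) (XT.lf (nat_lit 0) (nat_lit 53341521020) (nat_lit 336) (nat_lit 38173376586) (nat_lit 84) (nat_lit 37934034631) (nat_lit 62) (nat_lit 5) (nat_lit 66) (nat_lit 5) (nat_lit 63) (nat_lit 5) (nat_lit 327) (nat_lit 290) (nat_lit 103)) (XT.lf (nat_lit 0) (nat_lit 43490140469) (nat_lit 168) (nat_lit 43731725353) (nat_lit 252)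 (nat_lit 46206012306) (nat_lit 60) (nat_lit 5) (nat_lit 62) (nat_lit 5) (nat_lit 63) (nat_lit 5) (nat_lit 328) (nat_lit 290) (nat_lit 102))) (XT.nd (nat_lit 94) (nat_lit 252) (nat_lit 0) (XT.lf (nat_lit 0) (nat_lit 123553339711) (nat_lit 252) (nat_lit 7123345628) (nat_lit 84) (nat_lit 6891230383) (nat_lit 60) (nat_lit 5) (nat_lit 63) (nat_lit 5) (nat_lit 61) (nat_lit 5) (nat_lit 329) (nat_lit 290) (nat_lit 101)) (XT.lf (nat_lit 0) (nat_lit 21178250195) (nat_lit 252) (nat_lit 60427028157) (nat_lit 84) (nat_lit 60192975385) (nat_lit 57) (nat_lit 5) (nat_lit 60) (nat_lit 5) (nat_lit 58) (nat_lit 5) (nat_lit 330) (nat_lit 290) (nat_lit 100)))) (XT.nd (nat_lit 188) (nat_lit 420) (nat_lit 0) (XT.nd (nat_lit 94) (nat_lit 0) (nat_lit 0) (XT.lf (nat_lit 0) (nat_lit 28999357826) (nat_lit 168) (nat_lit 29235255861) (nat_lit 252) (nat_lit 87965263727) (nat_lit 55) (nat_lit 5) (nat_lit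 57) (nat_lit 5) (nat_lit 58) (nat_lit 5) (nat_lit 331) (nat_lit 290) (nat_lit 99)) (XT.lf (nat_lit 0) (nat_lit 98585520590) (nat_lit 252) (nat_lit 26195156964) (nat_lit 84) (nat_lit 25968818460) (nat_lit 55) (nat_lit 5) (nat_lit 58) (nat_lit 5) (nat_lit 56) (nat_lit 5) (nat_lit 332) (nat_lit 290) (nat_lit 98))) (XT.nd (nat_lit 94) (nat_lit 252) (nat_lit 0) (XT.lf (nat_lit 0) (nat_lit 71157905898) (nat_lit 168) (nat_lit 71385838410) (nat_lit 252) (nat_lit 12903362662) (nat_lit 53) (nat_lit 5) (nat_lit 55) (nat_lit 5) (nat_lit 56) (nat_lit 5) (nat_lit 333) (nat_lit 290) (nat_lit 97)) (XT.lf (nat_lit 0) (nat_lit 13926131832) (nat_lit 168) (nat_lit 14155582446) (nat_lit 252) (nat_lit 132242383279) (nat_lit 50) (nat_lit 5) (nat_lit 52) (nat_lit 5) (nat_lit 53) (nat_lit 5) (nat_lit 334) (nat_lit 290) (nat_lit 96))))) (XT.nd (nat_lit 376) (nat_lit 504) (nat_lit 0) (XT.nd (nat_lit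 188) (nat_lit 168) (nat_lit 0) (XT.nd (nat_lit 94) (nat_lit 168) (nat_lit 0) (XT.lf (nat_lit 0) (nat_lit 72850017708) (nat_lit 252) (nat_lit 46347932143) (nat_lit 84) (nat_lit 46128030784) (nat_lit 50) (nat_lit 5) (nat_lit 53) (nat_lit 5) (nat_lit 51) (nat_lit 5) (nat_lit 335) (nat_lit 290) (nat_lit 95)) (XT.lf (nat_lit 0) (nat_lit 60405117702) (nat_lit 168) (nat_lit 60626330455) (nat_lit 252) (nat_lit 49487774117) (nat_lit 48) (nat_lit 5) (nat_lit 50) (nat_lit 5) (nat_lit 51) (nat_lit 5) (nat_lit 336) (nat_lit 290) (nat_lit 94))) (XT.nd (nat_lit 94) (nat_lit 168) (nat_lit 0) (XT.lf (nat_lit 0) (nat_lit 172432950005) (nat_lit 252) (nat_lit 1855247141) (nat_lit 84) (nat_lit 1643378855) (nat_lit 48) (nat_lit 5) (nat_lit 51) (nat_lit 5) (nat_lit 49) (nat_lit 4) (nat_lit 337) (nat_lit 290) (nat_lit 93)) (XT.lf (nat_lit 0) (nat_lit 46182918931) (nat_lit 168) (nat_lit 67734169911)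 (nat_lit 84) (nat_lit 67521168794) (nat_lit 46) (nat_lit 5) (nat_lit 48) (nat_lit 5) (nat_lit 47) (nat_lit 5) (nat_lit 338) (nat_lit 290) (nat_lit 92)))) (XT.nd (nat_lit 188) (nat_lit 336) (nat_lit 0) (XT.nd (nat_lit 94) (nat_lit 0) (nat_lit 0) (XT.lf (nat_lit 0) (nat_lit 49409916395) (nat_lit 168) (nat_lit 49623996399) (nat_lit 252) (nat_lit 88143345410) (nat_lit 44) (nat_lit 5) (nat_lit 46) (nat_lit 5) (nat_lit 47) (nat_lit 5) (nat_lit 339) (nat_lit 290) (nat_lit 91)) (XT.lf (nat_lit 0) (nat_lit 155972177845) (nat_lit 252) (nat_lit 18681829590) (nat_lit 84) (nat_lit 18476965289) (nat_lit 44) (nat_lit 5) (nat_lit 47) (nat_lit 5) (nat_lit 45) (nat_lit 4) (nat_lit 340) (nat_lit 290) (nat_lit 90))) (XT.nd (nat_lit 94) (nat_lit 168) (nat_lit 0) (XT.lf (nat_lit 0) (nat_lit 18407554227) (nat_lit 168) (nat_lit 90519999211) (nat_lit 84) (nat_lit 90314202926) (nat_lit 42) (nat_lit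 5) (nat_lit 44) (nat_lit 5) (nat_lit 43) (nat_lit 5) (nat_lit 341) (nat_lit 290) (nat_lit 89)) (XT.nd (nat_lit 94) (nat_lit 0) (nat_lit 0) (XT.lf (nat_lit 0) (nat_lit 38106444803) (nat_lit 168) (nat_lit 38313128690) (nat_lit 252) (nat_lit 129162241070) (nat_lit 40) (nat_lit 5) (nat_lit 42) (nat_lit 5) (nat_lit 43) (nat_lit 5) (nat_lit 342) (nat_lit 290) (nat_lit 88)) (XT.lf (nat_lit 0) (nat_lit 139449376844) (nat_lit 252) (nat_lit 36440643276) (nat_lit 84) (nat_lit 36242996396) (nat_lit 40) (nat_lit 5) (nat_lit 43) (nat_lit 5) (nat_lit 41) (nat_lit 4) (nat_lit 343) (nat_lit 290) (nat_lit 87))))))) (XT.nd (nat_lit 40514) (nat_lit 0) (nat_lit 7644) (XT.nd (nat_lit 376) (nat_lit 252) (nat_lit 0) (XT.nd (nat_lit 188) (nat_lit 84) (nat_lit 0) (XT.nd (nat_lit 94) (nat_lit 252) (nat_lit 0) (XT.lf (nat_lit 0) (nat_lit 103840607942) (nat_lit 84) (nat_lit 104039021567) (nat_lit 168)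 (nat_lit 11019701101) (nat_lit 39) (nat_lit 5) (nat_lit 40) (nat_lit 5) (nat_lit 41) (nat_lit 4) (nat_lit 344) (nat_lit 290) (nat_lit 86)) (XT.lf (nat_lit 0) (nat_lit 26424060556) (nat_lit 168) (nat_lit 26623204415) (nat_lit 252) (nat_lit 172862781444) (nat_lit 36) (nat_lit 5) (nat_lit 38) (nat_lit 5) (nat_lit 39) (nat_lit 5) (nat_lit 345) (nat_lit 290) (nat_lit 85))) (XT.nd (nat_lit 94) (nat_lit 84) (nat_lit 0) (XT.lf (nat_lit 0) (nat_lit 122780848730) (nat_lit 252) (nat_lit 55265029861) (nat_lit 84) (nat_lit 55074706700) (nat_lit 36) (nat_lit 5) (nat_lit 39) (nat_lit 5) (nat_lit 37) (nat_lit 4) (nat_lit 346) (nat_lit 290) (nat_lit 84)) (XT.lf (nat_lit 0) (nat_lit 98895143527) (nat_lit 84) (nat_lit 99086097491) (nat_lit 168) (nat_lit 42611403624) (nat_lit 35) (nat_lit 5) (nat_lit 36) (nat_lit 5) (nat_lit 37) (nat_lit 4) (nat_lit 347) (nat_lit 290) (nat_lit 83)))) (XT.nd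 (nat_lit 39950) (nat_lit 0) (nat_lit 8064) (XT.nd (nat_lit 39856) (nat_lit 0) (nat_lit 8064) (XT.lf (nat_lit 0) (nat_lit 14286749846) (nat_lit 168) (nat_lit 14478304575) (nat_lit 252) (nat_lit 219592302008) (nat_lit 32) (nat_lit 5) (nat_lit 34) (nat_lit 5) (nat_lit 35) (nat_lit 5) (nat_lit 348) (nat_lit 290) (nat_lit 82)) (XT.lf (nat_lit 0) (nat_lit 11301513852) (nat_lit 924) (nat_lit 6567616995) (nat_lit 924) (nat_lit 6567616995) (nat_lit 128) (nat_lit 3) (nat_lit 139) (nat_lit 3) (nat_lit 139) (nat_lit 5) (nat_lit 291) (nat_lit 291) (nat_lit 138))) (XT.nd (nat_lit 94) (nat_lit 0) (nat_lit 84) (XT.lf (nat_lit 84) (nat_lit 11675192939) (nat_lit 0) (nat_lit 11702199533) (nat_lit 924) (nat_lit 26707476150) (nat_lit 129) (nat_lit 5) (nat_lit 128) (nat_lit 3) (nat_lit 139) (nat_lit 5) (nat_lit 292) (nat_lit 291) (nat_lit 137)) (XT.lf (nat_lit 0) (nat_lit 24626172628) (nat_lit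 840) (nat_lit 13379534533) (nat_lit 924) (nat_lit 13329318190) (nat_lit 129) (nat_lit 5) (nat_lit 139) (nat_lit 5) (nat_lit 140) (nat_lit 5) (nat_lit 293) (nat_lit 291) (nat_lit 136))))) (XT.nd (nat_lit 376) (nat_lit 504) (nat_lit 0) (XT.nd (nat_lit 188) (nat_lit 0) (nat_lit 84) (XT.nd (nat_lit 94) (nat_lit 0) (nat_lit 84) (XT.lf (nat_lit 84) (nat_lit 13129512783) (nat_lit 0) (nat_lit 13203058436) (nat_lit 924) (nat_lit 26295359724) (nat_lit 130) (nat_lit 5) (nat_lit 129) (nat_lit 5) (nat_lit 140) (nat_lit 5) (nat_lit 294) (nat_lit 291) (nat_lit 135)) (XT.lf (nat_lit 0) (nat_lit 28553481752) (nat_lit 840) (nat_lit 12750872158) (nat_lit 924) (nat_lit 12659668305) (nat_lit 130) (nat_lit 5) (nat_lit 140) (nat_lit 5) (nat_lit 141) (nat_lit 5) (nat_lit 295) (nat_lit 291) (nat_lit 134))) (XT.nd (nat_lit 94) (nat_lit 0) (nat_lit 84) (XT.lf (nat_lit 84) (nat_lit 15616420202) (nat_lit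 0) (nat_lit 15727776791) (nat_lit 924) (nat_lit 23999783098) (nat_lit 131) (nat_lit 5) (nat_lit 130) (nat_lit 5) (nat_lit 141) (nat_lit 5) (nat_lit 296) (nat_lit 291) (nat_lit 133)) (XT.lf (nat_lit 0) (nat_lit 34666226183) (nat_lit 840) (nat_lit 11115726895) (nat_lit 924) (nat_lit 10991393874) (nat_lit 131) (nat_lit 5) (nat_lit 141) (nat_lit 5) (nat_lit 142) (nat_lit 5) (nat_lit 297) (nat_lit 291) (nat_lit 132)))) (XT.nd (nat_lit 188) (nat_lit 672) (nat_lit 0) (XT.nd (nat_lit 94) (nat_lit 0) (nat_lit 84) (XT.lf (nat_lit 84) (nat_lit 19285086353) (nat_lit 0) (nat_lit 19426828065) (nat_lit 924) (nat_lit 19534389859) (nat_lit 132) (nat_lit 5) (nat_lit 131) (nat_lit 5) (nat_lit 142) (nat_lit 5) (nat_lit 298) (nat_lit 291) (nat_lit 131)) (XT.lf (nat_lit 0) (nat_lit 43278652676) (nat_lit 840) (nat_lit 8324550407) (nat_lit 924) (nat_lit 8173768104) (nat_lit 132) (nat_lit 5) (nat_lit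 142) (nat_lit 5) (nat_lit 143) (nat_lit 5) (nat_lit 299) (nat_lit 291) (nat_lit 130))) (XT.nd (nat_lit 94) (nat_lit 756) (nat_lit 0) (XT.lf (nat_lit 84) (nat_lit 24302277219) (nat_lit 0) (nat_lit 24468097804) (nat_lit 924) (nat_lit 12578964061) (nat_lit 133) (nat_lit 5) (nat_lit 132) (nat_lit 5) (nat_lit 143) (nat_lit 5) (nat_lit 300) (nat_lit 291) (nat_lit 129)) (XT.nd (nat_lit 94) (nat_lit 840) (nat_lit 0) (XT.lf (nat_lit 0) (nat_lit 54741592061) (nat_lit 840) (nat_lit 4210026209) (nat_lit 84) (nat_lit 4038461677) (nat_lit 133) (nat_lit 5) (nat_lit 143) (nat_lit 5) (nat_lit 134) (nat_lit 5) (nat_lit 301) (nat_lit 291) (nat_lit 128)) (XT.lf (nat_lit 0) (nat_lit 30854252396) (nat_lit 840) (nat_lit 31038807561) (nat_lit 924) (nat_lit 2775713396) (nat_lit 123) (nat_lit 5) (nat_lit 133) (nat_lit 5) (nat_lit 134) (nat_lit 5) (nat_lit 302) (nat_lit 291) (nat_lit 127))))))))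
noncomputable def xc214 : XT := (XT.nd (nat_lit 1598) (nat_lit 2352) (nat_lit 0) (XT.nd (nat_lit 752) (nat_lit 2016) (nat_lit 0) (XT.nd (nat_lit 376) (nat_lit 756) (nat_lit 0) (XT.nd (nat_lit 188) (nat_lit 420) (nat_lit 0) (XT.nd (nat_lit 94) (nat_lit 0) (nat_lit 0) (XT.lf (nat_lit 0) (nat_lit 1385834596) (nat_lit 504) (nat_lit 1582761793) (nat_lit 588) (nat_lit 63455837117) (nat_lit 116) (nat_lit 5) (nat_lit 122) (nat_lit 5) (nat_lit 123) (nat_lit 5) (nat_lit 303) (nat_lit 291) (nat_lit 126)) (XT.lf (nat_lit 0) (nat_lit 9945979120) (nat_lit 588) (nat_lit 29233218450) (nat_lit 84) (nat_lit 29034446941) (nat_lit 116) (nat_lit 5) (nat_lit 123) (nat_lit 5) (nat_lit 117) (nat_lit 5) (nat_lit 304) (nat_lit 291) (nat_lit 125))) (XT.nd (nat_lit 94) (nat_lit 0) (nat_lit 0) (XT.lf (nat_lit 0) (nat_lit 8611062677) (nat_lit 420) (nat_lit 8820521612) (nat_lit 504) (nat_lit 52652764110)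 (nat_lit 111) (nat_lit 5) (nat_lit 116) (nat_lit 5) (nat_lit 117) (nat_lit 5) (nat_lit 305) (nat_lit 291) (nat_lit 124)) (XT.lf (nat_lit 0) (nat_lit 26153631574) (nat_lit 504) (nat_lit 23030513164) (nat_lit 84) (nat_lit 22821334653) (nat_lit 111) (nat_lit 5) (nat_lit 117) (nat_lit 5) (nat_lit 112) (nat_lit 5) (nat_lit 306) (nat_lit 291) (nat_lit 123)))) (XT.nd (nat_lit 188) (nat_lit 336) (nat_lit 0) (XT.nd (nat_lit 94) (nat_lit 0) (nat_lit 0) (XT.lf (nat_lit 0) (nat_lit 17757126226) (nat_lit 420) (nat_lit 17975536938) (nat_lit 504) (nat_lit 38268959670) (nat_lit 106) (nat_lit 5) (nat_lit 111) (nat_lit 5) (nat_lit 112) (nat_lit 5) (nat_lit 307) (nat_lit 291) (nat_lit 122)) (XT.lf (nat_lit 0) (nat_lit 46417114784) (nat_lit 504) (nat_lit 14932759662) (nat_lit 84) (nat_lit 14716375582) (nat_lit 106) (nat_lit 5) (nat_lit 112) (nat_lit 5) (nat_lit 107) (nat_lit 5) (nat_lit 308)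 (nat_lit 291) (nat_lit 121))) (XT.nd (nat_lit 94) (nat_lit 0) (nat_lit 0) (XT.lf (nat_lit 0) (nat_lit 29079621393) (nat_lit 336) (nat_lit 29303980595) (nat_lit 420) (nat_lit 19813115942) (nat_lit 102) (nat_lit 5) (nat_lit 106) (nat_lit 5) (nat_lit 107) (nat_lit 5) (nat_lit 309) (nat_lit 291) (nat_lit 120)) (XT.lf (nat_lit 0) (nat_lit 71272420723) (nat_lit 420) (nat_lit 4682998624) (nat_lit 84) (nat_lit 4462089523) (nat_lit 102) (nat_lit 5) (nat_lit 107) (nat_lit 5) (nat_lit 103) (nat_lit 5) (nat_lit 310) (nat_lit 291) (nat_lit 119))))) (XT.nd (nat_lit 376) (nat_lit 924) (nat_lit 0) (XT.nd (nat_lit 188) (nat_lit 336) (nat_lit 0) (XT.nd (nat_lit 94) (nat_lit 336) (nat_lit 0) (XT.lf (nat_lit 0) (nat_lit 3158151341) (nat_lit 420) (nat_lit 39879499881) (nat_lit 84) (nat_lit 39651701569) (nat_lit 97) (nat_lit 5) (nat_lit 102) (nat_lit 5) (nat_lit 98) (nat_lit 5) (nat_lit 311)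 (nat_lit 291) (nat_lit 118)) (XT.lf (nat_lit 0) (nat_lit 7868757609) (nat_lit 336) (nat_lit 8103117073) (nat_lit 420) (nat_lit 69085285412) (nat_lit 93) (nat_lit 5) (nat_lit 97) (nat_lit 5) (nat_lit 98) (nat_lit 5) (nat_lit 312) (nat_lit 291) (nat_lit 117))) (XT.nd (nat_lit 94) (nat_lit 336) (nat_lit 0) (XT.lf (nat_lit 0) (nat_lit 30558134469) (nat_lit 420) (nat_lit 28578890713) (nat_lit 84) (nat_lit 28349740065) (nat_lit 93) (nat_lit 5) (nat_lit 98) (nat_lit 5) (nat_lit 94) (nat_lit 5) (nat_lit 313) (nat_lit 291) (nat_lit 116)) (XT.lf (nat_lit 0) (nat_lit 23065548502) (nat_lit 336) (nat_lit 23300366920) (nat_lit 420) (nat_lit 43647324829) (nat_lit 89) (nat_lit 5) (nat_lit 93) (nat_lit 5) (nat_lit 94) (nat_lit 5) (nat_lit 314) (nat_lit 291) (nat_lit 115)))) (XT.nd (nat_lit 188) (nat_lit 672) (nat_lit 0) (XT.nd (nat_lit 94) (nat_lit 252) (nat_lit 0) (XT.lf (nat_lit 0) (nat_lit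 63678989371) (nat_lit 420) (nat_lit 14590040930) (nat_lit 84) (nat_lit 14361263506) (nat_lit 89) (nat_lit 5) (nat_lit 94) (nat_lit 5) (nat_lit 90) (nat_lit 5) (nat_lit 315) (nat_lit 291) (nat_lit 114)) (XT.lf (nat_lit 0) (nat_lit 41325262377) (nat_lit 252) (nat_lit 41558935834) (nat_lit 336) (nat_lit 12442677770) (nat_lit 86) (nat_lit 5) (nat_lit 89) (nat_lit 5) (nat_lit 90) (nat_lit 5) (nat_lit 316) (nat_lit 291) (nat_lit 113))) (XT.nd (nat_lit 94) (nat_lit 252) (nat_lit 0) (XT.lf (nat_lit 0) (nat_lit 2392144973) (nat_lit 336) (nat_lit 2630481319) (nat_lit 420) (nat_lit 93117452524) (nat_lit 81) (nat_lit 5) (nat_lit 85) (nat_lit 5) (nat_lit 86) (nat_lit 5) (nat_lit 317) (nat_lit 291) (nat_lit 112)) (XT.nd (nat_lit 94) (nat_lit 252) (nat_lit 0) (XT.lf (nat_lit 0) (nat_lit 24469005378) (nat_lit 420) (nat_lit 38384827802) (nat_lit 84) (nat_lit 38153611428) (nat_lit 81) (nat_lit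 5) (nat_lit 86) (nat_lit 5) (nat_lit 82) (nat_lit 5) (nat_lit 318) (nat_lit 291) (nat_lit 111)) (XT.lf (nat_lit 0) (nat_lit 22523296368) (nat_lit 252) (nat_lit 22758540720) (nat_lit 336) (nat_lit 58716634919) (nat_lit 78) (nat_lit 5) (nat_lit 81) (nat_lit 5) (nat_lit 82) (nat_lit 5) (nat_lit 319) (nat_lit 291) (nat_lit 110))))))) (XT.nd (nat_lit 752) (nat_lit 1008) (nat_lit 0) (XT.nd (nat_lit 376) (nat_lit 756) (nat_lit 0) (XT.nd (nat_lit 188) (nat_lit 336) (nat_lit 0) (XT.nd (nat_lit 94) (nat_lit 252) (nat_lit 0) (XT.lf (nat_lit 0) (nat_lit 68097379939) (nat_lit 336) (nat_lit 19610631547) (nat_lit 84) (nat_lit 19382935811) (nat_lit 78) (nat_lit 5) (nat_lit 82) (nat_lit 5) (nat_lit 79) (nat_lit 5) (nat_lit 320) (nat_lit 291) (nat_lit 109)) (XT.lf (nat_lit 0) (nat_lit 46460195556) (nat_lit 252) (nat_lit 46691370811) (nat_lit 336) (nat_lit 17131586664) (nat_lit 75) (nat_lit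 5) (nat_lit 78) (nat_lit 5) (nat_lit 79) (nat_lit 5) (nat_lit 321) (nat_lit 291) (nat_lit 108))) (XT.nd (nat_lit 94) (nat_lit 0) (nat_lit 0) (XT.lf (nat_lit 0) (nat_lit 2892370606) (nat_lit 252) (nat_lit 3126859689) (nat_lit 336) (nat_lit 107592086435) (nat_lit 71) (nat_lit 5) (nat_lit 74) (nat_lit 5) (nat_lit 75) (nat_lit 5) (nat_lit 322) (nat_lit 291) (nat_lit 107)) (XT.lf (nat_lit 0) (nat_lit 31515217283) (nat_lit 336) (nat_lit 42857394790) (nat_lit 84) (nat_lit 42631066114) (nat_lit 71) (nat_lit 5) (nat_lit 75) (nat_lit 5) (nat_lit 72) (nat_lit 5) (nat_lit 323) (nat_lit 291) (nat_lit 106)))) (XT.nd (nat_lit 188) (nat_lit 504) (nat_lit 0) (XT.nd (nat_lit 94) (nat_lit 0) (nat_lit 0) (XT.lf (nat_lit 0) (nat_lit 29282348627) (nat_lit 252) (nat_lit 29511539912) (nat_lit 336) (nat_lit 61746374933) (nat_lit 68) (nat_lit 5) (nat_lit 71) (nat_lit 5) (nat_lit 72) (nat_lit 5) (nat_lit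 324) (nat_lit 291) (nat_lit 105)) (XT.lf (nat_lit 0) (nat_lit 88448326525) (nat_lit 336) (nat_lit 17987816862) (nat_lit 84) (nat_lit 17766942977) (nat_lit 68) (nat_lit 5) (nat_lit 72) (nat_lit 5) (nat_lit 69) (nat_lit 5) (nat_lit 325) (nat_lit 291) (nat_lit 104))) (XT.nd (nat_lit 94) (nat_lit 336) (nat_lit 0) (XT.lf (nat_lit 0) (nat_lit 60394168995) (nat_lit 168) (nat_lit 60617515709) (nat_lit 252) (nat_lit 6966055780) (nat_lit 66) (nat_lit 5) (nat_lit 68) (nat_lit 5) (nat_lit 69) (nat_lit 5) (nat_lit 326) (nat_lit 291) (nat_lit 103)) (XT.lf (nat_lit 0) (nat_lit 11389390343) (nat_lit 252) (nat_lit 11615092133) (nat_lit 336) (nat_lit 108894138972) (nat_lit 62) (nat_lit 5) (nat_lit 65) (nat_lit 5) (nat_lit 66) (nat_lit 5) (nat_lit 327) (nat_lit 291) (nat_lit 102))))) (XT.nd (nat_lit 376) (nat_lit 588) (nat_lit 0) (XT.nd (nat_lit 188) (nat_lit 252) (nat_lit 0) (XT.nd (nat_lit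 94) (nat_lit 168) (nat_lit 0) (XT.lf (nat_lit 0) (nat_lit 56024232186) (nat_lit 336) (nat_lit 40056727558) (nat_lit 84) (nat_lit 39839637349) (nat_lit 62) (nat_lit 5) (nat_lit 66) (nat_lit 5) (nat_lit 63) (nat_lit 5) (nat_lit 328) (nat_lit 291) (nat_lit 101)) (XT.lf (nat_lit 0) (nat_lit 45689556997) (nat_lit 168) (nat_lit 45908681609) (nat_lit 252) (nat_lit 48500269454) (nat_lit 60) (nat_lit 5) (nat_lit 62) (nat_lit 5) (nat_lit 63) (nat_lit 5) (nat_lit 329) (nat_lit 291) (nat_lit 100))) (XT.nd (nat_lit 94) (nat_lit 252) (nat_lit 0) (XT.lf (nat_lit 0) (nat_lit 129745701786) (nat_lit 252) (nat_lit 7455205169) (nat_lit 84) (nat_lit 7244669799) (nat_lit 60) (nat_lit 5) (nat_lit 63) (nat_lit 5) (nat_lit 61) (nat_lit 5) (nat_lit 330) (nat_lit 291) (nat_lit 99)) (XT.lf (nat_lit 0) (nat_lit 22251766971) (nat_lit 252) (nat_lit 63423981001) (nat_lit 84) (nat_lit 63211688238) (nat_lit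 57) (nat_lit 5) (nat_lit 60) (nat_lit 5) (nat_lit 58) (nat_lit 5) (nat_lit 331) (nat_lit 291) (nat_lit 98)))) (XT.nd (nat_lit 188) (nat_lit 420) (nat_lit 0) (XT.nd (nat_lit 94) (nat_lit 0) (nat_lit 0) (XT.lf (nat_lit 0) (nat_lit 30473330756) (nat_lit 168) (nat_lit 30687297227) (nat_lit 252) (nat_lit 92348529122) (nat_lit 55) (nat_lit 5) (nat_lit 57) (nat_lit 5) (nat_lit 58) (nat_lit 5) (nat_lit 332) (nat_lit 291) (nat_lit 97)) (XT.lf (nat_lit 0) (nat_lit 103528544611) (nat_lit 252) (nat_lit 27481517250) (nat_lit 84) (nat_lit 27276221555) (nat_lit 55) (nat_lit 5) (nat_lit 58) (nat_lit 5) (nat_lit 56) (nat_lit 5) (nat_lit 333) (nat_lit 291) (nat_lit 96))) (XT.nd (nat_lit 94) (nat_lit 252) (nat_lit 0) (XT.lf (nat_lit 0) (nat_lit 74738821375) (nat_lit 168) (nat_lit 74945562882) (nat_lit 252) (nat_lit 13534405425) (nat_lit 53) (nat_lit 5) (nat_lit 55) (nat_lit 5) (nat_lit 56)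 (nat_lit 5) (nat_lit 334) (nat_lit 291) (nat_lit 95)) (XT.nd (nat_lit 94) (nat_lit 0) (nat_lit 0) (XT.lf (nat_lit 0) (nat_lit 14645532120) (nat_lit 168) (nat_lit 14853650591) (nat_lit 252) (nat_lit 138840450587) (nat_lit 50) (nat_lit 5) (nat_lit 52) (nat_lit 5) (nat_lit 53) (nat_lit 5) (nat_lit 335) (nat_lit 291) (nat_lit 94)) (XT.lf (nat_lit 0) (nat_lit 76505408437) (nat_lit 252) (nat_lit 48642841876) (nat_lit 84) (nat_lit 48443384861) (nat_lit 50) (nat_lit 5) (nat_lit 53) (nat_lit 5) (nat_lit 51) (nat_lit 5) (nat_lit 336) (nat_lit 291) (nat_lit 93))))))))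
noncomputable def xc215 : XT := (XT.nd (nat_lit 41454) (nat_lit 0) (nat_lit 4872) (XT.nd (nat_lit 752) (nat_lit 420) (nat_lit 0) (XT.nd (nat_lit 376) (nat_lit 336) (nat_lit 0) (XT.nd (nat_lit 188) (nat_lit 336) (nat_lit 0) (XT.nd (nat_lit 94) (nat_lit 0) (nat_lit 0) (XT.lf (nat_lit 0) (nat_lit 63447497769) (nat_lit 168) (nat_lit 63648144257) (nat_lit 252) (nat_lit 51948910288) (nat_lit 48) (nat_lit 5) (nat_lit 50) (nat_lit 5) (nat_lit 51) (nat_lit 5) (nat_lit 337) (nat_lit 291) (nat_lit 92)) (XT.lf (nat_lit 0) (nat_lit 181066759244) (nat_lit 252) (nat_lit 1926479125) (nat_lit 84) (nat_lit 1734308345) (nat_lit 48) (nat_lit 5) (nat_lit 51) (nat_lit 5) (nat_lit 49) (nat_lit 4) (nat_lit 338) (nat_lit 291) (nat_lit 91))) (XT.nd (nat_lit 94) (nat_lit 168) (nat_lit 0) (XT.lf (nat_lit 0) (nat_lit 48504173514) (nat_lit 168) (nat_lit 71099294932) (nat_lit 84) (nat_lit 70906096640)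 (nat_lit 46) (nat_lit 5) (nat_lit 48) (nat_lit 5) (nat_lit 47) (nat_lit 5) (nat_lit 339) (nat_lit 291) (nat_lit 90)) (XT.lf (nat_lit 0) (nat_lit 51901647569) (nat_lit 168) (nat_lit 52095824443) (nat_lit 252) (nat_lit 92538055923) (nat_lit 44) (nat_lit 5) (nat_lit 46) (nat_lit 5) (nat_lit 47) (nat_lit 5) (nat_lit 340) (nat_lit 291) (nat_lit 89)))) (XT.nd (nat_lit 188) (nat_lit 168) (nat_lit 0) (XT.nd (nat_lit 94) (nat_lit 168) (nat_lit 0) (XT.lf (nat_lit 0) (nat_lit 163782224736) (nat_lit 252) (nat_lit 19595271343) (nat_lit 84) (nat_lit 19409453383) (nat_lit 44) (nat_lit 5) (nat_lit 47) (nat_lit 5) (nat_lit 45) (nat_lit 4) (nat_lit 341) (nat_lit 291) (nat_lit 88)) (XT.lf (nat_lit 0) (nat_lit 19339326249) (nat_lit 168) (nat_lit 95025305757) (nat_lit 84) (nat_lit 94838642461) (nat_lit 42) (nat_lit 5) (nat_lit 44) (nat_lit 5) (nat_lit 43) (nat_lit 5) (nat_lit 342) (nat_lit 291)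 (nat_lit 87))) (XT.nd (nat_lit 94) (nat_lit 0) (nat_lit 0) (XT.lf (nat_lit 0) (nat_lit 40032126692) (nat_lit 168) (nat_lit 40219595071) (nat_lit 252) (nat_lit 135608625048) (nat_lit 40) (nat_lit 5) (nat_lit 42) (nat_lit 5) (nat_lit 43) (nat_lit 5) (nat_lit 343) (nat_lit 291) (nat_lit 86)) (XT.lf (nat_lit 0) (nat_lit 146432620046) (nat_lit 252) (nat_lit 38242890062) (nat_lit 84) (nat_lit 38063618515) (nat_lit 40) (nat_lit 5) (nat_lit 43) (nat_lit 5) (nat_lit 41) (nat_lit 4) (nat_lit 344) (nat_lit 291) (nat_lit 85))))) (XT.nd (nat_lit 40232) (nat_lit 0) (nat_lit 7812) (XT.nd (nat_lit 188) (nat_lit 84) (nat_lit 0) (XT.nd (nat_lit 94) (nat_lit 252) (nat_lit 0) (XT.lf (nat_lit 0) (nat_lit 109052104598) (nat_lit 84) (nat_lit 109232071605) (nat_lit 168) (nat_lit 11559592676) (nat_lit 39) (nat_lit 5) (nat_lit 40) (nat_lit 5) (nat_lit 41) (nat_lit 4) (nat_lit 345) (nat_lit 291) (nat_lit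 84)) (XT.lf (nat_lit 0) (nat_lit 27764765205) (nat_lit 168) (nat_lit 27945394555) (nat_lit 252) (nat_lit 181494862399) (nat_lit 36) (nat_lit 5) (nat_lit 38) (nat_lit 5) (nat_lit 39) (nat_lit 5) (nat_lit 346) (nat_lit 291) (nat_lit 83))) (XT.nd (nat_lit 94) (nat_lit 84) (nat_lit 0) (XT.lf (nat_lit 0) (nat_lit 128930054584) (nat_lit 252) (nat_lit 58009340259) (nat_lit 84) (nat_lit 57836711541) (nat_lit 36) (nat_lit 5) (nat_lit 39) (nat_lit 5) (nat_lit 37) (nat_lit 4) (nat_lit 347) (nat_lit 291) (nat_lit 82)) (XT.lf (nat_lit 0) (nat_lit 103858536297) (nat_lit 84) (nat_lit 104031737171) (nat_lit 168) (nat_lit 44731504886) (nat_lit 35) (nat_lit 5) (nat_lit 36) (nat_lit 5) (nat_lit 37) (nat_lit 4) (nat_lit 348) (nat_lit 291) (nat_lit 81)))) (XT.nd (nat_lit 188) (nat_lit 0) (nat_lit 84) (XT.nd (nat_lit 94) (nat_lit 0) (nat_lit 0) (XT.lf (nat_lit 0) (nat_lit 11893174490) (nat_lit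 924) (nat_lit 6882040748) (nat_lit 924) (nat_lit 6882040748) (nat_lit 128) (nat_lit 3) (nat_lit 139) (nat_lit 3) (nat_lit 139) (nat_lit 5) (nat_lit 292) (nat_lit 292) (nat_lit 136)) (XT.lf (nat_lit 84) (nat_lit 12286416550) (nat_lit 0) (nat_lit 12310912327) (nat_lit 924) (nat_lit 27989229838) (nat_lit 129) (nat_lit 5) (nat_lit 128) (nat_lit 3) (nat_lit 139) (nat_lit 5) (nat_lit 293) (nat_lit 292) (nat_lit 135))) (XT.nd (nat_lit 94) (nat_lit 0) (nat_lit 0) (XT.lf (nat_lit 0) (nat_lit 25905765330) (nat_lit 840) (nat_lit 14019572394) (nat_lit 924) (nat_lit 13974024691) (nat_lit 129) (nat_lit 5) (nat_lit 139) (nat_lit 5) (nat_lit 140) (nat_lit 5) (nat_lit 294) (nat_lit 292) (nat_lit 134)) (XT.nd (nat_lit 94) (nat_lit 0) (nat_lit 84) (XT.lf (nat_lit 84) (nat_lit 13814460531) (nat_lit 0) (nat_lit 13881168608) (nat_lit 924) (nat_lit 27561376883) (nat_lit 130) (nat_lit 5) (nat_lit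 129) (nat_lit 5) (nat_lit 140) (nat_lit 5) (nat_lit 295) (nat_lit 292) (nat_lit 133)) (XT.lf (nat_lit 0) (nat_lit 30025107265) (nat_lit 840) (nat_lit 13358821537) (nat_lit 924) (nat_lit 13276096953) (nat_lit 130) (nat_lit 5) (nat_lit 140) (nat_lit 5) (nat_lit 141) (nat_lit 5) (nat_lit 296) (nat_lit 292) (nat_lit 132))))))) (XT.nd (nat_lit 752) (nat_lit 1932) (nat_lit 0) (XT.nd (nat_lit 376) (nat_lit 1176) (nat_lit 0) (XT.nd (nat_lit 188) (nat_lit 0) (nat_lit 84) (XT.nd (nat_lit 94) (nat_lit 0) (nat_lit 84) (XT.lf (nat_lit 84) (nat_lit 16426358115) (nat_lit 0) (nat_lit 16527361824) (nat_lit 924) (nat_lit 25155343502) (nat_lit 131) (nat_lit 5) (nat_lit 130) (nat_lit 5) (nat_lit 141) (nat_lit 5) (nat_lit 297) (nat_lit 292) (nat_lit 131)) (XT.lf (nat_lit 0) (nat_lit 36439639461) (nat_lit 840) (nat_lit 11641571728) (nat_lit 924) (nat_lit 11528798013) (nat_lit 131) (nat_lit 5)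 (nat_lit 141) (nat_lit 5) (nat_lit 142) (nat_lit 5) (nat_lit 298) (nat_lit 292) (nat_lit 130))) (XT.nd (nat_lit 94) (nat_lit 0) (nat_lit 84) (XT.lf (nat_lit 84) (nat_lit 20278799255) (nat_lit 0) (nat_lit 20407363166) (nat_lit 924) (nat_lit 20470524456) (nat_lit 132) (nat_lit 5) (nat_lit 131) (nat_lit 5) (nat_lit 142) (nat_lit 5) (nat_lit 299) (nat_lit 292) (nat_lit 129)) (XT.lf (nat_lit 0) (nat_lit 45479260303) (nat_lit 840) (nat_lit 8710744844) (nat_lit 924) (nat_lit 8573980850) (nat_lit 132) (nat_lit 5) (nat_lit 142) (nat_lit 5) (nat_lit 143) (nat_lit 5) (nat_lit 300) (nat_lit 292) (nat_lit 128)))) (XT.nd (nat_lit 188) (nat_lit 1344) (nat_lit 0) (XT.nd (nat_lit 94) (nat_lit 0) (nat_lit 84) (XT.lf (nat_lit 84) (nat_lit 25546939759) (nat_lit 0) (nat_lit 25697343918) (nat_lit 924) (nat_lit 13170752866) (nat_lit 133) (nat_lit 5) (nat_lit 132) (nat_lit 5) (nat_lit 143) (nat_lit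 5) (nat_lit 301) (nat_lit 292) (nat_lit 127)) (XT.lf (nat_lit 0) (nat_lit 57512289478) (nat_lit 840) (nat_lit 4390613832) (nat_lit 84) (nat_lit 4234999744) (nat_lit 133) (nat_lit 5) (nat_lit 143) (nat_lit 5) (nat_lit 134) (nat_lit 5) (nat_lit 302) (nat_lit 292) (nat_lit 126))) (XT.nd (nat_lit 94) (nat_lit 588) (nat_lit 0) (XT.lf (nat_lit 0) (nat_lit 32426396225) (nat_lit 840) (nat_lit 32593793200) (nat_lit 924) (nat_lit 2880398773) (nat_lit 123) (nat_lit 5) (nat_lit 133) (nat_lit 5) (nat_lit 134) (nat_lit 5) (nat_lit 303) (nat_lit 292) (nat_lit 125)) (XT.lf (nat_lit 0) (nat_lit 1485156657) (nat_lit 504) (nat_lit 1663775429) (nat_lit 588) (nat_lit 66595127802) (nat_lit 116) (nat_lit 5) (nat_lit 122) (nat_lit 5) (nat_lit 123) (nat_lit 5) (nat_lit 304) (nat_lit 292) (nat_lit 124))))) (XT.nd (nat_lit 376) (nat_lit 1092) (nat_lit 0) (XT.nd (nat_lit 188) (nat_lit 420) (nat_lit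 0) (XT.nd (nat_lit 94) (nat_lit 420) (nat_lit 0) (XT.lf (nat_lit 0) (nat_lit 10473636737) (nat_lit 588) (nat_lit 30664731842) (nat_lit 84) (nat_lit 30484440224) (nat_lit 116) (nat_lit 5) (nat_lit 123) (nat_lit 5) (nat_lit 117) (nat_lit 5) (nat_lit 305) (nat_lit 292) (nat_lit 123)) (XT.lf (nat_lit 0) (nat_lit 9071277091) (nat_lit 420) (nat_lit 9261262520) (nat_lit 504) (nat_lit 55254557404) (nat_lit 111) (nat_lit 5) (nat_lit 116) (nat_lit 5) (nat_lit 117) (nat_lit 5) (nat_lit 306) (nat_lit 292) (nat_lit 122))) (XT.nd (nat_lit 94) (nat_lit 420) (nat_lit 0) (XT.lf (nat_lit 0) (nat_lit 27489294637) (nat_lit 504) (nat_lit 24152395363) (nat_lit 84) (nat_lit 23962664287) (nat_lit 111) (nat_lit 5) (nat_lit 117) (nat_lit 5) (nat_lit 112) (nat_lit 5) (nat_lit 307) (nat_lit 292) (nat_lit 121)) (XT.lf (nat_lit 0) (nat_lit 18674147877) (nat_lit 420) (nat_lit 18872252831) (nat_lit 504)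 (nat_lit 40153948049) (nat_lit 106) (nat_lit 5) (nat_lit 111) (nat_lit 5) (nat_lit 112) (nat_lit 5) (nat_lit 308) (nat_lit 292) (nat_lit 120)))) (XT.nd (nat_lit 188) (nat_lit 756) (nat_lit 0) (XT.nd (nat_lit 94) (nat_lit 336) (nat_lit 0) (XT.lf (nat_lit 0) (nat_lit 48763814869) (nat_lit 504) (nat_lit 15650361091) (nat_lit 84) (nat_lit 15454094352) (nat_lit 106) (nat_lit 5) (nat_lit 112) (nat_lit 5) (nat_lit 107) (nat_lit 5) (nat_lit 309) (nat_lit 292) (nat_lit 119)) (XT.lf (nat_lit 0) (nat_lit 30562170685) (nat_lit 336) (nat_lit 30765671095) (nat_lit 420) (nat_lit 20777459062) (nat_lit 102) (nat_lit 5) (nat_lit 106) (nat_lit 5) (nat_lit 107) (nat_lit 5) (nat_lit 310) (nat_lit 292) (nat_lit 118))) (XT.nd (nat_lit 94) (nat_lit 756) (nat_lit 0) (XT.lf (nat_lit 0) (nat_lit 74859960302) (nat_lit 420) (nat_lit 4888799575) (nat_lit 84) (nat_lit 4688428509) (nat_lit 102) (nat_lit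 5) (nat_lit 107) (nat_lit 5) (nat_lit 103) (nat_lit 5) (nat_lit 311) (nat_lit 292) (nat_lit 117)) (XT.nd (nat_lit 94) (nat_lit 336) (nat_lit 0) (XT.lf (nat_lit 0) (nat_lit 3339654515) (nat_lit 420) (nat_lit 41844802959) (nat_lit 84) (nat_lit 41638183176) (nat_lit 97) (nat_lit 5) (nat_lit 102) (nat_lit 5) (nat_lit 98) (nat_lit 5) (nat_lit 312) (nat_lit 292) (nat_lit 116)) (XT.lf (nat_lit 0) (nat_lit 8290404955) (nat_lit 336) (nat_lit 8502975897) (nat_lit 420) (nat_lit 72515491625) (nat_lit 93) (nat_lit 5) (nat_lit 97) (nat_lit 5) (nat_lit 98) (nat_lit 5) (nat_lit 313) (nat_lit 292) (nat_lit 115))))))))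
noncomputable def xc216 : XT := (XT.nd (nat_lit 1504) (nat_lit 1932) (nat_lit 0) (XT.nd (nat_lit 752) (nat_lit 1344) (nat_lit 0) (XT.nd (nat_lit 376) (nat_lit 672) (nat_lit 0) (XT.nd (nat_lit 188) (nat_lit 252) (nat_lit 0) (XT.nd (nat_lit 94) (nat_lit 336) (nat_lit 0) (XT.lf (nat_lit 0) (nat_lit 32107941324) (nat_lit 420) (nat_lit 29979956787) (nat_lit 84) (nat_lit 29772110393) (nat_lit 93) (nat_lit 5) (nat_lit 98) (nat_lit 5) (nat_lit 94) (nat_lit 5) (nat_lit 314) (nat_lit 292) (nat_lit 114)) (XT.lf (nat_lit 0) (nat_lit 24246254737) (nat_lit 336) (nat_lit 24459241965) (nat_lit 420) (nat_lit 45807341287) (nat_lit 89) (nat_lit 5) (nat_lit 93) (nat_lit 5) (nat_lit 94) (nat_lit 5) (nat_lit 315) (nat_lit 292) (nat_lit 113))) (XT.nd (nat_lit 94) (nat_lit 252) (nat_lit 0) (XT.lf (nat_lit 0) (nat_lit 66883302099) (nat_lit 420) (nat_lit 15292498052) (nat_lit 84) (nat_lit 15084990184)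 (nat_lit 89) (nat_lit 5) (nat_lit 94) (nat_lit 5) (nat_lit 90) (nat_lit 5) (nat_lit 316) (nat_lit 292) (nat_lit 112)) (XT.lf (nat_lit 0) (nat_lit 43418134212) (nat_lit 252) (nat_lit 43630082926) (nat_lit 336) (nat_lit 13044012190) (nat_lit 86) (nat_lit 5) (nat_lit 89) (nat_lit 5) (nat_lit 90) (nat_lit 5) (nat_lit 317) (nat_lit 292) (nat_lit 111)))) (XT.nd (nat_lit 188) (nat_lit 252) (nat_lit 0) (XT.nd (nat_lit 94) (nat_lit 0) (nat_lit 0) (XT.lf (nat_lit 0) (nat_lit 2538586741) (nat_lit 336) (nat_lit 2754764833) (nat_lit 420) (nat_lit 97752751485) (nat_lit 81) (nat_lit 5) (nat_lit 85) (nat_lit 5) (nat_lit 86) (nat_lit 5) (nat_lit 318) (nat_lit 292) (nat_lit 110)) (XT.lf (nat_lit 0) (nat_lit 25711224230) (nat_lit 420) (nat_lit 40277687123) (nat_lit 84) (nat_lit 40067967057) (nat_lit 81) (nat_lit 5) (nat_lit 86) (nat_lit 5) (nat_lit 82) (nat_lit 5) (nat_lit 319) (nat_lit 292)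 (nat_lit 109))) (XT.nd (nat_lit 94) (nat_lit 0) (nat_lit 0) (XT.lf (nat_lit 0) (nat_lit 23675417738) (nat_lit 252) (nat_lit 23888791300) (nat_lit 336) (nat_lit 61633272565) (nat_lit 78) (nat_lit 5) (nat_lit 81) (nat_lit 5) (nat_lit 82) (nat_lit 5) (nat_lit 320) (nat_lit 292) (nat_lit 108)) (XT.lf (nat_lit 0) (nat_lit 71519772694) (nat_lit 336) (nat_lit 20565686262) (nat_lit 84) (nat_lit 20359159518) (nat_lit 78) (nat_lit 5) (nat_lit 82) (nat_lit 5) (nat_lit 79) (nat_lit 5) (nat_lit 321) (nat_lit 292) (nat_lit 107))))) (XT.nd (nat_lit 376) (nat_lit 504) (nat_lit 0) (XT.nd (nat_lit 188) (nat_lit 252) (nat_lit 0) (XT.nd (nat_lit 94) (nat_lit 336) (nat_lit 0) (XT.lf (nat_lit 0) (nat_lit 48808271279) (nat_lit 252) (nat_lit 49017954049) (nat_lit 336) (nat_lit 17970231322) (nat_lit 75) (nat_lit 5) (nat_lit 78) (nat_lit 5) (nat_lit 79) (nat_lit 5) (nat_lit 322) (nat_lit 292) (nat_lit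 106)) (XT.lf (nat_lit 0) (nat_lit 3062215555) (nat_lit 252) (nat_lit 3274904065) (nat_lit 336) (nat_lit 112953916555) (nat_lit 71) (nat_lit 5) (nat_lit 74) (nat_lit 5) (nat_lit 75) (nat_lit 5) (nat_lit 323) (nat_lit 292) (nat_lit 105))) (XT.nd (nat_lit 94) (nat_lit 252) (nat_lit 0) (XT.lf (nat_lit 0) (nat_lit 33107223267) (nat_lit 336) (nat_lit 44975556677) (nat_lit 84) (nat_lit 44770269897) (nat_lit 71) (nat_lit 5) (nat_lit 75) (nat_lit 5) (nat_lit 72) (nat_lit 5) (nat_lit 324) (nat_lit 292) (nat_lit 104)) (XT.lf (nat_lit 0) (nat_lit 30770775397) (nat_lit 252) (nat_lit 30978658649) (nat_lit 336) (nat_lit 64817050046) (nat_lit 68) (nat_lit 5) (nat_lit 71) (nat_lit 5) (nat_lit 72) (nat_lit 5) (nat_lit 325) (nat_lit 292) (nat_lit 103)))) (XT.nd (nat_lit 188) (nat_lit 336) (nat_lit 0) (XT.nd (nat_lit 94) (nat_lit 168) (nat_lit 0) (XT.lf (nat_lit 0) (nat_lit 92885964886) (nat_lit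 336) (nat_lit 18863426909) (nat_lit 84) (nat_lit 18663087784) (nat_lit 68) (nat_lit 5) (nat_lit 72) (nat_lit 5) (nat_lit 69) (nat_lit 5) (nat_lit 326) (nat_lit 292) (nat_lit 102)) (XT.lf (nat_lit 0) (nat_lit 63437274679) (nat_lit 168) (nat_lit 63639856733) (nat_lit 252) (nat_lit 7298752973) (nat_lit 66) (nat_lit 5) (nat_lit 68) (nat_lit 5) (nat_lit 69) (nat_lit 5) (nat_lit 327) (nat_lit 292) (nat_lit 101))) (XT.nd (nat_lit 94) (nat_lit 0) (nat_lit 0) (XT.lf (nat_lit 0) (nat_lit 11982371140) (nat_lit 252) (nat_lit 12187089317) (nat_lit 336) (nat_lit 114323354370) (nat_lit 62) (nat_lit 5) (nat_lit 65) (nat_lit 5) (nat_lit 66) (nat_lit 5) (nat_lit 328) (nat_lit 292) (nat_lit 100)) (XT.lf (nat_lit 0) (nat_lit 58839625305) (nat_lit 336) (nat_lit 42036599893) (nat_lit 84) (nat_lit 41839692674) (nat_lit 62) (nat_lit 5) (nat_lit 66) (nat_lit 5) (nat_lit 63) (nat_lit 5) (nat_lit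 329) (nat_lit 292) (nat_lit 99)))))) (XT.nd (nat_lit 752) (nat_lit 924) (nat_lit 0) (XT.nd (nat_lit 376) (nat_lit 420) (nat_lit 0) (XT.nd (nat_lit 188) (nat_lit 420) (nat_lit 0) (XT.nd (nat_lit 94) (nat_lit 0) (nat_lit 0) (XT.lf (nat_lit 0) (nat_lit 47996628502) (nat_lit 168) (nat_lit 48195380984) (nat_lit 252) (nat_lit 50910731029) (nat_lit 60) (nat_lit 5) (nat_lit 62) (nat_lit 5) (nat_lit 63) (nat_lit 5) (nat_lit 330) (nat_lit 292) (nat_lit 98)) (XT.lf (nat_lit 0) (nat_lit 136246315755) (nat_lit 252) (nat_lit 7805917590) (nat_lit 84) (nat_lit 7614955803) (nat_lit 60) (nat_lit 5) (nat_lit 63) (nat_lit 5) (nat_lit 61) (nat_lit 5) (nat_lit 331) (nat_lit 292) (nat_lit 97))) (XT.nd (nat_lit 94) (nat_lit 168) (nat_lit 0) (XT.lf (nat_lit 0) (nat_lit 23377601821) (nat_lit 252) (nat_lit 66573049835) (nat_lit 84) (nat_lit 66380494041) (nat_lit 57) (nat_lit 5) (nat_lit 60) (nat_lit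 5) (nat_lit 58) (nat_lit 5) (nat_lit 332) (nat_lit 292) (nat_lit 96)) (XT.lf (nat_lit 0) (nat_lit 32018770571) (nat_lit 168) (nat_lit 32212844468) (nat_lit 252) (nat_lit 96952352138) (nat_lit 55) (nat_lit 5) (nat_lit 57) (nat_lit 5) (nat_lit 58) (nat_lit 5) (nat_lit 333) (nat_lit 292) (nat_lit 95)))) (XT.nd (nat_lit 188) (nat_lit 252) (nat_lit 0) (XT.nd (nat_lit 94) (nat_lit 168) (nat_lit 0) (XT.lf (nat_lit 0) (nat_lit 108717441674) (nat_lit 252) (nat_lit 28834370834) (nat_lit 84) (nat_lit 28648161587) (nat_lit 55) (nat_lit 5) (nat_lit 58) (nat_lit 5) (nat_lit 56) (nat_lit 5) (nat_lit 334) (nat_lit 292) (nat_lit 94)) (XT.lf (nat_lit 0) (nat_lit 78496642428) (nat_lit 168) (nat_lit 78684163069) (nat_lit 252) (nat_lit 14198313568) (nat_lit 53) (nat_lit 5) (nat_lit 55) (nat_lit 5) (nat_lit 56) (nat_lit 5) (nat_lit 335) (nat_lit 292) (nat_lit 93))) (XT.nd (nat_lit 94) (nat_lit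 0) (nat_lit 0) (XT.lf (nat_lit 0) (nat_lit 15398755390) (nat_lit 168) (nat_lit 15587524979) (nat_lit 252) (nat_lit 145769727669) (nat_lit 50) (nat_lit 5) (nat_lit 52) (nat_lit 5) (nat_lit 53) (nat_lit 5) (nat_lit 336) (nat_lit 292) (nat_lit 92)) (XT.lf (nat_lit 0) (nat_lit 80342370327) (nat_lit 252) (nat_lit 51054587713) (nat_lit 84) (nat_lit 50873674321) (nat_lit 50) (nat_lit 5) (nat_lit 53) (nat_lit 5) (nat_lit 51) (nat_lit 5) (nat_lit 337) (nat_lit 292) (nat_lit 91))))) (XT.nd (nat_lit 376) (nat_lit 420) (nat_lit 0) (XT.nd (nat_lit 188) (nat_lit 336) (nat_lit 0) (XT.nd (nat_lit 94) (nat_lit 0) (nat_lit 0) (XT.lf (nat_lit 0) (nat_lit 66639939943) (nat_lit 168) (nat_lit 66821932222) (nat_lit 252) (nat_lit 54534335363) (nat_lit 48) (nat_lit 5) (nat_lit 50) (nat_lit 5) (nat_lit 51) (nat_lit 5) (nat_lit 338) (nat_lit 292) (nat_lit 90)) (XT.lf (nat_lit 0) (nat_lit 190131128262)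 (nat_lit 252) (nat_lit 2003274399) (nat_lit 84) (nat_lit 1828969836) (nat_lit 48) (nat_lit 5) (nat_lit 51) (nat_lit 5) (nat_lit 49) (nat_lit 4) (nat_lit 339) (nat_lit 292) (nat_lit 89))) (XT.nd (nat_lit 94) (nat_lit 168) (nat_lit 0) (XT.lf (nat_lit 0) (nat_lit 50940365080) (nat_lit 168) (nat_lit 74634682831) (nat_lit 84) (nat_lit 74459446285) (nat_lit 46) (nat_lit 5) (nat_lit 48) (nat_lit 5) (nat_lit 47) (nat_lit 5) (nat_lit 340) (nat_lit 292) (nat_lit 88)) (XT.lf (nat_lit 0) (nat_lit 54515991039) (nat_lit 168) (nat_lit 54692115189) (nat_lit 252) (nat_lit 97153660073) (nat_lit 44) (nat_lit 5) (nat_lit 46) (nat_lit 5) (nat_lit 47) (nat_lit 5) (nat_lit 341) (nat_lit 292) (nat_lit 87)))) (XT.nd (nat_lit 188) (nat_lit 252) (nat_lit 0) (XT.nd (nat_lit 94) (nat_lit 168) (nat_lit 0) (XT.lf (nat_lit 0) (nat_lit 171981710574) (nat_lit 252) (nat_lit 20556304999) (nat_lit 84) (nat_lit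 20387762631) (nat_lit 44) (nat_lit 5) (nat_lit 47) (nat_lit 5) (nat_lit 45) (nat_lit 4) (nat_lit 342) (nat_lit 292) (nat_lit 86)) (XT.lf (nat_lit 0) (nat_lit 20316627537) (nat_lit 168) (nat_lit 99757801508) (nat_lit 84) (nat_lit 99588492396) (nat_lit 42) (nat_lit 5) (nat_lit 44) (nat_lit 5) (nat_lit 43) (nat_lit 5) (nat_lit 343) (nat_lit 292) (nat_lit 85))) (XT.nd (nat_lit 94) (nat_lit 84) (nat_lit 0) (XT.lf (nat_lit 0) (nat_lit 42052199829) (nat_lit 168) (nat_lit 42222239175) (nat_lit 252) (nat_lit 142378418590) (nat_lit 40) (nat_lit 5) (nat_lit 42) (nat_lit 5) (nat_lit 43) (nat_lit 5) (nat_lit 344) (nat_lit 292) (nat_lit 84)) (XT.nd (nat_lit 94) (nat_lit 84) (nat_lit 0) (XT.lf (nat_lit 0) (nat_lit 153764023711) (nat_lit 252) (nat_lit 40137088644) (nat_lit 84) (nat_lit 39974484067) (nat_lit 40) (nat_lit 5) (nat_lit 43) (nat_lit 5) (nat_lit 41) (nat_lit 4) (nat_lit 345)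 (nat_lit 292) (nat_lit 83)) (XT.lf (nat_lit 0) (nat_lit 114522366298) (nat_lit 84) (nat_lit 114685601679) (nat_lit 168) (nat_lit 12127510197) (nat_lit 39) (nat_lit 5) (nat_lit 40) (nat_lit 5) (nat_lit 41) (nat_lit 4) (nat_lit 346) (nat_lit 292) (nat_lit 82))))))))
noncomputable def xc217 : XT := (XT.nd (nat_lit 41642) (nat_lit 0) (nat_lit 2940) (XT.nd (nat_lit 40796) (nat_lit 0) (nat_lit 6300) (XT.nd (nat_lit 40420) (nat_lit 0) (nat_lit 7812) (XT.nd (nat_lit 40232) (nat_lit 0) (nat_lit 7728) (XT.nd (nat_lit 40138) (nat_lit 0) (nat_lit 7728) (XT.lf (nat_lit 0) (nat_lit 29170692010) (nat_lit 168) (nat_lit 29334528156) (nat_lit 252) (nat_lit 190559575480) (nat_lit 36) (nat_lit 5) (nat_lit 38) (nat_lit 5) (nat_lit 39) (nat_lit 5) (nat_lit 347) (nat_lit 292) (nat_lit 81)) (XT.lf (nat_lit 0) (nat_lit 12511946544) (nat_lit 924) (nat_lit 7213483288) (nat_lit 924) (nat_lit 7213483288)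 (nat_lit 128) (nat_lit 3) (nat_lit 139) (nat_lit 3) (nat_lit 139) (nat_lit 5) (nat_lit 293) (nat_lit 293) (nat_lit 134))) (XT.nd (nat_lit 94) (nat_lit 0) (nat_lit 84) (XT.lf (nat_lit 84) (nat_lit 12925648002) (nat_lit 0) (nat_lit 12947866394) (nat_lit 924) (nat_lit 29340056301) (nat_lit 129) (nat_lit 5) (nat_lit 128) (nat_lit 3) (nat_lit 139) (nat_lit 5) (nat_lit 294) (nat_lit 293) (nat_lit 133)) (XT.lf (nat_lit 0) (nat_lit 27244848672) (nat_lit 840) (nat_lit 14694302609) (nat_lit 924) (nat_lit 14652989500) (nat_lit 129) (nat_lit 5) (nat_lit 139) (nat_lit 5) (nat_lit 140) (nat_lit 5) (nat_lit 295) (nat_lit 293) (nat_lit 132)))) (XT.nd (nat_lit 188) (nat_lit 0) (nat_lit 84) (XT.nd (nat_lit 94) (nat_lit 0) (nat_lit 84) (XT.lf (nat_lit 84) (nat_lit 14531008601) (nat_lit 0) (nat_lit 14591514792) (nat_lit 924) (nat_lit 28895227291) (nat_lit 130) (nat_lit 5) (nat_lit 129) (nat_lit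 5) (nat_lit 140) (nat_lit 5) (nat_lit 296) (nat_lit 293) (nat_lit 131)) (XT.lf (nat_lit 0) (nat_lit 31566227866) (nat_lit 840) (nat_lit 13999919775) (nat_lit 924) (nat_lit 13924886140) (nat_lit 130) (nat_lit 5) (nat_lit 140) (nat_lit 5) (nat_lit 141) (nat_lit 5) (nat_lit 297) (nat_lit 293) (nat_lit 130))) (XT.nd (nat_lit 94) (nat_lit 0) (nat_lit 84) (XT.lf (nat_lit 84) (nat_lit 17274085910) (nat_lit 0) (nat_lit 17365699252) (nat_lit 924) (nat_lit 26372812490) (nat_lit 131) (nat_lit 5) (nat_lit 130) (nat_lit 5) (nat_lit 141) (nat_lit 5) (nat_lit 298) (nat_lit 293) (nat_lit 129)) (XT.lf (nat_lit 0) (nat_lit 38297995101) (nat_lit 840) (nat_lit 12196492481) (nat_lit 924) (nat_lit 12094203397) (nat_lit 131) (nat_lit 5) (nat_lit 141) (nat_lit 5) (nat_lit 142) (nat_lit 5) (nat_lit 299) (nat_lit 293) (nat_lit 128))))) (XT.nd (nat_lit 376) (nat_lit 1680) (nat_lit 0) (XT.nd (nat_lit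 188) (nat_lit 0) (nat_lit 84) (XT.nd (nat_lit 94) (nat_lit 0) (nat_lit 84) (XT.lf (nat_lit 84) (nat_lit 21319459022) (nat_lit 0) (nat_lit 21436070279) (nat_lit 924) (nat_lit 21457238982) (nat_lit 132) (nat_lit 5) (nat_lit 131) (nat_lit 5) (nat_lit 142) (nat_lit 5) (nat_lit 300) (nat_lit 293) (nat_lit 127)) (XT.lf (nat_lit 0) (nat_lit 47786488617) (nat_lit 840) (nat_lit 9119041194) (nat_lit 924) (nat_lit 8994992221) (nat_lit 132) (nat_lit 5) (nat_lit 142) (nat_lit 5) (nat_lit 143) (nat_lit 5) (nat_lit 301) (nat_lit 293) (nat_lit 126))) (XT.nd (nat_lit 94) (nat_lit 0) (nat_lit 84) (XT.lf (nat_lit 84) (nat_lit 26851088270) (nat_lit 0) (nat_lit 26987509275) (nat_lit 924) (nat_lit 13795585841) (nat_lit 133) (nat_lit 5) (nat_lit 132) (nat_lit 5) (nat_lit 143) (nat_lit 5) (nat_lit 302) (nat_lit 293) (nat_lit 125)) (XT.lf (nat_lit 0) (nat_lit 60418396300) (nat_lit 840) (nat_lit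 4583011927) (nat_lit 84) (nat_lit 4441865363) (nat_lit 133) (nat_lit 5) (nat_lit 143) (nat_lit 5) (nat_lit 134) (nat_lit 5) (nat_lit 303) (nat_lit 293) (nat_lit 124)))) (XT.nd (nat_lit 188) (nat_lit 420) (nat_lit 0) (XT.nd (nat_lit 94) (nat_lit 588) (nat_lit 0) (XT.lf (nat_lit 0) (nat_lit 34074411010) (nat_lit 840) (nat_lit 34226245001) (nat_lit 924) (nat_lit 2993488741) (nat_lit 123) (nat_lit 5) (nat_lit 133) (nat_lit 5) (nat_lit 134) (nat_lit 5) (nat_lit 304) (nat_lit 293) (nat_lit 123)) (XT.lf (nat_lit 0) (nat_lit 1586652885) (nat_lit 504) (nat_lit 1748665377) (nat_lit 588) (nat_lit 69894497643) (nat_lit 116) (nat_lit 5) (nat_lit 122) (nat_lit 5) (nat_lit 123) (nat_lit 5) (nat_lit 305) (nat_lit 293) (nat_lit 122))) (XT.nd (nat_lit 94) (nat_lit 420) (nat_lit 0) (XT.lf (nat_lit 0) (nat_lit 11024854775) (nat_lit 588) (nat_lit 32170623735) (nat_lit 84) (nat_lit 32007093923)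 (nat_lit 116) (nat_lit 5) (nat_lit 123) (nat_lit 5) (nat_lit 117) (nat_lit 5) (nat_lit 306) (nat_lit 293) (nat_lit 121)) (XT.nd (nat_lit 94) (nat_lit 0) (nat_lit 0) (XT.lf (nat_lit 0) (nat_lit 9551744601) (nat_lit 420) (nat_lit 9724066985) (nat_lit 504) (nat_lit 57989308030) (nat_lit 111) (nat_lit 5) (nat_lit 116) (nat_lit 5) (nat_lit 117) (nat_lit 5) (nat_lit 307) (nat_lit 293) (nat_lit 120)) (XT.lf (nat_lit 0) (nat_lit 28889139400) (nat_lit 504) (nat_lit 25333127639) (nat_lit 84) (nat_lit 25161035960) (nat_lit 111) (nat_lit 5) (nat_lit 117) (nat_lit 5) (nat_lit 112) (nat_lit 5) (nat_lit 308) (nat_lit 293) (nat_lit 119))))))) (XT.nd (nat_lit 752) (nat_lit 1512) (nat_lit 0) (XT.nd (nat_lit 376) (nat_lit 1092) (nat_lit 0) (XT.nd (nat_lit 188) (nat_lit 336) (nat_lit 0) (XT.nd (nat_lit 94) (nat_lit 0) (nat_lit 0) (XT.lf (nat_lit 0) (nat_lit 19634309094) (nat_lit 420) (nat_lit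 19813996127) (nat_lit 504) (nat_lit 42135831751) (nat_lit 106) (nat_lit 5) (nat_lit 111) (nat_lit 5) (nat_lit 112) (nat_lit 5) (nat_lit 309) (nat_lit 293) (nat_lit 118)) (XT.lf (nat_lit 0) (nat_lit 51225447196) (nat_lit 504) (nat_lit 16406542135) (nat_lit 84) (nat_lit 16228522417) (nat_lit 106) (nat_lit 5) (nat_lit 112) (nat_lit 5) (nat_lit 107) (nat_lit 5) (nat_lit 310) (nat_lit 293) (nat_lit 117))) (XT.nd (nat_lit 94) (nat_lit 0) (nat_lit 0) (XT.lf (nat_lit 0) (nat_lit 32116191439) (nat_lit 336) (nat_lit 32300772310) (nat_lit 420) (nat_lit 21792465642) (nat_lit 102) (nat_lit 5) (nat_lit 106) (nat_lit 5) (nat_lit 107) (nat_lit 5) (nat_lit 311) (nat_lit 293) (nat_lit 116)) (XT.lf (nat_lit 0) (nat_lit 78624653141) (nat_lit 420) (nat_lit 5107526194) (nat_lit 84) (nat_lit 4925783730) (nat_lit 102) (nat_lit 5) (nat_lit 107) (nat_lit 5) (nat_lit 103) (nat_lit 5) (nat_lit 312)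 (nat_lit 293) (nat_lit 115)))) (XT.nd (nat_lit 188) (nat_lit 336) (nat_lit 0) (XT.nd (nat_lit 94) (nat_lit 336) (nat_lit 0) (XT.lf (nat_lit 0) (nat_lit 3528039153) (nat_lit 420) (nat_lit 43911036835) (nat_lit 84) (nat_lit 43723626600) (nat_lit 97) (nat_lit 5) (nat_lit 102) (nat_lit 5) (nat_lit 98) (nat_lit 5) (nat_lit 313) (nat_lit 293) (nat_lit 114)) (XT.lf (nat_lit 0) (nat_lit 8730512019) (nat_lit 336) (nat_lit 8923320130) (nat_lit 420) (nat_lit 76119444839) (nat_lit 93) (nat_lit 5) (nat_lit 97) (nat_lit 5) (nat_lit 98) (nat_lit 5) (nat_lit 314) (nat_lit 293) (nat_lit 113))) (XT.nd (nat_lit 94) (nat_lit 336) (nat_lit 0) (XT.lf (nat_lit 0) (nat_lit 33733202454) (nat_lit 420) (nat_lit 31453668039) (nat_lit 84) (nat_lit 31265145233) (nat_lit 93) (nat_lit 5) (nat_lit 98) (nat_lit 5) (nat_lit 94) (nat_lit 5) (nat_lit 315) (nat_lit 293) (nat_lit 112)) (XT.lf (nat_lit 0) (nat_lit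 25483446213) (nat_lit 336) (nat_lit 25676631907) (nat_lit 420) (nat_lit 48077436438) (nat_lit 89) (nat_lit 5) (nat_lit 93) (nat_lit 5) (nat_lit 94) (nat_lit 5) (nat_lit 316) (nat_lit 293) (nat_lit 111))))) (XT.nd (nat_lit 376) (nat_lit 840) (nat_lit 0) (XT.nd (nat_lit 188) (nat_lit 420) (nat_lit 0) (XT.nd (nat_lit 94) (nat_lit 252) (nat_lit 0) (XT.lf (nat_lit 0) (nat_lit 70245937280) (nat_lit 420) (nat_lit 16032592410) (nat_lit 84) (nat_lit 15844376657) (nat_lit 89) (nat_lit 5) (nat_lit 94) (nat_lit 5) (nat_lit 90) (nat_lit 5) (nat_lit 317) (nat_lit 293) (nat_lit 110)) (XT.lf (nat_lit 0) (nat_lit 45613175813) (nat_lit 252) (nat_lit 45805419544) (nat_lit 336) (nat_lit 13677347070) (nat_lit 86) (nat_lit 5) (nat_lit 89) (nat_lit 5) (nat_lit 90) (nat_lit 5) (nat_lit 318) (nat_lit 293) (nat_lit 109))) (XT.nd (nat_lit 94) (nat_lit 0) (nat_lit 0) (XT.lf (nat_lit 0) (nat_lit 2689855778)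 (nat_lit 336) (nat_lit 2885935680) (nat_lit 420) (nat_lit 102621728139) (nat_lit 81) (nat_lit 5) (nat_lit 85) (nat_lit 5) (nat_lit 86) (nat_lit 5) (nat_lit 319) (nat_lit 293) (nat_lit 108)) (XT.lf (nat_lit 0) (nat_lit 27013809099) (nat_lit 420) (nat_lit 42267642166) (nat_lit 84) (nat_lit 42077419883) (nat_lit 81) (nat_lit 5) (nat_lit 86) (nat_lit 5) (nat_lit 82) (nat_lit 5) (nat_lit 320) (nat_lit 293) (nat_lit 107)))) (XT.nd (nat_lit 188) (nat_lit 588) (nat_lit 0) (XT.nd (nat_lit 94) (nat_lit 0) (nat_lit 0) (XT.lf (nat_lit 0) (nat_lit 24882731982) (nat_lit 252) (nat_lit 25076268093) (nat_lit 336) (nat_lit 64697526578) (nat_lit 78) (nat_lit 5) (nat_lit 81) (nat_lit 5) (nat_lit 82) (nat_lit 5) (nat_lit 321) (nat_lit 293) (nat_lit 106)) (XT.lf (nat_lit 0) (nat_lit 75111655894) (nat_lit 336) (nat_lit 21570862310) (nat_lit 84) (nat_lit 21383536465) (nat_lit 78) (nat_lit 5) (nat_lit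 82) (nat_lit 5) (nat_lit 79) (nat_lit 5) (nat_lit 322) (nat_lit 293) (nat_lit 105))) (XT.nd (nat_lit 94) (nat_lit 336) (nat_lit 0) (XT.lf (nat_lit 0) (nat_lit 51271420394) (nat_lit 252) (nat_lit 51461608848) (nat_lit 336) (nat_lit 18852475608) (nat_lit 75) (nat_lit 5) (nat_lit 78) (nat_lit 5) (nat_lit 79) (nat_lit 5) (nat_lit 323) (nat_lit 293) (nat_lit 104)) (XT.nd (nat_lit 94) (nat_lit 0) (nat_lit 0) (XT.lf (nat_lit 0) (nat_lit 3238207438) (nat_lit 252) (nat_lit 3431122187) (nat_lit 336) (nat_lit 118585490657) (nat_lit 71) (nat_lit 5) (nat_lit 74) (nat_lit 5) (nat_lit 75) (nat_lit 5) (nat_lit 324) (nat_lit 293) (nat_lit 103)) (XT.lf (nat_lit 0) (nat_lit 34777319233) (nat_lit 336) (nat_lit 47201923761) (nat_lit 84) (nat_lit 47015722599) (nat_lit 71) (nat_lit 5) (nat_lit 75) (nat_lit 5) (nat_lit 72) (nat_lit 5) (nat_lit 325) (nat_lit 293) (nat_lit 102))))))))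
noncomputable def xc218 : XT := (XT.nd (nat_lit 1598) (nat_lit 420) (nat_lit 0) (XT.nd (nat_lit 752) (nat_lit 1092) (nat_lit 0) (XT.nd (nat_lit 376) (nat_lit 420) (nat_lit 0) (XT.nd (nat_lit 188) (nat_lit 504) (nat_lit 0) (XT.nd (nat_lit 94) (nat_lit 0) (nat_lit 0) (XT.lf (nat_lit 0) (nat_lit 32331363454) (nat_lit 252) (nat_lit 32519919691) (nat_lit 336) (nat_lit 68042806282) (nat_lit 68) (nat_lit 5) (nat_lit 71) (nat_lit 5) (nat_lit 72) (nat_lit 5) (nat_lit 326) (nat_lit 293) (nat_lit 101)) (XT.lf (nat_lit 0) (nat_lit 97544069965) (nat_lit 336) (nat_lit 19785028372) (nat_lit 84) (nat_lit 19603314880) (nat_lit 68) (nat_lit 5) (nat_lit 72) (nat_lit 5) (nat_lit 69) (nat_lit 5) (nat_lit 327) (nat_lit 293) (nat_lit 100))) (XT.nd (nat_lit 94) (nat_lit 336) (nat_lit 0) (XT.lf (nat_lit 0) (nat_lit 66630360394) (nat_lit 168) (nat_lit 66814108289) (nat_lit 252) (nat_lit 7649535886)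 (nat_lit 66) (nat_lit 5) (nat_lit 68) (nat_lit 5) (nat_lit 69) (nat_lit 5) (nat_lit 328) (nat_lit 293) (nat_lit 99)) (XT.lf (nat_lit 0) (nat_lit 12602815121) (nat_lit 252) (nat_lit 12788500542) (nat_lit 336) (nat_lit 120025470796) (nat_lit 62) (nat_lit 5) (nat_lit 65) (nat_lit 5) (nat_lit 66) (nat_lit 5) (nat_lit 329) (nat_lit 293) (nat_lit 98)))) (XT.nd (nat_lit 188) (nat_lit 252) (nat_lit 0) (XT.nd (nat_lit 94) (nat_lit 168) (nat_lit 0) (XT.lf (nat_lit 0) (nat_lit 61794469618) (nat_lit 336) (nat_lit 44117600824) (nat_lit 84) (nat_lit 43939000172) (nat_lit 62) (nat_lit 5) (nat_lit 66) (nat_lit 5) (nat_lit 63) (nat_lit 5) (nat_lit 330) (nat_lit 293) (nat_lit 97)) (XT.lf (nat_lit 0) (nat_lit 50416953038) (nat_lit 168) (nat_lit 50597227399) (nat_lit 252) (nat_lit 53443068580) (nat_lit 60) (nat_lit 5) (nat_lit 62) (nat_lit 5) (nat_lit 63) (nat_lit 5) (nat_lit 331) (nat_lit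 293) (nat_lit 96))) (XT.nd (nat_lit 94) (nat_lit 252) (nat_lit 0) (XT.lf (nat_lit 0) (nat_lit 143070721229) (nat_lit 252) (nat_lit 8176215430) (nat_lit 84) (nat_lit 8003007461) (nat_lit 60) (nat_lit 5) (nat_lit 63) (nat_lit 5) (nat_lit 61) (nat_lit 5) (nat_lit 332) (nat_lit 293) (nat_lit 95)) (XT.lf (nat_lit 0) (nat_lit 24558496878) (nat_lit 252) (nat_lit 69881629568) (nat_lit 84) (nat_lit 69706975786) (nat_lit 57) (nat_lit 5) (nat_lit 60) (nat_lit 5) (nat_lit 58) (nat_lit 5) (nat_lit 333) (nat_lit 293) (nat_lit 94))))) (XT.nd (nat_lit 376) (nat_lit 504) (nat_lit 0) (XT.nd (nat_lit 188) (nat_lit 420) (nat_lit 0) (XT.nd (nat_lit 94) (nat_lit 0) (nat_lit 0) (XT.lf (nat_lit 0) (nat_lit 33639458104) (nat_lit 168) (nat_lit 33815488850) (nat_lit 252) (nat_lit 101787631024) (nat_lit 55) (nat_lit 5) (nat_lit 57) (nat_lit 5) (nat_lit 58) (nat_lit 5) (nat_lit 334) (nat_lit 293) (nat_lit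 93)) (XT.lf (nat_lit 0) (nat_lit 114164624264) (nat_lit 252) (nat_lit 30256840143) (nat_lit 84) (nat_lit 30087942867) (nat_lit 55) (nat_lit 5) (nat_lit 58) (nat_lit 5) (nat_lit 56) (nat_lit 5) (nat_lit 335) (nat_lit 293) (nat_lit 92))) (XT.nd (nat_lit 94) (nat_lit 252) (nat_lit 0) (XT.lf (nat_lit 0) (nat_lit 82440413310) (nat_lit 168) (nat_lit 82610500059) (nat_lit 252) (nat_lit 14896608269) (nat_lit 53) (nat_lit 5) (nat_lit 55) (nat_lit 5) (nat_lit 56) (nat_lit 5) (nat_lit 336) (nat_lit 293) (nat_lit 91)) (XT.lf (nat_lit 0) (nat_lit 16187692401) (nat_lit 168) (nat_lit 16358911983) (nat_lit 252) (nat_lit 153046653556) (nat_lit 50) (nat_lit 5) (nat_lit 52) (nat_lit 5) (nat_lit 53) (nat_lit 5) (nat_lit 337) (nat_lit 293) (nat_lit 90)))) (XT.nd (nat_lit 188) (nat_lit 336) (nat_lit 0) (XT.nd (nat_lit 94) (nat_lit 168) (nat_lit 0) (XT.lf (nat_lit 0) (nat_lit 84370093349) (nat_lit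 252) (nat_lit 53588817092) (nat_lit 84) (nat_lit 53424723312) (nat_lit 50) (nat_lit 5) (nat_lit 53) (nat_lit 5) (nat_lit 51) (nat_lit 5) (nat_lit 338) (nat_lit 293) (nat_lit 89)) (XT.lf (nat_lit 0) (nat_lit 69990138560) (nat_lit 168) (nat_lit 70155210922) (nat_lit 252) (nat_lit 57250149238) (nat_lit 48) (nat_lit 5) (nat_lit 50) (nat_lit 5) (nat_lit 51) (nat_lit 5) (nat_lit 339) (nat_lit 293) (nat_lit 88))) (XT.nd (nat_lit 94) (nat_lit 336) (nat_lit 0) (XT.lf (nat_lit 0) (nat_lit 199647690168) (nat_lit 252) (nat_lit 2085725028) (nat_lit 84) (nat_lit 1927625652) (nat_lit 48) (nat_lit 5) (nat_lit 51) (nat_lit 5) (nat_lit 49) (nat_lit 4) (nat_lit 340) (nat_lit 293) (nat_lit 87)) (XT.nd (nat_lit 94) (nat_lit 168) (nat_lit 0) (XT.lf (nat_lit 0) (nat_lit 53497345140) (nat_lit 168) (nat_lit 78348660195) (nat_lit 84) (nat_lit 78189715481) (nat_lit 46) (nat_lit 5) (nat_lit 48) (nat_lit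 5) (nat_lit 47) (nat_lit 5) (nat_lit 341) (nat_lit 293) (nat_lit 86)) (XT.lf (nat_lit 0) (nat_lit 57259260970) (nat_lit 168) (nat_lit 57419010765) (nat_lit 252) (nat_lit 102001094872) (nat_lit 44) (nat_lit 5) (nat_lit 46) (nat_lit 5) (nat_lit 47) (nat_lit 5) (nat_lit 342) (nat_lit 293) (nat_lit 85))))))) (XT.nd (nat_lit 40890) (nat_lit 0) (nat_lit 7056) (XT.nd (nat_lit 376) (nat_lit 84) (nat_lit 0) (XT.nd (nat_lit 188) (nat_lit 168) (nat_lit 0) (XT.nd (nat_lit 94) (nat_lit 168) (nat_lit 0) (XT.lf (nat_lit 0) (nat_lit 180590206172) (nat_lit 252) (nat_lit 21567131667) (nat_lit 84) (nat_lit 21414258772) (nat_lit 44) (nat_lit 5) (nat_lit 47) (nat_lit 5) (nat_lit 45) (nat_lit 4) (nat_lit 343) (nat_lit 293) (nat_lit 84)) (XT.lf (nat_lit 0) (nat_lit 21341833042) (nat_lit 168) (nat_lit 104728667061) (nat_lit 84) (nat_lit 104575098705) (nat_lit 42) (nat_lit 5) (nat_lit 44) (nat_lit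 5) (nat_lit 43) (nat_lit 5) (nat_lit 344) (nat_lit 293) (nat_lit 83))) (XT.nd (nat_lit 94) (nat_lit 0) (nat_lit 0) (XT.lf (nat_lit 0) (nat_lit 44171559755) (nat_lit 168) (nat_lit 44325790454) (nat_lit 252) (nat_lit 149487690802) (nat_lit 40) (nat_lit 5) (nat_lit 42) (nat_lit 5) (nat_lit 43) (nat_lit 5) (nat_lit 345) (nat_lit 293) (nat_lit 82)) (XT.lf (nat_lit 0) (nat_lit 161461088989) (nat_lit 252) (nat_lit 42127665597) (nat_lit 84) (nat_lit 41980178452) (nat_lit 40) (nat_lit 5) (nat_lit 43) (nat_lit 5) (nat_lit 41) (nat_lit 4) (nat_lit 346) (nat_lit 293) (nat_lit 81)))) (XT.nd (nat_lit 40326) (nat_lit 0) (nat_lit 7476) (XT.nd (nat_lit 40232) (nat_lit 0) (nat_lit 7476) (XT.lf (nat_lit 0) (nat_lit 120264499553) (nat_lit 84) (nat_lit 120412558855) (nat_lit 168) (nat_lit 12724759074) (nat_lit 39) (nat_lit 5) (nat_lit 40) (nat_lit 5) (nat_lit 41) (nat_lit 4) (nat_lit 347) (nat_lit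 293) (nat_lit 80)) (XT.lf (nat_lit 0) (nat_lit 13159415371) (nat_lit 924) (nat_lit 7562674914) (nat_lit 924) (nat_lit 7562674914) (nat_lit 128) (nat_lit 3) (nat_lit 139) (nat_lit 3) (nat_lit 139) (nat_lit 5) (nat_lit 294) (nat_lit 294) (nat_lit 132))) (XT.nd (nat_lit 94) (nat_lit 0) (nat_lit 84) (XT.lf (nat_lit 84) (nat_lit 13594525073) (nat_lit 0) (nat_lit 13614677809) (nat_lit 924) (nat_lit 30762945711) (nat_lit 129) (nat_lit 5) (nat_lit 128) (nat_lit 3) (nat_lit 139) (nat_lit 5) (nat_lit 295) (nat_lit 294) (nat_lit 131)) (XT.lf (nat_lit 0) (nat_lit 28646814531) (nat_lit 840) (nat_lit 15405209663) (nat_lit 924) (nat_lit 15367737455) (nat_lit 129) (nat_lit 5) (nat_lit 139) (nat_lit 5) (nat_lit 140) (nat_lit 5) (nat_lit 296) (nat_lit 294) (nat_lit 130))))) (XT.nd (nat_lit 376) (nat_lit 504) (nat_lit 0) (XT.nd (nat_lit 188) (nat_lit 0) (nat_lit 84) (XT.nd (nat_lit 94) (nat_lit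 0) (nat_lit 84) (XT.lf (nat_lit 84) (nat_lit 15280983106) (nat_lit 0) (nat_lit 15335864005) (nat_lit 924) (nat_lit 30299881229) (nat_lit 130) (nat_lit 5) (nat_lit 129) (nat_lit 5) (nat_lit 140) (nat_lit 5) (nat_lit 297) (nat_lit 294) (nat_lit 129)) (XT.lf (nat_lit 0) (nat_lit 33180698205) (nat_lit 840) (nat_lit 14675568518) (nat_lit 924) (nat_lit 14607510799) (nat_lit 130) (nat_lit 5) (nat_lit 140) (nat_lit 5) (nat_lit 141) (nat_lit 5) (nat_lit 298) (nat_lit 294) (nat_lit 128))) (XT.nd (nat_lit 94) (nat_lit 0) (nat_lit 84) (XT.lf (nat_lit 84) (nat_lit 18161744754) (nat_lit 0) (nat_lit 18244840755) (nat_lit 924) (nat_lit 27654901471) (nat_lit 131) (nat_lit 5) (nat_lit 130) (nat_lit 5) (nat_lit 141) (nat_lit 5) (nat_lit 299) (nat_lit 294) (nat_lit 127)) (XT.lf (nat_lit 0) (nat_lit 40245886845) (nat_lit 840) (nat_lit 12781684149) (nat_lit 924) (nat_lit 12688904935) (nat_lit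 131) (nat_lit 5) (nat_lit 141) (nat_lit 5) (nat_lit 142) (nat_lit 5) (nat_lit 300) (nat_lit 294) (nat_lit 126)))) (XT.nd (nat_lit 188) (nat_lit 672) (nat_lit 0) (XT.nd (nat_lit 94) (nat_lit 0) (nat_lit 84) (XT.lf (nat_lit 84) (nat_lit 22409667623) (nat_lit 0) (nat_lit 22515437471) (nat_lit 924) (nat_lit 22496711637) (nat_lit 132) (nat_lit 5) (nat_lit 131) (nat_lit 5) (nat_lit 142) (nat_lit 5) (nat_lit 301) (nat_lit 294) (nat_lit 125)) (XT.lf (nat_lit 0) (nat_lit 50205985656) (nat_lit 840) (nat_lit 9550284962) (nat_lit 924) (nat_lit 9437768886) (nat_lit 132) (nat_lit 5) (nat_lit 142) (nat_lit 5) (nat_lit 143) (nat_lit 5) (nat_lit 302) (nat_lit 294) (nat_lit 124))) (XT.nd (nat_lit 94) (nat_lit 756) (nat_lit 0) (XT.lf (nat_lit 84) (nat_lit 28217952455) (nat_lit 0) (nat_lit 28341690328) (nat_lit 924) (nat_lit 14454794005) (nat_lit 133) (nat_lit 5) (nat_lit 132) (nat_lit 5) (nat_lit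 143) (nat_lit 5) (nat_lit 303) (nat_lit 294) (nat_lit 123)) (XT.nd (nat_lit 94) (nat_lit 840) (nat_lit 0) (XT.lf (nat_lit 0) (nat_lit 63466973573) (nat_lit 840) (nat_lit 4787552459) (nat_lit 84) (nat_lit 4659528364) (nat_lit 133) (nat_lit 5) (nat_lit 143) (nat_lit 5) (nat_lit 134) (nat_lit 5) (nat_lit 304) (nat_lit 294) (nat_lit 122)) (XT.lf (nat_lit 0) (nat_lit 35802344689) (nat_lit 840) (nat_lit 35940062594) (nat_lit 924) (nat_lit 3115108783) (nat_lit 123) (nat_lit 5) (nat_lit 133) (nat_lit 5) (nat_lit 134) (nat_lit 5) (nat_lit 305) (nat_lit 294) (nat_lit 121))))))))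
noncomputable def xc219 : XT := (XT.nd (nat_lit 1598) (nat_lit 2352) (nat_lit 0) (XT.nd (nat_lit 752) (nat_lit 2016) (nat_lit 0) (XT.nd (nat_lit 376) (nat_lit 756) (nat_lit 0) (XT.nd (nat_lit 188) (nat_lit 420) (nat_lit 0) (XT.nd (nat_lit 94) (nat_lit 0) (nat_lit 0) (XT.lf (nat_lit 0) (nat_lit 1690691556) (nat_lit 504) (nat_lit 1837641662) (nat_lit 588) (nat_lit 73361661029) (nat_lit 116) (nat_lit 5) (nat_lit 122) (nat_lit 5) (nat_lit 123) (nat_lit 5) (nat_lit 306) (nat_lit 294) (nat_lit 120)) (XT.lf (nat_lit 0) (nat_lit 11601073659) (nat_lit 588) (nat_lit 33754352474) (nat_lit 84) (nat_lit 33606026114) (nat_lit 116) (nat_lit 5) (nat_lit 123) (nat_lit 5) (nat_lit 117) (nat_lit 5) (nat_lit 307) (nat_lit 294) (nat_lit 119))) (XT.nd (nat_lit 94) (nat_lit 0) (nat_lit 0) (XT.lf (nat_lit 0) (nat_lit 10053734239) (nat_lit 420) (nat_lit 10210035721) (nat_lit 504) (nat_lit 60863397247)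 (nat_lit 111) (nat_lit 5) (nat_lit 116) (nat_lit 5) (nat_lit 117) (nat_lit 5) (nat_lit 308) (nat_lit 294) (nat_lit 118)) (XT.lf (nat_lit 0) (nat_lit 30356616807) (nat_lit 504) (nat_lit 26575396273) (nat_lit 84) (nat_lit 26419304048) (nat_lit 111) (nat_lit 5) (nat_lit 117) (nat_lit 5) (nat_lit 112) (nat_lit 5) (nat_lit 309) (nat_lit 294) (nat_lit 117)))) (XT.nd (nat_lit 188) (nat_lit 336) (nat_lit 0) (XT.nd (nat_lit 94) (nat_lit 0) (nat_lit 0) (XT.lf (nat_lit 0) (nat_lit 20640018945) (nat_lit 420) (nat_lit 20803000381) (nat_lit 504) (nat_lit 44219209551) (nat_lit 106) (nat_lit 5) (nat_lit 111) (nat_lit 5) (nat_lit 112) (nat_lit 5) (nat_lit 310) (nat_lit 294) (nat_lit 116)) (XT.lf (nat_lit 0) (nat_lit 53807981763) (nat_lit 504) (nat_lit 17202980797) (nat_lit 84) (nat_lit 17041511666) (nat_lit 106) (nat_lit 5) (nat_lit 112) (nat_lit 5) (nat_lit 107) (nat_lit 5) (nat_lit 311)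 (nat_lit 294) (nat_lit 115))) (XT.nd (nat_lit 94) (nat_lit 0) (nat_lit 0) (XT.lf (nat_lit 0) (nat_lit 33745504158) (nat_lit 336) (nat_lit 33912924449) (nat_lit 420) (nat_lit 22860441419) (nat_lit 102) (nat_lit 5) (nat_lit 106) (nat_lit 5) (nat_lit 107) (nat_lit 5) (nat_lit 312) (nat_lit 294) (nat_lit 114)) (XT.lf (nat_lit 0) (nat_lit 82575563643) (nat_lit 420) (nat_lit 5339579728) (nat_lit 84) (nat_lit 5174733955) (nat_lit 102) (nat_lit 5) (nat_lit 107) (nat_lit 5) (nat_lit 103) (nat_lit 5) (nat_lit 313) (nat_lit 294) (nat_lit 113))))) (XT.nd (nat_lit 376) (nat_lit 924) (nat_lit 0) (XT.nd (nat_lit 188) (nat_lit 336) (nat_lit 0) (XT.nd (nat_lit 94) (nat_lit 336) (nat_lit 0) (XT.lf (nat_lit 0) (nat_lit 3723853275) (nat_lit 420) (nat_lit 46083000220) (nat_lit 84) (nat_lit 45913013613) (nat_lit 97) (nat_lit 5) (nat_lit 102) (nat_lit 5) (nat_lit 98) (nat_lit 5) (nat_lit 314)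 (nat_lit 294) (nat_lit 112)) (XT.lf (nat_lit 0) (nat_lit 9190245617) (nat_lit 336) (nat_lit 9365128258) (nat_lit 420) (nat_lit 79905624457) (nat_lit 93) (nat_lit 5) (nat_lit 97) (nat_lit 5) (nat_lit 98) (nat_lit 5) (nat_lit 315) (nat_lit 294) (nat_lit 111))) (XT.nd (nat_lit 94) (nat_lit 336) (nat_lit 0) (XT.lf (nat_lit 0) (nat_lit 35437879869) (nat_lit 420) (nat_lit 33003415760) (nat_lit 84) (nat_lit 32832420018) (nat_lit 93) (nat_lit 5) (nat_lit 98) (nat_lit 5) (nat_lit 94) (nat_lit 5) (nat_lit 316) (nat_lit 294) (nat_lit 110)) (XT.lf (nat_lit 0) (nat_lit 26780184273) (nat_lit 336) (nat_lit 26955409393) (nat_lit 420) (nat_lit 50462921038) (nat_lit 89) (nat_lit 5) (nat_lit 93) (nat_lit 5) (nat_lit 94) (nat_lit 5) (nat_lit 317) (nat_lit 294) (nat_lit 109)))) (XT.nd (nat_lit 188) (nat_lit 672) (nat_lit 0) (XT.nd (nat_lit 94) (nat_lit 252) (nat_lit 0) (XT.lf (nat_lit 0) (nat_lit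 73774987048) (nat_lit 420) (nat_lit 16811972104) (nat_lit 84) (nat_lit 16641254868) (nat_lit 89) (nat_lit 5) (nat_lit 94) (nat_lit 5) (nat_lit 90) (nat_lit 5) (nat_lit 318) (nat_lit 294) (nat_lit 108)) (XT.lf (nat_lit 0) (nat_lit 47915725660) (nat_lit 252) (nat_lit 48090096392) (nat_lit 336) (nat_lit 14344102650) (nat_lit 86) (nat_lit 5) (nat_lit 89) (nat_lit 5) (nat_lit 90) (nat_lit 5) (nat_lit 319) (nat_lit 294) (nat_lit 107))) (XT.nd (nat_lit 94) (nat_lit 252) (nat_lit 0) (XT.lf (nat_lit 0) (nat_lit 2846425392) (nat_lit 336) (nat_lit 3024275643) (nat_lit 420) (nat_lit 107735888540) (nat_lit 81) (nat_lit 5) (nat_lit 85) (nat_lit 5) (nat_lit 86) (nat_lit 5) (nat_lit 320) (nat_lit 294) (nat_lit 106)) (XT.nd (nat_lit 94) (nat_lit 252) (nat_lit 0) (XT.lf (nat_lit 0) (nat_lit 28379940514) (nat_lit 420) (nat_lit 44359319681) (nat_lit 84) (nat_lit 44186782463) (nat_lit 81) (nat_lit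 5) (nat_lit 86) (nat_lit 5) (nat_lit 82) (nat_lit 5) (nat_lit 321) (nat_lit 294) (nat_lit 105)) (XT.lf (nat_lit 0) (nat_lit 26148223100) (nat_lit 252) (nat_lit 26323766058) (nat_lit 336) (nat_lit 67916611874) (nat_lit 78) (nat_lit 5) (nat_lit 81) (nat_lit 5) (nat_lit 82) (nat_lit 5) (nat_lit 322) (nat_lit 294) (nat_lit 104))))))) (XT.nd (nat_lit 752) (nat_lit 1008) (nat_lit 0) (XT.nd (nat_lit 376) (nat_lit 756) (nat_lit 0) (XT.nd (nat_lit 188) (nat_lit 336) (nat_lit 0) (XT.nd (nat_lit 94) (nat_lit 252) (nat_lit 0) (XT.lf (nat_lit 0) (nat_lit 78881655529) (nat_lit 336) (nat_lit 22628445548) (nat_lit 84) (nat_lit 22458535485) (nat_lit 78) (nat_lit 5) (nat_lit 82) (nat_lit 5) (nat_lit 79) (nat_lit 5) (nat_lit 323) (nat_lit 294) (nat_lit 103)) (XT.lf (nat_lit 0) (nat_lit 53855613228) (nat_lit 252) (nat_lit 54028119763) (nat_lit 336) (nat_lit 19780344487) (nat_lit 75) (nat_lit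 5) (nat_lit 78) (nat_lit 5) (nat_lit 79) (nat_lit 5) (nat_lit 324) (nat_lit 294) (nat_lit 102))) (XT.nd (nat_lit 94) (nat_lit 0) (nat_lit 0) (XT.lf (nat_lit 0) (nat_lit 3420871647) (nat_lit 252) (nat_lit 3595851011) (nat_lit 336) (nat_lit 124500142310) (nat_lit 71) (nat_lit 5) (nat_lit 74) (nat_lit 5) (nat_lit 75) (nat_lit 5) (nat_lit 325) (nat_lit 294) (nat_lit 101)) (XT.lf (nat_lit 0) (nat_lit 36529550095) (nat_lit 336) (nat_lit 49541692738) (nat_lit 84) (nat_lit 49372802795) (nat_lit 71) (nat_lit 5) (nat_lit 75) (nat_lit 5) (nat_lit 72) (nat_lit 5) (nat_lit 326) (nat_lit 294) (nat_lit 100)))) (XT.nd (nat_lit 188) (nat_lit 504) (nat_lit 0) (XT.nd (nat_lit 94) (nat_lit 0) (nat_lit 0) (XT.lf (nat_lit 0) (nat_lit 33967930979) (nat_lit 252) (nat_lit 34138957045) (nat_lit 336) (nat_lit 71431253838) (nat_lit 68) (nat_lit 5) (nat_lit 71) (nat_lit 5) (nat_lit 72) (nat_lit 5) (nat_lit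 327) (nat_lit 294) (nat_lit 99)) (XT.lf (nat_lit 0) (nat_lit 102433796669) (nat_lit 336) (nat_lit 20754715271) (nat_lit 84) (nat_lit 20589895778) (nat_lit 68) (nat_lit 5) (nat_lit 72) (nat_lit 5) (nat_lit 69) (nat_lit 5) (nat_lit 328) (nat_lit 294) (nat_lit 98))) (XT.nd (nat_lit 94) (nat_lit 336) (nat_lit 0) (XT.lf (nat_lit 0) (nat_lit 69981127376) (nat_lit 168) (nat_lit 70147792133) (nat_lit 252) (nat_lit 8019173918) (nat_lit 66) (nat_lit 5) (nat_lit 68) (nat_lit 5) (nat_lit 69) (nat_lit 5) (nat_lit 329) (nat_lit 294) (nat_lit 97)) (XT.lf (nat_lit 0) (nat_lit 13252298665) (nat_lit 252) (nat_lit 13420720816) (nat_lit 336) (nat_lit 126013999399) (nat_lit 62) (nat_lit 5) (nat_lit 65) (nat_lit 5) (nat_lit 66) (nat_lit 5) (nat_lit 330) (nat_lit 294) (nat_lit 96))))) (XT.nd (nat_lit 376) (nat_lit 588) (nat_lit 0) (XT.nd (nat_lit 188) (nat_lit 252) (nat_lit 0) (XT.nd (nat_lit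 94) (nat_lit 168) (nat_lit 0) (XT.lf (nat_lit 0) (nat_lit 64895860262) (nat_lit 336) (nat_lit 46304588290) (nat_lit 84) (nat_lit 46142592234) (nat_lit 62) (nat_lit 5) (nat_lit 66) (nat_lit 5) (nat_lit 63) (nat_lit 5) (nat_lit 331) (nat_lit 294) (nat_lit 95)) (XT.lf (nat_lit 0) (nat_lit 52956388546) (nat_lit 168) (nat_lit 53119902705) (nat_lit 252) (nat_lit 56103250127) (nat_lit 60) (nat_lit 5) (nat_lit 62) (nat_lit 5) (nat_lit 63) (nat_lit 5) (nat_lit 332) (nat_lit 294) (nat_lit 94))) (XT.nd (nat_lit 94) (nat_lit 252) (nat_lit 0) (XT.lf (nat_lit 0) (nat_lit 150235222993) (nat_lit 252) (nat_lit 8566887391) (nat_lit 84) (nat_lit 8409782657) (nat_lit 60) (nat_lit 5) (nat_lit 63) (nat_lit 5) (nat_lit 61) (nat_lit 5) (nat_lit 333) (nat_lit 294) (nat_lit 93)) (XT.lf (nat_lit 0) (nat_lit 25797319651) (nat_lit 252) (nat_lit 73357504463) (nat_lit 84) (nat_lit 73199088334) (nat_lit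 57) (nat_lit 5) (nat_lit 60) (nat_lit 5) (nat_lit 58) (nat_lit 5) (nat_lit 334) (nat_lit 294) (nat_lit 92)))) (XT.nd (nat_lit 188) (nat_lit 420) (nat_lit 0) (XT.nd (nat_lit 94) (nat_lit 0) (nat_lit 0) (XT.lf (nat_lit 0) (nat_lit 35339343938) (nat_lit 168) (nat_lit 35499009014) (nat_lit 252) (nat_lit 106865820992) (nat_lit 55) (nat_lit 5) (nat_lit 57) (nat_lit 5) (nat_lit 58) (nat_lit 5) (nat_lit 335) (nat_lit 294) (nat_lit 91)) (XT.lf (nat_lit 0) (nat_lit 119883114440) (nat_lit 252) (nat_lit 31752222529) (nat_lit 84) (nat_lit 31599027721) (nat_lit 55) (nat_lit 5) (nat_lit 58) (nat_lit 5) (nat_lit 56) (nat_lit 5) (nat_lit 336) (nat_lit 294) (nat_lit 90))) (XT.nd (nat_lit 94) (nat_lit 252) (nat_lit 0) (XT.lf (nat_lit 0) (nat_lit 86579611990) (nat_lit 168) (nat_lit 86733885685) (nat_lit 252) (nat_lit 15630898114) (nat_lit 53) (nat_lit 5) (nat_lit 55) (nat_lit 5) (nat_lit 56)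 (nat_lit 5) (nat_lit 337) (nat_lit 294) (nat_lit 89)) (XT.nd (nat_lit 94) (nat_lit 0) (nat_lit 0) (XT.lf (nat_lit 0) (nat_lit 17014309894) (nat_lit 168) (nat_lit 17169611101) (nat_lit 252) (nat_lit 160688500523) (nat_lit 50) (nat_lit 5) (nat_lit 52) (nat_lit 5) (nat_lit 53) (nat_lit 5) (nat_lit 338) (nat_lit 294) (nat_lit 88)) (XT.lf (nat_lit 0) (nat_lit 88598216616) (nat_lit 252) (nat_lit 56251477895) (nat_lit 84) (nat_lit 56102639999) (nat_lit 50) (nat_lit 5) (nat_lit 53) (nat_lit 5) (nat_lit 51) (nat_lit 5) (nat_lit 339) (nat_lit 294) (nat_lit 87))))))))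
noncomputable def xc220 : XT := (XT.nd (nat_lit 41924) (nat_lit 0) (nat_lit 3444) (XT.nd (nat_lit 41078) (nat_lit 0) (nat_lit 7392) (XT.nd (nat_lit 376) (nat_lit 336) (nat_lit 0) (XT.nd (nat_lit 188) (nat_lit 336) (nat_lit 0) (XT.nd (nat_lit 94) (nat_lit 0) (nat_lit 0) (XT.lf (nat_lit 0) (nat_lit 73506154893) (nat_lit 168) (nat_lit 73655880392) (nat_lit 252) (nat_lit 60102767454) (nat_lit 48) (nat_lit 5) (nat_lit 50) (nat_lit 5) (nat_lit 51) (nat_lit 5) (nat_lit 340) (nat_lit 294) (nat_lit 86)) (XT.lf (nat_lit 0) (nat_lit 209639149953) (nat_lit 252) (nat_lit 2173944984) (nat_lit 84) (nat_lit 2030544189) (nat_lit 48) (nat_lit 5) (nat_lit 51) (nat_lit 5) (nat_lit 49) (nat_lit 4) (nat_lit 341) (nat_lit 294) (nat_lit 85))) (XT.nd (nat_lit 94) (nat_lit 168) (nat_lit 0) (XT.lf (nat_lit 0) (nat_lit 56181248048) (nat_lit 168) (nat_lit 82249987283) (nat_lit 84) (nat_lit 82105819743)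 (nat_lit 46) (nat_lit 5) (nat_lit 48) (nat_lit 5) (nat_lit 47) (nat_lit 5) (nat_lit 342) (nat_lit 294) (nat_lit 84)) (XT.lf (nat_lit 0) (nat_lit 60138070166) (nat_lit 168) (nat_lit 60282967940) (nat_lit 252) (nat_lit 107091854191) (nat_lit 44) (nat_lit 5) (nat_lit 46) (nat_lit 5) (nat_lit 47) (nat_lit 5) (nat_lit 343) (nat_lit 294) (nat_lit 83)))) (XT.nd (nat_lit 188) (nat_lit 168) (nat_lit 0) (XT.nd (nat_lit 94) (nat_lit 168) (nat_lit 0) (XT.lf (nat_lit 0) (nat_lit 189628251691) (nat_lit 252) (nat_lit 22630079106) (nat_lit 84) (nat_lit 22491418884) (nat_lit 44) (nat_lit 5) (nat_lit 47) (nat_lit 5) (nat_lit 45) (nat_lit 4) (nat_lit 344) (nat_lit 294) (nat_lit 82)) (XT.lf (nat_lit 0) (nat_lit 22417427304) (nat_lit 168) (nat_lit 109949658669) (nat_lit 84) (nat_lit 109810367643) (nat_lit 42) (nat_lit 5) (nat_lit 44) (nat_lit 5) (nat_lit 43) (nat_lit 5) (nat_lit 345) (nat_lit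 294) (nat_lit 81))) (XT.nd (nat_lit 40420) (nat_lit 0) (nat_lit 7392) (XT.lf (nat_lit 0) (nat_lit 46395330427) (nat_lit 168) (nat_lit 46535222217) (nat_lit 252) (nat_lit 156953323672) (nat_lit 40) (nat_lit 5) (nat_lit 42) (nat_lit 5) (nat_lit 43) (nat_lit 5) (nat_lit 346) (nat_lit 294) (nat_lit 80)) (XT.lf (nat_lit 0) (nat_lit 13837224236) (nat_lit 924) (nat_lit 7930393660) (nat_lit 924) (nat_lit 7930393660) (nat_lit 128) (nat_lit 3) (nat_lit 139) (nat_lit 3) (nat_lit 139) (nat_lit 5) (nat_lit 295) (nat_lit 295) (nat_lit 130))))) (XT.nd (nat_lit 376) (nat_lit 0) (nat_lit 168) (XT.nd (nat_lit 188) (nat_lit 0) (nat_lit 84) (XT.nd (nat_lit 94) (nat_lit 0) (nat_lit 84) (XT.lf (nat_lit 84) (nat_lit 14294745359) (nat_lit 0) (nat_lit 14313024485) (nat_lit 924) (nat_lit 32261080837) (nat_lit 129) (nat_lit 5) (nat_lit 128) (nat_lit 3) (nat_lit 139) (nat_lit 5) (nat_lit 296) (nat_lit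 295) (nat_lit 129)) (XT.lf (nat_lit 0) (nat_lit 30115185574) (nat_lit 840) (nat_lit 16153875519) (nat_lit 924) (nat_lit 16119887122) (nat_lit 129) (nat_lit 5) (nat_lit 139) (nat_lit 5) (nat_lit 140) (nat_lit 5) (nat_lit 297) (nat_lit 295) (nat_lit 128))) (XT.nd (nat_lit 94) (nat_lit 0) (nat_lit 84) (XT.lf (nat_lit 84) (nat_lit 16066278588) (nat_lit 0) (nat_lit 16116057182) (nat_lit 924) (nat_lit 31778496673) (nat_lit 130) (nat_lit 5) (nat_lit 129) (nat_lit 5) (nat_lit 140) (nat_lit 5) (nat_lit 298) (nat_lit 295) (nat_lit 127)) (XT.lf (nat_lit 0) (nat_lit 34872530345) (nat_lit 840) (nat_lit 15387263275) (nat_lit 924) (nat_lit 15325532917) (nat_lit 130) (nat_lit 5) (nat_lit 140) (nat_lit 5) (nat_lit 141) (nat_lit 5) (nat_lit 299) (nat_lit 295) (nat_lit 126)))) (XT.nd (nat_lit 188) (nat_lit 0) (nat_lit 84) (XT.nd (nat_lit 94) (nat_lit 0) (nat_lit 84) (XT.lf (nat_lit 84) (nat_lit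 19091559473) (nat_lit 0) (nat_lit 19166929996) (nat_lit 924) (nat_lit 29004493127) (nat_lit 131) (nat_lit 5) (nat_lit 130) (nat_lit 5) (nat_lit 141) (nat_lit 5) (nat_lit 300) (nat_lit 295) (nat_lit 125)) (XT.lf (nat_lit 0) (nat_lit 42288105893) (nat_lit 840) (nat_lit 13398425539) (nat_lit 924) (nat_lit 13314272057) (nat_lit 131) (nat_lit 5) (nat_lit 141) (nat_lit 5) (nat_lit 142) (nat_lit 5) (nat_lit 301) (nat_lit 295) (nat_lit 124))) (XT.nd (nat_lit 94) (nat_lit 0) (nat_lit 84) (XT.lf (nat_lit 84) (nat_lit 23552133453) (nat_lit 0) (nat_lit 23648069823) (nat_lit 924) (nat_lit 23591262145) (nat_lit 132) (nat_lit 5) (nat_lit 131) (nat_lit 5) (nat_lit 142) (nat_lit 5) (nat_lit 302) (nat_lit 295) (nat_lit 123)) (XT.nd (nat_lit 94) (nat_lit 0) (nat_lit 0) (XT.lf (nat_lit 0) (nat_lit 52743652383) (nat_lit 840) (nat_lit 10005388061) (nat_lit 924) (nat_lit 9903332663) (nat_lit 132)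 (nat_lit 5) (nat_lit 142) (nat_lit 5) (nat_lit 143) (nat_lit 5) (nat_lit 303) (nat_lit 295) (nat_lit 122)) (XT.lf (nat_lit 84) (nat_lit 29650899757) (nat_lit 0) (nat_lit 29763133655) (nat_lit 924) (nat_lit 15149804791) (nat_lit 133) (nat_lit 5) (nat_lit 132) (nat_lit 5) (nat_lit 143) (nat_lit 5) (nat_lit 304) (nat_lit 295) (nat_lit 121))))))) (XT.nd (nat_lit 752) (nat_lit 2100) (nat_lit 0) (XT.nd (nat_lit 376) (nat_lit 840) (nat_lit 0) (XT.nd (nat_lit 188) (nat_lit 588) (nat_lit 0) (XT.nd (nat_lit 94) (nat_lit 840) (nat_lit 0) (XT.lf (nat_lit 0) (nat_lit 66665408382) (nat_lit 840) (nat_lit 5004608028) (nat_lit 84) (nat_lit 4888486400) (nat_lit 133) (nat_lit 5) (nat_lit 143) (nat_lit 5) (nat_lit 134) (nat_lit 5) (nat_lit 305) (nat_lit 295) (nat_lit 120)) (XT.lf (nat_lit 0) (nat_lit 37614423944) (nat_lit 840) (nat_lit 37739338144) (nat_lit 924) (nat_lit 3245418059) (nat_lit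 123) (nat_lit 5) (nat_lit 133) (nat_lit 5) (nat_lit 134) (nat_lit 5) (nat_lit 306) (nat_lit 295) (nat_lit 119))) (XT.nd (nat_lit 94) (nat_lit 0) (nat_lit 0) (XT.lf (nat_lit 0) (nat_lit 1797635229) (nat_lit 504) (nat_lit 1930923307) (nat_lit 588) (nat_lit 77004744991) (nat_lit 116) (nat_lit 5) (nat_lit 122) (nat_lit 5) (nat_lit 123) (nat_lit 5) (nat_lit 307) (nat_lit 295) (nat_lit 118)) (XT.lf (nat_lit 0) (nat_lit 12203781443) (nat_lit 588) (nat_lit 35419573547) (nat_lit 84) (nat_lit 35285037166) (nat_lit 116) (nat_lit 5) (nat_lit 123) (nat_lit 5) (nat_lit 117) (nat_lit 5) (nat_lit 308) (nat_lit 295) (nat_lit 117)))) (XT.nd (nat_lit 188) (nat_lit 420) (nat_lit 0) (XT.nd (nat_lit 94) (nat_lit 0) (nat_lit 0) (XT.lf (nat_lit 0) (nat_lit 10578554655) (nat_lit 420) (nat_lit 10720324707) (nat_lit 504) (nat_lit 63883550161) (nat_lit 111) (nat_lit 5) (nat_lit 116) (nat_lit 5) (nat_lit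 117) (nat_lit 5) (nat_lit 309) (nat_lit 295) (nat_lit 116)) (XT.lf (nat_lit 0) (nat_lit 31895327862) (nat_lit 504) (nat_lit 27882045681) (nat_lit 84) (nat_lit 27740465431) (nat_lit 111) (nat_lit 5) (nat_lit 117) (nat_lit 5) (nat_lit 112) (nat_lit 5) (nat_lit 310) (nat_lit 295) (nat_lit 115))) (XT.nd (nat_lit 94) (nat_lit 0) (nat_lit 0) (XT.lf (nat_lit 0) (nat_lit 21693783518) (nat_lit 420) (nat_lit 21841612485) (nat_lit 504) (nat_lit 46408933033) (nat_lit 106) (nat_lit 5) (nat_lit 111) (nat_lit 5) (nat_lit 112) (nat_lit 5) (nat_lit 311) (nat_lit 295) (nat_lit 114)) (XT.lf (nat_lit 0) (nat_lit 56517666300) (nat_lit 504) (nat_lit 18041462314) (nat_lit 84) (nat_lit 17895005051) (nat_lit 106) (nat_lit 5) (nat_lit 112) (nat_lit 5) (nat_lit 107) (nat_lit 5) (nat_lit 312) (nat_lit 295) (nat_lit 113))))) (XT.nd (nat_lit 376) (nat_lit 1008) (nat_lit 0) (XT.nd (nat_lit 188) (nat_lit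 756) (nat_lit 0) (XT.nd (nat_lit 94) (nat_lit 0) (nat_lit 0) (XT.lf (nat_lit 0) (nat_lit 35454097414) (nat_lit 336) (nat_lit 35605952553) (nat_lit 420) (nat_lit 23983828565) (nat_lit 102) (nat_lit 5) (nat_lit 106) (nat_lit 5) (nat_lit 107) (nat_lit 5) (nat_lit 313) (nat_lit 295) (nat_lit 112)) (XT.lf (nat_lit 0) (nat_lit 86722190210) (nat_lit 420) (nat_lit 5585404269) (nat_lit 84) (nat_lit 5435884294) (nat_lit 102) (nat_lit 5) (nat_lit 107) (nat_lit 5) (nat_lit 103) (nat_lit 5) (nat_lit 314) (nat_lit 295) (nat_lit 111))) (XT.nd (nat_lit 94) (nat_lit 336) (nat_lit 0) (XT.lf (nat_lit 0) (nat_lit 3927653344) (nat_lit 420) (nat_lit 48365754807) (nat_lit 84) (nat_lit 48211571943) (nat_lit 97) (nat_lit 5) (nat_lit 102) (nat_lit 5) (nat_lit 98) (nat_lit 5) (nat_lit 315) (nat_lit 295) (nat_lit 110)) (XT.lf (nat_lit 0) (nat_lit 9670808235) (nat_lit 336) (nat_lit 9829431946) (nat_lit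 420) (nat_lit 83882953187) (nat_lit 93) (nat_lit 5) (nat_lit 97) (nat_lit 5) (nat_lit 98) (nat_lit 5) (nat_lit 316) (nat_lit 295) (nat_lit 109)))) (XT.nd (nat_lit 188) (nat_lit 672) (nat_lit 0) (XT.nd (nat_lit 94) (nat_lit 336) (nat_lit 0) (XT.lf (nat_lit 0) (nat_lit 37226116077) (nat_lit 420) (nat_lit 34632783210) (nat_lit 84) (nat_lit 34477685032) (nat_lit 93) (nat_lit 5) (nat_lit 98) (nat_lit 5) (nat_lit 94) (nat_lit 5) (nat_lit 317) (nat_lit 295) (nat_lit 108)) (XT.lf (nat_lit 0) (nat_lit 28139661287) (nat_lit 336) (nat_lit 28298595636) (nat_lit 420) (nat_lit 52969389337) (nat_lit 89) (nat_lit 5) (nat_lit 93) (nat_lit 5) (nat_lit 94) (nat_lit 5) (nat_lit 318) (nat_lit 295) (nat_lit 107))) (XT.nd (nat_lit 94) (nat_lit 672) (nat_lit 0) (XT.lf (nat_lit 0) (nat_lit 77478931778) (nat_lit 420) (nat_lit 17632389370) (nat_lit 84) (nat_lit 17477543804) (nat_lit 89) (nat_lit 5)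 (nat_lit 94) (nat_lit 5) (nat_lit 90) (nat_lit 5) (nat_lit 319) (nat_lit 295) (nat_lit 106)) (XT.nd (nat_lit 94) (nat_lit 420) (nat_lit 0) (XT.lf (nat_lit 0) (nat_lit 50331367777) (nat_lit 252) (nat_lit 50489527171) (nat_lit 336) (nat_lit 15045786899) (nat_lit 86) (nat_lit 5) (nat_lit 89) (nat_lit 5) (nat_lit 90) (nat_lit 5) (nat_lit 320) (nat_lit 295) (nat_lit 105)) (XT.lf (nat_lit 0) (nat_lit 3008770993) (nat_lit 336) (nat_lit 3170086414) (nat_lit 420) (nat_lit 113107330582) (nat_lit 81) (nat_lit 5) (nat_lit 85) (nat_lit 5) (nat_lit 86) (nat_lit 5) (nat_lit 321) (nat_lit 295) (nat_lit 104))))))))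
noncomputable def xc221 : XT := (XT.nd (nat_lit 1598) (nat_lit 924) (nat_lit 0) (XT.nd (nat_lit 752) (nat_lit 1260) (nat_lit 0) (XT.nd (nat_lit 376) (nat_lit 588) (nat_lit 0) (XT.nd (nat_lit 188) (nat_lit 252) (nat_lit 0) (XT.nd (nat_lit 94) (nat_lit 252) (nat_lit 0) (XT.lf (nat_lit 0) (nat_lit 29812942945) (nat_lit 420) (nat_lit 46557598959) (nat_lit 84) (nat_lit 46401102616) (nat_lit 81) (nat_lit 5) (nat_lit 86) (nat_lit 5) (nat_lit 82) (nat_lit 5) (nat_lit 322) (nat_lit 295) (nat_lit 103)) (XT.lf (nat_lit 0) (nat_lit 27475003434) (nat_lit 252) (nat_lit 27634226071) (nat_lit 336) (nat_lit 71298119534) (nat_lit 78) (nat_lit 5) (nat_lit 81) (nat_lit 5) (nat_lit 82) (nat_lit 5) (nat_lit 323) (nat_lit 295) (nat_lit 102))) (XT.nd (nat_lit 94) (nat_lit 252) (nat_lit 0) (XT.lf (nat_lit 0) (nat_lit 82838814803) (nat_lit 336) (nat_lit 23740856599) (nat_lit 84) (nat_lit 23586743162)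 (nat_lit 78) (nat_lit 5) (nat_lit 82) (nat_lit 5) (nat_lit 79) (nat_lit 5) (nat_lit 324) (nat_lit 295) (nat_lit 101)) (XT.lf (nat_lit 0) (nat_lit 56567098484) (nat_lit 252) (nat_lit 56723566996) (nat_lit 336) (nat_lit 20755978580) (nat_lit 75) (nat_lit 5) (nat_lit 78) (nat_lit 5) (nat_lit 79) (nat_lit 5) (nat_lit 325) (nat_lit 295) (nat_lit 100)))) (XT.nd (nat_lit 188) (nat_lit 252) (nat_lit 0) (XT.nd (nat_lit 94) (nat_lit 0) (nat_lit 0) (XT.lf (nat_lit 0) (nat_lit 3610739572) (nat_lit 252) (nat_lit 3769451013) (nat_lit 336) (nat_lit 130711886043) (nat_lit 71) (nat_lit 5) (nat_lit 74) (nat_lit 5) (nat_lit 75) (nat_lit 5) (nat_lit 326) (nat_lit 295) (nat_lit 99)) (XT.lf (nat_lit 0) (nat_lit 38368149958) (nat_lit 336) (nat_lit 52000339995) (nat_lit 84) (nat_lit 51847151838) (nat_lit 71) (nat_lit 5) (nat_lit 75) (nat_lit 5) (nat_lit 72) (nat_lit 5) (nat_lit 327) (nat_lit 295)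 (nat_lit 98))) (XT.nd (nat_lit 94) (nat_lit 0) (nat_lit 0) (XT.lf (nat_lit 0) (nat_lit 35684467531) (nat_lit 252) (nat_lit 35839593214) (nat_lit 336) (nat_lit 74990396794) (nat_lit 68) (nat_lit 5) (nat_lit 71) (nat_lit 5) (nat_lit 72) (nat_lit 5) (nat_lit 328) (nat_lit 295) (nat_lit 97)) (XT.lf (nat_lit 0) (nat_lit 107566845419) (nat_lit 336) (nat_lit 21774705439) (nat_lit 84) (nat_lit 21625209300) (nat_lit 68) (nat_lit 5) (nat_lit 72) (nat_lit 5) (nat_lit 69) (nat_lit 5) (nat_lit 329) (nat_lit 295) (nat_lit 96))))) (XT.nd (nat_lit 376) (nat_lit 588) (nat_lit 0) (XT.nd (nat_lit 188) (nat_lit 168) (nat_lit 0) (XT.nd (nat_lit 94) (nat_lit 336) (nat_lit 0) (XT.lf (nat_lit 0) (nat_lit 73497643122) (nat_lit 168) (nat_lit 73648812969) (nat_lit 252) (nat_lit 8408487478) (nat_lit 66) (nat_lit 5) (nat_lit 68) (nat_lit 5) (nat_lit 69) (nat_lit 5) (nat_lit 330) (nat_lit 295) (nat_lit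 95)) (XT.lf (nat_lit 0) (nat_lit 13932458078) (nat_lit 252) (nat_lit 14085221934) (nat_lit 336) (nat_lit 132303139336) (nat_lit 62) (nat_lit 5) (nat_lit 65) (nat_lit 5) (nat_lit 66) (nat_lit 5) (nat_lit 331) (nat_lit 295) (nat_lit 94))) (XT.nd (nat_lit 94) (nat_lit 168) (nat_lit 0) (XT.lf (nat_lit 0) (nat_lit 68151235736) (nat_lit 336) (nat_lit 48602681583) (nat_lit 84) (nat_lit 48455746384) (nat_lit 62) (nat_lit 5) (nat_lit 66) (nat_lit 5) (nat_lit 63) (nat_lit 5) (nat_lit 332) (nat_lit 295) (nat_lit 93)) (XT.lf (nat_lit 0) (nat_lit 55621067707) (nat_lit 168) (nat_lit 55769379869) (nat_lit 252) (nat_lit 58897553783) (nat_lit 60) (nat_lit 5) (nat_lit 62) (nat_lit 5) (nat_lit 63) (nat_lit 5) (nat_lit 333) (nat_lit 295) (nat_lit 92)))) (XT.nd (nat_lit 188) (nat_lit 336) (nat_lit 0) (XT.nd (nat_lit 94) (nat_lit 252) (nat_lit 0) (XT.lf (nat_lit 0) (nat_lit 157756930357) (nat_lit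 252) (nat_lit 8978779325) (nat_lit 84) (nat_lit 8836280700) (nat_lit 60) (nat_lit 5) (nat_lit 63) (nat_lit 5) (nat_lit 61) (nat_lit 5) (nat_lit 334) (nat_lit 295) (nat_lit 91)) (XT.lf (nat_lit 0) (nat_lit 27097070376) (nat_lit 252) (nat_lit 77008865778) (nat_lit 84) (nat_lit 76865177679) (nat_lit 57) (nat_lit 5) (nat_lit 60) (nat_lit 5) (nat_lit 58) (nat_lit 5) (nat_lit 335) (nat_lit 295) (nat_lit 90))) (XT.nd (nat_lit 94) (nat_lit 168) (nat_lit 0) (XT.lf (nat_lit 0) (nat_lit 37122558690) (nat_lit 168) (nat_lit 37267379620) (nat_lit 252) (nat_lit 112198960946) (nat_lit 55) (nat_lit 5) (nat_lit 57) (nat_lit 5) (nat_lit 58) (nat_lit 5) (nat_lit 336) (nat_lit 295) (nat_lit 89)) (XT.nd (nat_lit 94) (nat_lit 168) (nat_lit 0) (XT.lf (nat_lit 0) (nat_lit 125886575343) (nat_lit 252) (nat_lit 33323997265) (nat_lit 84) (nat_lit 33185045058) (nat_lit 55) (nat_lit 5) (nat_lit 58) (nat_lit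 5) (nat_lit 56) (nat_lit 5) (nat_lit 337) (nat_lit 295) (nat_lit 88)) (XT.lf (nat_lit 0) (nat_lit 90924173554) (nat_lit 168) (nat_lit 91064104344) (nat_lit 252) (nat_lit 16402882412) (nat_lit 53) (nat_lit 5) (nat_lit 55) (nat_lit 5) (nat_lit 56) (nat_lit 5) (nat_lit 338) (nat_lit 295) (nat_lit 87))))))) (XT.nd (nat_lit 41172) (nat_lit 0) (nat_lit 7224) (XT.nd (nat_lit 376) (nat_lit 504) (nat_lit 0) (XT.nd (nat_lit 188) (nat_lit 168) (nat_lit 0) (XT.nd (nat_lit 94) (nat_lit 0) (nat_lit 0) (XT.lf (nat_lit 0) (nat_lit 17880656112) (nat_lit 168) (nat_lit 18021518885) (nat_lit 252) (nat_lit 168713414700) (nat_lit 50) (nat_lit 5) (nat_lit 52) (nat_lit 5) (nat_lit 53) (nat_lit 5) (nat_lit 339) (nat_lit 295) (nat_lit 86)) (XT.lf (nat_lit 0) (nat_lit 93036851800) (nat_lit 252) (nat_lit 59048831788) (nat_lit 84) (nat_lit 58913831430) (nat_lit 50) (nat_lit 5) (nat_lit 53) (nat_lit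 5) (nat_lit 51) (nat_lit 5) (nat_lit 340) (nat_lit 295) (nat_lit 85))) (XT.nd (nat_lit 94) (nat_lit 0) (nat_lit 0) (XT.lf (nat_lit 0) (nat_lit 77196437155) (nat_lit 168) (nat_lit 77332242596) (nat_lit 252) (nat_lit 63098935990) (nat_lit 48) (nat_lit 5) (nat_lit 50) (nat_lit 5) (nat_lit 51) (nat_lit 5) (nat_lit 341) (nat_lit 295) (nat_lit 84)) (XT.lf (nat_lit 0) (nat_lit 220129338994) (nat_lit 252) (nat_lit 2268069630) (nat_lit 84) (nat_lit 2138000881) (nat_lit 48) (nat_lit 5) (nat_lit 51) (nat_lit 5) (nat_lit 49) (nat_lit 4) (nat_lit 342) (nat_lit 295) (nat_lit 83)))) (XT.nd (nat_lit 188) (nat_lit 168) (nat_lit 0) (XT.nd (nat_lit 94) (nat_lit 168) (nat_lit 0) (XT.lf (nat_lit 0) (nat_lit 58998506052) (nat_lit 168) (nat_lit 86347878102) (nat_lit 84) (nat_lit 86217113893) (nat_lit 46) (nat_lit 5) (nat_lit 48) (nat_lit 5) (nat_lit 47) (nat_lit 5) (nat_lit 343) (nat_lit 295)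 (nat_lit 82)) (XT.lf (nat_lit 0) (nat_lit 63159346598) (nat_lit 168) (nat_lit 63290773150) (nat_lit 252) (nat_lit 112438015677) (nat_lit 44) (nat_lit 5) (nat_lit 46) (nat_lit 5) (nat_lit 47) (nat_lit 5) (nat_lit 344) (nat_lit 295) (nat_lit 81))) (XT.nd (nat_lit 94) (nat_lit 168) (nat_lit 0) (XT.lf (nat_lit 0) (nat_lit 199117405963) (nat_lit 252) (nat_lit 23747606514) (nat_lit 84) (nat_lit 23621837604) (nat_lit 44) (nat_lit 5) (nat_lit 47) (nat_lit 5) (nat_lit 45) (nat_lit 4) (nat_lit 345) (nat_lit 295) (nat_lit 80)) (XT.lf (nat_lit 0) (nat_lit 23546010788) (nat_lit 168) (nat_lit 115433135485) (nat_lit 84) (nat_lit 115306794419) (nat_lit 42) (nat_lit 5) (nat_lit 44) (nat_lit 5) (nat_lit 43) (nat_lit 5) (nat_lit 346) (nat_lit 295) (nat_lit 79))))) (XT.nd (nat_lit 376) (nat_lit 0) (nat_lit 168) (XT.nd (nat_lit 188) (nat_lit 0) (nat_lit 84) (XT.nd (nat_lit 94) (nat_lit 0) (nat_lit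 0) (XT.lf (nat_lit 0) (nat_lit 14547079185) (nat_lit 924) (nat_lit 8317466631) (nat_lit 924) (nat_lit 8317466631) (nat_lit 128) (nat_lit 3) (nat_lit 139) (nat_lit 3) (nat_lit 139) (nat_lit 5) (nat_lit 296) (nat_lit 296) (nat_lit 128)) (XT.lf (nat_lit 84) (nat_lit 15028071319) (nat_lit 0) (nat_lit 15044651025) (nat_lit 924) (nat_lit 33837842672) (nat_lit 129) (nat_lit 5) (nat_lit 128) (nat_lit 3) (nat_lit 139) (nat_lit 5) (nat_lit 297) (nat_lit 296) (nat_lit 127))) (XT.nd (nat_lit 94) (nat_lit 0) (nat_lit 0) (XT.lf (nat_lit 0) (nat_lit 31653625413) (nat_lit 840) (nat_lit 16941982332) (nat_lit 924) (nat_lit 16911153854) (nat_lit 129) (nat_lit 5) (nat_lit 139) (nat_lit 5) (nat_lit 140) (nat_lit 5) (nat_lit 298) (nat_lit 296) (nat_lit 126)) (XT.lf (nat_lit 84) (nat_lit 16888863562) (nat_lit 0) (nat_lit 16934014214) (nat_lit 924) (nat_lit 33334425028) (nat_lit 130) (nat_lit 5)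 (nat_lit 129) (nat_lit 5) (nat_lit 140) (nat_lit 5) (nat_lit 299) (nat_lit 296) (nat_lit 125)))) (XT.nd (nat_lit 188) (nat_lit 0) (nat_lit 84) (XT.nd (nat_lit 94) (nat_lit 0) (nat_lit 0) (XT.lf (nat_lit 0) (nat_lit 36645904917) (nat_lit 840) (nat_lit 16136595899) (nat_lit 924) (nat_lit 16080604645) (nat_lit 130) (nat_lit 5) (nat_lit 140) (nat_lit 5) (nat_lit 141) (nat_lit 5) (nat_lit 300) (nat_lit 296) (nat_lit 124)) (XT.lf (nat_lit 84) (nat_lit 20065844913) (nat_lit 0) (nat_lit 20134208199) (nat_lit 924) (nat_lit 30424646656) (nat_lit 131) (nat_lit 5) (nat_lit 130) (nat_lit 5) (nat_lit 141) (nat_lit 5) (nat_lit 301) (nat_lit 296) (nat_lit 123))) (XT.nd (nat_lit 94) (nat_lit 0) (nat_lit 0) (XT.lf (nat_lit 0) (nat_lit 44429653778) (nat_lit 840) (nat_lit 14048081223) (nat_lit 924) (nat_lit 13971751533) (nat_lit 131) (nat_lit 5) (nat_lit 141) (nat_lit 5) (nat_lit 142) (nat_lit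 5) (nat_lit 302) (nat_lit 296) (nat_lit 122)) (XT.nd (nat_lit 94) (nat_lit 0) (nat_lit 84) (XT.lf (nat_lit 84) (nat_lit 24749678855) (nat_lit 0) (nat_lit 24836695971) (nat_lit 924) (nat_lit 24743355797) (nat_lit 132) (nat_lit 5) (nat_lit 131) (nat_lit 5) (nat_lit 142) (nat_lit 5) (nat_lit 303) (nat_lit 296) (nat_lit 121)) (XT.lf (nat_lit 0) (nat_lit 55405658081) (nat_lit 840) (nat_lit 10485329891) (nat_lit 924) (nat_lit 10392762637) (nat_lit 132) (nat_lit 5) (nat_lit 142) (nat_lit 5) (nat_lit 143) (nat_lit 5) (nat_lit 304) (nat_lit 296) (nat_lit 120))))))))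
noncomputable def xc222 : XT := (XT.nd (nat_lit 1598) (nat_lit 2604) (nat_lit 0) (XT.nd (nat_lit 752) (nat_lit 1680) (nat_lit 0) (XT.nd (nat_lit 376) (nat_lit 840) (nat_lit 0) (XT.nd (nat_lit 188) (nat_lit 1344) (nat_lit 0) (XT.nd (nat_lit 94) (nat_lit 0) (nat_lit 84) (XT.lf (nat_lit 84) (nat_lit 31153444453) (nat_lit 0) (nat_lit 31255243908) (nat_lit 924) (nat_lit 15882144088) (nat_lit 133) (nat_lit 5) (nat_lit 132) (nat_lit 5) (nat_lit 143) (nat_lit 5) (nat_lit 305) (nat_lit 296) (nat_lit 119)) (XT.lf (nat_lit 0) (nat_lit 70021432661) (nat_lit 840) (nat_lit 5234591668) (nat_lit 84) (nat_lit 5129265928) (nat_lit 133) (nat_lit 5) (nat_lit 143) (nat_lit 5) (nat_lit 134) (nat_lit 5) (nat_lit 306) (nat_lit 296) (nat_lit 118))) (XT.nd (nat_lit 94) (nat_lit 588) (nat_lit 0) (XT.lf (nat_lit 0) (nat_lit 39515065342) (nat_lit 840) (nat_lit 39628366204) (nat_lit 924) (nat_lit 3384608542)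 (nat_lit 123) (nat_lit 5) (nat_lit 133) (nat_lit 5) (nat_lit 134) (nat_lit 5) (nat_lit 307) (nat_lit 296) (nat_lit 117)) (XT.lf (nat_lit 0) (nat_lit 1907842700) (nat_lit 504) (nat_lit 2028738916) (nat_lit 588) (nat_lit 80832307329) (nat_lit 116) (nat_lit 5) (nat_lit 122) (nat_lit 5) (nat_lit 123) (nat_lit 5) (nat_lit 308) (nat_lit 296) (nat_lit 116)))) (XT.nd (nat_lit 188) (nat_lit 420) (nat_lit 0) (XT.nd (nat_lit 94) (nat_lit 420) (nat_lit 0) (XT.lf (nat_lit 0) (nat_lit 12834518452) (nat_lit 588) (nat_lit 37170147189) (nat_lit 84) (nat_lit 37048118725) (nat_lit 116) (nat_lit 5) (nat_lit 123) (nat_lit 5) (nat_lit 117) (nat_lit 5) (nat_lit 309) (nat_lit 296) (nat_lit 115)) (XT.lf (nat_lit 0) (nat_lit 11127558309) (nat_lit 420) (nat_lit 11256147926) (nat_lit 504) (nat_lit 67056850619) (nat_lit 111) (nat_lit 5) (nat_lit 116) (nat_lit 5) (nat_lit 117) (nat_lit 5) (nat_lit 310)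 (nat_lit 296) (nat_lit 114))) (XT.nd (nat_lit 94) (nat_lit 420) (nat_lit 0) (XT.lf (nat_lit 0) (nat_lit 33509033225) (nat_lit 504) (nat_lit 29256084105) (nat_lit 84) (nat_lit 29127666644) (nat_lit 111) (nat_lit 5) (nat_lit 117) (nat_lit 5) (nat_lit 112) (nat_lit 5) (nat_lit 311) (nat_lit 296) (nat_lit 113)) (XT.lf (nat_lit 0) (nat_lit 22798212944) (nat_lit 420) (nat_lit 22932298174) (nat_lit 504) (nat_lit 48710117104) (nat_lit 106) (nat_lit 5) (nat_lit 111) (nat_lit 5) (nat_lit 112) (nat_lit 5) (nat_lit 312) (nat_lit 296) (nat_lit 112))))) (XT.nd (nat_lit 376) (nat_lit 924) (nat_lit 0) (XT.nd (nat_lit 188) (nat_lit 420) (nat_lit 0) (XT.nd (nat_lit 94) (nat_lit 336) (nat_lit 0) (XT.lf (nat_lit 0) (nat_lit 59361042085) (nat_lit 504) (nat_lit 18923882347) (nat_lit 84) (nat_lit 18791041293) (nat_lit 106) (nat_lit 5) (nat_lit 112) (nat_lit 5) (nat_lit 107) (nat_lit 5) (nat_lit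 313) (nat_lit 296) (nat_lit 111)) (XT.lf (nat_lit 0) (nat_lit 37246138382) (nat_lit 336) (nat_lit 37383875469) (nat_lit 420) (nat_lit 25165210538) (nat_lit 102) (nat_lit 5) (nat_lit 106) (nat_lit 5) (nat_lit 107) (nat_lit 5) (nat_lit 314) (nat_lit 296) (nat_lit 110))) (XT.nd (nat_lit 94) (nat_lit 420) (nat_lit 0) (XT.lf (nat_lit 0) (nat_lit 91074488733) (nat_lit 420) (nat_lit 5845486777) (nat_lit 84) (nat_lit 5709867752) (nat_lit 102) (nat_lit 5) (nat_lit 107) (nat_lit 5) (nat_lit 103) (nat_lit 5) (nat_lit 315) (nat_lit 296) (nat_lit 109)) (XT.lf (nat_lit 0) (nat_lit 4140006448) (nat_lit 420) (nat_lit 50764636266) (nat_lit 84) (nat_lit 50624787863) (nat_lit 97) (nat_lit 5) (nat_lit 102) (nat_lit 5) (nat_lit 98) (nat_lit 5) (nat_lit 316) (nat_lit 296) (nat_lit 108)))) (XT.nd (nat_lit 188) (nat_lit 588) (nat_lit 0) (XT.nd (nat_lit 94) (nat_lit 0) (nat_lit 0) (XT.lf (nat_lit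 0) (nat_lit 10173441924) (nat_lit 336) (nat_lit 10317318305) (nat_lit 420) (nat_lit 88060817405) (nat_lit 93) (nat_lit 5) (nat_lit 97) (nat_lit 5) (nat_lit 98) (nat_lit 5) (nat_lit 317) (nat_lit 296) (nat_lit 107)) (XT.lf (nat_lit 0) (nat_lit 39102244752) (nat_lit 420) (nat_lit 36345553130) (nat_lit 84) (nat_lit 36204874510) (nat_lit 93) (nat_lit 5) (nat_lit 98) (nat_lit 5) (nat_lit 94) (nat_lit 5) (nat_lit 318) (nat_lit 296) (nat_lit 106))) (XT.nd (nat_lit 94) (nat_lit 252) (nat_lit 0) (XT.lf (nat_lit 0) (nat_lit 29565209250) (nat_lit 336) (nat_lit 29709367389) (nat_lit 420) (nat_lit 55602731591) (nat_lit 89) (nat_lit 5) (nat_lit 93) (nat_lit 5) (nat_lit 94) (nat_lit 5) (nat_lit 319) (nat_lit 296) (nat_lit 105)) (XT.nd (nat_lit 94) (nat_lit 252) (nat_lit 0) (XT.lf (nat_lit 0) (nat_lit 81366661022) (nat_lit 420) (nat_lit 18495703768) (nat_lit 84) (nat_lit 18355254276) (nat_lit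 89) (nat_lit 5) (nat_lit 94) (nat_lit 5) (nat_lit 90) (nat_lit 5) (nat_lit 320) (nat_lit 296) (nat_lit 104)) (XT.lf (nat_lit 0) (nat_lit 52865945993) (nat_lit 252) (nat_lit 53009401225) (nat_lit 336) (nat_lit 15783998345) (nat_lit 86) (nat_lit 5) (nat_lit 89) (nat_lit 5) (nat_lit 90) (nat_lit 5) (nat_lit 321) (nat_lit 296) (nat_lit 103))))))) (XT.nd (nat_lit 752) (nat_lit 1092) (nat_lit 0) (XT.nd (nat_lit 376) (nat_lit 840) (nat_lit 0) (XT.nd (nat_lit 188) (nat_lit 252) (nat_lit 0) (XT.nd (nat_lit 94) (nat_lit 0) (nat_lit 0) (XT.lf (nat_lit 0) (nat_lit 3177372202) (nat_lit 336) (nat_lit 3323690043) (nat_lit 420) (nat_lit 118748772045) (nat_lit 81) (nat_lit 5) (nat_lit 85) (nat_lit 5) (nat_lit 86) (nat_lit 5) (nat_lit 322) (nat_lit 296) (nat_lit 102)) (XT.lf (nat_lit 0) (nat_lit 31316293408) (nat_lit 420) (nat_lit 48867622484) (nat_lit 84) (nat_lit 48725675688) (nat_lit 81)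 (nat_lit 5) (nat_lit 86) (nat_lit 5) (nat_lit 82) (nat_lit 5) (nat_lit 323) (nat_lit 296) (nat_lit 101))) (XT.nd (nat_lit 94) (nat_lit 0) (nat_lit 0) (XT.lf (nat_lit 0) (nat_lit 28866322021) (nat_lit 252) (nat_lit 29010741647) (nat_lit 336) (nat_lit 74850034188) (nat_lit 78) (nat_lit 5) (nat_lit 81) (nat_lit 5) (nat_lit 82) (nat_lit 5) (nat_lit 324) (nat_lit 296) (nat_lit 100)) (XT.lf (nat_lit 0) (nat_lit 86992616313) (nat_lit 336) (nat_lit 24910655686) (nat_lit 84) (nat_lit 24770870256) (nat_lit 78) (nat_lit 5) (nat_lit 82) (nat_lit 5) (nat_lit 79) (nat_lit 5) (nat_lit 325) (nat_lit 296) (nat_lit 99)))) (XT.nd (nat_lit 188) (nat_lit 252) (nat_lit 0) (XT.nd (nat_lit 94) (nat_lit 336) (nat_lit 0) (XT.lf (nat_lit 0) (nat_lit 59412419027) (nat_lit 252) (nat_lit 59554340579) (nat_lit 336) (nat_lit 21781638615) (nat_lit 75) (nat_lit 5) (nat_lit 78) (nat_lit 5) (nat_lit 79) (nat_lit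 5) (nat_lit 326) (nat_lit 296) (nat_lit 98)) (XT.lf (nat_lit 0) (nat_lit 3808350784) (nat_lit 252) (nat_lit 3952306740) (nat_lit 336) (nat_lit 137235450066) (nat_lit 71) (nat_lit 5) (nat_lit 74) (nat_lit 5) (nat_lit 75) (nat_lit 5) (nat_lit 327) (nat_lit 296) (nat_lit 97))) (XT.nd (nat_lit 94) (nat_lit 252) (nat_lit 0) (XT.lf (nat_lit 0) (nat_lit 40297552792) (nat_lit 336) (nat_lit 54583633747) (nat_lit 84) (nat_lit 54444687574) (nat_lit 71) (nat_lit 5) (nat_lit 75) (nat_lit 5) (nat_lit 72) (nat_lit 5) (nat_lit 328) (nat_lit 296) (nat_lit 96)) (XT.lf (nat_lit 0) (nat_lit 37485144425) (nat_lit 252) (nat_lit 37625847992) (nat_lit 336) (nat_lit 78728651568) (nat_lit 68) (nat_lit 5) (nat_lit 71) (nat_lit 5) (nat_lit 72) (nat_lit 5) (nat_lit 329) (nat_lit 296) (nat_lit 95))))) (XT.nd (nat_lit 376) (nat_lit 588) (nat_lit 0) (XT.nd (nat_lit 188) (nat_lit 336) (nat_lit 0) (XT.nd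 (nat_lit 94) (nat_lit 168) (nat_lit 0) (XT.lf (nat_lit 0) (nat_lit 112955490562) (nat_lit 336) (nat_lit 22847344932) (nat_lit 84) (nat_lit 22711747527) (nat_lit 68) (nat_lit 5) (nat_lit 72) (nat_lit 5) (nat_lit 69) (nat_lit 5) (nat_lit 330) (nat_lit 296) (nat_lit 94)) (XT.lf (nat_lit 0) (nat_lit 77188361447) (nat_lit 168) (nat_lit 77325476955) (nat_lit 252) (nat_lit 8818349370) (nat_lit 66) (nat_lit 5) (nat_lit 68) (nat_lit 5) (nat_lit 69) (nat_lit 5) (nat_lit 331) (nat_lit 296) (nat_lit 93))) (XT.nd (nat_lit 94) (nat_lit 0) (nat_lit 0) (XT.lf (nat_lit 0) (nat_lit 14644994342) (nat_lit 252) (nat_lit 14783555662) (nat_lit 336) (nat_lit 138907811011) (nat_lit 62) (nat_lit 5) (nat_lit 65) (nat_lit 5) (nat_lit 66) (nat_lit 5) (nat_lit 332) (nat_lit 296) (nat_lit 92)) (XT.lf (nat_lit 0) (nat_lit 71568396127) (nat_lit 336) (nat_lit 51017272694) (nat_lit 84) (nat_lit 50883998137)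 (nat_lit 62) (nat_lit 5) (nat_lit 66) (nat_lit 5) (nat_lit 63) (nat_lit 5) (nat_lit 333) (nat_lit 296) (nat_lit 91)))) (XT.nd (nat_lit 188) (nat_lit 420) (nat_lit 0) (XT.nd (nat_lit 94) (nat_lit 0) (nat_lit 0) (XT.lf (nat_lit 0) (nat_lit 58417413368) (nat_lit 168) (nat_lit 58551936871) (nat_lit 252) (nat_lit 61832582175) (nat_lit 60) (nat_lit 5) (nat_lit 62) (nat_lit 5) (nat_lit 63) (nat_lit 5) (nat_lit 334) (nat_lit 296) (nat_lit 90)) (XT.lf (nat_lit 0) (nat_lit 165653798386) (nat_lit 252) (nat_lit 9412795447) (nat_lit 84) (nat_lit 9283544993) (nat_lit 60) (nat_lit 5) (nat_lit 63) (nat_lit 5) (nat_lit 61) (nat_lit 5) (nat_lit 335) (nat_lit 296) (nat_lit 89))) (XT.nd (nat_lit 94) (nat_lit 168) (nat_lit 0) (XT.lf (nat_lit 0) (nat_lit 28460889648) (nat_lit 252) (nat_lit 80844330465) (nat_lit 84) (nat_lit 80714001124) (nat_lit 57) (nat_lit 5) (nat_lit 60) (nat_lit 5) (nat_lit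 58) (nat_lit 5) (nat_lit 336) (nat_lit 296) (nat_lit 88)) (XT.nd (nat_lit 94) (nat_lit 0) (nat_lit 0) (XT.lf (nat_lit 0) (nat_lit 38993423636) (nat_lit 168) (nat_lit 39124780489) (nat_lit 252) (nat_lit 117799701650) (nat_lit 55) (nat_lit 5) (nat_lit 57) (nat_lit 5) (nat_lit 58) (nat_lit 5) (nat_lit 337) (nat_lit 296) (nat_lit 87)) (XT.lf (nat_lit 0) (nat_lit 132189344184) (nat_lit 252) (nat_lit 34975833055) (nat_lit 84) (nat_lit 34849799307) (nat_lit 55) (nat_lit 5) (nat_lit 58) (nat_lit 5) (nat_lit 56) (nat_lit 5) (nat_lit 338) (nat_lit 296) (nat_lit 86))))))))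
noncomputable def xc223 : XT := (XT.nd (nat_lit 42206) (nat_lit 0) (nat_lit 3108) (XT.nd (nat_lit 41360) (nat_lit 0) (nat_lit 7056) (XT.nd (nat_lit 376) (nat_lit 336) (nat_lit 0) (XT.nd (nat_lit 188) (nat_lit 168) (nat_lit 0) (XT.nd (nat_lit 94) (nat_lit 252) (nat_lit 0) (XT.lf (nat_lit 0) (nat_lit 95484514627) (nat_lit 168) (nat_lit 95611435978) (nat_lit 252) (nat_lit 17214354781) (nat_lit 53) (nat_lit 5) (nat_lit 55) (nat_lit 5) (nat_lit 56) (nat_lit 5) (nat_lit 339) (nat_lit 296) (nat_lit 85)) (XT.lf (nat_lit 0) (nat_lit 18788866444) (nat_lit 168) (nat_lit 18916633132) (nat_lit 252) (nat_lit 177140458814) (nat_lit 50) (nat_lit 5) (nat_lit 52) (nat_lit 5) (nat_lit 53) (nat_lit 5) (nat_lit 340) (nat_lit 296) (nat_lit 84))) (XT.nd (nat_lit 94) (nat_lit 168) (nat_lit 0) (XT.lf (nat_lit 0) (nat_lit 97696607636) (nat_lit 252) (nat_lit 61987468388) (nat_lit 84) (nat_lit 61865019083)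 (nat_lit 50) (nat_lit 5) (nat_lit 53) (nat_lit 5) (nat_lit 51) (nat_lit 5) (nat_lit 341) (nat_lit 296) (nat_lit 83)) (XT.lf (nat_lit 0) (nat_lit 81069841342) (nat_lit 168) (nat_lit 81193020880) (nat_lit 252) (nat_lit 66245746883) (nat_lit 48) (nat_lit 5) (nat_lit 50) (nat_lit 5) (nat_lit 51) (nat_lit 5) (nat_lit 342) (nat_lit 296) (nat_lit 82)))) (XT.nd (nat_lit 188) (nat_lit 168) (nat_lit 0) (XT.nd (nat_lit 94) (nat_lit 168) (nat_lit 0) (XT.lf (nat_lit 0) (nat_lit 231143272197) (nat_lit 252) (nat_lit 2368255330) (nat_lit 84) (nat_lit 2250279141) (nat_lit 48) (nat_lit 5) (nat_lit 51) (nat_lit 5) (nat_lit 49) (nat_lit 4) (nat_lit 343) (nat_lit 296) (nat_lit 81)) (XT.lf (nat_lit 0) (nat_lit 61955865007) (nat_lit 168) (nat_lit 90652021626) (nat_lit 84) (nat_lit 90533414634) (nat_lit 46) (nat_lit 5) (nat_lit 48) (nat_lit 5) (nat_lit 47) (nat_lit 5) (nat_lit 344) (nat_lit 296)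 (nat_lit 80))) (XT.nd (nat_lit 40702) (nat_lit 0) (nat_lit 7056) (XT.lf (nat_lit 0) (nat_lit 66330350594) (nat_lit 168) (nat_lit 66449558351) (nat_lit 252) (nat_lit 118052269092) (nat_lit 44) (nat_lit 5) (nat_lit 46) (nat_lit 5) (nat_lit 47) (nat_lit 5) (nat_lit 345) (nat_lit 296) (nat_lit 79)) (XT.lf (nat_lit 0) (nat_lit 15290753994) (nat_lit 924) (nat_lit 8724771516) (nat_lit 924) (nat_lit 8724771516) (nat_lit 128) (nat_lit 3) (nat_lit 139) (nat_lit 3) (nat_lit 139) (nat_lit 5) (nat_lit 297) (nat_lit 297) (nat_lit 126))))) (XT.nd (nat_lit 376) (nat_lit 0) (nat_lit 168) (XT.nd (nat_lit 188) (nat_lit 0) (nat_lit 84) (XT.nd (nat_lit 94) (nat_lit 0) (nat_lit 84) (XT.lf (nat_lit 84) (nat_lit 15796335376) (nat_lit 0) (nat_lit 15811373659) (nat_lit 924) (nat_lit 35496816703) (nat_lit 129) (nat_lit 5) (nat_lit 128) (nat_lit 3) (nat_lit 139) (nat_lit 5) (nat_lit 298) (nat_lit 297)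 (nat_lit 125)) (XT.lf (nat_lit 0) (nat_lit 33265948915) (nat_lit 840) (nat_lit 17771315496) (nat_lit 924) (nat_lit 17743353157) (nat_lit 129) (nat_lit 5) (nat_lit 139) (nat_lit 5) (nat_lit 140) (nat_lit 5) (nat_lit 299) (nat_lit 297) (nat_lit 124))) (XT.nd (nat_lit 94) (nat_lit 0) (nat_lit 84) (XT.lf (nat_lit 84) (nat_lit 17750786146) (nat_lit 0) (nat_lit 17791739118) (nat_lit 924) (nat_lit 34971217501) (nat_lit 130) (nat_lit 5) (nat_lit 129) (nat_lit 5) (nat_lit 140) (nat_lit 5) (nat_lit 300) (nat_lit 297) (nat_lit 123)) (XT.lf (nat_lit 0) (nat_lit 38505182525) (nat_lit 840) (nat_lit 16925257405) (nat_lit 924) (nat_lit 16874471687) (nat_lit 130) (nat_lit 5) (nat_lit 140) (nat_lit 5) (nat_lit 141) (nat_lit 5) (nat_lit 301) (nat_lit 297) (nat_lit 122)))) (XT.nd (nat_lit 188) (nat_lit 0) (nat_lit 84) (XT.nd (nat_lit 94) (nat_lit 0) (nat_lit 84) (XT.lf (nat_lit 84) (nat_lit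 21087012411) (nat_lit 0) (nat_lit 21149019926) (nat_lit 924) (nat_lit 31918603589) (nat_lit 131) (nat_lit 5) (nat_lit 130) (nat_lit 5) (nat_lit 141) (nat_lit 5) (nat_lit 302) (nat_lit 297) (nat_lit 121)) (XT.lf (nat_lit 0) (nat_lit 46675755597) (nat_lit 840) (nat_lit 14732103793) (nat_lit 924) (nat_lit 14662870515) (nat_lit 131) (nat_lit 5) (nat_lit 141) (nat_lit 5) (nat_lit 142) (nat_lit 5) (nat_lit 303) (nat_lit 297) (nat_lit 120))) (XT.nd (nat_lit 94) (nat_lit 0) (nat_lit 84) (XT.lf (nat_lit 84) (nat_lit 26005247813) (nat_lit 0) (nat_lit 26084174902) (nat_lit 924) (nat_lit 25955607981) (nat_lit 132) (nat_lit 5) (nat_lit 131) (nat_lit 5) (nat_lit 142) (nat_lit 5) (nat_lit 304) (nat_lit 297) (nat_lit 119)) (XT.nd (nat_lit 94) (nat_lit 0) (nat_lit 0) (XT.lf (nat_lit 0) (nat_lit 58198456249) (nat_lit 840) (nat_lit 10991158677) (nat_lit 924) (nat_lit 10907197449) (nat_lit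 132) (nat_lit 5) (nat_lit 142) (nat_lit 5) (nat_lit 143) (nat_lit 5) (nat_lit 305) (nat_lit 297) (nat_lit 118)) (XT.lf (nat_lit 84) (nat_lit 32729257002) (nat_lit 0) (nat_lit 32821592108) (nat_lit 924) (nat_lit 16653438646) (nat_lit 133) (nat_lit 5) (nat_lit 132) (nat_lit 5) (nat_lit 143) (nat_lit 5) (nat_lit 306) (nat_lit 297) (nat_lit 117))))))) (XT.nd (nat_lit 752) (nat_lit 2100) (nat_lit 0) (XT.nd (nat_lit 376) (nat_lit 840) (nat_lit 0) (XT.nd (nat_lit 188) (nat_lit 588) (nat_lit 0) (XT.nd (nat_lit 94) (nat_lit 840) (nat_lit 0) (XT.lf (nat_lit 0) (nat_lit 73543142715) (nat_lit 840) (nat_lit 5477956842) (nat_lit 84) (nat_lit 5382423292) (nat_lit 133) (nat_lit 5) (nat_lit 143) (nat_lit 5) (nat_lit 134) (nat_lit 5) (nat_lit 307) (nat_lit 297) (nat_lit 116)) (XT.lf (nat_lit 0) (nat_lit 41508886818) (nat_lit 840) (nat_lit 41611654039) (nat_lit 924) (nat_lit 3532904347) (nat_lit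 123) (nat_lit 5) (nat_lit 133) (nat_lit 5) (nat_lit 134) (nat_lit 5) (nat_lit 308) (nat_lit 297) (nat_lit 115))) (XT.nd (nat_lit 94) (nat_lit 0) (nat_lit 0) (XT.lf (nat_lit 0) (nat_lit 2021670853) (nat_lit 504) (nat_lit 2131327285) (nat_lit 588) (nat_lit 84853355883) (nat_lit 116) (nat_lit 5) (nat_lit 122) (nat_lit 5) (nat_lit 123) (nat_lit 5) (nat_lit 309) (nat_lit 297) (nat_lit 114)) (XT.lf (nat_lit 0) (nat_lit 13494881959) (nat_lit 588) (nat_lit 39010146580) (nat_lit 84) (nat_lit 38899463166) (nat_lit 116) (nat_lit 5) (nat_lit 123) (nat_lit 5) (nat_lit 117) (nat_lit 5) (nat_lit 310) (nat_lit 297) (nat_lit 113)))) (XT.nd (nat_lit 188) (nat_lit 420) (nat_lit 0) (XT.nd (nat_lit 94) (nat_lit 0) (nat_lit 0) (XT.lf (nat_lit 0) (nat_lit 11702145677) (nat_lit 420) (nat_lit 11818780250) (nat_lit 504) (nat_lit 70390757049) (nat_lit 111) (nat_lit 5) (nat_lit 116) (nat_lit 5) (nat_lit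 117) (nat_lit 5) (nat_lit 311) (nat_lit 297) (nat_lit 112)) (XT.lf (nat_lit 0) (nat_lit 35201663090) (nat_lit 504) (nat_lit 30700689797) (nat_lit 84) (nat_lit 30584211375) (nat_lit 111) (nat_lit 5) (nat_lit 117) (nat_lit 5) (nat_lit 112) (nat_lit 5) (nat_lit 312) (nat_lit 297) (nat_lit 111))) (XT.nd (nat_lit 94) (nat_lit 0) (nat_lit 0) (XT.lf (nat_lit 0) (nat_lit 23956028579) (nat_lit 420) (nat_lit 24077647836) (nat_lit 504) (nat_lit 51128151231) (nat_lit 106) (nat_lit 5) (nat_lit 111) (nat_lit 5) (nat_lit 112) (nat_lit 5) (nat_lit 313) (nat_lit 297) (nat_lit 110)) (XT.lf (nat_lit 0) (nat_lit 62344960375) (nat_lit 504) (nat_lit 19852250539) (nat_lit 84) (nat_lit 19731759787) (nat_lit 106) (nat_lit 5) (nat_lit 112) (nat_lit 5) (nat_lit 107) (nat_lit 5) (nat_lit 314) (nat_lit 297) (nat_lit 109))))) (XT.nd (nat_lit 376) (nat_lit 1008) (nat_lit 0) (XT.nd (nat_lit 188) (nat_lit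 756) (nat_lit 0) (XT.nd (nat_lit 94) (nat_lit 0) (nat_lit 0) (XT.lf (nat_lit 0) (nat_lit 39125983711) (nat_lit 336) (nat_lit 39250915310) (nat_lit 420) (nat_lit 26407317364) (nat_lit 102) (nat_lit 5) (nat_lit 106) (nat_lit 5) (nat_lit 107) (nat_lit 5) (nat_lit 315) (nat_lit 297) (nat_lit 108)) (XT.lf (nat_lit 0) (nat_lit 95642897080) (nat_lit 420) (nat_lit 6120357301) (nat_lit 84) (nat_lit 5997346848) (nat_lit 102) (nat_lit 5) (nat_lit 107) (nat_lit 5) (nat_lit 103) (nat_lit 5) (nat_lit 316) (nat_lit 297) (nat_lit 107))) (XT.nd (nat_lit 94) (nat_lit 336) (nat_lit 0) (XT.lf (nat_lit 0) (nat_lit 4361492426) (nat_lit 420) (nat_lit 53285266010) (nat_lit 84) (nat_lit 53158419387) (nat_lit 97) (nat_lit 5) (nat_lit 102) (nat_lit 5) (nat_lit 98) (nat_lit 5) (nat_lit 317) (nat_lit 297) (nat_lit 106)) (XT.lf (nat_lit 0) (nat_lit 10699432185) (nat_lit 336) (nat_lit 10829932304) (nat_lit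 420) (nat_lit 92449088715) (nat_lit 93) (nat_lit 5) (nat_lit 97) (nat_lit 5) (nat_lit 98) (nat_lit 5) (nat_lit 318) (nat_lit 297) (nat_lit 105)))) (XT.nd (nat_lit 188) (nat_lit 672) (nat_lit 0) (XT.nd (nat_lit 94) (nat_lit 336) (nat_lit 0) (XT.lf (nat_lit 0) (nat_lit 41070801770) (nat_lit 420) (nat_lit 38145715829) (nat_lit 84) (nat_lit 38018116174) (nat_lit 93) (nat_lit 5) (nat_lit 98) (nat_lit 5) (nat_lit 94) (nat_lit 5) (nat_lit 319) (nat_lit 297) (nat_lit 104)) (XT.lf (nat_lit 0) (nat_lit 31060308622) (nat_lit 336) (nat_lit 31191064304) (nat_lit 420) (nat_lit 58369147342) (nat_lit 89) (nat_lit 5) (nat_lit 93) (nat_lit 5) (nat_lit 94) (nat_lit 5) (nat_lit 320) (nat_lit 297) (nat_lit 103))) (XT.nd (nat_lit 94) (nat_lit 672) (nat_lit 0) (XT.lf (nat_lit 0) (nat_lit 85447495348) (nat_lit 420) (nat_lit 19403885719) (nat_lit 84) (nat_lit 19276493889) (nat_lit 89) (nat_lit 5)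 (nat_lit 94) (nat_lit 5) (nat_lit 90) (nat_lit 5) (nat_lit 321) (nat_lit 297) (nat_lit 102)) (XT.nd (nat_lit 94) (nat_lit 420) (nat_lit 0) (XT.lf (nat_lit 0) (nat_lit 55525578736) (nat_lit 252) (nat_lit 55655696861) (nat_lit 336) (nat_lit 16560429194) (nat_lit 86) (nat_lit 5) (nat_lit 89) (nat_lit 5) (nat_lit 90) (nat_lit 5) (nat_lit 322) (nat_lit 297) (nat_lit 101)) (XT.lf (nat_lit 0) (nat_lit 3352714879) (nat_lit 336) (nat_lit 3485429475) (nat_lit 420) (nat_lit 124673580201) (nat_lit 81) (nat_lit 5) (nat_lit 85) (nat_lit 5) (nat_lit 86) (nat_lit 5) (nat_lit 323) (nat_lit 297) (nat_lit 100))))))))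
noncomputable def xc224 : XT := (XT.nd (nat_lit 1504) (nat_lit 756) (nat_lit 0) (XT.nd (nat_lit 752) (nat_lit 1092) (nat_lit 0) (XT.nd (nat_lit 376) (nat_lit 588) (nat_lit 0) (XT.nd (nat_lit 188) (nat_lit 252) (nat_lit 0) (XT.nd (nat_lit 94) (nat_lit 252) (nat_lit 0) (XT.lf (nat_lit 0) (nat_lit 32893630360) (nat_lit 420) (nat_lit 51294807307) (nat_lit 84) (nat_lit 51166057378) (nat_lit 81) (nat_lit 5) (nat_lit 86) (nat_lit 5) (nat_lit 82) (nat_lit 5) (nat_lit 324) (nat_lit 297) (nat_lit 99)) (XT.lf (nat_lit 0) (nat_lit 30325573193) (nat_lit 252) (nat_lit 30456566051) (nat_lit 336) (nat_lit 78580752385) (nat_lit 78) (nat_lit 5) (nat_lit 81) (nat_lit 5) (nat_lit 82) (nat_lit 5) (nat_lit 325) (nat_lit 297) (nat_lit 98))) (XT.nd (nat_lit 94) (nat_lit 252) (nat_lit 0) (XT.lf (nat_lit 0) (nat_lit 91353005196) (nat_lit 336) (nat_lit 26140547886) (nat_lit 84) (nat_lit 26013758381)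 (nat_lit 78) (nat_lit 5) (nat_lit 82) (nat_lit 5) (nat_lit 79) (nat_lit 5) (nat_lit 326) (nat_lit 297) (nat_lit 97)) (XT.lf (nat_lit 0) (nat_lit 62398428294) (nat_lit 252) (nat_lit 62527155326) (nat_lit 336) (nat_lit 22859710211) (nat_lit 75) (nat_lit 5) (nat_lit 78) (nat_lit 5) (nat_lit 79) (nat_lit 5) (nat_lit 327) (nat_lit 297) (nat_lit 96)))) (XT.nd (nat_lit 188) (nat_lit 252) (nat_lit 0) (XT.nd (nat_lit 94) (nat_lit 0) (nat_lit 0) (XT.lf (nat_lit 0) (nat_lit 4014255156) (nat_lit 252) (nat_lit 4144827451) (nat_lit 336) (nat_lit 144086310751) (nat_lit 71) (nat_lit 5) (nat_lit 74) (nat_lit 5) (nat_lit 75) (nat_lit 5) (nat_lit 328) (nat_lit 297) (nat_lit 95)) (XT.lf (nat_lit 0) (nat_lit 42322403526) (nat_lit 336) (nat_lit 57297646957) (nat_lit 84) (nat_lit 57171618681) (nat_lit 71) (nat_lit 5) (nat_lit 75) (nat_lit 5) (nat_lit 72) (nat_lit 5) (nat_lit 329) (nat_lit 297)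 (nat_lit 94))) (XT.nd (nat_lit 94) (nat_lit 0) (nat_lit 0) (XT.lf (nat_lit 0) (nat_lit 39374325471) (nat_lit 252) (nat_lit 39501947754) (nat_lit 336) (nat_lit 82654866399) (nat_lit 68) (nat_lit 5) (nat_lit 71) (nat_lit 5) (nat_lit 72) (nat_lit 5) (nat_lit 330) (nat_lit 297) (nat_lit 93)) (XT.lf (nat_lit 0) (nat_lit 118612610100) (nat_lit 336) (nat_lit 23975112834) (nat_lit 84) (nat_lit 23852121990) (nat_lit 68) (nat_lit 5) (nat_lit 72) (nat_lit 5) (nat_lit 69) (nat_lit 5) (nat_lit 331) (nat_lit 297) (nat_lit 92))))) (XT.nd (nat_lit 376) (nat_lit 420) (nat_lit 0) (XT.nd (nat_lit 188) (nat_lit 168) (nat_lit 0) (XT.nd (nat_lit 94) (nat_lit 336) (nat_lit 0) (XT.lf (nat_lit 0) (nat_lit 81062143392) (nat_lit 168) (nat_lit 81186511200) (nat_lit 252) (nat_lit 9249686356) (nat_lit 66) (nat_lit 5) (nat_lit 68) (nat_lit 5) (nat_lit 69) (nat_lit 5) (nat_lit 332) (nat_lit 297) (nat_lit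 91)) (XT.lf (nat_lit 0) (nat_lit 15391677945) (nat_lit 252) (nat_lit 15517357147) (nat_lit 336) (nat_lit 145843691094) (nat_lit 62) (nat_lit 5) (nat_lit 65) (nat_lit 5) (nat_lit 66) (nat_lit 5) (nat_lit 333) (nat_lit 297) (nat_lit 90))) (XT.nd (nat_lit 94) (nat_lit 168) (nat_lit 0) (XT.lf (nat_lit 0) (nat_lit 75155522151) (nat_lit 336) (nat_lit 53554038398) (nat_lit 84) (nat_lit 53433154447) (nat_lit 62) (nat_lit 5) (nat_lit 66) (nat_lit 5) (nat_lit 63) (nat_lit 5) (nat_lit 334) (nat_lit 297) (nat_lit 89)) (XT.lf (nat_lit 0) (nat_lit 61352154580) (nat_lit 168) (nat_lit 61474171363) (nat_lit 252) (nat_lit 64915277681) (nat_lit 60) (nat_lit 5) (nat_lit 62) (nat_lit 5) (nat_lit 63) (nat_lit 5) (nat_lit 335) (nat_lit 297) (nat_lit 88)))) (XT.nd (nat_lit 188) (nat_lit 168) (nat_lit 0) (XT.nd (nat_lit 94) (nat_lit 252) (nat_lit 0) (XT.lf (nat_lit 0) (nat_lit 173944671081) (nat_lit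 252) (nat_lit 9869899760) (nat_lit 84) (nat_lit 9752665788) (nat_lit 60) (nat_lit 5) (nat_lit 63) (nat_lit 5) (nat_lit 61) (nat_lit 5) (nat_lit 336) (nat_lit 297) (nat_lit 87)) (XT.lf (nat_lit 0) (nat_lit 29892066333) (nat_lit 252) (nat_lit 84872960955) (nat_lit 84) (nat_lit 84754748401) (nat_lit 57) (nat_lit 5) (nat_lit 60) (nat_lit 5) (nat_lit 58) (nat_lit 5) (nat_lit 337) (nat_lit 297) (nat_lit 86))) (XT.nd (nat_lit 94) (nat_lit 0) (nat_lit 0) (XT.lf (nat_lit 0) (nat_lit 40956461721) (nat_lit 168) (nat_lit 41075606259) (nat_lit 252) (nat_lit 123681335400) (nat_lit 55) (nat_lit 5) (nat_lit 57) (nat_lit 5) (nat_lit 58) (nat_lit 5) (nat_lit 338) (nat_lit 297) (nat_lit 85)) (XT.lf (nat_lit 0) (nat_lit 138806466789) (nat_lit 252) (nat_lit 36711596069) (nat_lit 84) (nat_lit 36597279745) (nat_lit 55) (nat_lit 5) (nat_lit 58) (nat_lit 5) (nat_lit 56) (nat_lit 5) (nat_lit 339)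 (nat_lit 297) (nat_lit 84)))))) (XT.nd (nat_lit 41454) (nat_lit 0) (nat_lit 6972) (XT.nd (nat_lit 376) (nat_lit 168) (nat_lit 0) (XT.nd (nat_lit 188) (nat_lit 168) (nat_lit 0) (XT.nd (nat_lit 94) (nat_lit 252) (nat_lit 0) (XT.lf (nat_lit 0) (nat_lit 100271558857) (nat_lit 168) (nat_lit 100386680264) (nat_lit 252) (nat_lit 18067206985) (nat_lit 53) (nat_lit 5) (nat_lit 55) (nat_lit 5) (nat_lit 56) (nat_lit 5) (nat_lit 340) (nat_lit 297) (nat_lit 83)) (XT.lf (nat_lit 0) (nat_lit 19741169201) (nat_lit 168) (nat_lit 19857057353) (nat_lit 252) (nat_lit 185989657156) (nat_lit 50) (nat_lit 5) (nat_lit 52) (nat_lit 5) (nat_lit 53) (nat_lit 5) (nat_lit 341) (nat_lit 297) (nat_lit 82))) (XT.nd (nat_lit 94) (nat_lit 168) (nat_lit 0) (XT.lf (nat_lit 0) (nat_lit 102588615565) (nat_lit 252) (nat_lit 65074320275) (nat_lit 84) (nat_lit 64963255146) (nat_lit 50) (nat_lit 5) (nat_lit 53)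 (nat_lit 5) (nat_lit 51) (nat_lit 5) (nat_lit 342) (nat_lit 297) (nat_lit 81)) (XT.lf (nat_lit 0) (nat_lit 85135652981) (nat_lit 168) (nat_lit 85247380453) (nat_lit 252) (nat_lit 69550654720) (nat_lit 48) (nat_lit 5) (nat_lit 50) (nat_lit 5) (nat_lit 51) (nat_lit 5) (nat_lit 343) (nat_lit 297) (nat_lit 80)))) (XT.nd (nat_lit 40890) (nat_lit 0) (nat_lit 6888) (XT.nd (nat_lit 94) (nat_lit 168) (nat_lit 0) (XT.lf (nat_lit 0) (nat_lit 242707207918) (nat_lit 252) (nat_lit 2474679180) (nat_lit 84) (nat_lit 2367671298) (nat_lit 48) (nat_lit 5) (nat_lit 51) (nat_lit 5) (nat_lit 49) (nat_lit 4) (nat_lit 344) (nat_lit 297) (nat_lit 79)) (XT.lf (nat_lit 0) (nat_lit 65060400800) (nat_lit 168) (nat_lit 95172604221) (nat_lit 84) (nat_lit 95065024183) (nat_lit 46) (nat_lit 5) (nat_lit 48) (nat_lit 5) (nat_lit 47) (nat_lit 5) (nat_lit 345) (nat_lit 297) (nat_lit 78))) (XT.nd (nat_lit 94)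 (nat_lit 0) (nat_lit 0) (XT.lf (nat_lit 0) (nat_lit 16070095186) (nat_lit 924) (nat_lit 9153238258) (nat_lit 924) (nat_lit 9153238258) (nat_lit 128) (nat_lit 3) (nat_lit 139) (nat_lit 3) (nat_lit 139) (nat_lit 5) (nat_lit 298) (nat_lit 298) (nat_lit 124)) (XT.lf (nat_lit 84) (nat_lit 16601445108) (nat_lit 0) (nat_lit 16615085273) (nat_lit 924) (nat_lit 37241799849) (nat_lit 129) (nat_lit 5) (nat_lit 128) (nat_lit 3) (nat_lit 139) (nat_lit 5) (nat_lit 299) (nat_lit 298) (nat_lit 123))))) (XT.nd (nat_lit 376) (nat_lit 0) (nat_lit 168) (XT.nd (nat_lit 188) (nat_lit 0) (nat_lit 84) (XT.nd (nat_lit 94) (nat_lit 0) (nat_lit 0) (XT.lf (nat_lit 0) (nat_lit 34956132738) (nat_lit 840) (nat_lit 18643767027) (nat_lit 924) (nat_lit 18618404362) (nat_lit 129) (nat_lit 5) (nat_lit 139) (nat_lit 5) (nat_lit 140) (nat_lit 5) (nat_lit 300) (nat_lit 298) (nat_lit 122)) (XT.lf (nat_lit 84)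 (nat_lit 18654179789) (nat_lit 0) (nat_lit 18691325342) (nat_lit 924) (nat_lit 36692632091) (nat_lit 130) (nat_lit 5) (nat_lit 129) (nat_lit 5) (nat_lit 140) (nat_lit 5) (nat_lit 301) (nat_lit 298) (nat_lit 121))) (XT.nd (nat_lit 94) (nat_lit 0) (nat_lit 0) (XT.lf (nat_lit 0) (nat_lit 40454915449) (nat_lit 840) (nat_lit 17755041101) (nat_lit 924) (nat_lit 17708976958) (nat_lit 130) (nat_lit 5) (nat_lit 140) (nat_lit 5) (nat_lit 141) (nat_lit 5) (nat_lit 302) (nat_lit 298) (nat_lit 120)) (XT.lf (nat_lit 84) (nat_lit 22157576412) (nat_lit 0) (nat_lit 22213819057) (nat_lit 924) (nat_lit 33489794178) (nat_lit 131) (nat_lit 5) (nat_lit 130) (nat_lit 5) (nat_lit 141) (nat_lit 5) (nat_lit 303) (nat_lit 298) (nat_lit 119)))) (XT.nd (nat_lit 188) (nat_lit 0) (nat_lit 84) (XT.nd (nat_lit 94) (nat_lit 0) (nat_lit 0) (XT.lf (nat_lit 0) (nat_lit 49031873653) (nat_lit 840) (nat_lit 15452036428)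 (nat_lit 924) (nat_lit 15389239804) (nat_lit 131) (nat_lit 5) (nat_lit 141) (nat_lit 5) (nat_lit 142) (nat_lit 5) (nat_lit 304) (nat_lit 298) (nat_lit 118)) (XT.lf (nat_lit 84) (nat_lit 27321913846) (nat_lit 0) (nat_lit 27393503042) (nat_lit 924) (nat_lit 27230789192) (nat_lit 132) (nat_lit 5) (nat_lit 131) (nat_lit 5) (nat_lit 142) (nat_lit 5) (nat_lit 305) (nat_lit 298) (nat_lit 117))) (XT.nd (nat_lit 94) (nat_lit 0) (nat_lit 0) (XT.lf (nat_lit 0) (nat_lit 61128801069) (nat_lit 840) (nat_lit 11523993066) (nat_lit 924) (nat_lit 11447837758) (nat_lit 132) (nat_lit 5) (nat_lit 142) (nat_lit 5) (nat_lit 143) (nat_lit 5) (nat_lit 306) (nat_lit 298) (nat_lit 116)) (XT.nd (nat_lit 94) (nat_lit 0) (nat_lit 84) (XT.lf (nat_lit 84) (nat_lit 34382173662) (nat_lit 0) (nat_lit 34465924325) (nat_lit 924) (nat_lit 17465418835) (nat_lit 133) (nat_lit 5) (nat_lit 132) (nat_lit 5) (nat_lit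 143) (nat_lit 5) (nat_lit 307) (nat_lit 298) (nat_lit 115)) (XT.lf (nat_lit 0) (nat_lit 77239019507) (nat_lit 840) (nat_lit 5735197624) (nat_lit 84) (nat_lit 5648545877) (nat_lit 133) (nat_lit 5) (nat_lit 143) (nat_lit 5) (nat_lit 134) (nat_lit 5) (nat_lit 308) (nat_lit 298) (nat_lit 114))))))))
noncomputable def xc225 : XT := (XT.nd (nat_lit 1598) (nat_lit 2604) (nat_lit 0) (XT.nd (nat_lit 752) (nat_lit 1764) (nat_lit 0) (XT.nd (nat_lit 376) (nat_lit 756) (nat_lit 0) (XT.nd (nat_lit 188) (nat_lit 420) (nat_lit 0) (XT.nd (nat_lit 94) (nat_lit 588) (nat_lit 0) (XT.lf (nat_lit 0) (nat_lit 43600719557) (nat_lit 840) (nat_lit 43693932456) (nat_lit 924) (nat_lit 3690561246) (nat_lit 123) (nat_lit 5) (nat_lit 133) (nat_lit 5) (nat_lit 134) (nat_lit 5) (nat_lit 309) (nat_lit 298) (nat_lit 113)) (XT.lf (nat_lit 0) (nat_lit 2139476407) (nat_lit 504) (nat_lit 2238938023) (nat_lit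 588) (nat_lit 89077368972) (nat_lit 116) (nat_lit 5) (nat_lit 122) (nat_lit 5) (nat_lit 123) (nat_lit 5) (nat_lit 310) (nat_lit 298) (nat_lit 112))) (XT.nd (nat_lit 94) (nat_lit 420) (nat_lit 0) (XT.lf (nat_lit 0) (nat_lit 14186530895) (nat_lit 588) (nat_lit 40943866636) (nat_lit 84) (nat_lit 40843473517) (nat_lit 116) (nat_lit 5) (nat_lit 123) (nat_lit 5) (nat_lit 117) (nat_lit 5) (nat_lit 311) (nat_lit 298) (nat_lit 111)) (XT.lf (nat_lit 0) (nat_lit 12303769472) (nat_lit 420) (nat_lit 12409560467) (nat_lit 504) (nat_lit 73893119301) (nat_lit 111) (nat_lit 5) (nat_lit 116) (nat_lit 5) (nat_lit 117) (nat_lit 5) (nat_lit 312) (nat_lit 298) (nat_lit 110)))) (XT.nd (nat_lit 188) (nat_lit 336) (nat_lit 0) (XT.nd (nat_lit 94) (nat_lit 420) (nat_lit 0) (XT.lf (nat_lit 0) (nat_lit 36977327382) (nat_lit 504) (nat_lit 32219217699) (nat_lit 84) (nat_lit 32113568337) (nat_lit 111)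 (nat_lit 5) (nat_lit 117) (nat_lit 5) (nat_lit 112) (nat_lit 5) (nat_lit 313) (nat_lit 298) (nat_lit 109)) (XT.lf (nat_lit 0) (nat_lit 25170070361) (nat_lit 420) (nat_lit 25280382612) (nat_lit 504) (nat_lit 53668711420) (nat_lit 106) (nat_lit 5) (nat_lit 111) (nat_lit 5) (nat_lit 112) (nat_lit 5) (nat_lit 314) (nat_lit 298) (nat_lit 108))) (XT.nd (nat_lit 94) (nat_lit 336) (nat_lit 0) (XT.lf (nat_lit 0) (nat_lit 65476599493) (nat_lit 504) (nat_lit 20828694427) (nat_lit 84) (nat_lit 20719405762) (nat_lit 106) (nat_lit 5) (nat_lit 112) (nat_lit 5) (nat_lit 107) (nat_lit 5) (nat_lit 315) (nat_lit 298) (nat_lit 107)) (XT.lf (nat_lit 0) (nat_lit 41098190752) (nat_lit 336) (nat_lit 41211507395) (nat_lit 420) (nat_lit 27713031349) (nat_lit 102) (nat_lit 5) (nat_lit 106) (nat_lit 5) (nat_lit 107) (nat_lit 5) (nat_lit 316) (nat_lit 298) (nat_lit 106))))) (XT.nd (nat_lit 376) (nat_lit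 1008) (nat_lit 0) (XT.nd (nat_lit 188) (nat_lit 336) (nat_lit 0) (XT.nd (nat_lit 94) (nat_lit 420) (nat_lit 0) (XT.lf (nat_lit 0) (nat_lit 100438360674) (nat_lit 420) (nat_lit 6410589393) (nat_lit 84) (nat_lit 6299015286) (nat_lit 102) (nat_lit 5) (nat_lit 107) (nat_lit 5) (nat_lit 103) (nat_lit 5) (nat_lit 317) (nat_lit 298) (nat_lit 105)) (XT.lf (nat_lit 0) (nat_lit 4592705965) (nat_lit 420) (nat_lit 55933563715) (nat_lit 84) (nat_lit 55818510088) (nat_lit 97) (nat_lit 5) (nat_lit 102) (nat_lit 5) (nat_lit 98) (nat_lit 5) (nat_lit 318) (nat_lit 298) (nat_lit 104))) (XT.nd (nat_lit 94) (nat_lit 0) (nat_lit 0) (XT.lf (nat_lit 0) (nat_lit 11250111880) (nat_lit 336) (nat_lit 11368479335) (nat_lit 420) (nat_lit 97058146724) (nat_lit 93) (nat_lit 5) (nat_lit 97) (nat_lit 5) (nat_lit 98) (nat_lit 5) (nat_lit 319) (nat_lit 298) (nat_lit 103)) (XT.lf (nat_lit 0) (nat_lit 43136536671)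 (nat_lit 420) (nat_lit 40037477849) (nat_lit 84) (nat_lit 39921741200) (nat_lit 93) (nat_lit 5) (nat_lit 98) (nat_lit 5) (nat_lit 94) (nat_lit 5) (nat_lit 320) (nat_lit 298) (nat_lit 102)))) (XT.nd (nat_lit 188) (nat_lit 672) (nat_lit 0) (XT.nd (nat_lit 94) (nat_lit 0) (nat_lit 0) (XT.lf (nat_lit 0) (nat_lit 32628597441) (nat_lit 336) (nat_lit 32747196699) (nat_lit 420) (nat_lit 61275159514) (nat_lit 89) (nat_lit 5) (nat_lit 93) (nat_lit 5) (nat_lit 94) (nat_lit 5) (nat_lit 321) (nat_lit 298) (nat_lit 101)) (XT.lf (nat_lit 0) (nat_lit 89731209140) (nat_lit 420) (nat_lit 20359020379) (nat_lit 84) (nat_lit 20243472233) (nat_lit 89) (nat_lit 5) (nat_lit 94) (nat_lit 5) (nat_lit 90) (nat_lit 5) (nat_lit 322) (nat_lit 298) (nat_lit 100))) (XT.nd (nat_lit 94) (nat_lit 420) (nat_lit 0) (XT.lf (nat_lit 0) (nat_lit 58316674402) (nat_lit 252) (nat_lit 58434695377) (nat_lit 336) (nat_lit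 17376868732) (nat_lit 86) (nat_lit 5) (nat_lit 89) (nat_lit 5) (nat_lit 90) (nat_lit 5) (nat_lit 323) (nat_lit 298) (nat_lit 99)) (XT.nd (nat_lit 94) (nat_lit 0) (nat_lit 0) (XT.lf (nat_lit 0) (nat_lit 3535293087) (nat_lit 336) (nat_lit 3655669138) (nat_lit 420) (nat_lit 130895803025) (nat_lit 81) (nat_lit 5) (nat_lit 85) (nat_lit 5) (nat_lit 86) (nat_lit 5) (nat_lit 324) (nat_lit 298) (nat_lit 98)) (XT.lf (nat_lit 0) (nat_lit 34548762927) (nat_lit 420) (nat_lit 53844857149) (nat_lit 84) (nat_lit 53728077168) (nat_lit 81) (nat_lit 5) (nat_lit 86) (nat_lit 5) (nat_lit 82) (nat_lit 5) (nat_lit 325) (nat_lit 298) (nat_lit 97))))))) (XT.nd (nat_lit 752) (nat_lit 1344) (nat_lit 0) (XT.nd (nat_lit 376) (nat_lit 420) (nat_lit 0) (XT.nd (nat_lit 188) (nat_lit 588) (nat_lit 0) (XT.nd (nat_lit 94) (nat_lit 0) (nat_lit 0) (XT.lf (nat_lit 0) (nat_lit 31856305432) (nat_lit 252) (nat_lit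 31975119816) (nat_lit 336) (nat_lit 82499102012) (nat_lit 78) (nat_lit 5) (nat_lit 81) (nat_lit 5) (nat_lit 82) (nat_lit 5) (nat_lit 326) (nat_lit 298) (nat_lit 96)) (XT.lf (nat_lit 0) (nat_lit 95930413341) (nat_lit 336) (nat_lit 27433388811) (nat_lit 84) (nat_lit 27318386992) (nat_lit 78) (nat_lit 5) (nat_lit 82) (nat_lit 5) (nat_lit 79) (nat_lit 5) (nat_lit 327) (nat_lit 298) (nat_lit 95))) (XT.nd (nat_lit 94) (nat_lit 336) (nat_lit 0) (XT.lf (nat_lit 0) (nat_lit 65532307365) (nat_lit 252) (nat_lit 65649066577) (nat_lit 336) (nat_lit 23992709023) (nat_lit 75) (nat_lit 5) (nat_lit 78) (nat_lit 5) (nat_lit 79) (nat_lit 5) (nat_lit 328) (nat_lit 298) (nat_lit 94)) (XT.lf (nat_lit 0) (nat_lit 4229014928) (nat_lit 252) (nat_lit 4347447849) (nat_lit 336) (nat_lit 151280728948) (nat_lit 71) (nat_lit 5) (nat_lit 74) (nat_lit 5) (nat_lit 75) (nat_lit 5) (nat_lit 329) (nat_lit 298)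 (nat_lit 93)))) (XT.nd (nat_lit 188) (nat_lit 168) (nat_lit 0) (XT.nd (nat_lit 94) (nat_lit 252) (nat_lit 0) (XT.lf (nat_lit 0) (nat_lit 44447569593) (nat_lit 336) (nat_lit 60148771048) (nat_lit 84) (nat_lit 60034459687) (nat_lit 71) (nat_lit 5) (nat_lit 75) (nat_lit 5) (nat_lit 72) (nat_lit 5) (nat_lit 330) (nat_lit 298) (nat_lit 92)) (XT.lf (nat_lit 0) (nat_lit 41356578094) (nat_lit 252) (nat_lit 41472335267) (nat_lit 336) (nat_lit 86778341921) (nat_lit 68) (nat_lit 5) (nat_lit 71) (nat_lit 5) (nat_lit 72) (nat_lit 5) (nat_lit 331) (nat_lit 298) (nat_lit 91))) (XT.nd (nat_lit 94) (nat_lit 168) (nat_lit 0) (XT.lf (nat_lit 0) (nat_lit 124551716803) (nat_lit 336) (nat_lit 25160626438) (nat_lit 84) (nat_lit 25049070117) (nat_lit 68) (nat_lit 5) (nat_lit 72) (nat_lit 5) (nat_lit 69) (nat_lit 5) (nat_lit 332) (nat_lit 298) (nat_lit 90)) (XT.lf (nat_lit 0) (nat_lit 85128279017)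 (nat_lit 168) (nat_lit 85241084285) (nat_lit 252) (nat_lit 9703480894) (nat_lit 66) (nat_lit 5) (nat_lit 68) (nat_lit 5) (nat_lit 69) (nat_lit 5) (nat_lit 333) (nat_lit 298) (nat_lit 89))))) (XT.nd (nat_lit 376) (nat_lit 840) (nat_lit 0) (XT.nd (nat_lit 188) (nat_lit 168) (nat_lit 0) (XT.nd (nat_lit 94) (nat_lit 0) (nat_lit 0) (XT.lf (nat_lit 0) (nat_lit 16174353803) (nat_lit 252) (nat_lit 16288348544) (nat_lit 336) (nat_lit 153127249374) (nat_lit 62) (nat_lit 5) (nat_lit 65) (nat_lit 5) (nat_lit 66) (nat_lit 5) (nat_lit 334) (nat_lit 298) (nat_lit 88)) (XT.lf (nat_lit 0) (nat_lit 78921195054) (nat_lit 336) (nat_lit 56218953079) (nat_lit 84) (nat_lit 56109307772) (nat_lit 62) (nat_lit 5) (nat_lit 66) (nat_lit 5) (nat_lit 63) (nat_lit 5) (nat_lit 335) (nat_lit 298) (nat_lit 87))) (XT.nd (nat_lit 94) (nat_lit 0) (nat_lit 0) (XT.lf (nat_lit 0) (nat_lit 64432343302) (nat_lit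 168) (nat_lit 64543016121) (nat_lit 252) (nat_lit 68152938524) (nat_lit 60) (nat_lit 5) (nat_lit 62) (nat_lit 5) (nat_lit 63) (nat_lit 5) (nat_lit 336) (nat_lit 298) (nat_lit 86)) (XT.lf (nat_lit 0) (nat_lit 182649326654) (nat_lit 252) (nat_lit 10351117687) (nat_lit 84) (nat_lit 10244783019) (nat_lit 60) (nat_lit 5) (nat_lit 63) (nat_lit 5) (nat_lit 61) (nat_lit 5) (nat_lit 337) (nat_lit 298) (nat_lit 85)))) (XT.nd (nat_lit 188) (nat_lit 420) (nat_lit 0) (XT.nd (nat_lit 94) (nat_lit 168) (nat_lit 0) (XT.lf (nat_lit 0) (nat_lit 31394045797) (nat_lit 252) (nat_lit 89104286071) (nat_lit 84) (nat_lit 88997063799) (nat_lit 57) (nat_lit 5) (nat_lit 60) (nat_lit 5) (nat_lit 58) (nat_lit 5) (nat_lit 338) (nat_lit 298) (nat_lit 84)) (XT.lf (nat_lit 0) (nat_lit 43016408983) (nat_lit 168) (nat_lit 43124476591) (nat_lit 252) (nat_lit 129857827266) (nat_lit 55) (nat_lit 5) (nat_lit 57)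 (nat_lit 5) (nat_lit 58) (nat_lit 5) (nat_lit 339) (nat_lit 298) (nat_lit 83))) (XT.nd (nat_lit 94) (nat_lit 420) (nat_lit 0) (XT.lf (nat_lit 0) (nat_lit 145753733798) (nat_lit 252) (nat_lit 38535358514) (nat_lit 84) (nat_lit 38431670238) (nat_lit 55) (nat_lit 5) (nat_lit 58) (nat_lit 5) (nat_lit 56) (nat_lit 5) (nat_lit 340) (nat_lit 298) (nat_lit 82)) (XT.nd (nat_lit 94) (nat_lit 252) (nat_lit 0) (XT.lf (nat_lit 0) (nat_lit 105296763556) (nat_lit 168) (nat_lit 105401182066) (nat_lit 252) (nat_lit 18963433062) (nat_lit 53) (nat_lit 5) (nat_lit 55) (nat_lit 5) (nat_lit 56) (nat_lit 5) (nat_lit 341) (nat_lit 298) (nat_lit 81)) (XT.lf (nat_lit 0) (nat_lit 20739891547) (nat_lit 168) (nat_lit 20845005517) (nat_lit 252) (nat_lit 195282042871) (nat_lit 50) (nat_lit 5) (nat_lit 52) (nat_lit 5) (nat_lit 53) (nat_lit 5) (nat_lit 342) (nat_lit 298) (nat_lit 80))))))))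
noncomputable def xc226 : XT := (XT.nd (nat_lit 42394) (nat_lit 0) (nat_lit 2268) (XT.nd (nat_lit 41548) (nat_lit 0) (nat_lit 5712) (XT.nd (nat_lit 41172) (nat_lit 0) (nat_lit 6720) (XT.nd (nat_lit 188) (nat_lit 0) (nat_lit 0) (XT.nd (nat_lit 94) (nat_lit 168) (nat_lit 0) (XT.lf (nat_lit 0) (nat_lit 107724556590) (nat_lit 252) (nat_lit 68316678889) (nat_lit 84) (nat_lit 68215939543) (nat_lit 50) (nat_lit 5) (nat_lit 53) (nat_lit 5) (nat_lit 51) (nat_lit 5) (nat_lit 343) (nat_lit 298) (nat_lit 79)) (XT.lf (nat_lit 0) (nat_lit 89403609846) (nat_lit 168) (nat_lit 89504949957) (nat_lit 252) (nat_lit 73021494025) (nat_lit 48) (nat_lit 5) (nat_lit 50) (nat_lit 5) (nat_lit 51) (nat_lit 5) (nat_lit 344) (nat_lit 298) (nat_lit 78))) (XT.nd (nat_lit 40890) (nat_lit 0) (nat_lit 6720) (XT.lf (nat_lit 0) (nat_lit 254848710818) (nat_lit 252) (nat_lit 2587538838) (nat_lit 84) (nat_lit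 2490479535) (nat_lit 48) (nat_lit 5) (nat_lit 51) (nat_lit 5) (nat_lit 49) (nat_lit 4) (nat_lit 345) (nat_lit 298) (nat_lit 77)) (XT.lf (nat_lit 0) (nat_lit 16887027150) (nat_lit 924) (nat_lit 9603850889) (nat_lit 924) (nat_lit 9603850889) (nat_lit 128) (nat_lit 3) (nat_lit 139) (nat_lit 3) (nat_lit 139) (nat_lit 5) (nat_lit 299) (nat_lit 299) (nat_lit 122)))) (XT.nd (nat_lit 188) (nat_lit 0) (nat_lit 84) (XT.nd (nat_lit 94) (nat_lit 0) (nat_lit 84) (XT.lf (nat_lit 84) (nat_lit 17445388531) (nat_lit 0) (nat_lit 17457760563) (nat_lit 924) (nat_lit 39076808038) (nat_lit 129) (nat_lit 5) (nat_lit 128) (nat_lit 3) (nat_lit 139) (nat_lit 5) (nat_lit 300) (nat_lit 299) (nat_lit 121)) (XT.lf (nat_lit 0) (nat_lit 36728326112) (nat_lit 840) (nat_lit 19561339285) (nat_lit 924) (nat_lit 19538334600) (nat_lit 129) (nat_lit 5) (nat_lit 139) (nat_lit 5) (nat_lit 140) (nat_lit 5) (nat_lit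 301) (nat_lit 299) (nat_lit 120))) (XT.nd (nat_lit 94) (nat_lit 0) (nat_lit 84) (XT.lf (nat_lit 84) (nat_lit 19601269129) (nat_lit 0) (nat_lit 19634961240) (nat_lit 924) (nat_lit 38502641216) (nat_lit 130) (nat_lit 5) (nat_lit 129) (nat_lit 5) (nat_lit 140) (nat_lit 5) (nat_lit 302) (nat_lit 299) (nat_lit 119)) (XT.lf (nat_lit 0) (nat_lit 42499859677) (nat_lit 840) (nat_lit 18627846059) (nat_lit 924) (nat_lit 18586064523) (nat_lit 130) (nat_lit 5) (nat_lit 140) (nat_lit 5) (nat_lit 141) (nat_lit 5) (nat_lit 303) (nat_lit 299) (nat_lit 118))))) (XT.nd (nat_lit 376) (nat_lit 1176) (nat_lit 0) (XT.nd (nat_lit 188) (nat_lit 0) (nat_lit 84) (XT.nd (nat_lit 94) (nat_lit 0) (nat_lit 84) (XT.lf (nat_lit 84) (nat_lit 23280161248) (nat_lit 0) (nat_lit 23331174984) (nat_lit 924) (nat_lit 35141844348) (nat_lit 131) (nat_lit 5) (nat_lit 130) (nat_lit 5) (nat_lit 141) (nat_lit 5) (nat_lit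 304) (nat_lit 299) (nat_lit 117)) (XT.lf (nat_lit 0) (nat_lit 51503721555) (nat_lit 840) (nat_lit 16209515752) (nat_lit 924) (nat_lit 16152557363) (nat_lit 131) (nat_lit 5) (nat_lit 141) (nat_lit 5) (nat_lit 142) (nat_lit 5) (nat_lit 305) (nat_lit 299) (nat_lit 116))) (XT.nd (nat_lit 94) (nat_lit 0) (nat_lit 84) (XT.lf (nat_lit 84) (nat_lit 28702888125) (nat_lit 0) (nat_lit 28767821636) (nat_lit 924) (nat_lit 28571830521) (nat_lit 132) (nat_lit 5) (nat_lit 131) (nat_lit 5) (nat_lit 142) (nat_lit 5) (nat_lit 306) (nat_lit 299) (nat_lit 115)) (XT.lf (nat_lit 0) (nat_lit 64203764486) (nat_lit 840) (nat_lit 12085023972) (nat_lit 924) (nat_lit 12015948862) (nat_lit 132) (nat_lit 5) (nat_lit 142) (nat_lit 5) (nat_lit 143) (nat_lit 5) (nat_lit 307) (nat_lit 299) (nat_lit 114)))) (XT.nd (nat_lit 188) (nat_lit 1344) (nat_lit 0) (XT.nd (nat_lit 94) (nat_lit 0) (nat_lit 84) (XT.lf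 (nat_lit 84) (nat_lit 36116206436) (nat_lit 0) (nat_lit 36192170756) (nat_lit 924) (nat_lit 18319921756) (nat_lit 133) (nat_lit 5) (nat_lit 132) (nat_lit 5) (nat_lit 143) (nat_lit 5) (nat_lit 308) (nat_lit 299) (nat_lit 113)) (XT.lf (nat_lit 0) (nat_lit 81117949763) (nat_lit 840) (nat_lit 6006849060) (nat_lit 84) (nat_lit 5928253372) (nat_lit 133) (nat_lit 5) (nat_lit 143) (nat_lit 5) (nat_lit 134) (nat_lit 5) (nat_lit 309) (nat_lit 299) (nat_lit 112))) (XT.nd (nat_lit 94) (nat_lit 588) (nat_lit 0) (XT.lf (nat_lit 0) (nat_lit 45795620295) (nat_lit 840) (nat_lit 45880167143) (nat_lit 924) (nat_lit 3857866343) (nat_lit 123) (nat_lit 5) (nat_lit 133) (nat_lit 5) (nat_lit 134) (nat_lit 5) (nat_lit 310) (nat_lit 299) (nat_lit 111)) (XT.nd (nat_lit 94) (nat_lit 0) (nat_lit 0) (XT.lf (nat_lit 0) (nat_lit 2261617585) (nat_lit 504) (nat_lit 2351832203) (nat_lit 588) (nat_lit 93514317053)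 (nat_lit 116) (nat_lit 5) (nat_lit 122) (nat_lit 5) (nat_lit 123) (nat_lit 5) (nat_lit 311) (nat_lit 299) (nat_lit 110)) (XT.lf (nat_lit 0) (nat_lit 14911190627) (nat_lit 588) (nat_lit 42975833417) (nat_lit 84) (nat_lit 42884773898) (nat_lit 116) (nat_lit 5) (nat_lit 123) (nat_lit 5) (nat_lit 117) (nat_lit 5) (nat_lit 312) (nat_lit 299) (nat_lit 109))))))) (XT.nd (nat_lit 752) (nat_lit 1512) (nat_lit 0) (XT.nd (nat_lit 376) (nat_lit 1092) (nat_lit 0) (XT.nd (nat_lit 188) (nat_lit 420) (nat_lit 0) (XT.nd (nat_lit 94) (nat_lit 0) (nat_lit 0) (XT.lf (nat_lit 0) (nat_lit 12933938907) (nat_lit 420) (nat_lit 13029894459) (nat_lit 504) (nat_lit 77572196490) (nat_lit 111) (nat_lit 5) (nat_lit 116) (nat_lit 5) (nat_lit 117) (nat_lit 5) (nat_lit 313) (nat_lit 299) (nat_lit 108)) (XT.lf (nat_lit 0) (nat_lit 38840326303) (nat_lit 504) (nat_lit 33815206623) (nat_lit 84) (nat_lit 33719379537)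 (nat_lit 111) (nat_lit 5) (nat_lit 117) (nat_lit 5) (nat_lit 112) (nat_lit 5) (nat_lit 314) (nat_lit 299) (nat_lit 107))) (XT.nd (nat_lit 94) (nat_lit 0) (nat_lit 0) (XT.lf (nat_lit 0) (nat_lit 26443304357) (nat_lit 420) (nat_lit 26543360821) (nat_lit 504) (nat_lit 56337772956) (nat_lit 106) (nat_lit 5) (nat_lit 111) (nat_lit 5) (nat_lit 112) (nat_lit 5) (nat_lit 315) (nat_lit 299) (nat_lit 106)) (XT.lf (nat_lit 0) (nat_lit 68763482618) (nat_lit 504) (nat_lit 21855463715) (nat_lit 84) (nat_lit 21756335675) (nat_lit 106) (nat_lit 5) (nat_lit 112) (nat_lit 5) (nat_lit 107) (nat_lit 5) (nat_lit 316) (nat_lit 299) (nat_lit 105)))) (XT.nd (nat_lit 188) (nat_lit 756) (nat_lit 0) (XT.nd (nat_lit 94) (nat_lit 0) (nat_lit 0) (XT.lf (nat_lit 0) (nat_lit 43167529183) (nat_lit 336) (nat_lit 43270310718) (nat_lit 420) (nat_lit 29085393227) (nat_lit 102) (nat_lit 5) (nat_lit 106) (nat_lit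 5) (nat_lit 107) (nat_lit 5) (nat_lit 317) (nat_lit 299) (nat_lit 104)) (XT.lf (nat_lit 0) (nat_lit 105472359197) (nat_lit 420) (nat_lit 6716800702) (nat_lit 84) (nat_lit 6615599697) (nat_lit 102) (nat_lit 5) (nat_lit 107) (nat_lit 5) (nat_lit 103) (nat_lit 5) (nat_lit 318) (nat_lit 299) (nat_lit 103))) (XT.nd (nat_lit 94) (nat_lit 336) (nat_lit 0) (XT.lf (nat_lit 0) (nat_lit 4834258648) (nat_lit 420) (nat_lit 58715760635) (nat_lit 84) (nat_lit 58611403604) (nat_lit 97) (nat_lit 5) (nat_lit 102) (nat_lit 5) (nat_lit 98) (nat_lit 5) (nat_lit 319) (nat_lit 299) (nat_lit 102)) (XT.lf (nat_lit 0) (nat_lit 11826865171) (nat_lit 336) (nat_lit 11934227942) (nat_lit 420) (nat_lit 101898903106) (nat_lit 93) (nat_lit 5) (nat_lit 97) (nat_lit 5) (nat_lit 98) (nat_lit 5) (nat_lit 320) (nat_lit 299) (nat_lit 101))))) (XT.nd (nat_lit 376) (nat_lit 924) (nat_lit 0) (XT.nd (nat_lit 188)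 (nat_lit 252) (nat_lit 0) (XT.nd (nat_lit 94) (nat_lit 336) (nat_lit 0) (XT.lf (nat_lit 0) (nat_lit 45304424559) (nat_lit 420) (nat_lit 42025271224) (nat_lit 84) (nat_lit 41920294671) (nat_lit 93) (nat_lit 5) (nat_lit 98) (nat_lit 5) (nat_lit 94) (nat_lit 5) (nat_lit 321) (nat_lit 299) (nat_lit 100)) (XT.lf (nat_lit 0) (nat_lit 34273880726) (nat_lit 336) (nat_lit 34381453750) (nat_lit 420) (nat_lit 64327629330) (nat_lit 89) (nat_lit 5) (nat_lit 93) (nat_lit 5) (nat_lit 94) (nat_lit 5) (nat_lit 322) (nat_lit 299) (nat_lit 99))) (XT.nd (nat_lit 94) (nat_lit 252) (nat_lit 0) (XT.lf (nat_lit 0) (nat_lit 94228054427) (nat_lit 420) (nat_lit 21363311873) (nat_lit 84) (nat_lit 21258506299) (nat_lit 89) (nat_lit 5) (nat_lit 94) (nat_lit 5) (nat_lit 90) (nat_lit 5) (nat_lit 323) (nat_lit 299) (nat_lit 98)) (XT.lf (nat_lit 0) (nat_lit 61245947332) (nat_lit 252) (nat_lit 61352995835)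 (nat_lit 336) (nat_lit 18235207024) (nat_lit 86) (nat_lit 5) (nat_lit 89) (nat_lit 5) (nat_lit 90) (nat_lit 5) (nat_lit 324) (nat_lit 299) (nat_lit 97)))) (XT.nd (nat_lit 188) (nat_lit 504) (nat_lit 0) (XT.nd (nat_lit 94) (nat_lit 0) (nat_lit 0) (XT.lf (nat_lit 0) (nat_lit 3725610997) (nat_lit 336) (nat_lit 3834795624) (nat_lit 420) (nat_lit 137430202077) (nat_lit 81) (nat_lit 5) (nat_lit 85) (nat_lit 5) (nat_lit 86) (nat_lit 5) (nat_lit 325) (nat_lit 299) (nat_lit 96)) (XT.lf (nat_lit 0) (nat_lit 36285680483) (nat_lit 420) (nat_lit 56523775269) (nat_lit 84) (nat_lit 56417852384) (nat_lit 81) (nat_lit 5) (nat_lit 86) (nat_lit 5) (nat_lit 82) (nat_lit 5) (nat_lit 326) (nat_lit 299) (nat_lit 95))) (XT.nd (nat_lit 94) (nat_lit 252) (nat_lit 0) (XT.lf (nat_lit 0) (nat_lit 33462230526) (nat_lit 252) (nat_lit 33569998675) (nat_lit 336) (nat_lit 86614362787) (nat_lit 78) (nat_lit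 5) (nat_lit 81) (nat_lit 5) (nat_lit 82) (nat_lit 5) (nat_lit 327) (nat_lit 299) (nat_lit 94)) (XT.nd (nat_lit 94) (nat_lit 252) (nat_lit 0) (XT.lf (nat_lit 0) (nat_lit 100735784696) (nat_lit 336) (nat_lit 28792190705) (nat_lit 84) (nat_lit 28687880665) (nat_lit 78) (nat_lit 5) (nat_lit 82) (nat_lit 5) (nat_lit 79) (nat_lit 5) (nat_lit 328) (nat_lit 299) (nat_lit 93)) (XT.lf (nat_lit 0) (nat_lit 68821582738) (nat_lit 252) (nat_lit 68927486786) (nat_lit 336) (nat_lit 25183286244) (nat_lit 75) (nat_lit 5) (nat_lit 78) (nat_lit 5) (nat_lit 79) (nat_lit 5) (nat_lit 329) (nat_lit 299) (nat_lit 92))))))))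
noncomputable def xc227 : XT := (XT.nd (nat_lit 42582) (nat_lit 0) (nat_lit 4368) (XT.nd (nat_lit 752) (nat_lit 840) (nat_lit 0) (XT.nd (nat_lit 376) (nat_lit 672) (nat_lit 0) (XT.nd (nat_lit 188) (nat_lit 252) (nat_lit 0) (XT.nd (nat_lit 94) (nat_lit 0) (nat_lit 0) (XT.lf (nat_lit 0) (nat_lit 4453206730) (nat_lit 252) (nat_lit 4560628881) (nat_lit 336) (nat_lit 158835788216) (nat_lit 71) (nat_lit 5) (nat_lit 74) (nat_lit 5) (nat_lit 75) (nat_lit 5) (nat_lit 330) (nat_lit 299) (nat_lit 91)) (XT.lf (nat_lit 0) (nat_lit 46678152962) (nat_lit 336) (nat_lit 63143730456) (nat_lit 84) (nat_lit 63040046682) (nat_lit 71) (nat_lit 5) (nat_lit 75) (nat_lit 5) (nat_lit 72) (nat_lit 5) (nat_lit 331) (nat_lit 299) (nat_lit 90))) (XT.nd (nat_lit 94) (nat_lit 0) (nat_lit 0) (XT.lf (nat_lit 0) (nat_lit 43436684867) (nat_lit 252) (nat_lit 43541680035) (nat_lit 336) (nat_lit 91108852851)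 (nat_lit 68) (nat_lit 5) (nat_lit 71) (nat_lit 5) (nat_lit 72) (nat_lit 5) (nat_lit 332) (nat_lit 299) (nat_lit 89)) (XT.lf (nat_lit 0) (nat_lit 130786990805) (nat_lit 336) (nat_lit 26406646843) (nat_lit 84) (nat_lit 26305461971) (nat_lit 68) (nat_lit 5) (nat_lit 72) (nat_lit 5) (nat_lit 69) (nat_lit 5) (nat_lit 333) (nat_lit 299) (nat_lit 88)))) (XT.nd (nat_lit 188) (nat_lit 168) (nat_lit 0) (XT.nd (nat_lit 94) (nat_lit 336) (nat_lit 0) (XT.lf (nat_lit 0) (nat_lit 89396510161) (nat_lit 168) (nat_lit 89498827864) (nat_lit 252) (nat_lit 10180773052) (nat_lit 66) (nat_lit 5) (nat_lit 68) (nat_lit 5) (nat_lit 69) (nat_lit 5) (nat_lit 334) (nat_lit 299) (nat_lit 87)) (XT.lf (nat_lit 0) (nat_lit 16994946287) (nat_lit 252) (nat_lit 17098342878) (nat_lit 336) (nat_lit 160775787557) (nat_lit 62) (nat_lit 5) (nat_lit 65) (nat_lit 5) (nat_lit 66) (nat_lit 5) (nat_lit 335) (nat_lit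 299) (nat_lit 86))) (XT.nd (nat_lit 94) (nat_lit 168) (nat_lit 0) (XT.lf (nat_lit 0) (nat_lit 82874417433) (nat_lit 336) (nat_lit 59018302331) (nat_lit 84) (nat_lit 58918850805) (nat_lit 62) (nat_lit 5) (nat_lit 66) (nat_lit 5) (nat_lit 63) (nat_lit 5) (nat_lit 336) (nat_lit 299) (nat_lit 85)) (XT.lf (nat_lit 0) (nat_lit 67665371798) (nat_lit 168) (nat_lit 67765755308) (nat_lit 252) (nat_lit 71553235753) (nat_lit 60) (nat_lit 5) (nat_lit 62) (nat_lit 5) (nat_lit 63) (nat_lit 5) (nat_lit 337) (nat_lit 299) (nat_lit 84))))) (XT.nd (nat_lit 376) (nat_lit 420) (nat_lit 0) (XT.nd (nat_lit 188) (nat_lit 168) (nat_lit 0) (XT.nd (nat_lit 94) (nat_lit 252) (nat_lit 0) (XT.lf (nat_lit 0) (nat_lit 191788524976) (nat_lit 252) (nat_lit 10857537915) (nat_lit 84) (nat_lit 10761089237) (nat_lit 60) (nat_lit 5) (nat_lit 63) (nat_lit 5) (nat_lit 61) (nat_lit 5) (nat_lit 338) (nat_lit 299)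 (nat_lit 83)) (XT.lf (nat_lit 0) (nat_lit 32970438469) (nat_lit 252) (nat_lit 93548323111) (nat_lit 84) (nat_lit 93451069350) (nat_lit 57) (nat_lit 5) (nat_lit 60) (nat_lit 5) (nat_lit 58) (nat_lit 5) (nat_lit 339) (nat_lit 299) (nat_lit 82))) (XT.nd (nat_lit 94) (nat_lit 0) (nat_lit 0) (XT.lf (nat_lit 0) (nat_lit 45178226417) (nat_lit 168) (nat_lit 45276246923) (nat_lit 252) (nat_lit 136343847968) (nat_lit 55) (nat_lit 5) (nat_lit 57) (nat_lit 5) (nat_lit 58) (nat_lit 5) (nat_lit 340) (nat_lit 299) (nat_lit 81)) (XT.lf (nat_lit 0) (nat_lit 153047718601) (nat_lit 252) (nat_lit 40451407747) (nat_lit 84) (nat_lit 40357359424) (nat_lit 55) (nat_lit 5) (nat_lit 58) (nat_lit 5) (nat_lit 56) (nat_lit 5) (nat_lit 341) (nat_lit 299) (nat_lit 80)))) (XT.nd (nat_lit 188) (nat_lit 0) (nat_lit 0) (XT.nd (nat_lit 94) (nat_lit 252) (nat_lit 0) (XT.lf (nat_lit 0) (nat_lit 110572147545)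 (nat_lit 168) (nat_lit 110666858211) (nat_lit 252) (nat_lit 19905133720) (nat_lit 53) (nat_lit 5) (nat_lit 55) (nat_lit 5) (nat_lit 56) (nat_lit 5) (nat_lit 342) (nat_lit 299) (nat_lit 79)) (XT.lf (nat_lit 0) (nat_lit 21787465613) (nat_lit 168) (nat_lit 21882807083) (nat_lit 252) (nat_lit 205039707698) (nat_lit 50) (nat_lit 5) (nat_lit 52) (nat_lit 5) (nat_lit 53) (nat_lit 5) (nat_lit 343) (nat_lit 299) (nat_lit 78))) (XT.nd (nat_lit 41078) (nat_lit 0) (nat_lit 6552) (XT.lf (nat_lit 0) (nat_lit 113116689405) (nat_lit 252) (nat_lit 71722211338) (nat_lit 84) (nat_lit 71630837781) (nat_lit 50) (nat_lit 5) (nat_lit 53) (nat_lit 5) (nat_lit 51) (nat_lit 5) (nat_lit 344) (nat_lit 299) (nat_lit 77)) (XT.nd (nat_lit 94) (nat_lit 0) (nat_lit 0) (XT.lf (nat_lit 0) (nat_lit 17743557377) (nat_lit 924) (nat_lit 10077649527) (nat_lit 924) (nat_lit 10077649527) (nat_lit 128) (nat_lit 3)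 (nat_lit 139) (nat_lit 3) (nat_lit 139) (nat_lit 5) (nat_lit 300) (nat_lit 300) (nat_lit 120)) (XT.lf (nat_lit 84) (nat_lit 18330239516) (nat_lit 0) (nat_lit 18341461314) (nat_lit 924) (nat_lit 41006084445) (nat_lit 129) (nat_lit 5) (nat_lit 128) (nat_lit 3) (nat_lit 139) (nat_lit 5) (nat_lit 301) (nat_lit 300) (nat_lit 119))))))) (XT.nd (nat_lit 752) (nat_lit 2268) (nat_lit 0) (XT.nd (nat_lit 376) (nat_lit 0) (nat_lit 168) (XT.nd (nat_lit 188) (nat_lit 0) (nat_lit 84) (XT.nd (nat_lit 94) (nat_lit 0) (nat_lit 0) (XT.lf (nat_lit 0) (nat_lit 38586861907) (nat_lit 840) (nat_lit 20526149021) (nat_lit 924) (nat_lit 20505283094) (nat_lit 129) (nat_lit 5) (nat_lit 139) (nat_lit 5) (nat_lit 140) (nat_lit 5) (nat_lit 302) (nat_lit 300) (nat_lit 118)) (XT.lf (nat_lit 84) (nat_lit 20594375987) (nat_lit 0) (nat_lit 20624935725) (nat_lit 924) (nat_lit 40405439961) (nat_lit 130) (nat_lit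 5) (nat_lit 129) (nat_lit 5) (nat_lit 140) (nat_lit 5) (nat_lit 303) (nat_lit 300) (nat_lit 117))) (XT.nd (nat_lit 94) (nat_lit 0) (nat_lit 0) (XT.lf (nat_lit 0) (nat_lit 44644987315) (nat_lit 840) (nat_lit 19545680905) (nat_lit 924) (nat_lit 19507783820) (nat_lit 130) (nat_lit 5) (nat_lit 140) (nat_lit 5) (nat_lit 141) (nat_lit 5) (nat_lit 304) (nat_lit 300) (nat_lit 116)) (XT.lf (nat_lit 84) (nat_lit 24457508099) (nat_lit 0) (nat_lit 24503779062) (nat_lit 924) (nat_lit 36878583243) (nat_lit 131) (nat_lit 5) (nat_lit 130) (nat_lit 5) (nat_lit 141) (nat_lit 5) (nat_lit 305) (nat_lit 300) (nat_lit 115)))) (XT.nd (nat_lit 188) (nat_lit 0) (nat_lit 84) (XT.nd (nat_lit 94) (nat_lit 0) (nat_lit 0) (XT.lf (nat_lit 0) (nat_lit 54097278806) (nat_lit 840) (nat_lit 17006274988) (nat_lit 924) (nat_lit 16954612050) (nat_lit 131) (nat_lit 5) (nat_lit 141) (nat_lit 5) (nat_lit 142) (nat_lit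 5) (nat_lit 306) (nat_lit 300) (nat_lit 114)) (XT.lf (nat_lit 84) (nat_lit 30151527848) (nat_lit 0) (nat_lit 30210424457) (nat_lit 924) (nat_lit 29981829639) (nat_lit 132) (nat_lit 5) (nat_lit 131) (nat_lit 5) (nat_lit 142) (nat_lit 5) (nat_lit 307) (nat_lit 300) (nat_lit 113))) (XT.nd (nat_lit 94) (nat_lit 0) (nat_lit 0) (XT.lf (nat_lit 0) (nat_lit 67430753948) (nat_lit 840) (nat_lit 12675516669) (nat_lit 924) (nat_lit 12612863508) (nat_lit 132) (nat_lit 5) (nat_lit 142) (nat_lit 5) (nat_lit 143) (nat_lit 5) (nat_lit 308) (nat_lit 300) (nat_lit 112)) (XT.lf (nat_lit 84) (nat_lit 37935553348) (nat_lit 0) (nat_lit 38004455226) (nat_lit 924) (nat_lit 19218894696) (nat_lit 133) (nat_lit 5) (nat_lit 132) (nat_lit 5) (nat_lit 143) (nat_lit 5) (nat_lit 309) (nat_lit 300) (nat_lit 111))))) (XT.nd (nat_lit 376) (nat_lit 1176) (nat_lit 0) (XT.nd (nat_lit 188) (nat_lit 588) (nat_lit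 0) (XT.nd (nat_lit 94) (nat_lit 840) (nat_lit 0) (XT.lf (nat_lit 0) (nat_lit 85189247959) (nat_lit 840) (nat_lit 6293487709) (nat_lit 84) (nat_lit 6222199102) (nat_lit 133) (nat_lit 5) (nat_lit 143) (nat_lit 5) (nat_lit 134) (nat_lit 5) (nat_lit 310) (nat_lit 300) (nat_lit 110)) (XT.lf (nat_lit 0) (nat_lit 48098884086) (nat_lit 840) (nat_lit 48175570569) (nat_lit 924) (nat_lit 4035137924) (nat_lit 123) (nat_lit 5) (nat_lit 133) (nat_lit 5) (nat_lit 134) (nat_lit 5) (nat_lit 311) (nat_lit 300) (nat_lit 109))) (XT.nd (nat_lit 94) (nat_lit 0) (nat_lit 0) (XT.lf (nat_lit 0) (nat_lit 2388455705) (nat_lit 504) (nat_lit 2470283022) (nat_lit 588) (nat_lit 98174685633) (nat_lit 116) (nat_lit 5) (nat_lit 122) (nat_lit 5) (nat_lit 123) (nat_lit 5) (nat_lit 312) (nat_lit 300) (nat_lit 108)) (XT.lf (nat_lit 0) (nat_lit 15670657811) (nat_lit 588) (nat_lit 45110814157) (nat_lit 84) (nat_lit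 45028220489) (nat_lit 116) (nat_lit 5) (nat_lit 123) (nat_lit 5) (nat_lit 117) (nat_lit 5) (nat_lit 313) (nat_lit 300) (nat_lit 107)))) (XT.nd (nat_lit 188) (nat_lit 756) (nat_lit 0) (XT.nd (nat_lit 94) (nat_lit 0) (nat_lit 0) (XT.lf (nat_lit 0) (nat_lit 13594224027) (nat_lit 420) (nat_lit 13681258541) (nat_lit 504) (nat_lit 81436675905) (nat_lit 111) (nat_lit 5) (nat_lit 116) (nat_lit 5) (nat_lit 117) (nat_lit 5) (nat_lit 314) (nat_lit 300) (nat_lit 106)) (XT.lf (nat_lit 0) (nat_lit 40795161258) (nat_lit 504) (nat_lit 35492386943) (nat_lit 84) (nat_lit 35405468952) (nat_lit 111) (nat_lit 5) (nat_lit 117) (nat_lit 5) (nat_lit 112) (nat_lit 5) (nat_lit 315) (nat_lit 300) (nat_lit 105))) (XT.nd (nat_lit 94) (nat_lit 336) (nat_lit 0) (XT.lf (nat_lit 0) (nat_lit 27778830553) (nat_lit 420) (nat_lit 27869584715) (nat_lit 504) (nat_lit 59141623931) (nat_lit 106) (nat_lit 5) (nat_lit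 111) (nat_lit 5) (nat_lit 112) (nat_lit 5) (nat_lit 316) (nat_lit 300) (nat_lit 104)) (XT.nd (nat_lit 94) (nat_lit 336) (nat_lit 0) (XT.lf (nat_lit 0) (nat_lit 72213496342) (nat_lit 504) (nat_lit 22934934921) (nat_lit 84) (nat_lit 22845022867) (nat_lit 106) (nat_lit 5) (nat_lit 112) (nat_lit 5) (nat_lit 107) (nat_lit 5) (nat_lit 317) (nat_lit 300) (nat_lit 103)) (XT.lf (nat_lit 0) (nat_lit 45338993074) (nat_lit 336) (nat_lit 45432218956) (nat_lit 420) (nat_lit 30527608747) (nat_lit 102) (nat_lit 5) (nat_lit 106) (nat_lit 5) (nat_lit 107) (nat_lit 5) (nat_lit 318) (nat_lit 300) (nat_lit 102))))))))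
noncomputable def xc228 : XT := (XT.nd (nat_lit 1504) (nat_lit 1512) (nat_lit 0) (XT.nd (nat_lit 752) (nat_lit 1092) (nat_lit 0) (XT.nd (nat_lit 376) (nat_lit 1008) (nat_lit 0) (XT.nd (nat_lit 188) (nat_lit 336) (nat_lit 0) (XT.nd (nat_lit 94) (nat_lit 420) (nat_lit 0) (XT.lf (nat_lit 0) (nat_lit 110756934517) (nat_lit 420) (nat_lit 7039653743) (nat_lit 84) (nat_lit 6947861448) (nat_lit 102) (nat_lit 5) (nat_lit 107) (nat_lit 5) (nat_lit 103) (nat_lit 5) (nat_lit 319) (nat_lit 300) (nat_lit 101)) (XT.lf (nat_lit 0) (nat_lit 5086781000) (nat_lit 420) (nat_lit 61638413732) (nat_lit 84) (nat_lit 61543758829) (nat_lit 97) (nat_lit 5) (nat_lit 102) (nat_lit 5) (nat_lit 98) (nat_lit 5) (nat_lit 320) (nat_lit 300) (nat_lit 100))) (XT.nd (nat_lit 94) (nat_lit 0) (nat_lit 0) (XT.lf (nat_lit 0) (nat_lit 12431131511) (nat_lit 336) (nat_lit 12528512708) (nat_lit 420) (nat_lit 106982826988)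 (nat_lit 93) (nat_lit 5) (nat_lit 97) (nat_lit 5) (nat_lit 98) (nat_lit 5) (nat_lit 321) (nat_lit 300) (nat_lit 99)) (XT.lf (nat_lit 0) (nat_lit 47579678489) (nat_lit 420) (nat_lit 44113763340) (nat_lit 84) (nat_lit 44018546513) (nat_lit 93) (nat_lit 5) (nat_lit 98) (nat_lit 5) (nat_lit 94) (nat_lit 5) (nat_lit 322) (nat_lit 300) (nat_lit 98)))) (XT.nd (nat_lit 188) (nat_lit 672) (nat_lit 0) (XT.nd (nat_lit 94) (nat_lit 0) (nat_lit 0) (XT.lf (nat_lit 0) (nat_lit 36000140217) (nat_lit 336) (nat_lit 36097712120) (nat_lit 420) (nat_lit 67533772103) (nat_lit 89) (nat_lit 5) (nat_lit 93) (nat_lit 5) (nat_lit 94) (nat_lit 5) (nat_lit 323) (nat_lit 300) (nat_lit 97)) (XT.lf (nat_lit 0) (nat_lit 98948785792) (nat_lit 420) (nat_lit 22419087875) (nat_lit 84) (nat_lit 22324026130) (nat_lit 89) (nat_lit 5) (nat_lit 94) (nat_lit 5) (nat_lit 90) (nat_lit 5) (nat_lit 324) (nat_lit 300)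 (nat_lit 96))) (XT.nd (nat_lit 94) (nat_lit 420) (nat_lit 0) (XT.lf (nat_lit 0) (nat_lit 64320434459) (nat_lit 252) (nat_lit 64417530607) (nat_lit 336) (nat_lit 19137438899) (nat_lit 86) (nat_lit 5) (nat_lit 89) (nat_lit 5) (nat_lit 90) (nat_lit 5) (nat_lit 325) (nat_lit 300) (nat_lit 95)) (XT.lf (nat_lit 0) (nat_lit 3924184750) (nat_lit 336) (nat_lit 4023218424) (nat_lit 420) (nat_lit 144292287148) (nat_lit 81) (nat_lit 5) (nat_lit 85) (nat_lit 5) (nat_lit 86) (nat_lit 5) (nat_lit 326) (nat_lit 300) (nat_lit 94))))) (XT.nd (nat_lit 376) (nat_lit 588) (nat_lit 0) (XT.nd (nat_lit 188) (nat_lit 252) (nat_lit 0) (XT.nd (nat_lit 94) (nat_lit 252) (nat_lit 0) (XT.lf (nat_lit 0) (nat_lit 38108562612) (nat_lit 420) (nat_lit 59337878103) (nat_lit 84) (nat_lit 59241802924) (nat_lit 81) (nat_lit 5) (nat_lit 86) (nat_lit 5) (nat_lit 82) (nat_lit 5) (nat_lit 327) (nat_lit 300) (nat_lit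 93)) (XT.lf (nat_lit 0) (nat_lit 35147233048) (nat_lit 252) (nat_lit 35244981935) (nat_lit 336) (nat_lit 90936287888) (nat_lit 78) (nat_lit 5) (nat_lit 81) (nat_lit 5) (nat_lit 82) (nat_lit 5) (nat_lit 328) (nat_lit 300) (nat_lit 92))) (XT.nd (nat_lit 94) (nat_lit 252) (nat_lit 0) (XT.lf (nat_lit 0) (nat_lit 105780601767) (nat_lit 336) (nat_lit 30220128996) (nat_lit 84) (nat_lit 30125516715) (nat_lit 78) (nat_lit 5) (nat_lit 82) (nat_lit 5) (nat_lit 79) (nat_lit 5) (nat_lit 329) (nat_lit 300) (nat_lit 91)) (XT.lf (nat_lit 0) (nat_lit 72274144874) (nat_lit 252) (nat_lit 72370202967) (nat_lit 336) (nat_lit 26434234475) (nat_lit 75) (nat_lit 5) (nat_lit 78) (nat_lit 5) (nat_lit 79) (nat_lit 5) (nat_lit 330) (nat_lit 300) (nat_lit 90)))) (XT.nd (nat_lit 188) (nat_lit 252) (nat_lit 0) (XT.nd (nat_lit 94) (nat_lit 0) (nat_lit 0) (XT.lf (nat_lit 0) (nat_lit 4687423580) (nat_lit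 252) (nat_lit 4784858637) (nat_lit 336) (nat_lit 166769435060) (nat_lit 71) (nat_lit 5) (nat_lit 74) (nat_lit 5) (nat_lit 75) (nat_lit 5) (nat_lit 331) (nat_lit 300) (nat_lit 89)) (XT.lf (nat_lit 0) (nat_lit 49019502687) (nat_lit 336) (nat_lit 66289598027) (nat_lit 84) (nat_lit 66195553788) (nat_lit 71) (nat_lit 5) (nat_lit 75) (nat_lit 5) (nat_lit 72) (nat_lit 5) (nat_lit 332) (nat_lit 300) (nat_lit 88))) (XT.nd (nat_lit 94) (nat_lit 0) (nat_lit 0) (XT.lf (nat_lit 0) (nat_lit 45619655498) (nat_lit 252) (nat_lit 45714889211) (nat_lit 336) (nat_lit 95656670853) (nat_lit 68) (nat_lit 5) (nat_lit 71) (nat_lit 5) (nat_lit 72) (nat_lit 5) (nat_lit 333) (nat_lit 300) (nat_lit 87)) (XT.lf (nat_lit 0) (nat_lit 137333313735) (nat_lit 336) (nat_lit 27716084928) (nat_lit 84) (nat_lit 27624307267) (nat_lit 68) (nat_lit 5) (nat_lit 72) (nat_lit 5) (nat_lit 69) (nat_lit 5) (nat_lit 334)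 (nat_lit 300) (nat_lit 86)))))) (XT.nd (nat_lit 752) (nat_lit 420) (nat_lit 0) (XT.nd (nat_lit 376) (nat_lit 420) (nat_lit 0) (XT.nd (nat_lit 188) (nat_lit 168) (nat_lit 0) (XT.nd (nat_lit 94) (nat_lit 336) (nat_lit 0) (XT.lf (nat_lit 0) (nat_lit 93877054212) (nat_lit 168) (nat_lit 93969859385) (nat_lit 252) (nat_lit 10682662601) (nat_lit 66) (nat_lit 5) (nat_lit 68) (nat_lit 5) (nat_lit 69) (nat_lit 5) (nat_lit 335) (nat_lit 300) (nat_lit 85)) (XT.lf (nat_lit 0) (nat_lit 17855464390) (nat_lit 252) (nat_lit 17949248146) (nat_lit 336) (nat_lit 168807480077) (nat_lit 62) (nat_lit 5) (nat_lit 65) (nat_lit 5) (nat_lit 66) (nat_lit 5) (nat_lit 336) (nat_lit 300) (nat_lit 84))) (XT.nd (nat_lit 94) (nat_lit 168) (nat_lit 0) (XT.lf (nat_lit 0) (nat_lit 87024635017) (nat_lit 336) (nat_lit 61958697355) (nat_lit 84) (nat_lit 61868491890) (nat_lit 62) (nat_lit 5) (nat_lit 66) (nat_lit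 5) (nat_lit 63) (nat_lit 5) (nat_lit 337) (nat_lit 300) (nat_lit 83)) (XT.lf (nat_lit 0) (nat_lit 71058990802) (nat_lit 168) (nat_lit 71150041604) (nat_lit 252) (nat_lit 75124231149) (nat_lit 60) (nat_lit 5) (nat_lit 62) (nat_lit 5) (nat_lit 63) (nat_lit 5) (nat_lit 338) (nat_lit 300) (nat_lit 82)))) (XT.nd (nat_lit 188) (nat_lit 168) (nat_lit 0) (XT.nd (nat_lit 94) (nat_lit 252) (nat_lit 0) (XT.lf (nat_lit 0) (nat_lit 201384057338) (nat_lit 252) (nat_lit 11390314443) (nat_lit 84) (nat_lit 11302832648) (nat_lit 60) (nat_lit 5) (nat_lit 63) (nat_lit 5) (nat_lit 61) (nat_lit 5) (nat_lit 339) (nat_lit 300) (nat_lit 81)) (XT.lf (nat_lit 0) (nat_lit 34625028768) (nat_lit 252) (nat_lit 98215601160) (nat_lit 84) (nat_lit 98127389132) (nat_lit 57) (nat_lit 5) (nat_lit 60) (nat_lit 5) (nat_lit 58) (nat_lit 5) (nat_lit 340) (nat_lit 300) (nat_lit 80))) (XT.nd (nat_lit 94) (nat_lit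 0) (nat_lit 0) (XT.lf (nat_lit 0) (nat_lit 47447112327) (nat_lit 168) (nat_lit 47536019815) (nat_lit 252) (nat_lit 143154808474) (nat_lit 55) (nat_lit 5) (nat_lit 57) (nat_lit 5) (nat_lit 58) (nat_lit 5) (nat_lit 341) (nat_lit 300) (nat_lit 79)) (XT.lf (nat_lit 0) (nat_lit 160705817105) (nat_lit 252) (nat_lit 42464255964) (nat_lit 84) (nat_lit 42378951362) (nat_lit 55) (nat_lit 5) (nat_lit 58) (nat_lit 5) (nat_lit 56) (nat_lit 5) (nat_lit 342) (nat_lit 300) (nat_lit 78))))) (XT.nd (nat_lit 41454) (nat_lit 0) (nat_lit 6636) (XT.nd (nat_lit 41266) (nat_lit 0) (nat_lit 6552) (XT.nd (nat_lit 94) (nat_lit 252) (nat_lit 0) (XT.lf (nat_lit 0) (nat_lit 116110320283) (nat_lit 168) (nat_lit 116196225650) (nat_lit 252) (nat_lit 20894521022) (nat_lit 53) (nat_lit 5) (nat_lit 55) (nat_lit 5) (nat_lit 56) (nat_lit 5) (nat_lit 343) (nat_lit 300) (nat_lit 77)) (XT.lf (nat_lit 0) (nat_lit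 22886434802) (nat_lit 168) (nat_lit 22972912325) (nat_lit 252) (nat_lit 215285854246) (nat_lit 50) (nat_lit 5) (nat_lit 52) (nat_lit 5) (nat_lit 53) (nat_lit 5) (nat_lit 344) (nat_lit 300) (nat_lit 76))) (XT.nd (nat_lit 94) (nat_lit 0) (nat_lit 0) (XT.lf (nat_lit 0) (nat_lit 18641781840) (nat_lit 924) (nat_lit 10575732542) (nat_lit 924) (nat_lit 10575732542) (nat_lit 128) (nat_lit 3) (nat_lit 139) (nat_lit 3) (nat_lit 139) (nat_lit 5) (nat_lit 301) (nat_lit 301) (nat_lit 118)) (XT.lf (nat_lit 84) (nat_lit 19258163336) (nat_lit 0) (nat_lit 19268341837) (nat_lit 924) (nat_lit 43034108400) (nat_lit 129) (nat_lit 5) (nat_lit 128) (nat_lit 3) (nat_lit 139) (nat_lit 5) (nat_lit 302) (nat_lit 301) (nat_lit 117)))) (XT.nd (nat_lit 188) (nat_lit 0) (nat_lit 84) (XT.nd (nat_lit 94) (nat_lit 0) (nat_lit 0) (XT.lf (nat_lit 0) (nat_lit 40536268031) (nat_lit 840) (nat_lit 21540431776)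 (nat_lit 924) (nat_lit 21521505765) (nat_lit 129) (nat_lit 5) (nat_lit 139) (nat_lit 5) (nat_lit 140) (nat_lit 5) (nat_lit 303) (nat_lit 301) (nat_lit 116)) (XT.lf (nat_lit 84) (nat_lit 21635925536) (nat_lit 0) (nat_lit 21663644119) (nat_lit 924) (nat_lit 42405454983) (nat_lit 130) (nat_lit 5) (nat_lit 129) (nat_lit 5) (nat_lit 140) (nat_lit 5) (nat_lit 304) (nat_lit 301) (nat_lit 115))) (XT.nd (nat_lit 94) (nat_lit 0) (nat_lit 0) (XT.lf (nat_lit 0) (nat_lit 46895499406) (nat_lit 840) (nat_lit 20510667937) (nat_lit 924) (nat_lit 20476294164) (nat_lit 130) (nat_lit 5) (nat_lit 140) (nat_lit 5) (nat_lit 141) (nat_lit 5) (nat_lit 305) (nat_lit 301) (nat_lit 114)) (XT.nd (nat_lit 94) (nat_lit 0) (nat_lit 84) (XT.lf (nat_lit 84) (nat_lit 25692482178) (nat_lit 0) (nat_lit 25734451306) (nat_lit 924) (nat_lit 38704051341) (nat_lit 131) (nat_lit 5) (nat_lit 130) (nat_lit 5) (nat_lit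 141) (nat_lit 5) (nat_lit 306) (nat_lit 301) (nat_lit 113)) (XT.lf (nat_lit 0) (nat_lit 56818805943) (nat_lit 840) (nat_lit 17844147421) (nat_lit 924) (nat_lit 17797287613) (nat_lit 131) (nat_lit 5) (nat_lit 141) (nat_lit 5) (nat_lit 142) (nat_lit 5) (nat_lit 307) (nat_lit 301) (nat_lit 112))))))))
noncomputable def xc229 : XT := (XT.nd (nat_lit 1598) (nat_lit 2688) (nat_lit 0) (XT.nd (nat_lit 752) (nat_lit 1848) (nat_lit 0) (XT.nd (nat_lit 376) (nat_lit 1680) (nat_lit 0) (XT.nd (nat_lit 188) (nat_lit 0) (nat_lit 84) (XT.nd (nat_lit 94) (nat_lit 0) (nat_lit 84) (XT.lf (nat_lit 84) (nat_lit 31671344890) (nat_lit 0) (nat_lit 31724765851) (nat_lit 924) (nat_lit 31464057258) (nat_lit 132) (nat_lit 5) (nat_lit 131) (nat_lit 5) (nat_lit 142) (nat_lit 5) (nat_lit 308) (nat_lit 301) (nat_lit 111)) (XT.lf (nat_lit 0) (nat_lit 70817530862) (nat_lit 840) (nat_lit 13296813136) (nat_lit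 924) (nat_lit 13239984872) (nat_lit 132) (nat_lit 5) (nat_lit 142) (nat_lit 5) (nat_lit 143) (nat_lit 5) (nat_lit 309) (nat_lit 301) (nat_lit 110))) (XT.nd (nat_lit 94) (nat_lit 0) (nat_lit 84) (XT.lf (nat_lit 84) (nat_lit 39844609101) (nat_lit 0) (nat_lit 39907105136) (nat_lit 924) (nat_lit 20164398934) (nat_lit 133) (nat_lit 5) (nat_lit 132) (nat_lit 5) (nat_lit 143) (nat_lit 5) (nat_lit 310) (nat_lit 301) (nat_lit 109)) (XT.lf (nat_lit 0) (nat_lit 89462679253) (nat_lit 840) (nat_lit 6595732339) (nat_lit 84) (nat_lit 6531071472) (nat_lit 133) (nat_lit 5) (nat_lit 143) (nat_lit 5) (nat_lit 134) (nat_lit 5) (nat_lit 311) (nat_lit 301) (nat_lit 108)))) (XT.nd (nat_lit 188) (nat_lit 420) (nat_lit 0) (XT.nd (nat_lit 94) (nat_lit 588) (nat_lit 0) (XT.lf (nat_lit 0) (nat_lit 50516057565) (nat_lit 840) (nat_lit 50585614466) (nat_lit 924) (nat_lit 4222725444) (nat_lit 123) (nat_lit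 5) (nat_lit 133) (nat_lit 5) (nat_lit 134) (nat_lit 5) (nat_lit 312) (nat_lit 301) (nat_lit 107)) (XT.lf (nat_lit 0) (nat_lit 2520356712) (nat_lit 504) (nat_lit 2594576502) (nat_lit 588) (nat_lit 103069499487) (nat_lit 116) (nat_lit 5) (nat_lit 122) (nat_lit 5) (nat_lit 123) (nat_lit 5) (nat_lit 313) (nat_lit 301) (nat_lit 106))) (XT.nd (nat_lit 94) (nat_lit 420) (nat_lit 0) (XT.lf (nat_lit 0) (nat_lit 16466805352) (nat_lit 588) (nat_lit 47353827943) (nat_lit 84) (nat_lit 47278913052) (nat_lit 116) (nat_lit 5) (nat_lit 123) (nat_lit 5) (nat_lit 117) (nat_lit 5) (nat_lit 314) (nat_lit 301) (nat_lit 105)) (XT.lf (nat_lit 0) (nat_lit 14286260102) (nat_lit 420) (nat_lit 14365202972) (nat_lit 504) (nat_lit 85495693002) (nat_lit 111) (nat_lit 5) (nat_lit 116) (nat_lit 5) (nat_lit 117) (nat_lit 5) (nat_lit 315) (nat_lit 301) (nat_lit 104))))) (XT.nd (nat_lit 376) (nat_lit 1092)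 (nat_lit 0) (XT.nd (nat_lit 188) (nat_lit 336) (nat_lit 0) (XT.nd (nat_lit 94) (nat_lit 420) (nat_lit 0) (XT.lf (nat_lit 0) (nat_lit 42846546206) (nat_lit 504) (nat_lit 37254688821) (nat_lit 84) (nat_lit 37175851640) (nat_lit 111) (nat_lit 5) (nat_lit 117) (nat_lit 5) (nat_lit 112) (nat_lit 5) (nat_lit 316) (nat_lit 301) (nat_lit 103)) (XT.lf (nat_lit 0) (nat_lit 29179890882) (nat_lit 420) (nat_lit 29262207582) (nat_lit 504) (nat_lit 62086879574) (nat_lit 106) (nat_lit 5) (nat_lit 111) (nat_lit 5) (nat_lit 112) (nat_lit 5) (nat_lit 317) (nat_lit 301) (nat_lit 102))) (XT.nd (nat_lit 94) (nat_lit 336) (nat_lit 0) (XT.lf (nat_lit 0) (nat_lit 75834910018) (nat_lit 504) (nat_lit 24069616379) (nat_lit 84) (nat_lit 23988063495) (nat_lit 106) (nat_lit 5) (nat_lit 112) (nat_lit 5) (nat_lit 107) (nat_lit 5) (nat_lit 318) (nat_lit 301) (nat_lit 101)) (XT.lf (nat_lit 0) (nat_lit 47617813414)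 (nat_lit 336) (nat_lit 47702372038) (nat_lit 420) (nat_lit 32043055724) (nat_lit 102) (nat_lit 5) (nat_lit 106) (nat_lit 5) (nat_lit 107) (nat_lit 5) (nat_lit 319) (nat_lit 301) (nat_lit 100)))) (XT.nd (nat_lit 188) (nat_lit 672) (nat_lit 0) (XT.nd (nat_lit 94) (nat_lit 420) (nat_lit 0) (XT.lf (nat_lit 0) (nat_lit 116304719892) (nat_lit 420) (nat_lit 7379856843) (nat_lit 84) (nat_lit 7296598526) (nat_lit 102) (nat_lit 5) (nat_lit 107) (nat_lit 5) (nat_lit 103) (nat_lit 5) (nat_lit 320) (nat_lit 301) (nat_lit 99)) (XT.lf (nat_lit 0) (nat_lit 5350924513) (nat_lit 420) (nat_lit 64708420646) (nat_lit 84) (nat_lit 64622565858) (nat_lit 97) (nat_lit 5) (nat_lit 102) (nat_lit 5) (nat_lit 98) (nat_lit 5) (nat_lit 321) (nat_lit 301) (nat_lit 98))) (XT.nd (nat_lit 94) (nat_lit 336) (nat_lit 0) (XT.lf (nat_lit 0) (nat_lit 13064409702) (nat_lit 336) (nat_lit 13152737319) (nat_lit 420)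 (nat_lit 112321971718) (nat_lit 93) (nat_lit 5) (nat_lit 97) (nat_lit 5) (nat_lit 98) (nat_lit 5) (nat_lit 322) (nat_lit 301) (nat_lit 97)) (XT.nd (nat_lit 94) (nat_lit 336) (nat_lit 0) (XT.lf (nat_lit 0) (nat_lit 49967762370) (nat_lit 420) (nat_lit 46307867430) (nat_lit 84) (nat_lit 46221502961) (nat_lit 93) (nat_lit 5) (nat_lit 98) (nat_lit 5) (nat_lit 94) (nat_lit 5) (nat_lit 323) (nat_lit 301) (nat_lit 96)) (XT.lf (nat_lit 0) (nat_lit 37811544464) (nat_lit 336) (nat_lit 37900045057) (nat_lit 420) (nat_lit 70901173912) (nat_lit 89) (nat_lit 5) (nat_lit 93) (nat_lit 5) (nat_lit 94) (nat_lit 5) (nat_lit 324) (nat_lit 301) (nat_lit 95))))))) (XT.nd (nat_lit 752) (nat_lit 1176) (nat_lit 0) (XT.nd (nat_lit 376) (nat_lit 840) (nat_lit 0) (XT.nd (nat_lit 188) (nat_lit 420) (nat_lit 0) (XT.nd (nat_lit 94) (nat_lit 252) (nat_lit 0) (XT.lf (nat_lit 0) (nat_lit 103904686437) (nat_lit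 420) (nat_lit 23528804544) (nat_lit 84) (nat_lit 23442580738) (nat_lit 89) (nat_lit 5) (nat_lit 94) (nat_lit 5) (nat_lit 90) (nat_lit 5) (nat_lit 325) (nat_lit 301) (nat_lit 94)) (XT.lf (nat_lit 0) (nat_lit 67547512653) (nat_lit 252) (nat_lit 67635581721) (nat_lit 336) (nat_lit 20085668235) (nat_lit 86) (nat_lit 5) (nat_lit 89) (nat_lit 5) (nat_lit 90) (nat_lit 5) (nat_lit 326) (nat_lit 301) (nat_lit 93))) (XT.nd (nat_lit 94) (nat_lit 0) (nat_lit 0) (XT.lf (nat_lit 0) (nat_lit 4131544284) (nat_lit 336) (nat_lit 4221370746) (nat_lit 420) (nat_lit 151498352723) (nat_lit 81) (nat_lit 5) (nat_lit 85) (nat_lit 5) (nat_lit 86) (nat_lit 5) (nat_lit 327) (nat_lit 301) (nat_lit 92)) (XT.lf (nat_lit 0) (nat_lit 40021789476) (nat_lit 420) (nat_lit 62293809713) (nat_lit 84) (nat_lit 62206666694) (nat_lit 81) (nat_lit 5) (nat_lit 86) (nat_lit 5) (nat_lit 82) (nat_lit 5) (nat_lit 328)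 (nat_lit 301) (nat_lit 91)))) (XT.nd (nat_lit 188) (nat_lit 588) (nat_lit 0) (XT.nd (nat_lit 94) (nat_lit 0) (nat_lit 0) (XT.lf (nat_lit 0) (nat_lit 36915380184) (nat_lit 252) (nat_lit 37004041306) (nat_lit 336) (nat_lit 95475126738) (nat_lit 78) (nat_lit 5) (nat_lit 81) (nat_lit 5) (nat_lit 82) (nat_lit 5) (nat_lit 329) (nat_lit 301) (nat_lit 90)) (XT.lf (nat_lit 0) (nat_lit 111076913339) (nat_lit 336) (nat_lit 31720549283) (nat_lit 84) (nat_lit 31634733155) (nat_lit 78) (nat_lit 5) (nat_lit 82) (nat_lit 5) (nat_lit 79) (nat_lit 5) (nat_lit 330) (nat_lit 301) (nat_lit 89))) (XT.nd (nat_lit 94) (nat_lit 336) (nat_lit 0) (XT.lf (nat_lit 0) (nat_lit 75898267535) (nat_lit 252) (nat_lit 75985395058) (nat_lit 336) (nat_lit 27748493970) (nat_lit 75) (nat_lit 5) (nat_lit 78) (nat_lit 5) (nat_lit 79) (nat_lit 5) (nat_lit 331) (nat_lit 301) (nat_lit 88)) (XT.lf (nat_lit 0) (nat_lit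 4932276857) (nat_lit 252) (nat_lit 5020653326) (nat_lit 336) (nat_lit 175100521265) (nat_lit 71) (nat_lit 5) (nat_lit 74) (nat_lit 5) (nat_lit 75) (nat_lit 5) (nat_lit 332) (nat_lit 301) (nat_lit 87))))) (XT.nd (nat_lit 376) (nat_lit 756) (nat_lit 0) (XT.nd (nat_lit 188) (nat_lit 168) (nat_lit 0) (XT.nd (nat_lit 94) (nat_lit 252) (nat_lit 0) (XT.lf (nat_lit 0) (nat_lit 51477228004) (nat_lit 336) (nat_lit 69593811306) (nat_lit 84) (nat_lit 69508510408) (nat_lit 71) (nat_lit 5) (nat_lit 75) (nat_lit 5) (nat_lit 72) (nat_lit 5) (nat_lit 333) (nat_lit 301) (nat_lit 86)) (XT.lf (nat_lit 0) (nat_lit 47910739305) (nat_lit 252) (nat_lit 47997119090) (nat_lit 336) (nat_lit 100432588623) (nat_lit 68) (nat_lit 5) (nat_lit 71) (nat_lit 5) (nat_lit 72) (nat_lit 5) (nat_lit 334) (nat_lit 301) (nat_lit 85))) (XT.nd (nat_lit 94) (nat_lit 168) (nat_lit 0) (XT.lf (nat_lit 0) (nat_lit 144206304492)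 (nat_lit 336) (nat_lit 29092007763) (nat_lit 84) (nat_lit 29008762719) (nat_lit 68) (nat_lit 5) (nat_lit 72) (nat_lit 5) (nat_lit 69) (nat_lit 5) (nat_lit 335) (nat_lit 301) (nat_lit 84)) (XT.lf (nat_lit 0) (nat_lit 98580628957) (nat_lit 168) (nat_lit 98664805984) (nat_lit 252) (nat_lit 11210311284) (nat_lit 66) (nat_lit 5) (nat_lit 68) (nat_lit 5) (nat_lit 69) (nat_lit 5) (nat_lit 336) (nat_lit 301) (nat_lit 83)))) (XT.nd (nat_lit 188) (nat_lit 420) (nat_lit 0) (XT.nd (nat_lit 94) (nat_lit 0) (nat_lit 0) (XT.lf (nat_lit 0) (nat_lit 18758007032) (nat_lit 252) (nat_lit 18843071663) (nat_lit 336) (nat_lit 177241417021) (nat_lit 62) (nat_lit 5) (nat_lit 65) (nat_lit 5) (nat_lit 66) (nat_lit 5) (nat_lit 337) (nat_lit 301) (nat_lit 82)) (XT.lf (nat_lit 0) (nat_lit 91381759478) (nat_lit 336) (nat_lit 65047090189) (nat_lit 84) (nat_lit 64965271172) (nat_lit 62) (nat_lit 5) (nat_lit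 66) (nat_lit 5) (nat_lit 63) (nat_lit 5) (nat_lit 338) (nat_lit 301) (nat_lit 81))) (XT.nd (nat_lit 94) (nat_lit 252) (nat_lit 0) (XT.lf (nat_lit 0) (nat_lit 74621328472) (nat_lit 168) (nat_lit 74703914234) (nat_lit 252) (nat_lit 78874396092) (nat_lit 60) (nat_lit 5) (nat_lit 62) (nat_lit 5) (nat_lit 63) (nat_lit 5) (nat_lit 339) (nat_lit 301) (nat_lit 80)) (XT.nd (nat_lit 94) (nat_lit 252) (nat_lit 0) (XT.lf (nat_lit 0) (nat_lit 211458798630) (nat_lit 252) (nat_lit 11950668833) (nat_lit 84) (nat_lit 11871320266) (nat_lit 60) (nat_lit 5) (nat_lit 63) (nat_lit 5) (nat_lit 61) (nat_lit 5) (nat_lit 340) (nat_lit 301) (nat_lit 79)) (XT.lf (nat_lit 0) (nat_lit 36361784401) (nat_lit 252) (nat_lit 103117185656) (nat_lit 84) (nat_lit 103037174746) (nat_lit 57) (nat_lit 5) (nat_lit 60) (nat_lit 5) (nat_lit 58) (nat_lit 5) (nat_lit 341) (nat_lit 301) (nat_lit 78))))))))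
noncomputable def xc230 : XT := (XT.nd (nat_lit 42864) (nat_lit 0) (nat_lit 1344) (XT.nd (nat_lit 42018) (nat_lit 0) (nat_lit 4704) (XT.nd (nat_lit 41642) (nat_lit 0) (nat_lit 6216) (XT.nd (nat_lit 41454) (nat_lit 0) (nat_lit 6132) (XT.nd (nat_lit 94) (nat_lit 0) (nat_lit 0) (XT.lf (nat_lit 0) (nat_lit 49828515190) (nat_lit 168) (nat_lit 49909156903) (nat_lit 252) (nat_lit 150306896388) (nat_lit 55) (nat_lit 5) (nat_lit 57) (nat_lit 5) (nat_lit 58) (nat_lit 5) (nat_lit 342) (nat_lit 301) (nat_lit 77)) (XT.lf (nat_lit 0) (nat_lit 168746289433) (nat_lit 252) (nat_lit 44578650467) (nat_lit 84) (nat_lit 44501276679) (nat_lit 55) (nat_lit 5) (nat_lit 58) (nat_lit 5) (nat_lit 56) (nat_lit 5) (nat_lit 343) (nat_lit 301) (nat_lit 76))) (XT.nd (nat_lit 94) (nat_lit 0) (nat_lit 0) (XT.lf (nat_lit 0) (nat_lit 19583890518) (nat_lit 924) (nat_lit 11099258886) (nat_lit 924) (nat_lit 11099258886)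 (nat_lit 128) (nat_lit 3) (nat_lit 139) (nat_lit 3) (nat_lit 139) (nat_lit 5) (nat_lit 302) (nat_lit 302) (nat_lit 116)) (XT.lf (nat_lit 84) (nat_lit 20231422382) (nat_lit 0) (nat_lit 20240654583) (nat_lit 924) (nat_lit 45165604961) (nat_lit 129) (nat_lit 5) (nat_lit 128) (nat_lit 3) (nat_lit 139) (nat_lit 5) (nat_lit 303) (nat_lit 302) (nat_lit 115)))) (XT.nd (nat_lit 188) (nat_lit 0) (nat_lit 84) (XT.nd (nat_lit 94) (nat_lit 0) (nat_lit 0) (XT.lf (nat_lit 0) (nat_lit 42581279191) (nat_lit 840) (nat_lit 22606546611) (nat_lit 924) (nat_lit 22589380161) (nat_lit 129) (nat_lit 5) (nat_lit 139) (nat_lit 5) (nat_lit 140) (nat_lit 5) (nat_lit 304) (nat_lit 302) (nat_lit 114)) (XT.lf (nat_lit 84) (nat_lit 22728452651) (nat_lit 0) (nat_lit 22753594224) (nat_lit 924) (nat_lit 44507354059) (nat_lit 130) (nat_lit 5) (nat_lit 129) (nat_lit 5) (nat_lit 140) (nat_lit 5) (nat_lit 305)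 (nat_lit 302) (nat_lit 113))) (XT.nd (nat_lit 94) (nat_lit 0) (nat_lit 0) (XT.lf (nat_lit 0) (nat_lit 49256839206) (nat_lit 840) (nat_lit 21525047580) (nat_lit 924) (nat_lit 21493869554) (nat_lit 130) (nat_lit 5) (nat_lit 140) (nat_lit 5) (nat_lit 141) (nat_lit 5) (nat_lit 306) (nat_lit 302) (nat_lit 112)) (XT.lf (nat_lit 84) (nat_lit 26988080142) (nat_lit 0) (nat_lit 27026147377) (nat_lit 924) (nat_lit 40622509180) (nat_lit 131) (nat_lit 5) (nat_lit 130) (nat_lit 5) (nat_lit 141) (nat_lit 5) (nat_lit 307) (nat_lit 302) (nat_lit 111))))) (XT.nd (nat_lit 376) (nat_lit 1680) (nat_lit 0) (XT.nd (nat_lit 188) (nat_lit 0) (nat_lit 84) (XT.nd (nat_lit 94) (nat_lit 0) (nat_lit 0) (XT.lf (nat_lit 0) (nat_lit 59674860250) (nat_lit 840) (nat_lit 18725070151) (nat_lit 924) (nat_lit 18682566924) (nat_lit 131) (nat_lit 5) (nat_lit 141) (nat_lit 5) (nat_lit 142) (nat_lit 5) (nat_lit 308)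 (nat_lit 302) (nat_lit 110)) (XT.lf (nat_lit 84) (nat_lit 33266014766) (nat_lit 0) (nat_lit 33314469151) (nat_lit 924) (nat_lit 33021964101) (nat_lit 132) (nat_lit 5) (nat_lit 131) (nat_lit 5) (nat_lit 142) (nat_lit 5) (nat_lit 309) (nat_lit 302) (nat_lit 109))) (XT.nd (nat_lit 94) (nat_lit 0) (nat_lit 0) (XT.lf (nat_lit 0) (nat_lit 74372229824) (nat_lit 840) (nat_lit 13950334639) (nat_lit 924) (nat_lit 13898789729) (nat_lit 132) (nat_lit 5) (nat_lit 142) (nat_lit 5) (nat_lit 143) (nat_lit 5) (nat_lit 310) (nat_lit 302) (nat_lit 108)) (XT.lf (nat_lit 84) (nat_lit 41847976143) (nat_lit 0) (nat_lit 41904661888) (nat_lit 924) (nat_lit 21158613894) (nat_lit 133) (nat_lit 5) (nat_lit 132) (nat_lit 5) (nat_lit 143) (nat_lit 5) (nat_lit 311) (nat_lit 302) (nat_lit 107)))) (XT.nd (nat_lit 188) (nat_lit 1008) (nat_lit 0) (XT.nd (nat_lit 94) (nat_lit 840) (nat_lit 0) (XT.lf (nat_lit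 0) (nat_lit 93948483416) (nat_lit 840) (nat_lit 6914244802) (nat_lit 84) (nat_lit 6855595489) (nat_lit 133) (nat_lit 5) (nat_lit 143) (nat_lit 5) (nat_lit 134) (nat_lit 5) (nat_lit 312) (nat_lit 302) (nat_lit 106)) (XT.lf (nat_lit 0) (nat_lit 53052952756) (nat_lit 840) (nat_lit 53116042916) (nat_lit 924) (nat_lit 4421009675) (nat_lit 123) (nat_lit 5) (nat_lit 133) (nat_lit 5) (nat_lit 134) (nat_lit 5) (nat_lit 313) (nat_lit 302) (nat_lit 105))) (XT.nd (nat_lit 94) (nat_lit 420) (nat_lit 0) (XT.lf (nat_lit 0) (nat_lit 2657692664) (nat_lit 504) (nat_lit 2725012201) (nat_lit 588) (nat_lit 108210348222) (nat_lit 116) (nat_lit 5) (nat_lit 122) (nat_lit 5) (nat_lit 123) (nat_lit 5) (nat_lit 314) (nat_lit 302) (nat_lit 104)) (XT.nd (nat_lit 94) (nat_lit 420) (nat_lit 0) (XT.lf (nat_lit 0) (nat_lit 17301587480) (nat_lit 588) (nat_lit 49710157053) (nat_lit 84) (nat_lit 49642207038)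 (nat_lit 116) (nat_lit 5) (nat_lit 123) (nat_lit 5) (nat_lit 117) (nat_lit 5) (nat_lit 315) (nat_lit 302) (nat_lit 103)) (XT.lf (nat_lit 0) (nat_lit 15011752132) (nat_lit 420) (nat_lit 15083355642) (nat_lit 504) (nat_lit 89758852529) (nat_lit 111) (nat_lit 5) (nat_lit 116) (nat_lit 5) (nat_lit 117) (nat_lit 5) (nat_lit 316) (nat_lit 302) (nat_lit 102))))))) (XT.nd (nat_lit 752) (nat_lit 1848) (nat_lit 0) (XT.nd (nat_lit 376) (nat_lit 756) (nat_lit 0) (XT.nd (nat_lit 188) (nat_lit 336) (nat_lit 0) (XT.nd (nat_lit 94) (nat_lit 420) (nat_lit 0) (XT.lf (nat_lit 0) (nat_lit 44999419443) (nat_lit 504) (nat_lit 39106250954) (nat_lit 84) (nat_lit 39034743307) (nat_lit 111) (nat_lit 5) (nat_lit 117) (nat_lit 5) (nat_lit 112) (nat_lit 5) (nat_lit 317) (nat_lit 302) (nat_lit 101)) (XT.lf (nat_lit 0) (nat_lit 30649877535) (nat_lit 420) (nat_lit 30724541209) (nat_lit 504) (nat_lit 65180497427)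 (nat_lit 106) (nat_lit 5) (nat_lit 111) (nat_lit 5) (nat_lit 112) (nat_lit 5) (nat_lit 318) (nat_lit 302) (nat_lit 100))) (XT.nd (nat_lit 94) (nat_lit 336) (nat_lit 0) (XT.lf (nat_lit 0) (nat_lit 79636395981) (nat_lit 504) (nat_lit 25262153627) (nat_lit 84) (nat_lit 25188182757) (nat_lit 106) (nat_lit 5) (nat_lit 112) (nat_lit 5) (nat_lit 107) (nat_lit 5) (nat_lit 319) (nat_lit 302) (nat_lit 99)) (XT.lf (nat_lit 0) (nat_lit 50009471147) (nat_lit 336) (nat_lit 50086168312) (nat_lit 420) (nat_lit 33635291539) (nat_lit 102) (nat_lit 5) (nat_lit 106) (nat_lit 5) (nat_lit 107) (nat_lit 5) (nat_lit 320) (nat_lit 302) (nat_lit 98)))) (XT.nd (nat_lit 188) (nat_lit 336) (nat_lit 0) (XT.nd (nat_lit 94) (nat_lit 420) (nat_lit 0) (XT.lf (nat_lit 0) (nat_lit 122128970534) (nat_lit 420) (nat_lit 7738165253) (nat_lit 84) (nat_lit 7662647505) (nat_lit 102) (nat_lit 5) (nat_lit 107) (nat_lit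 5) (nat_lit 103) (nat_lit 5) (nat_lit 321) (nat_lit 302) (nat_lit 97)) (XT.lf (nat_lit 0) (nat_lit 5627363675) (nat_lit 420) (nat_lit 67933035534) (nat_lit 84) (nat_lit 67855162711) (nat_lit 97) (nat_lit 5) (nat_lit 102) (nat_lit 5) (nat_lit 98) (nat_lit 5) (nat_lit 322) (nat_lit 302) (nat_lit 96))) (XT.nd (nat_lit 94) (nat_lit 0) (nat_lit 0) (XT.lf (nat_lit 0) (nat_lit 13728262038) (nat_lit 336) (nat_lit 13808377790) (nat_lit 420) (nat_lit 117929003075) (nat_lit 93) (nat_lit 5) (nat_lit 97) (nat_lit 5) (nat_lit 98) (nat_lit 5) (nat_lit 323) (nat_lit 302) (nat_lit 95)) (XT.lf (nat_lit 0) (nat_lit 52474404418) (nat_lit 420) (nat_lit 48612753702) (nat_lit 84) (nat_lit 48534418583) (nat_lit 93) (nat_lit 5) (nat_lit 98) (nat_lit 5) (nat_lit 94) (nat_lit 5) (nat_lit 324) (nat_lit 302) (nat_lit 94))))) (XT.nd (nat_lit 376) (nat_lit 840) (nat_lit 0) (XT.nd (nat_lit 188) (nat_lit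 672) (nat_lit 0) (XT.nd (nat_lit 94) (nat_lit 0) (nat_lit 0) (XT.lf (nat_lit 0) (nat_lit 39712459318) (nat_lit 336) (nat_lit 39792731964) (nat_lit 420) (nat_lit 74437809209) (nat_lit 89) (nat_lit 5) (nat_lit 93) (nat_lit 5) (nat_lit 94) (nat_lit 5) (nat_lit 325) (nat_lit 302) (nat_lit 93)) (XT.lf (nat_lit 0) (nat_lit 109107595457) (nat_lit 420) (nat_lit 24695051823) (nat_lit 84) (nat_lit 24616844290) (nat_lit 89) (nat_lit 5) (nat_lit 94) (nat_lit 5) (nat_lit 90) (nat_lit 5) (nat_lit 326) (nat_lit 302) (nat_lit 92))) (XT.nd (nat_lit 94) (nat_lit 420) (nat_lit 0) (XT.lf (nat_lit 0) (nat_lit 70934916831) (nat_lit 252) (nat_lit 71014798072) (nat_lit 336) (nat_lit 21082112546) (nat_lit 86) (nat_lit 5) (nat_lit 89) (nat_lit 5) (nat_lit 90) (nat_lit 5) (nat_lit 327) (nat_lit 302) (nat_lit 91)) (XT.lf (nat_lit 0) (nat_lit 4348235147) (nat_lit 336) (nat_lit 4429710396) (nat_lit 420)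 (nat_lit 159065516361) (nat_lit 81) (nat_lit 5) (nat_lit 85) (nat_lit 5) (nat_lit 86) (nat_lit 5) (nat_lit 328) (nat_lit 302) (nat_lit 90)))) (XT.nd (nat_lit 188) (nat_lit 588) (nat_lit 0) (XT.nd (nat_lit 94) (nat_lit 252) (nat_lit 0) (XT.lf (nat_lit 0) (nat_lit 42029952632) (nat_lit 420) (nat_lit 65398557075) (nat_lit 84) (nat_lit 65319515787) (nat_lit 81) (nat_lit 5) (nat_lit 86) (nat_lit 5) (nat_lit 82) (nat_lit 5) (nat_lit 329) (nat_lit 302) (nat_lit 89)) (XT.lf (nat_lit 0) (nat_lit 38770931944) (nat_lit 252) (nat_lit 38851350196) (nat_lit 336) (nat_lit 100241649020) (nat_lit 78) (nat_lit 5) (nat_lit 81) (nat_lit 5) (nat_lit 82) (nat_lit 5) (nat_lit 330) (nat_lit 302) (nat_lit 88))) (XT.nd (nat_lit 94) (nat_lit 588) (nat_lit 0) (XT.lf (nat_lit 0) (nat_lit 116637363526) (nat_lit 336) (nat_lit 33296974786) (nat_lit 84) (nat_lit 33219137028) (nat_lit 78) (nat_lit 5) (nat_lit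 82) (nat_lit 5) (nat_lit 79) (nat_lit 5) (nat_lit 331) (nat_lit 302) (nat_lit 87)) (XT.nd (nat_lit 94) (nat_lit 336) (nat_lit 0) (XT.lf (nat_lit 0) (nat_lit 79702628003) (nat_lit 252) (nat_lit 79781655234) (nat_lit 336) (nat_lit 29129159278) (nat_lit 75) (nat_lit 5) (nat_lit 78) (nat_lit 5) (nat_lit 79) (nat_lit 5) (nat_lit 332) (nat_lit 302) (nat_lit 86)) (XT.lf (nat_lit 0) (nat_lit 5188398271) (nat_lit 252) (nat_lit 5268558334) (nat_lit 336) (nat_lit 183848848418) (nat_lit 71) (nat_lit 5) (nat_lit 74) (nat_lit 5) (nat_lit 75) (nat_lit 5) (nat_lit 333) (nat_lit 302) (nat_lit 85))))))))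
noncomputable def xc231 : XT := (XT.nd (nat_lit 42958) (nat_lit 0) (nat_lit 2856) (XT.nd (nat_lit 752) (nat_lit 420) (nat_lit 0) (XT.nd (nat_lit 376) (nat_lit 504) (nat_lit 0) (XT.nd (nat_lit 188) (nat_lit 168) (nat_lit 0) (XT.nd (nat_lit 94) (nat_lit 252) (nat_lit 0) (XT.lf (nat_lit 0) (nat_lit 54057212019) (nat_lit 336) (nat_lit 73064189741) (nat_lit 84) (nat_lit 72986819313) (nat_lit 71) (nat_lit 5) (nat_lit 75) (nat_lit 5) (nat_lit 72) (nat_lit 5) (nat_lit 334) (nat_lit 302) (nat_lit 84)) (XT.lf (nat_lit 0) (nat_lit 50315438205) (nat_lit 252) (nat_lit 50393787216) (nat_lit 336) (nat_lit 105447945243) (nat_lit 68) (nat_lit 5) (nat_lit 71) (nat_lit 5) (nat_lit 72) (nat_lit 5) (nat_lit 335) (nat_lit 302) (nat_lit 83))) (XT.nd (nat_lit 94) (nat_lit 168) (nat_lit 0) (XT.lf (nat_lit 0) (nat_lit 151422356741) (nat_lit 336) (nat_lit 30537645419) (nat_lit 84) (nat_lit 30462139710)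 (nat_lit 68) (nat_lit 5) (nat_lit 72) (nat_lit 5) (nat_lit 69) (nat_lit 5) (nat_lit 336) (nat_lit 302) (nat_lit 82)) (XT.lf (nat_lit 0) (nat_lit 103518478576) (nat_lit 168) (nat_lit 103594829622) (nat_lit 252) (nat_lit 11764945263) (nat_lit 66) (nat_lit 5) (nat_lit 68) (nat_lit 5) (nat_lit 69) (nat_lit 5) (nat_lit 337) (nat_lit 302) (nat_lit 81)))) (XT.nd (nat_lit 188) (nat_lit 168) (nat_lit 0) (XT.nd (nat_lit 94) (nat_lit 0) (nat_lit 0) (XT.lf (nat_lit 0) (nat_lit 19704768538) (nat_lit 252) (nat_lit 19781924666) (nat_lit 336) (nat_lit 186097649270) (nat_lit 62) (nat_lit 5) (nat_lit 65) (nat_lit 5) (nat_lit 66) (nat_lit 5) (nat_lit 338) (nat_lit 302) (nat_lit 80)) (XT.lf (nat_lit 0) (nat_lit 95956192314) (nat_lit 336) (nat_lit 68290789792) (nat_lit 84) (nat_lit 68216577532) (nat_lit 62) (nat_lit 5) (nat_lit 66) (nat_lit 5) (nat_lit 63) (nat_lit 5) (nat_lit 339) (nat_lit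 302) (nat_lit 79))) (XT.nd (nat_lit 94) (nat_lit 0) (nat_lit 0) (XT.lf (nat_lit 0) (nat_lit 78360910207) (nat_lit 168) (nat_lit 78435817927) (nat_lit 252) (nat_lit 82812631440) (nat_lit 60) (nat_lit 5) (nat_lit 62) (nat_lit 5) (nat_lit 63) (nat_lit 5) (nat_lit 340) (nat_lit 302) (nat_lit 78)) (XT.lf (nat_lit 0) (nat_lit 222036762076) (nat_lit 252) (nat_lit 12539892676) (nat_lit 84) (nat_lit 12467921187) (nat_lit 60) (nat_lit 5) (nat_lit 63) (nat_lit 5) (nat_lit 61) (nat_lit 5) (nat_lit 341) (nat_lit 302) (nat_lit 77))))) (XT.nd (nat_lit 41736) (nat_lit 0) (nat_lit 6216) (XT.nd (nat_lit 41548) (nat_lit 0) (nat_lit 6132) (XT.nd (nat_lit 94) (nat_lit 168) (nat_lit 0) (XT.lf (nat_lit 0) (nat_lit 38184866087) (nat_lit 252) (nat_lit 108264704293) (nat_lit 84) (nat_lit 108192132039) (nat_lit 57) (nat_lit 5) (nat_lit 60) (nat_lit 5) (nat_lit 58) (nat_lit 5) (nat_lit 342) (nat_lit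 302) (nat_lit 76)) (XT.lf (nat_lit 0) (nat_lit 52328147069) (nat_lit 168) (nat_lit 52401291479) (nat_lit 252) (nat_lit 157817114214) (nat_lit 55) (nat_lit 5) (nat_lit 57) (nat_lit 5) (nat_lit 58) (nat_lit 5) (nat_lit 343) (nat_lit 302) (nat_lit 75))) (XT.nd (nat_lit 94) (nat_lit 0) (nat_lit 0) (XT.lf (nat_lit 0) (nat_lit 20572173104) (nat_lit 924) (nat_lit 11649450599) (nat_lit 924) (nat_lit 11649450599) (nat_lit 128) (nat_lit 3) (nat_lit 139) (nat_lit 3) (nat_lit 139) (nat_lit 5) (nat_lit 303) (nat_lit 303) (nat_lit 114)) (XT.lf (nat_lit 84) (nat_lit 21252382054) (nat_lit 0) (nat_lit 21260755932) (nat_lit 924) (nat_lit 47405555178) (nat_lit 129) (nat_lit 5) (nat_lit 128) (nat_lit 3) (nat_lit 139) (nat_lit 5) (nat_lit 304) (nat_lit 303) (nat_lit 113)))) (XT.nd (nat_lit 188) (nat_lit 0) (nat_lit 84) (XT.nd (nat_lit 94) (nat_lit 0) (nat_lit 0) (XT.lf (nat_lit 0) (nat_lit 44726849054)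 (nat_lit 840) (nat_lit 23726981194) (nat_lit 924) (nat_lit 23711410717) (nat_lit 129) (nat_lit 5) (nat_lit 139) (nat_lit 5) (nat_lit 140) (nat_lit 5) (nat_lit 305) (nat_lit 303) (nat_lit 112)) (XT.lf (nat_lit 84) (nat_lit 23874608471) (nat_lit 0) (nat_lit 23897412618) (nat_lit 924) (nat_lit 46716056298) (nat_lit 130) (nat_lit 5) (nat_lit 129) (nat_lit 5) (nat_lit 140) (nat_lit 5) (nat_lit 306) (nat_lit 303) (nat_lit 111))) (XT.nd (nat_lit 94) (nat_lit 0) (nat_lit 0) (XT.lf (nat_lit 0) (nat_lit 51734705955) (nat_lit 840) (nat_lit 22591183175) (nat_lit 924) (nat_lit 22562903787) (nat_lit 130) (nat_lit 5) (nat_lit 140) (nat_lit 5) (nat_lit 141) (nat_lit 5) (nat_lit 307) (nat_lit 303) (nat_lit 110)) (XT.nd (nat_lit 94) (nat_lit 0) (nat_lit 84) (XT.lf (nat_lit 84) (nat_lit 28347437758) (nat_lit 0) (nat_lit 28381965863) (nat_lit 924) (nat_lit 42638446676) (nat_lit 131) (nat_lit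 5) (nat_lit 130) (nat_lit 5) (nat_lit 141) (nat_lit 5) (nat_lit 308) (nat_lit 303) (nat_lit 109)) (XT.lf (nat_lit 0) (nat_lit 62672312115) (nat_lit 840) (nat_lit 19651088157) (nat_lit 924) (nat_lit 19612536477) (nat_lit 131) (nat_lit 5) (nat_lit 141) (nat_lit 5) (nat_lit 142) (nat_lit 5) (nat_lit 309) (nat_lit 303) (nat_lit 108))))))) (XT.nd (nat_lit 752) (nat_lit 1848) (nat_lit 0) (XT.nd (nat_lit 376) (nat_lit 1680) (nat_lit 0) (XT.nd (nat_lit 188) (nat_lit 0) (nat_lit 84) (XT.nd (nat_lit 94) (nat_lit 0) (nat_lit 84) (XT.lf (nat_lit 84) (nat_lit 34939385917) (nat_lit 0) (nat_lit 34983335473) (nat_lit 924) (nat_lit 34659188364) (nat_lit 132) (nat_lit 5) (nat_lit 131) (nat_lit 5) (nat_lit 142) (nat_lit 5) (nat_lit 310) (nat_lit 303) (nat_lit 107)) (XT.lf (nat_lit 0) (nat_lit 78103378657) (nat_lit 840) (nat_lit 14637584566) (nat_lit 924) (nat_lit 14590831812) (nat_lit 132)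 (nat_lit 5) (nat_lit 142) (nat_lit 5) (nat_lit 143) (nat_lit 5) (nat_lit 311) (nat_lit 303) (nat_lit 106))) (XT.nd (nat_lit 94) (nat_lit 0) (nat_lit 84) (XT.lf (nat_lit 84) (nat_lit 43950476162) (nat_lit 0) (nat_lit 44001891804) (nat_lit 924) (nat_lit 22203841654) (nat_lit 133) (nat_lit 5) (nat_lit 132) (nat_lit 5) (nat_lit 143) (nat_lit 5) (nat_lit 312) (nat_lit 303) (nat_lit 105)) (XT.lf (nat_lit 0) (nat_lit 98657399832) (nat_lit 840) (nat_lit 7249731052) (nat_lit 84) (nat_lit 7196534396) (nat_lit 133) (nat_lit 5) (nat_lit 143) (nat_lit 5) (nat_lit 134) (nat_lit 5) (nat_lit 313) (nat_lit 303) (nat_lit 104)))) (XT.nd (nat_lit 188) (nat_lit 420) (nat_lit 0) (XT.nd (nat_lit 94) (nat_lit 588) (nat_lit 0) (XT.lf (nat_lit 0) (nat_lit 55715661449) (nat_lit 840) (nat_lit 55772886083) (nat_lit 924) (nat_lit 4630402978) (nat_lit 123) (nat_lit 5) (nat_lit 133) (nat_lit 5) (nat_lit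 134) (nat_lit 5) (nat_lit 314) (nat_lit 303) (nat_lit 103)) (XT.lf (nat_lit 0) (nat_lit 2800843161) (nat_lit 504) (nat_lit 2861903966) (nat_lit 588) (nat_lit 113609413262) (nat_lit 116) (nat_lit 5) (nat_lit 122) (nat_lit 5) (nat_lit 123) (nat_lit 5) (nat_lit 315) (nat_lit 303) (nat_lit 102))) (XT.nd (nat_lit 94) (nat_lit 420) (nat_lit 0) (XT.lf (nat_lit 0) (nat_lit 18177044958) (nat_lit 588) (nat_lit 52185358976) (nat_lit 84) (nat_lit 52123726310) (nat_lit 116) (nat_lit 5) (nat_lit 123) (nat_lit 5) (nat_lit 117) (nat_lit 5) (nat_lit 316) (nat_lit 303) (nat_lit 101)) (XT.lf (nat_lit 0) (nat_lit 15772479443) (nat_lit 420) (nat_lit 15837425938) (nat_lit 504) (nat_lit 94236250827) (nat_lit 111) (nat_lit 5) (nat_lit 116) (nat_lit 5) (nat_lit 117) (nat_lit 5) (nat_lit 317) (nat_lit 303) (nat_lit 100))))) (XT.nd (nat_lit 376) (nat_lit 1092) (nat_lit 0) (XT.nd (nat_lit 188) (nat_lit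 336) (nat_lit 0) (XT.nd (nat_lit 94) (nat_lit 420) (nat_lit 0) (XT.lf (nat_lit 0) (nat_lit 47258955882) (nat_lit 504) (nat_lit 41051429888) (nat_lit 84) (nat_lit 40986570345) (nat_lit 111) (nat_lit 5) (nat_lit 117) (nat_lit 5) (nat_lit 112) (nat_lit 5) (nat_lit 318) (nat_lit 303) (nat_lit 99)) (XT.lf (nat_lit 0) (nat_lit 32192341580) (nat_lit 420) (nat_lit 32260063733) (nat_lit 504) (nat_lit 68429793386) (nat_lit 106) (nat_lit 5) (nat_lit 111) (nat_lit 5) (nat_lit 112) (nat_lit 5) (nat_lit 319) (nat_lit 303) (nat_lit 98))) (XT.nd (nat_lit 94) (nat_lit 336) (nat_lit 0) (XT.lf (nat_lit 0) (nat_lit 83627050666) (nat_lit 504) (nat_lit 26515335166) (nat_lit 84) (nat_lit 26448241406) (nat_lit 106) (nat_lit 5) (nat_lit 112) (nat_lit 5) (nat_lit 107) (nat_lit 5) (nat_lit 320) (nat_lit 303) (nat_lit 97)) (XT.lf (nat_lit 0) (nat_lit 52519710748) (nat_lit 336) (nat_lit 52589277337)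 (nat_lit 420) (nat_lit 35308061131) (nat_lit 102) (nat_lit 5) (nat_lit 106) (nat_lit 5) (nat_lit 107) (nat_lit 5) (nat_lit 321) (nat_lit 303) (nat_lit 96)))) (XT.nd (nat_lit 188) (nat_lit 672) (nat_lit 0) (XT.nd (nat_lit 94) (nat_lit 420) (nat_lit 0) (XT.lf (nat_lit 0) (nat_lit 128243595612) (nat_lit 420) (nat_lit 8115382420) (nat_lit 84) (nat_lit 8046885597) (nat_lit 102) (nat_lit 5) (nat_lit 107) (nat_lit 5) (nat_lit 103) (nat_lit 5) (nat_lit 322) (nat_lit 303) (nat_lit 95)) (XT.lf (nat_lit 0) (nat_lit 5916798014) (nat_lit 420) (nat_lit 71319885820) (nat_lit 84) (nat_lit 71249252874) (nat_lit 97) (nat_lit 5) (nat_lit 102) (nat_lit 5) (nat_lit 98) (nat_lit 5) (nat_lit 323) (nat_lit 303) (nat_lit 94))) (XT.nd (nat_lit 94) (nat_lit 336) (nat_lit 0) (XT.lf (nat_lit 0) (nat_lit 14424318542) (nat_lit 336) (nat_lit 14496985891) (nat_lit 420) (nat_lit 123817228985) (nat_lit 93)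 (nat_lit 5) (nat_lit 97) (nat_lit 5) (nat_lit 98) (nat_lit 5) (nat_lit 324) (nat_lit 303) (nat_lit 93)) (XT.nd (nat_lit 94) (nat_lit 336) (nat_lit 0) (XT.lf (nat_lit 0) (nat_lit 55105611196) (nat_lit 420) (nat_lit 51033861139) (nat_lit 84) (nat_lit 50962808876) (nat_lit 93) (nat_lit 5) (nat_lit 98) (nat_lit 5) (nat_lit 94) (nat_lit 5) (nat_lit 325) (nat_lit 303) (nat_lit 92)) (XT.lf (nat_lit 0) (nat_lit 41707458819) (nat_lit 336) (nat_lit 41780268475) (nat_lit 420) (nat_lit 78152059399) (nat_lit 89) (nat_lit 5) (nat_lit 93) (nat_lit 5) (nat_lit 94) (nat_lit 5) (nat_lit 326) (nat_lit 303) (nat_lit 91))))))))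
noncomputable def xc232 : XT := (XT.nd (nat_lit 1504) (nat_lit 252) (nat_lit 0) (XT.nd (nat_lit 752) (nat_lit 924) (nat_lit 0) (XT.nd (nat_lit 376) (nat_lit 840) (nat_lit 0) (XT.nd (nat_lit 188) (nat_lit 420) (nat_lit 0) (XT.nd (nat_lit 94) (nat_lit 252) (nat_lit 0) (XT.lf (nat_lit 0) (nat_lit 114569936407) (nat_lit 420) (nat_lit 25920559110) (nat_lit 84) (nat_lit 25849622572) (nat_lit 89) (nat_lit 5) (nat_lit 94) (nat_lit 5) (nat_lit 90) (nat_lit 5) (nat_lit 327) (nat_lit 303) (nat_lit 90)) (XT.lf (nat_lit 0) (nat_lit 74490758859) (nat_lit 252) (nat_lit 74563213499) (nat_lit 336) (nat_lit 22129107878) (nat_lit 86) (nat_lit 5) (nat_lit 89) (nat_lit 5) (nat_lit 90) (nat_lit 5) (nat_lit 328) (nat_lit 303) (nat_lit 89))) (XT.nd (nat_lit 94) (nat_lit 0) (nat_lit 0) (XT.lf (nat_lit 0) (nat_lit 4574820281) (nat_lit 336) (nat_lit 4648720734) (nat_lit 420) (nat_lit 167011759074)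 (nat_lit 81) (nat_lit 5) (nat_lit 85) (nat_lit 5) (nat_lit 86) (nat_lit 5) (nat_lit 329) (nat_lit 303) (nat_lit 88)) (XT.lf (nat_lit 0) (nat_lit 44137866301) (nat_lit 420) (nat_lit 68659466222) (nat_lit 84) (nat_lit 68587773444) (nat_lit 81) (nat_lit 5) (nat_lit 86) (nat_lit 5) (nat_lit 82) (nat_lit 5) (nat_lit 330) (nat_lit 303) (nat_lit 87)))) (XT.nd (nat_lit 188) (nat_lit 588) (nat_lit 0) (XT.nd (nat_lit 94) (nat_lit 0) (nat_lit 0) (XT.lf (nat_lit 0) (nat_lit 40718351785) (nat_lit 252) (nat_lit 40791293510) (nat_lit 336) (nat_lit 105247169970) (nat_lit 78) (nat_lit 5) (nat_lit 81) (nat_lit 5) (nat_lit 82) (nat_lit 5) (nat_lit 331) (nat_lit 303) (nat_lit 86)) (XT.lf (nat_lit 0) (nat_lit 122475222197) (nat_lit 336) (nat_lit 34953114263) (nat_lit 84) (nat_lit 34882513122) (nat_lit 78) (nat_lit 5) (nat_lit 82) (nat_lit 5) (nat_lit 79) (nat_lit 5) (nat_lit 332) (nat_lit 303)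 (nat_lit 85))) (XT.nd (nat_lit 94) (nat_lit 336) (nat_lit 0) (XT.lf (nat_lit 0) (nat_lit 83696328193) (nat_lit 252) (nat_lit 83768008222) (nat_lit 336) (nat_lit 30579486276) (nat_lit 75) (nat_lit 5) (nat_lit 78) (nat_lit 5) (nat_lit 79) (nat_lit 5) (nat_lit 333) (nat_lit 303) (nat_lit 84)) (XT.lf (nat_lit 0) (nat_lit 5456441833) (nat_lit 252) (nat_lit 5529149373) (nat_lit 336) (nat_lit 193035214731) (nat_lit 71) (nat_lit 5) (nat_lit 74) (nat_lit 5) (nat_lit 75) (nat_lit 5) (nat_lit 334) (nat_lit 303) (nat_lit 83))))) (XT.nd (nat_lit 376) (nat_lit 504) (nat_lit 0) (XT.nd (nat_lit 188) (nat_lit 168) (nat_lit 0) (XT.nd (nat_lit 94) (nat_lit 252) (nat_lit 0) (XT.lf (nat_lit 0) (nat_lit 56765626012) (nat_lit 336) (nat_lit 76708952852) (nat_lit 84) (nat_lit 76638775593) (nat_lit 71) (nat_lit 5) (nat_lit 75) (nat_lit 5) (nat_lit 72) (nat_lit 5) (nat_lit 335) (nat_lit 303) (nat_lit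 82)) (XT.lf (nat_lit 0) (nat_lit 52839520259) (nat_lit 252) (nat_lit 52910585122) (nat_lit 336) (nat_lit 110714652881) (nat_lit 68) (nat_lit 5) (nat_lit 71) (nat_lit 5) (nat_lit 72) (nat_lit 5) (nat_lit 336) (nat_lit 303) (nat_lit 81))) (XT.nd (nat_lit 94) (nat_lit 168) (nat_lit 0) (XT.lf (nat_lit 0) (nat_lit 158998678229) (nat_lit 336) (nat_lit 32056398228) (nat_lit 84) (nat_lit 31987912324) (nat_lit 68) (nat_lit 5) (nat_lit 72) (nat_lit 5) (nat_lit 69) (nat_lit 5) (nat_lit 337) (nat_lit 303) (nat_lit 80)) (XT.lf (nat_lit 0) (nat_lit 108702400846) (nat_lit 168) (nat_lit 108771653495) (nat_lit 252) (nat_lit 12347857755) (nat_lit 66) (nat_lit 5) (nat_lit 68) (nat_lit 5) (nat_lit 69) (nat_lit 5) (nat_lit 338) (nat_lit 303) (nat_lit 79)))) (XT.nd (nat_lit 188) (nat_lit 168) (nat_lit 0) (XT.nd (nat_lit 94) (nat_lit 0) (nat_lit 0) (XT.lf (nat_lit 0) (nat_lit 20698044293) (nat_lit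 252) (nat_lit 20768027175) (nat_lit 336) (nat_lit 195397235949) (nat_lit 62) (nat_lit 5) (nat_lit 65) (nat_lit 5) (nat_lit 66) (nat_lit 5) (nat_lit 339) (nat_lit 303) (nat_lit 78)) (XT.lf (nat_lit 0) (nat_lit 100758849877) (nat_lit 336) (nat_lit 71697479027) (nat_lit 84) (nat_lit 71630166319) (nat_lit 62) (nat_lit 5) (nat_lit 66) (nat_lit 5) (nat_lit 63) (nat_lit 5) (nat_lit 340) (nat_lit 303) (nat_lit 77))) (XT.nd (nat_lit 94) (nat_lit 0) (nat_lit 0) (XT.lf (nat_lit 0) (nat_lit 82286679355) (nat_lit 168) (nat_lit 82354622866) (nat_lit 252) (nat_lit 86948288447) (nat_lit 60) (nat_lit 5) (nat_lit 62) (nat_lit 5) (nat_lit 63) (nat_lit 5) (nat_lit 341) (nat_lit 303) (nat_lit 76)) (XT.lf (nat_lit 0) (nat_lit 233143156656) (nat_lit 252) (nat_lit 13159350260) (nat_lit 84) (nat_lit 13094069998) (nat_lit 60) (nat_lit 5) (nat_lit 63) (nat_lit 5) (nat_lit 61) (nat_lit 5) (nat_lit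 342) (nat_lit 303) (nat_lit 75)))))) (XT.nd (nat_lit 42206) (nat_lit 0) (nat_lit 4536) (XT.nd (nat_lit 41830) (nat_lit 0) (nat_lit 6048) (XT.nd (nat_lit 41642) (nat_lit 0) (nat_lit 5964) (XT.nd (nat_lit 41548) (nat_lit 0) (nat_lit 5964) (XT.lf (nat_lit 0) (nat_lit 40098637706) (nat_lit 252) (nat_lit 113670374296) (nat_lit 84) (nat_lit 113604549122) (nat_lit 57) (nat_lit 5) (nat_lit 60) (nat_lit 5) (nat_lit 58) (nat_lit 5) (nat_lit 343) (nat_lit 303) (nat_lit 74)) (XT.lf (nat_lit 0) (nat_lit 21609024898) (nat_lit 924) (nat_lit 12227595481) (nat_lit 924) (nat_lit 12227595481) (nat_lit 128) (nat_lit 3) (nat_lit 139) (nat_lit 3) (nat_lit 139) (nat_lit 5) (nat_lit 304) (nat_lit 304) (nat_lit 112))) (XT.nd (nat_lit 94) (nat_lit 0) (nat_lit 84) (XT.lf (nat_lit 84) (nat_lit 22323516850) (nat_lit 0) (nat_lit 22331112205) (nat_lit 924) (nat_lit 49759207058) (nat_lit 129) (nat_lit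 5) (nat_lit 128) (nat_lit 3) (nat_lit 139) (nat_lit 5) (nat_lit 305) (nat_lit 304) (nat_lit 111)) (XT.lf (nat_lit 0) (nat_lit 46978162848) (nat_lit 840) (nat_lit 24904357240) (nat_lit 924) (nat_lit 24890234359) (nat_lit 129) (nat_lit 5) (nat_lit 139) (nat_lit 5) (nat_lit 140) (nat_lit 5) (nat_lit 306) (nat_lit 304) (nat_lit 110)))) (XT.nd (nat_lit 188) (nat_lit 0) (nat_lit 84) (XT.nd (nat_lit 94) (nat_lit 0) (nat_lit 84) (XT.lf (nat_lit 84) (nat_lit 25077167182) (nat_lit 0) (nat_lit 25097851216) (nat_lit 924) (nat_lit 49036743046) (nat_lit 130) (nat_lit 5) (nat_lit 129) (nat_lit 5) (nat_lit 140) (nat_lit 5) (nat_lit 307) (nat_lit 304) (nat_lit 109)) (XT.lf (nat_lit 0) (nat_lit 54335069179) (nat_lit 840) (nat_lit 23711566113) (nat_lit 924) (nat_lit 23685915875) (nat_lit 130) (nat_lit 5) (nat_lit 140) (nat_lit 5) (nat_lit 141) (nat_lit 5) (nat_lit 308) (nat_lit 304) (nat_lit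 108))) (XT.nd (nat_lit 94) (nat_lit 0) (nat_lit 84) (XT.lf (nat_lit 84) (nat_lit 29773837863) (nat_lit 0) (nat_lit 29805155872) (nat_lit 924) (nat_lit 44756593080) (nat_lit 131) (nat_lit 5) (nat_lit 130) (nat_lit 5) (nat_lit 141) (nat_lit 5) (nat_lit 309) (nat_lit 304) (nat_lit 107)) (XT.lf (nat_lit 0) (nat_lit 65818362054) (nat_lit 840) (nat_lit 20624358663) (nat_lit 924) (nat_lit 20589391153) (nat_lit 131) (nat_lit 5) (nat_lit 141) (nat_lit 5) (nat_lit 142) (nat_lit 5) (nat_lit 310) (nat_lit 304) (nat_lit 106))))) (XT.nd (nat_lit 376) (nat_lit 1680) (nat_lit 0) (XT.nd (nat_lit 188) (nat_lit 0) (nat_lit 84) (XT.nd (nat_lit 94) (nat_lit 0) (nat_lit 84) (XT.lf (nat_lit 84) (nat_lit 36695489375) (nat_lit 0) (nat_lit 36735352918) (nat_lit 924) (nat_lit 36379563709) (nat_lit 132) (nat_lit 5) (nat_lit 131) (nat_lit 5) (nat_lit 142) (nat_lit 5) (nat_lit 311) (nat_lit 304) (nat_lit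 105)) (XT.lf (nat_lit 0) (nat_lit 82019919328) (nat_lit 840) (nat_lit 15360151499) (nat_lit 924) (nat_lit 15317745373) (nat_lit 132) (nat_lit 5) (nat_lit 142) (nat_lit 5) (nat_lit 143) (nat_lit 5) (nat_lit 312) (nat_lit 304) (nat_lit 104))) (XT.nd (nat_lit 94) (nat_lit 0) (nat_lit 84) (XT.lf (nat_lit 84) (nat_lit 46157162067) (nat_lit 0) (nat_lit 46203797570) (nat_lit 924) (nat_lit 23302511800) (nat_lit 133) (nat_lit 5) (nat_lit 132) (nat_lit 5) (nat_lit 143) (nat_lit 5) (nat_lit 313) (nat_lit 304) (nat_lit 103)) (XT.lf (nat_lit 0) (nat_lit 103600693629) (nat_lit 840) (nat_lit 7602942330) (nat_lit 84) (nat_lit 7554691395) (nat_lit 133) (nat_lit 5) (nat_lit 143) (nat_lit 5) (nat_lit 134) (nat_lit 5) (nat_lit 314) (nat_lit 304) (nat_lit 102)))) (XT.nd (nat_lit 188) (nat_lit 420) (nat_lit 0) (XT.nd (nat_lit 94) (nat_lit 588) (nat_lit 0) (XT.lf (nat_lit 0) (nat_lit 58510570195)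 (nat_lit 840) (nat_lit 58562474625) (nat_lit 924) (nat_lit 4851349720) (nat_lit 123) (nat_lit 5) (nat_lit 133) (nat_lit 5) (nat_lit 134) (nat_lit 5) (nat_lit 315) (nat_lit 304) (nat_lit 101)) (XT.lf (nat_lit 0) (nat_lit 2950196761) (nat_lit 504) (nat_lit 3005580711) (nat_lit 588) (nat_lit 119279496288) (nat_lit 116) (nat_lit 5) (nat_lit 122) (nat_lit 5) (nat_lit 123) (nat_lit 5) (nat_lit 316) (nat_lit 304) (nat_lit 100))) (XT.nd (nat_lit 94) (nat_lit 420) (nat_lit 0) (XT.lf (nat_lit 0) (nat_lit 19095310453) (nat_lit 588) (nat_lit 54785279144) (nat_lit 84) (nat_lit 54729376498) (nat_lit 116) (nat_lit 5) (nat_lit 123) (nat_lit 5) (nat_lit 117) (nat_lit 5) (nat_lit 317) (nat_lit 304) (nat_lit 99)) (XT.nd (nat_lit 94) (nat_lit 0) (nat_lit 0) (XT.lf (nat_lit 0) (nat_lit 16570300426) (nat_lit 420) (nat_lit 16629208811) (nat_lit 504) (nat_lit 98938499351) (nat_lit 111) (nat_lit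 5) (nat_lit 116) (nat_lit 5) (nat_lit 117) (nat_lit 5) (nat_lit 318) (nat_lit 304) (nat_lit 98)) (XT.lf (nat_lit 0) (nat_lit 49630579837) (nat_lit 504) (nat_lit 43094809897) (nat_lit 84) (nat_lit 43035980379) (nat_lit 111) (nat_lit 5) (nat_lit 117) (nat_lit 5) (nat_lit 112) (nat_lit 5) (nat_lit 319) (nat_lit 304) (nat_lit 97))))))))
noncomputable def xc233 : XT := (XT.nd (nat_lit 1598) (nat_lit 924) (nat_lit 0) (XT.nd (nat_lit 752) (nat_lit 1512) (nat_lit 0) (XT.nd (nat_lit 376) (nat_lit 1092) (nat_lit 0) (XT.nd (nat_lit 188) (nat_lit 336) (nat_lit 0) (XT.nd (nat_lit 94) (nat_lit 0) (nat_lit 0) (XT.lf (nat_lit 0) (nat_lit 33811001895) (nat_lit 420) (nat_lit 33872427884) (nat_lit 504) (nat_lit 71842458646) (nat_lit 106) (nat_lit 5) (nat_lit 111) (nat_lit 5) (nat_lit 112) (nat_lit 5) (nat_lit 320) (nat_lit 304) (nat_lit 96)) (XT.lf (nat_lit 0) (nat_lit 87816416702) (nat_lit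 504) (nat_lit 27832098621) (nat_lit 84) (nat_lit 27771242603) (nat_lit 106) (nat_lit 5) (nat_lit 112) (nat_lit 5) (nat_lit 107) (nat_lit 5) (nat_lit 321) (nat_lit 304) (nat_lit 95))) (XT.nd (nat_lit 94) (nat_lit 0) (nat_lit 0) (XT.lf (nat_lit 0) (nat_lit 55154554374) (nat_lit 336) (nat_lit 55217653321) (nat_lit 420) (nat_lit 37065305470) (nat_lit 102) (nat_lit 5) (nat_lit 106) (nat_lit 5) (nat_lit 107) (nat_lit 5) (nat_lit 322) (nat_lit 304) (nat_lit 94)) (XT.lf (nat_lit 0) (nat_lit 134663191765) (nat_lit 420) (nat_lit 8512361433) (nat_lit 84) (nat_lit 8450232795) (nat_lit 102) (nat_lit 5) (nat_lit 107) (nat_lit 5) (nat_lit 103) (nat_lit 5) (nat_lit 323) (nat_lit 304) (nat_lit 93)))) (XT.nd (nat_lit 188) (nat_lit 336) (nat_lit 0) (XT.nd (nat_lit 94) (nat_lit 336) (nat_lit 0) (XT.lf (nat_lit 0) (nat_lit 6219954155) (nat_lit 420) (nat_lit 74876989871) (nat_lit 84) (nat_lit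 74812923706) (nat_lit 97) (nat_lit 5) (nat_lit 102) (nat_lit 5) (nat_lit 98) (nat_lit 5) (nat_lit 324) (nat_lit 304) (nat_lit 92)) (XT.lf (nat_lit 0) (nat_lit 15154281319) (nat_lit 336) (nat_lit 15220192747) (nat_lit 420) (nat_lit 130000630802) (nat_lit 93) (nat_lit 5) (nat_lit 97) (nat_lit 5) (nat_lit 98) (nat_lit 5) (nat_lit 325) (nat_lit 304) (nat_lit 91))) (XT.nd (nat_lit 94) (nat_lit 336) (nat_lit 0) (XT.lf (nat_lit 0) (nat_lit 57867682283) (nat_lit 420) (nat_lit 53576909979) (nat_lit 84) (nat_lit 53512463482) (nat_lit 93) (nat_lit 5) (nat_lit 98) (nat_lit 5) (nat_lit 94) (nat_lit 5) (nat_lit 326) (nat_lit 304) (nat_lit 90)) (XT.lf (nat_lit 0) (nat_lit 43801336553) (nat_lit 336) (nat_lit 43867377058) (nat_lit 420) (nat_lit 82052732418) (nat_lit 89) (nat_lit 5) (nat_lit 93) (nat_lit 5) (nat_lit 94) (nat_lit 5) (nat_lit 327) (nat_lit 304) (nat_lit 89))))) (XT.nd (nat_lit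 376) (nat_lit 840) (nat_lit 0) (XT.nd (nat_lit 188) (nat_lit 420) (nat_lit 0) (XT.nd (nat_lit 94) (nat_lit 252) (nat_lit 0) (XT.lf (nat_lit 0) (nat_lit 120304747221) (nat_lit 420) (nat_lit 27208201302) (nat_lit 84) (nat_lit 27143859771) (nat_lit 89) (nat_lit 5) (nat_lit 94) (nat_lit 5) (nat_lit 90) (nat_lit 5) (nat_lit 328) (nat_lit 304) (nat_lit 88)) (XT.lf (nat_lit 0) (nat_lit 78223547311) (nat_lit 252) (nat_lit 78289265806) (nat_lit 336) (nat_lit 23229114025) (nat_lit 86) (nat_lit 5) (nat_lit 89) (nat_lit 5) (nat_lit 90) (nat_lit 5) (nat_lit 329) (nat_lit 304) (nat_lit 87))) (XT.nd (nat_lit 94) (nat_lit 0) (nat_lit 0) (XT.lf (nat_lit 0) (nat_lit 4811881818) (nat_lit 336) (nat_lit 4878911707) (nat_lit 420) (nat_lit 175355967795) (nat_lit 81) (nat_lit 5) (nat_lit 85) (nat_lit 5) (nat_lit 86) (nat_lit 5) (nat_lit 330) (nat_lit 304) (nat_lit 86)) (XT.lf (nat_lit 0) (nat_lit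 46350579151) (nat_lit 420) (nat_lit 72084259300) (nat_lit 84) (nat_lit 72019231837) (nat_lit 81) (nat_lit 5) (nat_lit 86) (nat_lit 5) (nat_lit 82) (nat_lit 5) (nat_lit 331) (nat_lit 304) (nat_lit 85)))) (XT.nd (nat_lit 188) (nat_lit 588) (nat_lit 0) (XT.nd (nat_lit 94) (nat_lit 0) (nat_lit 0) (XT.lf (nat_lit 0) (nat_lit 42762317668) (nat_lit 252) (nat_lit 42828477963) (nat_lit 336) (nat_lit 110503576994) (nat_lit 78) (nat_lit 5) (nat_lit 81) (nat_lit 5) (nat_lit 82) (nat_lit 5) (nat_lit 332) (nat_lit 304) (nat_lit 84)) (XT.lf (nat_lit 0) (nat_lit 128604416862) (nat_lit 336) (nat_lit 36692870419) (nat_lit 84) (nat_lit 36628833103) (nat_lit 78) (nat_lit 5) (nat_lit 82) (nat_lit 5) (nat_lit 79) (nat_lit 5) (nat_lit 333) (nat_lit 304) (nat_lit 83))) (XT.nd (nat_lit 94) (nat_lit 336) (nat_lit 0) (XT.lf (nat_lit 0) (nat_lit 87888916748) (nat_lit 252) (nat_lit 87953932647) (nat_lit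 336) (nat_lit 32102899622) (nat_lit 75) (nat_lit 5) (nat_lit 78) (nat_lit 5) (nat_lit 79) (nat_lit 5) (nat_lit 334) (nat_lit 304) (nat_lit 82)) (XT.nd (nat_lit 94) (nat_lit 0) (nat_lit 0) (XT.lf (nat_lit 0) (nat_lit 5737085828) (nat_lit 252) (nat_lit 5803033710) (nat_lit 336) (nat_lit 202681464258) (nat_lit 71) (nat_lit 5) (nat_lit 74) (nat_lit 5) (nat_lit 75) (nat_lit 5) (nat_lit 335) (nat_lit 304) (nat_lit 81)) (XT.lf (nat_lit 0) (nat_lit 59608944403) (nat_lit 336) (nat_lit 80536739383) (nat_lit 84) (nat_lit 80473086540) (nat_lit 71) (nat_lit 5) (nat_lit 75) (nat_lit 5) (nat_lit 72) (nat_lit 5) (nat_lit 336) (nat_lit 304) (nat_lit 80))))))) (XT.nd (nat_lit 42394) (nat_lit 0) (nat_lit 5796) (XT.nd (nat_lit 376) (nat_lit 168) (nat_lit 0) (XT.nd (nat_lit 188) (nat_lit 504) (nat_lit 0) (XT.nd (nat_lit 94) (nat_lit 0) (nat_lit 0) (XT.lf (nat_lit 0) (nat_lit 55489033818) (nat_lit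 252) (nat_lit 55553491743) (nat_lit 336) (nat_lit 116245224869) (nat_lit 68) (nat_lit 5) (nat_lit 71) (nat_lit 5) (nat_lit 72) (nat_lit 5) (nat_lit 337) (nat_lit 304) (nat_lit 79)) (XT.lf (nat_lit 0) (nat_lit 166953332005) (nat_lit 336) (nat_lit 33651844478) (nat_lit 84) (nat_lit 33589725745) (nat_lit 68) (nat_lit 5) (nat_lit 72) (nat_lit 5) (nat_lit 69) (nat_lit 5) (nat_lit 338) (nat_lit 304) (nat_lit 78))) (XT.nd (nat_lit 94) (nat_lit 336) (nat_lit 0) (XT.lf (nat_lit 0) (nat_lit 114144775620) (nat_lit 168) (nat_lit 114207589814) (nat_lit 252) (nat_lit 12960411848) (nat_lit 66) (nat_lit 5) (nat_lit 68) (nat_lit 5) (nat_lit 69) (nat_lit 5) (nat_lit 339) (nat_lit 304) (nat_lit 77)) (XT.lf (nat_lit 0) (nat_lit 21740236601) (nat_lit 252) (nat_lit 21803713138) (nat_lit 336) (nat_lit 205162294314) (nat_lit 62) (nat_lit 5) (nat_lit 65) (nat_lit 5) (nat_lit 66) (nat_lit 5) (nat_lit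 340) (nat_lit 304) (nat_lit 76)))) (XT.nd (nat_lit 41830) (nat_lit 0) (nat_lit 5712) (XT.nd (nat_lit 94) (nat_lit 168) (nat_lit 0) (XT.lf (nat_lit 0) (nat_lit 105801189603) (nat_lit 336) (nat_lit 75275232565) (nat_lit 84) (nat_lit 75214177955) (nat_lit 62) (nat_lit 5) (nat_lit 66) (nat_lit 5) (nat_lit 63) (nat_lit 5) (nat_lit 341) (nat_lit 304) (nat_lit 75)) (XT.lf (nat_lit 0) (nat_lit 86408018891) (nat_lit 168) (nat_lit 86469645658) (nat_lit 252) (nat_lit 91291190793) (nat_lit 60) (nat_lit 5) (nat_lit 62) (nat_lit 5) (nat_lit 63) (nat_lit 5) (nat_lit 342) (nat_lit 304) (nat_lit 74))) (XT.nd (nat_lit 94) (nat_lit 0) (nat_lit 0) (XT.lf (nat_lit 0) (nat_lit 22696952913) (nat_lit 924) (nat_lit 12835049951) (nat_lit 924) (nat_lit 12835049951) (nat_lit 128) (nat_lit 3) (nat_lit 139) (nat_lit 3) (nat_lit 139) (nat_lit 5) (nat_lit 305) (nat_lit 305) (nat_lit 110)) (XT.lf (nat_lit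 84) (nat_lit 23447416678) (nat_lit 0) (nat_lit 23454305888) (nat_lit 924) (nat_lit 52232087249) (nat_lit 129) (nat_lit 5) (nat_lit 128) (nat_lit 3) (nat_lit 139) (nat_lit 5) (nat_lit 306) (nat_lit 305) (nat_lit 109))))) (XT.nd (nat_lit 376) (nat_lit 0) (nat_lit 168) (XT.nd (nat_lit 188) (nat_lit 0) (nat_lit 84) (XT.nd (nat_lit 94) (nat_lit 0) (nat_lit 0) (XT.lf (nat_lit 0) (nat_lit 49340650438) (nat_lit 840) (nat_lit 26141436314) (nat_lit 924) (nat_lit 26128626445) (nat_lit 129) (nat_lit 5) (nat_lit 139) (nat_lit 5) (nat_lit 140) (nat_lit 5) (nat_lit 307) (nat_lit 305) (nat_lit 108)) (XT.lf (nat_lit 84) (nat_lit 26339033058) (nat_lit 0) (nat_lit 26357794087) (nat_lit 924) (nat_lit 51474869480) (nat_lit 130) (nat_lit 5) (nat_lit 129) (nat_lit 5) (nat_lit 140) (nat_lit 5) (nat_lit 308) (nat_lit 305) (nat_lit 107))) (XT.nd (nat_lit 94) (nat_lit 0) (nat_lit 0) (XT.lf (nat_lit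 0) (nat_lit 57064183569) (nat_lit 840) (nat_lit 24888821316) (nat_lit 924) (nat_lit 24865555794) (nat_lit 130) (nat_lit 5) (nat_lit 140) (nat_lit 5) (nat_lit 141) (nat_lit 5) (nat_lit 309) (nat_lit 305) (nat_lit 106)) (XT.lf (nat_lit 84) (nat_lit 31270718616) (nat_lit 0) (nat_lit 31299124973) (nat_lit 924) (nat_lit 46981927559) (nat_lit 131) (nat_lit 5) (nat_lit 130) (nat_lit 5) (nat_lit 141) (nat_lit 5) (nat_lit 310) (nat_lit 305) (nat_lit 105)))) (XT.nd (nat_lit 188) (nat_lit 0) (nat_lit 84) (XT.nd (nat_lit 94) (nat_lit 0) (nat_lit 0) (XT.lf (nat_lit 0) (nat_lit 69120558464) (nat_lit 840) (nat_lit 21647155823) (nat_lit 924) (nat_lit 21615439261) (nat_lit 131) (nat_lit 5) (nat_lit 141) (nat_lit 5) (nat_lit 142) (nat_lit 5) (nat_lit 311) (nat_lit 305) (nat_lit 104)) (XT.lf (nat_lit 84) (nat_lit 38538548797) (nat_lit 0) (nat_lit 38574706206) (nat_lit 924) (nat_lit 38187127768)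 (nat_lit 132) (nat_lit 5) (nat_lit 131) (nat_lit 5) (nat_lit 142) (nat_lit 5) (nat_lit 312) (nat_lit 305) (nat_lit 103))) (XT.nd (nat_lit 94) (nat_lit 0) (nat_lit 0) (XT.lf (nat_lit 0) (nat_lit 86131229796) (nat_lit 840) (nat_lit 16119712547) (nat_lit 924) (nat_lit 16081248941) (nat_lit 132) (nat_lit 5) (nat_lit 142) (nat_lit 5) (nat_lit 143) (nat_lit 5) (nat_lit 313) (nat_lit 305) (nat_lit 102)) (XT.nd (nat_lit 94) (nat_lit 0) (nat_lit 84) (XT.lf (nat_lit 84) (nat_lit 48473330463) (nat_lit 0) (nat_lit 48515630239) (nat_lit 924) (nat_lit 24457186654) (nat_lit 133) (nat_lit 5) (nat_lit 132) (nat_lit 5) (nat_lit 143) (nat_lit 5) (nat_lit 314) (nat_lit 305) (nat_lit 101)) (XT.lf (nat_lit 0) (nat_lit 108790183009) (nat_lit 840) (nat_lit 7974676499) (nat_lit 84) (nat_lit 7930911479) (nat_lit 133) (nat_lit 5) (nat_lit 143) (nat_lit 5) (nat_lit 134) (nat_lit 5) (nat_lit 315) (nat_lit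 305) (nat_lit 100))))))))
noncomputable def xc234 : XT := (XT.nd (nat_lit 1598) (nat_lit 1596) (nat_lit 0) (XT.nd (nat_lit 752) (nat_lit 1764) (nat_lit 0) (XT.nd (nat_lit 376) (nat_lit 756) (nat_lit 0) (XT.nd (nat_lit 188) (nat_lit 420) (nat_lit 0) (XT.nd (nat_lit 94) (nat_lit 588) (nat_lit 0) (XT.lf (nat_lit 0) (nat_lit 61444375959) (nat_lit 840) (nat_lit 61491454808) (nat_lit 924) (nat_lit 5084326815) (nat_lit 123) (nat_lit 5) (nat_lit 133) (nat_lit 5) (nat_lit 134) (nat_lit 5) (nat_lit 316) (nat_lit 305) (nat_lit 99)) (XT.lf (nat_lit 0) (nat_lit 3106152352) (nat_lit 504) (nat_lit 3156387227) (nat_lit 588) (nat_lit 125234049208) (nat_lit 116) (nat_lit 5) (nat_lit 122) (nat_lit 5) (nat_lit 123) (nat_lit 5) (nat_lit 317) (nat_lit 305) (nat_lit 98))) (XT.nd (nat_lit 94) (nat_lit 420) (nat_lit 0) (XT.lf (nat_lit 0) (nat_lit 20058614068) (nat_lit 588) (nat_lit 57516064387)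 (nat_lit 84) (nat_lit 57465359040) (nat_lit 116) (nat_lit 5) (nat_lit 123) (nat_lit 5) (nat_lit 117) (nat_lit 5) (nat_lit 318) (nat_lit 305) (nat_lit 97)) (XT.lf (nat_lit 0) (nat_lit 17407157408) (nat_lit 420) (nat_lit 17460589050) (nat_lit 504) (nat_lit 103876749473) (nat_lit 111) (nat_lit 5) (nat_lit 116) (nat_lit 5) (nat_lit 117) (nat_lit 5) (nat_lit 319) (nat_lit 305) (nat_lit 96)))) (XT.nd (nat_lit 188) (nat_lit 336) (nat_lit 0) (XT.nd (nat_lit 94) (nat_lit 420) (nat_lit 0) (XT.lf (nat_lit 0) (nat_lit 52119978362) (nat_lit 504) (nat_lit 45241213444) (nat_lit 84) (nat_lit 45187853337) (nat_lit 111) (nat_lit 5) (nat_lit 117) (nat_lit 5) (nat_lit 112) (nat_lit 5) (nat_lit 320) (nat_lit 305) (nat_lit 95)) (XT.lf (nat_lit 0) (nat_lit 35509754471) (nat_lit 420) (nat_lit 35565469654) (nat_lit 504) (nat_lit 75426577578) (nat_lit 106) (nat_lit 5) (nat_lit 111) (nat_lit 5) (nat_lit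 112) (nat_lit 5) (nat_lit 321) (nat_lit 305) (nat_lit 94))) (XT.nd (nat_lit 94) (nat_lit 336) (nat_lit 0) (XT.lf (nat_lit 0) (nat_lit 92214506020) (nat_lit 504) (nat_lit 29215537290) (nat_lit 84) (nat_lit 29160339088) (nat_lit 106) (nat_lit 5) (nat_lit 112) (nat_lit 5) (nat_lit 107) (nat_lit 5) (nat_lit 322) (nat_lit 305) (nat_lit 93)) (XT.lf (nat_lit 0) (nat_lit 57920316641) (nat_lit 336) (nat_lit 57977549246) (nat_lit 420) (nat_lit 38911170547) (nat_lit 102) (nat_lit 5) (nat_lit 106) (nat_lit 5) (nat_lit 107) (nat_lit 5) (nat_lit 323) (nat_lit 305) (nat_lit 92))))) (XT.nd (nat_lit 376) (nat_lit 1008) (nat_lit 0) (XT.nd (nat_lit 188) (nat_lit 336) (nat_lit 0) (XT.nd (nat_lit 94) (nat_lit 420) (nat_lit 0) (XT.lf (nat_lit 0) (nat_lit 141403078222) (nat_lit 420) (nat_lit 8930006616) (nat_lit 84) (nat_lit 8873654110) (nat_lit 102) (nat_lit 5) (nat_lit 107) (nat_lit 5) (nat_lit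 103) (nat_lit 5) (nat_lit 324) (nat_lit 305) (nat_lit 91)) (XT.lf (nat_lit 0) (nat_lit 6537587909) (nat_lit 420) (nat_lit 78612775653) (nat_lit 84) (nat_lit 78554665754) (nat_lit 97) (nat_lit 5) (nat_lit 102) (nat_lit 5) (nat_lit 98) (nat_lit 5) (nat_lit 325) (nat_lit 305) (nat_lit 90))) (XT.nd (nat_lit 94) (nat_lit 0) (nat_lit 0) (XT.lf (nat_lit 0) (nat_lit 15919929035) (nat_lit 336) (nat_lit 15979712643) (nat_lit 420) (nat_lit 136493896237) (nat_lit 93) (nat_lit 5) (nat_lit 97) (nat_lit 5) (nat_lit 98) (nat_lit 5) (nat_lit 326) (nat_lit 305) (nat_lit 89)) (XT.lf (nat_lit 0) (nat_lit 60767225606) (nat_lit 420) (nat_lit 56247914919) (nat_lit 84) (nat_lit 56189460046) (nat_lit 93) (nat_lit 5) (nat_lit 98) (nat_lit 5) (nat_lit 94) (nat_lit 5) (nat_lit 327) (nat_lit 305) (nat_lit 88)))) (XT.nd (nat_lit 188) (nat_lit 672) (nat_lit 0) (XT.nd (nat_lit 94) (nat_lit 0) (nat_lit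 0) (XT.lf (nat_lit 0) (nat_lit 45999117480) (nat_lit 336) (nat_lit 46059018164) (nat_lit 420) (nat_lit 86149083370) (nat_lit 89) (nat_lit 5) (nat_lit 93) (nat_lit 5) (nat_lit 94) (nat_lit 5) (nat_lit 328) (nat_lit 305) (nat_lit 87)) (XT.lf (nat_lit 0) (nat_lit 126325711560) (nat_lit 420) (nat_lit 28561005233) (nat_lit 84) (nat_lit 28502645568) (nat_lit 89) (nat_lit 5) (nat_lit 94) (nat_lit 5) (nat_lit 90) (nat_lit 5) (nat_lit 329) (nat_lit 305) (nat_lit 86))) (XT.nd (nat_lit 94) (nat_lit 420) (nat_lit 0) (XT.lf (nat_lit 0) (nat_lit 82142208131) (nat_lit 252) (nat_lit 82201816743) (nat_lit 336) (nat_lit 24384720069) (nat_lit 86) (nat_lit 5) (nat_lit 89) (nat_lit 5) (nat_lit 90) (nat_lit 5) (nat_lit 330) (nat_lit 305) (nat_lit 85)) (XT.nd (nat_lit 94) (nat_lit 0) (nat_lit 0) (XT.lf (nat_lit 0) (nat_lit 5060022869) (nat_lit 336) (nat_lit 5120820954) (nat_lit 420) (nat_lit 184117980032)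 (nat_lit 81) (nat_lit 5) (nat_lit 85) (nat_lit 5) (nat_lit 86) (nat_lit 5) (nat_lit 331) (nat_lit 305) (nat_lit 84)) (XT.lf (nat_lit 0) (nat_lit 48673386599) (nat_lit 420) (nat_lit 75681052552) (nat_lit 84) (nat_lit 75622070727) (nat_lit 81) (nat_lit 5) (nat_lit 86) (nat_lit 5) (nat_lit 82) (nat_lit 5) (nat_lit 332) (nat_lit 305) (nat_lit 83))))))) (XT.nd (nat_lit 752) (nat_lit 336) (nat_lit 0) (XT.nd (nat_lit 376) (nat_lit 420) (nat_lit 0) (XT.nd (nat_lit 188) (nat_lit 588) (nat_lit 0) (XT.nd (nat_lit 94) (nat_lit 0) (nat_lit 0) (XT.lf (nat_lit 0) (nat_lit 44907733591) (nat_lit 252) (nat_lit 44967742929) (nat_lit 336) (nat_lit 116023357681) (nat_lit 78) (nat_lit 5) (nat_lit 81) (nat_lit 5) (nat_lit 82) (nat_lit 5) (nat_lit 333) (nat_lit 305) (nat_lit 82)) (XT.lf (nat_lit 0) (nat_lit 135039566100) (nat_lit 336) (nat_lit 38520348808) (nat_lit 84) (nat_lit 38462265075) (nat_lit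 78) (nat_lit 5) (nat_lit 82) (nat_lit 5) (nat_lit 79) (nat_lit 5) (nat_lit 334) (nat_lit 305) (nat_lit 81))) (XT.nd (nat_lit 94) (nat_lit 336) (nat_lit 0) (XT.lf (nat_lit 0) (nat_lit 92290412151) (nat_lit 252) (nat_lit 92349383487) (nat_lit 336) (nat_lit 33703000642) (nat_lit 75) (nat_lit 5) (nat_lit 78) (nat_lit 5) (nat_lit 79) (nat_lit 5) (nat_lit 335) (nat_lit 305) (nat_lit 80)) (XT.lf (nat_lit 0) (nat_lit 6031034816) (nat_lit 252) (nat_lit 6090851489) (nat_lit 336) (nat_lit 212810538641) (nat_lit 71) (nat_lit 5) (nat_lit 74) (nat_lit 5) (nat_lit 75) (nat_lit 5) (nat_lit 336) (nat_lit 305) (nat_lit 79)))) (XT.nd (nat_lit 188) (nat_lit 168) (nat_lit 0) (XT.nd (nat_lit 94) (nat_lit 252) (nat_lit 0) (XT.lf (nat_lit 0) (nat_lit 62593960413) (nat_lit 336) (nat_lit 84556627497) (nat_lit 84) (nat_lit 84498892492) (nat_lit 71) (nat_lit 5) (nat_lit 75) (nat_lit 5) (nat_lit 72)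 (nat_lit 5) (nat_lit 337) (nat_lit 305) (nat_lit 78)) (XT.lf (nat_lit 0) (nat_lit 58270322285) (nat_lit 252) (nat_lit 58328787523) (nat_lit 336) (nat_lit 122052805245) (nat_lit 68) (nat_lit 5) (nat_lit 71) (nat_lit 5) (nat_lit 72) (nat_lit 5) (nat_lit 338) (nat_lit 305) (nat_lit 77))) (XT.nd (nat_lit 94) (nat_lit 168) (nat_lit 0) (XT.lf (nat_lit 0) (nat_lit 175305279662) (nat_lit 336) (nat_lit 35327748574) (nat_lit 84) (nat_lit 35271405051) (nat_lit 68) (nat_lit 5) (nat_lit 72) (nat_lit 5) (nat_lit 69) (nat_lit 5) (nat_lit 339) (nat_lit 305) (nat_lit 76)) (XT.lf (nat_lit 0) (nat_lit 119858594657) (nat_lit 168) (nat_lit 119915568982) (nat_lit 252) (nat_lit 13604043511) (nat_lit 66) (nat_lit 5) (nat_lit 68) (nat_lit 5) (nat_lit 69) (nat_lit 5) (nat_lit 340) (nat_lit 305) (nat_lit 75))))) (XT.nd (nat_lit 42112) (nat_lit 0) (nat_lit 5628) (XT.nd (nat_lit 41924) (nat_lit 0) (nat_lit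 5544) (XT.nd (nat_lit 94) (nat_lit 0) (nat_lit 0) (XT.lf (nat_lit 0) (nat_lit 22833860761) (nat_lit 252) (nat_lit 22891435851) (nat_lit 336) (nat_lit 215416052175) (nat_lit 62) (nat_lit 5) (nat_lit 65) (nat_lit 5) (nat_lit 66) (nat_lit 5) (nat_lit 341) (nat_lit 305) (nat_lit 74)) (XT.lf (nat_lit 0) (nat_lit 111095237501) (nat_lit 336) (nat_lit 79032535769) (nat_lit 84) (nat_lit 78977157438) (nat_lit 62) (nat_lit 5) (nat_lit 66) (nat_lit 5) (nat_lit 63) (nat_lit 5) (nat_lit 342) (nat_lit 305) (nat_lit 73))) (XT.nd (nat_lit 94) (nat_lit 0) (nat_lit 0) (XT.lf (nat_lit 0) (nat_lit 23838582209) (nat_lit 924) (nat_lit 13473242082) (nat_lit 924) (nat_lit 13473242082) (nat_lit 128) (nat_lit 3) (nat_lit 139) (nat_lit 3) (nat_lit 139) (nat_lit 5) (nat_lit 306) (nat_lit 306) (nat_lit 108)) (XT.lf (nat_lit 84) (nat_lit 24626793395) (nat_lit 0) (nat_lit 24633042111) (nat_lit 924) (nat_lit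 54830013461) (nat_lit 129) (nat_lit 5) (nat_lit 128) (nat_lit 3) (nat_lit 139) (nat_lit 5) (nat_lit 307) (nat_lit 306) (nat_lit 107)))) (XT.nd (nat_lit 188) (nat_lit 0) (nat_lit 84) (XT.nd (nat_lit 94) (nat_lit 0) (nat_lit 0) (XT.lf (nat_lit 0) (nat_lit 51819999919) (nat_lit 840) (nat_lit 27441126009) (nat_lit 924) (nat_lit 27429507080) (nat_lit 129) (nat_lit 5) (nat_lit 139) (nat_lit 5) (nat_lit 140) (nat_lit 5) (nat_lit 308) (nat_lit 306) (nat_lit 106)) (XT.lf (nat_lit 84) (nat_lit 27663247765) (nat_lit 0) (nat_lit 27680264571) (nat_lit 924) (nat_lit 54036176928) (nat_lit 130) (nat_lit 5) (nat_lit 129) (nat_lit 5) (nat_lit 140) (nat_lit 5) (nat_lit 309) (nat_lit 306) (nat_lit 105))) (XT.nd (nat_lit 94) (nat_lit 0) (nat_lit 0) (XT.lf (nat_lit 0) (nat_lit 59928604477) (nat_lit 840) (nat_lit 26125713083) (nat_lit 924) (nat_lit 26104610568) (nat_lit 130) (nat_lit 5) (nat_lit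 140) (nat_lit 5) (nat_lit 141) (nat_lit 5) (nat_lit 310) (nat_lit 306) (nat_lit 104)) (XT.nd (nat_lit 94) (nat_lit 0) (nat_lit 84) (XT.lf (nat_lit 84) (nat_lit 32841682083) (nat_lit 0) (nat_lit 32867447487) (nat_lit 924) (nat_lit 49319690445) (nat_lit 131) (nat_lit 5) (nat_lit 130) (nat_lit 5) (nat_lit 141) (nat_lit 5) (nat_lit 311) (nat_lit 306) (nat_lit 103)) (XT.lf (nat_lit 0) (nat_lit 72586816144) (nat_lit 840) (nat_lit 22721875725) (nat_lit 924) (nat_lit 22693107868) (nat_lit 131) (nat_lit 5) (nat_lit 141) (nat_lit 5) (nat_lit 142) (nat_lit 5) (nat_lit 312) (nat_lit 306) (nat_lit 102))))))))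
noncomputable def xc235 : XT := (XT.nd (nat_lit 1598) (nat_lit 2268) (nat_lit 0) (XT.nd (nat_lit 752) (nat_lit 1848) (nat_lit 0) (XT.nd (nat_lit 376) (nat_lit 1680) (nat_lit 0) (XT.nd (nat_lit 188) (nat_lit 0) (nat_lit 84) (XT.nd (nat_lit 94) (nat_lit 0) (nat_lit 84) (XT.lf (nat_lit 84) (nat_lit 40472990934) (nat_lit 0) (nat_lit 40505786770) (nat_lit 924) (nat_lit 40086131208) (nat_lit 132) (nat_lit 5) (nat_lit 131) (nat_lit 5) (nat_lit 142) (nat_lit 5) (nat_lit 313) (nat_lit 306) (nat_lit 101)) (XT.lf (nat_lit 0) (nat_lit 90447146844) (nat_lit 840) (nat_lit 16918036926) (nat_lit 924) (nat_lit 16883149302) (nat_lit 132) (nat_lit 5) (nat_lit 142) (nat_lit 5) (nat_lit 143) (nat_lit 5) (nat_lit 314) (nat_lit 306) (nat_lit 100))) (XT.nd (nat_lit 94) (nat_lit 0) (nat_lit 84) (XT.lf (nat_lit 84) (nat_lit 50904534666) (nat_lit 0) (nat_lit 50942901810) (nat_lit 924) (nat_lit 25670566861)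 (nat_lit 133) (nat_lit 5) (nat_lit 132) (nat_lit 5) (nat_lit 143) (nat_lit 5) (nat_lit 315) (nat_lit 306) (nat_lit 99)) (XT.lf (nat_lit 0) (nat_lit 114238267850) (nat_lit 840) (nat_lit 8365779533) (nat_lit 84) (nat_lit 8326083369) (nat_lit 133) (nat_lit 5) (nat_lit 143) (nat_lit 5) (nat_lit 134) (nat_lit 5) (nat_lit 316) (nat_lit 306) (nat_lit 98)))) (XT.nd (nat_lit 188) (nat_lit 420) (nat_lit 0) (XT.nd (nat_lit 94) (nat_lit 588) (nat_lit 0) (XT.lf (nat_lit 0) (nat_lit 64524102471) (nat_lit 840) (nat_lit 64566804375) (nat_lit 924) (nat_lit 5329844388) (nat_lit 123) (nat_lit 5) (nat_lit 133) (nat_lit 5) (nat_lit 134) (nat_lit 5) (nat_lit 317) (nat_lit 306) (nat_lit 97)) (XT.lf (nat_lit 0) (nat_lit 3269120515) (nat_lit 504) (nat_lit 3314685028) (nat_lit 588) (nat_lit 131487205733) (nat_lit 116) (nat_lit 5) (nat_lit 122) (nat_lit 5) (nat_lit 123) (nat_lit 5) (nat_lit 318) (nat_lit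 306) (nat_lit 96))) (XT.nd (nat_lit 94) (nat_lit 420) (nat_lit 0) (XT.lf (nat_lit 0) (nat_lit 21069289073) (nat_lit 588) (nat_lit 60384177163) (nat_lit 84) (nat_lit 60338185919) (nat_lit 116) (nat_lit 5) (nat_lit 123) (nat_lit 5) (nat_lit 117) (nat_lit 5) (nat_lit 319) (nat_lit 306) (nat_lit 95)) (XT.lf (nat_lit 0) (nat_lit 18285081682) (nat_lit 420) (nat_lit 18333545756) (nat_lit 504) (nat_lit 109062718606) (nat_lit 111) (nat_lit 5) (nat_lit 116) (nat_lit 5) (nat_lit 117) (nat_lit 5) (nat_lit 320) (nat_lit 306) (nat_lit 94))))) (XT.nd (nat_lit 376) (nat_lit 1092) (nat_lit 0) (XT.nd (nat_lit 188) (nat_lit 336) (nat_lit 0) (XT.nd (nat_lit 94) (nat_lit 420) (nat_lit 0) (XT.lf (nat_lit 0) (nat_lit 54733115179) (nat_lit 504) (nat_lit 47495712258) (nat_lit 84) (nat_lit 47447313068) (nat_lit 111) (nat_lit 5) (nat_lit 117) (nat_lit 5) (nat_lit 112) (nat_lit 5) (nat_lit 321) (nat_lit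 306) (nat_lit 93)) (XT.lf (nat_lit 0) (nat_lit 37292682087) (nat_lit 420) (nat_lit 37343217400) (nat_lit 504) (nat_lit 79190646593) (nat_lit 106) (nat_lit 5) (nat_lit 111) (nat_lit 5) (nat_lit 112) (nat_lit 5) (nat_lit 322) (nat_lit 306) (nat_lit 92))) (XT.nd (nat_lit 94) (nat_lit 336) (nat_lit 0) (XT.lf (nat_lit 0) (nat_lit 96831824049) (nat_lit 504) (nat_lit 30668907114) (nat_lit 84) (nat_lit 30618840718) (nat_lit 106) (nat_lit 5) (nat_lit 112) (nat_lit 5) (nat_lit 107) (nat_lit 5) (nat_lit 323) (nat_lit 306) (nat_lit 91)) (XT.lf (nat_lit 0) (nat_lit 60823620045) (nat_lit 336) (nat_lit 60875531704) (nat_lit 420) (nat_lit 40850016878) (nat_lit 102) (nat_lit 5) (nat_lit 106) (nat_lit 5) (nat_lit 107) (nat_lit 5) (nat_lit 324) (nat_lit 306) (nat_lit 90)))) (XT.nd (nat_lit 188) (nat_lit 672) (nat_lit 0) (XT.nd (nat_lit 94) (nat_lit 420) (nat_lit 0) (XT.lf (nat_lit 0) (nat_lit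 148479333601) (nat_lit 420) (nat_lit 9369275303) (nat_lit 84) (nat_lit 9318161918) (nat_lit 102) (nat_lit 5) (nat_lit 107) (nat_lit 5) (nat_lit 103) (nat_lit 5) (nat_lit 325) (nat_lit 306) (nat_lit 89)) (XT.lf (nat_lit 0) (nat_lit 6870486394) (nat_lit 420) (nat_lit 82536100413) (nat_lit 84) (nat_lit 82483393021) (nat_lit 97) (nat_lit 5) (nat_lit 102) (nat_lit 5) (nat_lit 98) (nat_lit 5) (nat_lit 326) (nat_lit 306) (nat_lit 88))) (XT.nd (nat_lit 94) (nat_lit 336) (nat_lit 0) (XT.lf (nat_lit 0) (nat_lit 16723121542) (nat_lit 336) (nat_lit 16777347037) (nat_lit 420) (nat_lit 143312453991) (nat_lit 93) (nat_lit 5) (nat_lit 97) (nat_lit 5) (nat_lit 98) (nat_lit 5) (nat_lit 327) (nat_lit 306) (nat_lit 87)) (XT.nd (nat_lit 94) (nat_lit 336) (nat_lit 0) (XT.lf (nat_lit 0) (nat_lit 63811173471) (nat_lit 420) (nat_lit 59053199046) (nat_lit 84) (nat_lit 59000178754) (nat_lit 93) (nat_lit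 5) (nat_lit 98) (nat_lit 5) (nat_lit 94) (nat_lit 5) (nat_lit 328) (nat_lit 306) (nat_lit 86)) (XT.lf (nat_lit 0) (nat_lit 48306070269) (nat_lit 336) (nat_lit 48360401955) (nat_lit 420) (nat_lit 90450836251) (nat_lit 89) (nat_lit 5) (nat_lit 93) (nat_lit 5) (nat_lit 94) (nat_lit 5) (nat_lit 329) (nat_lit 306) (nat_lit 85))))))) (XT.nd (nat_lit 752) (nat_lit 756) (nat_lit 0) (XT.nd (nat_lit 376) (nat_lit 840) (nat_lit 0) (XT.nd (nat_lit 188) (nat_lit 420) (nat_lit 0) (XT.nd (nat_lit 94) (nat_lit 252) (nat_lit 0) (XT.lf (nat_lit 0) (nat_lit 132647191676) (nat_lit 420) (nat_lit 29982156506) (nat_lit 84) (nat_lit 29929222569) (nat_lit 89) (nat_lit 5) (nat_lit 94) (nat_lit 5) (nat_lit 90) (nat_lit 5) (nat_lit 330) (nat_lit 306) (nat_lit 84)) (XT.lf (nat_lit 0) (nat_lit 86256106252) (nat_lit 252) (nat_lit 86310173021) (nat_lit 336) (nat_lit 25598650260) (nat_lit 86) (nat_lit 5)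 (nat_lit 89) (nat_lit 5) (nat_lit 90) (nat_lit 5) (nat_lit 331) (nat_lit 306) (nat_lit 83))) (XT.nd (nat_lit 94) (nat_lit 0) (nat_lit 0) (XT.lf (nat_lit 0) (nat_lit 5319869328) (nat_lit 336) (nat_lit 5375014983) (nat_lit 420) (nat_lit 193318630822) (nat_lit 81) (nat_lit 5) (nat_lit 85) (nat_lit 5) (nat_lit 86) (nat_lit 5) (nat_lit 332) (nat_lit 306) (nat_lit 82)) (XT.lf (nat_lit 0) (nat_lit 51111843675) (nat_lit 420) (nat_lit 79458375282) (nat_lit 84) (nat_lit 79404877028) (nat_lit 81) (nat_lit 5) (nat_lit 86) (nat_lit 5) (nat_lit 82) (nat_lit 5) (nat_lit 333) (nat_lit 306) (nat_lit 81)))) (XT.nd (nat_lit 188) (nat_lit 588) (nat_lit 0) (XT.nd (nat_lit 94) (nat_lit 0) (nat_lit 0) (XT.lf (nat_lit 0) (nat_lit 47159741622) (nat_lit 252) (nat_lit 47214171860) (nat_lit 336) (nat_lit 121819629273) (nat_lit 78) (nat_lit 5) (nat_lit 81) (nat_lit 5) (nat_lit 82) (nat_lit 5) (nat_lit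 334) (nat_lit 306) (nat_lit 80)) (XT.lf (nat_lit 0) (nat_lit 141796014604) (nat_lit 336) (nat_lit 40439867263) (nat_lit 84) (nat_lit 40387183605) (nat_lit 78) (nat_lit 5) (nat_lit 82) (nat_lit 5) (nat_lit 79) (nat_lit 5) (nat_lit 335) (nat_lit 306) (nat_lit 79))) (XT.nd (nat_lit 94) (nat_lit 336) (nat_lit 0) (XT.lf (nat_lit 0) (nat_lit 96911326921) (nat_lit 252) (nat_lit 96964815662) (nat_lit 336) (nat_lit 35383575652) (nat_lit 75) (nat_lit 5) (nat_lit 78) (nat_lit 5) (nat_lit 79) (nat_lit 5) (nat_lit 336) (nat_lit 306) (nat_lit 78)) (XT.lf (nat_lit 0) (nat_lit 6339021655) (nat_lit 252) (nat_lit 6393277141) (nat_lit 336) (nat_lit 223446531487) (nat_lit 71) (nat_lit 5) (nat_lit 74) (nat_lit 5) (nat_lit 75) (nat_lit 5) (nat_lit 337) (nat_lit 306) (nat_lit 77))))) (XT.nd (nat_lit 376) (nat_lit 336) (nat_lit 0) (XT.nd (nat_lit 188) (nat_lit 168) (nat_lit 0) (XT.nd (nat_lit 94)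 (nat_lit 252) (nat_lit 0) (XT.lf (nat_lit 0) (nat_lit 65727802460) (nat_lit 336) (nat_lit 88778156056) (nat_lit 84) (nat_lit 88725788705) (nat_lit 71) (nat_lit 5) (nat_lit 75) (nat_lit 5) (nat_lit 72) (nat_lit 5) (nat_lit 338) (nat_lit 306) (nat_lit 76)) (XT.lf (nat_lit 0) (nat_lit 61190039557) (nat_lit 252) (nat_lit 61243069252) (nat_lit 336) (nat_lit 128151199822) (nat_lit 68) (nat_lit 5) (nat_lit 71) (nat_lit 5) (nat_lit 72) (nat_lit 5) (nat_lit 339) (nat_lit 306) (nat_lit 75))) (XT.nd (nat_lit 94) (nat_lit 168) (nat_lit 0) (XT.lf (nat_lit 0) (nat_lit 184074426689) (nat_lit 336) (nat_lit 37088069673) (nat_lit 84) (nat_lit 37036964437) (nat_lit 68) (nat_lit 5) (nat_lit 72) (nat_lit 5) (nat_lit 69) (nat_lit 5) (nat_lit 340) (nat_lit 306) (nat_lit 74)) (XT.lf (nat_lit 0) (nat_lit 125857492875) (nat_lit 168) (nat_lit 125909170268) (nat_lit 252) (nat_lit 14280264799) (nat_lit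 66) (nat_lit 5) (nat_lit 68) (nat_lit 5) (nat_lit 69) (nat_lit 5) (nat_lit 341) (nat_lit 306) (nat_lit 73)))) (XT.nd (nat_lit 42018) (nat_lit 0) (nat_lit 5544) (XT.nd (nat_lit 41924) (nat_lit 0) (nat_lit 5544) (XT.lf (nat_lit 0) (nat_lit 23981551377) (nat_lit 252) (nat_lit 24033773681) (nat_lit 336) (nat_lit 226182902987) (nat_lit 62) (nat_lit 5) (nat_lit 65) (nat_lit 5) (nat_lit 66) (nat_lit 5) (nat_lit 342) (nat_lit 306) (nat_lit 72)) (XT.lf (nat_lit 0) (nat_lit 25036662476) (nat_lit 924) (nat_lit 14143674829) (nat_lit 924) (nat_lit 14143674829) (nat_lit 128) (nat_lit 3) (nat_lit 139) (nat_lit 3) (nat_lit 139) (nat_lit 5) (nat_lit 307) (nat_lit 307) (nat_lit 106))) (XT.nd (nat_lit 94) (nat_lit 0) (nat_lit 84) (XT.lf (nat_lit 84) (nat_lit 25864487606) (nat_lit 0) (nat_lit 25870155377) (nat_lit 924) (nat_lit 57559107647) (nat_lit 129) (nat_lit 5) (nat_lit 128) (nat_lit 3)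 (nat_lit 139) (nat_lit 5) (nat_lit 308) (nat_lit 307) (nat_lit 105)) (XT.nd (nat_lit 94) (nat_lit 0) (nat_lit 0) (XT.lf (nat_lit 0) (nat_lit 54422171760) (nat_lit 840) (nat_lit 28806486509) (nat_lit 924) (nat_lit 28795947798) (nat_lit 129) (nat_lit 5) (nat_lit 139) (nat_lit 5) (nat_lit 140) (nat_lit 5) (nat_lit 309) (nat_lit 307) (nat_lit 104)) (XT.lf (nat_lit 84) (nat_lit 29052997958) (nat_lit 0) (nat_lit 29068432702) (nat_lit 924) (nat_lit 56726705932) (nat_lit 130) (nat_lit 5) (nat_lit 129) (nat_lit 5) (nat_lit 140) (nat_lit 5) (nat_lit 310) (nat_lit 307) (nat_lit 103))))))))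
noncomputable def xc236 : XT := (XT.nd (nat_lit 1598) (nat_lit 2436) (nat_lit 0) (XT.nd (nat_lit 752) (nat_lit 2184) (nat_lit 0) (XT.nd (nat_lit 376) (nat_lit 588) (nat_lit 0) (XT.nd (nat_lit 188) (nat_lit 0) (nat_lit 84) (XT.nd (nat_lit 94) (nat_lit 0) (nat_lit 0) (XT.lf (nat_lit 0) (nat_lit 62935204069) (nat_lit 840) (nat_lit 27425151299) (nat_lit 924) (nat_lit 27406010696) (nat_lit 130) (nat_lit 5) (nat_lit 140) (nat_lit 5) (nat_lit 141) (nat_lit 5) (nat_lit 311) (nat_lit 307) (nat_lit 102)) (XT.lf (nat_lit 84) (nat_lit 34490503182) (nat_lit 0) (nat_lit 34513873163) (nat_lit 924) (nat_lit 51775395157) (nat_lit 131) (nat_lit 5) (nat_lit 130) (nat_lit 5) (nat_lit 141) (nat_lit 5) (nat_lit 312) (nat_lit 307) (nat_lit 101))) (XT.nd (nat_lit 94) (nat_lit 0) (nat_lit 0) (XT.lf (nat_lit 0) (nat_lit 76225435643) (nat_lit 840) (nat_lit 23851041721) (nat_lit 924) (nat_lit 23824948426)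 (nat_lit 131) (nat_lit 5) (nat_lit 141) (nat_lit 5) (nat_lit 142) (nat_lit 5) (nat_lit 313) (nat_lit 307) (nat_lit 100)) (XT.lf (nat_lit 84) (nat_lit 42503456533) (nat_lit 0) (nat_lit 42533203323) (nat_lit 924) (nat_lit 42081047339) (nat_lit 132) (nat_lit 5) (nat_lit 131) (nat_lit 5) (nat_lit 142) (nat_lit 5) (nat_lit 314) (nat_lit 307) (nat_lit 99)))) (XT.nd (nat_lit 188) (nat_lit 756) (nat_lit 0) (XT.nd (nat_lit 94) (nat_lit 0) (nat_lit 0) (XT.lf (nat_lit 0) (nat_lit 94977989952) (nat_lit 840) (nat_lit 17756989794) (nat_lit 924) (nat_lit 17725345690) (nat_lit 132) (nat_lit 5) (nat_lit 142) (nat_lit 5) (nat_lit 143) (nat_lit 5) (nat_lit 315) (nat_lit 307) (nat_lit 98)) (XT.lf (nat_lit 84) (nat_lit 53456598297) (nat_lit 0) (nat_lit 53491398428) (nat_lit 924) (nat_lit 26945497357) (nat_lit 133) (nat_lit 5) (nat_lit 132) (nat_lit 5) (nat_lit 143) (nat_lit 5) (nat_lit 316)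 (nat_lit 307) (nat_lit 97))) (XT.nd (nat_lit 94) (nat_lit 840) (nat_lit 0) (XT.lf (nat_lit 0) (nat_lit 119957959646) (nat_lit 840) (nat_lit 8777147157) (nat_lit 84) (nat_lit 8741141566) (nat_lit 133) (nat_lit 5) (nat_lit 143) (nat_lit 5) (nat_lit 134) (nat_lit 5) (nat_lit 317) (nat_lit 307) (nat_lit 96)) (XT.lf (nat_lit 0) (nat_lit 67757117313) (nat_lit 840) (nat_lit 67795849198) (nat_lit 924) (nat_lit 5588446569) (nat_lit 123) (nat_lit 5) (nat_lit 133) (nat_lit 5) (nat_lit 134) (nat_lit 5) (nat_lit 318) (nat_lit 307) (nat_lit 95))))) (XT.nd (nat_lit 376) (nat_lit 1176) (nat_lit 0) (XT.nd (nat_lit 188) (nat_lit 420) (nat_lit 0) (XT.nd (nat_lit 94) (nat_lit 0) (nat_lit 0) (XT.lf (nat_lit 0) (nat_lit 3439524883) (nat_lit 504) (nat_lit 3480853238) (nat_lit 588) (nat_lit 138053814604) (nat_lit 116) (nat_lit 5) (nat_lit 122) (nat_lit 5) (nat_lit 123) (nat_lit 5) (nat_lit 319)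 (nat_lit 307) (nat_lit 94)) (XT.lf (nat_lit 0) (nat_lit 22129777836) (nat_lit 588) (nat_lit 63396410563) (nat_lit 84) (nat_lit 63354695148) (nat_lit 116) (nat_lit 5) (nat_lit 123) (nat_lit 5) (nat_lit 117) (nat_lit 5) (nat_lit 320) (nat_lit 307) (nat_lit 93))) (XT.nd (nat_lit 94) (nat_lit 0) (nat_lit 0) (XT.lf (nat_lit 0) (nat_lit 19206198717) (nat_lit 420) (nat_lit 19250157061) (nat_lit 504) (nat_lit 114508717719) (nat_lit 111) (nat_lit 5) (nat_lit 116) (nat_lit 5) (nat_lit 117) (nat_lit 5) (nat_lit 321) (nat_lit 307) (nat_lit 92)) (XT.lf (nat_lit 0) (nat_lit 57476245222) (nat_lit 504) (nat_lit 49863639043) (nat_lit 84) (nat_lit 49819739551) (nat_lit 111) (nat_lit 5) (nat_lit 117) (nat_lit 5) (nat_lit 112) (nat_lit 5) (nat_lit 322) (nat_lit 307) (nat_lit 91)))) (XT.nd (nat_lit 188) (nat_lit 756) (nat_lit 0) (XT.nd (nat_lit 94) (nat_lit 0) (nat_lit 0) (XT.lf (nat_lit 0)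 (nat_lit 39164064393) (nat_lit 420) (nat_lit 39209901412) (nat_lit 504) (nat_lit 83143594011) (nat_lit 106) (nat_lit 5) (nat_lit 111) (nat_lit 5) (nat_lit 112) (nat_lit 5) (nat_lit 323) (nat_lit 307) (nat_lit 90)) (XT.lf (nat_lit 0) (nat_lit 101679395050) (nat_lit 504) (nat_lit 32195634066) (nat_lit 84) (nat_lit 32150222369) (nat_lit 106) (nat_lit 5) (nat_lit 112) (nat_lit 5) (nat_lit 107) (nat_lit 5) (nat_lit 324) (nat_lit 307) (nat_lit 89))) (XT.nd (nat_lit 94) (nat_lit 420) (nat_lit 0) (XT.lf (nat_lit 0) (nat_lit 63871411089) (nat_lit 336) (nat_lit 63918496495) (nat_lit 420) (nat_lit 42886429562) (nat_lit 102) (nat_lit 5) (nat_lit 106) (nat_lit 5) (nat_lit 107) (nat_lit 5) (nat_lit 325) (nat_lit 307) (nat_lit 88)) (XT.nd (nat_lit 94) (nat_lit 420) (nat_lit 0) (XT.lf (nat_lit 0) (nat_lit 155908834493) (nat_lit 420) (nat_lit 9831179753) (nat_lit 84) (nat_lit 9784818407)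 (nat_lit 102) (nat_lit 5) (nat_lit 107) (nat_lit 5) (nat_lit 103) (nat_lit 5) (nat_lit 326) (nat_lit 307) (nat_lit 87)) (XT.lf (nat_lit 0) (nat_lit 7219470205) (nat_lit 420) (nat_lit 86656271399) (nat_lit 84) (nat_lit 86608464240) (nat_lit 97) (nat_lit 5) (nat_lit 102) (nat_lit 5) (nat_lit 98) (nat_lit 5) (nat_lit 327) (nat_lit 307) (nat_lit 86))))))) (XT.nd (nat_lit 752) (nat_lit 840) (nat_lit 0) (XT.nd (nat_lit 376) (nat_lit 924) (nat_lit 0) (XT.nd (nat_lit 188) (nat_lit 336) (nat_lit 0) (XT.nd (nat_lit 94) (nat_lit 0) (nat_lit 0) (XT.lf (nat_lit 0) (nat_lit 17565804654) (nat_lit 336) (nat_lit 17614988776) (nat_lit 420) (nat_lit 150472510198) (nat_lit 93) (nat_lit 5) (nat_lit 97) (nat_lit 5) (nat_lit 98) (nat_lit 5) (nat_lit 328) (nat_lit 307) (nat_lit 85)) (XT.lf (nat_lit 0) (nat_lit 67006799341) (nat_lit 420) (nat_lit 61999408551) (nat_lit 84) (nat_lit 61951317583) (nat_lit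 93) (nat_lit 5) (nat_lit 98) (nat_lit 5) (nat_lit 94) (nat_lit 5) (nat_lit 329) (nat_lit 307) (nat_lit 84))) (XT.nd (nat_lit 94) (nat_lit 0) (nat_lit 0) (XT.lf (nat_lit 0) (nat_lit 50727720190) (nat_lit 336) (nat_lit 50777000632) (nat_lit 420) (nat_lit 94968206827) (nat_lit 89) (nat_lit 5) (nat_lit 93) (nat_lit 5) (nat_lit 94) (nat_lit 5) (nat_lit 330) (nat_lit 307) (nat_lit 83)) (XT.lf (nat_lit 0) (nat_lit 139284262859) (nat_lit 420) (nat_lit 31475006746) (nat_lit 84) (nat_lit 31426994105) (nat_lit 89) (nat_lit 5) (nat_lit 94) (nat_lit 5) (nat_lit 90) (nat_lit 5) (nat_lit 331) (nat_lit 307) (nat_lit 82)))) (XT.nd (nat_lit 188) (nat_lit 252) (nat_lit 0) (XT.nd (nat_lit 94) (nat_lit 420) (nat_lit 0) (XT.lf (nat_lit 0) (nat_lit 90575068222) (nat_lit 252) (nat_lit 90624108374) (nat_lit 336) (nat_lit 26873770245) (nat_lit 86) (nat_lit 5) (nat_lit 89) (nat_lit 5) (nat_lit 90)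 (nat_lit 5) (nat_lit 332) (nat_lit 307) (nat_lit 81)) (XT.lf (nat_lit 0) (nat_lit 5592071697) (nat_lit 336) (nat_lit 5642090432) (nat_lit 420) (nat_lit 202979802081) (nat_lit 81) (nat_lit 5) (nat_lit 85) (nat_lit 5) (nat_lit 86) (nat_lit 5) (nat_lit 333) (nat_lit 307) (nat_lit 80))) (XT.nd (nat_lit 94) (nat_lit 252) (nat_lit 0) (XT.lf (nat_lit 0) (nat_lit 53671778485) (nat_lit 420) (nat_lit 83425189831) (nat_lit 84) (nat_lit 83376665337) (nat_lit 81) (nat_lit 5) (nat_lit 86) (nat_lit 5) (nat_lit 82) (nat_lit 5) (nat_lit 334) (nat_lit 307) (nat_lit 79)) (XT.lf (nat_lit 0) (nat_lit 49523734464) (nat_lit 252) (nat_lit 49573104294) (nat_lit 336) (nat_lit 127906169654) (nat_lit 78) (nat_lit 5) (nat_lit 81) (nat_lit 5) (nat_lit 82) (nat_lit 5) (nat_lit 335) (nat_lit 307) (nat_lit 78))))) (XT.nd (nat_lit 376) (nat_lit 252) (nat_lit 0) (XT.nd (nat_lit 188) (nat_lit 336) (nat_lit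 0) (XT.nd (nat_lit 94) (nat_lit 252) (nat_lit 0) (XT.lf (nat_lit 0) (nat_lit 148889869937) (nat_lit 336) (nat_lit 42455965855) (nat_lit 84) (nat_lit 42408180224) (nat_lit 78) (nat_lit 5) (nat_lit 82) (nat_lit 5) (nat_lit 79) (nat_lit 5) (nat_lit 336) (nat_lit 307) (nat_lit 77)) (XT.lf (nat_lit 0) (nat_lit 101762692962) (nat_lit 252) (nat_lit 101811208826) (nat_lit 336) (nat_lit 37148604755) (nat_lit 75) (nat_lit 5) (nat_lit 78) (nat_lit 5) (nat_lit 79) (nat_lit 5) (nat_lit 337) (nat_lit 307) (nat_lit 76))) (XT.nd (nat_lit 94) (nat_lit 0) (nat_lit 0) (XT.lf (nat_lit 0) (nat_lit 6661809563) (nat_lit 252) (nat_lit 6711020888) (nat_lit 336) (nat_lit 234614745512) (nat_lit 71) (nat_lit 5) (nat_lit 74) (nat_lit 5) (nat_lit 75) (nat_lit 5) (nat_lit 338) (nat_lit 307) (nat_lit 75)) (XT.lf (nat_lit 0) (nat_lit 69017951338) (nat_lit 336) (nat_lit 93211347019) (nat_lit 84) (nat_lit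 93163848288) (nat_lit 71) (nat_lit 5) (nat_lit 75) (nat_lit 5) (nat_lit 72) (nat_lit 5) (nat_lit 339) (nat_lit 307) (nat_lit 74)))) (XT.nd (nat_lit 42206) (nat_lit 0) (nat_lit 5040) (XT.nd (nat_lit 94) (nat_lit 0) (nat_lit 0) (XT.lf (nat_lit 0) (nat_lit 64255166167) (nat_lit 252) (nat_lit 64303265664) (nat_lit 336) (nat_lit 134554908852) (nat_lit 68) (nat_lit 5) (nat_lit 71) (nat_lit 5) (nat_lit 72) (nat_lit 5) (nat_lit 340) (nat_lit 307) (nat_lit 73)) (XT.lf (nat_lit 0) (nat_lit 193281670059) (nat_lit 336) (nat_lit 38936970817) (nat_lit 84) (nat_lit 38890616861) (nat_lit 68) (nat_lit 5) (nat_lit 72) (nat_lit 5) (nat_lit 69) (nat_lit 5) (nat_lit 341) (nat_lit 307) (nat_lit 72))) (XT.nd (nat_lit 94) (nat_lit 0) (nat_lit 0) (XT.lf (nat_lit 0) (nat_lit 26294074880) (nat_lit 924) (nat_lit 14847929448) (nat_lit 924) (nat_lit 14847929448) (nat_lit 128) (nat_lit 3) (nat_lit 139)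 (nat_lit 3) (nat_lit 139) (nat_lit 5) (nat_lit 308) (nat_lit 308) (nat_lit 104)) (XT.nd (nat_lit 94) (nat_lit 0) (nat_lit 84) (XT.lf (nat_lit 84) (nat_lit 27163475743) (nat_lit 0) (nat_lit 27168616578) (nat_lit 924) (nat_lit 60425809981) (nat_lit 129) (nat_lit 5) (nat_lit 128) (nat_lit 3) (nat_lit 139) (nat_lit 5) (nat_lit 309) (nat_lit 308) (nat_lit 103)) (XT.lf (nat_lit 0) (nat_lit 57153413541) (nat_lit 840) (nat_lit 30240737546) (nat_lit 924) (nat_lit 30231178624) (nat_lit 129) (nat_lit 5) (nat_lit 139) (nat_lit 5) (nat_lit 140) (nat_lit 5) (nat_lit 310) (nat_lit 308) (nat_lit 102))))))))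
noncomputable def xc237 : XT := (XT.nd (nat_lit 1598) (nat_lit 2856) (nat_lit 0) (XT.nd (nat_lit 752) (nat_lit 2268) (nat_lit 0) (XT.nd (nat_lit 376) (nat_lit 0) (nat_lit 168) (XT.nd (nat_lit 188) (nat_lit 0) (nat_lit 84) (XT.nd (nat_lit 94) (nat_lit 0) (nat_lit 84) (XT.lf (nat_lit 84) (nat_lit 30511623188) (nat_lit 0) (nat_lit 30525622956) (nat_lit 924) (nat_lit 59552810080) (nat_lit 130) (nat_lit 5) (nat_lit 129) (nat_lit 5) (nat_lit 140) (nat_lit 5) (nat_lit 311) (nat_lit 308) (nat_lit 101)) (XT.lf (nat_lit 0) (nat_lit 66091188189) (nat_lit 840) (nat_lit 28790198037) (nat_lit 924) (nat_lit 28772836946) (nat_lit 130) (nat_lit 5) (nat_lit 140) (nat_lit 5) (nat_lit 141) (nat_lit 5) (nat_lit 312) (nat_lit 308) (nat_lit 100))) (XT.nd (nat_lit 94) (nat_lit 0) (nat_lit 84) (XT.lf (nat_lit 84) (nat_lit 36221138994) (nat_lit 0) (nat_lit 36242336255) (nat_lit 924) (nat_lit 54354840823)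 (nat_lit 131) (nat_lit 5) (nat_lit 130) (nat_lit 5) (nat_lit 141) (nat_lit 5) (nat_lit 313) (nat_lit 308) (nat_lit 99)) (XT.lf (nat_lit 0) (nat_lit 80045123471) (nat_lit 840) (nat_lit 25037310096) (nat_lit 924) (nat_lit 25013642709) (nat_lit 131) (nat_lit 5) (nat_lit 141) (nat_lit 5) (nat_lit 142) (nat_lit 5) (nat_lit 314) (nat_lit 308) (nat_lit 98)))) (XT.nd (nat_lit 188) (nat_lit 0) (nat_lit 84) (XT.nd (nat_lit 94) (nat_lit 0) (nat_lit 84) (XT.lf (nat_lit 84) (nat_lit 44634811720) (nat_lit 0) (nat_lit 44661792935) (nat_lit 924) (nat_lit 44176582309) (nat_lit 132) (nat_lit 5) (nat_lit 131) (nat_lit 5) (nat_lit 142) (nat_lit 5) (nat_lit 315) (nat_lit 308) (nat_lit 97)) (XT.lf (nat_lit 0) (nat_lit 99734586290) (nat_lit 840) (nat_lit 18638536356) (nat_lit 924) (nat_lit 18609834221) (nat_lit 132) (nat_lit 5) (nat_lit 142) (nat_lit 5) (nat_lit 143) (nat_lit 5) (nat_lit 316)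 (nat_lit 308) (nat_lit 96))) (XT.nd (nat_lit 94) (nat_lit 0) (nat_lit 84) (XT.lf (nat_lit 84) (nat_lit 56135629480) (nat_lit 0) (nat_lit 56167194224) (nat_lit 924) (nat_lit 28284973725) (nat_lit 133) (nat_lit 5) (nat_lit 132) (nat_lit 5) (nat_lit 143) (nat_lit 5) (nat_lit 317) (nat_lit 308) (nat_lit 95)) (XT.lf (nat_lit 0) (nat_lit 125962912870) (nat_lit 840) (nat_lit 9209726644) (nat_lit 84) (nat_lit 9177068512) (nat_lit 133) (nat_lit 5) (nat_lit 143) (nat_lit 5) (nat_lit 134) (nat_lit 5) (nat_lit 318) (nat_lit 308) (nat_lit 94))))) (XT.nd (nat_lit 376) (nat_lit 756) (nat_lit 0) (XT.nd (nat_lit 188) (nat_lit 420) (nat_lit 0) (XT.nd (nat_lit 94) (nat_lit 588) (nat_lit 0) (XT.lf (nat_lit 0) (nat_lit 71151149794) (nat_lit 840) (nat_lit 71186280755) (nat_lit 924) (nat_lit 5860712400) (nat_lit 123) (nat_lit 5) (nat_lit 133) (nat_lit 5) (nat_lit 134) (nat_lit 5) (nat_lit 319)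 (nat_lit 308) (nat_lit 93)) (XT.lf (nat_lit 0) (nat_lit 3617803477) (nat_lit 504) (nat_lit 3655289514) (nat_lit 588) (nat_lit 144949474572) (nat_lit 116) (nat_lit 5) (nat_lit 122) (nat_lit 5) (nat_lit 123) (nat_lit 5) (nat_lit 320) (nat_lit 308) (nat_lit 92))) (XT.nd (nat_lit 94) (nat_lit 420) (nat_lit 0) (XT.lf (nat_lit 0) (nat_lit 23242637984) (nat_lit 588) (nat_lit 66559904144) (nat_lit 84) (nat_lit 66522067034) (nat_lit 116) (nat_lit 5) (nat_lit 123) (nat_lit 5) (nat_lit 117) (nat_lit 5) (nat_lit 321) (nat_lit 308) (nat_lit 91)) (XT.lf (nat_lit 0) (nat_lit 20172733552) (nat_lit 420) (nat_lit 20212605066) (nat_lit 504) (nat_lit 120227680302) (nat_lit 111) (nat_lit 5) (nat_lit 116) (nat_lit 5) (nat_lit 117) (nat_lit 5) (nat_lit 322) (nat_lit 308) (nat_lit 90)))) (XT.nd (nat_lit 188) (nat_lit 336) (nat_lit 0) (XT.nd (nat_lit 94) (nat_lit 420) (nat_lit 0) (XT.lf (nat_lit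 0) (nat_lit 60355929850) (nat_lit 504) (nat_lit 52350599836) (nat_lit 84) (nat_lit 52310781702) (nat_lit 111) (nat_lit 5) (nat_lit 117) (nat_lit 5) (nat_lit 112) (nat_lit 5) (nat_lit 323) (nat_lit 308) (nat_lit 89)) (XT.lf (nat_lit 0) (nat_lit 41128388431) (nat_lit 420) (nat_lit 41169963958) (nat_lit 504) (nat_lit 87294801004) (nat_lit 106) (nat_lit 5) (nat_lit 111) (nat_lit 5) (nat_lit 112) (nat_lit 5) (nat_lit 324) (nat_lit 308) (nat_lit 88))) (XT.nd (nat_lit 94) (nat_lit 336) (nat_lit 0) (XT.lf (nat_lit 0) (nat_lit 106768788656) (nat_lit 504) (nat_lit 33799321979) (nat_lit 84) (nat_lit 33758132231) (nat_lit 106) (nat_lit 5) (nat_lit 112) (nat_lit 5) (nat_lit 107) (nat_lit 5) (nat_lit 325) (nat_lit 308) (nat_lit 87)) (XT.nd (nat_lit 94) (nat_lit 0) (nat_lit 0) (XT.lf (nat_lit 0) (nat_lit 67070977147) (nat_lit 336) (nat_lit 67113684998) (nat_lit 420) (nat_lit 45025228900)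 (nat_lit 102) (nat_lit 5) (nat_lit 106) (nat_lit 5) (nat_lit 107) (nat_lit 5) (nat_lit 326) (nat_lit 308) (nat_lit 86)) (XT.lf (nat_lit 0) (nat_lit 163709295911) (nat_lit 420) (nat_lit 10316789249) (nat_lit 84) (nat_lit 10274738141) (nat_lit 102) (nat_lit 5) (nat_lit 107) (nat_lit 5) (nat_lit 103) (nat_lit 5) (nat_lit 327) (nat_lit 308) (nat_lit 85))))))) (XT.nd (nat_lit 752) (nat_lit 1092) (nat_lit 0) (XT.nd (nat_lit 376) (nat_lit 672) (nat_lit 0) (XT.nd (nat_lit 188) (nat_lit 336) (nat_lit 0) (XT.nd (nat_lit 94) (nat_lit 336) (nat_lit 0) (XT.lf (nat_lit 0) (nat_lit 7585395635) (nat_lit 420) (nat_lit 90983067704) (nat_lit 84) (nat_lit 90939705202) (nat_lit 97) (nat_lit 5) (nat_lit 102) (nat_lit 5) (nat_lit 98) (nat_lit 5) (nat_lit 328) (nat_lit 308) (nat_lit 84)) (XT.lf (nat_lit 0) (nat_lit 18450015099) (nat_lit 336) (nat_lit 18494626547) (nat_lit 420) (nat_lit 157991086736)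 (nat_lit 93) (nat_lit 5) (nat_lit 97) (nat_lit 5) (nat_lit 98) (nat_lit 5) (nat_lit 329) (nat_lit 308) (nat_lit 83))) (XT.nd (nat_lit 94) (nat_lit 336) (nat_lit 0) (XT.lf (nat_lit 0) (nat_lit 70361735404) (nat_lit 420) (nat_lit 65093528232) (nat_lit 84) (nat_lit 65049908307) (nat_lit 93) (nat_lit 5) (nat_lit 98) (nat_lit 5) (nat_lit 94) (nat_lit 5) (nat_lit 330) (nat_lit 308) (nat_lit 82)) (XT.lf (nat_lit 0) (nat_lit 53269862579) (nat_lit 336) (nat_lit 53314561392) (nat_lit 420) (nat_lit 99711926705) (nat_lit 89) (nat_lit 5) (nat_lit 93) (nat_lit 5) (nat_lit 94) (nat_lit 5) (nat_lit 331) (nat_lit 308) (nat_lit 81)))) (XT.nd (nat_lit 188) (nat_lit 420) (nat_lit 0) (XT.nd (nat_lit 94) (nat_lit 252) (nat_lit 0) (XT.lf (nat_lit 0) (nat_lit 146252749561) (nat_lit 420) (nat_lit 33043081268) (nat_lit 84) (nat_lit 32999532388) (nat_lit 89) (nat_lit 5) (nat_lit 94) (nat_lit 5) (nat_lit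 90) (nat_lit 5) (nat_lit 332) (nat_lit 308) (nat_lit 80)) (XT.lf (nat_lit 0) (nat_lit 95109405902) (nat_lit 252) (nat_lit 95153886766) (nat_lit 336) (nat_lit 28213093653) (nat_lit 86) (nat_lit 5) (nat_lit 89) (nat_lit 5) (nat_lit 90) (nat_lit 5) (nat_lit 333) (nat_lit 308) (nat_lit 79))) (XT.nd (nat_lit 94) (nat_lit 0) (nat_lit 0) (XT.lf (nat_lit 0) (nat_lit 5877306939) (nat_lit 336) (nat_lit 5922675407) (nat_lit 420) (nat_lit 213124474469) (nat_lit 81) (nat_lit 5) (nat_lit 85) (nat_lit 5) (nat_lit 86) (nat_lit 5) (nat_lit 334) (nat_lit 308) (nat_lit 78)) (XT.lf (nat_lit 0) (nat_lit 56359306300) (nat_lit 420) (nat_lit 87590912618) (nat_lit 84) (nat_lit 87546899472) (nat_lit 81) (nat_lit 5) (nat_lit 86) (nat_lit 5) (nat_lit 82) (nat_lit 5) (nat_lit 335) (nat_lit 308) (nat_lit 77))))) (XT.nd (nat_lit 376) (nat_lit 252) (nat_lit 0) (XT.nd (nat_lit 188) (nat_lit 588) (nat_lit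 0) (XT.nd (nat_lit 94) (nat_lit 0) (nat_lit 0) (XT.lf (nat_lit 0) (nat_lit 52005368589) (nat_lit 252) (nat_lit 52050148481) (nat_lit 336) (nat_lit 134297449945) (nat_lit 78) (nat_lit 5) (nat_lit 81) (nat_lit 5) (nat_lit 82) (nat_lit 5) (nat_lit 336) (nat_lit 308) (nat_lit 76)) (XT.lf (nat_lit 0) (nat_lit 156338041078) (nat_lit 336) (nat_lit 44573417416) (nat_lit 84) (nat_lit 44530074440) (nat_lit 78) (nat_lit 5) (nat_lit 82) (nat_lit 5) (nat_lit 79) (nat_lit 5) (nat_lit 337) (nat_lit 308) (nat_lit 75))) (XT.nd (nat_lit 94) (nat_lit 336) (nat_lit 0) (XT.lf (nat_lit 0) (nat_lit 106856088104) (nat_lit 252) (nat_lit 106900093423) (nat_lit 336) (nat_lit 39002271112) (nat_lit 75) (nat_lit 5) (nat_lit 78) (nat_lit 5) (nat_lit 79) (nat_lit 5) (nat_lit 338) (nat_lit 308) (nat_lit 74)) (XT.lf (nat_lit 0) (nat_lit 7000194213) (nat_lit 252) (nat_lit 7044830335) (nat_lit 336) (nat_lit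 246341752584) (nat_lit 71) (nat_lit 5) (nat_lit 74) (nat_lit 5) (nat_lit 75) (nat_lit 5) (nat_lit 339) (nat_lit 308) (nat_lit 73)))) (XT.nd (nat_lit 42300) (nat_lit 0) (nat_lit 5040) (XT.nd (nat_lit 94) (nat_lit 252) (nat_lit 0) (XT.lf (nat_lit 0) (nat_lit 72472258206) (nat_lit 336) (nat_lit 97866729028) (nat_lit 84) (nat_lit 97823646278) (nat_lit 71) (nat_lit 5) (nat_lit 75) (nat_lit 5) (nat_lit 72) (nat_lit 5) (nat_lit 340) (nat_lit 308) (nat_lit 72)) (XT.lf (nat_lit 0) (nat_lit 67473026183) (nat_lit 252) (nat_lit 67516653845) (nat_lit 336) (nat_lit 141279161359) (nat_lit 68) (nat_lit 5) (nat_lit 71) (nat_lit 5) (nat_lit 72) (nat_lit 5) (nat_lit 341) (nat_lit 308) (nat_lit 71))) (XT.nd (nat_lit 94) (nat_lit 0) (nat_lit 0) (XT.lf (nat_lit 0) (nat_lit 27613839196) (nat_lit 924) (nat_lit 15587669120) (nat_lit 924) (nat_lit 15587669120) (nat_lit 128) (nat_lit 3) (nat_lit 139)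 (nat_lit 3) (nat_lit 139) (nat_lit 5) (nat_lit 309) (nat_lit 309) (nat_lit 102)) (XT.nd (nat_lit 94) (nat_lit 0) (nat_lit 84) (XT.lf (nat_lit 84) (nat_lit 28526877428) (nat_lit 0) (nat_lit 28531540316) (nat_lit 924) (nat_lit 63436893632) (nat_lit 129) (nat_lit 5) (nat_lit 128) (nat_lit 3) (nat_lit 139) (nat_lit 5) (nat_lit 310) (nat_lit 309) (nat_lit 101)) (XT.lf (nat_lit 0) (nat_lit 60020275323) (nat_lit 840) (nat_lit 31747265771) (nat_lit 924) (nat_lit 31738595547) (nat_lit 129) (nat_lit 5) (nat_lit 139) (nat_lit 5) (nat_lit 140) (nat_lit 5) (nat_lit 311) (nat_lit 309) (nat_lit 100))))))))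
noncomputable def xc238 : XT := (XT.nd (nat_lit 1598) (nat_lit 2604) (nat_lit 0) (XT.nd (nat_lit 752) (nat_lit 2268) (nat_lit 0) (XT.nd (nat_lit 376) (nat_lit 0) (nat_lit 168) (XT.nd (nat_lit 188) (nat_lit 0) (nat_lit 84) (XT.nd (nat_lit 94) (nat_lit 0) (nat_lit 84) (XT.lf (nat_lit 84) (nat_lit 32042624150) (nat_lit 0) (nat_lit 32055322353) (nat_lit 924) (nat_lit 62521170630) (nat_lit 130) (nat_lit 5) (nat_lit 129) (nat_lit 5) (nat_lit 140) (nat_lit 5) (nat_lit 312) (nat_lit 309) (nat_lit 99)) (XT.lf (nat_lit 0) (nat_lit 69404113964) (nat_lit 840) (nat_lit 30224074535) (nat_lit 924) (nat_lit 30208327514) (nat_lit 130) (nat_lit 5) (nat_lit 140) (nat_lit 5) (nat_lit 141) (nat_lit 5) (nat_lit 313) (nat_lit 309) (nat_lit 98))) (XT.nd (nat_lit 94) (nat_lit 0) (nat_lit 84) (XT.lf (nat_lit 84) (nat_lit 38037738486) (nat_lit 0) (nat_lit 38056965027) (nat_lit 924) (nat_lit 57064125638)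 (nat_lit 131) (nat_lit 5) (nat_lit 130) (nat_lit 5) (nat_lit 141) (nat_lit 5) (nat_lit 314) (nat_lit 309) (nat_lit 97)) (XT.lf (nat_lit 0) (nat_lit 84055013247) (nat_lit 840) (nat_lit 26283476091) (nat_lit 924) (nat_lit 26262009073) (nat_lit 131) (nat_lit 5) (nat_lit 141) (nat_lit 5) (nat_lit 142) (nat_lit 5) (nat_lit 315) (nat_lit 309) (nat_lit 96)))) (XT.nd (nat_lit 188) (nat_lit 0) (nat_lit 84) (XT.nd (nat_lit 94) (nat_lit 0) (nat_lit 84) (XT.lf (nat_lit 84) (nat_lit 46872159889) (nat_lit 0) (nat_lit 46896632646) (nat_lit 924) (nat_lit 46377685895) (nat_lit 132) (nat_lit 5) (nat_lit 131) (nat_lit 5) (nat_lit 142) (nat_lit 5) (nat_lit 316) (nat_lit 309) (nat_lit 95)) (XT.lf (nat_lit 0) (nat_lit 104728296865) (nat_lit 840) (nat_lit 19564746232) (nat_lit 924) (nat_lit 19538712550) (nat_lit 132) (nat_lit 5) (nat_lit 142) (nat_lit 5) (nat_lit 143) (nat_lit 5) (nat_lit 317)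 (nat_lit 309) (nat_lit 94))) (XT.nd (nat_lit 94) (nat_lit 0) (nat_lit 84) (XT.lf (nat_lit 84) (nat_lit 58948035687) (nat_lit 0) (nat_lit 58976665840) (nat_lit 924) (nat_lit 29692148941) (nat_lit 133) (nat_lit 5) (nat_lit 132) (nat_lit 5) (nat_lit 143) (nat_lit 5) (nat_lit 318) (nat_lit 309) (nat_lit 93)) (XT.lf (nat_lit 0) (nat_lit 132267457826) (nat_lit 840) (nat_lit 9664518762) (nat_lit 84) (nat_lit 9634896873) (nat_lit 133) (nat_lit 5) (nat_lit 143) (nat_lit 5) (nat_lit 134) (nat_lit 5) (nat_lit 319) (nat_lit 309) (nat_lit 92))))) (XT.nd (nat_lit 376) (nat_lit 756) (nat_lit 0) (XT.nd (nat_lit 188) (nat_lit 420) (nat_lit 0) (XT.nd (nat_lit 94) (nat_lit 588) (nat_lit 0) (XT.lf (nat_lit 0) (nat_lit 74714309655) (nat_lit 840) (nat_lit 74746174473) (nat_lit 924) (nat_lit 6147256866) (nat_lit 123) (nat_lit 5) (nat_lit 133) (nat_lit 5) (nat_lit 134) (nat_lit 5) (nat_lit 320)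 (nat_lit 309) (nat_lit 91)) (XT.lf (nat_lit 0) (nat_lit 3804410068) (nat_lit 504) (nat_lit 3838411009) (nat_lit 588) (nat_lit 152190571192) (nat_lit 116) (nat_lit 5) (nat_lit 122) (nat_lit 5) (nat_lit 123) (nat_lit 5) (nat_lit 321) (nat_lit 309) (nat_lit 90))) (XT.nd (nat_lit 94) (nat_lit 420) (nat_lit 0) (XT.lf (nat_lit 0) (nat_lit 24410548800) (nat_lit 588) (nat_lit 69882160625) (nat_lit 84) (nat_lit 69847841250) (nat_lit 116) (nat_lit 5) (nat_lit 123) (nat_lit 5) (nat_lit 117) (nat_lit 5) (nat_lit 322) (nat_lit 309) (nat_lit 89)) (XT.lf (nat_lit 0) (nat_lit 21187016397) (nat_lit 420) (nat_lit 21223181035) (nat_lit 504) (nat_lit 126233192840) (nat_lit 111) (nat_lit 5) (nat_lit 116) (nat_lit 5) (nat_lit 117) (nat_lit 5) (nat_lit 323) (nat_lit 309) (nat_lit 88)))) (XT.nd (nat_lit 188) (nat_lit 336) (nat_lit 0) (XT.nd (nat_lit 94) (nat_lit 420) (nat_lit 0) (XT.lf (nat_lit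 0) (nat_lit 63379052753) (nat_lit 504) (nat_lit 54962487053) (nat_lit 84) (nat_lit 54926370832) (nat_lit 111) (nat_lit 5) (nat_lit 117) (nat_lit 5) (nat_lit 112) (nat_lit 5) (nat_lit 324) (nat_lit 309) (nat_lit 87)) (XT.lf (nat_lit 0) (nat_lit 43190359615) (nat_lit 420) (nat_lit 43228069843) (nat_lit 504) (nat_lit 91654123632) (nat_lit 106) (nat_lit 5) (nat_lit 111) (nat_lit 5) (nat_lit 112) (nat_lit 5) (nat_lit 325) (nat_lit 309) (nat_lit 86))) (XT.nd (nat_lit 94) (nat_lit 336) (nat_lit 0) (XT.lf (nat_lit 0) (nat_lit 112112147684) (nat_lit 504) (nat_lit 35483760831) (nat_lit 84) (nat_lit 35446400515) (nat_lit 106) (nat_lit 5) (nat_lit 112) (nat_lit 5) (nat_lit 107) (nat_lit 5) (nat_lit 326) (nat_lit 309) (nat_lit 85)) (XT.nd (nat_lit 94) (nat_lit 0) (nat_lit 0) (XT.lf (nat_lit 0) (nat_lit 70429964103) (nat_lit 336) (nat_lit 70468701382) (nat_lit 420) (nat_lit 47271481600)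 (nat_lit 102) (nat_lit 5) (nat_lit 106) (nat_lit 5) (nat_lit 107) (nat_lit 5) (nat_lit 327) (nat_lit 309) (nat_lit 84)) (XT.lf (nat_lit 0) (nat_lit 171899313716) (nat_lit 420) (nat_lit 10827232347) (nat_lit 84) (nat_lit 10789090753) (nat_lit 102) (nat_lit 5) (nat_lit 107) (nat_lit 5) (nat_lit 103) (nat_lit 5) (nat_lit 328) (nat_lit 309) (nat_lit 83))))))) (XT.nd (nat_lit 752) (nat_lit 840) (nat_lit 0) (XT.nd (nat_lit 376) (nat_lit 672) (nat_lit 0) (XT.nd (nat_lit 188) (nat_lit 336) (nat_lit 0) (XT.nd (nat_lit 94) (nat_lit 336) (nat_lit 0) (XT.lf (nat_lit 0) (nat_lit 7969156954) (nat_lit 420) (nat_lit 95526763252) (nat_lit 84) (nat_lit 95487432185) (nat_lit 97) (nat_lit 5) (nat_lit 102) (nat_lit 5) (nat_lit 98) (nat_lit 5) (nat_lit 329) (nat_lit 309) (nat_lit 82)) (XT.lf (nat_lit 0) (nat_lit 19377885661) (nat_lit 336) (nat_lit 19418349560) (nat_lit 420) (nat_lit 165886061506)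 (nat_lit 93) (nat_lit 5) (nat_lit 97) (nat_lit 5) (nat_lit 98) (nat_lit 5) (nat_lit 330) (nat_lit 309) (nat_lit 81))) (XT.nd (nat_lit 94) (nat_lit 336) (nat_lit 0) (XT.lf (nat_lit 0) (nat_lit 73883990969) (nat_lit 420) (nat_lit 68342897845) (nat_lit 84) (nat_lit 68303333286) (nat_lit 93) (nat_lit 5) (nat_lit 98) (nat_lit 5) (nat_lit 94) (nat_lit 5) (nat_lit 331) (nat_lit 309) (nat_lit 80)) (XT.lf (nat_lit 0) (nat_lit 55938576914) (nat_lit 336) (nat_lit 55979120055) (nat_lit 420) (nat_lit 104693268652) (nat_lit 89) (nat_lit 5) (nat_lit 93) (nat_lit 5) (nat_lit 94) (nat_lit 5) (nat_lit 332) (nat_lit 309) (nat_lit 79)))) (XT.nd (nat_lit 188) (nat_lit 420) (nat_lit 0) (XT.nd (nat_lit 94) (nat_lit 252) (nat_lit 0) (XT.lf (nat_lit 0) (nat_lit 153569263283) (nat_lit 420) (nat_lit 34690087200) (nat_lit 84) (nat_lit 34650587082) (nat_lit 89) (nat_lit 5) (nat_lit 94) (nat_lit 5) (nat_lit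 90) (nat_lit 5) (nat_lit 333) (nat_lit 309) (nat_lit 78)) (XT.lf (nat_lit 0) (nat_lit 99869941294) (nat_lit 252) (nat_lit 99910286749) (nat_lit 336) (nat_lit 29619789057) (nat_lit 86) (nat_lit 5) (nat_lit 89) (nat_lit 5) (nat_lit 90) (nat_lit 5) (nat_lit 334) (nat_lit 309) (nat_lit 77))) (XT.nd (nat_lit 94) (nat_lit 0) (nat_lit 0) (XT.lf (nat_lit 0) (nat_lit 6176280366) (nat_lit 336) (nat_lit 6217430903) (nat_lit 420) (nat_lit 223776781897) (nat_lit 81) (nat_lit 5) (nat_lit 85) (nat_lit 5) (nat_lit 86) (nat_lit 5) (nat_lit 335) (nat_lit 309) (nat_lit 76)) (XT.lf (nat_lit 0) (nat_lit 59180844305) (nat_lit 420) (nat_lit 91965436296) (nat_lit 84) (nat_lit 91925515075) (nat_lit 81) (nat_lit 5) (nat_lit 86) (nat_lit 5) (nat_lit 82) (nat_lit 5) (nat_lit 336) (nat_lit 309) (nat_lit 75))))) (XT.nd (nat_lit 376) (nat_lit 0) (nat_lit 0) (XT.nd (nat_lit 188) (nat_lit 588) (nat_lit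 0) (XT.nd (nat_lit 94) (nat_lit 0) (nat_lit 0) (XT.lf (nat_lit 0) (nat_lit 54610577973) (nat_lit 252) (nat_lit 54651194654) (nat_lit 336) (nat_lit 141008668753) (nat_lit 78) (nat_lit 5) (nat_lit 81) (nat_lit 5) (nat_lit 82) (nat_lit 5) (nat_lit 337) (nat_lit 309) (nat_lit 74)) (XT.lf (nat_lit 0) (nat_lit 164158278863) (nat_lit 336) (nat_lit 46797238644) (nat_lit 84) (nat_lit 46757925287) (nat_lit 78) (nat_lit 5) (nat_lit 82) (nat_lit 5) (nat_lit 79) (nat_lit 5) (nat_lit 338) (nat_lit 309) (nat_lit 73))) (XT.nd (nat_lit 94) (nat_lit 336) (nat_lit 0) (XT.lf (nat_lit 0) (nat_lit 112203663932) (nat_lit 252) (nat_lit 112243578054) (nat_lit 336) (nat_lit 40948970716) (nat_lit 75) (nat_lit 5) (nat_lit 78) (nat_lit 5) (nat_lit 79) (nat_lit 5) (nat_lit 339) (nat_lit 309) (nat_lit 72)) (XT.lf (nat_lit 0) (nat_lit 7355005893) (nat_lit 252) (nat_lit 7395492172) (nat_lit 336) (nat_lit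 258655456809) (nat_lit 71) (nat_lit 5) (nat_lit 74) (nat_lit 5) (nat_lit 75) (nat_lit 5) (nat_lit 340) (nat_lit 309) (nat_lit 71)))) (XT.nd (nat_lit 42394) (nat_lit 0) (nat_lit 4788) (XT.nd (nat_lit 42300) (nat_lit 0) (nat_lit 4788) (XT.lf (nat_lit 0) (nat_lit 76098963452) (nat_lit 336) (nat_lit 102755362221) (nat_lit 84) (nat_lit 102716284897) (nat_lit 71) (nat_lit 5) (nat_lit 75) (nat_lit 5) (nat_lit 72) (nat_lit 5) (nat_lit 341) (nat_lit 309) (nat_lit 70)) (XT.lf (nat_lit 0) (nat_lit 28999121244) (nat_lit 924) (nat_lit 16364642780) (nat_lit 924) (nat_lit 16364642780) (nat_lit 128) (nat_lit 3) (nat_lit 139) (nat_lit 3) (nat_lit 139) (nat_lit 5) (nat_lit 310) (nat_lit 310) (nat_lit 100))) (XT.nd (nat_lit 94) (nat_lit 0) (nat_lit 84) (XT.lf (nat_lit 84) (nat_lit 29957963156) (nat_lit 0) (nat_lit 29962192534) (nat_lit 924) (nat_lit 66599480403) (nat_lit 129) (nat_lit 5) (nat_lit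 128) (nat_lit 3) (nat_lit 139) (nat_lit 5) (nat_lit 311) (nat_lit 310) (nat_lit 99)) (XT.nd (nat_lit 94) (nat_lit 0) (nat_lit 0) (XT.lf (nat_lit 0) (nat_lit 63029625692) (nat_lit 840) (nat_lit 33329632550) (nat_lit 924) (nat_lit 33321768401) (nat_lit 129) (nat_lit 5) (nat_lit 139) (nat_lit 5) (nat_lit 140) (nat_lit 5) (nat_lit 312) (nat_lit 310) (nat_lit 98)) (XT.lf (nat_lit 84) (nat_lit 33649671279) (nat_lit 0) (nat_lit 33661188922) (nat_lit 924) (nat_lit 65638811970) (nat_lit 130) (nat_lit 5) (nat_lit 129) (nat_lit 5) (nat_lit 140) (nat_lit 5) (nat_lit 313) (nat_lit 310) (nat_lit 97))))))))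
noncomputable def xc239 : XT := (XT.nd (nat_lit 1598) (nat_lit 1848) (nat_lit 0) (XT.nd (nat_lit 752) (nat_lit 2184) (nat_lit 0) (XT.nd (nat_lit 376) (nat_lit 588) (nat_lit 0) (XT.nd (nat_lit 188) (nat_lit 0) (nat_lit 84) (XT.nd (nat_lit 94) (nat_lit 0) (nat_lit 0) (XT.lf (nat_lit 0) (nat_lit 72881908201) (nat_lit 840) (nat_lit 31730168599) (nat_lit 924) (nat_lit 31715885586) (nat_lit 130) (nat_lit 5) (nat_lit 140) (nat_lit 5) (nat_lit 141) (nat_lit 5) (nat_lit 314) (nat_lit 310) (nat_lit 96)) (XT.lf (nat_lit 84) (nat_lit 39944652660) (nat_lit 0) (nat_lit 39962091699) (nat_lit 924) (nat_lit 59909660967) (nat_lit 131) (nat_lit 5) (nat_lit 130) (nat_lit 5) (nat_lit 141) (nat_lit 5) (nat_lit 315) (nat_lit 310) (nat_lit 95))) (XT.nd (nat_lit 94) (nat_lit 0) (nat_lit 0) (XT.lf (nat_lit 0) (nat_lit 88264687812) (nat_lit 840) (nat_lit 27592480271) (nat_lit 924) (nat_lit 27573009053)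 (nat_lit 131) (nat_lit 5) (nat_lit 141) (nat_lit 5) (nat_lit 142) (nat_lit 5) (nat_lit 316) (nat_lit 310) (nat_lit 94)) (XT.lf (nat_lit 84) (nat_lit 49220854126) (nat_lit 0) (nat_lit 49243051639) (nat_lit 924) (nat_lit 48689562907) (nat_lit 132) (nat_lit 5) (nat_lit 131) (nat_lit 5) (nat_lit 142) (nat_lit 5) (nat_lit 317) (nat_lit 310) (nat_lit 93)))) (XT.nd (nat_lit 188) (nat_lit 756) (nat_lit 0) (XT.nd (nat_lit 94) (nat_lit 0) (nat_lit 0) (XT.lf (nat_lit 0) (nat_lit 109971043918) (nat_lit 840) (nat_lit 20537798109) (nat_lit 924) (nat_lit 20514184792) (nat_lit 132) (nat_lit 5) (nat_lit 142) (nat_lit 5) (nat_lit 143) (nat_lit 5) (nat_lit 318) (nat_lit 310) (nat_lit 92)) (XT.lf (nat_lit 84) (nat_lit 61900539270) (nat_lit 0) (nat_lit 61926507663) (nat_lit 924) (nat_lit 31170340543) (nat_lit 133) (nat_lit 5) (nat_lit 132) (nat_lit 5) (nat_lit 143) (nat_lit 5) (nat_lit 319)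 (nat_lit 310) (nat_lit 91))) (XT.nd (nat_lit 94) (nat_lit 840) (nat_lit 0) (XT.lf (nat_lit 0) (nat_lit 138886635082) (nat_lit 840) (nat_lit 10142579880) (nat_lit 84) (nat_lit 10115711954) (nat_lit 133) (nat_lit 5) (nat_lit 143) (nat_lit 5) (nat_lit 134) (nat_lit 5) (nat_lit 320) (nat_lit 310) (nat_lit 90)) (XT.lf (nat_lit 0) (nat_lit 78455106654) (nat_lit 840) (nat_lit 78484008983) (nat_lit 924) (nat_lit 6448732041) (nat_lit 123) (nat_lit 5) (nat_lit 133) (nat_lit 5) (nat_lit 134) (nat_lit 5) (nat_lit 321) (nat_lit 310) (nat_lit 89))))) (XT.nd (nat_lit 376) (nat_lit 1176) (nat_lit 0) (XT.nd (nat_lit 188) (nat_lit 420) (nat_lit 0) (XT.nd (nat_lit 94) (nat_lit 0) (nat_lit 0) (XT.lf (nat_lit 0) (nat_lit 3999815531) (nat_lit 504) (nat_lit 4030655387) (nat_lit 588) (nat_lit 159794315527) (nat_lit 116) (nat_lit 5) (nat_lit 122) (nat_lit 5) (nat_lit 123) (nat_lit 5) (nat_lit 322)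 (nat_lit 310) (nat_lit 88)) (XT.lf (nat_lit 0) (nat_lit 25636317888) (nat_lit 588) (nat_lit 73371063461) (nat_lit 84) (nat_lit 73339934777) (nat_lit 116) (nat_lit 5) (nat_lit 123) (nat_lit 5) (nat_lit 117) (nat_lit 5) (nat_lit 323) (nat_lit 310) (nat_lit 87))) (XT.nd (nat_lit 94) (nat_lit 0) (nat_lit 0) (XT.lf (nat_lit 0) (nat_lit 22251488457) (nat_lit 420) (nat_lit 22284290850) (nat_lit 504) (nat_lit 132539526879) (nat_lit 111) (nat_lit 5) (nat_lit 116) (nat_lit 5) (nat_lit 117) (nat_lit 5) (nat_lit 324) (nat_lit 310) (nat_lit 86)) (XT.lf (nat_lit 0) (nat_lit 66552836601) (nat_lit 504) (nat_lit 57705493242) (nat_lit 84) (nat_lit 57672734765) (nat_lit 111) (nat_lit 5) (nat_lit 117) (nat_lit 5) (nat_lit 112) (nat_lit 5) (nat_lit 325) (nat_lit 310) (nat_lit 85)))) (XT.nd (nat_lit 188) (nat_lit 756) (nat_lit 0) (XT.nd (nat_lit 94) (nat_lit 0) (nat_lit 0) (XT.lf (nat_lit 0)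 (nat_lit 45354913208) (nat_lit 420) (nat_lit 45389117497) (nat_lit 504) (nat_lit 96231916051) (nat_lit 106) (nat_lit 5) (nat_lit 111) (nat_lit 5) (nat_lit 112) (nat_lit 5) (nat_lit 326) (nat_lit 310) (nat_lit 84)) (XT.lf (nat_lit 0) (nat_lit 117722217287) (nat_lit 504) (nat_lit 37252935496) (nat_lit 84) (nat_lit 37219048589) (nat_lit 106) (nat_lit 5) (nat_lit 112) (nat_lit 5) (nat_lit 107) (nat_lit 5) (nat_lit 327) (nat_lit 310) (nat_lit 83))) (XT.nd (nat_lit 94) (nat_lit 420) (nat_lit 0) (XT.lf (nat_lit 0) (nat_lit 73956394823) (nat_lit 336) (nat_lit 73991530678) (nat_lit 420) (nat_lit 49630512602) (nat_lit 102) (nat_lit 5) (nat_lit 106) (nat_lit 5) (nat_lit 107) (nat_lit 5) (nat_lit 328) (nat_lit 310) (nat_lit 82)) (XT.nd (nat_lit 94) (nat_lit 420) (nat_lit 0) (XT.lf (nat_lit 0) (nat_lit 180498409115) (nat_lit 420) (nat_lit 11363699303) (nat_lit 84) (nat_lit 11329103753)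 (nat_lit 102) (nat_lit 5) (nat_lit 107) (nat_lit 5) (nat_lit 103) (nat_lit 5) (nat_lit 329) (nat_lit 310) (nat_lit 81)) (XT.lf (nat_lit 0) (nat_lit 8371688758) (nat_lit 420) (nat_lit 100298150996) (nat_lit 84) (nat_lit 100262476558) (nat_lit 97) (nat_lit 5) (nat_lit 102) (nat_lit 5) (nat_lit 98) (nat_lit 5) (nat_lit 330) (nat_lit 310) (nat_lit 80))))))) (XT.nd (nat_lit 752) (nat_lit 252) (nat_lit 0) (XT.nd (nat_lit 376) (nat_lit 924) (nat_lit 0) (XT.nd (nat_lit 188) (nat_lit 336) (nat_lit 0) (XT.nd (nat_lit 94) (nat_lit 0) (nat_lit 0) (XT.lf (nat_lit 0) (nat_lit 20351650517) (nat_lit 336) (nat_lit 20388352466) (nat_lit 420) (nat_lit 174176210779) (nat_lit 93) (nat_lit 5) (nat_lit 97) (nat_lit 5) (nat_lit 98) (nat_lit 5) (nat_lit 331) (nat_lit 310) (nat_lit 79)) (XT.lf (nat_lit 0) (nat_lit 77581971738) (nat_lit 420) (nat_lit 71755229314) (nat_lit 84) (nat_lit 71719343093)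 (nat_lit 93) (nat_lit 5) (nat_lit 98) (nat_lit 5) (nat_lit 94) (nat_lit 5) (nat_lit 332) (nat_lit 310) (nat_lit 78))) (XT.nd (nat_lit 94) (nat_lit 0) (nat_lit 0) (XT.lf (nat_lit 0) (nat_lit 58740241547) (nat_lit 336) (nat_lit 58777015371) (nat_lit 420) (nat_lit 109924073229) (nat_lit 89) (nat_lit 5) (nat_lit 93) (nat_lit 5) (nat_lit 94) (nat_lit 5) (nat_lit 333) (nat_lit 310) (nat_lit 77)) (XT.lf (nat_lit 0) (nat_lit 161251242315) (nat_lit 420) (nat_lit 36419922054) (nat_lit 84) (nat_lit 36384094282) (nat_lit 89) (nat_lit 5) (nat_lit 94) (nat_lit 5) (nat_lit 90) (nat_lit 5) (nat_lit 334) (nat_lit 310) (nat_lit 76)))) (XT.nd (nat_lit 188) (nat_lit 252) (nat_lit 0) (XT.nd (nat_lit 94) (nat_lit 420) (nat_lit 0) (XT.lf (nat_lit 0) (nat_lit 104868032551) (nat_lit 252) (nat_lit 104904627068) (nat_lit 336) (nat_lit 31097187328) (nat_lit 86) (nat_lit 5) (nat_lit 89) (nat_lit 5)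 (nat_lit 90) (nat_lit 5) (nat_lit 335) (nat_lit 310) (nat_lit 75)) (XT.lf (nat_lit 0) (nat_lit 6489727563) (nat_lit 336) (nat_lit 6527052313) (nat_lit 420) (nat_lit 234962068796) (nat_lit 81) (nat_lit 5) (nat_lit 85) (nat_lit 5) (nat_lit 86) (nat_lit 5) (nat_lit 336) (nat_lit 310) (nat_lit 74))) (XT.nd (nat_lit 94) (nat_lit 252) (nat_lit 0) (XT.lf (nat_lit 0) (nat_lit 62143127055) (nat_lit 420) (nat_lit 96559153051) (nat_lit 84) (nat_lit 96522943326) (nat_lit 81) (nat_lit 5) (nat_lit 86) (nat_lit 5) (nat_lit 82) (nat_lit 5) (nat_lit 337) (nat_lit 310) (nat_lit 73)) (XT.lf (nat_lit 0) (nat_lit 57345588462) (nat_lit 252) (nat_lit 57382428990) (nat_lit 336) (nat_lit 148055788187) (nat_lit 78) (nat_lit 5) (nat_lit 81) (nat_lit 5) (nat_lit 82) (nat_lit 5) (nat_lit 338) (nat_lit 310) (nat_lit 72))))) (XT.nd (nat_lit 42770) (nat_lit 0) (nat_lit 4536) (XT.nd (nat_lit 42582) (nat_lit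 0) (nat_lit 4452) (XT.nd (nat_lit 94) (nat_lit 252) (nat_lit 0) (XT.lf (nat_lit 0) (nat_lit 172369218413) (nat_lit 336) (nat_lit 49132701807) (nat_lit 84) (nat_lit 49097043434) (nat_lit 78) (nat_lit 5) (nat_lit 82) (nat_lit 5) (nat_lit 79) (nat_lit 5) (nat_lit 339) (nat_lit 310) (nat_lit 71)) (XT.lf (nat_lit 0) (nat_lit 117818174950) (nat_lit 252) (nat_lit 117854378235) (nat_lit 336) (nat_lit 42993322697) (nat_lit 75) (nat_lit 5) (nat_lit 78) (nat_lit 5) (nat_lit 79) (nat_lit 5) (nat_lit 340) (nat_lit 310) (nat_lit 70))) (XT.nd (nat_lit 94) (nat_lit 0) (nat_lit 0) (XT.lf (nat_lit 0) (nat_lit 30453240651) (nat_lit 924) (nat_lit 17180689163) (nat_lit 924) (nat_lit 17180689163) (nat_lit 128) (nat_lit 3) (nat_lit 139) (nat_lit 3) (nat_lit 139) (nat_lit 5) (nat_lit 311) (nat_lit 311) (nat_lit 98)) (XT.lf (nat_lit 84) (nat_lit 31460162318) (nat_lit 0) (nat_lit 31463998488) (nat_lit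 924) (nat_lit 69921057225) (nat_lit 129) (nat_lit 5) (nat_lit 128) (nat_lit 3) (nat_lit 139) (nat_lit 5) (nat_lit 312) (nat_lit 311) (nat_lit 97)))) (XT.nd (nat_lit 188) (nat_lit 0) (nat_lit 84) (XT.nd (nat_lit 94) (nat_lit 0) (nat_lit 0) (XT.lf (nat_lit 0) (nat_lit 66188668521) (nat_lit 840) (nat_lit 34991582196) (nat_lit 924) (nat_lit 34984449181) (nat_lit 129) (nat_lit 5) (nat_lit 139) (nat_lit 5) (nat_lit 140) (nat_lit 5) (nat_lit 313) (nat_lit 311) (nat_lit 96)) (XT.lf (nat_lit 84) (nat_lit 35336613728) (nat_lit 0) (nat_lit 35347060570) (nat_lit 924) (nat_lit 68913117927) (nat_lit 130) (nat_lit 5) (nat_lit 129) (nat_lit 5) (nat_lit 140) (nat_lit 5) (nat_lit 314) (nat_lit 311) (nat_lit 95))) (XT.nd (nat_lit 94) (nat_lit 0) (nat_lit 0) (XT.lf (nat_lit 0) (nat_lit 76532886640) (nat_lit 840) (nat_lit 33312042414) (nat_lit 924) (nat_lit 33299087300) (nat_lit 130) (nat_lit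 5) (nat_lit 140) (nat_lit 5) (nat_lit 141) (nat_lit 5) (nat_lit 315) (nat_lit 311) (nat_lit 94)) (XT.nd (nat_lit 94) (nat_lit 0) (nat_lit 84) (XT.lf (nat_lit 84) (nat_lit 41946445156) (nat_lit 0) (nat_lit 41962262879) (nat_lit 924) (nat_lit 62898186234) (nat_lit 131) (nat_lit 5) (nat_lit 130) (nat_lit 5) (nat_lit 141) (nat_lit 5) (nat_lit 316) (nat_lit 311) (nat_lit 93)) (XT.lf (nat_lit 0) (nat_lit 92684202385) (nat_lit 840) (nat_lit 28967415284) (nat_lit 924) (nat_lit 28949754315) (nat_lit 131) (nat_lit 5) (nat_lit 141) (nat_lit 5) (nat_lit 142) (nat_lit 5) (nat_lit 317) (nat_lit 311) (nat_lit 92))))))))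
noncomputable def xc240 : XT := (XT.nd (nat_lit 1504) (nat_lit 1260) (nat_lit 0) (XT.nd (nat_lit 752) (nat_lit 1512) (nat_lit 0) (XT.nd (nat_lit 376) (nat_lit 1680) (nat_lit 0) (XT.nd (nat_lit 188) (nat_lit 0) (nat_lit 84) (XT.nd (nat_lit 94) (nat_lit 0) (nat_lit 84) (XT.lf (nat_lit 84) (nat_lit 51686510205) (nat_lit 0) (nat_lit 51706644003) (nat_lit 924) (nat_lit 51117685240) (nat_lit 132) (nat_lit 5) (nat_lit 131) (nat_lit 5) (nat_lit 142) (nat_lit 5) (nat_lit 318) (nat_lit 311) (nat_lit 91)) (XT.lf (nat_lit 0) (nat_lit 115475339614) (nat_lit 840) (nat_lit 21559984673) (nat_lit 924) (nat_lit 21538566698) (nat_lit 132) (nat_lit 5) (nat_lit 142) (nat_lit 5) (nat_lit 143) (nat_lit 5) (nat_lit 319) (nat_lit 311) (nat_lit 90))) (XT.nd (nat_lit 94) (nat_lit 0) (nat_lit 84) (XT.lf (nat_lit 84) (nat_lit 65000193715) (nat_lit 0) (nat_lit 65023747813) (nat_lit 924) (nat_lit 32723038209)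 (nat_lit 133) (nat_lit 5) (nat_lit 132) (nat_lit 5) (nat_lit 143) (nat_lit 5) (nat_lit 320) (nat_lit 311) (nat_lit 89)) (XT.lf (nat_lit 0) (nat_lit 145836231566) (nat_lit 840) (nat_lit 10645024230) (nat_lit 84) (nat_lit 10620654229) (nat_lit 133) (nat_lit 5) (nat_lit 143) (nat_lit 5) (nat_lit 134) (nat_lit 5) (nat_lit 321) (nat_lit 311) (nat_lit 88)))) (XT.nd (nat_lit 188) (nat_lit 420) (nat_lit 0) (XT.nd (nat_lit 94) (nat_lit 588) (nat_lit 0) (XT.lf (nat_lit 0) (nat_lit 82382471072) (nat_lit 840) (nat_lit 82408686337) (nat_lit 924) (nat_lit 6765828354) (nat_lit 123) (nat_lit 5) (nat_lit 133) (nat_lit 5) (nat_lit 134) (nat_lit 5) (nat_lit 322) (nat_lit 311) (nat_lit 87)) (XT.lf (nat_lit 0) (nat_lit 4204509219) (nat_lit 504) (nat_lit 4232481877) (nat_lit 588) (nat_lit 167778784840) (nat_lit 116) (nat_lit 5) (nat_lit 122) (nat_lit 5) (nat_lit 123) (nat_lit 5) (nat_lit 323)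 (nat_lit 311) (nat_lit 86))) (XT.nd (nat_lit 94) (nat_lit 420) (nat_lit 0) (XT.lf (nat_lit 0) (nat_lit 26922888111) (nat_lit 588) (nat_lit 77034895369) (nat_lit 84) (nat_lit 77006660735) (nat_lit 116) (nat_lit 5) (nat_lit 123) (nat_lit 5) (nat_lit 117) (nat_lit 5) (nat_lit 324) (nat_lit 311) (nat_lit 85)) (XT.lf (nat_lit 0) (nat_lit 23368707995) (nat_lit 420) (nat_lit 23398460733) (nat_lit 504) (nat_lit 139161672744) (nat_lit 111) (nat_lit 5) (nat_lit 116) (nat_lit 5) (nat_lit 117) (nat_lit 5) (nat_lit 325) (nat_lit 311) (nat_lit 84))))) (XT.nd (nat_lit 376) (nat_lit 756) (nat_lit 0) (XT.nd (nat_lit 188) (nat_lit 336) (nat_lit 0) (XT.nd (nat_lit 94) (nat_lit 420) (nat_lit 0) (XT.lf (nat_lit 0) (nat_lit 69884860482) (nat_lit 504) (nat_lit 60586125579) (nat_lit 84) (nat_lit 60556412675) (nat_lit 111) (nat_lit 5) (nat_lit 117) (nat_lit 5) (nat_lit 112) (nat_lit 5) (nat_lit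 326) (nat_lit 311) (nat_lit 83)) (XT.lf (nat_lit 0) (nat_lit 47627226317) (nat_lit 420) (nat_lit 47658250615) (nat_lit 504) (nat_lit 101039054927) (nat_lit 106) (nat_lit 5) (nat_lit 111) (nat_lit 5) (nat_lit 112) (nat_lit 5) (nat_lit 327) (nat_lit 311) (nat_lit 82))) (XT.nd (nat_lit 94) (nat_lit 336) (nat_lit 0) (XT.lf (nat_lit 0) (nat_lit 123612375514) (nat_lit 504) (nat_lit 39111034991) (nat_lit 84) (nat_lit 39080298567) (nat_lit 106) (nat_lit 5) (nat_lit 112) (nat_lit 5) (nat_lit 107) (nat_lit 5) (nat_lit 328) (nat_lit 311) (nat_lit 81)) (XT.lf (nat_lit 0) (nat_lit 77658688501) (nat_lit 336) (nat_lit 77690557757) (nat_lit 420) (nat_lit 52107917525) (nat_lit 102) (nat_lit 5) (nat_lit 106) (nat_lit 5) (nat_lit 107) (nat_lit 5) (nat_lit 329) (nat_lit 311) (nat_lit 80)))) (XT.nd (nat_lit 188) (nat_lit 336) (nat_lit 0) (XT.nd (nat_lit 94) (nat_lit 420) (nat_lit 0) (XT.lf (nat_lit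 0) (nat_lit 189527075343) (nat_lit 420) (nat_lit 11927444666) (nat_lit 84) (nat_lit 11896065482) (nat_lit 102) (nat_lit 5) (nat_lit 107) (nat_lit 5) (nat_lit 103) (nat_lit 5) (nat_lit 330) (nat_lit 311) (nat_lit 79)) (XT.lf (nat_lit 0) (nat_lit 8793968395) (nat_lit 420) (nat_lit 105308568370) (nat_lit 84) (nat_lit 105276210604) (nat_lit 97) (nat_lit 5) (nat_lit 102) (nat_lit 5) (nat_lit 98) (nat_lit 5) (nat_lit 331) (nat_lit 311) (nat_lit 78))) (XT.nd (nat_lit 94) (nat_lit 0) (nat_lit 0) (XT.lf (nat_lit 0) (nat_lit 21373650797) (nat_lit 336) (nat_lit 21406940547) (nat_lit 420) (nat_lit 182881253697) (nat_lit 93) (nat_lit 5) (nat_lit 97) (nat_lit 5) (nat_lit 98) (nat_lit 5) (nat_lit 332) (nat_lit 311) (nat_lit 77)) (XT.lf (nat_lit 0) (nat_lit 81464500003) (nat_lit 420) (nat_lit 75338624863) (nat_lit 84) (nat_lit 75306075003) (nat_lit 93) (nat_lit 5) (nat_lit 98) (nat_lit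 5) (nat_lit 94) (nat_lit 5) (nat_lit 333) (nat_lit 311) (nat_lit 76)))))) (XT.nd (nat_lit 43240) (nat_lit 0) (nat_lit 4200) (XT.nd (nat_lit 376) (nat_lit 252) (nat_lit 0) (XT.nd (nat_lit 188) (nat_lit 672) (nat_lit 0) (XT.nd (nat_lit 94) (nat_lit 0) (nat_lit 0) (XT.lf (nat_lit 0) (nat_lit 61681549123) (nat_lit 336) (nat_lit 61714904065) (nat_lit 420) (nat_lit 115416776794) (nat_lit 89) (nat_lit 5) (nat_lit 93) (nat_lit 5) (nat_lit 94) (nat_lit 5) (nat_lit 334) (nat_lit 311) (nat_lit 75)) (XT.lf (nat_lit 0) (nat_lit 169316993426) (nat_lit 420) (nat_lit 38236682776) (nat_lit 84) (nat_lit 38204185931) (nat_lit 89) (nat_lit 5) (nat_lit 94) (nat_lit 5) (nat_lit 90) (nat_lit 5) (nat_lit 335) (nat_lit 311) (nat_lit 74))) (XT.nd (nat_lit 94) (nat_lit 420) (nat_lit 0) (XT.lf (nat_lit 0) (nat_lit 110115601247) (nat_lit 252) (nat_lit 110148793552) (nat_lit 336) (nat_lit 32648789386)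 (nat_lit 86) (nat_lit 5) (nat_lit 89) (nat_lit 5) (nat_lit 90) (nat_lit 5) (nat_lit 336) (nat_lit 311) (nat_lit 73)) (XT.lf (nat_lit 0) (nat_lit 6818416370) (nat_lit 336) (nat_lit 6852271019) (nat_lit 420) (nat_lit 246706950289) (nat_lit 81) (nat_lit 5) (nat_lit 85) (nat_lit 5) (nat_lit 86) (nat_lit 5) (nat_lit 337) (nat_lit 311) (nat_lit 72)))) (XT.nd (nat_lit 188) (nat_lit 0) (nat_lit 0) (XT.nd (nat_lit 94) (nat_lit 252) (nat_lit 0) (XT.lf (nat_lit 0) (nat_lit 65253222669) (nat_lit 420) (nat_lit 101382979130) (nat_lit 84) (nat_lit 101350135843) (nat_lit 81) (nat_lit 5) (nat_lit 86) (nat_lit 5) (nat_lit 82) (nat_lit 5) (nat_lit 338) (nat_lit 311) (nat_lit 71)) (XT.lf (nat_lit 0) (nat_lit 60216932821) (nat_lit 252) (nat_lit 60250348265) (nat_lit 336) (nat_lit 155455571697) (nat_lit 78) (nat_lit 5) (nat_lit 81) (nat_lit 5) (nat_lit 82) (nat_lit 5) (nat_lit 339) (nat_lit 311)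 (nat_lit 70))) (XT.nd (nat_lit 42582) (nat_lit 0) (nat_lit 4200) (XT.lf (nat_lit 0) (nat_lit 180990423648) (nat_lit 336) (nat_lit 51585347084) (nat_lit 84) (nat_lit 51553003888) (nat_lit 78) (nat_lit 5) (nat_lit 82) (nat_lit 5) (nat_lit 79) (nat_lit 5) (nat_lit 340) (nat_lit 311) (nat_lit 69)) (XT.lf (nat_lit 0) (nat_lit 31979678961) (nat_lit 924) (nat_lit 18037741076) (nat_lit 924) (nat_lit 18037741076) (nat_lit 128) (nat_lit 3) (nat_lit 139) (nat_lit 3) (nat_lit 139) (nat_lit 5) (nat_lit 312) (nat_lit 312) (nat_lit 96))))) (XT.nd (nat_lit 376) (nat_lit 0) (nat_lit 168) (XT.nd (nat_lit 188) (nat_lit 0) (nat_lit 84) (XT.nd (nat_lit 94) (nat_lit 0) (nat_lit 84) (XT.lf (nat_lit 84) (nat_lit 33037071571) (nat_lit 0) (nat_lit 33040551091) (nat_lit 924) (nat_lit 73409493579) (nat_lit 129) (nat_lit 5) (nat_lit 128) (nat_lit 3) (nat_lit 139) (nat_lit 5) (nat_lit 313) (nat_lit 312)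 (nat_lit 95)) (XT.lf (nat_lit 0) (nat_lit 69504960491) (nat_lit 840) (nat_lit 36737050665) (nat_lit 924) (nat_lit 36730580810) (nat_lit 129) (nat_lit 5) (nat_lit 139) (nat_lit 5) (nat_lit 140) (nat_lit 5) (nat_lit 314) (nat_lit 312) (nat_lit 94))) (XT.nd (nat_lit 94) (nat_lit 0) (nat_lit 84) (XT.lf (nat_lit 84) (nat_lit 37107488754) (nat_lit 0) (nat_lit 37116964348) (nat_lit 924) (nat_lit 72351848979) (nat_lit 130) (nat_lit 5) (nat_lit 129) (nat_lit 5) (nat_lit 140) (nat_lit 5) (nat_lit 315) (nat_lit 312) (nat_lit 93)) (XT.lf (nat_lit 0) (nat_lit 80365774082) (nat_lit 840) (nat_lit 34973440802) (nat_lit 924) (nat_lit 34961690132) (nat_lit 130) (nat_lit 5) (nat_lit 140) (nat_lit 5) (nat_lit 141) (nat_lit 5) (nat_lit 316) (nat_lit 312) (nat_lit 92)))) (XT.nd (nat_lit 188) (nat_lit 0) (nat_lit 84) (XT.nd (nat_lit 94) (nat_lit 0) (nat_lit 84) (XT.lf (nat_lit 84) (nat_lit 44047903344)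 (nat_lit 0) (nat_lit 44062250485) (nat_lit 924) (nat_lit 66036784634) (nat_lit 131) (nat_lit 5) (nat_lit 130) (nat_lit 5) (nat_lit 141) (nat_lit 5) (nat_lit 317) (nat_lit 312) (nat_lit 91)) (XT.lf (nat_lit 0) (nat_lit 97324108816) (nat_lit 840) (nat_lit 30411532985) (nat_lit 924) (nat_lit 30395513966) (nat_lit 131) (nat_lit 5) (nat_lit 141) (nat_lit 5) (nat_lit 142) (nat_lit 5) (nat_lit 318) (nat_lit 312) (nat_lit 90))) (XT.nd (nat_lit 94) (nat_lit 0) (nat_lit 84) (XT.lf (nat_lit 84) (nat_lit 54275020180) (nat_lit 0) (nat_lit 54293282128) (nat_lit 924) (nat_lit 53667804592) (nat_lit 132) (nat_lit 5) (nat_lit 131) (nat_lit 5) (nat_lit 142) (nat_lit 5) (nat_lit 319) (nat_lit 312) (nat_lit 89)) (XT.nd (nat_lit 94) (nat_lit 0) (nat_lit 0) (XT.lf (nat_lit 0) (nat_lit 121254316119) (nat_lit 840) (nat_lit 22633717837) (nat_lit 924) (nat_lit 22614291102) (nat_lit 132) (nat_lit 5)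 (nat_lit 142) (nat_lit 5) (nat_lit 143) (nat_lit 5) (nat_lit 320) (nat_lit 312) (nat_lit 88)) (XT.lf (nat_lit 84) (nat_lit 68254400663) (nat_lit 0) (nat_lit 68275764924) (nat_lit 924) (nat_lit 34353911788) (nat_lit 133) (nat_lit 5) (nat_lit 132) (nat_lit 5) (nat_lit 143) (nat_lit 5) (nat_lit 321) (nat_lit 312) (nat_lit 87))))))))
noncomputable def xc241 : XT := (XT.nd (nat_lit 1598) (nat_lit 252) (nat_lit 0) (XT.nd (nat_lit 752) (nat_lit 2100) (nat_lit 0) (XT.nd (nat_lit 376) (nat_lit 840) (nat_lit 0) (XT.nd (nat_lit 188) (nat_lit 588) (nat_lit 0) (XT.nd (nat_lit 94) (nat_lit 840) (nat_lit 0) (XT.lf (nat_lit 0) (nat_lit 153132818410) (nat_lit 840) (nat_lit 11173026331) (nat_lit 84) (nat_lit 11150922022) (nat_lit 133) (nat_lit 5) (nat_lit 143) (nat_lit 5) (nat_lit 134) (nat_lit 5) (nat_lit 322) (nat_lit 312) (nat_lit 86)) (XT.lf (nat_lit 0) (nat_lit 86505775202) (nat_lit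 840) (nat_lit 86529553220) (nat_lit 924) (nat_lit 7099275972) (nat_lit 123) (nat_lit 5) (nat_lit 133) (nat_lit 5) (nat_lit 134) (nat_lit 5) (nat_lit 323) (nat_lit 312) (nat_lit 85))) (XT.nd (nat_lit 94) (nat_lit 0) (nat_lit 0) (XT.lf (nat_lit 0) (nat_lit 4419000358) (nat_lit 504) (nat_lit 4444372384) (nat_lit 588) (nat_lit 176162965385) (nat_lit 116) (nat_lit 5) (nat_lit 122) (nat_lit 5) (nat_lit 123) (nat_lit 5) (nat_lit 324) (nat_lit 312) (nat_lit 84)) (XT.lf (nat_lit 0) (nat_lit 28273344834) (nat_lit 588) (nat_lit 80882357811) (nat_lit 84) (nat_lit 80856748165) (nat_lit 116) (nat_lit 5) (nat_lit 123) (nat_lit 5) (nat_lit 117) (nat_lit 5) (nat_lit 325) (nat_lit 312) (nat_lit 83)))) (XT.nd (nat_lit 188) (nat_lit 420) (nat_lit 0) (XT.nd (nat_lit 94) (nat_lit 0) (nat_lit 0) (XT.lf (nat_lit 0) (nat_lit 24541356652) (nat_lit 420) (nat_lit 24568343262) (nat_lit 504) (nat_lit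 146115374995) (nat_lit 111) (nat_lit 5) (nat_lit 116) (nat_lit 5) (nat_lit 117) (nat_lit 5) (nat_lit 326) (nat_lit 312) (nat_lit 82)) (XT.lf (nat_lit 0) (nat_lit 73383078155) (nat_lit 504) (nat_lit 63611221133) (nat_lit 84) (nat_lit 63584270653) (nat_lit 111) (nat_lit 5) (nat_lit 117) (nat_lit 5) (nat_lit 112) (nat_lit 5) (nat_lit 327) (nat_lit 312) (nat_lit 81))) (XT.nd (nat_lit 94) (nat_lit 0) (nat_lit 0) (XT.lf (nat_lit 0) (nat_lit 50012730443) (nat_lit 420) (nat_lit 50040870396) (nat_lit 504) (nat_lit 106086965110) (nat_lit 106) (nat_lit 5) (nat_lit 111) (nat_lit 5) (nat_lit 112) (nat_lit 5) (nat_lit 328) (nat_lit 312) (nat_lit 80)) (XT.lf (nat_lit 0) (nat_lit 129796665367) (nat_lit 504) (nat_lit 41062462223) (nat_lit 84) (nat_lit 41034583381) (nat_lit 106) (nat_lit 5) (nat_lit 112) (nat_lit 5) (nat_lit 107) (nat_lit 5) (nat_lit 329) (nat_lit 312) (nat_lit 79))))) (XT.nd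 (nat_lit 376) (nat_lit 1008) (nat_lit 0) (XT.nd (nat_lit 188) (nat_lit 756) (nat_lit 0) (XT.nd (nat_lit 94) (nat_lit 0) (nat_lit 0) (XT.lf (nat_lit 0) (nat_lit 81545680919) (nat_lit 336) (nat_lit 81574587274) (nat_lit 420) (nat_lit 54709575799) (nat_lit 102) (nat_lit 5) (nat_lit 106) (nat_lit 5) (nat_lit 107) (nat_lit 5) (nat_lit 330) (nat_lit 312) (nat_lit 78)) (XT.lf (nat_lit 0) (nat_lit 199006826636) (nat_lit 420) (nat_lit 12519790049) (nat_lit 84) (nat_lit 12491328204) (nat_lit 102) (nat_lit 5) (nat_lit 107) (nat_lit 5) (nat_lit 103) (nat_lit 5) (nat_lit 331) (nat_lit 312) (nat_lit 77))) (XT.nd (nat_lit 94) (nat_lit 336) (nat_lit 0) (XT.lf (nat_lit 0) (nat_lit 9237018469) (nat_lit 420) (nat_lit 110569924067) (nat_lit 84) (nat_lit 110540574619) (nat_lit 97) (nat_lit 5) (nat_lit 102) (nat_lit 5) (nat_lit 98) (nat_lit 5) (nat_lit 332) (nat_lit 312) (nat_lit 76)) (XT.lf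 (nat_lit 0) (nat_lit 22446340369) (nat_lit 336) (nat_lit 22476535154) (nat_lit 420) (nat_lit 192021899039) (nat_lit 93) (nat_lit 5) (nat_lit 97) (nat_lit 5) (nat_lit 98) (nat_lit 5) (nat_lit 333) (nat_lit 312) (nat_lit 75)))) (XT.nd (nat_lit 188) (nat_lit 672) (nat_lit 0) (XT.nd (nat_lit 94) (nat_lit 336) (nat_lit 0) (XT.lf (nat_lit 0) (nat_lit 85540835822) (nat_lit 420) (nat_lit 79101596091) (nat_lit 84) (nat_lit 79072072408) (nat_lit 93) (nat_lit 5) (nat_lit 98) (nat_lit 5) (nat_lit 94) (nat_lit 5) (nat_lit 334) (nat_lit 312) (nat_lit 74)) (XT.lf (nat_lit 0) (nat_lit 64769522723) (nat_lit 336) (nat_lit 64799776639) (nat_lit 420) (nat_lit 121184440944) (nat_lit 89) (nat_lit 5) (nat_lit 93) (nat_lit 5) (nat_lit 94) (nat_lit 5) (nat_lit 335) (nat_lit 312) (nat_lit 73))) (XT.nd (nat_lit 94) (nat_lit 672) (nat_lit 0) (XT.lf (nat_lit 0) (nat_lit 177785735611) (nat_lit 420) (nat_lit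 40144675300) (nat_lit 84) (nat_lit 40115199703) (nat_lit 89) (nat_lit 5) (nat_lit 94) (nat_lit 5) (nat_lit 90) (nat_lit 5) (nat_lit 336) (nat_lit 312) (nat_lit 72)) (XT.nd (nat_lit 94) (nat_lit 420) (nat_lit 0) (XT.lf (nat_lit 0) (nat_lit 115625160962) (nat_lit 252) (nat_lit 115655267362) (nat_lit 336) (nat_lit 34278274381) (nat_lit 86) (nat_lit 5) (nat_lit 89) (nat_lit 5) (nat_lit 90) (nat_lit 5) (nat_lit 337) (nat_lit 312) (nat_lit 71)) (XT.lf (nat_lit 0) (nat_lit 7163148917) (nat_lit 336) (nat_lit 7193856081) (nat_lit 420) (nat_lit 259039375403) (nat_lit 81) (nat_lit 5) (nat_lit 85) (nat_lit 5) (nat_lit 86) (nat_lit 5) (nat_lit 338) (nat_lit 312) (nat_lit 70))))))) (XT.nd (nat_lit 43334) (nat_lit 0) (nat_lit 2772) (XT.nd (nat_lit 42958) (nat_lit 0) (nat_lit 4284) (XT.nd (nat_lit 42770) (nat_lit 0) (nat_lit 4200) (XT.nd (nat_lit 94) (nat_lit 252) (nat_lit 0) (XT.lf (nat_lit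 0) (nat_lit 68518549799) (nat_lit 420) (nat_lit 106448380628) (nat_lit 84) (nat_lit 106418590798) (nat_lit 81) (nat_lit 5) (nat_lit 86) (nat_lit 5) (nat_lit 82) (nat_lit 5) (nat_lit 339) (nat_lit 312) (nat_lit 69)) (XT.lf (nat_lit 0) (nat_lit 63231466478) (nat_lit 252) (nat_lit 63261775271) (nat_lit 336) (nat_lit 163225623843) (nat_lit 78) (nat_lit 5) (nat_lit 81) (nat_lit 5) (nat_lit 82) (nat_lit 5) (nat_lit 340) (nat_lit 312) (nat_lit 68))) (XT.nd (nat_lit 94) (nat_lit 0) (nat_lit 0) (XT.lf (nat_lit 0) (nat_lit 33582088103) (nat_lit 924) (nat_lit 18937829903) (nat_lit 924) (nat_lit 18937829903) (nat_lit 128) (nat_lit 3) (nat_lit 139) (nat_lit 3) (nat_lit 139) (nat_lit 5) (nat_lit 313) (nat_lit 313) (nat_lit 94)) (XT.lf (nat_lit 84) (nat_lit 34692463597) (nat_lit 0) (nat_lit 34695619623) (nat_lit 924) (nat_lit 77073059862) (nat_lit 129) (nat_lit 5) (nat_lit 128) (nat_lit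 3) (nat_lit 139) (nat_lit 5) (nat_lit 314) (nat_lit 313) (nat_lit 93)))) (XT.nd (nat_lit 188) (nat_lit 0) (nat_lit 84) (XT.nd (nat_lit 94) (nat_lit 0) (nat_lit 0) (XT.lf (nat_lit 0) (nat_lit 72986429417) (nat_lit 840) (nat_lit 38570174726) (nat_lit 924) (nat_lit 38564306377) (nat_lit 129) (nat_lit 5) (nat_lit 139) (nat_lit 5) (nat_lit 140) (nat_lit 5) (nat_lit 315) (nat_lit 313) (nat_lit 92)) (XT.lf (nat_lit 84) (nat_lit 38966531528) (nat_lit 0) (nat_lit 38975126171) (nat_lit 924) (nat_lit 75963160390) (nat_lit 130) (nat_lit 5) (nat_lit 129) (nat_lit 5) (nat_lit 140) (nat_lit 5) (nat_lit 316) (nat_lit 313) (nat_lit 91))) (XT.nd (nat_lit 94) (nat_lit 0) (nat_lit 0) (XT.lf (nat_lit 0) (nat_lit 84389725471) (nat_lit 840) (nat_lit 36718299933) (nat_lit 924) (nat_lit 36707641729) (nat_lit 130) (nat_lit 5) (nat_lit 140) (nat_lit 5) (nat_lit 141) (nat_lit 5) (nat_lit 317) (nat_lit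 313) (nat_lit 90)) (XT.lf (nat_lit 84) (nat_lit 46254049922) (nat_lit 0) (nat_lit 46267063202) (nat_lit 924) (nat_lit 69332899682) (nat_lit 131) (nat_lit 5) (nat_lit 130) (nat_lit 5) (nat_lit 141) (nat_lit 5) (nat_lit 318) (nat_lit 313) (nat_lit 89))))) (XT.nd (nat_lit 376) (nat_lit 1680) (nat_lit 0) (XT.nd (nat_lit 188) (nat_lit 0) (nat_lit 84) (XT.nd (nat_lit 94) (nat_lit 0) (nat_lit 0) (XT.lf (nat_lit 0) (nat_lit 102195480979) (nat_lit 840) (nat_lit 31928251982) (nat_lit 924) (nat_lit 31913722259) (nat_lit 131) (nat_lit 5) (nat_lit 141) (nat_lit 5) (nat_lit 142) (nat_lit 5) (nat_lit 319) (nat_lit 313) (nat_lit 88)) (XT.lf (nat_lit 84) (nat_lit 56992566622) (nat_lit 0) (nat_lit 57009130747) (nat_lit 924) (nat_lit 56345965880) (nat_lit 132) (nat_lit 5) (nat_lit 131) (nat_lit 5) (nat_lit 142) (nat_lit 5) (nat_lit 320) (nat_lit 313) (nat_lit 87))) (XT.nd (nat_lit 94) (nat_lit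 0) (nat_lit 0) (XT.lf (nat_lit 0) (nat_lit 127321757118) (nat_lit 840) (nat_lit 23761534277) (nat_lit 924) (nat_lit 23743913656) (nat_lit 132) (nat_lit 5) (nat_lit 142) (nat_lit 5) (nat_lit 143) (nat_lit 5) (nat_lit 321) (nat_lit 313) (nat_lit 86)) (XT.lf (nat_lit 84) (nat_lit 71670927737) (nat_lit 0) (nat_lit 71690305751) (nat_lit 924) (nat_lit 36066819774) (nat_lit 133) (nat_lit 5) (nat_lit 132) (nat_lit 5) (nat_lit 143) (nat_lit 5) (nat_lit 322) (nat_lit 313) (nat_lit 85)))) (XT.nd (nat_lit 188) (nat_lit 1008) (nat_lit 0) (XT.nd (nat_lit 94) (nat_lit 840) (nat_lit 0) (XT.lf (nat_lit 0) (nat_lit 160793790636) (nat_lit 840) (nat_lit 11727823580) (nat_lit 84) (nat_lit 11707774320) (nat_lit 133) (nat_lit 5) (nat_lit 143) (nat_lit 5) (nat_lit 134) (nat_lit 5) (nat_lit 323) (nat_lit 313) (nat_lit 84)) (XT.lf (nat_lit 0) (nat_lit 90834855868) (nat_lit 840) (nat_lit 90856423231)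 (nat_lit 924) (nat_lit 7449846302) (nat_lit 123) (nat_lit 5) (nat_lit 133) (nat_lit 5) (nat_lit 134) (nat_lit 5) (nat_lit 324) (nat_lit 313) (nat_lit 83))) (XT.nd (nat_lit 94) (nat_lit 420) (nat_lit 0) (XT.lf (nat_lit 0) (nat_lit 4643819473) (nat_lit 504) (nat_lit 4666832648) (nat_lit 588) (nat_lit 184966797376) (nat_lit 116) (nat_lit 5) (nat_lit 122) (nat_lit 5) (nat_lit 123) (nat_lit 5) (nat_lit 325) (nat_lit 313) (nat_lit 82)) (XT.nd (nat_lit 94) (nat_lit 420) (nat_lit 0) (XT.lf (nat_lit 0) (nat_lit 29690923474) (nat_lit 588) (nat_lit 84922591506) (nat_lit 84) (nat_lit 84899362802) (nat_lit 116) (nat_lit 5) (nat_lit 123) (nat_lit 5) (nat_lit 117) (nat_lit 5) (nat_lit 326) (nat_lit 313) (nat_lit 81)) (XT.lf (nat_lit 0) (nat_lit 25772246032) (nat_lit 420) (nat_lit 25796723683) (nat_lit 504) (nat_lit 153417169698) (nat_lit 111) (nat_lit 5) (nat_lit 116) (nat_lit 5) (nat_lit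 117) (nat_lit 5) (nat_lit 327) (nat_lit 313) (nat_lit 80))))))))
noncomputable def xc242 : XT := (XT.nd (nat_lit 44274) (nat_lit 0) (nat_lit 1344) (XT.nd (nat_lit 752) (nat_lit 1008) (nat_lit 0) (XT.nd (nat_lit 376) (nat_lit 756) (nat_lit 0) (XT.nd (nat_lit 188) (nat_lit 336) (nat_lit 0) (XT.nd (nat_lit 94) (nat_lit 420) (nat_lit 0) (XT.lf (nat_lit 0) (nat_lit 77055837187) (nat_lit 504) (nat_lit 66787962938) (nat_lit 84) (nat_lit 66763518058) (nat_lit 111) (nat_lit 5) (nat_lit 117) (nat_lit 5) (nat_lit 112) (nat_lit 5) (nat_lit 328) (nat_lit 313) (nat_lit 79)) (XT.lf (nat_lit 0) (nat_lit 52517124616) (nat_lit 420) (nat_lit 52542648384) (nat_lit 504) (nat_lit 111387646641) (nat_lit 106) (nat_lit 5) (nat_lit 111) (nat_lit 5) (nat_lit 112) (nat_lit 5) (nat_lit 329) (nat_lit 313) (nat_lit 78))) (XT.nd (nat_lit 94) (nat_lit 336) (nat_lit 0) (XT.lf (nat_lit 0) (nat_lit 136289828412)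 (nat_lit 504) (nat_lit 43111844276) (nat_lit 84) (nat_lit 43086557344) (nat_lit 106) (nat_lit 5) (nat_lit 112) (nat_lit 5) (nat_lit 107) (nat_lit 5) (nat_lit 330) (nat_lit 313) (nat_lit 77)) (XT.lf (nat_lit 0) (nat_lit 85626645684) (nat_lit 336) (nat_lit 85652864600) (nat_lit 420) (nat_lit 57441664474) (nat_lit 102) (nat_lit 5) (nat_lit 106) (nat_lit 5) (nat_lit 107) (nat_lit 5) (nat_lit 331) (nat_lit 313) (nat_lit 76)))) (XT.nd (nat_lit 188) (nat_lit 336) (nat_lit 0) (XT.nd (nat_lit 94) (nat_lit 420) (nat_lit 0) (XT.lf (nat_lit 0) (nat_lit 208960249624) (nat_lit 420) (nat_lit 13142127080) (nat_lit 84) (nat_lit 13116311347) (nat_lit 102) (nat_lit 5) (nat_lit 107) (nat_lit 5) (nat_lit 103) (nat_lit 5) (nat_lit 332) (nat_lit 313) (nat_lit 75)) (XT.lf (nat_lit 0) (nat_lit 9701909441) (nat_lit 420) (nat_lit 116094726191) (nat_lit 84) (nat_lit 116068105377) (nat_lit 97) (nat_lit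 5) (nat_lit 102) (nat_lit 5) (nat_lit 98) (nat_lit 5) (nat_lit 333) (nat_lit 313) (nat_lit 74))) (XT.nd (nat_lit 94) (nat_lit 0) (nat_lit 0) (XT.lf (nat_lit 0) (nat_lit 23572291885) (nat_lit 336) (nat_lit 23599679444) (nat_lit 420) (nat_lit 201619894360) (nat_lit 93) (nat_lit 5) (nat_lit 97) (nat_lit 5) (nat_lit 98) (nat_lit 5) (nat_lit 334) (nat_lit 313) (nat_lit 73)) (XT.lf (nat_lit 0) (nat_lit 89820699218) (nat_lit 420) (nat_lit 83053084045) (nat_lit 84) (nat_lit 83026305194) (nat_lit 93) (nat_lit 5) (nat_lit 98) (nat_lit 5) (nat_lit 94) (nat_lit 5) (nat_lit 335) (nat_lit 313) (nat_lit 72))))) (XT.nd (nat_lit 376) (nat_lit 0) (nat_lit 0) (XT.nd (nat_lit 188) (nat_lit 672) (nat_lit 0) (XT.nd (nat_lit 94) (nat_lit 0) (nat_lit 0) (XT.lf (nat_lit 0) (nat_lit 68011532777) (nat_lit 336) (nat_lit 68038973971) (nat_lit 420) (nat_lit 127240783453) (nat_lit 89) (nat_lit 5) (nat_lit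 93) (nat_lit 5) (nat_lit 94) (nat_lit 5) (nat_lit 336) (nat_lit 313) (nat_lit 71)) (XT.lf (nat_lit 0) (nat_lit 186677645986) (nat_lit 420) (nat_lit 42148424607) (nat_lit 84) (nat_lit 42121689372) (nat_lit 89) (nat_lit 5) (nat_lit 94) (nat_lit 5) (nat_lit 90) (nat_lit 5) (nat_lit 337) (nat_lit 313) (nat_lit 70))) (XT.nd (nat_lit 94) (nat_lit 420) (nat_lit 0) (XT.lf (nat_lit 0) (nat_lit 121409847267) (nat_lit 252) (nat_lit 121437154659) (nat_lit 336) (nat_lit 35989508304) (nat_lit 86) (nat_lit 5) (nat_lit 89) (nat_lit 5) (nat_lit 90) (nat_lit 5) (nat_lit 338) (nat_lit 313) (nat_lit 69)) (XT.lf (nat_lit 0) (nat_lit 7524763712) (nat_lit 336) (nat_lit 7552616015) (nat_lit 420) (nat_lit 271988693470) (nat_lit 81) (nat_lit 5) (nat_lit 85) (nat_lit 5) (nat_lit 86) (nat_lit 5) (nat_lit 339) (nat_lit 313) (nat_lit 68)))) (XT.nd (nat_lit 42864) (nat_lit 0) (nat_lit 3948) (XT.nd (nat_lit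 42770) (nat_lit 0) (nat_lit 3948) (XT.lf (nat_lit 0) (nat_lit 71946895426) (nat_lit 420) (nat_lit 111767400603) (nat_lit 84) (nat_lit 111740380349) (nat_lit 81) (nat_lit 5) (nat_lit 86) (nat_lit 5) (nat_lit 82) (nat_lit 5) (nat_lit 340) (nat_lit 313) (nat_lit 67)) (XT.lf (nat_lit 0) (nat_lit 35264299260) (nat_lit 924) (nat_lit 19883090353) (nat_lit 924) (nat_lit 19883090353) (nat_lit 128) (nat_lit 3) (nat_lit 139) (nat_lit 3) (nat_lit 139) (nat_lit 5) (nat_lit 314) (nat_lit 314) (nat_lit 92))) (XT.nd (nat_lit 94) (nat_lit 0) (nat_lit 84) (XT.lf (nat_lit 84) (nat_lit 36430296252) (nat_lit 0) (nat_lit 36433158861) (nat_lit 924) (nat_lit 80920446737) (nat_lit 129) (nat_lit 5) (nat_lit 128) (nat_lit 3) (nat_lit 139) (nat_lit 5) (nat_lit 315) (nat_lit 314) (nat_lit 91)) (XT.nd (nat_lit 94) (nat_lit 0) (nat_lit 0) (XT.lf (nat_lit 0) (nat_lit 76641393429) (nat_lit 840) (nat_lit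 40495301627) (nat_lit 924) (nat_lit 40489978862) (nat_lit 129) (nat_lit 5) (nat_lit 139) (nat_lit 5) (nat_lit 140) (nat_lit 5) (nat_lit 316) (nat_lit 314) (nat_lit 90)) (XT.lf (nat_lit 84) (nat_lit 40918185393) (nat_lit 0) (nat_lit 40925980988) (nat_lit 924) (nat_lit 79755621323) (nat_lit 130) (nat_lit 5) (nat_lit 129) (nat_lit 5) (nat_lit 140) (nat_lit 5) (nat_lit 317) (nat_lit 314) (nat_lit 89))))))) (XT.nd (nat_lit 752) (nat_lit 2184) (nat_lit 0) (XT.nd (nat_lit 376) (nat_lit 588) (nat_lit 0) (XT.nd (nat_lit 188) (nat_lit 0) (nat_lit 84) (XT.nd (nat_lit 94) (nat_lit 0) (nat_lit 0) (XT.lf (nat_lit 0) (nat_lit 88614347967) (nat_lit 840) (nat_lit 38550756509) (nat_lit 924) (nat_lit 38541089203) (nat_lit 130) (nat_lit 5) (nat_lit 140) (nat_lit 5) (nat_lit 141) (nat_lit 5) (nat_lit 318) (nat_lit 314) (nat_lit 88)) (XT.lf (nat_lit 84) (nat_lit 48570155058) (nat_lit 0) (nat_lit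 48581958486) (nat_lit 924) (nat_lit 72794352663) (nat_lit 131) (nat_lit 5) (nat_lit 130) (nat_lit 5) (nat_lit 141) (nat_lit 5) (nat_lit 319) (nat_lit 314) (nat_lit 87))) (XT.nd (nat_lit 94) (nat_lit 0) (nat_lit 0) (XT.lf (nat_lit 0) (nat_lit 107309941398) (nat_lit 840) (nat_lit 33521165576) (nat_lit 924) (nat_lit 33507986689) (nat_lit 131) (nat_lit 5) (nat_lit 141) (nat_lit 5) (nat_lit 142) (nat_lit 5) (nat_lit 320) (nat_lit 314) (nat_lit 86)) (XT.lf (nat_lit 84) (nat_lit 59845637522) (nat_lit 0) (nat_lit 59860661672) (nat_lit 924) (nat_lit 59158521368) (nat_lit 132) (nat_lit 5) (nat_lit 131) (nat_lit 5) (nat_lit 142) (nat_lit 5) (nat_lit 321) (nat_lit 314) (nat_lit 85)))) (XT.nd (nat_lit 188) (nat_lit 756) (nat_lit 0) (XT.nd (nat_lit 94) (nat_lit 0) (nat_lit 0) (XT.lf (nat_lit 0) (nat_lit 133692130862) (nat_lit 840) (nat_lit 24946101285) (nat_lit 924) (nat_lit 24930118862)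 (nat_lit 132) (nat_lit 5) (nat_lit 142) (nat_lit 5) (nat_lit 143) (nat_lit 5) (nat_lit 322) (nat_lit 314) (nat_lit 84)) (XT.lf (nat_lit 84) (nat_lit 75257927221) (nat_lit 0) (nat_lit 75275503652) (nat_lit 924) (nat_lit 37865818266) (nat_lit 133) (nat_lit 5) (nat_lit 132) (nat_lit 5) (nat_lit 143) (nat_lit 5) (nat_lit 323) (nat_lit 314) (nat_lit 83))) (XT.nd (nat_lit 94) (nat_lit 840) (nat_lit 0) (XT.lf (nat_lit 0) (nat_lit 168837408791) (nat_lit 840) (nat_lit 12310719005) (nat_lit 84) (nat_lit 12292533736) (nat_lit 133) (nat_lit 5) (nat_lit 143) (nat_lit 5) (nat_lit 134) (nat_lit 5) (nat_lit 324) (nat_lit 314) (nat_lit 82)) (XT.lf (nat_lit 0) (nat_lit 95380038032) (nat_lit 840) (nat_lit 95399600265) (nat_lit 924) (nat_lit 7818353612) (nat_lit 123) (nat_lit 5) (nat_lit 133) (nat_lit 5) (nat_lit 134) (nat_lit 5) (nat_lit 325) (nat_lit 314) (nat_lit 81))))) (XT.nd (nat_lit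 376) (nat_lit 1176) (nat_lit 0) (XT.nd (nat_lit 188) (nat_lit 420) (nat_lit 0) (XT.nd (nat_lit 94) (nat_lit 0) (nat_lit 0) (XT.lf (nat_lit 0) (nat_lit 4879519831) (nat_lit 504) (nat_lit 4900393459) (nat_lit 588) (nat_lit 194211222254) (nat_lit 116) (nat_lit 5) (nat_lit 122) (nat_lit 5) (nat_lit 123) (nat_lit 5) (nat_lit 326) (nat_lit 314) (nat_lit 80)) (XT.lf (nat_lit 0) (nat_lit 31179017401) (nat_lit 588) (nat_lit 89165198000) (nat_lit 84) (nat_lit 89144128881) (nat_lit 116) (nat_lit 5) (nat_lit 123) (nat_lit 5) (nat_lit 117) (nat_lit 5) (nat_lit 327) (nat_lit 314) (nat_lit 79))) (XT.nd (nat_lit 94) (nat_lit 0) (nat_lit 0) (XT.lf (nat_lit 0) (nat_lit 27064324591) (nat_lit 420) (nat_lit 27086526542) (nat_lit 504) (nat_lit 161084423606) (nat_lit 111) (nat_lit 5) (nat_lit 116) (nat_lit 5) (nat_lit 117) (nat_lit 5) (nat_lit 328) (nat_lit 314) (nat_lit 78)) (XT.lf (nat_lit 0)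 (nat_lit 80911899000) (nat_lit 504) (nat_lit 70123896910) (nat_lit 84) (nat_lit 70101724684) (nat_lit 111) (nat_lit 5) (nat_lit 117) (nat_lit 5) (nat_lit 112) (nat_lit 5) (nat_lit 329) (nat_lit 314) (nat_lit 77)))) (XT.nd (nat_lit 188) (nat_lit 756) (nat_lit 0) (XT.nd (nat_lit 94) (nat_lit 0) (nat_lit 0) (XT.lf (nat_lit 0) (nat_lit 55146389148) (nat_lit 420) (nat_lit 55169539957) (nat_lit 504) (nat_lit 116953703145) (nat_lit 106) (nat_lit 5) (nat_lit 111) (nat_lit 5) (nat_lit 112) (nat_lit 5) (nat_lit 330) (nat_lit 314) (nat_lit 76)) (XT.lf (nat_lit 0) (nat_lit 143107340037) (nat_lit 504) (nat_lit 45264043239) (nat_lit 84) (nat_lit 45241107246) (nat_lit 106) (nat_lit 5) (nat_lit 112) (nat_lit 5) (nat_lit 107) (nat_lit 5) (nat_lit 331) (nat_lit 314) (nat_lit 75))) (XT.nd (nat_lit 94) (nat_lit 420) (nat_lit 0) (XT.lf (nat_lit 0) (nat_lit 89911316489) (nat_lit 336) (nat_lit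 89935097818) (nat_lit 420) (nat_lit 60310672763) (nat_lit 102) (nat_lit 5) (nat_lit 106) (nat_lit 5) (nat_lit 107) (nat_lit 5) (nat_lit 332) (nat_lit 314) (nat_lit 74)) (XT.nd (nat_lit 94) (nat_lit 420) (nat_lit 0) (XT.lf (nat_lit 0) (nat_lit 219411057258) (nat_lit 420) (nat_lit 13795920534) (nat_lit 84) (nat_lit 13772504904) (nat_lit 102) (nat_lit 5) (nat_lit 107) (nat_lit 5) (nat_lit 103) (nat_lit 5) (nat_lit 333) (nat_lit 314) (nat_lit 73)) (XT.lf (nat_lit 0) (nat_lit 10189762328) (nat_lit 420) (nat_lit 121896111863) (nat_lit 84) (nat_lit 121871965999) (nat_lit 97) (nat_lit 5) (nat_lit 102) (nat_lit 5) (nat_lit 98) (nat_lit 5) (nat_lit 334) (nat_lit 314) (nat_lit 72))))))))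
noncomputable def xc243 : XT := (XT.nd (nat_lit 44368) (nat_lit 0) (nat_lit 672) (XT.nd (nat_lit 43522) (nat_lit 0) (nat_lit 4032) (XT.nd (nat_lit 376) (nat_lit 672) (nat_lit 0) (XT.nd (nat_lit 188) (nat_lit 336) (nat_lit 0) (XT.nd (nat_lit 94) (nat_lit 0) (nat_lit 0) (XT.lf (nat_lit 0) (nat_lit 24754203075) (nat_lit 336) (nat_lit 24779044399) (nat_lit 420) (nat_lit 211698077621) (nat_lit 93) (nat_lit 5) (nat_lit 97) (nat_lit 5) (nat_lit 98) (nat_lit 5) (nat_lit 335) (nat_lit 314) (nat_lit 71)) (XT.lf (nat_lit 0) (nat_lit 94314293457) (nat_lit 420) (nat_lit 87202480333) (nat_lit 84) (nat_lit 87178191126) (nat_lit 93) (nat_lit 5) (nat_lit 98) (nat_lit 5) (nat_lit 94) (nat_lit 5) (nat_lit 336) (nat_lit 314) (nat_lit 70))) (XT.nd (nat_lit 94) (nat_lit 0) (nat_lit 0) (XT.lf (nat_lit 0) (nat_lit 71415314783) (nat_lit 336) (nat_lit 71440204755) (nat_lit 420) (nat_lit 133600210800)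 (nat_lit 89) (nat_lit 5) (nat_lit 93) (nat_lit 5) (nat_lit 94) (nat_lit 5) (nat_lit 337) (nat_lit 314) (nat_lit 69)) (XT.lf (nat_lit 0) (nat_lit 196013907963) (nat_lit 420) (nat_lit 44252685332) (nat_lit 84) (nat_lit 44228435685) (nat_lit 89) (nat_lit 5) (nat_lit 94) (nat_lit 5) (nat_lit 90) (nat_lit 5) (nat_lit 338) (nat_lit 314) (nat_lit 68)))) (XT.nd (nat_lit 42958) (nat_lit 0) (nat_lit 3948) (XT.nd (nat_lit 94) (nat_lit 420) (nat_lit 0) (XT.lf (nat_lit 0) (nat_lit 127483449161) (nat_lit 252) (nat_lit 127508217770) (nat_lit 336) (nat_lit 37786553066) (nat_lit 86) (nat_lit 5) (nat_lit 89) (nat_lit 5) (nat_lit 90) (nat_lit 5) (nat_lit 339) (nat_lit 314) (nat_lit 67)) (XT.lf (nat_lit 0) (nat_lit 7904137815) (nat_lit 336) (nat_lit 7929400675) (nat_lit 420) (nat_lit 285585723878) (nat_lit 81) (nat_lit 5) (nat_lit 85) (nat_lit 5) (nat_lit 86) (nat_lit 5) (nat_lit 340) (nat_lit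 314) (nat_lit 66))) (XT.nd (nat_lit 94) (nat_lit 0) (nat_lit 0) (XT.lf (nat_lit 0) (nat_lit 37030332139) (nat_lit 924) (nat_lit 20875765465) (nat_lit 924) (nat_lit 20875765465) (nat_lit 128) (nat_lit 3) (nat_lit 139) (nat_lit 3) (nat_lit 139) (nat_lit 5) (nat_lit 315) (nat_lit 315) (nat_lit 90)) (XT.lf (nat_lit 84) (nat_lit 38254722154) (nat_lit 0) (nat_lit 38257318624) (nat_lit 924) (nat_lit 84960785519) (nat_lit 129) (nat_lit 5) (nat_lit 128) (nat_lit 3) (nat_lit 139) (nat_lit 5) (nat_lit 316) (nat_lit 315) (nat_lit 89))))) (XT.nd (nat_lit 376) (nat_lit 0) (nat_lit 168) (XT.nd (nat_lit 188) (nat_lit 0) (nat_lit 84) (XT.nd (nat_lit 94) (nat_lit 0) (nat_lit 0) (XT.lf (nat_lit 0) (nat_lit 80478581051) (nat_lit 840) (nat_lit 42516999285) (nat_lit 924) (nat_lit 42512171380) (nat_lit 129) (nat_lit 5) (nat_lit 139) (nat_lit 5) (nat_lit 140) (nat_lit 5) (nat_lit 317) (nat_lit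 315) (nat_lit 88)) (XT.lf (nat_lit 84) (nat_lit 42967112612) (nat_lit 0) (nat_lit 42974183446) (nat_lit 924) (nat_lit 83738234963) (nat_lit 130) (nat_lit 5) (nat_lit 129) (nat_lit 5) (nat_lit 140) (nat_lit 5) (nat_lit 318) (nat_lit 315) (nat_lit 87))) (XT.nd (nat_lit 94) (nat_lit 0) (nat_lit 0) (XT.lf (nat_lit 0) (nat_lit 93049724070) (nat_lit 840) (nat_lit 40475157444) (nat_lit 924) (nat_lit 40466388913) (nat_lit 130) (nat_lit 5) (nat_lit 140) (nat_lit 5) (nat_lit 141) (nat_lit 5) (nat_lit 319) (nat_lit 315) (nat_lit 86)) (XT.lf (nat_lit 84) (nat_lit 51001749106) (nat_lit 0) (nat_lit 51012455163) (nat_lit 924) (nat_lit 76429360996) (nat_lit 131) (nat_lit 5) (nat_lit 130) (nat_lit 5) (nat_lit 141) (nat_lit 5) (nat_lit 320) (nat_lit 315) (nat_lit 85)))) (XT.nd (nat_lit 188) (nat_lit 0) (nat_lit 84) (XT.nd (nat_lit 94) (nat_lit 0) (nat_lit 0) (XT.lf (nat_lit 0) (nat_lit 112679689143)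 (nat_lit 840) (nat_lit 35194050154) (nat_lit 924) (nat_lit 35182096515) (nat_lit 131) (nat_lit 5) (nat_lit 141) (nat_lit 5) (nat_lit 142) (nat_lit 5) (nat_lit 321) (nat_lit 315) (nat_lit 84)) (XT.lf (nat_lit 84) (nat_lit 62841041910) (nat_lit 0) (nat_lit 62854669257) (nat_lit 924) (nat_lit 62112145573) (nat_lit 132) (nat_lit 5) (nat_lit 131) (nat_lit 5) (nat_lit 142) (nat_lit 5) (nat_lit 322) (nat_lit 315) (nat_lit 83))) (XT.nd (nat_lit 94) (nat_lit 0) (nat_lit 0) (XT.lf (nat_lit 0) (nat_lit 140380624833) (nat_lit 840) (nat_lit 26190222942) (nat_lit 924) (nat_lit 26175726414) (nat_lit 132) (nat_lit 5) (nat_lit 142) (nat_lit 5) (nat_lit 143) (nat_lit 5) (nat_lit 323) (nat_lit 315) (nat_lit 82)) (XT.nd (nat_lit 94) (nat_lit 0) (nat_lit 84) (XT.lf (nat_lit 84) (nat_lit 79023955644) (nat_lit 0) (nat_lit 79039897985) (nat_lit 924) (nat_lit 39755170407) (nat_lit 133) (nat_lit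 5) (nat_lit 132) (nat_lit 5) (nat_lit 143) (nat_lit 5) (nat_lit 324) (nat_lit 315) (nat_lit 81)) (XT.lf (nat_lit 0) (nat_lit 177282842607) (nat_lit 840) (nat_lit 12923084204) (nat_lit 84) (nat_lit 12906589628) (nat_lit 133) (nat_lit 5) (nat_lit 143) (nat_lit 5) (nat_lit 134) (nat_lit 5) (nat_lit 325) (nat_lit 315) (nat_lit 80))))))) (XT.nd (nat_lit 752) (nat_lit 1092) (nat_lit 0) (XT.nd (nat_lit 376) (nat_lit 756) (nat_lit 0) (XT.nd (nat_lit 188) (nat_lit 420) (nat_lit 0) (XT.nd (nat_lit 94) (nat_lit 588) (nat_lit 0) (XT.lf (nat_lit 0) (nat_lit 100152159543) (nat_lit 840) (nat_lit 100169903066) (nat_lit 924) (nat_lit 8205656775) (nat_lit 123) (nat_lit 5) (nat_lit 133) (nat_lit 5) (nat_lit 134) (nat_lit 5) (nat_lit 326) (nat_lit 315) (nat_lit 79)) (XT.lf (nat_lit 0) (nat_lit 5126678937) (nat_lit 504) (nat_lit 5145611933) (nat_lit 588) (nat_lit 203918232354) (nat_lit 116)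 (nat_lit 5) (nat_lit 122) (nat_lit 5) (nat_lit 123) (nat_lit 5) (nat_lit 327) (nat_lit 315) (nat_lit 78))) (XT.nd (nat_lit 94) (nat_lit 420) (nat_lit 0) (XT.lf (nat_lit 0) (nat_lit 32741186188) (nat_lit 588) (nat_lit 93620262362) (nat_lit 84) (nat_lit 93601152050) (nat_lit 116) (nat_lit 5) (nat_lit 123) (nat_lit 5) (nat_lit 117) (nat_lit 5) (nat_lit 328) (nat_lit 315) (nat_lit 77)) (XT.lf (nat_lit 0) (nat_lit 28420684817) (nat_lit 420) (nat_lit 28440822641) (nat_lit 504) (nat_lit 169135375328) (nat_lit 111) (nat_lit 5) (nat_lit 116) (nat_lit 5) (nat_lit 117) (nat_lit 5) (nat_lit 329) (nat_lit 315) (nat_lit 76)))) (XT.nd (nat_lit 188) (nat_lit 336) (nat_lit 0) (XT.nd (nat_lit 94) (nat_lit 420) (nat_lit 0) (XT.lf (nat_lit 0) (nat_lit 84960459894) (nat_lit 504) (nat_lit 73626949648) (nat_lit 84) (nat_lit 73606838784) (nat_lit 111) (nat_lit 5) (nat_lit 117) (nat_lit 5) (nat_lit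 112) (nat_lit 5) (nat_lit 330) (nat_lit 315) (nat_lit 75)) (XT.lf (nat_lit 0) (nat_lit 57906800034) (nat_lit 420) (nat_lit 57927798501) (nat_lit 504) (nat_lit 122798371679) (nat_lit 106) (nat_lit 5) (nat_lit 111) (nat_lit 5) (nat_lit 112) (nat_lit 5) (nat_lit 331) (nat_lit 315) (nat_lit 74))) (XT.nd (nat_lit 94) (nat_lit 336) (nat_lit 0) (XT.lf (nat_lit 0) (nat_lit 150265446453) (nat_lit 504) (nat_lit 47524167623) (nat_lit 84) (nat_lit 47503364002) (nat_lit 106) (nat_lit 5) (nat_lit 112) (nat_lit 5) (nat_lit 107) (nat_lit 5) (nat_lit 332) (nat_lit 315) (nat_lit 73)) (XT.lf (nat_lit 0) (nat_lit 94409910450) (nat_lit 336) (nat_lit 94431480817) (nat_lit 420) (nat_lit 63323417345) (nat_lit 102) (nat_lit 5) (nat_lit 106) (nat_lit 5) (nat_lit 107) (nat_lit 5) (nat_lit 333) (nat_lit 315) (nat_lit 72))))) (XT.nd (nat_lit 376) (nat_lit 336) (nat_lit 0) (XT.nd (nat_lit 188) (nat_lit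 336) (nat_lit 0) (XT.nd (nat_lit 94) (nat_lit 420) (nat_lit 0) (XT.lf (nat_lit 0) (nat_lit 230384145407) (nat_lit 420) (nat_lit 14482711663) (nat_lit 84) (nat_lit 14461472996) (nat_lit 102) (nat_lit 5) (nat_lit 107) (nat_lit 5) (nat_lit 103) (nat_lit 5) (nat_lit 334) (nat_lit 315) (nat_lit 71)) (XT.lf (nat_lit 0) (nat_lit 10701751500) (nat_lit 420) (nat_lit 127987878328) (nat_lit 84) (nat_lit 127965977318) (nat_lit 97) (nat_lit 5) (nat_lit 102) (nat_lit 5) (nat_lit 98) (nat_lit 5) (nat_lit 335) (nat_lit 315) (nat_lit 70))) (XT.nd (nat_lit 94) (nat_lit 0) (nat_lit 0) (XT.lf (nat_lit 0) (nat_lit 25994903338) (nat_lit 336) (nat_lit 26017435151) (nat_lit 420) (nat_lit 222280431428) (nat_lit 93) (nat_lit 5) (nat_lit 97) (nat_lit 5) (nat_lit 98) (nat_lit 5) (nat_lit 336) (nat_lit 315) (nat_lit 69)) (XT.lf (nat_lit 0) (nat_lit 99032329471) (nat_lit 420) (nat_lit 91559649325) (nat_lit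 84) (nat_lit 91537618298) (nat_lit 93) (nat_lit 5) (nat_lit 98) (nat_lit 5) (nat_lit 94) (nat_lit 5) (nat_lit 337) (nat_lit 315) (nat_lit 68)))) (XT.nd (nat_lit 43146) (nat_lit 0) (nat_lit 3276) (XT.nd (nat_lit 94) (nat_lit 0) (nat_lit 0) (XT.lf (nat_lit 0) (nat_lit 74988987885) (nat_lit 336) (nat_lit 75011563823) (nat_lit 420) (nat_lit 140277852338) (nat_lit 89) (nat_lit 5) (nat_lit 93) (nat_lit 5) (nat_lit 94) (nat_lit 5) (nat_lit 338) (nat_lit 315) (nat_lit 67)) (XT.lf (nat_lit 0) (nat_lit 205816761799) (nat_lit 420) (nat_lit 46462452926) (nat_lit 84) (nat_lit 46440457782) (nat_lit 89) (nat_lit 5) (nat_lit 94) (nat_lit 5) (nat_lit 90) (nat_lit 5) (nat_lit 339) (nat_lit 315) (nat_lit 66))) (XT.nd (nat_lit 94) (nat_lit 0) (nat_lit 0) (XT.lf (nat_lit 0) (nat_lit 38884404679) (nat_lit 924) (nat_lit 21918211873) (nat_lit 924) (nat_lit 21918211873) (nat_lit 128) (nat_lit 3)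 (nat_lit 139) (nat_lit 3) (nat_lit 139) (nat_lit 5) (nat_lit 316) (nat_lit 316) (nat_lit 88)) (XT.nd (nat_lit 94) (nat_lit 0) (nat_lit 84) (XT.lf (nat_lit 84) (nat_lit 40170098705) (nat_lit 0) (nat_lit 40172453780) (nat_lit 924) (nat_lit 89203669644) (nat_lit 129) (nat_lit 5) (nat_lit 128) (nat_lit 3) (nat_lit 139) (nat_lit 5) (nat_lit 317) (nat_lit 316) (nat_lit 87)) (XT.lf (nat_lit 0) (nat_lit 84507152236) (nat_lit 840) (nat_lit 44640067006) (nat_lit 924) (nat_lit 44635687954) (nat_lit 129) (nat_lit 5) (nat_lit 139) (nat_lit 5) (nat_lit 140) (nat_lit 5) (nat_lit 318) (nat_lit 316) (nat_lit 86))))))))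
noncomputable def xc244 : XT := (XT.nd (nat_lit 1504) (nat_lit 1092) (nat_lit 0) (XT.nd (nat_lit 752) (nat_lit 2268) (nat_lit 0) (XT.nd (nat_lit 376) (nat_lit 0) (nat_lit 168) (XT.nd (nat_lit 188) (nat_lit 0) (nat_lit 84) (XT.nd (nat_lit 94) (nat_lit 0) (nat_lit 84) (XT.lf (nat_lit 84) (nat_lit 45118205611) (nat_lit 0) (nat_lit 45124619066) (nat_lit 924) (nat_lit 87920459704) (nat_lit 130) (nat_lit 5) (nat_lit 129) (nat_lit 5) (nat_lit 140) (nat_lit 5) (nat_lit 319) (nat_lit 316) (nat_lit 85)) (XT.lf (nat_lit 0) (nat_lit 97706435856) (nat_lit 840) (nat_lit 42496070065) (nat_lit 924) (nat_lit 42488116749) (nat_lit 130) (nat_lit 5) (nat_lit 140) (nat_lit 5) (nat_lit 141) (nat_lit 5) (nat_lit 320) (nat_lit 316) (nat_lit 84))) (XT.nd (nat_lit 94) (nat_lit 0) (nat_lit 84) (XT.lf (nat_lit 84) (nat_lit 53554635922) (nat_lit 0) (nat_lit 53564346631) (nat_lit 924) (nat_lit 80246557572)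 (nat_lit 131) (nat_lit 5) (nat_lit 130) (nat_lit 5) (nat_lit 141) (nat_lit 5) (nat_lit 321) (nat_lit 316) (nat_lit 83)) (XT.lf (nat_lit 0) (nat_lit 118317529088) (nat_lit 840) (nat_lit 36950874022) (nat_lit 924) (nat_lit 36940031719) (nat_lit 131) (nat_lit 5) (nat_lit 141) (nat_lit 5) (nat_lit 142) (nat_lit 5) (nat_lit 322) (nat_lit 316) (nat_lit 82)))) (XT.nd (nat_lit 188) (nat_lit 0) (nat_lit 84) (XT.nd (nat_lit 94) (nat_lit 0) (nat_lit 84) (XT.lf (nat_lit 84) (nat_lit 65985926216) (nat_lit 0) (nat_lit 65998286622) (nat_lit 924) (nat_lit 65213850934) (nat_lit 132) (nat_lit 5) (nat_lit 131) (nat_lit 5) (nat_lit 142) (nat_lit 5) (nat_lit 323) (nat_lit 316) (nat_lit 81)) (XT.lf (nat_lit 0) (nat_lit 147403182085) (nat_lit 840) (nat_lit 27496846645) (nat_lit 924) (nat_lit 27483697867) (nat_lit 132) (nat_lit 5) (nat_lit 142) (nat_lit 5) (nat_lit 143) (nat_lit 5) (nat_lit 324)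 (nat_lit 316) (nat_lit 80))) (XT.nd (nat_lit 94) (nat_lit 0) (nat_lit 84) (XT.lf (nat_lit 84) (nat_lit 82977994299) (nat_lit 0) (nat_lit 82992454472) (nat_lit 924) (nat_lit 41739356345) (nat_lit 133) (nat_lit 5) (nat_lit 132) (nat_lit 5) (nat_lit 143) (nat_lit 5) (nat_lit 325) (nat_lit 316) (nat_lit 79)) (XT.lf (nat_lit 0) (nat_lit 186150216825) (nat_lit 840) (nat_lit 13566362450) (nat_lit 84) (nat_lit 13551401383) (nat_lit 133) (nat_lit 5) (nat_lit 143) (nat_lit 5) (nat_lit 134) (nat_lit 5) (nat_lit 326) (nat_lit 316) (nat_lit 78))))) (XT.nd (nat_lit 376) (nat_lit 756) (nat_lit 0) (XT.nd (nat_lit 188) (nat_lit 420) (nat_lit 0) (XT.nd (nat_lit 94) (nat_lit 588) (nat_lit 0) (XT.lf (nat_lit 0) (nat_lit 105162597099) (nat_lit 840) (nat_lit 105178690997) (nat_lit 924) (nat_lit 8612661139) (nat_lit 123) (nat_lit 5) (nat_lit 133) (nat_lit 5) (nat_lit 134) (nat_lit 5) (nat_lit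 327) (nat_lit 316) (nat_lit 77)) (XT.lf (nat_lit 0) (nat_lit 5385900064) (nat_lit 504) (nat_lit 5403072849) (nat_lit 588) (nat_lit 214110923098) (nat_lit 116) (nat_lit 5) (nat_lit 122) (nat_lit 5) (nat_lit 123) (nat_lit 5) (nat_lit 328) (nat_lit 316) (nat_lit 76))) (XT.nd (nat_lit 94) (nat_lit 420) (nat_lit 0) (XT.lf (nat_lit 0) (nat_lit 34381164243) (nat_lit 588) (nat_lit 98298377033) (nat_lit 84) (nat_lit 98281043417) (nat_lit 116) (nat_lit 5) (nat_lit 123) (nat_lit 5) (nat_lit 117) (nat_lit 5) (nat_lit 329) (nat_lit 316) (nat_lit 75)) (XT.lf (nat_lit 0) (nat_lit 29844570756) (nat_lit 420) (nat_lit 29862836356) (nat_lit 504) (nat_lit 177589178599) (nat_lit 111) (nat_lit 5) (nat_lit 116) (nat_lit 5) (nat_lit 117) (nat_lit 5) (nat_lit 330) (nat_lit 316) (nat_lit 74)))) (XT.nd (nat_lit 188) (nat_lit 336) (nat_lit 0) (XT.nd (nat_lit 94) (nat_lit 420) (nat_lit 0) (XT.lf (nat_lit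 0) (nat_lit 89211173088) (nat_lit 504) (nat_lit 77305447145) (nat_lit 84) (nat_lit 77287205999) (nat_lit 111) (nat_lit 5) (nat_lit 117) (nat_lit 5) (nat_lit 112) (nat_lit 5) (nat_lit 331) (nat_lit 316) (nat_lit 73)) (XT.lf (nat_lit 0) (nat_lit 60804944053) (nat_lit 420) (nat_lit 60823990281) (nat_lit 504) (nat_lit 128935554097) (nat_lit 106) (nat_lit 5) (nat_lit 111) (nat_lit 5) (nat_lit 112) (nat_lit 5) (nat_lit 332) (nat_lit 316) (nat_lit 72))) (XT.nd (nat_lit 94) (nat_lit 336) (nat_lit 0) (XT.lf (nat_lit 0) (nat_lit 157781203506) (nat_lit 504) (nat_lit 49897584369) (nat_lit 84) (nat_lit 49878714871) (nat_lit 106) (nat_lit 5) (nat_lit 112) (nat_lit 5) (nat_lit 107) (nat_lit 5) (nat_lit 333) (nat_lit 316) (nat_lit 71)) (XT.lf (nat_lit 0) (nat_lit 99133152581) (nat_lit 336) (nat_lit 99152717540) (nat_lit 420) (nat_lit 66487058456) (nat_lit 102) (nat_lit 5) (nat_lit 106)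 (nat_lit 5) (nat_lit 107) (nat_lit 5) (nat_lit 334) (nat_lit 316) (nat_lit 70)))))) (XT.nd (nat_lit 43804) (nat_lit 0) (nat_lit 2856) (XT.nd (nat_lit 376) (nat_lit 336) (nat_lit 0) (XT.nd (nat_lit 188) (nat_lit 336) (nat_lit 0) (XT.nd (nat_lit 94) (nat_lit 420) (nat_lit 0) (XT.lf (nat_lit 0) (nat_lit 241905652257) (nat_lit 420) (nat_lit 15204121716) (nat_lit 84) (nat_lit 15184857619) (nat_lit 102) (nat_lit 5) (nat_lit 107) (nat_lit 5) (nat_lit 103) (nat_lit 5) (nat_lit 335) (nat_lit 316) (nat_lit 69)) (XT.lf (nat_lit 0) (nat_lit 11239107606) (nat_lit 420) (nat_lit 134384515666) (nat_lit 84) (nat_lit 134364650804) (nat_lit 97) (nat_lit 5) (nat_lit 102) (nat_lit 5) (nat_lit 98) (nat_lit 5) (nat_lit 336) (nat_lit 316) (nat_lit 68))) (XT.nd (nat_lit 94) (nat_lit 0) (nat_lit 0) (XT.lf (nat_lit 0) (nat_lit 27297360622) (nat_lit 336) (nat_lit 27317797641) (nat_lit 420) (nat_lit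 233392140007) (nat_lit 93) (nat_lit 5) (nat_lit 97) (nat_lit 5) (nat_lit 98) (nat_lit 5) (nat_lit 337) (nat_lit 316) (nat_lit 67)) (XT.lf (nat_lit 0) (nat_lit 103986051469) (nat_lit 420) (nat_lit 96134951497) (nat_lit 84) (nat_lit 96114968706) (nat_lit 93) (nat_lit 5) (nat_lit 98) (nat_lit 5) (nat_lit 94) (nat_lit 5) (nat_lit 338) (nat_lit 316) (nat_lit 66)))) (XT.nd (nat_lit 43240) (nat_lit 0) (nat_lit 3276) (XT.nd (nat_lit 43146) (nat_lit 0) (nat_lit 3276) (XT.lf (nat_lit 0) (nat_lit 78741074343) (nat_lit 336) (nat_lit 78761551384) (nat_lit 420) (nat_lit 147289596199) (nat_lit 89) (nat_lit 5) (nat_lit 93) (nat_lit 5) (nat_lit 94) (nat_lit 5) (nat_lit 339) (nat_lit 316) (nat_lit 65)) (XT.lf (nat_lit 0) (nat_lit 40830943219) (nat_lit 924) (nat_lit 23012905356) (nat_lit 924) (nat_lit 23012905356) (nat_lit 128) (nat_lit 3) (nat_lit 139) (nat_lit 3) (nat_lit 139) (nat_lit 5)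 (nat_lit 317) (nat_lit 317) (nat_lit 86))) (XT.nd (nat_lit 94) (nat_lit 0) (nat_lit 84) (XT.lf (nat_lit 84) (nat_lit 42180998600) (nat_lit 0) (nat_lit 42183134723) (nat_lit 924) (nat_lit 93659177252) (nat_lit 129) (nat_lit 5) (nat_lit 128) (nat_lit 3) (nat_lit 139) (nat_lit 5) (nat_lit 318) (nat_lit 317) (nat_lit 85)) (XT.lf (nat_lit 0) (nat_lit 88736720399) (nat_lit 840) (nat_lit 46869546779) (nat_lit 924) (nat_lit 46865574850) (nat_lit 129) (nat_lit 5) (nat_lit 139) (nat_lit 5) (nat_lit 140) (nat_lit 5) (nat_lit 319) (nat_lit 317) (nat_lit 84))))) (XT.nd (nat_lit 376) (nat_lit 504) (nat_lit 0) (XT.nd (nat_lit 188) (nat_lit 0) (nat_lit 84) (XT.nd (nat_lit 94) (nat_lit 0) (nat_lit 84) (XT.lf (nat_lit 84) (nat_lit 47376598766) (nat_lit 0) (nat_lit 47382415958) (nat_lit 924) (nat_lit 92312231436) (nat_lit 130) (nat_lit 5) (nat_lit 129) (nat_lit 5) (nat_lit 140) (nat_lit 5)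 (nat_lit 320) (nat_lit 317) (nat_lit 83)) (XT.lf (nat_lit 0) (nat_lit 102595590377) (nat_lit 840) (nat_lit 44618292841) (nat_lit 924) (nat_lit 44611078949) (nat_lit 130) (nat_lit 5) (nat_lit 140) (nat_lit 5) (nat_lit 141) (nat_lit 5) (nat_lit 321) (nat_lit 317) (nat_lit 82))) (XT.nd (nat_lit 94) (nat_lit 0) (nat_lit 84) (XT.lf (nat_lit 84) (nat_lit 56234906820) (nat_lit 0) (nat_lit 56243714720) (nat_lit 924) (nat_lit 84255011098) (nat_lit 131) (nat_lit 5) (nat_lit 130) (nat_lit 5) (nat_lit 141) (nat_lit 5) (nat_lit 322) (nat_lit 317) (nat_lit 81)) (XT.lf (nat_lit 0) (nat_lit 124236902584) (nat_lit 840) (nat_lit 38795806711) (nat_lit 924) (nat_lit 38785972423) (nat_lit 131) (nat_lit 5) (nat_lit 141) (nat_lit 5) (nat_lit 142) (nat_lit 5) (nat_lit 323) (nat_lit 317) (nat_lit 80)))) (XT.nd (nat_lit 188) (nat_lit 672) (nat_lit 0) (XT.nd (nat_lit 94) (nat_lit 0) (nat_lit 84) (XT.lf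 (nat_lit 84) (nat_lit 69287791425) (nat_lit 0) (nat_lit 69299002678) (nat_lit 924) (nat_lit 68471004327) (nat_lit 132) (nat_lit 5) (nat_lit 131) (nat_lit 5) (nat_lit 142) (nat_lit 5) (nat_lit 324) (nat_lit 317) (nat_lit 79)) (XT.lf (nat_lit 0) (nat_lit 154776539386) (nat_lit 840) (nat_lit 28869069981) (nat_lit 924) (nat_lit 28857143651) (nat_lit 132) (nat_lit 5) (nat_lit 142) (nat_lit 5) (nat_lit 143) (nat_lit 5) (nat_lit 325) (nat_lit 317) (nat_lit 78))) (XT.nd (nat_lit 94) (nat_lit 756) (nat_lit 0) (XT.lf (nat_lit 84) (nat_lit 87129470769) (nat_lit 0) (nat_lit 87142586572) (nat_lit 924) (nat_lit 43823083724) (nat_lit 133) (nat_lit 5) (nat_lit 132) (nat_lit 5) (nat_lit 143) (nat_lit 5) (nat_lit 326) (nat_lit 317) (nat_lit 77)) (XT.nd (nat_lit 94) (nat_lit 840) (nat_lit 0) (XT.lf (nat_lit 0) (nat_lit 195460659265) (nat_lit 840) (nat_lit 14242071987) (nat_lit 84) (nat_lit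 14228501859) (nat_lit 133) (nat_lit 5) (nat_lit 143) (nat_lit 5) (nat_lit 134) (nat_lit 5) (nat_lit 327) (nat_lit 317) (nat_lit 76)) (XT.lf (nat_lit 0) (nat_lit 110423293465) (nat_lit 840) (nat_lit 110437891105) (nat_lit 924) (nat_lit 9040320524) (nat_lit 123) (nat_lit 5) (nat_lit 133) (nat_lit 5) (nat_lit 134) (nat_lit 5) (nat_lit 328) (nat_lit 317) (nat_lit 75))))))))
noncomputable def xc245 : XT := (XT.nd (nat_lit 44744) (nat_lit 0) (nat_lit 0) (XT.nd (nat_lit 752) (nat_lit 756) (nat_lit 0) (XT.nd (nat_lit 376) (nat_lit 756) (nat_lit 0) (XT.nd (nat_lit 188) (nat_lit 420) (nat_lit 0) (XT.nd (nat_lit 94) (nat_lit 0) (nat_lit 0) (XT.lf (nat_lit 0) (nat_lit 5657813824) (nat_lit 504) (nat_lit 5673390046) (nat_lit 588) (nat_lit 224813547826) (nat_lit 116) (nat_lit 5) (nat_lit 122) (nat_lit 5) (nat_lit 123) (nat_lit 5) (nat_lit 329) (nat_lit 317) (nat_lit 74)) (XT.lf (nat_lit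 0) (nat_lit 36102869844) (nat_lit 588) (nat_lit 103210666908) (nat_lit 84) (nat_lit 103194944807) (nat_lit 116) (nat_lit 5) (nat_lit 123) (nat_lit 5) (nat_lit 117) (nat_lit 5) (nat_lit 330) (nat_lit 317) (nat_lit 73))) (XT.nd (nat_lit 94) (nat_lit 0) (nat_lit 0) (XT.lf (nat_lit 0) (nat_lit 31339385868) (nat_lit 420) (nat_lit 31355953306) (nat_lit 504) (nat_lit 186465947738) (nat_lit 111) (nat_lit 5) (nat_lit 116) (nat_lit 5) (nat_lit 117) (nat_lit 5) (nat_lit 331) (nat_lit 317) (nat_lit 72)) (XT.lf (nat_lit 0) (nat_lit 93674171832) (nat_lit 504) (nat_lit 81168134482) (nat_lit 84) (nat_lit 81151589225) (nat_lit 111) (nat_lit 5) (nat_lit 117) (nat_lit 5) (nat_lit 112) (nat_lit 5) (nat_lit 332) (nat_lit 317) (nat_lit 71)))) (XT.nd (nat_lit 188) (nat_lit 336) (nat_lit 0) (XT.nd (nat_lit 94) (nat_lit 0) (nat_lit 0) (XT.lf (nat_lit 0) (nat_lit 63847734582) (nat_lit 420) (nat_lit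 63865010072) (nat_lit 504) (nat_lit 135379850018) (nat_lit 106) (nat_lit 5) (nat_lit 111) (nat_lit 5) (nat_lit 112) (nat_lit 5) (nat_lit 333) (nat_lit 317) (nat_lit 70)) (XT.lf (nat_lit 0) (nat_lit 165672517405) (nat_lit 504) (nat_lit 52389931492) (nat_lit 84) (nat_lit 52372816301) (nat_lit 106) (nat_lit 5) (nat_lit 112) (nat_lit 5) (nat_lit 107) (nat_lit 5) (nat_lit 334) (nat_lit 317) (nat_lit 69))) (XT.nd (nat_lit 94) (nat_lit 0) (nat_lit 0) (XT.lf (nat_lit 0) (nat_lit 104092301466) (nat_lit 336) (nat_lit 104110047460) (nat_lit 420) (nat_lit 69809116815) (nat_lit 102) (nat_lit 5) (nat_lit 106) (nat_lit 5) (nat_lit 107) (nat_lit 5) (nat_lit 335) (nat_lit 317) (nat_lit 68)) (XT.lf (nat_lit 0) (nat_lit 254003020656) (nat_lit 420) (nat_lit 15961855665) (nat_lit 84) (nat_lit 15944382561) (nat_lit 102) (nat_lit 5) (nat_lit 107) (nat_lit 5) (nat_lit 103) (nat_lit 5) (nat_lit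 336) (nat_lit 317) (nat_lit 67))))) (XT.nd (nat_lit 43522) (nat_lit 0) (nat_lit 2940) (XT.nd (nat_lit 188) (nat_lit 0) (nat_lit 0) (XT.nd (nat_lit 94) (nat_lit 336) (nat_lit 0) (XT.lf (nat_lit 0) (nat_lit 11803120612) (nat_lit 420) (nat_lit 141101241152) (nat_lit 84) (nat_lit 141083223136) (nat_lit 97) (nat_lit 5) (nat_lit 102) (nat_lit 5) (nat_lit 98) (nat_lit 5) (nat_lit 337) (nat_lit 317) (nat_lit 66)) (XT.lf (nat_lit 0) (nat_lit 28664688624) (nat_lit 336) (nat_lit 28683225602) (nat_lit 420) (nat_lit 245059649055) (nat_lit 93) (nat_lit 5) (nat_lit 97) (nat_lit 5) (nat_lit 98) (nat_lit 5) (nat_lit 338) (nat_lit 317) (nat_lit 65))) (XT.nd (nat_lit 43240) (nat_lit 0) (nat_lit 2940) (XT.lf (nat_lit 0) (nat_lit 109187263816) (nat_lit 420) (nat_lit 100939267966) (nat_lit 84) (nat_lit 100921142986) (nat_lit 93) (nat_lit 5) (nat_lit 98) (nat_lit 5) (nat_lit 94) (nat_lit 5) (nat_lit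 339) (nat_lit 317) (nat_lit 64)) (XT.lf (nat_lit 0) (nat_lit 42874593152) (nat_lit 924) (nat_lit 24162446668) (nat_lit 924) (nat_lit 24162446668) (nat_lit 128) (nat_lit 3) (nat_lit 139) (nat_lit 3) (nat_lit 139) (nat_lit 5) (nat_lit 318) (nat_lit 318) (nat_lit 84)))) (XT.nd (nat_lit 188) (nat_lit 0) (nat_lit 84) (XT.nd (nat_lit 94) (nat_lit 0) (nat_lit 84) (XT.lf (nat_lit 84) (nat_lit 44292220829) (nat_lit 0) (nat_lit 44294158356) (nat_lit 924) (nat_lit 98337894959) (nat_lit 129) (nat_lit 5) (nat_lit 128) (nat_lit 3) (nat_lit 139) (nat_lit 5) (nat_lit 319) (nat_lit 318) (nat_lit 83)) (XT.lf (nat_lit 0) (nat_lit 93177375513) (nat_lit 840) (nat_lit 49210735160) (nat_lit 924) (nat_lit 49207132503) (nat_lit 129) (nat_lit 5) (nat_lit 139) (nat_lit 5) (nat_lit 140) (nat_lit 5) (nat_lit 320) (nat_lit 318) (nat_lit 82))) (XT.nd (nat_lit 94) (nat_lit 0) (nat_lit 84) (XT.lf (nat_lit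 84) (nat_lit 49747680744) (nat_lit 0) (nat_lit 49752957109) (nat_lit 924) (nat_lit 96923986995) (nat_lit 130) (nat_lit 5) (nat_lit 129) (nat_lit 5) (nat_lit 140) (nat_lit 5) (nat_lit 321) (nat_lit 318) (nat_lit 81)) (XT.nd (nat_lit 94) (nat_lit 0) (nat_lit 0) (XT.lf (nat_lit 0) (nat_lit 107728846294) (nat_lit 840) (nat_lit 46846866688) (nat_lit 924) (nat_lit 46840323475) (nat_lit 130) (nat_lit 5) (nat_lit 140) (nat_lit 5) (nat_lit 141) (nat_lit 5) (nat_lit 322) (nat_lit 318) (nat_lit 80)) (XT.lf (nat_lit 84) (nat_lit 59048955202) (nat_lit 0) (nat_lit 59056944227) (nat_lit 924) (nat_lit 88464247501) (nat_lit 131) (nat_lit 5) (nat_lit 130) (nat_lit 5) (nat_lit 141) (nat_lit 5) (nat_lit 323) (nat_lit 318) (nat_lit 79))))))) (XT.nd (nat_lit 752) (nat_lit 1932) (nat_lit 0) (XT.nd (nat_lit 376) (nat_lit 1260) (nat_lit 0) (XT.nd (nat_lit 188) (nat_lit 0) (nat_lit 84) (XT.nd (nat_lit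 94) (nat_lit 0) (nat_lit 0) (XT.lf (nat_lit 0) (nat_lit 130451919632) (nat_lit 840) (nat_lit 40733228782) (nat_lit 924) (nat_lit 40724308793) (nat_lit 131) (nat_lit 5) (nat_lit 141) (nat_lit 5) (nat_lit 142) (nat_lit 5) (nat_lit 324) (nat_lit 318) (nat_lit 78)) (XT.lf (nat_lit 84) (nat_lit 72754511063) (nat_lit 0) (nat_lit 72764679999) (nat_lit 924) (nat_lit 71891344426) (nat_lit 132) (nat_lit 5) (nat_lit 131) (nat_lit 5) (nat_lit 142) (nat_lit 5) (nat_lit 325) (nat_lit 318) (nat_lit 77))) (XT.nd (nat_lit 94) (nat_lit 0) (nat_lit 0) (XT.lf (nat_lit 0) (nat_lit 162518267213) (nat_lit 840) (nat_lit 30310147973) (nat_lit 924) (nat_lit 30299330440) (nat_lit 132) (nat_lit 5) (nat_lit 142) (nat_lit 5) (nat_lit 143) (nat_lit 5) (nat_lit 326) (nat_lit 318) (nat_lit 76)) (XT.lf (nat_lit 84) (nat_lit 91488281500) (nat_lit 0) (nat_lit 91500177920) (nat_lit 924) (nat_lit 46011298738)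 (nat_lit 133) (nat_lit 5) (nat_lit 132) (nat_lit 5) (nat_lit 143) (nat_lit 5) (nat_lit 327) (nat_lit 318) (nat_lit 75)))) (XT.nd (nat_lit 188) (nat_lit 588) (nat_lit 0) (XT.nd (nat_lit 94) (nat_lit 840) (nat_lit 0) (XT.lf (nat_lit 0) (nat_lit 205236351274) (nat_lit 840) (nat_lit 14951809523) (nat_lit 84) (nat_lit 14939501016) (nat_lit 133) (nat_lit 5) (nat_lit 143) (nat_lit 5) (nat_lit 134) (nat_lit 5) (nat_lit 328) (nat_lit 318) (nat_lit 74)) (XT.lf (nat_lit 0) (nat_lit 115946786040) (nat_lit 840) (nat_lit 115960026530) (nat_lit 924) (nat_lit 9489639341) (nat_lit 123) (nat_lit 5) (nat_lit 133) (nat_lit 5) (nat_lit 134) (nat_lit 5) (nat_lit 329) (nat_lit 318) (nat_lit 73))) (XT.nd (nat_lit 94) (nat_lit 0) (nat_lit 0) (XT.lf (nat_lit 0) (nat_lit 5943079804) (nat_lit 504) (nat_lit 5957207897) (nat_lit 588) (nat_lit 236051575397) (nat_lit 116) (nat_lit 5) (nat_lit 122) (nat_lit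 5) (nat_lit 123) (nat_lit 5) (nat_lit 330) (nat_lit 318) (nat_lit 72)) (XT.lf (nat_lit 0) (nat_lit 37910414596) (nat_lit 588) (nat_lit 108368815694) (nat_lit 84) (nat_lit 108354555285) (nat_lit 116) (nat_lit 5) (nat_lit 123) (nat_lit 5) (nat_lit 117) (nat_lit 5) (nat_lit 331) (nat_lit 318) (nat_lit 71))))) (XT.nd (nat_lit 376) (nat_lit 1092) (nat_lit 0) (XT.nd (nat_lit 188) (nat_lit 420) (nat_lit 0) (XT.nd (nat_lit 94) (nat_lit 0) (nat_lit 0) (XT.lf (nat_lit 0) (nat_lit 32908701261) (nat_lit 420) (nat_lit 32923728415) (nat_lit 504) (nat_lit 195786805405) (nat_lit 111) (nat_lit 5) (nat_lit 116) (nat_lit 5) (nat_lit 117) (nat_lit 5) (nat_lit 332) (nat_lit 318) (nat_lit 70)) (XT.lf (nat_lit 0) (nat_lit 98360093657) (nat_lit 504) (nat_lit 85224196517) (nat_lit 84) (nat_lit 85209189481) (nat_lit 111) (nat_lit 5) (nat_lit 117) (nat_lit 5) (nat_lit 112) (nat_lit 5) (nat_lit 333)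 (nat_lit 318) (nat_lit 69))) (XT.nd (nat_lit 94) (nat_lit 0) (nat_lit 0) (XT.lf (nat_lit 0) (nat_lit 67042428183) (nat_lit 420) (nat_lit 67058097562) (nat_lit 504) (nat_lit 142146591468) (nat_lit 106) (nat_lit 5) (nat_lit 111) (nat_lit 5) (nat_lit 112) (nat_lit 5) (nat_lit 334) (nat_lit 318) (nat_lit 68)) (XT.lf (nat_lit 0) (nat_lit 173958187468) (nat_lit 504) (nat_lit 55007131381) (nat_lit 84) (nat_lit 54991607398) (nat_lit 106) (nat_lit 5) (nat_lit 112) (nat_lit 5) (nat_lit 107) (nat_lit 5) (nat_lit 335) (nat_lit 318) (nat_lit 67)))) (XT.nd (nat_lit 188) (nat_lit 756) (nat_lit 0) (XT.nd (nat_lit 94) (nat_lit 0) (nat_lit 0) (XT.lf (nat_lit 0) (nat_lit 109299176181) (nat_lit 336) (nat_lit 109315272321) (nat_lit 420) (nat_lit 73297491419) (nat_lit 102) (nat_lit 5) (nat_lit 106) (nat_lit 5) (nat_lit 107) (nat_lit 5) (nat_lit 336) (nat_lit 318) (nat_lit 66)) (XT.lf (nat_lit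 0) (nat_lit 266705063558) (nat_lit 420) (nat_lit 16757706147) (nat_lit 84) (nat_lit 16741857527) (nat_lit 102) (nat_lit 5) (nat_lit 107) (nat_lit 5) (nat_lit 103) (nat_lit 5) (nat_lit 337) (nat_lit 318) (nat_lit 65))) (XT.nd (nat_lit 94) (nat_lit 336) (nat_lit 0) (XT.lf (nat_lit 0) (nat_lit 12395142969) (nat_lit 420) (nat_lit 148154035365) (nat_lit 84) (nat_lit 148137692494) (nat_lit 97) (nat_lit 5) (nat_lit 102) (nat_lit 5) (nat_lit 98) (nat_lit 5) (nat_lit 338) (nat_lit 318) (nat_lit 64)) (XT.nd (nat_lit 43334) (nat_lit 0) (nat_lit 2940) (XT.lf (nat_lit 0) (nat_lit 30100154321) (nat_lit 336) (nat_lit 30116967907) (nat_lit 420) (nat_lit 257310728604) (nat_lit 93) (nat_lit 5) (nat_lit 97) (nat_lit 5) (nat_lit 98) (nat_lit 5) (nat_lit 339) (nat_lit 318) (nat_lit 63)) (XT.lf (nat_lit 0) (nat_lit 45020230086) (nat_lit 924) (nat_lit 25369567682) (nat_lit 924) (nat_lit 25369567682)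 (nat_lit 128) (nat_lit 3) (nat_lit 139) (nat_lit 3) (nat_lit 139) (nat_lit 5) (nat_lit 319) (nat_lit 319) (nat_lit 82))))))))
noncomputable def xc246 : XT := (XT.nd (nat_lit 1598) (nat_lit 756) (nat_lit 0) (XT.nd (nat_lit 752) (nat_lit 1848) (nat_lit 0) (XT.nd (nat_lit 376) (nat_lit 0) (nat_lit 168) (XT.nd (nat_lit 188) (nat_lit 0) (nat_lit 84) (XT.nd (nat_lit 94) (nat_lit 0) (nat_lit 84) (XT.lf (nat_lit 84) (nat_lit 46508802210) (nat_lit 0) (nat_lit 46510559604) (nat_lit 924) (nat_lit 103250942853) (nat_lit 129) (nat_lit 5) (nat_lit 128) (nat_lit 3) (nat_lit 139) (nat_lit 5) (nat_lit 320) (nat_lit 319) (nat_lit 81)) (XT.lf (nat_lit 0) (nat_lit 97839708319) (nat_lit 840) (nat_lit 51669195765) (nat_lit 924) (nat_lit 51665928049) (nat_lit 129) (nat_lit 5) (nat_lit 139) (nat_lit 5) (nat_lit 140) (nat_lit 5) (nat_lit 321) (nat_lit 319) (nat_lit 80))) (XT.nd (nat_lit 94) (nat_lit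 0) (nat_lit 84) (XT.lf (nat_lit 84) (nat_lit 52237107448) (nat_lit 0) (nat_lit 52241893267) (nat_lit 924) (nat_lit 101766688828) (nat_lit 130) (nat_lit 5) (nat_lit 129) (nat_lit 5) (nat_lit 140) (nat_lit 5) (nat_lit 322) (nat_lit 319) (nat_lit 79)) (XT.lf (nat_lit 0) (nat_lit 113118441803) (nat_lit 840) (nat_lit 49187086851) (nat_lit 924) (nat_lit 49181151965) (nat_lit 130) (nat_lit 5) (nat_lit 140) (nat_lit 5) (nat_lit 141) (nat_lit 5) (nat_lit 323) (nat_lit 319) (nat_lit 78)))) (XT.nd (nat_lit 188) (nat_lit 0) (nat_lit 84) (XT.nd (nat_lit 94) (nat_lit 0) (nat_lit 84) (XT.lf (nat_lit 84) (nat_lit 62003491888) (nat_lit 0) (nat_lit 62010738169) (nat_lit 924) (nat_lit 92884272437) (nat_lit 131) (nat_lit 5) (nat_lit 130) (nat_lit 5) (nat_lit 141) (nat_lit 5) (nat_lit 324) (nat_lit 319) (nat_lit 77)) (XT.lf (nat_lit 0) (nat_lit 136977392638) (nat_lit 840) (nat_lit 42767742136)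 (nat_lit 924) (nat_lit 42759651443) (nat_lit 131) (nat_lit 5) (nat_lit 141) (nat_lit 5) (nat_lit 142) (nat_lit 5) (nat_lit 325) (nat_lit 319) (nat_lit 76))) (XT.nd (nat_lit 94) (nat_lit 0) (nat_lit 84) (XT.lf (nat_lit 84) (nat_lit 76394350055) (nat_lit 0) (nat_lit 76403573580) (nat_lit 924) (nat_lit 75482999976) (nat_lit 132) (nat_lit 5) (nat_lit 131) (nat_lit 5) (nat_lit 142) (nat_lit 5) (nat_lit 326) (nat_lit 319) (nat_lit 75)) (XT.lf (nat_lit 0) (nat_lit 170646811738) (nat_lit 840) (nat_lit 31823500716) (nat_lit 924) (nat_lit 31813688895) (nat_lit 132) (nat_lit 5) (nat_lit 142) (nat_lit 5) (nat_lit 143) (nat_lit 5) (nat_lit 327) (nat_lit 319) (nat_lit 74))))) (XT.nd (nat_lit 376) (nat_lit 840) (nat_lit 0) (XT.nd (nat_lit 188) (nat_lit 1344) (nat_lit 0) (XT.nd (nat_lit 94) (nat_lit 0) (nat_lit 84) (XT.lf (nat_lit 84) (nat_lit 96064815477) (nat_lit 0) (nat_lit 96075605881)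 (nat_lit 924) (nat_lit 48309197758) (nat_lit 133) (nat_lit 5) (nat_lit 132) (nat_lit 5) (nat_lit 143) (nat_lit 5) (nat_lit 328) (nat_lit 319) (nat_lit 73)) (XT.lf (nat_lit 0) (nat_lit 215500580672) (nat_lit 840) (nat_lit 15697253910) (nat_lit 84) (nat_lit 15686089731) (nat_lit 133) (nat_lit 5) (nat_lit 143) (nat_lit 5) (nat_lit 134) (nat_lit 5) (nat_lit 329) (nat_lit 319) (nat_lit 72))) (XT.nd (nat_lit 94) (nat_lit 588) (nat_lit 0) (XT.lf (nat_lit 0) (nat_lit 121746236817) (nat_lit 840) (nat_lit 121758246331) (nat_lit 924) (nat_lit 9961674861) (nat_lit 123) (nat_lit 5) (nat_lit 133) (nat_lit 5) (nat_lit 134) (nat_lit 5) (nat_lit 330) (nat_lit 319) (nat_lit 71)) (XT.lf (nat_lit 0) (nat_lit 6242388252) (nat_lit 504) (nat_lit 6255202849) (nat_lit 588) (nat_lit 247851750702) (nat_lit 116) (nat_lit 5) (nat_lit 122) (nat_lit 5) (nat_lit 123) (nat_lit 5) (nat_lit 331) (nat_lit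 319) (nat_lit 70)))) (XT.nd (nat_lit 188) (nat_lit 420) (nat_lit 0) (XT.nd (nat_lit 94) (nat_lit 420) (nat_lit 0) (XT.lf (nat_lit 0) (nat_lit 39808113338) (nat_lit 588) (nat_lit 113785093613) (nat_lit 84) (nat_lit 113772159001) (nat_lit 116) (nat_lit 5) (nat_lit 123) (nat_lit 5) (nat_lit 117) (nat_lit 5) (nat_lit 332) (nat_lit 319) (nat_lit 69)) (XT.lf (nat_lit 0) (nat_lit 34556264305) (nat_lit 420) (nat_lit 34569894377) (nat_lit 504) (nat_lit 205573932777) (nat_lit 111) (nat_lit 5) (nat_lit 116) (nat_lit 5) (nat_lit 117) (nat_lit 5) (nat_lit 333) (nat_lit 319) (nat_lit 68))) (XT.nd (nat_lit 94) (nat_lit 420) (nat_lit 0) (XT.lf (nat_lit 0) (nat_lit 103280105808) (nat_lit 504) (nat_lit 89483279640) (nat_lit 84) (nat_lit 89469667817) (nat_lit 111) (nat_lit 5) (nat_lit 117) (nat_lit 5) (nat_lit 112) (nat_lit 5) (nat_lit 334) (nat_lit 319) (nat_lit 67)) (XT.nd (nat_lit 94) (nat_lit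 0) (nat_lit 0) (XT.lf (nat_lit 0) (nat_lit 70396641993) (nat_lit 420) (nat_lit 70410854582) (nat_lit 504) (nat_lit 149251879272) (nat_lit 106) (nat_lit 5) (nat_lit 111) (nat_lit 5) (nat_lit 112) (nat_lit 5) (nat_lit 335) (nat_lit 319) (nat_lit 66)) (XT.lf (nat_lit 0) (nat_lit 182657950985) (nat_lit 504) (nat_lit 57755404789) (nat_lit 84) (nat_lit 57741324079) (nat_lit 106) (nat_lit 5) (nat_lit 112) (nat_lit 5) (nat_lit 107) (nat_lit 5) (nat_lit 336) (nat_lit 319) (nat_lit 65))))))) (XT.nd (nat_lit 44086) (nat_lit 0) (nat_lit 1596) (XT.nd (nat_lit 43710) (nat_lit 0) (nat_lit 2604) (XT.nd (nat_lit 188) (nat_lit 420) (nat_lit 0) (XT.nd (nat_lit 94) (nat_lit 0) (nat_lit 0) (XT.lf (nat_lit 0) (nat_lit 114766184552) (nat_lit 336) (nat_lit 114780784226) (nat_lit 420) (nat_lit 76960478247) (nat_lit 102) (nat_lit 5) (nat_lit 106) (nat_lit 5) (nat_lit 107) (nat_lit 5) (nat_lit 337)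 (nat_lit 319) (nat_lit 64)) (XT.lf (nat_lit 0) (nat_lit 280042032717) (nat_lit 420) (nat_lit 17593557621) (nat_lit 84) (nat_lit 17579182456) (nat_lit 102) (nat_lit 5) (nat_lit 107) (nat_lit 5) (nat_lit 103) (nat_lit 5) (nat_lit 338) (nat_lit 319) (nat_lit 63))) (XT.nd (nat_lit 43428) (nat_lit 0) (nat_lit 2604) (XT.lf (nat_lit 0) (nat_lit 13016592930) (nat_lit 420) (nat_lit 155559680132) (nat_lit 84) (nat_lit 155544856667) (nat_lit 97) (nat_lit 5) (nat_lit 102) (nat_lit 5) (nat_lit 98) (nat_lit 5) (nat_lit 339) (nat_lit 319) (nat_lit 62)) (XT.lf (nat_lit 0) (nat_lit 47272971547) (nat_lit 924) (nat_lit 26637137839) (nat_lit 924) (nat_lit 26637137839) (nat_lit 128) (nat_lit 3) (nat_lit 139) (nat_lit 3) (nat_lit 139) (nat_lit 5) (nat_lit 320) (nat_lit 320) (nat_lit 80)))) (XT.nd (nat_lit 188) (nat_lit 0) (nat_lit 84) (XT.nd (nat_lit 94) (nat_lit 0) (nat_lit 84) (XT.lf (nat_lit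 84) (nat_lit 48836029477) (nat_lit 0) (nat_lit 48837623485) (nat_lit 924) (nat_lit 108410000787) (nat_lit 129) (nat_lit 5) (nat_lit 128) (nat_lit 3) (nat_lit 139) (nat_lit 5) (nat_lit 321) (nat_lit 320) (nat_lit 79)) (XT.lf (nat_lit 0) (nat_lit 102734835713) (nat_lit 840) (nat_lit 54250772421) (nat_lit 924) (nat_lit 54247808506) (nat_lit 129) (nat_lit 5) (nat_lit 139) (nat_lit 5) (nat_lit 140) (nat_lit 5) (nat_lit 322) (nat_lit 320) (nat_lit 78))) (XT.nd (nat_lit 94) (nat_lit 0) (nat_lit 84) (XT.lf (nat_lit 84) (nat_lit 54850815579) (nat_lit 0) (nat_lit 54855156458) (nat_lit 924) (nat_lit 106851850918) (nat_lit 130) (nat_lit 5) (nat_lit 129) (nat_lit 5) (nat_lit 140) (nat_lit 5) (nat_lit 323) (nat_lit 320) (nat_lit 77)) (XT.lf (nat_lit 0) (nat_lit 118777223934) (nat_lit 840) (nat_lit 51644515416) (nat_lit 924) (nat_lit 51639132298) (nat_lit 130) (nat_lit 5) (nat_lit 140)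 (nat_lit 5) (nat_lit 141) (nat_lit 5) (nat_lit 324) (nat_lit 320) (nat_lit 76))))) (XT.nd (nat_lit 376) (nat_lit 1176) (nat_lit 0) (XT.nd (nat_lit 188) (nat_lit 0) (nat_lit 84) (XT.nd (nat_lit 94) (nat_lit 0) (nat_lit 84) (XT.lf (nat_lit 84) (nat_lit 65105561200) (nat_lit 0) (nat_lit 65112133791) (nat_lit 924) (nat_lit 97525594957) (nat_lit 131) (nat_lit 5) (nat_lit 130) (nat_lit 5) (nat_lit 141) (nat_lit 5) (nat_lit 325) (nat_lit 320) (nat_lit 75)) (XT.lf (nat_lit 0) (nat_lit 143828871816) (nat_lit 840) (nat_lit 44904180866) (nat_lit 924) (nat_lit 44896842369) (nat_lit 131) (nat_lit 5) (nat_lit 141) (nat_lit 5) (nat_lit 142) (nat_lit 5) (nat_lit 326) (nat_lit 320) (nat_lit 74))) (XT.nd (nat_lit 94) (nat_lit 0) (nat_lit 84) (XT.lf (nat_lit 84) (nat_lit 80215984510) (nat_lit 0) (nat_lit 80224350519) (nat_lit 924) (nat_lit 79254509004) (nat_lit 132) (nat_lit 5) (nat_lit 131)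 (nat_lit 5) (nat_lit 142) (nat_lit 5) (nat_lit 327) (nat_lit 320) (nat_lit 73)) (XT.lf (nat_lit 0) (nat_lit 179181538868) (nat_lit 840) (nat_lit 33412721416) (nat_lit 924) (nat_lit 33403821805) (nat_lit 132) (nat_lit 5) (nat_lit 142) (nat_lit 5) (nat_lit 143) (nat_lit 5) (nat_lit 328) (nat_lit 320) (nat_lit 72)))) (XT.nd (nat_lit 188) (nat_lit 1344) (nat_lit 0) (XT.nd (nat_lit 94) (nat_lit 0) (nat_lit 84) (XT.lf (nat_lit 84) (nat_lit 100869979066) (nat_lit 0) (nat_lit 100879766280) (nat_lit 924) (nat_lit 50722239581) (nat_lit 133) (nat_lit 5) (nat_lit 132) (nat_lit 5) (nat_lit 143) (nat_lit 5) (nat_lit 329) (nat_lit 320) (nat_lit 71)) (XT.lf (nat_lit 0) (nat_lit 226277797309) (nat_lit 840) (nat_lit 16480170039) (nat_lit 84) (nat_lit 16470043800) (nat_lit 133) (nat_lit 5) (nat_lit 143) (nat_lit 5) (nat_lit 134) (nat_lit 5) (nat_lit 330) (nat_lit 320) (nat_lit 70))) (XT.nd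 (nat_lit 94) (nat_lit 588) (nat_lit 0) (XT.lf (nat_lit 0) (nat_lit 127835463828) (nat_lit 840) (nat_lit 127846356811) (nat_lit 924) (nat_lit 10457539603) (nat_lit 123) (nat_lit 5) (nat_lit 133) (nat_lit 5) (nat_lit 134) (nat_lit 5) (nat_lit 331) (nat_lit 320) (nat_lit 69)) (XT.nd (nat_lit 94) (nat_lit 0) (nat_lit 0) (XT.lf (nat_lit 0) (nat_lit 6556461821) (nat_lit 504) (nat_lit 6568085039) (nat_lit 588) (nat_lit 260242158223) (nat_lit 116) (nat_lit 5) (nat_lit 122) (nat_lit 5) (nat_lit 123) (nat_lit 5) (nat_lit 332) (nat_lit 320) (nat_lit 68)) (XT.lf (nat_lit 0) (nat_lit 41800494527) (nat_lit 588) (nat_lit 119472386510) (nat_lit 84) (nat_lit 119460654436) (nat_lit 116) (nat_lit 5) (nat_lit 123) (nat_lit 5) (nat_lit 117) (nat_lit 5) (nat_lit 333) (nat_lit 320) (nat_lit 67))))))))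
noncomputable def xc247 : XT := (XT.nd (nat_lit 45026) (nat_lit 0) (nat_lit 0) (XT.nd (nat_lit 44180) (nat_lit 0) (nat_lit 2268) (XT.nd (nat_lit 376) (nat_lit 336) (nat_lit 0) (XT.nd (nat_lit 188) (nat_lit 420) (nat_lit 0) (XT.nd (nat_lit 94) (nat_lit 0) (nat_lit 0) (XT.lf (nat_lit 0) (nat_lit 36286007661) (nat_lit 420) (nat_lit 36298370538) (nat_lit 504) (nat_lit 215850622253) (nat_lit 111) (nat_lit 5) (nat_lit 116) (nat_lit 5) (nat_lit 117) (nat_lit 5) (nat_lit 334) (nat_lit 320) (nat_lit 66)) (XT.lf (nat_lit 0) (nat_lit 108445931931) (nat_lit 504) (nat_lit 93955514641) (nat_lit 84) (nat_lit 93943168315) (nat_lit 111) (nat_lit 5) (nat_lit 117) (nat_lit 5) (nat_lit 112) (nat_lit 5) (nat_lit 335) (nat_lit 320) (nat_lit 65))) (XT.nd (nat_lit 94) (nat_lit 0) (nat_lit 0) (XT.lf (nat_lit 0) (nat_lit 73918371962) (nat_lit 420) (nat_lit 73931263199) (nat_lit 504) (nat_lit 156712621290)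 (nat_lit 106) (nat_lit 5) (nat_lit 111) (nat_lit 5) (nat_lit 112) (nat_lit 5) (nat_lit 336) (nat_lit 320) (nat_lit 64)) (XT.lf (nat_lit 0) (nat_lit 191792530298) (nat_lit 504) (nat_lit 60641285539) (nat_lit 84) (nat_lit 60628513920) (nat_lit 106) (nat_lit 5) (nat_lit 112) (nat_lit 5) (nat_lit 107) (nat_lit 5) (nat_lit 337) (nat_lit 320) (nat_lit 63)))) (XT.nd (nat_lit 43616) (nat_lit 0) (nat_lit 2184) (XT.nd (nat_lit 94) (nat_lit 0) (nat_lit 0) (XT.lf (nat_lit 0) (nat_lit 120506352793) (nat_lit 336) (nat_lit 120519595127) (nat_lit 420) (nat_lit 80806789921) (nat_lit 102) (nat_lit 5) (nat_lit 106) (nat_lit 5) (nat_lit 107) (nat_lit 5) (nat_lit 338) (nat_lit 320) (nat_lit 62)) (XT.lf (nat_lit 0) (nat_lit 294045690799) (nat_lit 420) (nat_lit 18471390756) (nat_lit 84) (nat_lit 18458352057) (nat_lit 102) (nat_lit 5) (nat_lit 107) (nat_lit 5) (nat_lit 103) (nat_lit 5) (nat_lit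 339) (nat_lit 320) (nat_lit 61))) (XT.nd (nat_lit 94) (nat_lit 0) (nat_lit 0) (XT.lf (nat_lit 0) (nat_lit 49638189245) (nat_lit 924) (nat_lit 27968170943) (nat_lit 924) (nat_lit 27968170943) (nat_lit 128) (nat_lit 3) (nat_lit 139) (nat_lit 3) (nat_lit 139) (nat_lit 5) (nat_lit 321) (nat_lit 321) (nat_lit 78)) (XT.lf (nat_lit 84) (nat_lit 51279451954) (nat_lit 0) (nat_lit 51280897766) (nat_lit 924) (nat_lit 113827336010) (nat_lit 129) (nat_lit 5) (nat_lit 128) (nat_lit 3) (nat_lit 139) (nat_lit 5) (nat_lit 322) (nat_lit 321) (nat_lit 77))))) (XT.nd (nat_lit 376) (nat_lit 0) (nat_lit 168) (XT.nd (nat_lit 188) (nat_lit 0) (nat_lit 84) (XT.nd (nat_lit 94) (nat_lit 0) (nat_lit 0) (XT.lf (nat_lit 0) (nat_lit 107874427365) (nat_lit 840) (nat_lit 56961602986) (nat_lit 924) (nat_lit 56958914628) (nat_lit 129) (nat_lit 5) (nat_lit 139) (nat_lit 5) (nat_lit 140) (nat_lit 5) (nat_lit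 323) (nat_lit 321) (nat_lit 76)) (XT.lf (nat_lit 84) (nat_lit 57595036865) (nat_lit 0) (nat_lit 57598974170) (nat_lit 924) (nat_lit 112191566048) (nat_lit 130) (nat_lit 5) (nat_lit 129) (nat_lit 5) (nat_lit 140) (nat_lit 5) (nat_lit 324) (nat_lit 321) (nat_lit 75))) (XT.nd (nat_lit 94) (nat_lit 0) (nat_lit 0) (XT.lf (nat_lit 0) (nat_lit 124718679272) (nat_lit 840) (nat_lit 54224994449) (nat_lit 924) (nat_lit 54220111803) (nat_lit 130) (nat_lit 5) (nat_lit 140) (nat_lit 5) (nat_lit 141) (nat_lit 5) (nat_lit 325) (nat_lit 321) (nat_lit 74)) (XT.lf (nat_lit 84) (nat_lit 68362557825) (nat_lit 0) (nat_lit 68368519358) (nat_lit 924) (nat_lit 102399252390) (nat_lit 131) (nat_lit 5) (nat_lit 130) (nat_lit 5) (nat_lit 141) (nat_lit 5) (nat_lit 326) (nat_lit 321) (nat_lit 73)))) (XT.nd (nat_lit 188) (nat_lit 0) (nat_lit 84) (XT.nd (nat_lit 94) (nat_lit 0) (nat_lit 0) (XT.lf (nat_lit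 0) (nat_lit 151022682342) (nat_lit 840) (nat_lit 47147622674) (nat_lit 924) (nat_lit 47140966441) (nat_lit 131) (nat_lit 5) (nat_lit 141) (nat_lit 5) (nat_lit 142) (nat_lit 5) (nat_lit 327) (nat_lit 321) (nat_lit 72)) (XT.lf (nat_lit 84) (nat_lit 84228522467) (nat_lit 0) (nat_lit 84236110683) (nat_lit 924) (nat_lit 83214839015) (nat_lit 132) (nat_lit 5) (nat_lit 131) (nat_lit 5) (nat_lit 142) (nat_lit 5) (nat_lit 328) (nat_lit 321) (nat_lit 71))) (XT.nd (nat_lit 94) (nat_lit 0) (nat_lit 0) (XT.lf (nat_lit 0) (nat_lit 188142780476) (nat_lit 840) (nat_lit 35081584847) (nat_lit 924) (nat_lit 35073512637) (nat_lit 132) (nat_lit 5) (nat_lit 142) (nat_lit 5) (nat_lit 143) (nat_lit 5) (nat_lit 329) (nat_lit 321) (nat_lit 70)) (XT.nd (nat_lit 94) (nat_lit 0) (nat_lit 84) (XT.lf (nat_lit 84) (nat_lit 105915222068) (nat_lit 0) (nat_lit 105924099360) (nat_lit 924) (nat_lit 53256158305)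 (nat_lit 133) (nat_lit 5) (nat_lit 132) (nat_lit 5) (nat_lit 143) (nat_lit 5) (nat_lit 330) (nat_lit 321) (nat_lit 69)) (XT.lf (nat_lit 0) (nat_lit 237593671396) (nat_lit 840) (nat_lit 17302412948) (nat_lit 84) (nat_lit 17293228151) (nat_lit 133) (nat_lit 5) (nat_lit 143) (nat_lit 5) (nat_lit 134) (nat_lit 5) (nat_lit 331) (nat_lit 321) (nat_lit 68))))))) (XT.nd (nat_lit 44274) (nat_lit 0) (nat_lit 2184) (XT.nd (nat_lit 376) (nat_lit 756) (nat_lit 0) (XT.nd (nat_lit 188) (nat_lit 420) (nat_lit 0) (XT.nd (nat_lit 94) (nat_lit 588) (nat_lit 0) (XT.lf (nat_lit 0) (nat_lit 134228974135) (nat_lit 840) (nat_lit 134238854392) (nat_lit 924) (nat_lit 10978403885) (nat_lit 123) (nat_lit 5) (nat_lit 133) (nat_lit 5) (nat_lit 134) (nat_lit 5) (nat_lit 332) (nat_lit 321) (nat_lit 67)) (XT.lf (nat_lit 0) (nat_lit 6886057390) (nat_lit 504) (nat_lit 6896599991) (nat_lit 588) (nat_lit 273252288798)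 (nat_lit 116) (nat_lit 5) (nat_lit 122) (nat_lit 5) (nat_lit 123) (nat_lit 5) (nat_lit 333) (nat_lit 321) (nat_lit 66))) (XT.nd (nat_lit 94) (nat_lit 420) (nat_lit 0) (XT.lf (nat_lit 0) (nat_lit 43892311110) (nat_lit 588) (nat_lit 125444226441) (nat_lit 84) (nat_lit 125433585104) (nat_lit 116) (nat_lit 5) (nat_lit 123) (nat_lit 5) (nat_lit 117) (nat_lit 5) (nat_lit 334) (nat_lit 321) (nat_lit 65)) (XT.lf (nat_lit 0) (nat_lit 38102058740) (nat_lit 420) (nat_lit 38113272234) (nat_lit 504) (nat_lit 226641332809) (nat_lit 111) (nat_lit 5) (nat_lit 116) (nat_lit 5) (nat_lit 117) (nat_lit 5) (nat_lit 335) (nat_lit 321) (nat_lit 64)))) (XT.nd (nat_lit 188) (nat_lit 336) (nat_lit 0) (XT.nd (nat_lit 94) (nat_lit 420) (nat_lit 0) (XT.lf (nat_lit 0) (nat_lit 113869880076) (nat_lit 504) (nat_lit 98651540729) (nat_lit 84) (nat_lit 98640342248) (nat_lit 111) (nat_lit 5) (nat_lit 117)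 (nat_lit 5) (nat_lit 112) (nat_lit 5) (nat_lit 336) (nat_lit 321) (nat_lit 63)) (XT.lf (nat_lit 0) (nat_lit 77616011984) (nat_lit 420) (nat_lit 77627704715) (nat_lit 504) (nat_lit 164546572586) (nat_lit 106) (nat_lit 5) (nat_lit 111) (nat_lit 5) (nat_lit 112) (nat_lit 5) (nat_lit 337) (nat_lit 321) (nat_lit 62))) (XT.nd (nat_lit 94) (nat_lit 336) (nat_lit 0) (XT.lf (nat_lit 0) (nat_lit 201383682221) (nat_lit 504) (nat_lit 63671635994) (nat_lit 84) (nat_lit 63660051759) (nat_lit 106) (nat_lit 5) (nat_lit 112) (nat_lit 5) (nat_lit 107) (nat_lit 5) (nat_lit 338) (nat_lit 321) (nat_lit 61)) (XT.lf (nat_lit 0) (nat_lit 126533356613) (nat_lit 336) (nat_lit 126545367800) (nat_lit 420) (nat_lit 84845576366) (nat_lit 102) (nat_lit 5) (nat_lit 106) (nat_lit 5) (nat_lit 107) (nat_lit 5) (nat_lit 339) (nat_lit 321) (nat_lit 60))))) (XT.nd (nat_lit 376) (nat_lit 0) (nat_lit 168) (XT.nd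 (nat_lit 188) (nat_lit 0) (nat_lit 84) (XT.nd (nat_lit 94) (nat_lit 0) (nat_lit 0) (XT.lf (nat_lit 0) (nat_lit 52121521946) (nat_lit 924) (nat_lit 29365832289) (nat_lit 924) (nat_lit 29365832289) (nat_lit 128) (nat_lit 3) (nat_lit 139) (nat_lit 3) (nat_lit 139) (nat_lit 5) (nat_lit 322) (nat_lit 322) (nat_lit 76)) (XT.lf (nat_lit 84) (nat_lit 53844894849) (nat_lit 0) (nat_lit 53846206243) (nat_lit 924) (nat_lit 119515832230) (nat_lit 129) (nat_lit 5) (nat_lit 128) (nat_lit 3) (nat_lit 139) (nat_lit 5) (nat_lit 323) (nat_lit 322) (nat_lit 75))) (XT.nd (nat_lit 94) (nat_lit 0) (nat_lit 0) (XT.lf (nat_lit 0) (nat_lit 113270733647) (nat_lit 840) (nat_lit 59808133878) (nat_lit 924) (nat_lit 59805695458) (nat_lit 129) (nat_lit 5) (nat_lit 139) (nat_lit 5) (nat_lit 140) (nat_lit 5) (nat_lit 324) (nat_lit 322) (nat_lit 74)) (XT.lf (nat_lit 84) (nat_lit 60476312977) (nat_lit 0) (nat_lit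 60479884229) (nat_lit 924) (nat_lit 117798534450) (nat_lit 130) (nat_lit 5) (nat_lit 129) (nat_lit 5) (nat_lit 140) (nat_lit 5) (nat_lit 325) (nat_lit 322) (nat_lit 73)))) (XT.nd (nat_lit 188) (nat_lit 0) (nat_lit 84) (XT.nd (nat_lit 94) (nat_lit 0) (nat_lit 0) (XT.lf (nat_lit 0) (nat_lit 130956966198) (nat_lit 840) (nat_lit 56934659829) (nat_lit 924) (nat_lit 56930231125) (nat_lit 130) (nat_lit 5) (nat_lit 140) (nat_lit 5) (nat_lit 141) (nat_lit 5) (nat_lit 326) (nat_lit 322) (nat_lit 72)) (XT.lf (nat_lit 84) (nat_lit 71782244504) (nat_lit 0) (nat_lit 71787651791) (nat_lit 924) (nat_lit 107516836493) (nat_lit 131) (nat_lit 5) (nat_lit 130) (nat_lit 5) (nat_lit 141) (nat_lit 5) (nat_lit 327) (nat_lit 322) (nat_lit 71))) (XT.nd (nat_lit 94) (nat_lit 0) (nat_lit 0) (XT.lf (nat_lit 0) (nat_lit 158575963339) (nat_lit 840) (nat_lit 49503400873) (nat_lit 924) (nat_lit 49497363473)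 (nat_lit 131) (nat_lit 5) (nat_lit 141) (nat_lit 5) (nat_lit 142) (nat_lit 5) (nat_lit 328) (nat_lit 322) (nat_lit 70)) (XT.nd (nat_lit 94) (nat_lit 0) (nat_lit 84) (XT.lf (nat_lit 84) (nat_lit 88441525671) (nat_lit 0) (nat_lit 88448408407) (nat_lit 924) (nat_lit 87373408232) (nat_lit 132) (nat_lit 5) (nat_lit 131) (nat_lit 5) (nat_lit 142) (nat_lit 5) (nat_lit 329) (nat_lit 322) (nat_lit 69)) (XT.lf (nat_lit 0) (nat_lit 197551882915) (nat_lit 840) (nat_lit 36834056253) (nat_lit 924) (nat_lit 36826734521) (nat_lit 132) (nat_lit 5) (nat_lit 142) (nat_lit 5) (nat_lit 143) (nat_lit 5) (nat_lit 330) (nat_lit 322) (nat_lit 68))))))))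
noncomputable def xc248 : XT := (XT.nd (nat_lit 45120) (nat_lit 0) (nat_lit 0) (XT.nd (nat_lit 752) (nat_lit 0) (nat_lit 0) (XT.nd (nat_lit 376) (nat_lit 840) (nat_lit 0) (XT.nd (nat_lit 188) (nat_lit 1344) (nat_lit 0) (XT.nd (nat_lit 94) (nat_lit 0) (nat_lit 84) (XT.lf (nat_lit 84) (nat_lit 111212565075) (nat_lit 0) (nat_lit 111220617041) (nat_lit 924) (nat_lit 55916976872) (nat_lit 133) (nat_lit 5) (nat_lit 132) (nat_lit 5) (nat_lit 143) (nat_lit 5) (nat_lit 331) (nat_lit 322) (nat_lit 67)) (XT.lf (nat_lit 0) (nat_lit 249475154713) (nat_lit 840) (nat_lit 18165932150) (nat_lit 84) (nat_lit 18157601269) (nat_lit 133) (nat_lit 5) (nat_lit 143) (nat_lit 5) (nat_lit 134) (nat_lit 5) (nat_lit 332) (nat_lit 322) (nat_lit 66))) (XT.nd (nat_lit 94) (nat_lit 588) (nat_lit 0) (XT.lf (nat_lit 0) (nat_lit 140941998457) (nat_lit 840) (nat_lit 140950960141) (nat_lit 924) (nat_lit 11525498502)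 (nat_lit 123) (nat_lit 5) (nat_lit 133) (nat_lit 5) (nat_lit 134) (nat_lit 5) (nat_lit 333) (nat_lit 322) (nat_lit 65)) (XT.lf (nat_lit 0) (nat_lit 7231967949) (nat_lit 504) (nat_lit 7241530399) (nat_lit 588) (nat_lit 286913109735) (nat_lit 116) (nat_lit 5) (nat_lit 122) (nat_lit 5) (nat_lit 123) (nat_lit 5) (nat_lit 334) (nat_lit 322) (nat_lit 64)))) (XT.nd (nat_lit 188) (nat_lit 420) (nat_lit 0) (XT.nd (nat_lit 94) (nat_lit 420) (nat_lit 0) (XT.lf (nat_lit 0) (nat_lit 46088551933) (nat_lit 588) (nat_lit 131714823799) (nat_lit 84) (nat_lit 131705171793) (nat_lit 116) (nat_lit 5) (nat_lit 123) (nat_lit 5) (nat_lit 117) (nat_lit 5) (nat_lit 335) (nat_lit 322) (nat_lit 63)) (XT.lf (nat_lit 0) (nat_lit 40008749609) (nat_lit 420) (nat_lit 40018920578) (nat_lit 504) (nat_lit 237971748151) (nat_lit 111) (nat_lit 5) (nat_lit 116) (nat_lit 5) (nat_lit 117) (nat_lit 5) (nat_lit 336)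 (nat_lit 322) (nat_lit 62))) (XT.nd (nat_lit 94) (nat_lit 420) (nat_lit 0) (XT.lf (nat_lit 0) (nat_lit 119564872083) (nat_lit 504) (nat_lit 103582530788) (nat_lit 84) (nat_lit 103572373435) (nat_lit 111) (nat_lit 5) (nat_lit 117) (nat_lit 5) (nat_lit 112) (nat_lit 5) (nat_lit 337) (nat_lit 322) (nat_lit 61)) (XT.lf (nat_lit 0) (nat_lit 81498373964) (nat_lit 420) (nat_lit 81508979617) (nat_lit 504) (nat_lit 172772377615) (nat_lit 106) (nat_lit 5) (nat_lit 111) (nat_lit 5) (nat_lit 112) (nat_lit 5) (nat_lit 338) (nat_lit 322) (nat_lit 60))))) (XT.nd (nat_lit 43992) (nat_lit 0) (nat_lit 1932) (XT.nd (nat_lit 43804) (nat_lit 0) (nat_lit 1848) (XT.nd (nat_lit 43710) (nat_lit 0) (nat_lit 1848) (XT.lf (nat_lit 0) (nat_lit 211454249923) (nat_lit 504) (nat_lit 66853663307) (nat_lit 84) (nat_lit 66843156064) (nat_lit 106) (nat_lit 5) (nat_lit 112) (nat_lit 5) (nat_lit 107) (nat_lit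 5) (nat_lit 339) (nat_lit 322) (nat_lit 59)) (XT.lf (nat_lit 0) (nat_lit 54728888963) (nat_lit 924) (nat_lit 30833446171) (nat_lit 924) (nat_lit 30833446171) (nat_lit 128) (nat_lit 3) (nat_lit 139) (nat_lit 3) (nat_lit 139) (nat_lit 5) (nat_lit 323) (nat_lit 323) (nat_lit 74))) (XT.nd (nat_lit 94) (nat_lit 0) (nat_lit 84) (XT.lf (nat_lit 84) (nat_lit 56538473195) (nat_lit 0) (nat_lit 56539662668) (nat_lit 924) (nat_lit 125489020139) (nat_lit 129) (nat_lit 5) (nat_lit 128) (nat_lit 3) (nat_lit 139) (nat_lit 5) (nat_lit 324) (nat_lit 323) (nat_lit 73)) (XT.lf (nat_lit 0) (nat_lit 118936614921) (nat_lit 840) (nat_lit 62797135350) (nat_lit 924) (nat_lit 62794923631) (nat_lit 129) (nat_lit 5) (nat_lit 139) (nat_lit 5) (nat_lit 140) (nat_lit 5) (nat_lit 325) (nat_lit 323) (nat_lit 72)))) (XT.nd (nat_lit 188) (nat_lit 0) (nat_lit 84) (XT.nd (nat_lit 94) (nat_lit 0) (nat_lit 84)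 (XT.lf (nat_lit 84) (nat_lit 63501511184) (nat_lit 0) (nat_lit 63504750414) (nat_lit 924) (nat_lit 123686093915) (nat_lit 130) (nat_lit 5) (nat_lit 129) (nat_lit 5) (nat_lit 140) (nat_lit 5) (nat_lit 326) (nat_lit 323) (nat_lit 71)) (XT.lf (nat_lit 0) (nat_lit 137506948714) (nat_lit 840) (nat_lit 59779955775) (nat_lit 924) (nat_lit 59775938810) (nat_lit 130) (nat_lit 5) (nat_lit 140) (nat_lit 5) (nat_lit 141) (nat_lit 5) (nat_lit 327) (nat_lit 323) (nat_lit 70))) (XT.nd (nat_lit 94) (nat_lit 0) (nat_lit 84) (XT.lf (nat_lit 84) (nat_lit 75372770597) (nat_lit 0) (nat_lit 75377675165) (nat_lit 924) (nat_lit 112890520933) (nat_lit 131) (nat_lit 5) (nat_lit 130) (nat_lit 5) (nat_lit 141) (nat_lit 5) (nat_lit 328) (nat_lit 323) (nat_lit 69)) (XT.lf (nat_lit 0) (nat_lit 166506708789) (nat_lit 840) (nat_lit 51977117008) (nat_lit 924) (nat_lit 51971640908) (nat_lit 131) (nat_lit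 5) (nat_lit 141) (nat_lit 5) (nat_lit 142) (nat_lit 5) (nat_lit 329) (nat_lit 323) (nat_lit 68)))))) (XT.nd (nat_lit 752) (nat_lit 420) (nat_lit 0) (XT.nd (nat_lit 376) (nat_lit 1680) (nat_lit 0) (XT.nd (nat_lit 188) (nat_lit 0) (nat_lit 84) (XT.nd (nat_lit 94) (nat_lit 0) (nat_lit 84) (XT.lf (nat_lit 84) (nat_lit 92865032413) (nat_lit 0) (nat_lit 92871275258) (nat_lit 924) (nat_lit 91740107910) (nat_lit 132) (nat_lit 5) (nat_lit 131) (nat_lit 5) (nat_lit 142) (nat_lit 5) (nat_lit 330) (nat_lit 323) (nat_lit 67)) (XT.lf (nat_lit 0) (nat_lit 207431257936) (nat_lit 840) (nat_lit 38674300710) (nat_lit 924) (nat_lit 38667659683) (nat_lit 132) (nat_lit 5) (nat_lit 142) (nat_lit 5) (nat_lit 143) (nat_lit 5) (nat_lit 331) (nat_lit 323) (nat_lit 66))) (XT.nd (nat_lit 94) (nat_lit 0) (nat_lit 84) (XT.lf (nat_lit 84) (nat_lit 116774628163) (nat_lit 0) (nat_lit 116781931533) (nat_lit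 924) (nat_lit 58711021319) (nat_lit 133) (nat_lit 5) (nat_lit 132) (nat_lit 5) (nat_lit 143) (nat_lit 5) (nat_lit 332) (nat_lit 323) (nat_lit 65)) (XT.lf (nat_lit 0) (nat_lit 261950544873) (nat_lit 840) (nat_lit 19072776200) (nat_lit 84) (nat_lit 19065219845) (nat_lit 133) (nat_lit 5) (nat_lit 143) (nat_lit 5) (nat_lit 134) (nat_lit 5) (nat_lit 333) (nat_lit 323) (nat_lit 64)))) (XT.nd (nat_lit 188) (nat_lit 420) (nat_lit 0) (XT.nd (nat_lit 94) (nat_lit 588) (nat_lit 0) (XT.lf (nat_lit 0) (nat_lit 147990527509) (nat_lit 840) (nat_lit 147998656021) (nat_lit 924) (nat_lit 12100117575) (nat_lit 123) (nat_lit 5) (nat_lit 133) (nat_lit 5) (nat_lit 134) (nat_lit 5) (nat_lit 334) (nat_lit 323) (nat_lit 63)) (XT.lf (nat_lit 0) (nat_lit 7595024568) (nat_lit 504) (nat_lit 7603697992) (nat_lit 588) (nat_lit 301257138462) (nat_lit 116) (nat_lit 5) (nat_lit 122) (nat_lit 5) (nat_lit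 123) (nat_lit 5) (nat_lit 335) (nat_lit 323) (nat_lit 62))) (XT.nd (nat_lit 94) (nat_lit 420) (nat_lit 0) (XT.lf (nat_lit 0) (nat_lit 48394453694) (nat_lit 588) (nat_lit 138299101076) (nat_lit 84) (nat_lit 138290346422) (nat_lit 116) (nat_lit 5) (nat_lit 123) (nat_lit 5) (nat_lit 117) (nat_lit 5) (nat_lit 336) (nat_lit 323) (nat_lit 61)) (XT.lf (nat_lit 0) (nat_lit 42010627391) (nat_lit 420) (nat_lit 42019852760) (nat_lit 504) (nat_lit 249868837782) (nat_lit 111) (nat_lit 5) (nat_lit 116) (nat_lit 5) (nat_lit 117) (nat_lit 5) (nat_lit 337) (nat_lit 323) (nat_lit 60))))) (XT.nd (nat_lit 44086) (nat_lit 0) (nat_lit 1932) (XT.nd (nat_lit 43898) (nat_lit 0) (nat_lit 1848) (XT.nd (nat_lit 94) (nat_lit 420) (nat_lit 0) (XT.lf (nat_lit 0) (nat_lit 125544474421) (nat_lit 504) (nat_lit 108760217891) (nat_lit 84) (nat_lit 108751004873) (nat_lit 111) (nat_lit 5) (nat_lit 117) (nat_lit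 5) (nat_lit 112) (nat_lit 5) (nat_lit 338) (nat_lit 323) (nat_lit 59)) (XT.lf (nat_lit 0) (nat_lit 85574708882) (nat_lit 420) (nat_lit 85584328521) (nat_lit 504) (nat_lit 181409614546) (nat_lit 106) (nat_lit 5) (nat_lit 111) (nat_lit 5) (nat_lit 112) (nat_lit 5) (nat_lit 339) (nat_lit 323) (nat_lit 58))) (XT.nd (nat_lit 94) (nat_lit 0) (nat_lit 0) (XT.lf (nat_lit 0) (nat_lit 57466504314) (nat_lit 924) (nat_lit 32374503756) (nat_lit 924) (nat_lit 32374503756) (nat_lit 128) (nat_lit 3) (nat_lit 139) (nat_lit 3) (nat_lit 139) (nat_lit 5) (nat_lit 324) (nat_lit 324) (nat_lit 72)) (XT.lf (nat_lit 84) (nat_lit 59366606472) (nat_lit 0) (nat_lit 59367685360) (nat_lit 924) (nat_lit 131761109512) (nat_lit 129) (nat_lit 5) (nat_lit 128) (nat_lit 3) (nat_lit 139) (nat_lit 5) (nat_lit 325) (nat_lit 324) (nat_lit 71)))) (XT.nd (nat_lit 188) (nat_lit 0) (nat_lit 84) (XT.nd (nat_lit 94)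 (nat_lit 0) (nat_lit 0) (XT.lf (nat_lit 0) (nat_lit 124885572282) (nat_lit 840) (nat_lit 65935717539) (nat_lit 924) (nat_lit 65933711445) (nat_lit 129) (nat_lit 5) (nat_lit 139) (nat_lit 5) (nat_lit 140) (nat_lit 5) (nat_lit 326) (nat_lit 324) (nat_lit 70)) (XT.lf (nat_lit 84) (nat_lit 66677840763) (nat_lit 0) (nat_lit 66680778841) (nat_lit 924) (nat_lit 129868251439) (nat_lit 130) (nat_lit 5) (nat_lit 129) (nat_lit 5) (nat_lit 140) (nat_lit 5) (nat_lit 327) (nat_lit 324) (nat_lit 69))) (XT.nd (nat_lit 94) (nat_lit 0) (nat_lit 0) (XT.lf (nat_lit 0) (nat_lit 144384231938) (nat_lit 840) (nat_lit 62767650121) (nat_lit 924) (nat_lit 62764006615) (nat_lit 130) (nat_lit 5) (nat_lit 140) (nat_lit 5) (nat_lit 141) (nat_lit 5) (nat_lit 328) (nat_lit 324) (nat_lit 68)) (XT.nd (nat_lit 94) (nat_lit 0) (nat_lit 84) (XT.lf (nat_lit 84) (nat_lit 79142691546) (nat_lit 0) (nat_lit 79147140134)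 (nat_lit 924) (nat_lit 118533090169) (nat_lit 131) (nat_lit 5) (nat_lit 130) (nat_lit 5) (nat_lit 141) (nat_lit 5) (nat_lit 329) (nat_lit 324) (nat_lit 67)) (XT.lf (nat_lit 0) (nat_lit 174833810472) (nat_lit 840) (nat_lit 54574654120) (nat_lit 924) (nat_lit 54569687136) (nat_lit 131) (nat_lit 5) (nat_lit 141) (nat_lit 5) (nat_lit 142) (nat_lit 5) (nat_lit 330) (nat_lit 324) (nat_lit 66))))))))
noncomputable def xc249 : XT := (XT.nd (nat_lit 45402) (nat_lit 0) (nat_lit 0) (XT.nd (nat_lit 752) (nat_lit 0) (nat_lit 0) (XT.nd (nat_lit 376) (nat_lit 1680) (nat_lit 0) (XT.nd (nat_lit 188) (nat_lit 0) (nat_lit 84) (XT.nd (nat_lit 94) (nat_lit 0) (nat_lit 84) (XT.lf (nat_lit 84) (nat_lit 97509581502) (nat_lit 0) (nat_lit 97515243946) (nat_lit 924) (nat_lit 96325325793) (nat_lit 132) (nat_lit 5) (nat_lit 131) (nat_lit 5) (nat_lit 142) (nat_lit 5) (nat_lit 331) (nat_lit 324) (nat_lit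 65)) (XT.lf (nat_lit 0) (nat_lit 217804436139) (nat_lit 840) (nat_lit 40606692974) (nat_lit 924) (nat_lit 40600669367) (nat_lit 132) (nat_lit 5) (nat_lit 142) (nat_lit 5) (nat_lit 143) (nat_lit 5) (nat_lit 332) (nat_lit 324) (nat_lit 64))) (XT.nd (nat_lit 94) (nat_lit 0) (nat_lit 84) (XT.lf (nat_lit 84) (nat_lit 122614661007) (nat_lit 0) (nat_lit 122621285379) (nat_lit 924) (nat_lit 61644935743) (nat_lit 133) (nat_lit 5) (nat_lit 132) (nat_lit 5) (nat_lit 143) (nat_lit 5) (nat_lit 333) (nat_lit 324) (nat_lit 63)) (XT.lf (nat_lit 0) (nat_lit 275049552773) (nat_lit 840) (nat_lit 20025097497) (nat_lit 84) (nat_lit 20018243660) (nat_lit 133) (nat_lit 5) (nat_lit 143) (nat_lit 5) (nat_lit 134) (nat_lit 5) (nat_lit 334) (nat_lit 324) (nat_lit 62)))) (XT.nd (nat_lit 188) (nat_lit 420) (nat_lit 0) (XT.nd (nat_lit 94) (nat_lit 588) (nat_lit 0) (XT.lf (nat_lit 0) (nat_lit 155391350147)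 (nat_lit 840) (nat_lit 155398722947) (nat_lit 924) (nat_lit 12703621547) (nat_lit 123) (nat_lit 5) (nat_lit 133) (nat_lit 5) (nat_lit 134) (nat_lit 5) (nat_lit 335) (nat_lit 324) (nat_lit 61)) (XT.lf (nat_lit 0) (nat_lit 7976098447) (nat_lit 504) (nat_lit 7983965498) (nat_lit 588) (nat_lit 316318519866) (nat_lit 116) (nat_lit 5) (nat_lit 122) (nat_lit 5) (nat_lit 123) (nat_lit 5) (nat_lit 336) (nat_lit 324) (nat_lit 60))) (XT.nd (nat_lit 94) (nat_lit 420) (nat_lit 0) (XT.lf (nat_lit 0) (nat_lit 50815513490) (nat_lit 588) (nat_lit 145212728318) (nat_lit 84) (nat_lit 145204787588) (nat_lit 116) (nat_lit 5) (nat_lit 123) (nat_lit 5) (nat_lit 117) (nat_lit 5) (nat_lit 337) (nat_lit 324) (nat_lit 59)) (XT.lf (nat_lit 0) (nat_lit 44112465156) (nat_lit 420) (nat_lit 44120832838) (nat_lit 504) (nat_lit 262360921143) (nat_lit 111) (nat_lit 5) (nat_lit 116) (nat_lit 5) (nat_lit 117)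 (nat_lit 5) (nat_lit 338) (nat_lit 324) (nat_lit 58))))) (XT.nd (nat_lit 44180) (nat_lit 0) (nat_lit 1512) (XT.nd (nat_lit 43992) (nat_lit 0) (nat_lit 1428) (XT.nd (nat_lit 43898) (nat_lit 0) (nat_lit 1428) (XT.lf (nat_lit 0) (nat_lit 131822930553) (nat_lit 504) (nat_lit 114196923175) (nat_lit 84) (nat_lit 114188566696) (nat_lit 111) (nat_lit 5) (nat_lit 117) (nat_lit 5) (nat_lit 112) (nat_lit 5) (nat_lit 339) (nat_lit 324) (nat_lit 57)) (XT.lf (nat_lit 0) (nat_lit 60340891572) (nat_lit 924) (nat_lit 33992671371) (nat_lit 924) (nat_lit 33992671371) (nat_lit 128) (nat_lit 3) (nat_lit 139) (nat_lit 3) (nat_lit 139) (nat_lit 5) (nat_lit 325) (nat_lit 325) (nat_lit 70))) (XT.nd (nat_lit 94) (nat_lit 0) (nat_lit 84) (XT.lf (nat_lit 84) (nat_lit 62336033955) (nat_lit 0) (nat_lit 62337012537) (nat_lit 924) (nat_lit 138347022916) (nat_lit 129) (nat_lit 5) (nat_lit 128) (nat_lit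 3) (nat_lit 139) (nat_lit 5) (nat_lit 326) (nat_lit 325) (nat_lit 69)) (XT.lf (nat_lit 0) (nat_lit 131131779798) (nat_lit 840) (nat_lit 69231347337) (nat_lit 924) (nat_lit 69229527750) (nat_lit 129) (nat_lit 5) (nat_lit 139) (nat_lit 5) (nat_lit 140) (nat_lit 5) (nat_lit 327) (nat_lit 325) (nat_lit 68)))) (XT.nd (nat_lit 188) (nat_lit 0) (nat_lit 84) (XT.nd (nat_lit 94) (nat_lit 0) (nat_lit 84) (XT.lf (nat_lit 84) (nat_lit 70012870234) (nat_lit 0) (nat_lit 70015535157) (nat_lit 924) (nat_lit 136359716462) (nat_lit 130) (nat_lit 5) (nat_lit 129) (nat_lit 5) (nat_lit 140) (nat_lit 5) (nat_lit 328) (nat_lit 325) (nat_lit 67)) (XT.lf (nat_lit 0) (nat_lit 151605199352) (nat_lit 840) (nat_lit 65904850366) (nat_lit 924) (nat_lit 65901545599) (nat_lit 130) (nat_lit 5) (nat_lit 140) (nat_lit 5) (nat_lit 141) (nat_lit 5) (nat_lit 329) (nat_lit 325) (nat_lit 66))) (XT.nd (nat_lit 94)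 (nat_lit 0) (nat_lit 84) (XT.lf (nat_lit 84) (nat_lit 83100989316) (nat_lit 0) (nat_lit 83105024316) (nat_lit 924) (nat_lit 124457969792) (nat_lit 131) (nat_lit 5) (nat_lit 130) (nat_lit 5) (nat_lit 141) (nat_lit 5) (nat_lit 330) (nat_lit 325) (nat_lit 65)) (XT.nd (nat_lit 94) (nat_lit 0) (nat_lit 0) (XT.lf (nat_lit 0) (nat_lit 183577103031) (nat_lit 840) (nat_lit 57302190692) (nat_lit 924) (nat_lit 57297685491) (nat_lit 131) (nat_lit 5) (nat_lit 141) (nat_lit 5) (nat_lit 142) (nat_lit 5) (nat_lit 331) (nat_lit 325) (nat_lit 64)) (XT.lf (nat_lit 84) (nat_lit 102386237419) (nat_lit 0) (nat_lit 102391373423) (nat_lit 924) (nat_lit 101139970755) (nat_lit 132) (nat_lit 5) (nat_lit 131) (nat_lit 5) (nat_lit 142) (nat_lit 5) (nat_lit 332) (nat_lit 325) (nat_lit 63))))))) (XT.nd (nat_lit 44650) (nat_lit 0) (nat_lit 1428) (XT.nd (nat_lit 376) (nat_lit 1008) (nat_lit 0) (XT.nd (nat_lit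 188) (nat_lit 756) (nat_lit 0) (XT.nd (nat_lit 94) (nat_lit 0) (nat_lit 0) (XT.lf (nat_lit 0) (nat_lit 228696123076) (nat_lit 840) (nat_lit 42635827830) (nat_lit 924) (nat_lit 42630364241) (nat_lit 132) (nat_lit 5) (nat_lit 142) (nat_lit 5) (nat_lit 143) (nat_lit 5) (nat_lit 333) (nat_lit 325) (nat_lit 62)) (XT.lf (nat_lit 84) (nat_lit 128746574499) (nat_lit 0) (nat_lit 128752582999) (nat_lit 924) (nat_lit 64725698048) (nat_lit 133) (nat_lit 5) (nat_lit 132) (nat_lit 5) (nat_lit 143) (nat_lit 5) (nat_lit 334) (nat_lit 325) (nat_lit 61))) (XT.nd (nat_lit 94) (nat_lit 840) (nat_lit 0) (XT.lf (nat_lit 0) (nat_lit 288803373411) (nat_lit 840) (nat_lit 21025157349) (nat_lit 84) (nat_lit 21018940717) (nat_lit 133) (nat_lit 5) (nat_lit 143) (nat_lit 5) (nat_lit 134) (nat_lit 5) (nat_lit 335) (nat_lit 325) (nat_lit 60)) (XT.lf (nat_lit 0) (nat_lit 163162093403) (nat_lit 840) (nat_lit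 163168780750) (nat_lit 924) (nat_lit 13337440351) (nat_lit 123) (nat_lit 5) (nat_lit 133) (nat_lit 5) (nat_lit 134) (nat_lit 5) (nat_lit 336) (nat_lit 325) (nat_lit 59)))) (XT.nd (nat_lit 188) (nat_lit 420) (nat_lit 0) (XT.nd (nat_lit 94) (nat_lit 0) (nat_lit 0) (XT.lf (nat_lit 0) (nat_lit 8376103052) (nat_lit 504) (nat_lit 8383238699) (nat_lit 588) (nat_lit 332133107520) (nat_lit 116) (nat_lit 5) (nat_lit 122) (nat_lit 5) (nat_lit 123) (nat_lit 5) (nat_lit 337) (nat_lit 325) (nat_lit 58)) (XT.lf (nat_lit 0) (nat_lit 53357501964) (nat_lit 588) (nat_lit 152472160369) (nat_lit 84) (nat_lit 152464957893) (nat_lit 116) (nat_lit 5) (nat_lit 123) (nat_lit 5) (nat_lit 117) (nat_lit 5) (nat_lit 338) (nat_lit 325) (nat_lit 57))) (XT.nd (nat_lit 43992) (nat_lit 0) (nat_lit 1428) (XT.lf (nat_lit 0) (nat_lit 46319273353) (nat_lit 420) (nat_lit 46326863087) (nat_lit 504) (nat_lit 275477734976)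 (nat_lit 111) (nat_lit 5) (nat_lit 116) (nat_lit 5) (nat_lit 117) (nat_lit 5) (nat_lit 339) (nat_lit 325) (nat_lit 56)) (XT.lf (nat_lit 0) (nat_lit 63358899455) (nat_lit 924) (nat_lit 35691799205) (nat_lit 924) (nat_lit 35691799205) (nat_lit 128) (nat_lit 3) (nat_lit 139) (nat_lit 3) (nat_lit 139) (nat_lit 5) (nat_lit 326) (nat_lit 326) (nat_lit 68))))) (XT.nd (nat_lit 376) (nat_lit 0) (nat_lit 168) (XT.nd (nat_lit 188) (nat_lit 0) (nat_lit 84) (XT.nd (nat_lit 94) (nat_lit 0) (nat_lit 84) (XT.lf (nat_lit 84) (nat_lit 65453830808) (nat_lit 0) (nat_lit 65454718411) (nat_lit 924) (nat_lit 145262431139) (nat_lit 129) (nat_lit 5) (nat_lit 128) (nat_lit 3) (nat_lit 139) (nat_lit 5) (nat_lit 327) (nat_lit 326) (nat_lit 67)) (XT.lf (nat_lit 0) (nat_lit 137690118359) (nat_lit 840) (nat_lit 72691866105) (nat_lit 924) (nat_lit 72690215687) (nat_lit 129) (nat_lit 5) (nat_lit 139) (nat_lit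 5) (nat_lit 140) (nat_lit 5) (nat_lit 328) (nat_lit 326) (nat_lit 66))) (XT.nd (nat_lit 94) (nat_lit 0) (nat_lit 84) (XT.lf (nat_lit 84) (nat_lit 73514545431) (nat_lit 0) (nat_lit 73516962595) (nat_lit 924) (nat_lit 143175935802) (nat_lit 130) (nat_lit 5) (nat_lit 129) (nat_lit 5) (nat_lit 140) (nat_lit 5) (nat_lit 329) (nat_lit 326) (nat_lit 65)) (XT.lf (nat_lit 0) (nat_lit 159187051897) (nat_lit 840) (nat_lit 69199020539) (nat_lit 924) (nat_lit 69196023018) (nat_lit 130) (nat_lit 5) (nat_lit 140) (nat_lit 5) (nat_lit 141) (nat_lit 5) (nat_lit 330) (nat_lit 326) (nat_lit 64)))) (XT.nd (nat_lit 188) (nat_lit 0) (nat_lit 84) (XT.nd (nat_lit 94) (nat_lit 0) (nat_lit 84) (XT.lf (nat_lit 84) (nat_lit 87257093831) (nat_lit 0) (nat_lit 87260753695) (nat_lit 924) (nat_lit 130679258408) (nat_lit 131) (nat_lit 5) (nat_lit 130) (nat_lit 5) (nat_lit 141) (nat_lit 5) (nat_lit 331) (nat_lit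 326) (nat_lit 63)) (XT.lf (nat_lit 0) (nat_lit 192757411275) (nat_lit 840) (nat_lit 60166215297) (nat_lit 924) (nat_lit 60162128948) (nat_lit 131) (nat_lit 5) (nat_lit 141) (nat_lit 5) (nat_lit 142) (nat_lit 5) (nat_lit 332) (nat_lit 326) (nat_lit 62))) (XT.nd (nat_lit 94) (nat_lit 0) (nat_lit 84) (XT.lf (nat_lit 84) (nat_lit 107506616720) (nat_lit 0) (nat_lit 107511275227) (nat_lit 924) (nat_lit 106195498701) (nat_lit 132) (nat_lit 5) (nat_lit 131) (nat_lit 5) (nat_lit 142) (nat_lit 5) (nat_lit 333) (nat_lit 326) (nat_lit 61)) (XT.nd (nat_lit 94) (nat_lit 0) (nat_lit 0) (XT.lf (nat_lit 0) (nat_lit 240132258147) (nat_lit 840) (nat_lit 44766530974) (nat_lit 924) (nat_lit 44761575338) (nat_lit 132) (nat_lit 5) (nat_lit 142) (nat_lit 5) (nat_lit 143) (nat_lit 5) (nat_lit 334) (nat_lit 326) (nat_lit 60)) (XT.lf (nat_lit 84) (nat_lit 135184973919) (nat_lit 0) (nat_lit 135190423806)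 (nat_lit 924) (nat_lit 67960636482) (nat_lit 133) (nat_lit 5) (nat_lit 132) (nat_lit 5) (nat_lit 143) (nat_lit 5) (nat_lit 335) (nat_lit 326) (nat_lit 59))))))))
noncomputable def xc250 : XT := (XT.nd (nat_lit 89676) (nat_lit 0) (nat_lit 588) (XT.nd (nat_lit 44744) (nat_lit 0) (nat_lit 0) (XT.nd (nat_lit 44368) (nat_lit 0) (nat_lit 1008) (XT.nd (nat_lit 188) (nat_lit 588) (nat_lit 0) (XT.nd (nat_lit 94) (nat_lit 840) (nat_lit 0) (XT.lf (nat_lit 0) (nat_lit 303244760221) (nat_lit 840) (nat_lit 22075331296) (nat_lit 84) (nat_lit 22069692627) (nat_lit 133) (nat_lit 5) (nat_lit 143) (nat_lit 5) (nat_lit 134) (nat_lit 5) (nat_lit 336) (nat_lit 326) (nat_lit 58)) (XT.lf (nat_lit 0) (nat_lit 171321264511) (nat_lit 840) (nat_lit 171327330132) (nat_lit 924) (nat_lit 14003076746) (nat_lit 123) (nat_lit 5) (nat_lit 133) (nat_lit 5) (nat_lit 134) (nat_lit 5) (nat_lit 337) (nat_lit 326)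 (nat_lit 57))) (XT.nd (nat_lit 94) (nat_lit 0) (nat_lit 0) (XT.lf (nat_lit 0) (nat_lit 8795996352) (nat_lit 504) (nat_lit 8802468594) (nat_lit 588) (nat_lit 348738548983) (nat_lit 116) (nat_lit 5) (nat_lit 122) (nat_lit 5) (nat_lit 123) (nat_lit 5) (nat_lit 338) (nat_lit 326) (nat_lit 56)) (XT.lf (nat_lit 0) (nat_lit 56026477106) (nat_lit 588) (nat_lit 160094675993) (nat_lit 84) (nat_lit 160088143136) (nat_lit 116) (nat_lit 5) (nat_lit 123) (nat_lit 5) (nat_lit 117) (nat_lit 5) (nat_lit 339) (nat_lit 326) (nat_lit 55)))) (XT.nd (nat_lit 188) (nat_lit 0) (nat_lit 84) (XT.nd (nat_lit 94) (nat_lit 0) (nat_lit 0) (XT.lf (nat_lit 0) (nat_lit 66527718173) (nat_lit 924) (nat_lit 37475930449) (nat_lit 924) (nat_lit 37475930449) (nat_lit 128) (nat_lit 3) (nat_lit 139) (nat_lit 3) (nat_lit 139) (nat_lit 5) (nat_lit 327) (nat_lit 327) (nat_lit 66)) (XT.lf (nat_lit 84) (nat_lit 68727424984)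 (nat_lit 0) (nat_lit 68728230066) (nat_lit 924) (nat_lit 152523790408) (nat_lit 129) (nat_lit 5) (nat_lit 128) (nat_lit 3) (nat_lit 139) (nat_lit 5) (nat_lit 328) (nat_lit 327) (nat_lit 65))) (XT.nd (nat_lit 94) (nat_lit 0) (nat_lit 0) (XT.lf (nat_lit 0) (nat_lit 144576211189) (nat_lit 840) (nat_lit 76325508301) (nat_lit 924) (nat_lit 76324011323) (nat_lit 129) (nat_lit 5) (nat_lit 139) (nat_lit 5) (nat_lit 140) (nat_lit 5) (nat_lit 329) (nat_lit 327) (nat_lit 64)) (XT.lf (nat_lit 84) (nat_lit 77191208472) (nat_lit 0) (nat_lit 77193400911) (nat_lit 924) (nat_lit 150333130339) (nat_lit 130) (nat_lit 5) (nat_lit 129) (nat_lit 5) (nat_lit 140) (nat_lit 5) (nat_lit 330) (nat_lit 327) (nat_lit 63))))) (XT.nd (nat_lit 376) (nat_lit 1176) (nat_lit 0) (XT.nd (nat_lit 188) (nat_lit 0) (nat_lit 84) (XT.nd (nat_lit 94) (nat_lit 0) (nat_lit 0) (XT.lf (nat_lit 0) (nat_lit 167147849007)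 (nat_lit 840) (nat_lit 72657998917) (nat_lit 924) (nat_lit 72655280077) (nat_lit 130) (nat_lit 5) (nat_lit 140) (nat_lit 5) (nat_lit 141) (nat_lit 5) (nat_lit 331) (nat_lit 327) (nat_lit 62)) (XT.lf (nat_lit 84) (nat_lit 91620905483) (nat_lit 0) (nat_lit 91624225088) (nat_lit 924) (nat_lit 137211761125) (nat_lit 131) (nat_lit 5) (nat_lit 130) (nat_lit 5) (nat_lit 141) (nat_lit 5) (nat_lit 332) (nat_lit 327) (nat_lit 61))) (XT.nd (nat_lit 94) (nat_lit 0) (nat_lit 0) (XT.lf (nat_lit 0) (nat_lit 202396599837) (nat_lit 840) (nat_lit 63173542000) (nat_lit 924) (nat_lit 63169835560) (nat_lit 131) (nat_lit 5) (nat_lit 141) (nat_lit 5) (nat_lit 142) (nat_lit 5) (nat_lit 333) (nat_lit 327) (nat_lit 60)) (XT.lf (nat_lit 84) (nat_lit 112882915747) (nat_lit 0) (nat_lit 112887141150) (nat_lit 924) (nat_lit 111503939766) (nat_lit 132) (nat_lit 5) (nat_lit 131) (nat_lit 5) (nat_lit 142)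 (nat_lit 5) (nat_lit 334) (nat_lit 327) (nat_lit 59)))) (XT.nd (nat_lit 188) (nat_lit 1344) (nat_lit 0) (XT.nd (nat_lit 94) (nat_lit 0) (nat_lit 0) (XT.lf (nat_lit 0) (nat_lit 252140076421) (nat_lit 840) (nat_lit 47003870451) (nat_lit 924) (nat_lit 46999375542) (nat_lit 132) (nat_lit 5) (nat_lit 142) (nat_lit 5) (nat_lit 143) (nat_lit 5) (nat_lit 335) (nat_lit 327) (nat_lit 58)) (XT.lf (nat_lit 84) (nat_lit 141945193766) (nat_lit 0) (nat_lit 141950136975) (nat_lit 924) (nat_lit 71357447019) (nat_lit 133) (nat_lit 5) (nat_lit 132) (nat_lit 5) (nat_lit 143) (nat_lit 5) (nat_lit 336) (nat_lit 327) (nat_lit 57))) (XT.nd (nat_lit 94) (nat_lit 1428) (nat_lit 0) (XT.lf (nat_lit 0) (nat_lit 318408103121) (nat_lit 840) (nat_lit 23178114713) (nat_lit 84) (nat_lit 23173000274) (nat_lit 133) (nat_lit 5) (nat_lit 143) (nat_lit 5) (nat_lit 134) (nat_lit 5) (nat_lit 337) (nat_lit 327)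 (nat_lit 56)) (XT.nd (nat_lit 94) (nat_lit 588) (nat_lit 0) (XT.lf (nat_lit 0) (nat_lit 179888295028) (nat_lit 840) (nat_lit 179893796725) (nat_lit 924) (nat_lit 14702109837) (nat_lit 123) (nat_lit 5) (nat_lit 133) (nat_lit 5) (nat_lit 134) (nat_lit 5) (nat_lit 338) (nat_lit 327) (nat_lit 55)) (XT.lf (nat_lit 0) (nat_lit 9236783152) (nat_lit 504) (nat_lit 9242653666) (nat_lit 588) (nat_lit 366174375377) (nat_lit 116) (nat_lit 5) (nat_lit 122) (nat_lit 5) (nat_lit 123) (nat_lit 5) (nat_lit 339) (nat_lit 327) (nat_lit 54))))))) (XT.nd (nat_lit 752) (nat_lit 420) (nat_lit 0) (XT.nd (nat_lit 376) (nat_lit 0) (nat_lit 168) (XT.nd (nat_lit 188) (nat_lit 0) (nat_lit 84) (XT.nd (nat_lit 94) (nat_lit 0) (nat_lit 0) (XT.lf (nat_lit 0) (nat_lit 69854896594) (nat_lit 924) (nat_lit 39349310902) (nat_lit 924) (nat_lit 39349310902) (nat_lit 128) (nat_lit 3) (nat_lit 139) (nat_lit 3) (nat_lit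 139) (nat_lit 5) (nat_lit 328) (nat_lit 328) (nat_lit 64)) (XT.lf (nat_lit 84) (nat_lit 72164614950) (nat_lit 0) (nat_lit 72165345183) (nat_lit 924) (nat_lit 160148381482) (nat_lit 129) (nat_lit 5) (nat_lit 128) (nat_lit 3) (nat_lit 139) (nat_lit 5) (nat_lit 329) (nat_lit 328) (nat_lit 63))) (XT.nd (nat_lit 94) (nat_lit 0) (nat_lit 0) (XT.lf (nat_lit 0) (nat_lit 151806461125) (nat_lit 840) (nat_lit 80140921032) (nat_lit 924) (nat_lit 80139563228) (nat_lit 129) (nat_lit 5) (nat_lit 139) (nat_lit 5) (nat_lit 140) (nat_lit 5) (nat_lit 330) (nat_lit 328) (nat_lit 62)) (XT.lf (nat_lit 84) (nat_lit 81051617666) (nat_lit 0) (nat_lit 81053606273) (nat_lit 924) (nat_lit 157848333565) (nat_lit 130) (nat_lit 5) (nat_lit 129) (nat_lit 5) (nat_lit 140) (nat_lit 5) (nat_lit 331) (nat_lit 328) (nat_lit 61)))) (XT.nd (nat_lit 188) (nat_lit 0) (nat_lit 84) (XT.nd (nat_lit 94) (nat_lit 0)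 (nat_lit 0) (XT.lf (nat_lit 0) (nat_lit 175506551675) (nat_lit 840) (nat_lit 76290016642) (nat_lit 924) (nat_lit 76287550574) (nat_lit 130) (nat_lit 5) (nat_lit 140) (nat_lit 5) (nat_lit 141) (nat_lit 5) (nat_lit 332) (nat_lit 328) (nat_lit 60)) (XT.lf (nat_lit 84) (nat_lit 96202818749) (nat_lit 0) (nat_lit 96205829729) (nat_lit 924) (nat_lit 144071024735) (nat_lit 131) (nat_lit 5) (nat_lit 130) (nat_lit 5) (nat_lit 141) (nat_lit 5) (nat_lit 333) (nat_lit 328) (nat_lit 59))) (XT.nd (nat_lit 94) (nat_lit 0) (nat_lit 0) (XT.lf (nat_lit 0) (nat_lit 212517625292) (nat_lit 840) (nat_lit 66331326526) (nat_lit 924) (nat_lit 66327964675) (nat_lit 131) (nat_lit 5) (nat_lit 141) (nat_lit 5) (nat_lit 142) (nat_lit 5) (nat_lit 334) (nat_lit 328) (nat_lit 58)) (XT.lf (nat_lit 84) (nat_lit 118527939712) (nat_lit 0) (nat_lit 118531772277) (nat_lit 924) (nat_lit 117077926895) (nat_lit 132)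 (nat_lit 5) (nat_lit 131) (nat_lit 5) (nat_lit 142) (nat_lit 5) (nat_lit 335) (nat_lit 328) (nat_lit 57))))) (XT.nd (nat_lit 44556) (nat_lit 0) (nat_lit 420) (XT.nd (nat_lit 188) (nat_lit 756) (nat_lit 0) (XT.nd (nat_lit 94) (nat_lit 0) (nat_lit 0) (XT.lf (nat_lit 0) (nat_lit 264748173545) (nat_lit 840) (nat_lit 49353168670) (nat_lit 924) (nat_lit 49349091655) (nat_lit 132) (nat_lit 5) (nat_lit 142) (nat_lit 5) (nat_lit 143) (nat_lit 5) (nat_lit 336) (nat_lit 328) (nat_lit 56)) (XT.lf (nat_lit 84) (nat_lit 149043334318) (nat_lit 0) (nat_lit 149047817954) (nat_lit 924) (nat_lit 74924211627) (nat_lit 133) (nat_lit 5) (nat_lit 132) (nat_lit 5) (nat_lit 143) (nat_lit 5) (nat_lit 337) (nat_lit 328) (nat_lit 55))) (XT.nd (nat_lit 94) (nat_lit 840) (nat_lit 0) (XT.lf (nat_lit 0) (nat_lit 334329510443) (nat_lit 840) (nat_lit 24336128704) (nat_lit 84) (nat_lit 24331489757) (nat_lit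 133) (nat_lit 5) (nat_lit 143) (nat_lit 5) (nat_lit 134) (nat_lit 5) (nat_lit 338) (nat_lit 328) (nat_lit 54)) (XT.lf (nat_lit 0) (nat_lit 188883587141) (nat_lit 840) (nat_lit 188888577342) (nat_lit 924) (nat_lit 15436198780) (nat_lit 123) (nat_lit 5) (nat_lit 133) (nat_lit 5) (nat_lit 134) (nat_lit 5) (nat_lit 339) (nat_lit 328) (nat_lit 53)))) (XT.nd (nat_lit 188) (nat_lit 0) (nat_lit 84) (XT.nd (nat_lit 94) (nat_lit 0) (nat_lit 0) (XT.lf (nat_lit 0) (nat_lit 73348360257) (nat_lit 924) (nat_lit 41316399061) (nat_lit 924) (nat_lit 41316399061) (nat_lit 128) (nat_lit 3) (nat_lit 139) (nat_lit 3) (nat_lit 139) (nat_lit 5) (nat_lit 329) (nat_lit 329) (nat_lit 62)) (XT.lf (nat_lit 84) (nat_lit 75773588297) (nat_lit 0) (nat_lit 75774250640) (nat_lit 924) (nat_lit 168154350717) (nat_lit 129) (nat_lit 5) (nat_lit 128) (nat_lit 3) (nat_lit 139) (nat_lit 5) (nat_lit 330) (nat_lit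 329) (nat_lit 61))) (XT.nd (nat_lit 94) (nat_lit 0) (nat_lit 0) (XT.lf (nat_lit 0) (nat_lit 159398089738) (nat_lit 840) (nat_lit 84147184603) (nat_lit 924) (nat_lit 84145953035) (nat_lit 129) (nat_lit 5) (nat_lit 139) (nat_lit 5) (nat_lit 140) (nat_lit 5) (nat_lit 331) (nat_lit 329) (nat_lit 60)) (XT.nd (nat_lit 94) (nat_lit 0) (nat_lit 84) (XT.lf (nat_lit 84) (nat_lit 85104968409) (nat_lit 0) (nat_lit 85106772134) (nat_lit 924) (nat_lit 165739432066) (nat_lit 130) (nat_lit 5) (nat_lit 129) (nat_lit 5) (nat_lit 140) (nat_lit 5) (nat_lit 332) (nat_lit 329) (nat_lit 59)) (XT.lf (nat_lit 0) (nat_lit 184283067665) (nat_lit 840) (nat_lit 80103717273) (nat_lit 924) (nat_lit 80101480477) (nat_lit 130) (nat_lit 5) (nat_lit 140) (nat_lit 5) (nat_lit 141) (nat_lit 5) (nat_lit 333) (nat_lit 329) (nat_lit 58))))))))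
noncomputable def xc251 : XT := (XT.nd (nat_lit 90146) (nat_lit 0) (nat_lit 0) (XT.nd (nat_lit 45026) (nat_lit 0) (nat_lit 84) (XT.nd (nat_lit 376) (nat_lit 168) (nat_lit 0) (XT.nd (nat_lit 188) (nat_lit 0) (nat_lit 84) (XT.nd (nat_lit 94) (nat_lit 0) (nat_lit 84) (XT.lf (nat_lit 84) (nat_lit 101013746981) (nat_lit 0) (nat_lit 101016478028) (nat_lit 924) (nat_lit 151273374659) (nat_lit 131) (nat_lit 5) (nat_lit 130) (nat_lit 5) (nat_lit 141) (nat_lit 5) (nat_lit 334) (nat_lit 329) (nat_lit 57)) (XT.lf (nat_lit 0) (nat_lit 223144590876) (nat_lit 840) (nat_lit 69647083261) (nat_lit 924) (nat_lit 69644033964) (nat_lit 131) (nat_lit 5) (nat_lit 141) (nat_lit 5) (nat_lit 142) (nat_lit 5) (nat_lit 335) (nat_lit 329) (nat_lit 56))) (XT.nd (nat_lit 94) (nat_lit 0) (nat_lit 84) (XT.lf (nat_lit 84) (nat_lit 124455133231) (nat_lit 0) (nat_lit 124458609480) (nat_lit 924) (nat_lit 122930725862)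 (nat_lit 132) (nat_lit 5) (nat_lit 131) (nat_lit 5) (nat_lit 142) (nat_lit 5) (nat_lit 336) (nat_lit 329) (nat_lit 55)) (XT.lf (nat_lit 0) (nat_lit 277986573880) (nat_lit 840) (nat_lit 51820015036) (nat_lit 924) (nat_lit 51816317064) (nat_lit 132) (nat_lit 5) (nat_lit 142) (nat_lit 5) (nat_lit 143) (nat_lit 5) (nat_lit 337) (nat_lit 329) (nat_lit 54)))) (XT.nd (nat_lit 44462) (nat_lit 336) (nat_lit 0) (XT.nd (nat_lit 94) (nat_lit 0) (nat_lit 84) (XT.lf (nat_lit 84) (nat_lit 156496300003) (nat_lit 0) (nat_lit 156500366793) (nat_lit 924) (nat_lit 78669417452) (nat_lit 133) (nat_lit 5) (nat_lit 132) (nat_lit 5) (nat_lit 143) (nat_lit 5) (nat_lit 338) (nat_lit 329) (nat_lit 53)) (XT.lf (nat_lit 0) (nat_lit 351046894960) (nat_lit 840) (nat_lit 25552126301) (nat_lit 84) (nat_lit 25547918639) (nat_lit 133) (nat_lit 5) (nat_lit 143) (nat_lit 5) (nat_lit 134) (nat_lit 5) (nat_lit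 339) (nat_lit 329) (nat_lit 52))) (XT.nd (nat_lit 94) (nat_lit 0) (nat_lit 0) (XT.lf (nat_lit 0) (nat_lit 77016430272) (nat_lit 924) (nat_lit 43381876712) (nat_lit 924) (nat_lit 43381876712) (nat_lit 128) (nat_lit 3) (nat_lit 139) (nat_lit 3) (nat_lit 139) (nat_lit 5) (nat_lit 330) (nat_lit 330) (nat_lit 60)) (XT.lf (nat_lit 84) (nat_lit 79562941272) (nat_lit 0) (nat_lit 79563542037) (nat_lit 924) (nat_lit 176560753207) (nat_lit 129) (nat_lit 5) (nat_lit 128) (nat_lit 3) (nat_lit 139) (nat_lit 5) (nat_lit 331) (nat_lit 330) (nat_lit 59))))) (XT.nd (nat_lit 376) (nat_lit 0) (nat_lit 168) (XT.nd (nat_lit 188) (nat_lit 0) (nat_lit 84) (XT.nd (nat_lit 94) (nat_lit 0) (nat_lit 0) (XT.lf (nat_lit 0) (nat_lit 167369178403) (nat_lit 840) (nat_lit 88353834100) (nat_lit 924) (nat_lit 88352717032) (nat_lit 129) (nat_lit 5) (nat_lit 139) (nat_lit 5) (nat_lit 140) (nat_lit 5) (nat_lit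 332) (nat_lit 330) (nat_lit 58)) (XT.lf (nat_lit 84) (nat_lit 89360915115) (nat_lit 0) (nat_lit 89362551146) (nat_lit 924) (nat_lit 174025208044) (nat_lit 130) (nat_lit 5) (nat_lit 129) (nat_lit 5) (nat_lit 140) (nat_lit 5) (nat_lit 333) (nat_lit 330) (nat_lit 57))) (XT.nd (nat_lit 94) (nat_lit 0) (nat_lit 0) (XT.lf (nat_lit 0) (nat_lit 193498298967) (nat_lit 840) (nat_lit 84108177331) (nat_lit 924) (nat_lit 84106148491) (nat_lit 130) (nat_lit 5) (nat_lit 140) (nat_lit 5) (nat_lit 141) (nat_lit 5) (nat_lit 334) (nat_lit 330) (nat_lit 56)) (XT.lf (nat_lit 84) (nat_lit 106065148429) (nat_lit 0) (nat_lit 106067625569) (nat_lit 924) (nat_lit 158835953766) (nat_lit 131) (nat_lit 5) (nat_lit 130) (nat_lit 5) (nat_lit 141) (nat_lit 5) (nat_lit 335) (nat_lit 330) (nat_lit 55)))) (XT.nd (nat_lit 188) (nat_lit 0) (nat_lit 84) (XT.nd (nat_lit 94) (nat_lit 0) (nat_lit 0) (XT.lf (nat_lit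 0) (nat_lit 234302803931) (nat_lit 840) (nat_lit 73128703101) (nat_lit 924) (nat_lit 73125937299) (nat_lit 131) (nat_lit 5) (nat_lit 141) (nat_lit 5) (nat_lit 142) (nat_lit 5) (nat_lit 336) (nat_lit 330) (nat_lit 54)) (XT.lf (nat_lit 84) (nat_lit 130678612371) (nat_lit 0) (nat_lit 130681765432) (nat_lit 924) (nat_lit 129076266800) (nat_lit 132) (nat_lit 5) (nat_lit 131) (nat_lit 5) (nat_lit 142) (nat_lit 5) (nat_lit 337) (nat_lit 330) (nat_lit 53))) (XT.nd (nat_lit 94) (nat_lit 0) (nat_lit 0) (XT.lf (nat_lit 0) (nat_lit 291886802037) (nat_lit 840) (nat_lit 54410279219) (nat_lit 924) (nat_lit 54406925050) (nat_lit 132) (nat_lit 5) (nat_lit 142) (nat_lit 5) (nat_lit 143) (nat_lit 5) (nat_lit 338) (nat_lit 330) (nat_lit 52)) (XT.nd (nat_lit 94) (nat_lit 0) (nat_lit 84) (XT.lf (nat_lit 84) (nat_lit 164321839692) (nat_lit 0) (nat_lit 164325528390) (nat_lit 924) (nat_lit 82601976982)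 (nat_lit 133) (nat_lit 5) (nat_lit 132) (nat_lit 5) (nat_lit 143) (nat_lit 5) (nat_lit 339) (nat_lit 330) (nat_lit 51)) (XT.lf (nat_lit 0) (nat_lit 368600064193) (nat_lit 840) (nat_lit 26828998975) (nat_lit 84) (nat_lit 26825182502) (nat_lit 133) (nat_lit 5) (nat_lit 143) (nat_lit 5) (nat_lit 134) (nat_lit 5) (nat_lit 340) (nat_lit 330) (nat_lit 50))))))) (XT.nd (nat_lit 752) (nat_lit 0) (nat_lit 0) (XT.nd (nat_lit 376) (nat_lit 0) (nat_lit 168) (XT.nd (nat_lit 188) (nat_lit 0) (nat_lit 84) (XT.nd (nat_lit 94) (nat_lit 0) (nat_lit 0) (XT.lf (nat_lit 0) (nat_lit 80867843170) (nat_lit 924) (nat_lit 45550660071) (nat_lit 924) (nat_lit 45550660071) (nat_lit 128) (nat_lit 3) (nat_lit 139) (nat_lit 3) (nat_lit 139) (nat_lit 5) (nat_lit 331) (nat_lit 331) (nat_lit 58)) (XT.lf (nat_lit 84) (nat_lit 83541699275) (nat_lit 0) (nat_lit 83542244187) (nat_lit 924) (nat_lit 185387598081)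 (nat_lit 129) (nat_lit 5) (nat_lit 128) (nat_lit 3) (nat_lit 139) (nat_lit 5) (nat_lit 332) (nat_lit 331) (nat_lit 57))) (XT.nd (nat_lit 94) (nat_lit 0) (nat_lit 0) (XT.lf (nat_lit 0) (nat_lit 175738711408) (nat_lit 840) (nat_lit 92770882057) (nat_lit 924) (nat_lit 92769868843) (nat_lit 129) (nat_lit 5) (nat_lit 139) (nat_lit 5) (nat_lit 140) (nat_lit 5) (nat_lit 333) (nat_lit 331) (nat_lit 56)) (XT.lf (nat_lit 84) (nat_lit 93829594236) (nat_lit 0) (nat_lit 93831078165) (nat_lit 924) (nat_lit 182725383978) (nat_lit 130) (nat_lit 5) (nat_lit 129) (nat_lit 5) (nat_lit 140) (nat_lit 5) (nat_lit 334) (nat_lit 331) (nat_lit 55)))) (XT.nd (nat_lit 188) (nat_lit 0) (nat_lit 84) (XT.nd (nat_lit 94) (nat_lit 0) (nat_lit 0) (XT.lf (nat_lit 0) (nat_lit 203174191620) (nat_lit 840) (nat_lit 88312927871) (nat_lit 924) (nat_lit 88311087653) (nat_lit 130) (nat_lit 5) (nat_lit 140) (nat_lit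 5) (nat_lit 141) (nat_lit 5) (nat_lit 335) (nat_lit 331) (nat_lit 54)) (XT.lf (nat_lit 84) (nat_lit 111369053560) (nat_lit 0) (nat_lit 111371300399) (nat_lit 924) (nat_lit 166776763132) (nat_lit 131) (nat_lit 5) (nat_lit 130) (nat_lit 5) (nat_lit 141) (nat_lit 5) (nat_lit 336) (nat_lit 331) (nat_lit 53))) (XT.nd (nat_lit 94) (nat_lit 0) (nat_lit 0) (XT.lf (nat_lit 0) (nat_lit 246018836200) (nat_lit 840) (nat_lit 76784472204) (nat_lit 924) (nat_lit 76781963540) (nat_lit 131) (nat_lit 5) (nat_lit 141) (nat_lit 5) (nat_lit 142) (nat_lit 5) (nat_lit 337) (nat_lit 331) (nat_lit 52)) (XT.lf (nat_lit 84) (nat_lit 137213198299) (nat_lit 0) (nat_lit 137216058218) (nat_lit 924) (nat_lit 135529177325) (nat_lit 132) (nat_lit 5) (nat_lit 131) (nat_lit 5) (nat_lit 142) (nat_lit 5) (nat_lit 338) (nat_lit 331) (nat_lit 51))))) (XT.nd (nat_lit 44744) (nat_lit 0) (nat_lit 84) (XT.nd (nat_lit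 44556) (nat_lit 336) (nat_lit 0) (XT.nd (nat_lit 94) (nat_lit 0) (nat_lit 0) (XT.lf (nat_lit 0) (nat_lit 306481957978) (nat_lit 840) (nat_lit 57130125091) (nat_lit 924) (nat_lit 57127082760) (nat_lit 132) (nat_lit 5) (nat_lit 142) (nat_lit 5) (nat_lit 143) (nat_lit 5) (nat_lit 339) (nat_lit 331) (nat_lit 50)) (XT.lf (nat_lit 84) (nat_lit 172538588990) (nat_lit 0) (nat_lit 172541934748) (nat_lit 924) (nat_lit 86731249216) (nat_lit 133) (nat_lit 5) (nat_lit 132) (nat_lit 5) (nat_lit 143) (nat_lit 5) (nat_lit 340) (nat_lit 331) (nat_lit 49))) (XT.nd (nat_lit 94) (nat_lit 0) (nat_lit 0) (XT.lf (nat_lit 0) (nat_lit 84911771733) (nat_lit 924) (nat_lit 47827911462) (nat_lit 924) (nat_lit 47827911462) (nat_lit 128) (nat_lit 3) (nat_lit 139) (nat_lit 3) (nat_lit 139) (nat_lit 5) (nat_lit 332) (nat_lit 332) (nat_lit 56)) (XT.lf (nat_lit 84) (nat_lit 87719338379) (nat_lit 0) (nat_lit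 87719832629) (nat_lit 924) (nat_lit 194655896094) (nat_lit 129) (nat_lit 5) (nat_lit 128) (nat_lit 3) (nat_lit 139) (nat_lit 5) (nat_lit 333) (nat_lit 332) (nat_lit 55)))) (XT.nd (nat_lit 188) (nat_lit 0) (nat_lit 84) (XT.nd (nat_lit 94) (nat_lit 0) (nat_lit 0) (XT.lf (nat_lit 0) (nat_lit 184526621205) (nat_lit 840) (nat_lit 97408842261) (nat_lit 924) (nat_lit 97407923246) (nat_lit 129) (nat_lit 5) (nat_lit 139) (nat_lit 5) (nat_lit 140) (nat_lit 5) (nat_lit 334) (nat_lit 332) (nat_lit 54)) (XT.lf (nat_lit 84) (nat_lit 98521648429) (nat_lit 0) (nat_lit 98522994396) (nat_lit 924) (nat_lit 191860669533) (nat_lit 130) (nat_lit 5) (nat_lit 129) (nat_lit 5) (nat_lit 140) (nat_lit 5) (nat_lit 335) (nat_lit 332) (nat_lit 53))) (XT.nd (nat_lit 94) (nat_lit 0) (nat_lit 0) (XT.lf (nat_lit 0) (nat_lit 213333788008) (nat_lit 840) (nat_lit 92727977143) (nat_lit 924) (nat_lit 92726308011)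 (nat_lit 130) (nat_lit 5) (nat_lit 140) (nat_lit 5) (nat_lit 141) (nat_lit 5) (nat_lit 336) (nat_lit 332) (nat_lit 52)) (XT.nd (nat_lit 94) (nat_lit 0) (nat_lit 84) (XT.lf (nat_lit 84) (nat_lit 116938093729) (nat_lit 0) (nat_lit 116940131678) (nat_lit 924) (nat_lit 175114704851) (nat_lit 131) (nat_lit 5) (nat_lit 130) (nat_lit 5) (nat_lit 141) (nat_lit 5) (nat_lit 337) (nat_lit 332) (nat_lit 51)) (XT.lf (nat_lit 0) (nat_lit 258320587147) (nat_lit 840) (nat_lit 80623091685) (nat_lit 924) (nat_lit 80620816253) (nat_lit 131) (nat_lit 5) (nat_lit 141) (nat_lit 5) (nat_lit 142) (nat_lit 5) (nat_lit 338) (nat_lit 332) (nat_lit 50))))))))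
noncomputable def xc252 : XT := (XT.nd (nat_lit 90522) (nat_lit 0) (nat_lit 0) (XT.nd (nat_lit 45214) (nat_lit 0) (nat_lit 0) (XT.nd (nat_lit 44838) (nat_lit 0) (nat_lit 84) (XT.nd (nat_lit 44650) (nat_lit 252) (nat_lit 0) (XT.nd (nat_lit 94) (nat_lit 0) (nat_lit 84) (XT.lf (nat_lit 84) (nat_lit 144074452599) (nat_lit 0) (nat_lit 144077046630) (nat_lit 924) (nat_lit 142304817311) (nat_lit 132) (nat_lit 5) (nat_lit 131) (nat_lit 5) (nat_lit 142) (nat_lit 5) (nat_lit 339) (nat_lit 332) (nat_lit 49)) (XT.lf (nat_lit 0) (nat_lit 321806795867) (nat_lit 840) (nat_lit 59986025369) (nat_lit 924) (nat_lit 59983265885) (nat_lit 132) (nat_lit 5) (nat_lit 142) (nat_lit 5) (nat_lit 143) (nat_lit 5) (nat_lit 340) (nat_lit 332) (nat_lit 48))) (XT.nd (nat_lit 94) (nat_lit 0) (nat_lit 0) (XT.lf (nat_lit 0) (nat_lit 89157846853) (nat_lit 924) (nat_lit 50219051605) (nat_lit 924) (nat_lit 50219051605)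 (nat_lit 128) (nat_lit 3) (nat_lit 139) (nat_lit 3) (nat_lit 139) (nat_lit 5) (nat_lit 333) (nat_lit 333) (nat_lit 54)) (XT.lf (nat_lit 84) (nat_lit 92105807919) (nat_lit 0) (nat_lit 92106256219) (nat_lit 924) (nat_lit 204387709591) (nat_lit 129) (nat_lit 5) (nat_lit 128) (nat_lit 3) (nat_lit 139) (nat_lit 5) (nat_lit 334) (nat_lit 333) (nat_lit 53)))) (XT.nd (nat_lit 188) (nat_lit 0) (nat_lit 84) (XT.nd (nat_lit 94) (nat_lit 0) (nat_lit 0) (XT.lf (nat_lit 0) (nat_lit 193753835917) (nat_lit 840) (nat_lit 102278754761) (nat_lit 924) (nat_lit 102277921187) (nat_lit 129) (nat_lit 5) (nat_lit 139) (nat_lit 5) (nat_lit 140) (nat_lit 5) (nat_lit 335) (nat_lit 333) (nat_lit 52)) (XT.lf (nat_lit 84) (nat_lit 103448251922) (nat_lit 0) (nat_lit 103449472753) (nat_lit 924) (nat_lit 201452810815) (nat_lit 130) (nat_lit 5) (nat_lit 129) (nat_lit 5) (nat_lit 140) (nat_lit 5) (nat_lit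 336) (nat_lit 333) (nat_lit 51))) (XT.nd (nat_lit 94) (nat_lit 0) (nat_lit 0) (XT.lf (nat_lit 0) (nat_lit 224001281769) (nat_lit 840) (nat_lit 97363834392) (nat_lit 924) (nat_lit 97362320441) (nat_lit 130) (nat_lit 5) (nat_lit 140) (nat_lit 5) (nat_lit 141) (nat_lit 5) (nat_lit 337) (nat_lit 333) (nat_lit 50)) (XT.lf (nat_lit 84) (nat_lit 122785531287) (nat_lit 0) (nat_lit 122787379767) (nat_lit 924) (nat_lit 183869626998) (nat_lit 131) (nat_lit 5) (nat_lit 130) (nat_lit 5) (nat_lit 141) (nat_lit 5) (nat_lit 338) (nat_lit 333) (nat_lit 49))))) (XT.nd (nat_lit 44838) (nat_lit 0) (nat_lit 0) (XT.nd (nat_lit 188) (nat_lit 252) (nat_lit 0) (XT.nd (nat_lit 94) (nat_lit 0) (nat_lit 0) (XT.lf (nat_lit 0) (nat_lit 271237350415) (nat_lit 840) (nat_lit 84653698306) (nat_lit 924) (nat_lit 84651634422) (nat_lit 131) (nat_lit 5) (nat_lit 141) (nat_lit 5) (nat_lit 142) (nat_lit 5) (nat_lit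 339) (nat_lit 333) (nat_lit 48)) (XT.lf (nat_lit 84) (nat_lit 151278714354) (nat_lit 0) (nat_lit 151281067217) (nat_lit 924) (nat_lit 149419315427) (nat_lit 132) (nat_lit 5) (nat_lit 131) (nat_lit 5) (nat_lit 142) (nat_lit 5) (nat_lit 340) (nat_lit 333) (nat_lit 47))) (XT.nd (nat_lit 44556) (nat_lit 336) (nat_lit 0) (XT.lf (nat_lit 0) (nat_lit 337897806854) (nat_lit 840) (nat_lit 62984776998) (nat_lit 924) (nat_lit 62982274065) (nat_lit 132) (nat_lit 5) (nat_lit 142) (nat_lit 5) (nat_lit 143) (nat_lit 5) (nat_lit 341) (nat_lit 333) (nat_lit 46)) (XT.lf (nat_lit 0) (nat_lit 93616180497) (nat_lit 924) (nat_lit 52729772503) (nat_lit 924) (nat_lit 52729772503) (nat_lit 128) (nat_lit 3) (nat_lit 139) (nat_lit 3) (nat_lit 139) (nat_lit 5) (nat_lit 334) (nat_lit 334) (nat_lit 52)))) (XT.nd (nat_lit 188) (nat_lit 0) (nat_lit 84) (XT.nd (nat_lit 94) (nat_lit 0) (nat_lit 84) (XT.lf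 (nat_lit 84) (nat_lit 96711554207) (nat_lit 0) (nat_lit 96711960828) (nat_lit 924) (nat_lit 214606204995) (nat_lit 129) (nat_lit 5) (nat_lit 128) (nat_lit 3) (nat_lit 139) (nat_lit 5) (nat_lit 335) (nat_lit 334) (nat_lit 51)) (XT.lf (nat_lit 0) (nat_lit 203442329212) (nat_lit 840) (nat_lit 107392212124) (nat_lit 924) (nat_lit 107391456048) (nat_lit 129) (nat_lit 5) (nat_lit 139) (nat_lit 5) (nat_lit 140) (nat_lit 5) (nat_lit 336) (nat_lit 334) (nat_lit 50))) (XT.nd (nat_lit 94) (nat_lit 0) (nat_lit 84) (XT.lf (nat_lit 84) (nat_lit 108621137145) (nat_lit 0) (nat_lit 108622244475) (nat_lit 924) (nat_lit 211524642110) (nat_lit 130) (nat_lit 5) (nat_lit 129) (nat_lit 5) (nat_lit 140) (nat_lit 5) (nat_lit 337) (nat_lit 334) (nat_lit 49)) (XT.nd (nat_lit 94) (nat_lit 0) (nat_lit 0) (XT.lf (nat_lit 0) (nat_lit 235202075435) (nat_lit 840) (nat_lit 102231534858) (nat_lit 924) (nat_lit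 102230161659) (nat_lit 130) (nat_lit 5) (nat_lit 140) (nat_lit 5) (nat_lit 141) (nat_lit 5) (nat_lit 338) (nat_lit 334) (nat_lit 48)) (XT.lf (nat_lit 84) (nat_lit 128925291182) (nat_lit 0) (nat_lit 128926967808) (nat_lit 924) (nat_lit 193062370846) (nat_lit 131) (nat_lit 5) (nat_lit 130) (nat_lit 5) (nat_lit 141) (nat_lit 5) (nat_lit 339) (nat_lit 334) (nat_lit 47))))))) (XT.nd (nat_lit 45308) (nat_lit 0) (nat_lit 0) (XT.nd (nat_lit 44932) (nat_lit 0) (nat_lit 84) (XT.nd (nat_lit 44744) (nat_lit 252) (nat_lit 0) (XT.nd (nat_lit 94) (nat_lit 0) (nat_lit 0) (XT.lf (nat_lit 0) (nat_lit 284799883614) (nat_lit 840) (nat_lit 88885886203) (nat_lit 924) (nat_lit 88884014199) (nat_lit 131) (nat_lit 5) (nat_lit 141) (nat_lit 5) (nat_lit 142) (nat_lit 5) (nat_lit 340) (nat_lit 334) (nat_lit 46)) (XT.lf (nat_lit 84) (nat_lit 158843139074) (nat_lit 0) (nat_lit 158845273190) (nat_lit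 924) (nat_lit 156889607504) (nat_lit 132) (nat_lit 5) (nat_lit 131) (nat_lit 5) (nat_lit 142) (nat_lit 5) (nat_lit 341) (nat_lit 334) (nat_lit 45))) (XT.nd (nat_lit 94) (nat_lit 0) (nat_lit 0) (XT.lf (nat_lit 0) (nat_lit 98297389794) (nat_lit 924) (nat_lit 55366050985) (nat_lit 924) (nat_lit 55366050985) (nat_lit 128) (nat_lit 3) (nat_lit 139) (nat_lit 3) (nat_lit 139) (nat_lit 5) (nat_lit 335) (nat_lit 335) (nat_lit 50)) (XT.lf (nat_lit 84) (nat_lit 101547545425) (nat_lit 0) (nat_lit 101547914242) (nat_lit 924) (nat_lit 225335707920) (nat_lit 129) (nat_lit 5) (nat_lit 128) (nat_lit 3) (nat_lit 139) (nat_lit 5) (nat_lit 336) (nat_lit 335) (nat_lit 49)))) (XT.nd (nat_lit 188) (nat_lit 0) (nat_lit 84) (XT.nd (nat_lit 94) (nat_lit 0) (nat_lit 0) (XT.lf (nat_lit 0) (nat_lit 213615172655) (nat_lit 840) (nat_lit 112761387016) (nat_lit 924) (nat_lit 112760701233) (nat_lit 129)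 (nat_lit 5) (nat_lit 139) (nat_lit 5) (nat_lit 140) (nat_lit 5) (nat_lit 337) (nat_lit 335) (nat_lit 48)) (XT.lf (nat_lit 84) (nat_lit 114052622688) (nat_lit 0) (nat_lit 114053627070) (nat_lit 924) (nat_lit 222100140205) (nat_lit 130) (nat_lit 5) (nat_lit 129) (nat_lit 5) (nat_lit 140) (nat_lit 5) (nat_lit 338) (nat_lit 335) (nat_lit 47))) (XT.nd (nat_lit 94) (nat_lit 0) (nat_lit 0) (XT.lf (nat_lit 0) (nat_lit 246962840956) (nat_lit 840) (nat_lit 107342666020) (nat_lit 924) (nat_lit 107341420488) (nat_lit 130) (nat_lit 5) (nat_lit 140) (nat_lit 5) (nat_lit 141) (nat_lit 5) (nat_lit 339) (nat_lit 335) (nat_lit 46)) (XT.lf (nat_lit 84) (nat_lit 135371994135) (nat_lit 0) (nat_lit 135373514885) (nat_lit 924) (nat_lit 202714820452) (nat_lit 131) (nat_lit 5) (nat_lit 130) (nat_lit 5) (nat_lit 141) (nat_lit 5) (nat_lit 340) (nat_lit 335) (nat_lit 45))))) (XT.nd (nat_lit 44932)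 (nat_lit 0) (nat_lit 84) (XT.nd (nat_lit 44744) (nat_lit 252) (nat_lit 0) (XT.nd (nat_lit 94) (nat_lit 0) (nat_lit 0) (XT.lf (nat_lit 0) (nat_lit 299040481585) (nat_lit 840) (nat_lit 93329729703) (nat_lit 924) (nat_lit 93328031740) (nat_lit 131) (nat_lit 5) (nat_lit 141) (nat_lit 5) (nat_lit 142) (nat_lit 5) (nat_lit 341) (nat_lit 335) (nat_lit 44)) (XT.lf (nat_lit 84) (nat_lit 166785739567) (nat_lit 0) (nat_lit 166787675273) (nat_lit 924) (nat_lit 164733476818) (nat_lit 132) (nat_lit 5) (nat_lit 131) (nat_lit 5) (nat_lit 142) (nat_lit 5) (nat_lit 342) (nat_lit 335) (nat_lit 43))) (XT.nd (nat_lit 94) (nat_lit 0) (nat_lit 0) (XT.lf (nat_lit 0) (nat_lit 103212622343) (nat_lit 924) (nat_lit 58134162928) (nat_lit 924) (nat_lit 58134162928) (nat_lit 128) (nat_lit 3) (nat_lit 139) (nat_lit 3) (nat_lit 139) (nat_lit 5) (nat_lit 336) (nat_lit 336) (nat_lit 48)) (XT.lf (nat_lit 84)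 (nat_lit 106625297760) (nat_lit 0) (nat_lit 106625632288) (nat_lit 924) (nat_lit 236601761050) (nat_lit 129) (nat_lit 5) (nat_lit 128) (nat_lit 3) (nat_lit 139) (nat_lit 5) (nat_lit 337) (nat_lit 336) (nat_lit 47)))) (XT.nd (nat_lit 188) (nat_lit 0) (nat_lit 84) (XT.nd (nat_lit 94) (nat_lit 0) (nat_lit 0) (XT.lf (nat_lit 0) (nat_lit 224296590683) (nat_lit 840) (nat_lit 118399061161) (nat_lit 924) (nat_lit 118398439136) (nat_lit 129) (nat_lit 5) (nat_lit 139) (nat_lit 5) (nat_lit 140) (nat_lit 5) (nat_lit 338) (nat_lit 336) (nat_lit 46)) (XT.lf (nat_lit 84) (nat_lit 119755642654) (nat_lit 0) (nat_lit 119756553658) (nat_lit 924) (nat_lit 233204481446) (nat_lit 130) (nat_lit 5) (nat_lit 129) (nat_lit 5) (nat_lit 140) (nat_lit 5) (nat_lit 339) (nat_lit 336) (nat_lit 45))) (XT.nd (nat_lit 94) (nat_lit 0) (nat_lit 0) (XT.lf (nat_lit 0) (nat_lit 259311583229) (nat_lit 840) (nat_lit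 112709395165) (nat_lit 924) (nat_lit 112708265431) (nat_lit 130) (nat_lit 5) (nat_lit 140) (nat_lit 5) (nat_lit 141) (nat_lit 5) (nat_lit 340) (nat_lit 336) (nat_lit 44)) (XT.nd (nat_lit 94) (nat_lit 0) (nat_lit 84) (XT.lf (nat_lit 84) (nat_lit 142140991479) (nat_lit 0) (nat_lit 142142370844) (nat_lit 924) (nat_lit 212849954731) (nat_lit 131) (nat_lit 5) (nat_lit 130) (nat_lit 5) (nat_lit 141) (nat_lit 5) (nat_lit 341) (nat_lit 336) (nat_lit 43)) (XT.lf (nat_lit 0) (nat_lit 313993053319) (nat_lit 840) (nat_lit 97995807290) (nat_lit 924) (nat_lit 97994267187) (nat_lit 131) (nat_lit 5) (nat_lit 141) (nat_lit 5) (nat_lit 142) (nat_lit 5) (nat_lit 342) (nat_lit 336) (nat_lit 42))))))))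
noncomputable def xc253 : XT := (XT.nd (nat_lit 135454) (nat_lit 0) (nat_lit 0) (XT.nd (nat_lit 89958) (nat_lit 0) (nat_lit 0) (XT.nd (nat_lit 44932) (nat_lit 0) (nat_lit 84) (XT.nd (nat_lit 44744) (nat_lit 0) (nat_lit 0) (XT.nd (nat_lit 44650) (nat_lit 252) (nat_lit 0) (XT.lf (nat_lit 84) (nat_lit 175125428849) (nat_lit 0) (nat_lit 175127184591) (nat_lit 924) (nat_lit 172969596408) (nat_lit 132) (nat_lit 5) (nat_lit 131) (nat_lit 5) (nat_lit 142) (nat_lit 5) (nat_lit 343) (nat_lit 336) (nat_lit 41)) (XT.lf (nat_lit 0) (nat_lit 108373582766) (nat_lit 924) (nat_lit 61040698189) (nat_lit 924) (nat_lit 61040698189) (nat_lit 128) (nat_lit 3) (nat_lit 139) (nat_lit 3) (nat_lit 139) (nat_lit 5) (nat_lit 337) (nat_lit 337) (nat_lit 46))) (XT.nd (nat_lit 94) (nat_lit 0) (nat_lit 84) (XT.lf (nat_lit 84) (nat_lit 111956902841) (nat_lit 0) (nat_lit 111957206268) (nat_lit 924) (nat_lit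 248431184914) (nat_lit 129) (nat_lit 5) (nat_lit 128) (nat_lit 3) (nat_lit 139) (nat_lit 5) (nat_lit 338) (nat_lit 337) (nat_lit 45)) (XT.lf (nat_lit 0) (nat_lit 235512018308) (nat_lit 840) (nat_lit 124318655756) (nat_lit 924) (nat_lit 124318091560) (nat_lit 129) (nat_lit 5) (nat_lit 139) (nat_lit 5) (nat_lit 140) (nat_lit 5) (nat_lit 339) (nat_lit 337) (nat_lit 44)))) (XT.nd (nat_lit 188) (nat_lit 0) (nat_lit 84) (XT.nd (nat_lit 94) (nat_lit 0) (nat_lit 84) (XT.lf (nat_lit 84) (nat_lit 125743777469) (nat_lit 0) (nat_lit 125744603776) (nat_lit 924) (nat_lit 244864101646) (nat_lit 130) (nat_lit 5) (nat_lit 129) (nat_lit 5) (nat_lit 140) (nat_lit 5) (nat_lit 340) (nat_lit 337) (nat_lit 43)) (XT.lf (nat_lit 0) (nat_lit 272277706813) (nat_lit 840) (nat_lit 118344498342) (nat_lit 924) (nat_lit 118343473640) (nat_lit 130) (nat_lit 5) (nat_lit 140) (nat_lit 5) (nat_lit 141) (nat_lit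 5) (nat_lit 341) (nat_lit 337) (nat_lit 42))) (XT.nd (nat_lit 94) (nat_lit 0) (nat_lit 84) (XT.lf (nat_lit 84) (nat_lit 149248401722) (nat_lit 0) (nat_lit 149249652846) (nat_lit 924) (nat_lit 223491902132) (nat_lit 131) (nat_lit 5) (nat_lit 130) (nat_lit 5) (nat_lit 141) (nat_lit 5) (nat_lit 342) (nat_lit 337) (nat_lit 41)) (XT.lf (nat_lit 0) (nat_lit 329693202725) (nat_lit 840) (nat_lit 102895226771) (nat_lit 924) (nat_lit 102893829853) (nat_lit 131) (nat_lit 5) (nat_lit 141) (nat_lit 5) (nat_lit 142) (nat_lit 5) (nat_lit 343) (nat_lit 337) (nat_lit 40))))) (XT.nd (nat_lit 376) (nat_lit 0) (nat_lit 0) (XT.nd (nat_lit 188) (nat_lit 0) (nat_lit 84) (XT.nd (nat_lit 94) (nat_lit 0) (nat_lit 0) (XT.lf (nat_lit 0) (nat_lit 113792560594) (nat_lit 924) (nat_lit 64092576286) (nat_lit 924) (nat_lit 64092576286) (nat_lit 128) (nat_lit 3) (nat_lit 139) (nat_lit 3) (nat_lit 139) (nat_lit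 5) (nat_lit 338) (nat_lit 338) (nat_lit 44)) (XT.lf (nat_lit 84) (nat_lit 117555056549) (nat_lit 0) (nat_lit 117555331766) (nat_lit 924) (nat_lit 260852141722) (nat_lit 129) (nat_lit 5) (nat_lit 128) (nat_lit 3) (nat_lit 139) (nat_lit 5) (nat_lit 339) (nat_lit 338) (nat_lit 43))) (XT.nd (nat_lit 94) (nat_lit 0) (nat_lit 0) (XT.lf (nat_lit 0) (nat_lit 247288161709) (nat_lit 840) (nat_lit 130534263407) (nat_lit 924) (nat_lit 130533751665) (nat_lit 129) (nat_lit 5) (nat_lit 139) (nat_lit 5) (nat_lit 140) (nat_lit 5) (nat_lit 340) (nat_lit 338) (nat_lit 42)) (XT.lf (nat_lit 84) (nat_lit 132031286235) (nat_lit 0) (nat_lit 132032035720) (nat_lit 924) (nat_lit 257106758998) (nat_lit 130) (nat_lit 5) (nat_lit 129) (nat_lit 5) (nat_lit 140) (nat_lit 5) (nat_lit 341) (nat_lit 338) (nat_lit 41)))) (XT.nd (nat_lit 188) (nat_lit 168) (nat_lit 0) (XT.nd (nat_lit 94) (nat_lit 0) (nat_lit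 0) (XT.lf (nat_lit 0) (nat_lit 285892085961) (nat_lit 840) (nat_lit 124261390759) (nat_lit 924) (nat_lit 124260461324) (nat_lit 130) (nat_lit 5) (nat_lit 140) (nat_lit 5) (nat_lit 141) (nat_lit 5) (nat_lit 342) (nat_lit 338) (nat_lit 40)) (XT.lf (nat_lit 84) (nat_lit 156711148945) (nat_lit 0) (nat_lit 156712283751) (nat_lit 924) (nat_lit 234665998069) (nat_lit 131) (nat_lit 5) (nat_lit 130) (nat_lit 5) (nat_lit 141) (nat_lit 5) (nat_lit 343) (nat_lit 338) (nat_lit 39))) (XT.nd (nat_lit 44744) (nat_lit 252) (nat_lit 0) (XT.lf (nat_lit 0) (nat_lit 346178313419) (nat_lit 840) (nat_lit 108039651708) (nat_lit 924) (nat_lit 108038384662) (nat_lit 131) (nat_lit 5) (nat_lit 141) (nat_lit 5) (nat_lit 142) (nat_lit 5) (nat_lit 344) (nat_lit 338) (nat_lit 38)) (XT.nd (nat_lit 94) (nat_lit 0) (nat_lit 0) (XT.lf (nat_lit 0) (nat_lit 119482459544) (nat_lit 924) (nat_lit 67297062867) (nat_lit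 924) (nat_lit 67297062867) (nat_lit 128) (nat_lit 3) (nat_lit 139) (nat_lit 3) (nat_lit 139) (nat_lit 5) (nat_lit 339) (nat_lit 339) (nat_lit 42)) (XT.lf (nat_lit 84) (nat_lit 123433089255) (nat_lit 0) (nat_lit 123433338885) (nat_lit 924) (nat_lit 273894202379) (nat_lit 129) (nat_lit 5) (nat_lit 128) (nat_lit 3) (nat_lit 139) (nat_lit 5) (nat_lit 340) (nat_lit 339) (nat_lit 41))))))) (XT.nd (nat_lit 45402) (nat_lit 0) (nat_lit 0) (XT.nd (nat_lit 376) (nat_lit 84) (nat_lit 0) (XT.nd (nat_lit 188) (nat_lit 0) (nat_lit 84) (XT.nd (nat_lit 94) (nat_lit 0) (nat_lit 0) (XT.lf (nat_lit 0) (nat_lit 259653061845) (nat_lit 840) (nat_lit 137060681669) (nat_lit 924) (nat_lit 137060217504) (nat_lit 129) (nat_lit 5) (nat_lit 139) (nat_lit 5) (nat_lit 140) (nat_lit 5) (nat_lit 341) (nat_lit 339) (nat_lit 40)) (XT.lf (nat_lit 84) (nat_lit 138633140698) (nat_lit 0) (nat_lit 138633820503)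 (nat_lit 924) (nat_lit 269961600141) (nat_lit 130) (nat_lit 5) (nat_lit 129) (nat_lit 5) (nat_lit 140) (nat_lit 5) (nat_lit 342) (nat_lit 339) (nat_lit 39))) (XT.nd (nat_lit 94) (nat_lit 0) (nat_lit 0) (XT.lf (nat_lit 0) (nat_lit 300187138157) (nat_lit 840) (nat_lit 130474158710) (nat_lit 924) (nat_lit 130473315685) (nat_lit 130) (nat_lit 5) (nat_lit 140) (nat_lit 5) (nat_lit 141) (nat_lit 5) (nat_lit 343) (nat_lit 339) (nat_lit 38)) (XT.lf (nat_lit 84) (nat_lit 164547003115) (nat_lit 0) (nat_lit 164548032418) (nat_lit 924) (nat_lit 246398845210) (nat_lit 131) (nat_lit 5) (nat_lit 130) (nat_lit 5) (nat_lit 141) (nat_lit 5) (nat_lit 344) (nat_lit 339) (nat_lit 37)))) (XT.nd (nat_lit 44838) (nat_lit 0) (nat_lit 0) (XT.nd (nat_lit 44744) (nat_lit 252) (nat_lit 0) (XT.lf (nat_lit 0) (nat_lit 363487637759) (nat_lit 840) (nat_lit 113441329167) (nat_lit 924) (nat_lit 113440179919)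 (nat_lit 131) (nat_lit 5) (nat_lit 141) (nat_lit 5) (nat_lit 142) (nat_lit 5) (nat_lit 345) (nat_lit 339) (nat_lit 36)) (XT.lf (nat_lit 0) (nat_lit 125456828254) (nat_lit 924) (nat_lit 70661787001) (nat_lit 924) (nat_lit 70661787001) (nat_lit 128) (nat_lit 3) (nat_lit 139) (nat_lit 3) (nat_lit 139) (nat_lit 5) (nat_lit 340) (nat_lit 340) (nat_lit 40))) (XT.nd (nat_lit 94) (nat_lit 0) (nat_lit 84) (XT.lf (nat_lit 84) (nat_lit 129604997575) (nat_lit 0) (nat_lit 129605223997) (nat_lit 924) (nat_lit 287588416871) (nat_lit 129) (nat_lit 5) (nat_lit 128) (nat_lit 3) (nat_lit 139) (nat_lit 5) (nat_lit 341) (nat_lit 340) (nat_lit 39)) (XT.lf (nat_lit 0) (nat_lit 272636161242) (nat_lit 840) (nat_lit 143913448262) (nat_lit 924) (nat_lit 143913027250) (nat_lit 129) (nat_lit 5) (nat_lit 139) (nat_lit 5) (nat_lit 140) (nat_lit 5) (nat_lit 342) (nat_lit 340) (nat_lit 38))))) (XT.nd (nat_lit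 45120) (nat_lit 0) (nat_lit 0) (XT.nd (nat_lit 188) (nat_lit 84) (nat_lit 0) (XT.nd (nat_lit 94) (nat_lit 0) (nat_lit 84) (XT.lf (nat_lit 84) (nat_lit 145565060910) (nat_lit 0) (nat_lit 145565677513) (nat_lit 924) (nat_lit 283459229529) (nat_lit 130) (nat_lit 5) (nat_lit 129) (nat_lit 5) (nat_lit 140) (nat_lit 5) (nat_lit 343) (nat_lit 340) (nat_lit 37)) (XT.lf (nat_lit 0) (nat_lit 315196901321) (nat_lit 840) (nat_lit 136997593097) (nat_lit 924) (nat_lit 136996828448) (nat_lit 130) (nat_lit 5) (nat_lit 140) (nat_lit 5) (nat_lit 141) (nat_lit 5) (nat_lit 344) (nat_lit 340) (nat_lit 36))) (XT.nd (nat_lit 44838) (nat_lit 168) (nat_lit 0) (XT.lf (nat_lit 84) (nat_lit 172774622407) (nat_lit 0) (nat_lit 172775556015) (nat_lit 924) (nat_lit 258718376802) (nat_lit 131) (nat_lit 5) (nat_lit 130) (nat_lit 5) (nat_lit 141) (nat_lit 5) (nat_lit 345) (nat_lit 340) (nat_lit 35)) (XT.lf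 (nat_lit 0) (nat_lit 131729892554) (nat_lit 924) (nat_lit 74194759335) (nat_lit 924) (nat_lit 74194759335) (nat_lit 128) (nat_lit 3) (nat_lit 139) (nat_lit 3) (nat_lit 139) (nat_lit 5) (nat_lit 341) (nat_lit 341) (nat_lit 38)))) (XT.nd (nat_lit 188) (nat_lit 0) (nat_lit 84) (XT.nd (nat_lit 94) (nat_lit 0) (nat_lit 84) (XT.lf (nat_lit 84) (nat_lit 136085477711) (nat_lit 0) (nat_lit 136085683082) (nat_lit 924) (nat_lit 301967388166) (nat_lit 129) (nat_lit 5) (nat_lit 128) (nat_lit 3) (nat_lit 139) (nat_lit 5) (nat_lit 342) (nat_lit 341) (nat_lit 37)) (XT.lf (nat_lit 0) (nat_lit 286268374115) (nat_lit 840) (nat_lit 151108878053) (nat_lit 924) (nat_lit 151108496183) (nat_lit 129) (nat_lit 5) (nat_lit 139) (nat_lit 5) (nat_lit 140) (nat_lit 5) (nat_lit 343) (nat_lit 341) (nat_lit 36))) (XT.nd (nat_lit 94) (nat_lit 0) (nat_lit 84) (XT.lf (nat_lit 84) (nat_lit 152843552664) (nat_lit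 0) (nat_lit 152844111941) (nat_lit 924) (nat_lit 297631782281) (nat_lit 130) (nat_lit 5) (nat_lit 129) (nat_lit 5) (nat_lit 140) (nat_lit 5) (nat_lit 344) (nat_lit 341) (nat_lit 35)) (XT.nd (nat_lit 94) (nat_lit 0) (nat_lit 0) (XT.lf (nat_lit 0) (nat_lit 330957114874) (nat_lit 840) (nat_lit 143847224635) (nat_lit 924) (nat_lit 143846531077) (nat_lit 130) (nat_lit 5) (nat_lit 140) (nat_lit 5) (nat_lit 141) (nat_lit 5) (nat_lit 345) (nat_lit 341) (nat_lit 34)) (XT.lf (nat_lit 84) (nat_lit 181413597642) (nat_lit 0) (nat_lit 181414444453) (nat_lit 924) (nat_lit 271653923154) (nat_lit 131) (nat_lit 5) (nat_lit 130) (nat_lit 5) (nat_lit 141) (nat_lit 5) (nat_lit 346) (nat_lit 341) (nat_lit 33))))))))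
noncomputable def xc254 : XT := (XT.nd (nat_lit 91086) (nat_lit 0) (nat_lit 0) (XT.nd (nat_lit 45496) (nat_lit 0) (nat_lit 0) (XT.nd (nat_lit 376) (nat_lit 0) (nat_lit 0) (XT.nd (nat_lit 188) (nat_lit 0) (nat_lit 84) (XT.nd (nat_lit 94) (nat_lit 0) (nat_lit 0) (XT.lf (nat_lit 0) (nat_lit 138316589346) (nat_lit 924) (nat_lit 77904391166) (nat_lit 924) (nat_lit 77904391166) (nat_lit 128) (nat_lit 3) (nat_lit 139) (nat_lit 3) (nat_lit 139) (nat_lit 5) (nat_lit 342) (nat_lit 342) (nat_lit 36)) (XT.lf (nat_lit 84) (nat_lit 142889960446) (nat_lit 0) (nat_lit 142890146724) (nat_lit 924) (nat_lit 317065349821) (nat_lit 129) (nat_lit 5) (nat_lit 128) (nat_lit 3) (nat_lit 139) (nat_lit 5) (nat_lit 343) (nat_lit 342) (nat_lit 35))) (XT.nd (nat_lit 94) (nat_lit 0) (nat_lit 0) (XT.lf (nat_lit 0) (nat_lit 300582159996) (nat_lit 840) (nat_lit 158664101890) (nat_lit 924) (nat_lit 158663755523)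 (nat_lit 129) (nat_lit 5) (nat_lit 139) (nat_lit 5) (nat_lit 140) (nat_lit 5) (nat_lit 344) (nat_lit 342) (nat_lit 34)) (XT.lf (nat_lit 84) (nat_lit 160485946813) (nat_lit 0) (nat_lit 160486454094) (nat_lit 924) (nat_lit 312513000670) (nat_lit 130) (nat_lit 5) (nat_lit 129) (nat_lit 5) (nat_lit 140) (nat_lit 5) (nat_lit 345) (nat_lit 342) (nat_lit 33)))) (XT.nd (nat_lit 44932) (nat_lit 168) (nat_lit 0) (XT.nd (nat_lit 94) (nat_lit 0) (nat_lit 0) (XT.lf (nat_lit 0) (nat_lit 347505304846) (nat_lit 840) (nat_lit 151039360818) (nat_lit 924) (nat_lit 151038731740) (nat_lit 130) (nat_lit 5) (nat_lit 140) (nat_lit 5) (nat_lit 141) (nat_lit 5) (nat_lit 346) (nat_lit 342) (nat_lit 32)) (XT.lf (nat_lit 84) (nat_lit 190484498944) (nat_lit 0) (nat_lit 190485267025) (nat_lit 924) (nat_lit 285236281454) (nat_lit 131) (nat_lit 5) (nat_lit 130) (nat_lit 5) (nat_lit 141) (nat_lit 5) (nat_lit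 347) (nat_lit 342) (nat_lit 31))) (XT.nd (nat_lit 94) (nat_lit 0) (nat_lit 0) (XT.lf (nat_lit 0) (nat_lit 145232602183) (nat_lit 924) (nat_lit 81799514455) (nat_lit 924) (nat_lit 81799514455) (nat_lit 128) (nat_lit 3) (nat_lit 139) (nat_lit 3) (nat_lit 139) (nat_lit 5) (nat_lit 343) (nat_lit 343) (nat_lit 34)) (XT.lf (nat_lit 84) (nat_lit 150034647901) (nat_lit 0) (nat_lit 150034816860) (nat_lit 924) (nat_lit 332918247468) (nat_lit 129) (nat_lit 5) (nat_lit 128) (nat_lit 3) (nat_lit 139) (nat_lit 5) (nat_lit 344) (nat_lit 343) (nat_lit 33))))) (XT.nd (nat_lit 45120) (nat_lit 84) (nat_lit 0) (XT.nd (nat_lit 188) (nat_lit 0) (nat_lit 84) (XT.nd (nat_lit 94) (nat_lit 0) (nat_lit 0) (XT.lf (nat_lit 0) (nat_lit 315611601036) (nat_lit 840) (nat_lit 166597107379) (nat_lit 924) (nat_lit 166596793214) (nat_lit 129) (nat_lit 5) (nat_lit 139) (nat_lit 5) (nat_lit 140) (nat_lit 5) (nat_lit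 345) (nat_lit 343) (nat_lit 32)) (XT.lf (nat_lit 84) (nat_lit 168510440540) (nat_lit 0) (nat_lit 168510900659) (nat_lit 924) (nat_lit 328138314445) (nat_lit 130) (nat_lit 5) (nat_lit 129) (nat_lit 5) (nat_lit 140) (nat_lit 5) (nat_lit 346) (nat_lit 343) (nat_lit 31))) (XT.nd (nat_lit 94) (nat_lit 0) (nat_lit 0) (XT.lf (nat_lit 0) (nat_lit 364880873243) (nat_lit 840) (nat_lit 158591124733) (nat_lit 924) (nat_lit 158590554140) (nat_lit 130) (nat_lit 5) (nat_lit 140) (nat_lit 5) (nat_lit 141) (nat_lit 5) (nat_lit 347) (nat_lit 343) (nat_lit 30)) (XT.lf (nat_lit 84) (nat_lit 200008924725) (nat_lit 0) (nat_lit 200009621397) (nat_lit 924) (nat_lit 299497789079) (nat_lit 131) (nat_lit 5) (nat_lit 130) (nat_lit 5) (nat_lit 141) (nat_lit 5) (nat_lit 348) (nat_lit 343) (nat_lit 29)))) (XT.nd (nat_lit 188) (nat_lit 0) (nat_lit 84) (XT.nd (nat_lit 94) (nat_lit 0) (nat_lit 0) (XT.lf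 (nat_lit 0) (nat_lit 152494398614) (nat_lit 924) (nat_lit 85889402859) (nat_lit 924) (nat_lit 85889402859) (nat_lit 128) (nat_lit 3) (nat_lit 139) (nat_lit 3) (nat_lit 139) (nat_lit 5) (nat_lit 344) (nat_lit 344) (nat_lit 32)) (XT.lf (nat_lit 84) (nat_lit 157536552117) (nat_lit 0) (nat_lit 157536705368) (nat_lit 924) (nat_lit 349563824381) (nat_lit 129) (nat_lit 5) (nat_lit 128) (nat_lit 3) (nat_lit 139) (nat_lit 5) (nat_lit 345) (nat_lit 344) (nat_lit 31))) (XT.nd (nat_lit 94) (nat_lit 0) (nat_lit 0) (XT.lf (nat_lit 0) (nat_lit 331392483164) (nat_lit 840) (nat_lit 174926781699) (nat_lit 924) (nat_lit 174926496742) (nat_lit 129) (nat_lit 5) (nat_lit 139) (nat_lit 5) (nat_lit 140) (nat_lit 5) (nat_lit 346) (nat_lit 344) (nat_lit 30)) (XT.nd (nat_lit 94) (nat_lit 0) (nat_lit 84) (XT.lf (nat_lit 84) (nat_lit 176936140695) (nat_lit 0) (nat_lit 176936558036) (nat_lit 924) (nat_lit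 344544925171) (nat_lit 130) (nat_lit 5) (nat_lit 129) (nat_lit 5) (nat_lit 140) (nat_lit 5) (nat_lit 347) (nat_lit 344) (nat_lit 29)) (XT.lf (nat_lit 0) (nat_lit 383125191876) (nat_lit 840) (nat_lit 166520495821) (nat_lit 924) (nat_lit 166519978277) (nat_lit 130) (nat_lit 5) (nat_lit 140) (nat_lit 5) (nat_lit 141) (nat_lit 5) (nat_lit 348) (nat_lit 344) (nat_lit 28))))))) (XT.nd (nat_lit 90334) (nat_lit 0) (nat_lit 0) (XT.nd (nat_lit 45120) (nat_lit 0) (nat_lit 0) (XT.nd (nat_lit 44932) (nat_lit 0) (nat_lit 0) (XT.nd (nat_lit 44838) (nat_lit 168) (nat_lit 0) (XT.lf (nat_lit 84) (nat_lit 210009553123) (nat_lit 0) (nat_lit 210010185026) (nat_lit 924) (nat_lit 314472400576) (nat_lit 131) (nat_lit 5) (nat_lit 130) (nat_lit 5) (nat_lit 141) (nat_lit 5) (nat_lit 349) (nat_lit 344) (nat_lit 27)) (XT.lf (nat_lit 0) (nat_lit 160119269403) (nat_lit 924) (nat_lit 90183793801) (nat_lit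 924) (nat_lit 90183793801) (nat_lit 128) (nat_lit 3) (nat_lit 139) (nat_lit 3) (nat_lit 139) (nat_lit 5) (nat_lit 345) (nat_lit 345) (nat_lit 30))) (XT.nd (nat_lit 94) (nat_lit 0) (nat_lit 84) (XT.lf (nat_lit 84) (nat_lit 165413535569) (nat_lit 0) (nat_lit 165413674573) (nat_lit 924) (nat_lit 367041711328) (nat_lit 129) (nat_lit 5) (nat_lit 128) (nat_lit 3) (nat_lit 139) (nat_lit 5) (nat_lit 346) (nat_lit 345) (nat_lit 29)) (XT.lf (nat_lit 0) (nat_lit 347962381314) (nat_lit 840) (nat_lit 183672956568) (nat_lit 924) (nat_lit 183672698104) (nat_lit 129) (nat_lit 5) (nat_lit 139) (nat_lit 5) (nat_lit 140) (nat_lit 5) (nat_lit 347) (nat_lit 345) (nat_lit 28)))) (XT.nd (nat_lit 45026) (nat_lit 84) (nat_lit 0) (XT.nd (nat_lit 94) (nat_lit 0) (nat_lit 84) (XT.lf (nat_lit 84) (nat_lit 185783109297) (nat_lit 0) (nat_lit 185783487838) (nat_lit 924) (nat_lit 361771894788) (nat_lit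 130) (nat_lit 5) (nat_lit 129) (nat_lit 5) (nat_lit 140) (nat_lit 5) (nat_lit 348) (nat_lit 345) (nat_lit 27)) (XT.lf (nat_lit 0) (nat_lit 402281700876) (nat_lit 840) (nat_lit 174846352677) (nat_lit 924) (nat_lit 174845883249) (nat_lit 130) (nat_lit 5) (nat_lit 140) (nat_lit 5) (nat_lit 141) (nat_lit 5) (nat_lit 349) (nat_lit 345) (nat_lit 26))) (XT.nd (nat_lit 94) (nat_lit 0) (nat_lit 0) (XT.lf (nat_lit 0) (nat_lit 168125369707) (nat_lit 924) (nat_lit 94692911654) (nat_lit 924) (nat_lit 94692911654) (nat_lit 128) (nat_lit 3) (nat_lit 139) (nat_lit 3) (nat_lit 139) (nat_lit 5) (nat_lit 346) (nat_lit 346) (nat_lit 28)) (XT.lf (nat_lit 84) (nat_lit 173684353705) (nat_lit 0) (nat_lit 173684479785) (nat_lit 924) (nat_lit 385393520911) (nat_lit 129) (nat_lit 5) (nat_lit 128) (nat_lit 3) (nat_lit 139) (nat_lit 5) (nat_lit 347) (nat_lit 346) (nat_lit 27))))) (XT.nd (nat_lit 45214)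 (nat_lit 0) (nat_lit 0) (XT.nd (nat_lit 188) (nat_lit 84) (nat_lit 0) (XT.nd (nat_lit 94) (nat_lit 0) (nat_lit 0) (XT.lf (nat_lit 0) (nat_lit 365360748899) (nat_lit 840) (nat_lit 192856455448) (nat_lit 924) (nat_lit 192856221013) (nat_lit 129) (nat_lit 5) (nat_lit 139) (nat_lit 5) (nat_lit 140) (nat_lit 5) (nat_lit 348) (nat_lit 346) (nat_lit 26)) (XT.lf (nat_lit 84) (nat_lit 195072411309) (nat_lit 0) (nat_lit 195072754657) (nat_lit 924) (nat_lit 379860238606) (nat_lit 130) (nat_lit 5) (nat_lit 129) (nat_lit 5) (nat_lit 140) (nat_lit 5) (nat_lit 349) (nat_lit 346) (nat_lit 25))) (XT.nd (nat_lit 44932) (nat_lit 168) (nat_lit 0) (XT.lf (nat_lit 0) (nat_lit 422396012138) (nat_lit 840) (nat_lit 183588517989) (nat_lit 924) (nat_lit 183588092204) (nat_lit 130) (nat_lit 5) (nat_lit 140) (nat_lit 5) (nat_lit 141) (nat_lit 5) (nat_lit 350) (nat_lit 346) (nat_lit 24)) (XT.lf (nat_lit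 0) (nat_lit 176531762304) (nat_lit 924) (nat_lit 99427492078) (nat_lit 924) (nat_lit 99427492078) (nat_lit 128) (nat_lit 3) (nat_lit 139) (nat_lit 3) (nat_lit 139) (nat_lit 5) (nat_lit 347) (nat_lit 347) (nat_lit 26)))) (XT.nd (nat_lit 188) (nat_lit 0) (nat_lit 0) (XT.nd (nat_lit 94) (nat_lit 0) (nat_lit 84) (XT.lf (nat_lit 84) (nat_lit 182368699606) (nat_lit 0) (nat_lit 182368813964) (nat_lit 924) (nat_lit 404662946631) (nat_lit 129) (nat_lit 5) (nat_lit 128) (nat_lit 3) (nat_lit 139) (nat_lit 5) (nat_lit 348) (nat_lit 347) (nat_lit 25)) (XT.lf (nat_lit 0) (nat_lit 383629011758) (nat_lit 840) (nat_lit 202499143119) (nat_lit 924) (nat_lit 202498930480) (nat_lit 129) (nat_lit 5) (nat_lit 139) (nat_lit 5) (nat_lit 140) (nat_lit 5) (nat_lit 349) (nat_lit 347) (nat_lit 24))) (XT.nd (nat_lit 94) (nat_lit 84) (nat_lit 0) (XT.lf (nat_lit 84) (nat_lit 204826164796) (nat_lit 0) (nat_lit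 204826476223) (nat_lit 924) (nat_lit 398853022944) (nat_lit 130) (nat_lit 5) (nat_lit 129) (nat_lit 5) (nat_lit 140) (nat_lit 5) (nat_lit 350) (nat_lit 347) (nat_lit 23)) (XT.nd (nat_lit 44932) (nat_lit 168) (nat_lit 0) (XT.lf (nat_lit 0) (nat_lit 443516017932) (nat_lit 840) (nat_lit 192767805728) (nat_lit 924) (nat_lit 192767419529) (nat_lit 130) (nat_lit 5) (nat_lit 140) (nat_lit 5) (nat_lit 141) (nat_lit 5) (nat_lit 351) (nat_lit 347) (nat_lit 22)) (XT.lf (nat_lit 0) (nat_lit 185358462992) (nat_lit 924) (nat_lit 104398807581) (nat_lit 924) (nat_lit 104398807581) (nat_lit 128) (nat_lit 3) (nat_lit 139) (nat_lit 3) (nat_lit 139) (nat_lit 5) (nat_lit 348) (nat_lit 348) (nat_lit 24))))))))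
noncomputable def xc255 : XT := (XT.nd (nat_lit 136112) (nat_lit 0) (nat_lit 0) (XT.nd (nat_lit 45590) (nat_lit 0) (nat_lit 0) (XT.nd (nat_lit 45214) (nat_lit 0) (nat_lit 0) (XT.nd (nat_lit 188) (nat_lit 0) (nat_lit 84) (XT.nd (nat_lit 94) (nat_lit 0) (nat_lit 84) (XT.lf (nat_lit 84) (nat_lit 191487250881) (nat_lit 0) (nat_lit 191487354608) (nat_lit 924) (nat_lit 424895866910) (nat_lit 129) (nat_lit 5) (nat_lit 128) (nat_lit 3) (nat_lit 139) (nat_lit 5) (nat_lit 349) (nat_lit 348) (nat_lit 23)) (XT.lf (nat_lit 0) (nat_lit 402810666803) (nat_lit 840) (nat_lit 212623977735) (nat_lit 924) (nat_lit 212623784865) (nat_lit 129) (nat_lit 5) (nat_lit 139) (nat_lit 5) (nat_lit 140) (nat_lit 5) (nat_lit 350) (nat_lit 348) (nat_lit 22))) (XT.nd (nat_lit 94) (nat_lit 0) (nat_lit 84) (XT.lf (nat_lit 84) (nat_lit 215067593600) (nat_lit 0) (nat_lit 215067876073) (nat_lit 924) (nat_lit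 418795467657) (nat_lit 130) (nat_lit 5) (nat_lit 129) (nat_lit 5) (nat_lit 140) (nat_lit 5) (nat_lit 351) (nat_lit 348) (nat_lit 21)) (XT.lf (nat_lit 0) (nat_lit 465692004940) (nat_lit 840) (nat_lit 202406070699) (nat_lit 924) (nat_lit 202405720404) (nat_lit 130) (nat_lit 5) (nat_lit 140) (nat_lit 5) (nat_lit 141) (nat_lit 5) (nat_lit 352) (nat_lit 348) (nat_lit 20)))) (XT.nd (nat_lit 188) (nat_lit 0) (nat_lit 84) (XT.nd (nat_lit 94) (nat_lit 0) (nat_lit 0) (XT.lf (nat_lit 0) (nat_lit 194626488249) (nat_lit 924) (nat_lit 109618694354) (nat_lit 924) (nat_lit 109618694354) (nat_lit 128) (nat_lit 3) (nat_lit 139) (nat_lit 3) (nat_lit 139) (nat_lit 5) (nat_lit 349) (nat_lit 349) (nat_lit 22)) (XT.lf (nat_lit 84) (nat_lit 201061718909) (nat_lit 0) (nat_lit 201061812992) (nat_lit 924) (nat_lit 446140454312) (nat_lit 129) (nat_lit 5) (nat_lit 128) (nat_lit 3) (nat_lit 139) (nat_lit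 5) (nat_lit 350) (nat_lit 349) (nat_lit 21))) (XT.nd (nat_lit 94) (nat_lit 0) (nat_lit 0) (XT.lf (nat_lit 0) (nat_lit 422951385592) (nat_lit 840) (nat_lit 223255065474) (nat_lit 924) (nat_lit 223254890535) (nat_lit 129) (nat_lit 5) (nat_lit 139) (nat_lit 5) (nat_lit 140) (nat_lit 5) (nat_lit 351) (nat_lit 349) (nat_lit 20)) (XT.lf (nat_lit 84) (nat_lit 225821082636) (nat_lit 0) (nat_lit 225821338847) (nat_lit 924) (nat_lit 439735053799) (nat_lit 130) (nat_lit 5) (nat_lit 129) (nat_lit 5) (nat_lit 140) (nat_lit 5) (nat_lit 352) (nat_lit 349) (nat_lit 19))))) (XT.nd (nat_lit 45214) (nat_lit 0) (nat_lit 0) (XT.nd (nat_lit 45026) (nat_lit 0) (nat_lit 0) (XT.nd (nat_lit 44932) (nat_lit 168) (nat_lit 0) (XT.lf (nat_lit 0) (nat_lit 488976773995) (nat_lit 840) (nat_lit 212526260569) (nat_lit 924) (nat_lit 212525942841) (nat_lit 130) (nat_lit 5) (nat_lit 140) (nat_lit 5) (nat_lit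 141) (nat_lit 5) (nat_lit 353) (nat_lit 349) (nat_lit 18)) (XT.lf (nat_lit 0) (nat_lit 204357905275) (nat_lit 924) (nat_lit 115099580449) (nat_lit 924) (nat_lit 115099580449) (nat_lit 128) (nat_lit 3) (nat_lit 139) (nat_lit 3) (nat_lit 139) (nat_lit 5) (nat_lit 350) (nat_lit 350) (nat_lit 20))) (XT.nd (nat_lit 94) (nat_lit 0) (nat_lit 84) (XT.lf (nat_lit 84) (nat_lit 211114900530) (nat_lit 0) (nat_lit 211114985867) (nat_lit 924) (nat_lit 468447290231) (nat_lit 129) (nat_lit 5) (nat_lit 128) (nat_lit 3) (nat_lit 139) (nat_lit 5) (nat_lit 351) (nat_lit 350) (nat_lit 19)) (XT.lf (nat_lit 0) (nat_lit 444099123079) (nat_lit 840) (nat_lit 234417717933) (nat_lit 924) (nat_lit 234417559258) (nat_lit 129) (nat_lit 5) (nat_lit 139) (nat_lit 5) (nat_lit 140) (nat_lit 5) (nat_lit 352) (nat_lit 350) (nat_lit 18)))) (XT.nd (nat_lit 45026) (nat_lit 84) (nat_lit 0) (XT.nd (nat_lit 94) (nat_lit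 0) (nat_lit 84) (XT.lf (nat_lit 84) (nat_lit 237112235956) (nat_lit 0) (nat_lit 237112468347) (nat_lit 924) (nat_lit 461721636655) (nat_lit 130) (nat_lit 5) (nat_lit 129) (nat_lit 5) (nat_lit 140) (nat_lit 5) (nat_lit 353) (nat_lit 350) (nat_lit 17)) (XT.lf (nat_lit 0) (nat_lit 513425765808) (nat_lit 840) (nat_lit 223152470500) (nat_lit 924) (nat_lit 223152182312) (nat_lit 130) (nat_lit 5) (nat_lit 140) (nat_lit 5) (nat_lit 141) (nat_lit 5) (nat_lit 354) (nat_lit 350) (nat_lit 16))) (XT.nd (nat_lit 94) (nat_lit 0) (nat_lit 0) (XT.lf (nat_lit 0) (nat_lit 214575884543) (nat_lit 924) (nat_lit 120854515370) (nat_lit 924) (nat_lit 120854515370) (nat_lit 128) (nat_lit 3) (nat_lit 139) (nat_lit 3) (nat_lit 139) (nat_lit 5) (nat_lit 351) (nat_lit 351) (nat_lit 18)) (XT.nd (nat_lit 94) (nat_lit 0) (nat_lit 84) (XT.lf (nat_lit 84) (nat_lit 221670732338) (nat_lit 0) (nat_lit 221670809741)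 (nat_lit 924) (nat_lit 491869485313) (nat_lit 129) (nat_lit 5) (nat_lit 128) (nat_lit 3) (nat_lit 139) (nat_lit 5) (nat_lit 352) (nat_lit 351) (nat_lit 17)) (XT.lf (nat_lit 0) (nat_lit 466304231802) (nat_lit 840) (nat_lit 246138512388) (nat_lit 924) (nat_lit 246138368465) (nat_lit 129) (nat_lit 5) (nat_lit 139) (nat_lit 5) (nat_lit 140) (nat_lit 5) (nat_lit 353) (nat_lit 351) (nat_lit 16))))))) (XT.nd (nat_lit 90616) (nat_lit 0) (nat_lit 0) (XT.nd (nat_lit 45308) (nat_lit 0) (nat_lit 0) (XT.nd (nat_lit 45120) (nat_lit 0) (nat_lit 0) (XT.nd (nat_lit 45026) (nat_lit 84) (nat_lit 0) (XT.lf (nat_lit 84) (nat_lit 248967937720) (nat_lit 0) (nat_lit 248968148506) (nat_lit 924) (nat_lit 484807564444) (nat_lit 130) (nat_lit 5) (nat_lit 129) (nat_lit 5) (nat_lit 140) (nat_lit 5) (nat_lit 354) (nat_lit 351) (nat_lit 15)) (XT.lf (nat_lit 0) (nat_lit 225304754964) (nat_lit 924) (nat_lit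 126897201136) (nat_lit 924) (nat_lit 126897201136) (nat_lit 128) (nat_lit 3) (nat_lit 139) (nat_lit 3) (nat_lit 139) (nat_lit 5) (nat_lit 352) (nat_lit 352) (nat_lit 16))) (XT.nd (nat_lit 94) (nat_lit 0) (nat_lit 84) (XT.lf (nat_lit 84) (nat_lit 232754347668) (nat_lit 0) (nat_lit 232754417875) (nat_lit 924) (nat_lit 516462805900) (nat_lit 129) (nat_lit 5) (nat_lit 128) (nat_lit 3) (nat_lit 139) (nat_lit 5) (nat_lit 353) (nat_lit 352) (nat_lit 15)) (XT.lf (nat_lit 0) (nat_lit 489619581777) (nat_lit 840) (nat_lit 258445355067) (nat_lit 924) (nat_lit 258445224525) (nat_lit 129) (nat_lit 5) (nat_lit 139) (nat_lit 5) (nat_lit 140) (nat_lit 5) (nat_lit 354) (nat_lit 352) (nat_lit 14)))) (XT.nd (nat_lit 45120) (nat_lit 0) (nat_lit 0) (XT.nd (nat_lit 45026) (nat_lit 84) (nat_lit 0) (XT.lf (nat_lit 84) (nat_lit 261416416209) (nat_lit 0) (nat_lit 261416607398) (nat_lit 924) (nat_lit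 509047802944) (nat_lit 130) (nat_lit 5) (nat_lit 129) (nat_lit 5) (nat_lit 140) (nat_lit 5) (nat_lit 355) (nat_lit 352) (nat_lit 13)) (XT.lf (nat_lit 0) (nat_lit 236570061822) (nat_lit 924) (nat_lit 133242024910) (nat_lit 924) (nat_lit 133242024910) (nat_lit 128) (nat_lit 3) (nat_lit 139) (nat_lit 3) (nat_lit 139) (nat_lit 5) (nat_lit 353) (nat_lit 353) (nat_lit 14))) (XT.nd (nat_lit 94) (nat_lit 0) (nat_lit 84) (XT.lf (nat_lit 84) (nat_lit 244392136447) (nat_lit 0) (nat_lit 244392200126) (nat_lit 924) (nat_lit 542285806805) (nat_lit 129) (nat_lit 5) (nat_lit 128) (nat_lit 3) (nat_lit 139) (nat_lit 5) (nat_lit 354) (nat_lit 353) (nat_lit 13)) (XT.lf (nat_lit 0) (nat_lit 514100686385) (nat_lit 840) (nat_lit 271367547591) (nat_lit 924) (nat_lit 271367429185) (nat_lit 129) (nat_lit 5) (nat_lit 139) (nat_lit 5) (nat_lit 140) (nat_lit 5) (nat_lit 355) (nat_lit 353) (nat_lit 12)))))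 (XT.nd (nat_lit 90334) (nat_lit 0) (nat_lit 0) (XT.nd (nat_lit 45120) (nat_lit 0) (nat_lit 0) (XT.nd (nat_lit 45026) (nat_lit 84) (nat_lit 0) (XT.lf (nat_lit 84) (nat_lit 274487311035) (nat_lit 0) (nat_lit 274487484449) (nat_lit 924) (nat_lit 534500066359) (nat_lit 130) (nat_lit 5) (nat_lit 129) (nat_lit 5) (nat_lit 140) (nat_lit 5) (nat_lit 356) (nat_lit 353) (nat_lit 11)) (XT.lf (nat_lit 0) (nat_lit 248398627598) (nat_lit 924) (nat_lit 139904093246) (nat_lit 924) (nat_lit 139904093246) (nat_lit 128) (nat_lit 3) (nat_lit 139) (nat_lit 3) (nat_lit 139) (nat_lit 5) (nat_lit 354) (nat_lit 354) (nat_lit 12))) (XT.nd (nat_lit 94) (nat_lit 0) (nat_lit 84) (XT.lf (nat_lit 84) (nat_lit 256611808027) (nat_lit 0) (nat_lit 256611865786) (nat_lit 924) (nat_lit 569399970714) (nat_lit 129) (nat_lit 5) (nat_lit 128) (nat_lit 3) (nat_lit 139) (nat_lit 5) (nat_lit 355) (nat_lit 354) (nat_lit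 11)) (XT.lf (nat_lit 0) (nat_lit 539805834553) (nat_lit 840) (nat_lit 284935856735) (nat_lit 924) (nat_lit 284935749338) (nat_lit 129) (nat_lit 5) (nat_lit 139) (nat_lit 5) (nat_lit 140) (nat_lit 5) (nat_lit 356) (nat_lit 354) (nat_lit 10)))) (XT.nd (nat_lit 188) (nat_lit 0) (nat_lit 0) (XT.nd (nat_lit 94) (nat_lit 0) (nat_lit 0) (XT.lf (nat_lit 0) (nat_lit 260818615835) (nat_lit 924) (nat_lit 146899268059) (nat_lit 924) (nat_lit 146899268059) (nat_lit 128) (nat_lit 3) (nat_lit 139) (nat_lit 3) (nat_lit 139) (nat_lit 5) (nat_lit 355) (nat_lit 355) (nat_lit 10)) (XT.lf (nat_lit 84) (nat_lit 269442457165) (nat_lit 0) (nat_lit 269442509554) (nat_lit 924) (nat_lit 597869854573) (nat_lit 129) (nat_lit 5) (nat_lit 128) (nat_lit 3) (nat_lit 139) (nat_lit 5) (nat_lit 356) (nat_lit 355) (nat_lit 9))) (XT.nd (nat_lit 45120) (nat_lit 84) (nat_lit 0) (XT.lf (nat_lit 0) (nat_lit 566796229546)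 (nat_lit 840) (nat_lit 299182587681) (nat_lit 924) (nat_lit 299182490268) (nat_lit 129) (nat_lit 5) (nat_lit 139) (nat_lit 5) (nat_lit 140) (nat_lit 5) (nat_lit 357) (nat_lit 355) (nat_lit 8)) (XT.nd (nat_lit 94) (nat_lit 0) (nat_lit 0) (XT.lf (nat_lit 0) (nat_lit 273859598198) (nat_lit 924) (nat_lit 154244204387) (nat_lit 924) (nat_lit 154244204387) (nat_lit 128) (nat_lit 3) (nat_lit 139) (nat_lit 3) (nat_lit 139) (nat_lit 5) (nat_lit 356) (nat_lit 356) (nat_lit 8)) (XT.lf (nat_lit 84) (nat_lit 282914633300) (nat_lit 0) (nat_lit 282914680818) (nat_lit 924) (nat_lit 627763243286) (nat_lit 129) (nat_lit 5) (nat_lit 128) (nat_lit 3) (nat_lit 139) (nat_lit 5) (nat_lit 357) (nat_lit 356) (nat_lit 7))))))))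
noncomputable def ec0 : XT := (XT.nd (nat_lit 225318) (nat_lit 1008) (nat_lit 0) (XT.nd (nat_lit 135454) (nat_lit 0) (nat_lit 0) (XT.nd (nat_lit 90240) (nat_lit 0) (nat_lit 0) (XT.nd (nat_lit 45214) (nat_lit 0) (nat_lit 0) (XT.nd (nat_lit 45026) (nat_lit 0) (nat_lit 0) (XT.lf (nat_lit 924) (nat_lit 97414635) (nat_lit 0) (nat_lit 172959462) (nat_lit 924) (nat_lit 97414635) (nat_lit 139) (nat_lit 1) (nat_lit 128) (nat_lit 0) (nat_lit 139) (nat_lit 0) (nat_lit 310) (nat_lit 205) (nat_lit 205)) (XT.nd (nat_lit 94) (nat_lit 0) (nat_lit 0) (XT.lf (nat_lit 924) (nat_lit 102285367) (nat_lit 0) (nat_lit 181607435) (nat_lit 924) (nat_lit 102285367) (nat_lit 139) (nat_lit 1) (nat_lit 128) (nat_lit 0) (nat_lit 139) (nat_lit 0) (nat_lit 308) (nat_lit 206) (nat_lit 206)) (XT.lf (nat_lit 924) (nat_lit 396470854) (nat_lit 84) (nat_lit 178678283) (nat_lit 0) (nat_lit 178678283) (nat_lit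 139) (nat_lit 1) (nat_lit 129) (nat_lit 1) (nat_lit 128) (nat_lit 0) (nat_lit 309) (nat_lit 206) (nat_lit 205)))) (XT.nd (nat_lit 44838) (nat_lit 84) (nat_lit 0) (XT.lf (nat_lit 924) (nat_lit 188952039) (nat_lit 0) (nat_lit 357967249) (nat_lit 840) (nat_lit 188952039) (nat_lit 140) (nat_lit 1) (nat_lit 129) (nat_lit 1) (nat_lit 139) (nat_lit 1) (nat_lit 310) (nat_lit 206) (nat_lit 204)) (XT.nd (nat_lit 94) (nat_lit 0) (nat_lit 0) (XT.lf (nat_lit 924) (nat_lit 107399636) (nat_lit 0) (nat_lit 190687806) (nat_lit 924) (nat_lit 107399636) (nat_lit 139) (nat_lit 1) (nat_lit 128) (nat_lit 0) (nat_lit 139) (nat_lit 0) (nat_lit 306) (nat_lit 207) (nat_lit 207)) (XT.lf (nat_lit 924) (nat_lit 416294397) (nat_lit 84) (nat_lit 187612197) (nat_lit 0) (nat_lit 187612197) (nat_lit 139) (nat_lit 1) (nat_lit 129) (nat_lit 1) (nat_lit 128) (nat_lit 0) (nat_lit 307) (nat_lit 207) (nat_lit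 206))))) (XT.nd (nat_lit 44838) (nat_lit 84) (nat_lit 0) (XT.nd (nat_lit 94) (nat_lit 0) (nat_lit 0) (XT.lf (nat_lit 924) (nat_lit 198399641) (nat_lit 0) (nat_lit 375865612) (nat_lit 840) (nat_lit 198399641) (nat_lit 140) (nat_lit 1) (nat_lit 129) (nat_lit 1) (nat_lit 139) (nat_lit 1) (nat_lit 308) (nat_lit 207) (nat_lit 205)) (XT.nd (nat_lit 94) (nat_lit 0) (nat_lit 84) (XT.lf (nat_lit 924) (nat_lit 372170159) (nat_lit 84) (nat_lit 191124980) (nat_lit 0) (nat_lit 191124980) (nat_lit 140) (nat_lit 1) (nat_lit 130) (nat_lit 1) (nat_lit 129) (nat_lit 1) (nat_lit 309) (nat_lit 207) (nat_lit 204)) (XT.lf (nat_lit 924) (nat_lit 171306350) (nat_lit 0) (nat_lit 394140912) (nat_lit 840) (nat_lit 171306350) (nat_lit 141) (nat_lit 1) (nat_lit 130) (nat_lit 1) (nat_lit 140) (nat_lit 1) (nat_lit 310) (nat_lit 207) (nat_lit 203)))) (XT.nd (nat_lit 188) (nat_lit 0) (nat_lit 84) (XT.nd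 (nat_lit 94) (nat_lit 0) (nat_lit 0) (XT.lf (nat_lit 924) (nat_lit 112769617) (nat_lit 0) (nat_lit 200222197) (nat_lit 924) (nat_lit 112769617) (nat_lit 139) (nat_lit 1) (nat_lit 128) (nat_lit 0) (nat_lit 139) (nat_lit 0) (nat_lit 304) (nat_lit 208) (nat_lit 208)) (XT.lf (nat_lit 924) (nat_lit 437109117) (nat_lit 84) (nat_lit 196992807) (nat_lit 0) (nat_lit 196992807) (nat_lit 139) (nat_lit 1) (nat_lit 129) (nat_lit 1) (nat_lit 128) (nat_lit 0) (nat_lit 305) (nat_lit 208) (nat_lit 207))) (XT.nd (nat_lit 94) (nat_lit 0) (nat_lit 0) (XT.lf (nat_lit 924) (nat_lit 208319623) (nat_lit 0) (nat_lit 394658892) (nat_lit 840) (nat_lit 208319623) (nat_lit 140) (nat_lit 1) (nat_lit 129) (nat_lit 1) (nat_lit 139) (nat_lit 1) (nat_lit 306) (nat_lit 208) (nat_lit 206)) (XT.lf (nat_lit 924) (nat_lit 390778667) (nat_lit 84) (nat_lit 200681229) (nat_lit 0) (nat_lit 200681229) (nat_lit 140)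 (nat_lit 1) (nat_lit 130) (nat_lit 1) (nat_lit 129) (nat_lit 1) (nat_lit 307) (nat_lit 208) (nat_lit 205)))))) (XT.nd (nat_lit 45026) (nat_lit 0) (nat_lit 0) (XT.nd (nat_lit 44650) (nat_lit 168) (nat_lit 0) (XT.nd (nat_lit 94) (nat_lit 0) (nat_lit 0) (XT.lf (nat_lit 924) (nat_lit 179871668) (nat_lit 0) (nat_lit 413847958) (nat_lit 840) (nat_lit 179871668) (nat_lit 141) (nat_lit 1) (nat_lit 130) (nat_lit 1) (nat_lit 140) (nat_lit 1) (nat_lit 308) (nat_lit 208) (nat_lit 204)) (XT.nd (nat_lit 94) (nat_lit 0) (nat_lit 84) (XT.lf (nat_lit 924) (nat_lit 323510910) (nat_lit 84) (nat_lit 216048010) (nat_lit 0) (nat_lit 216048010) (nat_lit 141) (nat_lit 1) (nat_lit 131) (nat_lit 1) (nat_lit 130) (nat_lit 1) (nat_lit 309) (nat_lit 208) (nat_lit 203)) (XT.lf (nat_lit 924) (nat_lit 141850190) (nat_lit 0) (nat_lit 454526041) (nat_lit 840) (nat_lit 141850190) (nat_lit 142) (nat_lit 1)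 (nat_lit 131) (nat_lit 1) (nat_lit 141) (nat_lit 1) (nat_lit 310) (nat_lit 208) (nat_lit 202)))) (XT.nd (nat_lit 188) (nat_lit 0) (nat_lit 84) (XT.nd (nat_lit 94) (nat_lit 0) (nat_lit 0) (XT.lf (nat_lit 924) (nat_lit 118408098) (nat_lit 0) (nat_lit 210233307) (nat_lit 924) (nat_lit 118408098) (nat_lit 139) (nat_lit 1) (nat_lit 128) (nat_lit 0) (nat_lit 139) (nat_lit 0) (nat_lit 302) (nat_lit 209) (nat_lit 209)) (XT.lf (nat_lit 924) (nat_lit 458964573) (nat_lit 84) (nat_lit 206842447) (nat_lit 0) (nat_lit 206842447) (nat_lit 139) (nat_lit 1) (nat_lit 129) (nat_lit 1) (nat_lit 128) (nat_lit 0) (nat_lit 303) (nat_lit 209) (nat_lit 208))) (XT.nd (nat_lit 94) (nat_lit 0) (nat_lit 0) (XT.lf (nat_lit 924) (nat_lit 218735605) (nat_lit 0) (nat_lit 414391837) (nat_lit 840) (nat_lit 218735605) (nat_lit 140) (nat_lit 1) (nat_lit 129) (nat_lit 1) (nat_lit 139) (nat_lit 1) (nat_lit 304)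 (nat_lit 209) (nat_lit 207)) (XT.lf (nat_lit 924) (nat_lit 410317601) (nat_lit 84) (nat_lit 210715291) (nat_lit 0) (nat_lit 210715291) (nat_lit 140) (nat_lit 1) (nat_lit 130) (nat_lit 1) (nat_lit 129) (nat_lit 1) (nat_lit 305) (nat_lit 209) (nat_lit 206))))) (XT.nd (nat_lit 282) (nat_lit 168) (nat_lit 0) (XT.nd (nat_lit 94) (nat_lit 0) (nat_lit 0) (XT.lf (nat_lit 924) (nat_lit 188865251) (nat_lit 0) (nat_lit 434540356) (nat_lit 840) (nat_lit 188865251) (nat_lit 141) (nat_lit 1) (nat_lit 130) (nat_lit 1) (nat_lit 140) (nat_lit 1) (nat_lit 306) (nat_lit 209) (nat_lit 205)) (XT.nd (nat_lit 94) (nat_lit 0) (nat_lit 84) (XT.lf (nat_lit 924) (nat_lit 339686455) (nat_lit 84) (nat_lit 226850411) (nat_lit 0) (nat_lit 226850411) (nat_lit 141) (nat_lit 1) (nat_lit 131) (nat_lit 1) (nat_lit 130) (nat_lit 1) (nat_lit 307) (nat_lit 209) (nat_lit 204)) (XT.lf (nat_lit 924) (nat_lit 148942699)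 (nat_lit 0) (nat_lit 477252343) (nat_lit 840) (nat_lit 148942699) (nat_lit 142) (nat_lit 1) (nat_lit 131) (nat_lit 1) (nat_lit 141) (nat_lit 1) (nat_lit 308) (nat_lit 209) (nat_lit 203)))) (XT.nd (nat_lit 44368) (nat_lit 252) (nat_lit 0) (XT.nd (nat_lit 94) (nat_lit 0) (nat_lit 84) (XT.lf (nat_lit 924) (nat_lit 250377251) (nat_lit 84) (nat_lit 253506713) (nat_lit 0) (nat_lit 253506713) (nat_lit 142) (nat_lit 1) (nat_lit 132) (nat_lit 1) (nat_lit 131) (nat_lit 1) (nat_lit 309) (nat_lit 209) (nat_lit 202)) (XT.lf (nat_lit 924) (nat_lit 100513425) (nat_lit 0) (nat_lit 539266408) (nat_lit 840) (nat_lit 100513425) (nat_lit 143) (nat_lit 1) (nat_lit 132) (nat_lit 1) (nat_lit 142) (nat_lit 1) (nat_lit 310) (nat_lit 209) (nat_lit 201))) (XT.nd (nat_lit 94) (nat_lit 0) (nat_lit 0) (XT.lf (nat_lit 924) (nat_lit 124328503) (nat_lit 0) (nat_lit 220744972) (nat_lit 924) (nat_lit 124328503)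 (nat_lit 139) (nat_lit 1) (nat_lit 128) (nat_lit 0) (nat_lit 139) (nat_lit 0) (nat_lit 300) (nat_lit 210) (nat_lit 210)) (XT.lf (nat_lit 924) (nat_lit 481912802) (nat_lit 84) (nat_lit 217184569) (nat_lit 0) (nat_lit 217184569) (nat_lit 139) (nat_lit 1) (nat_lit 129) (nat_lit 1) (nat_lit 128) (nat_lit 0) (nat_lit 301) (nat_lit 210) (nat_lit 209))))))) (XT.nd (nat_lit 45214) (nat_lit 1008) (nat_lit 0) (XT.nd (nat_lit 564) (nat_lit 84) (nat_lit 0) (XT.nd (nat_lit 282) (nat_lit 0) (nat_lit 84) (XT.nd (nat_lit 94) (nat_lit 0) (nat_lit 0) (XT.lf (nat_lit 924) (nat_lit 229672385) (nat_lit 0) (nat_lit 435111429) (nat_lit 840) (nat_lit 229672385) (nat_lit 140) (nat_lit 1) (nat_lit 129) (nat_lit 1) (nat_lit 139) (nat_lit 1) (nat_lit 302) (nat_lit 210) (nat_lit 208)) (XT.nd (nat_lit 94) (nat_lit 0) (nat_lit 84) (XT.lf (nat_lit 924) (nat_lit 430833481) (nat_lit 84) (nat_lit 221251055)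 (nat_lit 0) (nat_lit 221251055) (nat_lit 140) (nat_lit 1) (nat_lit 130) (nat_lit 1) (nat_lit 129) (nat_lit 1) (nat_lit 303) (nat_lit 210) (nat_lit 207)) (XT.lf (nat_lit 924) (nat_lit 198308514) (nat_lit 0) (nat_lit 456267374) (nat_lit 840) (nat_lit 198308514) (nat_lit 141) (nat_lit 1) (nat_lit 130) (nat_lit 1) (nat_lit 140) (nat_lit 1) (nat_lit 304) (nat_lit 210) (nat_lit 206)))) (XT.nd (nat_lit 94) (nat_lit 0) (nat_lit 84) (XT.lf (nat_lit 924) (nat_lit 356670778) (nat_lit 84) (nat_lit 238192931) (nat_lit 0) (nat_lit 238192931) (nat_lit 141) (nat_lit 1) (nat_lit 131) (nat_lit 1) (nat_lit 130) (nat_lit 1) (nat_lit 305) (nat_lit 210) (nat_lit 205)) (XT.nd (nat_lit 94) (nat_lit 0) (nat_lit 0) (XT.lf (nat_lit 924) (nat_lit 156389834) (nat_lit 0) (nat_lit 501114960) (nat_lit 840) (nat_lit 156389834) (nat_lit 142) (nat_lit 1) (nat_lit 131) (nat_lit 1) (nat_lit 141) (nat_lit 1)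 (nat_lit 306) (nat_lit 210) (nat_lit 204)) (XT.lf (nat_lit 924) (nat_lit 262896114) (nat_lit 84) (nat_lit 266182049) (nat_lit 0) (nat_lit 266182049) (nat_lit 142) (nat_lit 1) (nat_lit 132) (nat_lit 1) (nat_lit 131) (nat_lit 1) (nat_lit 307) (nat_lit 210) (nat_lit 203))))) (XT.nd (nat_lit 44274) (nat_lit 336) (nat_lit 0) (XT.nd (nat_lit 94) (nat_lit 0) (nat_lit 0) (XT.lf (nat_lit 924) (nat_lit 105539096) (nat_lit 0) (nat_lit 566229729) (nat_lit 840) (nat_lit 105539096) (nat_lit 143) (nat_lit 1) (nat_lit 132) (nat_lit 1) (nat_lit 142) (nat_lit 1) (nat_lit 308) (nat_lit 210) (nat_lit 202)) (XT.nd (nat_lit 94) (nat_lit 0) (nat_lit 84) (XT.lf (nat_lit 924) (nat_lit 152595055) (nat_lit 84) (nat_lit 303590277) (nat_lit 0) (nat_lit 303590277) (nat_lit 143) (nat_lit 1) (nat_lit 133) (nat_lit 1) (nat_lit 132) (nat_lit 1) (nat_lit 309) (nat_lit 210) (nat_lit 201)) (XT.lf (nat_lit 84)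 (nat_lit 47197635) (nat_lit 0) (nat_lit 648563778) (nat_lit 840) (nat_lit 47197635) (nat_lit 134) (nat_lit 1) (nat_lit 133) (nat_lit 1) (nat_lit 143) (nat_lit 1) (nat_lit 310) (nat_lit 210) (nat_lit 200)))) (XT.nd (nat_lit 188) (nat_lit 0) (nat_lit 84) (XT.nd (nat_lit 94) (nat_lit 0) (nat_lit 0) (XT.lf (nat_lit 924) (nat_lit 130544928) (nat_lit 0) (nat_lit 231782221) (nat_lit 924) (nat_lit 130544928) (nat_lit 139) (nat_lit 1) (nat_lit 128) (nat_lit 0) (nat_lit 139) (nat_lit 0) (nat_lit 298) (nat_lit 211) (nat_lit 211)) (XT.lf (nat_lit 924) (nat_lit 506008442) (nat_lit 84) (nat_lit 228043798) (nat_lit 0) (nat_lit 228043798) (nat_lit 139) (nat_lit 1) (nat_lit 129) (nat_lit 1) (nat_lit 128) (nat_lit 0) (nat_lit 299) (nat_lit 211) (nat_lit 210))) (XT.nd (nat_lit 94) (nat_lit 0) (nat_lit 0) (XT.lf (nat_lit 924) (nat_lit 241156004) (nat_lit 0) (nat_lit 456867000) (nat_lit 840)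 (nat_lit 241156004) (nat_lit 140) (nat_lit 1) (nat_lit 129) (nat_lit 1) (nat_lit 139) (nat_lit 1) (nat_lit 300) (nat_lit 211) (nat_lit 209)) (XT.lf (nat_lit 924) (nat_lit 452375155) (nat_lit 84) (nat_lit 232313608) (nat_lit 0) (nat_lit 232313608) (nat_lit 140) (nat_lit 1) (nat_lit 130) (nat_lit 1) (nat_lit 129) (nat_lit 1) (nat_lit 301) (nat_lit 211) (nat_lit 208)))))) (XT.nd (nat_lit 658) (nat_lit 1176) (nat_lit 0) (XT.nd (nat_lit 282) (nat_lit 0) (nat_lit 84) (XT.nd (nat_lit 94) (nat_lit 0) (nat_lit 0) (XT.lf (nat_lit 924) (nat_lit 208223939) (nat_lit 0) (nat_lit 479080742) (nat_lit 840) (nat_lit 208223939) (nat_lit 141) (nat_lit 1) (nat_lit 130) (nat_lit 1) (nat_lit 140) (nat_lit 1) (nat_lit 302) (nat_lit 211) (nat_lit 207)) (XT.nd (nat_lit 94) (nat_lit 0) (nat_lit 84) (XT.lf (nat_lit 924) (nat_lit 374504317) (nat_lit 84) (nat_lit 250102578) (nat_lit 0) (nat_lit 250102578)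 (nat_lit 141) (nat_lit 1) (nat_lit 131) (nat_lit 1) (nat_lit 130) (nat_lit 1) (nat_lit 303) (nat_lit 211) (nat_lit 206)) (XT.lf (nat_lit 924) (nat_lit 164209326) (nat_lit 0) (nat_lit 526170708) (nat_lit 840) (nat_lit 164209326) (nat_lit 142) (nat_lit 1) (nat_lit 131) (nat_lit 1) (nat_lit 141) (nat_lit 1) (nat_lit 304) (nat_lit 211) (nat_lit 205)))) (XT.nd (nat_lit 188) (nat_lit 0) (nat_lit 84) (XT.nd (nat_lit 94) (nat_lit 0) (nat_lit 84) (XT.lf (nat_lit 924) (nat_lit 276040919) (nat_lit 84) (nat_lit 279491152) (nat_lit 0) (nat_lit 279491152) (nat_lit 142) (nat_lit 1) (nat_lit 132) (nat_lit 1) (nat_lit 131) (nat_lit 1) (nat_lit 305) (nat_lit 211) (nat_lit 204)) (XT.lf (nat_lit 924) (nat_lit 110816051) (nat_lit 0) (nat_lit 594541215) (nat_lit 840) (nat_lit 110816051) (nat_lit 143) (nat_lit 1) (nat_lit 132) (nat_lit 1) (nat_lit 142) (nat_lit 1) (nat_lit 306) (nat_lit 211) (nat_lit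 203))) (XT.nd (nat_lit 94) (nat_lit 0) (nat_lit 84) (XT.lf (nat_lit 924) (nat_lit 160224808) (nat_lit 84) (nat_lit 318769791) (nat_lit 0) (nat_lit 318769791) (nat_lit 143) (nat_lit 1) (nat_lit 133) (nat_lit 1) (nat_lit 132) (nat_lit 1) (nat_lit 307) (nat_lit 211) (nat_lit 202)) (XT.lf (nat_lit 84) (nat_lit 49557517) (nat_lit 0) (nat_lit 680991967) (nat_lit 840) (nat_lit 49557517) (nat_lit 134) (nat_lit 1) (nat_lit 133) (nat_lit 1) (nat_lit 143) (nat_lit 1) (nat_lit 308) (nat_lit 211) (nat_lit 201))))) (XT.nd (nat_lit 44086) (nat_lit 0) (nat_lit 1008) (XT.nd (nat_lit 94) (nat_lit 588) (nat_lit 0) (XT.lf (nat_lit 924) (nat_lit 29931507) (nat_lit 0) (nat_lit 366417948) (nat_lit 840) (nat_lit 366417948) (nat_lit 134) (nat_lit 1) (nat_lit 123) (nat_lit 1) (nat_lit 133) (nat_lit 1) (nat_lit 309) (nat_lit 211) (nat_lit 200)) (XT.nd (nat_lit 43898) (nat_lit 0) (nat_lit 1008) (XT.lf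 (nat_lit 588) (nat_lit 710312379) (nat_lit 0) (nat_lit 17930185) (nat_lit 504) (nat_lit 17930185) (nat_lit 123) (nat_lit 1) (nat_lit 116) (nat_lit 1) (nat_lit 122) (nat_lit 1) (nat_lit 310) (nat_lit 211) (nat_lit 199)) (XT.lf (nat_lit 924) (nat_lit 137072175) (nat_lit 0) (nat_lit 243371332) (nat_lit 924) (nat_lit 137072175) (nat_lit 139) (nat_lit 1) (nat_lit 128) (nat_lit 0) (nat_lit 139) (nat_lit 0) (nat_lit 296) (nat_lit 212) (nat_lit 212)))) (XT.nd (nat_lit 188) (nat_lit 0) (nat_lit 84) (XT.nd (nat_lit 94) (nat_lit 0) (nat_lit 84) (XT.lf (nat_lit 924) (nat_lit 531308864) (nat_lit 84) (nat_lit 239445988) (nat_lit 0) (nat_lit 239445988) (nat_lit 139) (nat_lit 1) (nat_lit 129) (nat_lit 1) (nat_lit 128) (nat_lit 0) (nat_lit 297) (nat_lit 212) (nat_lit 211)) (XT.lf (nat_lit 924) (nat_lit 253213804) (nat_lit 0) (nat_lit 479710350) (nat_lit 840) (nat_lit 253213804) (nat_lit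 140) (nat_lit 1) (nat_lit 129) (nat_lit 1) (nat_lit 139) (nat_lit 1) (nat_lit 298) (nat_lit 212) (nat_lit 210))) (XT.nd (nat_lit 94) (nat_lit 0) (nat_lit 84) (XT.lf (nat_lit 924) (nat_lit 474993912) (nat_lit 84) (nat_lit 243929288) (nat_lit 0) (nat_lit 243929288) (nat_lit 140) (nat_lit 1) (nat_lit 130) (nat_lit 1) (nat_lit 129) (nat_lit 1) (nat_lit 299) (nat_lit 212) (nat_lit 209)) (XT.lf (nat_lit 924) (nat_lit 218635136) (nat_lit 0) (nat_lit 503034779) (nat_lit 840) (nat_lit 218635136) (nat_lit 141) (nat_lit 1) (nat_lit 130) (nat_lit 1) (nat_lit 140) (nat_lit 1) (nat_lit 300) (nat_lit 212) (nat_lit 208))))))))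
noncomputable def ec1 : XT := (XT.nd (nat_lit 46060) (nat_lit 756) (nat_lit 0) (XT.nd (nat_lit 44744) (nat_lit 0) (nat_lit 0) (XT.nd (nat_lit 564) (nat_lit 1596) (nat_lit 0) (XT.nd (nat_lit 282) (nat_lit 0) (nat_lit 168) (XT.nd (nat_lit 94) (nat_lit 0) (nat_lit 84) (XT.lf (nat_lit 924) (nat_lit 393229533) (nat_lit 84) (nat_lit 262607707) (nat_lit 0) (nat_lit 262607707) (nat_lit 141) (nat_lit 1) (nat_lit 131) (nat_lit 1) (nat_lit 130) (nat_lit 1) (nat_lit 301) (nat_lit 212) (nat_lit 207)) (XT.nd (nat_lit 94) (nat_lit 0) (nat_lit 0) (XT.lf (nat_lit 924) (nat_lit 172419792) (nat_lit 0) (nat_lit 552479243) (nat_lit 840) (nat_lit 172419792) (nat_lit 142) (nat_lit 1) (nat_lit 131) (nat_lit 1) (nat_lit 141) (nat_lit 1) (nat_lit 302) (nat_lit 212) (nat_lit 206)) (XT.lf (nat_lit 924) (nat_lit 289842965) (nat_lit 84) (nat_lit 293465709) (nat_lit 0) (nat_lit 293465709) (nat_lit 142)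 (nat_lit 1) (nat_lit 132) (nat_lit 1) (nat_lit 131) (nat_lit 1) (nat_lit 303) (nat_lit 212) (nat_lit 205)))) (XT.nd (nat_lit 94) (nat_lit 0) (nat_lit 0) (XT.lf (nat_lit 924) (nat_lit 116356854) (nat_lit 0) (nat_lit 624268276) (nat_lit 840) (nat_lit 116356854) (nat_lit 143) (nat_lit 1) (nat_lit 132) (nat_lit 1) (nat_lit 142) (nat_lit 1) (nat_lit 304) (nat_lit 212) (nat_lit 204)) (XT.nd (nat_lit 94) (nat_lit 0) (nat_lit 84) (XT.lf (nat_lit 924) (nat_lit 168236048) (nat_lit 84) (nat_lit 334708281) (nat_lit 0) (nat_lit 334708281) (nat_lit 143) (nat_lit 1) (nat_lit 133) (nat_lit 1) (nat_lit 132) (nat_lit 1) (nat_lit 305) (nat_lit 212) (nat_lit 203)) (XT.lf (nat_lit 84) (nat_lit 52035393) (nat_lit 0) (nat_lit 715041565) (nat_lit 840) (nat_lit 52035393) (nat_lit 134) (nat_lit 1) (nat_lit 133) (nat_lit 1) (nat_lit 143) (nat_lit 1) (nat_lit 306) (nat_lit 212) (nat_lit 202))))) (XT.nd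 (nat_lit 282) (nat_lit 420) (nat_lit 0) (XT.nd (nat_lit 94) (nat_lit 588) (nat_lit 0) (XT.lf (nat_lit 924) (nat_lit 31428083) (nat_lit 0) (nat_lit 384738845) (nat_lit 840) (nat_lit 384738845) (nat_lit 134) (nat_lit 1) (nat_lit 123) (nat_lit 1) (nat_lit 133) (nat_lit 1) (nat_lit 307) (nat_lit 212) (nat_lit 201)) (XT.nd (nat_lit 94) (nat_lit 0) (nat_lit 0) (XT.lf (nat_lit 588) (nat_lit 745827998) (nat_lit 0) (nat_lit 18826694) (nat_lit 504) (nat_lit 18826694) (nat_lit 123) (nat_lit 1) (nat_lit 116) (nat_lit 1) (nat_lit 122) (nat_lit 1) (nat_lit 308) (nat_lit 212) (nat_lit 200)) (XT.lf (nat_lit 84) (nat_lit 326074702) (nat_lit 0) (nat_lit 114131737) (nat_lit 588) (nat_lit 326074702) (nat_lit 117) (nat_lit 1) (nat_lit 116) (nat_lit 1) (nat_lit 123) (nat_lit 1) (nat_lit 309) (nat_lit 212) (nat_lit 199)))) (XT.nd (nat_lit 43710) (nat_lit 0) (nat_lit 1428) (XT.nd (nat_lit 94) (nat_lit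 0) (nat_lit 0) (XT.lf (nat_lit 504) (nat_lit 561090863) (nat_lit 0) (nat_lit 94360717) (nat_lit 420) (nat_lit 94360717) (nat_lit 117) (nat_lit 1) (nat_lit 111) (nat_lit 1) (nat_lit 116) (nat_lit 1) (nat_lit 310) (nat_lit 212) (nat_lit 198)) (XT.lf (nat_lit 84) (nat_lit 232585116) (nat_lit 0) (nat_lit 268519443) (nat_lit 504) (nat_lit 232585116) (nat_lit 112) (nat_lit 1) (nat_lit 111) (nat_lit 1) (nat_lit 117) (nat_lit 1) (nat_lit 311) (nat_lit 212) (nat_lit 197))) (XT.nd (nat_lit 94) (nat_lit 0) (nat_lit 0) (XT.lf (nat_lit 924) (nat_lit 143925784) (nat_lit 0) (nat_lit 255539898) (nat_lit 924) (nat_lit 143925784) (nat_lit 139) (nat_lit 1) (nat_lit 128) (nat_lit 0) (nat_lit 139) (nat_lit 0) (nat_lit 294) (nat_lit 213) (nat_lit 213)) (XT.lf (nat_lit 924) (nat_lit 557874307) (nat_lit 84) (nat_lit 251418287) (nat_lit 0) (nat_lit 251418287) (nat_lit 139) (nat_lit 1) (nat_lit 129)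 (nat_lit 1) (nat_lit 128) (nat_lit 0) (nat_lit 295) (nat_lit 213) (nat_lit 212)))))) (XT.nd (nat_lit 658) (nat_lit 1512) (nat_lit 0) (XT.nd (nat_lit 282) (nat_lit 0) (nat_lit 84) (XT.nd (nat_lit 94) (nat_lit 0) (nat_lit 0) (XT.lf (nat_lit 924) (nat_lit 265874495) (nat_lit 0) (nat_lit 503695868) (nat_lit 840) (nat_lit 265874495) (nat_lit 140) (nat_lit 1) (nat_lit 129) (nat_lit 1) (nat_lit 139) (nat_lit 1) (nat_lit 296) (nat_lit 213) (nat_lit 211)) (XT.nd (nat_lit 94) (nat_lit 0) (nat_lit 84) (XT.lf (nat_lit 924) (nat_lit 498743608) (nat_lit 84) (nat_lit 256125753) (nat_lit 0) (nat_lit 256125753) (nat_lit 140) (nat_lit 1) (nat_lit 130) (nat_lit 1) (nat_lit 129) (nat_lit 1) (nat_lit 297) (nat_lit 213) (nat_lit 210)) (XT.lf (nat_lit 924) (nat_lit 229566893) (nat_lit 0) (nat_lit 528186518) (nat_lit 840) (nat_lit 229566893) (nat_lit 141) (nat_lit 1) (nat_lit 130) (nat_lit 1) (nat_lit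 140) (nat_lit 1) (nat_lit 298) (nat_lit 213) (nat_lit 209)))) (XT.nd (nat_lit 188) (nat_lit 0) (nat_lit 84) (XT.nd (nat_lit 94) (nat_lit 0) (nat_lit 84) (XT.lf (nat_lit 924) (nat_lit 412891010) (nat_lit 84) (nat_lit 275738092) (nat_lit 0) (nat_lit 275738092) (nat_lit 141) (nat_lit 1) (nat_lit 131) (nat_lit 1) (nat_lit 130) (nat_lit 1) (nat_lit 299) (nat_lit 213) (nat_lit 208)) (XT.lf (nat_lit 924) (nat_lit 181040782) (nat_lit 0) (nat_lit 580103205) (nat_lit 840) (nat_lit 181040782) (nat_lit 142) (nat_lit 1) (nat_lit 131) (nat_lit 1) (nat_lit 141) (nat_lit 1) (nat_lit 300) (nat_lit 213) (nat_lit 207))) (XT.nd (nat_lit 94) (nat_lit 0) (nat_lit 84) (XT.lf (nat_lit 924) (nat_lit 304335114) (nat_lit 84) (nat_lit 308138995) (nat_lit 0) (nat_lit 308138995) (nat_lit 142) (nat_lit 1) (nat_lit 132) (nat_lit 1) (nat_lit 131) (nat_lit 1) (nat_lit 301) (nat_lit 213) (nat_lit 206)) (XT.lf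 (nat_lit 924) (nat_lit 122174697) (nat_lit 0) (nat_lit 655481690) (nat_lit 840) (nat_lit 122174697) (nat_lit 143) (nat_lit 1) (nat_lit 132) (nat_lit 1) (nat_lit 142) (nat_lit 1) (nat_lit 302) (nat_lit 213) (nat_lit 205))))) (XT.nd (nat_lit 282) (nat_lit 1008) (nat_lit 0) (XT.nd (nat_lit 94) (nat_lit 756) (nat_lit 0) (XT.lf (nat_lit 924) (nat_lit 176647851) (nat_lit 84) (nat_lit 351443695) (nat_lit 0) (nat_lit 351443695) (nat_lit 143) (nat_lit 1) (nat_lit 133) (nat_lit 1) (nat_lit 132) (nat_lit 1) (nat_lit 303) (nat_lit 213) (nat_lit 204)) (XT.nd (nat_lit 94) (nat_lit 840) (nat_lit 0) (XT.lf (nat_lit 84) (nat_lit 54637162) (nat_lit 0) (nat_lit 750793644) (nat_lit 840) (nat_lit 54637162) (nat_lit 134) (nat_lit 1) (nat_lit 133) (nat_lit 1) (nat_lit 143) (nat_lit 1) (nat_lit 304) (nat_lit 213) (nat_lit 203)) (XT.lf (nat_lit 924) (nat_lit 32999487) (nat_lit 0) (nat_lit 403975788)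 (nat_lit 840) (nat_lit 403975788) (nat_lit 134) (nat_lit 1) (nat_lit 123) (nat_lit 1) (nat_lit 133) (nat_lit 1) (nat_lit 305) (nat_lit 213) (nat_lit 202)))) (XT.nd (nat_lit 188) (nat_lit 420) (nat_lit 0) (XT.nd (nat_lit 94) (nat_lit 0) (nat_lit 0) (XT.lf (nat_lit 588) (nat_lit 783119398) (nat_lit 0) (nat_lit 19768029) (nat_lit 504) (nat_lit 19768029) (nat_lit 123) (nat_lit 1) (nat_lit 116) (nat_lit 1) (nat_lit 122) (nat_lit 1) (nat_lit 306) (nat_lit 213) (nat_lit 201)) (XT.lf (nat_lit 84) (nat_lit 342378437) (nat_lit 0) (nat_lit 119838323) (nat_lit 588) (nat_lit 342378437) (nat_lit 117) (nat_lit 1) (nat_lit 116) (nat_lit 1) (nat_lit 123) (nat_lit 1) (nat_lit 307) (nat_lit 213) (nat_lit 200))) (XT.nd (nat_lit 94) (nat_lit 0) (nat_lit 0) (XT.lf (nat_lit 504) (nat_lit 589145406) (nat_lit 0) (nat_lit 99078753) (nat_lit 420) (nat_lit 99078753) (nat_lit 117) (nat_lit 1) (nat_lit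 111) (nat_lit 1) (nat_lit 116) (nat_lit 1) (nat_lit 308) (nat_lit 213) (nat_lit 199)) (XT.lf (nat_lit 84) (nat_lit 244214371) (nat_lit 0) (nat_lit 281945415) (nat_lit 504) (nat_lit 244214371) (nat_lit 112) (nat_lit 1) (nat_lit 111) (nat_lit 1) (nat_lit 117) (nat_lit 1) (nat_lit 309) (nat_lit 213) (nat_lit 198))))))) (XT.nd (nat_lit 44556) (nat_lit 336) (nat_lit 0) (XT.nd (nat_lit 43898) (nat_lit 0) (nat_lit 2016) (XT.nd (nat_lit 43616) (nat_lit 0) (nat_lit 1848) (XT.nd (nat_lit 94) (nat_lit 0) (nat_lit 0) (XT.lf (nat_lit 504) (nat_lit 387960605) (nat_lit 0) (nat_lit 183037191) (nat_lit 420) (nat_lit 183037191) (nat_lit 112) (nat_lit 1) (nat_lit 106) (nat_lit 1) (nat_lit 111) (nat_lit 1) (nat_lit 310) (nat_lit 213) (nat_lit 197)) (XT.nd (nat_lit 43428) (nat_lit 0) (nat_lit 1848) (XT.lf (nat_lit 84) (nat_lit 142958327) (nat_lit 0) (nat_lit 452254360) (nat_lit 504) (nat_lit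 142958327) (nat_lit 107) (nat_lit 1) (nat_lit 106) (nat_lit 1) (nat_lit 112) (nat_lit 1) (nat_lit 311) (nat_lit 213) (nat_lit 196)) (XT.lf (nat_lit 924) (nat_lit 151122073) (nat_lit 0) (nat_lit 268316893) (nat_lit 924) (nat_lit 151122073) (nat_lit 139) (nat_lit 1) (nat_lit 128) (nat_lit 0) (nat_lit 139) (nat_lit 0) (nat_lit 292) (nat_lit 214) (nat_lit 214)))) (XT.nd (nat_lit 94) (nat_lit 0) (nat_lit 84) (XT.lf (nat_lit 924) (nat_lit 585768022) (nat_lit 84) (nat_lit 263989201) (nat_lit 0) (nat_lit 263989201) (nat_lit 139) (nat_lit 1) (nat_lit 129) (nat_lit 1) (nat_lit 128) (nat_lit 0) (nat_lit 293) (nat_lit 214) (nat_lit 213)) (XT.nd (nat_lit 94) (nat_lit 0) (nat_lit 0) (XT.lf (nat_lit 924) (nat_lit 279168219) (nat_lit 0) (nat_lit 528880661) (nat_lit 840) (nat_lit 279168219) (nat_lit 140) (nat_lit 1) (nat_lit 129) (nat_lit 1) (nat_lit 139) (nat_lit 1) (nat_lit 294) (nat_lit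 214) (nat_lit 212)) (XT.lf (nat_lit 924) (nat_lit 523680788) (nat_lit 84) (nat_lit 268932040) (nat_lit 0) (nat_lit 268932040) (nat_lit 140) (nat_lit 1) (nat_lit 130) (nat_lit 1) (nat_lit 129) (nat_lit 1) (nat_lit 295) (nat_lit 214) (nat_lit 211))))) (XT.nd (nat_lit 282) (nat_lit 0) (nat_lit 84) (XT.nd (nat_lit 94) (nat_lit 0) (nat_lit 0) (XT.lf (nat_lit 924) (nat_lit 241045238) (nat_lit 0) (nat_lit 554595844) (nat_lit 840) (nat_lit 241045238) (nat_lit 141) (nat_lit 1) (nat_lit 130) (nat_lit 1) (nat_lit 140) (nat_lit 1) (nat_lit 296) (nat_lit 214) (nat_lit 210)) (XT.nd (nat_lit 94) (nat_lit 0) (nat_lit 84) (XT.lf (nat_lit 924) (nat_lit 433535560) (nat_lit 84) (nat_lit 289524997) (nat_lit 0) (nat_lit 289524997) (nat_lit 141) (nat_lit 1) (nat_lit 131) (nat_lit 1) (nat_lit 130) (nat_lit 1) (nat_lit 297) (nat_lit 214) (nat_lit 209)) (XT.lf (nat_lit 924) (nat_lit 190092821) (nat_lit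 0) (nat_lit 609108366) (nat_lit 840) (nat_lit 190092821) (nat_lit 142) (nat_lit 1) (nat_lit 131) (nat_lit 1) (nat_lit 141) (nat_lit 1) (nat_lit 298) (nat_lit 214) (nat_lit 208)))) (XT.nd (nat_lit 188) (nat_lit 0) (nat_lit 84) (XT.nd (nat_lit 94) (nat_lit 0) (nat_lit 84) (XT.lf (nat_lit 924) (nat_lit 319551869) (nat_lit 84) (nat_lit 323545944) (nat_lit 0) (nat_lit 323545944) (nat_lit 142) (nat_lit 1) (nat_lit 132) (nat_lit 1) (nat_lit 131) (nat_lit 1) (nat_lit 299) (nat_lit 214) (nat_lit 207)) (XT.lf (nat_lit 924) (nat_lit 128283431) (nat_lit 0) (nat_lit 688255774) (nat_lit 840) (nat_lit 128283431) (nat_lit 143) (nat_lit 1) (nat_lit 132) (nat_lit 1) (nat_lit 142) (nat_lit 1) (nat_lit 300) (nat_lit 214) (nat_lit 206))) (XT.nd (nat_lit 94) (nat_lit 0) (nat_lit 84) (XT.lf (nat_lit 924) (nat_lit 185480244) (nat_lit 84) (nat_lit 369015879) (nat_lit 0) (nat_lit 369015879) (nat_lit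 143) (nat_lit 1) (nat_lit 133) (nat_lit 1) (nat_lit 132) (nat_lit 1) (nat_lit 301) (nat_lit 214) (nat_lit 205)) (XT.lf (nat_lit 84) (nat_lit 57369020) (nat_lit 0) (nat_lit 788333326) (nat_lit 840) (nat_lit 57369020) (nat_lit 134) (nat_lit 1) (nat_lit 133) (nat_lit 1) (nat_lit 143) (nat_lit 1) (nat_lit 302) (nat_lit 214) (nat_lit 204)))))) (XT.nd (nat_lit 658) (nat_lit 336) (nat_lit 0) (XT.nd (nat_lit 282) (nat_lit 840) (nat_lit 0) (XT.nd (nat_lit 94) (nat_lit 588) (nat_lit 0) (XT.lf (nat_lit 924) (nat_lit 34649461) (nat_lit 0) (nat_lit 424174577) (nat_lit 840) (nat_lit 424174577) (nat_lit 134) (nat_lit 1) (nat_lit 123) (nat_lit 1) (nat_lit 133) (nat_lit 1) (nat_lit 303) (nat_lit 214) (nat_lit 203)) (XT.nd (nat_lit 94) (nat_lit 0) (nat_lit 0) (XT.lf (nat_lit 588) (nat_lit 822275368) (nat_lit 0) (nat_lit 20756430) (nat_lit 504) (nat_lit 20756430) (nat_lit 123) (nat_lit 1)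 (nat_lit 116) (nat_lit 1) (nat_lit 122) (nat_lit 1) (nat_lit 304) (nat_lit 214) (nat_lit 202)) (XT.lf (nat_lit 84) (nat_lit 359497359) (nat_lit 0) (nat_lit 125830240) (nat_lit 588) (nat_lit 359497359) (nat_lit 117) (nat_lit 1) (nat_lit 116) (nat_lit 1) (nat_lit 123) (nat_lit 1) (nat_lit 305) (nat_lit 214) (nat_lit 201)))) (XT.nd (nat_lit 188) (nat_lit 420) (nat_lit 0) (XT.nd (nat_lit 94) (nat_lit 0) (nat_lit 0) (XT.lf (nat_lit 504) (nat_lit 618602677) (nat_lit 0) (nat_lit 104032691) (nat_lit 420) (nat_lit 104032691) (nat_lit 117) (nat_lit 1) (nat_lit 111) (nat_lit 1) (nat_lit 116) (nat_lit 1) (nat_lit 306) (nat_lit 214) (nat_lit 200)) (XT.lf (nat_lit 84) (nat_lit 256425090) (nat_lit 0) (nat_lit 296042686) (nat_lit 504) (nat_lit 256425090) (nat_lit 112) (nat_lit 1) (nat_lit 111) (nat_lit 1) (nat_lit 117) (nat_lit 1) (nat_lit 307) (nat_lit 214) (nat_lit 199))) (XT.nd (nat_lit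 94) (nat_lit 0) (nat_lit 0) (XT.lf (nat_lit 504) (nat_lit 407358635) (nat_lit 0) (nat_lit 192189050) (nat_lit 420) (nat_lit 192189050) (nat_lit 112) (nat_lit 1) (nat_lit 106) (nat_lit 1) (nat_lit 111) (nat_lit 1) (nat_lit 308) (nat_lit 214) (nat_lit 198)) (XT.lf (nat_lit 84) (nat_lit 150106243) (nat_lit 0) (nat_lit 474867078) (nat_lit 504) (nat_lit 150106243) (nat_lit 107) (nat_lit 1) (nat_lit 106) (nat_lit 1) (nat_lit 112) (nat_lit 1) (nat_lit 309) (nat_lit 214) (nat_lit 197))))) (XT.nd (nat_lit 43428) (nat_lit 0) (nat_lit 2184) (XT.nd (nat_lit 94) (nat_lit 0) (nat_lit 0) (XT.lf (nat_lit 420) (nat_lit 190509389) (nat_lit 0) (nat_lit 284170741) (nat_lit 336) (nat_lit 284170741) (nat_lit 107) (nat_lit 1) (nat_lit 102) (nat_lit 1) (nat_lit 106) (nat_lit 1) (nat_lit 310) (nat_lit 214) (nat_lit 196)) (XT.nd (nat_lit 43240) (nat_lit 0) (nat_lit 2184) (XT.lf (nat_lit 84) (nat_lit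 41453571) (nat_lit 0) (nat_lit 660339108) (nat_lit 420) (nat_lit 41453571) (nat_lit 103) (nat_lit 1) (nat_lit 102) (nat_lit 1) (nat_lit 107) (nat_lit 1) (nat_lit 311) (nat_lit 214) (nat_lit 195)) (XT.lf (nat_lit 924) (nat_lit 158678176) (nat_lit 0) (nat_lit 281732738) (nat_lit 924) (nat_lit 158678176) (nat_lit 139) (nat_lit 1) (nat_lit 128) (nat_lit 0) (nat_lit 139) (nat_lit 0) (nat_lit 290) (nat_lit 215) (nat_lit 215)))) (XT.nd (nat_lit 188) (nat_lit 0) (nat_lit 84) (XT.nd (nat_lit 94) (nat_lit 0) (nat_lit 84) (XT.lf (nat_lit 924) (nat_lit 615056424) (nat_lit 84) (nat_lit 277188662) (nat_lit 0) (nat_lit 277188662) (nat_lit 139) (nat_lit 1) (nat_lit 129) (nat_lit 1) (nat_lit 128) (nat_lit 0) (nat_lit 291) (nat_lit 215) (nat_lit 214)) (XT.lf (nat_lit 924) (nat_lit 293126630) (nat_lit 0) (nat_lit 555324694) (nat_lit 840) (nat_lit 293126630) (nat_lit 140) (nat_lit 1) (nat_lit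 129) (nat_lit 1) (nat_lit 139) (nat_lit 1) (nat_lit 292) (nat_lit 215) (nat_lit 213))) (XT.nd (nat_lit 94) (nat_lit 0) (nat_lit 84) (XT.lf (nat_lit 924) (nat_lit 549864828) (nat_lit 84) (nat_lit 282378642) (nat_lit 0) (nat_lit 282378642) (nat_lit 140) (nat_lit 1) (nat_lit 130) (nat_lit 1) (nat_lit 129) (nat_lit 1) (nat_lit 293) (nat_lit 215) (nat_lit 212)) (XT.lf (nat_lit 924) (nat_lit 253097500) (nat_lit 0) (nat_lit 582325637) (nat_lit 840) (nat_lit 253097500) (nat_lit 141) (nat_lit 1) (nat_lit 130) (nat_lit 1) (nat_lit 140) (nat_lit 1) (nat_lit 294) (nat_lit 215) (nat_lit 211))))))))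
noncomputable def ec2 : XT := (XT.nd (nat_lit 45402) (nat_lit 336) (nat_lit 0) (XT.nd (nat_lit 1222) (nat_lit 1092) (nat_lit 0) (XT.nd (nat_lit 564) (nat_lit 2016) (nat_lit 0) (XT.nd (nat_lit 282) (nat_lit 0) (nat_lit 168) (XT.nd (nat_lit 94) (nat_lit 0) (nat_lit 84) (XT.lf (nat_lit 924) (nat_lit 455212338) (nat_lit 84) (nat_lit 304001247) (nat_lit 0) (nat_lit 304001247) (nat_lit 141) (nat_lit 1) (nat_lit 131) (nat_lit 1) (nat_lit 130) (nat_lit 1) (nat_lit 295) (nat_lit 215) (nat_lit 210)) (XT.nd (nat_lit 94) (nat_lit 0) (nat_lit 0) (XT.lf (nat_lit 924) (nat_lit 199597462) (nat_lit 0) (nat_lit 639563784) (nat_lit 840) (nat_lit 199597462) (nat_lit 142) (nat_lit 1) (nat_lit 131) (nat_lit 1) (nat_lit 141) (nat_lit 1) (nat_lit 296) (nat_lit 215) (nat_lit 209)) (XT.lf (nat_lit 924) (nat_lit 335529463) (nat_lit 84) (nat_lit 339723242) (nat_lit 0) (nat_lit 339723242) (nat_lit 142)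 (nat_lit 1) (nat_lit 132) (nat_lit 1) (nat_lit 131) (nat_lit 1) (nat_lit 297) (nat_lit 215) (nat_lit 208)))) (XT.nd (nat_lit 94) (nat_lit 0) (nat_lit 0) (XT.lf (nat_lit 924) (nat_lit 134697603) (nat_lit 0) (nat_lit 722668563) (nat_lit 840) (nat_lit 134697603) (nat_lit 143) (nat_lit 1) (nat_lit 132) (nat_lit 1) (nat_lit 142) (nat_lit 1) (nat_lit 298) (nat_lit 215) (nat_lit 207)) (XT.nd (nat_lit 94) (nat_lit 0) (nat_lit 84) (XT.lf (nat_lit 924) (nat_lit 194754256) (nat_lit 84) (nat_lit 387466673) (nat_lit 0) (nat_lit 387466673) (nat_lit 143) (nat_lit 1) (nat_lit 133) (nat_lit 1) (nat_lit 132) (nat_lit 1) (nat_lit 299) (nat_lit 215) (nat_lit 206)) (XT.lf (nat_lit 84) (nat_lit 60237471) (nat_lit 0) (nat_lit 827749992) (nat_lit 840) (nat_lit 60237471) (nat_lit 134) (nat_lit 1) (nat_lit 133) (nat_lit 1) (nat_lit 143) (nat_lit 1) (nat_lit 300) (nat_lit 215) (nat_lit 205))))) (XT.nd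 (nat_lit 282) (nat_lit 840) (nat_lit 0) (XT.nd (nat_lit 94) (nat_lit 588) (nat_lit 0) (XT.lf (nat_lit 924) (nat_lit 36381935) (nat_lit 0) (nat_lit 445383306) (nat_lit 840) (nat_lit 445383306) (nat_lit 134) (nat_lit 1) (nat_lit 123) (nat_lit 1) (nat_lit 133) (nat_lit 1) (nat_lit 301) (nat_lit 215) (nat_lit 204)) (XT.nd (nat_lit 94) (nat_lit 0) (nat_lit 0) (XT.lf (nat_lit 588) (nat_lit 863389136) (nat_lit 0) (nat_lit 21794252) (nat_lit 504) (nat_lit 21794252) (nat_lit 123) (nat_lit 1) (nat_lit 116) (nat_lit 1) (nat_lit 122) (nat_lit 1) (nat_lit 302) (nat_lit 215) (nat_lit 203)) (XT.lf (nat_lit 84) (nat_lit 377472227) (nat_lit 0) (nat_lit 132121752) (nat_lit 588) (nat_lit 377472227) (nat_lit 117) (nat_lit 1) (nat_lit 116) (nat_lit 1) (nat_lit 123) (nat_lit 1) (nat_lit 303) (nat_lit 215) (nat_lit 202)))) (XT.nd (nat_lit 188) (nat_lit 420) (nat_lit 0) (XT.nd (nat_lit 94) (nat_lit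 0) (nat_lit 0) (XT.lf (nat_lit 504) (nat_lit 649532811) (nat_lit 0) (nat_lit 109234325) (nat_lit 420) (nat_lit 109234325) (nat_lit 117) (nat_lit 1) (nat_lit 111) (nat_lit 1) (nat_lit 116) (nat_lit 1) (nat_lit 304) (nat_lit 215) (nat_lit 201)) (XT.lf (nat_lit 84) (nat_lit 269246344) (nat_lit 0) (nat_lit 310844820) (nat_lit 504) (nat_lit 269246344) (nat_lit 112) (nat_lit 1) (nat_lit 111) (nat_lit 1) (nat_lit 117) (nat_lit 1) (nat_lit 305) (nat_lit 215) (nat_lit 200))) (XT.nd (nat_lit 94) (nat_lit 0) (nat_lit 0) (XT.lf (nat_lit 504) (nat_lit 427726567) (nat_lit 0) (nat_lit 201798503) (nat_lit 420) (nat_lit 201798503) (nat_lit 112) (nat_lit 1) (nat_lit 106) (nat_lit 1) (nat_lit 111) (nat_lit 1) (nat_lit 306) (nat_lit 215) (nat_lit 199)) (XT.lf (nat_lit 84) (nat_lit 157611555) (nat_lit 0) (nat_lit 498610432) (nat_lit 504) (nat_lit 157611555) (nat_lit 107) (nat_lit 1) (nat_lit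 106) (nat_lit 1) (nat_lit 112) (nat_lit 1) (nat_lit 307) (nat_lit 215) (nat_lit 198)))))) (XT.nd (nat_lit 43522) (nat_lit 0) (nat_lit 3024) (XT.nd (nat_lit 282) (nat_lit 336) (nat_lit 0) (XT.nd (nat_lit 94) (nat_lit 420) (nat_lit 0) (XT.lf (nat_lit 420) (nat_lit 200034858) (nat_lit 0) (nat_lit 298379278) (nat_lit 336) (nat_lit 298379278) (nat_lit 107) (nat_lit 1) (nat_lit 102) (nat_lit 1) (nat_lit 106) (nat_lit 1) (nat_lit 308) (nat_lit 215) (nat_lit 197)) (XT.nd (nat_lit 94) (nat_lit 420) (nat_lit 0) (XT.lf (nat_lit 84) (nat_lit 43526250) (nat_lit 0) (nat_lit 693356064) (nat_lit 420) (nat_lit 43526250) (nat_lit 103) (nat_lit 1) (nat_lit 102) (nat_lit 1) (nat_lit 107) (nat_lit 1) (nat_lit 309) (nat_lit 215) (nat_lit 196)) (XT.lf (nat_lit 84) (nat_lit 366764693) (nat_lit 0) (nat_lit 30717255) (nat_lit 420) (nat_lit 366764693) (nat_lit 98) (nat_lit 1) (nat_lit 97) (nat_lit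 1) (nat_lit 102) (nat_lit 1) (nat_lit 310) (nat_lit 215) (nat_lit 195)))) (XT.nd (nat_lit 43052) (nat_lit 0) (nat_lit 2940) (XT.nd (nat_lit 94) (nat_lit 0) (nat_lit 0) (XT.lf (nat_lit 420) (nat_lit 606686642) (nat_lit 0) (nat_lit 71006781) (nat_lit 336) (nat_lit 71006781) (nat_lit 98) (nat_lit 1) (nat_lit 93) (nat_lit 1) (nat_lit 97) (nat_lit 1) (nat_lit 311) (nat_lit 215) (nat_lit 194)) (XT.lf (nat_lit 84) (nat_lit 237969173) (nat_lit 0) (nat_lit 257482126) (nat_lit 420) (nat_lit 237969173) (nat_lit 94) (nat_lit 1) (nat_lit 93) (nat_lit 1) (nat_lit 98) (nat_lit 1) (nat_lit 312) (nat_lit 215) (nat_lit 193))) (XT.nd (nat_lit 94) (nat_lit 0) (nat_lit 0) (XT.lf (nat_lit 924) (nat_lit 166612085) (nat_lit 0) (nat_lit 295819375) (nat_lit 924) (nat_lit 166612085) (nat_lit 139) (nat_lit 1) (nat_lit 128) (nat_lit 0) (nat_lit 139) (nat_lit 0) (nat_lit 288) (nat_lit 216) (nat_lit 216))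 (XT.lf (nat_lit 924) (nat_lit 645809245) (nat_lit 84) (nat_lit 291048095) (nat_lit 0) (nat_lit 291048095) (nat_lit 139) (nat_lit 1) (nat_lit 129) (nat_lit 1) (nat_lit 128) (nat_lit 0) (nat_lit 289) (nat_lit 216) (nat_lit 215))))) (XT.nd (nat_lit 282) (nat_lit 0) (nat_lit 84) (XT.nd (nat_lit 94) (nat_lit 0) (nat_lit 0) (XT.lf (nat_lit 924) (nat_lit 307782962) (nat_lit 0) (nat_lit 583090929) (nat_lit 840) (nat_lit 307782962) (nat_lit 140) (nat_lit 1) (nat_lit 129) (nat_lit 1) (nat_lit 139) (nat_lit 1) (nat_lit 290) (nat_lit 216) (nat_lit 214)) (XT.nd (nat_lit 94) (nat_lit 0) (nat_lit 84) (XT.lf (nat_lit 924) (nat_lit 577358069) (nat_lit 84) (nat_lit 296497575) (nat_lit 0) (nat_lit 296497575) (nat_lit 140) (nat_lit 1) (nat_lit 130) (nat_lit 1) (nat_lit 129) (nat_lit 1) (nat_lit 291) (nat_lit 216) (nat_lit 213)) (XT.lf (nat_lit 924) (nat_lit 265752375) (nat_lit 0) (nat_lit 611441918)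 (nat_lit 840) (nat_lit 265752375) (nat_lit 141) (nat_lit 1) (nat_lit 130) (nat_lit 1) (nat_lit 140) (nat_lit 1) (nat_lit 292) (nat_lit 216) (nat_lit 212)))) (XT.nd (nat_lit 188) (nat_lit 0) (nat_lit 84) (XT.nd (nat_lit 94) (nat_lit 0) (nat_lit 84) (XT.lf (nat_lit 924) (nat_lit 477972955) (nat_lit 84) (nat_lit 319201309) (nat_lit 0) (nat_lit 319201309) (nat_lit 141) (nat_lit 1) (nat_lit 131) (nat_lit 1) (nat_lit 130) (nat_lit 1) (nat_lit 293) (nat_lit 216) (nat_lit 211)) (XT.lf (nat_lit 924) (nat_lit 209577335) (nat_lit 0) (nat_lit 671541973) (nat_lit 840) (nat_lit 209577335) (nat_lit 142) (nat_lit 1) (nat_lit 131) (nat_lit 1) (nat_lit 141) (nat_lit 1) (nat_lit 294) (nat_lit 216) (nat_lit 210))) (XT.nd (nat_lit 94) (nat_lit 0) (nat_lit 84) (XT.lf (nat_lit 924) (nat_lit 352305936) (nat_lit 84) (nat_lit 356709404) (nat_lit 0) (nat_lit 356709404) (nat_lit 142) (nat_lit 1) (nat_lit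 132) (nat_lit 1) (nat_lit 131) (nat_lit 1) (nat_lit 295) (nat_lit 216) (nat_lit 209)) (XT.lf (nat_lit 924) (nat_lit 141432483) (nat_lit 0) (nat_lit 758801991) (nat_lit 840) (nat_lit 141432483) (nat_lit 143) (nat_lit 1) (nat_lit 132) (nat_lit 1) (nat_lit 142) (nat_lit 1) (nat_lit 296) (nat_lit 216) (nat_lit 208))))))) (XT.nd (nat_lit 1222) (nat_lit 336) (nat_lit 0) (XT.nd (nat_lit 564) (nat_lit 1512) (nat_lit 0) (XT.nd (nat_lit 282) (nat_lit 1008) (nat_lit 0) (XT.nd (nat_lit 94) (nat_lit 756) (nat_lit 0) (XT.lf (nat_lit 924) (nat_lit 204491969) (nat_lit 84) (nat_lit 406840007) (nat_lit 0) (nat_lit 406840007) (nat_lit 143) (nat_lit 1) (nat_lit 133) (nat_lit 1) (nat_lit 132) (nat_lit 1) (nat_lit 297) (nat_lit 216) (nat_lit 207)) (XT.nd (nat_lit 94) (nat_lit 840) (nat_lit 0) (XT.lf (nat_lit 84) (nat_lit 63249345) (nat_lit 0) (nat_lit 869137492) (nat_lit 840) (nat_lit 63249345)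 (nat_lit 134) (nat_lit 1) (nat_lit 133) (nat_lit 1) (nat_lit 143) (nat_lit 1) (nat_lit 298) (nat_lit 216) (nat_lit 206)) (XT.lf (nat_lit 924) (nat_lit 38201031) (nat_lit 0) (nat_lit 467652471) (nat_lit 840) (nat_lit 467652471) (nat_lit 134) (nat_lit 1) (nat_lit 123) (nat_lit 1) (nat_lit 133) (nat_lit 1) (nat_lit 299) (nat_lit 216) (nat_lit 205)))) (XT.nd (nat_lit 94) (nat_lit 420) (nat_lit 0) (XT.lf (nat_lit 588) (nat_lit 906558593) (nat_lit 0) (nat_lit 22883964) (nat_lit 504) (nat_lit 22883964) (nat_lit 123) (nat_lit 1) (nat_lit 116) (nat_lit 1) (nat_lit 122) (nat_lit 1) (nat_lit 300) (nat_lit 216) (nat_lit 204)) (XT.nd (nat_lit 94) (nat_lit 420) (nat_lit 0) (XT.lf (nat_lit 84) (nat_lit 396345839) (nat_lit 0) (nat_lit 138727839) (nat_lit 588) (nat_lit 396345839) (nat_lit 117) (nat_lit 1) (nat_lit 116) (nat_lit 1) (nat_lit 123) (nat_lit 1) (nat_lit 301) (nat_lit 216) (nat_lit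 203)) (XT.lf (nat_lit 504) (nat_lit 682009451) (nat_lit 0) (nat_lit 114696041) (nat_lit 420) (nat_lit 114696041) (nat_lit 117) (nat_lit 1) (nat_lit 111) (nat_lit 1) (nat_lit 116) (nat_lit 1) (nat_lit 302) (nat_lit 216) (nat_lit 202))))) (XT.nd (nat_lit 282) (nat_lit 1092) (nat_lit 0) (XT.nd (nat_lit 94) (nat_lit 420) (nat_lit 0) (XT.lf (nat_lit 84) (nat_lit 282708662) (nat_lit 0) (nat_lit 326387061) (nat_lit 504) (nat_lit 282708662) (nat_lit 112) (nat_lit 1) (nat_lit 111) (nat_lit 1) (nat_lit 117) (nat_lit 1) (nat_lit 303) (nat_lit 216) (nat_lit 201)) (XT.nd (nat_lit 94) (nat_lit 0) (nat_lit 0) (XT.lf (nat_lit 504) (nat_lit 449112895) (nat_lit 0) (nat_lit 211888428) (nat_lit 420) (nat_lit 211888428) (nat_lit 112) (nat_lit 1) (nat_lit 106) (nat_lit 1) (nat_lit 111) (nat_lit 1) (nat_lit 304) (nat_lit 216) (nat_lit 200)) (XT.lf (nat_lit 84) (nat_lit 165492133) (nat_lit 0) (nat_lit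 523540954) (nat_lit 504) (nat_lit 165492133) (nat_lit 107) (nat_lit 1) (nat_lit 106) (nat_lit 1) (nat_lit 112) (nat_lit 1) (nat_lit 305) (nat_lit 216) (nat_lit 199)))) (XT.nd (nat_lit 188) (nat_lit 756) (nat_lit 0) (XT.nd (nat_lit 94) (nat_lit 0) (nat_lit 0) (XT.lf (nat_lit 420) (nat_lit 210036601) (nat_lit 0) (nat_lit 313298242) (nat_lit 336) (nat_lit 313298242) (nat_lit 107) (nat_lit 1) (nat_lit 102) (nat_lit 1) (nat_lit 106) (nat_lit 1) (nat_lit 306) (nat_lit 216) (nat_lit 198)) (XT.lf (nat_lit 84) (nat_lit 45702563) (nat_lit 0) (nat_lit 728023867) (nat_lit 420) (nat_lit 45702563) (nat_lit 103) (nat_lit 1) (nat_lit 102) (nat_lit 1) (nat_lit 107) (nat_lit 1) (nat_lit 307) (nat_lit 216) (nat_lit 197))) (XT.nd (nat_lit 94) (nat_lit 336) (nat_lit 0) (XT.lf (nat_lit 84) (nat_lit 385102928) (nat_lit 0) (nat_lit 32253118) (nat_lit 420) (nat_lit 385102928) (nat_lit 98) (nat_lit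 1) (nat_lit 97) (nat_lit 1) (nat_lit 102) (nat_lit 1) (nat_lit 308) (nat_lit 216) (nat_lit 196)) (XT.lf (nat_lit 420) (nat_lit 637020975) (nat_lit 0) (nat_lit 74557120) (nat_lit 336) (nat_lit 74557120) (nat_lit 98) (nat_lit 1) (nat_lit 93) (nat_lit 1) (nat_lit 97) (nat_lit 1) (nat_lit 309) (nat_lit 216) (nat_lit 195)))))) (XT.nd (nat_lit 43334) (nat_lit 0) (nat_lit 3444) (XT.nd (nat_lit 42958) (nat_lit 0) (nat_lit 3276) (XT.nd (nat_lit 94) (nat_lit 336) (nat_lit 0) (XT.lf (nat_lit 84) (nat_lit 249867631) (nat_lit 0) (nat_lit 270356232) (nat_lit 420) (nat_lit 249867631) (nat_lit 94) (nat_lit 1) (nat_lit 93) (nat_lit 1) (nat_lit 98) (nat_lit 1) (nat_lit 310) (nat_lit 216) (nat_lit 194)) (XT.nd (nat_lit 94) (nat_lit 0) (nat_lit 0) (XT.lf (nat_lit 420) (nat_lit 364626382) (nat_lit 0) (nat_lit 194988866) (nat_lit 336) (nat_lit 194988866) (nat_lit 94) (nat_lit 1) (nat_lit 89)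 (nat_lit 1) (nat_lit 93) (nat_lit 1) (nat_lit 311) (nat_lit 216) (nat_lit 193)) (XT.lf (nat_lit 84) (nat_lit 114986888) (nat_lit 0) (nat_lit 509595810) (nat_lit 420) (nat_lit 114986888) (nat_lit 90) (nat_lit 1) (nat_lit 89) (nat_lit 1) (nat_lit 94) (nat_lit 1) (nat_lit 312) (nat_lit 216) (nat_lit 192)))) (XT.nd (nat_lit 188) (nat_lit 0) (nat_lit 84) (XT.nd (nat_lit 94) (nat_lit 0) (nat_lit 0) (XT.lf (nat_lit 924) (nat_lit 174942690) (nat_lit 0) (nat_lit 310610344) (nat_lit 924) (nat_lit 174942690) (nat_lit 139) (nat_lit 1) (nat_lit 128) (nat_lit 0) (nat_lit 139) (nat_lit 0) (nat_lit 286) (nat_lit 217) (nat_lit 217)) (XT.lf (nat_lit 924) (nat_lit 678099707) (nat_lit 84) (nat_lit 305600499) (nat_lit 0) (nat_lit 305600499) (nat_lit 139) (nat_lit 1) (nat_lit 129) (nat_lit 1) (nat_lit 128) (nat_lit 0) (nat_lit 287) (nat_lit 217) (nat_lit 216))) (XT.nd (nat_lit 94) (nat_lit 0)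 (nat_lit 0) (XT.lf (nat_lit 924) (nat_lit 323172110) (nat_lit 0) (nat_lit 612245476) (nat_lit 840) (nat_lit 323172110) (nat_lit 140) (nat_lit 1) (nat_lit 129) (nat_lit 1) (nat_lit 139) (nat_lit 1) (nat_lit 288) (nat_lit 217) (nat_lit 215)) (XT.lf (nat_lit 924) (nat_lit 606225973) (nat_lit 84) (nat_lit 311322453) (nat_lit 0) (nat_lit 311322453) (nat_lit 140) (nat_lit 1) (nat_lit 130) (nat_lit 1) (nat_lit 129) (nat_lit 1) (nat_lit 289) (nat_lit 217) (nat_lit 214))))) (XT.nd (nat_lit 282) (nat_lit 0) (nat_lit 84) (XT.nd (nat_lit 94) (nat_lit 0) (nat_lit 0) (XT.lf (nat_lit 924) (nat_lit 279039993) (nat_lit 0) (nat_lit 642014014) (nat_lit 840) (nat_lit 279039993) (nat_lit 141) (nat_lit 1) (nat_lit 130) (nat_lit 1) (nat_lit 140) (nat_lit 1) (nat_lit 290) (nat_lit 217) (nat_lit 213)) (XT.nd (nat_lit 94) (nat_lit 0) (nat_lit 84) (XT.lf (nat_lit 924) (nat_lit 501871603) (nat_lit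 84) (nat_lit 335161375) (nat_lit 0) (nat_lit 335161375) (nat_lit 141) (nat_lit 1) (nat_lit 131) (nat_lit 1) (nat_lit 130) (nat_lit 1) (nat_lit 291) (nat_lit 217) (nat_lit 212)) (XT.lf (nat_lit 924) (nat_lit 220056202) (nat_lit 0) (nat_lit 705119072) (nat_lit 840) (nat_lit 220056202) (nat_lit 142) (nat_lit 1) (nat_lit 131) (nat_lit 1) (nat_lit 141) (nat_lit 1) (nat_lit 292) (nat_lit 217) (nat_lit 211)))) (XT.nd (nat_lit 188) (nat_lit 0) (nat_lit 84) (XT.nd (nat_lit 94) (nat_lit 0) (nat_lit 84) (XT.lf (nat_lit 924) (nat_lit 369921233) (nat_lit 84) (nat_lit 374544874) (nat_lit 0) (nat_lit 374544874) (nat_lit 142) (nat_lit 1) (nat_lit 132) (nat_lit 1) (nat_lit 131) (nat_lit 1) (nat_lit 293) (nat_lit 217) (nat_lit 210)) (XT.lf (nat_lit 924) (nat_lit 148504107) (nat_lit 0) (nat_lit 796742091) (nat_lit 840) (nat_lit 148504107) (nat_lit 143) (nat_lit 1) (nat_lit 132) (nat_lit 1)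 (nat_lit 142) (nat_lit 1) (nat_lit 294) (nat_lit 217) (nat_lit 209))) (XT.nd (nat_lit 94) (nat_lit 0) (nat_lit 84) (XT.lf (nat_lit 924) (nat_lit 214716567) (nat_lit 84) (nat_lit 427182008) (nat_lit 0) (nat_lit 427182008) (nat_lit 143) (nat_lit 1) (nat_lit 133) (nat_lit 1) (nat_lit 132) (nat_lit 1) (nat_lit 295) (nat_lit 217) (nat_lit 208)) (XT.lf (nat_lit 84) (nat_lit 66411812) (nat_lit 0) (nat_lit 912594367) (nat_lit 840) (nat_lit 66411812) (nat_lit 134) (nat_lit 1) (nat_lit 133) (nat_lit 1) (nat_lit 143) (nat_lit 1) (nat_lit 296) (nat_lit 217) (nat_lit 207))))))))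
noncomputable def ec3 : XT := (XT.nd (nat_lit 44932) (nat_lit 252) (nat_lit 0) (XT.nd (nat_lit 1222) (nat_lit 672) (nat_lit 0) (XT.nd (nat_lit 564) (nat_lit 1428) (nat_lit 0) (XT.nd (nat_lit 282) (nat_lit 840) (nat_lit 0) (XT.nd (nat_lit 94) (nat_lit 588) (nat_lit 0) (XT.lf (nat_lit 924) (nat_lit 40111083) (nat_lit 0) (nat_lit 491035095) (nat_lit 840) (nat_lit 491035095) (nat_lit 134) (nat_lit 1) (nat_lit 123) (nat_lit 1) (nat_lit 133) (nat_lit 1) (nat_lit 297) (nat_lit 217) (nat_lit 206)) (XT.nd (nat_lit 94) (nat_lit 0) (nat_lit 0) (XT.lf (nat_lit 588) (nat_lit 951886522) (nat_lit 0) (nat_lit 24028162) (nat_lit 504) (nat_lit 24028162) (nat_lit 123) (nat_lit 1) (nat_lit 116) (nat_lit 1) (nat_lit 122) (nat_lit 1) (nat_lit 298) (nat_lit 217) (nat_lit 205)) (XT.lf (nat_lit 84) (nat_lit 416163131) (nat_lit 0) (nat_lit 145664231) (nat_lit 588) (nat_lit 416163131) (nat_lit 117)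 (nat_lit 1) (nat_lit 116) (nat_lit 1) (nat_lit 123) (nat_lit 1) (nat_lit 299) (nat_lit 217) (nat_lit 204)))) (XT.nd (nat_lit 94) (nat_lit 420) (nat_lit 0) (XT.lf (nat_lit 504) (nat_lit 716109924) (nat_lit 0) (nat_lit 120430843) (nat_lit 420) (nat_lit 120430843) (nat_lit 117) (nat_lit 1) (nat_lit 111) (nat_lit 1) (nat_lit 116) (nat_lit 1) (nat_lit 300) (nat_lit 217) (nat_lit 203)) (XT.nd (nat_lit 94) (nat_lit 420) (nat_lit 0) (XT.lf (nat_lit 84) (nat_lit 296844095) (nat_lit 0) (nat_lit 342706414) (nat_lit 504) (nat_lit 296844095) (nat_lit 112) (nat_lit 1) (nat_lit 111) (nat_lit 1) (nat_lit 117) (nat_lit 1) (nat_lit 301) (nat_lit 217) (nat_lit 202)) (XT.lf (nat_lit 504) (nat_lit 471568540) (nat_lit 0) (nat_lit 222482850) (nat_lit 420) (nat_lit 222482850) (nat_lit 112) (nat_lit 1) (nat_lit 106) (nat_lit 1) (nat_lit 111) (nat_lit 1) (nat_lit 302) (nat_lit 217) (nat_lit 201)))))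 (XT.nd (nat_lit 282) (nat_lit 1092) (nat_lit 0) (XT.nd (nat_lit 94) (nat_lit 336) (nat_lit 0) (XT.lf (nat_lit 84) (nat_lit 173766740) (nat_lit 0) (nat_lit 549718002) (nat_lit 504) (nat_lit 173766740) (nat_lit 107) (nat_lit 1) (nat_lit 106) (nat_lit 1) (nat_lit 112) (nat_lit 1) (nat_lit 303) (nat_lit 217) (nat_lit 200)) (XT.nd (nat_lit 94) (nat_lit 0) (nat_lit 0) (XT.lf (nat_lit 420) (nat_lit 220538431) (nat_lit 0) (nat_lit 328963154) (nat_lit 336) (nat_lit 328963154) (nat_lit 107) (nat_lit 1) (nat_lit 102) (nat_lit 1) (nat_lit 106) (nat_lit 1) (nat_lit 304) (nat_lit 217) (nat_lit 199)) (XT.lf (nat_lit 84) (nat_lit 47987691) (nat_lit 0) (nat_lit 764425060) (nat_lit 420) (nat_lit 47987691) (nat_lit 103) (nat_lit 1) (nat_lit 102) (nat_lit 1) (nat_lit 107) (nat_lit 1) (nat_lit 305) (nat_lit 217) (nat_lit 198)))) (XT.nd (nat_lit 188) (nat_lit 336) (nat_lit 0) (XT.nd (nat_lit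 94) (nat_lit 336) (nat_lit 0) (XT.lf (nat_lit 84) (nat_lit 404358074) (nat_lit 0) (nat_lit 33865774) (nat_lit 420) (nat_lit 404358074) (nat_lit 98) (nat_lit 1) (nat_lit 97) (nat_lit 1) (nat_lit 102) (nat_lit 1) (nat_lit 306) (nat_lit 217) (nat_lit 197)) (XT.lf (nat_lit 420) (nat_lit 668872023) (nat_lit 0) (nat_lit 78284976) (nat_lit 336) (nat_lit 78284976) (nat_lit 98) (nat_lit 1) (nat_lit 93) (nat_lit 1) (nat_lit 97) (nat_lit 1) (nat_lit 307) (nat_lit 217) (nat_lit 196))) (XT.nd (nat_lit 94) (nat_lit 336) (nat_lit 0) (XT.lf (nat_lit 84) (nat_lit 262361013) (nat_lit 0) (nat_lit 283874044) (nat_lit 420) (nat_lit 262361013) (nat_lit 94) (nat_lit 1) (nat_lit 93) (nat_lit 1) (nat_lit 98) (nat_lit 1) (nat_lit 308) (nat_lit 217) (nat_lit 195)) (XT.lf (nat_lit 420) (nat_lit 382857701) (nat_lit 0) (nat_lit 204738309) (nat_lit 336) (nat_lit 204738309) (nat_lit 94) (nat_lit 1) (nat_lit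 89) (nat_lit 1) (nat_lit 93) (nat_lit 1) (nat_lit 309) (nat_lit 217) (nat_lit 194)))))) (XT.nd (nat_lit 43052) (nat_lit 0) (nat_lit 4032) (XT.nd (nat_lit 282) (nat_lit 0) (nat_lit 0) (XT.nd (nat_lit 94) (nat_lit 672) (nat_lit 0) (XT.lf (nat_lit 84) (nat_lit 120736232) (nat_lit 0) (nat_lit 535075601) (nat_lit 420) (nat_lit 120736232) (nat_lit 90) (nat_lit 1) (nat_lit 89) (nat_lit 1) (nat_lit 94) (nat_lit 1) (nat_lit 310) (nat_lit 217) (nat_lit 193)) (XT.nd (nat_lit 94) (nat_lit 420) (nat_lit 0) (XT.lf (nat_lit 336) (nat_lit 98189606) (nat_lit 0) (nat_lit 331456483) (nat_lit 252) (nat_lit 331456483) (nat_lit 90) (nat_lit 1) (nat_lit 86) (nat_lit 1) (nat_lit 89) (nat_lit 1) (nat_lit 311) (nat_lit 217) (nat_lit 192)) (XT.lf (nat_lit 420) (nat_lit 707016439) (nat_lit 0) (nat_lit 19618349) (nat_lit 336) (nat_lit 19618349) (nat_lit 86) (nat_lit 1) (nat_lit 81) (nat_lit 1) (nat_lit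 85) (nat_lit 1) (nat_lit 312) (nat_lit 217) (nat_lit 191)))) (XT.nd (nat_lit 42582) (nat_lit 0) (nat_lit 3948) (XT.nd (nat_lit 42488) (nat_lit 0) (nat_lit 3948) (XT.lf (nat_lit 84) (nat_lit 276660759) (nat_lit 0) (nat_lit 178164374) (nat_lit 420) (nat_lit 276660759) (nat_lit 82) (nat_lit 1) (nat_lit 81) (nat_lit 1) (nat_lit 86) (nat_lit 1) (nat_lit 313) (nat_lit 217) (nat_lit 190)) (XT.lf (nat_lit 924) (nat_lit 183689824) (nat_lit 0) (nat_lit 326140861) (nat_lit 924) (nat_lit 183689824) (nat_lit 139) (nat_lit 1) (nat_lit 128) (nat_lit 0) (nat_lit 139) (nat_lit 0) (nat_lit 284) (nat_lit 218) (nat_lit 218))) (XT.nd (nat_lit 94) (nat_lit 0) (nat_lit 84) (XT.lf (nat_lit 924) (nat_lit 712004692) (nat_lit 84) (nat_lit 320880524) (nat_lit 0) (nat_lit 320880524) (nat_lit 139) (nat_lit 1) (nat_lit 129) (nat_lit 1) (nat_lit 128) (nat_lit 0) (nat_lit 285) (nat_lit 218) (nat_lit 217))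 (XT.lf (nat_lit 924) (nat_lit 339330715) (nat_lit 0) (nat_lit 642857749) (nat_lit 840) (nat_lit 339330715) (nat_lit 140) (nat_lit 1) (nat_lit 129) (nat_lit 1) (nat_lit 139) (nat_lit 1) (nat_lit 286) (nat_lit 218) (nat_lit 216))))) (XT.nd (nat_lit 282) (nat_lit 0) (nat_lit 168) (XT.nd (nat_lit 94) (nat_lit 0) (nat_lit 84) (XT.lf (nat_lit 924) (nat_lit 636537271) (nat_lit 84) (nat_lit 326888576) (nat_lit 0) (nat_lit 326888576) (nat_lit 140) (nat_lit 1) (nat_lit 130) (nat_lit 1) (nat_lit 129) (nat_lit 1) (nat_lit 287) (nat_lit 218) (nat_lit 215)) (XT.nd (nat_lit 94) (nat_lit 0) (nat_lit 0) (XT.lf (nat_lit 924) (nat_lit 292991993) (nat_lit 0) (nat_lit 674114715) (nat_lit 840) (nat_lit 292991993) (nat_lit 141) (nat_lit 1) (nat_lit 130) (nat_lit 1) (nat_lit 140) (nat_lit 1) (nat_lit 288) (nat_lit 218) (nat_lit 214)) (XT.lf (nat_lit 924) (nat_lit 526965183) (nat_lit 84) (nat_lit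 351919443) (nat_lit 0) (nat_lit 351919443) (nat_lit 141) (nat_lit 1) (nat_lit 131) (nat_lit 1) (nat_lit 130) (nat_lit 1) (nat_lit 289) (nat_lit 218) (nat_lit 213)))) (XT.nd (nat_lit 188) (nat_lit 0) (nat_lit 84) (XT.nd (nat_lit 94) (nat_lit 0) (nat_lit 0) (XT.lf (nat_lit 924) (nat_lit 231059012) (nat_lit 0) (nat_lit 740375025) (nat_lit 840) (nat_lit 231059012) (nat_lit 142) (nat_lit 1) (nat_lit 131) (nat_lit 1) (nat_lit 141) (nat_lit 1) (nat_lit 290) (nat_lit 218) (nat_lit 212)) (XT.lf (nat_lit 924) (nat_lit 388417295) (nat_lit 84) (nat_lit 393272118) (nat_lit 0) (nat_lit 393272118) (nat_lit 142) (nat_lit 1) (nat_lit 132) (nat_lit 1) (nat_lit 131) (nat_lit 1) (nat_lit 291) (nat_lit 218) (nat_lit 211))) (XT.nd (nat_lit 94) (nat_lit 0) (nat_lit 0) (XT.lf (nat_lit 924) (nat_lit 155929313) (nat_lit 0) (nat_lit 836579195) (nat_lit 840) (nat_lit 155929313) (nat_lit 143) (nat_lit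 1) (nat_lit 132) (nat_lit 1) (nat_lit 142) (nat_lit 1) (nat_lit 292) (nat_lit 218) (nat_lit 210)) (XT.lf (nat_lit 924) (nat_lit 225452395) (nat_lit 84) (nat_lit 448541108) (nat_lit 0) (nat_lit 448541108) (nat_lit 143) (nat_lit 1) (nat_lit 133) (nat_lit 1) (nat_lit 132) (nat_lit 1) (nat_lit 293) (nat_lit 218) (nat_lit 209))))))) (XT.nd (nat_lit 1316) (nat_lit 924) (nat_lit 0) (XT.nd (nat_lit 658) (nat_lit 1428) (nat_lit 0) (XT.nd (nat_lit 282) (nat_lit 840) (nat_lit 0) (XT.nd (nat_lit 94) (nat_lit 1428) (nat_lit 0) (XT.lf (nat_lit 84) (nat_lit 69732403) (nat_lit 0) (nat_lit 958224085) (nat_lit 840) (nat_lit 69732403) (nat_lit 134) (nat_lit 1) (nat_lit 133) (nat_lit 1) (nat_lit 143) (nat_lit 1) (nat_lit 294) (nat_lit 218) (nat_lit 208)) (XT.nd (nat_lit 94) (nat_lit 588) (nat_lit 0) (XT.lf (nat_lit 924) (nat_lit 42116637) (nat_lit 0) (nat_lit 515586850) (nat_lit 840) (nat_lit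 515586850) (nat_lit 134) (nat_lit 1) (nat_lit 123) (nat_lit 1) (nat_lit 133) (nat_lit 1) (nat_lit 295) (nat_lit 218) (nat_lit 207)) (XT.lf (nat_lit 588) (nat_lit 999480849) (nat_lit 0) (nat_lit 25229571) (nat_lit 504) (nat_lit 25229571) (nat_lit 123) (nat_lit 1) (nat_lit 116) (nat_lit 1) (nat_lit 122) (nat_lit 1) (nat_lit 296) (nat_lit 218) (nat_lit 206)))) (XT.nd (nat_lit 188) (nat_lit 420) (nat_lit 0) (XT.nd (nat_lit 94) (nat_lit 420) (nat_lit 0) (XT.lf (nat_lit 84) (nat_lit 436971287) (nat_lit 0) (nat_lit 152947443) (nat_lit 588) (nat_lit 436971287) (nat_lit 117) (nat_lit 1) (nat_lit 116) (nat_lit 1) (nat_lit 123) (nat_lit 1) (nat_lit 297) (nat_lit 218) (nat_lit 205)) (XT.lf (nat_lit 504) (nat_lit 751915420) (nat_lit 0) (nat_lit 126452386) (nat_lit 420) (nat_lit 126452386) (nat_lit 117) (nat_lit 1) (nat_lit 111) (nat_lit 1) (nat_lit 116) (nat_lit 1) (nat_lit 298) (nat_lit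 218) (nat_lit 204))) (XT.nd (nat_lit 94) (nat_lit 420) (nat_lit 0) (XT.lf (nat_lit 84) (nat_lit 311686300) (nat_lit 0) (nat_lit 359841735) (nat_lit 504) (nat_lit 311686300) (nat_lit 112) (nat_lit 1) (nat_lit 111) (nat_lit 1) (nat_lit 117) (nat_lit 1) (nat_lit 299) (nat_lit 218) (nat_lit 203)) (XT.lf (nat_lit 504) (nat_lit 495146967) (nat_lit 0) (nat_lit 233606992) (nat_lit 420) (nat_lit 233606992) (nat_lit 112) (nat_lit 1) (nat_lit 106) (nat_lit 1) (nat_lit 111) (nat_lit 1) (nat_lit 300) (nat_lit 218) (nat_lit 202))))) (XT.nd (nat_lit 282) (nat_lit 1092) (nat_lit 0) (XT.nd (nat_lit 94) (nat_lit 336) (nat_lit 0) (XT.lf (nat_lit 84) (nat_lit 182455077) (nat_lit 0) (nat_lit 577203902) (nat_lit 504) (nat_lit 182455077) (nat_lit 107) (nat_lit 1) (nat_lit 106) (nat_lit 1) (nat_lit 112) (nat_lit 1) (nat_lit 301) (nat_lit 218) (nat_lit 201)) (XT.nd (nat_lit 94) (nat_lit 0) (nat_lit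 0) (XT.lf (nat_lit 420) (nat_lit 231565353) (nat_lit 0) (nat_lit 345411311) (nat_lit 336) (nat_lit 345411311) (nat_lit 107) (nat_lit 1) (nat_lit 102) (nat_lit 1) (nat_lit 106) (nat_lit 1) (nat_lit 302) (nat_lit 218) (nat_lit 200)) (XT.lf (nat_lit 84) (nat_lit 50387075) (nat_lit 0) (nat_lit 802646313) (nat_lit 420) (nat_lit 50387075) (nat_lit 103) (nat_lit 1) (nat_lit 102) (nat_lit 1) (nat_lit 107) (nat_lit 1) (nat_lit 303) (nat_lit 218) (nat_lit 199)))) (XT.nd (nat_lit 188) (nat_lit 336) (nat_lit 0) (XT.nd (nat_lit 94) (nat_lit 336) (nat_lit 0) (XT.lf (nat_lit 84) (nat_lit 424575978) (nat_lit 0) (nat_lit 35559062) (nat_lit 420) (nat_lit 424575978) (nat_lit 98) (nat_lit 1) (nat_lit 97) (nat_lit 1) (nat_lit 102) (nat_lit 1) (nat_lit 304) (nat_lit 218) (nat_lit 198)) (XT.lf (nat_lit 420) (nat_lit 702315625) (nat_lit 0) (nat_lit 82199225) (nat_lit 336) (nat_lit 82199225) (nat_lit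 98) (nat_lit 1) (nat_lit 93) (nat_lit 1) (nat_lit 97) (nat_lit 1) (nat_lit 305) (nat_lit 218) (nat_lit 197))) (XT.nd (nat_lit 94) (nat_lit 336) (nat_lit 0) (XT.lf (nat_lit 84) (nat_lit 275479064) (nat_lit 0) (nat_lit 298067746) (nat_lit 420) (nat_lit 275479064) (nat_lit 94) (nat_lit 1) (nat_lit 93) (nat_lit 1) (nat_lit 98) (nat_lit 1) (nat_lit 306) (nat_lit 218) (nat_lit 196)) (XT.lf (nat_lit 420) (nat_lit 402000586) (nat_lit 0) (nat_lit 214975225) (nat_lit 336) (nat_lit 214975225) (nat_lit 94) (nat_lit 1) (nat_lit 89) (nat_lit 1) (nat_lit 93) (nat_lit 1) (nat_lit 307) (nat_lit 218) (nat_lit 195)))))) (XT.nd (nat_lit 42864) (nat_lit 0) (nat_lit 4200) (XT.nd (nat_lit 282) (nat_lit 252) (nat_lit 0) (XT.nd (nat_lit 94) (nat_lit 672) (nat_lit 0) (XT.lf (nat_lit 84) (nat_lit 126773044) (nat_lit 0) (nat_lit 561829381) (nat_lit 420) (nat_lit 126773044) (nat_lit 90) (nat_lit 1)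 (nat_lit 89) (nat_lit 1) (nat_lit 94) (nat_lit 1) (nat_lit 308) (nat_lit 218) (nat_lit 194)) (XT.nd (nat_lit 94) (nat_lit 420) (nat_lit 0) (XT.lf (nat_lit 336) (nat_lit 103099087) (nat_lit 0) (nat_lit 348029307) (nat_lit 252) (nat_lit 348029307) (nat_lit 90) (nat_lit 1) (nat_lit 86) (nat_lit 1) (nat_lit 89) (nat_lit 1) (nat_lit 309) (nat_lit 218) (nat_lit 193)) (XT.lf (nat_lit 420) (nat_lit 742367261) (nat_lit 0) (nat_lit 20599267) (nat_lit 336) (nat_lit 20599267) (nat_lit 86) (nat_lit 1) (nat_lit 81) (nat_lit 1) (nat_lit 85) (nat_lit 1) (nat_lit 310) (nat_lit 218) (nat_lit 192)))) (XT.nd (nat_lit 188) (nat_lit 0) (nat_lit 0) (XT.nd (nat_lit 94) (nat_lit 252) (nat_lit 0) (XT.lf (nat_lit 84) (nat_lit 290493797) (nat_lit 0) (nat_lit 187072592) (nat_lit 420) (nat_lit 290493797) (nat_lit 82) (nat_lit 1) (nat_lit 81) (nat_lit 1) (nat_lit 86) (nat_lit 1) (nat_lit 311) (nat_lit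 218) (nat_lit 191)) (XT.lf (nat_lit 336) (nat_lit 424275375) (nat_lit 0) (nat_lit 164436943) (nat_lit 252) (nat_lit 164436943) (nat_lit 82) (nat_lit 1) (nat_lit 78) (nat_lit 1) (nat_lit 81) (nat_lit 1) (nat_lit 312) (nat_lit 218) (nat_lit 190))) (XT.nd (nat_lit 42300) (nat_lit 0) (nat_lit 4200) (XT.lf (nat_lit 84) (nat_lit 134035153) (nat_lit 0) (nat_lit 470546865) (nat_lit 336) (nat_lit 134035153) (nat_lit 79) (nat_lit 1) (nat_lit 78) (nat_lit 1) (nat_lit 82) (nat_lit 1) (nat_lit 313) (nat_lit 218) (nat_lit 189)) (XT.lf (nat_lit 924) (nat_lit 192874315) (nat_lit 0) (nat_lit 342447904) (nat_lit 924) (nat_lit 192874315) (nat_lit 139) (nat_lit 1) (nat_lit 128) (nat_lit 0) (nat_lit 139) (nat_lit 0) (nat_lit 282) (nat_lit 219) (nat_lit 219))))) (XT.nd (nat_lit 282) (nat_lit 0) (nat_lit 168) (XT.nd (nat_lit 94) (nat_lit 0) (nat_lit 84) (XT.lf (nat_lit 924) (nat_lit 747604927)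 (nat_lit 84) (nat_lit 336924551) (nat_lit 0) (nat_lit 336924551) (nat_lit 139) (nat_lit 1) (nat_lit 129) (nat_lit 1) (nat_lit 128) (nat_lit 0) (nat_lit 283) (nat_lit 219) (nat_lit 218)) (XT.nd (nat_lit 94) (nat_lit 0) (nat_lit 0) (XT.lf (nat_lit 924) (nat_lit 356297251) (nat_lit 0) (nat_lit 675000637) (nat_lit 840) (nat_lit 356297251) (nat_lit 140) (nat_lit 1) (nat_lit 129) (nat_lit 1) (nat_lit 139) (nat_lit 1) (nat_lit 284) (nat_lit 219) (nat_lit 217)) (XT.lf (nat_lit 924) (nat_lit 668364135) (nat_lit 84) (nat_lit 343233005) (nat_lit 0) (nat_lit 343233005) (nat_lit 140) (nat_lit 1) (nat_lit 130) (nat_lit 1) (nat_lit 129) (nat_lit 1) (nat_lit 285) (nat_lit 219) (nat_lit 216)))) (XT.nd (nat_lit 188) (nat_lit 0) (nat_lit 84) (XT.nd (nat_lit 94) (nat_lit 0) (nat_lit 0) (XT.lf (nat_lit 924) (nat_lit 307641593) (nat_lit 0) (nat_lit 707820451) (nat_lit 840) (nat_lit 307641593)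 (nat_lit 141) (nat_lit 1) (nat_lit 130) (nat_lit 1) (nat_lit 140) (nat_lit 1) (nat_lit 286) (nat_lit 219) (nat_lit 215)) (XT.lf (nat_lit 924) (nat_lit 553313442) (nat_lit 84) (nat_lit 369515415) (nat_lit 0) (nat_lit 369515415) (nat_lit 141) (nat_lit 1) (nat_lit 131) (nat_lit 1) (nat_lit 130) (nat_lit 1) (nat_lit 287) (nat_lit 219) (nat_lit 214))) (XT.nd (nat_lit 94) (nat_lit 0) (nat_lit 0) (XT.lf (nat_lit 924) (nat_lit 242611963) (nat_lit 0) (nat_lit 777393777) (nat_lit 840) (nat_lit 242611963) (nat_lit 142) (nat_lit 1) (nat_lit 131) (nat_lit 1) (nat_lit 141) (nat_lit 1) (nat_lit 288) (nat_lit 219) (nat_lit 213)) (XT.lf (nat_lit 924) (nat_lit 407838159) (nat_lit 84) (nat_lit 412935724) (nat_lit 0) (nat_lit 412935724) (nat_lit 142) (nat_lit 1) (nat_lit 132) (nat_lit 1) (nat_lit 131) (nat_lit 1) (nat_lit 289) (nat_lit 219) (nat_lit 212))))))))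
noncomputable def ec4 : XT := (XT.nd (nat_lit 44462) (nat_lit 0) (nat_lit 588) (XT.nd (nat_lit 1222) (nat_lit 2184) (nat_lit 0) (XT.nd (nat_lit 564) (nat_lit 1596) (nat_lit 0) (XT.nd (nat_lit 282) (nat_lit 1344) (nat_lit 0) (XT.nd (nat_lit 94) (nat_lit 0) (nat_lit 0) (XT.lf (nat_lit 924) (nat_lit 163725778) (nat_lit 0) (nat_lit 878408155) (nat_lit 840) (nat_lit 163725778) (nat_lit 143) (nat_lit 1) (nat_lit 132) (nat_lit 1) (nat_lit 142) (nat_lit 1) (nat_lit 290) (nat_lit 219) (nat_lit 211)) (XT.nd (nat_lit 94) (nat_lit 0) (nat_lit 84) (XT.lf (nat_lit 924) (nat_lit 236725015) (nat_lit 84) (nat_lit 470968163) (nat_lit 0) (nat_lit 470968163) (nat_lit 143) (nat_lit 1) (nat_lit 133) (nat_lit 1) (nat_lit 132) (nat_lit 1) (nat_lit 291) (nat_lit 219) (nat_lit 210)) (XT.lf (nat_lit 84) (nat_lit 73219023) (nat_lit 0) (nat_lit 1006135289) (nat_lit 840) (nat_lit 73219023) (nat_lit 134)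 (nat_lit 1) (nat_lit 133) (nat_lit 1) (nat_lit 143) (nat_lit 1) (nat_lit 292) (nat_lit 219) (nat_lit 209)))) (XT.nd (nat_lit 94) (nat_lit 588) (nat_lit 0) (XT.lf (nat_lit 924) (nat_lit 44222469) (nat_lit 0) (nat_lit 541366192) (nat_lit 840) (nat_lit 541366192) (nat_lit 134) (nat_lit 1) (nat_lit 123) (nat_lit 1) (nat_lit 133) (nat_lit 1) (nat_lit 293) (nat_lit 219) (nat_lit 208)) (XT.nd (nat_lit 94) (nat_lit 0) (nat_lit 0) (XT.lf (nat_lit 588) (nat_lit 1049454891) (nat_lit 0) (nat_lit 26491049) (nat_lit 504) (nat_lit 26491049) (nat_lit 123) (nat_lit 1) (nat_lit 116) (nat_lit 1) (nat_lit 122) (nat_lit 1) (nat_lit 294) (nat_lit 219) (nat_lit 207)) (XT.lf (nat_lit 84) (nat_lit 458819852) (nat_lit 0) (nat_lit 160594815) (nat_lit 588) (nat_lit 458819852) (nat_lit 117) (nat_lit 1) (nat_lit 116) (nat_lit 1) (nat_lit 123) (nat_lit 1) (nat_lit 295) (nat_lit 219) (nat_lit 206)))))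 (XT.nd (nat_lit 282) (nat_lit 756) (nat_lit 0) (XT.nd (nat_lit 94) (nat_lit 420) (nat_lit 0) (XT.lf (nat_lit 504) (nat_lit 789511191) (nat_lit 0) (nat_lit 132775005) (nat_lit 420) (nat_lit 132775005) (nat_lit 117) (nat_lit 1) (nat_lit 111) (nat_lit 1) (nat_lit 116) (nat_lit 1) (nat_lit 296) (nat_lit 219) (nat_lit 205)) (XT.nd (nat_lit 94) (nat_lit 420) (nat_lit 0) (XT.lf (nat_lit 84) (nat_lit 327270615) (nat_lit 0) (nat_lit 377833822) (nat_lit 504) (nat_lit 327270615) (nat_lit 112) (nat_lit 1) (nat_lit 111) (nat_lit 1) (nat_lit 117) (nat_lit 1) (nat_lit 297) (nat_lit 219) (nat_lit 204)) (XT.lf (nat_lit 504) (nat_lit 519904315) (nat_lit 0) (nat_lit 245287342) (nat_lit 420) (nat_lit 245287342) (nat_lit 112) (nat_lit 1) (nat_lit 106) (nat_lit 1) (nat_lit 111) (nat_lit 1) (nat_lit 298) (nat_lit 219) (nat_lit 203)))) (XT.nd (nat_lit 188) (nat_lit 420) (nat_lit 0) (XT.nd (nat_lit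 94) (nat_lit 336) (nat_lit 0) (XT.lf (nat_lit 84) (nat_lit 191577830) (nat_lit 0) (nat_lit 606064097) (nat_lit 504) (nat_lit 191577830) (nat_lit 107) (nat_lit 1) (nat_lit 106) (nat_lit 1) (nat_lit 112) (nat_lit 1) (nat_lit 299) (nat_lit 219) (nat_lit 202)) (XT.lf (nat_lit 420) (nat_lit 243143620) (nat_lit 0) (nat_lit 362681877) (nat_lit 336) (nat_lit 362681877) (nat_lit 107) (nat_lit 1) (nat_lit 102) (nat_lit 1) (nat_lit 106) (nat_lit 1) (nat_lit 300) (nat_lit 219) (nat_lit 201))) (XT.nd (nat_lit 94) (nat_lit 420) (nat_lit 0) (XT.lf (nat_lit 84) (nat_lit 52906429) (nat_lit 0) (nat_lit 842778629) (nat_lit 420) (nat_lit 52906429) (nat_lit 103) (nat_lit 1) (nat_lit 102) (nat_lit 1) (nat_lit 107) (nat_lit 1) (nat_lit 301) (nat_lit 219) (nat_lit 200)) (XT.lf (nat_lit 84) (nat_lit 445804777) (nat_lit 0) (nat_lit 37337016) (nat_lit 420) (nat_lit 445804777) (nat_lit 98) (nat_lit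 1) (nat_lit 97) (nat_lit 1) (nat_lit 102) (nat_lit 1) (nat_lit 302) (nat_lit 219) (nat_lit 199)))))) (XT.nd (nat_lit 658) (nat_lit 840) (nat_lit 0) (XT.nd (nat_lit 282) (nat_lit 672) (nat_lit 0) (XT.nd (nat_lit 94) (nat_lit 336) (nat_lit 0) (XT.lf (nat_lit 420) (nat_lit 737431406) (nat_lit 0) (nat_lit 86309187) (nat_lit 336) (nat_lit 86309187) (nat_lit 98) (nat_lit 1) (nat_lit 93) (nat_lit 1) (nat_lit 97) (nat_lit 1) (nat_lit 303) (nat_lit 219) (nat_lit 198)) (XT.nd (nat_lit 94) (nat_lit 336) (nat_lit 0) (XT.lf (nat_lit 84) (nat_lit 289253017) (nat_lit 0) (nat_lit 312971133) (nat_lit 420) (nat_lit 289253017) (nat_lit 94) (nat_lit 1) (nat_lit 93) (nat_lit 1) (nat_lit 98) (nat_lit 1) (nat_lit 304) (nat_lit 219) (nat_lit 197)) (XT.lf (nat_lit 420) (nat_lit 422100616) (nat_lit 0) (nat_lit 225723986) (nat_lit 336) (nat_lit 225723986) (nat_lit 94) (nat_lit 1) (nat_lit 89) (nat_lit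 1) (nat_lit 93) (nat_lit 1) (nat_lit 305) (nat_lit 219) (nat_lit 196)))) (XT.nd (nat_lit 188) (nat_lit 420) (nat_lit 0) (XT.nd (nat_lit 94) (nat_lit 252) (nat_lit 0) (XT.lf (nat_lit 84) (nat_lit 133111696) (nat_lit 0) (nat_lit 589920850) (nat_lit 420) (nat_lit 133111696) (nat_lit 90) (nat_lit 1) (nat_lit 89) (nat_lit 1) (nat_lit 94) (nat_lit 1) (nat_lit 306) (nat_lit 219) (nat_lit 195)) (XT.lf (nat_lit 336) (nat_lit 108254041) (nat_lit 0) (nat_lit 365430772) (nat_lit 252) (nat_lit 365430772) (nat_lit 90) (nat_lit 1) (nat_lit 86) (nat_lit 1) (nat_lit 89) (nat_lit 1) (nat_lit 307) (nat_lit 219) (nat_lit 194))) (XT.nd (nat_lit 94) (nat_lit 0) (nat_lit 0) (XT.lf (nat_lit 420) (nat_lit 779485624) (nat_lit 0) (nat_lit 21629230) (nat_lit 336) (nat_lit 21629230) (nat_lit 86) (nat_lit 1) (nat_lit 81) (nat_lit 1) (nat_lit 85) (nat_lit 1) (nat_lit 308) (nat_lit 219) (nat_lit 193))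 (XT.lf (nat_lit 84) (nat_lit 305018487) (nat_lit 0) (nat_lit 196426222) (nat_lit 420) (nat_lit 305018487) (nat_lit 82) (nat_lit 1) (nat_lit 81) (nat_lit 1) (nat_lit 86) (nat_lit 1) (nat_lit 309) (nat_lit 219) (nat_lit 192))))) (XT.nd (nat_lit 282) (nat_lit 336) (nat_lit 0) (XT.nd (nat_lit 94) (nat_lit 252) (nat_lit 0) (XT.lf (nat_lit 336) (nat_lit 445489143) (nat_lit 0) (nat_lit 172658790) (nat_lit 252) (nat_lit 172658790) (nat_lit 82) (nat_lit 1) (nat_lit 78) (nat_lit 1) (nat_lit 81) (nat_lit 1) (nat_lit 310) (nat_lit 219) (nat_lit 191)) (XT.nd (nat_lit 94) (nat_lit 252) (nat_lit 0) (XT.lf (nat_lit 84) (nat_lit 140736911) (nat_lit 0) (nat_lit 494074209) (nat_lit 336) (nat_lit 140736911) (nat_lit 79) (nat_lit 1) (nat_lit 78) (nat_lit 1) (nat_lit 82) (nat_lit 1) (nat_lit 311) (nat_lit 219) (nat_lit 190)) (XT.lf (nat_lit 336) (nat_lit 117299816) (nat_lit 0) (nat_lit 321668326)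 (nat_lit 252) (nat_lit 321668326) (nat_lit 79) (nat_lit 1) (nat_lit 75) (nat_lit 1) (nat_lit 78) (nat_lit 1) (nat_lit 312) (nat_lit 219) (nat_lit 189)))) (XT.nd (nat_lit 42112) (nat_lit 0) (nat_lit 4788) (XT.nd (nat_lit 94) (nat_lit 0) (nat_lit 0) (XT.lf (nat_lit 336) (nat_lit 705960522) (nat_lit 0) (nat_lit 20159185) (nat_lit 252) (nat_lit 20159185) (nat_lit 75) (nat_lit 1) (nat_lit 71) (nat_lit 1) (nat_lit 74) (nat_lit 1) (nat_lit 313) (nat_lit 219) (nat_lit 188)) (XT.lf (nat_lit 84) (nat_lit 267044648) (nat_lit 0) (nat_lit 197877402) (nat_lit 336) (nat_lit 267044648) (nat_lit 72) (nat_lit 1) (nat_lit 71) (nat_lit 1) (nat_lit 75) (nat_lit 1) (nat_lit 314) (nat_lit 219) (nat_lit 187))) (XT.nd (nat_lit 94) (nat_lit 0) (nat_lit 0) (XT.lf (nat_lit 924) (nat_lit 202518031) (nat_lit 0) (nat_lit 359570299) (nat_lit 924) (nat_lit 202518031) (nat_lit 139) (nat_lit 1) (nat_lit 128)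 (nat_lit 0) (nat_lit 139) (nat_lit 0) (nat_lit 280) (nat_lit 220) (nat_lit 220)) (XT.lf (nat_lit 924) (nat_lit 784985173) (nat_lit 84) (nat_lit 353770778) (nat_lit 0) (nat_lit 353770778) (nat_lit 139) (nat_lit 1) (nat_lit 129) (nat_lit 1) (nat_lit 128) (nat_lit 0) (nat_lit 281) (nat_lit 220) (nat_lit 219))))))) (XT.nd (nat_lit 1222) (nat_lit 2772) (nat_lit 0) (XT.nd (nat_lit 564) (nat_lit 1512) (nat_lit 0) (XT.nd (nat_lit 282) (nat_lit 0) (nat_lit 84) (XT.nd (nat_lit 94) (nat_lit 0) (nat_lit 0) (XT.lf (nat_lit 924) (nat_lit 374112114) (nat_lit 0) (nat_lit 708750669) (nat_lit 840) (nat_lit 374112114) (nat_lit 140) (nat_lit 1) (nat_lit 129) (nat_lit 1) (nat_lit 139) (nat_lit 1) (nat_lit 282) (nat_lit 220) (nat_lit 218)) (XT.nd (nat_lit 94) (nat_lit 0) (nat_lit 84) (XT.lf (nat_lit 924) (nat_lit 701782342) (nat_lit 84) (nat_lit 360394655) (nat_lit 0) (nat_lit 360394655) (nat_lit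 140) (nat_lit 1) (nat_lit 130) (nat_lit 1) (nat_lit 129) (nat_lit 1) (nat_lit 283) (nat_lit 220) (nat_lit 217)) (XT.lf (nat_lit 924) (nat_lit 323023672) (nat_lit 0) (nat_lit 743211474) (nat_lit 840) (nat_lit 323023672) (nat_lit 141) (nat_lit 1) (nat_lit 130) (nat_lit 1) (nat_lit 140) (nat_lit 1) (nat_lit 284) (nat_lit 220) (nat_lit 216)))) (XT.nd (nat_lit 94) (nat_lit 0) (nat_lit 84) (XT.lf (nat_lit 924) (nat_lit 580979114) (nat_lit 84) (nat_lit 387991186) (nat_lit 0) (nat_lit 387991186) (nat_lit 141) (nat_lit 1) (nat_lit 131) (nat_lit 1) (nat_lit 130) (nat_lit 1) (nat_lit 285) (nat_lit 220) (nat_lit 215)) (XT.nd (nat_lit 94) (nat_lit 0) (nat_lit 0) (XT.lf (nat_lit 924) (nat_lit 254742561) (nat_lit 0) (nat_lit 816263466) (nat_lit 840) (nat_lit 254742561) (nat_lit 142) (nat_lit 1) (nat_lit 131) (nat_lit 1) (nat_lit 141) (nat_lit 1) (nat_lit 286) (nat_lit 220) (nat_lit 214))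 (XT.lf (nat_lit 924) (nat_lit 428230067) (nat_lit 84) (nat_lit 433582510) (nat_lit 0) (nat_lit 433582510) (nat_lit 142) (nat_lit 1) (nat_lit 132) (nat_lit 1) (nat_lit 131) (nat_lit 1) (nat_lit 287) (nat_lit 220) (nat_lit 213))))) (XT.nd (nat_lit 282) (nat_lit 1764) (nat_lit 0) (XT.nd (nat_lit 94) (nat_lit 0) (nat_lit 0) (XT.lf (nat_lit 924) (nat_lit 171912067) (nat_lit 0) (nat_lit 922328563) (nat_lit 840) (nat_lit 171912067) (nat_lit 143) (nat_lit 1) (nat_lit 132) (nat_lit 1) (nat_lit 142) (nat_lit 1) (nat_lit 288) (nat_lit 220) (nat_lit 212)) (XT.nd (nat_lit 94) (nat_lit 0) (nat_lit 84) (XT.lf (nat_lit 924) (nat_lit 248561266) (nat_lit 84) (nat_lit 494516572) (nat_lit 0) (nat_lit 494516572) (nat_lit 143) (nat_lit 1) (nat_lit 133) (nat_lit 1) (nat_lit 132) (nat_lit 1) (nat_lit 289) (nat_lit 220) (nat_lit 211)) (XT.lf (nat_lit 84) (nat_lit 76879974) (nat_lit 0) (nat_lit 1056442054)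 (nat_lit 840) (nat_lit 76879974) (nat_lit 134) (nat_lit 1) (nat_lit 133) (nat_lit 1) (nat_lit 143) (nat_lit 1) (nat_lit 290) (nat_lit 220) (nat_lit 210)))) (XT.nd (nat_lit 188) (nat_lit 420) (nat_lit 0) (XT.nd (nat_lit 94) (nat_lit 588) (nat_lit 0) (XT.lf (nat_lit 924) (nat_lit 46433592) (nat_lit 0) (nat_lit 568434502) (nat_lit 840) (nat_lit 568434502) (nat_lit 134) (nat_lit 1) (nat_lit 123) (nat_lit 1) (nat_lit 133) (nat_lit 1) (nat_lit 291) (nat_lit 220) (nat_lit 209)) (XT.lf (nat_lit 588) (nat_lit 1101927636) (nat_lit 0) (nat_lit 27815602) (nat_lit 504) (nat_lit 27815602) (nat_lit 123) (nat_lit 1) (nat_lit 116) (nat_lit 1) (nat_lit 122) (nat_lit 1) (nat_lit 292) (nat_lit 220) (nat_lit 208))) (XT.nd (nat_lit 94) (nat_lit 420) (nat_lit 0) (XT.lf (nat_lit 84) (nat_lit 481760844) (nat_lit 0) (nat_lit 168624556) (nat_lit 588) (nat_lit 481760844) (nat_lit 117) (nat_lit 1) (nat_lit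 116) (nat_lit 1) (nat_lit 123) (nat_lit 1) (nat_lit 293) (nat_lit 220) (nat_lit 207)) (XT.lf (nat_lit 504) (nat_lit 828986751) (nat_lit 0) (nat_lit 139413755) (nat_lit 420) (nat_lit 139413755) (nat_lit 117) (nat_lit 1) (nat_lit 111) (nat_lit 1) (nat_lit 116) (nat_lit 1) (nat_lit 294) (nat_lit 220) (nat_lit 206)))))) (XT.nd (nat_lit 658) (nat_lit 1260) (nat_lit 0) (XT.nd (nat_lit 282) (nat_lit 1092) (nat_lit 0) (XT.nd (nat_lit 94) (nat_lit 420) (nat_lit 0) (XT.lf (nat_lit 84) (nat_lit 343634145) (nat_lit 0) (nat_lit 396725513) (nat_lit 504) (nat_lit 343634145) (nat_lit 112) (nat_lit 1) (nat_lit 111) (nat_lit 1) (nat_lit 117) (nat_lit 1) (nat_lit 295) (nat_lit 220) (nat_lit 205)) (XT.nd (nat_lit 94) (nat_lit 0) (nat_lit 0) (XT.lf (nat_lit 504) (nat_lit 545899531) (nat_lit 0) (nat_lit 257551709) (nat_lit 420) (nat_lit 257551709) (nat_lit 112) (nat_lit 1) (nat_lit 106) (nat_lit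 1) (nat_lit 111) (nat_lit 1) (nat_lit 296) (nat_lit 220) (nat_lit 204)) (XT.lf (nat_lit 84) (nat_lit 201156722) (nat_lit 0) (nat_lit 636367302) (nat_lit 504) (nat_lit 201156722) (nat_lit 107) (nat_lit 1) (nat_lit 106) (nat_lit 1) (nat_lit 112) (nat_lit 1) (nat_lit 297) (nat_lit 220) (nat_lit 203)))) (XT.nd (nat_lit 188) (nat_lit 756) (nat_lit 0) (XT.nd (nat_lit 94) (nat_lit 0) (nat_lit 0) (XT.lf (nat_lit 420) (nat_lit 255300801) (nat_lit 0) (nat_lit 380815971) (nat_lit 336) (nat_lit 380815971) (nat_lit 107) (nat_lit 1) (nat_lit 102) (nat_lit 1) (nat_lit 106) (nat_lit 1) (nat_lit 298) (nat_lit 220) (nat_lit 202)) (XT.lf (nat_lit 84) (nat_lit 55551750) (nat_lit 0) (nat_lit 884917561) (nat_lit 420) (nat_lit 55551750) (nat_lit 103) (nat_lit 1) (nat_lit 102) (nat_lit 1) (nat_lit 107) (nat_lit 1) (nat_lit 299) (nat_lit 220) (nat_lit 201))) (XT.nd (nat_lit 94) (nat_lit 336) (nat_lit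 0) (XT.lf (nat_lit 84) (nat_lit 468095016) (nat_lit 0) (nat_lit 39203866) (nat_lit 420) (nat_lit 468095016) (nat_lit 98) (nat_lit 1) (nat_lit 97) (nat_lit 1) (nat_lit 102) (nat_lit 1) (nat_lit 300) (nat_lit 220) (nat_lit 200)) (XT.lf (nat_lit 420) (nat_lit 774302976) (nat_lit 0) (nat_lit 90624646) (nat_lit 336) (nat_lit 90624646) (nat_lit 98) (nat_lit 1) (nat_lit 93) (nat_lit 1) (nat_lit 97) (nat_lit 1) (nat_lit 301) (nat_lit 220) (nat_lit 199))))) (XT.nd (nat_lit 282) (nat_lit 924) (nat_lit 0) (XT.nd (nat_lit 94) (nat_lit 336) (nat_lit 0) (XT.lf (nat_lit 84) (nat_lit 303715668) (nat_lit 0) (nat_lit 328619690) (nat_lit 420) (nat_lit 303715668) (nat_lit 94) (nat_lit 1) (nat_lit 93) (nat_lit 1) (nat_lit 98) (nat_lit 1) (nat_lit 302) (nat_lit 220) (nat_lit 198)) (XT.nd (nat_lit 94) (nat_lit 0) (nat_lit 0) (XT.lf (nat_lit 420) (nat_lit 443205646) (nat_lit 0) (nat_lit 237010185)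 (nat_lit 336) (nat_lit 237010185) (nat_lit 94) (nat_lit 1) (nat_lit 89) (nat_lit 1) (nat_lit 93) (nat_lit 1) (nat_lit 303) (nat_lit 220) (nat_lit 197)) (XT.lf (nat_lit 84) (nat_lit 139767281) (nat_lit 0) (nat_lit 619416892) (nat_lit 420) (nat_lit 139767281) (nat_lit 90) (nat_lit 1) (nat_lit 89) (nat_lit 1) (nat_lit 94) (nat_lit 1) (nat_lit 304) (nat_lit 220) (nat_lit 196)))) (XT.nd (nat_lit 188) (nat_lit 252) (nat_lit 0) (XT.nd (nat_lit 94) (nat_lit 420) (nat_lit 0) (XT.lf (nat_lit 336) (nat_lit 113666743) (nat_lit 0) (nat_lit 383702311) (nat_lit 252) (nat_lit 383702311) (nat_lit 90) (nat_lit 1) (nat_lit 86) (nat_lit 1) (nat_lit 89) (nat_lit 1) (nat_lit 305) (nat_lit 220) (nat_lit 195)) (XT.lf (nat_lit 420) (nat_lit 818459905) (nat_lit 0) (nat_lit 22710691) (nat_lit 336) (nat_lit 22710691) (nat_lit 86) (nat_lit 1) (nat_lit 81) (nat_lit 1) (nat_lit 85) (nat_lit 1) (nat_lit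 306) (nat_lit 220) (nat_lit 194))) (XT.nd (nat_lit 94) (nat_lit 252) (nat_lit 0) (XT.lf (nat_lit 84) (nat_lit 320269411) (nat_lit 0) (nat_lit 206247533) (nat_lit 420) (nat_lit 320269411) (nat_lit 82) (nat_lit 1) (nat_lit 81) (nat_lit 1) (nat_lit 86) (nat_lit 1) (nat_lit 307) (nat_lit 220) (nat_lit 193)) (XT.lf (nat_lit 336) (nat_lit 467763600) (nat_lit 0) (nat_lit 181291730) (nat_lit 252) (nat_lit 181291730) (nat_lit 82) (nat_lit 1) (nat_lit 78) (nat_lit 1) (nat_lit 81) (nat_lit 1) (nat_lit 308) (nat_lit 220) (nat_lit 192))))))))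
noncomputable def ec5 : XT := (XT.nd (nat_lit 44274) (nat_lit 504) (nat_lit 0) (XT.nd (nat_lit 42958) (nat_lit 0) (nat_lit 2436) (XT.nd (nat_lit 42300) (nat_lit 0) (nat_lit 5040) (XT.nd (nat_lit 282) (nat_lit 252) (nat_lit 0) (XT.nd (nat_lit 94) (nat_lit 588) (nat_lit 0) (XT.lf (nat_lit 84) (nat_lit 147773757) (nat_lit 0) (nat_lit 518777919) (nat_lit 336) (nat_lit 147773757) (nat_lit 79) (nat_lit 1) (nat_lit 78) (nat_lit 1) (nat_lit 82) (nat_lit 1) (nat_lit 309) (nat_lit 220) (nat_lit 191)) (XT.nd (nat_lit 94) (nat_lit 336) (nat_lit 0) (XT.lf (nat_lit 336) (nat_lit 123164807) (nat_lit 0) (nat_lit 337751743) (nat_lit 252) (nat_lit 337751743) (nat_lit 79) (nat_lit 1) (nat_lit 75) (nat_lit 1) (nat_lit 78) (nat_lit 1) (nat_lit 310) (nat_lit 220) (nat_lit 190)) (XT.lf (nat_lit 336) (nat_lit 741258548) (nat_lit 0) (nat_lit 21167144) (nat_lit 252) (nat_lit 21167144) (nat_lit 75)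 (nat_lit 1) (nat_lit 71) (nat_lit 1) (nat_lit 74) (nat_lit 1) (nat_lit 311) (nat_lit 220) (nat_lit 189)))) (XT.nd (nat_lit 94) (nat_lit 252) (nat_lit 0) (XT.lf (nat_lit 84) (nat_lit 280396880) (nat_lit 0) (nat_lit 207771272) (nat_lit 336) (nat_lit 280396880) (nat_lit 72) (nat_lit 1) (nat_lit 71) (nat_lit 1) (nat_lit 75) (nat_lit 1) (nat_lit 312) (nat_lit 220) (nat_lit 188)) (XT.nd (nat_lit 94) (nat_lit 0) (nat_lit 0) (XT.lf (nat_lit 336) (nat_lit 385571385) (nat_lit 0) (nat_lit 184260938) (nat_lit 252) (nat_lit 184260938) (nat_lit 72) (nat_lit 1) (nat_lit 68) (nat_lit 1) (nat_lit 71) (nat_lit 1) (nat_lit 313) (nat_lit 220) (nat_lit 187)) (XT.lf (nat_lit 84) (nat_lit 106186045) (nat_lit 0) (nat_lit 527637538) (nat_lit 336) (nat_lit 106186045) (nat_lit 69) (nat_lit 1) (nat_lit 68) (nat_lit 1) (nat_lit 72) (nat_lit 1) (nat_lit 314) (nat_lit 220) (nat_lit 186))))) (XT.nd (nat_lit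 282) (nat_lit 0) (nat_lit 84) (XT.nd (nat_lit 94) (nat_lit 0) (nat_lit 0) (XT.lf (nat_lit 924) (nat_lit 212643933) (nat_lit 0) (nat_lit 377548814) (nat_lit 924) (nat_lit 212643933) (nat_lit 139) (nat_lit 1) (nat_lit 128) (nat_lit 0) (nat_lit 139) (nat_lit 0) (nat_lit 278) (nat_lit 221) (nat_lit 221)) (XT.nd (nat_lit 94) (nat_lit 0) (nat_lit 84) (XT.lf (nat_lit 924) (nat_lit 824234432) (nat_lit 84) (nat_lit 371459317) (nat_lit 0) (nat_lit 371459317) (nat_lit 139) (nat_lit 1) (nat_lit 129) (nat_lit 1) (nat_lit 128) (nat_lit 0) (nat_lit 279) (nat_lit 221) (nat_lit 220)) (XT.lf (nat_lit 924) (nat_lit 392817720) (nat_lit 0) (nat_lit 744188202) (nat_lit 840) (nat_lit 392817720) (nat_lit 140) (nat_lit 1) (nat_lit 129) (nat_lit 1) (nat_lit 139) (nat_lit 1) (nat_lit 280) (nat_lit 221) (nat_lit 219)))) (XT.nd (nat_lit 188) (nat_lit 0) (nat_lit 84) (XT.nd (nat_lit 94) (nat_lit 0) (nat_lit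 84) (XT.lf (nat_lit 924) (nat_lit 736871459) (nat_lit 84) (nat_lit 378414388) (nat_lit 0) (nat_lit 378414388) (nat_lit 140) (nat_lit 1) (nat_lit 130) (nat_lit 1) (nat_lit 129) (nat_lit 1) (nat_lit 281) (nat_lit 221) (nat_lit 218)) (XT.lf (nat_lit 924) (nat_lit 339174856) (nat_lit 0) (nat_lit 780372047) (nat_lit 840) (nat_lit 339174856) (nat_lit 141) (nat_lit 1) (nat_lit 130) (nat_lit 1) (nat_lit 140) (nat_lit 1) (nat_lit 282) (nat_lit 221) (nat_lit 217))) (XT.nd (nat_lit 94) (nat_lit 0) (nat_lit 84) (XT.lf (nat_lit 924) (nat_lit 610028070) (nat_lit 84) (nat_lit 407390746) (nat_lit 0) (nat_lit 407390746) (nat_lit 141) (nat_lit 1) (nat_lit 131) (nat_lit 1) (nat_lit 130) (nat_lit 1) (nat_lit 283) (nat_lit 221) (nat_lit 216)) (XT.lf (nat_lit 924) (nat_lit 267479689) (nat_lit 0) (nat_lit 857076639) (nat_lit 840) (nat_lit 267479689) (nat_lit 142) (nat_lit 1) (nat_lit 131) (nat_lit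 1) (nat_lit 141) (nat_lit 1) (nat_lit 284) (nat_lit 221) (nat_lit 215)))))) (XT.nd (nat_lit 658) (nat_lit 1596) (nat_lit 0) (XT.nd (nat_lit 282) (nat_lit 1260) (nat_lit 0) (XT.nd (nat_lit 94) (nat_lit 0) (nat_lit 84) (XT.lf (nat_lit 924) (nat_lit 449641571) (nat_lit 84) (nat_lit 455261635) (nat_lit 0) (nat_lit 455261635) (nat_lit 142) (nat_lit 1) (nat_lit 132) (nat_lit 1) (nat_lit 131) (nat_lit 1) (nat_lit 285) (nat_lit 221) (nat_lit 214)) (XT.nd (nat_lit 94) (nat_lit 0) (nat_lit 0) (XT.lf (nat_lit 924) (nat_lit 180507671) (nat_lit 0) (nat_lit 968444991) (nat_lit 840) (nat_lit 180507671) (nat_lit 143) (nat_lit 1) (nat_lit 132) (nat_lit 1) (nat_lit 142) (nat_lit 1) (nat_lit 286) (nat_lit 221) (nat_lit 213)) (XT.lf (nat_lit 924) (nat_lit 260989329) (nat_lit 84) (nat_lit 519242400) (nat_lit 0) (nat_lit 519242400) (nat_lit 143) (nat_lit 1) (nat_lit 133) (nat_lit 1) (nat_lit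 132) (nat_lit 1) (nat_lit 287) (nat_lit 221) (nat_lit 212)))) (XT.nd (nat_lit 188) (nat_lit 588) (nat_lit 0) (XT.nd (nat_lit 94) (nat_lit 840) (nat_lit 0) (XT.lf (nat_lit 84) (nat_lit 80723973) (nat_lit 0) (nat_lit 1109264156) (nat_lit 840) (nat_lit 80723973) (nat_lit 134) (nat_lit 1) (nat_lit 133) (nat_lit 1) (nat_lit 143) (nat_lit 1) (nat_lit 288) (nat_lit 221) (nat_lit 211)) (XT.lf (nat_lit 924) (nat_lit 48755272) (nat_lit 0) (nat_lit 596856227) (nat_lit 840) (nat_lit 596856227) (nat_lit 134) (nat_lit 1) (nat_lit 123) (nat_lit 1) (nat_lit 133) (nat_lit 1) (nat_lit 289) (nat_lit 221) (nat_lit 210))) (XT.nd (nat_lit 94) (nat_lit 0) (nat_lit 0) (XT.lf (nat_lit 588) (nat_lit 1157024017) (nat_lit 0) (nat_lit 29206382) (nat_lit 504) (nat_lit 29206382) (nat_lit 123) (nat_lit 1) (nat_lit 116) (nat_lit 1) (nat_lit 122) (nat_lit 1) (nat_lit 290) (nat_lit 221) (nat_lit 209)) (XT.lf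 (nat_lit 84) (nat_lit 505848886) (nat_lit 0) (nat_lit 177055784) (nat_lit 588) (nat_lit 505848886) (nat_lit 117) (nat_lit 1) (nat_lit 116) (nat_lit 1) (nat_lit 123) (nat_lit 1) (nat_lit 291) (nat_lit 221) (nat_lit 208))))) (XT.nd (nat_lit 282) (nat_lit 756) (nat_lit 0) (XT.nd (nat_lit 94) (nat_lit 420) (nat_lit 0) (XT.lf (nat_lit 504) (nat_lit 870436088) (nat_lit 0) (nat_lit 146384443) (nat_lit 420) (nat_lit 146384443) (nat_lit 117) (nat_lit 1) (nat_lit 111) (nat_lit 1) (nat_lit 116) (nat_lit 1) (nat_lit 292) (nat_lit 221) (nat_lit 207)) (XT.nd (nat_lit 94) (nat_lit 420) (nat_lit 0) (XT.lf (nat_lit 84) (nat_lit 360815853) (nat_lit 0) (nat_lit 416561789) (nat_lit 504) (nat_lit 360815853) (nat_lit 112) (nat_lit 1) (nat_lit 111) (nat_lit 1) (nat_lit 117) (nat_lit 1) (nat_lit 293) (nat_lit 221) (nat_lit 206)) (XT.lf (nat_lit 504) (nat_lit 573194508) (nat_lit 0) (nat_lit 270429294)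 (nat_lit 420) (nat_lit 270429294) (nat_lit 112) (nat_lit 1) (nat_lit 106) (nat_lit 1) (nat_lit 111) (nat_lit 1) (nat_lit 294) (nat_lit 221) (nat_lit 205)))) (XT.nd (nat_lit 188) (nat_lit 420) (nat_lit 0) (XT.nd (nat_lit 94) (nat_lit 336) (nat_lit 0) (XT.lf (nat_lit 84) (nat_lit 211214558) (nat_lit 0) (nat_lit 668185667) (nat_lit 504) (nat_lit 211214558) (nat_lit 107) (nat_lit 1) (nat_lit 106) (nat_lit 1) (nat_lit 112) (nat_lit 1) (nat_lit 295) (nat_lit 221) (nat_lit 204)) (XT.lf (nat_lit 420) (nat_lit 268065841) (nat_lit 0) (nat_lit 399856769) (nat_lit 336) (nat_lit 399856769) (nat_lit 107) (nat_lit 1) (nat_lit 102) (nat_lit 1) (nat_lit 106) (nat_lit 1) (nat_lit 296) (nat_lit 221) (nat_lit 203))) (XT.nd (nat_lit 94) (nat_lit 420) (nat_lit 0) (XT.lf (nat_lit 84) (nat_lit 58329338) (nat_lit 0) (nat_lit 929163439) (nat_lit 420) (nat_lit 58329338) (nat_lit 103) (nat_lit 1) (nat_lit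 102) (nat_lit 1) (nat_lit 107) (nat_lit 1) (nat_lit 297) (nat_lit 221) (nat_lit 202)) (XT.lf (nat_lit 84) (nat_lit 491499767) (nat_lit 0) (nat_lit 41164060) (nat_lit 420) (nat_lit 491499767) (nat_lit 98) (nat_lit 1) (nat_lit 97) (nat_lit 1) (nat_lit 102) (nat_lit 1) (nat_lit 298) (nat_lit 221) (nat_lit 201))))))) (XT.nd (nat_lit 1316) (nat_lit 504) (nat_lit 0) (XT.nd (nat_lit 658) (nat_lit 1092) (nat_lit 0) (XT.nd (nat_lit 282) (nat_lit 672) (nat_lit 0) (XT.nd (nat_lit 94) (nat_lit 336) (nat_lit 0) (XT.lf (nat_lit 420) (nat_lit 813018125) (nat_lit 0) (nat_lit 95155878) (nat_lit 336) (nat_lit 95155878) (nat_lit 98) (nat_lit 1) (nat_lit 93) (nat_lit 1) (nat_lit 97) (nat_lit 1) (nat_lit 299) (nat_lit 221) (nat_lit 200)) (XT.nd (nat_lit 94) (nat_lit 336) (nat_lit 0) (XT.lf (nat_lit 84) (nat_lit 318901451) (nat_lit 0) (nat_lit 345050674) (nat_lit 420) (nat_lit 318901451) (nat_lit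 94) (nat_lit 1) (nat_lit 93) (nat_lit 1) (nat_lit 98) (nat_lit 1) (nat_lit 300) (nat_lit 221) (nat_lit 199)) (XT.lf (nat_lit 420) (nat_lit 465365929) (nat_lit 0) (nat_lit 248860695) (nat_lit 336) (nat_lit 248860695) (nat_lit 94) (nat_lit 1) (nat_lit 89) (nat_lit 1) (nat_lit 93) (nat_lit 1) (nat_lit 301) (nat_lit 221) (nat_lit 198)))) (XT.nd (nat_lit 188) (nat_lit 420) (nat_lit 0) (XT.nd (nat_lit 94) (nat_lit 252) (nat_lit 0) (XT.lf (nat_lit 84) (nat_lit 146755645) (nat_lit 0) (nat_lit 650387737) (nat_lit 420) (nat_lit 146755645) (nat_lit 90) (nat_lit 1) (nat_lit 89) (nat_lit 1) (nat_lit 94) (nat_lit 1) (nat_lit 302) (nat_lit 221) (nat_lit 197)) (XT.lf (nat_lit 336) (nat_lit 119350080) (nat_lit 0) (nat_lit 402887426) (nat_lit 252) (nat_lit 402887426) (nat_lit 90) (nat_lit 1) (nat_lit 86) (nat_lit 1) (nat_lit 89) (nat_lit 1) (nat_lit 303) (nat_lit 221) (nat_lit 196))) (XT.nd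 (nat_lit 94) (nat_lit 0) (nat_lit 0) (XT.lf (nat_lit 420) (nat_lit 859382900) (nat_lit 0) (nat_lit 23846226) (nat_lit 336) (nat_lit 23846226) (nat_lit 86) (nat_lit 1) (nat_lit 81) (nat_lit 1) (nat_lit 85) (nat_lit 1) (nat_lit 304) (nat_lit 221) (nat_lit 195)) (XT.lf (nat_lit 84) (nat_lit 336282882) (nat_lit 0) (nat_lit 216559910) (nat_lit 420) (nat_lit 336282882) (nat_lit 82) (nat_lit 1) (nat_lit 81) (nat_lit 1) (nat_lit 86) (nat_lit 1) (nat_lit 305) (nat_lit 221) (nat_lit 194))))) (XT.nd (nat_lit 282) (nat_lit 588) (nat_lit 0) (XT.nd (nat_lit 94) (nat_lit 252) (nat_lit 0) (XT.lf (nat_lit 336) (nat_lit 491151781) (nat_lit 0) (nat_lit 190356316) (nat_lit 252) (nat_lit 190356316) (nat_lit 82) (nat_lit 1) (nat_lit 78) (nat_lit 1) (nat_lit 81) (nat_lit 1) (nat_lit 306) (nat_lit 221) (nat_lit 193)) (XT.nd (nat_lit 94) (nat_lit 252) (nat_lit 0) (XT.lf (nat_lit 84) (nat_lit 155162444)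 (nat_lit 0) (nat_lit 544716815) (nat_lit 336) (nat_lit 155162444) (nat_lit 79) (nat_lit 1) (nat_lit 78) (nat_lit 1) (nat_lit 82) (nat_lit 1) (nat_lit 307) (nat_lit 221) (nat_lit 192)) (XT.lf (nat_lit 336) (nat_lit 129323048) (nat_lit 0) (nat_lit 354639330) (nat_lit 252) (nat_lit 354639330) (nat_lit 79) (nat_lit 1) (nat_lit 75) (nat_lit 1) (nat_lit 78) (nat_lit 1) (nat_lit 308) (nat_lit 221) (nat_lit 191)))) (XT.nd (nat_lit 188) (nat_lit 252) (nat_lit 0) (XT.nd (nat_lit 94) (nat_lit 0) (nat_lit 0) (XT.lf (nat_lit 336) (nat_lit 778321475) (nat_lit 0) (nat_lit 22225501) (nat_lit 252) (nat_lit 22225501) (nat_lit 75) (nat_lit 1) (nat_lit 71) (nat_lit 1) (nat_lit 74) (nat_lit 1) (nat_lit 309) (nat_lit 221) (nat_lit 190)) (XT.lf (nat_lit 84) (nat_lit 294416724) (nat_lit 0) (nat_lit 218159836) (nat_lit 336) (nat_lit 294416724) (nat_lit 72) (nat_lit 1) (nat_lit 71) (nat_lit 1) (nat_lit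 75) (nat_lit 1) (nat_lit 310) (nat_lit 221) (nat_lit 189))) (XT.nd (nat_lit 94) (nat_lit 0) (nat_lit 0) (XT.lf (nat_lit 336) (nat_lit 404849954) (nat_lit 0) (nat_lit 193473985) (nat_lit 252) (nat_lit 193473985) (nat_lit 72) (nat_lit 1) (nat_lit 68) (nat_lit 1) (nat_lit 71) (nat_lit 1) (nat_lit 311) (nat_lit 221) (nat_lit 188)) (XT.lf (nat_lit 84) (nat_lit 111495347) (nat_lit 0) (nat_lit 554019415) (nat_lit 336) (nat_lit 111495347) (nat_lit 69) (nat_lit 1) (nat_lit 68) (nat_lit 1) (nat_lit 72) (nat_lit 1) (nat_lit 312) (nat_lit 221) (nat_lit 187)))))) (XT.nd (nat_lit 42112) (nat_lit 0) (nat_lit 5712) (XT.nd (nat_lit 41736) (nat_lit 0) (nat_lit 5544) (XT.nd (nat_lit 94) (nat_lit 336) (nat_lit 0) (XT.lf (nat_lit 252) (nat_lit 40855602) (nat_lit 0) (nat_lit 360822680) (nat_lit 168) (nat_lit 360822680) (nat_lit 69) (nat_lit 1) (nat_lit 66) (nat_lit 1) (nat_lit 68) (nat_lit 1)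 (nat_lit 313) (nat_lit 221) (nat_lit 186)) (XT.nd (nat_lit 94) (nat_lit 0) (nat_lit 0) (XT.lf (nat_lit 336) (nat_lit 617314452) (nat_lit 0) (nat_lit 65563269) (nat_lit 252) (nat_lit 65563269) (nat_lit 66) (nat_lit 1) (nat_lit 62) (nat_lit 1) (nat_lit 65) (nat_lit 1) (nat_lit 314) (nat_lit 221) (nat_lit 185)) (XT.lf (nat_lit 84) (nat_lit 215613285) (nat_lit 0) (nat_lit 303311696) (nat_lit 336) (nat_lit 215613285) (nat_lit 63) (nat_lit 1) (nat_lit 62) (nat_lit 1) (nat_lit 66) (nat_lit 1) (nat_lit 315) (nat_lit 221) (nat_lit 184)))) (XT.nd (nat_lit 188) (nat_lit 0) (nat_lit 84) (XT.nd (nat_lit 94) (nat_lit 0) (nat_lit 0) (XT.lf (nat_lit 924) (nat_lit 223276129) (nat_lit 0) (nat_lit 396426255) (nat_lit 924) (nat_lit 223276129) (nat_lit 139) (nat_lit 1) (nat_lit 128) (nat_lit 0) (nat_lit 139) (nat_lit 0) (nat_lit 276) (nat_lit 222) (nat_lit 222)) (XT.lf (nat_lit 924) (nat_lit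 865446154) (nat_lit 84) (nat_lit 390032283) (nat_lit 0) (nat_lit 390032283) (nat_lit 139) (nat_lit 1) (nat_lit 129) (nat_lit 1) (nat_lit 128) (nat_lit 0) (nat_lit 277) (nat_lit 222) (nat_lit 221))) (XT.nd (nat_lit 94) (nat_lit 0) (nat_lit 0) (XT.lf (nat_lit 924) (nat_lit 412458606) (nat_lit 0) (nat_lit 781397612) (nat_lit 840) (nat_lit 412458606) (nat_lit 140) (nat_lit 1) (nat_lit 129) (nat_lit 1) (nat_lit 139) (nat_lit 1) (nat_lit 278) (nat_lit 222) (nat_lit 220)) (XT.lf (nat_lit 924) (nat_lit 773715032) (nat_lit 84) (nat_lit 397335107) (nat_lit 0) (nat_lit 397335107) (nat_lit 140) (nat_lit 1) (nat_lit 130) (nat_lit 1) (nat_lit 129) (nat_lit 1) (nat_lit 279) (nat_lit 222) (nat_lit 219))))) (XT.nd (nat_lit 282) (nat_lit 0) (nat_lit 84) (XT.nd (nat_lit 94) (nat_lit 0) (nat_lit 0) (XT.lf (nat_lit 924) (nat_lit 356133599) (nat_lit 0) (nat_lit 819390650) (nat_lit 840) (nat_lit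 356133599) (nat_lit 141) (nat_lit 1) (nat_lit 130) (nat_lit 1) (nat_lit 140) (nat_lit 1) (nat_lit 280) (nat_lit 222) (nat_lit 218)) (XT.nd (nat_lit 94) (nat_lit 0) (nat_lit 84) (XT.lf (nat_lit 924) (nat_lit 640529474) (nat_lit 84) (nat_lit 427760283) (nat_lit 0) (nat_lit 427760283) (nat_lit 141) (nat_lit 1) (nat_lit 131) (nat_lit 1) (nat_lit 130) (nat_lit 1) (nat_lit 281) (nat_lit 222) (nat_lit 217)) (XT.lf (nat_lit 924) (nat_lit 280853674) (nat_lit 0) (nat_lit 899930471) (nat_lit 840) (nat_lit 280853674) (nat_lit 142) (nat_lit 1) (nat_lit 131) (nat_lit 1) (nat_lit 141) (nat_lit 1) (nat_lit 282) (nat_lit 222) (nat_lit 216)))) (XT.nd (nat_lit 188) (nat_lit 0) (nat_lit 84) (XT.nd (nat_lit 94) (nat_lit 0) (nat_lit 84) (XT.lf (nat_lit 924) (nat_lit 472123649) (nat_lit 84) (nat_lit 478024717) (nat_lit 0) (nat_lit 478024717) (nat_lit 142) (nat_lit 1) (nat_lit 132) (nat_lit 1)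 (nat_lit 131) (nat_lit 1) (nat_lit 283) (nat_lit 222) (nat_lit 215)) (XT.lf (nat_lit 924) (nat_lit 189533054) (nat_lit 0) (nat_lit 1016867241) (nat_lit 840) (nat_lit 189533054) (nat_lit 143) (nat_lit 1) (nat_lit 132) (nat_lit 1) (nat_lit 142) (nat_lit 1) (nat_lit 284) (nat_lit 222) (nat_lit 214))) (XT.nd (nat_lit 94) (nat_lit 0) (nat_lit 84) (XT.lf (nat_lit 924) (nat_lit 274038796) (nat_lit 84) (nat_lit 545204520) (nat_lit 0) (nat_lit 545204520) (nat_lit 143) (nat_lit 1) (nat_lit 133) (nat_lit 1) (nat_lit 132) (nat_lit 1) (nat_lit 285) (nat_lit 222) (nat_lit 213)) (XT.lf (nat_lit 84) (nat_lit 84760172) (nat_lit 0) (nat_lit 1164727364) (nat_lit 840) (nat_lit 84760172) (nat_lit 134) (nat_lit 1) (nat_lit 133) (nat_lit 1) (nat_lit 143) (nat_lit 1) (nat_lit 286) (nat_lit 222) (nat_lit 212))))))))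
noncomputable def ec6 : XT := (XT.nd (nat_lit 2538) (nat_lit 420) (nat_lit 0) (XT.nd (nat_lit 1222) (nat_lit 2268) (nat_lit 0) (XT.nd (nat_lit 564) (nat_lit 1428) (nat_lit 0) (XT.nd (nat_lit 282) (nat_lit 840) (nat_lit 0) (XT.nd (nat_lit 94) (nat_lit 588) (nat_lit 0) (XT.lf (nat_lit 924) (nat_lit 51193036) (nat_lit 0) (nat_lit 626699038) (nat_lit 840) (nat_lit 626699038) (nat_lit 134) (nat_lit 1) (nat_lit 123) (nat_lit 1) (nat_lit 133) (nat_lit 1) (nat_lit 287) (nat_lit 222) (nat_lit 211)) (XT.nd (nat_lit 94) (nat_lit 0) (nat_lit 0) (XT.lf (nat_lit 588) (nat_lit 1214875218) (nat_lit 0) (nat_lit 30666701) (nat_lit 504) (nat_lit 30666701) (nat_lit 123) (nat_lit 1) (nat_lit 116) (nat_lit 1) (nat_lit 122) (nat_lit 1) (nat_lit 288) (nat_lit 222) (nat_lit 210)) (XT.lf (nat_lit 84) (nat_lit 531141331) (nat_lit 0) (nat_lit 185908573) (nat_lit 588) (nat_lit 531141331) (nat_lit 117)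 (nat_lit 1) (nat_lit 116) (nat_lit 1) (nat_lit 123) (nat_lit 1) (nat_lit 289) (nat_lit 222) (nat_lit 209)))) (XT.nd (nat_lit 94) (nat_lit 420) (nat_lit 0) (XT.lf (nat_lit 504) (nat_lit 913957893) (nat_lit 0) (nat_lit 153703665) (nat_lit 420) (nat_lit 153703665) (nat_lit 117) (nat_lit 1) (nat_lit 111) (nat_lit 1) (nat_lit 116) (nat_lit 1) (nat_lit 290) (nat_lit 222) (nat_lit 208)) (XT.nd (nat_lit 94) (nat_lit 420) (nat_lit 0) (XT.lf (nat_lit 84) (nat_lit 378856645) (nat_lit 0) (nat_lit 437389878) (nat_lit 504) (nat_lit 378856645) (nat_lit 112) (nat_lit 1) (nat_lit 111) (nat_lit 1) (nat_lit 117) (nat_lit 1) (nat_lit 291) (nat_lit 222) (nat_lit 207)) (XT.lf (nat_lit 504) (nat_lit 601854233) (nat_lit 0) (nat_lit 283950759) (nat_lit 420) (nat_lit 283950759) (nat_lit 112) (nat_lit 1) (nat_lit 106) (nat_lit 1) (nat_lit 111) (nat_lit 1) (nat_lit 292) (nat_lit 222) (nat_lit 206)))))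 (XT.nd (nat_lit 282) (nat_lit 1092) (nat_lit 0) (XT.nd (nat_lit 94) (nat_lit 336) (nat_lit 0) (XT.lf (nat_lit 84) (nat_lit 221775286) (nat_lit 0) (nat_lit 701594950) (nat_lit 504) (nat_lit 221775286) (nat_lit 107) (nat_lit 1) (nat_lit 106) (nat_lit 1) (nat_lit 112) (nat_lit 1) (nat_lit 293) (nat_lit 222) (nat_lit 205)) (XT.nd (nat_lit 94) (nat_lit 0) (nat_lit 0) (XT.lf (nat_lit 420) (nat_lit 281469134) (nat_lit 0) (nat_lit 419849608) (nat_lit 336) (nat_lit 419849608) (nat_lit 107) (nat_lit 1) (nat_lit 102) (nat_lit 1) (nat_lit 106) (nat_lit 1) (nat_lit 294) (nat_lit 222) (nat_lit 204)) (XT.lf (nat_lit 84) (nat_lit 61245805) (nat_lit 0) (nat_lit 975621611) (nat_lit 420) (nat_lit 61245805) (nat_lit 103) (nat_lit 1) (nat_lit 102) (nat_lit 1) (nat_lit 107) (nat_lit 1) (nat_lit 295) (nat_lit 222) (nat_lit 203)))) (XT.nd (nat_lit 188) (nat_lit 336) (nat_lit 0) (XT.nd (nat_lit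 94) (nat_lit 336) (nat_lit 0) (XT.lf (nat_lit 84) (nat_lit 516074755) (nat_lit 0) (nat_lit 43222263) (nat_lit 420) (nat_lit 516074755) (nat_lit 98) (nat_lit 1) (nat_lit 97) (nat_lit 1) (nat_lit 102) (nat_lit 1) (nat_lit 296) (nat_lit 222) (nat_lit 202)) (XT.lf (nat_lit 420) (nat_lit 853669031) (nat_lit 0) (nat_lit 99913672) (nat_lit 336) (nat_lit 99913672) (nat_lit 98) (nat_lit 1) (nat_lit 93) (nat_lit 1) (nat_lit 97) (nat_lit 1) (nat_lit 297) (nat_lit 222) (nat_lit 201))) (XT.nd (nat_lit 94) (nat_lit 336) (nat_lit 0) (XT.lf (nat_lit 84) (nat_lit 334846524) (nat_lit 0) (nat_lit 362303208) (nat_lit 420) (nat_lit 334846524) (nat_lit 94) (nat_lit 1) (nat_lit 93) (nat_lit 1) (nat_lit 98) (nat_lit 1) (nat_lit 298) (nat_lit 222) (nat_lit 200)) (XT.lf (nat_lit 420) (nat_lit 488634225) (nat_lit 0) (nat_lit 261303729) (nat_lit 336) (nat_lit 261303729) (nat_lit 94) (nat_lit 1) (nat_lit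 89) (nat_lit 1) (nat_lit 93) (nat_lit 1) (nat_lit 299) (nat_lit 222) (nat_lit 199)))))) (XT.nd (nat_lit 658) (nat_lit 1092) (nat_lit 0) (XT.nd (nat_lit 282) (nat_lit 504) (nat_lit 0) (XT.nd (nat_lit 94) (nat_lit 672) (nat_lit 0) (XT.lf (nat_lit 84) (nat_lit 154093427) (nat_lit 0) (nat_lit 682907124) (nat_lit 420) (nat_lit 154093427) (nat_lit 90) (nat_lit 1) (nat_lit 89) (nat_lit 1) (nat_lit 94) (nat_lit 1) (nat_lit 300) (nat_lit 222) (nat_lit 198)) (XT.nd (nat_lit 94) (nat_lit 420) (nat_lit 0) (XT.lf (nat_lit 336) (nat_lit 125317584) (nat_lit 0) (nat_lit 423031798) (nat_lit 252) (nat_lit 423031798) (nat_lit 90) (nat_lit 1) (nat_lit 86) (nat_lit 1) (nat_lit 89) (nat_lit 1) (nat_lit 301) (nat_lit 222) (nat_lit 197)) (XT.lf (nat_lit 420) (nat_lit 902352045) (nat_lit 0) (nat_lit 25038537) (nat_lit 336) (nat_lit 25038537) (nat_lit 86) (nat_lit 1) (nat_lit 81) (nat_lit 1) (nat_lit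 85) (nat_lit 1) (nat_lit 302) (nat_lit 222) (nat_lit 196)))) (XT.nd (nat_lit 188) (nat_lit 252) (nat_lit 0) (XT.nd (nat_lit 94) (nat_lit 252) (nat_lit 0) (XT.lf (nat_lit 84) (nat_lit 353097026) (nat_lit 0) (nat_lit 227387905) (nat_lit 420) (nat_lit 353097026) (nat_lit 82) (nat_lit 1) (nat_lit 81) (nat_lit 1) (nat_lit 86) (nat_lit 1) (nat_lit 303) (nat_lit 222) (nat_lit 195)) (XT.lf (nat_lit 336) (nat_lit 515709370) (nat_lit 0) (nat_lit 199874132) (nat_lit 252) (nat_lit 199874132) (nat_lit 82) (nat_lit 1) (nat_lit 78) (nat_lit 1) (nat_lit 81) (nat_lit 1) (nat_lit 304) (nat_lit 222) (nat_lit 194))) (XT.nd (nat_lit 94) (nat_lit 252) (nat_lit 0) (XT.lf (nat_lit 84) (nat_lit 162920567) (nat_lit 0) (nat_lit 571952656) (nat_lit 336) (nat_lit 162920567) (nat_lit 79) (nat_lit 1) (nat_lit 78) (nat_lit 1) (nat_lit 82) (nat_lit 1) (nat_lit 305) (nat_lit 222) (nat_lit 193)) (XT.lf (nat_lit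 336) (nat_lit 135789200) (nat_lit 0) (nat_lit 372371296) (nat_lit 252) (nat_lit 372371296) (nat_lit 79) (nat_lit 1) (nat_lit 75) (nat_lit 1) (nat_lit 78) (nat_lit 1) (nat_lit 306) (nat_lit 222) (nat_lit 192))))) (XT.nd (nat_lit 282) (nat_lit 504) (nat_lit 0) (XT.nd (nat_lit 94) (nat_lit 252) (nat_lit 0) (XT.lf (nat_lit 336) (nat_lit 817237549) (nat_lit 0) (nat_lit 23336776) (nat_lit 252) (nat_lit 23336776) (nat_lit 75) (nat_lit 1) (nat_lit 71) (nat_lit 1) (nat_lit 74) (nat_lit 1) (nat_lit 307) (nat_lit 222) (nat_lit 191)) (XT.nd (nat_lit 94) (nat_lit 252) (nat_lit 0) (XT.lf (nat_lit 84) (nat_lit 309137560) (nat_lit 0) (nat_lit 229067828) (nat_lit 336) (nat_lit 309137560) (nat_lit 72) (nat_lit 1) (nat_lit 71) (nat_lit 1) (nat_lit 75) (nat_lit 1) (nat_lit 308) (nat_lit 222) (nat_lit 190)) (XT.lf (nat_lit 336) (nat_lit 425092452) (nat_lit 0) (nat_lit 203147684) (nat_lit 252)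 (nat_lit 203147684) (nat_lit 72) (nat_lit 1) (nat_lit 68) (nat_lit 1) (nat_lit 71) (nat_lit 1) (nat_lit 309) (nat_lit 222) (nat_lit 189)))) (XT.nd (nat_lit 188) (nat_lit 336) (nat_lit 0) (XT.nd (nat_lit 94) (nat_lit 168) (nat_lit 0) (XT.lf (nat_lit 84) (nat_lit 117070114) (nat_lit 0) (nat_lit 581720386) (nat_lit 336) (nat_lit 117070114) (nat_lit 69) (nat_lit 1) (nat_lit 68) (nat_lit 1) (nat_lit 72) (nat_lit 1) (nat_lit 310) (nat_lit 222) (nat_lit 188)) (XT.lf (nat_lit 252) (nat_lit 42898382) (nat_lit 0) (nat_lit 378863814) (nat_lit 168) (nat_lit 378863814) (nat_lit 69) (nat_lit 1) (nat_lit 66) (nat_lit 1) (nat_lit 68) (nat_lit 1) (nat_lit 311) (nat_lit 222) (nat_lit 187))) (XT.nd (nat_lit 94) (nat_lit 0) (nat_lit 0) (XT.lf (nat_lit 336) (nat_lit 648180175) (nat_lit 0) (nat_lit 68841432) (nat_lit 252) (nat_lit 68841432) (nat_lit 66) (nat_lit 1) (nat_lit 62) (nat_lit 1) (nat_lit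 65) (nat_lit 1) (nat_lit 312) (nat_lit 222) (nat_lit 186)) (XT.lf (nat_lit 84) (nat_lit 226393949) (nat_lit 0) (nat_lit 318477281) (nat_lit 336) (nat_lit 226393949) (nat_lit 63) (nat_lit 1) (nat_lit 62) (nat_lit 1) (nat_lit 66) (nat_lit 1) (nat_lit 313) (nat_lit 222) (nat_lit 185))))))) (XT.nd (nat_lit 42394) (nat_lit 0) (nat_lit 2688) (XT.nd (nat_lit 41736) (nat_lit 0) (nat_lit 6048) (XT.nd (nat_lit 41454) (nat_lit 0) (nat_lit 5964) (XT.nd (nat_lit 94) (nat_lit 252) (nat_lit 0) (XT.lf (nat_lit 252) (nat_lit 261563285) (nat_lit 0) (nat_lit 247777281) (nat_lit 168) (nat_lit 247777281) (nat_lit 63) (nat_lit 1) (nat_lit 60) (nat_lit 1) (nat_lit 62) (nat_lit 1) (nat_lit 314) (nat_lit 222) (nat_lit 184)) (XT.nd (nat_lit 94) (nat_lit 252) (nat_lit 0) (XT.lf (nat_lit 84) (nat_lit 37578341) (nat_lit 0) (nat_lit 668283330) (nat_lit 252) (nat_lit 37578341) (nat_lit 61) (nat_lit 1)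 (nat_lit 60) (nat_lit 1) (nat_lit 63) (nat_lit 1) (nat_lit 315) (nat_lit 222) (nat_lit 183)) (XT.lf (nat_lit 84) (nat_lit 310140649) (nat_lit 0) (nat_lit 109530600) (nat_lit 252) (nat_lit 310140649) (nat_lit 58) (nat_lit 1) (nat_lit 57) (nat_lit 1) (nat_lit 60) (nat_lit 1) (nat_lit 316) (nat_lit 222) (nat_lit 182)))) (XT.nd (nat_lit 94) (nat_lit 0) (nat_lit 0) (XT.lf (nat_lit 924) (nat_lit 234439936) (nat_lit 0) (nat_lit 416247568) (nat_lit 924) (nat_lit 234439936) (nat_lit 139) (nat_lit 1) (nat_lit 128) (nat_lit 0) (nat_lit 139) (nat_lit 0) (nat_lit 274) (nat_lit 223) (nat_lit 223)) (XT.nd (nat_lit 94) (nat_lit 0) (nat_lit 84) (XT.lf (nat_lit 924) (nat_lit 908718461) (nat_lit 84) (nat_lit 409533897) (nat_lit 0) (nat_lit 409533897) (nat_lit 139) (nat_lit 1) (nat_lit 129) (nat_lit 1) (nat_lit 128) (nat_lit 0) (nat_lit 275) (nat_lit 223) (nat_lit 222)) (XT.lf (nat_lit 924)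 (nat_lit 433081536) (nat_lit 0) (nat_lit 820467493) (nat_lit 840) (nat_lit 433081536) (nat_lit 140) (nat_lit 1) (nat_lit 129) (nat_lit 1) (nat_lit 139) (nat_lit 1) (nat_lit 276) (nat_lit 223) (nat_lit 221))))) (XT.nd (nat_lit 282) (nat_lit 0) (nat_lit 168) (XT.nd (nat_lit 94) (nat_lit 0) (nat_lit 84) (XT.lf (nat_lit 924) (nat_lit 812400784) (nat_lit 84) (nat_lit 417201863) (nat_lit 0) (nat_lit 417201863) (nat_lit 140) (nat_lit 1) (nat_lit 130) (nat_lit 1) (nat_lit 129) (nat_lit 1) (nat_lit 277) (nat_lit 223) (nat_lit 220)) (XT.nd (nat_lit 94) (nat_lit 0) (nat_lit 0) (XT.lf (nat_lit 924) (nat_lit 373940279) (nat_lit 0) (nat_lit 860360182) (nat_lit 840) (nat_lit 373940279) (nat_lit 141) (nat_lit 1) (nat_lit 130) (nat_lit 1) (nat_lit 140) (nat_lit 1) (nat_lit 278) (nat_lit 223) (nat_lit 219)) (XT.lf (nat_lit 924) (nat_lit 672555947) (nat_lit 84) (nat_lit 449148297) (nat_lit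 0) (nat_lit 449148297) (nat_lit 141) (nat_lit 1) (nat_lit 131) (nat_lit 1) (nat_lit 130) (nat_lit 1) (nat_lit 279) (nat_lit 223) (nat_lit 218)))) (XT.nd (nat_lit 188) (nat_lit 0) (nat_lit 84) (XT.nd (nat_lit 94) (nat_lit 0) (nat_lit 0) (XT.lf (nat_lit 924) (nat_lit 294896357) (nat_lit 0) (nat_lit 944926994) (nat_lit 840) (nat_lit 294896357) (nat_lit 142) (nat_lit 1) (nat_lit 131) (nat_lit 1) (nat_lit 141) (nat_lit 1) (nat_lit 280) (nat_lit 223) (nat_lit 217)) (XT.lf (nat_lit 924) (nat_lit 495729832) (nat_lit 84) (nat_lit 501925953) (nat_lit 0) (nat_lit 501925953) (nat_lit 142) (nat_lit 1) (nat_lit 132) (nat_lit 1) (nat_lit 131) (nat_lit 1) (nat_lit 281) (nat_lit 223) (nat_lit 216))) (XT.nd (nat_lit 94) (nat_lit 0) (nat_lit 0) (XT.lf (nat_lit 924) (nat_lit 199009707) (nat_lit 0) (nat_lit 1067710603) (nat_lit 840) (nat_lit 199009707) (nat_lit 143) (nat_lit 1) (nat_lit 132)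 (nat_lit 1) (nat_lit 142) (nat_lit 1) (nat_lit 282) (nat_lit 223) (nat_lit 215)) (XT.lf (nat_lit 924) (nat_lit 287740736) (nat_lit 84) (nat_lit 572464746) (nat_lit 0) (nat_lit 572464746) (nat_lit 143) (nat_lit 1) (nat_lit 133) (nat_lit 1) (nat_lit 132) (nat_lit 1) (nat_lit 283) (nat_lit 223) (nat_lit 214)))))) (XT.nd (nat_lit 658) (nat_lit 1428) (nat_lit 0) (XT.nd (nat_lit 282) (nat_lit 840) (nat_lit 0) (XT.nd (nat_lit 94) (nat_lit 1428) (nat_lit 0) (XT.lf (nat_lit 84) (nat_lit 88998180) (nat_lit 0) (nat_lit 1222963732) (nat_lit 840) (nat_lit 88998180) (nat_lit 134) (nat_lit 1) (nat_lit 133) (nat_lit 1) (nat_lit 143) (nat_lit 1) (nat_lit 284) (nat_lit 223) (nat_lit 213)) (XT.nd (nat_lit 94) (nat_lit 588) (nat_lit 0) (XT.lf (nat_lit 924) (nat_lit 53752687) (nat_lit 0) (nat_lit 658033990) (nat_lit 840) (nat_lit 658033990) (nat_lit 134) (nat_lit 1) (nat_lit 123) (nat_lit 1)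 (nat_lit 133) (nat_lit 1) (nat_lit 285) (nat_lit 223) (nat_lit 212)) (XT.lf (nat_lit 588) (nat_lit 1275618979) (nat_lit 0) (nat_lit 32200036) (nat_lit 504) (nat_lit 32200036) (nat_lit 123) (nat_lit 1) (nat_lit 116) (nat_lit 1) (nat_lit 122) (nat_lit 1) (nat_lit 286) (nat_lit 223) (nat_lit 211)))) (XT.nd (nat_lit 188) (nat_lit 420) (nat_lit 0) (XT.nd (nat_lit 94) (nat_lit 420) (nat_lit 0) (XT.lf (nat_lit 84) (nat_lit 557698397) (nat_lit 0) (nat_lit 195204002) (nat_lit 588) (nat_lit 557698397) (nat_lit 117) (nat_lit 1) (nat_lit 116) (nat_lit 1) (nat_lit 123) (nat_lit 1) (nat_lit 287) (nat_lit 223) (nat_lit 210)) (XT.lf (nat_lit 504) (nat_lit 959655787) (nat_lit 0) (nat_lit 161388849) (nat_lit 420) (nat_lit 161388849) (nat_lit 117) (nat_lit 1) (nat_lit 111) (nat_lit 1) (nat_lit 116) (nat_lit 1) (nat_lit 288) (nat_lit 223) (nat_lit 209))) (XT.nd (nat_lit 94) (nat_lit 420) (nat_lit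 0) (XT.lf (nat_lit 84) (nat_lit 397799478) (nat_lit 0) (nat_lit 459259372) (nat_lit 504) (nat_lit 397799478) (nat_lit 112) (nat_lit 1) (nat_lit 111) (nat_lit 1) (nat_lit 117) (nat_lit 1) (nat_lit 289) (nat_lit 223) (nat_lit 208)) (XT.lf (nat_lit 504) (nat_lit 631946945) (nat_lit 0) (nat_lit 298148297) (nat_lit 420) (nat_lit 298148297) (nat_lit 112) (nat_lit 1) (nat_lit 106) (nat_lit 1) (nat_lit 111) (nat_lit 1) (nat_lit 290) (nat_lit 223) (nat_lit 207))))) (XT.nd (nat_lit 282) (nat_lit 1092) (nat_lit 0) (XT.nd (nat_lit 94) (nat_lit 336) (nat_lit 0) (XT.lf (nat_lit 84) (nat_lit 232864050) (nat_lit 0) (nat_lit 736674698) (nat_lit 504) (nat_lit 232864050) (nat_lit 107) (nat_lit 1) (nat_lit 106) (nat_lit 1) (nat_lit 112) (nat_lit 1) (nat_lit 291) (nat_lit 223) (nat_lit 206)) (XT.nd (nat_lit 94) (nat_lit 0) (nat_lit 0) (XT.lf (nat_lit 420) (nat_lit 295542590) (nat_lit 0) (nat_lit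 440842088) (nat_lit 336) (nat_lit 440842088) (nat_lit 107) (nat_lit 1) (nat_lit 102) (nat_lit 1) (nat_lit 106) (nat_lit 1) (nat_lit 292) (nat_lit 223) (nat_lit 205)) (XT.lf (nat_lit 84) (nat_lit 64308095) (nat_lit 0) (nat_lit 1024402691) (nat_lit 420) (nat_lit 64308095) (nat_lit 103) (nat_lit 1) (nat_lit 102) (nat_lit 1) (nat_lit 107) (nat_lit 1) (nat_lit 293) (nat_lit 223) (nat_lit 204)))) (XT.nd (nat_lit 188) (nat_lit 336) (nat_lit 0) (XT.nd (nat_lit 94) (nat_lit 336) (nat_lit 0) (XT.lf (nat_lit 84) (nat_lit 541878493) (nat_lit 0) (nat_lit 45383376) (nat_lit 420) (nat_lit 541878493) (nat_lit 98) (nat_lit 1) (nat_lit 97) (nat_lit 1) (nat_lit 102) (nat_lit 1) (nat_lit 294) (nat_lit 223) (nat_lit 203)) (XT.lf (nat_lit 420) (nat_lit 896352483) (nat_lit 0) (nat_lit 104909356) (nat_lit 336) (nat_lit 104909356) (nat_lit 98) (nat_lit 1) (nat_lit 93) (nat_lit 1) (nat_lit 97) (nat_lit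 1) (nat_lit 295) (nat_lit 223) (nat_lit 202))) (XT.nd (nat_lit 94) (nat_lit 336) (nat_lit 0) (XT.lf (nat_lit 84) (nat_lit 351588850) (nat_lit 0) (nat_lit 380418369) (nat_lit 420) (nat_lit 351588850) (nat_lit 94) (nat_lit 1) (nat_lit 93) (nat_lit 1) (nat_lit 98) (nat_lit 1) (nat_lit 296) (nat_lit 223) (nat_lit 201)) (XT.lf (nat_lit 420) (nat_lit 513065937) (nat_lit 0) (nat_lit 274368916) (nat_lit 336) (nat_lit 274368916) (nat_lit 94) (nat_lit 1) (nat_lit 89) (nat_lit 1) (nat_lit 93) (nat_lit 1) (nat_lit 297) (nat_lit 223) (nat_lit 200))))))))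
noncomputable def ec7 : XT := (XT.nd (nat_lit 43522) (nat_lit 0) (nat_lit 924) (XT.nd (nat_lit 1222) (nat_lit 588) (nat_lit 0) (XT.nd (nat_lit 564) (nat_lit 1344) (nat_lit 0) (XT.nd (nat_lit 282) (nat_lit 252) (nat_lit 0) (XT.nd (nat_lit 94) (nat_lit 672) (nat_lit 0) (XT.lf (nat_lit 84) (nat_lit 161798098) (nat_lit 0) (nat_lit 717052480) (nat_lit 420) (nat_lit 161798098) (nat_lit 90) (nat_lit 1) (nat_lit 89) (nat_lit 1) (nat_lit 94) (nat_lit 1) (nat_lit 298) (nat_lit 223) (nat_lit 199)) (XT.nd (nat_lit 94) (nat_lit 420) (nat_lit 0) (XT.lf (nat_lit 336) (nat_lit 131583464) (nat_lit 0) (nat_lit 444183388) (nat_lit 252) (nat_lit 444183388) (nat_lit 90) (nat_lit 1) (nat_lit 86) (nat_lit 1) (nat_lit 89) (nat_lit 1) (nat_lit 299) (nat_lit 223) (nat_lit 198)) (XT.lf (nat_lit 420) (nat_lit 947469648) (nat_lit 0) (nat_lit 26290464) (nat_lit 336) (nat_lit 26290464) (nat_lit 86) (nat_lit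 1) (nat_lit 81) (nat_lit 1) (nat_lit 85) (nat_lit 1) (nat_lit 300) (nat_lit 223) (nat_lit 197)))) (XT.nd (nat_lit 94) (nat_lit 252) (nat_lit 0) (XT.lf (nat_lit 84) (nat_lit 370751877) (nat_lit 0) (nat_lit 238757301) (nat_lit 420) (nat_lit 370751877) (nat_lit 82) (nat_lit 1) (nat_lit 81) (nat_lit 1) (nat_lit 86) (nat_lit 1) (nat_lit 301) (nat_lit 223) (nat_lit 196)) (XT.nd (nat_lit 94) (nat_lit 0) (nat_lit 0) (XT.lf (nat_lit 336) (nat_lit 541494838) (nat_lit 0) (nat_lit 209867839) (nat_lit 252) (nat_lit 209867839) (nat_lit 82) (nat_lit 1) (nat_lit 78) (nat_lit 1) (nat_lit 81) (nat_lit 1) (nat_lit 302) (nat_lit 223) (nat_lit 195)) (XT.lf (nat_lit 84) (nat_lit 171066595) (nat_lit 0) (nat_lit 600550289) (nat_lit 336) (nat_lit 171066595) (nat_lit 79) (nat_lit 1) (nat_lit 78) (nat_lit 1) (nat_lit 82) (nat_lit 1) (nat_lit 303) (nat_lit 223) (nat_lit 194))))) (XT.nd (nat_lit 282)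 (nat_lit 756) (nat_lit 0) (XT.nd (nat_lit 94) (nat_lit 336) (nat_lit 0) (XT.lf (nat_lit 336) (nat_lit 142578660) (nat_lit 0) (nat_lit 390989861) (nat_lit 252) (nat_lit 390989861) (nat_lit 79) (nat_lit 1) (nat_lit 75) (nat_lit 1) (nat_lit 78) (nat_lit 1) (nat_lit 304) (nat_lit 223) (nat_lit 193)) (XT.nd (nat_lit 94) (nat_lit 0) (nat_lit 0) (XT.lf (nat_lit 336) (nat_lit 858099426) (nat_lit 0) (nat_lit 24503615) (nat_lit 252) (nat_lit 24503615) (nat_lit 75) (nat_lit 1) (nat_lit 71) (nat_lit 1) (nat_lit 74) (nat_lit 1) (nat_lit 305) (nat_lit 223) (nat_lit 192)) (XT.lf (nat_lit 84) (nat_lit 324594438) (nat_lit 0) (nat_lit 240521219) (nat_lit 336) (nat_lit 324594438) (nat_lit 72) (nat_lit 1) (nat_lit 71) (nat_lit 1) (nat_lit 75) (nat_lit 1) (nat_lit 306) (nat_lit 223) (nat_lit 191)))) (XT.nd (nat_lit 188) (nat_lit 504) (nat_lit 0) (XT.nd (nat_lit 94) (nat_lit 0) (nat_lit 0) (XT.lf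 (nat_lit 336) (nat_lit 446347075) (nat_lit 0) (nat_lit 213305068) (nat_lit 252) (nat_lit 213305068) (nat_lit 72) (nat_lit 1) (nat_lit 68) (nat_lit 1) (nat_lit 71) (nat_lit 1) (nat_lit 307) (nat_lit 223) (nat_lit 190)) (XT.lf (nat_lit 84) (nat_lit 122923620) (nat_lit 0) (nat_lit 610806405) (nat_lit 336) (nat_lit 122923620) (nat_lit 69) (nat_lit 1) (nat_lit 68) (nat_lit 1) (nat_lit 72) (nat_lit 1) (nat_lit 308) (nat_lit 223) (nat_lit 189))) (XT.nd (nat_lit 94) (nat_lit 336) (nat_lit 0) (XT.lf (nat_lit 252) (nat_lit 45043301) (nat_lit 0) (nat_lit 397807005) (nat_lit 168) (nat_lit 397807005) (nat_lit 69) (nat_lit 1) (nat_lit 66) (nat_lit 1) (nat_lit 68) (nat_lit 1) (nat_lit 309) (nat_lit 223) (nat_lit 188)) (XT.lf (nat_lit 336) (nat_lit 680589184) (nat_lit 0) (nat_lit 72283504) (nat_lit 252) (nat_lit 72283504) (nat_lit 66) (nat_lit 1) (nat_lit 62) (nat_lit 1) (nat_lit 65) (nat_lit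 1) (nat_lit 310) (nat_lit 223) (nat_lit 187)))))) (XT.nd (nat_lit 41642) (nat_lit 0) (nat_lit 6132) (XT.nd (nat_lit 282) (nat_lit 420) (nat_lit 0) (XT.nd (nat_lit 94) (nat_lit 168) (nat_lit 0) (XT.lf (nat_lit 84) (nat_lit 237713646) (nat_lit 0) (nat_lit 334401145) (nat_lit 336) (nat_lit 237713646) (nat_lit 63) (nat_lit 1) (nat_lit 62) (nat_lit 1) (nat_lit 66) (nat_lit 1) (nat_lit 311) (nat_lit 223) (nat_lit 186)) (XT.nd (nat_lit 94) (nat_lit 0) (nat_lit 0) (XT.lf (nat_lit 252) (nat_lit 274641450) (nat_lit 0) (nat_lit 260166145) (nat_lit 168) (nat_lit 260166145) (nat_lit 63) (nat_lit 1) (nat_lit 60) (nat_lit 1) (nat_lit 62) (nat_lit 1) (nat_lit 312) (nat_lit 223) (nat_lit 185)) (XT.lf (nat_lit 84) (nat_lit 39457259) (nat_lit 0) (nat_lit 701697496) (nat_lit 252) (nat_lit 39457259) (nat_lit 61) (nat_lit 1) (nat_lit 60) (nat_lit 1) (nat_lit 63) (nat_lit 1) (nat_lit 313) (nat_lit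 223) (nat_lit 184)))) (XT.nd (nat_lit 188) (nat_lit 0) (nat_lit 0) (XT.nd (nat_lit 94) (nat_lit 168) (nat_lit 0) (XT.lf (nat_lit 84) (nat_lit 325647681) (nat_lit 0) (nat_lit 115007130) (nat_lit 252) (nat_lit 325647681) (nat_lit 58) (nat_lit 1) (nat_lit 57) (nat_lit 1) (nat_lit 60) (nat_lit 1) (nat_lit 314) (nat_lit 223) (nat_lit 183)) (XT.lf (nat_lit 252) (nat_lit 452218880) (nat_lit 0) (nat_lit 150124416) (nat_lit 168) (nat_lit 150124416) (nat_lit 58) (nat_lit 1) (nat_lit 55) (nat_lit 1) (nat_lit 57) (nat_lit 1) (nat_lit 315) (nat_lit 223) (nat_lit 182))) (XT.nd (nat_lit 41078) (nat_lit 0) (nat_lit 6132) (XT.lf (nat_lit 84) (nat_lit 127604403) (nat_lit 0) (nat_lit 483729904) (nat_lit 252) (nat_lit 127604403) (nat_lit 56) (nat_lit 1) (nat_lit 55) (nat_lit 1) (nat_lit 58) (nat_lit 1) (nat_lit 316) (nat_lit 223) (nat_lit 181)) (XT.lf (nat_lit 924) (nat_lit 246161933) (nat_lit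 0) (nat_lit 437059946) (nat_lit 924) (nat_lit 246161933) (nat_lit 139) (nat_lit 1) (nat_lit 128) (nat_lit 0) (nat_lit 139) (nat_lit 0) (nat_lit 272) (nat_lit 224) (nat_lit 224))))) (XT.nd (nat_lit 282) (nat_lit 0) (nat_lit 168) (XT.nd (nat_lit 94) (nat_lit 0) (nat_lit 84) (XT.lf (nat_lit 924) (nat_lit 954154385) (nat_lit 84) (nat_lit 430010592) (nat_lit 0) (nat_lit 430010592) (nat_lit 139) (nat_lit 1) (nat_lit 129) (nat_lit 1) (nat_lit 128) (nat_lit 0) (nat_lit 273) (nat_lit 224) (nat_lit 223)) (XT.nd (nat_lit 94) (nat_lit 0) (nat_lit 0) (XT.lf (nat_lit 924) (nat_lit 454735613) (nat_lit 0) (nat_lit 861490868) (nat_lit 840) (nat_lit 454735613) (nat_lit 140) (nat_lit 1) (nat_lit 129) (nat_lit 1) (nat_lit 139) (nat_lit 1) (nat_lit 274) (nat_lit 224) (nat_lit 222)) (XT.lf (nat_lit 924) (nat_lit 853020823) (nat_lit 84) (nat_lit 438061956) (nat_lit 0) (nat_lit 438061956) (nat_lit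 140) (nat_lit 1) (nat_lit 130) (nat_lit 1) (nat_lit 129) (nat_lit 1) (nat_lit 275) (nat_lit 224) (nat_lit 221)))) (XT.nd (nat_lit 188) (nat_lit 0) (nat_lit 84) (XT.nd (nat_lit 94) (nat_lit 0) (nat_lit 0) (XT.lf (nat_lit 924) (nat_lit 392637293) (nat_lit 0) (nat_lit 903378191) (nat_lit 840) (nat_lit 392637293) (nat_lit 141) (nat_lit 1) (nat_lit 130) (nat_lit 1) (nat_lit 140) (nat_lit 1) (nat_lit 276) (nat_lit 224) (nat_lit 220)) (XT.lf (nat_lit 924) (nat_lit 706183745) (nat_lit 84) (nat_lit 471605712) (nat_lit 0) (nat_lit 471605712) (nat_lit 141) (nat_lit 1) (nat_lit 131) (nat_lit 1) (nat_lit 130) (nat_lit 1) (nat_lit 277) (nat_lit 224) (nat_lit 219))) (XT.nd (nat_lit 94) (nat_lit 0) (nat_lit 0) (XT.lf (nat_lit 924) (nat_lit 309641175) (nat_lit 0) (nat_lit 992173344) (nat_lit 840) (nat_lit 309641175) (nat_lit 142) (nat_lit 1) (nat_lit 131) (nat_lit 1) (nat_lit 141) (nat_lit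 1) (nat_lit 278) (nat_lit 224) (nat_lit 218)) (XT.lf (nat_lit 924) (nat_lit 520516323) (nat_lit 84) (nat_lit 527022251) (nat_lit 0) (nat_lit 527022251) (nat_lit 142) (nat_lit 1) (nat_lit 132) (nat_lit 1) (nat_lit 131) (nat_lit 1) (nat_lit 279) (nat_lit 224) (nat_lit 217))))))) (XT.nd (nat_lit 1316) (nat_lit 2268) (nat_lit 0) (XT.nd (nat_lit 658) (nat_lit 1512) (nat_lit 0) (XT.nd (nat_lit 282) (nat_lit 1764) (nat_lit 0) (XT.nd (nat_lit 94) (nat_lit 0) (nat_lit 0) (XT.lf (nat_lit 924) (nat_lit 208960192) (nat_lit 0) (nat_lit 1121096133) (nat_lit 840) (nat_lit 208960192) (nat_lit 143) (nat_lit 1) (nat_lit 132) (nat_lit 1) (nat_lit 142) (nat_lit 1) (nat_lit 280) (nat_lit 224) (nat_lit 216)) (XT.nd (nat_lit 94) (nat_lit 0) (nat_lit 84) (XT.lf (nat_lit 924) (nat_lit 302127772) (nat_lit 84) (nat_lit 601087984) (nat_lit 0) (nat_lit 601087984) (nat_lit 143) (nat_lit 1) (nat_lit 133)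 (nat_lit 1) (nat_lit 132) (nat_lit 1) (nat_lit 281) (nat_lit 224) (nat_lit 215)) (XT.lf (nat_lit 84) (nat_lit 93448089) (nat_lit 0) (nat_lit 1284111919) (nat_lit 840) (nat_lit 93448089) (nat_lit 134) (nat_lit 1) (nat_lit 133) (nat_lit 1) (nat_lit 143) (nat_lit 1) (nat_lit 282) (nat_lit 224) (nat_lit 214)))) (XT.nd (nat_lit 188) (nat_lit 420) (nat_lit 0) (XT.nd (nat_lit 94) (nat_lit 588) (nat_lit 0) (XT.lf (nat_lit 924) (nat_lit 56440322) (nat_lit 0) (nat_lit 690935690) (nat_lit 840) (nat_lit 690935690) (nat_lit 134) (nat_lit 1) (nat_lit 123) (nat_lit 1) (nat_lit 133) (nat_lit 1) (nat_lit 283) (nat_lit 224) (nat_lit 213)) (XT.lf (nat_lit 588) (nat_lit 1339399928) (nat_lit 0) (nat_lit 33810038) (nat_lit 504) (nat_lit 33810038) (nat_lit 123) (nat_lit 1) (nat_lit 116) (nat_lit 1) (nat_lit 122) (nat_lit 1) (nat_lit 284) (nat_lit 224) (nat_lit 212))) (XT.nd (nat_lit 94) (nat_lit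 420) (nat_lit 0) (XT.lf (nat_lit 84) (nat_lit 585583317) (nat_lit 0) (nat_lit 204964202) (nat_lit 588) (nat_lit 585583317) (nat_lit 117) (nat_lit 1) (nat_lit 116) (nat_lit 1) (nat_lit 123) (nat_lit 1) (nat_lit 285) (nat_lit 224) (nat_lit 211)) (XT.lf (nat_lit 504) (nat_lit 1007638577) (nat_lit 0) (nat_lit 169458291) (nat_lit 420) (nat_lit 169458291) (nat_lit 117) (nat_lit 1) (nat_lit 111) (nat_lit 1) (nat_lit 116) (nat_lit 1) (nat_lit 286) (nat_lit 224) (nat_lit 210))))) (XT.nd (nat_lit 282) (nat_lit 1092) (nat_lit 0) (XT.nd (nat_lit 94) (nat_lit 420) (nat_lit 0) (XT.lf (nat_lit 84) (nat_lit 417689451) (nat_lit 0) (nat_lit 482222341) (nat_lit 504) (nat_lit 417689451) (nat_lit 112) (nat_lit 1) (nat_lit 111) (nat_lit 1) (nat_lit 117) (nat_lit 1) (nat_lit 287) (nat_lit 224) (nat_lit 209)) (XT.nd (nat_lit 94) (nat_lit 0) (nat_lit 0) (XT.lf (nat_lit 504) (nat_lit 663544292) (nat_lit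 0) (nat_lit 313055712) (nat_lit 420) (nat_lit 313055712) (nat_lit 112) (nat_lit 1) (nat_lit 106) (nat_lit 1) (nat_lit 111) (nat_lit 1) (nat_lit 288) (nat_lit 224) (nat_lit 208)) (XT.lf (nat_lit 84) (nat_lit 244507253) (nat_lit 0) (nat_lit 773508433) (nat_lit 504) (nat_lit 244507253) (nat_lit 107) (nat_lit 1) (nat_lit 106) (nat_lit 1) (nat_lit 112) (nat_lit 1) (nat_lit 289) (nat_lit 224) (nat_lit 207)))) (XT.nd (nat_lit 188) (nat_lit 756) (nat_lit 0) (XT.nd (nat_lit 94) (nat_lit 0) (nat_lit 0) (XT.lf (nat_lit 420) (nat_lit 310319720) (nat_lit 0) (nat_lit 462884193) (nat_lit 336) (nat_lit 462884193) (nat_lit 107) (nat_lit 1) (nat_lit 102) (nat_lit 1) (nat_lit 106) (nat_lit 1) (nat_lit 290) (nat_lit 224) (nat_lit 206)) (XT.lf (nat_lit 84) (nat_lit 67523500) (nat_lit 0) (nat_lit 1075622826) (nat_lit 420) (nat_lit 67523500) (nat_lit 103) (nat_lit 1) (nat_lit 102) (nat_lit 1)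 (nat_lit 107) (nat_lit 1) (nat_lit 291) (nat_lit 224) (nat_lit 205))) (XT.nd (nat_lit 94) (nat_lit 336) (nat_lit 0) (XT.lf (nat_lit 84) (nat_lit 568972418) (nat_lit 0) (nat_lit 47652545) (nat_lit 420) (nat_lit 568972418) (nat_lit 98) (nat_lit 1) (nat_lit 97) (nat_lit 1) (nat_lit 102) (nat_lit 1) (nat_lit 292) (nat_lit 224) (nat_lit 204)) (XT.lf (nat_lit 420) (nat_lit 941170107) (nat_lit 0) (nat_lit 110154824) (nat_lit 336) (nat_lit 110154824) (nat_lit 98) (nat_lit 1) (nat_lit 93) (nat_lit 1) (nat_lit 97) (nat_lit 1) (nat_lit 293) (nat_lit 224) (nat_lit 203)))))) (XT.nd (nat_lit 658) (nat_lit 1008) (nat_lit 0) (XT.nd (nat_lit 282) (nat_lit 924) (nat_lit 0) (XT.nd (nat_lit 94) (nat_lit 336) (nat_lit 0) (XT.lf (nat_lit 84) (nat_lit 369168292) (nat_lit 0) (nat_lit 399439287) (nat_lit 420) (nat_lit 369168292) (nat_lit 94) (nat_lit 1) (nat_lit 93) (nat_lit 1) (nat_lit 98) (nat_lit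 1) (nat_lit 294) (nat_lit 224) (nat_lit 202)) (XT.nd (nat_lit 94) (nat_lit 0) (nat_lit 0) (XT.lf (nat_lit 420) (nat_lit 538719233) (nat_lit 0) (nat_lit 288087362) (nat_lit 336) (nat_lit 288087362) (nat_lit 94) (nat_lit 1) (nat_lit 89) (nat_lit 1) (nat_lit 93) (nat_lit 1) (nat_lit 295) (nat_lit 224) (nat_lit 201)) (XT.lf (nat_lit 84) (nat_lit 169888003) (nat_lit 0) (nat_lit 752905104) (nat_lit 420) (nat_lit 169888003) (nat_lit 90) (nat_lit 1) (nat_lit 89) (nat_lit 1) (nat_lit 94) (nat_lit 1) (nat_lit 296) (nat_lit 224) (nat_lit 200)))) (XT.nd (nat_lit 188) (nat_lit 252) (nat_lit 0) (XT.nd (nat_lit 94) (nat_lit 420) (nat_lit 0) (XT.lf (nat_lit 336) (nat_lit 138162637) (nat_lit 0) (nat_lit 466392557) (nat_lit 252) (nat_lit 466392557) (nat_lit 90) (nat_lit 1) (nat_lit 86) (nat_lit 1) (nat_lit 89) (nat_lit 1) (nat_lit 297) (nat_lit 224) (nat_lit 199)) (XT.lf (nat_lit 420) (nat_lit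 994843130) (nat_lit 0) (nat_lit 27604987) (nat_lit 336) (nat_lit 27604987) (nat_lit 86) (nat_lit 1) (nat_lit 81) (nat_lit 1) (nat_lit 85) (nat_lit 1) (nat_lit 298) (nat_lit 224) (nat_lit 198))) (XT.nd (nat_lit 94) (nat_lit 252) (nat_lit 0) (XT.lf (nat_lit 84) (nat_lit 389289471) (nat_lit 0) (nat_lit 250695166) (nat_lit 420) (nat_lit 389289471) (nat_lit 82) (nat_lit 1) (nat_lit 81) (nat_lit 1) (nat_lit 86) (nat_lit 1) (nat_lit 299) (nat_lit 224) (nat_lit 197)) (XT.lf (nat_lit 336) (nat_lit 568569580) (nat_lit 0) (nat_lit 220361231) (nat_lit 252) (nat_lit 220361231) (nat_lit 82) (nat_lit 1) (nat_lit 78) (nat_lit 1) (nat_lit 81) (nat_lit 1) (nat_lit 300) (nat_lit 224) (nat_lit 196))))) (XT.nd (nat_lit 282) (nat_lit 420) (nat_lit 0) (XT.nd (nat_lit 94) (nat_lit 588) (nat_lit 0) (XT.lf (nat_lit 84) (nat_lit 179619925) (nat_lit 0) (nat_lit 630577803) (nat_lit 336) (nat_lit 179619925)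 (nat_lit 79) (nat_lit 1) (nat_lit 78) (nat_lit 1) (nat_lit 82) (nat_lit 1) (nat_lit 301) (nat_lit 224) (nat_lit 195)) (XT.nd (nat_lit 94) (nat_lit 336) (nat_lit 0) (XT.lf (nat_lit 336) (nat_lit 149707593) (nat_lit 0) (nat_lit 410539354) (nat_lit 252) (nat_lit 410539354) (nat_lit 79) (nat_lit 1) (nat_lit 75) (nat_lit 1) (nat_lit 78) (nat_lit 1) (nat_lit 302) (nat_lit 224) (nat_lit 194)) (XT.lf (nat_lit 336) (nat_lit 901004398) (nat_lit 0) (nat_lit 25728796) (nat_lit 252) (nat_lit 25728796) (nat_lit 75) (nat_lit 1) (nat_lit 71) (nat_lit 1) (nat_lit 74) (nat_lit 1) (nat_lit 303) (nat_lit 224) (nat_lit 193)))) (XT.nd (nat_lit 188) (nat_lit 168) (nat_lit 0) (XT.nd (nat_lit 94) (nat_lit 252) (nat_lit 0) (XT.lf (nat_lit 84) (nat_lit 340824160) (nat_lit 0) (nat_lit 252547280) (nat_lit 336) (nat_lit 340824160) (nat_lit 72) (nat_lit 1) (nat_lit 71) (nat_lit 1) (nat_lit 75) (nat_lit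 1) (nat_lit 304) (nat_lit 224) (nat_lit 192)) (XT.lf (nat_lit 336) (nat_lit 468664428) (nat_lit 0) (nat_lit 223970321) (nat_lit 252) (nat_lit 223970321) (nat_lit 72) (nat_lit 1) (nat_lit 68) (nat_lit 1) (nat_lit 71) (nat_lit 1) (nat_lit 305) (nat_lit 224) (nat_lit 191))) (XT.nd (nat_lit 94) (nat_lit 168) (nat_lit 0) (XT.lf (nat_lit 84) (nat_lit 129069801) (nat_lit 0) (nat_lit 641346726) (nat_lit 336) (nat_lit 129069801) (nat_lit 69) (nat_lit 1) (nat_lit 68) (nat_lit 1) (nat_lit 72) (nat_lit 1) (nat_lit 306) (nat_lit 224) (nat_lit 190)) (XT.lf (nat_lit 252) (nat_lit 47295466) (nat_lit 0) (nat_lit 417697355) (nat_lit 168) (nat_lit 417697355) (nat_lit 69) (nat_lit 1) (nat_lit 66) (nat_lit 1) (nat_lit 68) (nat_lit 1) (nat_lit 307) (nat_lit 224) (nat_lit 189))))))))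
noncomputable def ec8 : XT := (XT.nd (nat_lit 43240) (nat_lit 0) (nat_lit 252) (XT.nd (nat_lit 41924) (nat_lit 0) (nat_lit 4704) (XT.nd (nat_lit 564) (nat_lit 420) (nat_lit 0) (XT.nd (nat_lit 282) (nat_lit 420) (nat_lit 0) (XT.nd (nat_lit 94) (nat_lit 168) (nat_lit 0) (XT.lf (nat_lit 336) (nat_lit 714618643) (nat_lit 0) (nat_lit 75897679) (nat_lit 252) (nat_lit 75897679) (nat_lit 66) (nat_lit 1) (nat_lit 62) (nat_lit 1) (nat_lit 65) (nat_lit 1) (nat_lit 308) (nat_lit 224) (nat_lit 188)) (XT.nd (nat_lit 94) (nat_lit 168) (nat_lit 0) (XT.lf (nat_lit 84) (nat_lit 249599329) (nat_lit 0) (nat_lit 351121202) (nat_lit 336) (nat_lit 249599329) (nat_lit 63) (nat_lit 1) (nat_lit 62) (nat_lit 1) (nat_lit 66) (nat_lit 1) (nat_lit 309) (nat_lit 224) (nat_lit 187)) (XT.lf (nat_lit 252) (nat_lit 288373522) (nat_lit 0) (nat_lit 273174453) (nat_lit 168) (nat_lit 273174453) (nat_lit 63) (nat_lit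 1) (nat_lit 60) (nat_lit 1) (nat_lit 62) (nat_lit 1) (nat_lit 310) (nat_lit 224) (nat_lit 186)))) (XT.nd (nat_lit 94) (nat_lit 420) (nat_lit 0) (XT.lf (nat_lit 84) (nat_lit 41430122) (nat_lit 0) (nat_lit 736782371) (nat_lit 252) (nat_lit 41430122) (nat_lit 61) (nat_lit 1) (nat_lit 60) (nat_lit 1) (nat_lit 63) (nat_lit 1) (nat_lit 311) (nat_lit 224) (nat_lit 185)) (XT.nd (nat_lit 94) (nat_lit 168) (nat_lit 0) (XT.lf (nat_lit 84) (nat_lit 341930065) (nat_lit 0) (nat_lit 120757486) (nat_lit 252) (nat_lit 341930065) (nat_lit 58) (nat_lit 1) (nat_lit 57) (nat_lit 1) (nat_lit 60) (nat_lit 1) (nat_lit 312) (nat_lit 224) (nat_lit 184)) (XT.lf (nat_lit 252) (nat_lit 474829824) (nat_lit 0) (nat_lit 157630636) (nat_lit 168) (nat_lit 157630636) (nat_lit 58) (nat_lit 1) (nat_lit 55) (nat_lit 1) (nat_lit 57) (nat_lit 1) (nat_lit 313) (nat_lit 224) (nat_lit 183))))) (XT.nd (nat_lit 282)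 (nat_lit 0) (nat_lit 0) (XT.nd (nat_lit 94) (nat_lit 420) (nat_lit 0) (XT.lf (nat_lit 84) (nat_lit 133984623) (nat_lit 0) (nat_lit 507916399) (nat_lit 252) (nat_lit 133984623) (nat_lit 56) (nat_lit 1) (nat_lit 55) (nat_lit 1) (nat_lit 58) (nat_lit 1) (nat_lit 314) (nat_lit 224) (nat_lit 182)) (XT.nd (nat_lit 94) (nat_lit 252) (nat_lit 0) (XT.lf (nat_lit 252) (nat_lit 62766972) (nat_lit 0) (nat_lit 349599783) (nat_lit 168) (nat_lit 349599783) (nat_lit 56) (nat_lit 1) (nat_lit 53) (nat_lit 1) (nat_lit 55) (nat_lit 1) (nat_lit 315) (nat_lit 224) (nat_lit 181)) (XT.lf (nat_lit 252) (nat_lit 616914352) (nat_lit 0) (nat_lit 65768198) (nat_lit 168) (nat_lit 65768198) (nat_lit 53) (nat_lit 1) (nat_lit 50) (nat_lit 1) (nat_lit 52) (nat_lit 1) (nat_lit 316) (nat_lit 224) (nat_lit 180)))) (XT.nd (nat_lit 40890) (nat_lit 0) (nat_lit 6552) (XT.nd (nat_lit 40796) (nat_lit 0) (nat_lit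 6552) (XT.lf (nat_lit 84) (nat_lit 205372299) (nat_lit 0) (nat_lit 324305716) (nat_lit 252) (nat_lit 205372299) (nat_lit 51) (nat_lit 1) (nat_lit 50) (nat_lit 1) (nat_lit 53) (nat_lit 1) (nat_lit 317) (nat_lit 224) (nat_lit 179)) (XT.lf (nat_lit 924) (nat_lit 258470029) (nat_lit 0) (nat_lit 458912943) (nat_lit 924) (nat_lit 258470029) (nat_lit 139) (nat_lit 1) (nat_lit 128) (nat_lit 0) (nat_lit 139) (nat_lit 0) (nat_lit 270) (nat_lit 225) (nat_lit 225))) (XT.nd (nat_lit 94) (nat_lit 0) (nat_lit 84) (XT.lf (nat_lit 924) (nat_lit 1001862104) (nat_lit 84) (nat_lit 451511122) (nat_lit 0) (nat_lit 451511122) (nat_lit 139) (nat_lit 1) (nat_lit 129) (nat_lit 1) (nat_lit 128) (nat_lit 0) (nat_lit 271) (nat_lit 225) (nat_lit 224)) (XT.lf (nat_lit 924) (nat_lit 477472393) (nat_lit 0) (nat_lit 904565411) (nat_lit 840) (nat_lit 477472393) (nat_lit 140) (nat_lit 1) (nat_lit 129) (nat_lit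 1) (nat_lit 139) (nat_lit 1) (nat_lit 272) (nat_lit 225) (nat_lit 223)))))) (XT.nd (nat_lit 658) (nat_lit 1932) (nat_lit 0) (XT.nd (nat_lit 282) (nat_lit 0) (nat_lit 168) (XT.nd (nat_lit 94) (nat_lit 0) (nat_lit 84) (XT.lf (nat_lit 924) (nat_lit 895671864) (nat_lit 84) (nat_lit 459965054) (nat_lit 0) (nat_lit 459965054) (nat_lit 140) (nat_lit 1) (nat_lit 130) (nat_lit 1) (nat_lit 129) (nat_lit 1) (nat_lit 273) (nat_lit 225) (nat_lit 222)) (XT.nd (nat_lit 94) (nat_lit 0) (nat_lit 0) (XT.lf (nat_lit 924) (nat_lit 412269157) (nat_lit 0) (nat_lit 948547101) (nat_lit 840) (nat_lit 412269157) (nat_lit 141) (nat_lit 1) (nat_lit 130) (nat_lit 1) (nat_lit 140) (nat_lit 1) (nat_lit 274) (nat_lit 225) (nat_lit 221)) (XT.lf (nat_lit 924) (nat_lit 741492932) (nat_lit 84) (nat_lit 495185998) (nat_lit 0) (nat_lit 495185998) (nat_lit 141) (nat_lit 1) (nat_lit 131) (nat_lit 1) (nat_lit 130)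 (nat_lit 1) (nat_lit 275) (nat_lit 225) (nat_lit 220)))) (XT.nd (nat_lit 188) (nat_lit 0) (nat_lit 84) (XT.nd (nat_lit 94) (nat_lit 0) (nat_lit 0) (XT.lf (nat_lit 924) (nat_lit 325123234) (nat_lit 0) (nat_lit 1041782011) (nat_lit 840) (nat_lit 325123234) (nat_lit 142) (nat_lit 1) (nat_lit 131) (nat_lit 1) (nat_lit 141) (nat_lit 1) (nat_lit 276) (nat_lit 225) (nat_lit 219)) (XT.lf (nat_lit 924) (nat_lit 546542140) (nat_lit 84) (nat_lit 553373363) (nat_lit 0) (nat_lit 553373363) (nat_lit 142) (nat_lit 1) (nat_lit 132) (nat_lit 1) (nat_lit 131) (nat_lit 1) (nat_lit 277) (nat_lit 225) (nat_lit 218))) (XT.nd (nat_lit 94) (nat_lit 0) (nat_lit 0) (XT.lf (nat_lit 924) (nat_lit 219408202) (nat_lit 0) (nat_lit 1177150940) (nat_lit 840) (nat_lit 219408202) (nat_lit 143) (nat_lit 1) (nat_lit 132) (nat_lit 1) (nat_lit 142) (nat_lit 1) (nat_lit 278) (nat_lit 225) (nat_lit 217)) (XT.lf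 (nat_lit 924) (nat_lit 317234161) (nat_lit 84) (nat_lit 631142383) (nat_lit 0) (nat_lit 631142383) (nat_lit 143) (nat_lit 1) (nat_lit 133) (nat_lit 1) (nat_lit 132) (nat_lit 1) (nat_lit 279) (nat_lit 225) (nat_lit 216))))) (XT.nd (nat_lit 282) (nat_lit 840) (nat_lit 0) (XT.nd (nat_lit 94) (nat_lit 1428) (nat_lit 0) (XT.lf (nat_lit 84) (nat_lit 98120494) (nat_lit 0) (nat_lit 1348317515) (nat_lit 840) (nat_lit 98120494) (nat_lit 134) (nat_lit 1) (nat_lit 133) (nat_lit 1) (nat_lit 143) (nat_lit 1) (nat_lit 280) (nat_lit 225) (nat_lit 215)) (XT.nd (nat_lit 94) (nat_lit 588) (nat_lit 0) (XT.lf (nat_lit 924) (nat_lit 59262338) (nat_lit 0) (nat_lit 725482474) (nat_lit 840) (nat_lit 725482474) (nat_lit 134) (nat_lit 1) (nat_lit 123) (nat_lit 1) (nat_lit 133) (nat_lit 1) (nat_lit 281) (nat_lit 225) (nat_lit 214)) (XT.lf (nat_lit 588) (nat_lit 1406369925) (nat_lit 0) (nat_lit 35500540)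 (nat_lit 504) (nat_lit 35500540) (nat_lit 123) (nat_lit 1) (nat_lit 116) (nat_lit 1) (nat_lit 122) (nat_lit 1) (nat_lit 282) (nat_lit 225) (nat_lit 213)))) (XT.nd (nat_lit 188) (nat_lit 420) (nat_lit 0) (XT.nd (nat_lit 94) (nat_lit 420) (nat_lit 0) (XT.lf (nat_lit 84) (nat_lit 614862483) (nat_lit 0) (nat_lit 215212412) (nat_lit 588) (nat_lit 614862483) (nat_lit 117) (nat_lit 1) (nat_lit 116) (nat_lit 1) (nat_lit 123) (nat_lit 1) (nat_lit 283) (nat_lit 225) (nat_lit 212)) (XT.lf (nat_lit 504) (nat_lit 1058020505) (nat_lit 0) (nat_lit 177931206) (nat_lit 420) (nat_lit 177931206) (nat_lit 117) (nat_lit 1) (nat_lit 111) (nat_lit 1) (nat_lit 116) (nat_lit 1) (nat_lit 284) (nat_lit 225) (nat_lit 211))) (XT.nd (nat_lit 94) (nat_lit 420) (nat_lit 0) (XT.lf (nat_lit 84) (nat_lit 438573924) (nat_lit 0) (nat_lit 506333458) (nat_lit 504) (nat_lit 438573924) (nat_lit 112) (nat_lit 1)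 (nat_lit 111) (nat_lit 1) (nat_lit 117) (nat_lit 1) (nat_lit 285) (nat_lit 225) (nat_lit 210)) (XT.lf (nat_lit 504) (nat_lit 696721507) (nat_lit 0) (nat_lit 328708497) (nat_lit 420) (nat_lit 328708497) (nat_lit 112) (nat_lit 1) (nat_lit 106) (nat_lit 1) (nat_lit 111) (nat_lit 1) (nat_lit 286) (nat_lit 225) (nat_lit 209))))))) (XT.nd (nat_lit 1222) (nat_lit 2100) (nat_lit 0) (XT.nd (nat_lit 564) (nat_lit 1260) (nat_lit 0) (XT.nd (nat_lit 282) (nat_lit 756) (nat_lit 0) (XT.nd (nat_lit 94) (nat_lit 336) (nat_lit 0) (XT.lf (nat_lit 84) (nat_lit 256732615) (nat_lit 0) (nat_lit 812183854) (nat_lit 504) (nat_lit 256732615) (nat_lit 107) (nat_lit 1) (nat_lit 106) (nat_lit 1) (nat_lit 112) (nat_lit 1) (nat_lit 287) (nat_lit 225) (nat_lit 208)) (XT.nd (nat_lit 94) (nat_lit 0) (nat_lit 0) (XT.lf (nat_lit 420) (nat_lit 325835706) (nat_lit 0) (nat_lit 486028402) (nat_lit 336) (nat_lit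 486028402) (nat_lit 107) (nat_lit 1) (nat_lit 102) (nat_lit 1) (nat_lit 106) (nat_lit 1) (nat_lit 288) (nat_lit 225) (nat_lit 207)) (XT.lf (nat_lit 84) (nat_lit 70899675) (nat_lit 0) (nat_lit 1129403967) (nat_lit 420) (nat_lit 70899675) (nat_lit 103) (nat_lit 1) (nat_lit 102) (nat_lit 1) (nat_lit 107) (nat_lit 1) (nat_lit 289) (nat_lit 225) (nat_lit 206)))) (XT.nd (nat_lit 94) (nat_lit 336) (nat_lit 0) (XT.lf (nat_lit 84) (nat_lit 597421039) (nat_lit 0) (nat_lit 50035172) (nat_lit 420) (nat_lit 597421039) (nat_lit 98) (nat_lit 1) (nat_lit 97) (nat_lit 1) (nat_lit 102) (nat_lit 1) (nat_lit 290) (nat_lit 225) (nat_lit 205)) (XT.nd (nat_lit 94) (nat_lit 0) (nat_lit 0) (XT.lf (nat_lit 420) (nat_lit 988228612) (nat_lit 0) (nat_lit 115662565) (nat_lit 336) (nat_lit 115662565) (nat_lit 98) (nat_lit 1) (nat_lit 93) (nat_lit 1) (nat_lit 97) (nat_lit 1) (nat_lit 291) (nat_lit 225)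 (nat_lit 204)) (XT.lf (nat_lit 84) (nat_lit 387626707) (nat_lit 0) (nat_lit 419411252) (nat_lit 420) (nat_lit 387626707) (nat_lit 94) (nat_lit 1) (nat_lit 93) (nat_lit 1) (nat_lit 98) (nat_lit 1) (nat_lit 292) (nat_lit 225) (nat_lit 203))))) (XT.nd (nat_lit 282) (nat_lit 672) (nat_lit 0) (XT.nd (nat_lit 94) (nat_lit 252) (nat_lit 0) (XT.lf (nat_lit 420) (nat_lit 565655195) (nat_lit 0) (nat_lit 302491730) (nat_lit 336) (nat_lit 302491730) (nat_lit 94) (nat_lit 1) (nat_lit 89) (nat_lit 1) (nat_lit 93) (nat_lit 1) (nat_lit 293) (nat_lit 225) (nat_lit 202)) (XT.nd (nat_lit 94) (nat_lit 252) (nat_lit 0) (XT.lf (nat_lit 84) (nat_lit 178382403) (nat_lit 0) (nat_lit 790550359) (nat_lit 420) (nat_lit 178382403) (nat_lit 90) (nat_lit 1) (nat_lit 89) (nat_lit 1) (nat_lit 94) (nat_lit 1) (nat_lit 294) (nat_lit 225) (nat_lit 201)) (XT.lf (nat_lit 336) (nat_lit 145070769) (nat_lit 0)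 (nat_lit 489712185) (nat_lit 252) (nat_lit 489712185) (nat_lit 90) (nat_lit 1) (nat_lit 86) (nat_lit 1) (nat_lit 89) (nat_lit 1) (nat_lit 295) (nat_lit 225) (nat_lit 200)))) (XT.nd (nat_lit 188) (nat_lit 252) (nat_lit 0) (XT.nd (nat_lit 94) (nat_lit 0) (nat_lit 0) (XT.lf (nat_lit 420) (nat_lit 1044585286) (nat_lit 0) (nat_lit 28985237) (nat_lit 336) (nat_lit 28985237) (nat_lit 86) (nat_lit 1) (nat_lit 81) (nat_lit 1) (nat_lit 85) (nat_lit 1) (nat_lit 296) (nat_lit 225) (nat_lit 199)) (XT.lf (nat_lit 84) (nat_lit 408753945) (nat_lit 0) (nat_lit 263229924) (nat_lit 420) (nat_lit 408753945) (nat_lit 82) (nat_lit 1) (nat_lit 81) (nat_lit 1) (nat_lit 86) (nat_lit 1) (nat_lit 297) (nat_lit 225) (nat_lit 198))) (XT.nd (nat_lit 94) (nat_lit 0) (nat_lit 0) (XT.lf (nat_lit 336) (nat_lit 596998059) (nat_lit 0) (nat_lit 231379292) (nat_lit 252) (nat_lit 231379292) (nat_lit 82) (nat_lit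 1) (nat_lit 78) (nat_lit 1) (nat_lit 81) (nat_lit 1) (nat_lit 298) (nat_lit 225) (nat_lit 197)) (XT.lf (nat_lit 84) (nat_lit 188600921) (nat_lit 0) (nat_lit 662106693) (nat_lit 336) (nat_lit 188600921) (nat_lit 79) (nat_lit 1) (nat_lit 78) (nat_lit 1) (nat_lit 82) (nat_lit 1) (nat_lit 299) (nat_lit 225) (nat_lit 196)))))) (XT.nd (nat_lit 658) (nat_lit 756) (nat_lit 0) (XT.nd (nat_lit 282) (nat_lit 756) (nat_lit 0) (XT.nd (nat_lit 94) (nat_lit 336) (nat_lit 0) (XT.lf (nat_lit 336) (nat_lit 157192973) (nat_lit 0) (nat_lit 431066322) (nat_lit 252) (nat_lit 431066322) (nat_lit 79) (nat_lit 1) (nat_lit 75) (nat_lit 1) (nat_lit 78) (nat_lit 1) (nat_lit 300) (nat_lit 225) (nat_lit 195)) (XT.nd (nat_lit 94) (nat_lit 0) (nat_lit 0) (XT.lf (nat_lit 336) (nat_lit 946054617) (nat_lit 0) (nat_lit 27015236) (nat_lit 252) (nat_lit 27015236) (nat_lit 75) (nat_lit 1) (nat_lit 71) (nat_lit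 1) (nat_lit 74) (nat_lit 1) (nat_lit 301) (nat_lit 225) (nat_lit 194)) (XT.lf (nat_lit 84) (nat_lit 357865368) (nat_lit 0) (nat_lit 265174644) (nat_lit 336) (nat_lit 357865368) (nat_lit 72) (nat_lit 1) (nat_lit 71) (nat_lit 1) (nat_lit 75) (nat_lit 1) (nat_lit 302) (nat_lit 225) (nat_lit 193)))) (XT.nd (nat_lit 188) (nat_lit 504) (nat_lit 0) (XT.nd (nat_lit 94) (nat_lit 0) (nat_lit 0) (XT.lf (nat_lit 336) (nat_lit 492097650) (nat_lit 0) (nat_lit 235168838) (nat_lit 252) (nat_lit 235168838) (nat_lit 72) (nat_lit 1) (nat_lit 68) (nat_lit 1) (nat_lit 71) (nat_lit 1) (nat_lit 303) (nat_lit 225) (nat_lit 192)) (XT.lf (nat_lit 84) (nat_lit 135523291) (nat_lit 0) (nat_lit 673414062) (nat_lit 336) (nat_lit 135523291) (nat_lit 69) (nat_lit 1) (nat_lit 68) (nat_lit 1) (nat_lit 72) (nat_lit 1) (nat_lit 304) (nat_lit 225) (nat_lit 191))) (XT.nd (nat_lit 94) (nat_lit 336) (nat_lit 0)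 (XT.lf (nat_lit 252) (nat_lit 49660240) (nat_lit 0) (nat_lit 438582223) (nat_lit 168) (nat_lit 438582223) (nat_lit 69) (nat_lit 1) (nat_lit 66) (nat_lit 1) (nat_lit 68) (nat_lit 1) (nat_lit 305) (nat_lit 225) (nat_lit 190)) (XT.lf (nat_lit 336) (nat_lit 750349575) (nat_lit 0) (nat_lit 79692563) (nat_lit 252) (nat_lit 79692563) (nat_lit 66) (nat_lit 1) (nat_lit 62) (nat_lit 1) (nat_lit 65) (nat_lit 1) (nat_lit 306) (nat_lit 225) (nat_lit 189))))) (XT.nd (nat_lit 282) (nat_lit 588) (nat_lit 0) (XT.nd (nat_lit 94) (nat_lit 168) (nat_lit 0) (XT.lf (nat_lit 84) (nat_lit 262079295) (nat_lit 0) (nat_lit 368677263) (nat_lit 336) (nat_lit 262079295) (nat_lit 63) (nat_lit 1) (nat_lit 62) (nat_lit 1) (nat_lit 66) (nat_lit 1) (nat_lit 307) (nat_lit 225) (nat_lit 188)) (XT.nd (nat_lit 94) (nat_lit 0) (nat_lit 0) (XT.lf (nat_lit 252) (nat_lit 302792198) (nat_lit 0) (nat_lit 286833175)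 (nat_lit 168) (nat_lit 286833175) (nat_lit 63) (nat_lit 1) (nat_lit 60) (nat_lit 1) (nat_lit 62) (nat_lit 1) (nat_lit 308) (nat_lit 225) (nat_lit 187)) (XT.lf (nat_lit 84) (nat_lit 43501628) (nat_lit 0) (nat_lit 773621490) (nat_lit 252) (nat_lit 43501628) (nat_lit 61) (nat_lit 1) (nat_lit 60) (nat_lit 1) (nat_lit 63) (nat_lit 1) (nat_lit 309) (nat_lit 225) (nat_lit 186)))) (XT.nd (nat_lit 188) (nat_lit 168) (nat_lit 0) (XT.nd (nat_lit 94) (nat_lit 168) (nat_lit 0) (XT.lf (nat_lit 84) (nat_lit 359026569) (nat_lit 0) (nat_lit 126795360) (nat_lit 252) (nat_lit 359026569) (nat_lit 58) (nat_lit 1) (nat_lit 57) (nat_lit 1) (nat_lit 60) (nat_lit 1) (nat_lit 310) (nat_lit 225) (nat_lit 185)) (XT.lf (nat_lit 252) (nat_lit 498571316) (nat_lit 0) (nat_lit 165512168) (nat_lit 168) (nat_lit 165512168) (nat_lit 58) (nat_lit 1) (nat_lit 55) (nat_lit 1) (nat_lit 57) (nat_lit 1) (nat_lit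 311) (nat_lit 225) (nat_lit 184))) (XT.nd (nat_lit 94) (nat_lit 168) (nat_lit 0) (XT.lf (nat_lit 84) (nat_lit 140683854) (nat_lit 0) (nat_lit 533312219) (nat_lit 252) (nat_lit 140683854) (nat_lit 56) (nat_lit 1) (nat_lit 55) (nat_lit 1) (nat_lit 58) (nat_lit 1) (nat_lit 312) (nat_lit 225) (nat_lit 183)) (XT.lf (nat_lit 252) (nat_lit 65905320) (nat_lit 0) (nat_lit 367079773) (nat_lit 168) (nat_lit 367079773) (nat_lit 56) (nat_lit 1) (nat_lit 53) (nat_lit 1) (nat_lit 55) (nat_lit 1) (nat_lit 313) (nat_lit 225) (nat_lit 182))))))))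
noncomputable def ec9 : XT := (XT.nd (nat_lit 42958) (nat_lit 0) (nat_lit 0) (XT.nd (nat_lit 41642) (nat_lit 0) (nat_lit 3948) (XT.nd (nat_lit 40984) (nat_lit 0) (nat_lit 6888) (XT.nd (nat_lit 282) (nat_lit 168) (nat_lit 0) (XT.nd (nat_lit 94) (nat_lit 168) (nat_lit 0) (XT.lf (nat_lit 252) (nat_lit 647760069) (nat_lit 0) (nat_lit 69056608) (nat_lit 168) (nat_lit 69056608) (nat_lit 53) (nat_lit 1) (nat_lit 50) (nat_lit 1) (nat_lit 52) (nat_lit 1) (nat_lit 314) (nat_lit 225) (nat_lit 181)) (XT.nd (nat_lit 94) (nat_lit 168) (nat_lit 0) (XT.lf (nat_lit 84) (nat_lit 215640914) (nat_lit 0) (nat_lit 340521002) (nat_lit 252) (nat_lit 215640914) (nat_lit 51) (nat_lit 1) (nat_lit 50) (nat_lit 1) (nat_lit 53) (nat_lit 1) (nat_lit 315) (nat_lit 225) (nat_lit 180)) (XT.lf (nat_lit 252) (nat_lit 219619802) (nat_lit 0) (nat_lit 269260529) (nat_lit 168) (nat_lit 269260529) (nat_lit 51)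 (nat_lit 1) (nat_lit 48) (nat_lit 1) (nat_lit 50) (nat_lit 1) (nat_lit 316) (nat_lit 225) (nat_lit 179)))) (XT.nd (nat_lit 94) (nat_lit 168) (nat_lit 0) (XT.lf (nat_lit 84) (nat_lit 7218297) (nat_lit 0) (nat_lit 730521421) (nat_lit 252) (nat_lit 7218297) (nat_lit 49) (nat_lit 1) (nat_lit 48) (nat_lit 1) (nat_lit 51) (nat_lit 1) (nat_lit 317) (nat_lit 225) (nat_lit 178)) (XT.nd (nat_lit 40514) (nat_lit 0) (nat_lit 6888) (XT.lf (nat_lit 84) (nat_lit 272551132) (nat_lit 0) (nat_lit 186589109) (nat_lit 168) (nat_lit 272551132) (nat_lit 47) (nat_lit 1) (nat_lit 46) (nat_lit 1) (nat_lit 48) (nat_lit 1) (nat_lit 318) (nat_lit 225) (nat_lit 177)) (XT.lf (nat_lit 924) (nat_lit 271393531) (nat_lit 0) (nat_lit 481858591) (nat_lit 924) (nat_lit 271393531) (nat_lit 139) (nat_lit 1) (nat_lit 128) (nat_lit 0) (nat_lit 139) (nat_lit 0) (nat_lit 268) (nat_lit 226) (nat_lit 226))))) (XT.nd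 (nat_lit 282) (nat_lit 0) (nat_lit 168) (XT.nd (nat_lit 94) (nat_lit 0) (nat_lit 84) (XT.lf (nat_lit 924) (nat_lit 1051955209) (nat_lit 84) (nat_lit 474086678) (nat_lit 0) (nat_lit 474086678) (nat_lit 139) (nat_lit 1) (nat_lit 129) (nat_lit 1) (nat_lit 128) (nat_lit 0) (nat_lit 269) (nat_lit 226) (nat_lit 225)) (XT.nd (nat_lit 94) (nat_lit 0) (nat_lit 0) (XT.lf (nat_lit 924) (nat_lit 501346013) (nat_lit 0) (nat_lit 949793682) (nat_lit 840) (nat_lit 501346013) (nat_lit 140) (nat_lit 1) (nat_lit 129) (nat_lit 1) (nat_lit 139) (nat_lit 1) (nat_lit 270) (nat_lit 226) (nat_lit 224)) (XT.lf (nat_lit 924) (nat_lit 940455457) (nat_lit 84) (nat_lit 482963306) (nat_lit 0) (nat_lit 482963306) (nat_lit 140) (nat_lit 1) (nat_lit 130) (nat_lit 1) (nat_lit 129) (nat_lit 1) (nat_lit 271) (nat_lit 226) (nat_lit 223)))) (XT.nd (nat_lit 188) (nat_lit 0) (nat_lit 84) (XT.nd (nat_lit 94) (nat_lit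 0) (nat_lit 0) (XT.lf (nat_lit 924) (nat_lit 432882615) (nat_lit 0) (nat_lit 995974456) (nat_lit 840) (nat_lit 432882615) (nat_lit 141) (nat_lit 1) (nat_lit 130) (nat_lit 1) (nat_lit 140) (nat_lit 1) (nat_lit 272) (nat_lit 226) (nat_lit 222)) (XT.lf (nat_lit 924) (nat_lit 778567579) (nat_lit 84) (nat_lit 519945297) (nat_lit 0) (nat_lit 519945297) (nat_lit 141) (nat_lit 1) (nat_lit 131) (nat_lit 1) (nat_lit 130) (nat_lit 1) (nat_lit 273) (nat_lit 226) (nat_lit 221))) (XT.nd (nat_lit 94) (nat_lit 0) (nat_lit 0) (XT.lf (nat_lit 924) (nat_lit 341379396) (nat_lit 0) (nat_lit 1093871112) (nat_lit 840) (nat_lit 341379396) (nat_lit 142) (nat_lit 1) (nat_lit 131) (nat_lit 1) (nat_lit 141) (nat_lit 1) (nat_lit 274) (nat_lit 226) (nat_lit 220)) (XT.lf (nat_lit 924) (nat_lit 573869247) (nat_lit 84) (nat_lit 581042032) (nat_lit 0) (nat_lit 581042032) (nat_lit 142) (nat_lit 1) (nat_lit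 132) (nat_lit 1) (nat_lit 131) (nat_lit 1) (nat_lit 275) (nat_lit 226) (nat_lit 219)))))) (XT.nd (nat_lit 658) (nat_lit 1512) (nat_lit 0) (XT.nd (nat_lit 282) (nat_lit 1764) (nat_lit 0) (XT.nd (nat_lit 94) (nat_lit 0) (nat_lit 0) (XT.lf (nat_lit 924) (nat_lit 230378612) (nat_lit 0) (nat_lit 1236008487) (nat_lit 840) (nat_lit 230378612) (nat_lit 143) (nat_lit 1) (nat_lit 132) (nat_lit 1) (nat_lit 142) (nat_lit 1) (nat_lit 276) (nat_lit 226) (nat_lit 218)) (XT.nd (nat_lit 94) (nat_lit 0) (nat_lit 84) (XT.lf (nat_lit 924) (nat_lit 333095869) (nat_lit 84) (nat_lit 662699502) (nat_lit 0) (nat_lit 662699502) (nat_lit 143) (nat_lit 1) (nat_lit 133) (nat_lit 1) (nat_lit 132) (nat_lit 1) (nat_lit 277) (nat_lit 226) (nat_lit 217)) (XT.lf (nat_lit 84) (nat_lit 103026518) (nat_lit 0) (nat_lit 1415733391) (nat_lit 840) (nat_lit 103026518) (nat_lit 134) (nat_lit 1) (nat_lit 133) (nat_lit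 1) (nat_lit 143) (nat_lit 1) (nat_lit 278) (nat_lit 226) (nat_lit 216)))) (XT.nd (nat_lit 188) (nat_lit 420) (nat_lit 0) (XT.nd (nat_lit 94) (nat_lit 588) (nat_lit 0) (XT.lf (nat_lit 924) (nat_lit 62225455) (nat_lit 0) (nat_lit 761756598) (nat_lit 840) (nat_lit 761756598) (nat_lit 134) (nat_lit 1) (nat_lit 123) (nat_lit 1) (nat_lit 133) (nat_lit 1) (nat_lit 279) (nat_lit 226) (nat_lit 215)) (XT.lf (nat_lit 588) (nat_lit 1476688421) (nat_lit 0) (nat_lit 37275567) (nat_lit 504) (nat_lit 37275567) (nat_lit 123) (nat_lit 1) (nat_lit 116) (nat_lit 1) (nat_lit 122) (nat_lit 1) (nat_lit 280) (nat_lit 226) (nat_lit 214))) (XT.nd (nat_lit 94) (nat_lit 420) (nat_lit 0) (XT.lf (nat_lit 84) (nat_lit 645605607) (nat_lit 0) (nat_lit 225973032) (nat_lit 588) (nat_lit 645605607) (nat_lit 117) (nat_lit 1) (nat_lit 116) (nat_lit 1) (nat_lit 123) (nat_lit 1) (nat_lit 281) (nat_lit 226) (nat_lit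 213)) (XT.lf (nat_lit 504) (nat_lit 1110921531) (nat_lit 0) (nat_lit 186827766) (nat_lit 420) (nat_lit 186827766) (nat_lit 117) (nat_lit 1) (nat_lit 111) (nat_lit 1) (nat_lit 116) (nat_lit 1) (nat_lit 282) (nat_lit 226) (nat_lit 212))))) (XT.nd (nat_lit 282) (nat_lit 1092) (nat_lit 0) (XT.nd (nat_lit 94) (nat_lit 420) (nat_lit 0) (XT.lf (nat_lit 84) (nat_lit 460502620) (nat_lit 0) (nat_lit 531650131) (nat_lit 504) (nat_lit 460502620) (nat_lit 112) (nat_lit 1) (nat_lit 111) (nat_lit 1) (nat_lit 117) (nat_lit 1) (nat_lit 283) (nat_lit 226) (nat_lit 211)) (XT.nd (nat_lit 94) (nat_lit 0) (nat_lit 0) (XT.lf (nat_lit 504) (nat_lit 731557582) (nat_lit 0) (nat_lit 345143922) (nat_lit 420) (nat_lit 345143922) (nat_lit 112) (nat_lit 1) (nat_lit 106) (nat_lit 1) (nat_lit 111) (nat_lit 1) (nat_lit 284) (nat_lit 226) (nat_lit 210)) (XT.lf (nat_lit 84) (nat_lit 269569246) (nat_lit 0)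 (nat_lit 852793047) (nat_lit 504) (nat_lit 269569246) (nat_lit 107) (nat_lit 1) (nat_lit 106) (nat_lit 1) (nat_lit 112) (nat_lit 1) (nat_lit 285) (nat_lit 226) (nat_lit 209)))) (XT.nd (nat_lit 188) (nat_lit 756) (nat_lit 0) (XT.nd (nat_lit 94) (nat_lit 0) (nat_lit 0) (XT.lf (nat_lit 420) (nat_lit 342127491) (nat_lit 0) (nat_lit 510329823) (nat_lit 336) (nat_lit 510329823) (nat_lit 107) (nat_lit 1) (nat_lit 102) (nat_lit 1) (nat_lit 106) (nat_lit 1) (nat_lit 286) (nat_lit 226) (nat_lit 208)) (XT.lf (nat_lit 84) (nat_lit 74444659) (nat_lit 0) (nat_lit 1185874166) (nat_lit 420) (nat_lit 74444659) (nat_lit 103) (nat_lit 1) (nat_lit 102) (nat_lit 1) (nat_lit 107) (nat_lit 1) (nat_lit 287) (nat_lit 226) (nat_lit 207))) (XT.nd (nat_lit 94) (nat_lit 336) (nat_lit 0) (XT.lf (nat_lit 84) (nat_lit 627292090) (nat_lit 0) (nat_lit 52536931) (nat_lit 420) (nat_lit 627292090) (nat_lit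 98) (nat_lit 1) (nat_lit 97) (nat_lit 1) (nat_lit 102) (nat_lit 1) (nat_lit 288) (nat_lit 226) (nat_lit 206)) (XT.lf (nat_lit 420) (nat_lit 1037640043) (nat_lit 0) (nat_lit 121445693) (nat_lit 336) (nat_lit 121445693) (nat_lit 98) (nat_lit 1) (nat_lit 93) (nat_lit 1) (nat_lit 97) (nat_lit 1) (nat_lit 289) (nat_lit 226) (nat_lit 205))))))) (XT.nd (nat_lit 1222) (nat_lit 1848) (nat_lit 0) (XT.nd (nat_lit 564) (nat_lit 1092) (nat_lit 0) (XT.nd (nat_lit 282) (nat_lit 672) (nat_lit 0) (XT.nd (nat_lit 94) (nat_lit 336) (nat_lit 0) (XT.lf (nat_lit 84) (nat_lit 407008042) (nat_lit 0) (nat_lit 440381814) (nat_lit 420) (nat_lit 407008042) (nat_lit 94) (nat_lit 1) (nat_lit 93) (nat_lit 1) (nat_lit 98) (nat_lit 1) (nat_lit 290) (nat_lit 226) (nat_lit 204)) (XT.nd (nat_lit 94) (nat_lit 0) (nat_lit 0) (XT.lf (nat_lit 420) (nat_lit 593937955) (nat_lit 0) (nat_lit 317616316) (nat_lit 336)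 (nat_lit 317616316) (nat_lit 94) (nat_lit 1) (nat_lit 89) (nat_lit 1) (nat_lit 93) (nat_lit 1) (nat_lit 291) (nat_lit 226) (nat_lit 203)) (XT.lf (nat_lit 84) (nat_lit 187301524) (nat_lit 0) (nat_lit 830077877) (nat_lit 420) (nat_lit 187301524) (nat_lit 90) (nat_lit 1) (nat_lit 89) (nat_lit 1) (nat_lit 94) (nat_lit 1) (nat_lit 292) (nat_lit 226) (nat_lit 202)))) (XT.nd (nat_lit 94) (nat_lit 420) (nat_lit 0) (XT.lf (nat_lit 336) (nat_lit 152324307) (nat_lit 0) (nat_lit 514197794) (nat_lit 252) (nat_lit 514197794) (nat_lit 90) (nat_lit 1) (nat_lit 86) (nat_lit 1) (nat_lit 89) (nat_lit 1) (nat_lit 293) (nat_lit 226) (nat_lit 201)) (XT.nd (nat_lit 94) (nat_lit 0) (nat_lit 0) (XT.lf (nat_lit 420) (nat_lit 1096814551) (nat_lit 0) (nat_lit 30434499) (nat_lit 336) (nat_lit 30434499) (nat_lit 86) (nat_lit 1) (nat_lit 81) (nat_lit 1) (nat_lit 85) (nat_lit 1) (nat_lit 294) (nat_lit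 226) (nat_lit 200)) (XT.lf (nat_lit 84) (nat_lit 429191642) (nat_lit 0) (nat_lit 276391420) (nat_lit 420) (nat_lit 429191642) (nat_lit 82) (nat_lit 1) (nat_lit 81) (nat_lit 1) (nat_lit 86) (nat_lit 1) (nat_lit 295) (nat_lit 226) (nat_lit 199))))) (XT.nd (nat_lit 282) (nat_lit 588) (nat_lit 0) (XT.nd (nat_lit 94) (nat_lit 252) (nat_lit 0) (XT.lf (nat_lit 336) (nat_lit 626847962) (nat_lit 0) (nat_lit 242948257) (nat_lit 252) (nat_lit 242948257) (nat_lit 82) (nat_lit 1) (nat_lit 78) (nat_lit 1) (nat_lit 81) (nat_lit 1) (nat_lit 296) (nat_lit 226) (nat_lit 198)) (XT.nd (nat_lit 94) (nat_lit 252) (nat_lit 0) (XT.lf (nat_lit 84) (nat_lit 198030967) (nat_lit 0) (nat_lit 695212028) (nat_lit 336) (nat_lit 198030967) (nat_lit 79) (nat_lit 1) (nat_lit 78) (nat_lit 1) (nat_lit 82) (nat_lit 1) (nat_lit 297) (nat_lit 226) (nat_lit 197)) (XT.lf (nat_lit 336) (nat_lit 165052621) (nat_lit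 0) (nat_lit 452619638) (nat_lit 252) (nat_lit 452619638) (nat_lit 79) (nat_lit 1) (nat_lit 75) (nat_lit 1) (nat_lit 78) (nat_lit 1) (nat_lit 298) (nat_lit 226) (nat_lit 196)))) (XT.nd (nat_lit 188) (nat_lit 252) (nat_lit 0) (XT.nd (nat_lit 94) (nat_lit 0) (nat_lit 0) (XT.lf (nat_lit 336) (nat_lit 993357348) (nat_lit 0) (nat_lit 28365998) (nat_lit 252) (nat_lit 28365998) (nat_lit 75) (nat_lit 1) (nat_lit 71) (nat_lit 1) (nat_lit 74) (nat_lit 1) (nat_lit 299) (nat_lit 226) (nat_lit 195)) (XT.lf (nat_lit 84) (nat_lit 375758637) (nat_lit 0) (nat_lit 278433377) (nat_lit 336) (nat_lit 375758637) (nat_lit 72) (nat_lit 1) (nat_lit 71) (nat_lit 1) (nat_lit 75) (nat_lit 1) (nat_lit 300) (nat_lit 226) (nat_lit 194))) (XT.nd (nat_lit 94) (nat_lit 0) (nat_lit 0) (XT.lf (nat_lit 336) (nat_lit 516702532) (nat_lit 0) (nat_lit 246927279) (nat_lit 252) (nat_lit 246927279) (nat_lit 72) (nat_lit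 1) (nat_lit 68) (nat_lit 1) (nat_lit 71) (nat_lit 1) (nat_lit 301) (nat_lit 226) (nat_lit 193)) (XT.lf (nat_lit 84) (nat_lit 142299456) (nat_lit 0) (nat_lit 707084765) (nat_lit 336) (nat_lit 142299456) (nat_lit 69) (nat_lit 1) (nat_lit 68) (nat_lit 1) (nat_lit 72) (nat_lit 1) (nat_lit 302) (nat_lit 226) (nat_lit 192)))))) (XT.nd (nat_lit 658) (nat_lit 756) (nat_lit 0) (XT.nd (nat_lit 282) (nat_lit 588) (nat_lit 0) (XT.nd (nat_lit 94) (nat_lit 336) (nat_lit 0) (XT.lf (nat_lit 252) (nat_lit 52143252) (nat_lit 0) (nat_lit 460511334) (nat_lit 168) (nat_lit 460511334) (nat_lit 69) (nat_lit 1) (nat_lit 66) (nat_lit 1) (nat_lit 68) (nat_lit 1) (nat_lit 303) (nat_lit 226) (nat_lit 191)) (XT.nd (nat_lit 94) (nat_lit 0) (nat_lit 0) (XT.lf (nat_lit 336) (nat_lit 787867054) (nat_lit 0) (nat_lit 83677191) (nat_lit 252) (nat_lit 83677191) (nat_lit 66) (nat_lit 1) (nat_lit 62) (nat_lit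 1) (nat_lit 65) (nat_lit 1) (nat_lit 304) (nat_lit 226) (nat_lit 190)) (XT.lf (nat_lit 84) (nat_lit 275183260) (nat_lit 0) (nat_lit 387111126) (nat_lit 336) (nat_lit 275183260) (nat_lit 63) (nat_lit 1) (nat_lit 62) (nat_lit 1) (nat_lit 66) (nat_lit 1) (nat_lit 305) (nat_lit 226) (nat_lit 189)))) (XT.nd (nat_lit 188) (nat_lit 420) (nat_lit 0) (XT.nd (nat_lit 94) (nat_lit 0) (nat_lit 0) (XT.lf (nat_lit 252) (nat_lit 317931808) (nat_lit 0) (nat_lit 301174834) (nat_lit 168) (nat_lit 301174834) (nat_lit 63) (nat_lit 1) (nat_lit 60) (nat_lit 1) (nat_lit 62) (nat_lit 1) (nat_lit 306) (nat_lit 226) (nat_lit 188)) (XT.lf (nat_lit 84) (nat_lit 45676709) (nat_lit 0) (nat_lit 812302564) (nat_lit 252) (nat_lit 45676709) (nat_lit 61) (nat_lit 1) (nat_lit 60) (nat_lit 1) (nat_lit 63) (nat_lit 1) (nat_lit 307) (nat_lit 226) (nat_lit 187))) (XT.nd (nat_lit 94) (nat_lit 168) (nat_lit 0) (XT.lf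 (nat_lit 84) (nat_lit 376977897) (nat_lit 0) (nat_lit 133135128) (nat_lit 252) (nat_lit 376977897) (nat_lit 58) (nat_lit 1) (nat_lit 57) (nat_lit 1) (nat_lit 60) (nat_lit 1) (nat_lit 308) (nat_lit 226) (nat_lit 186)) (XT.lf (nat_lit 252) (nat_lit 523499881) (nat_lit 0) (nat_lit 173787777) (nat_lit 168) (nat_lit 173787777) (nat_lit 58) (nat_lit 1) (nat_lit 55) (nat_lit 1) (nat_lit 57) (nat_lit 1) (nat_lit 309) (nat_lit 226) (nat_lit 185))))) (XT.nd (nat_lit 282) (nat_lit 336) (nat_lit 0) (XT.nd (nat_lit 94) (nat_lit 420) (nat_lit 0) (XT.lf (nat_lit 84) (nat_lit 147718047) (nat_lit 0) (nat_lit 559977830) (nat_lit 252) (nat_lit 147718047) (nat_lit 56) (nat_lit 1) (nat_lit 55) (nat_lit 1) (nat_lit 58) (nat_lit 1) (nat_lit 310) (nat_lit 226) (nat_lit 184)) (XT.nd (nat_lit 94) (nat_lit 252) (nat_lit 0) (XT.lf (nat_lit 252) (nat_lit 69200586) (nat_lit 0) (nat_lit 385433761) (nat_lit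 168) (nat_lit 385433761) (nat_lit 56) (nat_lit 1) (nat_lit 53) (nat_lit 1) (nat_lit 55) (nat_lit 1) (nat_lit 311) (nat_lit 226) (nat_lit 183)) (XT.lf (nat_lit 252) (nat_lit 680148073) (nat_lit 0) (nat_lit 72509439) (nat_lit 168) (nat_lit 72509439) (nat_lit 53) (nat_lit 1) (nat_lit 50) (nat_lit 1) (nat_lit 52) (nat_lit 1) (nat_lit 312) (nat_lit 226) (nat_lit 182)))) (XT.nd (nat_lit 188) (nat_lit 168) (nat_lit 0) (XT.nd (nat_lit 94) (nat_lit 168) (nat_lit 0) (XT.lf (nat_lit 84) (nat_lit 226422960) (nat_lit 0) (nat_lit 357547052) (nat_lit 252) (nat_lit 226422960) (nat_lit 51) (nat_lit 1) (nat_lit 50) (nat_lit 1) (nat_lit 53) (nat_lit 1) (nat_lit 313) (nat_lit 226) (nat_lit 181)) (XT.lf (nat_lit 252) (nat_lit 230600792) (nat_lit 0) (nat_lit 282723556) (nat_lit 168) (nat_lit 282723556) (nat_lit 51) (nat_lit 1) (nat_lit 48) (nat_lit 1) (nat_lit 50) (nat_lit 1) (nat_lit 314) (nat_lit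 226) (nat_lit 180))) (XT.nd (nat_lit 94) (nat_lit 168) (nat_lit 0) (XT.lf (nat_lit 84) (nat_lit 7579212) (nat_lit 0) (nat_lit 767047493) (nat_lit 252) (nat_lit 7579212) (nat_lit 49) (nat_lit 1) (nat_lit 48) (nat_lit 1) (nat_lit 51) (nat_lit 1) (nat_lit 315) (nat_lit 226) (nat_lit 179)) (XT.lf (nat_lit 84) (nat_lit 286178689) (nat_lit 0) (nat_lit 195918564) (nat_lit 168) (nat_lit 286178689) (nat_lit 47) (nat_lit 1) (nat_lit 46) (nat_lit 1) (nat_lit 48) (nat_lit 1) (nat_lit 316) (nat_lit 226) (nat_lit 178))))))))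
noncomputable def ec10 : XT := (XT.nd (nat_lit 42676) (nat_lit 0) (nat_lit 168) (XT.nd (nat_lit 41360) (nat_lit 0) (nat_lit 3948) (XT.nd (nat_lit 40702) (nat_lit 0) (nat_lit 7308) (XT.nd (nat_lit 40420) (nat_lit 0) (nat_lit 7224) (XT.nd (nat_lit 94) (nat_lit 168) (nat_lit 0) (XT.lf (nat_lit 252) (nat_lit 355115174) (nat_lit 0) (nat_lit 199860460) (nat_lit 168) (nat_lit 199860460) (nat_lit 47) (nat_lit 1) (nat_lit 44) (nat_lit 1) (nat_lit 46) (nat_lit 1) (nat_lit 317) (nat_lit 226) (nat_lit 177)) (XT.nd (nat_lit 94) (nat_lit 168) (nat_lit 0) (XT.lf (nat_lit 84) (nat_lit 71198138) (nat_lit 0) (nat_lit 599362748) (nat_lit 252) (nat_lit 71198138) (nat_lit 45) (nat_lit 1) (nat_lit 44) (nat_lit 1) (nat_lit 47) (nat_lit 1) (nat_lit 318) (nat_lit 226) (nat_lit 176)) (XT.lf (nat_lit 84) (nat_lit 330582734) (nat_lit 0) (nat_lit 67624325) (nat_lit 168) (nat_lit 330582734) (nat_lit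 43) (nat_lit 1) (nat_lit 42) (nat_lit 1) (nat_lit 44) (nat_lit 1) (nat_lit 319) (nat_lit 226) (nat_lit 175)))) (XT.nd (nat_lit 94) (nat_lit 0) (nat_lit 0) (XT.lf (nat_lit 924) (nat_lit 284963207) (nat_lit 0) (nat_lit 505951520) (nat_lit 924) (nat_lit 284963207) (nat_lit 139) (nat_lit 1) (nat_lit 128) (nat_lit 0) (nat_lit 139) (nat_lit 0) (nat_lit 266) (nat_lit 227) (nat_lit 227)) (XT.nd (nat_lit 94) (nat_lit 0) (nat_lit 84) (XT.lf (nat_lit 924) (nat_lit 1104552969) (nat_lit 84) (nat_lit 497791012) (nat_lit 0) (nat_lit 497791012) (nat_lit 139) (nat_lit 1) (nat_lit 129) (nat_lit 1) (nat_lit 128) (nat_lit 0) (nat_lit 267) (nat_lit 227) (nat_lit 226)) (XT.lf (nat_lit 924) (nat_lit 526413314) (nat_lit 0) (nat_lit 997283366) (nat_lit 840) (nat_lit 526413314) (nat_lit 140) (nat_lit 1) (nat_lit 129) (nat_lit 1) (nat_lit 139) (nat_lit 1) (nat_lit 268) (nat_lit 227) (nat_lit 225)))))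 (XT.nd (nat_lit 282) (nat_lit 0) (nat_lit 168) (XT.nd (nat_lit 94) (nat_lit 0) (nat_lit 84) (XT.lf (nat_lit 924) (nat_lit 987478230) (nat_lit 84) (nat_lit 507111472) (nat_lit 0) (nat_lit 507111472) (nat_lit 140) (nat_lit 1) (nat_lit 130) (nat_lit 1) (nat_lit 129) (nat_lit 1) (nat_lit 269) (nat_lit 227) (nat_lit 224)) (XT.nd (nat_lit 94) (nat_lit 0) (nat_lit 0) (XT.lf (nat_lit 924) (nat_lit 454526746) (nat_lit 0) (nat_lit 1045773179) (nat_lit 840) (nat_lit 454526746) (nat_lit 141) (nat_lit 1) (nat_lit 130) (nat_lit 1) (nat_lit 140) (nat_lit 1) (nat_lit 270) (nat_lit 227) (nat_lit 223)) (XT.lf (nat_lit 924) (nat_lit 817495958) (nat_lit 84) (nat_lit 545942562) (nat_lit 0) (nat_lit 545942562) (nat_lit 141) (nat_lit 1) (nat_lit 131) (nat_lit 1) (nat_lit 130) (nat_lit 1) (nat_lit 271) (nat_lit 227) (nat_lit 222)))) (XT.nd (nat_lit 188) (nat_lit 0) (nat_lit 84) (XT.nd (nat_lit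 94) (nat_lit 0) (nat_lit 0) (XT.lf (nat_lit 924) (nat_lit 358448366) (nat_lit 0) (nat_lit 1148564668) (nat_lit 840) (nat_lit 358448366) (nat_lit 142) (nat_lit 1) (nat_lit 131) (nat_lit 1) (nat_lit 141) (nat_lit 1) (nat_lit 272) (nat_lit 227) (nat_lit 221)) (XT.lf (nat_lit 924) (nat_lit 602562709) (nat_lit 84) (nat_lit 610094133) (nat_lit 0) (nat_lit 610094133) (nat_lit 142) (nat_lit 1) (nat_lit 132) (nat_lit 1) (nat_lit 131) (nat_lit 1) (nat_lit 273) (nat_lit 227) (nat_lit 220))) (XT.nd (nat_lit 94) (nat_lit 0) (nat_lit 0) (XT.lf (nat_lit 924) (nat_lit 241897543) (nat_lit 0) (nat_lit 1297808911) (nat_lit 840) (nat_lit 241897543) (nat_lit 143) (nat_lit 1) (nat_lit 132) (nat_lit 1) (nat_lit 142) (nat_lit 1) (nat_lit 274) (nat_lit 227) (nat_lit 219)) (XT.lf (nat_lit 924) (nat_lit 349750663) (nat_lit 84) (nat_lit 695834477) (nat_lit 0) (nat_lit 695834477) (nat_lit 143) (nat_lit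 1) (nat_lit 133) (nat_lit 1) (nat_lit 132) (nat_lit 1) (nat_lit 275) (nat_lit 227) (nat_lit 218)))))) (XT.nd (nat_lit 658) (nat_lit 1428) (nat_lit 0) (XT.nd (nat_lit 282) (nat_lit 840) (nat_lit 0) (XT.nd (nat_lit 94) (nat_lit 1428) (nat_lit 0) (XT.lf (nat_lit 84) (nat_lit 108177844) (nat_lit 0) (nat_lit 1486520060) (nat_lit 840) (nat_lit 108177844) (nat_lit 134) (nat_lit 1) (nat_lit 133) (nat_lit 1) (nat_lit 143) (nat_lit 1) (nat_lit 276) (nat_lit 227) (nat_lit 217)) (XT.nd (nat_lit 94) (nat_lit 588) (nat_lit 0) (XT.lf (nat_lit 924) (nat_lit 65336728) (nat_lit 0) (nat_lit 799844428) (nat_lit 840) (nat_lit 799844428) (nat_lit 134) (nat_lit 1) (nat_lit 123) (nat_lit 1) (nat_lit 133) (nat_lit 1) (nat_lit 277) (nat_lit 227) (nat_lit 216)) (XT.lf (nat_lit 588) (nat_lit 1550522842) (nat_lit 0) (nat_lit 39139345) (nat_lit 504) (nat_lit 39139345) (nat_lit 123) (nat_lit 1) (nat_lit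 116) (nat_lit 1) (nat_lit 122) (nat_lit 1) (nat_lit 278) (nat_lit 227) (nat_lit 215)))) (XT.nd (nat_lit 188) (nat_lit 420) (nat_lit 0) (XT.nd (nat_lit 94) (nat_lit 420) (nat_lit 0) (XT.lf (nat_lit 84) (nat_lit 677885888) (nat_lit 0) (nat_lit 237271684) (nat_lit 588) (nat_lit 677885888) (nat_lit 117) (nat_lit 1) (nat_lit 116) (nat_lit 1) (nat_lit 123) (nat_lit 1) (nat_lit 279) (nat_lit 227) (nat_lit 214)) (XT.lf (nat_lit 504) (nat_lit 1166467607) (nat_lit 0) (nat_lit 196169154) (nat_lit 420) (nat_lit 196169154) (nat_lit 117) (nat_lit 1) (nat_lit 111) (nat_lit 1) (nat_lit 116) (nat_lit 1) (nat_lit 280) (nat_lit 227) (nat_lit 213))) (XT.nd (nat_lit 94) (nat_lit 420) (nat_lit 0) (XT.lf (nat_lit 84) (nat_lit 483527751) (nat_lit 0) (nat_lit 558232637) (nat_lit 504) (nat_lit 483527751) (nat_lit 112) (nat_lit 1) (nat_lit 111) (nat_lit 1) (nat_lit 117) (nat_lit 1) (nat_lit 281) (nat_lit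 227) (nat_lit 212)) (XT.lf (nat_lit 504) (nat_lit 768135461) (nat_lit 0) (nat_lit 362401119) (nat_lit 420) (nat_lit 362401119) (nat_lit 112) (nat_lit 1) (nat_lit 106) (nat_lit 1) (nat_lit 111) (nat_lit 1) (nat_lit 282) (nat_lit 227) (nat_lit 211))))) (XT.nd (nat_lit 282) (nat_lit 1092) (nat_lit 0) (XT.nd (nat_lit 94) (nat_lit 336) (nat_lit 0) (XT.lf (nat_lit 84) (nat_lit 283047709) (nat_lit 0) (nat_lit 895432699) (nat_lit 504) (nat_lit 283047709) (nat_lit 107) (nat_lit 1) (nat_lit 106) (nat_lit 1) (nat_lit 112) (nat_lit 1) (nat_lit 283) (nat_lit 227) (nat_lit 210)) (XT.nd (nat_lit 94) (nat_lit 0) (nat_lit 0) (XT.lf (nat_lit 420) (nat_lit 359233866) (nat_lit 0) (nat_lit 535846314) (nat_lit 336) (nat_lit 535846314) (nat_lit 107) (nat_lit 1) (nat_lit 102) (nat_lit 1) (nat_lit 106) (nat_lit 1) (nat_lit 284) (nat_lit 227) (nat_lit 209)) (XT.lf (nat_lit 84) (nat_lit 78166892)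 (nat_lit 0) (nat_lit 1245167874) (nat_lit 420) (nat_lit 78166892) (nat_lit 103) (nat_lit 1) (nat_lit 102) (nat_lit 1) (nat_lit 107) (nat_lit 1) (nat_lit 285) (nat_lit 227) (nat_lit 208)))) (XT.nd (nat_lit 188) (nat_lit 336) (nat_lit 0) (XT.nd (nat_lit 94) (nat_lit 336) (nat_lit 0) (XT.lf (nat_lit 84) (nat_lit 658656695) (nat_lit 0) (nat_lit 55163777) (nat_lit 420) (nat_lit 658656695) (nat_lit 98) (nat_lit 1) (nat_lit 97) (nat_lit 1) (nat_lit 102) (nat_lit 1) (nat_lit 286) (nat_lit 227) (nat_lit 207)) (XT.lf (nat_lit 420) (nat_lit 1089522045) (nat_lit 0) (nat_lit 127517978) (nat_lit 336) (nat_lit 127517978) (nat_lit 98) (nat_lit 1) (nat_lit 93) (nat_lit 1) (nat_lit 97) (nat_lit 1) (nat_lit 287) (nat_lit 227) (nat_lit 206))) (XT.nd (nat_lit 94) (nat_lit 336) (nat_lit 0) (XT.lf (nat_lit 84) (nat_lit 427358444) (nat_lit 0) (nat_lit 462400905) (nat_lit 420) (nat_lit 427358444)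 (nat_lit 94) (nat_lit 1) (nat_lit 93) (nat_lit 1) (nat_lit 98) (nat_lit 1) (nat_lit 288) (nat_lit 227) (nat_lit 205)) (XT.lf (nat_lit 420) (nat_lit 623634853) (nat_lit 0) (nat_lit 333497132) (nat_lit 336) (nat_lit 333497132) (nat_lit 94) (nat_lit 1) (nat_lit 89) (nat_lit 1) (nat_lit 93) (nat_lit 1) (nat_lit 289) (nat_lit 227) (nat_lit 204))))))) (XT.nd (nat_lit 1222) (nat_lit 1512) (nat_lit 0) (XT.nd (nat_lit 564) (nat_lit 1344) (nat_lit 0) (XT.nd (nat_lit 282) (nat_lit 252) (nat_lit 0) (XT.nd (nat_lit 94) (nat_lit 672) (nat_lit 0) (XT.lf (nat_lit 84) (nat_lit 196666600) (nat_lit 0) (nat_lit 871581771) (nat_lit 420) (nat_lit 196666600) (nat_lit 90) (nat_lit 1) (nat_lit 89) (nat_lit 1) (nat_lit 94) (nat_lit 1) (nat_lit 290) (nat_lit 227) (nat_lit 203)) (XT.nd (nat_lit 94) (nat_lit 420) (nat_lit 0) (XT.lf (nat_lit 336) (nat_lit 159940522) (nat_lit 0) (nat_lit 539907684) (nat_lit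 252) (nat_lit 539907684) (nat_lit 90) (nat_lit 1) (nat_lit 86) (nat_lit 1) (nat_lit 89) (nat_lit 1) (nat_lit 291) (nat_lit 227) (nat_lit 202)) (XT.lf (nat_lit 420) (nat_lit 1151655278) (nat_lit 0) (nat_lit 31956224) (nat_lit 336) (nat_lit 31956224) (nat_lit 86) (nat_lit 1) (nat_lit 81) (nat_lit 1) (nat_lit 85) (nat_lit 1) (nat_lit 292) (nat_lit 227) (nat_lit 201)))) (XT.nd (nat_lit 94) (nat_lit 252) (nat_lit 0) (XT.lf (nat_lit 84) (nat_lit 450651224) (nat_lit 0) (nat_lit 290210991) (nat_lit 420) (nat_lit 450651224) (nat_lit 82) (nat_lit 1) (nat_lit 81) (nat_lit 1) (nat_lit 86) (nat_lit 1) (nat_lit 293) (nat_lit 227) (nat_lit 200)) (XT.nd (nat_lit 94) (nat_lit 0) (nat_lit 0) (XT.lf (nat_lit 336) (nat_lit 658190360) (nat_lit 0) (nat_lit 255095670) (nat_lit 252) (nat_lit 255095670) (nat_lit 82) (nat_lit 1) (nat_lit 78) (nat_lit 1) (nat_lit 81) (nat_lit 1) (nat_lit 294) (nat_lit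 227) (nat_lit 199)) (XT.lf (nat_lit 84) (nat_lit 207932516) (nat_lit 0) (nat_lit 729972629) (nat_lit 336) (nat_lit 207932516) (nat_lit 79) (nat_lit 1) (nat_lit 78) (nat_lit 1) (nat_lit 82) (nat_lit 1) (nat_lit 295) (nat_lit 227) (nat_lit 198))))) (XT.nd (nat_lit 282) (nat_lit 756) (nat_lit 0) (XT.nd (nat_lit 94) (nat_lit 336) (nat_lit 0) (XT.lf (nat_lit 336) (nat_lit 173305252) (nat_lit 0) (nat_lit 475250620) (nat_lit 252) (nat_lit 475250620) (nat_lit 79) (nat_lit 1) (nat_lit 75) (nat_lit 1) (nat_lit 78) (nat_lit 1) (nat_lit 296) (nat_lit 227) (nat_lit 197)) (XT.nd (nat_lit 94) (nat_lit 0) (nat_lit 0) (XT.lf (nat_lit 336) (nat_lit 1043025216) (nat_lit 0) (nat_lit 29784297) (nat_lit 252) (nat_lit 29784297) (nat_lit 75) (nat_lit 1) (nat_lit 71) (nat_lit 1) (nat_lit 74) (nat_lit 1) (nat_lit 297) (nat_lit 227) (nat_lit 196)) (XT.lf (nat_lit 84) (nat_lit 394546568) (nat_lit 0)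 (nat_lit 292355045) (nat_lit 336) (nat_lit 394546568) (nat_lit 72) (nat_lit 1) (nat_lit 71) (nat_lit 1) (nat_lit 75) (nat_lit 1) (nat_lit 298) (nat_lit 227) (nat_lit 195)))) (XT.nd (nat_lit 188) (nat_lit 504) (nat_lit 0) (XT.nd (nat_lit 94) (nat_lit 0) (nat_lit 0) (XT.lf (nat_lit 336) (nat_lit 542537659) (nat_lit 0) (nat_lit 259273643) (nat_lit 252) (nat_lit 259273643) (nat_lit 72) (nat_lit 1) (nat_lit 68) (nat_lit 1) (nat_lit 71) (nat_lit 1) (nat_lit 299) (nat_lit 227) (nat_lit 194)) (XT.lf (nat_lit 84) (nat_lit 149414428) (nat_lit 0) (nat_lit 742439003) (nat_lit 336) (nat_lit 149414428) (nat_lit 69) (nat_lit 1) (nat_lit 68) (nat_lit 1) (nat_lit 72) (nat_lit 1) (nat_lit 300) (nat_lit 227) (nat_lit 193))) (XT.nd (nat_lit 94) (nat_lit 336) (nat_lit 0) (XT.lf (nat_lit 252) (nat_lit 54750414) (nat_lit 0) (nat_lit 483536901) (nat_lit 168) (nat_lit 483536901) (nat_lit 69) (nat_lit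 1) (nat_lit 66) (nat_lit 1) (nat_lit 68) (nat_lit 1) (nat_lit 301) (nat_lit 227) (nat_lit 192)) (XT.lf (nat_lit 336) (nat_lit 827260407) (nat_lit 0) (nat_lit 87861051) (nat_lit 252) (nat_lit 87861051) (nat_lit 66) (nat_lit 1) (nat_lit 62) (nat_lit 1) (nat_lit 65) (nat_lit 1) (nat_lit 302) (nat_lit 227) (nat_lit 191)))))) (XT.nd (nat_lit 658) (nat_lit 756) (nat_lit 0) (XT.nd (nat_lit 282) (nat_lit 588) (nat_lit 0) (XT.nd (nat_lit 94) (nat_lit 168) (nat_lit 0) (XT.lf (nat_lit 84) (nat_lit 288942423) (nat_lit 0) (nat_lit 406466682) (nat_lit 336) (nat_lit 288942423) (nat_lit 63) (nat_lit 1) (nat_lit 62) (nat_lit 1) (nat_lit 66) (nat_lit 1) (nat_lit 303) (nat_lit 227) (nat_lit 190)) (XT.nd (nat_lit 94) (nat_lit 0) (nat_lit 0) (XT.lf (nat_lit 252) (nat_lit 333828399) (nat_lit 0) (nat_lit 316233576) (nat_lit 168) (nat_lit 316233576) (nat_lit 63) (nat_lit 1) (nat_lit 60) (nat_lit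 1) (nat_lit 62) (nat_lit 1) (nat_lit 304) (nat_lit 227) (nat_lit 189)) (XT.lf (nat_lit 84) (nat_lit 47960545) (nat_lit 0) (nat_lit 852917692) (nat_lit 252) (nat_lit 47960545) (nat_lit 61) (nat_lit 1) (nat_lit 60) (nat_lit 1) (nat_lit 63) (nat_lit 1) (nat_lit 305) (nat_lit 227) (nat_lit 188)))) (XT.nd (nat_lit 188) (nat_lit 168) (nat_lit 0) (XT.nd (nat_lit 94) (nat_lit 168) (nat_lit 0) (XT.lf (nat_lit 84) (nat_lit 395826792) (nat_lit 0) (nat_lit 139791885) (nat_lit 252) (nat_lit 395826792) (nat_lit 58) (nat_lit 1) (nat_lit 57) (nat_lit 1) (nat_lit 60) (nat_lit 1) (nat_lit 306) (nat_lit 227) (nat_lit 187)) (XT.lf (nat_lit 252) (nat_lit 549674876) (nat_lit 0) (nat_lit 182477165) (nat_lit 168) (nat_lit 182477165) (nat_lit 58) (nat_lit 1) (nat_lit 55) (nat_lit 1) (nat_lit 57) (nat_lit 1) (nat_lit 307) (nat_lit 227) (nat_lit 186))) (XT.nd (nat_lit 94) (nat_lit 168) (nat_lit 0)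 (XT.lf (nat_lit 84) (nat_lit 155103949) (nat_lit 0) (nat_lit 587976722) (nat_lit 252) (nat_lit 155103949) (nat_lit 56) (nat_lit 1) (nat_lit 55) (nat_lit 1) (nat_lit 58) (nat_lit 1) (nat_lit 308) (nat_lit 227) (nat_lit 185)) (XT.lf (nat_lit 252) (nat_lit 72660616) (nat_lit 0) (nat_lit 404705449) (nat_lit 168) (nat_lit 404705449) (nat_lit 56) (nat_lit 1) (nat_lit 53) (nat_lit 1) (nat_lit 55) (nat_lit 1) (nat_lit 309) (nat_lit 227) (nat_lit 184))))) (XT.nd (nat_lit 282) (nat_lit 336) (nat_lit 0) (XT.nd (nat_lit 94) (nat_lit 168) (nat_lit 0) (XT.lf (nat_lit 252) (nat_lit 714155477) (nat_lit 0) (nat_lit 76134911) (nat_lit 168) (nat_lit 76134911) (nat_lit 53) (nat_lit 1) (nat_lit 50) (nat_lit 1) (nat_lit 52) (nat_lit 1) (nat_lit 310) (nat_lit 227) (nat_lit 183)) (XT.nd (nat_lit 94) (nat_lit 168) (nat_lit 0) (XT.lf (nat_lit 84) (nat_lit 237744108) (nat_lit 0) (nat_lit 375424405)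 (nat_lit 252) (nat_lit 237744108) (nat_lit 51) (nat_lit 1) (nat_lit 50) (nat_lit 1) (nat_lit 53) (nat_lit 1) (nat_lit 311) (nat_lit 227) (nat_lit 182)) (XT.lf (nat_lit 252) (nat_lit 242130831) (nat_lit 0) (nat_lit 296859733) (nat_lit 168) (nat_lit 296859733) (nat_lit 51) (nat_lit 1) (nat_lit 48) (nat_lit 1) (nat_lit 50) (nat_lit 1) (nat_lit 312) (nat_lit 227) (nat_lit 181)))) (XT.nd (nat_lit 188) (nat_lit 168) (nat_lit 0) (XT.nd (nat_lit 94) (nat_lit 168) (nat_lit 0) (XT.lf (nat_lit 84) (nat_lit 7958172) (nat_lit 0) (nat_lit 805399867) (nat_lit 252) (nat_lit 7958172) (nat_lit 49) (nat_lit 1) (nat_lit 48) (nat_lit 1) (nat_lit 51) (nat_lit 1) (nat_lit 313) (nat_lit 227) (nat_lit 180)) (XT.lf (nat_lit 84) (nat_lit 300487623) (nat_lit 0) (nat_lit 205714493) (nat_lit 168) (nat_lit 300487623) (nat_lit 47) (nat_lit 1) (nat_lit 46) (nat_lit 1) (nat_lit 48) (nat_lit 1) (nat_lit 314)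 (nat_lit 227) (nat_lit 179))) (XT.nd (nat_lit 94) (nat_lit 0) (nat_lit 0) (XT.lf (nat_lit 252) (nat_lit 372870932) (nat_lit 0) (nat_lit 209853484) (nat_lit 168) (nat_lit 209853484) (nat_lit 47) (nat_lit 1) (nat_lit 44) (nat_lit 1) (nat_lit 46) (nat_lit 1) (nat_lit 315) (nat_lit 227) (nat_lit 178)) (XT.lf (nat_lit 84) (nat_lit 74758045) (nat_lit 0) (nat_lit 629330885) (nat_lit 252) (nat_lit 74758045) (nat_lit 45) (nat_lit 1) (nat_lit 44) (nat_lit 1) (nat_lit 47) (nat_lit 1) (nat_lit 316) (nat_lit 227) (nat_lit 177))))))))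
noncomputable def ec11 : XT := (XT.nd (nat_lit 42394) (nat_lit 0) (nat_lit 420) (XT.nd (nat_lit 41078) (nat_lit 0) (nat_lit 4536) (XT.nd (nat_lit 40420) (nat_lit 0) (nat_lit 7560) (XT.nd (nat_lit 282) (nat_lit 84) (nat_lit 0) (XT.nd (nat_lit 94) (nat_lit 168) (nat_lit 0) (XT.lf (nat_lit 84) (nat_lit 347111871) (nat_lit 0) (nat_lit 71005542) (nat_lit 168) (nat_lit 347111871) (nat_lit 43) (nat_lit 1) (nat_lit 42) (nat_lit 1) (nat_lit 44) (nat_lit 1) (nat_lit 317) (nat_lit 227) (nat_lit 176)) (XT.nd (nat_lit 94) (nat_lit 0) (nat_lit 0) (XT.lf (nat_lit 252) (nat_lit 472161170) (nat_lit 0) (nat_lit 139910072) (nat_lit 168) (nat_lit 139910072) (nat_lit 43) (nat_lit 1) (nat_lit 40) (nat_lit 1) (nat_lit 42) (nat_lit 1) (nat_lit 318) (nat_lit 227) (nat_lit 175)) (XT.lf (nat_lit 84) (nat_lit 126466330) (nat_lit 0) (nat_lit 486062954) (nat_lit 252) (nat_lit 126466330) (nat_lit 41)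 (nat_lit 1) (nat_lit 40) (nat_lit 1) (nat_lit 43) (nat_lit 1) (nat_lit 319) (nat_lit 227) (nat_lit 174)))) (XT.nd (nat_lit 39950) (nat_lit 0) (nat_lit 7476) (XT.lf (nat_lit 168) (nat_lit 36303877) (nat_lit 0) (nat_lit 344975541) (nat_lit 84) (nat_lit 344975541) (nat_lit 41) (nat_lit 1) (nat_lit 39) (nat_lit 1) (nat_lit 40) (nat_lit 1) (nat_lit 320) (nat_lit 227) (nat_lit 173)) (XT.nd (nat_lit 94) (nat_lit 0) (nat_lit 0) (XT.lf (nat_lit 924) (nat_lit 299211368) (nat_lit 0) (nat_lit 531249096) (nat_lit 924) (nat_lit 299211368) (nat_lit 139) (nat_lit 1) (nat_lit 128) (nat_lit 0) (nat_lit 139) (nat_lit 0) (nat_lit 264) (nat_lit 228) (nat_lit 228)) (XT.lf (nat_lit 924) (nat_lit 1159780618) (nat_lit 84) (nat_lit 522680562) (nat_lit 0) (nat_lit 522680562) (nat_lit 139) (nat_lit 1) (nat_lit 129) (nat_lit 1) (nat_lit 128) (nat_lit 0) (nat_lit 265) (nat_lit 228) (nat_lit 227)))))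 (XT.nd (nat_lit 282) (nat_lit 0) (nat_lit 84) (XT.nd (nat_lit 94) (nat_lit 0) (nat_lit 0) (XT.lf (nat_lit 924) (nat_lit 552733979) (nat_lit 0) (nat_lit 1047147534) (nat_lit 840) (nat_lit 552733979) (nat_lit 140) (nat_lit 1) (nat_lit 129) (nat_lit 1) (nat_lit 139) (nat_lit 1) (nat_lit 266) (nat_lit 228) (nat_lit 226)) (XT.nd (nat_lit 94) (nat_lit 0) (nat_lit 84) (XT.lf (nat_lit 924) (nat_lit 1036852142) (nat_lit 84) (nat_lit 532467045) (nat_lit 0) (nat_lit 532467045) (nat_lit 140) (nat_lit 1) (nat_lit 130) (nat_lit 1) (nat_lit 129) (nat_lit 1) (nat_lit 267) (nat_lit 228) (nat_lit 225)) (XT.lf (nat_lit 924) (nat_lit 477253084) (nat_lit 0) (nat_lit 1098061838) (nat_lit 840) (nat_lit 477253084) (nat_lit 141) (nat_lit 1) (nat_lit 130) (nat_lit 1) (nat_lit 140) (nat_lit 1) (nat_lit 268) (nat_lit 228) (nat_lit 224)))) (XT.nd (nat_lit 188) (nat_lit 0) (nat_lit 84) (XT.nd (nat_lit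 94) (nat_lit 0) (nat_lit 84) (XT.lf (nat_lit 924) (nat_lit 858370756) (nat_lit 84) (nat_lit 573239690) (nat_lit 0) (nat_lit 573239690) (nat_lit 141) (nat_lit 1) (nat_lit 131) (nat_lit 1) (nat_lit 130) (nat_lit 1) (nat_lit 269) (nat_lit 228) (nat_lit 223)) (XT.lf (nat_lit 924) (nat_lit 376370784) (nat_lit 0) (nat_lit 1205992901) (nat_lit 840) (nat_lit 376370784) (nat_lit 142) (nat_lit 1) (nat_lit 131) (nat_lit 1) (nat_lit 141) (nat_lit 1) (nat_lit 270) (nat_lit 228) (nat_lit 222))) (XT.nd (nat_lit 94) (nat_lit 0) (nat_lit 84) (XT.lf (nat_lit 924) (nat_lit 632690844) (nat_lit 84) (nat_lit 640598840) (nat_lit 0) (nat_lit 640598840) (nat_lit 142) (nat_lit 1) (nat_lit 132) (nat_lit 1) (nat_lit 131) (nat_lit 1) (nat_lit 271) (nat_lit 228) (nat_lit 221)) (XT.lf (nat_lit 924) (nat_lit 253992420) (nat_lit 0) (nat_lit 1362699356) (nat_lit 840) (nat_lit 253992420) (nat_lit 143) (nat_lit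 1) (nat_lit 132) (nat_lit 1) (nat_lit 142) (nat_lit 1) (nat_lit 272) (nat_lit 228) (nat_lit 220)))))) (XT.nd (nat_lit 658) (nat_lit 1512) (nat_lit 0) (XT.nd (nat_lit 282) (nat_lit 1008) (nat_lit 0) (XT.nd (nat_lit 94) (nat_lit 756) (nat_lit 0) (XT.lf (nat_lit 924) (nat_lit 367238196) (nat_lit 84) (nat_lit 730626201) (nat_lit 0) (nat_lit 730626201) (nat_lit 143) (nat_lit 1) (nat_lit 133) (nat_lit 1) (nat_lit 132) (nat_lit 1) (nat_lit 273) (nat_lit 228) (nat_lit 219)) (XT.nd (nat_lit 94) (nat_lit 840) (nat_lit 0) (XT.lf (nat_lit 84) (nat_lit 113586737) (nat_lit 0) (nat_lit 1560846064) (nat_lit 840) (nat_lit 113586737) (nat_lit 134) (nat_lit 1) (nat_lit 133) (nat_lit 1) (nat_lit 143) (nat_lit 1) (nat_lit 274) (nat_lit 228) (nat_lit 218)) (XT.lf (nat_lit 924) (nat_lit 68603564) (nat_lit 0) (nat_lit 839836649) (nat_lit 840) (nat_lit 839836649) (nat_lit 134) (nat_lit 1) (nat_lit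 123) (nat_lit 1) (nat_lit 133) (nat_lit 1) (nat_lit 275) (nat_lit 228) (nat_lit 217)))) (XT.nd (nat_lit 188) (nat_lit 420) (nat_lit 0) (XT.nd (nat_lit 94) (nat_lit 0) (nat_lit 0) (XT.lf (nat_lit 588) (nat_lit 1628048984) (nat_lit 0) (nat_lit 41096312) (nat_lit 504) (nat_lit 41096312) (nat_lit 123) (nat_lit 1) (nat_lit 116) (nat_lit 1) (nat_lit 122) (nat_lit 1) (nat_lit 276) (nat_lit 228) (nat_lit 216)) (XT.lf (nat_lit 84) (nat_lit 711780182) (nat_lit 0) (nat_lit 249135268) (nat_lit 588) (nat_lit 711780182) (nat_lit 117) (nat_lit 1) (nat_lit 116) (nat_lit 1) (nat_lit 123) (nat_lit 1) (nat_lit 277) (nat_lit 228) (nat_lit 215))) (XT.nd (nat_lit 94) (nat_lit 0) (nat_lit 0) (XT.lf (nat_lit 504) (nat_lit 1224790988) (nat_lit 0) (nat_lit 205977612) (nat_lit 420) (nat_lit 205977612) (nat_lit 117) (nat_lit 1) (nat_lit 111) (nat_lit 1) (nat_lit 116) (nat_lit 1) (nat_lit 278) (nat_lit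 228) (nat_lit 214)) (XT.lf (nat_lit 84) (nat_lit 507704139) (nat_lit 0) (nat_lit 586144269) (nat_lit 504) (nat_lit 507704139) (nat_lit 112) (nat_lit 1) (nat_lit 111) (nat_lit 1) (nat_lit 117) (nat_lit 1) (nat_lit 279) (nat_lit 228) (nat_lit 213))))) (XT.nd (nat_lit 282) (nat_lit 756) (nat_lit 0) (XT.nd (nat_lit 94) (nat_lit 336) (nat_lit 0) (XT.lf (nat_lit 504) (nat_lit 806542234) (nat_lit 0) (nat_lit 380521174) (nat_lit 420) (nat_lit 380521174) (nat_lit 112) (nat_lit 1) (nat_lit 106) (nat_lit 1) (nat_lit 111) (nat_lit 1) (nat_lit 280) (nat_lit 228) (nat_lit 212)) (XT.nd (nat_lit 94) (nat_lit 336) (nat_lit 0) (XT.lf (nat_lit 84) (nat_lit 297200094) (nat_lit 0) (nat_lit 940204334) (nat_lit 504) (nat_lit 297200094) (nat_lit 107) (nat_lit 1) (nat_lit 106) (nat_lit 1) (nat_lit 112) (nat_lit 1) (nat_lit 281) (nat_lit 228) (nat_lit 211)) (XT.lf (nat_lit 420) (nat_lit 377195559)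 (nat_lit 0) (nat_lit 562638629) (nat_lit 336) (nat_lit 562638629) (nat_lit 107) (nat_lit 1) (nat_lit 102) (nat_lit 1) (nat_lit 106) (nat_lit 1) (nat_lit 282) (nat_lit 228) (nat_lit 210)))) (XT.nd (nat_lit 188) (nat_lit 336) (nat_lit 0) (XT.nd (nat_lit 94) (nat_lit 420) (nat_lit 0) (XT.lf (nat_lit 84) (nat_lit 82075236) (nat_lit 0) (nat_lit 1307426268) (nat_lit 420) (nat_lit 82075236) (nat_lit 103) (nat_lit 1) (nat_lit 102) (nat_lit 1) (nat_lit 107) (nat_lit 1) (nat_lit 283) (nat_lit 228) (nat_lit 209)) (XT.lf (nat_lit 84) (nat_lit 691589530) (nat_lit 0) (nat_lit 57921966) (nat_lit 420) (nat_lit 691589530) (nat_lit 98) (nat_lit 1) (nat_lit 97) (nat_lit 1) (nat_lit 102) (nat_lit 1) (nat_lit 284) (nat_lit 228) (nat_lit 208))) (XT.nd (nat_lit 94) (nat_lit 0) (nat_lit 0) (XT.lf (nat_lit 420) (nat_lit 1143998147) (nat_lit 0) (nat_lit 133893877) (nat_lit 336) (nat_lit 133893877)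 (nat_lit 98) (nat_lit 1) (nat_lit 93) (nat_lit 1) (nat_lit 97) (nat_lit 1) (nat_lit 285) (nat_lit 228) (nat_lit 207)) (XT.lf (nat_lit 84) (nat_lit 448726367) (nat_lit 0) (nat_lit 485520950) (nat_lit 420) (nat_lit 448726367) (nat_lit 94) (nat_lit 1) (nat_lit 93) (nat_lit 1) (nat_lit 98) (nat_lit 1) (nat_lit 286) (nat_lit 228) (nat_lit 206))))))) (XT.nd (nat_lit 1316) (nat_lit 1512) (nat_lit 0) (XT.nd (nat_lit 658) (nat_lit 1344) (nat_lit 0) (XT.nd (nat_lit 282) (nat_lit 672) (nat_lit 0) (XT.nd (nat_lit 94) (nat_lit 252) (nat_lit 0) (XT.lf (nat_lit 420) (nat_lit 654816595) (nat_lit 0) (nat_lit 350171989) (nat_lit 336) (nat_lit 350171989) (nat_lit 94) (nat_lit 1) (nat_lit 89) (nat_lit 1) (nat_lit 93) (nat_lit 1) (nat_lit 287) (nat_lit 228) (nat_lit 205)) (XT.nd (nat_lit 94) (nat_lit 252) (nat_lit 0) (XT.lf (nat_lit 84) (nat_lit 206499930) (nat_lit 0) (nat_lit 915160860) (nat_lit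 420) (nat_lit 206499930) (nat_lit 90) (nat_lit 1) (nat_lit 89) (nat_lit 1) (nat_lit 94) (nat_lit 1) (nat_lit 288) (nat_lit 228) (nat_lit 204)) (XT.lf (nat_lit 336) (nat_lit 167937549) (nat_lit 0) (nat_lit 566903068) (nat_lit 252) (nat_lit 566903068) (nat_lit 90) (nat_lit 1) (nat_lit 86) (nat_lit 1) (nat_lit 89) (nat_lit 1) (nat_lit 289) (nat_lit 228) (nat_lit 203)))) (XT.nd (nat_lit 188) (nat_lit 252) (nat_lit 0) (XT.nd (nat_lit 94) (nat_lit 0) (nat_lit 0) (XT.lf (nat_lit 420) (nat_lit 1209238042) (nat_lit 0) (nat_lit 33554035) (nat_lit 336) (nat_lit 33554035) (nat_lit 86) (nat_lit 1) (nat_lit 81) (nat_lit 1) (nat_lit 85) (nat_lit 1) (nat_lit 290) (nat_lit 228) (nat_lit 202)) (XT.lf (nat_lit 84) (nat_lit 473183785) (nat_lit 0) (nat_lit 304721541) (nat_lit 420) (nat_lit 473183785) (nat_lit 82) (nat_lit 1) (nat_lit 81) (nat_lit 1) (nat_lit 86) (nat_lit 1) (nat_lit 291) (nat_lit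 228) (nat_lit 201))) (XT.nd (nat_lit 94) (nat_lit 0) (nat_lit 0) (XT.lf (nat_lit 336) (nat_lit 691099878) (nat_lit 0) (nat_lit 267850453) (nat_lit 252) (nat_lit 267850453) (nat_lit 82) (nat_lit 1) (nat_lit 78) (nat_lit 1) (nat_lit 81) (nat_lit 1) (nat_lit 292) (nat_lit 228) (nat_lit 200)) (XT.lf (nat_lit 84) (nat_lit 218329141) (nat_lit 0) (nat_lit 766471261) (nat_lit 336) (nat_lit 218329141) (nat_lit 79) (nat_lit 1) (nat_lit 78) (nat_lit 1) (nat_lit 82) (nat_lit 1) (nat_lit 293) (nat_lit 228) (nat_lit 199))))) (XT.nd (nat_lit 282) (nat_lit 756) (nat_lit 0) (XT.nd (nat_lit 94) (nat_lit 336) (nat_lit 0) (XT.lf (nat_lit 336) (nat_lit 181970515) (nat_lit 0) (nat_lit 499013151) (nat_lit 252) (nat_lit 499013151) (nat_lit 79) (nat_lit 1) (nat_lit 75) (nat_lit 1) (nat_lit 78) (nat_lit 1) (nat_lit 294) (nat_lit 228) (nat_lit 198)) (XT.nd (nat_lit 94) (nat_lit 0) (nat_lit 0) (XT.lf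 (nat_lit 336) (nat_lit 1095176477) (nat_lit 0) (nat_lit 31273512) (nat_lit 252) (nat_lit 31273512) (nat_lit 75) (nat_lit 1) (nat_lit 71) (nat_lit 1) (nat_lit 74) (nat_lit 1) (nat_lit 295) (nat_lit 228) (nat_lit 197)) (XT.lf (nat_lit 84) (nat_lit 414273897) (nat_lit 0) (nat_lit 306972798) (nat_lit 336) (nat_lit 414273897) (nat_lit 72) (nat_lit 1) (nat_lit 71) (nat_lit 1) (nat_lit 75) (nat_lit 1) (nat_lit 296) (nat_lit 228) (nat_lit 196)))) (XT.nd (nat_lit 188) (nat_lit 504) (nat_lit 0) (XT.nd (nat_lit 94) (nat_lit 0) (nat_lit 0) (XT.lf (nat_lit 336) (nat_lit 569664542) (nat_lit 0) (nat_lit 272237326) (nat_lit 252) (nat_lit 272237326) (nat_lit 72) (nat_lit 1) (nat_lit 68) (nat_lit 1) (nat_lit 71) (nat_lit 1) (nat_lit 297) (nat_lit 228) (nat_lit 195)) (XT.lf (nat_lit 84) (nat_lit 156885150) (nat_lit 0) (nat_lit 779560954) (nat_lit 336) (nat_lit 156885150) (nat_lit 69) (nat_lit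 1) (nat_lit 68) (nat_lit 1) (nat_lit 72) (nat_lit 1) (nat_lit 298) (nat_lit 228) (nat_lit 194))) (XT.nd (nat_lit 94) (nat_lit 336) (nat_lit 0) (XT.lf (nat_lit 252) (nat_lit 57487935) (nat_lit 0) (nat_lit 507713746) (nat_lit 168) (nat_lit 507713746) (nat_lit 69) (nat_lit 1) (nat_lit 66) (nat_lit 1) (nat_lit 68) (nat_lit 1) (nat_lit 299) (nat_lit 228) (nat_lit 193)) (XT.lf (nat_lit 336) (nat_lit 868623427) (nat_lit 0) (nat_lit 92254104) (nat_lit 252) (nat_lit 92254104) (nat_lit 66) (nat_lit 1) (nat_lit 62) (nat_lit 1) (nat_lit 65) (nat_lit 1) (nat_lit 300) (nat_lit 228) (nat_lit 192)))))) (XT.nd (nat_lit 658) (nat_lit 756) (nat_lit 0) (XT.nd (nat_lit 282) (nat_lit 588) (nat_lit 0) (XT.nd (nat_lit 94) (nat_lit 168) (nat_lit 0) (XT.lf (nat_lit 84) (nat_lit 303389544) (nat_lit 0) (nat_lit 426790016) (nat_lit 336) (nat_lit 303389544) (nat_lit 63) (nat_lit 1) (nat_lit 62) (nat_lit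 1) (nat_lit 66) (nat_lit 1) (nat_lit 301) (nat_lit 228) (nat_lit 191)) (XT.nd (nat_lit 94) (nat_lit 0) (nat_lit 0) (XT.lf (nat_lit 252) (nat_lit 350519818) (nat_lit 0) (nat_lit 332045255) (nat_lit 168) (nat_lit 332045255) (nat_lit 63) (nat_lit 1) (nat_lit 60) (nat_lit 1) (nat_lit 62) (nat_lit 1) (nat_lit 302) (nat_lit 228) (nat_lit 190)) (XT.lf (nat_lit 84) (nat_lit 50358572) (nat_lit 0) (nat_lit 895563577) (nat_lit 252) (nat_lit 50358572) (nat_lit 61) (nat_lit 1) (nat_lit 60) (nat_lit 1) (nat_lit 63) (nat_lit 1) (nat_lit 303) (nat_lit 228) (nat_lit 189)))) (XT.nd (nat_lit 188) (nat_lit 168) (nat_lit 0) (XT.nd (nat_lit 94) (nat_lit 168) (nat_lit 0) (XT.lf (nat_lit 84) (nat_lit 415618132) (nat_lit 0) (nat_lit 146781479) (nat_lit 252) (nat_lit 415618132) (nat_lit 58) (nat_lit 1) (nat_lit 57) (nat_lit 1) (nat_lit 60) (nat_lit 1) (nat_lit 304) (nat_lit 228) (nat_lit 188)) (XT.lf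 (nat_lit 252) (nat_lit 577158619) (nat_lit 0) (nat_lit 191601024) (nat_lit 168) (nat_lit 191601024) (nat_lit 58) (nat_lit 1) (nat_lit 55) (nat_lit 1) (nat_lit 57) (nat_lit 1) (nat_lit 305) (nat_lit 228) (nat_lit 187))) (XT.nd (nat_lit 94) (nat_lit 168) (nat_lit 0) (XT.lf (nat_lit 84) (nat_lit 162859147) (nat_lit 0) (nat_lit 617375558) (nat_lit 252) (nat_lit 162859147) (nat_lit 56) (nat_lit 1) (nat_lit 55) (nat_lit 1) (nat_lit 58) (nat_lit 1) (nat_lit 306) (nat_lit 228) (nat_lit 186)) (XT.lf (nat_lit 252) (nat_lit 76293646) (nat_lit 0) (nat_lit 424940722) (nat_lit 168) (nat_lit 424940722) (nat_lit 56) (nat_lit 1) (nat_lit 53) (nat_lit 1) (nat_lit 55) (nat_lit 1) (nat_lit 307) (nat_lit 228) (nat_lit 185))))) (XT.nd (nat_lit 282) (nat_lit 336) (nat_lit 0) (XT.nd (nat_lit 94) (nat_lit 168) (nat_lit 0) (XT.lf (nat_lit 252) (nat_lit 749863251) (nat_lit 0) (nat_lit 79941656) (nat_lit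 168) (nat_lit 79941656) (nat_lit 53) (nat_lit 1) (nat_lit 50) (nat_lit 1) (nat_lit 52) (nat_lit 1) (nat_lit 308) (nat_lit 228) (nat_lit 184)) (XT.nd (nat_lit 94) (nat_lit 168) (nat_lit 0) (XT.lf (nat_lit 84) (nat_lit 249631313) (nat_lit 0) (nat_lit 394195625) (nat_lit 252) (nat_lit 249631313) (nat_lit 51) (nat_lit 1) (nat_lit 50) (nat_lit 1) (nat_lit 53) (nat_lit 1) (nat_lit 309) (nat_lit 228) (nat_lit 183)) (XT.lf (nat_lit 252) (nat_lit 254237373) (nat_lit 0) (nat_lit 311702720) (nat_lit 168) (nat_lit 311702720) (nat_lit 51) (nat_lit 1) (nat_lit 48) (nat_lit 1) (nat_lit 50) (nat_lit 1) (nat_lit 310) (nat_lit 228) (nat_lit 182)))) (XT.nd (nat_lit 188) (nat_lit 168) (nat_lit 0) (XT.nd (nat_lit 94) (nat_lit 168) (nat_lit 0) (XT.lf (nat_lit 84) (nat_lit 8356081) (nat_lit 0) (nat_lit 845669861) (nat_lit 252) (nat_lit 8356081) (nat_lit 49) (nat_lit 1) (nat_lit 48) (nat_lit 1)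 (nat_lit 51) (nat_lit 1) (nat_lit 311) (nat_lit 228) (nat_lit 181)) (XT.lf (nat_lit 84) (nat_lit 315512004) (nat_lit 0) (nat_lit 216000217) (nat_lit 168) (nat_lit 315512004) (nat_lit 47) (nat_lit 1) (nat_lit 46) (nat_lit 1) (nat_lit 48) (nat_lit 1) (nat_lit 312) (nat_lit 228) (nat_lit 180))) (XT.nd (nat_lit 94) (nat_lit 0) (nat_lit 0) (XT.lf (nat_lit 252) (nat_lit 391514479) (nat_lit 0) (nat_lit 220346158) (nat_lit 168) (nat_lit 220346158) (nat_lit 47) (nat_lit 1) (nat_lit 44) (nat_lit 1) (nat_lit 46) (nat_lit 1) (nat_lit 313) (nat_lit 228) (nat_lit 179)) (XT.lf (nat_lit 84) (nat_lit 78495947) (nat_lit 0) (nat_lit 660797429) (nat_lit 252) (nat_lit 78495947) (nat_lit 45) (nat_lit 1) (nat_lit 44) (nat_lit 1) (nat_lit 47) (nat_lit 1) (nat_lit 314) (nat_lit 228) (nat_lit 178))))))))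
noncomputable def ec12 : XT := (XT.nd (nat_lit 42206) (nat_lit 0) (nat_lit 1008) (XT.nd (nat_lit 40890) (nat_lit 0) (nat_lit 5124) (XT.nd (nat_lit 40232) (nat_lit 0) (nat_lit 7728) (XT.nd (nat_lit 282) (nat_lit 336) (nat_lit 0) (XT.nd (nat_lit 94) (nat_lit 168) (nat_lit 0) (XT.lf (nat_lit 84) (nat_lit 364467464) (nat_lit 0) (nat_lit 74555819) (nat_lit 168) (nat_lit 364467464) (nat_lit 43) (nat_lit 1) (nat_lit 42) (nat_lit 1) (nat_lit 44) (nat_lit 1) (nat_lit 315) (nat_lit 228) (nat_lit 177)) (XT.nd (nat_lit 94) (nat_lit 0) (nat_lit 0) (XT.lf (nat_lit 252) (nat_lit 495769229) (nat_lit 0) (nat_lit 146905576) (nat_lit 168) (nat_lit 146905576) (nat_lit 43) (nat_lit 1) (nat_lit 40) (nat_lit 1) (nat_lit 42) (nat_lit 1) (nat_lit 316) (nat_lit 228) (nat_lit 176)) (XT.lf (nat_lit 84) (nat_lit 132789646) (nat_lit 0) (nat_lit 510366101) (nat_lit 252) (nat_lit 132789646) (nat_lit 41)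 (nat_lit 1) (nat_lit 40) (nat_lit 1) (nat_lit 43) (nat_lit 1) (nat_lit 317) (nat_lit 228) (nat_lit 175)))) (XT.nd (nat_lit 94) (nat_lit 252) (nat_lit 0) (XT.lf (nat_lit 168) (nat_lit 38119071) (nat_lit 0) (nat_lit 362224318) (nat_lit 84) (nat_lit 362224318) (nat_lit 41) (nat_lit 1) (nat_lit 39) (nat_lit 1) (nat_lit 40) (nat_lit 1) (nat_lit 318) (nat_lit 228) (nat_lit 174)) (XT.nd (nat_lit 94) (nat_lit 0) (nat_lit 0) (XT.lf (nat_lit 252) (nat_lit 573269903) (nat_lit 0) (nat_lit 88122672) (nat_lit 168) (nat_lit 88122672) (nat_lit 39) (nat_lit 1) (nat_lit 36) (nat_lit 1) (nat_lit 38) (nat_lit 1) (nat_lit 319) (nat_lit 228) (nat_lit 173)) (XT.lf (nat_lit 84) (nat_lit 174209072) (nat_lit 0) (nat_lit 388190332) (nat_lit 252) (nat_lit 174209072) (nat_lit 37) (nat_lit 1) (nat_lit 36) (nat_lit 1) (nat_lit 39) (nat_lit 1) (nat_lit 320) (nat_lit 228) (nat_lit 172))))) (XT.nd (nat_lit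 282) (nat_lit 0) (nat_lit 84) (XT.nd (nat_lit 94) (nat_lit 0) (nat_lit 0) (XT.lf (nat_lit 924) (nat_lit 314171936) (nat_lit 0) (nat_lit 557811551) (nat_lit 924) (nat_lit 314171936) (nat_lit 139) (nat_lit 1) (nat_lit 128) (nat_lit 0) (nat_lit 139) (nat_lit 0) (nat_lit 262) (nat_lit 229) (nat_lit 229)) (XT.nd (nat_lit 94) (nat_lit 0) (nat_lit 84) (XT.lf (nat_lit 924) (nat_lit 1217769649) (nat_lit 84) (nat_lit 548814590) (nat_lit 0) (nat_lit 548814590) (nat_lit 139) (nat_lit 1) (nat_lit 129) (nat_lit 1) (nat_lit 128) (nat_lit 0) (nat_lit 263) (nat_lit 229) (nat_lit 228)) (XT.lf (nat_lit 924) (nat_lit 580370678) (nat_lit 0) (nat_lit 1099504911) (nat_lit 840) (nat_lit 580370678) (nat_lit 140) (nat_lit 1) (nat_lit 129) (nat_lit 1) (nat_lit 139) (nat_lit 1) (nat_lit 264) (nat_lit 229) (nat_lit 227)))) (XT.nd (nat_lit 188) (nat_lit 0) (nat_lit 84) (XT.nd (nat_lit 94) (nat_lit 0)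 (nat_lit 84) (XT.lf (nat_lit 924) (nat_lit 1088694749) (nat_lit 84) (nat_lit 559090398) (nat_lit 0) (nat_lit 559090398) (nat_lit 140) (nat_lit 1) (nat_lit 130) (nat_lit 1) (nat_lit 129) (nat_lit 1) (nat_lit 265) (nat_lit 229) (nat_lit 226)) (XT.lf (nat_lit 924) (nat_lit 501115738) (nat_lit 0) (nat_lit 1152964930) (nat_lit 840) (nat_lit 501115738) (nat_lit 141) (nat_lit 1) (nat_lit 130) (nat_lit 1) (nat_lit 140) (nat_lit 1) (nat_lit 266) (nat_lit 229) (nat_lit 225))) (XT.nd (nat_lit 94) (nat_lit 0) (nat_lit 84) (XT.lf (nat_lit 924) (nat_lit 901289293) (nat_lit 84) (nat_lit 601901675) (nat_lit 0) (nat_lit 601901675) (nat_lit 141) (nat_lit 1) (nat_lit 131) (nat_lit 1) (nat_lit 130) (nat_lit 1) (nat_lit 267) (nat_lit 229) (nat_lit 224)) (XT.lf (nat_lit 924) (nat_lit 395189323) (nat_lit 0) (nat_lit 1266292546) (nat_lit 840) (nat_lit 395189323) (nat_lit 142) (nat_lit 1) (nat_lit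 131) (nat_lit 1) (nat_lit 141) (nat_lit 1) (nat_lit 268) (nat_lit 229) (nat_lit 223)))))) (XT.nd (nat_lit 658) (nat_lit 1596) (nat_lit 0) (XT.nd (nat_lit 282) (nat_lit 1260) (nat_lit 0) (XT.nd (nat_lit 94) (nat_lit 0) (nat_lit 84) (XT.lf (nat_lit 924) (nat_lit 664325387) (nat_lit 84) (nat_lit 672628782) (nat_lit 0) (nat_lit 672628782) (nat_lit 142) (nat_lit 1) (nat_lit 132) (nat_lit 1) (nat_lit 131) (nat_lit 1) (nat_lit 269) (nat_lit 229) (nat_lit 222)) (XT.nd (nat_lit 94) (nat_lit 0) (nat_lit 0) (XT.lf (nat_lit 924) (nat_lit 266692041) (nat_lit 0) (nat_lit 1430834324) (nat_lit 840) (nat_lit 266692041) (nat_lit 143) (nat_lit 1) (nat_lit 132) (nat_lit 1) (nat_lit 142) (nat_lit 1) (nat_lit 270) (nat_lit 229) (nat_lit 221)) (XT.lf (nat_lit 924) (nat_lit 385600106) (nat_lit 84) (nat_lit 767157511) (nat_lit 0) (nat_lit 767157511) (nat_lit 143) (nat_lit 1) (nat_lit 133) (nat_lit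 1) (nat_lit 132) (nat_lit 1) (nat_lit 271) (nat_lit 229) (nat_lit 220)))) (XT.nd (nat_lit 188) (nat_lit 588) (nat_lit 0) (XT.nd (nat_lit 94) (nat_lit 840) (nat_lit 0) (XT.lf (nat_lit 84) (nat_lit 119266074) (nat_lit 0) (nat_lit 1638888367) (nat_lit 840) (nat_lit 119266074) (nat_lit 134) (nat_lit 1) (nat_lit 133) (nat_lit 1) (nat_lit 143) (nat_lit 1) (nat_lit 272) (nat_lit 229) (nat_lit 219)) (XT.lf (nat_lit 924) (nat_lit 72033742) (nat_lit 0) (nat_lit 881828482) (nat_lit 840) (nat_lit 881828482) (nat_lit 134) (nat_lit 1) (nat_lit 123) (nat_lit 1) (nat_lit 133) (nat_lit 1) (nat_lit 273) (nat_lit 229) (nat_lit 218))) (XT.nd (nat_lit 94) (nat_lit 0) (nat_lit 0) (XT.lf (nat_lit 588) (nat_lit 1709451433) (nat_lit 0) (nat_lit 43151128) (nat_lit 504) (nat_lit 43151128) (nat_lit 123) (nat_lit 1) (nat_lit 116) (nat_lit 1) (nat_lit 122) (nat_lit 1) (nat_lit 274) (nat_lit 229) (nat_lit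 217)) (XT.lf (nat_lit 84) (nat_lit 747369191) (nat_lit 0) (nat_lit 261592032) (nat_lit 588) (nat_lit 747369191) (nat_lit 117) (nat_lit 1) (nat_lit 116) (nat_lit 1) (nat_lit 123) (nat_lit 1) (nat_lit 275) (nat_lit 229) (nat_lit 216))))) (XT.nd (nat_lit 282) (nat_lit 756) (nat_lit 0) (XT.nd (nat_lit 94) (nat_lit 420) (nat_lit 0) (XT.lf (nat_lit 504) (nat_lit 1286030537) (nat_lit 0) (nat_lit 216276493) (nat_lit 420) (nat_lit 216276493) (nat_lit 117) (nat_lit 1) (nat_lit 111) (nat_lit 1) (nat_lit 116) (nat_lit 1) (nat_lit 276) (nat_lit 229) (nat_lit 215)) (XT.nd (nat_lit 94) (nat_lit 420) (nat_lit 0) (XT.lf (nat_lit 84) (nat_lit 533089346) (nat_lit 0) (nat_lit 615451482) (nat_lit 504) (nat_lit 533089346) (nat_lit 112) (nat_lit 1) (nat_lit 111) (nat_lit 1) (nat_lit 117) (nat_lit 1) (nat_lit 277) (nat_lit 229) (nat_lit 214)) (XT.lf (nat_lit 504) (nat_lit 846869346) (nat_lit 0)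 (nat_lit 399547233) (nat_lit 420) (nat_lit 399547233) (nat_lit 112) (nat_lit 1) (nat_lit 106) (nat_lit 1) (nat_lit 111) (nat_lit 1) (nat_lit 278) (nat_lit 229) (nat_lit 213)))) (XT.nd (nat_lit 188) (nat_lit 420) (nat_lit 0) (XT.nd (nat_lit 94) (nat_lit 336) (nat_lit 0) (XT.lf (nat_lit 84) (nat_lit 312060099) (nat_lit 0) (nat_lit 987214551) (nat_lit 504) (nat_lit 312060099) (nat_lit 107) (nat_lit 1) (nat_lit 106) (nat_lit 1) (nat_lit 112) (nat_lit 1) (nat_lit 279) (nat_lit 229) (nat_lit 212)) (XT.lf (nat_lit 420) (nat_lit 396055337) (nat_lit 0) (nat_lit 590770561) (nat_lit 336) (nat_lit 590770561) (nat_lit 107) (nat_lit 1) (nat_lit 102) (nat_lit 1) (nat_lit 106) (nat_lit 1) (nat_lit 280) (nat_lit 229) (nat_lit 211))) (XT.nd (nat_lit 94) (nat_lit 420) (nat_lit 0) (XT.lf (nat_lit 84) (nat_lit 86178998) (nat_lit 0) (nat_lit 1372797581) (nat_lit 420) (nat_lit 86178998) (nat_lit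 103) (nat_lit 1) (nat_lit 102) (nat_lit 1) (nat_lit 107) (nat_lit 1) (nat_lit 281) (nat_lit 229) (nat_lit 210)) (XT.lf (nat_lit 84) (nat_lit 726169006) (nat_lit 0) (nat_lit 60818064) (nat_lit 420) (nat_lit 726169006) (nat_lit 98) (nat_lit 1) (nat_lit 97) (nat_lit 1) (nat_lit 102) (nat_lit 1) (nat_lit 282) (nat_lit 229) (nat_lit 209))))))) (XT.nd (nat_lit 1222) (nat_lit 1680) (nat_lit 0) (XT.nd (nat_lit 564) (nat_lit 1092) (nat_lit 0) (XT.nd (nat_lit 282) (nat_lit 672) (nat_lit 0) (XT.nd (nat_lit 94) (nat_lit 336) (nat_lit 0) (XT.lf (nat_lit 420) (nat_lit 1201198055) (nat_lit 0) (nat_lit 140588571) (nat_lit 336) (nat_lit 140588571) (nat_lit 98) (nat_lit 1) (nat_lit 93) (nat_lit 1) (nat_lit 97) (nat_lit 1) (nat_lit 283) (nat_lit 229) (nat_lit 208)) (XT.nd (nat_lit 94) (nat_lit 336) (nat_lit 0) (XT.lf (nat_lit 84) (nat_lit 471162685) (nat_lit 0) (nat_lit 509796998) (nat_lit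 420) (nat_lit 471162685) (nat_lit 94) (nat_lit 1) (nat_lit 93) (nat_lit 1) (nat_lit 98) (nat_lit 1) (nat_lit 284) (nat_lit 229) (nat_lit 207)) (XT.lf (nat_lit 420) (nat_lit 687557425) (nat_lit 0) (nat_lit 367680588) (nat_lit 336) (nat_lit 367680588) (nat_lit 94) (nat_lit 1) (nat_lit 89) (nat_lit 1) (nat_lit 93) (nat_lit 1) (nat_lit 285) (nat_lit 229) (nat_lit 206)))) (XT.nd (nat_lit 94) (nat_lit 672) (nat_lit 0) (XT.lf (nat_lit 84) (nat_lit 216824926) (nat_lit 0) (nat_lit 960918903) (nat_lit 420) (nat_lit 216824926) (nat_lit 90) (nat_lit 1) (nat_lit 89) (nat_lit 1) (nat_lit 94) (nat_lit 1) (nat_lit 286) (nat_lit 229) (nat_lit 205)) (XT.nd (nat_lit 94) (nat_lit 420) (nat_lit 0) (XT.lf (nat_lit 336) (nat_lit 176334426) (nat_lit 0) (nat_lit 595248222) (nat_lit 252) (nat_lit 595248222) (nat_lit 90) (nat_lit 1) (nat_lit 86) (nat_lit 1) (nat_lit 89) (nat_lit 1) (nat_lit 287) (nat_lit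 229) (nat_lit 204)) (XT.lf (nat_lit 420) (nat_lit 1269699944) (nat_lit 0) (nat_lit 35231737) (nat_lit 336) (nat_lit 35231737) (nat_lit 86) (nat_lit 1) (nat_lit 81) (nat_lit 1) (nat_lit 85) (nat_lit 1) (nat_lit 288) (nat_lit 229) (nat_lit 203))))) (XT.nd (nat_lit 282) (nat_lit 840) (nat_lit 0) (XT.nd (nat_lit 94) (nat_lit 252) (nat_lit 0) (XT.lf (nat_lit 84) (nat_lit 496842975) (nat_lit 0) (nat_lit 319957618) (nat_lit 420) (nat_lit 496842975) (nat_lit 82) (nat_lit 1) (nat_lit 81) (nat_lit 1) (nat_lit 86) (nat_lit 1) (nat_lit 289) (nat_lit 229) (nat_lit 202)) (XT.nd (nat_lit 94) (nat_lit 0) (nat_lit 0) (XT.lf (nat_lit 336) (nat_lit 725654872) (nat_lit 0) (nat_lit 281242976) (nat_lit 252) (nat_lit 281242976) (nat_lit 82) (nat_lit 1) (nat_lit 78) (nat_lit 1) (nat_lit 81) (nat_lit 1) (nat_lit 290) (nat_lit 229) (nat_lit 201)) (XT.lf (nat_lit 84) (nat_lit 229245599) (nat_lit 0)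 (nat_lit 804794824) (nat_lit 336) (nat_lit 229245599) (nat_lit 79) (nat_lit 1) (nat_lit 78) (nat_lit 1) (nat_lit 82) (nat_lit 1) (nat_lit 291) (nat_lit 229) (nat_lit 200)))) (XT.nd (nat_lit 188) (nat_lit 252) (nat_lit 0) (XT.nd (nat_lit 94) (nat_lit 336) (nat_lit 0) (XT.lf (nat_lit 336) (nat_lit 191069041) (nat_lit 0) (nat_lit 523963809) (nat_lit 252) (nat_lit 523963809) (nat_lit 79) (nat_lit 1) (nat_lit 75) (nat_lit 1) (nat_lit 78) (nat_lit 1) (nat_lit 292) (nat_lit 229) (nat_lit 199)) (XT.lf (nat_lit 336) (nat_lit 1149935301) (nat_lit 0) (nat_lit 32837188) (nat_lit 252) (nat_lit 32837188) (nat_lit 75) (nat_lit 1) (nat_lit 71) (nat_lit 1) (nat_lit 74) (nat_lit 1) (nat_lit 293) (nat_lit 229) (nat_lit 198))) (XT.nd (nat_lit 94) (nat_lit 252) (nat_lit 0) (XT.lf (nat_lit 84) (nat_lit 434987592) (nat_lit 0) (nat_lit 322321438) (nat_lit 336) (nat_lit 434987592) (nat_lit 72) (nat_lit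 1) (nat_lit 71) (nat_lit 1) (nat_lit 75) (nat_lit 1) (nat_lit 294) (nat_lit 229) (nat_lit 197)) (XT.lf (nat_lit 336) (nat_lit 598147769) (nat_lit 0) (nat_lit 285849192) (nat_lit 252) (nat_lit 285849192) (nat_lit 72) (nat_lit 1) (nat_lit 68) (nat_lit 1) (nat_lit 71) (nat_lit 1) (nat_lit 295) (nat_lit 229) (nat_lit 196)))))) (XT.nd (nat_lit 658) (nat_lit 756) (nat_lit 0) (XT.nd (nat_lit 282) (nat_lit 420) (nat_lit 0) (XT.nd (nat_lit 94) (nat_lit 504) (nat_lit 0) (XT.lf (nat_lit 84) (nat_lit 164729407) (nat_lit 0) (nat_lit 818539001) (nat_lit 336) (nat_lit 164729407) (nat_lit 69) (nat_lit 1) (nat_lit 68) (nat_lit 1) (nat_lit 72) (nat_lit 1) (nat_lit 296) (nat_lit 229) (nat_lit 195)) (XT.nd (nat_lit 94) (nat_lit 336) (nat_lit 0) (XT.lf (nat_lit 252) (nat_lit 60362332) (nat_lit 0) (nat_lit 533099433) (nat_lit 168) (nat_lit 533099433) (nat_lit 69) (nat_lit 1) (nat_lit 66) (nat_lit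 1) (nat_lit 68) (nat_lit 1) (nat_lit 297) (nat_lit 229) (nat_lit 194)) (XT.lf (nat_lit 336) (nat_lit 912054598) (nat_lit 0) (nat_lit 96866809) (nat_lit 252) (nat_lit 96866809) (nat_lit 66) (nat_lit 1) (nat_lit 62) (nat_lit 1) (nat_lit 65) (nat_lit 1) (nat_lit 298) (nat_lit 229) (nat_lit 193)))) (XT.nd (nat_lit 188) (nat_lit 252) (nat_lit 0) (XT.nd (nat_lit 94) (nat_lit 168) (nat_lit 0) (XT.lf (nat_lit 84) (nat_lit 318559021) (nat_lit 0) (nat_lit 448129517) (nat_lit 336) (nat_lit 318559021) (nat_lit 63) (nat_lit 1) (nat_lit 62) (nat_lit 1) (nat_lit 66) (nat_lit 1) (nat_lit 299) (nat_lit 229) (nat_lit 192)) (XT.lf (nat_lit 252) (nat_lit 368045809) (nat_lit 0) (nat_lit 348647518) (nat_lit 168) (nat_lit 348647518) (nat_lit 63) (nat_lit 1) (nat_lit 60) (nat_lit 1) (nat_lit 62) (nat_lit 1) (nat_lit 300) (nat_lit 229) (nat_lit 191))) (XT.nd (nat_lit 94) (nat_lit 252) (nat_lit 0)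 (XT.lf (nat_lit 84) (nat_lit 52876500) (nat_lit 0) (nat_lit 940341756) (nat_lit 252) (nat_lit 52876500) (nat_lit 61) (nat_lit 1) (nat_lit 60) (nat_lit 1) (nat_lit 63) (nat_lit 1) (nat_lit 301) (nat_lit 229) (nat_lit 190)) (XT.lf (nat_lit 84) (nat_lit 436399038) (nat_lit 0) (nat_lit 154120553) (nat_lit 252) (nat_lit 436399038) (nat_lit 58) (nat_lit 1) (nat_lit 57) (nat_lit 1) (nat_lit 60) (nat_lit 1) (nat_lit 302) (nat_lit 229) (nat_lit 189))))) (XT.nd (nat_lit 282) (nat_lit 420) (nat_lit 0) (XT.nd (nat_lit 94) (nat_lit 168) (nat_lit 0) (XT.lf (nat_lit 252) (nat_lit 606016550) (nat_lit 0) (nat_lit 201181075) (nat_lit 168) (nat_lit 201181075) (nat_lit 58) (nat_lit 1) (nat_lit 55) (nat_lit 1) (nat_lit 57) (nat_lit 1) (nat_lit 303) (nat_lit 229) (nat_lit 188)) (XT.nd (nat_lit 94) (nat_lit 168) (nat_lit 0) (XT.lf (nat_lit 84) (nat_lit 171002104) (nat_lit 0) (nat_lit 648244336)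 (nat_lit 252) (nat_lit 171002104) (nat_lit 56) (nat_lit 1) (nat_lit 55) (nat_lit 1) (nat_lit 58) (nat_lit 1) (nat_lit 304) (nat_lit 229) (nat_lit 187)) (XT.lf (nat_lit 252) (nat_lit 80108329) (nat_lit 0) (nat_lit 446187758) (nat_lit 168) (nat_lit 446187758) (nat_lit 56) (nat_lit 1) (nat_lit 53) (nat_lit 1) (nat_lit 55) (nat_lit 1) (nat_lit 305) (nat_lit 229) (nat_lit 186)))) (XT.nd (nat_lit 188) (nat_lit 168) (nat_lit 0) (XT.nd (nat_lit 94) (nat_lit 0) (nat_lit 0) (XT.lf (nat_lit 252) (nat_lit 787356413) (nat_lit 0) (nat_lit 83938739) (nat_lit 168) (nat_lit 83938739) (nat_lit 53) (nat_lit 1) (nat_lit 50) (nat_lit 1) (nat_lit 52) (nat_lit 1) (nat_lit 306) (nat_lit 229) (nat_lit 185)) (XT.lf (nat_lit 84) (nat_lit 262112879) (nat_lit 0) (nat_lit 413905407) (nat_lit 252) (nat_lit 262112879) (nat_lit 51) (nat_lit 1) (nat_lit 50) (nat_lit 1) (nat_lit 53) (nat_lit 1) (nat_lit 307)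 (nat_lit 229) (nat_lit 184))) (XT.nd (nat_lit 94) (nat_lit 0) (nat_lit 0) (XT.lf (nat_lit 252) (nat_lit 266949242) (nat_lit 0) (nat_lit 327287856) (nat_lit 168) (nat_lit 327287856) (nat_lit 51) (nat_lit 1) (nat_lit 48) (nat_lit 1) (nat_lit 50) (nat_lit 1) (nat_lit 308) (nat_lit 229) (nat_lit 183)) (XT.lf (nat_lit 84) (nat_lit 8773885) (nat_lit 0) (nat_lit 887953354) (nat_lit 252) (nat_lit 8773885) (nat_lit 49) (nat_lit 1) (nat_lit 48) (nat_lit 1) (nat_lit 51) (nat_lit 1) (nat_lit 309) (nat_lit 229) (nat_lit 182))))))))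
noncomputable def ec13 : XT := (XT.nd (nat_lit 41924) (nat_lit 0) (nat_lit 1932) (XT.nd (nat_lit 40608) (nat_lit 0) (nat_lit 6636) (XT.nd (nat_lit 564) (nat_lit 672) (nat_lit 0) (XT.nd (nat_lit 282) (nat_lit 336) (nat_lit 0) (XT.nd (nat_lit 94) (nat_lit 168) (nat_lit 0) (XT.lf (nat_lit 84) (nat_lit 331287605) (nat_lit 0) (nat_lit 226800228) (nat_lit 168) (nat_lit 331287605) (nat_lit 47) (nat_lit 1) (nat_lit 46) (nat_lit 1) (nat_lit 48) (nat_lit 1) (nat_lit 310) (nat_lit 229) (nat_lit 181)) (XT.nd (nat_lit 94) (nat_lit 0) (nat_lit 0) (XT.lf (nat_lit 252) (nat_lit 411090203) (nat_lit 0) (nat_lit 231363466) (nat_lit 168) (nat_lit 231363466) (nat_lit 47) (nat_lit 1) (nat_lit 44) (nat_lit 1) (nat_lit 46) (nat_lit 1) (nat_lit 311) (nat_lit 229) (nat_lit 180)) (XT.lf (nat_lit 84) (nat_lit 82420744) (nat_lit 0) (nat_lit 693837301) (nat_lit 252) (nat_lit 82420744) (nat_lit 45) (nat_lit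 1) (nat_lit 44) (nat_lit 1) (nat_lit 47) (nat_lit 1) (nat_lit 312) (nat_lit 229) (nat_lit 179)))) (XT.nd (nat_lit 94) (nat_lit 168) (nat_lit 0) (XT.lf (nat_lit 84) (nat_lit 382690837) (nat_lit 0) (nat_lit 78283610) (nat_lit 168) (nat_lit 382690837) (nat_lit 43) (nat_lit 1) (nat_lit 42) (nat_lit 1) (nat_lit 44) (nat_lit 1) (nat_lit 313) (nat_lit 229) (nat_lit 178)) (XT.nd (nat_lit 94) (nat_lit 0) (nat_lit 0) (XT.lf (nat_lit 252) (nat_lit 520557690) (nat_lit 0) (nat_lit 154250854) (nat_lit 168) (nat_lit 154250854) (nat_lit 43) (nat_lit 1) (nat_lit 40) (nat_lit 1) (nat_lit 42) (nat_lit 1) (nat_lit 314) (nat_lit 229) (nat_lit 177)) (XT.lf (nat_lit 84) (nat_lit 139429129) (nat_lit 0) (nat_lit 535884407) (nat_lit 252) (nat_lit 139429129) (nat_lit 41) (nat_lit 1) (nat_lit 40) (nat_lit 1) (nat_lit 43) (nat_lit 1) (nat_lit 315) (nat_lit 229) (nat_lit 176))))) (XT.nd (nat_lit 282)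 (nat_lit 336) (nat_lit 0) (XT.nd (nat_lit 94) (nat_lit 252) (nat_lit 0) (XT.lf (nat_lit 168) (nat_lit 40025025) (nat_lit 0) (nat_lit 380335534) (nat_lit 84) (nat_lit 380335534) (nat_lit 41) (nat_lit 1) (nat_lit 39) (nat_lit 1) (nat_lit 40) (nat_lit 1) (nat_lit 316) (nat_lit 229) (nat_lit 175)) (XT.nd (nat_lit 94) (nat_lit 0) (nat_lit 0) (XT.lf (nat_lit 252) (nat_lit 601933398) (nat_lit 0) (nat_lit 92528806) (nat_lit 168) (nat_lit 92528806) (nat_lit 39) (nat_lit 1) (nat_lit 36) (nat_lit 1) (nat_lit 38) (nat_lit 1) (nat_lit 317) (nat_lit 229) (nat_lit 174)) (XT.lf (nat_lit 84) (nat_lit 182919526) (nat_lit 0) (nat_lit 407599849) (nat_lit 252) (nat_lit 182919526) (nat_lit 37) (nat_lit 1) (nat_lit 36) (nat_lit 1) (nat_lit 39) (nat_lit 1) (nat_lit 318) (nat_lit 229) (nat_lit 173)))) (XT.nd (nat_lit 188) (nat_lit 0) (nat_lit 0) (XT.nd (nat_lit 94) (nat_lit 252) (nat_lit 0) (XT.lf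 (nat_lit 168) (nat_lit 134413103) (nat_lit 0) (nat_lit 312902985) (nat_lit 84) (nat_lit 312902985) (nat_lit 37) (nat_lit 1) (nat_lit 35) (nat_lit 1) (nat_lit 36) (nat_lit 1) (nat_lit 319) (nat_lit 229) (nat_lit 172)) (XT.lf (nat_lit 252) (nat_lit 660611428) (nat_lit 0) (nat_lit 43386769) (nat_lit 168) (nat_lit 43386769) (nat_lit 35) (nat_lit 1) (nat_lit 32) (nat_lit 1) (nat_lit 34) (nat_lit 1) (nat_lit 320) (nat_lit 229) (nat_lit 171))) (XT.nd (nat_lit 39480) (nat_lit 0) (nat_lit 8064) (XT.lf (nat_lit 84) (nat_lit 215451048) (nat_lit 0) (nat_lit 303644281) (nat_lit 252) (nat_lit 215451048) (nat_lit 33) (nat_lit 1) (nat_lit 32) (nat_lit 1) (nat_lit 35) (nat_lit 1) (nat_lit 321) (nat_lit 229) (nat_lit 170)) (XT.lf (nat_lit 924) (nat_lit 329880533) (nat_lit 0) (nat_lit 585702128) (nat_lit 924) (nat_lit 329880533) (nat_lit 139) (nat_lit 1) (nat_lit 128) (nat_lit 0) (nat_lit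 139) (nat_lit 0) (nat_lit 260) (nat_lit 230) (nat_lit 230)))))) (XT.nd (nat_lit 658) (nat_lit 1428) (nat_lit 0) (XT.nd (nat_lit 282) (nat_lit 0) (nat_lit 168) (XT.nd (nat_lit 94) (nat_lit 0) (nat_lit 84) (XT.lf (nat_lit 924) (nat_lit 1278658131) (nat_lit 84) (nat_lit 576255320) (nat_lit 0) (nat_lit 576255320) (nat_lit 139) (nat_lit 1) (nat_lit 129) (nat_lit 1) (nat_lit 128) (nat_lit 0) (nat_lit 261) (nat_lit 230) (nat_lit 229)) (XT.nd (nat_lit 94) (nat_lit 0) (nat_lit 0) (XT.lf (nat_lit 924) (nat_lit 609389212) (nat_lit 0) (nat_lit 1154480156) (nat_lit 840) (nat_lit 609389212) (nat_lit 140) (nat_lit 1) (nat_lit 129) (nat_lit 1) (nat_lit 139) (nat_lit 1) (nat_lit 262) (nat_lit 230) (nat_lit 228)) (XT.lf (nat_lit 924) (nat_lit 1143129486) (nat_lit 84) (nat_lit 587044918) (nat_lit 0) (nat_lit 587044918) (nat_lit 140) (nat_lit 1) (nat_lit 130) (nat_lit 1) (nat_lit 129) (nat_lit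 1) (nat_lit 263) (nat_lit 230) (nat_lit 227)))) (XT.nd (nat_lit 188) (nat_lit 0) (nat_lit 84) (XT.nd (nat_lit 94) (nat_lit 0) (nat_lit 0) (XT.lf (nat_lit 924) (nat_lit 526171525) (nat_lit 0) (nat_lit 1210613176) (nat_lit 840) (nat_lit 526171525) (nat_lit 141) (nat_lit 1) (nat_lit 130) (nat_lit 1) (nat_lit 140) (nat_lit 1) (nat_lit 264) (nat_lit 230) (nat_lit 226)) (XT.lf (nat_lit 924) (nat_lit 946353758) (nat_lit 84) (nat_lit 631996759) (nat_lit 0) (nat_lit 631996759) (nat_lit 141) (nat_lit 1) (nat_lit 131) (nat_lit 1) (nat_lit 130) (nat_lit 1) (nat_lit 265) (nat_lit 230) (nat_lit 225))) (XT.nd (nat_lit 94) (nat_lit 0) (nat_lit 0) (XT.lf (nat_lit 924) (nat_lit 414948789) (nat_lit 0) (nat_lit 1329607174) (nat_lit 840) (nat_lit 414948789) (nat_lit 142) (nat_lit 1) (nat_lit 131) (nat_lit 1) (nat_lit 141) (nat_lit 1) (nat_lit 266) (nat_lit 230) (nat_lit 224)) (XT.lf (nat_lit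 924) (nat_lit 697541656) (nat_lit 84) (nat_lit 706260221) (nat_lit 0) (nat_lit 706260221) (nat_lit 142) (nat_lit 1) (nat_lit 132) (nat_lit 1) (nat_lit 131) (nat_lit 1) (nat_lit 267) (nat_lit 230) (nat_lit 223))))) (XT.nd (nat_lit 282) (nat_lit 1764) (nat_lit 0) (XT.nd (nat_lit 94) (nat_lit 0) (nat_lit 0) (XT.lf (nat_lit 924) (nat_lit 280026643) (nat_lit 0) (nat_lit 1502376041) (nat_lit 840) (nat_lit 280026643) (nat_lit 143) (nat_lit 1) (nat_lit 132) (nat_lit 1) (nat_lit 142) (nat_lit 1) (nat_lit 268) (nat_lit 230) (nat_lit 222)) (XT.nd (nat_lit 94) (nat_lit 0) (nat_lit 84) (XT.lf (nat_lit 924) (nat_lit 404880111) (nat_lit 84) (nat_lit 805515387) (nat_lit 0) (nat_lit 805515387) (nat_lit 143) (nat_lit 1) (nat_lit 133) (nat_lit 1) (nat_lit 132) (nat_lit 1) (nat_lit 269) (nat_lit 230) (nat_lit 221)) (XT.lf (nat_lit 84) (nat_lit 125229377) (nat_lit 0) (nat_lit 1720832785) (nat_lit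 840) (nat_lit 125229377) (nat_lit 134) (nat_lit 1) (nat_lit 133) (nat_lit 1) (nat_lit 143) (nat_lit 1) (nat_lit 270) (nat_lit 230) (nat_lit 220)))) (XT.nd (nat_lit 188) (nat_lit 420) (nat_lit 0) (XT.nd (nat_lit 94) (nat_lit 588) (nat_lit 0) (XT.lf (nat_lit 924) (nat_lit 75635429) (nat_lit 0) (nat_lit 925919906) (nat_lit 840) (nat_lit 925919906) (nat_lit 134) (nat_lit 1) (nat_lit 123) (nat_lit 1) (nat_lit 133) (nat_lit 1) (nat_lit 271) (nat_lit 230) (nat_lit 219)) (XT.lf (nat_lit 588) (nat_lit 1794924005) (nat_lit 0) (nat_lit 45308684) (nat_lit 504) (nat_lit 45308684) (nat_lit 123) (nat_lit 1) (nat_lit 116) (nat_lit 1) (nat_lit 122) (nat_lit 1) (nat_lit 272) (nat_lit 230) (nat_lit 218))) (XT.nd (nat_lit 94) (nat_lit 420) (nat_lit 0) (XT.lf (nat_lit 84) (nat_lit 784737651) (nat_lit 0) (nat_lit 274671633) (nat_lit 588) (nat_lit 784737651) (nat_lit 117) (nat_lit 1) (nat_lit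 116) (nat_lit 1) (nat_lit 123) (nat_lit 1) (nat_lit 273) (nat_lit 230) (nat_lit 217)) (XT.lf (nat_lit 504) (nat_lit 1350332064) (nat_lit 0) (nat_lit 227090317) (nat_lit 420) (nat_lit 227090317) (nat_lit 117) (nat_lit 1) (nat_lit 111) (nat_lit 1) (nat_lit 116) (nat_lit 1) (nat_lit 274) (nat_lit 230) (nat_lit 216))))))) (XT.nd (nat_lit 1316) (nat_lit 1932) (nat_lit 0) (XT.nd (nat_lit 658) (nat_lit 1260) (nat_lit 0) (XT.nd (nat_lit 282) (nat_lit 1092) (nat_lit 0) (XT.nd (nat_lit 94) (nat_lit 420) (nat_lit 0) (XT.lf (nat_lit 84) (nat_lit 559743813) (nat_lit 0) (nat_lit 646224057) (nat_lit 504) (nat_lit 559743813) (nat_lit 112) (nat_lit 1) (nat_lit 111) (nat_lit 1) (nat_lit 117) (nat_lit 1) (nat_lit 275) (nat_lit 230) (nat_lit 215)) (XT.nd (nat_lit 94) (nat_lit 0) (nat_lit 0) (XT.lf (nat_lit 504) (nat_lit 889212813) (nat_lit 0) (nat_lit 419524595) (nat_lit 420) (nat_lit 419524595)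 (nat_lit 112) (nat_lit 1) (nat_lit 106) (nat_lit 1) (nat_lit 111) (nat_lit 1) (nat_lit 276) (nat_lit 230) (nat_lit 214)) (XT.lf (nat_lit 84) (nat_lit 327663104) (nat_lit 0) (nat_lit 1036575279) (nat_lit 504) (nat_lit 327663104) (nat_lit 107) (nat_lit 1) (nat_lit 106) (nat_lit 1) (nat_lit 112) (nat_lit 1) (nat_lit 277) (nat_lit 230) (nat_lit 213)))) (XT.nd (nat_lit 188) (nat_lit 756) (nat_lit 0) (XT.nd (nat_lit 94) (nat_lit 0) (nat_lit 0) (XT.lf (nat_lit 420) (nat_lit 415858104) (nat_lit 0) (nat_lit 620309089) (nat_lit 336) (nat_lit 620309089) (nat_lit 107) (nat_lit 1) (nat_lit 102) (nat_lit 1) (nat_lit 106) (nat_lit 1) (nat_lit 278) (nat_lit 230) (nat_lit 212)) (XT.lf (nat_lit 84) (nat_lit 90487948) (nat_lit 0) (nat_lit 1441437460) (nat_lit 420) (nat_lit 90487948) (nat_lit 103) (nat_lit 1) (nat_lit 102) (nat_lit 1) (nat_lit 107) (nat_lit 1) (nat_lit 279) (nat_lit 230) (nat_lit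 211))) (XT.nd (nat_lit 94) (nat_lit 336) (nat_lit 0) (XT.lf (nat_lit 84) (nat_lit 762477457) (nat_lit 0) (nat_lit 63858968) (nat_lit 420) (nat_lit 762477457) (nat_lit 98) (nat_lit 1) (nat_lit 97) (nat_lit 1) (nat_lit 102) (nat_lit 1) (nat_lit 280) (nat_lit 230) (nat_lit 210)) (XT.lf (nat_lit 420) (nat_lit 1261257958) (nat_lit 0) (nat_lit 147617999) (nat_lit 336) (nat_lit 147617999) (nat_lit 98) (nat_lit 1) (nat_lit 93) (nat_lit 1) (nat_lit 97) (nat_lit 1) (nat_lit 281) (nat_lit 230) (nat_lit 209))))) (XT.nd (nat_lit 282) (nat_lit 924) (nat_lit 0) (XT.nd (nat_lit 94) (nat_lit 336) (nat_lit 0) (XT.lf (nat_lit 84) (nat_lit 494720819) (nat_lit 0) (nat_lit 535286848) (nat_lit 420) (nat_lit 494720819) (nat_lit 94) (nat_lit 1) (nat_lit 93) (nat_lit 1) (nat_lit 98) (nat_lit 1) (nat_lit 282) (nat_lit 230) (nat_lit 208)) (XT.nd (nat_lit 94) (nat_lit 0) (nat_lit 0) (XT.lf (nat_lit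 420) (nat_lit 721935296) (nat_lit 0) (nat_lit 386064618) (nat_lit 336) (nat_lit 386064618) (nat_lit 94) (nat_lit 1) (nat_lit 89) (nat_lit 1) (nat_lit 93) (nat_lit 1) (nat_lit 283) (nat_lit 230) (nat_lit 207)) (XT.lf (nat_lit 84) (nat_lit 227666173) (nat_lit 0) (nat_lit 1008964848) (nat_lit 420) (nat_lit 227666173) (nat_lit 90) (nat_lit 1) (nat_lit 89) (nat_lit 1) (nat_lit 94) (nat_lit 1) (nat_lit 284) (nat_lit 230) (nat_lit 206)))) (XT.nd (nat_lit 188) (nat_lit 252) (nat_lit 0) (XT.nd (nat_lit 94) (nat_lit 420) (nat_lit 0) (XT.lf (nat_lit 336) (nat_lit 185151147) (nat_lit 0) (nat_lit 625010633) (nat_lit 252) (nat_lit 625010633) (nat_lit 90) (nat_lit 1) (nat_lit 86) (nat_lit 1) (nat_lit 89) (nat_lit 1) (nat_lit 285) (nat_lit 230) (nat_lit 205)) (XT.lf (nat_lit 420) (nat_lit 1333184942) (nat_lit 0) (nat_lit 36993324) (nat_lit 336) (nat_lit 36993324) (nat_lit 86) (nat_lit 1)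 (nat_lit 81) (nat_lit 1) (nat_lit 85) (nat_lit 1) (nat_lit 286) (nat_lit 230) (nat_lit 204))) (XT.nd (nat_lit 94) (nat_lit 252) (nat_lit 0) (XT.lf (nat_lit 84) (nat_lit 521685123) (nat_lit 0) (nat_lit 335955499) (nat_lit 420) (nat_lit 521685123) (nat_lit 82) (nat_lit 1) (nat_lit 81) (nat_lit 1) (nat_lit 86) (nat_lit 1) (nat_lit 287) (nat_lit 230) (nat_lit 203)) (XT.lf (nat_lit 336) (nat_lit 761937616) (nat_lit 0) (nat_lit 295305125) (nat_lit 252) (nat_lit 295305125) (nat_lit 82) (nat_lit 1) (nat_lit 78) (nat_lit 1) (nat_lit 81) (nat_lit 1) (nat_lit 288) (nat_lit 230) (nat_lit 202)))))) (XT.nd (nat_lit 658) (nat_lit 924) (nat_lit 0) (XT.nd (nat_lit 282) (nat_lit 420) (nat_lit 0) (XT.nd (nat_lit 94) (nat_lit 588) (nat_lit 0) (XT.lf (nat_lit 84) (nat_lit 240707878) (nat_lit 0) (nat_lit 845034565) (nat_lit 336) (nat_lit 240707878) (nat_lit 79) (nat_lit 1) (nat_lit 78) (nat_lit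 1) (nat_lit 82) (nat_lit 1) (nat_lit 289) (nat_lit 230) (nat_lit 201)) (XT.nd (nat_lit 94) (nat_lit 336) (nat_lit 0) (XT.lf (nat_lit 336) (nat_lit 200622493) (nat_lit 0) (nat_lit 550161999) (nat_lit 252) (nat_lit 550161999) (nat_lit 79) (nat_lit 1) (nat_lit 75) (nat_lit 1) (nat_lit 78) (nat_lit 1) (nat_lit 290) (nat_lit 230) (nat_lit 200)) (XT.lf (nat_lit 336) (nat_lit 1207432066) (nat_lit 0) (nat_lit 34479047) (nat_lit 252) (nat_lit 34479047) (nat_lit 75) (nat_lit 1) (nat_lit 71) (nat_lit 1) (nat_lit 74) (nat_lit 1) (nat_lit 291) (nat_lit 230) (nat_lit 199)))) (XT.nd (nat_lit 188) (nat_lit 168) (nat_lit 0) (XT.nd (nat_lit 94) (nat_lit 252) (nat_lit 0) (XT.lf (nat_lit 84) (nat_lit 456736971) (nat_lit 0) (nat_lit 338437510) (nat_lit 336) (nat_lit 456736971) (nat_lit 72) (nat_lit 1) (nat_lit 71) (nat_lit 1) (nat_lit 75) (nat_lit 1) (nat_lit 292) (nat_lit 230) (nat_lit 198))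 (XT.lf (nat_lit 336) (nat_lit 628055157) (nat_lit 0) (nat_lit 300141652) (nat_lit 252) (nat_lit 300141652) (nat_lit 72) (nat_lit 1) (nat_lit 68) (nat_lit 1) (nat_lit 71) (nat_lit 1) (nat_lit 293) (nat_lit 230) (nat_lit 197))) (XT.nd (nat_lit 94) (nat_lit 168) (nat_lit 0) (XT.lf (nat_lit 84) (nat_lit 172965878) (nat_lit 0) (nat_lit 859465951) (nat_lit 336) (nat_lit 172965878) (nat_lit 69) (nat_lit 1) (nat_lit 68) (nat_lit 1) (nat_lit 72) (nat_lit 1) (nat_lit 294) (nat_lit 230) (nat_lit 196)) (XT.lf (nat_lit 252) (nat_lit 63380448) (nat_lit 0) (nat_lit 559754405) (nat_lit 168) (nat_lit 559754405) (nat_lit 69) (nat_lit 1) (nat_lit 66) (nat_lit 1) (nat_lit 68) (nat_lit 1) (nat_lit 295) (nat_lit 230) (nat_lit 195))))) (XT.nd (nat_lit 282) (nat_lit 420) (nat_lit 0) (XT.nd (nat_lit 94) (nat_lit 168) (nat_lit 0) (XT.lf (nat_lit 336) (nat_lit 957657328) (nat_lit 0) (nat_lit 101710149)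 (nat_lit 252) (nat_lit 101710149) (nat_lit 66) (nat_lit 1) (nat_lit 62) (nat_lit 1) (nat_lit 65) (nat_lit 1) (nat_lit 296) (nat_lit 230) (nat_lit 194)) (XT.nd (nat_lit 94) (nat_lit 168) (nat_lit 0) (XT.lf (nat_lit 84) (nat_lit 334486972) (nat_lit 0) (nat_lit 470535993) (nat_lit 336) (nat_lit 334486972) (nat_lit 63) (nat_lit 1) (nat_lit 62) (nat_lit 1) (nat_lit 66) (nat_lit 1) (nat_lit 297) (nat_lit 230) (nat_lit 193)) (XT.lf (nat_lit 252) (nat_lit 386448100) (nat_lit 0) (nat_lit 366079893) (nat_lit 168) (nat_lit 366079893) (nat_lit 63) (nat_lit 1) (nat_lit 60) (nat_lit 1) (nat_lit 62) (nat_lit 1) (nat_lit 298) (nat_lit 230) (nat_lit 192)))) (XT.nd (nat_lit 188) (nat_lit 168) (nat_lit 0) (XT.nd (nat_lit 94) (nat_lit 252) (nat_lit 0) (XT.lf (nat_lit 84) (nat_lit 55520325) (nat_lit 0) (nat_lit 987358844) (nat_lit 252) (nat_lit 55520325) (nat_lit 61) (nat_lit 1) (nat_lit 60)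 (nat_lit 1) (nat_lit 63) (nat_lit 1) (nat_lit 299) (nat_lit 230) (nat_lit 191)) (XT.lf (nat_lit 84) (nat_lit 458218990) (nat_lit 0) (nat_lit 161826581) (nat_lit 252) (nat_lit 458218990) (nat_lit 58) (nat_lit 1) (nat_lit 57) (nat_lit 1) (nat_lit 60) (nat_lit 1) (nat_lit 300) (nat_lit 230) (nat_lit 190))) (XT.nd (nat_lit 94) (nat_lit 0) (nat_lit 0) (XT.lf (nat_lit 252) (nat_lit 636317378) (nat_lit 0) (nat_lit 211240129) (nat_lit 168) (nat_lit 211240129) (nat_lit 58) (nat_lit 1) (nat_lit 55) (nat_lit 1) (nat_lit 57) (nat_lit 1) (nat_lit 301) (nat_lit 230) (nat_lit 189)) (XT.lf (nat_lit 84) (nat_lit 179552209) (nat_lit 0) (nat_lit 680656553) (nat_lit 252) (nat_lit 179552209) (nat_lit 56) (nat_lit 1) (nat_lit 55) (nat_lit 1) (nat_lit 58) (nat_lit 1) (nat_lit 302) (nat_lit 230) (nat_lit 188))))))))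
noncomputable def ec14 : XT := (XT.nd (nat_lit 41642) (nat_lit 0) (nat_lit 3360) (XT.nd (nat_lit 1222) (nat_lit 672) (nat_lit 0) (XT.nd (nat_lit 564) (nat_lit 840) (nat_lit 0) (XT.nd (nat_lit 282) (nat_lit 336) (nat_lit 0) (XT.nd (nat_lit 94) (nat_lit 252) (nat_lit 0) (XT.lf (nat_lit 252) (nat_lit 84113745) (nat_lit 0) (nat_lit 468497146) (nat_lit 168) (nat_lit 468497146) (nat_lit 56) (nat_lit 1) (nat_lit 53) (nat_lit 1) (nat_lit 55) (nat_lit 1) (nat_lit 303) (nat_lit 230) (nat_lit 187)) (XT.nd (nat_lit 94) (nat_lit 0) (nat_lit 0) (XT.lf (nat_lit 252) (nat_lit 826724234) (nat_lit 0) (nat_lit 88135676) (nat_lit 168) (nat_lit 88135676) (nat_lit 53) (nat_lit 1) (nat_lit 50) (nat_lit 1) (nat_lit 52) (nat_lit 1) (nat_lit 304) (nat_lit 230) (nat_lit 186)) (XT.lf (nat_lit 84) (nat_lit 275218523) (nat_lit 0) (nat_lit 434600677) (nat_lit 252) (nat_lit 275218523) (nat_lit 51) (nat_lit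 1) (nat_lit 50) (nat_lit 1) (nat_lit 53) (nat_lit 1) (nat_lit 305) (nat_lit 230) (nat_lit 185)))) (XT.nd (nat_lit 94) (nat_lit 168) (nat_lit 0) (XT.lf (nat_lit 252) (nat_lit 280296704) (nat_lit 0) (nat_lit 343652249) (nat_lit 168) (nat_lit 343652249) (nat_lit 51) (nat_lit 1) (nat_lit 48) (nat_lit 1) (nat_lit 50) (nat_lit 1) (nat_lit 306) (nat_lit 230) (nat_lit 184)) (XT.nd (nat_lit 94) (nat_lit 168) (nat_lit 0) (XT.lf (nat_lit 84) (nat_lit 9212579) (nat_lit 0) (nat_lit 932351021) (nat_lit 252) (nat_lit 9212579) (nat_lit 49) (nat_lit 1) (nat_lit 48) (nat_lit 1) (nat_lit 51) (nat_lit 1) (nat_lit 307) (nat_lit 230) (nat_lit 183)) (XT.lf (nat_lit 84) (nat_lit 347851985) (nat_lit 0) (nat_lit 238140240) (nat_lit 168) (nat_lit 347851985) (nat_lit 47) (nat_lit 1) (nat_lit 46) (nat_lit 1) (nat_lit 48) (nat_lit 1) (nat_lit 308) (nat_lit 230) (nat_lit 182))))) (XT.nd (nat_lit 282)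 (nat_lit 504) (nat_lit 0) (XT.nd (nat_lit 94) (nat_lit 168) (nat_lit 0) (XT.lf (nat_lit 252) (nat_lit 431644713) (nat_lit 0) (nat_lit 242931639) (nat_lit 168) (nat_lit 242931639) (nat_lit 47) (nat_lit 1) (nat_lit 44) (nat_lit 1) (nat_lit 46) (nat_lit 1) (nat_lit 309) (nat_lit 230) (nat_lit 181)) (XT.nd (nat_lit 94) (nat_lit 168) (nat_lit 0) (XT.lf (nat_lit 84) (nat_lit 86541781) (nat_lit 0) (nat_lit 728529166) (nat_lit 252) (nat_lit 86541781) (nat_lit 45) (nat_lit 1) (nat_lit 44) (nat_lit 1) (nat_lit 47) (nat_lit 1) (nat_lit 310) (nat_lit 230) (nat_lit 180)) (XT.lf (nat_lit 84) (nat_lit 401825379) (nat_lit 0) (nat_lit 82197790) (nat_lit 168) (nat_lit 401825379) (nat_lit 43) (nat_lit 1) (nat_lit 42) (nat_lit 1) (nat_lit 44) (nat_lit 1) (nat_lit 311) (nat_lit 230) (nat_lit 179)))) (XT.nd (nat_lit 188) (nat_lit 336) (nat_lit 0) (XT.nd (nat_lit 94) (nat_lit 0) (nat_lit 0) (XT.lf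 (nat_lit 252) (nat_lit 546585575) (nat_lit 0) (nat_lit 161963397) (nat_lit 168) (nat_lit 161963397) (nat_lit 43) (nat_lit 1) (nat_lit 40) (nat_lit 1) (nat_lit 42) (nat_lit 1) (nat_lit 312) (nat_lit 230) (nat_lit 178)) (XT.lf (nat_lit 84) (nat_lit 146400585) (nat_lit 0) (nat_lit 562678627) (nat_lit 252) (nat_lit 146400585) (nat_lit 41) (nat_lit 1) (nat_lit 40) (nat_lit 1) (nat_lit 43) (nat_lit 1) (nat_lit 313) (nat_lit 230) (nat_lit 177))) (XT.nd (nat_lit 94) (nat_lit 252) (nat_lit 0) (XT.lf (nat_lit 168) (nat_lit 42026276) (nat_lit 0) (nat_lit 399352310) (nat_lit 84) (nat_lit 399352310) (nat_lit 41) (nat_lit 1) (nat_lit 39) (nat_lit 1) (nat_lit 40) (nat_lit 1) (nat_lit 314) (nat_lit 230) (nat_lit 176)) (XT.lf (nat_lit 252) (nat_lit 632030068) (nat_lit 0) (nat_lit 97155246) (nat_lit 168) (nat_lit 97155246) (nat_lit 39) (nat_lit 1) (nat_lit 36) (nat_lit 1) (nat_lit 38) (nat_lit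 1) (nat_lit 315) (nat_lit 230) (nat_lit 175)))))) (XT.nd (nat_lit 39762) (nat_lit 0) (nat_lit 8400) (XT.nd (nat_lit 282) (nat_lit 336) (nat_lit 0) (XT.nd (nat_lit 94) (nat_lit 336) (nat_lit 0) (XT.lf (nat_lit 84) (nat_lit 192065502) (nat_lit 0) (nat_lit 427979841) (nat_lit 252) (nat_lit 192065502) (nat_lit 37) (nat_lit 1) (nat_lit 36) (nat_lit 1) (nat_lit 39) (nat_lit 1) (nat_lit 316) (nat_lit 230) (nat_lit 174)) (XT.nd (nat_lit 94) (nat_lit 252) (nat_lit 0) (XT.lf (nat_lit 168) (nat_lit 141133758) (nat_lit 0) (nat_lit 328548134) (nat_lit 84) (nat_lit 328548134) (nat_lit 37) (nat_lit 1) (nat_lit 35) (nat_lit 1) (nat_lit 36) (nat_lit 1) (nat_lit 317) (nat_lit 230) (nat_lit 173)) (XT.lf (nat_lit 252) (nat_lit 693641999) (nat_lit 0) (nat_lit 45556108) (nat_lit 168) (nat_lit 45556108) (nat_lit 35) (nat_lit 1) (nat_lit 32) (nat_lit 1) (nat_lit 34) (nat_lit 1) (nat_lit 318) (nat_lit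 230) (nat_lit 172)))) (XT.nd (nat_lit 188) (nat_lit 252) (nat_lit 0) (XT.nd (nat_lit 94) (nat_lit 84) (nat_lit 0) (XT.lf (nat_lit 84) (nat_lit 226223600) (nat_lit 0) (nat_lit 318826495) (nat_lit 252) (nat_lit 226223600) (nat_lit 33) (nat_lit 1) (nat_lit 32) (nat_lit 1) (nat_lit 35) (nat_lit 1) (nat_lit 319) (nat_lit 230) (nat_lit 171)) (XT.lf (nat_lit 168) (nat_lit 217595507) (nat_lit 0) (nat_lit 270297363) (nat_lit 84) (nat_lit 270297363) (nat_lit 33) (nat_lit 1) (nat_lit 31) (nat_lit 1) (nat_lit 32) (nat_lit 1) (nat_lit 320) (nat_lit 230) (nat_lit 170))) (XT.nd (nat_lit 94) (nat_lit 0) (nat_lit 0) (XT.lf (nat_lit 252) (nat_lit 736060321) (nat_lit 0) (nat_lit 4742214) (nat_lit 168) (nat_lit 4742214) (nat_lit 31) (nat_lit 1) (nat_lit 28) (nat_lit 1) (nat_lit 30) (nat_lit 1) (nat_lit 321) (nat_lit 230) (nat_lit 169)) (XT.lf (nat_lit 84) (nat_lit 251077417) (nat_lit 0) (nat_lit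 230610224) (nat_lit 252) (nat_lit 251077417) (nat_lit 29) (nat_lit 1) (nat_lit 28) (nat_lit 1) (nat_lit 31) (nat_lit 1) (nat_lit 322) (nat_lit 230) (nat_lit 168))))) (XT.nd (nat_lit 282) (nat_lit 0) (nat_lit 84) (XT.nd (nat_lit 94) (nat_lit 0) (nat_lit 0) (XT.lf (nat_lit 924) (nat_lit 346374560) (nat_lit 0) (nat_lit 614987235) (nat_lit 924) (nat_lit 346374560) (nat_lit 139) (nat_lit 1) (nat_lit 128) (nat_lit 0) (nat_lit 139) (nat_lit 0) (nat_lit 258) (nat_lit 231) (nat_lit 231)) (XT.nd (nat_lit 94) (nat_lit 0) (nat_lit 84) (XT.lf (nat_lit 924) (nat_lit 1342591038) (nat_lit 84) (nat_lit 605068086) (nat_lit 0) (nat_lit 605068086) (nat_lit 139) (nat_lit 1) (nat_lit 129) (nat_lit 1) (nat_lit 128) (nat_lit 0) (nat_lit 259) (nat_lit 231) (nat_lit 230)) (XT.lf (nat_lit 924) (nat_lit 639858673) (nat_lit 0) (nat_lit 1212204164) (nat_lit 840) (nat_lit 639858673) (nat_lit 140) (nat_lit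 1) (nat_lit 129) (nat_lit 1) (nat_lit 139) (nat_lit 1) (nat_lit 260) (nat_lit 231) (nat_lit 229)))) (XT.nd (nat_lit 188) (nat_lit 0) (nat_lit 84) (XT.nd (nat_lit 94) (nat_lit 0) (nat_lit 84) (XT.lf (nat_lit 924) (nat_lit 1200285960) (nat_lit 84) (nat_lit 616397164) (nat_lit 0) (nat_lit 616397164) (nat_lit 140) (nat_lit 1) (nat_lit 130) (nat_lit 1) (nat_lit 129) (nat_lit 1) (nat_lit 261) (nat_lit 231) (nat_lit 228)) (XT.lf (nat_lit 924) (nat_lit 552480101) (nat_lit 0) (nat_lit 1271143835) (nat_lit 840) (nat_lit 552480101) (nat_lit 141) (nat_lit 1) (nat_lit 130) (nat_lit 1) (nat_lit 140) (nat_lit 1) (nat_lit 262) (nat_lit 231) (nat_lit 227))) (XT.nd (nat_lit 94) (nat_lit 0) (nat_lit 84) (XT.lf (nat_lit 924) (nat_lit 993671446) (nat_lit 84) (nat_lit 663596597) (nat_lit 0) (nat_lit 663596597) (nat_lit 141) (nat_lit 1) (nat_lit 131) (nat_lit 1) (nat_lit 130) (nat_lit 1) (nat_lit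 263) (nat_lit 231) (nat_lit 226)) (XT.lf (nat_lit 924) (nat_lit 435696229) (nat_lit 0) (nat_lit 1396087532) (nat_lit 840) (nat_lit 435696229) (nat_lit 142) (nat_lit 1) (nat_lit 131) (nat_lit 1) (nat_lit 141) (nat_lit 1) (nat_lit 264) (nat_lit 231) (nat_lit 225))))))) (XT.nd (nat_lit 1222) (nat_lit 2856) (nat_lit 0) (XT.nd (nat_lit 564) (nat_lit 1176) (nat_lit 0) (XT.nd (nat_lit 282) (nat_lit 1260) (nat_lit 0) (XT.nd (nat_lit 94) (nat_lit 0) (nat_lit 84) (XT.lf (nat_lit 924) (nat_lit 732418739) (nat_lit 84) (nat_lit 741573232) (nat_lit 0) (nat_lit 741573232) (nat_lit 142) (nat_lit 1) (nat_lit 132) (nat_lit 1) (nat_lit 131) (nat_lit 1) (nat_lit 265) (nat_lit 231) (nat_lit 224)) (XT.nd (nat_lit 94) (nat_lit 0) (nat_lit 0) (XT.lf (nat_lit 924) (nat_lit 294027975) (nat_lit 0) (nat_lit 1577494843) (nat_lit 840) (nat_lit 294027975) (nat_lit 143) (nat_lit 1) (nat_lit 132) (nat_lit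 1) (nat_lit 142) (nat_lit 1) (nat_lit 266) (nat_lit 231) (nat_lit 223)) (XT.lf (nat_lit 924) (nat_lit 425124116) (nat_lit 84) (nat_lit 845791156) (nat_lit 0) (nat_lit 845791156) (nat_lit 143) (nat_lit 1) (nat_lit 133) (nat_lit 1) (nat_lit 132) (nat_lit 1) (nat_lit 267) (nat_lit 231) (nat_lit 222)))) (XT.nd (nat_lit 94) (nat_lit 1428) (nat_lit 0) (XT.lf (nat_lit 84) (nat_lit 131490846) (nat_lit 0) (nat_lit 1806874424) (nat_lit 840) (nat_lit 131490846) (nat_lit 134) (nat_lit 1) (nat_lit 133) (nat_lit 1) (nat_lit 143) (nat_lit 1) (nat_lit 268) (nat_lit 231) (nat_lit 221)) (XT.nd (nat_lit 94) (nat_lit 588) (nat_lit 0) (XT.lf (nat_lit 924) (nat_lit 79417201) (nat_lit 0) (nat_lit 972215901) (nat_lit 840) (nat_lit 972215901) (nat_lit 134) (nat_lit 1) (nat_lit 123) (nat_lit 1) (nat_lit 133) (nat_lit 1) (nat_lit 269) (nat_lit 231) (nat_lit 220)) (XT.lf (nat_lit 588) (nat_lit 1884670205)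 (nat_lit 0) (nat_lit 47574119) (nat_lit 504) (nat_lit 47574119) (nat_lit 123) (nat_lit 1) (nat_lit 116) (nat_lit 1) (nat_lit 122) (nat_lit 1) (nat_lit 270) (nat_lit 231) (nat_lit 219))))) (XT.nd (nat_lit 282) (nat_lit 756) (nat_lit 0) (XT.nd (nat_lit 94) (nat_lit 420) (nat_lit 0) (XT.lf (nat_lit 84) (nat_lit 823974533) (nat_lit 0) (nat_lit 288405215) (nat_lit 588) (nat_lit 823974533) (nat_lit 117) (nat_lit 1) (nat_lit 116) (nat_lit 1) (nat_lit 123) (nat_lit 1) (nat_lit 271) (nat_lit 231) (nat_lit 218)) (XT.nd (nat_lit 94) (nat_lit 0) (nat_lit 0) (XT.lf (nat_lit 504) (nat_lit 1417848667) (nat_lit 0) (nat_lit 238444833) (nat_lit 420) (nat_lit 238444833) (nat_lit 117) (nat_lit 1) (nat_lit 111) (nat_lit 1) (nat_lit 116) (nat_lit 1) (nat_lit 272) (nat_lit 231) (nat_lit 217)) (XT.lf (nat_lit 84) (nat_lit 587731004) (nat_lit 0) (nat_lit 678535259) (nat_lit 504) (nat_lit 587731004)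 (nat_lit 112) (nat_lit 1) (nat_lit 111) (nat_lit 1) (nat_lit 117) (nat_lit 1) (nat_lit 273) (nat_lit 231) (nat_lit 216)))) (XT.nd (nat_lit 188) (nat_lit 336) (nat_lit 0) (XT.nd (nat_lit 94) (nat_lit 0) (nat_lit 0) (XT.lf (nat_lit 504) (nat_lit 933673454) (nat_lit 0) (nat_lit 440500825) (nat_lit 420) (nat_lit 440500825) (nat_lit 112) (nat_lit 1) (nat_lit 106) (nat_lit 1) (nat_lit 111) (nat_lit 1) (nat_lit 274) (nat_lit 231) (nat_lit 215)) (XT.lf (nat_lit 84) (nat_lit 344046259) (nat_lit 0) (nat_lit 1088404043) (nat_lit 504) (nat_lit 344046259) (nat_lit 107) (nat_lit 1) (nat_lit 106) (nat_lit 1) (nat_lit 112) (nat_lit 1) (nat_lit 275) (nat_lit 231) (nat_lit 214))) (XT.nd (nat_lit 94) (nat_lit 0) (nat_lit 0) (XT.lf (nat_lit 420) (nat_lit 436651009) (nat_lit 0) (nat_lit 651324543) (nat_lit 336) (nat_lit 651324543) (nat_lit 107) (nat_lit 1) (nat_lit 102) (nat_lit 1) (nat_lit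 106) (nat_lit 1) (nat_lit 276) (nat_lit 231) (nat_lit 213)) (XT.lf (nat_lit 84) (nat_lit 95012346) (nat_lit 0) (nat_lit 1513509333) (nat_lit 420) (nat_lit 95012346) (nat_lit 103) (nat_lit 1) (nat_lit 102) (nat_lit 1) (nat_lit 107) (nat_lit 1) (nat_lit 277) (nat_lit 231) (nat_lit 212)))))) (XT.nd (nat_lit 658) (nat_lit 1092) (nat_lit 0) (XT.nd (nat_lit 282) (nat_lit 1008) (nat_lit 0) (XT.nd (nat_lit 94) (nat_lit 336) (nat_lit 0) (XT.lf (nat_lit 84) (nat_lit 800601329) (nat_lit 0) (nat_lit 67051916) (nat_lit 420) (nat_lit 800601329) (nat_lit 98) (nat_lit 1) (nat_lit 97) (nat_lit 1) (nat_lit 102) (nat_lit 1) (nat_lit 278) (nat_lit 231) (nat_lit 211)) (XT.nd (nat_lit 94) (nat_lit 0) (nat_lit 0) (XT.lf (nat_lit 420) (nat_lit 1324320855) (nat_lit 0) (nat_lit 154998899) (nat_lit 336) (nat_lit 154998899) (nat_lit 98) (nat_lit 1) (nat_lit 93) (nat_lit 1) (nat_lit 97) (nat_lit 1)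 (nat_lit 279) (nat_lit 231) (nat_lit 210)) (XT.lf (nat_lit 84) (nat_lit 519456860) (nat_lit 0) (nat_lit 562051190) (nat_lit 420) (nat_lit 519456860) (nat_lit 94) (nat_lit 1) (nat_lit 93) (nat_lit 1) (nat_lit 98) (nat_lit 1) (nat_lit 280) (nat_lit 231) (nat_lit 209)))) (XT.nd (nat_lit 188) (nat_lit 672) (nat_lit 0) (XT.nd (nat_lit 94) (nat_lit 0) (nat_lit 0) (XT.lf (nat_lit 420) (nat_lit 758032061) (nat_lit 0) (nat_lit 405367849) (nat_lit 336) (nat_lit 405367849) (nat_lit 94) (nat_lit 1) (nat_lit 89) (nat_lit 1) (nat_lit 93) (nat_lit 1) (nat_lit 281) (nat_lit 231) (nat_lit 208)) (XT.lf (nat_lit 84) (nat_lit 239049481) (nat_lit 0) (nat_lit 1059413091) (nat_lit 420) (nat_lit 239049481) (nat_lit 90) (nat_lit 1) (nat_lit 89) (nat_lit 1) (nat_lit 94) (nat_lit 1) (nat_lit 282) (nat_lit 231) (nat_lit 207))) (XT.nd (nat_lit 94) (nat_lit 420) (nat_lit 0) (XT.lf (nat_lit 336) (nat_lit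 194408705) (nat_lit 0) (nat_lit 656261165) (nat_lit 252) (nat_lit 656261165) (nat_lit 90) (nat_lit 1) (nat_lit 86) (nat_lit 1) (nat_lit 89) (nat_lit 1) (nat_lit 283) (nat_lit 231) (nat_lit 206)) (XT.lf (nat_lit 420) (nat_lit 1399844189) (nat_lit 0) (nat_lit 38842990) (nat_lit 336) (nat_lit 38842990) (nat_lit 86) (nat_lit 1) (nat_lit 81) (nat_lit 1) (nat_lit 85) (nat_lit 1) (nat_lit 284) (nat_lit 231) (nat_lit 205))))) (XT.nd (nat_lit 282) (nat_lit 840) (nat_lit 0) (XT.nd (nat_lit 94) (nat_lit 252) (nat_lit 0) (XT.lf (nat_lit 84) (nat_lit 547769380) (nat_lit 0) (nat_lit 352753274) (nat_lit 420) (nat_lit 547769380) (nat_lit 82) (nat_lit 1) (nat_lit 81) (nat_lit 1) (nat_lit 86) (nat_lit 1) (nat_lit 285) (nat_lit 231) (nat_lit 204)) (XT.nd (nat_lit 94) (nat_lit 0) (nat_lit 0) (XT.lf (nat_lit 336) (nat_lit 800034497) (nat_lit 0) (nat_lit 310070381) (nat_lit 252) (nat_lit 310070381)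 (nat_lit 82) (nat_lit 1) (nat_lit 78) (nat_lit 1) (nat_lit 81) (nat_lit 1) (nat_lit 286) (nat_lit 231) (nat_lit 203)) (XT.lf (nat_lit 84) (nat_lit 252743272) (nat_lit 0) (nat_lit 887286294) (nat_lit 336) (nat_lit 252743272) (nat_lit 79) (nat_lit 1) (nat_lit 78) (nat_lit 1) (nat_lit 82) (nat_lit 1) (nat_lit 287) (nat_lit 231) (nat_lit 202)))) (XT.nd (nat_lit 188) (nat_lit 252) (nat_lit 0) (XT.nd (nat_lit 94) (nat_lit 336) (nat_lit 0) (XT.lf (nat_lit 336) (nat_lit 210653618) (nat_lit 0) (nat_lit 577670099) (nat_lit 252) (nat_lit 577670099) (nat_lit 79) (nat_lit 1) (nat_lit 75) (nat_lit 1) (nat_lit 78) (nat_lit 1) (nat_lit 288) (nat_lit 231) (nat_lit 201)) (XT.lf (nat_lit 336) (nat_lit 1267803669) (nat_lit 0) (nat_lit 36203000) (nat_lit 252) (nat_lit 36203000) (nat_lit 75) (nat_lit 1) (nat_lit 71) (nat_lit 1) (nat_lit 74) (nat_lit 1) (nat_lit 289) (nat_lit 231) (nat_lit 200)))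 (XT.nd (nat_lit 94) (nat_lit 252) (nat_lit 0) (XT.lf (nat_lit 84) (nat_lit 479573820) (nat_lit 0) (nat_lit 355359385) (nat_lit 336) (nat_lit 479573820) (nat_lit 72) (nat_lit 1) (nat_lit 71) (nat_lit 1) (nat_lit 75) (nat_lit 1) (nat_lit 290) (nat_lit 231) (nat_lit 199)) (XT.lf (nat_lit 336) (nat_lit 659457915) (nat_lit 0) (nat_lit 315148734) (nat_lit 252) (nat_lit 315148734) (nat_lit 72) (nat_lit 1) (nat_lit 68) (nat_lit 1) (nat_lit 71) (nat_lit 1) (nat_lit 291) (nat_lit 231) (nat_lit 198))))))))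
noncomputable def ec15 : XT := (XT.nd (nat_lit 2538) (nat_lit 504) (nat_lit 0) (XT.nd (nat_lit 1222) (nat_lit 1428) (nat_lit 0) (XT.nd (nat_lit 564) (nat_lit 1008) (nat_lit 0) (XT.nd (nat_lit 282) (nat_lit 168) (nat_lit 0) (XT.nd (nat_lit 94) (nat_lit 504) (nat_lit 0) (XT.lf (nat_lit 84) (nat_lit 181614172) (nat_lit 0) (nat_lit 902439249) (nat_lit 336) (nat_lit 181614172) (nat_lit 69) (nat_lit 1) (nat_lit 68) (nat_lit 1) (nat_lit 72) (nat_lit 1) (nat_lit 292) (nat_lit 231) (nat_lit 197)) (XT.nd (nat_lit 94) (nat_lit 336) (nat_lit 0) (XT.lf (nat_lit 252) (nat_lit 66549471) (nat_lit 0) (nat_lit 587742125) (nat_lit 168) (nat_lit 587742125) (nat_lit 69) (nat_lit 1) (nat_lit 66) (nat_lit 1) (nat_lit 68) (nat_lit 1) (nat_lit 293) (nat_lit 231) (nat_lit 196)) (XT.lf (nat_lit 336) (nat_lit 1005540195) (nat_lit 0) (nat_lit 106795657) (nat_lit 252) (nat_lit 106795657) (nat_lit 66)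 (nat_lit 1) (nat_lit 62) (nat_lit 1) (nat_lit 65) (nat_lit 1) (nat_lit 294) (nat_lit 231) (nat_lit 195)))) (XT.nd (nat_lit 94) (nat_lit 168) (nat_lit 0) (XT.lf (nat_lit 84) (nat_lit 351211321) (nat_lit 0) (nat_lit 494062793) (nat_lit 336) (nat_lit 351211321) (nat_lit 63) (nat_lit 1) (nat_lit 62) (nat_lit 1) (nat_lit 66) (nat_lit 1) (nat_lit 295) (nat_lit 231) (nat_lit 194)) (XT.nd (nat_lit 94) (nat_lit 0) (nat_lit 0) (XT.lf (nat_lit 252) (nat_lit 405770505) (nat_lit 0) (nat_lit 384383888) (nat_lit 168) (nat_lit 384383888) (nat_lit 63) (nat_lit 1) (nat_lit 60) (nat_lit 1) (nat_lit 62) (nat_lit 1) (nat_lit 296) (nat_lit 231) (nat_lit 193)) (XT.lf (nat_lit 84) (nat_lit 58296342) (nat_lit 0) (nat_lit 1036726786) (nat_lit 252) (nat_lit 58296342) (nat_lit 61) (nat_lit 1) (nat_lit 60) (nat_lit 1) (nat_lit 63) (nat_lit 1) (nat_lit 297) (nat_lit 231) (nat_lit 192))))) (XT.nd (nat_lit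 282) (nat_lit 588) (nat_lit 0) (XT.nd (nat_lit 94) (nat_lit 168) (nat_lit 0) (XT.lf (nat_lit 84) (nat_lit 481129940) (nat_lit 0) (nat_lit 169917910) (nat_lit 252) (nat_lit 481129940) (nat_lit 58) (nat_lit 1) (nat_lit 57) (nat_lit 1) (nat_lit 60) (nat_lit 1) (nat_lit 298) (nat_lit 231) (nat_lit 191)) (XT.nd (nat_lit 94) (nat_lit 0) (nat_lit 0) (XT.lf (nat_lit 252) (nat_lit 668133247) (nat_lit 0) (nat_lit 221802135) (nat_lit 168) (nat_lit 221802135) (nat_lit 58) (nat_lit 1) (nat_lit 55) (nat_lit 1) (nat_lit 57) (nat_lit 1) (nat_lit 299) (nat_lit 231) (nat_lit 190)) (XT.lf (nat_lit 84) (nat_lit 188529820) (nat_lit 0) (nat_lit 714689381) (nat_lit 252) (nat_lit 188529820) (nat_lit 56) (nat_lit 1) (nat_lit 55) (nat_lit 1) (nat_lit 58) (nat_lit 1) (nat_lit 300) (nat_lit 231) (nat_lit 189)))) (XT.nd (nat_lit 188) (nat_lit 168) (nat_lit 0) (XT.nd (nat_lit 94) (nat_lit 252) (nat_lit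 0) (XT.lf (nat_lit 252) (nat_lit 88319433) (nat_lit 0) (nat_lit 491922003) (nat_lit 168) (nat_lit 491922003) (nat_lit 56) (nat_lit 1) (nat_lit 53) (nat_lit 1) (nat_lit 55) (nat_lit 1) (nat_lit 301) (nat_lit 231) (nat_lit 188)) (XT.lf (nat_lit 252) (nat_lit 868060445) (nat_lit 0) (nat_lit 92542460) (nat_lit 168) (nat_lit 92542460) (nat_lit 53) (nat_lit 1) (nat_lit 50) (nat_lit 1) (nat_lit 52) (nat_lit 1) (nat_lit 302) (nat_lit 231) (nat_lit 187))) (XT.nd (nat_lit 94) (nat_lit 168) (nat_lit 0) (XT.lf (nat_lit 84) (nat_lit 288979449) (nat_lit 0) (nat_lit 456330711) (nat_lit 252) (nat_lit 288979449) (nat_lit 51) (nat_lit 1) (nat_lit 50) (nat_lit 1) (nat_lit 53) (nat_lit 1) (nat_lit 303) (nat_lit 231) (nat_lit 186)) (XT.lf (nat_lit 252) (nat_lit 294311539) (nat_lit 0) (nat_lit 360834861) (nat_lit 168) (nat_lit 360834861) (nat_lit 51) (nat_lit 1) (nat_lit 48) (nat_lit 1) (nat_lit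 50) (nat_lit 1) (nat_lit 304) (nat_lit 231) (nat_lit 185)))))) (XT.nd (nat_lit 658) (nat_lit 756) (nat_lit 0) (XT.nd (nat_lit 282) (nat_lit 336) (nat_lit 0) (XT.nd (nat_lit 94) (nat_lit 336) (nat_lit 0) (XT.lf (nat_lit 84) (nat_lit 9673208) (nat_lit 0) (nat_lit 978968572) (nat_lit 252) (nat_lit 9673208) (nat_lit 49) (nat_lit 1) (nat_lit 48) (nat_lit 1) (nat_lit 51) (nat_lit 1) (nat_lit 305) (nat_lit 231) (nat_lit 184)) (XT.nd (nat_lit 94) (nat_lit 168) (nat_lit 0) (XT.lf (nat_lit 84) (nat_lit 365244584) (nat_lit 0) (nat_lit 250047252) (nat_lit 168) (nat_lit 365244584) (nat_lit 47) (nat_lit 1) (nat_lit 46) (nat_lit 1) (nat_lit 48) (nat_lit 1) (nat_lit 306) (nat_lit 231) (nat_lit 183)) (XT.lf (nat_lit 252) (nat_lit 453226949) (nat_lit 0) (nat_lit 255078221) (nat_lit 168) (nat_lit 255078221) (nat_lit 47) (nat_lit 1) (nat_lit 44) (nat_lit 1) (nat_lit 46) (nat_lit 1) (nat_lit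 307) (nat_lit 231) (nat_lit 182)))) (XT.nd (nat_lit 188) (nat_lit 168) (nat_lit 0) (XT.nd (nat_lit 94) (nat_lit 168) (nat_lit 0) (XT.lf (nat_lit 84) (nat_lit 90868870) (nat_lit 0) (nat_lit 764955624) (nat_lit 252) (nat_lit 90868870) (nat_lit 45) (nat_lit 1) (nat_lit 44) (nat_lit 1) (nat_lit 47) (nat_lit 1) (nat_lit 308) (nat_lit 231) (nat_lit 181)) (XT.lf (nat_lit 84) (nat_lit 421916648) (nat_lit 0) (nat_lit 86307680) (nat_lit 168) (nat_lit 421916648) (nat_lit 43) (nat_lit 1) (nat_lit 42) (nat_lit 1) (nat_lit 44) (nat_lit 1) (nat_lit 309) (nat_lit 231) (nat_lit 180))) (XT.nd (nat_lit 94) (nat_lit 0) (nat_lit 0) (XT.lf (nat_lit 252) (nat_lit 573914854) (nat_lit 0) (nat_lit 170061567) (nat_lit 168) (nat_lit 170061567) (nat_lit 43) (nat_lit 1) (nat_lit 40) (nat_lit 1) (nat_lit 42) (nat_lit 1) (nat_lit 310) (nat_lit 231) (nat_lit 179)) (XT.lf (nat_lit 84) (nat_lit 153720614)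 (nat_lit 0) (nat_lit 590812558) (nat_lit 252) (nat_lit 153720614) (nat_lit 41) (nat_lit 1) (nat_lit 40) (nat_lit 1) (nat_lit 43) (nat_lit 1) (nat_lit 311) (nat_lit 231) (nat_lit 178))))) (XT.nd (nat_lit 282) (nat_lit 420) (nat_lit 0) (XT.nd (nat_lit 94) (nat_lit 252) (nat_lit 0) (XT.lf (nat_lit 168) (nat_lit 44127590) (nat_lit 0) (nat_lit 419319926) (nat_lit 84) (nat_lit 419319926) (nat_lit 41) (nat_lit 1) (nat_lit 39) (nat_lit 1) (nat_lit 40) (nat_lit 1) (nat_lit 312) (nat_lit 231) (nat_lit 177)) (XT.nd (nat_lit 94) (nat_lit 0) (nat_lit 0) (XT.lf (nat_lit 252) (nat_lit 663631572) (nat_lit 0) (nat_lit 102013009) (nat_lit 168) (nat_lit 102013009) (nat_lit 39) (nat_lit 1) (nat_lit 36) (nat_lit 1) (nat_lit 38) (nat_lit 1) (nat_lit 313) (nat_lit 231) (nat_lit 176)) (XT.lf (nat_lit 84) (nat_lit 201668777) (nat_lit 0) (nat_lit 449378833) (nat_lit 252) (nat_lit 201668777) (nat_lit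 37) (nat_lit 1) (nat_lit 36) (nat_lit 1) (nat_lit 39) (nat_lit 1) (nat_lit 314) (nat_lit 231) (nat_lit 175)))) (XT.nd (nat_lit 188) (nat_lit 84) (nat_lit 0) (XT.nd (nat_lit 94) (nat_lit 252) (nat_lit 0) (XT.lf (nat_lit 168) (nat_lit 148190446) (nat_lit 0) (nat_lit 344975541) (nat_lit 84) (nat_lit 344975541) (nat_lit 37) (nat_lit 1) (nat_lit 35) (nat_lit 1) (nat_lit 36) (nat_lit 1) (nat_lit 315) (nat_lit 231) (nat_lit 174)) (XT.lf (nat_lit 252) (nat_lit 728324099) (nat_lit 0) (nat_lit 47833913) (nat_lit 168) (nat_lit 47833913) (nat_lit 35) (nat_lit 1) (nat_lit 32) (nat_lit 1) (nat_lit 34) (nat_lit 1) (nat_lit 316) (nat_lit 231) (nat_lit 173))) (XT.nd (nat_lit 94) (nat_lit 84) (nat_lit 0) (XT.lf (nat_lit 84) (nat_lit 237534780) (nat_lit 0) (nat_lit 334767820) (nat_lit 252) (nat_lit 237534780) (nat_lit 33) (nat_lit 1) (nat_lit 32) (nat_lit 1) (nat_lit 35) (nat_lit 1) (nat_lit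 317) (nat_lit 231) (nat_lit 172)) (XT.lf (nat_lit 168) (nat_lit 228475283) (nat_lit 0) (nat_lit 283812231) (nat_lit 84) (nat_lit 283812231) (nat_lit 33) (nat_lit 1) (nat_lit 31) (nat_lit 1) (nat_lit 32) (nat_lit 1) (nat_lit 318) (nat_lit 231) (nat_lit 171))))))) (XT.nd (nat_lit 40138) (nat_lit 0) (nat_lit 5712) (XT.nd (nat_lit 39480) (nat_lit 0) (nat_lit 8736) (XT.nd (nat_lit 282) (nat_lit 168) (nat_lit 0) (XT.nd (nat_lit 94) (nat_lit 84) (nat_lit 0) (XT.lf (nat_lit 252) (nat_lit 772863337) (nat_lit 0) (nat_lit 4979325) (nat_lit 168) (nat_lit 4979325) (nat_lit 31) (nat_lit 1) (nat_lit 28) (nat_lit 1) (nat_lit 30) (nat_lit 1) (nat_lit 319) (nat_lit 231) (nat_lit 170)) (XT.nd (nat_lit 94) (nat_lit 84) (nat_lit 0) (XT.lf (nat_lit 84) (nat_lit 263631288) (nat_lit 0) (nat_lit 242140735) (nat_lit 252) (nat_lit 263631288) (nat_lit 29) (nat_lit 1) (nat_lit 28) (nat_lit 1) (nat_lit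 31) (nat_lit 1) (nat_lit 320) (nat_lit 231) (nat_lit 169)) (XT.lf (nat_lit 168) (nat_lit 289451596) (nat_lit 0) (nat_lit 233493025) (nat_lit 84) (nat_lit 233493025) (nat_lit 29) (nat_lit 1) (nat_lit 27) (nat_lit 1) (nat_lit 28) (nat_lit 1) (nat_lit 321) (nat_lit 231) (nat_lit 168)))) (XT.nd (nat_lit 39010) (nat_lit 0) (nat_lit 8652) (XT.nd (nat_lit 94) (nat_lit 168) (nat_lit 0) (XT.lf (nat_lit 0) (nat_lit 29109919) (nat_lit 0) (nat_lit 685643595) (nat_lit 168) (nat_lit 29109919) (nat_lit 27) (nat_lit 3) (nat_lit 27) (nat_lit 1) (nat_lit 29) (nat_lit 1) (nat_lit 322) (nat_lit 231) (nat_lit 167)) (XT.lf (nat_lit 84) (nat_lit 281852815) (nat_lit 0) (nat_lit 167520659) (nat_lit 168) (nat_lit 281852815) (nat_lit 26) (nat_lit 1) (nat_lit 25) (nat_lit 1) (nat_lit 27) (nat_lit 1) (nat_lit 323) (nat_lit 231) (nat_lit 166))) (XT.nd (nat_lit 94) (nat_lit 0) (nat_lit 0) (XT.lf (nat_lit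 924) (nat_lit 363693288) (nat_lit 0) (nat_lit 645736597) (nat_lit 924) (nat_lit 363693288) (nat_lit 139) (nat_lit 1) (nat_lit 128) (nat_lit 0) (nat_lit 139) (nat_lit 0) (nat_lit 256) (nat_lit 232) (nat_lit 232)) (XT.lf (nat_lit 924) (nat_lit 1409720590) (nat_lit 84) (nat_lit 635321490) (nat_lit 0) (nat_lit 635321490) (nat_lit 139) (nat_lit 1) (nat_lit 129) (nat_lit 1) (nat_lit 128) (nat_lit 0) (nat_lit 257) (nat_lit 232) (nat_lit 231))))) (XT.nd (nat_lit 282) (nat_lit 0) (nat_lit 84) (XT.nd (nat_lit 94) (nat_lit 0) (nat_lit 0) (XT.lf (nat_lit 924) (nat_lit 671851607) (nat_lit 0) (nat_lit 1272814372) (nat_lit 840) (nat_lit 671851607) (nat_lit 140) (nat_lit 1) (nat_lit 129) (nat_lit 1) (nat_lit 139) (nat_lit 1) (nat_lit 258) (nat_lit 232) (nat_lit 230)) (XT.nd (nat_lit 94) (nat_lit 0) (nat_lit 84) (XT.lf (nat_lit 924) (nat_lit 1260300259) (nat_lit 84) (nat_lit 647217022) (nat_lit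 0) (nat_lit 647217022) (nat_lit 140) (nat_lit 1) (nat_lit 130) (nat_lit 1) (nat_lit 129) (nat_lit 1) (nat_lit 259) (nat_lit 232) (nat_lit 229)) (XT.lf (nat_lit 924) (nat_lit 580104106) (nat_lit 0) (nat_lit 1334701027) (nat_lit 840) (nat_lit 580104106) (nat_lit 141) (nat_lit 1) (nat_lit 130) (nat_lit 1) (nat_lit 140) (nat_lit 1) (nat_lit 260) (nat_lit 232) (nat_lit 228)))) (XT.nd (nat_lit 188) (nat_lit 0) (nat_lit 84) (XT.nd (nat_lit 94) (nat_lit 0) (nat_lit 84) (XT.lf (nat_lit 924) (nat_lit 1043355018) (nat_lit 84) (nat_lit 696776427) (nat_lit 0) (nat_lit 696776427) (nat_lit 141) (nat_lit 1) (nat_lit 131) (nat_lit 1) (nat_lit 130) (nat_lit 1) (nat_lit 261) (nat_lit 232) (nat_lit 227)) (XT.lf (nat_lit 924) (nat_lit 457481040) (nat_lit 0) (nat_lit 1465891909) (nat_lit 840) (nat_lit 457481040) (nat_lit 142) (nat_lit 1) (nat_lit 131) (nat_lit 1) (nat_lit 141) (nat_lit 1) (nat_lit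 262) (nat_lit 232) (nat_lit 226))) (XT.nd (nat_lit 94) (nat_lit 0) (nat_lit 84) (XT.lf (nat_lit 924) (nat_lit 769039676) (nat_lit 84) (nat_lit 778651894) (nat_lit 0) (nat_lit 778651894) (nat_lit 142) (nat_lit 1) (nat_lit 132) (nat_lit 1) (nat_lit 131) (nat_lit 1) (nat_lit 263) (nat_lit 232) (nat_lit 225)) (XT.lf (nat_lit 924) (nat_lit 308729374) (nat_lit 0) (nat_lit 1656369585) (nat_lit 840) (nat_lit 308729374) (nat_lit 143) (nat_lit 1) (nat_lit 132) (nat_lit 1) (nat_lit 142) (nat_lit 1) (nat_lit 264) (nat_lit 232) (nat_lit 224)))))) (XT.nd (nat_lit 658) (nat_lit 1512) (nat_lit 0) (XT.nd (nat_lit 282) (nat_lit 1008) (nat_lit 0) (XT.nd (nat_lit 94) (nat_lit 756) (nat_lit 0) (XT.lf (nat_lit 924) (nat_lit 446380322) (nat_lit 84) (nat_lit 888080714) (nat_lit 0) (nat_lit 888080714) (nat_lit 143) (nat_lit 1) (nat_lit 133) (nat_lit 1) (nat_lit 132) (nat_lit 1) (nat_lit 265) (nat_lit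 232) (nat_lit 223)) (XT.nd (nat_lit 94) (nat_lit 840) (nat_lit 0) (XT.lf (nat_lit 84) (nat_lit 138065388) (nat_lit 0) (nat_lit 1897218146) (nat_lit 840) (nat_lit 138065388) (nat_lit 134) (nat_lit 1) (nat_lit 133) (nat_lit 1) (nat_lit 143) (nat_lit 1) (nat_lit 266) (nat_lit 232) (nat_lit 222)) (XT.lf (nat_lit 924) (nat_lit 83388061) (nat_lit 0) (nat_lit 1020826696) (nat_lit 840) (nat_lit 1020826696) (nat_lit 134) (nat_lit 1) (nat_lit 123) (nat_lit 1) (nat_lit 133) (nat_lit 1) (nat_lit 267) (nat_lit 232) (nat_lit 221)))) (XT.nd (nat_lit 188) (nat_lit 420) (nat_lit 0) (XT.nd (nat_lit 94) (nat_lit 0) (nat_lit 0) (XT.lf (nat_lit 588) (nat_lit 1978903716) (nat_lit 0) (nat_lit 49952825) (nat_lit 504) (nat_lit 49952825) (nat_lit 123) (nat_lit 1) (nat_lit 116) (nat_lit 1) (nat_lit 122) (nat_lit 1) (nat_lit 268) (nat_lit 232) (nat_lit 220)) (XT.lf (nat_lit 84) (nat_lit 865173260)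 (nat_lit 0) (nat_lit 302825476) (nat_lit 588) (nat_lit 865173260) (nat_lit 117) (nat_lit 1) (nat_lit 116) (nat_lit 1) (nat_lit 123) (nat_lit 1) (nat_lit 269) (nat_lit 232) (nat_lit 219))) (XT.nd (nat_lit 94) (nat_lit 0) (nat_lit 0) (XT.lf (nat_lit 504) (nat_lit 1488741101) (nat_lit 0) (nat_lit 250367075) (nat_lit 420) (nat_lit 250367075) (nat_lit 117) (nat_lit 1) (nat_lit 111) (nat_lit 1) (nat_lit 116) (nat_lit 1) (nat_lit 270) (nat_lit 232) (nat_lit 218)) (XT.lf (nat_lit 84) (nat_lit 617117554) (nat_lit 0) (nat_lit 712462022) (nat_lit 504) (nat_lit 617117554) (nat_lit 112) (nat_lit 1) (nat_lit 111) (nat_lit 1) (nat_lit 117) (nat_lit 1) (nat_lit 271) (nat_lit 232) (nat_lit 217))))) (XT.nd (nat_lit 282) (nat_lit 756) (nat_lit 0) (XT.nd (nat_lit 94) (nat_lit 336) (nat_lit 0) (XT.lf (nat_lit 504) (nat_lit 980357127) (nat_lit 0) (nat_lit 462525866) (nat_lit 420) (nat_lit 462525866)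 (nat_lit 112) (nat_lit 1) (nat_lit 106) (nat_lit 1) (nat_lit 111) (nat_lit 1) (nat_lit 272) (nat_lit 232) (nat_lit 216)) (XT.nd (nat_lit 94) (nat_lit 336) (nat_lit 0) (XT.lf (nat_lit 84) (nat_lit 361248572) (nat_lit 0) (nat_lit 1142824245) (nat_lit 504) (nat_lit 361248572) (nat_lit 107) (nat_lit 1) (nat_lit 106) (nat_lit 1) (nat_lit 112) (nat_lit 1) (nat_lit 273) (nat_lit 232) (nat_lit 215)) (XT.lf (nat_lit 420) (nat_lit 458483560) (nat_lit 0) (nat_lit 683890771) (nat_lit 336) (nat_lit 683890771) (nat_lit 107) (nat_lit 1) (nat_lit 102) (nat_lit 1) (nat_lit 106) (nat_lit 1) (nat_lit 274) (nat_lit 232) (nat_lit 214)))) (XT.nd (nat_lit 188) (nat_lit 336) (nat_lit 0) (XT.nd (nat_lit 94) (nat_lit 420) (nat_lit 0) (XT.lf (nat_lit 84) (nat_lit 99762963) (nat_lit 0) (nat_lit 1589184800) (nat_lit 420) (nat_lit 99762963) (nat_lit 103) (nat_lit 1) (nat_lit 102) (nat_lit 1) (nat_lit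 107) (nat_lit 1) (nat_lit 275) (nat_lit 232) (nat_lit 213)) (XT.lf (nat_lit 84) (nat_lit 840631396) (nat_lit 0) (nat_lit 70404512) (nat_lit 420) (nat_lit 840631396) (nat_lit 98) (nat_lit 1) (nat_lit 97) (nat_lit 1) (nat_lit 102) (nat_lit 1) (nat_lit 276) (nat_lit 232) (nat_lit 212))) (XT.nd (nat_lit 94) (nat_lit 0) (nat_lit 0) (XT.lf (nat_lit 420) (nat_lit 1390536898) (nat_lit 0) (nat_lit 162748844) (nat_lit 336) (nat_lit 162748844) (nat_lit 98) (nat_lit 1) (nat_lit 93) (nat_lit 1) (nat_lit 97) (nat_lit 1) (nat_lit 277) (nat_lit 232) (nat_lit 211)) (XT.lf (nat_lit 84) (nat_lit 545429703) (nat_lit 0) (nat_lit 590153749) (nat_lit 420) (nat_lit 545429703) (nat_lit 94) (nat_lit 1) (nat_lit 93) (nat_lit 1) (nat_lit 98) (nat_lit 1) (nat_lit 278) (nat_lit 232) (nat_lit 210))))))))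
noncomputable def ec16 : XT := (XT.nd (nat_lit 2538) (nat_lit 1848) (nat_lit 0) (XT.nd (nat_lit 1222) (nat_lit 1848) (nat_lit 0) (XT.nd (nat_lit 564) (nat_lit 1008) (nat_lit 0) (XT.nd (nat_lit 282) (nat_lit 672) (nat_lit 0) (XT.nd (nat_lit 94) (nat_lit 252) (nat_lit 0) (XT.lf (nat_lit 420) (nat_lit 795933664) (nat_lit 0) (nat_lit 425636241) (nat_lit 336) (nat_lit 425636241) (nat_lit 94) (nat_lit 1) (nat_lit 89) (nat_lit 1) (nat_lit 93) (nat_lit 1) (nat_lit 279) (nat_lit 232) (nat_lit 209)) (XT.nd (nat_lit 94) (nat_lit 252) (nat_lit 0) (XT.lf (nat_lit 84) (nat_lit 251001955) (nat_lit 0) (nat_lit 1112383745) (nat_lit 420) (nat_lit 251001955) (nat_lit 90) (nat_lit 1) (nat_lit 89) (nat_lit 1) (nat_lit 94) (nat_lit 1) (nat_lit 280) (nat_lit 232) (nat_lit 208)) (XT.lf (nat_lit 336) (nat_lit 204129140) (nat_lit 0) (nat_lit 689074223) (nat_lit 252) (nat_lit 689074223) (nat_lit 90)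 (nat_lit 1) (nat_lit 86) (nat_lit 1) (nat_lit 89) (nat_lit 1) (nat_lit 281) (nat_lit 232) (nat_lit 207)))) (XT.nd (nat_lit 94) (nat_lit 252) (nat_lit 0) (XT.lf (nat_lit 420) (nat_lit 1469836398) (nat_lit 0) (nat_lit 40785139) (nat_lit 336) (nat_lit 40785139) (nat_lit 86) (nat_lit 1) (nat_lit 81) (nat_lit 1) (nat_lit 85) (nat_lit 1) (nat_lit 282) (nat_lit 232) (nat_lit 206)) (XT.nd (nat_lit 94) (nat_lit 252) (nat_lit 0) (XT.lf (nat_lit 84) (nat_lit 575157849) (nat_lit 0) (nat_lit 370390938) (nat_lit 420) (nat_lit 575157849) (nat_lit 82) (nat_lit 1) (nat_lit 81) (nat_lit 1) (nat_lit 86) (nat_lit 1) (nat_lit 283) (nat_lit 232) (nat_lit 205)) (XT.lf (nat_lit 336) (nat_lit 840036221) (nat_lit 0) (nat_lit 325573900) (nat_lit 252) (nat_lit 325573900) (nat_lit 82) (nat_lit 1) (nat_lit 78) (nat_lit 1) (nat_lit 81) (nat_lit 1) (nat_lit 284) (nat_lit 232) (nat_lit 204))))) (XT.nd (nat_lit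 282) (nat_lit 420) (nat_lit 0) (XT.nd (nat_lit 94) (nat_lit 588) (nat_lit 0) (XT.lf (nat_lit 84) (nat_lit 265380436) (nat_lit 0) (nat_lit 931650608) (nat_lit 336) (nat_lit 265380436) (nat_lit 79) (nat_lit 1) (nat_lit 78) (nat_lit 1) (nat_lit 82) (nat_lit 1) (nat_lit 285) (nat_lit 232) (nat_lit 203)) (XT.nd (nat_lit 94) (nat_lit 336) (nat_lit 0) (XT.lf (nat_lit 336) (nat_lit 221186299) (nat_lit 0) (nat_lit 606553604) (nat_lit 252) (nat_lit 606553604) (nat_lit 79) (nat_lit 1) (nat_lit 75) (nat_lit 1) (nat_lit 78) (nat_lit 1) (nat_lit 286) (nat_lit 232) (nat_lit 202)) (XT.lf (nat_lit 336) (nat_lit 1331193852) (nat_lit 0) (nat_lit 38013150) (nat_lit 252) (nat_lit 38013150) (nat_lit 75) (nat_lit 1) (nat_lit 71) (nat_lit 1) (nat_lit 74) (nat_lit 1) (nat_lit 287) (nat_lit 232) (nat_lit 201)))) (XT.nd (nat_lit 188) (nat_lit 168) (nat_lit 0) (XT.nd (nat_lit 94) (nat_lit 252) (nat_lit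 0) (XT.lf (nat_lit 84) (nat_lit 503552511) (nat_lit 0) (nat_lit 373127354) (nat_lit 336) (nat_lit 503552511) (nat_lit 72) (nat_lit 1) (nat_lit 71) (nat_lit 1) (nat_lit 75) (nat_lit 1) (nat_lit 288) (nat_lit 232) (nat_lit 200)) (XT.lf (nat_lit 336) (nat_lit 692430811) (nat_lit 0) (nat_lit 330906171) (nat_lit 252) (nat_lit 330906171) (nat_lit 72) (nat_lit 1) (nat_lit 68) (nat_lit 1) (nat_lit 71) (nat_lit 1) (nat_lit 289) (nat_lit 232) (nat_lit 199))) (XT.nd (nat_lit 94) (nat_lit 168) (nat_lit 0) (XT.lf (nat_lit 84) (nat_lit 190694880) (nat_lit 0) (nat_lit 947561211) (nat_lit 336) (nat_lit 190694880) (nat_lit 69) (nat_lit 1) (nat_lit 68) (nat_lit 1) (nat_lit 72) (nat_lit 1) (nat_lit 290) (nat_lit 232) (nat_lit 198)) (XT.lf (nat_lit 252) (nat_lit 69876944) (nat_lit 0) (nat_lit 617129231) (nat_lit 168) (nat_lit 617129231) (nat_lit 69) (nat_lit 1) (nat_lit 66) (nat_lit 1) (nat_lit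 68) (nat_lit 1) (nat_lit 291) (nat_lit 232) (nat_lit 197)))))) (XT.nd (nat_lit 658) (nat_lit 924) (nat_lit 0) (XT.nd (nat_lit 282) (nat_lit 420) (nat_lit 0) (XT.nd (nat_lit 94) (nat_lit 168) (nat_lit 0) (XT.lf (nat_lit 336) (nat_lit 1055817205) (nat_lit 0) (nat_lit 112135440) (nat_lit 252) (nat_lit 112135440) (nat_lit 66) (nat_lit 1) (nat_lit 62) (nat_lit 1) (nat_lit 65) (nat_lit 1) (nat_lit 292) (nat_lit 232) (nat_lit 196)) (XT.nd (nat_lit 94) (nat_lit 168) (nat_lit 0) (XT.lf (nat_lit 84) (nat_lit 368771887) (nat_lit 0) (nat_lit 518765932) (nat_lit 336) (nat_lit 368771887) (nat_lit 63) (nat_lit 1) (nat_lit 62) (nat_lit 1) (nat_lit 66) (nat_lit 1) (nat_lit 293) (nat_lit 232) (nat_lit 195)) (XT.lf (nat_lit 252) (nat_lit 426059030) (nat_lit 0) (nat_lit 403603083) (nat_lit 168) (nat_lit 403603083) (nat_lit 63) (nat_lit 1) (nat_lit 60) (nat_lit 1) (nat_lit 62) (nat_lit 1) (nat_lit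 294) (nat_lit 232) (nat_lit 194)))) (XT.nd (nat_lit 188) (nat_lit 168) (nat_lit 0) (XT.nd (nat_lit 94) (nat_lit 252) (nat_lit 0) (XT.lf (nat_lit 84) (nat_lit 61211159) (nat_lit 0) (nat_lit 1088563125) (nat_lit 252) (nat_lit 61211159) (nat_lit 61) (nat_lit 1) (nat_lit 60) (nat_lit 1) (nat_lit 63) (nat_lit 1) (nat_lit 295) (nat_lit 232) (nat_lit 193)) (XT.lf (nat_lit 84) (nat_lit 505186437) (nat_lit 0) (nat_lit 178413805) (nat_lit 252) (nat_lit 505186437) (nat_lit 58) (nat_lit 1) (nat_lit 57) (nat_lit 1) (nat_lit 60) (nat_lit 1) (nat_lit 296) (nat_lit 232) (nat_lit 192))) (XT.nd (nat_lit 94) (nat_lit 0) (nat_lit 0) (XT.lf (nat_lit 252) (nat_lit 701539909) (nat_lit 0) (nat_lit 232892242) (nat_lit 168) (nat_lit 232892242) (nat_lit 58) (nat_lit 1) (nat_lit 55) (nat_lit 1) (nat_lit 57) (nat_lit 1) (nat_lit 297) (nat_lit 232) (nat_lit 191)) (XT.lf (nat_lit 84) (nat_lit 197956311)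 (nat_lit 0) (nat_lit 750423850) (nat_lit 252) (nat_lit 197956311) (nat_lit 56) (nat_lit 1) (nat_lit 55) (nat_lit 1) (nat_lit 58) (nat_lit 1) (nat_lit 298) (nat_lit 232) (nat_lit 190))))) (XT.nd (nat_lit 282) (nat_lit 504) (nat_lit 0) (XT.nd (nat_lit 94) (nat_lit 252) (nat_lit 0) (XT.lf (nat_lit 252) (nat_lit 92735404) (nat_lit 0) (nat_lit 516518103) (nat_lit 168) (nat_lit 516518103) (nat_lit 56) (nat_lit 1) (nat_lit 53) (nat_lit 1) (nat_lit 55) (nat_lit 1) (nat_lit 299) (nat_lit 232) (nat_lit 189)) (XT.nd (nat_lit 94) (nat_lit 0) (nat_lit 0) (XT.lf (nat_lit 252) (nat_lit 911463468) (nat_lit 0) (nat_lit 97169583) (nat_lit 168) (nat_lit 97169583) (nat_lit 53) (nat_lit 1) (nat_lit 50) (nat_lit 1) (nat_lit 52) (nat_lit 1) (nat_lit 300) (nat_lit 232) (nat_lit 188)) (XT.lf (nat_lit 84) (nat_lit 303428422) (nat_lit 0) (nat_lit 479147246) (nat_lit 252) (nat_lit 303428422) (nat_lit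 51) (nat_lit 1) (nat_lit 50) (nat_lit 1) (nat_lit 53) (nat_lit 1) (nat_lit 301) (nat_lit 232) (nat_lit 187)))) (XT.nd (nat_lit 188) (nat_lit 336) (nat_lit 0) (XT.nd (nat_lit 94) (nat_lit 0) (nat_lit 0) (XT.lf (nat_lit 252) (nat_lit 309027116) (nat_lit 0) (nat_lit 378876604) (nat_lit 168) (nat_lit 378876604) (nat_lit 51) (nat_lit 1) (nat_lit 48) (nat_lit 1) (nat_lit 50) (nat_lit 1) (nat_lit 302) (nat_lit 232) (nat_lit 186)) (XT.lf (nat_lit 84) (nat_lit 10156869) (nat_lit 0) (nat_lit 1027917001) (nat_lit 252) (nat_lit 10156869) (nat_lit 49) (nat_lit 1) (nat_lit 48) (nat_lit 1) (nat_lit 51) (nat_lit 1) (nat_lit 303) (nat_lit 232) (nat_lit 185))) (XT.nd (nat_lit 94) (nat_lit 168) (nat_lit 0) (XT.lf (nat_lit 84) (nat_lit 383506813) (nat_lit 0) (nat_lit 262549614) (nat_lit 168) (nat_lit 383506813) (nat_lit 47) (nat_lit 1) (nat_lit 46) (nat_lit 1) (nat_lit 48) (nat_lit 1) (nat_lit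 304) (nat_lit 232) (nat_lit 184)) (XT.lf (nat_lit 252) (nat_lit 475888296) (nat_lit 0) (nat_lit 267832132) (nat_lit 168) (nat_lit 267832132) (nat_lit 47) (nat_lit 1) (nat_lit 44) (nat_lit 1) (nat_lit 46) (nat_lit 1) (nat_lit 305) (nat_lit 232) (nat_lit 183))))))) (XT.nd (nat_lit 1222) (nat_lit 504) (nat_lit 0) (XT.nd (nat_lit 564) (nat_lit 672) (nat_lit 0) (XT.nd (nat_lit 282) (nat_lit 336) (nat_lit 0) (XT.nd (nat_lit 94) (nat_lit 336) (nat_lit 0) (XT.lf (nat_lit 84) (nat_lit 95412314) (nat_lit 0) (nat_lit 803203405) (nat_lit 252) (nat_lit 95412314) (nat_lit 45) (nat_lit 1) (nat_lit 44) (nat_lit 1) (nat_lit 47) (nat_lit 1) (nat_lit 306) (nat_lit 232) (nat_lit 182)) (XT.nd (nat_lit 94) (nat_lit 168) (nat_lit 0) (XT.lf (nat_lit 84) (nat_lit 443012481) (nat_lit 0) (nat_lit 90623064) (nat_lit 168) (nat_lit 443012481) (nat_lit 43) (nat_lit 1) (nat_lit 42) (nat_lit 1) (nat_lit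 44) (nat_lit 1) (nat_lit 307) (nat_lit 232) (nat_lit 181)) (XT.lf (nat_lit 252) (nat_lit 602610596) (nat_lit 0) (nat_lit 178564645) (nat_lit 168) (nat_lit 178564645) (nat_lit 43) (nat_lit 1) (nat_lit 40) (nat_lit 1) (nat_lit 42) (nat_lit 1) (nat_lit 308) (nat_lit 232) (nat_lit 180)))) (XT.nd (nat_lit 94) (nat_lit 336) (nat_lit 0) (XT.lf (nat_lit 84) (nat_lit 161406645) (nat_lit 0) (nat_lit 620353186) (nat_lit 252) (nat_lit 161406645) (nat_lit 41) (nat_lit 1) (nat_lit 40) (nat_lit 1) (nat_lit 43) (nat_lit 1) (nat_lit 309) (nat_lit 232) (nat_lit 179)) (XT.nd (nat_lit 94) (nat_lit 252) (nat_lit 0) (XT.lf (nat_lit 168) (nat_lit 46333970) (nat_lit 0) (nat_lit 440285922) (nat_lit 84) (nat_lit 440285922) (nat_lit 41) (nat_lit 1) (nat_lit 39) (nat_lit 1) (nat_lit 40) (nat_lit 1) (nat_lit 310) (nat_lit 232) (nat_lit 178)) (XT.lf (nat_lit 252) (nat_lit 696813150) (nat_lit 0) (nat_lit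 107113659) (nat_lit 168) (nat_lit 107113659) (nat_lit 39) (nat_lit 1) (nat_lit 36) (nat_lit 1) (nat_lit 38) (nat_lit 1) (nat_lit 311) (nat_lit 232) (nat_lit 177))))) (XT.nd (nat_lit 282) (nat_lit 336) (nat_lit 0) (XT.nd (nat_lit 94) (nat_lit 336) (nat_lit 0) (XT.lf (nat_lit 84) (nat_lit 211752216) (nat_lit 0) (nat_lit 471847775) (nat_lit 252) (nat_lit 211752216) (nat_lit 37) (nat_lit 1) (nat_lit 36) (nat_lit 1) (nat_lit 39) (nat_lit 1) (nat_lit 312) (nat_lit 232) (nat_lit 176)) (XT.nd (nat_lit 94) (nat_lit 252) (nat_lit 0) (XT.lf (nat_lit 168) (nat_lit 155599968) (nat_lit 0) (nat_lit 362224318) (nat_lit 84) (nat_lit 362224318) (nat_lit 37) (nat_lit 1) (nat_lit 35) (nat_lit 1) (nat_lit 36) (nat_lit 1) (nat_lit 313) (nat_lit 232) (nat_lit 175)) (XT.lf (nat_lit 252) (nat_lit 764740304) (nat_lit 0) (nat_lit 50225609) (nat_lit 168) (nat_lit 50225609) (nat_lit 35) (nat_lit 1)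 (nat_lit 32) (nat_lit 1) (nat_lit 34) (nat_lit 1) (nat_lit 314) (nat_lit 232) (nat_lit 174)))) (XT.nd (nat_lit 188) (nat_lit 252) (nat_lit 0) (XT.nd (nat_lit 94) (nat_lit 84) (nat_lit 0) (XT.lf (nat_lit 84) (nat_lit 249411520) (nat_lit 0) (nat_lit 351506211) (nat_lit 252) (nat_lit 249411520) (nat_lit 33) (nat_lit 1) (nat_lit 32) (nat_lit 1) (nat_lit 35) (nat_lit 1) (nat_lit 315) (nat_lit 232) (nat_lit 173)) (XT.lf (nat_lit 168) (nat_lit 239899047) (nat_lit 0) (nat_lit 298002843) (nat_lit 84) (nat_lit 298002843) (nat_lit 33) (nat_lit 1) (nat_lit 31) (nat_lit 1) (nat_lit 32) (nat_lit 1) (nat_lit 316) (nat_lit 232) (nat_lit 172))) (XT.nd (nat_lit 94) (nat_lit 0) (nat_lit 0) (XT.lf (nat_lit 252) (nat_lit 811506504) (nat_lit 0) (nat_lit 5228291) (nat_lit 168) (nat_lit 5228291) (nat_lit 31) (nat_lit 1) (nat_lit 28) (nat_lit 1) (nat_lit 30) (nat_lit 1) (nat_lit 317) (nat_lit 232)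 (nat_lit 171)) (XT.lf (nat_lit 84) (nat_lit 276812853) (nat_lit 0) (nat_lit 254247772) (nat_lit 252) (nat_lit 276812853) (nat_lit 29) (nat_lit 1) (nat_lit 28) (nat_lit 1) (nat_lit 31) (nat_lit 1) (nat_lit 318) (nat_lit 232) (nat_lit 170)))))) (XT.nd (nat_lit 39198) (nat_lit 0) (nat_lit 8904) (XT.nd (nat_lit 282) (nat_lit 252) (nat_lit 0) (XT.nd (nat_lit 94) (nat_lit 168) (nat_lit 0) (XT.lf (nat_lit 168) (nat_lit 303924176) (nat_lit 0) (nat_lit 245167676) (nat_lit 84) (nat_lit 245167676) (nat_lit 29) (nat_lit 1) (nat_lit 27) (nat_lit 1) (nat_lit 28) (nat_lit 1) (nat_lit 319) (nat_lit 232) (nat_lit 169)) (XT.nd (nat_lit 94) (nat_lit 168) (nat_lit 0) (XT.lf (nat_lit 0) (nat_lit 30565415) (nat_lit 0) (nat_lit 719925775) (nat_lit 168) (nat_lit 30565415) (nat_lit 27) (nat_lit 3) (nat_lit 27) (nat_lit 1) (nat_lit 29) (nat_lit 1) (nat_lit 320) (nat_lit 232) (nat_lit 168)) (XT.lf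 (nat_lit 84) (nat_lit 295945456) (nat_lit 0) (nat_lit 175896692) (nat_lit 168) (nat_lit 295945456) (nat_lit 26) (nat_lit 1) (nat_lit 25) (nat_lit 1) (nat_lit 27) (nat_lit 1) (nat_lit 321) (nat_lit 232) (nat_lit 167)))) (XT.nd (nat_lit 188) (nat_lit 168) (nat_lit 0) (XT.nd (nat_lit 94) (nat_lit 0) (nat_lit 0) (XT.lf (nat_lit 168) (nat_lit 351523587) (nat_lit 0) (nat_lit 201700054) (nat_lit 84) (nat_lit 201700054) (nat_lit 26) (nat_lit 1) (nat_lit 24) (nat_lit 1) (nat_lit 25) (nat_lit 1) (nat_lit 322) (nat_lit 232) (nat_lit 166)) (XT.lf (nat_lit 0) (nat_lit 58419821) (nat_lit 0) (nat_lit 625558296) (nat_lit 168) (nat_lit 58419821) (nat_lit 24) (nat_lit 3) (nat_lit 24) (nat_lit 1) (nat_lit 26) (nat_lit 1) (nat_lit 323) (nat_lit 232) (nat_lit 165))) (XT.nd (nat_lit 38634) (nat_lit 0) (nat_lit 8904) (XT.lf (nat_lit 84) (nat_lit 308437760) (nat_lit 0) (nat_lit 113021521) (nat_lit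 168) (nat_lit 308437760) (nat_lit 23) (nat_lit 1) (nat_lit 22) (nat_lit 1) (nat_lit 24) (nat_lit 1) (nat_lit 324) (nat_lit 232) (nat_lit 164)) (XT.lf (nat_lit 924) (nat_lit 381877952) (nat_lit 0) (nat_lit 678023427) (nat_lit 924) (nat_lit 381877952) (nat_lit 139) (nat_lit 1) (nat_lit 128) (nat_lit 0) (nat_lit 139) (nat_lit 0) (nat_lit 254) (nat_lit 233) (nat_lit 233))))) (XT.nd (nat_lit 282) (nat_lit 0) (nat_lit 168) (XT.nd (nat_lit 94) (nat_lit 0) (nat_lit 84) (XT.lf (nat_lit 924) (nat_lit 1480206619) (nat_lit 84) (nat_lit 667087565) (nat_lit 0) (nat_lit 667087565) (nat_lit 139) (nat_lit 1) (nat_lit 129) (nat_lit 1) (nat_lit 128) (nat_lit 0) (nat_lit 255) (nat_lit 233) (nat_lit 232)) (XT.nd (nat_lit 94) (nat_lit 0) (nat_lit 0) (XT.lf (nat_lit 924) (nat_lit 705444187) (nat_lit 0) (nat_lit 1336455091) (nat_lit 840) (nat_lit 705444187) (nat_lit 140) (nat_lit 1) (nat_lit 129)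 (nat_lit 1) (nat_lit 139) (nat_lit 1) (nat_lit 256) (nat_lit 233) (nat_lit 231)) (XT.lf (nat_lit 924) (nat_lit 1323315271) (nat_lit 84) (nat_lit 679577873) (nat_lit 0) (nat_lit 679577873) (nat_lit 140) (nat_lit 1) (nat_lit 130) (nat_lit 1) (nat_lit 129) (nat_lit 1) (nat_lit 257) (nat_lit 233) (nat_lit 230)))) (XT.nd (nat_lit 188) (nat_lit 0) (nat_lit 84) (XT.nd (nat_lit 94) (nat_lit 0) (nat_lit 0) (XT.lf (nat_lit 924) (nat_lit 609109311) (nat_lit 0) (nat_lit 1401436078) (nat_lit 840) (nat_lit 609109311) (nat_lit 141) (nat_lit 1) (nat_lit 130) (nat_lit 1) (nat_lit 140) (nat_lit 1) (nat_lit 258) (nat_lit 233) (nat_lit 229)) (XT.lf (nat_lit 924) (nat_lit 1095522769) (nat_lit 84) (nat_lit 731615248) (nat_lit 0) (nat_lit 731615248) (nat_lit 141) (nat_lit 1) (nat_lit 131) (nat_lit 1) (nat_lit 130) (nat_lit 1) (nat_lit 259) (nat_lit 233) (nat_lit 228))) (XT.nd (nat_lit 94) (nat_lit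 0) (nat_lit 0) (XT.lf (nat_lit 924) (nat_lit 480355092) (nat_lit 0) (nat_lit 1539186504) (nat_lit 840) (nat_lit 480355092) (nat_lit 142) (nat_lit 1) (nat_lit 131) (nat_lit 1) (nat_lit 141) (nat_lit 1) (nat_lit 260) (nat_lit 233) (nat_lit 227)) (XT.lf (nat_lit 924) (nat_lit 807491660) (nat_lit 84) (nat_lit 817584488) (nat_lit 0) (nat_lit 817584488) (nat_lit 142) (nat_lit 1) (nat_lit 132) (nat_lit 1) (nat_lit 131) (nat_lit 1) (nat_lit 261) (nat_lit 233) (nat_lit 226))))))))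
noncomputable def ec17 : XT := (XT.nd (nat_lit 2538) (nat_lit 3360) (nat_lit 0) (XT.nd (nat_lit 1222) (nat_lit 2436) (nat_lit 0) (XT.nd (nat_lit 564) (nat_lit 1596) (nat_lit 0) (XT.nd (nat_lit 282) (nat_lit 1344) (nat_lit 0) (XT.nd (nat_lit 94) (nat_lit 0) (nat_lit 0) (XT.lf (nat_lit 924) (nat_lit 324165843) (nat_lit 0) (nat_lit 1739188064) (nat_lit 840) (nat_lit 324165843) (nat_lit 143) (nat_lit 1) (nat_lit 132) (nat_lit 1) (nat_lit 142) (nat_lit 1) (nat_lit 262) (nat_lit 233) (nat_lit 225)) (XT.nd (nat_lit 94) (nat_lit 0) (nat_lit 84) (XT.lf (nat_lit 924) (nat_lit 468699338) (nat_lit 84) (nat_lit 932484749) (nat_lit 0) (nat_lit 932484749) (nat_lit 143) (nat_lit 1) (nat_lit 133) (nat_lit 1) (nat_lit 132) (nat_lit 1) (nat_lit 263) (nat_lit 233) (nat_lit 224)) (XT.lf (nat_lit 84) (nat_lit 144968658) (nat_lit 0) (nat_lit 1992079053) (nat_lit 840) (nat_lit 144968658) (nat_lit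 134) (nat_lit 1) (nat_lit 133) (nat_lit 1) (nat_lit 143) (nat_lit 1) (nat_lit 264) (nat_lit 233) (nat_lit 223)))) (XT.nd (nat_lit 94) (nat_lit 588) (nat_lit 0) (XT.lf (nat_lit 924) (nat_lit 87557464) (nat_lit 0) (nat_lit 1071868031) (nat_lit 840) (nat_lit 1071868031) (nat_lit 134) (nat_lit 1) (nat_lit 123) (nat_lit 1) (nat_lit 133) (nat_lit 1) (nat_lit 265) (nat_lit 233) (nat_lit 222)) (XT.nd (nat_lit 94) (nat_lit 0) (nat_lit 0) (XT.lf (nat_lit 588) (nat_lit 2077848902) (nat_lit 0) (nat_lit 52450466) (nat_lit 504) (nat_lit 52450466) (nat_lit 123) (nat_lit 1) (nat_lit 116) (nat_lit 1) (nat_lit 122) (nat_lit 1) (nat_lit 266) (nat_lit 233) (nat_lit 221)) (XT.lf (nat_lit 84) (nat_lit 908431923) (nat_lit 0) (nat_lit 317966749) (nat_lit 588) (nat_lit 908431923) (nat_lit 117) (nat_lit 1) (nat_lit 116) (nat_lit 1) (nat_lit 123) (nat_lit 1) (nat_lit 267) (nat_lit 233) (nat_lit 220)))))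 (XT.nd (nat_lit 282) (nat_lit 756) (nat_lit 0) (XT.nd (nat_lit 94) (nat_lit 420) (nat_lit 0) (XT.lf (nat_lit 504) (nat_lit 1563178156) (nat_lit 0) (nat_lit 262885428) (nat_lit 420) (nat_lit 262885428) (nat_lit 117) (nat_lit 1) (nat_lit 111) (nat_lit 1) (nat_lit 116) (nat_lit 1) (nat_lit 268) (nat_lit 233) (nat_lit 219)) (XT.nd (nat_lit 94) (nat_lit 420) (nat_lit 0) (XT.lf (nat_lit 84) (nat_lit 647973432) (nat_lit 0) (nat_lit 748085124) (nat_lit 504) (nat_lit 647973432) (nat_lit 112) (nat_lit 1) (nat_lit 111) (nat_lit 1) (nat_lit 117) (nat_lit 1) (nat_lit 269) (nat_lit 233) (nat_lit 218)) (XT.lf (nat_lit 504) (nat_lit 1029374983) (nat_lit 0) (nat_lit 485652159) (nat_lit 420) (nat_lit 485652159) (nat_lit 112) (nat_lit 1) (nat_lit 106) (nat_lit 1) (nat_lit 111) (nat_lit 1) (nat_lit 270) (nat_lit 233) (nat_lit 217)))) (XT.nd (nat_lit 188) (nat_lit 420) (nat_lit 0) (XT.nd (nat_lit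 94) (nat_lit 336) (nat_lit 0) (XT.lf (nat_lit 84) (nat_lit 379311001) (nat_lit 0) (nat_lit 1199965457) (nat_lit 504) (nat_lit 379311001) (nat_lit 107) (nat_lit 1) (nat_lit 106) (nat_lit 1) (nat_lit 112) (nat_lit 1) (nat_lit 271) (nat_lit 233) (nat_lit 216)) (XT.lf (nat_lit 420) (nat_lit 481407738) (nat_lit 0) (nat_lit 718085309) (nat_lit 336) (nat_lit 718085309) (nat_lit 107) (nat_lit 1) (nat_lit 102) (nat_lit 1) (nat_lit 106) (nat_lit 1) (nat_lit 272) (nat_lit 233) (nat_lit 215))) (XT.nd (nat_lit 94) (nat_lit 420) (nat_lit 0) (XT.lf (nat_lit 84) (nat_lit 104751111) (nat_lit 0) (nat_lit 1668644040) (nat_lit 420) (nat_lit 104751111) (nat_lit 103) (nat_lit 1) (nat_lit 102) (nat_lit 1) (nat_lit 107) (nat_lit 1) (nat_lit 273) (nat_lit 233) (nat_lit 214)) (XT.lf (nat_lit 84) (nat_lit 882662966) (nat_lit 0) (nat_lit 73924738) (nat_lit 420) (nat_lit 882662966) (nat_lit 98) (nat_lit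 1) (nat_lit 97) (nat_lit 1) (nat_lit 102) (nat_lit 1) (nat_lit 274) (nat_lit 233) (nat_lit 213)))))) (XT.nd (nat_lit 658) (nat_lit 1092) (nat_lit 0) (XT.nd (nat_lit 282) (nat_lit 672) (nat_lit 0) (XT.nd (nat_lit 94) (nat_lit 336) (nat_lit 0) (XT.lf (nat_lit 420) (nat_lit 1460063743) (nat_lit 0) (nat_lit 170886286) (nat_lit 336) (nat_lit 170886286) (nat_lit 98) (nat_lit 1) (nat_lit 93) (nat_lit 1) (nat_lit 97) (nat_lit 1) (nat_lit 275) (nat_lit 233) (nat_lit 212)) (XT.nd (nat_lit 94) (nat_lit 336) (nat_lit 0) (XT.lf (nat_lit 84) (nat_lit 572701189) (nat_lit 0) (nat_lit 619661437) (nat_lit 420) (nat_lit 572701189) (nat_lit 94) (nat_lit 1) (nat_lit 93) (nat_lit 1) (nat_lit 98) (nat_lit 1) (nat_lit 276) (nat_lit 233) (nat_lit 211)) (XT.lf (nat_lit 420) (nat_lit 835730348) (nat_lit 0) (nat_lit 446918053) (nat_lit 336) (nat_lit 446918053) (nat_lit 94) (nat_lit 1) (nat_lit 89)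 (nat_lit 1) (nat_lit 93) (nat_lit 1) (nat_lit 277) (nat_lit 233) (nat_lit 210)))) (XT.nd (nat_lit 188) (nat_lit 420) (nat_lit 0) (XT.nd (nat_lit 94) (nat_lit 252) (nat_lit 0) (XT.lf (nat_lit 84) (nat_lit 263552053) (nat_lit 0) (nat_lit 1168002932) (nat_lit 420) (nat_lit 263552053) (nat_lit 90) (nat_lit 1) (nat_lit 89) (nat_lit 1) (nat_lit 94) (nat_lit 1) (nat_lit 278) (nat_lit 233) (nat_lit 209)) (XT.lf (nat_lit 336) (nat_lit 214335597) (nat_lit 0) (nat_lit 723527934) (nat_lit 252) (nat_lit 723527934) (nat_lit 90) (nat_lit 1) (nat_lit 86) (nat_lit 1) (nat_lit 89) (nat_lit 1) (nat_lit 279) (nat_lit 233) (nat_lit 208))) (XT.nd (nat_lit 94) (nat_lit 0) (nat_lit 0) (XT.lf (nat_lit 420) (nat_lit 1543328218) (nat_lit 0) (nat_lit 42824396) (nat_lit 336) (nat_lit 42824396) (nat_lit 86) (nat_lit 1) (nat_lit 81) (nat_lit 1) (nat_lit 85) (nat_lit 1) (nat_lit 280) (nat_lit 233) (nat_lit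 207)) (XT.lf (nat_lit 84) (nat_lit 603915741) (nat_lit 0) (nat_lit 388910484) (nat_lit 420) (nat_lit 603915741) (nat_lit 82) (nat_lit 1) (nat_lit 81) (nat_lit 1) (nat_lit 86) (nat_lit 1) (nat_lit 281) (nat_lit 233) (nat_lit 206))))) (XT.nd (nat_lit 282) (nat_lit 588) (nat_lit 0) (XT.nd (nat_lit 94) (nat_lit 252) (nat_lit 0) (XT.lf (nat_lit 336) (nat_lit 882038033) (nat_lit 0) (nat_lit 341852595) (nat_lit 252) (nat_lit 341852595) (nat_lit 82) (nat_lit 1) (nat_lit 78) (nat_lit 1) (nat_lit 81) (nat_lit 1) (nat_lit 282) (nat_lit 233) (nat_lit 205)) (XT.nd (nat_lit 94) (nat_lit 252) (nat_lit 0) (XT.lf (nat_lit 84) (nat_lit 278649458) (nat_lit 0) (nat_lit 978233139) (nat_lit 336) (nat_lit 278649458) (nat_lit 79) (nat_lit 1) (nat_lit 78) (nat_lit 1) (nat_lit 82) (nat_lit 1) (nat_lit 283) (nat_lit 233) (nat_lit 204)) (XT.lf (nat_lit 336) (nat_lit 232245614) (nat_lit 0) (nat_lit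 636881284) (nat_lit 252) (nat_lit 636881284) (nat_lit 79) (nat_lit 1) (nat_lit 75) (nat_lit 1) (nat_lit 78) (nat_lit 1) (nat_lit 284) (nat_lit 233) (nat_lit 203)))) (XT.nd (nat_lit 188) (nat_lit 252) (nat_lit 0) (XT.nd (nat_lit 94) (nat_lit 0) (nat_lit 0) (XT.lf (nat_lit 336) (nat_lit 1397753545) (nat_lit 0) (nat_lit 39913807) (nat_lit 252) (nat_lit 39913807) (nat_lit 75) (nat_lit 1) (nat_lit 71) (nat_lit 1) (nat_lit 74) (nat_lit 1) (nat_lit 285) (nat_lit 233) (nat_lit 202)) (XT.lf (nat_lit 84) (nat_lit 528730137) (nat_lit 0) (nat_lit 391783722) (nat_lit 336) (nat_lit 528730137) (nat_lit 72) (nat_lit 1) (nat_lit 71) (nat_lit 1) (nat_lit 75) (nat_lit 1) (nat_lit 286) (nat_lit 233) (nat_lit 201))) (XT.nd (nat_lit 94) (nat_lit 0) (nat_lit 0) (XT.lf (nat_lit 336) (nat_lit 727052352) (nat_lit 0) (nat_lit 347451479) (nat_lit 252) (nat_lit 347451479) (nat_lit 72) (nat_lit 1) (nat_lit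 68) (nat_lit 1) (nat_lit 71) (nat_lit 1) (nat_lit 287) (nat_lit 233) (nat_lit 200)) (XT.lf (nat_lit 84) (nat_lit 200229624) (nat_lit 0) (nat_lit 994939272) (nat_lit 336) (nat_lit 200229624) (nat_lit 69) (nat_lit 1) (nat_lit 68) (nat_lit 1) (nat_lit 72) (nat_lit 1) (nat_lit 288) (nat_lit 233) (nat_lit 199))))))) (XT.nd (nat_lit 1222) (nat_lit 1680) (nat_lit 0) (XT.nd (nat_lit 564) (nat_lit 756) (nat_lit 0) (XT.nd (nat_lit 282) (nat_lit 420) (nat_lit 0) (XT.nd (nat_lit 94) (nat_lit 336) (nat_lit 0) (XT.lf (nat_lit 252) (nat_lit 73370792) (nat_lit 0) (nat_lit 647985693) (nat_lit 168) (nat_lit 647985693) (nat_lit 69) (nat_lit 1) (nat_lit 66) (nat_lit 1) (nat_lit 68) (nat_lit 1) (nat_lit 289) (nat_lit 233) (nat_lit 198)) (XT.nd (nat_lit 94) (nat_lit 0) (nat_lit 0) (XT.lf (nat_lit 336) (nat_lit 1108608065) (nat_lit 0) (nat_lit 117742212) (nat_lit 252) (nat_lit 117742212) (nat_lit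 66) (nat_lit 1) (nat_lit 62) (nat_lit 1) (nat_lit 65) (nat_lit 1) (nat_lit 290) (nat_lit 233) (nat_lit 197)) (XT.lf (nat_lit 84) (nat_lit 387210482) (nat_lit 0) (nat_lit 544704229) (nat_lit 336) (nat_lit 387210482) (nat_lit 63) (nat_lit 1) (nat_lit 62) (nat_lit 1) (nat_lit 66) (nat_lit 1) (nat_lit 291) (nat_lit 233) (nat_lit 196)))) (XT.nd (nat_lit 94) (nat_lit 252) (nat_lit 0) (XT.lf (nat_lit 252) (nat_lit 447361982) (nat_lit 0) (nat_lit 423783237) (nat_lit 168) (nat_lit 423783237) (nat_lit 63) (nat_lit 1) (nat_lit 60) (nat_lit 1) (nat_lit 62) (nat_lit 1) (nat_lit 292) (nat_lit 233) (nat_lit 195)) (XT.nd (nat_lit 94) (nat_lit 252) (nat_lit 0) (XT.lf (nat_lit 84) (nat_lit 64271717) (nat_lit 0) (nat_lit 1142991281) (nat_lit 252) (nat_lit 64271717) (nat_lit 61) (nat_lit 1) (nat_lit 60) (nat_lit 1) (nat_lit 63) (nat_lit 1) (nat_lit 293) (nat_lit 233) (nat_lit 194)) (XT.lf (nat_lit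 84) (nat_lit 530445759) (nat_lit 0) (nat_lit 187334496) (nat_lit 252) (nat_lit 530445759) (nat_lit 58) (nat_lit 1) (nat_lit 57) (nat_lit 1) (nat_lit 60) (nat_lit 1) (nat_lit 294) (nat_lit 233) (nat_lit 193))))) (XT.nd (nat_lit 282) (nat_lit 420) (nat_lit 0) (XT.nd (nat_lit 94) (nat_lit 168) (nat_lit 0) (XT.lf (nat_lit 252) (nat_lit 736616905) (nat_lit 0) (nat_lit 244536854) (nat_lit 168) (nat_lit 244536854) (nat_lit 58) (nat_lit 1) (nat_lit 55) (nat_lit 1) (nat_lit 57) (nat_lit 1) (nat_lit 295) (nat_lit 233) (nat_lit 192)) (XT.nd (nat_lit 94) (nat_lit 168) (nat_lit 0) (XT.lf (nat_lit 84) (nat_lit 207854126) (nat_lit 0) (nat_lit 787945042) (nat_lit 252) (nat_lit 207854126) (nat_lit 56) (nat_lit 1) (nat_lit 55) (nat_lit 1) (nat_lit 58) (nat_lit 1) (nat_lit 296) (nat_lit 233) (nat_lit 191)) (XT.lf (nat_lit 252) (nat_lit 97372174) (nat_lit 0) (nat_lit 542344009) (nat_lit 168)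 (nat_lit 542344009) (nat_lit 56) (nat_lit 1) (nat_lit 53) (nat_lit 1) (nat_lit 55) (nat_lit 1) (nat_lit 297) (nat_lit 233) (nat_lit 190)))) (XT.nd (nat_lit 188) (nat_lit 168) (nat_lit 0) (XT.nd (nat_lit 94) (nat_lit 0) (nat_lit 0) (XT.lf (nat_lit 252) (nat_lit 957036641) (nat_lit 0) (nat_lit 102028062) (nat_lit 168) (nat_lit 102028062) (nat_lit 53) (nat_lit 1) (nat_lit 50) (nat_lit 1) (nat_lit 52) (nat_lit 1) (nat_lit 298) (nat_lit 233) (nat_lit 189)) (XT.lf (nat_lit 84) (nat_lit 318599843) (nat_lit 0) (nat_lit 503104609) (nat_lit 252) (nat_lit 318599843) (nat_lit 51) (nat_lit 1) (nat_lit 50) (nat_lit 1) (nat_lit 53) (nat_lit 1) (nat_lit 299) (nat_lit 233) (nat_lit 188))) (XT.nd (nat_lit 94) (nat_lit 0) (nat_lit 0) (XT.lf (nat_lit 252) (nat_lit 324478472) (nat_lit 0) (nat_lit 397820435) (nat_lit 168) (nat_lit 397820435) (nat_lit 51) (nat_lit 1) (nat_lit 48) (nat_lit 1) (nat_lit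 50) (nat_lit 1) (nat_lit 300) (nat_lit 233) (nat_lit 187)) (XT.lf (nat_lit 84) (nat_lit 10664712) (nat_lit 0) (nat_lit 1079312851) (nat_lit 252) (nat_lit 10664712) (nat_lit 49) (nat_lit 1) (nat_lit 48) (nat_lit 1) (nat_lit 51) (nat_lit 1) (nat_lit 301) (nat_lit 233) (nat_lit 186)))))) (XT.nd (nat_lit 658) (nat_lit 924) (nat_lit 0) (XT.nd (nat_lit 282) (nat_lit 420) (nat_lit 0) (XT.nd (nat_lit 94) (nat_lit 168) (nat_lit 0) (XT.lf (nat_lit 84) (nat_lit 402682154) (nat_lit 0) (nat_lit 275677095) (nat_lit 168) (nat_lit 402682154) (nat_lit 47) (nat_lit 1) (nat_lit 46) (nat_lit 1) (nat_lit 48) (nat_lit 1) (nat_lit 302) (nat_lit 233) (nat_lit 185)) (XT.nd (nat_lit 94) (nat_lit 0) (nat_lit 0) (XT.lf (nat_lit 252) (nat_lit 499682711) (nat_lit 0) (nat_lit 281223739) (nat_lit 168) (nat_lit 281223739) (nat_lit 47) (nat_lit 1) (nat_lit 44) (nat_lit 1) (nat_lit 46) (nat_lit 1) (nat_lit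 303) (nat_lit 233) (nat_lit 184)) (XT.lf (nat_lit 84) (nat_lit 100182930) (nat_lit 0) (nat_lit 843363576) (nat_lit 252) (nat_lit 100182930) (nat_lit 45) (nat_lit 1) (nat_lit 44) (nat_lit 1) (nat_lit 47) (nat_lit 1) (nat_lit 304) (nat_lit 233) (nat_lit 183)))) (XT.nd (nat_lit 188) (nat_lit 84) (nat_lit 0) (XT.nd (nat_lit 94) (nat_lit 168) (nat_lit 0) (XT.lf (nat_lit 84) (nat_lit 465163105) (nat_lit 0) (nat_lit 95154217) (nat_lit 168) (nat_lit 465163105) (nat_lit 43) (nat_lit 1) (nat_lit 42) (nat_lit 1) (nat_lit 44) (nat_lit 1) (nat_lit 305) (nat_lit 233) (nat_lit 182)) (XT.lf (nat_lit 252) (nat_lit 632741126) (nat_lit 0) (nat_lit 187492878) (nat_lit 168) (nat_lit 187492878) (nat_lit 43) (nat_lit 1) (nat_lit 40) (nat_lit 1) (nat_lit 42) (nat_lit 1) (nat_lit 306) (nat_lit 233) (nat_lit 181))) (XT.nd (nat_lit 94) (nat_lit 84) (nat_lit 0) (XT.lf (nat_lit 84) (nat_lit 169476977)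 (nat_lit 0) (nat_lit 651370846) (nat_lit 252) (nat_lit 169476977) (nat_lit 41) (nat_lit 1) (nat_lit 40) (nat_lit 1) (nat_lit 43) (nat_lit 1) (nat_lit 307) (nat_lit 233) (nat_lit 180)) (XT.lf (nat_lit 168) (nat_lit 48650668) (nat_lit 0) (nat_lit 462300218) (nat_lit 84) (nat_lit 462300218) (nat_lit 41) (nat_lit 1) (nat_lit 39) (nat_lit 1) (nat_lit 40) (nat_lit 1) (nat_lit 308) (nat_lit 233) (nat_lit 179))))) (XT.nd (nat_lit 282) (nat_lit 588) (nat_lit 0) (XT.nd (nat_lit 94) (nat_lit 84) (nat_lit 0) (XT.lf (nat_lit 252) (nat_lit 731653808) (nat_lit 0) (nat_lit 112469342) (nat_lit 168) (nat_lit 112469342) (nat_lit 39) (nat_lit 1) (nat_lit 36) (nat_lit 1) (nat_lit 38) (nat_lit 1) (nat_lit 309) (nat_lit 233) (nat_lit 178)) (XT.nd (nat_lit 94) (nat_lit 84) (nat_lit 0) (XT.lf (nat_lit 84) (nat_lit 222339827) (nat_lit 0) (nat_lit 495440163) (nat_lit 252) (nat_lit 222339827) (nat_lit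 37) (nat_lit 1) (nat_lit 36) (nat_lit 1) (nat_lit 39) (nat_lit 1) (nat_lit 310) (nat_lit 233) (nat_lit 177)) (XT.lf (nat_lit 168) (nat_lit 163379966) (nat_lit 0) (nat_lit 380335534) (nat_lit 84) (nat_lit 380335534) (nat_lit 37) (nat_lit 1) (nat_lit 35) (nat_lit 1) (nat_lit 36) (nat_lit 1) (nat_lit 311) (nat_lit 233) (nat_lit 176)))) (XT.nd (nat_lit 188) (nat_lit 336) (nat_lit 0) (XT.nd (nat_lit 94) (nat_lit 0) (nat_lit 0) (XT.lf (nat_lit 252) (nat_lit 802977320) (nat_lit 0) (nat_lit 52736889) (nat_lit 168) (nat_lit 52736889) (nat_lit 35) (nat_lit 1) (nat_lit 32) (nat_lit 1) (nat_lit 34) (nat_lit 1) (nat_lit 312) (nat_lit 233) (nat_lit 175)) (XT.lf (nat_lit 84) (nat_lit 261882096) (nat_lit 0) (nat_lit 369081522) (nat_lit 252) (nat_lit 261882096) (nat_lit 33) (nat_lit 1) (nat_lit 32) (nat_lit 1) (nat_lit 35) (nat_lit 1) (nat_lit 313) (nat_lit 233) (nat_lit 174))) (XT.nd (nat_lit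 94) (nat_lit 252) (nat_lit 0) (XT.lf (nat_lit 168) (nat_lit 251893999) (nat_lit 0) (nat_lit 312902985) (nat_lit 84) (nat_lit 312902985) (nat_lit 33) (nat_lit 1) (nat_lit 31) (nat_lit 1) (nat_lit 32) (nat_lit 1) (nat_lit 314) (nat_lit 233) (nat_lit 173)) (XT.lf (nat_lit 252) (nat_lit 852081829) (nat_lit 0) (nat_lit 5489706) (nat_lit 168) (nat_lit 5489706) (nat_lit 31) (nat_lit 1) (nat_lit 28) (nat_lit 1) (nat_lit 30) (nat_lit 1) (nat_lit 315) (nat_lit 233) (nat_lit 172))))))))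
noncomputable def ec18 : XT := (XT.nd (nat_lit 40796) (nat_lit 0) (nat_lit 2856) (XT.nd (nat_lit 39480) (nat_lit 0) (nat_lit 7308) (XT.nd (nat_lit 564) (nat_lit 420) (nat_lit 0) (XT.nd (nat_lit 282) (nat_lit 252) (nat_lit 0) (XT.nd (nat_lit 94) (nat_lit 84) (nat_lit 0) (XT.lf (nat_lit 84) (nat_lit 290653495) (nat_lit 0) (nat_lit 266960161) (nat_lit 252) (nat_lit 290653495) (nat_lit 29) (nat_lit 1) (nat_lit 28) (nat_lit 1) (nat_lit 31) (nat_lit 1) (nat_lit 316) (nat_lit 233) (nat_lit 171)) (XT.nd (nat_lit 94) (nat_lit 0) (nat_lit 0) (XT.lf (nat_lit 168) (nat_lit 319120384) (nat_lit 0) (nat_lit 257426060) (nat_lit 84) (nat_lit 257426060) (nat_lit 29) (nat_lit 1) (nat_lit 27) (nat_lit 1) (nat_lit 28) (nat_lit 1) (nat_lit 317) (nat_lit 233) (nat_lit 170)) (XT.lf (nat_lit 0) (nat_lit 32093686) (nat_lit 0) (nat_lit 755922064) (nat_lit 168) (nat_lit 32093686) (nat_lit 27) (nat_lit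 3) (nat_lit 27) (nat_lit 1) (nat_lit 29) (nat_lit 1) (nat_lit 318) (nat_lit 233) (nat_lit 169)))) (XT.nd (nat_lit 94) (nat_lit 84) (nat_lit 0) (XT.lf (nat_lit 84) (nat_lit 310742728) (nat_lit 0) (nat_lit 184691527) (nat_lit 168) (nat_lit 310742728) (nat_lit 26) (nat_lit 1) (nat_lit 25) (nat_lit 1) (nat_lit 27) (nat_lit 1) (nat_lit 319) (nat_lit 233) (nat_lit 168)) (XT.nd (nat_lit 94) (nat_lit 0) (nat_lit 0) (XT.lf (nat_lit 168) (nat_lit 369099766) (nat_lit 0) (nat_lit 211785056) (nat_lit 84) (nat_lit 211785056) (nat_lit 26) (nat_lit 1) (nat_lit 24) (nat_lit 1) (nat_lit 25) (nat_lit 1) (nat_lit 320) (nat_lit 233) (nat_lit 167)) (XT.lf (nat_lit 0) (nat_lit 61340813) (nat_lit 0) (nat_lit 656836211) (nat_lit 168) (nat_lit 61340813) (nat_lit 24) (nat_lit 3) (nat_lit 24) (nat_lit 1) (nat_lit 26) (nat_lit 1) (nat_lit 321) (nat_lit 233) (nat_lit 166))))) (XT.nd (nat_lit 282) (nat_lit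 168) (nat_lit 0) (XT.nd (nat_lit 94) (nat_lit 84) (nat_lit 0) (XT.lf (nat_lit 84) (nat_lit 323859648) (nat_lit 0) (nat_lit 118672597) (nat_lit 168) (nat_lit 323859648) (nat_lit 23) (nat_lit 1) (nat_lit 22) (nat_lit 1) (nat_lit 24) (nat_lit 1) (nat_lit 322) (nat_lit 233) (nat_lit 165)) (XT.nd (nat_lit 94) (nat_lit 0) (nat_lit 0) (XT.lf (nat_lit 168) (nat_lit 405143707) (nat_lit 0) (nat_lit 174236090) (nat_lit 84) (nat_lit 174236090) (nat_lit 23) (nat_lit 1) (nat_lit 21) (nat_lit 1) (nat_lit 22) (nat_lit 1) (nat_lit 323) (nat_lit 233) (nat_lit 164)) (XT.lf (nat_lit 0) (nat_lit 83738817) (nat_lit 0) (nat_lit 573654355) (nat_lit 168) (nat_lit 83738817) (nat_lit 21) (nat_lit 3) (nat_lit 21) (nat_lit 1) (nat_lit 23) (nat_lit 1) (nat_lit 324) (nat_lit 233) (nat_lit 163)))) (XT.nd (nat_lit 38446) (nat_lit 0) (nat_lit 9156) (XT.nd (nat_lit 38352) (nat_lit 0) (nat_lit 9156) (XT.lf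 (nat_lit 84) (nat_lit 331402836) (nat_lit 0) (nat_lit 65943117) (nat_lit 168) (nat_lit 331402836) (nat_lit 20) (nat_lit 1) (nat_lit 19) (nat_lit 1) (nat_lit 21) (nat_lit 1) (nat_lit 325) (nat_lit 233) (nat_lit 162)) (XT.lf (nat_lit 924) (nat_lit 400971850) (nat_lit 0) (nat_lit 711924598) (nat_lit 924) (nat_lit 400971850) (nat_lit 139) (nat_lit 1) (nat_lit 128) (nat_lit 0) (nat_lit 139) (nat_lit 0) (nat_lit 252) (nat_lit 234) (nat_lit 234))) (XT.nd (nat_lit 94) (nat_lit 0) (nat_lit 84) (XT.lf (nat_lit 924) (nat_lit 1554216950) (nat_lit 84) (nat_lit 700441943) (nat_lit 0) (nat_lit 700441943) (nat_lit 139) (nat_lit 1) (nat_lit 129) (nat_lit 1) (nat_lit 128) (nat_lit 0) (nat_lit 253) (nat_lit 234) (nat_lit 233)) (XT.lf (nat_lit 924) (nat_lit 740716396) (nat_lit 0) (nat_lit 1403277846) (nat_lit 840) (nat_lit 740716396) (nat_lit 140) (nat_lit 1) (nat_lit 129) (nat_lit 1) (nat_lit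 139) (nat_lit 1) (nat_lit 254) (nat_lit 234) (nat_lit 232)))))) (XT.nd (nat_lit 658) (nat_lit 1932) (nat_lit 0) (XT.nd (nat_lit 282) (nat_lit 0) (nat_lit 168) (XT.nd (nat_lit 94) (nat_lit 0) (nat_lit 84) (XT.lf (nat_lit 924) (nat_lit 1389481035) (nat_lit 84) (nat_lit 713556767) (nat_lit 0) (nat_lit 713556767) (nat_lit 140) (nat_lit 1) (nat_lit 130) (nat_lit 1) (nat_lit 129) (nat_lit 1) (nat_lit 255) (nat_lit 234) (nat_lit 231)) (XT.nd (nat_lit 94) (nat_lit 0) (nat_lit 0) (XT.lf (nat_lit 924) (nat_lit 639564777) (nat_lit 0) (nat_lit 1471507882) (nat_lit 840) (nat_lit 639564777) (nat_lit 141) (nat_lit 1) (nat_lit 130) (nat_lit 1) (nat_lit 140) (nat_lit 1) (nat_lit 256) (nat_lit 234) (nat_lit 230)) (XT.lf (nat_lit 924) (nat_lit 1150298908) (nat_lit 84) (nat_lit 768196010) (nat_lit 0) (nat_lit 768196010) (nat_lit 141) (nat_lit 1) (nat_lit 131) (nat_lit 1) (nat_lit 130) (nat_lit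 1) (nat_lit 257) (nat_lit 234) (nat_lit 229)))) (XT.nd (nat_lit 188) (nat_lit 0) (nat_lit 84) (XT.nd (nat_lit 94) (nat_lit 0) (nat_lit 0) (XT.lf (nat_lit 924) (nat_lit 504372847) (nat_lit 0) (nat_lit 1616145830) (nat_lit 840) (nat_lit 504372847) (nat_lit 142) (nat_lit 1) (nat_lit 131) (nat_lit 1) (nat_lit 141) (nat_lit 1) (nat_lit 258) (nat_lit 234) (nat_lit 228)) (XT.lf (nat_lit 924) (nat_lit 847866243) (nat_lit 84) (nat_lit 858463713) (nat_lit 0) (nat_lit 858463713) (nat_lit 142) (nat_lit 1) (nat_lit 132) (nat_lit 1) (nat_lit 131) (nat_lit 1) (nat_lit 259) (nat_lit 234) (nat_lit 227))) (XT.nd (nat_lit 94) (nat_lit 0) (nat_lit 0) (XT.lf (nat_lit 924) (nat_lit 340374135) (nat_lit 0) (nat_lit 1826147467) (nat_lit 840) (nat_lit 340374135) (nat_lit 143) (nat_lit 1) (nat_lit 132) (nat_lit 1) (nat_lit 142) (nat_lit 1) (nat_lit 260) (nat_lit 234) (nat_lit 226)) (XT.lf (nat_lit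 924) (nat_lit 492134305) (nat_lit 84) (nat_lit 979108987) (nat_lit 0) (nat_lit 979108987) (nat_lit 143) (nat_lit 1) (nat_lit 133) (nat_lit 1) (nat_lit 132) (nat_lit 1) (nat_lit 261) (nat_lit 234) (nat_lit 225))))) (XT.nd (nat_lit 282) (nat_lit 840) (nat_lit 0) (XT.nd (nat_lit 94) (nat_lit 1428) (nat_lit 0) (XT.lf (nat_lit 84) (nat_lit 152217091) (nat_lit 0) (nat_lit 2091683006) (nat_lit 840) (nat_lit 152217091) (nat_lit 134) (nat_lit 1) (nat_lit 133) (nat_lit 1) (nat_lit 143) (nat_lit 1) (nat_lit 262) (nat_lit 234) (nat_lit 224)) (XT.nd (nat_lit 94) (nat_lit 588) (nat_lit 0) (XT.lf (nat_lit 924) (nat_lit 91935337) (nat_lit 0) (nat_lit 1125461433) (nat_lit 840) (nat_lit 1125461433) (nat_lit 134) (nat_lit 1) (nat_lit 123) (nat_lit 1) (nat_lit 133) (nat_lit 1) (nat_lit 263) (nat_lit 234) (nat_lit 223)) (XT.lf (nat_lit 588) (nat_lit 2181741347) (nat_lit 0) (nat_lit 55072989)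 (nat_lit 504) (nat_lit 55072989) (nat_lit 123) (nat_lit 1) (nat_lit 116) (nat_lit 1) (nat_lit 122) (nat_lit 1) (nat_lit 264) (nat_lit 234) (nat_lit 222)))) (XT.nd (nat_lit 188) (nat_lit 420) (nat_lit 0) (XT.nd (nat_lit 94) (nat_lit 420) (nat_lit 0) (XT.lf (nat_lit 84) (nat_lit 953853519) (nat_lit 0) (nat_lit 333865087) (nat_lit 588) (nat_lit 953853519) (nat_lit 117) (nat_lit 1) (nat_lit 116) (nat_lit 1) (nat_lit 123) (nat_lit 1) (nat_lit 265) (nat_lit 234) (nat_lit 221)) (XT.lf (nat_lit 504) (nat_lit 1641337063) (nat_lit 0) (nat_lit 276029700) (nat_lit 420) (nat_lit 276029700) (nat_lit 117) (nat_lit 1) (nat_lit 111) (nat_lit 1) (nat_lit 116) (nat_lit 1) (nat_lit 266) (nat_lit 234) (nat_lit 220))) (XT.nd (nat_lit 94) (nat_lit 420) (nat_lit 0) (XT.lf (nat_lit 84) (nat_lit 680372103) (nat_lit 0) (nat_lit 785489380) (nat_lit 504) (nat_lit 680372103) (nat_lit 112) (nat_lit 1)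 (nat_lit 111) (nat_lit 1) (nat_lit 117) (nat_lit 1) (nat_lit 267) (nat_lit 234) (nat_lit 219)) (XT.lf (nat_lit 504) (nat_lit 1080843732) (nat_lit 0) (nat_lit 509934767) (nat_lit 420) (nat_lit 509934767) (nat_lit 112) (nat_lit 1) (nat_lit 106) (nat_lit 1) (nat_lit 111) (nat_lit 1) (nat_lit 268) (nat_lit 234) (nat_lit 218))))))) (XT.nd (nat_lit 1222) (nat_lit 2100) (nat_lit 0) (XT.nd (nat_lit 564) (nat_lit 1260) (nat_lit 0) (XT.nd (nat_lit 282) (nat_lit 756) (nat_lit 0) (XT.nd (nat_lit 94) (nat_lit 336) (nat_lit 0) (XT.lf (nat_lit 84) (nat_lit 398276551) (nat_lit 0) (nat_lit 1259963730) (nat_lit 504) (nat_lit 398276551) (nat_lit 107) (nat_lit 1) (nat_lit 106) (nat_lit 1) (nat_lit 112) (nat_lit 1) (nat_lit 269) (nat_lit 234) (nat_lit 217)) (XT.nd (nat_lit 94) (nat_lit 0) (nat_lit 0) (XT.lf (nat_lit 420) (nat_lit 505478124) (nat_lit 0) (nat_lit 753989575) (nat_lit 336) (nat_lit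 753989575) (nat_lit 107) (nat_lit 1) (nat_lit 102) (nat_lit 1) (nat_lit 106) (nat_lit 1) (nat_lit 270) (nat_lit 234) (nat_lit 216)) (XT.lf (nat_lit 84) (nat_lit 109988667) (nat_lit 0) (nat_lit 1752076242) (nat_lit 420) (nat_lit 109988667) (nat_lit 103) (nat_lit 1) (nat_lit 102) (nat_lit 1) (nat_lit 107) (nat_lit 1) (nat_lit 271) (nat_lit 234) (nat_lit 215)))) (XT.nd (nat_lit 94) (nat_lit 336) (nat_lit 0) (XT.lf (nat_lit 84) (nat_lit 926796114) (nat_lit 0) (nat_lit 77620974) (nat_lit 420) (nat_lit 926796114) (nat_lit 98) (nat_lit 1) (nat_lit 97) (nat_lit 1) (nat_lit 102) (nat_lit 1) (nat_lit 272) (nat_lit 234) (nat_lit 214)) (XT.nd (nat_lit 94) (nat_lit 0) (nat_lit 0) (XT.lf (nat_lit 420) (nat_lit 1533066930) (nat_lit 0) (nat_lit 179430601) (nat_lit 336) (nat_lit 179430601) (nat_lit 98) (nat_lit 1) (nat_lit 93) (nat_lit 1) (nat_lit 97) (nat_lit 1) (nat_lit 273) (nat_lit 234)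 (nat_lit 213)) (XT.lf (nat_lit 84) (nat_lit 601336248) (nat_lit 0) (nat_lit 650644509) (nat_lit 420) (nat_lit 601336248) (nat_lit 94) (nat_lit 1) (nat_lit 93) (nat_lit 1) (nat_lit 98) (nat_lit 1) (nat_lit 274) (nat_lit 234) (nat_lit 212))))) (XT.nd (nat_lit 282) (nat_lit 672) (nat_lit 0) (XT.nd (nat_lit 94) (nat_lit 252) (nat_lit 0) (XT.lf (nat_lit 420) (nat_lit 877516865) (nat_lit 0) (nat_lit 469263956) (nat_lit 336) (nat_lit 469263956) (nat_lit 94) (nat_lit 1) (nat_lit 89) (nat_lit 1) (nat_lit 93) (nat_lit 1) (nat_lit 275) (nat_lit 234) (nat_lit 211)) (XT.nd (nat_lit 94) (nat_lit 252) (nat_lit 0) (XT.lf (nat_lit 84) (nat_lit 276729656) (nat_lit 0) (nat_lit 1226403079) (nat_lit 420) (nat_lit 276729656) (nat_lit 90) (nat_lit 1) (nat_lit 89) (nat_lit 1) (nat_lit 94) (nat_lit 1) (nat_lit 276) (nat_lit 234) (nat_lit 210)) (XT.lf (nat_lit 336) (nat_lit 225052377) (nat_lit 0)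 (nat_lit 759704331) (nat_lit 252) (nat_lit 759704331) (nat_lit 90) (nat_lit 1) (nat_lit 86) (nat_lit 1) (nat_lit 89) (nat_lit 1) (nat_lit 277) (nat_lit 234) (nat_lit 209)))) (XT.nd (nat_lit 188) (nat_lit 252) (nat_lit 0) (XT.nd (nat_lit 94) (nat_lit 0) (nat_lit 0) (XT.lf (nat_lit 420) (nat_lit 1620494629) (nat_lit 0) (nat_lit 44965616) (nat_lit 336) (nat_lit 44965616) (nat_lit 86) (nat_lit 1) (nat_lit 81) (nat_lit 1) (nat_lit 85) (nat_lit 1) (nat_lit 278) (nat_lit 234) (nat_lit 208)) (XT.lf (nat_lit 84) (nat_lit 634111528) (nat_lit 0) (nat_lit 408356009) (nat_lit 420) (nat_lit 634111528) (nat_lit 82) (nat_lit 1) (nat_lit 81) (nat_lit 1) (nat_lit 86) (nat_lit 1) (nat_lit 279) (nat_lit 234) (nat_lit 207))) (XT.nd (nat_lit 94) (nat_lit 0) (nat_lit 0) (XT.lf (nat_lit 336) (nat_lit 926139934) (nat_lit 0) (nat_lit 358945225) (nat_lit 252) (nat_lit 358945225) (nat_lit 82) (nat_lit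 1) (nat_lit 78) (nat_lit 1) (nat_lit 81) (nat_lit 1) (nat_lit 280) (nat_lit 234) (nat_lit 206)) (XT.lf (nat_lit 84) (nat_lit 292581931) (nat_lit 0) (nat_lit 1027144796) (nat_lit 336) (nat_lit 292581931) (nat_lit 79) (nat_lit 1) (nat_lit 78) (nat_lit 1) (nat_lit 82) (nat_lit 1) (nat_lit 281) (nat_lit 234) (nat_lit 205)))))) (XT.nd (nat_lit 658) (nat_lit 756) (nat_lit 0) (XT.nd (nat_lit 282) (nat_lit 756) (nat_lit 0) (XT.nd (nat_lit 94) (nat_lit 336) (nat_lit 0) (XT.lf (nat_lit 336) (nat_lit 243857894) (nat_lit 0) (nat_lit 668725349) (nat_lit 252) (nat_lit 668725349) (nat_lit 79) (nat_lit 1) (nat_lit 75) (nat_lit 1) (nat_lit 78) (nat_lit 1) (nat_lit 282) (nat_lit 234) (nat_lit 204)) (XT.nd (nat_lit 94) (nat_lit 0) (nat_lit 0) (XT.lf (nat_lit 336) (nat_lit 1467641222) (nat_lit 0) (nat_lit 41909498) (nat_lit 252) (nat_lit 41909498) (nat_lit 75) (nat_lit 1) (nat_lit 71) (nat_lit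 1) (nat_lit 74) (nat_lit 1) (nat_lit 283) (nat_lit 234) (nat_lit 203)) (XT.lf (nat_lit 84) (nat_lit 555166643) (nat_lit 0) (nat_lit 411372908) (nat_lit 336) (nat_lit 555166643) (nat_lit 72) (nat_lit 1) (nat_lit 71) (nat_lit 1) (nat_lit 75) (nat_lit 1) (nat_lit 284) (nat_lit 234) (nat_lit 202)))) (XT.nd (nat_lit 188) (nat_lit 504) (nat_lit 0) (XT.nd (nat_lit 94) (nat_lit 0) (nat_lit 0) (XT.lf (nat_lit 336) (nat_lit 763404969) (nat_lit 0) (nat_lit 364824053) (nat_lit 252) (nat_lit 364824053) (nat_lit 72) (nat_lit 1) (nat_lit 68) (nat_lit 1) (nat_lit 71) (nat_lit 1) (nat_lit 285) (nat_lit 234) (nat_lit 201)) (XT.lf (nat_lit 84) (nat_lit 210241106) (nat_lit 0) (nat_lit 1044686236) (nat_lit 336) (nat_lit 210241106) (nat_lit 69) (nat_lit 1) (nat_lit 68) (nat_lit 1) (nat_lit 72) (nat_lit 1) (nat_lit 286) (nat_lit 234) (nat_lit 200))) (XT.nd (nat_lit 94) (nat_lit 336) (nat_lit 0)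 (XT.lf (nat_lit 252) (nat_lit 77039331) (nat_lit 0) (nat_lit 680384978) (nat_lit 168) (nat_lit 680384978) (nat_lit 69) (nat_lit 1) (nat_lit 66) (nat_lit 1) (nat_lit 68) (nat_lit 1) (nat_lit 287) (nat_lit 234) (nat_lit 199)) (XT.lf (nat_lit 336) (nat_lit 1164038468) (nat_lit 0) (nat_lit 123629322) (nat_lit 252) (nat_lit 123629322) (nat_lit 66) (nat_lit 1) (nat_lit 62) (nat_lit 1) (nat_lit 65) (nat_lit 1) (nat_lit 288) (nat_lit 234) (nat_lit 198))))) (XT.nd (nat_lit 282) (nat_lit 588) (nat_lit 0) (XT.nd (nat_lit 94) (nat_lit 168) (nat_lit 0) (XT.lf (nat_lit 84) (nat_lit 406571006) (nat_lit 0) (nat_lit 571939440) (nat_lit 336) (nat_lit 406571006) (nat_lit 63) (nat_lit 1) (nat_lit 62) (nat_lit 1) (nat_lit 66) (nat_lit 1) (nat_lit 289) (nat_lit 234) (nat_lit 197)) (XT.nd (nat_lit 94) (nat_lit 0) (nat_lit 0) (XT.lf (nat_lit 252) (nat_lit 469730081) (nat_lit 0) (nat_lit 444972399)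 (nat_lit 168) (nat_lit 444972399) (nat_lit 63) (nat_lit 1) (nat_lit 60) (nat_lit 1) (nat_lit 62) (nat_lit 1) (nat_lit 290) (nat_lit 234) (nat_lit 196)) (XT.lf (nat_lit 84) (nat_lit 67485303) (nat_lit 0) (nat_lit 1200140846) (nat_lit 252) (nat_lit 67485303) (nat_lit 61) (nat_lit 1) (nat_lit 60) (nat_lit 1) (nat_lit 63) (nat_lit 1) (nat_lit 291) (nat_lit 234) (nat_lit 195)))) (XT.nd (nat_lit 188) (nat_lit 168) (nat_lit 0) (XT.nd (nat_lit 94) (nat_lit 168) (nat_lit 0) (XT.lf (nat_lit 84) (nat_lit 556968047) (nat_lit 0) (nat_lit 196701220) (nat_lit 252) (nat_lit 556968047) (nat_lit 58) (nat_lit 1) (nat_lit 57) (nat_lit 1) (nat_lit 60) (nat_lit 1) (nat_lit 292) (nat_lit 234) (nat_lit 194)) (XT.lf (nat_lit 252) (nat_lit 773447750) (nat_lit 0) (nat_lit 256763697) (nat_lit 168) (nat_lit 256763697) (nat_lit 58) (nat_lit 1) (nat_lit 55) (nat_lit 1) (nat_lit 57) (nat_lit 1) (nat_lit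 293) (nat_lit 234) (nat_lit 193))) (XT.nd (nat_lit 94) (nat_lit 168) (nat_lit 0) (XT.lf (nat_lit 84) (nat_lit 218246833) (nat_lit 0) (nat_lit 827342294) (nat_lit 252) (nat_lit 218246833) (nat_lit 56) (nat_lit 1) (nat_lit 55) (nat_lit 1) (nat_lit 58) (nat_lit 1) (nat_lit 294) (nat_lit 234) (nat_lit 192)) (XT.lf (nat_lit 252) (nat_lit 102240783) (nat_lit 0) (nat_lit 569461209) (nat_lit 168) (nat_lit 569461209) (nat_lit 56) (nat_lit 1) (nat_lit 53) (nat_lit 1) (nat_lit 55) (nat_lit 1) (nat_lit 295) (nat_lit 234) (nat_lit 191))))))))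
noncomputable def ec19 : XT := (XT.nd (nat_lit 2538) (nat_lit 420) (nat_lit 0) (XT.nd (nat_lit 1222) (nat_lit 1260) (nat_lit 0) (XT.nd (nat_lit 564) (nat_lit 672) (nat_lit 0) (XT.nd (nat_lit 282) (nat_lit 336) (nat_lit 0) (XT.nd (nat_lit 94) (nat_lit 168) (nat_lit 0) (XT.lf (nat_lit 252) (nat_lit 1004888473) (nat_lit 0) (nat_lit 107129465) (nat_lit 168) (nat_lit 107129465) (nat_lit 53) (nat_lit 1) (nat_lit 50) (nat_lit 1) (nat_lit 52) (nat_lit 1) (nat_lit 296) (nat_lit 234) (nat_lit 190)) (XT.nd (nat_lit 94) (nat_lit 168) (nat_lit 0) (XT.lf (nat_lit 84) (nat_lit 334529835) (nat_lit 0) (nat_lit 528259839) (nat_lit 252) (nat_lit 334529835) (nat_lit 51) (nat_lit 1) (nat_lit 50) (nat_lit 1) (nat_lit 53) (nat_lit 1) (nat_lit 297) (nat_lit 234) (nat_lit 189)) (XT.lf (nat_lit 252) (nat_lit 340702395) (nat_lit 0) (nat_lit 417711456) (nat_lit 168) (nat_lit 417711456) (nat_lit 51)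 (nat_lit 1) (nat_lit 48) (nat_lit 1) (nat_lit 50) (nat_lit 1) (nat_lit 298) (nat_lit 234) (nat_lit 188)))) (XT.nd (nat_lit 94) (nat_lit 336) (nat_lit 0) (XT.lf (nat_lit 84) (nat_lit 11197948) (nat_lit 0) (nat_lit 1133278494) (nat_lit 252) (nat_lit 11197948) (nat_lit 49) (nat_lit 1) (nat_lit 48) (nat_lit 1) (nat_lit 51) (nat_lit 1) (nat_lit 299) (nat_lit 234) (nat_lit 187)) (XT.nd (nat_lit 94) (nat_lit 168) (nat_lit 0) (XT.lf (nat_lit 84) (nat_lit 422816262) (nat_lit 0) (nat_lit 289460950) (nat_lit 168) (nat_lit 422816262) (nat_lit 47) (nat_lit 1) (nat_lit 46) (nat_lit 1) (nat_lit 48) (nat_lit 1) (nat_lit 300) (nat_lit 234) (nat_lit 186)) (XT.lf (nat_lit 252) (nat_lit 524666847) (nat_lit 0) (nat_lit 295284926) (nat_lit 168) (nat_lit 295284926) (nat_lit 47) (nat_lit 1) (nat_lit 44) (nat_lit 1) (nat_lit 46) (nat_lit 1) (nat_lit 301) (nat_lit 234) (nat_lit 185))))) (XT.nd (nat_lit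 282) (nat_lit 336) (nat_lit 0) (XT.nd (nat_lit 94) (nat_lit 336) (nat_lit 0) (XT.lf (nat_lit 84) (nat_lit 105192076) (nat_lit 0) (nat_lit 885531755) (nat_lit 252) (nat_lit 105192076) (nat_lit 45) (nat_lit 1) (nat_lit 44) (nat_lit 1) (nat_lit 47) (nat_lit 1) (nat_lit 302) (nat_lit 234) (nat_lit 184)) (XT.nd (nat_lit 94) (nat_lit 168) (nat_lit 0) (XT.lf (nat_lit 84) (nat_lit 488421260) (nat_lit 0) (nat_lit 99911928) (nat_lit 168) (nat_lit 488421260) (nat_lit 43) (nat_lit 1) (nat_lit 42) (nat_lit 1) (nat_lit 44) (nat_lit 1) (nat_lit 303) (nat_lit 234) (nat_lit 183)) (XT.lf (nat_lit 252) (nat_lit 664378182) (nat_lit 0) (nat_lit 196867522) (nat_lit 168) (nat_lit 196867522) (nat_lit 43) (nat_lit 1) (nat_lit 40) (nat_lit 1) (nat_lit 42) (nat_lit 1) (nat_lit 304) (nat_lit 234) (nat_lit 182)))) (XT.nd (nat_lit 188) (nat_lit 252) (nat_lit 0) (XT.nd (nat_lit 94) (nat_lit 84) (nat_lit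 0) (XT.lf (nat_lit 84) (nat_lit 177950826) (nat_lit 0) (nat_lit 683939388) (nat_lit 252) (nat_lit 177950826) (nat_lit 41) (nat_lit 1) (nat_lit 40) (nat_lit 1) (nat_lit 43) (nat_lit 1) (nat_lit 305) (nat_lit 234) (nat_lit 181)) (XT.lf (nat_lit 168) (nat_lit 51083202) (nat_lit 0) (nat_lit 485415229) (nat_lit 84) (nat_lit 485415229) (nat_lit 41) (nat_lit 1) (nat_lit 39) (nat_lit 1) (nat_lit 40) (nat_lit 1) (nat_lit 306) (nat_lit 234) (nat_lit 180))) (XT.nd (nat_lit 94) (nat_lit 0) (nat_lit 0) (XT.lf (nat_lit 252) (nat_lit 768236498) (nat_lit 0) (nat_lit 118092809) (nat_lit 168) (nat_lit 118092809) (nat_lit 39) (nat_lit 1) (nat_lit 36) (nat_lit 1) (nat_lit 38) (nat_lit 1) (nat_lit 307) (nat_lit 234) (nat_lit 179)) (XT.lf (nat_lit 84) (nat_lit 233456818) (nat_lit 0) (nat_lit 520212172) (nat_lit 252) (nat_lit 233456818) (nat_lit 37) (nat_lit 1) (nat_lit 36) (nat_lit 1) (nat_lit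 39) (nat_lit 1) (nat_lit 308) (nat_lit 234) (nat_lit 178)))))) (XT.nd (nat_lit 658) (nat_lit 504) (nat_lit 0) (XT.nd (nat_lit 282) (nat_lit 420) (nat_lit 0) (XT.nd (nat_lit 94) (nat_lit 252) (nat_lit 0) (XT.lf (nat_lit 168) (nat_lit 171548965) (nat_lit 0) (nat_lit 399352310) (nat_lit 84) (nat_lit 399352310) (nat_lit 37) (nat_lit 1) (nat_lit 35) (nat_lit 1) (nat_lit 36) (nat_lit 1) (nat_lit 309) (nat_lit 234) (nat_lit 177)) (XT.nd (nat_lit 94) (nat_lit 0) (nat_lit 0) (XT.lf (nat_lit 252) (nat_lit 843126186) (nat_lit 0) (nat_lit 55373734) (nat_lit 168) (nat_lit 55373734) (nat_lit 35) (nat_lit 1) (nat_lit 32) (nat_lit 1) (nat_lit 34) (nat_lit 1) (nat_lit 310) (nat_lit 234) (nat_lit 176)) (XT.lf (nat_lit 84) (nat_lit 274976200) (nat_lit 0) (nat_lit 387535598) (nat_lit 252) (nat_lit 274976200) (nat_lit 33) (nat_lit 1) (nat_lit 32) (nat_lit 1) (nat_lit 35) (nat_lit 1) (nat_lit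 311) (nat_lit 234) (nat_lit 175)))) (XT.nd (nat_lit 188) (nat_lit 84) (nat_lit 0) (XT.nd (nat_lit 94) (nat_lit 252) (nat_lit 0) (XT.lf (nat_lit 168) (nat_lit 264488699) (nat_lit 0) (nat_lit 328548134) (nat_lit 84) (nat_lit 328548134) (nat_lit 33) (nat_lit 1) (nat_lit 31) (nat_lit 1) (nat_lit 32) (nat_lit 1) (nat_lit 312) (nat_lit 234) (nat_lit 174)) (XT.lf (nat_lit 252) (nat_lit 894685921) (nat_lit 0) (nat_lit 5764191) (nat_lit 168) (nat_lit 5764191) (nat_lit 31) (nat_lit 1) (nat_lit 28) (nat_lit 1) (nat_lit 30) (nat_lit 1) (nat_lit 313) (nat_lit 234) (nat_lit 173))) (XT.nd (nat_lit 94) (nat_lit 84) (nat_lit 0) (XT.lf (nat_lit 84) (nat_lit 305186170) (nat_lit 0) (nat_lit 280308169) (nat_lit 252) (nat_lit 305186170) (nat_lit 29) (nat_lit 1) (nat_lit 28) (nat_lit 1) (nat_lit 31) (nat_lit 1) (nat_lit 314) (nat_lit 234) (nat_lit 172)) (XT.lf (nat_lit 168) (nat_lit 335076404)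 (nat_lit 0) (nat_lit 270297363) (nat_lit 84) (nat_lit 270297363) (nat_lit 29) (nat_lit 1) (nat_lit 27) (nat_lit 1) (nat_lit 28) (nat_lit 1) (nat_lit 315) (nat_lit 234) (nat_lit 171))))) (XT.nd (nat_lit 282) (nat_lit 252) (nat_lit 0) (XT.nd (nat_lit 94) (nat_lit 252) (nat_lit 0) (XT.lf (nat_lit 0) (nat_lit 33698370) (nat_lit 0) (nat_lit 793718167) (nat_lit 168) (nat_lit 33698370) (nat_lit 27) (nat_lit 3) (nat_lit 27) (nat_lit 1) (nat_lit 29) (nat_lit 1) (nat_lit 316) (nat_lit 234) (nat_lit 170)) (XT.nd (nat_lit 94) (nat_lit 84) (nat_lit 0) (XT.lf (nat_lit 84) (nat_lit 326279865) (nat_lit 0) (nat_lit 193926103) (nat_lit 168) (nat_lit 326279865) (nat_lit 26) (nat_lit 1) (nat_lit 25) (nat_lit 1) (nat_lit 27) (nat_lit 1) (nat_lit 317) (nat_lit 234) (nat_lit 169)) (XT.lf (nat_lit 168) (nat_lit 387554755) (nat_lit 0) (nat_lit 222374309) (nat_lit 84) (nat_lit 222374309) (nat_lit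 26) (nat_lit 1) (nat_lit 24) (nat_lit 1) (nat_lit 25) (nat_lit 1) (nat_lit 318) (nat_lit 234) (nat_lit 168)))) (XT.nd (nat_lit 188) (nat_lit 84) (nat_lit 0) (XT.nd (nat_lit 94) (nat_lit 168) (nat_lit 0) (XT.lf (nat_lit 0) (nat_lit 64407853) (nat_lit 0) (nat_lit 689678021) (nat_lit 168) (nat_lit 64407853) (nat_lit 24) (nat_lit 3) (nat_lit 24) (nat_lit 1) (nat_lit 26) (nat_lit 1) (nat_lit 319) (nat_lit 234) (nat_lit 167)) (XT.lf (nat_lit 84) (nat_lit 340052631) (nat_lit 0) (nat_lit 124606227) (nat_lit 168) (nat_lit 340052631) (nat_lit 23) (nat_lit 1) (nat_lit 22) (nat_lit 1) (nat_lit 24) (nat_lit 1) (nat_lit 320) (nat_lit 234) (nat_lit 166))) (XT.nd (nat_lit 94) (nat_lit 0) (nat_lit 0) (XT.lf (nat_lit 168) (nat_lit 425400892) (nat_lit 0) (nat_lit 182947894) (nat_lit 84) (nat_lit 182947894) (nat_lit 23) (nat_lit 1) (nat_lit 21) (nat_lit 1) (nat_lit 22) (nat_lit 1) (nat_lit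 321) (nat_lit 234) (nat_lit 165)) (XT.lf (nat_lit 0) (nat_lit 87925758) (nat_lit 0) (nat_lit 602337072) (nat_lit 168) (nat_lit 87925758) (nat_lit 21) (nat_lit 3) (nat_lit 21) (nat_lit 1) (nat_lit 23) (nat_lit 1) (nat_lit 322) (nat_lit 234) (nat_lit 164))))))) (XT.nd (nat_lit 39292) (nat_lit 0) (nat_lit 6132) (XT.nd (nat_lit 38634) (nat_lit 0) (nat_lit 9492) (XT.nd (nat_lit 282) (nat_lit 168) (nat_lit 0) (XT.nd (nat_lit 94) (nat_lit 84) (nat_lit 0) (XT.lf (nat_lit 84) (nat_lit 347972977) (nat_lit 0) (nat_lit 69240273) (nat_lit 168) (nat_lit 347972977) (nat_lit 20) (nat_lit 1) (nat_lit 19) (nat_lit 1) (nat_lit 21) (nat_lit 1) (nat_lit 323) (nat_lit 234) (nat_lit 163)) (XT.nd (nat_lit 94) (nat_lit 0) (nat_lit 0) (XT.lf (nat_lit 168) (nat_lit 451462782) (nat_lit 0) (nat_lit 150511685) (nat_lit 84) (nat_lit 150511685) (nat_lit 20) (nat_lit 1) (nat_lit 18) (nat_lit 1) (nat_lit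 19) (nat_lit 1) (nat_lit 324) (nat_lit 234) (nat_lit 162)) (XT.lf (nat_lit 0) (nat_lit 105610317) (nat_lit 0) (nat_lit 528817779) (nat_lit 168) (nat_lit 105610317) (nat_lit 18) (nat_lit 3) (nat_lit 18) (nat_lit 1) (nat_lit 20) (nat_lit 1) (nat_lit 325) (nat_lit 234) (nat_lit 161)))) (XT.nd (nat_lit 38164) (nat_lit 0) (nat_lit 9408) (XT.nd (nat_lit 38070) (nat_lit 0) (nat_lit 9408) (XT.lf (nat_lit 84) (nat_lit 351240931) (nat_lit 0) (nat_lit 25275021) (nat_lit 168) (nat_lit 351240931) (nat_lit 17) (nat_lit 1) (nat_lit 16) (nat_lit 1) (nat_lit 18) (nat_lit 1) (nat_lit 326) (nat_lit 234) (nat_lit 160)) (XT.lf (nat_lit 924) (nat_lit 421020442) (nat_lit 0) (nat_lit 747520828) (nat_lit 924) (nat_lit 421020442) (nat_lit 139) (nat_lit 1) (nat_lit 128) (nat_lit 0) (nat_lit 139) (nat_lit 0) (nat_lit 250) (nat_lit 235) (nat_lit 235))) (XT.nd (nat_lit 94) (nat_lit 0) (nat_lit 84) (XT.lf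 (nat_lit 924) (nat_lit 1631927798) (nat_lit 84) (nat_lit 735464040) (nat_lit 0) (nat_lit 735464040) (nat_lit 139) (nat_lit 1) (nat_lit 129) (nat_lit 1) (nat_lit 128) (nat_lit 0) (nat_lit 251) (nat_lit 235) (nat_lit 234)) (XT.lf (nat_lit 924) (nat_lit 777752216) (nat_lit 0) (nat_lit 1473441738) (nat_lit 840) (nat_lit 777752216) (nat_lit 140) (nat_lit 1) (nat_lit 129) (nat_lit 1) (nat_lit 139) (nat_lit 1) (nat_lit 252) (nat_lit 235) (nat_lit 233))))) (XT.nd (nat_lit 282) (nat_lit 0) (nat_lit 168) (XT.nd (nat_lit 94) (nat_lit 0) (nat_lit 84) (XT.lf (nat_lit 924) (nat_lit 1458955087) (nat_lit 84) (nat_lit 749234605) (nat_lit 0) (nat_lit 749234605) (nat_lit 140) (nat_lit 1) (nat_lit 130) (nat_lit 1) (nat_lit 129) (nat_lit 1) (nat_lit 253) (nat_lit 235) (nat_lit 232)) (XT.nd (nat_lit 94) (nat_lit 0) (nat_lit 0) (XT.lf (nat_lit 924) (nat_lit 671543016) (nat_lit 0) (nat_lit 1545083276)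 (nat_lit 840) (nat_lit 671543016) (nat_lit 141) (nat_lit 1) (nat_lit 130) (nat_lit 1) (nat_lit 140) (nat_lit 1) (nat_lit 254) (nat_lit 235) (nat_lit 231)) (XT.lf (nat_lit 924) (nat_lit 1207813853) (nat_lit 84) (nat_lit 806605811) (nat_lit 0) (nat_lit 806605811) (nat_lit 141) (nat_lit 1) (nat_lit 131) (nat_lit 1) (nat_lit 130) (nat_lit 1) (nat_lit 255) (nat_lit 235) (nat_lit 230)))) (XT.nd (nat_lit 188) (nat_lit 0) (nat_lit 84) (XT.nd (nat_lit 94) (nat_lit 0) (nat_lit 0) (XT.lf (nat_lit 924) (nat_lit 529591489) (nat_lit 0) (nat_lit 1696953121) (nat_lit 840) (nat_lit 529591489) (nat_lit 142) (nat_lit 1) (nat_lit 131) (nat_lit 1) (nat_lit 141) (nat_lit 1) (nat_lit 256) (nat_lit 235) (nat_lit 229)) (XT.lf (nat_lit 924) (nat_lit 890259555) (nat_lit 84) (nat_lit 901386898) (nat_lit 0) (nat_lit 901386898) (nat_lit 142) (nat_lit 1) (nat_lit 132) (nat_lit 1) (nat_lit 131) (nat_lit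 1) (nat_lit 257) (nat_lit 235) (nat_lit 228))) (XT.nd (nat_lit 94) (nat_lit 0) (nat_lit 0) (XT.lf (nat_lit 924) (nat_lit 357392842) (nat_lit 0) (nat_lit 1917454841) (nat_lit 840) (nat_lit 357392842) (nat_lit 143) (nat_lit 1) (nat_lit 132) (nat_lit 1) (nat_lit 142) (nat_lit 1) (nat_lit 258) (nat_lit 235) (nat_lit 227)) (XT.lf (nat_lit 924) (nat_lit 516741021) (nat_lit 84) (nat_lit 1028064436) (nat_lit 0) (nat_lit 1028064436) (nat_lit 143) (nat_lit 1) (nat_lit 133) (nat_lit 1) (nat_lit 132) (nat_lit 1) (nat_lit 259) (nat_lit 235) (nat_lit 226)))))) (XT.nd (nat_lit 658) (nat_lit 1428) (nat_lit 0) (XT.nd (nat_lit 282) (nat_lit 840) (nat_lit 0) (XT.nd (nat_lit 94) (nat_lit 1428) (nat_lit 0) (XT.lf (nat_lit 84) (nat_lit 159827945) (nat_lit 0) (nat_lit 2196267156) (nat_lit 840) (nat_lit 159827945) (nat_lit 134) (nat_lit 1) (nat_lit 133) (nat_lit 1) (nat_lit 143) (nat_lit 1) (nat_lit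 260) (nat_lit 235) (nat_lit 225)) (XT.nd (nat_lit 94) (nat_lit 588) (nat_lit 0) (XT.lf (nat_lit 924) (nat_lit 96532104) (nat_lit 0) (nat_lit 1181734505) (nat_lit 840) (nat_lit 1181734505) (nat_lit 134) (nat_lit 1) (nat_lit 123) (nat_lit 1) (nat_lit 133) (nat_lit 1) (nat_lit 261) (nat_lit 235) (nat_lit 224)) (XT.lf (nat_lit 588) (nat_lit 2290828414) (nat_lit 0) (nat_lit 57826639) (nat_lit 504) (nat_lit 57826639) (nat_lit 123) (nat_lit 1) (nat_lit 116) (nat_lit 1) (nat_lit 122) (nat_lit 1) (nat_lit 262) (nat_lit 235) (nat_lit 223)))) (XT.nd (nat_lit 188) (nat_lit 420) (nat_lit 0) (XT.nd (nat_lit 94) (nat_lit 420) (nat_lit 0) (XT.lf (nat_lit 84) (nat_lit 1001546195) (nat_lit 0) (nat_lit 350558341) (nat_lit 588) (nat_lit 1001546195) (nat_lit 117) (nat_lit 1) (nat_lit 116) (nat_lit 1) (nat_lit 123) (nat_lit 1) (nat_lit 263) (nat_lit 235) (nat_lit 222)) (XT.lf (nat_lit 504) (nat_lit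 1723403917) (nat_lit 0) (nat_lit 289831185) (nat_lit 420) (nat_lit 289831185) (nat_lit 117) (nat_lit 1) (nat_lit 111) (nat_lit 1) (nat_lit 116) (nat_lit 1) (nat_lit 264) (nat_lit 235) (nat_lit 221))) (XT.nd (nat_lit 94) (nat_lit 420) (nat_lit 0) (XT.lf (nat_lit 84) (nat_lit 714390709) (nat_lit 0) (nat_lit 824763849) (nat_lit 504) (nat_lit 714390709) (nat_lit 112) (nat_lit 1) (nat_lit 111) (nat_lit 1) (nat_lit 117) (nat_lit 1) (nat_lit 265) (nat_lit 235) (nat_lit 220)) (XT.lf (nat_lit 504) (nat_lit 1134885919) (nat_lit 0) (nat_lit 535431506) (nat_lit 420) (nat_lit 535431506) (nat_lit 112) (nat_lit 1) (nat_lit 106) (nat_lit 1) (nat_lit 111) (nat_lit 1) (nat_lit 266) (nat_lit 235) (nat_lit 219))))) (XT.nd (nat_lit 282) (nat_lit 1092) (nat_lit 0) (XT.nd (nat_lit 94) (nat_lit 336) (nat_lit 0) (XT.lf (nat_lit 84) (nat_lit 418190378) (nat_lit 0) (nat_lit 1322961917) (nat_lit 504)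 (nat_lit 418190378) (nat_lit 107) (nat_lit 1) (nat_lit 106) (nat_lit 1) (nat_lit 112) (nat_lit 1) (nat_lit 267) (nat_lit 235) (nat_lit 218)) (XT.nd (nat_lit 94) (nat_lit 0) (nat_lit 0) (XT.lf (nat_lit 420) (nat_lit 530752031) (nat_lit 0) (nat_lit 791689053) (nat_lit 336) (nat_lit 791689053) (nat_lit 107) (nat_lit 1) (nat_lit 102) (nat_lit 1) (nat_lit 106) (nat_lit 1) (nat_lit 268) (nat_lit 235) (nat_lit 217)) (XT.lf (nat_lit 84) (nat_lit 115488100) (nat_lit 0) (nat_lit 1839680054) (nat_lit 420) (nat_lit 115488100) (nat_lit 103) (nat_lit 1) (nat_lit 102) (nat_lit 1) (nat_lit 107) (nat_lit 1) (nat_lit 269) (nat_lit 235) (nat_lit 216)))) (XT.nd (nat_lit 188) (nat_lit 336) (nat_lit 0) (XT.nd (nat_lit 94) (nat_lit 336) (nat_lit 0) (XT.lf (nat_lit 84) (nat_lit 973135920) (nat_lit 0) (nat_lit 81502023) (nat_lit 420) (nat_lit 973135920) (nat_lit 98) (nat_lit 1) (nat_lit 97) (nat_lit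 1) (nat_lit 102) (nat_lit 1) (nat_lit 270) (nat_lit 235) (nat_lit 215)) (XT.lf (nat_lit 420) (nat_lit 1609720277) (nat_lit 0) (nat_lit 188402131) (nat_lit 336) (nat_lit 188402131) (nat_lit 98) (nat_lit 1) (nat_lit 93) (nat_lit 1) (nat_lit 97) (nat_lit 1) (nat_lit 271) (nat_lit 235) (nat_lit 214))) (XT.nd (nat_lit 94) (nat_lit 336) (nat_lit 0) (XT.lf (nat_lit 84) (nat_lit 631403061) (nat_lit 0) (nat_lit 683176734) (nat_lit 420) (nat_lit 631403061) (nat_lit 94) (nat_lit 1) (nat_lit 93) (nat_lit 1) (nat_lit 98) (nat_lit 1) (nat_lit 272) (nat_lit 235) (nat_lit 213)) (XT.lf (nat_lit 420) (nat_lit 921392708) (nat_lit 0) (nat_lit 492727154) (nat_lit 336) (nat_lit 492727154) (nat_lit 94) (nat_lit 1) (nat_lit 89) (nat_lit 1) (nat_lit 93) (nat_lit 1) (nat_lit 273) (nat_lit 235) (nat_lit 212))))))))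
noncomputable def ec20 : XT := (XT.nd (nat_lit 2538) (nat_lit 2520) (nat_lit 0) (XT.nd (nat_lit 1222) (nat_lit 1512) (nat_lit 0) (XT.nd (nat_lit 564) (nat_lit 1344) (nat_lit 0) (XT.nd (nat_lit 282) (nat_lit 252) (nat_lit 0) (XT.nd (nat_lit 94) (nat_lit 672) (nat_lit 0) (XT.lf (nat_lit 84) (nat_lit 290566139) (nat_lit 0) (nat_lit 1287723233) (nat_lit 420) (nat_lit 290566139) (nat_lit 90) (nat_lit 1) (nat_lit 89) (nat_lit 1) (nat_lit 94) (nat_lit 1) (nat_lit 274) (nat_lit 235) (nat_lit 211)) (XT.nd (nat_lit 94) (nat_lit 420) (nat_lit 0) (XT.lf (nat_lit 336) (nat_lit 236304996) (nat_lit 0) (nat_lit 797689547) (nat_lit 252) (nat_lit 797689547) (nat_lit 90) (nat_lit 1) (nat_lit 86) (nat_lit 1) (nat_lit 89) (nat_lit 1) (nat_lit 275) (nat_lit 235) (nat_lit 210)) (XT.lf (nat_lit 420) (nat_lit 1701519361) (nat_lit 0) (nat_lit 47213897) (nat_lit 336) (nat_lit 47213897) (nat_lit 86)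 (nat_lit 1) (nat_lit 81) (nat_lit 1) (nat_lit 85) (nat_lit 1) (nat_lit 276) (nat_lit 235) (nat_lit 209)))) (XT.nd (nat_lit 94) (nat_lit 252) (nat_lit 0) (XT.lf (nat_lit 84) (nat_lit 665817105) (nat_lit 0) (nat_lit 428773809) (nat_lit 420) (nat_lit 665817105) (nat_lit 82) (nat_lit 1) (nat_lit 81) (nat_lit 1) (nat_lit 86) (nat_lit 1) (nat_lit 277) (nat_lit 235) (nat_lit 208)) (XT.nd (nat_lit 94) (nat_lit 0) (nat_lit 0) (XT.lf (nat_lit 336) (nat_lit 972446931) (nat_lit 0) (nat_lit 376892486) (nat_lit 252) (nat_lit 376892486) (nat_lit 82) (nat_lit 1) (nat_lit 78) (nat_lit 1) (nat_lit 81) (nat_lit 1) (nat_lit 278) (nat_lit 235) (nat_lit 207)) (XT.lf (nat_lit 84) (nat_lit 307211027) (nat_lit 0) (nat_lit 1078502035) (nat_lit 336) (nat_lit 307211027) (nat_lit 79) (nat_lit 1) (nat_lit 78) (nat_lit 1) (nat_lit 82) (nat_lit 1) (nat_lit 279) (nat_lit 235) (nat_lit 206))))) (XT.nd (nat_lit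 282) (nat_lit 756) (nat_lit 0) (XT.nd (nat_lit 94) (nat_lit 336) (nat_lit 0) (XT.lf (nat_lit 336) (nat_lit 256050789) (nat_lit 0) (nat_lit 702161616) (nat_lit 252) (nat_lit 702161616) (nat_lit 79) (nat_lit 1) (nat_lit 75) (nat_lit 1) (nat_lit 78) (nat_lit 1) (nat_lit 280) (nat_lit 235) (nat_lit 205)) (XT.nd (nat_lit 94) (nat_lit 0) (nat_lit 0) (XT.lf (nat_lit 336) (nat_lit 1541023283) (nat_lit 0) (nat_lit 44004973) (nat_lit 252) (nat_lit 44004973) (nat_lit 75) (nat_lit 1) (nat_lit 71) (nat_lit 1) (nat_lit 74) (nat_lit 1) (nat_lit 281) (nat_lit 235) (nat_lit 204)) (XT.lf (nat_lit 84) (nat_lit 582924976) (nat_lit 0) (nat_lit 431941554) (nat_lit 336) (nat_lit 582924976) (nat_lit 72) (nat_lit 1) (nat_lit 71) (nat_lit 1) (nat_lit 75) (nat_lit 1) (nat_lit 282) (nat_lit 235) (nat_lit 203)))) (XT.nd (nat_lit 188) (nat_lit 504) (nat_lit 0) (XT.nd (nat_lit 94) (nat_lit 0) (nat_lit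 0) (XT.lf (nat_lit 336) (nat_lit 801575218) (nat_lit 0) (nat_lit 383065256) (nat_lit 252) (nat_lit 383065256) (nat_lit 72) (nat_lit 1) (nat_lit 68) (nat_lit 1) (nat_lit 71) (nat_lit 1) (nat_lit 283) (nat_lit 235) (nat_lit 202)) (XT.lf (nat_lit 84) (nat_lit 220753161) (nat_lit 0) (nat_lit 1096920548) (nat_lit 336) (nat_lit 220753161) (nat_lit 69) (nat_lit 1) (nat_lit 68) (nat_lit 1) (nat_lit 72) (nat_lit 1) (nat_lit 284) (nat_lit 235) (nat_lit 201))) (XT.nd (nat_lit 94) (nat_lit 336) (nat_lit 0) (XT.lf (nat_lit 252) (nat_lit 80891298) (nat_lit 0) (nat_lit 714404227) (nat_lit 168) (nat_lit 714404227) (nat_lit 69) (nat_lit 1) (nat_lit 66) (nat_lit 1) (nat_lit 68) (nat_lit 1) (nat_lit 285) (nat_lit 235) (nat_lit 200)) (XT.lf (nat_lit 336) (nat_lit 1222240392) (nat_lit 0) (nat_lit 129810788) (nat_lit 252) (nat_lit 129810788) (nat_lit 66) (nat_lit 1) (nat_lit 62) (nat_lit 1) (nat_lit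 65) (nat_lit 1) (nat_lit 286) (nat_lit 235) (nat_lit 199)))))) (XT.nd (nat_lit 658) (nat_lit 756) (nat_lit 0) (XT.nd (nat_lit 282) (nat_lit 588) (nat_lit 0) (XT.nd (nat_lit 94) (nat_lit 168) (nat_lit 0) (XT.lf (nat_lit 84) (nat_lit 426899556) (nat_lit 0) (nat_lit 600536412) (nat_lit 336) (nat_lit 426899556) (nat_lit 63) (nat_lit 1) (nat_lit 62) (nat_lit 1) (nat_lit 66) (nat_lit 1) (nat_lit 287) (nat_lit 235) (nat_lit 198)) (XT.nd (nat_lit 94) (nat_lit 0) (nat_lit 0) (XT.lf (nat_lit 252) (nat_lit 493216585) (nat_lit 0) (nat_lit 467221018) (nat_lit 168) (nat_lit 467221018) (nat_lit 63) (nat_lit 1) (nat_lit 60) (nat_lit 1) (nat_lit 62) (nat_lit 1) (nat_lit 288) (nat_lit 235) (nat_lit 197)) (XT.lf (nat_lit 84) (nat_lit 70859568) (nat_lit 0) (nat_lit 1260147888) (nat_lit 252) (nat_lit 70859568) (nat_lit 61) (nat_lit 1) (nat_lit 60) (nat_lit 1) (nat_lit 63) (nat_lit 1) (nat_lit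 289) (nat_lit 235) (nat_lit 196)))) (XT.nd (nat_lit 188) (nat_lit 168) (nat_lit 0) (XT.nd (nat_lit 94) (nat_lit 168) (nat_lit 0) (XT.lf (nat_lit 84) (nat_lit 584816449) (nat_lit 0) (nat_lit 206536282) (nat_lit 252) (nat_lit 584816449) (nat_lit 58) (nat_lit 1) (nat_lit 57) (nat_lit 1) (nat_lit 60) (nat_lit 1) (nat_lit 290) (nat_lit 235) (nat_lit 195)) (XT.lf (nat_lit 252) (nat_lit 812120138) (nat_lit 0) (nat_lit 269601882) (nat_lit 168) (nat_lit 269601882) (nat_lit 58) (nat_lit 1) (nat_lit 55) (nat_lit 1) (nat_lit 57) (nat_lit 1) (nat_lit 291) (nat_lit 235) (nat_lit 194))) (XT.nd (nat_lit 94) (nat_lit 168) (nat_lit 0) (XT.lf (nat_lit 84) (nat_lit 229159174) (nat_lit 0) (nat_lit 868709409) (nat_lit 252) (nat_lit 229159174) (nat_lit 56) (nat_lit 1) (nat_lit 55) (nat_lit 1) (nat_lit 58) (nat_lit 1) (nat_lit 292) (nat_lit 235) (nat_lit 193)) (XT.lf (nat_lit 252) (nat_lit 107352822)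 (nat_lit 0) (nat_lit 597934270) (nat_lit 168) (nat_lit 597934270) (nat_lit 56) (nat_lit 1) (nat_lit 53) (nat_lit 1) (nat_lit 55) (nat_lit 1) (nat_lit 293) (nat_lit 235) (nat_lit 192))))) (XT.nd (nat_lit 282) (nat_lit 336) (nat_lit 0) (XT.nd (nat_lit 94) (nat_lit 168) (nat_lit 0) (XT.lf (nat_lit 252) (nat_lit 1055132897) (nat_lit 0) (nat_lit 112485939) (nat_lit 168) (nat_lit 112485939) (nat_lit 53) (nat_lit 1) (nat_lit 50) (nat_lit 1) (nat_lit 52) (nat_lit 1) (nat_lit 294) (nat_lit 235) (nat_lit 191)) (XT.nd (nat_lit 94) (nat_lit 168) (nat_lit 0) (XT.lf (nat_lit 84) (nat_lit 351256327) (nat_lit 0) (nat_lit 554672831) (nat_lit 252) (nat_lit 351256327) (nat_lit 51) (nat_lit 1) (nat_lit 50) (nat_lit 1) (nat_lit 53) (nat_lit 1) (nat_lit 295) (nat_lit 235) (nat_lit 190)) (XT.lf (nat_lit 252) (nat_lit 357737515) (nat_lit 0) (nat_lit 438597029) (nat_lit 168) (nat_lit 438597029)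 (nat_lit 51) (nat_lit 1) (nat_lit 48) (nat_lit 1) (nat_lit 50) (nat_lit 1) (nat_lit 296) (nat_lit 235) (nat_lit 189)))) (XT.nd (nat_lit 188) (nat_lit 168) (nat_lit 0) (XT.nd (nat_lit 94) (nat_lit 168) (nat_lit 0) (XT.lf (nat_lit 84) (nat_lit 11757845) (nat_lit 0) (nat_lit 1189942419) (nat_lit 252) (nat_lit 11757845) (nat_lit 49) (nat_lit 1) (nat_lit 48) (nat_lit 1) (nat_lit 51) (nat_lit 1) (nat_lit 297) (nat_lit 235) (nat_lit 188)) (XT.lf (nat_lit 84) (nat_lit 443957075) (nat_lit 0) (nat_lit 303933997) (nat_lit 168) (nat_lit 443957075) (nat_lit 47) (nat_lit 1) (nat_lit 46) (nat_lit 1) (nat_lit 48) (nat_lit 1) (nat_lit 298) (nat_lit 235) (nat_lit 187))) (XT.nd (nat_lit 94) (nat_lit 0) (nat_lit 0) (XT.lf (nat_lit 252) (nat_lit 550900189) (nat_lit 0) (nat_lit 310049172) (nat_lit 168) (nat_lit 310049172) (nat_lit 47) (nat_lit 1) (nat_lit 44) (nat_lit 1) (nat_lit 46) (nat_lit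 1) (nat_lit 299) (nat_lit 235) (nat_lit 186)) (XT.lf (nat_lit 84) (nat_lit 110451680) (nat_lit 0) (nat_lit 929808342) (nat_lit 252) (nat_lit 110451680) (nat_lit 45) (nat_lit 1) (nat_lit 44) (nat_lit 1) (nat_lit 47) (nat_lit 1) (nat_lit 300) (nat_lit 235) (nat_lit 185))))))) (XT.nd (nat_lit 1222) (nat_lit 1092) (nat_lit 0) (XT.nd (nat_lit 564) (nat_lit 756) (nat_lit 0) (XT.nd (nat_lit 282) (nat_lit 336) (nat_lit 0) (XT.nd (nat_lit 94) (nat_lit 168) (nat_lit 0) (XT.lf (nat_lit 84) (nat_lit 512842323) (nat_lit 0) (nat_lit 104907524) (nat_lit 168) (nat_lit 512842323) (nat_lit 43) (nat_lit 1) (nat_lit 42) (nat_lit 1) (nat_lit 44) (nat_lit 1) (nat_lit 301) (nat_lit 235) (nat_lit 184)) (XT.nd (nat_lit 94) (nat_lit 0) (nat_lit 0) (XT.lf (nat_lit 252) (nat_lit 697597092) (nat_lit 0) (nat_lit 206710898) (nat_lit 168) (nat_lit 206710898) (nat_lit 43) (nat_lit 1) (nat_lit 40) (nat_lit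 1) (nat_lit 42) (nat_lit 1) (nat_lit 302) (nat_lit 235) (nat_lit 183)) (XT.lf (nat_lit 84) (nat_lit 186848368) (nat_lit 0) (nat_lit 718136357) (nat_lit 252) (nat_lit 186848368) (nat_lit 41) (nat_lit 1) (nat_lit 40) (nat_lit 1) (nat_lit 43) (nat_lit 1) (nat_lit 303) (nat_lit 235) (nat_lit 182)))) (XT.nd (nat_lit 94) (nat_lit 252) (nat_lit 0) (XT.lf (nat_lit 168) (nat_lit 53637362) (nat_lit 0) (nat_lit 509685991) (nat_lit 84) (nat_lit 509685991) (nat_lit 41) (nat_lit 1) (nat_lit 39) (nat_lit 1) (nat_lit 40) (nat_lit 1) (nat_lit 304) (nat_lit 235) (nat_lit 181)) (XT.nd (nat_lit 94) (nat_lit 0) (nat_lit 0) (XT.lf (nat_lit 252) (nat_lit 806648323) (nat_lit 0) (nat_lit 123997450) (nat_lit 168) (nat_lit 123997450) (nat_lit 39) (nat_lit 1) (nat_lit 36) (nat_lit 1) (nat_lit 38) (nat_lit 1) (nat_lit 305) (nat_lit 235) (nat_lit 180)) (XT.lf (nat_lit 84) (nat_lit 245129659) (nat_lit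 0) (nat_lit 546222780) (nat_lit 252) (nat_lit 245129659) (nat_lit 37) (nat_lit 1) (nat_lit 36) (nat_lit 1) (nat_lit 39) (nat_lit 1) (nat_lit 306) (nat_lit 235) (nat_lit 179))))) (XT.nd (nat_lit 282) (nat_lit 420) (nat_lit 0) (XT.nd (nat_lit 94) (nat_lit 252) (nat_lit 0) (XT.lf (nat_lit 168) (nat_lit 180126413) (nat_lit 0) (nat_lit 419319926) (nat_lit 84) (nat_lit 419319926) (nat_lit 37) (nat_lit 1) (nat_lit 35) (nat_lit 1) (nat_lit 36) (nat_lit 1) (nat_lit 307) (nat_lit 235) (nat_lit 178)) (XT.nd (nat_lit 94) (nat_lit 0) (nat_lit 0) (XT.lf (nat_lit 252) (nat_lit 885282495) (nat_lit 0) (nat_lit 58142421) (nat_lit 168) (nat_lit 58142421) (nat_lit 35) (nat_lit 1) (nat_lit 32) (nat_lit 1) (nat_lit 34) (nat_lit 1) (nat_lit 308) (nat_lit 235) (nat_lit 177)) (XT.lf (nat_lit 84) (nat_lit 288725010) (nat_lit 0) (nat_lit 406912378) (nat_lit 252) (nat_lit 288725010) (nat_lit 33) (nat_lit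 1) (nat_lit 32) (nat_lit 1) (nat_lit 35) (nat_lit 1) (nat_lit 309) (nat_lit 235) (nat_lit 176)))) (XT.nd (nat_lit 188) (nat_lit 84) (nat_lit 0) (XT.nd (nat_lit 94) (nat_lit 252) (nat_lit 0) (XT.lf (nat_lit 168) (nat_lit 277713134) (nat_lit 0) (nat_lit 344975541) (nat_lit 84) (nat_lit 344975541) (nat_lit 33) (nat_lit 1) (nat_lit 31) (nat_lit 1) (nat_lit 32) (nat_lit 1) (nat_lit 310) (nat_lit 235) (nat_lit 175)) (XT.lf (nat_lit 252) (nat_lit 939420217) (nat_lit 0) (nat_lit 6052401) (nat_lit 168) (nat_lit 6052401) (nat_lit 31) (nat_lit 1) (nat_lit 28) (nat_lit 1) (nat_lit 30) (nat_lit 1) (nat_lit 311) (nat_lit 235) (nat_lit 174))) (XT.nd (nat_lit 94) (nat_lit 84) (nat_lit 0) (XT.lf (nat_lit 84) (nat_lit 320445479) (nat_lit 0) (nat_lit 294323577) (nat_lit 252) (nat_lit 320445479) (nat_lit 29) (nat_lit 1) (nat_lit 28) (nat_lit 1) (nat_lit 31) (nat_lit 1) (nat_lit 312) (nat_lit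 235) (nat_lit 173)) (XT.lf (nat_lit 168) (nat_lit 351830224) (nat_lit 0) (nat_lit 283812231) (nat_lit 84) (nat_lit 283812231) (nat_lit 29) (nat_lit 1) (nat_lit 27) (nat_lit 1) (nat_lit 28) (nat_lit 1) (nat_lit 313) (nat_lit 235) (nat_lit 172)))))) (XT.nd (nat_lit 658) (nat_lit 588) (nat_lit 0) (XT.nd (nat_lit 282) (nat_lit 252) (nat_lit 0) (XT.nd (nat_lit 94) (nat_lit 252) (nat_lit 0) (XT.lf (nat_lit 0) (nat_lit 35383289) (nat_lit 0) (nat_lit 833404076) (nat_lit 168) (nat_lit 35383289) (nat_lit 27) (nat_lit 3) (nat_lit 27) (nat_lit 1) (nat_lit 29) (nat_lit 1) (nat_lit 314) (nat_lit 235) (nat_lit 171)) (XT.nd (nat_lit 94) (nat_lit 84) (nat_lit 0) (XT.lf (nat_lit 84) (nat_lit 342593858) (nat_lit 0) (nat_lit 203622408) (nat_lit 168) (nat_lit 342593858) (nat_lit 26) (nat_lit 1) (nat_lit 25) (nat_lit 1) (nat_lit 27) (nat_lit 1) (nat_lit 315) (nat_lit 235) (nat_lit 170)) (XT.lf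 (nat_lit 168) (nat_lit 406932492) (nat_lit 0) (nat_lit 233493025) (nat_lit 84) (nat_lit 233493025) (nat_lit 26) (nat_lit 1) (nat_lit 24) (nat_lit 1) (nat_lit 25) (nat_lit 1) (nat_lit 316) (nat_lit 235) (nat_lit 169)))) (XT.nd (nat_lit 188) (nat_lit 84) (nat_lit 0) (XT.nd (nat_lit 94) (nat_lit 168) (nat_lit 0) (XT.lf (nat_lit 0) (nat_lit 67628246) (nat_lit 0) (nat_lit 724161922) (nat_lit 168) (nat_lit 67628246) (nat_lit 24) (nat_lit 3) (nat_lit 24) (nat_lit 1) (nat_lit 26) (nat_lit 1) (nat_lit 317) (nat_lit 235) (nat_lit 168)) (XT.lf (nat_lit 84) (nat_lit 357055262) (nat_lit 0) (nat_lit 130836539) (nat_lit 168) (nat_lit 357055262) (nat_lit 23) (nat_lit 1) (nat_lit 22) (nat_lit 1) (nat_lit 24) (nat_lit 1) (nat_lit 318) (nat_lit 235) (nat_lit 167))) (XT.nd (nat_lit 94) (nat_lit 0) (nat_lit 0) (XT.lf (nat_lit 168) (nat_lit 446670937) (nat_lit 0) (nat_lit 192095289) (nat_lit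 84) (nat_lit 192095289) (nat_lit 23) (nat_lit 1) (nat_lit 21) (nat_lit 1) (nat_lit 22) (nat_lit 1) (nat_lit 319) (nat_lit 235) (nat_lit 166)) (XT.lf (nat_lit 0) (nat_lit 92322046) (nat_lit 0) (nat_lit 632453926) (nat_lit 168) (nat_lit 92322046) (nat_lit 21) (nat_lit 3) (nat_lit 21) (nat_lit 1) (nat_lit 23) (nat_lit 1) (nat_lit 320) (nat_lit 235) (nat_lit 165))))) (XT.nd (nat_lit 282) (nat_lit 336) (nat_lit 0) (XT.nd (nat_lit 94) (nat_lit 84) (nat_lit 0) (XT.lf (nat_lit 84) (nat_lit 365371626) (nat_lit 0) (nat_lit 72702286) (nat_lit 168) (nat_lit 365371626) (nat_lit 20) (nat_lit 1) (nat_lit 19) (nat_lit 1) (nat_lit 21) (nat_lit 1) (nat_lit 321) (nat_lit 235) (nat_lit 164)) (XT.nd (nat_lit 94) (nat_lit 0) (nat_lit 0) (XT.lf (nat_lit 168) (nat_lit 474035921) (nat_lit 0) (nat_lit 158037270) (nat_lit 84) (nat_lit 158037270) (nat_lit 20) (nat_lit 1) (nat_lit 18) (nat_lit 1) (nat_lit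 19) (nat_lit 1) (nat_lit 322) (nat_lit 235) (nat_lit 163)) (XT.lf (nat_lit 0) (nat_lit 110890833) (nat_lit 0) (nat_lit 555258668) (nat_lit 168) (nat_lit 110890833) (nat_lit 18) (nat_lit 3) (nat_lit 18) (nat_lit 1) (nat_lit 20) (nat_lit 1) (nat_lit 323) (nat_lit 235) (nat_lit 162)))) (XT.nd (nat_lit 188) (nat_lit 84) (nat_lit 0) (XT.nd (nat_lit 94) (nat_lit 84) (nat_lit 0) (XT.lf (nat_lit 84) (nat_lit 368802978) (nat_lit 0) (nat_lit 26538772) (nat_lit 168) (nat_lit 368802978) (nat_lit 17) (nat_lit 1) (nat_lit 16) (nat_lit 1) (nat_lit 18) (nat_lit 1) (nat_lit 324) (nat_lit 235) (nat_lit 161)) (XT.lf (nat_lit 168) (nat_lit 491474941) (nat_lit 0) (nat_lit 130017653) (nat_lit 84) (nat_lit 130017653) (nat_lit 17) (nat_lit 1) (nat_lit 15) (nat_lit 1) (nat_lit 16) (nat_lit 1) (nat_lit 325) (nat_lit 235) (nat_lit 160))) (XT.nd (nat_lit 94) (nat_lit 84) (nat_lit 0) (XT.lf (nat_lit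 0) (nat_lit 124503742) (nat_lit 0) (nat_lit 490086259) (nat_lit 168) (nat_lit 124503742) (nat_lit 15) (nat_lit 3) (nat_lit 15) (nat_lit 1) (nat_lit 17) (nat_lit 1) (nat_lit 326) (nat_lit 235) (nat_lit 159)) (XT.lf (nat_lit 84) (nat_lit 10181480) (nat_lit 0) (nat_lit 358355305) (nat_lit 84) (nat_lit 358355305) (nat_lit 15) (nat_lit 3) (nat_lit 14) (nat_lit 1) (nat_lit 15) (nat_lit 1) (nat_lit 327) (nat_lit 235) (nat_lit 158))))))))
noncomputable def ec21 : XT := (XT.nd (nat_lit 2538) (nat_lit 3528) (nat_lit 0) (XT.nd (nat_lit 1222) (nat_lit 2940) (nat_lit 0) (XT.nd (nat_lit 564) (nat_lit 1008) (nat_lit 0) (XT.nd (nat_lit 282) (nat_lit 0) (nat_lit 84) (XT.nd (nat_lit 94) (nat_lit 0) (nat_lit 0) (XT.lf (nat_lit 924) (nat_lit 442071464) (nat_lit 0) (nat_lit 784896869) (nat_lit 924) (nat_lit 442071464) (nat_lit 139) (nat_lit 1) (nat_lit 128) (nat_lit 0) (nat_lit 139) (nat_lit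 0) (nat_lit 248) (nat_lit 236) (nat_lit 236)) (XT.nd (nat_lit 94) (nat_lit 0) (nat_lit 84) (XT.lf (nat_lit 924) (nat_lit 1713524188) (nat_lit 84) (nat_lit 772237242) (nat_lit 0) (nat_lit 772237242) (nat_lit 139) (nat_lit 1) (nat_lit 129) (nat_lit 1) (nat_lit 128) (nat_lit 0) (nat_lit 249) (nat_lit 236) (nat_lit 235)) (XT.lf (nat_lit 924) (nat_lit 816639827) (nat_lit 0) (nat_lit 1547113825) (nat_lit 840) (nat_lit 816639827) (nat_lit 140) (nat_lit 1) (nat_lit 129) (nat_lit 1) (nat_lit 139) (nat_lit 1) (nat_lit 250) (nat_lit 236) (nat_lit 234)))) (XT.nd (nat_lit 94) (nat_lit 0) (nat_lit 84) (XT.lf (nat_lit 924) (nat_lit 1531902841) (nat_lit 84) (nat_lit 786696335) (nat_lit 0) (nat_lit 786696335) (nat_lit 140) (nat_lit 1) (nat_lit 130) (nat_lit 1) (nat_lit 129) (nat_lit 1) (nat_lit 251) (nat_lit 236) (nat_lit 233)) (XT.nd (nat_lit 94) (nat_lit 0) (nat_lit 0) (XT.lf (nat_lit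 924) (nat_lit 705120167) (nat_lit 0) (nat_lit 1622337440) (nat_lit 840) (nat_lit 705120167) (nat_lit 141) (nat_lit 1) (nat_lit 130) (nat_lit 1) (nat_lit 140) (nat_lit 1) (nat_lit 252) (nat_lit 236) (nat_lit 232)) (XT.lf (nat_lit 924) (nat_lit 1268204546) (nat_lit 84) (nat_lit 846936102) (nat_lit 0) (nat_lit 846936102) (nat_lit 141) (nat_lit 1) (nat_lit 131) (nat_lit 1) (nat_lit 130) (nat_lit 1) (nat_lit 253) (nat_lit 236) (nat_lit 231))))) (XT.nd (nat_lit 282) (nat_lit 1260) (nat_lit 0) (XT.nd (nat_lit 94) (nat_lit 0) (nat_lit 0) (XT.lf (nat_lit 924) (nat_lit 556071064) (nat_lit 0) (nat_lit 1781800777) (nat_lit 840) (nat_lit 556071064) (nat_lit 142) (nat_lit 1) (nat_lit 131) (nat_lit 1) (nat_lit 141) (nat_lit 1) (nat_lit 254) (nat_lit 236) (nat_lit 230)) (XT.nd (nat_lit 94) (nat_lit 0) (nat_lit 84) (XT.lf (nat_lit 924) (nat_lit 934772533) (nat_lit 84) (nat_lit 946456243)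 (nat_lit 0) (nat_lit 946456243) (nat_lit 142) (nat_lit 1) (nat_lit 132) (nat_lit 1) (nat_lit 131) (nat_lit 1) (nat_lit 255) (nat_lit 236) (nat_lit 229)) (XT.lf (nat_lit 924) (nat_lit 375262484) (nat_lit 0) (nat_lit 2013327583) (nat_lit 840) (nat_lit 375262484) (nat_lit 143) (nat_lit 1) (nat_lit 132) (nat_lit 1) (nat_lit 142) (nat_lit 1) (nat_lit 256) (nat_lit 236) (nat_lit 228)))) (XT.nd (nat_lit 188) (nat_lit 1344) (nat_lit 0) (XT.nd (nat_lit 94) (nat_lit 0) (nat_lit 84) (XT.lf (nat_lit 924) (nat_lit 542578072) (nat_lit 84) (nat_lit 1079467658) (nat_lit 0) (nat_lit 1079467658) (nat_lit 143) (nat_lit 1) (nat_lit 133) (nat_lit 1) (nat_lit 132) (nat_lit 1) (nat_lit 257) (nat_lit 236) (nat_lit 227)) (XT.lf (nat_lit 84) (nat_lit 167819343) (nat_lit 0) (nat_lit 2306080514) (nat_lit 840) (nat_lit 167819343) (nat_lit 134) (nat_lit 1) (nat_lit 133) (nat_lit 1) (nat_lit 143) (nat_lit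 1) (nat_lit 258) (nat_lit 236) (nat_lit 226))) (XT.nd (nat_lit 94) (nat_lit 588) (nat_lit 0) (XT.lf (nat_lit 924) (nat_lit 101358709) (nat_lit 0) (nat_lit 1240821230) (nat_lit 840) (nat_lit 1240821230) (nat_lit 134) (nat_lit 1) (nat_lit 123) (nat_lit 1) (nat_lit 133) (nat_lit 1) (nat_lit 259) (nat_lit 236) (nat_lit 225)) (XT.lf (nat_lit 588) (nat_lit 2405369835) (nat_lit 0) (nat_lit 60717971) (nat_lit 504) (nat_lit 60717971) (nat_lit 123) (nat_lit 1) (nat_lit 116) (nat_lit 1) (nat_lit 122) (nat_lit 1) (nat_lit 260) (nat_lit 236) (nat_lit 224)))))) (XT.nd (nat_lit 658) (nat_lit 1764) (nat_lit 0) (XT.nd (nat_lit 282) (nat_lit 756) (nat_lit 0) (XT.nd (nat_lit 94) (nat_lit 420) (nat_lit 0) (XT.lf (nat_lit 84) (nat_lit 1051623505) (nat_lit 0) (nat_lit 368086258) (nat_lit 588) (nat_lit 1051623505) (nat_lit 117) (nat_lit 1) (nat_lit 116) (nat_lit 1) (nat_lit 123) (nat_lit 1) (nat_lit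 261) (nat_lit 236) (nat_lit 223)) (XT.nd (nat_lit 94) (nat_lit 0) (nat_lit 0) (XT.lf (nat_lit 504) (nat_lit 1809574113) (nat_lit 0) (nat_lit 304322744) (nat_lit 420) (nat_lit 304322744) (nat_lit 117) (nat_lit 1) (nat_lit 111) (nat_lit 1) (nat_lit 116) (nat_lit 1) (nat_lit 262) (nat_lit 236) (nat_lit 222)) (XT.lf (nat_lit 84) (nat_lit 750110244) (nat_lit 0) (nat_lit 866002041) (nat_lit 504) (nat_lit 750110244) (nat_lit 112) (nat_lit 1) (nat_lit 111) (nat_lit 1) (nat_lit 117) (nat_lit 1) (nat_lit 263) (nat_lit 236) (nat_lit 221)))) (XT.nd (nat_lit 188) (nat_lit 336) (nat_lit 0) (XT.nd (nat_lit 94) (nat_lit 0) (nat_lit 0) (XT.lf (nat_lit 504) (nat_lit 1191630215) (nat_lit 0) (nat_lit 562203081) (nat_lit 420) (nat_lit 562203081) (nat_lit 112) (nat_lit 1) (nat_lit 106) (nat_lit 1) (nat_lit 111) (nat_lit 1) (nat_lit 264) (nat_lit 236) (nat_lit 220)) (XT.lf (nat_lit 84) (nat_lit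 439099897) (nat_lit 0) (nat_lit 1389110012) (nat_lit 504) (nat_lit 439099897) (nat_lit 107) (nat_lit 1) (nat_lit 106) (nat_lit 1) (nat_lit 112) (nat_lit 1) (nat_lit 265) (nat_lit 236) (nat_lit 219))) (XT.nd (nat_lit 94) (nat_lit 0) (nat_lit 0) (XT.lf (nat_lit 420) (nat_lit 557289632) (nat_lit 0) (nat_lit 831273506) (nat_lit 336) (nat_lit 831273506) (nat_lit 107) (nat_lit 1) (nat_lit 102) (nat_lit 1) (nat_lit 106) (nat_lit 1) (nat_lit 266) (nat_lit 236) (nat_lit 218)) (XT.lf (nat_lit 84) (nat_lit 121262505) (nat_lit 0) (nat_lit 1931664057) (nat_lit 420) (nat_lit 121262505) (nat_lit 103) (nat_lit 1) (nat_lit 102) (nat_lit 1) (nat_lit 107) (nat_lit 1) (nat_lit 267) (nat_lit 236) (nat_lit 217))))) (XT.nd (nat_lit 282) (nat_lit 1008) (nat_lit 0) (XT.nd (nat_lit 94) (nat_lit 336) (nat_lit 0) (XT.lf (nat_lit 84) (nat_lit 1021792716) (nat_lit 0) (nat_lit 85577124) (nat_lit 420)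 (nat_lit 1021792716) (nat_lit 98) (nat_lit 1) (nat_lit 97) (nat_lit 1) (nat_lit 102) (nat_lit 1) (nat_lit 268) (nat_lit 236) (nat_lit 216)) (XT.nd (nat_lit 94) (nat_lit 0) (nat_lit 0) (XT.lf (nat_lit 420) (nat_lit 1690206291) (nat_lit 0) (nat_lit 197822237) (nat_lit 336) (nat_lit 197822237) (nat_lit 98) (nat_lit 1) (nat_lit 93) (nat_lit 1) (nat_lit 97) (nat_lit 1) (nat_lit 269) (nat_lit 236) (nat_lit 215)) (XT.lf (nat_lit 84) (nat_lit 662973214) (nat_lit 0) (nat_lit 717335571) (nat_lit 420) (nat_lit 662973214) (nat_lit 94) (nat_lit 1) (nat_lit 93) (nat_lit 1) (nat_lit 98) (nat_lit 1) (nat_lit 270) (nat_lit 236) (nat_lit 214)))) (XT.nd (nat_lit 188) (nat_lit 672) (nat_lit 0) (XT.nd (nat_lit 94) (nat_lit 0) (nat_lit 0) (XT.lf (nat_lit 420) (nat_lit 967462344) (nat_lit 0) (nat_lit 517363511) (nat_lit 336) (nat_lit 517363511) (nat_lit 94) (nat_lit 1) (nat_lit 89) (nat_lit 1)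 (nat_lit 93) (nat_lit 1) (nat_lit 271) (nat_lit 236) (nat_lit 213)) (XT.lf (nat_lit 84) (nat_lit 305094446) (nat_lit 0) (nat_lit 1352109395) (nat_lit 420) (nat_lit 305094446) (nat_lit 90) (nat_lit 1) (nat_lit 89) (nat_lit 1) (nat_lit 94) (nat_lit 1) (nat_lit 272) (nat_lit 236) (nat_lit 212))) (XT.nd (nat_lit 94) (nat_lit 420) (nat_lit 0) (XT.lf (nat_lit 336) (nat_lit 248120246) (nat_lit 0) (nat_lit 837574025) (nat_lit 252) (nat_lit 837574025) (nat_lit 90) (nat_lit 1) (nat_lit 86) (nat_lit 1) (nat_lit 89) (nat_lit 1) (nat_lit 273) (nat_lit 236) (nat_lit 211)) (XT.lf (nat_lit 420) (nat_lit 1786595329) (nat_lit 0) (nat_lit 49574592) (nat_lit 336) (nat_lit 49574592) (nat_lit 86) (nat_lit 1) (nat_lit 81) (nat_lit 1) (nat_lit 85) (nat_lit 1) (nat_lit 274) (nat_lit 236) (nat_lit 210))))))) (XT.nd (nat_lit 1316) (nat_lit 1512) (nat_lit 0) (XT.nd (nat_lit 658) (nat_lit 924) (nat_lit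 0) (XT.nd (nat_lit 282) (nat_lit 840) (nat_lit 0) (XT.nd (nat_lit 94) (nat_lit 252) (nat_lit 0) (XT.lf (nat_lit 84) (nat_lit 699107960) (nat_lit 0) (nat_lit 450212500) (nat_lit 420) (nat_lit 699107960) (nat_lit 82) (nat_lit 1) (nat_lit 81) (nat_lit 1) (nat_lit 86) (nat_lit 1) (nat_lit 275) (nat_lit 236) (nat_lit 209)) (XT.nd (nat_lit 94) (nat_lit 0) (nat_lit 0) (XT.lf (nat_lit 336) (nat_lit 1021069277) (nat_lit 0) (nat_lit 395737110) (nat_lit 252) (nat_lit 395737110) (nat_lit 82) (nat_lit 1) (nat_lit 78) (nat_lit 1) (nat_lit 81) (nat_lit 1) (nat_lit 276) (nat_lit 236) (nat_lit 208)) (XT.lf (nat_lit 84) (nat_lit 322571579) (nat_lit 0) (nat_lit 1132427137) (nat_lit 336) (nat_lit 322571579) (nat_lit 79) (nat_lit 1) (nat_lit 78) (nat_lit 1) (nat_lit 82) (nat_lit 1) (nat_lit 277) (nat_lit 236) (nat_lit 207)))) (XT.nd (nat_lit 188) (nat_lit 252) (nat_lit 0) (XT.nd (nat_lit 94)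 (nat_lit 336) (nat_lit 0) (XT.lf (nat_lit 336) (nat_lit 268853328) (nat_lit 0) (nat_lit 737269697) (nat_lit 252) (nat_lit 737269697) (nat_lit 79) (nat_lit 1) (nat_lit 75) (nat_lit 1) (nat_lit 78) (nat_lit 1) (nat_lit 278) (nat_lit 236) (nat_lit 206)) (XT.lf (nat_lit 336) (nat_lit 1618074448) (nat_lit 0) (nat_lit 46205221) (nat_lit 252) (nat_lit 46205221) (nat_lit 75) (nat_lit 1) (nat_lit 71) (nat_lit 1) (nat_lit 74) (nat_lit 1) (nat_lit 279) (nat_lit 236) (nat_lit 205))) (XT.nd (nat_lit 94) (nat_lit 252) (nat_lit 0) (XT.lf (nat_lit 84) (nat_lit 612071224) (nat_lit 0) (nat_lit 453538631) (nat_lit 336) (nat_lit 612071224) (nat_lit 72) (nat_lit 1) (nat_lit 71) (nat_lit 1) (nat_lit 75) (nat_lit 1) (nat_lit 280) (nat_lit 236) (nat_lit 204)) (XT.lf (nat_lit 336) (nat_lit 841653979) (nat_lit 0) (nat_lit 402218519) (nat_lit 252) (nat_lit 402218519) (nat_lit 72) (nat_lit 1) (nat_lit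 68) (nat_lit 1) (nat_lit 71) (nat_lit 1) (nat_lit 281) (nat_lit 236) (nat_lit 203))))) (XT.nd (nat_lit 282) (nat_lit 420) (nat_lit 0) (XT.nd (nat_lit 94) (nat_lit 504) (nat_lit 0) (XT.lf (nat_lit 84) (nat_lit 231790819) (nat_lit 0) (nat_lit 1151766575) (nat_lit 336) (nat_lit 231790819) (nat_lit 69) (nat_lit 1) (nat_lit 68) (nat_lit 1) (nat_lit 72) (nat_lit 1) (nat_lit 282) (nat_lit 236) (nat_lit 202)) (XT.nd (nat_lit 94) (nat_lit 336) (nat_lit 0) (XT.lf (nat_lit 252) (nat_lit 84935863) (nat_lit 0) (nat_lit 750124438) (nat_lit 168) (nat_lit 750124438) (nat_lit 69) (nat_lit 1) (nat_lit 66) (nat_lit 1) (nat_lit 68) (nat_lit 1) (nat_lit 283) (nat_lit 236) (nat_lit 201)) (XT.lf (nat_lit 336) (nat_lit 1283352411) (nat_lit 0) (nat_lit 136301328) (nat_lit 252) (nat_lit 136301328) (nat_lit 66) (nat_lit 1) (nat_lit 62) (nat_lit 1) (nat_lit 65) (nat_lit 1) (nat_lit 284) (nat_lit 236)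 (nat_lit 200)))) (XT.nd (nat_lit 188) (nat_lit 252) (nat_lit 0) (XT.nd (nat_lit 94) (nat_lit 168) (nat_lit 0) (XT.lf (nat_lit 84) (nat_lit 448244534) (nat_lit 0) (nat_lit 630563233) (nat_lit 336) (nat_lit 448244534) (nat_lit 63) (nat_lit 1) (nat_lit 62) (nat_lit 1) (nat_lit 66) (nat_lit 1) (nat_lit 285) (nat_lit 236) (nat_lit 199)) (XT.lf (nat_lit 252) (nat_lit 517877414) (nat_lit 0) (nat_lit 490582069) (nat_lit 168) (nat_lit 490582069) (nat_lit 63) (nat_lit 1) (nat_lit 60) (nat_lit 1) (nat_lit 62) (nat_lit 1) (nat_lit 286) (nat_lit 236) (nat_lit 198))) (XT.nd (nat_lit 94) (nat_lit 252) (nat_lit 0) (XT.lf (nat_lit 84) (nat_lit 74402546) (nat_lit 0) (nat_lit 1323155282) (nat_lit 252) (nat_lit 74402546) (nat_lit 61) (nat_lit 1) (nat_lit 60) (nat_lit 1) (nat_lit 63) (nat_lit 1) (nat_lit 287) (nat_lit 236) (nat_lit 197)) (XT.lf (nat_lit 84) (nat_lit 614057271) (nat_lit 0) (nat_lit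 216863096) (nat_lit 252) (nat_lit 614057271) (nat_lit 58) (nat_lit 1) (nat_lit 57) (nat_lit 1) (nat_lit 60) (nat_lit 1) (nat_lit 288) (nat_lit 236) (nat_lit 196)))))) (XT.nd (nat_lit 658) (nat_lit 756) (nat_lit 0) (XT.nd (nat_lit 282) (nat_lit 420) (nat_lit 0) (XT.nd (nat_lit 94) (nat_lit 168) (nat_lit 0) (XT.lf (nat_lit 252) (nat_lit 852726144) (nat_lit 0) (nat_lit 283081976) (nat_lit 168) (nat_lit 283081976) (nat_lit 58) (nat_lit 1) (nat_lit 55) (nat_lit 1) (nat_lit 57) (nat_lit 1) (nat_lit 289) (nat_lit 236) (nat_lit 195)) (XT.nd (nat_lit 94) (nat_lit 168) (nat_lit 0) (XT.lf (nat_lit 84) (nat_lit 240617133) (nat_lit 0) (nat_lit 912144879) (nat_lit 252) (nat_lit 240617133) (nat_lit 56) (nat_lit 1) (nat_lit 55) (nat_lit 1) (nat_lit 58) (nat_lit 1) (nat_lit 290) (nat_lit 236) (nat_lit 194)) (XT.lf (nat_lit 252) (nat_lit 112720463) (nat_lit 0) (nat_lit 627830983) (nat_lit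 168) (nat_lit 627830983) (nat_lit 56) (nat_lit 1) (nat_lit 53) (nat_lit 1) (nat_lit 55) (nat_lit 1) (nat_lit 291) (nat_lit 236) (nat_lit 193)))) (XT.nd (nat_lit 188) (nat_lit 168) (nat_lit 0) (XT.nd (nat_lit 94) (nat_lit 0) (nat_lit 0) (XT.lf (nat_lit 252) (nat_lit 1107889542) (nat_lit 0) (nat_lit 118110236) (nat_lit 168) (nat_lit 118110236) (nat_lit 53) (nat_lit 1) (nat_lit 50) (nat_lit 1) (nat_lit 52) (nat_lit 1) (nat_lit 292) (nat_lit 236) (nat_lit 192)) (XT.lf (nat_lit 84) (nat_lit 368819143) (nat_lit 0) (nat_lit 582406473) (nat_lit 252) (nat_lit 368819143) (nat_lit 51) (nat_lit 1) (nat_lit 50) (nat_lit 1) (nat_lit 53) (nat_lit 1) (nat_lit 293) (nat_lit 236) (nat_lit 191))) (XT.nd (nat_lit 94) (nat_lit 0) (nat_lit 0) (XT.lf (nat_lit 252) (nat_lit 375624391) (nat_lit 0) (nat_lit 460526881) (nat_lit 168) (nat_lit 460526881) (nat_lit 51) (nat_lit 1) (nat_lit 48) (nat_lit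 1) (nat_lit 50) (nat_lit 1) (nat_lit 294) (nat_lit 236) (nat_lit 190)) (XT.lf (nat_lit 84) (nat_lit 12345737) (nat_lit 0) (nat_lit 1249439539) (nat_lit 252) (nat_lit 12345737) (nat_lit 49) (nat_lit 1) (nat_lit 48) (nat_lit 1) (nat_lit 51) (nat_lit 1) (nat_lit 295) (nat_lit 236) (nat_lit 189))))) (XT.nd (nat_lit 282) (nat_lit 420) (nat_lit 0) (XT.nd (nat_lit 94) (nat_lit 168) (nat_lit 0) (XT.lf (nat_lit 84) (nat_lit 466154929) (nat_lit 0) (nat_lit 319130697) (nat_lit 168) (nat_lit 466154929) (nat_lit 47) (nat_lit 1) (nat_lit 46) (nat_lit 1) (nat_lit 48) (nat_lit 1) (nat_lit 296) (nat_lit 236) (nat_lit 188)) (XT.nd (nat_lit 94) (nat_lit 0) (nat_lit 0) (XT.lf (nat_lit 252) (nat_lit 578445198) (nat_lit 0) (nat_lit 325551631) (nat_lit 168) (nat_lit 325551631) (nat_lit 47) (nat_lit 1) (nat_lit 44) (nat_lit 1) (nat_lit 46) (nat_lit 1) (nat_lit 297) (nat_lit 236) (nat_lit 187))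 (XT.lf (nat_lit 84) (nat_lit 115974264) (nat_lit 0) (nat_lit 976298759) (nat_lit 252) (nat_lit 115974264) (nat_lit 45) (nat_lit 1) (nat_lit 44) (nat_lit 1) (nat_lit 47) (nat_lit 1) (nat_lit 298) (nat_lit 236) (nat_lit 186)))) (XT.nd (nat_lit 188) (nat_lit 84) (nat_lit 0) (XT.nd (nat_lit 94) (nat_lit 168) (nat_lit 0) (XT.lf (nat_lit 84) (nat_lit 538484439) (nat_lit 0) (nat_lit 110152900) (nat_lit 168) (nat_lit 538484439) (nat_lit 43) (nat_lit 1) (nat_lit 42) (nat_lit 1) (nat_lit 44) (nat_lit 1) (nat_lit 299) (nat_lit 236) (nat_lit 185)) (XT.lf (nat_lit 252) (nat_lit 732476946) (nat_lit 0) (nat_lit 217046443) (nat_lit 168) (nat_lit 217046443) (nat_lit 43) (nat_lit 1) (nat_lit 40) (nat_lit 1) (nat_lit 42) (nat_lit 1) (nat_lit 300) (nat_lit 236) (nat_lit 184))) (XT.nd (nat_lit 94) (nat_lit 84) (nat_lit 0) (XT.lf (nat_lit 84) (nat_lit 196190786) (nat_lit 0) (nat_lit 754043175)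 (nat_lit 252) (nat_lit 196190786) (nat_lit 41) (nat_lit 1) (nat_lit 40) (nat_lit 1) (nat_lit 43) (nat_lit 1) (nat_lit 301) (nat_lit 236) (nat_lit 183)) (XT.lf (nat_lit 168) (nat_lit 56319230) (nat_lit 0) (nat_lit 535170290) (nat_lit 84) (nat_lit 535170290) (nat_lit 41) (nat_lit 1) (nat_lit 39) (nat_lit 1) (nat_lit 40) (nat_lit 1) (nat_lit 302) (nat_lit 236) (nat_lit 182))))))))
noncomputable def ec22 : XT := (XT.nd (nat_lit 40044) (nat_lit 0) (nat_lit 5544) (XT.nd (nat_lit 1222) (nat_lit 1008) (nat_lit 0) (XT.nd (nat_lit 564) (nat_lit 588) (nat_lit 0) (XT.nd (nat_lit 282) (nat_lit 336) (nat_lit 0) (XT.nd (nat_lit 94) (nat_lit 84) (nat_lit 0) (XT.lf (nat_lit 252) (nat_lit 846980739) (nat_lit 0) (nat_lit 130197322) (nat_lit 168) (nat_lit 130197322) (nat_lit 39) (nat_lit 1) (nat_lit 36) (nat_lit 1) (nat_lit 38) (nat_lit 1) (nat_lit 303) (nat_lit 236) (nat_lit 181)) (XT.nd (nat_lit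 94) (nat_lit 84) (nat_lit 0) (XT.lf (nat_lit 84) (nat_lit 257386142) (nat_lit 0) (nat_lit 573533919) (nat_lit 252) (nat_lit 257386142) (nat_lit 37) (nat_lit 1) (nat_lit 36) (nat_lit 1) (nat_lit 39) (nat_lit 1) (nat_lit 304) (nat_lit 236) (nat_lit 180)) (XT.lf (nat_lit 168) (nat_lit 189132734) (nat_lit 0) (nat_lit 440285922) (nat_lit 84) (nat_lit 440285922) (nat_lit 37) (nat_lit 1) (nat_lit 35) (nat_lit 1) (nat_lit 36) (nat_lit 1) (nat_lit 305) (nat_lit 236) (nat_lit 179)))) (XT.nd (nat_lit 94) (nat_lit 84) (nat_lit 0) (XT.lf (nat_lit 252) (nat_lit 929546620) (nat_lit 0) (nat_lit 61049542) (nat_lit 168) (nat_lit 61049542) (nat_lit 35) (nat_lit 1) (nat_lit 32) (nat_lit 1) (nat_lit 34) (nat_lit 1) (nat_lit 306) (nat_lit 236) (nat_lit 178)) (XT.nd (nat_lit 94) (nat_lit 84) (nat_lit 0) (XT.lf (nat_lit 84) (nat_lit 303161261) (nat_lit 0) (nat_lit 427257997) (nat_lit 252) (nat_lit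 303161261) (nat_lit 33) (nat_lit 1) (nat_lit 32) (nat_lit 1) (nat_lit 35) (nat_lit 1) (nat_lit 307) (nat_lit 236) (nat_lit 177)) (XT.lf (nat_lit 168) (nat_lit 291598791) (nat_lit 0) (nat_lit 362224318) (nat_lit 84) (nat_lit 362224318) (nat_lit 33) (nat_lit 1) (nat_lit 31) (nat_lit 1) (nat_lit 32) (nat_lit 1) (nat_lit 308) (nat_lit 236) (nat_lit 176))))) (XT.nd (nat_lit 282) (nat_lit 252) (nat_lit 0) (XT.nd (nat_lit 94) (nat_lit 84) (nat_lit 0) (XT.lf (nat_lit 252) (nat_lit 986391228) (nat_lit 0) (nat_lit 6355021) (nat_lit 168) (nat_lit 6355021) (nat_lit 31) (nat_lit 1) (nat_lit 28) (nat_lit 1) (nat_lit 30) (nat_lit 1) (nat_lit 309) (nat_lit 236) (nat_lit 175)) (XT.nd (nat_lit 94) (nat_lit 84) (nat_lit 0) (XT.lf (nat_lit 84) (nat_lit 336467753) (nat_lit 0) (nat_lit 309039756) (nat_lit 252) (nat_lit 336467753) (nat_lit 29) (nat_lit 1) (nat_lit 28) (nat_lit 1) (nat_lit 31)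 (nat_lit 1) (nat_lit 310) (nat_lit 236) (nat_lit 174)) (XT.lf (nat_lit 168) (nat_lit 369421735) (nat_lit 0) (nat_lit 298002843) (nat_lit 84) (nat_lit 298002843) (nat_lit 29) (nat_lit 1) (nat_lit 27) (nat_lit 1) (nat_lit 28) (nat_lit 1) (nat_lit 311) (nat_lit 236) (nat_lit 173)))) (XT.nd (nat_lit 188) (nat_lit 84) (nat_lit 0) (XT.nd (nat_lit 94) (nat_lit 168) (nat_lit 0) (XT.lf (nat_lit 0) (nat_lit 37152453) (nat_lit 0) (nat_lit 875074279) (nat_lit 168) (nat_lit 37152453) (nat_lit 27) (nat_lit 3) (nat_lit 27) (nat_lit 1) (nat_lit 29) (nat_lit 1) (nat_lit 312) (nat_lit 236) (nat_lit 172)) (XT.lf (nat_lit 84) (nat_lit 359723551) (nat_lit 0) (nat_lit 213803529) (nat_lit 168) (nat_lit 359723551) (nat_lit 26) (nat_lit 1) (nat_lit 25) (nat_lit 1) (nat_lit 27) (nat_lit 1) (nat_lit 313) (nat_lit 236) (nat_lit 171))) (XT.nd (nat_lit 94) (nat_lit 0) (nat_lit 0) (XT.lf (nat_lit 168)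 (nat_lit 427279117) (nat_lit 0) (nat_lit 245167676) (nat_lit 84) (nat_lit 245167676) (nat_lit 26) (nat_lit 1) (nat_lit 24) (nat_lit 1) (nat_lit 25) (nat_lit 1) (nat_lit 314) (nat_lit 236) (nat_lit 170)) (XT.lf (nat_lit 0) (nat_lit 71009658) (nat_lit 0) (nat_lit 760370018) (nat_lit 168) (nat_lit 71009658) (nat_lit 24) (nat_lit 3) (nat_lit 24) (nat_lit 1) (nat_lit 26) (nat_lit 1) (nat_lit 315) (nat_lit 236) (nat_lit 169)))))) (XT.nd (nat_lit 658) (nat_lit 336) (nat_lit 0) (XT.nd (nat_lit 282) (nat_lit 420) (nat_lit 0) (XT.nd (nat_lit 94) (nat_lit 84) (nat_lit 0) (XT.lf (nat_lit 84) (nat_lit 374908025) (nat_lit 0) (nat_lit 137378366) (nat_lit 168) (nat_lit 374908025) (nat_lit 23) (nat_lit 1) (nat_lit 22) (nat_lit 1) (nat_lit 24) (nat_lit 1) (nat_lit 316) (nat_lit 236) (nat_lit 168)) (XT.nd (nat_lit 94) (nat_lit 0) (nat_lit 0) (XT.lf (nat_lit 168) (nat_lit 469004483) (nat_lit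 0) (nat_lit 201700054) (nat_lit 84) (nat_lit 201700054) (nat_lit 23) (nat_lit 1) (nat_lit 21) (nat_lit 1) (nat_lit 22) (nat_lit 1) (nat_lit 317) (nat_lit 236) (nat_lit 167)) (XT.lf (nat_lit 0) (nat_lit 96938148) (nat_lit 0) (nat_lit 664076622) (nat_lit 168) (nat_lit 96938148) (nat_lit 21) (nat_lit 3) (nat_lit 21) (nat_lit 1) (nat_lit 23) (nat_lit 1) (nat_lit 318) (nat_lit 236) (nat_lit 166)))) (XT.nd (nat_lit 188) (nat_lit 168) (nat_lit 0) (XT.nd (nat_lit 94) (nat_lit 84) (nat_lit 0) (XT.lf (nat_lit 84) (nat_lit 383640208) (nat_lit 0) (nat_lit 76337401) (nat_lit 168) (nat_lit 383640208) (nat_lit 20) (nat_lit 1) (nat_lit 19) (nat_lit 1) (nat_lit 21) (nat_lit 1) (nat_lit 319) (nat_lit 236) (nat_lit 165)) (XT.lf (nat_lit 168) (nat_lit 497737717) (nat_lit 0) (nat_lit 165939133) (nat_lit 84) (nat_lit 165939133) (nat_lit 20) (nat_lit 1) (nat_lit 18) (nat_lit 1) (nat_lit 19) (nat_lit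 1) (nat_lit 320) (nat_lit 236) (nat_lit 164))) (XT.nd (nat_lit 94) (nat_lit 168) (nat_lit 0) (XT.lf (nat_lit 0) (nat_lit 116435375) (nat_lit 0) (nat_lit 583021601) (nat_lit 168) (nat_lit 116435375) (nat_lit 18) (nat_lit 3) (nat_lit 18) (nat_lit 1) (nat_lit 20) (nat_lit 1) (nat_lit 321) (nat_lit 236) (nat_lit 163)) (XT.lf (nat_lit 84) (nat_lit 387243127) (nat_lit 0) (nat_lit 27865710) (nat_lit 168) (nat_lit 387243127) (nat_lit 17) (nat_lit 1) (nat_lit 16) (nat_lit 1) (nat_lit 18) (nat_lit 1) (nat_lit 322) (nat_lit 236) (nat_lit 162))))) (XT.nd (nat_lit 282) (nat_lit 168) (nat_lit 0) (XT.nd (nat_lit 94) (nat_lit 84) (nat_lit 0) (XT.lf (nat_lit 168) (nat_lit 516048688) (nat_lit 0) (nat_lit 136518535) (nat_lit 84) (nat_lit 136518535) (nat_lit 17) (nat_lit 1) (nat_lit 15) (nat_lit 1) (nat_lit 16) (nat_lit 1) (nat_lit 323) (nat_lit 236) (nat_lit 161)) (XT.nd (nat_lit 94) (nat_lit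 84) (nat_lit 0) (XT.lf (nat_lit 0) (nat_lit 130728929) (nat_lit 0) (nat_lit 514590572) (nat_lit 168) (nat_lit 130728929) (nat_lit 15) (nat_lit 3) (nat_lit 15) (nat_lit 1) (nat_lit 17) (nat_lit 1) (nat_lit 324) (nat_lit 236) (nat_lit 160)) (XT.lf (nat_lit 84) (nat_lit 10690554) (nat_lit 0) (nat_lit 376273071) (nat_lit 84) (nat_lit 376273071) (nat_lit 15) (nat_lit 3) (nat_lit 14) (nat_lit 1) (nat_lit 15) (nat_lit 1) (nat_lit 325) (nat_lit 236) (nat_lit 159)))) (XT.nd (nat_lit 37694) (nat_lit 0) (nat_lit 9744) (XT.nd (nat_lit 94) (nat_lit 0) (nat_lit 0) (XT.lf (nat_lit 168) (nat_lit 526038948) (nat_lit 0) (nat_lit 112314137) (nat_lit 84) (nat_lit 112314137) (nat_lit 14) (nat_lit 1) (nat_lit 12) (nat_lit 1) (nat_lit 13) (nat_lit 1) (nat_lit 326) (nat_lit 236) (nat_lit 158)) (XT.lf (nat_lit 0) (nat_lit 140824592) (nat_lit 0) (nat_lit 456628516) (nat_lit 168) (nat_lit 140824592)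 (nat_lit 12) (nat_lit 3) (nat_lit 12) (nat_lit 1) (nat_lit 14) (nat_lit 1) (nat_lit 327) (nat_lit 236) (nat_lit 157))) (XT.nd (nat_lit 94) (nat_lit 0) (nat_lit 0) (XT.lf (nat_lit 924) (nat_lit 464175038) (nat_lit 0) (nat_lit 824141713) (nat_lit 924) (nat_lit 464175038) (nat_lit 139) (nat_lit 1) (nat_lit 128) (nat_lit 0) (nat_lit 139) (nat_lit 0) (nat_lit 246) (nat_lit 237) (nat_lit 237)) (XT.lf (nat_lit 924) (nat_lit 1799200397) (nat_lit 84) (nat_lit 810849104) (nat_lit 0) (nat_lit 810849104) (nat_lit 139) (nat_lit 1) (nat_lit 129) (nat_lit 1) (nat_lit 128) (nat_lit 0) (nat_lit 247) (nat_lit 237) (nat_lit 236))))))) (XT.nd (nat_lit 1222) (nat_lit 2772) (nat_lit 0) (XT.nd (nat_lit 564) (nat_lit 1512) (nat_lit 0) (XT.nd (nat_lit 282) (nat_lit 0) (nat_lit 84) (XT.nd (nat_lit 94) (nat_lit 0) (nat_lit 0) (XT.lf (nat_lit 924) (nat_lit 857471819) (nat_lit 0) (nat_lit 1624469516)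 (nat_lit 840) (nat_lit 857471819) (nat_lit 140) (nat_lit 1) (nat_lit 129) (nat_lit 1) (nat_lit 139) (nat_lit 1) (nat_lit 248) (nat_lit 237) (nat_lit 235)) (XT.nd (nat_lit 94) (nat_lit 0) (nat_lit 84) (XT.lf (nat_lit 924) (nat_lit 1608497983) (nat_lit 84) (nat_lit 826031152) (nat_lit 0) (nat_lit 826031152) (nat_lit 140) (nat_lit 1) (nat_lit 130) (nat_lit 1) (nat_lit 129) (nat_lit 1) (nat_lit 249) (nat_lit 237) (nat_lit 234)) (XT.lf (nat_lit 924) (nat_lit 740376175) (nat_lit 0) (nat_lit 1703454312) (nat_lit 840) (nat_lit 740376175) (nat_lit 141) (nat_lit 1) (nat_lit 130) (nat_lit 1) (nat_lit 140) (nat_lit 1) (nat_lit 250) (nat_lit 237) (nat_lit 233)))) (XT.nd (nat_lit 94) (nat_lit 0) (nat_lit 84) (XT.lf (nat_lit 924) (nat_lit 1331614773) (nat_lit 84) (nat_lit 889282907) (nat_lit 0) (nat_lit 889282907) (nat_lit 141) (nat_lit 1) (nat_lit 131) (nat_lit 1) (nat_lit 130) (nat_lit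 1) (nat_lit 251) (nat_lit 237) (nat_lit 232)) (XT.nd (nat_lit 94) (nat_lit 0) (nat_lit 0) (XT.lf (nat_lit 924) (nat_lit 583874617) (nat_lit 0) (nat_lit 1870890816) (nat_lit 840) (nat_lit 583874617) (nat_lit 142) (nat_lit 1) (nat_lit 131) (nat_lit 1) (nat_lit 141) (nat_lit 1) (nat_lit 252) (nat_lit 237) (nat_lit 231)) (XT.lf (nat_lit 924) (nat_lit 981511159) (nat_lit 84) (nat_lit 993779056) (nat_lit 0) (nat_lit 993779056) (nat_lit 142) (nat_lit 1) (nat_lit 132) (nat_lit 1) (nat_lit 131) (nat_lit 1) (nat_lit 253) (nat_lit 237) (nat_lit 230))))) (XT.nd (nat_lit 282) (nat_lit 1764) (nat_lit 0) (XT.nd (nat_lit 94) (nat_lit 0) (nat_lit 0) (XT.lf (nat_lit 924) (nat_lit 394025608) (nat_lit 0) (nat_lit 2113993962) (nat_lit 840) (nat_lit 394025608) (nat_lit 143) (nat_lit 1) (nat_lit 132) (nat_lit 1) (nat_lit 142) (nat_lit 1) (nat_lit 254) (nat_lit 237) (nat_lit 229)) (XT.nd (nat_lit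 94) (nat_lit 0) (nat_lit 84) (XT.lf (nat_lit 924) (nat_lit 569706975) (nat_lit 84) (nat_lit 1133441041) (nat_lit 0) (nat_lit 1133441041) (nat_lit 143) (nat_lit 1) (nat_lit 133) (nat_lit 1) (nat_lit 132) (nat_lit 1) (nat_lit 255) (nat_lit 237) (nat_lit 228)) (XT.lf (nat_lit 84) (nat_lit 176210310) (nat_lit 0) (nat_lit 2421384539) (nat_lit 840) (nat_lit 176210310) (nat_lit 134) (nat_lit 1) (nat_lit 133) (nat_lit 1) (nat_lit 143) (nat_lit 1) (nat_lit 256) (nat_lit 237) (nat_lit 227)))) (XT.nd (nat_lit 188) (nat_lit 420) (nat_lit 0) (XT.nd (nat_lit 94) (nat_lit 588) (nat_lit 0) (XT.lf (nat_lit 924) (nat_lit 106426645) (nat_lit 0) (nat_lit 1302862291) (nat_lit 840) (nat_lit 1302862291) (nat_lit 134) (nat_lit 1) (nat_lit 123) (nat_lit 1) (nat_lit 133) (nat_lit 1) (nat_lit 257) (nat_lit 237) (nat_lit 226)) (XT.lf (nat_lit 588) (nat_lit 2525638327) (nat_lit 0) (nat_lit 63753869)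 (nat_lit 504) (nat_lit 63753869) (nat_lit 123) (nat_lit 1) (nat_lit 116) (nat_lit 1) (nat_lit 122) (nat_lit 1) (nat_lit 258) (nat_lit 237) (nat_lit 225))) (XT.nd (nat_lit 94) (nat_lit 420) (nat_lit 0) (XT.lf (nat_lit 84) (nat_lit 1104204680) (nat_lit 0) (nat_lit 386490571) (nat_lit 588) (nat_lit 1104204680) (nat_lit 117) (nat_lit 1) (nat_lit 116) (nat_lit 1) (nat_lit 123) (nat_lit 1) (nat_lit 259) (nat_lit 237) (nat_lit 224)) (XT.lf (nat_lit 504) (nat_lit 1900052818) (nat_lit 0) (nat_lit 319538881) (nat_lit 420) (nat_lit 319538881) (nat_lit 117) (nat_lit 1) (nat_lit 111) (nat_lit 1) (nat_lit 116) (nat_lit 1) (nat_lit 260) (nat_lit 237) (nat_lit 223)))))) (XT.nd (nat_lit 658) (nat_lit 1260) (nat_lit 0) (XT.nd (nat_lit 282) (nat_lit 1092) (nat_lit 0) (XT.nd (nat_lit 94) (nat_lit 420) (nat_lit 0) (XT.lf (nat_lit 84) (nat_lit 787615756) (nat_lit 0) (nat_lit 909302143) (nat_lit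 504) (nat_lit 787615756) (nat_lit 112) (nat_lit 1) (nat_lit 111) (nat_lit 1) (nat_lit 117) (nat_lit 1) (nat_lit 261) (nat_lit 237) (nat_lit 222)) (XT.nd (nat_lit 94) (nat_lit 0) (nat_lit 0) (XT.lf (nat_lit 504) (nat_lit 1251211726) (nat_lit 0) (nat_lit 590313235) (nat_lit 420) (nat_lit 590313235) (nat_lit 112) (nat_lit 1) (nat_lit 106) (nat_lit 1) (nat_lit 111) (nat_lit 1) (nat_lit 262) (nat_lit 237) (nat_lit 221)) (XT.lf (nat_lit 84) (nat_lit 461054892) (nat_lit 0) (nat_lit 1458565513) (nat_lit 504) (nat_lit 461054892) (nat_lit 107) (nat_lit 1) (nat_lit 106) (nat_lit 1) (nat_lit 112) (nat_lit 1) (nat_lit 263) (nat_lit 237) (nat_lit 220)))) (XT.nd (nat_lit 188) (nat_lit 756) (nat_lit 0) (XT.nd (nat_lit 94) (nat_lit 0) (nat_lit 0) (XT.lf (nat_lit 420) (nat_lit 585154114) (nat_lit 0) (nat_lit 872837181) (nat_lit 336) (nat_lit 872837181) (nat_lit 107) (nat_lit 1) (nat_lit 102)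 (nat_lit 1) (nat_lit 106) (nat_lit 1) (nat_lit 264) (nat_lit 237) (nat_lit 219)) (XT.lf (nat_lit 84) (nat_lit 127325630) (nat_lit 0) (nat_lit 2028247259) (nat_lit 420) (nat_lit 127325630) (nat_lit 103) (nat_lit 1) (nat_lit 102) (nat_lit 1) (nat_lit 107) (nat_lit 1) (nat_lit 265) (nat_lit 237) (nat_lit 218))) (XT.nd (nat_lit 94) (nat_lit 336) (nat_lit 0) (XT.lf (nat_lit 84) (nat_lit 1072882352) (nat_lit 0) (nat_lit 89855981) (nat_lit 420) (nat_lit 1072882352) (nat_lit 98) (nat_lit 1) (nat_lit 97) (nat_lit 1) (nat_lit 102) (nat_lit 1) (nat_lit 266) (nat_lit 237) (nat_lit 217)) (XT.lf (nat_lit 420) (nat_lit 1774716605) (nat_lit 0) (nat_lit 207713349) (nat_lit 336) (nat_lit 207713349) (nat_lit 98) (nat_lit 1) (nat_lit 93) (nat_lit 1) (nat_lit 97) (nat_lit 1) (nat_lit 267) (nat_lit 237) (nat_lit 216))))) (XT.nd (nat_lit 282) (nat_lit 924) (nat_lit 0) (XT.nd (nat_lit 94) (nat_lit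 336) (nat_lit 0) (XT.lf (nat_lit 84) (nat_lit 696121874) (nat_lit 0) (nat_lit 753202350) (nat_lit 420) (nat_lit 696121874) (nat_lit 94) (nat_lit 1) (nat_lit 93) (nat_lit 1) (nat_lit 98) (nat_lit 1) (nat_lit 268) (nat_lit 237) (nat_lit 215)) (XT.nd (nat_lit 94) (nat_lit 0) (nat_lit 0) (XT.lf (nat_lit 420) (nat_lit 1015835461) (nat_lit 0) (nat_lit 543231687) (nat_lit 336) (nat_lit 543231687) (nat_lit 94) (nat_lit 1) (nat_lit 89) (nat_lit 1) (nat_lit 93) (nat_lit 1) (nat_lit 269) (nat_lit 237) (nat_lit 214)) (XT.lf (nat_lit 84) (nat_lit 320349168) (nat_lit 0) (nat_lit 1419714864) (nat_lit 420) (nat_lit 320349168) (nat_lit 90) (nat_lit 1) (nat_lit 89) (nat_lit 1) (nat_lit 94) (nat_lit 1) (nat_lit 270) (nat_lit 237) (nat_lit 213)))) (XT.nd (nat_lit 188) (nat_lit 252) (nat_lit 0) (XT.nd (nat_lit 94) (nat_lit 420) (nat_lit 0) (XT.lf (nat_lit 336) (nat_lit 260526258) (nat_lit 0)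 (nat_lit 879452726) (nat_lit 252) (nat_lit 879452726) (nat_lit 90) (nat_lit 1) (nat_lit 86) (nat_lit 1) (nat_lit 89) (nat_lit 1) (nat_lit 271) (nat_lit 237) (nat_lit 212)) (XT.lf (nat_lit 420) (nat_lit 1875925095) (nat_lit 0) (nat_lit 52053321) (nat_lit 336) (nat_lit 52053321) (nat_lit 86) (nat_lit 1) (nat_lit 81) (nat_lit 1) (nat_lit 85) (nat_lit 1) (nat_lit 272) (nat_lit 237) (nat_lit 211))) (XT.nd (nat_lit 94) (nat_lit 252) (nat_lit 0) (XT.lf (nat_lit 84) (nat_lit 734063358) (nat_lit 0) (nat_lit 472723125) (nat_lit 420) (nat_lit 734063358) (nat_lit 82) (nat_lit 1) (nat_lit 81) (nat_lit 1) (nat_lit 86) (nat_lit 1) (nat_lit 273) (nat_lit 237) (nat_lit 210)) (XT.lf (nat_lit 336) (nat_lit 1072122741) (nat_lit 0) (nat_lit 415523966) (nat_lit 252) (nat_lit 415523966) (nat_lit 82) (nat_lit 1) (nat_lit 78) (nat_lit 1) (nat_lit 81) (nat_lit 1) (nat_lit 274) (nat_lit 237) (nat_lit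 209))))))))
noncomputable def ec23 : XT := (XT.nd (nat_lit 2538) (nat_lit 2268) (nat_lit 0) (XT.nd (nat_lit 1222) (nat_lit 1596) (nat_lit 0) (XT.nd (nat_lit 564) (nat_lit 1092) (nat_lit 0) (XT.nd (nat_lit 282) (nat_lit 252) (nat_lit 0) (XT.nd (nat_lit 94) (nat_lit 588) (nat_lit 0) (XT.lf (nat_lit 84) (nat_lit 338700158) (nat_lit 0) (nat_lit 1189048494) (nat_lit 336) (nat_lit 338700158) (nat_lit 79) (nat_lit 1) (nat_lit 78) (nat_lit 1) (nat_lit 82) (nat_lit 1) (nat_lit 275) (nat_lit 237) (nat_lit 208)) (XT.nd (nat_lit 94) (nat_lit 336) (nat_lit 0) (XT.lf (nat_lit 336) (nat_lit 282295995) (nat_lit 0) (nat_lit 774133182) (nat_lit 252) (nat_lit 774133182) (nat_lit 79) (nat_lit 1) (nat_lit 75) (nat_lit 1) (nat_lit 78) (nat_lit 1) (nat_lit 276) (nat_lit 237) (nat_lit 207)) (XT.lf (nat_lit 336) (nat_lit 1698978170) (nat_lit 0) (nat_lit 48515482) (nat_lit 252) (nat_lit 48515482)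 (nat_lit 75) (nat_lit 1) (nat_lit 71) (nat_lit 1) (nat_lit 74) (nat_lit 1) (nat_lit 277) (nat_lit 237) (nat_lit 206)))) (XT.nd (nat_lit 94) (nat_lit 252) (nat_lit 0) (XT.lf (nat_lit 84) (nat_lit 642674786) (nat_lit 0) (nat_lit 476215563) (nat_lit 336) (nat_lit 642674786) (nat_lit 72) (nat_lit 1) (nat_lit 71) (nat_lit 1) (nat_lit 75) (nat_lit 1) (nat_lit 278) (nat_lit 237) (nat_lit 205)) (XT.nd (nat_lit 94) (nat_lit 0) (nat_lit 0) (XT.lf (nat_lit 336) (nat_lit 883736678) (nat_lit 0) (nat_lit 422329445) (nat_lit 252) (nat_lit 422329445) (nat_lit 72) (nat_lit 1) (nat_lit 68) (nat_lit 1) (nat_lit 71) (nat_lit 1) (nat_lit 279) (nat_lit 237) (nat_lit 204)) (XT.lf (nat_lit 84) (nat_lit 243380360) (nat_lit 0) (nat_lit 1209354904) (nat_lit 336) (nat_lit 243380360) (nat_lit 69) (nat_lit 1) (nat_lit 68) (nat_lit 1) (nat_lit 72) (nat_lit 1) (nat_lit 280) (nat_lit 237) (nat_lit 203)))))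 (XT.nd (nat_lit 282) (nat_lit 588) (nat_lit 0) (XT.nd (nat_lit 94) (nat_lit 336) (nat_lit 0) (XT.lf (nat_lit 252) (nat_lit 89182656) (nat_lit 0) (nat_lit 787630660) (nat_lit 168) (nat_lit 787630660) (nat_lit 69) (nat_lit 1) (nat_lit 66) (nat_lit 1) (nat_lit 68) (nat_lit 1) (nat_lit 281) (nat_lit 237) (nat_lit 202)) (XT.nd (nat_lit 94) (nat_lit 0) (nat_lit 0) (XT.lf (nat_lit 336) (nat_lit 1347520032) (nat_lit 0) (nat_lit 143116394) (nat_lit 252) (nat_lit 143116394) (nat_lit 66) (nat_lit 1) (nat_lit 62) (nat_lit 1) (nat_lit 65) (nat_lit 1) (nat_lit 282) (nat_lit 237) (nat_lit 201)) (XT.lf (nat_lit 84) (nat_lit 470656761) (nat_lit 0) (nat_lit 662091395) (nat_lit 336) (nat_lit 470656761) (nat_lit 63) (nat_lit 1) (nat_lit 62) (nat_lit 1) (nat_lit 66) (nat_lit 1) (nat_lit 283) (nat_lit 237) (nat_lit 200)))) (XT.nd (nat_lit 188) (nat_lit 420) (nat_lit 0) (XT.nd (nat_lit 94) (nat_lit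 0) (nat_lit 0) (XT.lf (nat_lit 252) (nat_lit 543771285) (nat_lit 0) (nat_lit 515111173) (nat_lit 168) (nat_lit 515111173) (nat_lit 63) (nat_lit 1) (nat_lit 60) (nat_lit 1) (nat_lit 62) (nat_lit 1) (nat_lit 284) (nat_lit 237) (nat_lit 199)) (XT.lf (nat_lit 84) (nat_lit 78122674) (nat_lit 0) (nat_lit 1389313046) (nat_lit 252) (nat_lit 78122674) (nat_lit 61) (nat_lit 1) (nat_lit 60) (nat_lit 1) (nat_lit 63) (nat_lit 1) (nat_lit 285) (nat_lit 237) (nat_lit 198))) (XT.nd (nat_lit 94) (nat_lit 168) (nat_lit 0) (XT.lf (nat_lit 84) (nat_lit 644760135) (nat_lit 0) (nat_lit 227706250) (nat_lit 252) (nat_lit 644760135) (nat_lit 58) (nat_lit 1) (nat_lit 57) (nat_lit 1) (nat_lit 60) (nat_lit 1) (nat_lit 286) (nat_lit 237) (nat_lit 197)) (XT.lf (nat_lit 252) (nat_lit 895362452) (nat_lit 0) (nat_lit 297236075) (nat_lit 168) (nat_lit 297236075) (nat_lit 58) (nat_lit 1) (nat_lit 55) (nat_lit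 1) (nat_lit 57) (nat_lit 1) (nat_lit 287) (nat_lit 237) (nat_lit 196)))))) (XT.nd (nat_lit 658) (nat_lit 840) (nat_lit 0) (XT.nd (nat_lit 282) (nat_lit 336) (nat_lit 0) (XT.nd (nat_lit 94) (nat_lit 420) (nat_lit 0) (XT.lf (nat_lit 84) (nat_lit 252647990) (nat_lit 0) (nat_lit 957752123) (nat_lit 252) (nat_lit 252647990) (nat_lit 56) (nat_lit 1) (nat_lit 55) (nat_lit 1) (nat_lit 58) (nat_lit 1) (nat_lit 288) (nat_lit 237) (nat_lit 195)) (XT.nd (nat_lit 94) (nat_lit 252) (nat_lit 0) (XT.lf (nat_lit 252) (nat_lit 118356487) (nat_lit 0) (nat_lit 659222532) (nat_lit 168) (nat_lit 659222532) (nat_lit 56) (nat_lit 1) (nat_lit 53) (nat_lit 1) (nat_lit 55) (nat_lit 1) (nat_lit 289) (nat_lit 237) (nat_lit 194)) (XT.lf (nat_lit 252) (nat_lit 1163284019) (nat_lit 0) (nat_lit 124015747) (nat_lit 168) (nat_lit 124015747) (nat_lit 53) (nat_lit 1) (nat_lit 50) (nat_lit 1) (nat_lit 52) (nat_lit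 1) (nat_lit 290) (nat_lit 237) (nat_lit 193)))) (XT.nd (nat_lit 188) (nat_lit 168) (nat_lit 0) (XT.nd (nat_lit 94) (nat_lit 168) (nat_lit 0) (XT.lf (nat_lit 84) (nat_lit 387260100) (nat_lit 0) (nat_lit 611526796) (nat_lit 252) (nat_lit 387260100) (nat_lit 51) (nat_lit 1) (nat_lit 50) (nat_lit 1) (nat_lit 53) (nat_lit 1) (nat_lit 291) (nat_lit 237) (nat_lit 192)) (XT.lf (nat_lit 252) (nat_lit 394405610) (nat_lit 0) (nat_lit 483553225) (nat_lit 168) (nat_lit 483553225) (nat_lit 51) (nat_lit 1) (nat_lit 48) (nat_lit 1) (nat_lit 50) (nat_lit 1) (nat_lit 292) (nat_lit 237) (nat_lit 191))) (XT.nd (nat_lit 94) (nat_lit 168) (nat_lit 0) (XT.lf (nat_lit 84) (nat_lit 12963024) (nat_lit 0) (nat_lit 1311911516) (nat_lit 252) (nat_lit 12963024) (nat_lit 49) (nat_lit 1) (nat_lit 48) (nat_lit 1) (nat_lit 51) (nat_lit 1) (nat_lit 293) (nat_lit 237) (nat_lit 190)) (XT.lf (nat_lit 84) (nat_lit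 489462675) (nat_lit 0) (nat_lit 335087232) (nat_lit 168) (nat_lit 489462675) (nat_lit 47) (nat_lit 1) (nat_lit 46) (nat_lit 1) (nat_lit 48) (nat_lit 1) (nat_lit 294) (nat_lit 237) (nat_lit 189))))) (XT.nd (nat_lit 282) (nat_lit 504) (nat_lit 0) (XT.nd (nat_lit 94) (nat_lit 168) (nat_lit 0) (XT.lf (nat_lit 252) (nat_lit 607367458) (nat_lit 0) (nat_lit 341829212) (nat_lit 168) (nat_lit 341829212) (nat_lit 47) (nat_lit 1) (nat_lit 44) (nat_lit 1) (nat_lit 46) (nat_lit 1) (nat_lit 295) (nat_lit 237) (nat_lit 188)) (XT.nd (nat_lit 94) (nat_lit 168) (nat_lit 0) (XT.lf (nat_lit 84) (nat_lit 121772977) (nat_lit 0) (nat_lit 1025113697) (nat_lit 252) (nat_lit 121772977) (nat_lit 45) (nat_lit 1) (nat_lit 44) (nat_lit 1) (nat_lit 47) (nat_lit 1) (nat_lit 296) (nat_lit 237) (nat_lit 187)) (XT.lf (nat_lit 84) (nat_lit 565408661) (nat_lit 0) (nat_lit 115660545) (nat_lit 168) (nat_lit 565408661)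 (nat_lit 43) (nat_lit 1) (nat_lit 42) (nat_lit 1) (nat_lit 44) (nat_lit 1) (nat_lit 297) (nat_lit 237) (nat_lit 186)))) (XT.nd (nat_lit 188) (nat_lit 336) (nat_lit 0) (XT.nd (nat_lit 94) (nat_lit 0) (nat_lit 0) (XT.lf (nat_lit 252) (nat_lit 769100794) (nat_lit 0) (nat_lit 227898765) (nat_lit 168) (nat_lit 227898765) (nat_lit 43) (nat_lit 1) (nat_lit 40) (nat_lit 1) (nat_lit 42) (nat_lit 1) (nat_lit 298) (nat_lit 237) (nat_lit 185)) (XT.lf (nat_lit 84) (nat_lit 206000325) (nat_lit 0) (nat_lit 791745334) (nat_lit 252) (nat_lit 206000325) (nat_lit 41) (nat_lit 1) (nat_lit 40) (nat_lit 1) (nat_lit 43) (nat_lit 1) (nat_lit 299) (nat_lit 237) (nat_lit 184))) (XT.nd (nat_lit 94) (nat_lit 252) (nat_lit 0) (XT.lf (nat_lit 168) (nat_lit 59135191) (nat_lit 0) (nat_lit 561928805) (nat_lit 84) (nat_lit 561928805) (nat_lit 41) (nat_lit 1) (nat_lit 39) (nat_lit 1) (nat_lit 40) (nat_lit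 1) (nat_lit 300) (nat_lit 237) (nat_lit 183)) (XT.lf (nat_lit 252) (nat_lit 889329776) (nat_lit 0) (nat_lit 136707188) (nat_lit 168) (nat_lit 136707188) (nat_lit 39) (nat_lit 1) (nat_lit 36) (nat_lit 1) (nat_lit 38) (nat_lit 1) (nat_lit 301) (nat_lit 237) (nat_lit 182))))))) (XT.nd (nat_lit 1316) (nat_lit 1008) (nat_lit 0) (XT.nd (nat_lit 658) (nat_lit 588) (nat_lit 0) (XT.nd (nat_lit 282) (nat_lit 336) (nat_lit 0) (XT.nd (nat_lit 94) (nat_lit 336) (nat_lit 0) (XT.lf (nat_lit 84) (nat_lit 270255449) (nat_lit 0) (nat_lit 602210615) (nat_lit 252) (nat_lit 270255449) (nat_lit 37) (nat_lit 1) (nat_lit 36) (nat_lit 1) (nat_lit 39) (nat_lit 1) (nat_lit 302) (nat_lit 237) (nat_lit 181)) (XT.nd (nat_lit 94) (nat_lit 252) (nat_lit 0) (XT.lf (nat_lit 168) (nat_lit 198589370) (nat_lit 0) (nat_lit 462300218) (nat_lit 84) (nat_lit 462300218) (nat_lit 37) (nat_lit 1) (nat_lit 35) (nat_lit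 1) (nat_lit 36) (nat_lit 1) (nat_lit 303) (nat_lit 237) (nat_lit 180)) (XT.lf (nat_lit 252) (nat_lit 976023951) (nat_lit 0) (nat_lit 64102019) (nat_lit 168) (nat_lit 64102019) (nat_lit 35) (nat_lit 1) (nat_lit 32) (nat_lit 1) (nat_lit 34) (nat_lit 1) (nat_lit 304) (nat_lit 237) (nat_lit 179)))) (XT.nd (nat_lit 188) (nat_lit 252) (nat_lit 0) (XT.nd (nat_lit 94) (nat_lit 84) (nat_lit 0) (XT.lf (nat_lit 84) (nat_lit 318319324) (nat_lit 0) (nat_lit 448620897) (nat_lit 252) (nat_lit 318319324) (nat_lit 33) (nat_lit 1) (nat_lit 32) (nat_lit 1) (nat_lit 35) (nat_lit 1) (nat_lit 305) (nat_lit 237) (nat_lit 178)) (XT.lf (nat_lit 168) (nat_lit 306178730) (nat_lit 0) (nat_lit 380335534) (nat_lit 84) (nat_lit 380335534) (nat_lit 33) (nat_lit 1) (nat_lit 31) (nat_lit 1) (nat_lit 32) (nat_lit 1) (nat_lit 306) (nat_lit 237) (nat_lit 177))) (XT.nd (nat_lit 94) (nat_lit 0) (nat_lit 0) (XT.lf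 (nat_lit 252) (nat_lit 1035710789) (nat_lit 0) (nat_lit 6672772) (nat_lit 168) (nat_lit 6672772) (nat_lit 31) (nat_lit 1) (nat_lit 28) (nat_lit 1) (nat_lit 30) (nat_lit 1) (nat_lit 307) (nat_lit 237) (nat_lit 176)) (XT.lf (nat_lit 84) (nat_lit 353291140) (nat_lit 0) (nat_lit 324491744) (nat_lit 252) (nat_lit 353291140) (nat_lit 29) (nat_lit 1) (nat_lit 28) (nat_lit 1) (nat_lit 31) (nat_lit 1) (nat_lit 308) (nat_lit 237) (nat_lit 175))))) (XT.nd (nat_lit 282) (nat_lit 336) (nat_lit 0) (XT.nd (nat_lit 94) (nat_lit 168) (nat_lit 0) (XT.lf (nat_lit 168) (nat_lit 387892822) (nat_lit 0) (nat_lit 312902985) (nat_lit 84) (nat_lit 312902985) (nat_lit 29) (nat_lit 1) (nat_lit 27) (nat_lit 1) (nat_lit 28) (nat_lit 1) (nat_lit 309) (nat_lit 237) (nat_lit 174)) (XT.nd (nat_lit 94) (nat_lit 168) (nat_lit 0) (XT.lf (nat_lit 0) (nat_lit 39010076) (nat_lit 0) (nat_lit 918827993) (nat_lit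 168) (nat_lit 39010076) (nat_lit 27) (nat_lit 3) (nat_lit 27) (nat_lit 1) (nat_lit 29) (nat_lit 1) (nat_lit 310) (nat_lit 237) (nat_lit 173)) (XT.lf (nat_lit 84) (nat_lit 377709729) (nat_lit 0) (nat_lit 224493705) (nat_lit 168) (nat_lit 377709729) (nat_lit 26) (nat_lit 1) (nat_lit 25) (nat_lit 1) (nat_lit 27) (nat_lit 1) (nat_lit 311) (nat_lit 237) (nat_lit 172)))) (XT.nd (nat_lit 188) (nat_lit 252) (nat_lit 0) (XT.nd (nat_lit 94) (nat_lit 0) (nat_lit 0) (XT.lf (nat_lit 168) (nat_lit 448643073) (nat_lit 0) (nat_lit 257426060) (nat_lit 84) (nat_lit 257426060) (nat_lit 26) (nat_lit 1) (nat_lit 24) (nat_lit 1) (nat_lit 25) (nat_lit 1) (nat_lit 312) (nat_lit 237) (nat_lit 171)) (XT.lf (nat_lit 0) (nat_lit 74560141) (nat_lit 0) (nat_lit 798388519) (nat_lit 168) (nat_lit 74560141) (nat_lit 24) (nat_lit 3) (nat_lit 24) (nat_lit 1) (nat_lit 26) (nat_lit 1) (nat_lit 313) (nat_lit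 237) (nat_lit 170))) (XT.nd (nat_lit 94) (nat_lit 84) (nat_lit 0) (XT.lf (nat_lit 84) (nat_lit 393653427) (nat_lit 0) (nat_lit 144247284) (nat_lit 168) (nat_lit 393653427) (nat_lit 23) (nat_lit 1) (nat_lit 22) (nat_lit 1) (nat_lit 24) (nat_lit 1) (nat_lit 314) (nat_lit 237) (nat_lit 169)) (XT.lf (nat_lit 168) (nat_lit 492454708) (nat_lit 0) (nat_lit 211785056) (nat_lit 84) (nat_lit 211785056) (nat_lit 23) (nat_lit 1) (nat_lit 21) (nat_lit 1) (nat_lit 22) (nat_lit 1) (nat_lit 315) (nat_lit 237) (nat_lit 168)))))) (XT.nd (nat_lit 658) (nat_lit 504) (nat_lit 0) (XT.nd (nat_lit 282) (nat_lit 252) (nat_lit 0) (XT.nd (nat_lit 94) (nat_lit 252) (nat_lit 0) (XT.lf (nat_lit 0) (nat_lit 101785056) (nat_lit 0) (nat_lit 697280454) (nat_lit 168) (nat_lit 101785056) (nat_lit 21) (nat_lit 3) (nat_lit 21) (nat_lit 1) (nat_lit 23) (nat_lit 1) (nat_lit 316) (nat_lit 237) (nat_lit 167)) (XT.nd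 (nat_lit 94) (nat_lit 84) (nat_lit 0) (XT.lf (nat_lit 84) (nat_lit 402822218) (nat_lit 0) (nat_lit 80154271) (nat_lit 168) (nat_lit 402822218) (nat_lit 20) (nat_lit 1) (nat_lit 19) (nat_lit 1) (nat_lit 21) (nat_lit 1) (nat_lit 317) (nat_lit 237) (nat_lit 166)) (XT.lf (nat_lit 168) (nat_lit 522624603) (nat_lit 0) (nat_lit 174236090) (nat_lit 84) (nat_lit 174236090) (nat_lit 20) (nat_lit 1) (nat_lit 18) (nat_lit 1) (nat_lit 19) (nat_lit 1) (nat_lit 318) (nat_lit 237) (nat_lit 165)))) (XT.nd (nat_lit 188) (nat_lit 84) (nat_lit 0) (XT.nd (nat_lit 94) (nat_lit 168) (nat_lit 0) (XT.lf (nat_lit 0) (nat_lit 122257144) (nat_lit 0) (nat_lit 612172681) (nat_lit 168) (nat_lit 122257144) (nat_lit 18) (nat_lit 3) (nat_lit 18) (nat_lit 1) (nat_lit 20) (nat_lit 1) (nat_lit 319) (nat_lit 237) (nat_lit 164)) (XT.lf (nat_lit 84) (nat_lit 406605283) (nat_lit 0) (nat_lit 29258996) (nat_lit 168)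 (nat_lit 406605283) (nat_lit 17) (nat_lit 1) (nat_lit 16) (nat_lit 1) (nat_lit 18) (nat_lit 1) (nat_lit 320) (nat_lit 237) (nat_lit 163))) (XT.nd (nat_lit 94) (nat_lit 0) (nat_lit 0) (XT.lf (nat_lit 168) (nat_lit 541851122) (nat_lit 0) (nat_lit 143344462) (nat_lit 84) (nat_lit 143344462) (nat_lit 17) (nat_lit 1) (nat_lit 15) (nat_lit 1) (nat_lit 16) (nat_lit 1) (nat_lit 321) (nat_lit 237) (nat_lit 162)) (XT.lf (nat_lit 0) (nat_lit 137265375) (nat_lit 0) (nat_lit 540320101) (nat_lit 168) (nat_lit 137265375) (nat_lit 15) (nat_lit 3) (nat_lit 15) (nat_lit 1) (nat_lit 17) (nat_lit 1) (nat_lit 322) (nat_lit 237) (nat_lit 161))))) (XT.nd (nat_lit 282) (nat_lit 252) (nat_lit 0) (XT.nd (nat_lit 94) (nat_lit 168) (nat_lit 0) (XT.lf (nat_lit 84) (nat_lit 11225081) (nat_lit 0) (nat_lit 395086724) (nat_lit 84) (nat_lit 395086724) (nat_lit 15) (nat_lit 3) (nat_lit 14) (nat_lit 1) (nat_lit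 15) (nat_lit 1) (nat_lit 323) (nat_lit 237) (nat_lit 160)) (XT.nd (nat_lit 94) (nat_lit 0) (nat_lit 0) (XT.lf (nat_lit 168) (nat_lit 552340896) (nat_lit 0) (nat_lit 117929844) (nat_lit 84) (nat_lit 117929844) (nat_lit 14) (nat_lit 1) (nat_lit 12) (nat_lit 1) (nat_lit 13) (nat_lit 1) (nat_lit 324) (nat_lit 237) (nat_lit 159)) (XT.lf (nat_lit 0) (nat_lit 147865822) (nat_lit 0) (nat_lit 479459942) (nat_lit 168) (nat_lit 147865822) (nat_lit 12) (nat_lit 3) (nat_lit 12) (nat_lit 1) (nat_lit 14) (nat_lit 1) (nat_lit 325) (nat_lit 237) (nat_lit 158)))) (XT.nd (nat_lit 188) (nat_lit 0) (nat_lit 0) (XT.nd (nat_lit 94) (nat_lit 168) (nat_lit 0) (XT.lf (nat_lit 84) (nat_lit 43608656) (nat_lit 0) (nat_lit 359412579) (nat_lit 84) (nat_lit 359412579) (nat_lit 12) (nat_lit 3) (nat_lit 11) (nat_lit 1) (nat_lit 12) (nat_lit 1) (nat_lit 326) (nat_lit 237) (nat_lit 157)) (XT.lf (nat_lit 168)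 (nat_lit 555896637) (nat_lit 0) (nat_lit 97021174) (nat_lit 84) (nat_lit 97021174) (nat_lit 11) (nat_lit 1) (nat_lit 9) (nat_lit 1) (nat_lit 10) (nat_lit 1) (nat_lit 327) (nat_lit 237) (nat_lit 156))) (XT.nd (nat_lit 37318) (nat_lit 0) (nat_lit 9996) (XT.lf (nat_lit 0) (nat_lit 154923156) (nat_lit 0) (nat_lit 427726459) (nat_lit 168) (nat_lit 154923156) (nat_lit 9) (nat_lit 3) (nat_lit 9) (nat_lit 1) (nat_lit 11) (nat_lit 1) (nat_lit 328) (nat_lit 237) (nat_lit 155)) (XT.lf (nat_lit 924) (nat_lit 487383790) (nat_lit 0) (nat_lit 865348798) (nat_lit 924) (nat_lit 487383790) (nat_lit 139) (nat_lit 1) (nat_lit 128) (nat_lit 0) (nat_lit 139) (nat_lit 0) (nat_lit 244) (nat_lit 238) (nat_lit 238))))))))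
noncomputable def ec24 : XT := (XT.nd (nat_lit 2538) (nat_lit 3528) (nat_lit 0) (XT.nd (nat_lit 1222) (nat_lit 2940) (nat_lit 0) (XT.nd (nat_lit 564) (nat_lit 1008) (nat_lit 0) (XT.nd (nat_lit 282) (nat_lit 0) (nat_lit 168) (XT.nd (nat_lit 94) (nat_lit 0) (nat_lit 84) (XT.lf (nat_lit 924) (nat_lit 1889160417) (nat_lit 84) (nat_lit 851391560) (nat_lit 0) (nat_lit 851391560) (nat_lit 139) (nat_lit 1) (nat_lit 129) (nat_lit 1) (nat_lit 128) (nat_lit 0) (nat_lit 245) (nat_lit 238) (nat_lit 237)) (XT.nd (nat_lit 94) (nat_lit 0) (nat_lit 0) (XT.lf (nat_lit 924) (nat_lit 900345409) (nat_lit 0) (nat_lit 1705692992) (nat_lit 840) (nat_lit 900345409) (nat_lit 140) (nat_lit 1) (nat_lit 129) (nat_lit 1) (nat_lit 139) (nat_lit 1) (nat_lit 246) (nat_lit 238) (nat_lit 236)) (XT.lf (nat_lit 924) (nat_lit 1688922882) (nat_lit 84) (nat_lit 867332710) (nat_lit 0) (nat_lit 867332710) (nat_lit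 140) (nat_lit 1) (nat_lit 130) (nat_lit 1) (nat_lit 129) (nat_lit 1) (nat_lit 247) (nat_lit 238) (nat_lit 235)))) (XT.nd (nat_lit 94) (nat_lit 0) (nat_lit 0) (XT.lf (nat_lit 924) (nat_lit 777394984) (nat_lit 0) (nat_lit 1788627028) (nat_lit 840) (nat_lit 777394984) (nat_lit 141) (nat_lit 1) (nat_lit 130) (nat_lit 1) (nat_lit 140) (nat_lit 1) (nat_lit 248) (nat_lit 238) (nat_lit 234)) (XT.nd (nat_lit 94) (nat_lit 0) (nat_lit 84) (XT.lf (nat_lit 924) (nat_lit 1398195512) (nat_lit 84) (nat_lit 933747052) (nat_lit 0) (nat_lit 933747052) (nat_lit 141) (nat_lit 1) (nat_lit 131) (nat_lit 1) (nat_lit 130) (nat_lit 1) (nat_lit 249) (nat_lit 238) (nat_lit 233)) (XT.lf (nat_lit 924) (nat_lit 613068348) (nat_lit 0) (nat_lit 1964435357) (nat_lit 840) (nat_lit 613068348) (nat_lit 142) (nat_lit 1) (nat_lit 131) (nat_lit 1) (nat_lit 141) (nat_lit 1) (nat_lit 250) (nat_lit 238) (nat_lit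 232))))) (XT.nd (nat_lit 282) (nat_lit 1260) (nat_lit 0) (XT.nd (nat_lit 94) (nat_lit 0) (nat_lit 84) (XT.lf (nat_lit 924) (nat_lit 1030586717) (nat_lit 84) (nat_lit 1043468008) (nat_lit 0) (nat_lit 1043468008) (nat_lit 142) (nat_lit 1) (nat_lit 132) (nat_lit 1) (nat_lit 131) (nat_lit 1) (nat_lit 251) (nat_lit 238) (nat_lit 231)) (XT.nd (nat_lit 94) (nat_lit 0) (nat_lit 0) (XT.lf (nat_lit 924) (nat_lit 413726888) (nat_lit 0) (nat_lit 2219693660) (nat_lit 840) (nat_lit 413726888) (nat_lit 143) (nat_lit 1) (nat_lit 132) (nat_lit 1) (nat_lit 142) (nat_lit 1) (nat_lit 252) (nat_lit 238) (nat_lit 230)) (XT.lf (nat_lit 924) (nat_lit 598192324) (nat_lit 84) (nat_lit 1190113093) (nat_lit 0) (nat_lit 1190113093) (nat_lit 143) (nat_lit 1) (nat_lit 133) (nat_lit 1) (nat_lit 132) (nat_lit 1) (nat_lit 253) (nat_lit 238) (nat_lit 229)))) (XT.nd (nat_lit 188) (nat_lit 588) (nat_lit 0)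 (XT.nd (nat_lit 94) (nat_lit 840) (nat_lit 0) (XT.lf (nat_lit 84) (nat_lit 185020825) (nat_lit 0) (nat_lit 2542453766) (nat_lit 840) (nat_lit 185020825) (nat_lit 134) (nat_lit 1) (nat_lit 133) (nat_lit 1) (nat_lit 143) (nat_lit 1) (nat_lit 254) (nat_lit 238) (nat_lit 228)) (XT.lf (nat_lit 924) (nat_lit 111747977) (nat_lit 0) (nat_lit 1368005406) (nat_lit 840) (nat_lit 1368005406) (nat_lit 134) (nat_lit 1) (nat_lit 123) (nat_lit 1) (nat_lit 133) (nat_lit 1) (nat_lit 255) (nat_lit 238) (nat_lit 227))) (XT.nd (nat_lit 94) (nat_lit 0) (nat_lit 0) (XT.lf (nat_lit 588) (nat_lit 2651920243) (nat_lit 0) (nat_lit 66941563) (nat_lit 504) (nat_lit 66941563) (nat_lit 123) (nat_lit 1) (nat_lit 116) (nat_lit 1) (nat_lit 122) (nat_lit 1) (nat_lit 256) (nat_lit 238) (nat_lit 226)) (XT.lf (nat_lit 84) (nat_lit 1159414914) (nat_lit 0) (nat_lit 405815100) (nat_lit 588) (nat_lit 1159414914)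 (nat_lit 117) (nat_lit 1) (nat_lit 116) (nat_lit 1) (nat_lit 123) (nat_lit 1) (nat_lit 257) (nat_lit 238) (nat_lit 225)))))) (XT.nd (nat_lit 658) (nat_lit 1344) (nat_lit 0) (XT.nd (nat_lit 282) (nat_lit 756) (nat_lit 0) (XT.nd (nat_lit 94) (nat_lit 420) (nat_lit 0) (XT.lf (nat_lit 504) (nat_lit 1995055459) (nat_lit 0) (nat_lit 335515826) (nat_lit 420) (nat_lit 335515826) (nat_lit 117) (nat_lit 1) (nat_lit 111) (nat_lit 1) (nat_lit 116) (nat_lit 1) (nat_lit 258) (nat_lit 238) (nat_lit 224)) (XT.nd (nat_lit 94) (nat_lit 420) (nat_lit 0) (XT.lf (nat_lit 84) (nat_lit 826996544) (nat_lit 0) (nat_lit 954767251) (nat_lit 504) (nat_lit 826996544) (nat_lit 112) (nat_lit 1) (nat_lit 111) (nat_lit 1) (nat_lit 117) (nat_lit 1) (nat_lit 259) (nat_lit 238) (nat_lit 223)) (XT.lf (nat_lit 504) (nat_lit 1313772312) (nat_lit 0) (nat_lit 619828897) (nat_lit 420) (nat_lit 619828897) (nat_lit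 112) (nat_lit 1) (nat_lit 106) (nat_lit 1) (nat_lit 111) (nat_lit 1) (nat_lit 260) (nat_lit 238) (nat_lit 222)))) (XT.nd (nat_lit 188) (nat_lit 420) (nat_lit 0) (XT.nd (nat_lit 94) (nat_lit 336) (nat_lit 0) (XT.lf (nat_lit 84) (nat_lit 484107637) (nat_lit 0) (nat_lit 1531493789) (nat_lit 504) (nat_lit 484107637) (nat_lit 107) (nat_lit 1) (nat_lit 106) (nat_lit 1) (nat_lit 112) (nat_lit 1) (nat_lit 261) (nat_lit 238) (nat_lit 221)) (XT.lf (nat_lit 420) (nat_lit 614411820) (nat_lit 0) (nat_lit 916479041) (nat_lit 336) (nat_lit 916479041) (nat_lit 107) (nat_lit 1) (nat_lit 102) (nat_lit 1) (nat_lit 106) (nat_lit 1) (nat_lit 262) (nat_lit 238) (nat_lit 220))) (XT.nd (nat_lit 94) (nat_lit 420) (nat_lit 0) (XT.lf (nat_lit 84) (nat_lit 133691912) (nat_lit 0) (nat_lit 2129659622) (nat_lit 420) (nat_lit 133691912) (nat_lit 103) (nat_lit 1) (nat_lit 102) (nat_lit 1) (nat_lit 107)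 (nat_lit 1) (nat_lit 263) (nat_lit 238) (nat_lit 219)) (XT.lf (nat_lit 84) (nat_lit 1126526469) (nat_lit 0) (nat_lit 94348780) (nat_lit 420) (nat_lit 1126526469) (nat_lit 98) (nat_lit 1) (nat_lit 97) (nat_lit 1) (nat_lit 102) (nat_lit 1) (nat_lit 264) (nat_lit 238) (nat_lit 218))))) (XT.nd (nat_lit 282) (nat_lit 672) (nat_lit 0) (XT.nd (nat_lit 94) (nat_lit 336) (nat_lit 0) (XT.lf (nat_lit 420) (nat_lit 1863452436) (nat_lit 0) (nat_lit 218099017) (nat_lit 336) (nat_lit 218099017) (nat_lit 98) (nat_lit 1) (nat_lit 93) (nat_lit 1) (nat_lit 97) (nat_lit 1) (nat_lit 265) (nat_lit 238) (nat_lit 217)) (XT.nd (nat_lit 94) (nat_lit 336) (nat_lit 0) (XT.lf (nat_lit 84) (nat_lit 730927968) (nat_lit 0) (nat_lit 790862467) (nat_lit 420) (nat_lit 730927968) (nat_lit 94) (nat_lit 1) (nat_lit 93) (nat_lit 1) (nat_lit 98) (nat_lit 1) (nat_lit 266) (nat_lit 238) (nat_lit 216)) (XT.lf (nat_lit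 420) (nat_lit 1066627234) (nat_lit 0) (nat_lit 570393271) (nat_lit 336) (nat_lit 570393271) (nat_lit 94) (nat_lit 1) (nat_lit 89) (nat_lit 1) (nat_lit 93) (nat_lit 1) (nat_lit 267) (nat_lit 238) (nat_lit 215)))) (XT.nd (nat_lit 188) (nat_lit 420) (nat_lit 0) (XT.nd (nat_lit 94) (nat_lit 252) (nat_lit 0) (XT.lf (nat_lit 84) (nat_lit 336366626) (nat_lit 0) (nat_lit 1490700608) (nat_lit 420) (nat_lit 336366626) (nat_lit 90) (nat_lit 1) (nat_lit 89) (nat_lit 1) (nat_lit 94) (nat_lit 1) (nat_lit 268) (nat_lit 238) (nat_lit 214)) (XT.lf (nat_lit 336) (nat_lit 273552571) (nat_lit 0) (nat_lit 923425362) (nat_lit 252) (nat_lit 923425362) (nat_lit 90) (nat_lit 1) (nat_lit 86) (nat_lit 1) (nat_lit 89) (nat_lit 1) (nat_lit 269) (nat_lit 238) (nat_lit 213))) (XT.nd (nat_lit 94) (nat_lit 0) (nat_lit 0) (XT.lf (nat_lit 420) (nat_lit 1969721350) (nat_lit 0) (nat_lit 54655987) (nat_lit 336)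 (nat_lit 54655987) (nat_lit 86) (nat_lit 1) (nat_lit 81) (nat_lit 1) (nat_lit 85) (nat_lit 1) (nat_lit 270) (nat_lit 238) (nat_lit 212)) (XT.lf (nat_lit 84) (nat_lit 770766526) (nat_lit 0) (nat_lit 496359281) (nat_lit 420) (nat_lit 770766526) (nat_lit 82) (nat_lit 1) (nat_lit 81) (nat_lit 1) (nat_lit 86) (nat_lit 1) (nat_lit 271) (nat_lit 238) (nat_lit 211))))))) (XT.nd (nat_lit 1222) (nat_lit 1512) (nat_lit 0) (XT.nd (nat_lit 564) (nat_lit 924) (nat_lit 0) (XT.nd (nat_lit 282) (nat_lit 588) (nat_lit 0) (XT.nd (nat_lit 94) (nat_lit 252) (nat_lit 0) (XT.lf (nat_lit 336) (nat_lit 1125728878) (nat_lit 0) (nat_lit 436300164) (nat_lit 252) (nat_lit 436300164) (nat_lit 82) (nat_lit 1) (nat_lit 78) (nat_lit 1) (nat_lit 81) (nat_lit 1) (nat_lit 272) (nat_lit 238) (nat_lit 210)) (XT.nd (nat_lit 94) (nat_lit 252) (nat_lit 0) (XT.lf (nat_lit 84) (nat_lit 355635166) (nat_lit 0) (nat_lit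 1248500919) (nat_lit 336) (nat_lit 355635166) (nat_lit 79) (nat_lit 1) (nat_lit 78) (nat_lit 1) (nat_lit 82) (nat_lit 1) (nat_lit 273) (nat_lit 238) (nat_lit 209)) (XT.lf (nat_lit 336) (nat_lit 296410795) (nat_lit 0) (nat_lit 812839841) (nat_lit 252) (nat_lit 812839841) (nat_lit 79) (nat_lit 1) (nat_lit 75) (nat_lit 1) (nat_lit 78) (nat_lit 1) (nat_lit 274) (nat_lit 238) (nat_lit 208)))) (XT.nd (nat_lit 94) (nat_lit 252) (nat_lit 0) (XT.lf (nat_lit 336) (nat_lit 1783927078) (nat_lit 0) (nat_lit 50941257) (nat_lit 252) (nat_lit 50941257) (nat_lit 75) (nat_lit 1) (nat_lit 71) (nat_lit 1) (nat_lit 74) (nat_lit 1) (nat_lit 275) (nat_lit 238) (nat_lit 207)) (XT.nd (nat_lit 94) (nat_lit 252) (nat_lit 0) (XT.lf (nat_lit 84) (nat_lit 674808525) (nat_lit 0) (nat_lit 500026341) (nat_lit 336) (nat_lit 674808525) (nat_lit 72) (nat_lit 1) (nat_lit 71) (nat_lit 1) (nat_lit 75) (nat_lit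 1) (nat_lit 276) (nat_lit 238) (nat_lit 206)) (XT.lf (nat_lit 336) (nat_lit 927923512) (nat_lit 0) (nat_lit 443445917) (nat_lit 252) (nat_lit 443445917) (nat_lit 72) (nat_lit 1) (nat_lit 68) (nat_lit 1) (nat_lit 71) (nat_lit 1) (nat_lit 277) (nat_lit 238) (nat_lit 205))))) (XT.nd (nat_lit 282) (nat_lit 420) (nat_lit 0) (XT.nd (nat_lit 94) (nat_lit 504) (nat_lit 0) (XT.lf (nat_lit 84) (nat_lit 255549378) (nat_lit 0) (nat_lit 1269822649) (nat_lit 336) (nat_lit 255549378) (nat_lit 69) (nat_lit 1) (nat_lit 68) (nat_lit 1) (nat_lit 72) (nat_lit 1) (nat_lit 278) (nat_lit 238) (nat_lit 204)) (XT.nd (nat_lit 94) (nat_lit 336) (nat_lit 0) (XT.lf (nat_lit 252) (nat_lit 93641789) (nat_lit 0) (nat_lit 827012193) (nat_lit 168) (nat_lit 827012193) (nat_lit 69) (nat_lit 1) (nat_lit 66) (nat_lit 1) (nat_lit 68) (nat_lit 1) (nat_lit 279) (nat_lit 238) (nat_lit 203)) (XT.lf (nat_lit 336)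 (nat_lit 1414896033) (nat_lit 0) (nat_lit 150272214) (nat_lit 252) (nat_lit 150272214) (nat_lit 66) (nat_lit 1) (nat_lit 62) (nat_lit 1) (nat_lit 65) (nat_lit 1) (nat_lit 280) (nat_lit 238) (nat_lit 202)))) (XT.nd (nat_lit 188) (nat_lit 252) (nat_lit 0) (XT.nd (nat_lit 94) (nat_lit 168) (nat_lit 0) (XT.lf (nat_lit 84) (nat_lit 494189599) (nat_lit 0) (nat_lit 695195964) (nat_lit 336) (nat_lit 494189599) (nat_lit 63) (nat_lit 1) (nat_lit 62) (nat_lit 1) (nat_lit 66) (nat_lit 1) (nat_lit 281) (nat_lit 238) (nat_lit 201)) (XT.lf (nat_lit 252) (nat_lit 570959849) (nat_lit 0) (nat_lit 540866732) (nat_lit 168) (nat_lit 540866732) (nat_lit 63) (nat_lit 1) (nat_lit 60) (nat_lit 1) (nat_lit 62) (nat_lit 1) (nat_lit 282) (nat_lit 238) (nat_lit 200))) (XT.nd (nat_lit 94) (nat_lit 252) (nat_lit 0) (XT.lf (nat_lit 84) (nat_lit 82028807) (nat_lit 0) (nat_lit 1458778699) (nat_lit 252) (nat_lit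 82028807) (nat_lit 61) (nat_lit 1) (nat_lit 60) (nat_lit 1) (nat_lit 63) (nat_lit 1) (nat_lit 283) (nat_lit 238) (nat_lit 199)) (XT.lf (nat_lit 84) (nat_lit 676998142) (nat_lit 0) (nat_lit 239091563) (nat_lit 252) (nat_lit 676998142) (nat_lit 58) (nat_lit 1) (nat_lit 57) (nat_lit 1) (nat_lit 60) (nat_lit 1) (nat_lit 284) (nat_lit 238) (nat_lit 198)))))) (XT.nd (nat_lit 658) (nat_lit 756) (nat_lit 0) (XT.nd (nat_lit 282) (nat_lit 420) (nat_lit 0) (XT.nd (nat_lit 94) (nat_lit 168) (nat_lit 0) (XT.lf (nat_lit 252) (nat_lit 940130574) (nat_lit 0) (nat_lit 312097878) (nat_lit 168) (nat_lit 312097878) (nat_lit 58) (nat_lit 1) (nat_lit 55) (nat_lit 1) (nat_lit 57) (nat_lit 1) (nat_lit 285) (nat_lit 238) (nat_lit 197)) (XT.nd (nat_lit 94) (nat_lit 168) (nat_lit 0) (XT.lf (nat_lit 84) (nat_lit 265280389) (nat_lit 0) (nat_lit 1005639730) (nat_lit 252) (nat_lit 265280389) (nat_lit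 56) (nat_lit 1) (nat_lit 55) (nat_lit 1) (nat_lit 58) (nat_lit 1) (nat_lit 286) (nat_lit 238) (nat_lit 196)) (XT.lf (nat_lit 252) (nat_lit 124274311) (nat_lit 0) (nat_lit 692183659) (nat_lit 168) (nat_lit 692183659) (nat_lit 56) (nat_lit 1) (nat_lit 53) (nat_lit 1) (nat_lit 55) (nat_lit 1) (nat_lit 287) (nat_lit 238) (nat_lit 195)))) (XT.nd (nat_lit 188) (nat_lit 168) (nat_lit 0) (XT.nd (nat_lit 94) (nat_lit 0) (nat_lit 0) (XT.lf (nat_lit 252) (nat_lit 1221448220) (nat_lit 0) (nat_lit 130216535) (nat_lit 168) (nat_lit 130216535) (nat_lit 53) (nat_lit 1) (nat_lit 50) (nat_lit 1) (nat_lit 52) (nat_lit 1) (nat_lit 288) (nat_lit 238) (nat_lit 194)) (XT.lf (nat_lit 84) (nat_lit 406623105) (nat_lit 0) (nat_lit 642103136) (nat_lit 252) (nat_lit 406623105) (nat_lit 51) (nat_lit 1) (nat_lit 50) (nat_lit 1) (nat_lit 53) (nat_lit 1) (nat_lit 289) (nat_lit 238) (nat_lit 193))) (XT.nd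 (nat_lit 94) (nat_lit 0) (nat_lit 0) (XT.lf (nat_lit 252) (nat_lit 414125891) (nat_lit 0) (nat_lit 507730886) (nat_lit 168) (nat_lit 507730886) (nat_lit 51) (nat_lit 1) (nat_lit 48) (nat_lit 1) (nat_lit 50) (nat_lit 1) (nat_lit 290) (nat_lit 238) (nat_lit 192)) (XT.lf (nat_lit 84) (nat_lit 13611175) (nat_lit 0) (nat_lit 1377507092) (nat_lit 252) (nat_lit 13611175) (nat_lit 49) (nat_lit 1) (nat_lit 48) (nat_lit 1) (nat_lit 51) (nat_lit 1) (nat_lit 291) (nat_lit 238) (nat_lit 191))))) (XT.nd (nat_lit 282) (nat_lit 420) (nat_lit 0) (XT.nd (nat_lit 94) (nat_lit 168) (nat_lit 0) (XT.lf (nat_lit 84) (nat_lit 513935809) (nat_lit 0) (nat_lit 351841593) (nat_lit 168) (nat_lit 513935809) (nat_lit 47) (nat_lit 1) (nat_lit 46) (nat_lit 1) (nat_lit 48) (nat_lit 1) (nat_lit 292) (nat_lit 238) (nat_lit 190)) (XT.nd (nat_lit 94) (nat_lit 0) (nat_lit 0) (XT.lf (nat_lit 252) (nat_lit 637735831)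 (nat_lit 0) (nat_lit 358920673) (nat_lit 168) (nat_lit 358920673) (nat_lit 47) (nat_lit 1) (nat_lit 44) (nat_lit 1) (nat_lit 46) (nat_lit 1) (nat_lit 293) (nat_lit 238) (nat_lit 189)) (XT.lf (nat_lit 84) (nat_lit 127861626) (nat_lit 0) (nat_lit 1076369382) (nat_lit 252) (nat_lit 127861626) (nat_lit 45) (nat_lit 1) (nat_lit 44) (nat_lit 1) (nat_lit 47) (nat_lit 1) (nat_lit 294) (nat_lit 238) (nat_lit 188)))) (XT.nd (nat_lit 188) (nat_lit 84) (nat_lit 0) (XT.nd (nat_lit 94) (nat_lit 168) (nat_lit 0) (XT.lf (nat_lit 84) (nat_lit 593679094) (nat_lit 0) (nat_lit 121443573) (nat_lit 168) (nat_lit 593679094) (nat_lit 43) (nat_lit 1) (nat_lit 42) (nat_lit 1) (nat_lit 44) (nat_lit 1) (nat_lit 295) (nat_lit 238) (nat_lit 187)) (XT.lf (nat_lit 252) (nat_lit 807555833) (nat_lit 0) (nat_lit 239293703) (nat_lit 168) (nat_lit 239293703) (nat_lit 43) (nat_lit 1) (nat_lit 40) (nat_lit 1)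 (nat_lit 42) (nat_lit 1) (nat_lit 296) (nat_lit 238) (nat_lit 186))) (XT.nd (nat_lit 94) (nat_lit 84) (nat_lit 0) (XT.lf (nat_lit 84) (nat_lit 216300342) (nat_lit 0) (nat_lit 831332601) (nat_lit 252) (nat_lit 216300342) (nat_lit 41) (nat_lit 1) (nat_lit 40) (nat_lit 1) (nat_lit 43) (nat_lit 1) (nat_lit 297) (nat_lit 238) (nat_lit 185)) (XT.lf (nat_lit 168) (nat_lit 62091951) (nat_lit 0) (nat_lit 590025245) (nat_lit 84) (nat_lit 590025245) (nat_lit 41) (nat_lit 1) (nat_lit 39) (nat_lit 1) (nat_lit 40) (nat_lit 1) (nat_lit 298) (nat_lit 238) (nat_lit 184))))))))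
noncomputable def ec25 : XT := (XT.nd (nat_lit 2538) (nat_lit 252) (nat_lit 0) (XT.nd (nat_lit 1222) (nat_lit 1260) (nat_lit 0) (XT.nd (nat_lit 564) (nat_lit 588) (nat_lit 0) (XT.nd (nat_lit 282) (nat_lit 336) (nat_lit 0) (XT.nd (nat_lit 94) (nat_lit 84) (nat_lit 0) (XT.lf (nat_lit 252) (nat_lit 933796265) (nat_lit 0) (nat_lit 143542548) (nat_lit 168) (nat_lit 143542548) (nat_lit 39) (nat_lit 1) (nat_lit 36) (nat_lit 1) (nat_lit 38) (nat_lit 1) (nat_lit 299) (nat_lit 238) (nat_lit 183)) (XT.nd (nat_lit 94) (nat_lit 84) (nat_lit 0) (XT.lf (nat_lit 84) (nat_lit 283768222) (nat_lit 0) (nat_lit 632321146) (nat_lit 252) (nat_lit 283768222) (nat_lit 37) (nat_lit 1) (nat_lit 36) (nat_lit 1) (nat_lit 39) (nat_lit 1) (nat_lit 300) (nat_lit 238) (nat_lit 182)) (XT.lf (nat_lit 168) (nat_lit 208518839) (nat_lit 0) (nat_lit 485415229) (nat_lit 84) (nat_lit 485415229) (nat_lit 37) (nat_lit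 1) (nat_lit 35) (nat_lit 1) (nat_lit 36) (nat_lit 1) (nat_lit 301) (nat_lit 238) (nat_lit 181)))) (XT.nd (nat_lit 94) (nat_lit 84) (nat_lit 0) (XT.lf (nat_lit 252) (nat_lit 1024825148) (nat_lit 0) (nat_lit 67307120) (nat_lit 168) (nat_lit 67307120) (nat_lit 35) (nat_lit 1) (nat_lit 32) (nat_lit 1) (nat_lit 34) (nat_lit 1) (nat_lit 302) (nat_lit 238) (nat_lit 180)) (XT.nd (nat_lit 94) (nat_lit 84) (nat_lit 0) (XT.lf (nat_lit 84) (nat_lit 334235290) (nat_lit 0) (nat_lit 471051941) (nat_lit 252) (nat_lit 334235290) (nat_lit 33) (nat_lit 1) (nat_lit 32) (nat_lit 1) (nat_lit 35) (nat_lit 1) (nat_lit 303) (nat_lit 238) (nat_lit 179)) (XT.lf (nat_lit 168) (nat_lit 321487667) (nat_lit 0) (nat_lit 399352310) (nat_lit 84) (nat_lit 399352310) (nat_lit 33) (nat_lit 1) (nat_lit 31) (nat_lit 1) (nat_lit 32) (nat_lit 1) (nat_lit 304) (nat_lit 238) (nat_lit 178))))) (XT.nd (nat_lit 282)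 (nat_lit 252) (nat_lit 0) (XT.nd (nat_lit 94) (nat_lit 84) (nat_lit 0) (XT.lf (nat_lit 252) (nat_lit 1087496328) (nat_lit 0) (nat_lit 7006411) (nat_lit 168) (nat_lit 7006411) (nat_lit 31) (nat_lit 1) (nat_lit 28) (nat_lit 1) (nat_lit 30) (nat_lit 1) (nat_lit 305) (nat_lit 238) (nat_lit 177)) (XT.nd (nat_lit 94) (nat_lit 84) (nat_lit 0) (XT.lf (nat_lit 84) (nat_lit 370955697) (nat_lit 0) (nat_lit 340716331) (nat_lit 252) (nat_lit 370955697) (nat_lit 29) (nat_lit 1) (nat_lit 28) (nat_lit 1) (nat_lit 31) (nat_lit 1) (nat_lit 306) (nat_lit 238) (nat_lit 176)) (XT.lf (nat_lit 168) (nat_lit 407287463) (nat_lit 0) (nat_lit 328548134) (nat_lit 84) (nat_lit 328548134) (nat_lit 29) (nat_lit 1) (nat_lit 27) (nat_lit 1) (nat_lit 28) (nat_lit 1) (nat_lit 307) (nat_lit 238) (nat_lit 175)))) (XT.nd (nat_lit 188) (nat_lit 84) (nat_lit 0) (XT.nd (nat_lit 94) (nat_lit 168) (nat_lit 0) (XT.lf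 (nat_lit 0) (nat_lit 40960580) (nat_lit 0) (nat_lit 964769393) (nat_lit 168) (nat_lit 40960580) (nat_lit 27) (nat_lit 3) (nat_lit 27) (nat_lit 1) (nat_lit 29) (nat_lit 1) (nat_lit 308) (nat_lit 238) (nat_lit 174)) (XT.lf (nat_lit 84) (nat_lit 396595215) (nat_lit 0) (nat_lit 235718391) (nat_lit 168) (nat_lit 396595215) (nat_lit 26) (nat_lit 1) (nat_lit 25) (nat_lit 1) (nat_lit 27) (nat_lit 1) (nat_lit 309) (nat_lit 238) (nat_lit 173))) (XT.nd (nat_lit 94) (nat_lit 0) (nat_lit 0) (XT.lf (nat_lit 168) (nat_lit 471075227) (nat_lit 0) (nat_lit 270297363) (nat_lit 84) (nat_lit 270297363) (nat_lit 26) (nat_lit 1) (nat_lit 24) (nat_lit 1) (nat_lit 25) (nat_lit 1) (nat_lit 310) (nat_lit 238) (nat_lit 172)) (XT.lf (nat_lit 0) (nat_lit 78288148) (nat_lit 0) (nat_lit 838307945) (nat_lit 168) (nat_lit 78288148) (nat_lit 24) (nat_lit 3) (nat_lit 24) (nat_lit 1) (nat_lit 26) (nat_lit 1)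 (nat_lit 311) (nat_lit 238) (nat_lit 171)))))) (XT.nd (nat_lit 658) (nat_lit 588) (nat_lit 0) (XT.nd (nat_lit 282) (nat_lit 420) (nat_lit 0) (XT.nd (nat_lit 94) (nat_lit 84) (nat_lit 0) (XT.lf (nat_lit 84) (nat_lit 413336098) (nat_lit 0) (nat_lit 151459648) (nat_lit 168) (nat_lit 413336098) (nat_lit 23) (nat_lit 1) (nat_lit 22) (nat_lit 1) (nat_lit 24) (nat_lit 1) (nat_lit 312) (nat_lit 238) (nat_lit 170)) (XT.nd (nat_lit 94) (nat_lit 0) (nat_lit 0) (XT.lf (nat_lit 168) (nat_lit 517077443) (nat_lit 0) (nat_lit 222374309) (nat_lit 84) (nat_lit 222374309) (nat_lit 23) (nat_lit 1) (nat_lit 21) (nat_lit 1) (nat_lit 22) (nat_lit 1) (nat_lit 313) (nat_lit 238) (nat_lit 169)) (XT.lf (nat_lit 0) (nat_lit 106874308) (nat_lit 0) (nat_lit 732144476) (nat_lit 168) (nat_lit 106874308) (nat_lit 21) (nat_lit 3) (nat_lit 21) (nat_lit 1) (nat_lit 23) (nat_lit 1) (nat_lit 314) (nat_lit 238)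 (nat_lit 168)))) (XT.nd (nat_lit 188) (nat_lit 168) (nat_lit 0) (XT.nd (nat_lit 94) (nat_lit 84) (nat_lit 0) (XT.lf (nat_lit 84) (nat_lit 422963329) (nat_lit 0) (nat_lit 84161984) (nat_lit 168) (nat_lit 422963329) (nat_lit 20) (nat_lit 1) (nat_lit 19) (nat_lit 1) (nat_lit 21) (nat_lit 1) (nat_lit 315) (nat_lit 238) (nat_lit 167)) (XT.lf (nat_lit 168) (nat_lit 548755833) (nat_lit 0) (nat_lit 182947894) (nat_lit 84) (nat_lit 182947894) (nat_lit 20) (nat_lit 1) (nat_lit 18) (nat_lit 1) (nat_lit 19) (nat_lit 1) (nat_lit 316) (nat_lit 238) (nat_lit 166))) (XT.nd (nat_lit 94) (nat_lit 168) (nat_lit 0) (XT.lf (nat_lit 0) (nat_lit 128370001) (nat_lit 0) (nat_lit 642781316) (nat_lit 168) (nat_lit 128370001) (nat_lit 18) (nat_lit 3) (nat_lit 18) (nat_lit 1) (nat_lit 20) (nat_lit 1) (nat_lit 317) (nat_lit 238) (nat_lit 165)) (XT.lf (nat_lit 84) (nat_lit 426935547) (nat_lit 0) (nat_lit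 30721946) (nat_lit 168) (nat_lit 426935547) (nat_lit 17) (nat_lit 1) (nat_lit 16) (nat_lit 1) (nat_lit 18) (nat_lit 1) (nat_lit 318) (nat_lit 238) (nat_lit 164))))) (XT.nd (nat_lit 282) (nat_lit 420) (nat_lit 0) (XT.nd (nat_lit 94) (nat_lit 84) (nat_lit 0) (XT.lf (nat_lit 168) (nat_lit 568943679) (nat_lit 0) (nat_lit 150511685) (nat_lit 84) (nat_lit 150511685) (nat_lit 17) (nat_lit 1) (nat_lit 15) (nat_lit 1) (nat_lit 16) (nat_lit 1) (nat_lit 319) (nat_lit 238) (nat_lit 163)) (XT.nd (nat_lit 94) (nat_lit 84) (nat_lit 0) (XT.lf (nat_lit 0) (nat_lit 144128644) (nat_lit 0) (nat_lit 567336106) (nat_lit 168) (nat_lit 144128644) (nat_lit 15) (nat_lit 3) (nat_lit 15) (nat_lit 1) (nat_lit 17) (nat_lit 1) (nat_lit 320) (nat_lit 238) (nat_lit 162)) (XT.lf (nat_lit 84) (nat_lit 11786335) (nat_lit 0) (nat_lit 414841061) (nat_lit 84) (nat_lit 414841061) (nat_lit 15) (nat_lit 3) (nat_lit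 14) (nat_lit 1) (nat_lit 15) (nat_lit 1) (nat_lit 321) (nat_lit 238) (nat_lit 161)))) (XT.nd (nat_lit 188) (nat_lit 252) (nat_lit 0) (XT.nd (nat_lit 94) (nat_lit 0) (nat_lit 0) (XT.lf (nat_lit 168) (nat_lit 579957940) (nat_lit 0) (nat_lit 123826336) (nat_lit 84) (nat_lit 123826336) (nat_lit 14) (nat_lit 1) (nat_lit 12) (nat_lit 1) (nat_lit 13) (nat_lit 1) (nat_lit 322) (nat_lit 238) (nat_lit 160)) (XT.lf (nat_lit 0) (nat_lit 155259113) (nat_lit 0) (nat_lit 503432939) (nat_lit 168) (nat_lit 155259113) (nat_lit 12) (nat_lit 3) (nat_lit 12) (nat_lit 1) (nat_lit 14) (nat_lit 1) (nat_lit 323) (nat_lit 238) (nat_lit 159))) (XT.nd (nat_lit 94) (nat_lit 168) (nat_lit 0) (XT.lf (nat_lit 84) (nat_lit 45789088) (nat_lit 0) (nat_lit 377383208) (nat_lit 84) (nat_lit 377383208) (nat_lit 12) (nat_lit 3) (nat_lit 11) (nat_lit 1) (nat_lit 12) (nat_lit 1) (nat_lit 324) (nat_lit 238) (nat_lit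 158)) (XT.lf (nat_lit 168) (nat_lit 583691469) (nat_lit 0) (nat_lit 101872233) (nat_lit 84) (nat_lit 101872233) (nat_lit 11) (nat_lit 1) (nat_lit 9) (nat_lit 1) (nat_lit 10) (nat_lit 1) (nat_lit 325) (nat_lit 238) (nat_lit 157))))))) (XT.nd (nat_lit 38164) (nat_lit 0) (nat_lit 7308) (XT.nd (nat_lit 37506) (nat_lit 0) (nat_lit 10332) (XT.nd (nat_lit 282) (nat_lit 0) (nat_lit 0) (XT.nd (nat_lit 94) (nat_lit 252) (nat_lit 0) (XT.lf (nat_lit 0) (nat_lit 162669314) (nat_lit 0) (nat_lit 449112782) (nat_lit 168) (nat_lit 162669314) (nat_lit 9) (nat_lit 3) (nat_lit 9) (nat_lit 1) (nat_lit 11) (nat_lit 1) (nat_lit 326) (nat_lit 238) (nat_lit 156)) (XT.nd (nat_lit 94) (nat_lit 168) (nat_lit 0) (XT.lf (nat_lit 84) (nat_lit 72044550) (nat_lit 0) (nat_lit 344847853) (nat_lit 84) (nat_lit 344847853) (nat_lit 9) (nat_lit 3) (nat_lit 8) (nat_lit 1) (nat_lit 9) (nat_lit 1) (nat_lit 327)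 (nat_lit 238) (nat_lit 155)) (XT.lf (nat_lit 168) (nat_lit 581688832) (nat_lit 0) (nat_lit 83810538) (nat_lit 84) (nat_lit 83810538) (nat_lit 8) (nat_lit 1) (nat_lit 6) (nat_lit 1) (nat_lit 7) (nat_lit 1) (nat_lit 328) (nat_lit 238) (nat_lit 154)))) (XT.nd (nat_lit 37036) (nat_lit 0) (nat_lit 10248) (XT.lf (nat_lit 0) (nat_lit 167102026) (nat_lit 0) (nat_lit 402759776) (nat_lit 168) (nat_lit 167102026) (nat_lit 6) (nat_lit 3) (nat_lit 6) (nat_lit 1) (nat_lit 8) (nat_lit 1) (nat_lit 329) (nat_lit 238) (nat_lit 153)) (XT.nd (nat_lit 94) (nat_lit 0) (nat_lit 0) (XT.lf (nat_lit 924) (nat_lit 511752979) (nat_lit 0) (nat_lit 908616238) (nat_lit 924) (nat_lit 511752979) (nat_lit 139) (nat_lit 1) (nat_lit 128) (nat_lit 0) (nat_lit 139) (nat_lit 0) (nat_lit 242) (nat_lit 239) (nat_lit 239)) (XT.lf (nat_lit 924) (nat_lit 1983618438) (nat_lit 84) (nat_lit 893961138) (nat_lit 0) (nat_lit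 893961138) (nat_lit 139) (nat_lit 1) (nat_lit 129) (nat_lit 1) (nat_lit 128) (nat_lit 0) (nat_lit 243) (nat_lit 239) (nat_lit 238))))) (XT.nd (nat_lit 282) (nat_lit 0) (nat_lit 84) (XT.nd (nat_lit 94) (nat_lit 0) (nat_lit 0) (XT.lf (nat_lit 924) (nat_lit 945362680) (nat_lit 0) (nat_lit 1790977641) (nat_lit 840) (nat_lit 945362680) (nat_lit 140) (nat_lit 1) (nat_lit 129) (nat_lit 1) (nat_lit 139) (nat_lit 1) (nat_lit 244) (nat_lit 239) (nat_lit 237)) (XT.nd (nat_lit 94) (nat_lit 0) (nat_lit 84) (XT.lf (nat_lit 924) (nat_lit 1773369027) (nat_lit 84) (nat_lit 910699345) (nat_lit 0) (nat_lit 910699345) (nat_lit 140) (nat_lit 1) (nat_lit 130) (nat_lit 1) (nat_lit 129) (nat_lit 1) (nat_lit 245) (nat_lit 239) (nat_lit 236)) (XT.lf (nat_lit 924) (nat_lit 816264733) (nat_lit 0) (nat_lit 1878058379) (nat_lit 840) (nat_lit 816264733) (nat_lit 141) (nat_lit 1) (nat_lit 130) (nat_lit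 1) (nat_lit 140) (nat_lit 1) (nat_lit 246) (nat_lit 239) (nat_lit 235)))) (XT.nd (nat_lit 188) (nat_lit 0) (nat_lit 84) (XT.nd (nat_lit 94) (nat_lit 0) (nat_lit 84) (XT.lf (nat_lit 924) (nat_lit 1468105287) (nat_lit 84) (nat_lit 980434405) (nat_lit 0) (nat_lit 980434405) (nat_lit 141) (nat_lit 1) (nat_lit 131) (nat_lit 1) (nat_lit 130) (nat_lit 1) (nat_lit 247) (nat_lit 239) (nat_lit 234)) (XT.lf (nat_lit 924) (nat_lit 643721766) (nat_lit 0) (nat_lit 2062657125) (nat_lit 840) (nat_lit 643721766) (nat_lit 142) (nat_lit 1) (nat_lit 131) (nat_lit 1) (nat_lit 141) (nat_lit 1) (nat_lit 248) (nat_lit 239) (nat_lit 233))) (XT.nd (nat_lit 94) (nat_lit 0) (nat_lit 84) (XT.lf (nat_lit 924) (nat_lit 1082116053) (nat_lit 84) (nat_lit 1095641409) (nat_lit 0) (nat_lit 1095641409) (nat_lit 142) (nat_lit 1) (nat_lit 132) (nat_lit 1) (nat_lit 131) (nat_lit 1) (nat_lit 249) (nat_lit 239)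 (nat_lit 232)) (XT.lf (nat_lit 924) (nat_lit 434413233) (nat_lit 0) (nat_lit 2330678343) (nat_lit 840) (nat_lit 434413233) (nat_lit 143) (nat_lit 1) (nat_lit 132) (nat_lit 1) (nat_lit 142) (nat_lit 1) (nat_lit 250) (nat_lit 239) (nat_lit 231)))))) (XT.nd (nat_lit 658) (nat_lit 1512) (nat_lit 0) (XT.nd (nat_lit 282) (nat_lit 1008) (nat_lit 0) (XT.nd (nat_lit 94) (nat_lit 756) (nat_lit 0) (XT.lf (nat_lit 924) (nat_lit 628101940) (nat_lit 84) (nat_lit 1249618748) (nat_lit 0) (nat_lit 1249618748) (nat_lit 143) (nat_lit 1) (nat_lit 133) (nat_lit 1) (nat_lit 132) (nat_lit 1) (nat_lit 251) (nat_lit 239) (nat_lit 230)) (XT.nd (nat_lit 94) (nat_lit 840) (nat_lit 0) (XT.lf (nat_lit 84) (nat_lit 194271867) (nat_lit 0) (nat_lit 2669576455) (nat_lit 840) (nat_lit 194271867) (nat_lit 134) (nat_lit 1) (nat_lit 133) (nat_lit 1) (nat_lit 143) (nat_lit 1) (nat_lit 252) (nat_lit 239) (nat_lit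 229)) (XT.lf (nat_lit 924) (nat_lit 117335376) (nat_lit 0) (nat_lit 1436405676) (nat_lit 840) (nat_lit 1436405676) (nat_lit 134) (nat_lit 1) (nat_lit 123) (nat_lit 1) (nat_lit 133) (nat_lit 1) (nat_lit 253) (nat_lit 239) (nat_lit 228)))) (XT.nd (nat_lit 188) (nat_lit 420) (nat_lit 0) (XT.nd (nat_lit 94) (nat_lit 0) (nat_lit 0) (XT.lf (nat_lit 588) (nat_lit 2784516255) (nat_lit 0) (nat_lit 70288641) (nat_lit 504) (nat_lit 70288641) (nat_lit 123) (nat_lit 1) (nat_lit 116) (nat_lit 1) (nat_lit 122) (nat_lit 1) (nat_lit 254) (nat_lit 239) (nat_lit 227)) (XT.lf (nat_lit 84) (nat_lit 1217385660) (nat_lit 0) (nat_lit 426105855) (nat_lit 588) (nat_lit 1217385660) (nat_lit 117) (nat_lit 1) (nat_lit 116) (nat_lit 1) (nat_lit 123) (nat_lit 1) (nat_lit 255) (nat_lit 239) (nat_lit 226))) (XT.nd (nat_lit 94) (nat_lit 0) (nat_lit 0) (XT.lf (nat_lit 504) (nat_lit 2094808232) (nat_lit 0)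 (nat_lit 352291617) (nat_lit 420) (nat_lit 352291617) (nat_lit 117) (nat_lit 1) (nat_lit 111) (nat_lit 1) (nat_lit 116) (nat_lit 1) (nat_lit 256) (nat_lit 239) (nat_lit 225)) (XT.lf (nat_lit 84) (nat_lit 868346371) (nat_lit 0) (nat_lit 1002505613) (nat_lit 504) (nat_lit 868346371) (nat_lit 112) (nat_lit 1) (nat_lit 111) (nat_lit 1) (nat_lit 117) (nat_lit 1) (nat_lit 257) (nat_lit 239) (nat_lit 224))))) (XT.nd (nat_lit 282) (nat_lit 756) (nat_lit 0) (XT.nd (nat_lit 94) (nat_lit 336) (nat_lit 0) (XT.lf (nat_lit 504) (nat_lit 1379460928) (nat_lit 0) (nat_lit 650820342) (nat_lit 420) (nat_lit 650820342) (nat_lit 112) (nat_lit 1) (nat_lit 106) (nat_lit 1) (nat_lit 111) (nat_lit 1) (nat_lit 258) (nat_lit 239) (nat_lit 223)) (XT.nd (nat_lit 94) (nat_lit 336) (nat_lit 0) (XT.lf (nat_lit 84) (nat_lit 508313018) (nat_lit 0) (nat_lit 1608068478) (nat_lit 504) (nat_lit 508313018) (nat_lit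 107) (nat_lit 1) (nat_lit 106) (nat_lit 1) (nat_lit 112) (nat_lit 1) (nat_lit 259) (nat_lit 239) (nat_lit 222)) (XT.lf (nat_lit 420) (nat_lit 645132411) (nat_lit 0) (nat_lit 962302993) (nat_lit 336) (nat_lit 962302993) (nat_lit 107) (nat_lit 1) (nat_lit 102) (nat_lit 1) (nat_lit 106) (nat_lit 1) (nat_lit 260) (nat_lit 239) (nat_lit 221)))) (XT.nd (nat_lit 188) (nat_lit 336) (nat_lit 0) (XT.nd (nat_lit 94) (nat_lit 420) (nat_lit 0) (XT.lf (nat_lit 84) (nat_lit 140376507) (nat_lit 0) (nat_lit 2236142604) (nat_lit 420) (nat_lit 140376507) (nat_lit 103) (nat_lit 1) (nat_lit 102) (nat_lit 1) (nat_lit 107) (nat_lit 1) (nat_lit 261) (nat_lit 239) (nat_lit 220)) (XT.lf (nat_lit 84) (nat_lit 1182852793) (nat_lit 0) (nat_lit 99066219) (nat_lit 420) (nat_lit 1182852793) (nat_lit 98) (nat_lit 1) (nat_lit 97) (nat_lit 1) (nat_lit 102) (nat_lit 1) (nat_lit 262) (nat_lit 239) (nat_lit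 219))) (XT.nd (nat_lit 94) (nat_lit 0) (nat_lit 0) (XT.lf (nat_lit 420) (nat_lit 1956625057) (nat_lit 0) (nat_lit 229003968) (nat_lit 336) (nat_lit 229003968) (nat_lit 98) (nat_lit 1) (nat_lit 93) (nat_lit 1) (nat_lit 97) (nat_lit 1) (nat_lit 263) (nat_lit 239) (nat_lit 218)) (XT.lf (nat_lit 84) (nat_lit 767474366) (nat_lit 0) (nat_lit 830405591) (nat_lit 420) (nat_lit 767474366) (nat_lit 94) (nat_lit 1) (nat_lit 93) (nat_lit 1) (nat_lit 98) (nat_lit 1) (nat_lit 264) (nat_lit 239) (nat_lit 217))))))))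
noncomputable def ec26 : XT := (XT.nd (nat_lit 2538) (nat_lit 2436) (nat_lit 0) (XT.nd (nat_lit 1222) (nat_lit 1848) (nat_lit 0) (XT.nd (nat_lit 564) (nat_lit 1008) (nat_lit 0) (XT.nd (nat_lit 282) (nat_lit 672) (nat_lit 0) (XT.nd (nat_lit 94) (nat_lit 252) (nat_lit 0) (XT.lf (nat_lit 420) (nat_lit 1119958596) (nat_lit 0) (nat_lit 598912935) (nat_lit 336) (nat_lit 598912935) (nat_lit 94) (nat_lit 1) (nat_lit 89) (nat_lit 1) (nat_lit 93) (nat_lit 1) (nat_lit 265) (nat_lit 239) (nat_lit 216)) (XT.nd (nat_lit 94) (nat_lit 252) (nat_lit 0) (XT.lf (nat_lit 84) (nat_lit 353184958) (nat_lit 0) (nat_lit 1565235638) (nat_lit 420) (nat_lit 353184958) (nat_lit 90) (nat_lit 1) (nat_lit 89) (nat_lit 1) (nat_lit 94) (nat_lit 1) (nat_lit 266) (nat_lit 239) (nat_lit 215)) (XT.lf (nat_lit 336) (nat_lit 287230199) (nat_lit 0) (nat_lit 969596630) (nat_lit 252) (nat_lit 969596630) (nat_lit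 90) (nat_lit 1) (nat_lit 86) (nat_lit 1) (nat_lit 89) (nat_lit 1) (nat_lit 267) (nat_lit 239) (nat_lit 214)))) (XT.nd (nat_lit 94) (nat_lit 252) (nat_lit 0) (XT.lf (nat_lit 420) (nat_lit 2068207418) (nat_lit 0) (nat_lit 57388787) (nat_lit 336) (nat_lit 57388787) (nat_lit 86) (nat_lit 1) (nat_lit 81) (nat_lit 1) (nat_lit 85) (nat_lit 1) (nat_lit 268) (nat_lit 239) (nat_lit 213)) (XT.nd (nat_lit 94) (nat_lit 252) (nat_lit 0) (XT.lf (nat_lit 84) (nat_lit 809304852) (nat_lit 0) (nat_lit 521177245) (nat_lit 420) (nat_lit 809304852) (nat_lit 82) (nat_lit 1) (nat_lit 81) (nat_lit 1) (nat_lit 86) (nat_lit 1) (nat_lit 269) (nat_lit 239) (nat_lit 212)) (XT.lf (nat_lit 336) (nat_lit 1182015322) (nat_lit 0) (nat_lit 458115172) (nat_lit 252) (nat_lit 458115172) (nat_lit 82) (nat_lit 1) (nat_lit 78) (nat_lit 1) (nat_lit 81) (nat_lit 1) (nat_lit 270) (nat_lit 239) (nat_lit 211))))) (XT.nd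 (nat_lit 282) (nat_lit 420) (nat_lit 0) (XT.nd (nat_lit 94) (nat_lit 588) (nat_lit 0) (XT.lf (nat_lit 84) (nat_lit 373416924) (nat_lit 0) (nat_lit 1310925965) (nat_lit 336) (nat_lit 373416924) (nat_lit 79) (nat_lit 1) (nat_lit 78) (nat_lit 1) (nat_lit 82) (nat_lit 1) (nat_lit 271) (nat_lit 239) (nat_lit 210)) (XT.nd (nat_lit 94) (nat_lit 336) (nat_lit 0) (XT.lf (nat_lit 336) (nat_lit 311231334) (nat_lit 0) (nat_lit 853481833) (nat_lit 252) (nat_lit 853481833) (nat_lit 79) (nat_lit 1) (nat_lit 75) (nat_lit 1) (nat_lit 78) (nat_lit 1) (nat_lit 272) (nat_lit 239) (nat_lit 209)) (XT.lf (nat_lit 336) (nat_lit 1873123432) (nat_lit 0) (nat_lit 53488319) (nat_lit 252) (nat_lit 53488319) (nat_lit 75) (nat_lit 1) (nat_lit 71) (nat_lit 1) (nat_lit 74) (nat_lit 1) (nat_lit 273) (nat_lit 239) (nat_lit 208)))) (XT.nd (nat_lit 188) (nat_lit 168) (nat_lit 0) (XT.nd (nat_lit 94) (nat_lit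 252) (nat_lit 0) (XT.lf (nat_lit 84) (nat_lit 708548951) (nat_lit 0) (nat_lit 525027658) (nat_lit 336) (nat_lit 708548951) (nat_lit 72) (nat_lit 1) (nat_lit 71) (nat_lit 1) (nat_lit 75) (nat_lit 1) (nat_lit 274) (nat_lit 239) (nat_lit 207)) (XT.lf (nat_lit 336) (nat_lit 974319687) (nat_lit 0) (nat_lit 465618213) (nat_lit 252) (nat_lit 465618213) (nat_lit 72) (nat_lit 1) (nat_lit 68) (nat_lit 1) (nat_lit 71) (nat_lit 1) (nat_lit 275) (nat_lit 239) (nat_lit 206))) (XT.nd (nat_lit 94) (nat_lit 168) (nat_lit 0) (XT.lf (nat_lit 84) (nat_lit 268326847) (nat_lit 0) (nat_lit 1333313781) (nat_lit 336) (nat_lit 268326847) (nat_lit 69) (nat_lit 1) (nat_lit 68) (nat_lit 1) (nat_lit 72) (nat_lit 1) (nat_lit 276) (nat_lit 239) (nat_lit 205)) (XT.lf (nat_lit 252) (nat_lit 98323878) (nat_lit 0) (nat_lit 868362803) (nat_lit 168) (nat_lit 868362803) (nat_lit 69) (nat_lit 1) (nat_lit 66) (nat_lit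 1) (nat_lit 68) (nat_lit 1) (nat_lit 277) (nat_lit 239) (nat_lit 204)))))) (XT.nd (nat_lit 658) (nat_lit 924) (nat_lit 0) (XT.nd (nat_lit 282) (nat_lit 420) (nat_lit 0) (XT.nd (nat_lit 94) (nat_lit 168) (nat_lit 0) (XT.lf (nat_lit 336) (nat_lit 1485640835) (nat_lit 0) (nat_lit 157785825) (nat_lit 252) (nat_lit 157785825) (nat_lit 66) (nat_lit 1) (nat_lit 62) (nat_lit 1) (nat_lit 65) (nat_lit 1) (nat_lit 278) (nat_lit 239) (nat_lit 203)) (XT.nd (nat_lit 94) (nat_lit 168) (nat_lit 0) (XT.lf (nat_lit 84) (nat_lit 518899079) (nat_lit 0) (nat_lit 729955763) (nat_lit 336) (nat_lit 518899079) (nat_lit 63) (nat_lit 1) (nat_lit 62) (nat_lit 1) (nat_lit 66) (nat_lit 1) (nat_lit 279) (nat_lit 239) (nat_lit 202)) (XT.lf (nat_lit 252) (nat_lit 599507842) (nat_lit 0) (nat_lit 567910068) (nat_lit 168) (nat_lit 567910068) (nat_lit 63) (nat_lit 1) (nat_lit 60) (nat_lit 1) (nat_lit 62) (nat_lit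 1) (nat_lit 280) (nat_lit 239) (nat_lit 201)))) (XT.nd (nat_lit 188) (nat_lit 168) (nat_lit 0) (XT.nd (nat_lit 94) (nat_lit 252) (nat_lit 0) (XT.lf (nat_lit 84) (nat_lit 86130248) (nat_lit 0) (nat_lit 1531717634) (nat_lit 252) (nat_lit 86130248) (nat_lit 61) (nat_lit 1) (nat_lit 60) (nat_lit 1) (nat_lit 63) (nat_lit 1) (nat_lit 281) (nat_lit 239) (nat_lit 200)) (XT.lf (nat_lit 84) (nat_lit 710848049) (nat_lit 0) (nat_lit 251046141) (nat_lit 252) (nat_lit 710848049) (nat_lit 58) (nat_lit 1) (nat_lit 57) (nat_lit 1) (nat_lit 60) (nat_lit 1) (nat_lit 282) (nat_lit 239) (nat_lit 199))) (XT.nd (nat_lit 94) (nat_lit 0) (nat_lit 0) (XT.lf (nat_lit 252) (nat_lit 987137103) (nat_lit 0) (nat_lit 327702772) (nat_lit 168) (nat_lit 327702772) (nat_lit 58) (nat_lit 1) (nat_lit 55) (nat_lit 1) (nat_lit 57) (nat_lit 1) (nat_lit 283) (nat_lit 239) (nat_lit 198)) (XT.lf (nat_lit 84) (nat_lit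 278544409) (nat_lit 0) (nat_lit 1055921716) (nat_lit 252) (nat_lit 278544409) (nat_lit 56) (nat_lit 1) (nat_lit 55) (nat_lit 1) (nat_lit 58) (nat_lit 1) (nat_lit 284) (nat_lit 239) (nat_lit 197))))) (XT.nd (nat_lit 282) (nat_lit 504) (nat_lit 0) (XT.nd (nat_lit 94) (nat_lit 252) (nat_lit 0) (XT.lf (nat_lit 252) (nat_lit 130488027) (nat_lit 0) (nat_lit 726792842) (nat_lit 168) (nat_lit 726792842) (nat_lit 56) (nat_lit 1) (nat_lit 53) (nat_lit 1) (nat_lit 55) (nat_lit 1) (nat_lit 285) (nat_lit 239) (nat_lit 196)) (XT.nd (nat_lit 94) (nat_lit 0) (nat_lit 0) (XT.lf (nat_lit 252) (nat_lit 1282520631) (nat_lit 0) (nat_lit 136727362) (nat_lit 168) (nat_lit 136727362) (nat_lit 53) (nat_lit 1) (nat_lit 50) (nat_lit 1) (nat_lit 52) (nat_lit 1) (nat_lit 286) (nat_lit 239) (nat_lit 195)) (XT.lf (nat_lit 84) (nat_lit 426954261) (nat_lit 0) (nat_lit 674208293) (nat_lit 252) (nat_lit 426954261)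 (nat_lit 51) (nat_lit 1) (nat_lit 50) (nat_lit 1) (nat_lit 53) (nat_lit 1) (nat_lit 287) (nat_lit 239) (nat_lit 194)))) (XT.nd (nat_lit 188) (nat_lit 336) (nat_lit 0) (XT.nd (nat_lit 94) (nat_lit 0) (nat_lit 0) (XT.lf (nat_lit 252) (nat_lit 434832186) (nat_lit 0) (nat_lit 533117430) (nat_lit 168) (nat_lit 533117430) (nat_lit 51) (nat_lit 1) (nat_lit 48) (nat_lit 1) (nat_lit 50) (nat_lit 1) (nat_lit 288) (nat_lit 239) (nat_lit 193)) (XT.lf (nat_lit 84) (nat_lit 14291734) (nat_lit 0) (nat_lit 1446382447) (nat_lit 252) (nat_lit 14291734) (nat_lit 49) (nat_lit 1) (nat_lit 48) (nat_lit 1) (nat_lit 51) (nat_lit 1) (nat_lit 289) (nat_lit 239) (nat_lit 192))) (XT.nd (nat_lit 94) (nat_lit 168) (nat_lit 0) (XT.lf (nat_lit 84) (nat_lit 539632599) (nat_lit 0) (nat_lit 369433673) (nat_lit 168) (nat_lit 539632599) (nat_lit 47) (nat_lit 1) (nat_lit 46) (nat_lit 1) (nat_lit 48) (nat_lit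 1) (nat_lit 290) (nat_lit 239) (nat_lit 191)) (XT.lf (nat_lit 252) (nat_lit 669622623) (nat_lit 0) (nat_lit 376866706) (nat_lit 168) (nat_lit 376866706) (nat_lit 47) (nat_lit 1) (nat_lit 44) (nat_lit 1) (nat_lit 46) (nat_lit 1) (nat_lit 291) (nat_lit 239) (nat_lit 190))))))) (XT.nd (nat_lit 1222) (nat_lit 1092) (nat_lit 0) (XT.nd (nat_lit 564) (nat_lit 672) (nat_lit 0) (XT.nd (nat_lit 282) (nat_lit 336) (nat_lit 0) (XT.nd (nat_lit 94) (nat_lit 336) (nat_lit 0) (XT.lf (nat_lit 84) (nat_lit 134254708) (nat_lit 0) (nat_lit 1130187851) (nat_lit 252) (nat_lit 134254708) (nat_lit 45) (nat_lit 1) (nat_lit 44) (nat_lit 1) (nat_lit 47) (nat_lit 1) (nat_lit 292) (nat_lit 239) (nat_lit 189)) (XT.nd (nat_lit 94) (nat_lit 168) (nat_lit 0) (XT.lf (nat_lit 84) (nat_lit 623363049) (nat_lit 0) (nat_lit 127515751) (nat_lit 168) (nat_lit 623363049) (nat_lit 43) (nat_lit 1) (nat_lit 42) (nat_lit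 1) (nat_lit 44) (nat_lit 1) (nat_lit 293) (nat_lit 239) (nat_lit 188)) (XT.lf (nat_lit 252) (nat_lit 847933625) (nat_lit 0) (nat_lit 251258388) (nat_lit 168) (nat_lit 251258388) (nat_lit 43) (nat_lit 1) (nat_lit 40) (nat_lit 1) (nat_lit 42) (nat_lit 1) (nat_lit 294) (nat_lit 239) (nat_lit 187)))) (XT.nd (nat_lit 94) (nat_lit 336) (nat_lit 0) (XT.lf (nat_lit 84) (nat_lit 227115359) (nat_lit 0) (nat_lit 872899231) (nat_lit 252) (nat_lit 227115359) (nat_lit 41) (nat_lit 1) (nat_lit 40) (nat_lit 1) (nat_lit 43) (nat_lit 1) (nat_lit 295) (nat_lit 239) (nat_lit 186)) (XT.nd (nat_lit 94) (nat_lit 252) (nat_lit 0) (XT.lf (nat_lit 168) (nat_lit 65196548) (nat_lit 0) (nat_lit 619526507) (nat_lit 84) (nat_lit 619526507) (nat_lit 41) (nat_lit 1) (nat_lit 39) (nat_lit 1) (nat_lit 40) (nat_lit 1) (nat_lit 296) (nat_lit 239) (nat_lit 185)) (XT.lf (nat_lit 252) (nat_lit 980486078) (nat_lit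 0) (nat_lit 150719675) (nat_lit 168) (nat_lit 150719675) (nat_lit 39) (nat_lit 1) (nat_lit 36) (nat_lit 1) (nat_lit 38) (nat_lit 1) (nat_lit 297) (nat_lit 239) (nat_lit 184))))) (XT.nd (nat_lit 282) (nat_lit 336) (nat_lit 0) (XT.nd (nat_lit 94) (nat_lit 336) (nat_lit 0) (XT.lf (nat_lit 84) (nat_lit 297956633) (nat_lit 0) (nat_lit 663937203) (nat_lit 252) (nat_lit 297956633) (nat_lit 37) (nat_lit 1) (nat_lit 36) (nat_lit 1) (nat_lit 39) (nat_lit 1) (nat_lit 298) (nat_lit 239) (nat_lit 183)) (XT.nd (nat_lit 94) (nat_lit 252) (nat_lit 0) (XT.lf (nat_lit 168) (nat_lit 218944781) (nat_lit 0) (nat_lit 509685991) (nat_lit 84) (nat_lit 509685991) (nat_lit 37) (nat_lit 1) (nat_lit 35) (nat_lit 1) (nat_lit 36) (nat_lit 1) (nat_lit 299) (nat_lit 239) (nat_lit 182)) (XT.lf (nat_lit 252) (nat_lit 1076066406) (nat_lit 0) (nat_lit 70672476) (nat_lit 168) (nat_lit 70672476) (nat_lit 35)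 (nat_lit 1) (nat_lit 32) (nat_lit 1) (nat_lit 34) (nat_lit 1) (nat_lit 300) (nat_lit 239) (nat_lit 181)))) (XT.nd (nat_lit 188) (nat_lit 252) (nat_lit 0) (XT.nd (nat_lit 94) (nat_lit 84) (nat_lit 0) (XT.lf (nat_lit 84) (nat_lit 350947055) (nat_lit 0) (nat_lit 494604539) (nat_lit 252) (nat_lit 350947055) (nat_lit 33) (nat_lit 1) (nat_lit 32) (nat_lit 1) (nat_lit 35) (nat_lit 1) (nat_lit 301) (nat_lit 239) (nat_lit 180)) (XT.lf (nat_lit 168) (nat_lit 337562050) (nat_lit 0) (nat_lit 419319926) (nat_lit 84) (nat_lit 419319926) (nat_lit 33) (nat_lit 1) (nat_lit 31) (nat_lit 1) (nat_lit 32) (nat_lit 1) (nat_lit 302) (nat_lit 239) (nat_lit 179))) (XT.nd (nat_lit 94) (nat_lit 0) (nat_lit 0) (XT.lf (nat_lit 252) (nat_lit 1141871145) (nat_lit 0) (nat_lit 7356731) (nat_lit 168) (nat_lit 7356731) (nat_lit 31) (nat_lit 1) (nat_lit 28) (nat_lit 1) (nat_lit 30) (nat_lit 1) (nat_lit 303)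 (nat_lit 239) (nat_lit 178)) (XT.lf (nat_lit 84) (nat_lit 389503482) (nat_lit 0) (nat_lit 357752148) (nat_lit 252) (nat_lit 389503482) (nat_lit 29) (nat_lit 1) (nat_lit 28) (nat_lit 1) (nat_lit 31) (nat_lit 1) (nat_lit 304) (nat_lit 239) (nat_lit 177)))))) (XT.nd (nat_lit 658) (nat_lit 504) (nat_lit 0) (XT.nd (nat_lit 282) (nat_lit 336) (nat_lit 0) (XT.nd (nat_lit 94) (nat_lit 168) (nat_lit 0) (XT.lf (nat_lit 168) (nat_lit 427651836) (nat_lit 0) (nat_lit 344975541) (nat_lit 84) (nat_lit 344975541) (nat_lit 29) (nat_lit 1) (nat_lit 27) (nat_lit 1) (nat_lit 28) (nat_lit 1) (nat_lit 305) (nat_lit 239) (nat_lit 176)) (XT.nd (nat_lit 94) (nat_lit 168) (nat_lit 0) (XT.lf (nat_lit 0) (nat_lit 43008609) (nat_lit 0) (nat_lit 1013007863) (nat_lit 168) (nat_lit 43008609) (nat_lit 27) (nat_lit 3) (nat_lit 27) (nat_lit 1) (nat_lit 29) (nat_lit 1) (nat_lit 306) (nat_lit 239) (nat_lit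 175)) (XT.lf (nat_lit 84) (nat_lit 416424976) (nat_lit 0) (nat_lit 247504310) (nat_lit 168) (nat_lit 416424976) (nat_lit 26) (nat_lit 1) (nat_lit 25) (nat_lit 1) (nat_lit 27) (nat_lit 1) (nat_lit 307) (nat_lit 239) (nat_lit 174)))) (XT.nd (nat_lit 188) (nat_lit 252) (nat_lit 0) (XT.nd (nat_lit 94) (nat_lit 0) (nat_lit 0) (XT.lf (nat_lit 168) (nat_lit 494628988) (nat_lit 0) (nat_lit 283812231) (nat_lit 84) (nat_lit 283812231) (nat_lit 26) (nat_lit 1) (nat_lit 24) (nat_lit 1) (nat_lit 25) (nat_lit 1) (nat_lit 308) (nat_lit 239) (nat_lit 173)) (XT.lf (nat_lit 0) (nat_lit 82202556) (nat_lit 0) (nat_lit 880223343) (nat_lit 168) (nat_lit 82202556) (nat_lit 24) (nat_lit 3) (nat_lit 24) (nat_lit 1) (nat_lit 26) (nat_lit 1) (nat_lit 309) (nat_lit 239) (nat_lit 172))) (XT.nd (nat_lit 94) (nat_lit 84) (nat_lit 0) (XT.lf (nat_lit 84) (nat_lit 434002903) (nat_lit 0) (nat_lit 159032630)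 (nat_lit 168) (nat_lit 434002903) (nat_lit 23) (nat_lit 1) (nat_lit 22) (nat_lit 1) (nat_lit 24) (nat_lit 1) (nat_lit 310) (nat_lit 239) (nat_lit 171)) (XT.lf (nat_lit 168) (nat_lit 542931315) (nat_lit 0) (nat_lit 233493025) (nat_lit 84) (nat_lit 233493025) (nat_lit 23) (nat_lit 1) (nat_lit 21) (nat_lit 1) (nat_lit 22) (nat_lit 1) (nat_lit 311) (nat_lit 239) (nat_lit 170))))) (XT.nd (nat_lit 282) (nat_lit 252) (nat_lit 0) (XT.nd (nat_lit 94) (nat_lit 252) (nat_lit 0) (XT.lf (nat_lit 0) (nat_lit 112218024) (nat_lit 0) (nat_lit 768751700) (nat_lit 168) (nat_lit 112218024) (nat_lit 21) (nat_lit 3) (nat_lit 21) (nat_lit 1) (nat_lit 23) (nat_lit 1) (nat_lit 312) (nat_lit 239) (nat_lit 169)) (XT.nd (nat_lit 94) (nat_lit 84) (nat_lit 0) (XT.lf (nat_lit 84) (nat_lit 444111495) (nat_lit 0) (nat_lit 88370083) (nat_lit 168) (nat_lit 444111495) (nat_lit 20) (nat_lit 1) (nat_lit 19)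 (nat_lit 1) (nat_lit 21) (nat_lit 1) (nat_lit 313) (nat_lit 239) (nat_lit 168)) (XT.lf (nat_lit 168) (nat_lit 576193625) (nat_lit 0) (nat_lit 192095289) (nat_lit 84) (nat_lit 192095289) (nat_lit 20) (nat_lit 1) (nat_lit 18) (nat_lit 1) (nat_lit 19) (nat_lit 1) (nat_lit 314) (nat_lit 239) (nat_lit 167)))) (XT.nd (nat_lit 188) (nat_lit 84) (nat_lit 0) (XT.nd (nat_lit 94) (nat_lit 168) (nat_lit 0) (XT.lf (nat_lit 0) (nat_lit 134788501) (nat_lit 0) (nat_lit 674920381) (nat_lit 168) (nat_lit 134788501) (nat_lit 18) (nat_lit 3) (nat_lit 18) (nat_lit 1) (nat_lit 20) (nat_lit 1) (nat_lit 315) (nat_lit 239) (nat_lit 166)) (XT.lf (nat_lit 84) (nat_lit 448282325) (nat_lit 0) (nat_lit 32258043) (nat_lit 168) (nat_lit 448282325) (nat_lit 17) (nat_lit 1) (nat_lit 16) (nat_lit 1) (nat_lit 18) (nat_lit 1) (nat_lit 316) (nat_lit 239) (nat_lit 165))) (XT.nd (nat_lit 94) (nat_lit 0) (nat_lit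 0) (XT.lf (nat_lit 168) (nat_lit 597390863) (nat_lit 0) (nat_lit 158037270) (nat_lit 84) (nat_lit 158037270) (nat_lit 17) (nat_lit 1) (nat_lit 15) (nat_lit 1) (nat_lit 16) (nat_lit 1) (nat_lit 317) (nat_lit 239) (nat_lit 164)) (XT.lf (nat_lit 0) (nat_lit 151335076) (nat_lit 0) (nat_lit 595702911) (nat_lit 168) (nat_lit 151335076) (nat_lit 15) (nat_lit 3) (nat_lit 15) (nat_lit 1) (nat_lit 17) (nat_lit 1) (nat_lit 318) (nat_lit 239) (nat_lit 163))))))))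
noncomputable def ec27 : XT := (XT.nd (nat_lit 39292) (nat_lit 0) (nat_lit 4200) (XT.nd (nat_lit 37976) (nat_lit 0) (nat_lit 9072) (XT.nd (nat_lit 564) (nat_lit 504) (nat_lit 0) (XT.nd (nat_lit 282) (nat_lit 252) (nat_lit 0) (XT.nd (nat_lit 94) (nat_lit 168) (nat_lit 0) (XT.lf (nat_lit 84) (nat_lit 12375652) (nat_lit 0) (nat_lit 435583114) (nat_lit 84) (nat_lit 435583114) (nat_lit 15) (nat_lit 3) (nat_lit 14) (nat_lit 1) (nat_lit 15) (nat_lit 1) (nat_lit 319) (nat_lit 239) (nat_lit 162)) (XT.nd (nat_lit 94) (nat_lit 0) (nat_lit 0) (XT.lf (nat_lit 168) (nat_lit 608955837) (nat_lit 0) (nat_lit 130017653) (nat_lit 84) (nat_lit 130017653) (nat_lit 14) (nat_lit 1) (nat_lit 12) (nat_lit 1) (nat_lit 13) (nat_lit 1) (nat_lit 320) (nat_lit 239) (nat_lit 161)) (XT.lf (nat_lit 0) (nat_lit 163022069) (nat_lit 0) (nat_lit 528604586) (nat_lit 168) (nat_lit 163022069) (nat_lit 12) (nat_lit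 3) (nat_lit 12) (nat_lit 1) (nat_lit 14) (nat_lit 1) (nat_lit 321) (nat_lit 239) (nat_lit 160)))) (XT.nd (nat_lit 94) (nat_lit 168) (nat_lit 0) (XT.lf (nat_lit 84) (nat_lit 48078543) (nat_lit 0) (nat_lit 396252369) (nat_lit 84) (nat_lit 396252369) (nat_lit 12) (nat_lit 3) (nat_lit 11) (nat_lit 1) (nat_lit 12) (nat_lit 1) (nat_lit 322) (nat_lit 239) (nat_lit 159)) (XT.nd (nat_lit 94) (nat_lit 0) (nat_lit 0) (XT.lf (nat_lit 168) (nat_lit 612876043) (nat_lit 0) (nat_lit 106965845) (nat_lit 84) (nat_lit 106965845) (nat_lit 11) (nat_lit 1) (nat_lit 9) (nat_lit 1) (nat_lit 10) (nat_lit 1) (nat_lit 323) (nat_lit 239) (nat_lit 158)) (XT.lf (nat_lit 0) (nat_lit 170802780) (nat_lit 0) (nat_lit 471568422) (nat_lit 168) (nat_lit 170802780) (nat_lit 9) (nat_lit 3) (nat_lit 9) (nat_lit 1) (nat_lit 11) (nat_lit 1) (nat_lit 324) (nat_lit 239) (nat_lit 157))))) (XT.nd (nat_lit 282) (nat_lit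 252) (nat_lit 0) (XT.nd (nat_lit 94) (nat_lit 168) (nat_lit 0) (XT.lf (nat_lit 84) (nat_lit 75646777) (nat_lit 0) (nat_lit 362090246) (nat_lit 84) (nat_lit 362090246) (nat_lit 9) (nat_lit 3) (nat_lit 8) (nat_lit 1) (nat_lit 9) (nat_lit 1) (nat_lit 325) (nat_lit 239) (nat_lit 156)) (XT.nd (nat_lit 94) (nat_lit 0) (nat_lit 0) (XT.lf (nat_lit 168) (nat_lit 610773273) (nat_lit 0) (nat_lit 88001065) (nat_lit 84) (nat_lit 88001065) (nat_lit 8) (nat_lit 1) (nat_lit 6) (nat_lit 1) (nat_lit 7) (nat_lit 1) (nat_lit 326) (nat_lit 239) (nat_lit 155)) (XT.lf (nat_lit 0) (nat_lit 175457127) (nat_lit 0) (nat_lit 422897765) (nat_lit 168) (nat_lit 175457127) (nat_lit 6) (nat_lit 3) (nat_lit 6) (nat_lit 1) (nat_lit 8) (nat_lit 1) (nat_lit 327) (nat_lit 239) (nat_lit 154)))) (XT.nd (nat_lit 36942) (nat_lit 0) (nat_lit 10500) (XT.nd (nat_lit 94) (nat_lit 168) (nat_lit 0) (XT.lf (nat_lit 84)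 (nat_lit 96608545) (nat_lit 0) (nat_lit 332266295) (nat_lit 84) (nat_lit 332266295) (nat_lit 6) (nat_lit 3) (nat_lit 5) (nat_lit 1) (nat_lit 6) (nat_lit 1) (nat_lit 328) (nat_lit 239) (nat_lit 153)) (XT.lf (nat_lit 168) (nat_lit 603969099) (nat_lit 0) (nat_lit 72398694) (nat_lit 84) (nat_lit 72398694) (nat_lit 5) (nat_lit 1) (nat_lit 3) (nat_lit 1) (nat_lit 4) (nat_lit 1) (nat_lit 329) (nat_lit 239) (nat_lit 152))) (XT.nd (nat_lit 94) (nat_lit 0) (nat_lit 0) (XT.lf (nat_lit 924) (nat_lit 537340628) (nat_lit 0) (nat_lit 954047050) (nat_lit 924) (nat_lit 537340628) (nat_lit 139) (nat_lit 1) (nat_lit 128) (nat_lit 0) (nat_lit 139) (nat_lit 0) (nat_lit 240) (nat_lit 240) (nat_lit 240)) (XT.lf (nat_lit 924) (nat_lit 2082799360) (nat_lit 84) (nat_lit 938659195) (nat_lit 0) (nat_lit 938659195) (nat_lit 139) (nat_lit 1) (nat_lit 129) (nat_lit 1) (nat_lit 128) (nat_lit 0) (nat_lit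 241) (nat_lit 240) (nat_lit 239)))))) (XT.nd (nat_lit 658) (nat_lit 1512) (nat_lit 0) (XT.nd (nat_lit 282) (nat_lit 0) (nat_lit 84) (XT.nd (nat_lit 94) (nat_lit 0) (nat_lit 0) (XT.lf (nat_lit 924) (nat_lit 992630814) (nat_lit 0) (nat_lit 1880526524) (nat_lit 840) (nat_lit 992630814) (nat_lit 140) (nat_lit 1) (nat_lit 129) (nat_lit 1) (nat_lit 139) (nat_lit 1) (nat_lit 242) (nat_lit 240) (nat_lit 238)) (XT.nd (nat_lit 94) (nat_lit 0) (nat_lit 84) (XT.lf (nat_lit 924) (nat_lit 1862037478) (nat_lit 84) (nat_lit 956234312) (nat_lit 0) (nat_lit 956234312) (nat_lit 140) (nat_lit 1) (nat_lit 130) (nat_lit 1) (nat_lit 129) (nat_lit 1) (nat_lit 243) (nat_lit 240) (nat_lit 237)) (XT.lf (nat_lit 924) (nat_lit 857077970) (nat_lit 0) (nat_lit 1971961298) (nat_lit 840) (nat_lit 857077970) (nat_lit 141) (nat_lit 1) (nat_lit 130) (nat_lit 1) (nat_lit 140) (nat_lit 1) (nat_lit 244) (nat_lit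 240) (nat_lit 236)))) (XT.nd (nat_lit 188) (nat_lit 0) (nat_lit 84) (XT.nd (nat_lit 94) (nat_lit 0) (nat_lit 84) (XT.lf (nat_lit 924) (nat_lit 1541510552) (nat_lit 84) (nat_lit 1029456125) (nat_lit 0) (nat_lit 1029456125) (nat_lit 141) (nat_lit 1) (nat_lit 131) (nat_lit 1) (nat_lit 130) (nat_lit 1) (nat_lit 245) (nat_lit 240) (nat_lit 235)) (XT.lf (nat_lit 924) (nat_lit 675907854) (nat_lit 0) (nat_lit 2165789981) (nat_lit 840) (nat_lit 675907854) (nat_lit 142) (nat_lit 1) (nat_lit 131) (nat_lit 1) (nat_lit 141) (nat_lit 1) (nat_lit 246) (nat_lit 240) (nat_lit 234))) (XT.nd (nat_lit 94) (nat_lit 0) (nat_lit 84) (XT.lf (nat_lit 924) (nat_lit 1136221856) (nat_lit 84) (nat_lit 1150423479) (nat_lit 0) (nat_lit 1150423479) (nat_lit 142) (nat_lit 1) (nat_lit 132) (nat_lit 1) (nat_lit 131) (nat_lit 1) (nat_lit 247) (nat_lit 240) (nat_lit 233)) (XT.lf (nat_lit 924) (nat_lit 456133895)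 (nat_lit 0) (nat_lit 2447212260) (nat_lit 840) (nat_lit 456133895) (nat_lit 143) (nat_lit 1) (nat_lit 132) (nat_lit 1) (nat_lit 142) (nat_lit 1) (nat_lit 248) (nat_lit 240) (nat_lit 232))))) (XT.nd (nat_lit 282) (nat_lit 1008) (nat_lit 0) (XT.nd (nat_lit 94) (nat_lit 756) (nat_lit 0) (XT.lf (nat_lit 924) (nat_lit 659507037) (nat_lit 84) (nat_lit 1312099685) (nat_lit 0) (nat_lit 1312099685) (nat_lit 143) (nat_lit 1) (nat_lit 133) (nat_lit 1) (nat_lit 132) (nat_lit 1) (nat_lit 249) (nat_lit 240) (nat_lit 231)) (XT.nd (nat_lit 94) (nat_lit 840) (nat_lit 0) (XT.lf (nat_lit 84) (nat_lit 203985460) (nat_lit 0) (nat_lit 2803055277) (nat_lit 840) (nat_lit 203985460) (nat_lit 134) (nat_lit 1) (nat_lit 133) (nat_lit 1) (nat_lit 143) (nat_lit 1) (nat_lit 250) (nat_lit 240) (nat_lit 230)) (XT.lf (nat_lit 924) (nat_lit 123202145) (nat_lit 0) (nat_lit 1508225960) (nat_lit 840) (nat_lit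 1508225960) (nat_lit 134) (nat_lit 1) (nat_lit 123) (nat_lit 1) (nat_lit 133) (nat_lit 1) (nat_lit 251) (nat_lit 240) (nat_lit 229)))) (XT.nd (nat_lit 188) (nat_lit 420) (nat_lit 0) (XT.nd (nat_lit 94) (nat_lit 0) (nat_lit 0) (XT.lf (nat_lit 588) (nat_lit 2923742068) (nat_lit 0) (nat_lit 73803073) (nat_lit 504) (nat_lit 73803073) (nat_lit 123) (nat_lit 1) (nat_lit 116) (nat_lit 1) (nat_lit 122) (nat_lit 1) (nat_lit 252) (nat_lit 240) (nat_lit 228)) (XT.lf (nat_lit 84) (nat_lit 1278254943) (nat_lit 0) (nat_lit 447411148) (nat_lit 588) (nat_lit 1278254943) (nat_lit 117) (nat_lit 1) (nat_lit 116) (nat_lit 1) (nat_lit 123) (nat_lit 1) (nat_lit 253) (nat_lit 240) (nat_lit 227))) (XT.nd (nat_lit 94) (nat_lit 0) (nat_lit 0) (XT.lf (nat_lit 504) (nat_lit 2199548644) (nat_lit 0) (nat_lit 369906198) (nat_lit 420) (nat_lit 369906198) (nat_lit 117) (nat_lit 1) (nat_lit 111) (nat_lit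 1) (nat_lit 116) (nat_lit 1) (nat_lit 254) (nat_lit 240) (nat_lit 226)) (XT.lf (nat_lit 84) (nat_lit 911763690) (nat_lit 0) (nat_lit 1052630894) (nat_lit 504) (nat_lit 911763690) (nat_lit 112) (nat_lit 1) (nat_lit 111) (nat_lit 1) (nat_lit 117) (nat_lit 1) (nat_lit 255) (nat_lit 240) (nat_lit 225))))))) (XT.nd (nat_lit 1316) (nat_lit 2100) (nat_lit 0) (XT.nd (nat_lit 658) (nat_lit 1260) (nat_lit 0) (XT.nd (nat_lit 282) (nat_lit 756) (nat_lit 0) (XT.nd (nat_lit 94) (nat_lit 336) (nat_lit 0) (XT.lf (nat_lit 504) (nat_lit 1448433974) (nat_lit 0) (nat_lit 683361359) (nat_lit 420) (nat_lit 683361359) (nat_lit 112) (nat_lit 1) (nat_lit 106) (nat_lit 1) (nat_lit 111) (nat_lit 1) (nat_lit 256) (nat_lit 240) (nat_lit 224)) (XT.nd (nat_lit 94) (nat_lit 336) (nat_lit 0) (XT.lf (nat_lit 84) (nat_lit 533728669) (nat_lit 0) (nat_lit 1688471902) (nat_lit 504) (nat_lit 533728669) (nat_lit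 107) (nat_lit 1) (nat_lit 106) (nat_lit 1) (nat_lit 112) (nat_lit 1) (nat_lit 257) (nat_lit 240) (nat_lit 223)) (XT.lf (nat_lit 420) (nat_lit 677389031) (nat_lit 0) (nat_lit 1010418142) (nat_lit 336) (nat_lit 1010418142) (nat_lit 107) (nat_lit 1) (nat_lit 102) (nat_lit 1) (nat_lit 106) (nat_lit 1) (nat_lit 258) (nat_lit 240) (nat_lit 222)))) (XT.nd (nat_lit 188) (nat_lit 336) (nat_lit 0) (XT.nd (nat_lit 94) (nat_lit 420) (nat_lit 0) (XT.lf (nat_lit 84) (nat_lit 147395333) (nat_lit 0) (nat_lit 2347949734) (nat_lit 420) (nat_lit 147395333) (nat_lit 103) (nat_lit 1) (nat_lit 102) (nat_lit 1) (nat_lit 107) (nat_lit 1) (nat_lit 259) (nat_lit 240) (nat_lit 221)) (XT.lf (nat_lit 84) (nat_lit 1241995432) (nat_lit 0) (nat_lit 104019530) (nat_lit 420) (nat_lit 1241995432) (nat_lit 98) (nat_lit 1) (nat_lit 97) (nat_lit 1) (nat_lit 102) (nat_lit 1) (nat_lit 260) (nat_lit 240) (nat_lit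 220))) (XT.nd (nat_lit 94) (nat_lit 0) (nat_lit 0) (XT.lf (nat_lit 420) (nat_lit 2054456310) (nat_lit 0) (nat_lit 240454166) (nat_lit 336) (nat_lit 240454166) (nat_lit 98) (nat_lit 1) (nat_lit 93) (nat_lit 1) (nat_lit 97) (nat_lit 1) (nat_lit 261) (nat_lit 240) (nat_lit 219)) (XT.lf (nat_lit 84) (nat_lit 805848085) (nat_lit 0) (nat_lit 871925870) (nat_lit 420) (nat_lit 805848085) (nat_lit 94) (nat_lit 1) (nat_lit 93) (nat_lit 1) (nat_lit 98) (nat_lit 1) (nat_lit 262) (nat_lit 240) (nat_lit 218))))) (XT.nd (nat_lit 282) (nat_lit 672) (nat_lit 0) (XT.nd (nat_lit 94) (nat_lit 252) (nat_lit 0) (XT.lf (nat_lit 420) (nat_lit 1175956525) (nat_lit 0) (nat_lit 628858582) (nat_lit 336) (nat_lit 628858582) (nat_lit 94) (nat_lit 1) (nat_lit 89) (nat_lit 1) (nat_lit 93) (nat_lit 1) (nat_lit 263) (nat_lit 240) (nat_lit 217)) (XT.nd (nat_lit 94) (nat_lit 252) (nat_lit 0) (XT.lf (nat_lit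 84) (nat_lit 370844206) (nat_lit 0) (nat_lit 1643497420) (nat_lit 420) (nat_lit 370844206) (nat_lit 90) (nat_lit 1) (nat_lit 89) (nat_lit 1) (nat_lit 94) (nat_lit 1) (nat_lit 264) (nat_lit 240) (nat_lit 216)) (XT.lf (nat_lit 336) (nat_lit 301591709) (nat_lit 0) (nat_lit 1018076462) (nat_lit 252) (nat_lit 1018076462) (nat_lit 90) (nat_lit 1) (nat_lit 86) (nat_lit 1) (nat_lit 89) (nat_lit 1) (nat_lit 265) (nat_lit 240) (nat_lit 215)))) (XT.nd (nat_lit 188) (nat_lit 252) (nat_lit 0) (XT.nd (nat_lit 94) (nat_lit 0) (nat_lit 0) (XT.lf (nat_lit 420) (nat_lit 2171617788) (nat_lit 0) (nat_lit 60258226) (nat_lit 336) (nat_lit 60258226) (nat_lit 86) (nat_lit 1) (nat_lit 81) (nat_lit 1) (nat_lit 85) (nat_lit 1) (nat_lit 266) (nat_lit 240) (nat_lit 214)) (XT.lf (nat_lit 84) (nat_lit 849770095) (nat_lit 0) (nat_lit 547236107) (nat_lit 420) (nat_lit 849770095) (nat_lit 82) (nat_lit 1)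 (nat_lit 81) (nat_lit 1) (nat_lit 86) (nat_lit 1) (nat_lit 267) (nat_lit 240) (nat_lit 213))) (XT.nd (nat_lit 94) (nat_lit 0) (nat_lit 0) (XT.lf (nat_lit 336) (nat_lit 1241116089) (nat_lit 0) (nat_lit 481020931) (nat_lit 252) (nat_lit 481020931) (nat_lit 82) (nat_lit 1) (nat_lit 78) (nat_lit 1) (nat_lit 81) (nat_lit 1) (nat_lit 268) (nat_lit 240) (nat_lit 212)) (XT.lf (nat_lit 84) (nat_lit 392087770) (nat_lit 0) (nat_lit 1376472263) (nat_lit 336) (nat_lit 392087770) (nat_lit 79) (nat_lit 1) (nat_lit 78) (nat_lit 1) (nat_lit 82) (nat_lit 1) (nat_lit 269) (nat_lit 240) (nat_lit 211)))))) (XT.nd (nat_lit 658) (nat_lit 756) (nat_lit 0) (XT.nd (nat_lit 282) (nat_lit 756) (nat_lit 0) (XT.nd (nat_lit 94) (nat_lit 336) (nat_lit 0) (XT.lf (nat_lit 336) (nat_lit 326792901) (nat_lit 0) (nat_lit 896155925) (nat_lit 252) (nat_lit 896155925) (nat_lit 79) (nat_lit 1) (nat_lit 75) (nat_lit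 1) (nat_lit 78) (nat_lit 1) (nat_lit 270) (nat_lit 240) (nat_lit 210)) (XT.nd (nat_lit 94) (nat_lit 0) (nat_lit 0) (XT.lf (nat_lit 336) (nat_lit 1966779604) (nat_lit 0) (nat_lit 56162735) (nat_lit 252) (nat_lit 56162735) (nat_lit 75) (nat_lit 1) (nat_lit 71) (nat_lit 1) (nat_lit 74) (nat_lit 1) (nat_lit 271) (nat_lit 240) (nat_lit 209)) (XT.lf (nat_lit 84) (nat_lit 743976399) (nat_lit 0) (nat_lit 551279041) (nat_lit 336) (nat_lit 743976399) (nat_lit 72) (nat_lit 1) (nat_lit 71) (nat_lit 1) (nat_lit 75) (nat_lit 1) (nat_lit 272) (nat_lit 240) (nat_lit 208)))) (XT.nd (nat_lit 188) (nat_lit 504) (nat_lit 0) (XT.nd (nat_lit 94) (nat_lit 0) (nat_lit 0) (XT.lf (nat_lit 336) (nat_lit 1023035672) (nat_lit 0) (nat_lit 488899124) (nat_lit 252) (nat_lit 488899124) (nat_lit 72) (nat_lit 1) (nat_lit 68) (nat_lit 1) (nat_lit 71) (nat_lit 1) (nat_lit 273) (nat_lit 240) (nat_lit 207)) (XT.lf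 (nat_lit 84) (nat_lit 281743189) (nat_lit 0) (nat_lit 1399979470) (nat_lit 336) (nat_lit 281743189) (nat_lit 69) (nat_lit 1) (nat_lit 68) (nat_lit 1) (nat_lit 72) (nat_lit 1) (nat_lit 274) (nat_lit 240) (nat_lit 206))) (XT.nd (nat_lit 94) (nat_lit 336) (nat_lit 0) (XT.lf (nat_lit 252) (nat_lit 103240072) (nat_lit 0) (nat_lit 911780943) (nat_lit 168) (nat_lit 911780943) (nat_lit 69) (nat_lit 1) (nat_lit 66) (nat_lit 1) (nat_lit 68) (nat_lit 1) (nat_lit 275) (nat_lit 240) (nat_lit 205)) (XT.lf (nat_lit 336) (nat_lit 1559922877) (nat_lit 0) (nat_lit 165675116) (nat_lit 252) (nat_lit 165675116) (nat_lit 66) (nat_lit 1) (nat_lit 62) (nat_lit 1) (nat_lit 65) (nat_lit 1) (nat_lit 276) (nat_lit 240) (nat_lit 204))))) (XT.nd (nat_lit 282) (nat_lit 588) (nat_lit 0) (XT.nd (nat_lit 94) (nat_lit 168) (nat_lit 0) (XT.lf (nat_lit 84) (nat_lit 544844032) (nat_lit 0) (nat_lit 766453551)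 (nat_lit 336) (nat_lit 544844032) (nat_lit 63) (nat_lit 1) (nat_lit 62) (nat_lit 1) (nat_lit 66) (nat_lit 1) (nat_lit 277) (nat_lit 240) (nat_lit 203)) (XT.nd (nat_lit 94) (nat_lit 0) (nat_lit 0) (XT.lf (nat_lit 252) (nat_lit 629483234) (nat_lit 0) (nat_lit 596305572) (nat_lit 168) (nat_lit 596305572) (nat_lit 63) (nat_lit 1) (nat_lit 60) (nat_lit 1) (nat_lit 62) (nat_lit 1) (nat_lit 278) (nat_lit 240) (nat_lit 202)) (XT.lf (nat_lit 84) (nat_lit 90436760) (nat_lit 0) (nat_lit 1608303515) (nat_lit 252) (nat_lit 90436760) (nat_lit 61) (nat_lit 1) (nat_lit 60) (nat_lit 1) (nat_lit 63) (nat_lit 1) (nat_lit 279) (nat_lit 240) (nat_lit 201)))) (XT.nd (nat_lit 188) (nat_lit 168) (nat_lit 0) (XT.nd (nat_lit 94) (nat_lit 168) (nat_lit 0) (XT.lf (nat_lit 84) (nat_lit 746390451) (nat_lit 0) (nat_lit 263598448) (nat_lit 252) (nat_lit 746390451) (nat_lit 58) (nat_lit 1) (nat_lit 57)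 (nat_lit 1) (nat_lit 60) (nat_lit 1) (nat_lit 280) (nat_lit 240) (nat_lit 200)) (XT.lf (nat_lit 252) (nat_lit 1036493958) (nat_lit 0) (nat_lit 344087911) (nat_lit 168) (nat_lit 344087911) (nat_lit 58) (nat_lit 1) (nat_lit 55) (nat_lit 1) (nat_lit 57) (nat_lit 1) (nat_lit 281) (nat_lit 240) (nat_lit 199))) (XT.nd (nat_lit 94) (nat_lit 168) (nat_lit 0) (XT.lf (nat_lit 84) (nat_lit 292471629) (nat_lit 0) (nat_lit 1108717802) (nat_lit 252) (nat_lit 292471629) (nat_lit 56) (nat_lit 1) (nat_lit 55) (nat_lit 1) (nat_lit 58) (nat_lit 1) (nat_lit 282) (nat_lit 240) (nat_lit 198)) (XT.lf (nat_lit 252) (nat_lit 137012428) (nat_lit 0) (nat_lit 763132484) (nat_lit 168) (nat_lit 763132484) (nat_lit 56) (nat_lit 1) (nat_lit 53) (nat_lit 1) (nat_lit 55) (nat_lit 1) (nat_lit 283) (nat_lit 240) (nat_lit 197))))))))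
noncomputable def ec28 : XT := (XT.nd (nat_lit 2538) (nat_lit 1596) (nat_lit 0) (XT.nd (nat_lit 1222) (nat_lit 1260) (nat_lit 0) (XT.nd (nat_lit 564) (nat_lit 672) (nat_lit 0) (XT.nd (nat_lit 282) (nat_lit 336) (nat_lit 0) (XT.nd (nat_lit 94) (nat_lit 168) (nat_lit 0) (XT.lf (nat_lit 252) (nat_lit 1346646662) (nat_lit 0) (nat_lit 143563730) (nat_lit 168) (nat_lit 143563730) (nat_lit 53) (nat_lit 1) (nat_lit 50) (nat_lit 1) (nat_lit 52) (nat_lit 1) (nat_lit 284) (nat_lit 240) (nat_lit 196)) (XT.nd (nat_lit 94) (nat_lit 168) (nat_lit 0) (XT.lf (nat_lit 84) (nat_lit 448301974) (nat_lit 0) (nat_lit 707918708) (nat_lit 252) (nat_lit 448301974) (nat_lit 51) (nat_lit 1) (nat_lit 50) (nat_lit 1) (nat_lit 53) (nat_lit 1) (nat_lit 285) (nat_lit 240) (nat_lit 195)) (XT.lf (nat_lit 252) (nat_lit 456573795) (nat_lit 0) (nat_lit 559773302) (nat_lit 168) (nat_lit 559773302) (nat_lit 51)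 (nat_lit 1) (nat_lit 48) (nat_lit 1) (nat_lit 50) (nat_lit 1) (nat_lit 286) (nat_lit 240) (nat_lit 194)))) (XT.nd (nat_lit 94) (nat_lit 336) (nat_lit 0) (XT.lf (nat_lit 84) (nat_lit 15006321) (nat_lit 0) (nat_lit 1518701569) (nat_lit 252) (nat_lit 15006321) (nat_lit 49) (nat_lit 1) (nat_lit 48) (nat_lit 1) (nat_lit 51) (nat_lit 1) (nat_lit 287) (nat_lit 240) (nat_lit 193)) (XT.nd (nat_lit 94) (nat_lit 168) (nat_lit 0) (XT.lf (nat_lit 84) (nat_lit 566614229) (nat_lit 0) (nat_lit 387905357) (nat_lit 168) (nat_lit 566614229) (nat_lit 47) (nat_lit 1) (nat_lit 46) (nat_lit 1) (nat_lit 48) (nat_lit 1) (nat_lit 288) (nat_lit 240) (nat_lit 192)) (XT.lf (nat_lit 252) (nat_lit 703103754) (nat_lit 0) (nat_lit 395710042) (nat_lit 168) (nat_lit 395710042) (nat_lit 47) (nat_lit 1) (nat_lit 44) (nat_lit 1) (nat_lit 46) (nat_lit 1) (nat_lit 289) (nat_lit 240) (nat_lit 191))))) (XT.nd (nat_lit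 282) (nat_lit 336) (nat_lit 0) (XT.nd (nat_lit 94) (nat_lit 336) (nat_lit 0) (XT.lf (nat_lit 84) (nat_lit 140967443) (nat_lit 0) (nat_lit 1186697244) (nat_lit 252) (nat_lit 140967443) (nat_lit 45) (nat_lit 1) (nat_lit 44) (nat_lit 1) (nat_lit 47) (nat_lit 1) (nat_lit 290) (nat_lit 240) (nat_lit 190)) (XT.nd (nat_lit 94) (nat_lit 168) (nat_lit 0) (XT.lf (nat_lit 84) (nat_lit 654531202) (nat_lit 0) (nat_lit 133891539) (nat_lit 168) (nat_lit 654531202) (nat_lit 43) (nat_lit 1) (nat_lit 42) (nat_lit 1) (nat_lit 44) (nat_lit 1) (nat_lit 291) (nat_lit 240) (nat_lit 189)) (XT.lf (nat_lit 252) (nat_lit 890330306) (nat_lit 0) (nat_lit 263821308) (nat_lit 168) (nat_lit 263821308) (nat_lit 43) (nat_lit 1) (nat_lit 40) (nat_lit 1) (nat_lit 42) (nat_lit 1) (nat_lit 292) (nat_lit 240) (nat_lit 188)))) (XT.nd (nat_lit 188) (nat_lit 252) (nat_lit 0) (XT.nd (nat_lit 94) (nat_lit 84) (nat_lit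 0) (XT.lf (nat_lit 84) (nat_lit 238471127) (nat_lit 0) (nat_lit 916544192) (nat_lit 252) (nat_lit 238471127) (nat_lit 41) (nat_lit 1) (nat_lit 40) (nat_lit 1) (nat_lit 43) (nat_lit 1) (nat_lit 293) (nat_lit 240) (nat_lit 187)) (XT.lf (nat_lit 168) (nat_lit 68456376) (nat_lit 0) (nat_lit 650502833) (nat_lit 84) (nat_lit 650502833) (nat_lit 41) (nat_lit 1) (nat_lit 39) (nat_lit 1) (nat_lit 40) (nat_lit 1) (nat_lit 294) (nat_lit 240) (nat_lit 186))) (XT.nd (nat_lit 94) (nat_lit 0) (nat_lit 0) (XT.lf (nat_lit 252) (nat_lit 1029510382) (nat_lit 0) (nat_lit 158255659) (nat_lit 168) (nat_lit 158255659) (nat_lit 39) (nat_lit 1) (nat_lit 36) (nat_lit 1) (nat_lit 38) (nat_lit 1) (nat_lit 295) (nat_lit 240) (nat_lit 185)) (XT.lf (nat_lit 84) (nat_lit 312854465) (nat_lit 0) (nat_lit 697134064) (nat_lit 252) (nat_lit 312854465) (nat_lit 37) (nat_lit 1) (nat_lit 36) (nat_lit 1) (nat_lit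 39) (nat_lit 1) (nat_lit 296) (nat_lit 240) (nat_lit 184)))))) (XT.nd (nat_lit 658) (nat_lit 504) (nat_lit 0) (XT.nd (nat_lit 282) (nat_lit 420) (nat_lit 0) (XT.nd (nat_lit 94) (nat_lit 252) (nat_lit 0) (XT.lf (nat_lit 168) (nat_lit 229892020) (nat_lit 0) (nat_lit 535170290) (nat_lit 84) (nat_lit 535170290) (nat_lit 37) (nat_lit 1) (nat_lit 35) (nat_lit 1) (nat_lit 36) (nat_lit 1) (nat_lit 297) (nat_lit 240) (nat_lit 183)) (XT.nd (nat_lit 94) (nat_lit 0) (nat_lit 0) (XT.lf (nat_lit 252) (nat_lit 1129869726) (nat_lit 0) (nat_lit 74206099) (nat_lit 168) (nat_lit 74206099) (nat_lit 35) (nat_lit 1) (nat_lit 32) (nat_lit 1) (nat_lit 34) (nat_lit 1) (nat_lit 298) (nat_lit 240) (nat_lit 182)) (XT.lf (nat_lit 84) (nat_lit 368494408) (nat_lit 0) (nat_lit 519334766) (nat_lit 252) (nat_lit 368494408) (nat_lit 33) (nat_lit 1) (nat_lit 32) (nat_lit 1) (nat_lit 35) (nat_lit 1) (nat_lit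 299) (nat_lit 240) (nat_lit 181)))) (XT.nd (nat_lit 188) (nat_lit 84) (nat_lit 0) (XT.nd (nat_lit 94) (nat_lit 252) (nat_lit 0) (XT.lf (nat_lit 168) (nat_lit 354440153) (nat_lit 0) (nat_lit 440285922) (nat_lit 84) (nat_lit 440285922) (nat_lit 33) (nat_lit 1) (nat_lit 31) (nat_lit 1) (nat_lit 32) (nat_lit 1) (nat_lit 300) (nat_lit 240) (nat_lit 180)) (XT.lf (nat_lit 252) (nat_lit 1198964702) (nat_lit 0) (nat_lit 7724568) (nat_lit 168) (nat_lit 7724568) (nat_lit 31) (nat_lit 1) (nat_lit 28) (nat_lit 1) (nat_lit 30) (nat_lit 1) (nat_lit 301) (nat_lit 240) (nat_lit 179))) (XT.nd (nat_lit 94) (nat_lit 84) (nat_lit 0) (XT.lf (nat_lit 84) (nat_lit 408978656) (nat_lit 0) (nat_lit 375639755) (nat_lit 252) (nat_lit 408978656) (nat_lit 29) (nat_lit 1) (nat_lit 28) (nat_lit 1) (nat_lit 31) (nat_lit 1) (nat_lit 302) (nat_lit 240) (nat_lit 178)) (XT.lf (nat_lit 168) (nat_lit 449034428)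 (nat_lit 0) (nat_lit 362224318) (nat_lit 84) (nat_lit 362224318) (nat_lit 29) (nat_lit 1) (nat_lit 27) (nat_lit 1) (nat_lit 28) (nat_lit 1) (nat_lit 303) (nat_lit 240) (nat_lit 177))))) (XT.nd (nat_lit 282) (nat_lit 252) (nat_lit 0) (XT.nd (nat_lit 94) (nat_lit 252) (nat_lit 0) (XT.lf (nat_lit 0) (nat_lit 45159039) (nat_lit 0) (nat_lit 1063658256) (nat_lit 168) (nat_lit 45159039) (nat_lit 27) (nat_lit 3) (nat_lit 27) (nat_lit 1) (nat_lit 29) (nat_lit 1) (nat_lit 304) (nat_lit 240) (nat_lit 176)) (XT.nd (nat_lit 94) (nat_lit 84) (nat_lit 0) (XT.lf (nat_lit 84) (nat_lit 437246225) (nat_lit 0) (nat_lit 259879526) (nat_lit 168) (nat_lit 437246225) (nat_lit 26) (nat_lit 1) (nat_lit 25) (nat_lit 1) (nat_lit 27) (nat_lit 1) (nat_lit 305) (nat_lit 240) (nat_lit 175)) (XT.lf (nat_lit 168) (nat_lit 519360437) (nat_lit 0) (nat_lit 298002843) (nat_lit 84) (nat_lit 298002843) (nat_lit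 26) (nat_lit 1) (nat_lit 24) (nat_lit 1) (nat_lit 25) (nat_lit 1) (nat_lit 306) (nat_lit 240) (nat_lit 174)))) (XT.nd (nat_lit 188) (nat_lit 84) (nat_lit 0) (XT.nd (nat_lit 94) (nat_lit 168) (nat_lit 0) (XT.lf (nat_lit 0) (nat_lit 86312683) (nat_lit 0) (nat_lit 924234510) (nat_lit 168) (nat_lit 86312683) (nat_lit 24) (nat_lit 3) (nat_lit 24) (nat_lit 1) (nat_lit 26) (nat_lit 1) (nat_lit 307) (nat_lit 240) (nat_lit 173)) (XT.lf (nat_lit 84) (nat_lit 455703048) (nat_lit 0) (nat_lit 166984262) (nat_lit 168) (nat_lit 455703048) (nat_lit 23) (nat_lit 1) (nat_lit 22) (nat_lit 1) (nat_lit 24) (nat_lit 1) (nat_lit 308) (nat_lit 240) (nat_lit 172))) (XT.nd (nat_lit 94) (nat_lit 0) (nat_lit 0) (XT.lf (nat_lit 168) (nat_lit 570077881) (nat_lit 0) (nat_lit 245167676) (nat_lit 84) (nat_lit 245167676) (nat_lit 23) (nat_lit 1) (nat_lit 21) (nat_lit 1) (nat_lit 22) (nat_lit 1) (nat_lit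 309) (nat_lit 240) (nat_lit 171)) (XT.lf (nat_lit 0) (nat_lit 117828925) (nat_lit 0) (nat_lit 807189285) (nat_lit 168) (nat_lit 117828925) (nat_lit 21) (nat_lit 3) (nat_lit 21) (nat_lit 1) (nat_lit 23) (nat_lit 1) (nat_lit 310) (nat_lit 240) (nat_lit 170))))))) (XT.nd (nat_lit 1222) (nat_lit 504) (nat_lit 0) (XT.nd (nat_lit 564) (nat_lit 588) (nat_lit 0) (XT.nd (nat_lit 282) (nat_lit 252) (nat_lit 0) (XT.nd (nat_lit 94) (nat_lit 84) (nat_lit 0) (XT.lf (nat_lit 84) (nat_lit 466317070) (nat_lit 0) (nat_lit 92788588) (nat_lit 168) (nat_lit 466317070) (nat_lit 20) (nat_lit 1) (nat_lit 19) (nat_lit 1) (nat_lit 21) (nat_lit 1) (nat_lit 311) (nat_lit 240) (nat_lit 169)) (XT.nd (nat_lit 94) (nat_lit 0) (nat_lit 0) (XT.lf (nat_lit 168) (nat_lit 605003306) (nat_lit 0) (nat_lit 201700054) (nat_lit 84) (nat_lit 201700054) (nat_lit 20) (nat_lit 1) (nat_lit 18) (nat_lit 1) (nat_lit 19)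 (nat_lit 1) (nat_lit 312) (nat_lit 240) (nat_lit 168)) (XT.lf (nat_lit 0) (nat_lit 141527926) (nat_lit 0) (nat_lit 708666400) (nat_lit 168) (nat_lit 141527926) (nat_lit 18) (nat_lit 3) (nat_lit 18) (nat_lit 1) (nat_lit 20) (nat_lit 1) (nat_lit 313) (nat_lit 240) (nat_lit 167)))) (XT.nd (nat_lit 94) (nat_lit 84) (nat_lit 0) (XT.lf (nat_lit 84) (nat_lit 470696441) (nat_lit 0) (nat_lit 33870945) (nat_lit 168) (nat_lit 470696441) (nat_lit 17) (nat_lit 1) (nat_lit 16) (nat_lit 1) (nat_lit 18) (nat_lit 1) (nat_lit 314) (nat_lit 240) (nat_lit 166)) (XT.nd (nat_lit 94) (nat_lit 0) (nat_lit 0) (XT.lf (nat_lit 168) (nat_lit 627260406) (nat_lit 0) (nat_lit 165939133) (nat_lit 84) (nat_lit 165939133) (nat_lit 17) (nat_lit 1) (nat_lit 15) (nat_lit 1) (nat_lit 16) (nat_lit 1) (nat_lit 315) (nat_lit 240) (nat_lit 165)) (XT.lf (nat_lit 0) (nat_lit 158901830) (nat_lit 0) (nat_lit 625488057)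 (nat_lit 168) (nat_lit 158901830) (nat_lit 15) (nat_lit 3) (nat_lit 15) (nat_lit 1) (nat_lit 17) (nat_lit 1) (nat_lit 316) (nat_lit 240) (nat_lit 164))))) (XT.nd (nat_lit 282) (nat_lit 336) (nat_lit 0) (XT.nd (nat_lit 94) (nat_lit 168) (nat_lit 0) (XT.lf (nat_lit 84) (nat_lit 12994435) (nat_lit 0) (nat_lit 457362269) (nat_lit 84) (nat_lit 457362269) (nat_lit 15) (nat_lit 3) (nat_lit 14) (nat_lit 1) (nat_lit 15) (nat_lit 1) (nat_lit 317) (nat_lit 240) (nat_lit 163)) (XT.nd (nat_lit 94) (nat_lit 0) (nat_lit 0) (XT.lf (nat_lit 168) (nat_lit 639403629) (nat_lit 0) (nat_lit 136518535) (nat_lit 84) (nat_lit 136518535) (nat_lit 14) (nat_lit 1) (nat_lit 12) (nat_lit 1) (nat_lit 13) (nat_lit 1) (nat_lit 318) (nat_lit 240) (nat_lit 162)) (XT.lf (nat_lit 0) (nat_lit 171173172) (nat_lit 0) (nat_lit 555034815) (nat_lit 168) (nat_lit 171173172) (nat_lit 12) (nat_lit 3) (nat_lit 12) (nat_lit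 1) (nat_lit 14) (nat_lit 1) (nat_lit 319) (nat_lit 240) (nat_lit 161)))) (XT.nd (nat_lit 188) (nat_lit 84) (nat_lit 0) (XT.nd (nat_lit 94) (nat_lit 168) (nat_lit 0) (XT.lf (nat_lit 84) (nat_lit 50482470) (nat_lit 0) (nat_lit 416064987) (nat_lit 84) (nat_lit 416064987) (nat_lit 12) (nat_lit 3) (nat_lit 11) (nat_lit 1) (nat_lit 12) (nat_lit 1) (nat_lit 320) (nat_lit 240) (nat_lit 160)) (XT.lf (nat_lit 168) (nat_lit 643519845) (nat_lit 0) (nat_lit 112314137) (nat_lit 84) (nat_lit 112314137) (nat_lit 11) (nat_lit 1) (nat_lit 9) (nat_lit 1) (nat_lit 10) (nat_lit 1) (nat_lit 321) (nat_lit 240) (nat_lit 159))) (XT.nd (nat_lit 94) (nat_lit 84) (nat_lit 0) (XT.lf (nat_lit 0) (nat_lit 179342919) (nat_lit 0) (nat_lit 495146843) (nat_lit 168) (nat_lit 179342919) (nat_lit 9) (nat_lit 3) (nat_lit 9) (nat_lit 1) (nat_lit 11) (nat_lit 1) (nat_lit 322) (nat_lit 240) (nat_lit 158)) (XT.lf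 (nat_lit 84) (nat_lit 79429116) (nat_lit 0) (nat_lit 380194758) (nat_lit 84) (nat_lit 380194758) (nat_lit 9) (nat_lit 3) (nat_lit 8) (nat_lit 1) (nat_lit 9) (nat_lit 1) (nat_lit 323) (nat_lit 240) (nat_lit 157)))))) (XT.nd (nat_lit 37224) (nat_lit 0) (nat_lit 10584) (XT.nd (nat_lit 282) (nat_lit 252) (nat_lit 0) (XT.nd (nat_lit 94) (nat_lit 84) (nat_lit 0) (XT.lf (nat_lit 168) (nat_lit 641311937) (nat_lit 0) (nat_lit 92401118) (nat_lit 84) (nat_lit 92401118) (nat_lit 8) (nat_lit 1) (nat_lit 6) (nat_lit 1) (nat_lit 7) (nat_lit 1) (nat_lit 324) (nat_lit 240) (nat_lit 156)) (XT.nd (nat_lit 94) (nat_lit 84) (nat_lit 0) (XT.lf (nat_lit 0) (nat_lit 184229984) (nat_lit 0) (nat_lit 444042653) (nat_lit 168) (nat_lit 184229984) (nat_lit 6) (nat_lit 3) (nat_lit 6) (nat_lit 1) (nat_lit 8) (nat_lit 1) (nat_lit 325) (nat_lit 240) (nat_lit 155)) (XT.lf (nat_lit 84) (nat_lit 101438972)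 (nat_lit 0) (nat_lit 348879610) (nat_lit 84) (nat_lit 348879610) (nat_lit 6) (nat_lit 3) (nat_lit 5) (nat_lit 1) (nat_lit 6) (nat_lit 1) (nat_lit 326) (nat_lit 240) (nat_lit 154)))) (XT.nd (nat_lit 188) (nat_lit 84) (nat_lit 0) (XT.nd (nat_lit 94) (nat_lit 0) (nat_lit 0) (XT.lf (nat_lit 168) (nat_lit 634167554) (nat_lit 0) (nat_lit 76018629) (nat_lit 84) (nat_lit 76018629) (nat_lit 5) (nat_lit 1) (nat_lit 3) (nat_lit 1) (nat_lit 4) (nat_lit 1) (nat_lit 327) (nat_lit 240) (nat_lit 153)) (XT.lf (nat_lit 0) (nat_lit 186503721) (nat_lit 0) (nat_lit 400252248) (nat_lit 168) (nat_lit 186503721) (nat_lit 3) (nat_lit 3) (nat_lit 3) (nat_lit 1) (nat_lit 5) (nat_lit 1) (nat_lit 328) (nat_lit 240) (nat_lit 152))) (XT.nd (nat_lit 36660) (nat_lit 0) (nat_lit 10584) (XT.lf (nat_lit 84) (nat_lit 117827847) (nat_lit 0) (nat_lit 321397872) (nat_lit 84) (nat_lit 321397872) (nat_lit 3) (nat_lit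 3) (nat_lit 2) (nat_lit 1) (nat_lit 3) (nat_lit 1) (nat_lit 329) (nat_lit 240) (nat_lit 151)) (XT.lf (nat_lit 924) (nat_lit 564207659) (nat_lit 0) (nat_lit 1001749403) (nat_lit 924) (nat_lit 564207659) (nat_lit 139) (nat_lit 1) (nat_lit 128) (nat_lit 0) (nat_lit 139) (nat_lit 0) (nat_lit 238) (nat_lit 241) (nat_lit 241))))) (XT.nd (nat_lit 282) (nat_lit 0) (nat_lit 168) (XT.nd (nat_lit 94) (nat_lit 0) (nat_lit 84) (XT.lf (nat_lit 924) (nat_lit 2186939328) (nat_lit 84) (nat_lit 985592154) (nat_lit 0) (nat_lit 985592154) (nat_lit 139) (nat_lit 1) (nat_lit 129) (nat_lit 1) (nat_lit 128) (nat_lit 0) (nat_lit 239) (nat_lit 241) (nat_lit 240)) (XT.nd (nat_lit 94) (nat_lit 0) (nat_lit 0) (XT.lf (nat_lit 924) (nat_lit 1042262355) (nat_lit 0) (nat_lit 1974552850) (nat_lit 840) (nat_lit 1042262355) (nat_lit 140) (nat_lit 1) (nat_lit 129) (nat_lit 1) (nat_lit 139) (nat_lit 1) (nat_lit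 240) (nat_lit 241) (nat_lit 239)) (XT.lf (nat_lit 924) (nat_lit 1955139352) (nat_lit 84) (nat_lit 1004046028) (nat_lit 0) (nat_lit 1004046028) (nat_lit 140) (nat_lit 1) (nat_lit 130) (nat_lit 1) (nat_lit 129) (nat_lit 1) (nat_lit 241) (nat_lit 241) (nat_lit 238)))) (XT.nd (nat_lit 188) (nat_lit 0) (nat_lit 84) (XT.nd (nat_lit 94) (nat_lit 0) (nat_lit 0) (XT.lf (nat_lit 924) (nat_lit 899931868) (nat_lit 0) (nat_lit 2070559363) (nat_lit 840) (nat_lit 899931868) (nat_lit 141) (nat_lit 1) (nat_lit 130) (nat_lit 1) (nat_lit 140) (nat_lit 1) (nat_lit 242) (nat_lit 241) (nat_lit 237)) (XT.lf (nat_lit 924) (nat_lit 1618586079) (nat_lit 84) (nat_lit 1080928931) (nat_lit 0) (nat_lit 1080928931) (nat_lit 141) (nat_lit 1) (nat_lit 131) (nat_lit 1) (nat_lit 130) (nat_lit 1) (nat_lit 243) (nat_lit 241) (nat_lit 236))) (XT.nd (nat_lit 94) (nat_lit 0) (nat_lit 0) (XT.lf (nat_lit 924) (nat_lit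 709703247) (nat_lit 0) (nat_lit 2274079480) (nat_lit 840) (nat_lit 709703247) (nat_lit 142) (nat_lit 1) (nat_lit 131) (nat_lit 1) (nat_lit 141) (nat_lit 1) (nat_lit 244) (nat_lit 241) (nat_lit 235)) (XT.lf (nat_lit 924) (nat_lit 1193032949) (nat_lit 84) (nat_lit 1207944653) (nat_lit 0) (nat_lit 1207944653) (nat_lit 142) (nat_lit 1) (nat_lit 132) (nat_lit 1) (nat_lit 131) (nat_lit 1) (nat_lit 245) (nat_lit 241) (nat_lit 234))))))))
noncomputable def ec29 : XT := (XT.nd (nat_lit 2538) (nat_lit 3360) (nat_lit 0) (XT.nd (nat_lit 1222) (nat_lit 2436) (nat_lit 0) (XT.nd (nat_lit 564) (nat_lit 1596) (nat_lit 0) (XT.nd (nat_lit 282) (nat_lit 1344) (nat_lit 0) (XT.nd (nat_lit 94) (nat_lit 0) (nat_lit 0) (XT.lf (nat_lit 924) (nat_lit 478940589) (nat_lit 0) (nat_lit 2569572873) (nat_lit 840) (nat_lit 478940589) (nat_lit 143) (nat_lit 1) (nat_lit 132) (nat_lit 1) (nat_lit 142) (nat_lit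 1) (nat_lit 246) (nat_lit 241) (nat_lit 233)) (XT.nd (nat_lit 94) (nat_lit 0) (nat_lit 84) (XT.lf (nat_lit 924) (nat_lit 692482389) (nat_lit 84) (nat_lit 1377704670) (nat_lit 0) (nat_lit 1377704670) (nat_lit 143) (nat_lit 1) (nat_lit 133) (nat_lit 1) (nat_lit 132) (nat_lit 1) (nat_lit 247) (nat_lit 241) (nat_lit 232)) (XT.lf (nat_lit 84) (nat_lit 214184733) (nat_lit 0) (nat_lit 2943208041) (nat_lit 840) (nat_lit 214184733) (nat_lit 134) (nat_lit 1) (nat_lit 133) (nat_lit 1) (nat_lit 143) (nat_lit 1) (nat_lit 248) (nat_lit 241) (nat_lit 231)))) (XT.nd (nat_lit 94) (nat_lit 588) (nat_lit 0) (XT.lf (nat_lit 924) (nat_lit 129362252) (nat_lit 0) (nat_lit 1583637258) (nat_lit 840) (nat_lit 1583637258) (nat_lit 134) (nat_lit 1) (nat_lit 123) (nat_lit 1) (nat_lit 133) (nat_lit 1) (nat_lit 249) (nat_lit 241) (nat_lit 230)) (XT.nd (nat_lit 94) (nat_lit 0) (nat_lit 0) (XT.lf (nat_lit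 588) (nat_lit 3069929171) (nat_lit 0) (nat_lit 77493226) (nat_lit 504) (nat_lit 77493226) (nat_lit 123) (nat_lit 1) (nat_lit 116) (nat_lit 1) (nat_lit 122) (nat_lit 1) (nat_lit 250) (nat_lit 241) (nat_lit 229)) (XT.lf (nat_lit 84) (nat_lit 1342167690) (nat_lit 0) (nat_lit 469781705) (nat_lit 588) (nat_lit 1342167690) (nat_lit 117) (nat_lit 1) (nat_lit 116) (nat_lit 1) (nat_lit 123) (nat_lit 1) (nat_lit 251) (nat_lit 241) (nat_lit 228))))) (XT.nd (nat_lit 282) (nat_lit 756) (nat_lit 0) (XT.nd (nat_lit 94) (nat_lit 420) (nat_lit 0) (XT.lf (nat_lit 504) (nat_lit 2309526076) (nat_lit 0) (nat_lit 388401508) (nat_lit 420) (nat_lit 388401508) (nat_lit 117) (nat_lit 1) (nat_lit 111) (nat_lit 1) (nat_lit 116) (nat_lit 1) (nat_lit 252) (nat_lit 241) (nat_lit 227)) (XT.nd (nat_lit 94) (nat_lit 420) (nat_lit 0) (XT.lf (nat_lit 84) (nat_lit 957351875) (nat_lit 0) (nat_lit 1105262438)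 (nat_lit 504) (nat_lit 957351875) (nat_lit 112) (nat_lit 1) (nat_lit 111) (nat_lit 1) (nat_lit 117) (nat_lit 1) (nat_lit 253) (nat_lit 241) (nat_lit 226)) (XT.lf (nat_lit 504) (nat_lit 1520855673) (nat_lit 0) (nat_lit 717529427) (nat_lit 420) (nat_lit 717529427) (nat_lit 112) (nat_lit 1) (nat_lit 106) (nat_lit 1) (nat_lit 111) (nat_lit 1) (nat_lit 254) (nat_lit 241) (nat_lit 225)))) (XT.nd (nat_lit 188) (nat_lit 420) (nat_lit 0) (XT.nd (nat_lit 94) (nat_lit 336) (nat_lit 0) (XT.lf (nat_lit 84) (nat_lit 560415103) (nat_lit 0) (nat_lit 1772895497) (nat_lit 504) (nat_lit 560415103) (nat_lit 107) (nat_lit 1) (nat_lit 106) (nat_lit 1) (nat_lit 112) (nat_lit 1) (nat_lit 255) (nat_lit 241) (nat_lit 224)) (XT.lf (nat_lit 420) (nat_lit 711258483) (nat_lit 0) (nat_lit 1060939049) (nat_lit 336) (nat_lit 1060939049) (nat_lit 107) (nat_lit 1) (nat_lit 102) (nat_lit 1) (nat_lit 106) (nat_lit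 1) (nat_lit 256) (nat_lit 241) (nat_lit 223))) (XT.nd (nat_lit 94) (nat_lit 420) (nat_lit 0) (XT.lf (nat_lit 84) (nat_lit 154765100) (nat_lit 0) (nat_lit 2465347220) (nat_lit 420) (nat_lit 154765100) (nat_lit 103) (nat_lit 1) (nat_lit 102) (nat_lit 1) (nat_lit 107) (nat_lit 1) (nat_lit 257) (nat_lit 241) (nat_lit 222)) (XT.lf (nat_lit 84) (nat_lit 1304095204) (nat_lit 0) (nat_lit 109220506) (nat_lit 420) (nat_lit 1304095204) (nat_lit 98) (nat_lit 1) (nat_lit 97) (nat_lit 1) (nat_lit 102) (nat_lit 1) (nat_lit 258) (nat_lit 241) (nat_lit 221)))))) (XT.nd (nat_lit 658) (nat_lit 1092) (nat_lit 0) (XT.nd (nat_lit 282) (nat_lit 672) (nat_lit 0) (XT.nd (nat_lit 94) (nat_lit 336) (nat_lit 0) (XT.lf (nat_lit 420) (nat_lit 2157179126) (nat_lit 0) (nat_lit 252476874) (nat_lit 336) (nat_lit 252476874) (nat_lit 98) (nat_lit 1) (nat_lit 93) (nat_lit 1) (nat_lit 97) (nat_lit 1) (nat_lit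 259) (nat_lit 241) (nat_lit 220)) (XT.nd (nat_lit 94) (nat_lit 336) (nat_lit 0) (XT.lf (nat_lit 84) (nat_lit 846140489) (nat_lit 0) (nat_lit 915522164) (nat_lit 420) (nat_lit 846140489) (nat_lit 94) (nat_lit 1) (nat_lit 93) (nat_lit 1) (nat_lit 98) (nat_lit 1) (nat_lit 260) (nat_lit 241) (nat_lit 219)) (XT.lf (nat_lit 420) (nat_lit 1234754352) (nat_lit 0) (nat_lit 660301511) (nat_lit 336) (nat_lit 660301511) (nat_lit 94) (nat_lit 1) (nat_lit 89) (nat_lit 1) (nat_lit 93) (nat_lit 1) (nat_lit 261) (nat_lit 241) (nat_lit 218)))) (XT.nd (nat_lit 188) (nat_lit 420) (nat_lit 0) (XT.nd (nat_lit 94) (nat_lit 252) (nat_lit 0) (XT.lf (nat_lit 84) (nat_lit 389386416) (nat_lit 0) (nat_lit 1725672291) (nat_lit 420) (nat_lit 389386416) (nat_lit 90) (nat_lit 1) (nat_lit 89) (nat_lit 1) (nat_lit 94) (nat_lit 1) (nat_lit 262) (nat_lit 241) (nat_lit 217)) (XT.lf (nat_lit 336) (nat_lit 316671295)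 (nat_lit 0) (nat_lit 1068980285) (nat_lit 252) (nat_lit 1068980285) (nat_lit 90) (nat_lit 1) (nat_lit 86) (nat_lit 1) (nat_lit 89) (nat_lit 1) (nat_lit 263) (nat_lit 241) (nat_lit 216))) (XT.nd (nat_lit 94) (nat_lit 0) (nat_lit 0) (XT.lf (nat_lit 420) (nat_lit 2280198678) (nat_lit 0) (nat_lit 63271138) (nat_lit 336) (nat_lit 63271138) (nat_lit 86) (nat_lit 1) (nat_lit 81) (nat_lit 1) (nat_lit 85) (nat_lit 1) (nat_lit 264) (nat_lit 241) (nat_lit 215)) (XT.lf (nat_lit 84) (nat_lit 892258600) (nat_lit 0) (nat_lit 574597913) (nat_lit 420) (nat_lit 892258600) (nat_lit 82) (nat_lit 1) (nat_lit 81) (nat_lit 1) (nat_lit 86) (nat_lit 1) (nat_lit 265) (nat_lit 241) (nat_lit 214))))) (XT.nd (nat_lit 282) (nat_lit 588) (nat_lit 0) (XT.nd (nat_lit 94) (nat_lit 252) (nat_lit 0) (XT.lf (nat_lit 336) (nat_lit 1303171893) (nat_lit 0) (nat_lit 505071978) (nat_lit 252) (nat_lit 505071978)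 (nat_lit 82) (nat_lit 1) (nat_lit 78) (nat_lit 1) (nat_lit 81) (nat_lit 1) (nat_lit 266) (nat_lit 241) (nat_lit 213)) (XT.nd (nat_lit 94) (nat_lit 252) (nat_lit 0) (XT.lf (nat_lit 84) (nat_lit 411692159) (nat_lit 0) (nat_lit 1445295876) (nat_lit 336) (nat_lit 411692159) (nat_lit 79) (nat_lit 1) (nat_lit 78) (nat_lit 1) (nat_lit 82) (nat_lit 1) (nat_lit 267) (nat_lit 241) (nat_lit 212)) (XT.lf (nat_lit 336) (nat_lit 343132546) (nat_lit 0) (nat_lit 940963721) (nat_lit 252) (nat_lit 940963721) (nat_lit 79) (nat_lit 1) (nat_lit 75) (nat_lit 1) (nat_lit 78) (nat_lit 1) (nat_lit 268) (nat_lit 241) (nat_lit 211)))) (XT.nd (nat_lit 188) (nat_lit 252) (nat_lit 0) (XT.nd (nat_lit 94) (nat_lit 0) (nat_lit 0) (XT.lf (nat_lit 336) (nat_lit 2065118584) (nat_lit 0) (nat_lit 58970872) (nat_lit 252) (nat_lit 58970872) (nat_lit 75) (nat_lit 1) (nat_lit 71) (nat_lit 1) (nat_lit 74) (nat_lit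 1) (nat_lit 269) (nat_lit 241) (nat_lit 210)) (XT.lf (nat_lit 84) (nat_lit 781175219) (nat_lit 0) (nat_lit 578842993) (nat_lit 336) (nat_lit 781175219) (nat_lit 72) (nat_lit 1) (nat_lit 71) (nat_lit 1) (nat_lit 75) (nat_lit 1) (nat_lit 270) (nat_lit 241) (nat_lit 209))) (XT.nd (nat_lit 94) (nat_lit 0) (nat_lit 0) (XT.lf (nat_lit 336) (nat_lit 1074187455) (nat_lit 0) (nat_lit 513344080) (nat_lit 252) (nat_lit 513344080) (nat_lit 72) (nat_lit 1) (nat_lit 68) (nat_lit 1) (nat_lit 71) (nat_lit 1) (nat_lit 271) (nat_lit 241) (nat_lit 208)) (XT.lf (nat_lit 84) (nat_lit 295830349) (nat_lit 0) (nat_lit 1469978444) (nat_lit 336) (nat_lit 295830349) (nat_lit 69) (nat_lit 1) (nat_lit 68) (nat_lit 1) (nat_lit 72) (nat_lit 1) (nat_lit 272) (nat_lit 241) (nat_lit 207))))))) (XT.nd (nat_lit 1316) (nat_lit 1512) (nat_lit 0) (XT.nd (nat_lit 658) (nat_lit 756) (nat_lit 0) (XT.nd (nat_lit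 282) (nat_lit 588) (nat_lit 0) (XT.nd (nat_lit 94) (nat_lit 336) (nat_lit 0) (XT.lf (nat_lit 252) (nat_lit 108402076) (nat_lit 0) (nat_lit 957369990) (nat_lit 168) (nat_lit 957369990) (nat_lit 69) (nat_lit 1) (nat_lit 66) (nat_lit 1) (nat_lit 68) (nat_lit 1) (nat_lit 273) (nat_lit 241) (nat_lit 206)) (XT.nd (nat_lit 94) (nat_lit 0) (nat_lit 0) (XT.lf (nat_lit 336) (nat_lit 1637919021) (nat_lit 0) (nat_lit 173958872) (nat_lit 252) (nat_lit 173958872) (nat_lit 66) (nat_lit 1) (nat_lit 62) (nat_lit 1) (nat_lit 65) (nat_lit 1) (nat_lit 274) (nat_lit 241) (nat_lit 205)) (XT.lf (nat_lit 84) (nat_lit 572086234) (nat_lit 0) (nat_lit 804776228) (nat_lit 336) (nat_lit 572086234) (nat_lit 63) (nat_lit 1) (nat_lit 62) (nat_lit 1) (nat_lit 66) (nat_lit 1) (nat_lit 275) (nat_lit 241) (nat_lit 204)))) (XT.nd (nat_lit 188) (nat_lit 420) (nat_lit 0) (XT.nd (nat_lit 94) (nat_lit 0) (nat_lit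 0) (XT.lf (nat_lit 252) (nat_lit 660957396) (nat_lit 0) (nat_lit 626120850) (nat_lit 168) (nat_lit 626120850) (nat_lit 63) (nat_lit 1) (nat_lit 60) (nat_lit 1) (nat_lit 62) (nat_lit 1) (nat_lit 276) (nat_lit 241) (nat_lit 203)) (XT.lf (nat_lit 84) (nat_lit 94958598) (nat_lit 0) (nat_lit 1688718691) (nat_lit 252) (nat_lit 94958598) (nat_lit 61) (nat_lit 1) (nat_lit 60) (nat_lit 1) (nat_lit 63) (nat_lit 1) (nat_lit 277) (nat_lit 241) (nat_lit 202))) (XT.nd (nat_lit 94) (nat_lit 168) (nat_lit 0) (XT.lf (nat_lit 84) (nat_lit 783709974) (nat_lit 0) (nat_lit 276778371) (nat_lit 252) (nat_lit 783709974) (nat_lit 58) (nat_lit 1) (nat_lit 57) (nat_lit 1) (nat_lit 60) (nat_lit 1) (nat_lit 278) (nat_lit 241) (nat_lit 201)) (XT.lf (nat_lit 252) (nat_lit 1088318656) (nat_lit 0) (nat_lit 361292307) (nat_lit 168) (nat_lit 361292307) (nat_lit 58) (nat_lit 1) (nat_lit 55) (nat_lit 1) (nat_lit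 57) (nat_lit 1) (nat_lit 279) (nat_lit 241) (nat_lit 200))))) (XT.nd (nat_lit 282) (nat_lit 336) (nat_lit 0) (XT.nd (nat_lit 94) (nat_lit 420) (nat_lit 0) (XT.lf (nat_lit 84) (nat_lit 307095210) (nat_lit 0) (nat_lit 1164153692) (nat_lit 252) (nat_lit 307095210) (nat_lit 56) (nat_lit 1) (nat_lit 55) (nat_lit 1) (nat_lit 58) (nat_lit 1) (nat_lit 280) (nat_lit 241) (nat_lit 199)) (XT.nd (nat_lit 94) (nat_lit 252) (nat_lit 0) (XT.lf (nat_lit 252) (nat_lit 143863049) (nat_lit 0) (nat_lit 801289108) (nat_lit 168) (nat_lit 801289108) (nat_lit 56) (nat_lit 1) (nat_lit 53) (nat_lit 1) (nat_lit 55) (nat_lit 1) (nat_lit 281) (nat_lit 241) (nat_lit 198)) (XT.lf (nat_lit 252) (nat_lit 1413978996) (nat_lit 0) (nat_lit 150741916) (nat_lit 168) (nat_lit 150741916) (nat_lit 53) (nat_lit 1) (nat_lit 50) (nat_lit 1) (nat_lit 52) (nat_lit 1) (nat_lit 282) (nat_lit 241) (nat_lit 197)))) (XT.nd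 (nat_lit 188) (nat_lit 168) (nat_lit 0) (XT.nd (nat_lit 94) (nat_lit 168) (nat_lit 0) (XT.lf (nat_lit 84) (nat_lit 470717072) (nat_lit 0) (nat_lit 743314643) (nat_lit 252) (nat_lit 470717072) (nat_lit 51) (nat_lit 1) (nat_lit 50) (nat_lit 1) (nat_lit 53) (nat_lit 1) (nat_lit 283) (nat_lit 241) (nat_lit 196)) (XT.lf (nat_lit 252) (nat_lit 479402485) (nat_lit 0) (nat_lit 587761967) (nat_lit 168) (nat_lit 587761967) (nat_lit 51) (nat_lit 1) (nat_lit 48) (nat_lit 1) (nat_lit 50) (nat_lit 1) (nat_lit 284) (nat_lit 241) (nat_lit 195))) (XT.nd (nat_lit 94) (nat_lit 168) (nat_lit 0) (XT.lf (nat_lit 84) (nat_lit 15756637) (nat_lit 0) (nat_lit 1594636648) (nat_lit 252) (nat_lit 15756637) (nat_lit 49) (nat_lit 1) (nat_lit 48) (nat_lit 1) (nat_lit 51) (nat_lit 1) (nat_lit 285) (nat_lit 241) (nat_lit 194)) (XT.lf (nat_lit 84) (nat_lit 594944941) (nat_lit 0) (nat_lit 407300625) (nat_lit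 168) (nat_lit 594944941) (nat_lit 47) (nat_lit 1) (nat_lit 46) (nat_lit 1) (nat_lit 48) (nat_lit 1) (nat_lit 286) (nat_lit 241) (nat_lit 193)))))) (XT.nd (nat_lit 658) (nat_lit 672) (nat_lit 0) (XT.nd (nat_lit 282) (nat_lit 504) (nat_lit 0) (XT.nd (nat_lit 94) (nat_lit 168) (nat_lit 0) (XT.lf (nat_lit 252) (nat_lit 738258942) (nat_lit 0) (nat_lit 415495544) (nat_lit 168) (nat_lit 415495544) (nat_lit 47) (nat_lit 1) (nat_lit 44) (nat_lit 1) (nat_lit 46) (nat_lit 1) (nat_lit 287) (nat_lit 241) (nat_lit 192)) (XT.nd (nat_lit 94) (nat_lit 168) (nat_lit 0) (XT.lf (nat_lit 84) (nat_lit 148015815) (nat_lit 0) (nat_lit 1246032106) (nat_lit 252) (nat_lit 148015815) (nat_lit 45) (nat_lit 1) (nat_lit 44) (nat_lit 1) (nat_lit 47) (nat_lit 1) (nat_lit 288) (nat_lit 241) (nat_lit 191)) (XT.lf (nat_lit 84) (nat_lit 687257762) (nat_lit 0) (nat_lit 140586116) (nat_lit 168) (nat_lit 687257762)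 (nat_lit 43) (nat_lit 1) (nat_lit 42) (nat_lit 1) (nat_lit 44) (nat_lit 1) (nat_lit 289) (nat_lit 241) (nat_lit 190)))) (XT.nd (nat_lit 188) (nat_lit 336) (nat_lit 0) (XT.nd (nat_lit 94) (nat_lit 0) (nat_lit 0) (XT.lf (nat_lit 252) (nat_lit 934846822) (nat_lit 0) (nat_lit 277012373) (nat_lit 168) (nat_lit 277012373) (nat_lit 43) (nat_lit 1) (nat_lit 40) (nat_lit 1) (nat_lit 42) (nat_lit 1) (nat_lit 290) (nat_lit 241) (nat_lit 189)) (XT.lf (nat_lit 84) (nat_lit 250394683) (nat_lit 0) (nat_lit 962371402) (nat_lit 252) (nat_lit 250394683) (nat_lit 41) (nat_lit 1) (nat_lit 40) (nat_lit 1) (nat_lit 43) (nat_lit 1) (nat_lit 291) (nat_lit 241) (nat_lit 188))) (XT.nd (nat_lit 94) (nat_lit 252) (nat_lit 0) (XT.lf (nat_lit 168) (nat_lit 71879195) (nat_lit 0) (nat_lit 683027974) (nat_lit 84) (nat_lit 683027974) (nat_lit 41) (nat_lit 1) (nat_lit 39) (nat_lit 1) (nat_lit 40) (nat_lit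 1) (nat_lit 292) (nat_lit 241) (nat_lit 187)) (XT.lf (nat_lit 252) (nat_lit 1080985901) (nat_lit 0) (nat_lit 166168442) (nat_lit 168) (nat_lit 166168442) (nat_lit 39) (nat_lit 1) (nat_lit 36) (nat_lit 1) (nat_lit 38) (nat_lit 1) (nat_lit 293) (nat_lit 241) (nat_lit 186))))) (XT.nd (nat_lit 282) (nat_lit 336) (nat_lit 0) (XT.nd (nat_lit 94) (nat_lit 336) (nat_lit 0) (XT.lf (nat_lit 84) (nat_lit 328497188) (nat_lit 0) (nat_lit 731990767) (nat_lit 252) (nat_lit 328497188) (nat_lit 37) (nat_lit 1) (nat_lit 36) (nat_lit 1) (nat_lit 39) (nat_lit 1) (nat_lit 294) (nat_lit 241) (nat_lit 185)) (XT.nd (nat_lit 94) (nat_lit 252) (nat_lit 0) (XT.lf (nat_lit 168) (nat_lit 241386621) (nat_lit 0) (nat_lit 561928805) (nat_lit 84) (nat_lit 561928805) (nat_lit 37) (nat_lit 1) (nat_lit 35) (nat_lit 1) (nat_lit 36) (nat_lit 1) (nat_lit 295) (nat_lit 241) (nat_lit 184)) (XT.lf (nat_lit 252)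 (nat_lit 1186363212) (nat_lit 0) (nat_lit 77916404) (nat_lit 168) (nat_lit 77916404) (nat_lit 35) (nat_lit 1) (nat_lit 32) (nat_lit 1) (nat_lit 34) (nat_lit 1) (nat_lit 296) (nat_lit 241) (nat_lit 183)))) (XT.nd (nat_lit 188) (nat_lit 252) (nat_lit 0) (XT.nd (nat_lit 94) (nat_lit 84) (nat_lit 0) (XT.lf (nat_lit 84) (nat_lit 386919128) (nat_lit 0) (nat_lit 545301504) (nat_lit 252) (nat_lit 386919128) (nat_lit 33) (nat_lit 1) (nat_lit 32) (nat_lit 1) (nat_lit 35) (nat_lit 1) (nat_lit 297) (nat_lit 241) (nat_lit 182)) (XT.lf (nat_lit 168) (nat_lit 372162160) (nat_lit 0) (nat_lit 462300218) (nat_lit 84) (nat_lit 462300218) (nat_lit 33) (nat_lit 1) (nat_lit 31) (nat_lit 1) (nat_lit 32) (nat_lit 1) (nat_lit 298) (nat_lit 241) (nat_lit 181))) (XT.nd (nat_lit 94) (nat_lit 0) (nat_lit 0) (XT.lf (nat_lit 252) (nat_lit 1258912937) (nat_lit 0) (nat_lit 8110796) (nat_lit 168) (nat_lit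 8110796) (nat_lit 31) (nat_lit 1) (nat_lit 28) (nat_lit 1) (nat_lit 30) (nat_lit 1) (nat_lit 299) (nat_lit 241) (nat_lit 180)) (XT.lf (nat_lit 84) (nat_lit 429427589) (nat_lit 0) (nat_lit 394421743) (nat_lit 252) (nat_lit 429427589) (nat_lit 29) (nat_lit 1) (nat_lit 28) (nat_lit 1) (nat_lit 31) (nat_lit 1) (nat_lit 300) (nat_lit 241) (nat_lit 179))))))))
noncomputable def ec30 : XT := (XT.nd (nat_lit 2538) (nat_lit 168) (nat_lit 0) (XT.nd (nat_lit 1222) (nat_lit 1092) (nat_lit 0) (XT.nd (nat_lit 564) (nat_lit 588) (nat_lit 0) (XT.nd (nat_lit 282) (nat_lit 252) (nat_lit 0) (XT.nd (nat_lit 94) (nat_lit 168) (nat_lit 0) (XT.lf (nat_lit 168) (nat_lit 471486150) (nat_lit 0) (nat_lit 380335534) (nat_lit 84) (nat_lit 380335534) (nat_lit 29) (nat_lit 1) (nat_lit 27) (nat_lit 1) (nat_lit 28) (nat_lit 1) (nat_lit 301) (nat_lit 241) (nat_lit 178)) (XT.nd (nat_lit 94) (nat_lit 168)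 (nat_lit 0) (XT.lf (nat_lit 0) (nat_lit 47416991) (nat_lit 0) (nat_lit 1116841169) (nat_lit 168) (nat_lit 47416991) (nat_lit 27) (nat_lit 3) (nat_lit 27) (nat_lit 1) (nat_lit 29) (nat_lit 1) (nat_lit 302) (nat_lit 241) (nat_lit 177)) (XT.lf (nat_lit 84) (nat_lit 459108536) (nat_lit 0) (nat_lit 272873502) (nat_lit 168) (nat_lit 459108536) (nat_lit 26) (nat_lit 1) (nat_lit 25) (nat_lit 1) (nat_lit 27) (nat_lit 1) (nat_lit 303) (nat_lit 241) (nat_lit 176)))) (XT.nd (nat_lit 94) (nat_lit 168) (nat_lit 0) (XT.lf (nat_lit 168) (nat_lit 545328459) (nat_lit 0) (nat_lit 312902985) (nat_lit 84) (nat_lit 312902985) (nat_lit 26) (nat_lit 1) (nat_lit 24) (nat_lit 1) (nat_lit 25) (nat_lit 1) (nat_lit 304) (nat_lit 241) (nat_lit 175)) (XT.nd (nat_lit 94) (nat_lit 168) (nat_lit 0) (XT.lf (nat_lit 0) (nat_lit 90628318) (nat_lit 0) (nat_lit 970446235) (nat_lit 168) (nat_lit 90628318) (nat_lit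 24) (nat_lit 3) (nat_lit 24) (nat_lit 1) (nat_lit 26) (nat_lit 1) (nat_lit 305) (nat_lit 241) (nat_lit 174)) (XT.lf (nat_lit 84) (nat_lit 478488201) (nat_lit 0) (nat_lit 175333475) (nat_lit 168) (nat_lit 478488201) (nat_lit 23) (nat_lit 1) (nat_lit 22) (nat_lit 1) (nat_lit 24) (nat_lit 1) (nat_lit 306) (nat_lit 241) (nat_lit 173))))) (XT.nd (nat_lit 282) (nat_lit 336) (nat_lit 0) (XT.nd (nat_lit 94) (nat_lit 168) (nat_lit 0) (XT.lf (nat_lit 168) (nat_lit 598581775) (nat_lit 0) (nat_lit 257426060) (nat_lit 84) (nat_lit 257426060) (nat_lit 23) (nat_lit 1) (nat_lit 21) (nat_lit 1) (nat_lit 22) (nat_lit 1) (nat_lit 307) (nat_lit 241) (nat_lit 172)) (XT.nd (nat_lit 94) (nat_lit 168) (nat_lit 0) (XT.lf (nat_lit 0) (nat_lit 123720371) (nat_lit 0) (nat_lit 847548749) (nat_lit 168) (nat_lit 123720371) (nat_lit 21) (nat_lit 3) (nat_lit 21) (nat_lit 1) (nat_lit 23) (nat_lit 1) (nat_lit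 308) (nat_lit 241) (nat_lit 171)) (XT.lf (nat_lit 84) (nat_lit 489632924) (nat_lit 0) (nat_lit 97428017) (nat_lit 168) (nat_lit 489632924) (nat_lit 20) (nat_lit 1) (nat_lit 19) (nat_lit 1) (nat_lit 21) (nat_lit 1) (nat_lit 309) (nat_lit 241) (nat_lit 170)))) (XT.nd (nat_lit 188) (nat_lit 252) (nat_lit 0) (XT.nd (nat_lit 94) (nat_lit 0) (nat_lit 0) (XT.lf (nat_lit 168) (nat_lit 635253472) (nat_lit 0) (nat_lit 211785056) (nat_lit 84) (nat_lit 211785056) (nat_lit 20) (nat_lit 1) (nat_lit 18) (nat_lit 1) (nat_lit 19) (nat_lit 1) (nat_lit 310) (nat_lit 241) (nat_lit 169)) (XT.lf (nat_lit 0) (nat_lit 148604323) (nat_lit 0) (nat_lit 744099720) (nat_lit 168) (nat_lit 148604323) (nat_lit 18) (nat_lit 3) (nat_lit 18) (nat_lit 1) (nat_lit 20) (nat_lit 1) (nat_lit 311) (nat_lit 241) (nat_lit 168))) (XT.nd (nat_lit 94) (nat_lit 84) (nat_lit 0) (XT.lf (nat_lit 84) (nat_lit 494231263)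 (nat_lit 0) (nat_lit 35564493) (nat_lit 168) (nat_lit 494231263) (nat_lit 17) (nat_lit 1) (nat_lit 16) (nat_lit 1) (nat_lit 18) (nat_lit 1) (nat_lit 312) (nat_lit 241) (nat_lit 167)) (XT.lf (nat_lit 168) (nat_lit 658623426) (nat_lit 0) (nat_lit 174236090) (nat_lit 84) (nat_lit 174236090) (nat_lit 17) (nat_lit 1) (nat_lit 15) (nat_lit 1) (nat_lit 16) (nat_lit 1) (nat_lit 313) (nat_lit 241) (nat_lit 166)))))) (XT.nd (nat_lit 658) (nat_lit 588) (nat_lit 0) (XT.nd (nat_lit 282) (nat_lit 252) (nat_lit 0) (XT.nd (nat_lit 94) (nat_lit 252) (nat_lit 0) (XT.lf (nat_lit 0) (nat_lit 166846922) (nat_lit 0) (nat_lit 656762459) (nat_lit 168) (nat_lit 166846922) (nat_lit 15) (nat_lit 3) (nat_lit 15) (nat_lit 1) (nat_lit 17) (nat_lit 1) (nat_lit 314) (nat_lit 241) (nat_lit 165)) (XT.nd (nat_lit 94) (nat_lit 168) (nat_lit 0) (XT.lf (nat_lit 84) (nat_lit 13644156) (nat_lit 0) (nat_lit 480230383)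 (nat_lit 84) (nat_lit 480230383) (nat_lit 15) (nat_lit 3) (nat_lit 14) (nat_lit 1) (nat_lit 15) (nat_lit 1) (nat_lit 315) (nat_lit 241) (nat_lit 164)) (XT.lf (nat_lit 168) (nat_lit 671373811) (nat_lit 0) (nat_lit 143344462) (nat_lit 84) (nat_lit 143344462) (nat_lit 14) (nat_lit 1) (nat_lit 12) (nat_lit 1) (nat_lit 13) (nat_lit 1) (nat_lit 316) (nat_lit 241) (nat_lit 163)))) (XT.nd (nat_lit 188) (nat_lit 168) (nat_lit 0) (XT.nd (nat_lit 94) (nat_lit 84) (nat_lit 0) (XT.lf (nat_lit 0) (nat_lit 179731831) (nat_lit 0) (nat_lit 582786556) (nat_lit 168) (nat_lit 179731831) (nat_lit 12) (nat_lit 3) (nat_lit 12) (nat_lit 1) (nat_lit 14) (nat_lit 1) (nat_lit 317) (nat_lit 241) (nat_lit 162)) (XT.lf (nat_lit 84) (nat_lit 53006594) (nat_lit 0) (nat_lit 436868237) (nat_lit 84) (nat_lit 436868237) (nat_lit 12) (nat_lit 3) (nat_lit 11) (nat_lit 1) (nat_lit 12) (nat_lit 1) (nat_lit 318)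 (nat_lit 241) (nat_lit 161))) (XT.nd (nat_lit 94) (nat_lit 0) (nat_lit 0) (XT.lf (nat_lit 168) (nat_lit 675695837) (nat_lit 0) (nat_lit 117929844) (nat_lit 84) (nat_lit 117929844) (nat_lit 11) (nat_lit 1) (nat_lit 9) (nat_lit 1) (nat_lit 10) (nat_lit 1) (nat_lit 319) (nat_lit 241) (nat_lit 160)) (XT.lf (nat_lit 0) (nat_lit 188310065) (nat_lit 0) (nat_lit 519904185) (nat_lit 168) (nat_lit 188310065) (nat_lit 9) (nat_lit 3) (nat_lit 9) (nat_lit 1) (nat_lit 11) (nat_lit 1) (nat_lit 320) (nat_lit 241) (nat_lit 159))))) (XT.nd (nat_lit 282) (nat_lit 336) (nat_lit 0) (XT.nd (nat_lit 94) (nat_lit 168) (nat_lit 0) (XT.lf (nat_lit 84) (nat_lit 83400572) (nat_lit 0) (nat_lit 399204496) (nat_lit 84) (nat_lit 399204496) (nat_lit 9) (nat_lit 3) (nat_lit 8) (nat_lit 1) (nat_lit 9) (nat_lit 1) (nat_lit 321) (nat_lit 241) (nat_lit 158)) (XT.nd (nat_lit 94) (nat_lit 0) (nat_lit 0) (XT.lf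 (nat_lit 168) (nat_lit 673377534) (nat_lit 0) (nat_lit 97021174) (nat_lit 84) (nat_lit 97021174) (nat_lit 8) (nat_lit 1) (nat_lit 6) (nat_lit 1) (nat_lit 7) (nat_lit 1) (nat_lit 322) (nat_lit 241) (nat_lit 157)) (XT.lf (nat_lit 0) (nat_lit 193441483) (nat_lit 0) (nat_lit 466244786) (nat_lit 168) (nat_lit 193441483) (nat_lit 6) (nat_lit 3) (nat_lit 6) (nat_lit 1) (nat_lit 8) (nat_lit 1) (nat_lit 323) (nat_lit 241) (nat_lit 156)))) (XT.nd (nat_lit 188) (nat_lit 84) (nat_lit 0) (XT.nd (nat_lit 94) (nat_lit 168) (nat_lit 0) (XT.lf (nat_lit 84) (nat_lit 106510920) (nat_lit 0) (nat_lit 366323590) (nat_lit 84) (nat_lit 366323590) (nat_lit 6) (nat_lit 3) (nat_lit 5) (nat_lit 1) (nat_lit 6) (nat_lit 1) (nat_lit 324) (nat_lit 241) (nat_lit 155)) (XT.lf (nat_lit 168) (nat_lit 665875932) (nat_lit 0) (nat_lit 79819560) (nat_lit 84) (nat_lit 79819560) (nat_lit 5) (nat_lit 1) (nat_lit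 3) (nat_lit 1) (nat_lit 4) (nat_lit 1) (nat_lit 325) (nat_lit 241) (nat_lit 154))) (XT.nd (nat_lit 94) (nat_lit 84) (nat_lit 0) (XT.lf (nat_lit 0) (nat_lit 195828907) (nat_lit 0) (nat_lit 420264860) (nat_lit 168) (nat_lit 195828907) (nat_lit 3) (nat_lit 3) (nat_lit 3) (nat_lit 1) (nat_lit 5) (nat_lit 1) (nat_lit 326) (nat_lit 241) (nat_lit 153)) (XT.lf (nat_lit 84) (nat_lit 123719239) (nat_lit 0) (nat_lit 337467765) (nat_lit 84) (nat_lit 337467765) (nat_lit 3) (nat_lit 3) (nat_lit 2) (nat_lit 1) (nat_lit 3) (nat_lit 1) (nat_lit 327) (nat_lit 241) (nat_lit 152))))))) (XT.nd (nat_lit 37600) (nat_lit 0) (nat_lit 7476) (XT.nd (nat_lit 36942) (nat_lit 0) (nat_lit 10920) (XT.nd (nat_lit 36660) (nat_lit 0) (nat_lit 10752) (XT.nd (nat_lit 94) (nat_lit 0) (nat_lit 0) (XT.lf (nat_lit 0) (nat_lit 1141394278) (nat_lit 0) (nat_lit 0) (nat_lit 0) (nat_lit 0) (nat_lit 0) (nat_lit 0) (nat_lit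 1) (nat_lit 0) (nat_lit 1) (nat_lit 0) (nat_lit 328) (nat_lit 241) (nat_lit 151)) (XT.nd (nat_lit 36472) (nat_lit 0) (nat_lit 10752) (XT.lf (nat_lit 0) (nat_lit 1140729261) (nat_lit 0) (nat_lit 0) (nat_lit 0) (nat_lit 0) (nat_lit 0) (nat_lit 0) (nat_lit 1) (nat_lit 0) (nat_lit 1) (nat_lit 0) (nat_lit 329) (nat_lit 241) (nat_lit 150)) (XT.lf (nat_lit 924) (nat_lit 592418042) (nat_lit 0) (nat_lit 1051836873) (nat_lit 924) (nat_lit 592418042) (nat_lit 139) (nat_lit 1) (nat_lit 128) (nat_lit 0) (nat_lit 139) (nat_lit 0) (nat_lit 236) (nat_lit 242) (nat_lit 242)))) (XT.nd (nat_lit 94) (nat_lit 0) (nat_lit 84) (XT.lf (nat_lit 924) (nat_lit 2296286294) (nat_lit 84) (nat_lit 1034871762) (nat_lit 0) (nat_lit 1034871762) (nat_lit 139) (nat_lit 1) (nat_lit 129) (nat_lit 1) (nat_lit 128) (nat_lit 0) (nat_lit 237) (nat_lit 242) (nat_lit 241)) (XT.nd (nat_lit 94) (nat_lit 0) (nat_lit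 0) (XT.lf (nat_lit 924) (nat_lit 1094375472) (nat_lit 0) (nat_lit 2073280492) (nat_lit 840) (nat_lit 1094375472) (nat_lit 140) (nat_lit 1) (nat_lit 129) (nat_lit 1) (nat_lit 139) (nat_lit 1) (nat_lit 238) (nat_lit 242) (nat_lit 240)) (XT.lf (nat_lit 924) (nat_lit 2052896320) (nat_lit 84) (nat_lit 1054248329) (nat_lit 0) (nat_lit 1054248329) (nat_lit 140) (nat_lit 1) (nat_lit 130) (nat_lit 1) (nat_lit 129) (nat_lit 1) (nat_lit 239) (nat_lit 242) (nat_lit 239))))) (XT.nd (nat_lit 282) (nat_lit 0) (nat_lit 84) (XT.nd (nat_lit 94) (nat_lit 0) (nat_lit 0) (XT.lf (nat_lit 924) (nat_lit 944928461) (nat_lit 0) (nat_lit 2174087331) (nat_lit 840) (nat_lit 944928461) (nat_lit 141) (nat_lit 1) (nat_lit 130) (nat_lit 1) (nat_lit 140) (nat_lit 1) (nat_lit 240) (nat_lit 242) (nat_lit 238)) (XT.nd (nat_lit 94) (nat_lit 0) (nat_lit 84) (XT.lf (nat_lit 924) (nat_lit 1699515383) (nat_lit 84)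 (nat_lit 1134975378) (nat_lit 0) (nat_lit 1134975378) (nat_lit 141) (nat_lit 1) (nat_lit 131) (nat_lit 1) (nat_lit 130) (nat_lit 1) (nat_lit 241) (nat_lit 242) (nat_lit 237)) (XT.lf (nat_lit 924) (nat_lit 745188409) (nat_lit 0) (nat_lit 2387783454) (nat_lit 840) (nat_lit 745188409) (nat_lit 142) (nat_lit 1) (nat_lit 131) (nat_lit 1) (nat_lit 141) (nat_lit 1) (nat_lit 242) (nat_lit 242) (nat_lit 236)))) (XT.nd (nat_lit 188) (nat_lit 0) (nat_lit 84) (XT.nd (nat_lit 94) (nat_lit 0) (nat_lit 84) (XT.lf (nat_lit 924) (nat_lit 1252684596) (nat_lit 84) (nat_lit 1268341886) (nat_lit 0) (nat_lit 1268341886) (nat_lit 142) (nat_lit 1) (nat_lit 132) (nat_lit 1) (nat_lit 131) (nat_lit 1) (nat_lit 243) (nat_lit 242) (nat_lit 235)) (XT.lf (nat_lit 924) (nat_lit 502887619) (nat_lit 0) (nat_lit 2698051517) (nat_lit 840) (nat_lit 502887619) (nat_lit 143) (nat_lit 1) (nat_lit 132) (nat_lit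 1) (nat_lit 142) (nat_lit 1) (nat_lit 244) (nat_lit 242) (nat_lit 234))) (XT.nd (nat_lit 94) (nat_lit 0) (nat_lit 84) (XT.lf (nat_lit 924) (nat_lit 727106509) (nat_lit 84) (nat_lit 1446589903) (nat_lit 0) (nat_lit 1446589903) (nat_lit 143) (nat_lit 1) (nat_lit 133) (nat_lit 1) (nat_lit 132) (nat_lit 1) (nat_lit 245) (nat_lit 242) (nat_lit 233)) (XT.lf (nat_lit 84) (nat_lit 224893970) (nat_lit 0) (nat_lit 3090368443) (nat_lit 840) (nat_lit 224893970) (nat_lit 134) (nat_lit 1) (nat_lit 133) (nat_lit 1) (nat_lit 143) (nat_lit 1) (nat_lit 246) (nat_lit 242) (nat_lit 232)))))) (XT.nd (nat_lit 658) (nat_lit 1428) (nat_lit 0) (XT.nd (nat_lit 282) (nat_lit 840) (nat_lit 0) (XT.nd (nat_lit 94) (nat_lit 588) (nat_lit 0) (XT.lf (nat_lit 924) (nat_lit 135830365) (nat_lit 0) (nat_lit 1662819121) (nat_lit 840) (nat_lit 1662819121) (nat_lit 134) (nat_lit 1) (nat_lit 123) (nat_lit 1) (nat_lit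 133) (nat_lit 1) (nat_lit 247) (nat_lit 242) (nat_lit 231)) (XT.nd (nat_lit 94) (nat_lit 0) (nat_lit 0) (XT.lf (nat_lit 588) (nat_lit 3223425630) (nat_lit 0) (nat_lit 81367888) (nat_lit 504) (nat_lit 81367888) (nat_lit 123) (nat_lit 1) (nat_lit 116) (nat_lit 1) (nat_lit 122) (nat_lit 1) (nat_lit 248) (nat_lit 242) (nat_lit 230)) (XT.lf (nat_lit 84) (nat_lit 1409276075) (nat_lit 0) (nat_lit 493270791) (nat_lit 588) (nat_lit 1409276075) (nat_lit 117) (nat_lit 1) (nat_lit 116) (nat_lit 1) (nat_lit 123) (nat_lit 1) (nat_lit 249) (nat_lit 242) (nat_lit 229)))) (XT.nd (nat_lit 188) (nat_lit 420) (nat_lit 0) (XT.nd (nat_lit 94) (nat_lit 0) (nat_lit 0) (XT.lf (nat_lit 504) (nat_lit 2425002380) (nat_lit 0) (nat_lit 407821583) (nat_lit 420) (nat_lit 407821583) (nat_lit 117) (nat_lit 1) (nat_lit 111) (nat_lit 1) (nat_lit 116) (nat_lit 1) (nat_lit 250) (nat_lit 242) (nat_lit 228)) (XT.lf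 (nat_lit 84) (nat_lit 1005219468) (nat_lit 0) (nat_lit 1160525560) (nat_lit 504) (nat_lit 1005219468) (nat_lit 112) (nat_lit 1) (nat_lit 111) (nat_lit 1) (nat_lit 117) (nat_lit 1) (nat_lit 251) (nat_lit 242) (nat_lit 227))) (XT.nd (nat_lit 94) (nat_lit 0) (nat_lit 0) (XT.lf (nat_lit 504) (nat_lit 1596898457) (nat_lit 0) (nat_lit 753405898) (nat_lit 420) (nat_lit 753405898) (nat_lit 112) (nat_lit 1) (nat_lit 106) (nat_lit 1) (nat_lit 111) (nat_lit 1) (nat_lit 252) (nat_lit 242) (nat_lit 226)) (XT.lf (nat_lit 84) (nat_lit 588435858) (nat_lit 0) (nat_lit 1861540272) (nat_lit 504) (nat_lit 588435858) (nat_lit 107) (nat_lit 1) (nat_lit 106) (nat_lit 1) (nat_lit 112) (nat_lit 1) (nat_lit 253) (nat_lit 242) (nat_lit 225))))) (XT.nd (nat_lit 282) (nat_lit 672) (nat_lit 0) (XT.nd (nat_lit 94) (nat_lit 420) (nat_lit 0) (XT.lf (nat_lit 420) (nat_lit 746821407) (nat_lit 0) (nat_lit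 1113986002) (nat_lit 336) (nat_lit 1113986002) (nat_lit 107) (nat_lit 1) (nat_lit 102) (nat_lit 1) (nat_lit 106) (nat_lit 1) (nat_lit 254) (nat_lit 242) (nat_lit 224)) (XT.nd (nat_lit 94) (nat_lit 420) (nat_lit 0) (XT.lf (nat_lit 84) (nat_lit 162503355) (nat_lit 0) (nat_lit 2588614582) (nat_lit 420) (nat_lit 162503355) (nat_lit 103) (nat_lit 1) (nat_lit 102) (nat_lit 1) (nat_lit 107) (nat_lit 1) (nat_lit 255) (nat_lit 242) (nat_lit 223)) (XT.lf (nat_lit 84) (nat_lit 1369299964) (nat_lit 0) (nat_lit 114681531) (nat_lit 420) (nat_lit 1369299964) (nat_lit 98) (nat_lit 1) (nat_lit 97) (nat_lit 1) (nat_lit 102) (nat_lit 1) (nat_lit 256) (nat_lit 242) (nat_lit 222)))) (XT.nd (nat_lit 188) (nat_lit 336) (nat_lit 0) (XT.nd (nat_lit 94) (nat_lit 0) (nat_lit 0) (XT.lf (nat_lit 420) (nat_lit 2265038082) (nat_lit 0) (nat_lit 265100718) (nat_lit 336) (nat_lit 265100718) (nat_lit 98)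 (nat_lit 1) (nat_lit 93) (nat_lit 1) (nat_lit 97) (nat_lit 1) (nat_lit 257) (nat_lit 242) (nat_lit 221)) (XT.lf (nat_lit 84) (nat_lit 888447514) (nat_lit 0) (nat_lit 961298272) (nat_lit 420) (nat_lit 888447514) (nat_lit 94) (nat_lit 1) (nat_lit 93) (nat_lit 1) (nat_lit 98) (nat_lit 1) (nat_lit 258) (nat_lit 242) (nat_lit 220))) (XT.nd (nat_lit 94) (nat_lit 0) (nat_lit 0) (XT.lf (nat_lit 420) (nat_lit 1296492069) (nat_lit 0) (nat_lit 693316586) (nat_lit 336) (nat_lit 693316586) (nat_lit 94) (nat_lit 1) (nat_lit 89) (nat_lit 1) (nat_lit 93) (nat_lit 1) (nat_lit 259) (nat_lit 242) (nat_lit 219)) (XT.lf (nat_lit 84) (nat_lit 408855737) (nat_lit 0) (nat_lit 1811955906) (nat_lit 420) (nat_lit 408855737) (nat_lit 90) (nat_lit 1) (nat_lit 89) (nat_lit 1) (nat_lit 94) (nat_lit 1) (nat_lit 260) (nat_lit 242) (nat_lit 218))))))))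
noncomputable def ec31 : XT := (XT.nd (nat_lit 2538) (nat_lit 2520) (nat_lit 0) (XT.nd (nat_lit 1222) (nat_lit 1680) (nat_lit 0) (XT.nd (nat_lit 564) (nat_lit 1092) (nat_lit 0) (XT.nd (nat_lit 282) (nat_lit 504) (nat_lit 0) (XT.nd (nat_lit 94) (nat_lit 420) (nat_lit 0) (XT.lf (nat_lit 336) (nat_lit 332504860) (nat_lit 0) (nat_lit 1122429299) (nat_lit 252) (nat_lit 1122429299) (nat_lit 90) (nat_lit 1) (nat_lit 86) (nat_lit 1) (nat_lit 89) (nat_lit 1) (nat_lit 261) (nat_lit 242) (nat_lit 217)) (XT.nd (nat_lit 94) (nat_lit 0) (nat_lit 0) (XT.lf (nat_lit 420) (nat_lit 2394208612) (nat_lit 0) (nat_lit 66434695) (nat_lit 336) (nat_lit 66434695) (nat_lit 86) (nat_lit 1) (nat_lit 81) (nat_lit 1) (nat_lit 85) (nat_lit 1) (nat_lit 262) (nat_lit 242) (nat_lit 216)) (XT.lf (nat_lit 84) (nat_lit 936871530) (nat_lit 0) (nat_lit 603327808) (nat_lit 420) (nat_lit 936871530) (nat_lit 82)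 (nat_lit 1) (nat_lit 81) (nat_lit 1) (nat_lit 86) (nat_lit 1) (nat_lit 263) (nat_lit 242) (nat_lit 215)))) (XT.nd (nat_lit 94) (nat_lit 252) (nat_lit 0) (XT.lf (nat_lit 336) (nat_lit 1368330488) (nat_lit 0) (nat_lit 530325576) (nat_lit 252) (nat_lit 530325576) (nat_lit 82) (nat_lit 1) (nat_lit 78) (nat_lit 1) (nat_lit 81) (nat_lit 1) (nat_lit 264) (nat_lit 242) (nat_lit 214)) (XT.nd (nat_lit 94) (nat_lit 252) (nat_lit 0) (XT.lf (nat_lit 84) (nat_lit 432276767) (nat_lit 0) (nat_lit 1517560670) (nat_lit 336) (nat_lit 432276767) (nat_lit 79) (nat_lit 1) (nat_lit 78) (nat_lit 1) (nat_lit 82) (nat_lit 1) (nat_lit 265) (nat_lit 242) (nat_lit 213)) (XT.lf (nat_lit 336) (nat_lit 360289174) (nat_lit 0) (nat_lit 988011907) (nat_lit 252) (nat_lit 988011907) (nat_lit 79) (nat_lit 1) (nat_lit 75) (nat_lit 1) (nat_lit 78) (nat_lit 1) (nat_lit 266) (nat_lit 242) (nat_lit 212))))) (XT.nd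 (nat_lit 282) (nat_lit 504) (nat_lit 0) (XT.nd (nat_lit 94) (nat_lit 252) (nat_lit 0) (XT.lf (nat_lit 336) (nat_lit 2168374514) (nat_lit 0) (nat_lit 61919416) (nat_lit 252) (nat_lit 61919416) (nat_lit 75) (nat_lit 1) (nat_lit 71) (nat_lit 1) (nat_lit 74) (nat_lit 1) (nat_lit 267) (nat_lit 242) (nat_lit 211)) (XT.nd (nat_lit 94) (nat_lit 252) (nat_lit 0) (XT.lf (nat_lit 84) (nat_lit 820233980) (nat_lit 0) (nat_lit 607785143) (nat_lit 336) (nat_lit 820233980) (nat_lit 72) (nat_lit 1) (nat_lit 71) (nat_lit 1) (nat_lit 75) (nat_lit 1) (nat_lit 268) (nat_lit 242) (nat_lit 210)) (XT.lf (nat_lit 336) (nat_lit 1127896828) (nat_lit 0) (nat_lit 539011284) (nat_lit 252) (nat_lit 539011284) (nat_lit 72) (nat_lit 1) (nat_lit 68) (nat_lit 1) (nat_lit 71) (nat_lit 1) (nat_lit 269) (nat_lit 242) (nat_lit 209)))) (XT.nd (nat_lit 188) (nat_lit 336) (nat_lit 0) (XT.nd (nat_lit 94) (nat_lit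 168) (nat_lit 0) (XT.lf (nat_lit 84) (nat_lit 310621866) (nat_lit 0) (nat_lit 1543477366) (nat_lit 336) (nat_lit 310621866) (nat_lit 69) (nat_lit 1) (nat_lit 68) (nat_lit 1) (nat_lit 72) (nat_lit 1) (nat_lit 270) (nat_lit 242) (nat_lit 208)) (XT.lf (nat_lit 252) (nat_lit 113822179) (nat_lit 0) (nat_lit 1005238489) (nat_lit 168) (nat_lit 1005238489) (nat_lit 69) (nat_lit 1) (nat_lit 66) (nat_lit 1) (nat_lit 68) (nat_lit 1) (nat_lit 271) (nat_lit 242) (nat_lit 207))) (XT.nd (nat_lit 94) (nat_lit 0) (nat_lit 0) (XT.lf (nat_lit 336) (nat_lit 1719814972) (nat_lit 0) (nat_lit 182656815) (nat_lit 252) (nat_lit 182656815) (nat_lit 66) (nat_lit 1) (nat_lit 62) (nat_lit 1) (nat_lit 65) (nat_lit 1) (nat_lit 272) (nat_lit 242) (nat_lit 206)) (XT.lf (nat_lit 84) (nat_lit 600690546) (nat_lit 0) (nat_lit 845015040) (nat_lit 336) (nat_lit 600690546) (nat_lit 63) (nat_lit 1) (nat_lit 62)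 (nat_lit 1) (nat_lit 66) (nat_lit 1) (nat_lit 273) (nat_lit 242) (nat_lit 205)))))) (XT.nd (nat_lit 658) (nat_lit 672) (nat_lit 0) (XT.nd (nat_lit 282) (nat_lit 588) (nat_lit 0) (XT.nd (nat_lit 94) (nat_lit 252) (nat_lit 0) (XT.lf (nat_lit 252) (nat_lit 694005265) (nat_lit 0) (nat_lit 657426893) (nat_lit 168) (nat_lit 657426893) (nat_lit 63) (nat_lit 1) (nat_lit 60) (nat_lit 1) (nat_lit 62) (nat_lit 1) (nat_lit 274) (nat_lit 242) (nat_lit 204)) (XT.nd (nat_lit 94) (nat_lit 252) (nat_lit 0) (XT.lf (nat_lit 84) (nat_lit 99706528) (nat_lit 0) (nat_lit 1773154626) (nat_lit 252) (nat_lit 99706528) (nat_lit 61) (nat_lit 1) (nat_lit 60) (nat_lit 1) (nat_lit 63) (nat_lit 1) (nat_lit 275) (nat_lit 242) (nat_lit 203)) (XT.lf (nat_lit 84) (nat_lit 822895473) (nat_lit 0) (nat_lit 290617289) (nat_lit 252) (nat_lit 822895473) (nat_lit 58) (nat_lit 1) (nat_lit 57) (nat_lit 1) (nat_lit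 60) (nat_lit 1) (nat_lit 276) (nat_lit 242) (nat_lit 202)))) (XT.nd (nat_lit 188) (nat_lit 420) (nat_lit 0) (XT.nd (nat_lit 94) (nat_lit 0) (nat_lit 0) (XT.lf (nat_lit 252) (nat_lit 1142734589) (nat_lit 0) (nat_lit 379356922) (nat_lit 168) (nat_lit 379356922) (nat_lit 58) (nat_lit 1) (nat_lit 55) (nat_lit 1) (nat_lit 57) (nat_lit 1) (nat_lit 277) (nat_lit 242) (nat_lit 201)) (XT.lf (nat_lit 84) (nat_lit 322449971) (nat_lit 0) (nat_lit 1222361377) (nat_lit 252) (nat_lit 322449971) (nat_lit 56) (nat_lit 1) (nat_lit 55) (nat_lit 1) (nat_lit 58) (nat_lit 1) (nat_lit 278) (nat_lit 242) (nat_lit 200))) (XT.nd (nat_lit 94) (nat_lit 252) (nat_lit 0) (XT.lf (nat_lit 252) (nat_lit 151056202) (nat_lit 0) (nat_lit 841353564) (nat_lit 168) (nat_lit 841353564) (nat_lit 56) (nat_lit 1) (nat_lit 53) (nat_lit 1) (nat_lit 55) (nat_lit 1) (nat_lit 279) (nat_lit 242) (nat_lit 199)) (XT.lf (nat_lit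 252) (nat_lit 1484677945) (nat_lit 0) (nat_lit 158279012) (nat_lit 168) (nat_lit 158279012) (nat_lit 53) (nat_lit 1) (nat_lit 50) (nat_lit 1) (nat_lit 52) (nat_lit 1) (nat_lit 280) (nat_lit 242) (nat_lit 198))))) (XT.nd (nat_lit 282) (nat_lit 504) (nat_lit 0) (XT.nd (nat_lit 94) (nat_lit 168) (nat_lit 0) (XT.lf (nat_lit 84) (nat_lit 494252926) (nat_lit 0) (nat_lit 780480375) (nat_lit 252) (nat_lit 494252926) (nat_lit 51) (nat_lit 1) (nat_lit 50) (nat_lit 1) (nat_lit 53) (nat_lit 1) (nat_lit 281) (nat_lit 242) (nat_lit 197)) (XT.nd (nat_lit 94) (nat_lit 0) (nat_lit 0) (XT.lf (nat_lit 252) (nat_lit 503372609) (nat_lit 0) (nat_lit 617150066) (nat_lit 168) (nat_lit 617150066) (nat_lit 51) (nat_lit 1) (nat_lit 48) (nat_lit 1) (nat_lit 50) (nat_lit 1) (nat_lit 282) (nat_lit 242) (nat_lit 196)) (XT.lf (nat_lit 84) (nat_lit 16544469) (nat_lit 0) (nat_lit 1674368480) (nat_lit 252)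 (nat_lit 16544469) (nat_lit 49) (nat_lit 1) (nat_lit 48) (nat_lit 1) (nat_lit 51) (nat_lit 1) (nat_lit 283) (nat_lit 242) (nat_lit 195)))) (XT.nd (nat_lit 188) (nat_lit 168) (nat_lit 0) (XT.nd (nat_lit 94) (nat_lit 168) (nat_lit 0) (XT.lf (nat_lit 84) (nat_lit 624692188) (nat_lit 0) (nat_lit 427665656) (nat_lit 168) (nat_lit 624692188) (nat_lit 47) (nat_lit 1) (nat_lit 46) (nat_lit 1) (nat_lit 48) (nat_lit 1) (nat_lit 284) (nat_lit 242) (nat_lit 194)) (XT.lf (nat_lit 252) (nat_lit 775171889) (nat_lit 0) (nat_lit 436270321) (nat_lit 168) (nat_lit 436270321) (nat_lit 47) (nat_lit 1) (nat_lit 44) (nat_lit 1) (nat_lit 46) (nat_lit 1) (nat_lit 285) (nat_lit 242) (nat_lit 193))) (XT.nd (nat_lit 94) (nat_lit 168) (nat_lit 0) (XT.lf (nat_lit 84) (nat_lit 155416606) (nat_lit 0) (nat_lit 1308333712) (nat_lit 252) (nat_lit 155416606) (nat_lit 45) (nat_lit 1) (nat_lit 44) (nat_lit 1)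 (nat_lit 47) (nat_lit 1) (nat_lit 286) (nat_lit 242) (nat_lit 192)) (XT.lf (nat_lit 84) (nat_lit 721620650) (nat_lit 0) (nat_lit 147615422) (nat_lit 168) (nat_lit 721620650) (nat_lit 43) (nat_lit 1) (nat_lit 42) (nat_lit 1) (nat_lit 44) (nat_lit 1) (nat_lit 287) (nat_lit 242) (nat_lit 191))))))) (XT.nd (nat_lit 1316) (nat_lit 1092) (nat_lit 0) (XT.nd (nat_lit 658) (nat_lit 588) (nat_lit 0) (XT.nd (nat_lit 282) (nat_lit 588) (nat_lit 0) (XT.nd (nat_lit 94) (nat_lit 84) (nat_lit 0) (XT.lf (nat_lit 252) (nat_lit 981589163) (nat_lit 0) (nat_lit 290862992) (nat_lit 168) (nat_lit 290862992) (nat_lit 43) (nat_lit 1) (nat_lit 40) (nat_lit 1) (nat_lit 42) (nat_lit 1) (nat_lit 288) (nat_lit 242) (nat_lit 190)) (XT.nd (nat_lit 94) (nat_lit 84) (nat_lit 0) (XT.lf (nat_lit 84) (nat_lit 262914417) (nat_lit 0) (nat_lit 1010489972) (nat_lit 252) (nat_lit 262914417) (nat_lit 41) (nat_lit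 1) (nat_lit 40) (nat_lit 1) (nat_lit 43) (nat_lit 1) (nat_lit 289) (nat_lit 242) (nat_lit 189)) (XT.lf (nat_lit 168) (nat_lit 75473154) (nat_lit 0) (nat_lit 717179373) (nat_lit 84) (nat_lit 717179373) (nat_lit 41) (nat_lit 1) (nat_lit 39) (nat_lit 1) (nat_lit 40) (nat_lit 1) (nat_lit 290) (nat_lit 242) (nat_lit 188)))) (XT.nd (nat_lit 188) (nat_lit 336) (nat_lit 0) (XT.nd (nat_lit 94) (nat_lit 0) (nat_lit 0) (XT.lf (nat_lit 252) (nat_lit 1135035196) (nat_lit 0) (nat_lit 174476864) (nat_lit 168) (nat_lit 174476864) (nat_lit 39) (nat_lit 1) (nat_lit 36) (nat_lit 1) (nat_lit 38) (nat_lit 1) (nat_lit 291) (nat_lit 242) (nat_lit 187)) (XT.lf (nat_lit 84) (nat_lit 344922047) (nat_lit 0) (nat_lit 768590305) (nat_lit 252) (nat_lit 344922047) (nat_lit 37) (nat_lit 1) (nat_lit 36) (nat_lit 1) (nat_lit 39) (nat_lit 1) (nat_lit 292) (nat_lit 242) (nat_lit 186))) (XT.nd (nat_lit 94)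 (nat_lit 252) (nat_lit 0) (XT.lf (nat_lit 168) (nat_lit 253455952) (nat_lit 0) (nat_lit 590025245) (nat_lit 84) (nat_lit 590025245) (nat_lit 37) (nat_lit 1) (nat_lit 35) (nat_lit 1) (nat_lit 36) (nat_lit 1) (nat_lit 293) (nat_lit 242) (nat_lit 185)) (XT.lf (nat_lit 252) (nat_lit 1245681373) (nat_lit 0) (nat_lit 81812225) (nat_lit 168) (nat_lit 81812225) (nat_lit 35) (nat_lit 1) (nat_lit 32) (nat_lit 1) (nat_lit 34) (nat_lit 1) (nat_lit 294) (nat_lit 242) (nat_lit 184))))) (XT.nd (nat_lit 282) (nat_lit 252) (nat_lit 0) (XT.nd (nat_lit 94) (nat_lit 336) (nat_lit 0) (XT.lf (nat_lit 84) (nat_lit 406265084) (nat_lit 0) (nat_lit 572566579) (nat_lit 252) (nat_lit 406265084) (nat_lit 33) (nat_lit 1) (nat_lit 32) (nat_lit 1) (nat_lit 35) (nat_lit 1) (nat_lit 295) (nat_lit 242) (nat_lit 183)) (XT.nd (nat_lit 94) (nat_lit 252) (nat_lit 0) (XT.lf (nat_lit 168) (nat_lit 390770268) (nat_lit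 0) (nat_lit 485415229) (nat_lit 84) (nat_lit 485415229) (nat_lit 33) (nat_lit 1) (nat_lit 31) (nat_lit 1) (nat_lit 32) (nat_lit 1) (nat_lit 296) (nat_lit 242) (nat_lit 182)) (XT.lf (nat_lit 252) (nat_lit 1321858584) (nat_lit 0) (nat_lit 8516336) (nat_lit 168) (nat_lit 8516336) (nat_lit 31) (nat_lit 1) (nat_lit 28) (nat_lit 1) (nat_lit 30) (nat_lit 1) (nat_lit 297) (nat_lit 242) (nat_lit 181)))) (XT.nd (nat_lit 188) (nat_lit 168) (nat_lit 0) (XT.nd (nat_lit 94) (nat_lit 84) (nat_lit 0) (XT.lf (nat_lit 84) (nat_lit 450898969) (nat_lit 0) (nat_lit 414142830) (nat_lit 252) (nat_lit 450898969) (nat_lit 29) (nat_lit 1) (nat_lit 28) (nat_lit 1) (nat_lit 31) (nat_lit 1) (nat_lit 298) (nat_lit 242) (nat_lit 180)) (XT.lf (nat_lit 168) (nat_lit 495060457) (nat_lit 0) (nat_lit 399352310) (nat_lit 84) (nat_lit 399352310) (nat_lit 29) (nat_lit 1) (nat_lit 27) (nat_lit 1) (nat_lit 28)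 (nat_lit 1) (nat_lit 299) (nat_lit 242) (nat_lit 179))) (XT.nd (nat_lit 94) (nat_lit 168) (nat_lit 0) (XT.lf (nat_lit 0) (nat_lit 49787841) (nat_lit 0) (nat_lit 1172683227) (nat_lit 168) (nat_lit 49787841) (nat_lit 27) (nat_lit 3) (nat_lit 27) (nat_lit 1) (nat_lit 29) (nat_lit 1) (nat_lit 300) (nat_lit 242) (nat_lit 178)) (XT.lf (nat_lit 84) (nat_lit 482063963) (nat_lit 0) (nat_lit 286517177) (nat_lit 168) (nat_lit 482063963) (nat_lit 26) (nat_lit 1) (nat_lit 25) (nat_lit 1) (nat_lit 27) (nat_lit 1) (nat_lit 301) (nat_lit 242) (nat_lit 177)))))) (XT.nd (nat_lit 658) (nat_lit 504) (nat_lit 0) (XT.nd (nat_lit 282) (nat_lit 336) (nat_lit 0) (XT.nd (nat_lit 94) (nat_lit 168) (nat_lit 0) (XT.lf (nat_lit 168) (nat_lit 572594882) (nat_lit 0) (nat_lit 328548134) (nat_lit 84) (nat_lit 328548134) (nat_lit 26) (nat_lit 1) (nat_lit 24) (nat_lit 1) (nat_lit 25) (nat_lit 1) (nat_lit 302)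 (nat_lit 242) (nat_lit 176)) (XT.nd (nat_lit 94) (nat_lit 168) (nat_lit 0) (XT.lf (nat_lit 0) (nat_lit 95159734) (nat_lit 0) (nat_lit 1018968547) (nat_lit 168) (nat_lit 95159734) (nat_lit 24) (nat_lit 3) (nat_lit 24) (nat_lit 1) (nat_lit 26) (nat_lit 1) (nat_lit 303) (nat_lit 242) (nat_lit 175)) (XT.lf (nat_lit 84) (nat_lit 502412611) (nat_lit 0) (nat_lit 184100149) (nat_lit 168) (nat_lit 502412611) (nat_lit 23) (nat_lit 1) (nat_lit 22) (nat_lit 1) (nat_lit 24) (nat_lit 1) (nat_lit 304) (nat_lit 242) (nat_lit 174)))) (XT.nd (nat_lit 188) (nat_lit 252) (nat_lit 0) (XT.nd (nat_lit 94) (nat_lit 0) (nat_lit 0) (XT.lf (nat_lit 168) (nat_lit 628510864) (nat_lit 0) (nat_lit 270297363) (nat_lit 84) (nat_lit 270297363) (nat_lit 23) (nat_lit 1) (nat_lit 21) (nat_lit 1) (nat_lit 22) (nat_lit 1) (nat_lit 305) (nat_lit 242) (nat_lit 173)) (XT.lf (nat_lit 0) (nat_lit 129906390) (nat_lit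 0) (nat_lit 889926187) (nat_lit 168) (nat_lit 129906390) (nat_lit 21) (nat_lit 3) (nat_lit 21) (nat_lit 1) (nat_lit 23) (nat_lit 1) (nat_lit 306) (nat_lit 242) (nat_lit 172))) (XT.nd (nat_lit 94) (nat_lit 84) (nat_lit 0) (XT.lf (nat_lit 84) (nat_lit 514114570) (nat_lit 0) (nat_lit 102299418) (nat_lit 168) (nat_lit 514114570) (nat_lit 20) (nat_lit 1) (nat_lit 19) (nat_lit 1) (nat_lit 21) (nat_lit 1) (nat_lit 307) (nat_lit 242) (nat_lit 171)) (XT.lf (nat_lit 168) (nat_lit 667016145) (nat_lit 0) (nat_lit 222374309) (nat_lit 84) (nat_lit 222374309) (nat_lit 20) (nat_lit 1) (nat_lit 18) (nat_lit 1) (nat_lit 19) (nat_lit 1) (nat_lit 308) (nat_lit 242) (nat_lit 170))))) (XT.nd (nat_lit 282) (nat_lit 252) (nat_lit 0) (XT.nd (nat_lit 94) (nat_lit 252) (nat_lit 0) (XT.lf (nat_lit 0) (nat_lit 156034539) (nat_lit 0) (nat_lit 781304707) (nat_lit 168) (nat_lit 156034539) (nat_lit 18)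 (nat_lit 3) (nat_lit 18) (nat_lit 1) (nat_lit 20) (nat_lit 1) (nat_lit 309) (nat_lit 242) (nat_lit 169)) (XT.nd (nat_lit 94) (nat_lit 84) (nat_lit 0) (XT.lf (nat_lit 84) (nat_lit 518942826) (nat_lit 0) (nat_lit 37342717) (nat_lit 168) (nat_lit 518942826) (nat_lit 17) (nat_lit 1) (nat_lit 16) (nat_lit 1) (nat_lit 18) (nat_lit 1) (nat_lit 310) (nat_lit 242) (nat_lit 168)) (XT.lf (nat_lit 168) (nat_lit 691554597) (nat_lit 0) (nat_lit 182947894) (nat_lit 84) (nat_lit 182947894) (nat_lit 17) (nat_lit 1) (nat_lit 15) (nat_lit 1) (nat_lit 16) (nat_lit 1) (nat_lit 311) (nat_lit 242) (nat_lit 167)))) (XT.nd (nat_lit 188) (nat_lit 168) (nat_lit 0) (XT.nd (nat_lit 94) (nat_lit 84) (nat_lit 0) (XT.lf (nat_lit 0) (nat_lit 175189268) (nat_lit 0) (nat_lit 689600582) (nat_lit 168) (nat_lit 175189268) (nat_lit 15) (nat_lit 3) (nat_lit 15) (nat_lit 1) (nat_lit 17) (nat_lit 1) (nat_lit 312)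 (nat_lit 242) (nat_lit 166)) (XT.lf (nat_lit 84) (nat_lit 14326364) (nat_lit 0) (nat_lit 504241902) (nat_lit 84) (nat_lit 504241902) (nat_lit 15) (nat_lit 3) (nat_lit 14) (nat_lit 1) (nat_lit 15) (nat_lit 1) (nat_lit 313) (nat_lit 242) (nat_lit 165))) (XT.nd (nat_lit 94) (nat_lit 0) (nat_lit 0) (XT.lf (nat_lit 168) (nat_lit 704942501) (nat_lit 0) (nat_lit 150511685) (nat_lit 84) (nat_lit 150511685) (nat_lit 14) (nat_lit 1) (nat_lit 12) (nat_lit 1) (nat_lit 13) (nat_lit 1) (nat_lit 314) (nat_lit 242) (nat_lit 164)) (XT.lf (nat_lit 0) (nat_lit 188718422) (nat_lit 0) (nat_lit 611925884) (nat_lit 168) (nat_lit 188718422) (nat_lit 12) (nat_lit 3) (nat_lit 12) (nat_lit 1) (nat_lit 14) (nat_lit 1) (nat_lit 315) (nat_lit 242) (nat_lit 163))))))))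
noncomputable def ec32 : XT := (XT.nd (nat_lit 38822) (nat_lit 0) (nat_lit 4788) (XT.nd (nat_lit 37506) (nat_lit 0) (nat_lit 9744) (XT.nd (nat_lit 564) (nat_lit 504) (nat_lit 0) (XT.nd (nat_lit 282) (nat_lit 252) (nat_lit 0) (XT.nd (nat_lit 94) (nat_lit 168) (nat_lit 0) (XT.lf (nat_lit 84) (nat_lit 55656923) (nat_lit 0) (nat_lit 458711649) (nat_lit 84) (nat_lit 458711649) (nat_lit 12) (nat_lit 3) (nat_lit 11) (nat_lit 1) (nat_lit 12) (nat_lit 1) (nat_lit 316) (nat_lit 242) (nat_lit 162)) (XT.nd (nat_lit 94) (nat_lit 0) (nat_lit 0) (XT.lf (nat_lit 168) (nat_lit 709480629) (nat_lit 0) (nat_lit 123826336) (nat_lit 84) (nat_lit 123826336) (nat_lit 11) (nat_lit 1) (nat_lit 9) (nat_lit 1) (nat_lit 10) (nat_lit 1) (nat_lit 317) (nat_lit 242) (nat_lit 161)) (XT.lf (nat_lit 0) (nat_lit 197725568) (nat_lit 0) (nat_lit 545899394) (nat_lit 168) (nat_lit 197725568) (nat_lit 9) (nat_lit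 3) (nat_lit 9) (nat_lit 1) (nat_lit 11) (nat_lit 1) (nat_lit 318) (nat_lit 242) (nat_lit 160)))) (XT.nd (nat_lit 94) (nat_lit 168) (nat_lit 0) (XT.lf (nat_lit 84) (nat_lit 87570601) (nat_lit 0) (nat_lit 419164721) (nat_lit 84) (nat_lit 419164721) (nat_lit 9) (nat_lit 3) (nat_lit 8) (nat_lit 1) (nat_lit 9) (nat_lit 1) (nat_lit 319) (nat_lit 242) (nat_lit 159)) (XT.nd (nat_lit 94) (nat_lit 0) (nat_lit 0) (XT.lf (nat_lit 168) (nat_lit 707046410) (nat_lit 0) (nat_lit 101872233) (nat_lit 84) (nat_lit 101872233) (nat_lit 8) (nat_lit 1) (nat_lit 6) (nat_lit 1) (nat_lit 7) (nat_lit 1) (nat_lit 320) (nat_lit 242) (nat_lit 158)) (XT.lf (nat_lit 0) (nat_lit 203113557) (nat_lit 0) (nat_lit 489557025) (nat_lit 168) (nat_lit 203113557) (nat_lit 6) (nat_lit 3) (nat_lit 6) (nat_lit 1) (nat_lit 8) (nat_lit 1) (nat_lit 321) (nat_lit 242) (nat_lit 157))))) (XT.nd (nat_lit 282) (nat_lit 252)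 (nat_lit 0) (XT.nd (nat_lit 94) (nat_lit 168) (nat_lit 0) (XT.lf (nat_lit 84) (nat_lit 111836467) (nat_lit 0) (nat_lit 384639770) (nat_lit 84) (nat_lit 384639770) (nat_lit 6) (nat_lit 3) (nat_lit 5) (nat_lit 1) (nat_lit 6) (nat_lit 1) (nat_lit 322) (nat_lit 242) (nat_lit 156)) (XT.nd (nat_lit 94) (nat_lit 0) (nat_lit 0) (XT.lf (nat_lit 168) (nat_lit 699169728) (nat_lit 0) (nat_lit 83810538) (nat_lit 84) (nat_lit 83810538) (nat_lit 5) (nat_lit 1) (nat_lit 3) (nat_lit 1) (nat_lit 4) (nat_lit 1) (nat_lit 323) (nat_lit 242) (nat_lit 155)) (XT.lf (nat_lit 0) (nat_lit 205620353) (nat_lit 0) (nat_lit 441278103) (nat_lit 168) (nat_lit 205620353) (nat_lit 3) (nat_lit 3) (nat_lit 3) (nat_lit 1) (nat_lit 5) (nat_lit 1) (nat_lit 324) (nat_lit 242) (nat_lit 154)))) (XT.nd (nat_lit 188) (nat_lit 0) (nat_lit 0) (XT.nd (nat_lit 94) (nat_lit 168) (nat_lit 0) (XT.lf (nat_lit 84) (nat_lit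 129905201) (nat_lit 0) (nat_lit 354341154) (nat_lit 84) (nat_lit 354341154) (nat_lit 3) (nat_lit 3) (nat_lit 2) (nat_lit 1) (nat_lit 3) (nat_lit 1) (nat_lit 325) (nat_lit 242) (nat_lit 153)) (XT.lf (nat_lit 0) (nat_lit 1198463992) (nat_lit 0) (nat_lit 0) (nat_lit 0) (nat_lit 0) (nat_lit 0) (nat_lit 0) (nat_lit 1) (nat_lit 0) (nat_lit 1) (nat_lit 0) (nat_lit 326) (nat_lit 242) (nat_lit 152))) (XT.nd (nat_lit 94) (nat_lit 0) (nat_lit 0) (XT.lf (nat_lit 0) (nat_lit 1197765724) (nat_lit 0) (nat_lit 0) (nat_lit 0) (nat_lit 0) (nat_lit 0) (nat_lit 0) (nat_lit 1) (nat_lit 0) (nat_lit 1) (nat_lit 0) (nat_lit 327) (nat_lit 242) (nat_lit 151)) (XT.lf (nat_lit 0) (nat_lit 1197100707) (nat_lit 0) (nat_lit 0) (nat_lit 0) (nat_lit 0) (nat_lit 0) (nat_lit 0) (nat_lit 1) (nat_lit 0) (nat_lit 1) (nat_lit 0) (nat_lit 328) (nat_lit 242) (nat_lit 150)))))) (XT.nd (nat_lit 658) (nat_lit 1008)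 (nat_lit 0) (XT.nd (nat_lit 282) (nat_lit 0) (nat_lit 84) (XT.nd (nat_lit 94) (nat_lit 0) (nat_lit 0) (XT.lf (nat_lit 924) (nat_lit 622038945) (nat_lit 0) (nat_lit 1104428717) (nat_lit 924) (nat_lit 622038945) (nat_lit 139) (nat_lit 1) (nat_lit 128) (nat_lit 0) (nat_lit 139) (nat_lit 0) (nat_lit 234) (nat_lit 243) (nat_lit 243)) (XT.nd (nat_lit 94) (nat_lit 0) (nat_lit 84) (XT.lf (nat_lit 924) (nat_lit 2411100609) (nat_lit 84) (nat_lit 1086615350) (nat_lit 0) (nat_lit 1086615350) (nat_lit 139) (nat_lit 1) (nat_lit 129) (nat_lit 1) (nat_lit 128) (nat_lit 0) (nat_lit 235) (nat_lit 243) (nat_lit 242)) (XT.lf (nat_lit 924) (nat_lit 1149094246) (nat_lit 0) (nat_lit 2176944517) (nat_lit 840) (nat_lit 1149094246) (nat_lit 140) (nat_lit 1) (nat_lit 129) (nat_lit 1) (nat_lit 139) (nat_lit 1) (nat_lit 236) (nat_lit 243) (nat_lit 241)))) (XT.nd (nat_lit 188) (nat_lit 0) (nat_lit 84)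 (XT.nd (nat_lit 94) (nat_lit 0) (nat_lit 84) (XT.lf (nat_lit 924) (nat_lit 2155541136) (nat_lit 84) (nat_lit 1106960746) (nat_lit 0) (nat_lit 1106960746) (nat_lit 140) (nat_lit 1) (nat_lit 130) (nat_lit 1) (nat_lit 129) (nat_lit 1) (nat_lit 237) (nat_lit 243) (nat_lit 240)) (XT.lf (nat_lit 924) (nat_lit 992174885) (nat_lit 0) (nat_lit 2282791698) (nat_lit 840) (nat_lit 992174885) (nat_lit 141) (nat_lit 1) (nat_lit 130) (nat_lit 1) (nat_lit 140) (nat_lit 1) (nat_lit 238) (nat_lit 243) (nat_lit 239))) (XT.nd (nat_lit 94) (nat_lit 0) (nat_lit 84) (XT.lf (nat_lit 924) (nat_lit 1784491153) (nat_lit 84) (nat_lit 1191724147) (nat_lit 0) (nat_lit 1191724147) (nat_lit 141) (nat_lit 1) (nat_lit 131) (nat_lit 1) (nat_lit 130) (nat_lit 1) (nat_lit 239) (nat_lit 243) (nat_lit 238)) (XT.lf (nat_lit 924) (nat_lit 782447829) (nat_lit 0) (nat_lit 2507172627) (nat_lit 840) (nat_lit 782447829)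 (nat_lit 142) (nat_lit 1) (nat_lit 131) (nat_lit 1) (nat_lit 141) (nat_lit 1) (nat_lit 240) (nat_lit 243) (nat_lit 237))))) (XT.nd (nat_lit 282) (nat_lit 1260) (nat_lit 0) (XT.nd (nat_lit 94) (nat_lit 0) (nat_lit 84) (XT.lf (nat_lit 924) (nat_lit 1315318826) (nat_lit 84) (nat_lit 1331758980) (nat_lit 0) (nat_lit 1331758980) (nat_lit 142) (nat_lit 1) (nat_lit 132) (nat_lit 1) (nat_lit 131) (nat_lit 1) (nat_lit 241) (nat_lit 243) (nat_lit 236)) (XT.nd (nat_lit 94) (nat_lit 0) (nat_lit 0) (XT.lf (nat_lit 924) (nat_lit 528032000) (nat_lit 0) (nat_lit 2832954093) (nat_lit 840) (nat_lit 528032000) (nat_lit 143) (nat_lit 1) (nat_lit 132) (nat_lit 1) (nat_lit 142) (nat_lit 1) (nat_lit 242) (nat_lit 243) (nat_lit 235)) (XT.lf (nat_lit 924) (nat_lit 763461834) (nat_lit 84) (nat_lit 1518919398) (nat_lit 0) (nat_lit 1518919398) (nat_lit 143) (nat_lit 1) (nat_lit 133) (nat_lit 1) (nat_lit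 132) (nat_lit 1) (nat_lit 243) (nat_lit 243) (nat_lit 234)))) (XT.nd (nat_lit 188) (nat_lit 588) (nat_lit 0) (XT.nd (nat_lit 94) (nat_lit 840) (nat_lit 0) (XT.lf (nat_lit 84) (nat_lit 236138668) (nat_lit 0) (nat_lit 3244886866) (nat_lit 840) (nat_lit 236138668) (nat_lit 134) (nat_lit 1) (nat_lit 133) (nat_lit 1) (nat_lit 143) (nat_lit 1) (nat_lit 244) (nat_lit 243) (nat_lit 233)) (XT.lf (nat_lit 924) (nat_lit 142621883) (nat_lit 0) (nat_lit 1745960077) (nat_lit 840) (nat_lit 1745960077) (nat_lit 134) (nat_lit 1) (nat_lit 123) (nat_lit 1) (nat_lit 133) (nat_lit 1) (nat_lit 245) (nat_lit 243) (nat_lit 232))) (XT.nd (nat_lit 94) (nat_lit 0) (nat_lit 0) (XT.lf (nat_lit 588) (nat_lit 3384596911) (nat_lit 0) (nat_lit 85436282) (nat_lit 504) (nat_lit 85436282) (nat_lit 123) (nat_lit 1) (nat_lit 116) (nat_lit 1) (nat_lit 122) (nat_lit 1) (nat_lit 246) (nat_lit 243) (nat_lit 231))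 (XT.lf (nat_lit 84) (nat_lit 1479739879) (nat_lit 0) (nat_lit 517934330) (nat_lit 588) (nat_lit 1479739879) (nat_lit 117) (nat_lit 1) (nat_lit 116) (nat_lit 1) (nat_lit 123) (nat_lit 1) (nat_lit 247) (nat_lit 243) (nat_lit 230))))))) (XT.nd (nat_lit 1222) (nat_lit 2016) (nat_lit 0) (XT.nd (nat_lit 564) (nat_lit 1764) (nat_lit 0) (XT.nd (nat_lit 282) (nat_lit 336) (nat_lit 0) (XT.nd (nat_lit 94) (nat_lit 420) (nat_lit 0) (XT.lf (nat_lit 504) (nat_lit 2546252499) (nat_lit 0) (nat_lit 428212662) (nat_lit 420) (nat_lit 428212662) (nat_lit 117) (nat_lit 1) (nat_lit 111) (nat_lit 1) (nat_lit 116) (nat_lit 1) (nat_lit 248) (nat_lit 243) (nat_lit 229)) (XT.nd (nat_lit 94) (nat_lit 420) (nat_lit 0) (XT.lf (nat_lit 84) (nat_lit 1055480442) (nat_lit 0) (nat_lit 1218551838) (nat_lit 504) (nat_lit 1055480442) (nat_lit 112) (nat_lit 1) (nat_lit 111) (nat_lit 1) (nat_lit 117) (nat_lit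 1) (nat_lit 249) (nat_lit 243) (nat_lit 228)) (XT.lf (nat_lit 504) (nat_lit 1676743379) (nat_lit 0) (nat_lit 791076193) (nat_lit 420) (nat_lit 791076193) (nat_lit 112) (nat_lit 1) (nat_lit 106) (nat_lit 1) (nat_lit 111) (nat_lit 1) (nat_lit 250) (nat_lit 243) (nat_lit 227)))) (XT.nd (nat_lit 94) (nat_lit 336) (nat_lit 0) (XT.lf (nat_lit 84) (nat_lit 617857651) (nat_lit 0) (nat_lit 1954617286) (nat_lit 504) (nat_lit 617857651) (nat_lit 107) (nat_lit 1) (nat_lit 106) (nat_lit 1) (nat_lit 112) (nat_lit 1) (nat_lit 251) (nat_lit 243) (nat_lit 226)) (XT.nd (nat_lit 94) (nat_lit 0) (nat_lit 0) (XT.lf (nat_lit 420) (nat_lit 784162477) (nat_lit 0) (nat_lit 1169685302) (nat_lit 336) (nat_lit 1169685302) (nat_lit 107) (nat_lit 1) (nat_lit 102) (nat_lit 1) (nat_lit 106) (nat_lit 1) (nat_lit 252) (nat_lit 243) (nat_lit 225)) (XT.lf (nat_lit 84) (nat_lit 170628522) (nat_lit 0) (nat_lit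 2718045311) (nat_lit 420) (nat_lit 170628522) (nat_lit 103) (nat_lit 1) (nat_lit 102) (nat_lit 1) (nat_lit 107) (nat_lit 1) (nat_lit 253) (nat_lit 243) (nat_lit 224))))) (XT.nd (nat_lit 282) (nat_lit 1008) (nat_lit 0) (XT.nd (nat_lit 94) (nat_lit 336) (nat_lit 0) (XT.lf (nat_lit 84) (nat_lit 1437764963) (nat_lit 0) (nat_lit 120415608) (nat_lit 420) (nat_lit 1437764963) (nat_lit 98) (nat_lit 1) (nat_lit 97) (nat_lit 1) (nat_lit 102) (nat_lit 1) (nat_lit 254) (nat_lit 243) (nat_lit 223)) (XT.nd (nat_lit 94) (nat_lit 0) (nat_lit 0) (XT.lf (nat_lit 420) (nat_lit 2378289986) (nat_lit 0) (nat_lit 278355754) (nat_lit 336) (nat_lit 278355754) (nat_lit 98) (nat_lit 1) (nat_lit 93) (nat_lit 1) (nat_lit 97) (nat_lit 1) (nat_lit 255) (nat_lit 243) (nat_lit 222)) (XT.lf (nat_lit 84) (nat_lit 932869889) (nat_lit 0) (nat_lit 1009363185) (nat_lit 420) (nat_lit 932869889) (nat_lit 94) (nat_lit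 1) (nat_lit 93) (nat_lit 1) (nat_lit 98) (nat_lit 1) (nat_lit 256) (nat_lit 243) (nat_lit 221)))) (XT.nd (nat_lit 188) (nat_lit 672) (nat_lit 0) (XT.nd (nat_lit 94) (nat_lit 0) (nat_lit 0) (XT.lf (nat_lit 420) (nat_lit 1361316673) (nat_lit 0) (nat_lit 727982416) (nat_lit 336) (nat_lit 727982416) (nat_lit 94) (nat_lit 1) (nat_lit 89) (nat_lit 1) (nat_lit 93) (nat_lit 1) (nat_lit 257) (nat_lit 243) (nat_lit 220)) (XT.lf (nat_lit 84) (nat_lit 429298524) (nat_lit 0) (nat_lit 1902553701) (nat_lit 420) (nat_lit 429298524) (nat_lit 90) (nat_lit 1) (nat_lit 89) (nat_lit 1) (nat_lit 94) (nat_lit 1) (nat_lit 258) (nat_lit 243) (nat_lit 219))) (XT.nd (nat_lit 94) (nat_lit 420) (nat_lit 0) (XT.lf (nat_lit 336) (nat_lit 349130103) (nat_lit 0) (nat_lit 1178550764) (nat_lit 252) (nat_lit 1178550764) (nat_lit 90) (nat_lit 1) (nat_lit 86) (nat_lit 1) (nat_lit 89) (nat_lit 1) (nat_lit 259)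 (nat_lit 243) (nat_lit 218)) (XT.lf (nat_lit 420) (nat_lit 2513919042) (nat_lit 0) (nat_lit 69756429) (nat_lit 336) (nat_lit 69756429) (nat_lit 86) (nat_lit 1) (nat_lit 81) (nat_lit 1) (nat_lit 85) (nat_lit 1) (nat_lit 260) (nat_lit 243) (nat_lit 217)))))) (XT.nd (nat_lit 658) (nat_lit 924) (nat_lit 0) (XT.nd (nat_lit 282) (nat_lit 840) (nat_lit 0) (XT.nd (nat_lit 94) (nat_lit 252) (nat_lit 0) (XT.lf (nat_lit 84) (nat_lit 983715106) (nat_lit 0) (nat_lit 633494199) (nat_lit 420) (nat_lit 983715106) (nat_lit 82) (nat_lit 1) (nat_lit 81) (nat_lit 1) (nat_lit 86) (nat_lit 1) (nat_lit 261) (nat_lit 243) (nat_lit 216)) (XT.nd (nat_lit 94) (nat_lit 0) (nat_lit 0) (XT.lf (nat_lit 336) (nat_lit 1436747012) (nat_lit 0) (nat_lit 556841855) (nat_lit 252) (nat_lit 556841855) (nat_lit 82) (nat_lit 1) (nat_lit 78) (nat_lit 1) (nat_lit 81) (nat_lit 1) (nat_lit 262) (nat_lit 243) (nat_lit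 215)) (XT.lf (nat_lit 84) (nat_lit 453890605) (nat_lit 0) (nat_lit 1593438704) (nat_lit 336) (nat_lit 453890605) (nat_lit 79) (nat_lit 1) (nat_lit 78) (nat_lit 1) (nat_lit 82) (nat_lit 1) (nat_lit 263) (nat_lit 243) (nat_lit 214)))) (XT.nd (nat_lit 188) (nat_lit 252) (nat_lit 0) (XT.nd (nat_lit 94) (nat_lit 336) (nat_lit 0) (XT.lf (nat_lit 336) (nat_lit 378303632) (nat_lit 0) (nat_lit 1037412502) (nat_lit 252) (nat_lit 1037412502) (nat_lit 79) (nat_lit 1) (nat_lit 75) (nat_lit 1) (nat_lit 78) (nat_lit 1) (nat_lit 264) (nat_lit 243) (nat_lit 213)) (XT.lf (nat_lit 336) (nat_lit 2276793239) (nat_lit 0) (nat_lit 65015387) (nat_lit 252) (nat_lit 65015387) (nat_lit 75) (nat_lit 1) (nat_lit 71) (nat_lit 1) (nat_lit 74) (nat_lit 1) (nat_lit 265) (nat_lit 243) (nat_lit 212))) (XT.nd (nat_lit 94) (nat_lit 252) (nat_lit 0) (XT.lf (nat_lit 84) (nat_lit 861245679) (nat_lit 0) (nat_lit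 638174400) (nat_lit 336) (nat_lit 861245679) (nat_lit 72) (nat_lit 1) (nat_lit 71) (nat_lit 1) (nat_lit 75) (nat_lit 1) (nat_lit 266) (nat_lit 243) (nat_lit 211)) (XT.lf (nat_lit 336) (nat_lit 1184291669) (nat_lit 0) (nat_lit 565961848) (nat_lit 252) (nat_lit 565961848) (nat_lit 72) (nat_lit 1) (nat_lit 68) (nat_lit 1) (nat_lit 71) (nat_lit 1) (nat_lit 267) (nat_lit 243) (nat_lit 210))))) (XT.nd (nat_lit 282) (nat_lit 420) (nat_lit 0) (XT.nd (nat_lit 94) (nat_lit 504) (nat_lit 0) (XT.lf (nat_lit 84) (nat_lit 326152960) (nat_lit 0) (nat_lit 1620651235) (nat_lit 336) (nat_lit 326152960) (nat_lit 69) (nat_lit 1) (nat_lit 68) (nat_lit 1) (nat_lit 72) (nat_lit 1) (nat_lit 268) (nat_lit 243) (nat_lit 209)) (XT.nd (nat_lit 94) (nat_lit 336) (nat_lit 0) (XT.lf (nat_lit 252) (nat_lit 119513288) (nat_lit 0) (nat_lit 1055500414) (nat_lit 168) (nat_lit 1055500414) (nat_lit 69) (nat_lit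 1) (nat_lit 66) (nat_lit 1) (nat_lit 68) (nat_lit 1) (nat_lit 269) (nat_lit 243) (nat_lit 208)) (XT.lf (nat_lit 336) (nat_lit 1805805720) (nat_lit 0) (nat_lit 191789656) (nat_lit 252) (nat_lit 191789656) (nat_lit 66) (nat_lit 1) (nat_lit 62) (nat_lit 1) (nat_lit 65) (nat_lit 1) (nat_lit 270) (nat_lit 243) (nat_lit 207)))) (XT.nd (nat_lit 188) (nat_lit 252) (nat_lit 0) (XT.nd (nat_lit 94) (nat_lit 168) (nat_lit 0) (XT.lf (nat_lit 84) (nat_lit 630725073) (nat_lit 0) (nat_lit 887265792) (nat_lit 336) (nat_lit 630725073) (nat_lit 63) (nat_lit 1) (nat_lit 62) (nat_lit 1) (nat_lit 66) (nat_lit 1) (nat_lit 271) (nat_lit 243) (nat_lit 206)) (XT.lf (nat_lit 252) (nat_lit 728705529) (nat_lit 0) (nat_lit 690298237) (nat_lit 168) (nat_lit 690298237) (nat_lit 63) (nat_lit 1) (nat_lit 60) (nat_lit 1) (nat_lit 62) (nat_lit 1) (nat_lit 272) (nat_lit 243) (nat_lit 205))) (XT.nd (nat_lit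 94) (nat_lit 252) (nat_lit 0) (XT.lf (nat_lit 84) (nat_lit 104691854) (nat_lit 0) (nat_lit 1861812357) (nat_lit 252) (nat_lit 104691854) (nat_lit 61) (nat_lit 1) (nat_lit 60) (nat_lit 1) (nat_lit 63) (nat_lit 1) (nat_lit 273) (nat_lit 243) (nat_lit 204)) (XT.lf (nat_lit 84) (nat_lit 864040246) (nat_lit 0) (nat_lit 305148154) (nat_lit 252) (nat_lit 864040246) (nat_lit 58) (nat_lit 1) (nat_lit 57) (nat_lit 1) (nat_lit 60) (nat_lit 1) (nat_lit 274) (nat_lit 243) (nat_lit 203))))))))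
noncomputable def ec33 : XT := (XT.nd (nat_lit 2538) (nat_lit 2016) (nat_lit 0) (XT.nd (nat_lit 1222) (nat_lit 1344) (nat_lit 0) (XT.nd (nat_lit 564) (nat_lit 672) (nat_lit 0) (XT.nd (nat_lit 282) (nat_lit 420) (nat_lit 0) (XT.nd (nat_lit 94) (nat_lit 168) (nat_lit 0) (XT.lf (nat_lit 252) (nat_lit 1199871318) (nat_lit 0) (nat_lit 398324768) (nat_lit 168) (nat_lit 398324768) (nat_lit 58) (nat_lit 1) (nat_lit 55) (nat_lit 1) (nat_lit 57) (nat_lit 1) (nat_lit 275) (nat_lit 243) (nat_lit 202)) (XT.nd (nat_lit 94) (nat_lit 168) (nat_lit 0) (XT.lf (nat_lit 84) (nat_lit 338572470) (nat_lit 0) (nat_lit 1283479446) (nat_lit 252) (nat_lit 338572470) (nat_lit 56) (nat_lit 1) (nat_lit 55) (nat_lit 1) (nat_lit 58) (nat_lit 1) (nat_lit 276) (nat_lit 243) (nat_lit 201)) (XT.lf (nat_lit 252) (nat_lit 158609012) (nat_lit 0) (nat_lit 883421242) (nat_lit 168) (nat_lit 883421242) (nat_lit 56)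 (nat_lit 1) (nat_lit 53) (nat_lit 1) (nat_lit 55) (nat_lit 1) (nat_lit 277) (nat_lit 243) (nat_lit 200)))) (XT.nd (nat_lit 94) (nat_lit 168) (nat_lit 0) (XT.lf (nat_lit 252) (nat_lit 1558911843) (nat_lit 0) (nat_lit 166192963) (nat_lit 168) (nat_lit 166192963) (nat_lit 53) (nat_lit 1) (nat_lit 50) (nat_lit 1) (nat_lit 52) (nat_lit 1) (nat_lit 278) (nat_lit 243) (nat_lit 199)) (XT.nd (nat_lit 94) (nat_lit 168) (nat_lit 0) (XT.lf (nat_lit 84) (nat_lit 518965572) (nat_lit 0) (nat_lit 819504394) (nat_lit 252) (nat_lit 518965572) (nat_lit 51) (nat_lit 1) (nat_lit 50) (nat_lit 1) (nat_lit 53) (nat_lit 1) (nat_lit 279) (nat_lit 243) (nat_lit 198)) (XT.lf (nat_lit 252) (nat_lit 528541239) (nat_lit 0) (nat_lit 648007569) (nat_lit 168) (nat_lit 648007569) (nat_lit 51) (nat_lit 1) (nat_lit 48) (nat_lit 1) (nat_lit 50) (nat_lit 1) (nat_lit 280) (nat_lit 243) (nat_lit 197))))) (XT.nd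 (nat_lit 282) (nat_lit 336) (nat_lit 0) (XT.nd (nat_lit 94) (nat_lit 336) (nat_lit 0) (XT.lf (nat_lit 84) (nat_lit 17371692) (nat_lit 0) (nat_lit 1758086904) (nat_lit 252) (nat_lit 17371692) (nat_lit 49) (nat_lit 1) (nat_lit 48) (nat_lit 1) (nat_lit 51) (nat_lit 1) (nat_lit 281) (nat_lit 243) (nat_lit 196)) (XT.nd (nat_lit 94) (nat_lit 168) (nat_lit 0) (XT.lf (nat_lit 84) (nat_lit 655926797) (nat_lit 0) (nat_lit 449048939) (nat_lit 168) (nat_lit 655926797) (nat_lit 47) (nat_lit 1) (nat_lit 46) (nat_lit 1) (nat_lit 48) (nat_lit 1) (nat_lit 282) (nat_lit 243) (nat_lit 195)) (XT.lf (nat_lit 252) (nat_lit 813930483) (nat_lit 0) (nat_lit 458083837) (nat_lit 168) (nat_lit 458083837) (nat_lit 47) (nat_lit 1) (nat_lit 44) (nat_lit 1) (nat_lit 46) (nat_lit 1) (nat_lit 283) (nat_lit 243) (nat_lit 194)))) (XT.nd (nat_lit 188) (nat_lit 168) (nat_lit 0) (XT.nd (nat_lit 94) (nat_lit 168)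 (nat_lit 0) (XT.lf (nat_lit 84) (nat_lit 163187436) (nat_lit 0) (nat_lit 1373750397) (nat_lit 252) (nat_lit 163187436) (nat_lit 45) (nat_lit 1) (nat_lit 44) (nat_lit 1) (nat_lit 47) (nat_lit 1) (nat_lit 284) (nat_lit 243) (nat_lit 193)) (XT.lf (nat_lit 84) (nat_lit 757701682) (nat_lit 0) (nat_lit 154996193) (nat_lit 168) (nat_lit 757701682) (nat_lit 43) (nat_lit 1) (nat_lit 42) (nat_lit 1) (nat_lit 44) (nat_lit 1) (nat_lit 285) (nat_lit 243) (nat_lit 192))) (XT.nd (nat_lit 94) (nat_lit 0) (nat_lit 0) (XT.lf (nat_lit 252) (nat_lit 1030668621) (nat_lit 0) (nat_lit 305406141) (nat_lit 168) (nat_lit 305406141) (nat_lit 43) (nat_lit 1) (nat_lit 40) (nat_lit 1) (nat_lit 42) (nat_lit 1) (nat_lit 286) (nat_lit 243) (nat_lit 191)) (XT.lf (nat_lit 84) (nat_lit 276060138) (nat_lit 0) (nat_lit 1061014471) (nat_lit 252) (nat_lit 276060138) (nat_lit 41) (nat_lit 1) (nat_lit 40) (nat_lit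 1) (nat_lit 43) (nat_lit 1) (nat_lit 287) (nat_lit 243) (nat_lit 190)))))) (XT.nd (nat_lit 658) (nat_lit 588) (nat_lit 0) (XT.nd (nat_lit 282) (nat_lit 420) (nat_lit 0) (XT.nd (nat_lit 94) (nat_lit 252) (nat_lit 0) (XT.lf (nat_lit 168) (nat_lit 79246812) (nat_lit 0) (nat_lit 753038342) (nat_lit 84) (nat_lit 753038342) (nat_lit 41) (nat_lit 1) (nat_lit 39) (nat_lit 1) (nat_lit 40) (nat_lit 1) (nat_lit 288) (nat_lit 243) (nat_lit 189)) (XT.nd (nat_lit 94) (nat_lit 0) (nat_lit 0) (XT.lf (nat_lit 252) (nat_lit 1191786956) (nat_lit 0) (nat_lit 183200707) (nat_lit 168) (nat_lit 183200707) (nat_lit 39) (nat_lit 1) (nat_lit 36) (nat_lit 1) (nat_lit 38) (nat_lit 1) (nat_lit 289) (nat_lit 243) (nat_lit 188)) (XT.lf (nat_lit 84) (nat_lit 362168150) (nat_lit 0) (nat_lit 807019821) (nat_lit 252) (nat_lit 362168150) (nat_lit 37) (nat_lit 1) (nat_lit 36) (nat_lit 1) (nat_lit 39) (nat_lit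 1) (nat_lit 290) (nat_lit 243) (nat_lit 187)))) (XT.nd (nat_lit 188) (nat_lit 84) (nat_lit 0) (XT.nd (nat_lit 94) (nat_lit 252) (nat_lit 0) (XT.lf (nat_lit 168) (nat_lit 266128750) (nat_lit 0) (nat_lit 619526507) (nat_lit 84) (nat_lit 619526507) (nat_lit 37) (nat_lit 1) (nat_lit 35) (nat_lit 1) (nat_lit 36) (nat_lit 1) (nat_lit 291) (nat_lit 243) (nat_lit 186)) (XT.lf (nat_lit 252) (nat_lit 1307965442) (nat_lit 0) (nat_lit 85902836) (nat_lit 168) (nat_lit 85902836) (nat_lit 35) (nat_lit 1) (nat_lit 32) (nat_lit 1) (nat_lit 34) (nat_lit 1) (nat_lit 292) (nat_lit 243) (nat_lit 185))) (XT.nd (nat_lit 94) (nat_lit 84) (nat_lit 0) (XT.lf (nat_lit 84) (nat_lit 426578339) (nat_lit 0) (nat_lit 601194908) (nat_lit 252) (nat_lit 426578339) (nat_lit 33) (nat_lit 1) (nat_lit 32) (nat_lit 1) (nat_lit 35) (nat_lit 1) (nat_lit 293) (nat_lit 243) (nat_lit 184)) (XT.lf (nat_lit 168) (nat_lit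 410308782) (nat_lit 0) (nat_lit 509685991) (nat_lit 84) (nat_lit 509685991) (nat_lit 33) (nat_lit 1) (nat_lit 31) (nat_lit 1) (nat_lit 32) (nat_lit 1) (nat_lit 294) (nat_lit 243) (nat_lit 183))))) (XT.nd (nat_lit 282) (nat_lit 252) (nat_lit 0) (XT.nd (nat_lit 94) (nat_lit 84) (nat_lit 0) (XT.lf (nat_lit 252) (nat_lit 1387951513) (nat_lit 0) (nat_lit 8942153) (nat_lit 168) (nat_lit 8942153) (nat_lit 31) (nat_lit 1) (nat_lit 28) (nat_lit 1) (nat_lit 30) (nat_lit 1) (nat_lit 295) (nat_lit 243) (nat_lit 182)) (XT.nd (nat_lit 94) (nat_lit 84) (nat_lit 0) (XT.lf (nat_lit 84) (nat_lit 473443917) (nat_lit 0) (nat_lit 434849971) (nat_lit 252) (nat_lit 473443917) (nat_lit 29) (nat_lit 1) (nat_lit 28) (nat_lit 1) (nat_lit 31) (nat_lit 1) (nat_lit 296) (nat_lit 243) (nat_lit 181)) (XT.lf (nat_lit 168) (nat_lit 519813480) (nat_lit 0) (nat_lit 419319926) (nat_lit 84) (nat_lit 419319926)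 (nat_lit 29) (nat_lit 1) (nat_lit 27) (nat_lit 1) (nat_lit 28) (nat_lit 1) (nat_lit 297) (nat_lit 243) (nat_lit 180)))) (XT.nd (nat_lit 188) (nat_lit 84) (nat_lit 0) (XT.nd (nat_lit 94) (nat_lit 168) (nat_lit 0) (XT.lf (nat_lit 0) (nat_lit 52277233) (nat_lit 0) (nat_lit 1231317389) (nat_lit 168) (nat_lit 52277233) (nat_lit 27) (nat_lit 3) (nat_lit 27) (nat_lit 1) (nat_lit 29) (nat_lit 1) (nat_lit 298) (nat_lit 243) (nat_lit 179)) (XT.lf (nat_lit 84) (nat_lit 506167161) (nat_lit 0) (nat_lit 300843036) (nat_lit 168) (nat_lit 506167161) (nat_lit 26) (nat_lit 1) (nat_lit 25) (nat_lit 1) (nat_lit 27) (nat_lit 1) (nat_lit 299) (nat_lit 243) (nat_lit 178))) (XT.nd (nat_lit 94) (nat_lit 0) (nat_lit 0) (XT.lf (nat_lit 168) (nat_lit 601224626) (nat_lit 0) (nat_lit 344975541) (nat_lit 84) (nat_lit 344975541) (nat_lit 26) (nat_lit 1) (nat_lit 24) (nat_lit 1) (nat_lit 25) (nat_lit 1)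 (nat_lit 300) (nat_lit 243) (nat_lit 177)) (XT.lf (nat_lit 0) (nat_lit 99917720) (nat_lit 0) (nat_lit 1069916974) (nat_lit 168) (nat_lit 99917720) (nat_lit 24) (nat_lit 3) (nat_lit 24) (nat_lit 1) (nat_lit 26) (nat_lit 1) (nat_lit 301) (nat_lit 243) (nat_lit 176))))))) (XT.nd (nat_lit 1222) (nat_lit 924) (nat_lit 0) (XT.nd (nat_lit 564) (nat_lit 588) (nat_lit 0) (XT.nd (nat_lit 282) (nat_lit 252) (nat_lit 0) (XT.nd (nat_lit 94) (nat_lit 84) (nat_lit 0) (XT.lf (nat_lit 84) (nat_lit 527533241) (nat_lit 0) (nat_lit 193305156) (nat_lit 168) (nat_lit 527533241) (nat_lit 23) (nat_lit 1) (nat_lit 22) (nat_lit 1) (nat_lit 24) (nat_lit 1) (nat_lit 302) (nat_lit 243) (nat_lit 175)) (XT.nd (nat_lit 94) (nat_lit 0) (nat_lit 0) (XT.lf (nat_lit 168) (nat_lit 659936407) (nat_lit 0) (nat_lit 283812231) (nat_lit 84) (nat_lit 283812231) (nat_lit 23) (nat_lit 1) (nat_lit 21) (nat_lit 1) (nat_lit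 22) (nat_lit 1) (nat_lit 303) (nat_lit 243) (nat_lit 174)) (XT.lf (nat_lit 0) (nat_lit 136401709) (nat_lit 0) (nat_lit 934422496) (nat_lit 168) (nat_lit 136401709) (nat_lit 21) (nat_lit 3) (nat_lit 21) (nat_lit 1) (nat_lit 23) (nat_lit 1) (nat_lit 304) (nat_lit 243) (nat_lit 173)))) (XT.nd (nat_lit 94) (nat_lit 84) (nat_lit 0) (XT.lf (nat_lit 84) (nat_lit 539820299) (nat_lit 0) (nat_lit 107414389) (nat_lit 168) (nat_lit 539820299) (nat_lit 20) (nat_lit 1) (nat_lit 19) (nat_lit 1) (nat_lit 21) (nat_lit 1) (nat_lit 305) (nat_lit 243) (nat_lit 172)) (XT.nd (nat_lit 94) (nat_lit 0) (nat_lit 0) (XT.lf (nat_lit 168) (nat_lit 700366953) (nat_lit 0) (nat_lit 233493025) (nat_lit 84) (nat_lit 233493025) (nat_lit 20) (nat_lit 1) (nat_lit 18) (nat_lit 1) (nat_lit 19) (nat_lit 1) (nat_lit 306) (nat_lit 243) (nat_lit 171)) (XT.lf (nat_lit 0) (nat_lit 163836266) (nat_lit 0) (nat_lit 820369942)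 (nat_lit 168) (nat_lit 163836266) (nat_lit 18) (nat_lit 3) (nat_lit 18) (nat_lit 1) (nat_lit 20) (nat_lit 1) (nat_lit 307) (nat_lit 243) (nat_lit 170))))) (XT.nd (nat_lit 282) (nat_lit 336) (nat_lit 0) (XT.nd (nat_lit 94) (nat_lit 84) (nat_lit 0) (XT.lf (nat_lit 84) (nat_lit 544889967) (nat_lit 0) (nat_lit 39209853) (nat_lit 168) (nat_lit 544889967) (nat_lit 17) (nat_lit 1) (nat_lit 16) (nat_lit 1) (nat_lit 18) (nat_lit 1) (nat_lit 308) (nat_lit 243) (nat_lit 169)) (XT.nd (nat_lit 94) (nat_lit 0) (nat_lit 0) (XT.lf (nat_lit 168) (nat_lit 726132327) (nat_lit 0) (nat_lit 192095289) (nat_lit 84) (nat_lit 192095289) (nat_lit 17) (nat_lit 1) (nat_lit 15) (nat_lit 1) (nat_lit 16) (nat_lit 1) (nat_lit 309) (nat_lit 243) (nat_lit 168)) (XT.lf (nat_lit 0) (nat_lit 183948731) (nat_lit 0) (nat_lit 724080612) (nat_lit 168) (nat_lit 183948731) (nat_lit 15) (nat_lit 3) (nat_lit 15) (nat_lit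 1) (nat_lit 17) (nat_lit 1) (nat_lit 310) (nat_lit 243) (nat_lit 167)))) (XT.nd (nat_lit 188) (nat_lit 84) (nat_lit 0) (XT.nd (nat_lit 94) (nat_lit 168) (nat_lit 0) (XT.lf (nat_lit 84) (nat_lit 15042683) (nat_lit 0) (nat_lit 529453997) (nat_lit 84) (nat_lit 529453997) (nat_lit 15) (nat_lit 3) (nat_lit 14) (nat_lit 1) (nat_lit 15) (nat_lit 1) (nat_lit 311) (nat_lit 243) (nat_lit 166)) (XT.lf (nat_lit 168) (nat_lit 740189627) (nat_lit 0) (nat_lit 158037270) (nat_lit 84) (nat_lit 158037270) (nat_lit 14) (nat_lit 1) (nat_lit 12) (nat_lit 1) (nat_lit 13) (nat_lit 1) (nat_lit 312) (nat_lit 243) (nat_lit 165))) (XT.nd (nat_lit 94) (nat_lit 84) (nat_lit 0) (XT.lf (nat_lit 0) (nat_lit 198154343) (nat_lit 0) (nat_lit 642522178) (nat_lit 168) (nat_lit 198154343) (nat_lit 12) (nat_lit 3) (nat_lit 12) (nat_lit 1) (nat_lit 14) (nat_lit 1) (nat_lit 313) (nat_lit 243) (nat_lit 164)) (XT.lf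 (nat_lit 84) (nat_lit 58439770) (nat_lit 0) (nat_lit 481647231) (nat_lit 84) (nat_lit 481647231) (nat_lit 12) (nat_lit 3) (nat_lit 11) (nat_lit 1) (nat_lit 12) (nat_lit 1) (nat_lit 314) (nat_lit 243) (nat_lit 163)))))) (XT.nd (nat_lit 658) (nat_lit 252) (nat_lit 0) (XT.nd (nat_lit 282) (nat_lit 420) (nat_lit 0) (XT.nd (nat_lit 94) (nat_lit 84) (nat_lit 0) (XT.lf (nat_lit 168) (nat_lit 744954660) (nat_lit 0) (nat_lit 130017653) (nat_lit 84) (nat_lit 130017653) (nat_lit 11) (nat_lit 1) (nat_lit 9) (nat_lit 1) (nat_lit 10) (nat_lit 1) (nat_lit 315) (nat_lit 243) (nat_lit 162)) (XT.nd (nat_lit 94) (nat_lit 84) (nat_lit 0) (XT.lf (nat_lit 0) (nat_lit 207611847) (nat_lit 0) (nat_lit 573194364) (nat_lit 168) (nat_lit 207611847) (nat_lit 9) (nat_lit 3) (nat_lit 9) (nat_lit 1) (nat_lit 11) (nat_lit 1) (nat_lit 316) (nat_lit 243) (nat_lit 161)) (XT.lf (nat_lit 84) (nat_lit 91949131)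 (nat_lit 0) (nat_lit 440122957) (nat_lit 84) (nat_lit 440122957) (nat_lit 9) (nat_lit 3) (nat_lit 8) (nat_lit 1) (nat_lit 9) (nat_lit 1) (nat_lit 317) (nat_lit 243) (nat_lit 160)))) (XT.nd (nat_lit 188) (nat_lit 252) (nat_lit 0) (XT.nd (nat_lit 94) (nat_lit 0) (nat_lit 0) (XT.lf (nat_lit 168) (nat_lit 742398731) (nat_lit 0) (nat_lit 106965845) (nat_lit 84) (nat_lit 106965845) (nat_lit 8) (nat_lit 1) (nat_lit 6) (nat_lit 1) (nat_lit 7) (nat_lit 1) (nat_lit 318) (nat_lit 243) (nat_lit 159)) (XT.lf (nat_lit 0) (nat_lit 213269235) (nat_lit 0) (nat_lit 514034877) (nat_lit 168) (nat_lit 213269235) (nat_lit 6) (nat_lit 3) (nat_lit 6) (nat_lit 1) (nat_lit 8) (nat_lit 1) (nat_lit 319) (nat_lit 243) (nat_lit 158))) (XT.nd (nat_lit 94) (nat_lit 168) (nat_lit 0) (XT.lf (nat_lit 84) (nat_lit 117428290) (nat_lit 0) (nat_lit 403871758) (nat_lit 84) (nat_lit 403871758) (nat_lit 6) (nat_lit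 3) (nat_lit 5) (nat_lit 1) (nat_lit 6) (nat_lit 1) (nat_lit 320) (nat_lit 243) (nat_lit 157)) (XT.lf (nat_lit 168) (nat_lit 734128215) (nat_lit 0) (nat_lit 88001065) (nat_lit 84) (nat_lit 88001065) (nat_lit 5) (nat_lit 1) (nat_lit 3) (nat_lit 1) (nat_lit 4) (nat_lit 1) (nat_lit 321) (nat_lit 243) (nat_lit 156))))) (XT.nd (nat_lit 282) (nat_lit 0) (nat_lit 0) (XT.nd (nat_lit 94) (nat_lit 252) (nat_lit 0) (XT.lf (nat_lit 0) (nat_lit 215901370) (nat_lit 0) (nat_lit 463342008) (nat_lit 168) (nat_lit 215901370) (nat_lit 3) (nat_lit 3) (nat_lit 3) (nat_lit 1) (nat_lit 5) (nat_lit 1) (nat_lit 322) (nat_lit 243) (nat_lit 155)) (XT.nd (nat_lit 94) (nat_lit 168) (nat_lit 0) (XT.lf (nat_lit 84) (nat_lit 136400461) (nat_lit 0) (nat_lit 372058211) (nat_lit 84) (nat_lit 372058211) (nat_lit 3) (nat_lit 3) (nat_lit 2) (nat_lit 1) (nat_lit 3) (nat_lit 1) (nat_lit 323) (nat_lit 243) (nat_lit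 154)) (XT.lf (nat_lit 0) (nat_lit 1258387192) (nat_lit 0) (nat_lit 0) (nat_lit 0) (nat_lit 0) (nat_lit 0) (nat_lit 0) (nat_lit 1) (nat_lit 0) (nat_lit 1) (nat_lit 0) (nat_lit 324) (nat_lit 243) (nat_lit 153)))) (XT.nd (nat_lit 188) (nat_lit 0) (nat_lit 0) (XT.nd (nat_lit 94) (nat_lit 0) (nat_lit 0) (XT.lf (nat_lit 0) (nat_lit 1257654010) (nat_lit 0) (nat_lit 0) (nat_lit 0) (nat_lit 0) (nat_lit 0) (nat_lit 0) (nat_lit 1) (nat_lit 0) (nat_lit 1) (nat_lit 0) (nat_lit 325) (nat_lit 243) (nat_lit 152)) (XT.lf (nat_lit 0) (nat_lit 1256955742) (nat_lit 0) (nat_lit 0) (nat_lit 0) (nat_lit 0) (nat_lit 0) (nat_lit 0) (nat_lit 1) (nat_lit 0) (nat_lit 1) (nat_lit 0) (nat_lit 326) (nat_lit 243) (nat_lit 151))) (XT.nd (nat_lit 94) (nat_lit 0) (nat_lit 0) (XT.lf (nat_lit 0) (nat_lit 1256290725) (nat_lit 0) (nat_lit 0) (nat_lit 0) (nat_lit 0) (nat_lit 0) (nat_lit 0) (nat_lit 1) (nat_lit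 0) (nat_lit 1) (nat_lit 0) (nat_lit 327) (nat_lit 243) (nat_lit 150)) (XT.lf (nat_lit 0) (nat_lit 1255657375) (nat_lit 0) (nat_lit 0) (nat_lit 0) (nat_lit 0) (nat_lit 0) (nat_lit 0) (nat_lit 1) (nat_lit 0) (nat_lit 1) (nat_lit 0) (nat_lit 328) (nat_lit 243) (nat_lit 149))))))))
noncomputable def ec34 : XT := (XT.nd (nat_lit 2538) (nat_lit 3444) (nat_lit 0) (XT.nd (nat_lit 1222) (nat_lit 2940) (nat_lit 0) (XT.nd (nat_lit 564) (nat_lit 1008) (nat_lit 0) (XT.nd (nat_lit 282) (nat_lit 0) (nat_lit 84) (XT.nd (nat_lit 94) (nat_lit 0) (nat_lit 0) (XT.lf (nat_lit 924) (nat_lit 653140892) (nat_lit 0) (nat_lit 1159650153) (nat_lit 924) (nat_lit 653140892) (nat_lit 139) (nat_lit 1) (nat_lit 128) (nat_lit 0) (nat_lit 139) (nat_lit 0) (nat_lit 232) (nat_lit 244) (nat_lit 244)) (XT.nd (nat_lit 94) (nat_lit 0) (nat_lit 84) (XT.lf (nat_lit 924) (nat_lit 2531655640) (nat_lit 84) (nat_lit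 1140946118) (nat_lit 0) (nat_lit 1140946118) (nat_lit 139) (nat_lit 1) (nat_lit 129) (nat_lit 1) (nat_lit 128) (nat_lit 0) (nat_lit 233) (nat_lit 244) (nat_lit 243)) (XT.lf (nat_lit 924) (nat_lit 1206548958) (nat_lit 0) (nat_lit 2285791743) (nat_lit 840) (nat_lit 1206548958) (nat_lit 140) (nat_lit 1) (nat_lit 129) (nat_lit 1) (nat_lit 139) (nat_lit 1) (nat_lit 234) (nat_lit 244) (nat_lit 242)))) (XT.nd (nat_lit 94) (nat_lit 0) (nat_lit 84) (XT.lf (nat_lit 924) (nat_lit 2263318192) (nat_lit 84) (nat_lit 1162308783) (nat_lit 0) (nat_lit 1162308783) (nat_lit 140) (nat_lit 1) (nat_lit 130) (nat_lit 1) (nat_lit 129) (nat_lit 1) (nat_lit 235) (nat_lit 244) (nat_lit 241)) (XT.nd (nat_lit 94) (nat_lit 0) (nat_lit 0) (XT.lf (nat_lit 924) (nat_lit 1041783629) (nat_lit 0) (nat_lit 2396931282) (nat_lit 840) (nat_lit 1041783629) (nat_lit 141) (nat_lit 1) (nat_lit 130) (nat_lit 1) (nat_lit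 140) (nat_lit 1) (nat_lit 236) (nat_lit 244) (nat_lit 240)) (XT.lf (nat_lit 924) (nat_lit 1873715710) (nat_lit 84) (nat_lit 1251310354) (nat_lit 0) (nat_lit 1251310354) (nat_lit 141) (nat_lit 1) (nat_lit 131) (nat_lit 1) (nat_lit 130) (nat_lit 1) (nat_lit 237) (nat_lit 244) (nat_lit 239))))) (XT.nd (nat_lit 282) (nat_lit 1260) (nat_lit 0) (XT.nd (nat_lit 94) (nat_lit 0) (nat_lit 0) (XT.lf (nat_lit 924) (nat_lit 821570221) (nat_lit 0) (nat_lit 2632531258) (nat_lit 840) (nat_lit 821570221) (nat_lit 142) (nat_lit 1) (nat_lit 131) (nat_lit 1) (nat_lit 141) (nat_lit 1) (nat_lit 238) (nat_lit 244) (nat_lit 238)) (XT.nd (nat_lit 94) (nat_lit 0) (nat_lit 84) (XT.lf (nat_lit 924) (nat_lit 1381084767) (nat_lit 84) (nat_lit 1398346929) (nat_lit 0) (nat_lit 1398346929) (nat_lit 142) (nat_lit 1) (nat_lit 132) (nat_lit 1) (nat_lit 131) (nat_lit 1) (nat_lit 239) (nat_lit 244) (nat_lit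 237)) (XT.lf (nat_lit 924) (nat_lit 554433600) (nat_lit 0) (nat_lit 2974601797) (nat_lit 840) (nat_lit 554433600) (nat_lit 143) (nat_lit 1) (nat_lit 132) (nat_lit 1) (nat_lit 142) (nat_lit 1) (nat_lit 240) (nat_lit 244) (nat_lit 236)))) (XT.nd (nat_lit 188) (nat_lit 1344) (nat_lit 0) (XT.nd (nat_lit 94) (nat_lit 0) (nat_lit 84) (XT.lf (nat_lit 924) (nat_lit 801634926) (nat_lit 84) (nat_lit 1594865368) (nat_lit 0) (nat_lit 1594865368) (nat_lit 143) (nat_lit 1) (nat_lit 133) (nat_lit 1) (nat_lit 132) (nat_lit 1) (nat_lit 241) (nat_lit 244) (nat_lit 235)) (XT.lf (nat_lit 84) (nat_lit 247945602) (nat_lit 0) (nat_lit 3407131209) (nat_lit 840) (nat_lit 247945602) (nat_lit 134) (nat_lit 1) (nat_lit 133) (nat_lit 1) (nat_lit 143) (nat_lit 1) (nat_lit 242) (nat_lit 244) (nat_lit 234))) (XT.nd (nat_lit 94) (nat_lit 588) (nat_lit 0) (XT.lf (nat_lit 924) (nat_lit 149752977) (nat_lit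 0) (nat_lit 1833258081) (nat_lit 840) (nat_lit 1833258081) (nat_lit 134) (nat_lit 1) (nat_lit 123) (nat_lit 1) (nat_lit 133) (nat_lit 1) (nat_lit 243) (nat_lit 244) (nat_lit 233)) (XT.lf (nat_lit 588) (nat_lit 3553826757) (nat_lit 0) (nat_lit 89708096) (nat_lit 504) (nat_lit 89708096) (nat_lit 123) (nat_lit 1) (nat_lit 116) (nat_lit 1) (nat_lit 122) (nat_lit 1) (nat_lit 244) (nat_lit 244) (nat_lit 232)))))) (XT.nd (nat_lit 658) (nat_lit 1764) (nat_lit 0) (XT.nd (nat_lit 282) (nat_lit 756) (nat_lit 0) (XT.nd (nat_lit 94) (nat_lit 420) (nat_lit 0) (XT.lf (nat_lit 84) (nat_lit 1553726873) (nat_lit 0) (nat_lit 543831047) (nat_lit 588) (nat_lit 1553726873) (nat_lit 117) (nat_lit 1) (nat_lit 116) (nat_lit 1) (nat_lit 123) (nat_lit 1) (nat_lit 245) (nat_lit 244) (nat_lit 231)) (XT.nd (nat_lit 94) (nat_lit 0) (nat_lit 0) (XT.lf (nat_lit 504) (nat_lit 2673565124) (nat_lit 0) (nat_lit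 449623295) (nat_lit 420) (nat_lit 449623295) (nat_lit 117) (nat_lit 1) (nat_lit 111) (nat_lit 1) (nat_lit 116) (nat_lit 1) (nat_lit 246) (nat_lit 244) (nat_lit 230)) (XT.lf (nat_lit 84) (nat_lit 1108254464) (nat_lit 0) (nat_lit 1279479430) (nat_lit 504) (nat_lit 1108254464) (nat_lit 112) (nat_lit 1) (nat_lit 111) (nat_lit 1) (nat_lit 117) (nat_lit 1) (nat_lit 247) (nat_lit 244) (nat_lit 229)))) (XT.nd (nat_lit 188) (nat_lit 336) (nat_lit 0) (XT.nd (nat_lit 94) (nat_lit 0) (nat_lit 0) (XT.lf (nat_lit 504) (nat_lit 1760580548) (nat_lit 0) (nat_lit 830630003) (nat_lit 420) (nat_lit 830630003) (nat_lit 112) (nat_lit 1) (nat_lit 106) (nat_lit 1) (nat_lit 111) (nat_lit 1) (nat_lit 248) (nat_lit 244) (nat_lit 228)) (XT.lf (nat_lit 84) (nat_lit 648750534) (nat_lit 0) (nat_lit 2052348150) (nat_lit 504) (nat_lit 648750534) (nat_lit 107) (nat_lit 1) (nat_lit 106) (nat_lit 1) (nat_lit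 112) (nat_lit 1) (nat_lit 249) (nat_lit 244) (nat_lit 227))) (XT.nd (nat_lit 94) (nat_lit 0) (nat_lit 0) (XT.lf (nat_lit 420) (nat_lit 823370601) (nat_lit 0) (nat_lit 1228169567) (nat_lit 336) (nat_lit 1228169567) (nat_lit 107) (nat_lit 1) (nat_lit 102) (nat_lit 1) (nat_lit 106) (nat_lit 1) (nat_lit 250) (nat_lit 244) (nat_lit 226)) (XT.lf (nat_lit 84) (nat_lit 179159948) (nat_lit 0) (nat_lit 2853947576) (nat_lit 420) (nat_lit 179159948) (nat_lit 103) (nat_lit 1) (nat_lit 102) (nat_lit 1) (nat_lit 107) (nat_lit 1) (nat_lit 251) (nat_lit 244) (nat_lit 225))))) (XT.nd (nat_lit 282) (nat_lit 1008) (nat_lit 0) (XT.nd (nat_lit 94) (nat_lit 336) (nat_lit 0) (XT.lf (nat_lit 84) (nat_lit 1509653211) (nat_lit 0) (nat_lit 126436388) (nat_lit 420) (nat_lit 1509653211) (nat_lit 98) (nat_lit 1) (nat_lit 97) (nat_lit 1) (nat_lit 102) (nat_lit 1) (nat_lit 252) (nat_lit 244) (nat_lit 224))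 (XT.nd (nat_lit 94) (nat_lit 0) (nat_lit 0) (XT.lf (nat_lit 420) (nat_lit 2497204486) (nat_lit 0) (nat_lit 292273542) (nat_lit 336) (nat_lit 292273542) (nat_lit 98) (nat_lit 1) (nat_lit 93) (nat_lit 1) (nat_lit 97) (nat_lit 1) (nat_lit 253) (nat_lit 244) (nat_lit 223)) (XT.lf (nat_lit 84) (nat_lit 979513384) (nat_lit 0) (nat_lit 1059831345) (nat_lit 420) (nat_lit 979513384) (nat_lit 94) (nat_lit 1) (nat_lit 93) (nat_lit 1) (nat_lit 98) (nat_lit 1) (nat_lit 254) (nat_lit 244) (nat_lit 222)))) (XT.nd (nat_lit 188) (nat_lit 672) (nat_lit 0) (XT.nd (nat_lit 94) (nat_lit 0) (nat_lit 0) (XT.lf (nat_lit 420) (nat_lit 1429382507) (nat_lit 0) (nat_lit 764381536) (nat_lit 336) (nat_lit 764381536) (nat_lit 94) (nat_lit 1) (nat_lit 89) (nat_lit 1) (nat_lit 93) (nat_lit 1) (nat_lit 255) (nat_lit 244) (nat_lit 221)) (XT.lf (nat_lit 84) (nat_lit 450763450) (nat_lit 0) (nat_lit 1997681386)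 (nat_lit 420) (nat_lit 450763450) (nat_lit 90) (nat_lit 1) (nat_lit 89) (nat_lit 1) (nat_lit 94) (nat_lit 1) (nat_lit 256) (nat_lit 244) (nat_lit 220))) (XT.nd (nat_lit 94) (nat_lit 420) (nat_lit 0) (XT.lf (nat_lit 336) (nat_lit 366586608) (nat_lit 0) (nat_lit 1237478302) (nat_lit 252) (nat_lit 1237478302) (nat_lit 90) (nat_lit 1) (nat_lit 86) (nat_lit 1) (nat_lit 89) (nat_lit 1) (nat_lit 257) (nat_lit 244) (nat_lit 219)) (XT.lf (nat_lit 420) (nat_lit 2639614995) (nat_lit 0) (nat_lit 73244251) (nat_lit 336) (nat_lit 73244251) (nat_lit 86) (nat_lit 1) (nat_lit 81) (nat_lit 1) (nat_lit 85) (nat_lit 1) (nat_lit 258) (nat_lit 244) (nat_lit 218))))))) (XT.nd (nat_lit 1222) (nat_lit 1680) (nat_lit 0) (XT.nd (nat_lit 564) (nat_lit 924) (nat_lit 0) (XT.nd (nat_lit 282) (nat_lit 588) (nat_lit 0) (XT.nd (nat_lit 94) (nat_lit 252) (nat_lit 0) (XT.lf (nat_lit 84) (nat_lit 1032900861)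 (nat_lit 0) (nat_lit 665168909) (nat_lit 420) (nat_lit 1032900861) (nat_lit 82) (nat_lit 1) (nat_lit 81) (nat_lit 1) (nat_lit 86) (nat_lit 1) (nat_lit 259) (nat_lit 244) (nat_lit 217)) (XT.nd (nat_lit 94) (nat_lit 0) (nat_lit 0) (XT.lf (nat_lit 336) (nat_lit 1508584363) (nat_lit 0) (nat_lit 584683948) (nat_lit 252) (nat_lit 584683948) (nat_lit 82) (nat_lit 1) (nat_lit 78) (nat_lit 1) (nat_lit 81) (nat_lit 1) (nat_lit 260) (nat_lit 244) (nat_lit 216)) (XT.lf (nat_lit 84) (nat_lit 476585135) (nat_lit 0) (nat_lit 1673110639) (nat_lit 336) (nat_lit 476585135) (nat_lit 79) (nat_lit 1) (nat_lit 78) (nat_lit 1) (nat_lit 82) (nat_lit 1) (nat_lit 261) (nat_lit 244) (nat_lit 215)))) (XT.nd (nat_lit 94) (nat_lit 336) (nat_lit 0) (XT.lf (nat_lit 336) (nat_lit 397218814) (nat_lit 0) (nat_lit 1089283128) (nat_lit 252) (nat_lit 1089283128) (nat_lit 79) (nat_lit 1) (nat_lit 75) (nat_lit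 1) (nat_lit 78) (nat_lit 1) (nat_lit 262) (nat_lit 244) (nat_lit 214)) (XT.nd (nat_lit 94) (nat_lit 0) (nat_lit 0) (XT.lf (nat_lit 336) (nat_lit 2390632901) (nat_lit 0) (nat_lit 68266156) (nat_lit 252) (nat_lit 68266156) (nat_lit 75) (nat_lit 1) (nat_lit 71) (nat_lit 1) (nat_lit 74) (nat_lit 1) (nat_lit 263) (nat_lit 244) (nat_lit 213)) (XT.lf (nat_lit 84) (nat_lit 904307963) (nat_lit 0) (nat_lit 670083120) (nat_lit 336) (nat_lit 904307963) (nat_lit 72) (nat_lit 1) (nat_lit 71) (nat_lit 1) (nat_lit 75) (nat_lit 1) (nat_lit 264) (nat_lit 244) (nat_lit 212))))) (XT.nd (nat_lit 282) (nat_lit 504) (nat_lit 0) (XT.nd (nat_lit 94) (nat_lit 168) (nat_lit 0) (XT.lf (nat_lit 336) (nat_lit 1243506253) (nat_lit 0) (nat_lit 594259941) (nat_lit 252) (nat_lit 594259941) (nat_lit 72) (nat_lit 1) (nat_lit 68) (nat_lit 1) (nat_lit 71) (nat_lit 1) (nat_lit 265) (nat_lit 244) (nat_lit 211))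 (XT.nd (nat_lit 94) (nat_lit 168) (nat_lit 0) (XT.lf (nat_lit 84) (nat_lit 342460608) (nat_lit 0) (nat_lit 1701683796) (nat_lit 336) (nat_lit 342460608) (nat_lit 69) (nat_lit 1) (nat_lit 68) (nat_lit 1) (nat_lit 72) (nat_lit 1) (nat_lit 266) (nat_lit 244) (nat_lit 210)) (XT.lf (nat_lit 252) (nat_lit 125488953) (nat_lit 0) (nat_lit 1108275435) (nat_lit 168) (nat_lit 1108275435) (nat_lit 69) (nat_lit 1) (nat_lit 66) (nat_lit 1) (nat_lit 68) (nat_lit 1) (nat_lit 267) (nat_lit 244) (nat_lit 209)))) (XT.nd (nat_lit 188) (nat_lit 168) (nat_lit 0) (XT.nd (nat_lit 94) (nat_lit 0) (nat_lit 0) (XT.lf (nat_lit 336) (nat_lit 1896096006) (nat_lit 0) (nat_lit 201379139) (nat_lit 252) (nat_lit 201379139) (nat_lit 66) (nat_lit 1) (nat_lit 62) (nat_lit 1) (nat_lit 65) (nat_lit 1) (nat_lit 268) (nat_lit 244) (nat_lit 208)) (XT.lf (nat_lit 84) (nat_lit 662261327) (nat_lit 0) (nat_lit 931629082)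 (nat_lit 336) (nat_lit 662261327) (nat_lit 63) (nat_lit 1) (nat_lit 62) (nat_lit 1) (nat_lit 66) (nat_lit 1) (nat_lit 269) (nat_lit 244) (nat_lit 207))) (XT.nd (nat_lit 94) (nat_lit 0) (nat_lit 0) (XT.lf (nat_lit 252) (nat_lit 765140805) (nat_lit 0) (nat_lit 724813149) (nat_lit 168) (nat_lit 724813149) (nat_lit 63) (nat_lit 1) (nat_lit 60) (nat_lit 1) (nat_lit 62) (nat_lit 1) (nat_lit 270) (nat_lit 244) (nat_lit 206)) (XT.lf (nat_lit 84) (nat_lit 109926447) (nat_lit 0) (nat_lit 1954902975) (nat_lit 252) (nat_lit 109926447) (nat_lit 61) (nat_lit 1) (nat_lit 60) (nat_lit 1) (nat_lit 63) (nat_lit 1) (nat_lit 271) (nat_lit 244) (nat_lit 205)))))) (XT.nd (nat_lit 658) (nat_lit 672) (nat_lit 0) (XT.nd (nat_lit 282) (nat_lit 588) (nat_lit 0) (XT.nd (nat_lit 94) (nat_lit 168) (nat_lit 0) (XT.lf (nat_lit 84) (nat_lit 907242259) (nat_lit 0) (nat_lit 320405561) (nat_lit 252) (nat_lit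 907242259) (nat_lit 58) (nat_lit 1) (nat_lit 57) (nat_lit 1) (nat_lit 60) (nat_lit 1) (nat_lit 272) (nat_lit 244) (nat_lit 204)) (XT.nd (nat_lit 94) (nat_lit 0) (nat_lit 0) (XT.lf (nat_lit 252) (nat_lit 1259864884) (nat_lit 0) (nat_lit 418241006) (nat_lit 168) (nat_lit 418241006) (nat_lit 58) (nat_lit 1) (nat_lit 55) (nat_lit 1) (nat_lit 57) (nat_lit 1) (nat_lit 273) (nat_lit 244) (nat_lit 203)) (XT.lf (nat_lit 84) (nat_lit 355501093) (nat_lit 0) (nat_lit 1347653418) (nat_lit 252) (nat_lit 355501093) (nat_lit 56) (nat_lit 1) (nat_lit 55) (nat_lit 1) (nat_lit 58) (nat_lit 1) (nat_lit 274) (nat_lit 244) (nat_lit 202)))) (XT.nd (nat_lit 188) (nat_lit 168) (nat_lit 0) (XT.nd (nat_lit 94) (nat_lit 252) (nat_lit 0) (XT.lf (nat_lit 252) (nat_lit 166539463) (nat_lit 0) (nat_lit 927592304) (nat_lit 168) (nat_lit 927592304) (nat_lit 56) (nat_lit 1) (nat_lit 53) (nat_lit 1) (nat_lit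 55) (nat_lit 1) (nat_lit 275) (nat_lit 244) (nat_lit 201)) (XT.lf (nat_lit 252) (nat_lit 1636857435) (nat_lit 0) (nat_lit 174502611) (nat_lit 168) (nat_lit 174502611) (nat_lit 53) (nat_lit 1) (nat_lit 50) (nat_lit 1) (nat_lit 52) (nat_lit 1) (nat_lit 276) (nat_lit 244) (nat_lit 200))) (XT.nd (nat_lit 94) (nat_lit 168) (nat_lit 0) (XT.lf (nat_lit 84) (nat_lit 544913851) (nat_lit 0) (nat_lit 860479614) (nat_lit 252) (nat_lit 544913851) (nat_lit 51) (nat_lit 1) (nat_lit 50) (nat_lit 1) (nat_lit 53) (nat_lit 1) (nat_lit 277) (nat_lit 244) (nat_lit 199)) (XT.lf (nat_lit 252) (nat_lit 554968301) (nat_lit 0) (nat_lit 680407947) (nat_lit 168) (nat_lit 680407947) (nat_lit 51) (nat_lit 1) (nat_lit 48) (nat_lit 1) (nat_lit 50) (nat_lit 1) (nat_lit 278) (nat_lit 244) (nat_lit 198))))) (XT.nd (nat_lit 282) (nat_lit 336) (nat_lit 0) (XT.nd (nat_lit 94) (nat_lit 336) (nat_lit 0) (XT.lf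 (nat_lit 84) (nat_lit 18240277) (nat_lit 0) (nat_lit 1845991250) (nat_lit 252) (nat_lit 18240277) (nat_lit 49) (nat_lit 1) (nat_lit 48) (nat_lit 1) (nat_lit 51) (nat_lit 1) (nat_lit 279) (nat_lit 244) (nat_lit 197)) (XT.nd (nat_lit 94) (nat_lit 168) (nat_lit 0) (XT.lf (nat_lit 84) (nat_lit 688723137) (nat_lit 0) (nat_lit 471501386) (nat_lit 168) (nat_lit 688723137) (nat_lit 47) (nat_lit 1) (nat_lit 46) (nat_lit 1) (nat_lit 48) (nat_lit 1) (nat_lit 280) (nat_lit 244) (nat_lit 196)) (XT.lf (nat_lit 252) (nat_lit 854627008) (nat_lit 0) (nat_lit 480988029) (nat_lit 168) (nat_lit 480988029) (nat_lit 47) (nat_lit 1) (nat_lit 44) (nat_lit 1) (nat_lit 46) (nat_lit 1) (nat_lit 281) (nat_lit 244) (nat_lit 195)))) (XT.nd (nat_lit 188) (nat_lit 168) (nat_lit 0) (XT.nd (nat_lit 94) (nat_lit 168) (nat_lit 0) (XT.lf (nat_lit 84) (nat_lit 171346808) (nat_lit 0) (nat_lit 1442437917) (nat_lit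 252) (nat_lit 171346808) (nat_lit 45) (nat_lit 1) (nat_lit 44) (nat_lit 1) (nat_lit 47) (nat_lit 1) (nat_lit 282) (nat_lit 244) (nat_lit 194)) (XT.lf (nat_lit 84) (nat_lit 795586766) (nat_lit 0) (nat_lit 162746003) (nat_lit 168) (nat_lit 795586766) (nat_lit 43) (nat_lit 1) (nat_lit 42) (nat_lit 1) (nat_lit 44) (nat_lit 1) (nat_lit 283) (nat_lit 244) (nat_lit 193))) (XT.nd (nat_lit 94) (nat_lit 0) (nat_lit 0) (XT.lf (nat_lit 252) (nat_lit 1082202052) (nat_lit 0) (nat_lit 320676448) (nat_lit 168) (nat_lit 320676448) (nat_lit 43) (nat_lit 1) (nat_lit 40) (nat_lit 1) (nat_lit 42) (nat_lit 1) (nat_lit 284) (nat_lit 244) (nat_lit 192)) (XT.lf (nat_lit 84) (nat_lit 289863145) (nat_lit 0) (nat_lit 1114065194) (nat_lit 252) (nat_lit 289863145) (nat_lit 41) (nat_lit 1) (nat_lit 40) (nat_lit 1) (nat_lit 43) (nat_lit 1) (nat_lit 285) (nat_lit 244) (nat_lit 191))))))))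
noncomputable def ec35 : XT := (XT.nd (nat_lit 2538) (nat_lit 924) (nat_lit 0) (XT.nd (nat_lit 1222) (nat_lit 1092) (nat_lit 0) (XT.nd (nat_lit 564) (nat_lit 672) (nat_lit 0) (XT.nd (nat_lit 282) (nat_lit 336) (nat_lit 0) (XT.nd (nat_lit 94) (nat_lit 252) (nat_lit 0) (XT.lf (nat_lit 168) (nat_lit 83209153) (nat_lit 0) (nat_lit 790690259) (nat_lit 84) (nat_lit 790690259) (nat_lit 41) (nat_lit 1) (nat_lit 39) (nat_lit 1) (nat_lit 40) (nat_lit 1) (nat_lit 286) (nat_lit 244) (nat_lit 190)) (XT.nd (nat_lit 94) (nat_lit 0) (nat_lit 0) (XT.lf (nat_lit 252) (nat_lit 1251376304) (nat_lit 0) (nat_lit 192360742) (nat_lit 168) (nat_lit 192360742) (nat_lit 39) (nat_lit 1) (nat_lit 36) (nat_lit 1) (nat_lit 38) (nat_lit 1) (nat_lit 287) (nat_lit 244) (nat_lit 189)) (XT.lf (nat_lit 84) (nat_lit 380276557) (nat_lit 0) (nat_lit 847370812) (nat_lit 252) (nat_lit 380276557) (nat_lit 37) (nat_lit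 1) (nat_lit 36) (nat_lit 1) (nat_lit 39) (nat_lit 1) (nat_lit 288) (nat_lit 244) (nat_lit 188)))) (XT.nd (nat_lit 94) (nat_lit 252) (nat_lit 0) (XT.lf (nat_lit 168) (nat_lit 279435187) (nat_lit 0) (nat_lit 650502833) (nat_lit 84) (nat_lit 650502833) (nat_lit 37) (nat_lit 1) (nat_lit 35) (nat_lit 1) (nat_lit 36) (nat_lit 1) (nat_lit 289) (nat_lit 244) (nat_lit 187)) (XT.nd (nat_lit 94) (nat_lit 0) (nat_lit 0) (XT.lf (nat_lit 252) (nat_lit 1373363714) (nat_lit 0) (nat_lit 90197978) (nat_lit 168) (nat_lit 90197978) (nat_lit 35) (nat_lit 1) (nat_lit 32) (nat_lit 1) (nat_lit 34) (nat_lit 1) (nat_lit 290) (nat_lit 244) (nat_lit 186)) (XT.lf (nat_lit 84) (nat_lit 447907256) (nat_lit 0) (nat_lit 631254653) (nat_lit 252) (nat_lit 447907256) (nat_lit 33) (nat_lit 1) (nat_lit 32) (nat_lit 1) (nat_lit 35) (nat_lit 1) (nat_lit 291) (nat_lit 244) (nat_lit 185))))) (XT.nd (nat_lit 282)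 (nat_lit 336) (nat_lit 0) (XT.nd (nat_lit 94) (nat_lit 252) (nat_lit 0) (XT.lf (nat_lit 168) (nat_lit 430824221) (nat_lit 0) (nat_lit 535170290) (nat_lit 84) (nat_lit 535170290) (nat_lit 33) (nat_lit 1) (nat_lit 31) (nat_lit 1) (nat_lit 32) (nat_lit 1) (nat_lit 292) (nat_lit 244) (nat_lit 184)) (XT.nd (nat_lit 94) (nat_lit 0) (nat_lit 0) (XT.lf (nat_lit 252) (nat_lit 1457349089) (nat_lit 0) (nat_lit 9389260) (nat_lit 168) (nat_lit 9389260) (nat_lit 31) (nat_lit 1) (nat_lit 28) (nat_lit 1) (nat_lit 30) (nat_lit 1) (nat_lit 293) (nat_lit 244) (nat_lit 183)) (XT.lf (nat_lit 84) (nat_lit 497116113) (nat_lit 0) (nat_lit 456592470) (nat_lit 252) (nat_lit 497116113) (nat_lit 29) (nat_lit 1) (nat_lit 28) (nat_lit 1) (nat_lit 31) (nat_lit 1) (nat_lit 294) (nat_lit 244) (nat_lit 182)))) (XT.nd (nat_lit 188) (nat_lit 252) (nat_lit 0) (XT.nd (nat_lit 94) (nat_lit 0) (nat_lit 0) (XT.lf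 (nat_lit 168) (nat_lit 545804154) (nat_lit 0) (nat_lit 440285922) (nat_lit 84) (nat_lit 440285922) (nat_lit 29) (nat_lit 1) (nat_lit 27) (nat_lit 1) (nat_lit 28) (nat_lit 1) (nat_lit 295) (nat_lit 244) (nat_lit 181)) (XT.lf (nat_lit 0) (nat_lit 54891095) (nat_lit 0) (nat_lit 1292883258) (nat_lit 168) (nat_lit 54891095) (nat_lit 27) (nat_lit 3) (nat_lit 27) (nat_lit 1) (nat_lit 29) (nat_lit 1) (nat_lit 296) (nat_lit 244) (nat_lit 180))) (XT.nd (nat_lit 94) (nat_lit 84) (nat_lit 0) (XT.lf (nat_lit 84) (nat_lit 531475519) (nat_lit 0) (nat_lit 315885188) (nat_lit 168) (nat_lit 531475519) (nat_lit 26) (nat_lit 1) (nat_lit 25) (nat_lit 1) (nat_lit 27) (nat_lit 1) (nat_lit 297) (nat_lit 244) (nat_lit 179)) (XT.lf (nat_lit 168) (nat_lit 631285858) (nat_lit 0) (nat_lit 362224318) (nat_lit 84) (nat_lit 362224318) (nat_lit 26) (nat_lit 1) (nat_lit 24) (nat_lit 1) (nat_lit 25) (nat_lit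 1) (nat_lit 298) (nat_lit 244) (nat_lit 178)))))) (XT.nd (nat_lit 658) (nat_lit 588) (nat_lit 0) (XT.nd (nat_lit 282) (nat_lit 252) (nat_lit 0) (XT.nd (nat_lit 94) (nat_lit 252) (nat_lit 0) (XT.lf (nat_lit 0) (nat_lit 104913606) (nat_lit 0) (nat_lit 1123412823) (nat_lit 168) (nat_lit 104913606) (nat_lit 24) (nat_lit 3) (nat_lit 24) (nat_lit 1) (nat_lit 26) (nat_lit 1) (nat_lit 299) (nat_lit 244) (nat_lit 177)) (XT.nd (nat_lit 94) (nat_lit 84) (nat_lit 0) (XT.lf (nat_lit 84) (nat_lit 553909903) (nat_lit 0) (nat_lit 202970414) (nat_lit 168) (nat_lit 553909903) (nat_lit 23) (nat_lit 1) (nat_lit 22) (nat_lit 1) (nat_lit 24) (nat_lit 1) (nat_lit 300) (nat_lit 244) (nat_lit 176)) (XT.lf (nat_lit 168) (nat_lit 692933227) (nat_lit 0) (nat_lit 298002843) (nat_lit 84) (nat_lit 298002843) (nat_lit 23) (nat_lit 1) (nat_lit 21) (nat_lit 1) (nat_lit 22) (nat_lit 1) (nat_lit 301) (nat_lit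 244) (nat_lit 175)))) (XT.nd (nat_lit 188) (nat_lit 84) (nat_lit 0) (XT.nd (nat_lit 94) (nat_lit 168) (nat_lit 0) (XT.lf (nat_lit 0) (nat_lit 143221795) (nat_lit 0) (nat_lit 981143621) (nat_lit 168) (nat_lit 143221795) (nat_lit 21) (nat_lit 3) (nat_lit 21) (nat_lit 1) (nat_lit 23) (nat_lit 1) (nat_lit 302) (nat_lit 244) (nat_lit 174)) (XT.lf (nat_lit 84) (nat_lit 566811314) (nat_lit 0) (nat_lit 112785108) (nat_lit 168) (nat_lit 566811314) (nat_lit 20) (nat_lit 1) (nat_lit 19) (nat_lit 1) (nat_lit 21) (nat_lit 1) (nat_lit 303) (nat_lit 244) (nat_lit 173))) (XT.nd (nat_lit 94) (nat_lit 0) (nat_lit 0) (XT.lf (nat_lit 168) (nat_lit 735385300) (nat_lit 0) (nat_lit 245167676) (nat_lit 84) (nat_lit 245167676) (nat_lit 20) (nat_lit 1) (nat_lit 18) (nat_lit 1) (nat_lit 19) (nat_lit 1) (nat_lit 304) (nat_lit 244) (nat_lit 172)) (XT.lf (nat_lit 0) (nat_lit 172028079) (nat_lit 0) (nat_lit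 861388439) (nat_lit 168) (nat_lit 172028079) (nat_lit 18) (nat_lit 3) (nat_lit 18) (nat_lit 1) (nat_lit 20) (nat_lit 1) (nat_lit 305) (nat_lit 244) (nat_lit 171))))) (XT.nd (nat_lit 282) (nat_lit 336) (nat_lit 0) (XT.nd (nat_lit 94) (nat_lit 84) (nat_lit 0) (XT.lf (nat_lit 84) (nat_lit 572134466) (nat_lit 0) (nat_lit 41170346) (nat_lit 168) (nat_lit 572134466) (nat_lit 17) (nat_lit 1) (nat_lit 16) (nat_lit 1) (nat_lit 18) (nat_lit 1) (nat_lit 306) (nat_lit 244) (nat_lit 170)) (XT.nd (nat_lit 94) (nat_lit 0) (nat_lit 0) (XT.lf (nat_lit 168) (nat_lit 762438944) (nat_lit 0) (nat_lit 201700054) (nat_lit 84) (nat_lit 201700054) (nat_lit 17) (nat_lit 1) (nat_lit 15) (nat_lit 1) (nat_lit 16) (nat_lit 1) (nat_lit 307) (nat_lit 244) (nat_lit 169)) (XT.lf (nat_lit 0) (nat_lit 193146168) (nat_lit 0) (nat_lit 760284642) (nat_lit 168) (nat_lit 193146168) (nat_lit 15) (nat_lit 3) (nat_lit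 15) (nat_lit 1) (nat_lit 17) (nat_lit 1) (nat_lit 308) (nat_lit 244) (nat_lit 168)))) (XT.nd (nat_lit 188) (nat_lit 84) (nat_lit 0) (XT.nd (nat_lit 94) (nat_lit 168) (nat_lit 0) (XT.lf (nat_lit 84) (nat_lit 15794817) (nat_lit 0) (nat_lit 555926697) (nat_lit 84) (nat_lit 555926697) (nat_lit 15) (nat_lit 3) (nat_lit 14) (nat_lit 1) (nat_lit 15) (nat_lit 1) (nat_lit 309) (nat_lit 244) (nat_lit 167)) (XT.lf (nat_lit 168) (nat_lit 777199108) (nat_lit 0) (nat_lit 165939133) (nat_lit 84) (nat_lit 165939133) (nat_lit 14) (nat_lit 1) (nat_lit 12) (nat_lit 1) (nat_lit 13) (nat_lit 1) (nat_lit 310) (nat_lit 244) (nat_lit 166))) (XT.nd (nat_lit 94) (nat_lit 84) (nat_lit 0) (XT.lf (nat_lit 0) (nat_lit 208062060) (nat_lit 0) (nat_lit 674648287) (nat_lit 168) (nat_lit 208062060) (nat_lit 12) (nat_lit 3) (nat_lit 12) (nat_lit 1) (nat_lit 14) (nat_lit 1) (nat_lit 311) (nat_lit 244) (nat_lit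 165)) (XT.lf (nat_lit 84) (nat_lit 61361758) (nat_lit 0) (nat_lit 505729593) (nat_lit 84) (nat_lit 505729593) (nat_lit 12) (nat_lit 3) (nat_lit 11) (nat_lit 1) (nat_lit 12) (nat_lit 1) (nat_lit 312) (nat_lit 244) (nat_lit 164))))))) (XT.nd (nat_lit 1316) (nat_lit 0) (nat_lit 0) (XT.nd (nat_lit 658) (nat_lit 252) (nat_lit 0) (XT.nd (nat_lit 282) (nat_lit 420) (nat_lit 0) (XT.nd (nat_lit 94) (nat_lit 84) (nat_lit 0) (XT.lf (nat_lit 168) (nat_lit 782202393) (nat_lit 0) (nat_lit 136518535) (nat_lit 84) (nat_lit 136518535) (nat_lit 11) (nat_lit 1) (nat_lit 9) (nat_lit 1) (nat_lit 10) (nat_lit 1) (nat_lit 313) (nat_lit 244) (nat_lit 163)) (XT.nd (nat_lit 94) (nat_lit 84) (nat_lit 0) (XT.lf (nat_lit 0) (nat_lit 217992439) (nat_lit 0) (nat_lit 601854082) (nat_lit 168) (nat_lit 217992439) (nat_lit 9) (nat_lit 3) (nat_lit 9) (nat_lit 1) (nat_lit 11) (nat_lit 1) (nat_lit 314) (nat_lit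 244) (nat_lit 162)) (XT.lf (nat_lit 84) (nat_lit 96546588) (nat_lit 0) (nat_lit 462129105) (nat_lit 84) (nat_lit 462129105) (nat_lit 9) (nat_lit 3) (nat_lit 8) (nat_lit 1) (nat_lit 9) (nat_lit 1) (nat_lit 315) (nat_lit 244) (nat_lit 161)))) (XT.nd (nat_lit 188) (nat_lit 252) (nat_lit 0) (XT.nd (nat_lit 94) (nat_lit 0) (nat_lit 0) (XT.lf (nat_lit 168) (nat_lit 779518668) (nat_lit 0) (nat_lit 112314137) (nat_lit 84) (nat_lit 112314137) (nat_lit 8) (nat_lit 1) (nat_lit 6) (nat_lit 1) (nat_lit 7) (nat_lit 1) (nat_lit 316) (nat_lit 244) (nat_lit 160)) (XT.lf (nat_lit 0) (nat_lit 223932697) (nat_lit 0) (nat_lit 539736621) (nat_lit 168) (nat_lit 223932697) (nat_lit 6) (nat_lit 3) (nat_lit 6) (nat_lit 1) (nat_lit 8) (nat_lit 1) (nat_lit 317) (nat_lit 244) (nat_lit 159))) (XT.nd (nat_lit 94) (nat_lit 168) (nat_lit 0) (XT.lf (nat_lit 84) (nat_lit 123299704) (nat_lit 0) (nat_lit 424065346)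 (nat_lit 84) (nat_lit 424065346) (nat_lit 6) (nat_lit 3) (nat_lit 5) (nat_lit 1) (nat_lit 6) (nat_lit 1) (nat_lit 318) (nat_lit 244) (nat_lit 158)) (XT.lf (nat_lit 168) (nat_lit 770834625) (nat_lit 0) (nat_lit 92401118) (nat_lit 84) (nat_lit 92401118) (nat_lit 5) (nat_lit 1) (nat_lit 3) (nat_lit 1) (nat_lit 4) (nat_lit 1) (nat_lit 319) (nat_lit 244) (nat_lit 157))))) (XT.nd (nat_lit 282) (nat_lit 0) (nat_lit 0) (XT.nd (nat_lit 94) (nat_lit 252) (nat_lit 0) (XT.lf (nat_lit 0) (nat_lit 226696439) (nat_lit 0) (nat_lit 486509109) (nat_lit 168) (nat_lit 226696439) (nat_lit 3) (nat_lit 3) (nat_lit 3) (nat_lit 1) (nat_lit 5) (nat_lit 1) (nat_lit 320) (nat_lit 244) (nat_lit 156)) (XT.nd (nat_lit 94) (nat_lit 168) (nat_lit 0) (XT.lf (nat_lit 84) (nat_lit 143220484) (nat_lit 0) (nat_lit 390661122) (nat_lit 84) (nat_lit 390661122) (nat_lit 3) (nat_lit 3) (nat_lit 2) (nat_lit 1) (nat_lit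 3) (nat_lit 1) (nat_lit 321) (nat_lit 244) (nat_lit 155)) (XT.lf (nat_lit 0) (nat_lit 1321306552) (nat_lit 0) (nat_lit 0) (nat_lit 0) (nat_lit 0) (nat_lit 0) (nat_lit 0) (nat_lit 1) (nat_lit 0) (nat_lit 1) (nat_lit 0) (nat_lit 322) (nat_lit 244) (nat_lit 154)))) (XT.nd (nat_lit 188) (nat_lit 0) (nat_lit 0) (XT.nd (nat_lit 94) (nat_lit 0) (nat_lit 0) (XT.lf (nat_lit 0) (nat_lit 1320536711) (nat_lit 0) (nat_lit 0) (nat_lit 0) (nat_lit 0) (nat_lit 0) (nat_lit 0) (nat_lit 1) (nat_lit 0) (nat_lit 1) (nat_lit 0) (nat_lit 323) (nat_lit 244) (nat_lit 153)) (XT.lf (nat_lit 0) (nat_lit 1319803529) (nat_lit 0) (nat_lit 0) (nat_lit 0) (nat_lit 0) (nat_lit 0) (nat_lit 0) (nat_lit 1) (nat_lit 0) (nat_lit 1) (nat_lit 0) (nat_lit 324) (nat_lit 244) (nat_lit 152))) (XT.nd (nat_lit 94) (nat_lit 0) (nat_lit 0) (XT.lf (nat_lit 0) (nat_lit 1319105261) (nat_lit 0) (nat_lit 0) (nat_lit 0) (nat_lit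 0) (nat_lit 0) (nat_lit 0) (nat_lit 1) (nat_lit 0) (nat_lit 1) (nat_lit 0) (nat_lit 325) (nat_lit 244) (nat_lit 151)) (XT.lf (nat_lit 0) (nat_lit 1318440244) (nat_lit 0) (nat_lit 0) (nat_lit 0) (nat_lit 0) (nat_lit 0) (nat_lit 0) (nat_lit 1) (nat_lit 0) (nat_lit 1) (nat_lit 0) (nat_lit 326) (nat_lit 244) (nat_lit 150)))))) (XT.nd (nat_lit 36566) (nat_lit 0) (nat_lit 10332) (XT.nd (nat_lit 36190) (nat_lit 0) (nat_lit 10752) (XT.nd (nat_lit 94) (nat_lit 0) (nat_lit 0) (XT.lf (nat_lit 0) (nat_lit 1317806894) (nat_lit 0) (nat_lit 0) (nat_lit 0) (nat_lit 0) (nat_lit 0) (nat_lit 0) (nat_lit 1) (nat_lit 0) (nat_lit 1) (nat_lit 0) (nat_lit 327) (nat_lit 244) (nat_lit 149)) (XT.nd (nat_lit 36002) (nat_lit 0) (nat_lit 10752) (XT.lf (nat_lit 0) (nat_lit 1317203704) (nat_lit 0) (nat_lit 0) (nat_lit 0) (nat_lit 0) (nat_lit 0) (nat_lit 0) (nat_lit 1) (nat_lit 0) (nat_lit 1) (nat_lit 0)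 (nat_lit 328) (nat_lit 244) (nat_lit 148)) (XT.lf (nat_lit 924) (nat_lit 685797936) (nat_lit 0) (nat_lit 1217632660) (nat_lit 924) (nat_lit 685797936) (nat_lit 139) (nat_lit 1) (nat_lit 128) (nat_lit 0) (nat_lit 139) (nat_lit 0) (nat_lit 230) (nat_lit 245) (nat_lit 245)))) (XT.nd (nat_lit 188) (nat_lit 0) (nat_lit 84) (XT.nd (nat_lit 94) (nat_lit 0) (nat_lit 84) (XT.lf (nat_lit 924) (nat_lit 2658238422) (nat_lit 84) (nat_lit 1197993424) (nat_lit 0) (nat_lit 1197993424) (nat_lit 139) (nat_lit 1) (nat_lit 129) (nat_lit 1) (nat_lit 128) (nat_lit 0) (nat_lit 231) (nat_lit 245) (nat_lit 244)) (XT.lf (nat_lit 924) (nat_lit 1266876406) (nat_lit 0) (nat_lit 2400081330) (nat_lit 840) (nat_lit 1266876406) (nat_lit 140) (nat_lit 1) (nat_lit 129) (nat_lit 1) (nat_lit 139) (nat_lit 1) (nat_lit 232) (nat_lit 245) (nat_lit 243))) (XT.nd (nat_lit 94) (nat_lit 0) (nat_lit 84) (XT.lf (nat_lit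 924) (nat_lit 2376484102) (nat_lit 84) (nat_lit 1220424222) (nat_lit 0) (nat_lit 1220424222) (nat_lit 140) (nat_lit 1) (nat_lit 130) (nat_lit 1) (nat_lit 129) (nat_lit 1) (nat_lit 233) (nat_lit 245) (nat_lit 242)) (XT.lf (nat_lit 924) (nat_lit 1093872810) (nat_lit 0) (nat_lit 2516777847) (nat_lit 840) (nat_lit 1093872810) (nat_lit 141) (nat_lit 1) (nat_lit 130) (nat_lit 1) (nat_lit 140) (nat_lit 1) (nat_lit 234) (nat_lit 245) (nat_lit 241))))) (XT.nd (nat_lit 282) (nat_lit 588) (nat_lit 0) (XT.nd (nat_lit 94) (nat_lit 0) (nat_lit 84) (XT.lf (nat_lit 924) (nat_lit 1967401496) (nat_lit 84) (nat_lit 1313875872) (nat_lit 0) (nat_lit 1313875872) (nat_lit 141) (nat_lit 1) (nat_lit 131) (nat_lit 1) (nat_lit 130) (nat_lit 1) (nat_lit 235) (nat_lit 245) (nat_lit 240)) (XT.nd (nat_lit 94) (nat_lit 0) (nat_lit 0) (XT.lf (nat_lit 924) (nat_lit 862648732) (nat_lit 0) (nat_lit 2764157821)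 (nat_lit 840) (nat_lit 862648732) (nat_lit 142) (nat_lit 1) (nat_lit 131) (nat_lit 1) (nat_lit 141) (nat_lit 1) (nat_lit 236) (nat_lit 245) (nat_lit 239)) (XT.lf (nat_lit 924) (nat_lit 1450139006) (nat_lit 84) (nat_lit 1468264276) (nat_lit 0) (nat_lit 1468264276) (nat_lit 142) (nat_lit 1) (nat_lit 132) (nat_lit 1) (nat_lit 131) (nat_lit 1) (nat_lit 237) (nat_lit 245) (nat_lit 238)))) (XT.nd (nat_lit 188) (nat_lit 756) (nat_lit 0) (XT.nd (nat_lit 94) (nat_lit 0) (nat_lit 0) (XT.lf (nat_lit 924) (nat_lit 582155280) (nat_lit 0) (nat_lit 3123331887) (nat_lit 840) (nat_lit 582155280) (nat_lit 143) (nat_lit 1) (nat_lit 132) (nat_lit 1) (nat_lit 142) (nat_lit 1) (nat_lit 238) (nat_lit 245) (nat_lit 237)) (XT.lf (nat_lit 924) (nat_lit 841716672) (nat_lit 84) (nat_lit 1674608637) (nat_lit 0) (nat_lit 1674608637) (nat_lit 143) (nat_lit 1) (nat_lit 133) (nat_lit 1) (nat_lit 132) (nat_lit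 1) (nat_lit 239) (nat_lit 245) (nat_lit 236))) (XT.nd (nat_lit 94) (nat_lit 840) (nat_lit 0) (XT.lf (nat_lit 84) (nat_lit 260342882) (nat_lit 0) (nat_lit 3577487769) (nat_lit 840) (nat_lit 260342882) (nat_lit 134) (nat_lit 1) (nat_lit 133) (nat_lit 1) (nat_lit 143) (nat_lit 1) (nat_lit 240) (nat_lit 245) (nat_lit 235)) (XT.lf (nat_lit 924) (nat_lit 157240626) (nat_lit 0) (nat_lit 1924920985) (nat_lit 840) (nat_lit 1924920985) (nat_lit 134) (nat_lit 1) (nat_lit 123) (nat_lit 1) (nat_lit 133) (nat_lit 1) (nat_lit 241) (nat_lit 245) (nat_lit 234))))))))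
noncomputable def ec36 : XT := (XT.nd (nat_lit 2538) (nat_lit 2940) (nat_lit 0) (XT.nd (nat_lit 1222) (nat_lit 2436) (nat_lit 0) (XT.nd (nat_lit 564) (nat_lit 1428) (nat_lit 0) (XT.nd (nat_lit 282) (nat_lit 420) (nat_lit 0) (XT.nd (nat_lit 94) (nat_lit 420) (nat_lit 0) (XT.lf (nat_lit 588) (nat_lit 3731518095) (nat_lit 0) (nat_lit 94193501) (nat_lit 504) (nat_lit 94193501) (nat_lit 123) (nat_lit 1) (nat_lit 116) (nat_lit 1) (nat_lit 122) (nat_lit 1) (nat_lit 242) (nat_lit 245) (nat_lit 233)) (XT.nd (nat_lit 94) (nat_lit 420) (nat_lit 0) (XT.lf (nat_lit 84) (nat_lit 1631413216) (nat_lit 0) (nat_lit 571022599) (nat_lit 588) (nat_lit 1631413216) (nat_lit 117) (nat_lit 1) (nat_lit 116) (nat_lit 1) (nat_lit 123) (nat_lit 1) (nat_lit 243) (nat_lit 245) (nat_lit 232)) (XT.lf (nat_lit 504) (nat_lit 2807243380) (nat_lit 0) (nat_lit 472104460) (nat_lit 420) (nat_lit 472104460) (nat_lit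 117) (nat_lit 1) (nat_lit 111) (nat_lit 1) (nat_lit 116) (nat_lit 1) (nat_lit 244) (nat_lit 245) (nat_lit 231)))) (XT.nd (nat_lit 94) (nat_lit 420) (nat_lit 0) (XT.lf (nat_lit 84) (nat_lit 1163667187) (nat_lit 0) (nat_lit 1343453402) (nat_lit 504) (nat_lit 1163667187) (nat_lit 112) (nat_lit 1) (nat_lit 111) (nat_lit 1) (nat_lit 117) (nat_lit 1) (nat_lit 245) (nat_lit 245) (nat_lit 230)) (XT.nd (nat_lit 94) (nat_lit 0) (nat_lit 0) (XT.lf (nat_lit 504) (nat_lit 1848609576) (nat_lit 0) (nat_lit 872161503) (nat_lit 420) (nat_lit 872161503) (nat_lit 112) (nat_lit 1) (nat_lit 106) (nat_lit 1) (nat_lit 111) (nat_lit 1) (nat_lit 246) (nat_lit 245) (nat_lit 229)) (XT.lf (nat_lit 84) (nat_lit 681188060) (nat_lit 0) (nat_lit 2154965558) (nat_lit 504) (nat_lit 681188060) (nat_lit 107) (nat_lit 1) (nat_lit 106) (nat_lit 1) (nat_lit 112) (nat_lit 1) (nat_lit 247) (nat_lit 245) (nat_lit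 228))))) (XT.nd (nat_lit 282) (nat_lit 672) (nat_lit 0) (XT.nd (nat_lit 94) (nat_lit 420) (nat_lit 0) (XT.lf (nat_lit 420) (nat_lit 864539131) (nat_lit 0) (nat_lit 1289578046) (nat_lit 336) (nat_lit 1289578046) (nat_lit 107) (nat_lit 1) (nat_lit 102) (nat_lit 1) (nat_lit 106) (nat_lit 1) (nat_lit 248) (nat_lit 245) (nat_lit 227)) (XT.nd (nat_lit 94) (nat_lit 420) (nat_lit 0) (XT.lf (nat_lit 84) (nat_lit 188117946) (nat_lit 0) (nat_lit 2996644955) (nat_lit 420) (nat_lit 188117946) (nat_lit 103) (nat_lit 1) (nat_lit 102) (nat_lit 1) (nat_lit 107) (nat_lit 1) (nat_lit 249) (nat_lit 245) (nat_lit 226)) (XT.lf (nat_lit 84) (nat_lit 1585135871) (nat_lit 0) (nat_lit 132758208) (nat_lit 420) (nat_lit 1585135871) (nat_lit 98) (nat_lit 1) (nat_lit 97) (nat_lit 1) (nat_lit 102) (nat_lit 1) (nat_lit 250) (nat_lit 245) (nat_lit 225)))) (XT.nd (nat_lit 188) (nat_lit 336) (nat_lit 0) (XT.nd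 (nat_lit 94) (nat_lit 0) (nat_lit 0) (XT.lf (nat_lit 420) (nat_lit 2622064710) (nat_lit 0) (nat_lit 306887219) (nat_lit 336) (nat_lit 306887219) (nat_lit 98) (nat_lit 1) (nat_lit 93) (nat_lit 1) (nat_lit 97) (nat_lit 1) (nat_lit 251) (nat_lit 245) (nat_lit 224)) (XT.lf (nat_lit 84) (nat_lit 1028489053) (nat_lit 0) (nat_lit 1112822912) (nat_lit 420) (nat_lit 1028489053) (nat_lit 94) (nat_lit 1) (nat_lit 93) (nat_lit 1) (nat_lit 98) (nat_lit 1) (nat_lit 252) (nat_lit 245) (nat_lit 223))) (XT.nd (nat_lit 94) (nat_lit 0) (nat_lit 0) (XT.lf (nat_lit 420) (nat_lit 1500851632) (nat_lit 0) (nat_lit 802600613) (nat_lit 336) (nat_lit 802600613) (nat_lit 94) (nat_lit 1) (nat_lit 89) (nat_lit 1) (nat_lit 93) (nat_lit 1) (nat_lit 253) (nat_lit 245) (nat_lit 222)) (XT.lf (nat_lit 84) (nat_lit 473301622) (nat_lit 0) (nat_lit 2097565455) (nat_lit 420) (nat_lit 473301622) (nat_lit 90) (nat_lit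 1) (nat_lit 89) (nat_lit 1) (nat_lit 94) (nat_lit 1) (nat_lit 254) (nat_lit 245) (nat_lit 221)))))) (XT.nd (nat_lit 658) (nat_lit 924) (nat_lit 0) (XT.nd (nat_lit 282) (nat_lit 840) (nat_lit 0) (XT.nd (nat_lit 94) (nat_lit 420) (nat_lit 0) (XT.lf (nat_lit 336) (nat_lit 384915938) (nat_lit 0) (nat_lit 1299352218) (nat_lit 252) (nat_lit 1299352218) (nat_lit 90) (nat_lit 1) (nat_lit 86) (nat_lit 1) (nat_lit 89) (nat_lit 1) (nat_lit 255) (nat_lit 245) (nat_lit 220)) (XT.nd (nat_lit 94) (nat_lit 0) (nat_lit 0) (XT.lf (nat_lit 420) (nat_lit 2771595744) (nat_lit 0) (nat_lit 76906463) (nat_lit 336) (nat_lit 76906463) (nat_lit 86) (nat_lit 1) (nat_lit 81) (nat_lit 1) (nat_lit 85) (nat_lit 1) (nat_lit 256) (nat_lit 245) (nat_lit 219)) (XT.lf (nat_lit 84) (nat_lit 1084545904) (nat_lit 0) (nat_lit 698427354) (nat_lit 420) (nat_lit 1084545904) (nat_lit 82) (nat_lit 1) (nat_lit 81) (nat_lit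 1) (nat_lit 86) (nat_lit 1) (nat_lit 257) (nat_lit 245) (nat_lit 218)))) (XT.nd (nat_lit 188) (nat_lit 588) (nat_lit 0) (XT.nd (nat_lit 94) (nat_lit 0) (nat_lit 0) (XT.lf (nat_lit 336) (nat_lit 1584013581) (nat_lit 0) (nat_lit 613918146) (nat_lit 252) (nat_lit 613918146) (nat_lit 82) (nat_lit 1) (nat_lit 78) (nat_lit 1) (nat_lit 81) (nat_lit 1) (nat_lit 258) (nat_lit 245) (nat_lit 217)) (XT.lf (nat_lit 84) (nat_lit 500414392) (nat_lit 0) (nat_lit 1756766171) (nat_lit 336) (nat_lit 500414392) (nat_lit 79) (nat_lit 1) (nat_lit 78) (nat_lit 1) (nat_lit 82) (nat_lit 1) (nat_lit 259) (nat_lit 245) (nat_lit 216))) (XT.nd (nat_lit 94) (nat_lit 336) (nat_lit 0) (XT.lf (nat_lit 336) (nat_lit 417079755) (nat_lit 0) (nat_lit 1143747284) (nat_lit 252) (nat_lit 1143747284) (nat_lit 79) (nat_lit 1) (nat_lit 75) (nat_lit 1) (nat_lit 78) (nat_lit 1) (nat_lit 260) (nat_lit 245) (nat_lit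 215)) (XT.lf (nat_lit 336) (nat_lit 2510164546) (nat_lit 0) (nat_lit 71679464) (nat_lit 252) (nat_lit 71679464) (nat_lit 75) (nat_lit 1) (nat_lit 71) (nat_lit 1) (nat_lit 74) (nat_lit 1) (nat_lit 261) (nat_lit 245) (nat_lit 214))))) (XT.nd (nat_lit 282) (nat_lit 672) (nat_lit 0) (XT.nd (nat_lit 94) (nat_lit 252) (nat_lit 0) (XT.lf (nat_lit 84) (nat_lit 949523361) (nat_lit 0) (nat_lit 703587276) (nat_lit 336) (nat_lit 949523361) (nat_lit 72) (nat_lit 1) (nat_lit 71) (nat_lit 1) (nat_lit 75) (nat_lit 1) (nat_lit 262) (nat_lit 245) (nat_lit 213)) (XT.nd (nat_lit 94) (nat_lit 0) (nat_lit 0) (XT.lf (nat_lit 336) (nat_lit 1305681565) (nat_lit 0) (nat_lit 623972938) (nat_lit 252) (nat_lit 623972938) (nat_lit 72) (nat_lit 1) (nat_lit 68) (nat_lit 1) (nat_lit 71) (nat_lit 1) (nat_lit 263) (nat_lit 245) (nat_lit 212)) (XT.lf (nat_lit 84) (nat_lit 359583638) (nat_lit 0) (nat_lit 1786767986)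 (nat_lit 336) (nat_lit 359583638) (nat_lit 69) (nat_lit 1) (nat_lit 68) (nat_lit 1) (nat_lit 72) (nat_lit 1) (nat_lit 264) (nat_lit 245) (nat_lit 211)))) (XT.nd (nat_lit 188) (nat_lit 168) (nat_lit 0) (XT.nd (nat_lit 94) (nat_lit 336) (nat_lit 0) (XT.lf (nat_lit 252) (nat_lit 131763401) (nat_lit 0) (nat_lit 1163689206) (nat_lit 168) (nat_lit 1163689206) (nat_lit 69) (nat_lit 1) (nat_lit 66) (nat_lit 1) (nat_lit 68) (nat_lit 1) (nat_lit 265) (nat_lit 245) (nat_lit 210)) (XT.lf (nat_lit 336) (nat_lit 1990900807) (nat_lit 0) (nat_lit 211448096) (nat_lit 252) (nat_lit 211448096) (nat_lit 66) (nat_lit 1) (nat_lit 62) (nat_lit 1) (nat_lit 65) (nat_lit 1) (nat_lit 266) (nat_lit 245) (nat_lit 209))) (XT.nd (nat_lit 94) (nat_lit 168) (nat_lit 0) (XT.lf (nat_lit 84) (nat_lit 695374393) (nat_lit 0) (nat_lit 978210536) (nat_lit 336) (nat_lit 695374393) (nat_lit 63) (nat_lit 1) (nat_lit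 62) (nat_lit 1) (nat_lit 66) (nat_lit 1) (nat_lit 267) (nat_lit 245) (nat_lit 208)) (XT.lf (nat_lit 252) (nat_lit 803397845) (nat_lit 0) (nat_lit 761053807) (nat_lit 168) (nat_lit 761053807) (nat_lit 63) (nat_lit 1) (nat_lit 60) (nat_lit 1) (nat_lit 62) (nat_lit 1) (nat_lit 268) (nat_lit 245) (nat_lit 207))))))) (XT.nd (nat_lit 1222) (nat_lit 1428) (nat_lit 0) (XT.nd (nat_lit 564) (nat_lit 672) (nat_lit 0) (XT.nd (nat_lit 282) (nat_lit 420) (nat_lit 0) (XT.nd (nat_lit 94) (nat_lit 420) (nat_lit 0) (XT.lf (nat_lit 84) (nat_lit 115422770) (nat_lit 0) (nat_lit 2052648124) (nat_lit 252) (nat_lit 115422770) (nat_lit 61) (nat_lit 1) (nat_lit 60) (nat_lit 1) (nat_lit 63) (nat_lit 1) (nat_lit 269) (nat_lit 245) (nat_lit 206)) (XT.nd (nat_lit 94) (nat_lit 168) (nat_lit 0) (XT.lf (nat_lit 84) (nat_lit 952604372) (nat_lit 0) (nat_lit 336425840) (nat_lit 252) (nat_lit 952604372) (nat_lit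 58) (nat_lit 1) (nat_lit 57) (nat_lit 1) (nat_lit 60) (nat_lit 1) (nat_lit 270) (nat_lit 245) (nat_lit 205)) (XT.lf (nat_lit 252) (nat_lit 1322858129) (nat_lit 0) (nat_lit 439153057) (nat_lit 168) (nat_lit 439153057) (nat_lit 58) (nat_lit 1) (nat_lit 55) (nat_lit 1) (nat_lit 57) (nat_lit 1) (nat_lit 271) (nat_lit 245) (nat_lit 204)))) (XT.nd (nat_lit 94) (nat_lit 420) (nat_lit 0) (XT.lf (nat_lit 84) (nat_lit 373276148) (nat_lit 0) (nat_lit 1415036089) (nat_lit 252) (nat_lit 373276148) (nat_lit 56) (nat_lit 1) (nat_lit 55) (nat_lit 1) (nat_lit 58) (nat_lit 1) (nat_lit 272) (nat_lit 245) (nat_lit 203)) (XT.nd (nat_lit 94) (nat_lit 252) (nat_lit 0) (XT.lf (nat_lit 252) (nat_lit 174866436) (nat_lit 0) (nat_lit 973971919) (nat_lit 168) (nat_lit 973971919) (nat_lit 56) (nat_lit 1) (nat_lit 53) (nat_lit 1) (nat_lit 55) (nat_lit 1) (nat_lit 273) (nat_lit 245) (nat_lit 202)) (XT.lf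 (nat_lit 252) (nat_lit 1718700307) (nat_lit 0) (nat_lit 183227741) (nat_lit 168) (nat_lit 183227741) (nat_lit 53) (nat_lit 1) (nat_lit 50) (nat_lit 1) (nat_lit 52) (nat_lit 1) (nat_lit 274) (nat_lit 245) (nat_lit 201))))) (XT.nd (nat_lit 282) (nat_lit 504) (nat_lit 0) (XT.nd (nat_lit 94) (nat_lit 168) (nat_lit 0) (XT.lf (nat_lit 84) (nat_lit 572159544) (nat_lit 0) (nat_lit 903503595) (nat_lit 252) (nat_lit 572159544) (nat_lit 51) (nat_lit 1) (nat_lit 50) (nat_lit 1) (nat_lit 53) (nat_lit 1) (nat_lit 275) (nat_lit 245) (nat_lit 200)) (XT.nd (nat_lit 94) (nat_lit 0) (nat_lit 0) (XT.lf (nat_lit 252) (nat_lit 582716716) (nat_lit 0) (nat_lit 714428345) (nat_lit 168) (nat_lit 714428345) (nat_lit 51) (nat_lit 1) (nat_lit 48) (nat_lit 1) (nat_lit 50) (nat_lit 1) (nat_lit 276) (nat_lit 245) (nat_lit 199)) (XT.lf (nat_lit 84) (nat_lit 19152291) (nat_lit 0) (nat_lit 1938290812) (nat_lit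 252) (nat_lit 19152291) (nat_lit 49) (nat_lit 1) (nat_lit 48) (nat_lit 1) (nat_lit 51) (nat_lit 1) (nat_lit 277) (nat_lit 245) (nat_lit 198)))) (XT.nd (nat_lit 188) (nat_lit 168) (nat_lit 0) (XT.nd (nat_lit 94) (nat_lit 168) (nat_lit 0) (XT.lf (nat_lit 84) (nat_lit 723159294) (nat_lit 0) (nat_lit 495076455) (nat_lit 168) (nat_lit 723159294) (nat_lit 47) (nat_lit 1) (nat_lit 46) (nat_lit 1) (nat_lit 48) (nat_lit 1) (nat_lit 278) (nat_lit 245) (nat_lit 197)) (XT.lf (nat_lit 252) (nat_lit 897358358) (nat_lit 0) (nat_lit 505037430) (nat_lit 168) (nat_lit 505037430) (nat_lit 47) (nat_lit 1) (nat_lit 44) (nat_lit 1) (nat_lit 46) (nat_lit 1) (nat_lit 279) (nat_lit 245) (nat_lit 196))) (XT.nd (nat_lit 94) (nat_lit 168) (nat_lit 0) (XT.lf (nat_lit 84) (nat_lit 179914149) (nat_lit 0) (nat_lit 1514559813) (nat_lit 252) (nat_lit 179914149) (nat_lit 45) (nat_lit 1) (nat_lit 44) (nat_lit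 1) (nat_lit 47) (nat_lit 1) (nat_lit 280) (nat_lit 245) (nat_lit 195)) (XT.lf (nat_lit 84) (nat_lit 835366105) (nat_lit 0) (nat_lit 170883303) (nat_lit 168) (nat_lit 835366105) (nat_lit 43) (nat_lit 1) (nat_lit 42) (nat_lit 1) (nat_lit 44) (nat_lit 1) (nat_lit 281) (nat_lit 245) (nat_lit 194)))))) (XT.nd (nat_lit 658) (nat_lit 588) (nat_lit 0) (XT.nd (nat_lit 282) (nat_lit 588) (nat_lit 0) (XT.nd (nat_lit 94) (nat_lit 84) (nat_lit 0) (XT.lf (nat_lit 252) (nat_lit 1136312155) (nat_lit 0) (nat_lit 336710271) (nat_lit 168) (nat_lit 336710271) (nat_lit 43) (nat_lit 1) (nat_lit 40) (nat_lit 1) (nat_lit 42) (nat_lit 1) (nat_lit 282) (nat_lit 245) (nat_lit 193)) (XT.nd (nat_lit 94) (nat_lit 84) (nat_lit 0) (XT.lf (nat_lit 84) (nat_lit 304356302) (nat_lit 0) (nat_lit 1169768454) (nat_lit 252) (nat_lit 304356302) (nat_lit 41) (nat_lit 1) (nat_lit 40) (nat_lit 1) (nat_lit 43) (nat_lit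 1) (nat_lit 283) (nat_lit 245) (nat_lit 192)) (XT.lf (nat_lit 168) (nat_lit 87369610) (nat_lit 0) (nat_lit 830224772) (nat_lit 84) (nat_lit 830224772) (nat_lit 41) (nat_lit 1) (nat_lit 39) (nat_lit 1) (nat_lit 40) (nat_lit 1) (nat_lit 284) (nat_lit 245) (nat_lit 191)))) (XT.nd (nat_lit 188) (nat_lit 336) (nat_lit 0) (XT.nd (nat_lit 94) (nat_lit 0) (nat_lit 0) (XT.lf (nat_lit 252) (nat_lit 1313945119) (nat_lit 0) (nat_lit 201978780) (nat_lit 168) (nat_lit 201978780) (nat_lit 39) (nat_lit 1) (nat_lit 36) (nat_lit 1) (nat_lit 38) (nat_lit 1) (nat_lit 285) (nat_lit 245) (nat_lit 190)) (XT.lf (nat_lit 84) (nat_lit 399290385) (nat_lit 0) (nat_lit 889739352) (nat_lit 252) (nat_lit 399290385) (nat_lit 37) (nat_lit 1) (nat_lit 36) (nat_lit 1) (nat_lit 39) (nat_lit 1) (nat_lit 286) (nat_lit 245) (nat_lit 189))) (XT.nd (nat_lit 94) (nat_lit 252) (nat_lit 0) (XT.lf (nat_lit 168) (nat_lit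 293406946) (nat_lit 0) (nat_lit 683027974) (nat_lit 84) (nat_lit 683027974) (nat_lit 37) (nat_lit 1) (nat_lit 35) (nat_lit 1) (nat_lit 36) (nat_lit 1) (nat_lit 287) (nat_lit 245) (nat_lit 188)) (XT.lf (nat_lit 252) (nat_lit 1442031899) (nat_lit 0) (nat_lit 94707877) (nat_lit 168) (nat_lit 94707877) (nat_lit 35) (nat_lit 1) (nat_lit 32) (nat_lit 1) (nat_lit 34) (nat_lit 1) (nat_lit 288) (nat_lit 245) (nat_lit 187))))) (XT.nd (nat_lit 282) (nat_lit 252) (nat_lit 0) (XT.nd (nat_lit 94) (nat_lit 336) (nat_lit 0) (XT.lf (nat_lit 84) (nat_lit 470302618) (nat_lit 0) (nat_lit 662817386) (nat_lit 252) (nat_lit 470302618) (nat_lit 33) (nat_lit 1) (nat_lit 32) (nat_lit 1) (nat_lit 35) (nat_lit 1) (nat_lit 289) (nat_lit 245) (nat_lit 186)) (XT.nd (nat_lit 94) (nat_lit 252) (nat_lit 0) (XT.lf (nat_lit 168) (nat_lit 452365432) (nat_lit 0) (nat_lit 561928805) (nat_lit 84) (nat_lit 561928805)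 (nat_lit 33) (nat_lit 1) (nat_lit 31) (nat_lit 1) (nat_lit 32) (nat_lit 1) (nat_lit 290) (nat_lit 245) (nat_lit 185)) (XT.lf (nat_lit 252) (nat_lit 1530216544) (nat_lit 0) (nat_lit 9858723) (nat_lit 168) (nat_lit 9858723) (nat_lit 31) (nat_lit 1) (nat_lit 28) (nat_lit 1) (nat_lit 30) (nat_lit 1) (nat_lit 291) (nat_lit 245) (nat_lit 184)))) (XT.nd (nat_lit 188) (nat_lit 168) (nat_lit 0) (XT.nd (nat_lit 94) (nat_lit 84) (nat_lit 0) (XT.lf (nat_lit 84) (nat_lit 521971919) (nat_lit 0) (nat_lit 479422094) (nat_lit 252) (nat_lit 521971919) (nat_lit 29) (nat_lit 1) (nat_lit 28) (nat_lit 1) (nat_lit 31) (nat_lit 1) (nat_lit 292) (nat_lit 245) (nat_lit 183)) (XT.lf (nat_lit 168) (nat_lit 573094362) (nat_lit 0) (nat_lit 462300218) (nat_lit 84) (nat_lit 462300218) (nat_lit 29) (nat_lit 1) (nat_lit 27) (nat_lit 1) (nat_lit 28) (nat_lit 1) (nat_lit 293) (nat_lit 245) (nat_lit 182)))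 (XT.nd (nat_lit 94) (nat_lit 168) (nat_lit 0) (XT.lf (nat_lit 0) (nat_lit 57635649) (nat_lit 0) (nat_lit 1357527421) (nat_lit 168) (nat_lit 57635649) (nat_lit 27) (nat_lit 3) (nat_lit 27) (nat_lit 1) (nat_lit 29) (nat_lit 1) (nat_lit 294) (nat_lit 245) (nat_lit 181)) (XT.lf (nat_lit 84) (nat_lit 558049295) (nat_lit 0) (nat_lit 331679447) (nat_lit 168) (nat_lit 558049295) (nat_lit 26) (nat_lit 1) (nat_lit 25) (nat_lit 1) (nat_lit 27) (nat_lit 1) (nat_lit 295) (nat_lit 245) (nat_lit 180))))))))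
noncomputable def ec37 : XT := (XT.nd (nat_lit 2538) (nat_lit 0) (nat_lit 0) (XT.nd (nat_lit 1222) (nat_lit 1008) (nat_lit 0) (XT.nd (nat_lit 564) (nat_lit 588) (nat_lit 0) (XT.nd (nat_lit 282) (nat_lit 252) (nat_lit 0) (XT.nd (nat_lit 94) (nat_lit 168) (nat_lit 0) (XT.lf (nat_lit 168) (nat_lit 662850151) (nat_lit 0) (nat_lit 380335534) (nat_lit 84) (nat_lit 380335534) (nat_lit 26) (nat_lit 1) (nat_lit 24) (nat_lit 1) (nat_lit 25) (nat_lit 1) (nat_lit 296) (nat_lit 245) (nat_lit 179)) (XT.nd (nat_lit 94) (nat_lit 168) (nat_lit 0) (XT.lf (nat_lit 0) (nat_lit 110159287) (nat_lit 0) (nat_lit 1179583464) (nat_lit 168) (nat_lit 110159287) (nat_lit 24) (nat_lit 3) (nat_lit 24) (nat_lit 1) (nat_lit 26) (nat_lit 1) (nat_lit 297) (nat_lit 245) (nat_lit 178)) (XT.lf (nat_lit 84) (nat_lit 581605399) (nat_lit 0) (nat_lit 213118935) (nat_lit 168) (nat_lit 581605399) (nat_lit 23) (nat_lit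 1) (nat_lit 22) (nat_lit 1) (nat_lit 24) (nat_lit 1) (nat_lit 298) (nat_lit 245) (nat_lit 177)))) (XT.nd (nat_lit 94) (nat_lit 168) (nat_lit 0) (XT.lf (nat_lit 168) (nat_lit 727579889) (nat_lit 0) (nat_lit 312902985) (nat_lit 84) (nat_lit 312902985) (nat_lit 23) (nat_lit 1) (nat_lit 21) (nat_lit 1) (nat_lit 22) (nat_lit 1) (nat_lit 299) (nat_lit 245) (nat_lit 176)) (XT.nd (nat_lit 94) (nat_lit 168) (nat_lit 0) (XT.lf (nat_lit 0) (nat_lit 150382885) (nat_lit 0) (nat_lit 1030200802) (nat_lit 168) (nat_lit 150382885) (nat_lit 21) (nat_lit 3) (nat_lit 21) (nat_lit 1) (nat_lit 23) (nat_lit 1) (nat_lit 300) (nat_lit 245) (nat_lit 175)) (XT.lf (nat_lit 84) (nat_lit 595151879) (nat_lit 0) (nat_lit 118424364) (nat_lit 168) (nat_lit 595151879) (nat_lit 20) (nat_lit 1) (nat_lit 19) (nat_lit 1) (nat_lit 21) (nat_lit 1) (nat_lit 301) (nat_lit 245) (nat_lit 174))))) (XT.nd (nat_lit 282)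 (nat_lit 336) (nat_lit 0) (XT.nd (nat_lit 94) (nat_lit 168) (nat_lit 0) (XT.lf (nat_lit 168) (nat_lit 772154565) (nat_lit 0) (nat_lit 257426060) (nat_lit 84) (nat_lit 257426060) (nat_lit 20) (nat_lit 1) (nat_lit 18) (nat_lit 1) (nat_lit 19) (nat_lit 1) (nat_lit 302) (nat_lit 245) (nat_lit 173)) (XT.nd (nat_lit 94) (nat_lit 168) (nat_lit 0) (XT.lf (nat_lit 0) (nat_lit 180629483) (nat_lit 0) (nat_lit 904457861) (nat_lit 168) (nat_lit 180629483) (nat_lit 18) (nat_lit 3) (nat_lit 18) (nat_lit 1) (nat_lit 20) (nat_lit 1) (nat_lit 303) (nat_lit 245) (nat_lit 172)) (XT.lf (nat_lit 84) (nat_lit 600741189) (nat_lit 0) (nat_lit 43228863) (nat_lit 168) (nat_lit 600741189) (nat_lit 17) (nat_lit 1) (nat_lit 16) (nat_lit 1) (nat_lit 18) (nat_lit 1) (nat_lit 304) (nat_lit 245) (nat_lit 171)))) (XT.nd (nat_lit 188) (nat_lit 252) (nat_lit 0) (XT.nd (nat_lit 94) (nat_lit 0) (nat_lit 0) (XT.lf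 (nat_lit 168) (nat_lit 800560891) (nat_lit 0) (nat_lit 211785056) (nat_lit 84) (nat_lit 211785056) (nat_lit 17) (nat_lit 1) (nat_lit 15) (nat_lit 1) (nat_lit 16) (nat_lit 1) (nat_lit 305) (nat_lit 245) (nat_lit 170)) (XT.lf (nat_lit 0) (nat_lit 202803476) (nat_lit 0) (nat_lit 798298874) (nat_lit 168) (nat_lit 202803476) (nat_lit 15) (nat_lit 3) (nat_lit 15) (nat_lit 1) (nat_lit 17) (nat_lit 1) (nat_lit 306) (nat_lit 245) (nat_lit 169))) (XT.nd (nat_lit 94) (nat_lit 168) (nat_lit 0) (XT.lf (nat_lit 84) (nat_lit 16584558) (nat_lit 0) (nat_lit 583723032) (nat_lit 84) (nat_lit 583723032) (nat_lit 15) (nat_lit 3) (nat_lit 14) (nat_lit 1) (nat_lit 15) (nat_lit 1) (nat_lit 307) (nat_lit 245) (nat_lit 168)) (XT.lf (nat_lit 168) (nat_lit 816059063) (nat_lit 0) (nat_lit 174236090) (nat_lit 84) (nat_lit 174236090) (nat_lit 14) (nat_lit 1) (nat_lit 12) (nat_lit 1) (nat_lit 13) (nat_lit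 1) (nat_lit 308) (nat_lit 245) (nat_lit 167)))))) (XT.nd (nat_lit 658) (nat_lit 504) (nat_lit 0) (XT.nd (nat_lit 282) (nat_lit 252) (nat_lit 0) (XT.nd (nat_lit 94) (nat_lit 252) (nat_lit 0) (XT.lf (nat_lit 0) (nat_lit 218465164) (nat_lit 0) (nat_lit 708380701) (nat_lit 168) (nat_lit 218465164) (nat_lit 12) (nat_lit 3) (nat_lit 12) (nat_lit 1) (nat_lit 14) (nat_lit 1) (nat_lit 309) (nat_lit 245) (nat_lit 166)) (XT.nd (nat_lit 94) (nat_lit 168) (nat_lit 0) (XT.lf (nat_lit 84) (nat_lit 64429846) (nat_lit 0) (nat_lit 531016072) (nat_lit 84) (nat_lit 531016072) (nat_lit 12) (nat_lit 3) (nat_lit 11) (nat_lit 1) (nat_lit 12) (nat_lit 1) (nat_lit 310) (nat_lit 245) (nat_lit 165)) (XT.lf (nat_lit 168) (nat_lit 821312513) (nat_lit 0) (nat_lit 143344462) (nat_lit 84) (nat_lit 143344462) (nat_lit 11) (nat_lit 1) (nat_lit 9) (nat_lit 1) (nat_lit 10) (nat_lit 1) (nat_lit 311) (nat_lit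 245) (nat_lit 164)))) (XT.nd (nat_lit 188) (nat_lit 168) (nat_lit 0) (XT.nd (nat_lit 94) (nat_lit 84) (nat_lit 0) (XT.lf (nat_lit 0) (nat_lit 228892061) (nat_lit 0) (nat_lit 631946786) (nat_lit 168) (nat_lit 228892061) (nat_lit 9) (nat_lit 3) (nat_lit 9) (nat_lit 1) (nat_lit 11) (nat_lit 1) (nat_lit 312) (nat_lit 245) (nat_lit 163)) (XT.lf (nat_lit 84) (nat_lit 101373917) (nat_lit 0) (nat_lit 485235560) (nat_lit 84) (nat_lit 485235560) (nat_lit 9) (nat_lit 3) (nat_lit 8) (nat_lit 1) (nat_lit 9) (nat_lit 1) (nat_lit 313) (nat_lit 245) (nat_lit 162))) (XT.nd (nat_lit 94) (nat_lit 0) (nat_lit 0) (XT.lf (nat_lit 168) (nat_lit 818494601) (nat_lit 0) (nat_lit 117929844) (nat_lit 84) (nat_lit 117929844) (nat_lit 8) (nat_lit 1) (nat_lit 6) (nat_lit 1) (nat_lit 7) (nat_lit 1) (nat_lit 314) (nat_lit 245) (nat_lit 161)) (XT.lf (nat_lit 0) (nat_lit 235129332) (nat_lit 0) (nat_lit 566723452)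 (nat_lit 168) (nat_lit 235129332) (nat_lit 6) (nat_lit 3) (nat_lit 6) (nat_lit 1) (nat_lit 8) (nat_lit 1) (nat_lit 315) (nat_lit 245) (nat_lit 160))))) (XT.nd (nat_lit 282) (nat_lit 252) (nat_lit 0) (XT.nd (nat_lit 94) (nat_lit 168) (nat_lit 0) (XT.lf (nat_lit 84) (nat_lit 129464690) (nat_lit 0) (nat_lit 445268613) (nat_lit 84) (nat_lit 445268613) (nat_lit 6) (nat_lit 3) (nat_lit 5) (nat_lit 1) (nat_lit 6) (nat_lit 1) (nat_lit 316) (nat_lit 245) (nat_lit 159)) (XT.nd (nat_lit 94) (nat_lit 0) (nat_lit 0) (XT.lf (nat_lit 168) (nat_lit 809376357) (nat_lit 0) (nat_lit 97021174) (nat_lit 84) (nat_lit 97021174) (nat_lit 5) (nat_lit 1) (nat_lit 3) (nat_lit 1) (nat_lit 4) (nat_lit 1) (nat_lit 317) (nat_lit 245) (nat_lit 158)) (XT.lf (nat_lit 0) (nat_lit 238031261) (nat_lit 0) (nat_lit 510834564) (nat_lit 168) (nat_lit 238031261) (nat_lit 3) (nat_lit 3) (nat_lit 3) (nat_lit 1) (nat_lit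 5) (nat_lit 1) (nat_lit 318) (nat_lit 245) (nat_lit 157)))) (XT.nd (nat_lit 188) (nat_lit 0) (nat_lit 0) (XT.nd (nat_lit 94) (nat_lit 168) (nat_lit 0) (XT.lf (nat_lit 84) (nat_lit 150381509) (nat_lit 0) (nat_lit 410194178) (nat_lit 84) (nat_lit 410194178) (nat_lit 3) (nat_lit 3) (nat_lit 2) (nat_lit 1) (nat_lit 3) (nat_lit 1) (nat_lit 319) (nat_lit 245) (nat_lit 156)) (XT.lf (nat_lit 0) (nat_lit 1387371879) (nat_lit 0) (nat_lit 0) (nat_lit 0) (nat_lit 0) (nat_lit 0) (nat_lit 0) (nat_lit 1) (nat_lit 0) (nat_lit 1) (nat_lit 0) (nat_lit 320) (nat_lit 245) (nat_lit 155))) (XT.nd (nat_lit 94) (nat_lit 0) (nat_lit 0) (XT.lf (nat_lit 0) (nat_lit 1386563547) (nat_lit 0) (nat_lit 0) (nat_lit 0) (nat_lit 0) (nat_lit 0) (nat_lit 0) (nat_lit 1) (nat_lit 0) (nat_lit 1) (nat_lit 0) (nat_lit 321) (nat_lit 245) (nat_lit 154)) (XT.lf (nat_lit 0) (nat_lit 1385793706) (nat_lit 0) (nat_lit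 0) (nat_lit 0) (nat_lit 0) (nat_lit 0) (nat_lit 0) (nat_lit 1) (nat_lit 0) (nat_lit 1) (nat_lit 0) (nat_lit 322) (nat_lit 245) (nat_lit 153))))))) (XT.nd (nat_lit 37130) (nat_lit 0) (nat_lit 7812) (XT.nd (nat_lit 36472) (nat_lit 0) (nat_lit 10836) (XT.nd (nat_lit 282) (nat_lit 0) (nat_lit 0) (XT.nd (nat_lit 94) (nat_lit 0) (nat_lit 0) (XT.lf (nat_lit 0) (nat_lit 1385060524) (nat_lit 0) (nat_lit 0) (nat_lit 0) (nat_lit 0) (nat_lit 0) (nat_lit 0) (nat_lit 1) (nat_lit 0) (nat_lit 1) (nat_lit 0) (nat_lit 323) (nat_lit 245) (nat_lit 152)) (XT.nd (nat_lit 94) (nat_lit 0) (nat_lit 0) (XT.lf (nat_lit 0) (nat_lit 1384362256) (nat_lit 0) (nat_lit 0) (nat_lit 0) (nat_lit 0) (nat_lit 0) (nat_lit 0) (nat_lit 1) (nat_lit 0) (nat_lit 1) (nat_lit 0) (nat_lit 324) (nat_lit 245) (nat_lit 151)) (XT.lf (nat_lit 0) (nat_lit 1383697239) (nat_lit 0) (nat_lit 0) (nat_lit 0) (nat_lit 0) (nat_lit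 0) (nat_lit 0) (nat_lit 1) (nat_lit 0) (nat_lit 1) (nat_lit 0) (nat_lit 325) (nat_lit 245) (nat_lit 150)))) (XT.nd (nat_lit 36002) (nat_lit 0) (nat_lit 10752) (XT.nd (nat_lit 94) (nat_lit 0) (nat_lit 0) (XT.lf (nat_lit 0) (nat_lit 1383063889) (nat_lit 0) (nat_lit 0) (nat_lit 0) (nat_lit 0) (nat_lit 0) (nat_lit 0) (nat_lit 1) (nat_lit 0) (nat_lit 1) (nat_lit 0) (nat_lit 326) (nat_lit 245) (nat_lit 149)) (XT.lf (nat_lit 0) (nat_lit 1382460699) (nat_lit 0) (nat_lit 0) (nat_lit 0) (nat_lit 0) (nat_lit 0) (nat_lit 0) (nat_lit 1) (nat_lit 0) (nat_lit 1) (nat_lit 0) (nat_lit 327) (nat_lit 245) (nat_lit 148))) (XT.nd (nat_lit 94) (nat_lit 0) (nat_lit 0) (XT.lf (nat_lit 924) (nat_lit 720087833) (nat_lit 0) (nat_lit 1278514293) (nat_lit 924) (nat_lit 720087833) (nat_lit 139) (nat_lit 1) (nat_lit 128) (nat_lit 0) (nat_lit 139) (nat_lit 0) (nat_lit 228) (nat_lit 246) (nat_lit 246))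 (XT.lf (nat_lit 924) (nat_lit 2791150343) (nat_lit 84) (nat_lit 1257893095) (nat_lit 0) (nat_lit 1257893095) (nat_lit 139) (nat_lit 1) (nat_lit 129) (nat_lit 1) (nat_lit 128) (nat_lit 0) (nat_lit 229) (nat_lit 246) (nat_lit 245))))) (XT.nd (nat_lit 282) (nat_lit 0) (nat_lit 84) (XT.nd (nat_lit 94) (nat_lit 0) (nat_lit 0) (XT.lf (nat_lit 924) (nat_lit 1330220227) (nat_lit 0) (nat_lit 2520085397) (nat_lit 840) (nat_lit 1330220227) (nat_lit 140) (nat_lit 1) (nat_lit 129) (nat_lit 1) (nat_lit 139) (nat_lit 1) (nat_lit 230) (nat_lit 246) (nat_lit 244)) (XT.nd (nat_lit 94) (nat_lit 0) (nat_lit 84) (XT.lf (nat_lit 924) (nat_lit 2495308307) (nat_lit 84) (nat_lit 1281445434) (nat_lit 0) (nat_lit 1281445434) (nat_lit 140) (nat_lit 1) (nat_lit 130) (nat_lit 1) (nat_lit 129) (nat_lit 1) (nat_lit 231) (nat_lit 246) (nat_lit 243)) (XT.lf (nat_lit 924) (nat_lit 1148566451) (nat_lit 0)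 (nat_lit 2642616739) (nat_lit 840) (nat_lit 1148566451) (nat_lit 141) (nat_lit 1) (nat_lit 130) (nat_lit 1) (nat_lit 140) (nat_lit 1) (nat_lit 232) (nat_lit 246) (nat_lit 242)))) (XT.nd (nat_lit 188) (nat_lit 0) (nat_lit 84) (XT.nd (nat_lit 94) (nat_lit 0) (nat_lit 84) (XT.lf (nat_lit 924) (nat_lit 2065771571) (nat_lit 84) (nat_lit 1379569665) (nat_lit 0) (nat_lit 1379569665) (nat_lit 141) (nat_lit 1) (nat_lit 131) (nat_lit 1) (nat_lit 130) (nat_lit 1) (nat_lit 233) (nat_lit 246) (nat_lit 241)) (XT.lf (nat_lit 924) (nat_lit 905781169) (nat_lit 0) (nat_lit 2902365712) (nat_lit 840) (nat_lit 905781169) (nat_lit 142) (nat_lit 1) (nat_lit 131) (nat_lit 1) (nat_lit 141) (nat_lit 1) (nat_lit 234) (nat_lit 246) (nat_lit 240))) (XT.nd (nat_lit 94) (nat_lit 0) (nat_lit 84) (XT.lf (nat_lit 924) (nat_lit 1522645956) (nat_lit 84) (nat_lit 1541677490) (nat_lit 0) (nat_lit 1541677490)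 (nat_lit 142) (nat_lit 1) (nat_lit 132) (nat_lit 1) (nat_lit 131) (nat_lit 1) (nat_lit 235) (nat_lit 246) (nat_lit 239)) (XT.lf (nat_lit 924) (nat_lit 611263044) (nat_lit 0) (nat_lit 3279498482) (nat_lit 840) (nat_lit 611263044) (nat_lit 143) (nat_lit 1) (nat_lit 132) (nat_lit 1) (nat_lit 142) (nat_lit 1) (nat_lit 236) (nat_lit 246) (nat_lit 238)))))) (XT.nd (nat_lit 658) (nat_lit 1512) (nat_lit 0) (XT.nd (nat_lit 282) (nat_lit 1008) (nat_lit 0) (XT.nd (nat_lit 94) (nat_lit 756) (nat_lit 0) (XT.lf (nat_lit 924) (nat_lit 883802506) (nat_lit 84) (nat_lit 1758339069) (nat_lit 0) (nat_lit 1758339069) (nat_lit 143) (nat_lit 1) (nat_lit 133) (nat_lit 1) (nat_lit 132) (nat_lit 1) (nat_lit 237) (nat_lit 246) (nat_lit 237)) (XT.nd (nat_lit 94) (nat_lit 840) (nat_lit 0) (XT.lf (nat_lit 84) (nat_lit 273360026) (nat_lit 0) (nat_lit 3756362158) (nat_lit 840) (nat_lit 273360026) (nat_lit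 134) (nat_lit 1) (nat_lit 133) (nat_lit 1) (nat_lit 143) (nat_lit 1) (nat_lit 238) (nat_lit 246) (nat_lit 236)) (XT.lf (nat_lit 924) (nat_lit 165102658) (nat_lit 0) (nat_lit 2021167034) (nat_lit 840) (nat_lit 2021167034) (nat_lit 134) (nat_lit 1) (nat_lit 123) (nat_lit 1) (nat_lit 133) (nat_lit 1) (nat_lit 239) (nat_lit 246) (nat_lit 235)))) (XT.nd (nat_lit 188) (nat_lit 420) (nat_lit 0) (XT.nd (nat_lit 94) (nat_lit 0) (nat_lit 0) (XT.lf (nat_lit 588) (nat_lit 3918094000) (nat_lit 0) (nat_lit 98903176) (nat_lit 504) (nat_lit 98903176) (nat_lit 123) (nat_lit 1) (nat_lit 116) (nat_lit 1) (nat_lit 122) (nat_lit 1) (nat_lit 240) (nat_lit 246) (nat_lit 234)) (XT.lf (nat_lit 84) (nat_lit 1712983877) (nat_lit 0) (nat_lit 599573729) (nat_lit 588) (nat_lit 1712983877) (nat_lit 117) (nat_lit 1) (nat_lit 116) (nat_lit 1) (nat_lit 123) (nat_lit 1) (nat_lit 241) (nat_lit 246) (nat_lit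 233))) (XT.nd (nat_lit 94) (nat_lit 0) (nat_lit 0) (XT.lf (nat_lit 504) (nat_lit 2947605549) (nat_lit 0) (nat_lit 495709683) (nat_lit 420) (nat_lit 495709683) (nat_lit 117) (nat_lit 1) (nat_lit 111) (nat_lit 1) (nat_lit 116) (nat_lit 1) (nat_lit 242) (nat_lit 246) (nat_lit 232)) (XT.lf (nat_lit 84) (nat_lit 1221850546) (nat_lit 0) (nat_lit 1410626072) (nat_lit 504) (nat_lit 1221850546) (nat_lit 112) (nat_lit 1) (nat_lit 111) (nat_lit 1) (nat_lit 117) (nat_lit 1) (nat_lit 243) (nat_lit 246) (nat_lit 231))))) (XT.nd (nat_lit 282) (nat_lit 756) (nat_lit 0) (XT.nd (nat_lit 94) (nat_lit 336) (nat_lit 0) (XT.lf (nat_lit 504) (nat_lit 1941040055) (nat_lit 0) (nat_lit 915769578) (nat_lit 420) (nat_lit 915769578) (nat_lit 112) (nat_lit 1) (nat_lit 106) (nat_lit 1) (nat_lit 111) (nat_lit 1) (nat_lit 244) (nat_lit 246) (nat_lit 230)) (XT.nd (nat_lit 94) (nat_lit 336) (nat_lit 0) (XT.lf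 (nat_lit 84) (nat_lit 715247463) (nat_lit 0) (nat_lit 2262713836) (nat_lit 504) (nat_lit 715247463) (nat_lit 107) (nat_lit 1) (nat_lit 106) (nat_lit 1) (nat_lit 112) (nat_lit 1) (nat_lit 245) (nat_lit 246) (nat_lit 229)) (XT.lf (nat_lit 420) (nat_lit 907766088) (nat_lit 0) (nat_lit 1354056948) (nat_lit 336) (nat_lit 1354056948) (nat_lit 107) (nat_lit 1) (nat_lit 102) (nat_lit 1) (nat_lit 106) (nat_lit 1) (nat_lit 246) (nat_lit 246) (nat_lit 228)))) (XT.nd (nat_lit 188) (nat_lit 336) (nat_lit 0) (XT.nd (nat_lit 94) (nat_lit 420) (nat_lit 0) (XT.lf (nat_lit 84) (nat_lit 197523843) (nat_lit 0) (nat_lit 3146477203) (nat_lit 420) (nat_lit 197523843) (nat_lit 103) (nat_lit 1) (nat_lit 102) (nat_lit 1) (nat_lit 107) (nat_lit 1) (nat_lit 247) (nat_lit 246) (nat_lit 227)) (XT.lf (nat_lit 84) (nat_lit 1664392665) (nat_lit 0) (nat_lit 139396118) (nat_lit 420) (nat_lit 1664392665) (nat_lit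 98) (nat_lit 1) (nat_lit 97) (nat_lit 1) (nat_lit 102) (nat_lit 1) (nat_lit 248) (nat_lit 246) (nat_lit 226))) (XT.nd (nat_lit 94) (nat_lit 0) (nat_lit 0) (XT.lf (nat_lit 420) (nat_lit 2753167945) (nat_lit 0) (nat_lit 322231580) (nat_lit 336) (nat_lit 322231580) (nat_lit 98) (nat_lit 1) (nat_lit 93) (nat_lit 1) (nat_lit 97) (nat_lit 1) (nat_lit 249) (nat_lit 246) (nat_lit 225)) (XT.lf (nat_lit 84) (nat_lit 1079913506) (nat_lit 0) (nat_lit 1168464058) (nat_lit 420) (nat_lit 1079913506) (nat_lit 94) (nat_lit 1) (nat_lit 93) (nat_lit 1) (nat_lit 98) (nat_lit 1) (nat_lit 250) (nat_lit 246) (nat_lit 224))))))))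
noncomputable def ec38 : XT := (XT.nd (nat_lit 2538) (nat_lit 2436) (nat_lit 0) (XT.nd (nat_lit 1222) (nat_lit 1848) (nat_lit 0) (XT.nd (nat_lit 564) (nat_lit 1008) (nat_lit 0) (XT.nd (nat_lit 282) (nat_lit 672) (nat_lit 0) (XT.nd (nat_lit 94) (nat_lit 252) (nat_lit 0) (XT.lf (nat_lit 420) (nat_lit 1575894213) (nat_lit 0) (nat_lit 842730644) (nat_lit 336) (nat_lit 842730644) (nat_lit 94) (nat_lit 1) (nat_lit 89) (nat_lit 1) (nat_lit 93) (nat_lit 1) (nat_lit 251) (nat_lit 246) (nat_lit 223)) (XT.nd (nat_lit 94) (nat_lit 252) (nat_lit 0) (XT.lf (nat_lit 84) (nat_lit 496966704) (nat_lit 0) (nat_lit 2202443728) (nat_lit 420) (nat_lit 496966704) (nat_lit 90) (nat_lit 1) (nat_lit 89) (nat_lit 1) (nat_lit 94) (nat_lit 1) (nat_lit 252) (nat_lit 246) (nat_lit 222)) (XT.lf (nat_lit 336) (nat_lit 404161735) (nat_lit 0) (nat_lit 1364319828) (nat_lit 252) (nat_lit 1364319828) (nat_lit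 90) (nat_lit 1) (nat_lit 86) (nat_lit 1) (nat_lit 89) (nat_lit 1) (nat_lit 253) (nat_lit 246) (nat_lit 221)))) (XT.nd (nat_lit 94) (nat_lit 252) (nat_lit 0) (XT.lf (nat_lit 420) (nat_lit 2910175532) (nat_lit 0) (nat_lit 80751786) (nat_lit 336) (nat_lit 80751786) (nat_lit 86) (nat_lit 1) (nat_lit 81) (nat_lit 1) (nat_lit 85) (nat_lit 1) (nat_lit 254) (nat_lit 246) (nat_lit 220)) (XT.nd (nat_lit 94) (nat_lit 252) (nat_lit 0) (XT.lf (nat_lit 84) (nat_lit 1138773200) (nat_lit 0) (nat_lit 733348722) (nat_lit 420) (nat_lit 1138773200) (nat_lit 82) (nat_lit 1) (nat_lit 81) (nat_lit 1) (nat_lit 86) (nat_lit 1) (nat_lit 255) (nat_lit 246) (nat_lit 219)) (XT.lf (nat_lit 336) (nat_lit 1663214260) (nat_lit 0) (nat_lit 644614053) (nat_lit 252) (nat_lit 644614053) (nat_lit 82) (nat_lit 1) (nat_lit 78) (nat_lit 1) (nat_lit 81) (nat_lit 1) (nat_lit 256) (nat_lit 246) (nat_lit 218))))) (XT.nd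 (nat_lit 282) (nat_lit 420) (nat_lit 0) (XT.nd (nat_lit 94) (nat_lit 588) (nat_lit 0) (XT.lf (nat_lit 84) (nat_lit 525435112) (nat_lit 0) (nat_lit 1844604479) (nat_lit 336) (nat_lit 525435112) (nat_lit 79) (nat_lit 1) (nat_lit 78) (nat_lit 1) (nat_lit 82) (nat_lit 1) (nat_lit 257) (nat_lit 246) (nat_lit 217)) (XT.nd (nat_lit 94) (nat_lit 336) (nat_lit 0) (XT.lf (nat_lit 336) (nat_lit 437933742) (nat_lit 0) (nat_lit 1200934648) (nat_lit 252) (nat_lit 1200934648) (nat_lit 79) (nat_lit 1) (nat_lit 75) (nat_lit 1) (nat_lit 78) (nat_lit 1) (nat_lit 258) (nat_lit 246) (nat_lit 216)) (XT.lf (nat_lit 336) (nat_lit 2635672774) (nat_lit 0) (nat_lit 75263437) (nat_lit 252) (nat_lit 75263437) (nat_lit 75) (nat_lit 1) (nat_lit 71) (nat_lit 1) (nat_lit 74) (nat_lit 1) (nat_lit 259) (nat_lit 246) (nat_lit 215)))) (XT.nd (nat_lit 188) (nat_lit 168) (nat_lit 0) (XT.nd (nat_lit 94) (nat_lit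 252) (nat_lit 0) (XT.lf (nat_lit 84) (nat_lit 996999529) (nat_lit 0) (nat_lit 738766640) (nat_lit 336) (nat_lit 996999529) (nat_lit 72) (nat_lit 1) (nat_lit 71) (nat_lit 1) (nat_lit 75) (nat_lit 1) (nat_lit 260) (nat_lit 246) (nat_lit 214)) (XT.lf (nat_lit 336) (nat_lit 1370965644) (nat_lit 0) (nat_lit 655171585) (nat_lit 252) (nat_lit 655171585) (nat_lit 72) (nat_lit 1) (nat_lit 68) (nat_lit 1) (nat_lit 71) (nat_lit 1) (nat_lit 261) (nat_lit 246) (nat_lit 213))) (XT.nd (nat_lit 94) (nat_lit 168) (nat_lit 0) (XT.lf (nat_lit 84) (nat_lit 377562820) (nat_lit 0) (nat_lit 1876106385) (nat_lit 336) (nat_lit 377562820) (nat_lit 69) (nat_lit 1) (nat_lit 68) (nat_lit 1) (nat_lit 72) (nat_lit 1) (nat_lit 262) (nat_lit 246) (nat_lit 212)) (XT.lf (nat_lit 252) (nat_lit 138351571) (nat_lit 0) (nat_lit 1221873667) (nat_lit 168) (nat_lit 1221873667) (nat_lit 69) (nat_lit 1) (nat_lit 66)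 (nat_lit 1) (nat_lit 68) (nat_lit 1) (nat_lit 263) (nat_lit 246) (nat_lit 211)))))) (XT.nd (nat_lit 658) (nat_lit 924) (nat_lit 0) (XT.nd (nat_lit 282) (nat_lit 420) (nat_lit 0) (XT.nd (nat_lit 94) (nat_lit 168) (nat_lit 0) (XT.lf (nat_lit 336) (nat_lit 2090445847) (nat_lit 0) (nat_lit 222020501) (nat_lit 252) (nat_lit 222020501) (nat_lit 66) (nat_lit 1) (nat_lit 62) (nat_lit 1) (nat_lit 65) (nat_lit 1) (nat_lit 264) (nat_lit 246) (nat_lit 210)) (XT.nd (nat_lit 94) (nat_lit 168) (nat_lit 0) (XT.lf (nat_lit 84) (nat_lit 730143113) (nat_lit 0) (nat_lit 1027121062) (nat_lit 336) (nat_lit 730143113) (nat_lit 63) (nat_lit 1) (nat_lit 62) (nat_lit 1) (nat_lit 66) (nat_lit 1) (nat_lit 265) (nat_lit 246) (nat_lit 209)) (XT.lf (nat_lit 252) (nat_lit 843567738) (nat_lit 0) (nat_lit 799106497) (nat_lit 168) (nat_lit 799106497) (nat_lit 63) (nat_lit 1) (nat_lit 60) (nat_lit 1) (nat_lit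 62) (nat_lit 1) (nat_lit 266) (nat_lit 246) (nat_lit 208)))) (XT.nd (nat_lit 188) (nat_lit 168) (nat_lit 0) (XT.nd (nat_lit 94) (nat_lit 252) (nat_lit 0) (XT.lf (nat_lit 84) (nat_lit 121193908) (nat_lit 0) (nat_lit 2155280530) (nat_lit 252) (nat_lit 121193908) (nat_lit 61) (nat_lit 1) (nat_lit 60) (nat_lit 1) (nat_lit 63) (nat_lit 1) (nat_lit 267) (nat_lit 246) (nat_lit 207)) (XT.lf (nat_lit 84) (nat_lit 1000234590) (nat_lit 0) (nat_lit 353247132) (nat_lit 252) (nat_lit 1000234590) (nat_lit 58) (nat_lit 1) (nat_lit 57) (nat_lit 1) (nat_lit 60) (nat_lit 1) (nat_lit 268) (nat_lit 246) (nat_lit 206))) (XT.nd (nat_lit 94) (nat_lit 0) (nat_lit 0) (XT.lf (nat_lit 252) (nat_lit 1389001035) (nat_lit 0) (nat_lit 461110710) (nat_lit 168) (nat_lit 461110710) (nat_lit 58) (nat_lit 1) (nat_lit 55) (nat_lit 1) (nat_lit 57) (nat_lit 1) (nat_lit 269) (nat_lit 246) (nat_lit 205)) (XT.lf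 (nat_lit 84) (nat_lit 391939955) (nat_lit 0) (nat_lit 1485787893) (nat_lit 252) (nat_lit 391939955) (nat_lit 56) (nat_lit 1) (nat_lit 55) (nat_lit 1) (nat_lit 58) (nat_lit 1) (nat_lit 270) (nat_lit 246) (nat_lit 204))))) (XT.nd (nat_lit 282) (nat_lit 504) (nat_lit 0) (XT.nd (nat_lit 94) (nat_lit 252) (nat_lit 0) (XT.lf (nat_lit 252) (nat_lit 183609758) (nat_lit 0) (nat_lit 1022670515) (nat_lit 168) (nat_lit 1022670515) (nat_lit 56) (nat_lit 1) (nat_lit 53) (nat_lit 1) (nat_lit 55) (nat_lit 1) (nat_lit 271) (nat_lit 246) (nat_lit 203)) (XT.nd (nat_lit 94) (nat_lit 0) (nat_lit 0) (XT.lf (nat_lit 252) (nat_lit 1804635322) (nat_lit 0) (nat_lit 192389128) (nat_lit 168) (nat_lit 192389128) (nat_lit 53) (nat_lit 1) (nat_lit 50) (nat_lit 1) (nat_lit 52) (nat_lit 1) (nat_lit 272) (nat_lit 246) (nat_lit 202)) (XT.lf (nat_lit 84) (nat_lit 600767521) (nat_lit 0) (nat_lit 948678774)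 (nat_lit 252) (nat_lit 600767521) (nat_lit 51) (nat_lit 1) (nat_lit 50) (nat_lit 1) (nat_lit 53) (nat_lit 1) (nat_lit 273) (nat_lit 246) (nat_lit 201)))) (XT.nd (nat_lit 188) (nat_lit 336) (nat_lit 0) (XT.nd (nat_lit 94) (nat_lit 0) (nat_lit 0) (XT.lf (nat_lit 252) (nat_lit 611852552) (nat_lit 0) (nat_lit 750149762) (nat_lit 168) (nat_lit 750149762) (nat_lit 51) (nat_lit 1) (nat_lit 48) (nat_lit 1) (nat_lit 50) (nat_lit 1) (nat_lit 274) (nat_lit 246) (nat_lit 200)) (XT.lf (nat_lit 84) (nat_lit 20109905) (nat_lit 0) (nat_lit 2035205353) (nat_lit 252) (nat_lit 20109905) (nat_lit 49) (nat_lit 1) (nat_lit 48) (nat_lit 1) (nat_lit 51) (nat_lit 1) (nat_lit 275) (nat_lit 246) (nat_lit 199))) (XT.nd (nat_lit 94) (nat_lit 168) (nat_lit 0) (XT.lf (nat_lit 84) (nat_lit 759317259) (nat_lit 0) (nat_lit 519830278) (nat_lit 168) (nat_lit 759317259) (nat_lit 47) (nat_lit 1) (nat_lit 46)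 (nat_lit 1) (nat_lit 48) (nat_lit 1) (nat_lit 276) (nat_lit 246) (nat_lit 198)) (XT.lf (nat_lit 252) (nat_lit 942226276) (nat_lit 0) (nat_lit 530289302) (nat_lit 168) (nat_lit 530289302) (nat_lit 47) (nat_lit 1) (nat_lit 44) (nat_lit 1) (nat_lit 46) (nat_lit 1) (nat_lit 277) (nat_lit 246) (nat_lit 197))))))) (XT.nd (nat_lit 1222) (nat_lit 1092) (nat_lit 0) (XT.nd (nat_lit 564) (nat_lit 672) (nat_lit 0) (XT.nd (nat_lit 282) (nat_lit 336) (nat_lit 0) (XT.nd (nat_lit 94) (nat_lit 336) (nat_lit 0) (XT.lf (nat_lit 84) (nat_lit 188909856) (nat_lit 0) (nat_lit 1590287804) (nat_lit 252) (nat_lit 188909856) (nat_lit 45) (nat_lit 1) (nat_lit 44) (nat_lit 1) (nat_lit 47) (nat_lit 1) (nat_lit 278) (nat_lit 246) (nat_lit 196)) (XT.nd (nat_lit 94) (nat_lit 168) (nat_lit 0) (XT.lf (nat_lit 84) (nat_lit 877134410) (nat_lit 0) (nat_lit 179427468) (nat_lit 168) (nat_lit 877134410) (nat_lit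 43) (nat_lit 1) (nat_lit 42) (nat_lit 1) (nat_lit 44) (nat_lit 1) (nat_lit 279) (nat_lit 246) (nat_lit 195)) (XT.lf (nat_lit 252) (nat_lit 1193127762) (nat_lit 0) (nat_lit 353545784) (nat_lit 168) (nat_lit 353545784) (nat_lit 43) (nat_lit 1) (nat_lit 40) (nat_lit 1) (nat_lit 42) (nat_lit 1) (nat_lit 280) (nat_lit 246) (nat_lit 194)))) (XT.nd (nat_lit 94) (nat_lit 336) (nat_lit 0) (XT.lf (nat_lit 84) (nat_lit 319574117) (nat_lit 0) (nat_lit 1228256877) (nat_lit 252) (nat_lit 319574117) (nat_lit 41) (nat_lit 1) (nat_lit 40) (nat_lit 1) (nat_lit 43) (nat_lit 1) (nat_lit 281) (nat_lit 246) (nat_lit 193)) (XT.nd (nat_lit 94) (nat_lit 252) (nat_lit 0) (XT.lf (nat_lit 168) (nat_lit 91738091) (nat_lit 0) (nat_lit 871736011) (nat_lit 84) (nat_lit 871736011) (nat_lit 41) (nat_lit 1) (nat_lit 39) (nat_lit 1) (nat_lit 40) (nat_lit 1) (nat_lit 282) (nat_lit 246) (nat_lit 192)) (XT.lf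 (nat_lit 252) (nat_lit 1379642375) (nat_lit 0) (nat_lit 212077719) (nat_lit 168) (nat_lit 212077719) (nat_lit 39) (nat_lit 1) (nat_lit 36) (nat_lit 1) (nat_lit 38) (nat_lit 1) (nat_lit 283) (nat_lit 246) (nat_lit 191))))) (XT.nd (nat_lit 282) (nat_lit 336) (nat_lit 0) (XT.nd (nat_lit 94) (nat_lit 336) (nat_lit 0) (XT.lf (nat_lit 84) (nat_lit 419254904) (nat_lit 0) (nat_lit 934226320) (nat_lit 252) (nat_lit 419254904) (nat_lit 37) (nat_lit 1) (nat_lit 36) (nat_lit 1) (nat_lit 39) (nat_lit 1) (nat_lit 284) (nat_lit 246) (nat_lit 190)) (XT.nd (nat_lit 94) (nat_lit 252) (nat_lit 0) (XT.lf (nat_lit 168) (nat_lit 308077294) (nat_lit 0) (nat_lit 717179373) (nat_lit 84) (nat_lit 717179373) (nat_lit 37) (nat_lit 1) (nat_lit 35) (nat_lit 1) (nat_lit 36) (nat_lit 1) (nat_lit 285) (nat_lit 246) (nat_lit 189)) (XT.lf (nat_lit 252) (nat_lit 1514133494) (nat_lit 0) (nat_lit 99443271) (nat_lit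 168) (nat_lit 99443271) (nat_lit 35) (nat_lit 1) (nat_lit 32) (nat_lit 1) (nat_lit 34) (nat_lit 1) (nat_lit 286) (nat_lit 246) (nat_lit 188)))) (XT.nd (nat_lit 188) (nat_lit 252) (nat_lit 0) (XT.nd (nat_lit 94) (nat_lit 84) (nat_lit 0) (XT.lf (nat_lit 84) (nat_lit 493817749) (nat_lit 0) (nat_lit 695958255) (nat_lit 252) (nat_lit 493817749) (nat_lit 33) (nat_lit 1) (nat_lit 32) (nat_lit 1) (nat_lit 35) (nat_lit 1) (nat_lit 287) (nat_lit 246) (nat_lit 187)) (XT.lf (nat_lit 168) (nat_lit 474983704) (nat_lit 0) (nat_lit 590025245) (nat_lit 84) (nat_lit 590025245) (nat_lit 33) (nat_lit 1) (nat_lit 31) (nat_lit 1) (nat_lit 32) (nat_lit 1) (nat_lit 288) (nat_lit 246) (nat_lit 186))) (XT.nd (nat_lit 94) (nat_lit 0) (nat_lit 0) (XT.lf (nat_lit 252) (nat_lit 1606727371) (nat_lit 0) (nat_lit 10351660) (nat_lit 168) (nat_lit 10351660) (nat_lit 31) (nat_lit 1) (nat_lit 28) (nat_lit 1)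 (nat_lit 30) (nat_lit 1) (nat_lit 289) (nat_lit 246) (nat_lit 185)) (XT.lf (nat_lit 84) (nat_lit 548070515) (nat_lit 0) (nat_lit 503393198) (nat_lit 252) (nat_lit 548070515) (nat_lit 29) (nat_lit 1) (nat_lit 28) (nat_lit 1) (nat_lit 31) (nat_lit 1) (nat_lit 290) (nat_lit 246) (nat_lit 184)))))) (XT.nd (nat_lit 658) (nat_lit 504) (nat_lit 0) (XT.nd (nat_lit 282) (nat_lit 336) (nat_lit 0) (XT.nd (nat_lit 94) (nat_lit 168) (nat_lit 0) (XT.lf (nat_lit 168) (nat_lit 601749080) (nat_lit 0) (nat_lit 485415229) (nat_lit 84) (nat_lit 485415229) (nat_lit 29) (nat_lit 1) (nat_lit 27) (nat_lit 1) (nat_lit 28) (nat_lit 1) (nat_lit 291) (nat_lit 246) (nat_lit 183)) (XT.nd (nat_lit 94) (nat_lit 168) (nat_lit 0) (XT.lf (nat_lit 0) (nat_lit 60517432) (nat_lit 0) (nat_lit 1425403792) (nat_lit 168) (nat_lit 60517432) (nat_lit 27) (nat_lit 3) (nat_lit 27) (nat_lit 1) (nat_lit 29) (nat_lit 1)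 (nat_lit 292) (nat_lit 246) (nat_lit 182)) (XT.lf (nat_lit 84) (nat_lit 585951760) (nat_lit 0) (nat_lit 348263420) (nat_lit 168) (nat_lit 585951760) (nat_lit 26) (nat_lit 1) (nat_lit 25) (nat_lit 1) (nat_lit 27) (nat_lit 1) (nat_lit 293) (nat_lit 246) (nat_lit 181)))) (XT.nd (nat_lit 188) (nat_lit 252) (nat_lit 0) (XT.nd (nat_lit 94) (nat_lit 0) (nat_lit 0) (XT.lf (nat_lit 168) (nat_lit 695992658) (nat_lit 0) (nat_lit 399352310) (nat_lit 84) (nat_lit 399352310) (nat_lit 26) (nat_lit 1) (nat_lit 24) (nat_lit 1) (nat_lit 25) (nat_lit 1) (nat_lit 294) (nat_lit 246) (nat_lit 180)) (XT.lf (nat_lit 0) (nat_lit 115667251) (nat_lit 0) (nat_lit 1238562637) (nat_lit 168) (nat_lit 115667251) (nat_lit 24) (nat_lit 3) (nat_lit 24) (nat_lit 1) (nat_lit 26) (nat_lit 1) (nat_lit 295) (nat_lit 246) (nat_lit 179))) (XT.nd (nat_lit 94) (nat_lit 84) (nat_lit 0) (XT.lf (nat_lit 84) (nat_lit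 610685668) (nat_lit 0) (nat_lit 223774882) (nat_lit 168) (nat_lit 610685668) (nat_lit 23) (nat_lit 1) (nat_lit 22) (nat_lit 1) (nat_lit 24) (nat_lit 1) (nat_lit 296) (nat_lit 246) (nat_lit 178)) (XT.lf (nat_lit 168) (nat_lit 763958883) (nat_lit 0) (nat_lit 328548134) (nat_lit 84) (nat_lit 328548134) (nat_lit 23) (nat_lit 1) (nat_lit 21) (nat_lit 1) (nat_lit 22) (nat_lit 1) (nat_lit 297) (nat_lit 246) (nat_lit 177))))) (XT.nd (nat_lit 282) (nat_lit 252) (nat_lit 0) (XT.nd (nat_lit 94) (nat_lit 252) (nat_lit 0) (XT.lf (nat_lit 0) (nat_lit 157902029) (nat_lit 0) (nat_lit 1081710842) (nat_lit 168) (nat_lit 157902029) (nat_lit 21) (nat_lit 3) (nat_lit 21) (nat_lit 1) (nat_lit 23) (nat_lit 1) (nat_lit 298) (nat_lit 246) (nat_lit 176)) (XT.nd (nat_lit 94) (nat_lit 84) (nat_lit 0) (XT.lf (nat_lit 84) (nat_lit 624909473) (nat_lit 0) (nat_lit 124345582) (nat_lit 168) (nat_lit 624909473)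 (nat_lit 20) (nat_lit 1) (nat_lit 19) (nat_lit 1) (nat_lit 21) (nat_lit 1) (nat_lit 299) (nat_lit 246) (nat_lit 175)) (XT.lf (nat_lit 168) (nat_lit 810762294) (nat_lit 0) (nat_lit 270297363) (nat_lit 84) (nat_lit 270297363) (nat_lit 20) (nat_lit 1) (nat_lit 18) (nat_lit 1) (nat_lit 19) (nat_lit 1) (nat_lit 300) (nat_lit 246) (nat_lit 174)))) (XT.nd (nat_lit 188) (nat_lit 84) (nat_lit 0) (XT.nd (nat_lit 94) (nat_lit 168) (nat_lit 0) (XT.lf (nat_lit 0) (nat_lit 189660957) (nat_lit 0) (nat_lit 949680754) (nat_lit 168) (nat_lit 189660957) (nat_lit 18) (nat_lit 3) (nat_lit 18) (nat_lit 1) (nat_lit 20) (nat_lit 1) (nat_lit 301) (nat_lit 246) (nat_lit 173)) (XT.lf (nat_lit 84) (nat_lit 630778249) (nat_lit 0) (nat_lit 45390306) (nat_lit 168) (nat_lit 630778249) (nat_lit 17) (nat_lit 1) (nat_lit 16) (nat_lit 1) (nat_lit 18) (nat_lit 1) (nat_lit 302) (nat_lit 246) (nat_lit 172)))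 (XT.nd (nat_lit 94) (nat_lit 0) (nat_lit 0) (XT.lf (nat_lit 168) (nat_lit 840588935) (nat_lit 0) (nat_lit 222374309) (nat_lit 84) (nat_lit 222374309) (nat_lit 17) (nat_lit 1) (nat_lit 15) (nat_lit 1) (nat_lit 16) (nat_lit 1) (nat_lit 303) (nat_lit 246) (nat_lit 171)) (XT.lf (nat_lit 0) (nat_lit 212943650) (nat_lit 0) (nat_lit 838213818) (nat_lit 168) (nat_lit 212943650) (nat_lit 15) (nat_lit 3) (nat_lit 15) (nat_lit 1) (nat_lit 17) (nat_lit 1) (nat_lit 304) (nat_lit 246) (nat_lit 170))))))))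
noncomputable def ec39 : XT := (XT.nd (nat_lit 38164) (nat_lit 0) (nat_lit 5964) (XT.nd (nat_lit 1222) (nat_lit 168) (nat_lit 0) (XT.nd (nat_lit 564) (nat_lit 588) (nat_lit 0) (XT.nd (nat_lit 282) (nat_lit 252) (nat_lit 0) (XT.nd (nat_lit 94) (nat_lit 168) (nat_lit 0) (XT.lf (nat_lit 84) (nat_lit 17413785) (nat_lit 0) (nat_lit 612909183) (nat_lit 84) (nat_lit 612909183) (nat_lit 15) (nat_lit 3) (nat_lit 14) (nat_lit 1) (nat_lit 15) (nat_lit 1) (nat_lit 305) (nat_lit 246) (nat_lit 169)) (XT.nd (nat_lit 94) (nat_lit 0) (nat_lit 0) (XT.lf (nat_lit 168) (nat_lit 856862017) (nat_lit 0) (nat_lit 182947894) (nat_lit 84) (nat_lit 182947894) (nat_lit 14) (nat_lit 1) (nat_lit 12) (nat_lit 1) (nat_lit 13) (nat_lit 1) (nat_lit 306) (nat_lit 246) (nat_lit 168)) (XT.lf (nat_lit 0) (nat_lit 229388422) (nat_lit 0) (nat_lit 743799736) (nat_lit 168) (nat_lit 229388422) (nat_lit 12) (nat_lit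 3) (nat_lit 12) (nat_lit 1) (nat_lit 14) (nat_lit 1) (nat_lit 307) (nat_lit 246) (nat_lit 167)))) (XT.nd (nat_lit 94) (nat_lit 168) (nat_lit 0) (XT.lf (nat_lit 84) (nat_lit 67651338) (nat_lit 0) (nat_lit 557566876) (nat_lit 84) (nat_lit 557566876) (nat_lit 12) (nat_lit 3) (nat_lit 11) (nat_lit 1) (nat_lit 12) (nat_lit 1) (nat_lit 308) (nat_lit 246) (nat_lit 166)) (XT.nd (nat_lit 94) (nat_lit 0) (nat_lit 0) (XT.lf (nat_lit 168) (nat_lit 862378139) (nat_lit 0) (nat_lit 150511685) (nat_lit 84) (nat_lit 150511685) (nat_lit 11) (nat_lit 1) (nat_lit 9) (nat_lit 1) (nat_lit 10) (nat_lit 1) (nat_lit 309) (nat_lit 246) (nat_lit 165)) (XT.lf (nat_lit 0) (nat_lit 240336664) (nat_lit 0) (nat_lit 663544125) (nat_lit 168) (nat_lit 240336664) (nat_lit 9) (nat_lit 3) (nat_lit 9) (nat_lit 1) (nat_lit 11) (nat_lit 1) (nat_lit 310) (nat_lit 246) (nat_lit 164))))) (XT.nd (nat_lit 282) (nat_lit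 336) (nat_lit 0) (XT.nd (nat_lit 94) (nat_lit 168) (nat_lit 0) (XT.lf (nat_lit 84) (nat_lit 106442613) (nat_lit 0) (nat_lit 509497338) (nat_lit 84) (nat_lit 509497338) (nat_lit 9) (nat_lit 3) (nat_lit 8) (nat_lit 1) (nat_lit 9) (nat_lit 1) (nat_lit 311) (nat_lit 246) (nat_lit 163)) (XT.nd (nat_lit 94) (nat_lit 0) (nat_lit 0) (XT.lf (nat_lit 168) (nat_lit 859419331) (nat_lit 0) (nat_lit 123826336) (nat_lit 84) (nat_lit 123826336) (nat_lit 8) (nat_lit 1) (nat_lit 6) (nat_lit 1) (nat_lit 7) (nat_lit 1) (nat_lit 312) (nat_lit 246) (nat_lit 162)) (XT.lf (nat_lit 0) (nat_lit 246885798) (nat_lit 0) (nat_lit 595059624) (nat_lit 168) (nat_lit 246885798) (nat_lit 6) (nat_lit 3) (nat_lit 6) (nat_lit 1) (nat_lit 8) (nat_lit 1) (nat_lit 313) (nat_lit 246) (nat_lit 161)))) (XT.nd (nat_lit 188) (nat_lit 84) (nat_lit 0) (XT.nd (nat_lit 94) (nat_lit 168) (nat_lit 0) (XT.lf (nat_lit 84) (nat_lit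 135937924) (nat_lit 0) (nat_lit 467532044) (nat_lit 84) (nat_lit 467532044) (nat_lit 6) (nat_lit 3) (nat_lit 5) (nat_lit 1) (nat_lit 6) (nat_lit 1) (nat_lit 314) (nat_lit 246) (nat_lit 160)) (XT.lf (nat_lit 168) (nat_lit 849845174) (nat_lit 0) (nat_lit 101872233) (nat_lit 84) (nat_lit 101872233) (nat_lit 5) (nat_lit 1) (nat_lit 3) (nat_lit 1) (nat_lit 4) (nat_lit 1) (nat_lit 315) (nat_lit 246) (nat_lit 159))) (XT.nd (nat_lit 94) (nat_lit 84) (nat_lit 0) (XT.lf (nat_lit 0) (nat_lit 249932824) (nat_lit 0) (nat_lit 536376292) (nat_lit 168) (nat_lit 249932824) (nat_lit 3) (nat_lit 3) (nat_lit 3) (nat_lit 1) (nat_lit 5) (nat_lit 1) (nat_lit 316) (nat_lit 246) (nat_lit 158)) (XT.lf (nat_lit 84) (nat_lit 157900584) (nat_lit 0) (nat_lit 430703887) (nat_lit 84) (nat_lit 430703887) (nat_lit 3) (nat_lit 3) (nat_lit 2) (nat_lit 1) (nat_lit 3) (nat_lit 1) (nat_lit 317) (nat_lit 246)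 (nat_lit 157)))))) (XT.nd (nat_lit 658) (nat_lit 0) (nat_lit 0) (XT.nd (nat_lit 282) (nat_lit 0) (nat_lit 0) (XT.nd (nat_lit 94) (nat_lit 0) (nat_lit 0) (XT.lf (nat_lit 0) (nat_lit 1456740473) (nat_lit 0) (nat_lit 0) (nat_lit 0) (nat_lit 0) (nat_lit 0) (nat_lit 0) (nat_lit 1) (nat_lit 0) (nat_lit 1) (nat_lit 0) (nat_lit 318) (nat_lit 246) (nat_lit 156)) (XT.nd (nat_lit 94) (nat_lit 0) (nat_lit 0) (XT.lf (nat_lit 0) (nat_lit 1455891724) (nat_lit 0) (nat_lit 0) (nat_lit 0) (nat_lit 0) (nat_lit 0) (nat_lit 0) (nat_lit 1) (nat_lit 0) (nat_lit 1) (nat_lit 0) (nat_lit 319) (nat_lit 246) (nat_lit 155)) (XT.lf (nat_lit 0) (nat_lit 1455083391) (nat_lit 0) (nat_lit 0) (nat_lit 0) (nat_lit 0) (nat_lit 0) (nat_lit 0) (nat_lit 1) (nat_lit 0) (nat_lit 1) (nat_lit 0) (nat_lit 320) (nat_lit 246) (nat_lit 154)))) (XT.nd (nat_lit 188) (nat_lit 0) (nat_lit 0) (XT.nd (nat_lit 94) (nat_lit 0)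 (nat_lit 0) (XT.lf (nat_lit 0) (nat_lit 1454313551) (nat_lit 0) (nat_lit 0) (nat_lit 0) (nat_lit 0) (nat_lit 0) (nat_lit 0) (nat_lit 1) (nat_lit 0) (nat_lit 1) (nat_lit 0) (nat_lit 321) (nat_lit 246) (nat_lit 153)) (XT.lf (nat_lit 0) (nat_lit 1453580369) (nat_lit 0) (nat_lit 0) (nat_lit 0) (nat_lit 0) (nat_lit 0) (nat_lit 0) (nat_lit 1) (nat_lit 0) (nat_lit 1) (nat_lit 0) (nat_lit 322) (nat_lit 246) (nat_lit 152))) (XT.nd (nat_lit 94) (nat_lit 0) (nat_lit 0) (XT.lf (nat_lit 0) (nat_lit 1452882101) (nat_lit 0) (nat_lit 0) (nat_lit 0) (nat_lit 0) (nat_lit 0) (nat_lit 0) (nat_lit 1) (nat_lit 0) (nat_lit 1) (nat_lit 0) (nat_lit 323) (nat_lit 246) (nat_lit 151)) (XT.lf (nat_lit 0) (nat_lit 1452217083) (nat_lit 0) (nat_lit 0) (nat_lit 0) (nat_lit 0) (nat_lit 0) (nat_lit 0) (nat_lit 1) (nat_lit 0) (nat_lit 1) (nat_lit 0) (nat_lit 324) (nat_lit 246) (nat_lit 150))))) (XT.nd (nat_lit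 35908) (nat_lit 0) (nat_lit 10752) (XT.nd (nat_lit 94) (nat_lit 0) (nat_lit 0) (XT.lf (nat_lit 0) (nat_lit 1451583734) (nat_lit 0) (nat_lit 0) (nat_lit 0) (nat_lit 0) (nat_lit 0) (nat_lit 0) (nat_lit 1) (nat_lit 0) (nat_lit 1) (nat_lit 0) (nat_lit 325) (nat_lit 246) (nat_lit 149)) (XT.nd (nat_lit 94) (nat_lit 0) (nat_lit 0) (XT.lf (nat_lit 0) (nat_lit 1450980543) (nat_lit 0) (nat_lit 0) (nat_lit 0) (nat_lit 0) (nat_lit 0) (nat_lit 0) (nat_lit 1) (nat_lit 0) (nat_lit 1) (nat_lit 0) (nat_lit 326) (nat_lit 246) (nat_lit 148)) (XT.lf (nat_lit 0) (nat_lit 1450406076) (nat_lit 0) (nat_lit 0) (nat_lit 0) (nat_lit 0) (nat_lit 0) (nat_lit 0) (nat_lit 1) (nat_lit 0) (nat_lit 1) (nat_lit 0) (nat_lit 327) (nat_lit 246) (nat_lit 147)))) (XT.nd (nat_lit 188) (nat_lit 0) (nat_lit 84) (XT.nd (nat_lit 94) (nat_lit 0) (nat_lit 0) (XT.lf (nat_lit 924) (nat_lit 756092225) (nat_lit 0) (nat_lit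 1342440008) (nat_lit 924) (nat_lit 756092225) (nat_lit 139) (nat_lit 1) (nat_lit 128) (nat_lit 0) (nat_lit 139) (nat_lit 0) (nat_lit 226) (nat_lit 247) (nat_lit 247)) (XT.lf (nat_lit 924) (nat_lit 2930707860) (nat_lit 84) (nat_lit 1320787750) (nat_lit 0) (nat_lit 1320787750) (nat_lit 139) (nat_lit 1) (nat_lit 129) (nat_lit 1) (nat_lit 128) (nat_lit 0) (nat_lit 227) (nat_lit 247) (nat_lit 246))) (XT.nd (nat_lit 94) (nat_lit 0) (nat_lit 0) (XT.lf (nat_lit 924) (nat_lit 1396731238) (nat_lit 0) (nat_lit 2646089666) (nat_lit 840) (nat_lit 1396731238) (nat_lit 140) (nat_lit 1) (nat_lit 129) (nat_lit 1) (nat_lit 139) (nat_lit 1) (nat_lit 228) (nat_lit 247) (nat_lit 245)) (XT.lf (nat_lit 924) (nat_lit 2620073722) (nat_lit 84) (nat_lit 1345517705) (nat_lit 0) (nat_lit 1345517705) (nat_lit 140) (nat_lit 1) (nat_lit 130) (nat_lit 1) (nat_lit 129) (nat_lit 1) (nat_lit 229) (nat_lit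 247) (nat_lit 244))))))) (XT.nd (nat_lit 1316) (nat_lit 2940) (nat_lit 0) (XT.nd (nat_lit 658) (nat_lit 2016) (nat_lit 0) (XT.nd (nat_lit 282) (nat_lit 0) (nat_lit 84) (XT.nd (nat_lit 94) (nat_lit 0) (nat_lit 0) (XT.lf (nat_lit 924) (nat_lit 1205994773) (nat_lit 0) (nat_lit 2774747576) (nat_lit 840) (nat_lit 1205994773) (nat_lit 141) (nat_lit 1) (nat_lit 130) (nat_lit 1) (nat_lit 140) (nat_lit 1) (nat_lit 230) (nat_lit 247) (nat_lit 243)) (XT.nd (nat_lit 94) (nat_lit 0) (nat_lit 84) (XT.lf (nat_lit 924) (nat_lit 2169060149) (nat_lit 84) (nat_lit 1448548149) (nat_lit 0) (nat_lit 1448548149) (nat_lit 141) (nat_lit 1) (nat_lit 131) (nat_lit 1) (nat_lit 130) (nat_lit 1) (nat_lit 231) (nat_lit 247) (nat_lit 242)) (XT.lf (nat_lit 924) (nat_lit 951070227) (nat_lit 0) (nat_lit 3047483998) (nat_lit 840) (nat_lit 951070227) (nat_lit 142) (nat_lit 1) (nat_lit 131) (nat_lit 1) (nat_lit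 141) (nat_lit 1) (nat_lit 232) (nat_lit 247) (nat_lit 241)))) (XT.nd (nat_lit 188) (nat_lit 0) (nat_lit 84) (XT.nd (nat_lit 94) (nat_lit 0) (nat_lit 84) (XT.lf (nat_lit 924) (nat_lit 1598778254) (nat_lit 84) (nat_lit 1618761364) (nat_lit 0) (nat_lit 1618761364) (nat_lit 142) (nat_lit 1) (nat_lit 132) (nat_lit 1) (nat_lit 131) (nat_lit 1) (nat_lit 233) (nat_lit 247) (nat_lit 240)) (XT.lf (nat_lit 924) (nat_lit 641826196) (nat_lit 0) (nat_lit 3443473406) (nat_lit 840) (nat_lit 641826196) (nat_lit 143) (nat_lit 1) (nat_lit 132) (nat_lit 1) (nat_lit 142) (nat_lit 1) (nat_lit 234) (nat_lit 247) (nat_lit 239))) (XT.nd (nat_lit 94) (nat_lit 0) (nat_lit 84) (XT.lf (nat_lit 924) (nat_lit 927992631) (nat_lit 84) (nat_lit 1846256022) (nat_lit 0) (nat_lit 1846256022) (nat_lit 143) (nat_lit 1) (nat_lit 133) (nat_lit 1) (nat_lit 132) (nat_lit 1) (nat_lit 235) (nat_lit 247) (nat_lit 238))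 (XT.lf (nat_lit 84) (nat_lit 287028027) (nat_lit 0) (nat_lit 3944180266) (nat_lit 840) (nat_lit 287028027) (nat_lit 134) (nat_lit 1) (nat_lit 133) (nat_lit 1) (nat_lit 143) (nat_lit 1) (nat_lit 236) (nat_lit 247) (nat_lit 237))))) (XT.nd (nat_lit 282) (nat_lit 840) (nat_lit 0) (XT.nd (nat_lit 94) (nat_lit 588) (nat_lit 0) (XT.lf (nat_lit 924) (nat_lit 173357790) (nat_lit 0) (nat_lit 2122225386) (nat_lit 840) (nat_lit 2122225386) (nat_lit 134) (nat_lit 1) (nat_lit 123) (nat_lit 1) (nat_lit 133) (nat_lit 1) (nat_lit 237) (nat_lit 247) (nat_lit 236)) (XT.nd (nat_lit 94) (nat_lit 0) (nat_lit 0) (XT.lf (nat_lit 588) (nat_lit 4113998700) (nat_lit 0) (nat_lit 103848335) (nat_lit 504) (nat_lit 103848335) (nat_lit 123) (nat_lit 1) (nat_lit 116) (nat_lit 1) (nat_lit 122) (nat_lit 1) (nat_lit 238) (nat_lit 247) (nat_lit 235)) (XT.lf (nat_lit 84) (nat_lit 1798633071) (nat_lit 0) (nat_lit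 629552415) (nat_lit 588) (nat_lit 1798633071) (nat_lit 117) (nat_lit 1) (nat_lit 116) (nat_lit 1) (nat_lit 123) (nat_lit 1) (nat_lit 239) (nat_lit 247) (nat_lit 234)))) (XT.nd (nat_lit 188) (nat_lit 420) (nat_lit 0) (XT.nd (nat_lit 94) (nat_lit 0) (nat_lit 0) (XT.lf (nat_lit 504) (nat_lit 3094985826) (nat_lit 0) (nat_lit 520495167) (nat_lit 420) (nat_lit 520495167) (nat_lit 117) (nat_lit 1) (nat_lit 111) (nat_lit 1) (nat_lit 116) (nat_lit 1) (nat_lit 240) (nat_lit 247) (nat_lit 233)) (XT.lf (nat_lit 84) (nat_lit 1282943074) (nat_lit 0) (nat_lit 1481157376) (nat_lit 504) (nat_lit 1282943074) (nat_lit 112) (nat_lit 1) (nat_lit 111) (nat_lit 1) (nat_lit 117) (nat_lit 1) (nat_lit 241) (nat_lit 247) (nat_lit 232))) (XT.nd (nat_lit 94) (nat_lit 0) (nat_lit 0) (XT.lf (nat_lit 504) (nat_lit 2038092057) (nat_lit 0) (nat_lit 961558057) (nat_lit 420) (nat_lit 961558057) (nat_lit 112)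 (nat_lit 1) (nat_lit 106) (nat_lit 1) (nat_lit 111) (nat_lit 1) (nat_lit 242) (nat_lit 247) (nat_lit 231)) (XT.lf (nat_lit 84) (nat_lit 751009837) (nat_lit 0) (nat_lit 2375849527) (nat_lit 504) (nat_lit 751009837) (nat_lit 107) (nat_lit 1) (nat_lit 106) (nat_lit 1) (nat_lit 112) (nat_lit 1) (nat_lit 243) (nat_lit 247) (nat_lit 230)))))) (XT.nd (nat_lit 658) (nat_lit 1512) (nat_lit 0) (XT.nd (nat_lit 282) (nat_lit 672) (nat_lit 0) (XT.nd (nat_lit 94) (nat_lit 420) (nat_lit 0) (XT.lf (nat_lit 420) (nat_lit 953154392) (nat_lit 0) (nat_lit 1421759795) (nat_lit 336) (nat_lit 1421759795) (nat_lit 107) (nat_lit 1) (nat_lit 102) (nat_lit 1) (nat_lit 106) (nat_lit 1) (nat_lit 244) (nat_lit 247) (nat_lit 229)) (XT.nd (nat_lit 94) (nat_lit 420) (nat_lit 0) (XT.lf (nat_lit 84) (nat_lit 207400035) (nat_lit 0) (nat_lit 3303801063) (nat_lit 420) (nat_lit 207400035) (nat_lit 103) (nat_lit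 1) (nat_lit 102) (nat_lit 1) (nat_lit 107) (nat_lit 1) (nat_lit 245) (nat_lit 247) (nat_lit 228)) (XT.lf (nat_lit 84) (nat_lit 1747612298) (nat_lit 0) (nat_lit 146365924) (nat_lit 420) (nat_lit 1747612298) (nat_lit 98) (nat_lit 1) (nat_lit 97) (nat_lit 1) (nat_lit 102) (nat_lit 1) (nat_lit 246) (nat_lit 247) (nat_lit 227)))) (XT.nd (nat_lit 188) (nat_lit 336) (nat_lit 0) (XT.nd (nat_lit 94) (nat_lit 0) (nat_lit 0) (XT.lf (nat_lit 420) (nat_lit 2890826343) (nat_lit 0) (nat_lit 338343159) (nat_lit 336) (nat_lit 338343159) (nat_lit 98) (nat_lit 1) (nat_lit 93) (nat_lit 1) (nat_lit 97) (nat_lit 1) (nat_lit 247) (nat_lit 247) (nat_lit 226)) (XT.lf (nat_lit 84) (nat_lit 1133909181) (nat_lit 0) (nat_lit 1226887261) (nat_lit 420) (nat_lit 1133909181) (nat_lit 94) (nat_lit 1) (nat_lit 93) (nat_lit 1) (nat_lit 98) (nat_lit 1) (nat_lit 248) (nat_lit 247) (nat_lit 225))) (XT.nd (nat_lit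 94) (nat_lit 0) (nat_lit 0) (XT.lf (nat_lit 420) (nat_lit 1654688924) (nat_lit 0) (nat_lit 884867176) (nat_lit 336) (nat_lit 884867176) (nat_lit 94) (nat_lit 1) (nat_lit 89) (nat_lit 1) (nat_lit 93) (nat_lit 1) (nat_lit 249) (nat_lit 247) (nat_lit 224)) (XT.lf (nat_lit 84) (nat_lit 521815039) (nat_lit 0) (nat_lit 2312565915) (nat_lit 420) (nat_lit 521815039) (nat_lit 90) (nat_lit 1) (nat_lit 89) (nat_lit 1) (nat_lit 94) (nat_lit 1) (nat_lit 250) (nat_lit 247) (nat_lit 223))))) (XT.nd (nat_lit 282) (nat_lit 840) (nat_lit 0) (XT.nd (nat_lit 94) (nat_lit 420) (nat_lit 0) (XT.lf (nat_lit 336) (nat_lit 424369822) (nat_lit 0) (nat_lit 1432535820) (nat_lit 252) (nat_lit 1432535820) (nat_lit 90) (nat_lit 1) (nat_lit 86) (nat_lit 1) (nat_lit 89) (nat_lit 1) (nat_lit 251) (nat_lit 247) (nat_lit 222)) (XT.nd (nat_lit 94) (nat_lit 0) (nat_lit 0) (XT.lf (nat_lit 420) (nat_lit 3055684308)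 (nat_lit 0) (nat_lit 84789376) (nat_lit 336) (nat_lit 84789376) (nat_lit 86) (nat_lit 1) (nat_lit 81) (nat_lit 1) (nat_lit 85) (nat_lit 1) (nat_lit 252) (nat_lit 247) (nat_lit 221)) (XT.lf (nat_lit 84) (nat_lit 1195711860) (nat_lit 0) (nat_lit 770016158) (nat_lit 420) (nat_lit 1195711860) (nat_lit 82) (nat_lit 1) (nat_lit 81) (nat_lit 1) (nat_lit 86) (nat_lit 1) (nat_lit 253) (nat_lit 247) (nat_lit 220)))) (XT.nd (nat_lit 188) (nat_lit 588) (nat_lit 0) (XT.nd (nat_lit 94) (nat_lit 0) (nat_lit 0) (XT.lf (nat_lit 336) (nat_lit 1746374973) (nat_lit 0) (nat_lit 676844755) (nat_lit 252) (nat_lit 676844755) (nat_lit 82) (nat_lit 1) (nat_lit 78) (nat_lit 1) (nat_lit 81) (nat_lit 1) (nat_lit 254) (nat_lit 247) (nat_lit 219)) (XT.lf (nat_lit 84) (nat_lit 551706867) (nat_lit 0) (nat_lit 1936834703) (nat_lit 336) (nat_lit 551706867) (nat_lit 79) (nat_lit 1) (nat_lit 78) (nat_lit 1)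 (nat_lit 82) (nat_lit 1) (nat_lit 255) (nat_lit 247) (nat_lit 218))) (XT.nd (nat_lit 94) (nat_lit 336) (nat_lit 0) (XT.lf (nat_lit 336) (nat_lit 459830430) (nat_lit 0) (nat_lit 1260981381) (nat_lit 252) (nat_lit 1260981381) (nat_lit 79) (nat_lit 1) (nat_lit 75) (nat_lit 1) (nat_lit 78) (nat_lit 1) (nat_lit 256) (nat_lit 247) (nat_lit 217)) (XT.lf (nat_lit 336) (nat_lit 2767456412) (nat_lit 0) (nat_lit 79026609) (nat_lit 252) (nat_lit 79026609) (nat_lit 75) (nat_lit 1) (nat_lit 71) (nat_lit 1) (nat_lit 74) (nat_lit 1) (nat_lit 257) (nat_lit 247) (nat_lit 216))))))))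
noncomputable def ec40 : XT := (XT.nd (nat_lit 2538) (nat_lit 2184) (nat_lit 0) (XT.nd (nat_lit 1222) (nat_lit 1512) (nat_lit 0) (XT.nd (nat_lit 564) (nat_lit 1008) (nat_lit 0) (XT.nd (nat_lit 282) (nat_lit 504) (nat_lit 0) (XT.nd (nat_lit 94) (nat_lit 252) (nat_lit 0) (XT.lf (nat_lit 84) (nat_lit 1046849506) (nat_lit 0) (nat_lit 775704972) (nat_lit 336) (nat_lit 1046849506) (nat_lit 72) (nat_lit 1) (nat_lit 71) (nat_lit 1) (nat_lit 75) (nat_lit 1) (nat_lit 258) (nat_lit 247) (nat_lit 215)) (XT.nd (nat_lit 94) (nat_lit 0) (nat_lit 0) (XT.lf (nat_lit 336) (nat_lit 1439513926) (nat_lit 0) (nat_lit 687930164) (nat_lit 252) (nat_lit 687930164) (nat_lit 72) (nat_lit 1) (nat_lit 68) (nat_lit 1) (nat_lit 71) (nat_lit 1) (nat_lit 259) (nat_lit 247) (nat_lit 214)) (XT.lf (nat_lit 84) (nat_lit 396440961) (nat_lit 0) (nat_lit 1969911705) (nat_lit 336) (nat_lit 396440961) (nat_lit 69)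 (nat_lit 1) (nat_lit 68) (nat_lit 1) (nat_lit 72) (nat_lit 1) (nat_lit 260) (nat_lit 247) (nat_lit 213)))) (XT.nd (nat_lit 94) (nat_lit 336) (nat_lit 0) (XT.lf (nat_lit 252) (nat_lit 145269149) (nat_lit 0) (nat_lit 1282967350) (nat_lit 168) (nat_lit 1282967350) (nat_lit 69) (nat_lit 1) (nat_lit 66) (nat_lit 1) (nat_lit 68) (nat_lit 1) (nat_lit 261) (nat_lit 247) (nat_lit 212)) (XT.nd (nat_lit 94) (nat_lit 0) (nat_lit 0) (XT.lf (nat_lit 336) (nat_lit 2194968140) (nat_lit 0) (nat_lit 233121526) (nat_lit 252) (nat_lit 233121526) (nat_lit 66) (nat_lit 1) (nat_lit 62) (nat_lit 1) (nat_lit 65) (nat_lit 1) (nat_lit 262) (nat_lit 247) (nat_lit 211)) (XT.lf (nat_lit 84) (nat_lit 766650269) (nat_lit 0) (nat_lit 1078477116) (nat_lit 336) (nat_lit 766650269) (nat_lit 63) (nat_lit 1) (nat_lit 62) (nat_lit 1) (nat_lit 66) (nat_lit 1) (nat_lit 263) (nat_lit 247) (nat_lit 210))))) (XT.nd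 (nat_lit 282) (nat_lit 588) (nat_lit 0) (XT.nd (nat_lit 94) (nat_lit 252) (nat_lit 0) (XT.lf (nat_lit 252) (nat_lit 885746125) (nat_lit 0) (nat_lit 839061822) (nat_lit 168) (nat_lit 839061822) (nat_lit 63) (nat_lit 1) (nat_lit 60) (nat_lit 1) (nat_lit 62) (nat_lit 1) (nat_lit 264) (nat_lit 247) (nat_lit 209)) (XT.nd (nat_lit 94) (nat_lit 252) (nat_lit 0) (XT.lf (nat_lit 84) (nat_lit 127253604) (nat_lit 0) (nat_lit 2263044557) (nat_lit 252) (nat_lit 127253604) (nat_lit 61) (nat_lit 1) (nat_lit 60) (nat_lit 1) (nat_lit 63) (nat_lit 1) (nat_lit 265) (nat_lit 247) (nat_lit 208)) (XT.lf (nat_lit 84) (nat_lit 1050246320) (nat_lit 0) (nat_lit 370909488) (nat_lit 252) (nat_lit 1050246320) (nat_lit 58) (nat_lit 1) (nat_lit 57) (nat_lit 1) (nat_lit 60) (nat_lit 1) (nat_lit 266) (nat_lit 247) (nat_lit 207)))) (XT.nd (nat_lit 188) (nat_lit 420) (nat_lit 0) (XT.nd (nat_lit 94) (nat_lit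 0) (nat_lit 0) (XT.lf (nat_lit 252) (nat_lit 1458451087) (nat_lit 0) (nat_lit 484166245) (nat_lit 168) (nat_lit 484166245) (nat_lit 58) (nat_lit 1) (nat_lit 55) (nat_lit 1) (nat_lit 57) (nat_lit 1) (nat_lit 267) (nat_lit 247) (nat_lit 206)) (XT.lf (nat_lit 84) (nat_lit 411536953) (nat_lit 0) (nat_lit 1560077288) (nat_lit 252) (nat_lit 411536953) (nat_lit 56) (nat_lit 1) (nat_lit 55) (nat_lit 1) (nat_lit 58) (nat_lit 1) (nat_lit 268) (nat_lit 247) (nat_lit 205))) (XT.nd (nat_lit 94) (nat_lit 252) (nat_lit 0) (XT.lf (nat_lit 252) (nat_lit 192790246) (nat_lit 0) (nat_lit 1073804041) (nat_lit 168) (nat_lit 1073804041) (nat_lit 56) (nat_lit 1) (nat_lit 53) (nat_lit 1) (nat_lit 55) (nat_lit 1) (nat_lit 269) (nat_lit 247) (nat_lit 204)) (XT.lf (nat_lit 252) (nat_lit 1894867088) (nat_lit 0) (nat_lit 202008585) (nat_lit 168) (nat_lit 202008585) (nat_lit 53) (nat_lit 1) (nat_lit 50)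 (nat_lit 1) (nat_lit 52) (nat_lit 1) (nat_lit 270) (nat_lit 247) (nat_lit 203)))))) (XT.nd (nat_lit 658) (nat_lit 840) (nat_lit 0) (XT.nd (nat_lit 282) (nat_lit 504) (nat_lit 0) (XT.nd (nat_lit 94) (nat_lit 168) (nat_lit 0) (XT.lf (nat_lit 84) (nat_lit 630805897) (nat_lit 0) (nat_lit 996112713) (nat_lit 252) (nat_lit 630805897) (nat_lit 51) (nat_lit 1) (nat_lit 50) (nat_lit 1) (nat_lit 53) (nat_lit 1) (nat_lit 271) (nat_lit 247) (nat_lit 202)) (XT.nd (nat_lit 94) (nat_lit 0) (nat_lit 0) (XT.lf (nat_lit 252) (nat_lit 642445180) (nat_lit 0) (nat_lit 787657250) (nat_lit 168) (nat_lit 787657250) (nat_lit 51) (nat_lit 1) (nat_lit 48) (nat_lit 1) (nat_lit 50) (nat_lit 1) (nat_lit 272) (nat_lit 247) (nat_lit 201)) (XT.lf (nat_lit 84) (nat_lit 21115401) (nat_lit 0) (nat_lit 2136965620) (nat_lit 252) (nat_lit 21115401) (nat_lit 49) (nat_lit 1) (nat_lit 48) (nat_lit 1) (nat_lit 51)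 (nat_lit 1) (nat_lit 273) (nat_lit 247) (nat_lit 200)))) (XT.nd (nat_lit 188) (nat_lit 168) (nat_lit 0) (XT.nd (nat_lit 94) (nat_lit 168) (nat_lit 0) (XT.lf (nat_lit 84) (nat_lit 797283122) (nat_lit 0) (nat_lit 545821792) (nat_lit 168) (nat_lit 797283122) (nat_lit 47) (nat_lit 1) (nat_lit 46) (nat_lit 1) (nat_lit 48) (nat_lit 1) (nat_lit 274) (nat_lit 247) (nat_lit 199)) (XT.lf (nat_lit 252) (nat_lit 989337590) (nat_lit 0) (nat_lit 556803767) (nat_lit 168) (nat_lit 556803767) (nat_lit 47) (nat_lit 1) (nat_lit 44) (nat_lit 1) (nat_lit 46) (nat_lit 1) (nat_lit 275) (nat_lit 247) (nat_lit 198))) (XT.nd (nat_lit 94) (nat_lit 168) (nat_lit 0) (XT.lf (nat_lit 84) (nat_lit 198355349) (nat_lit 0) (nat_lit 1669802194) (nat_lit 252) (nat_lit 198355349) (nat_lit 45) (nat_lit 1) (nat_lit 44) (nat_lit 1) (nat_lit 47) (nat_lit 1) (nat_lit 276) (nat_lit 247) (nat_lit 197)) (XT.lf (nat_lit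 84) (nat_lit 920991131) (nat_lit 0) (nat_lit 188398841) (nat_lit 168) (nat_lit 920991131) (nat_lit 43) (nat_lit 1) (nat_lit 42) (nat_lit 1) (nat_lit 44) (nat_lit 1) (nat_lit 277) (nat_lit 247) (nat_lit 196))))) (XT.nd (nat_lit 282) (nat_lit 588) (nat_lit 0) (XT.nd (nat_lit 94) (nat_lit 84) (nat_lit 0) (XT.lf (nat_lit 252) (nat_lit 1252784150) (nat_lit 0) (nat_lit 371223074) (nat_lit 168) (nat_lit 371223074) (nat_lit 43) (nat_lit 1) (nat_lit 40) (nat_lit 1) (nat_lit 42) (nat_lit 1) (nat_lit 278) (nat_lit 247) (nat_lit 195)) (XT.nd (nat_lit 94) (nat_lit 84) (nat_lit 0) (XT.lf (nat_lit 84) (nat_lit 335552823) (nat_lit 0) (nat_lit 1289669721) (nat_lit 252) (nat_lit 335552823) (nat_lit 41) (nat_lit 1) (nat_lit 40) (nat_lit 1) (nat_lit 43) (nat_lit 1) (nat_lit 279) (nat_lit 247) (nat_lit 194)) (XT.lf (nat_lit 168) (nat_lit 96324996) (nat_lit 0) (nat_lit 915322811) (nat_lit 84)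 (nat_lit 915322811) (nat_lit 41) (nat_lit 1) (nat_lit 39) (nat_lit 1) (nat_lit 40) (nat_lit 1) (nat_lit 280) (nat_lit 247) (nat_lit 193)))) (XT.nd (nat_lit 188) (nat_lit 336) (nat_lit 0) (XT.nd (nat_lit 94) (nat_lit 0) (nat_lit 0) (XT.lf (nat_lit 252) (nat_lit 1448624494) (nat_lit 0) (nat_lit 222681605) (nat_lit 168) (nat_lit 222681605) (nat_lit 39) (nat_lit 1) (nat_lit 36) (nat_lit 1) (nat_lit 38) (nat_lit 1) (nat_lit 281) (nat_lit 247) (nat_lit 192)) (XT.lf (nat_lit 84) (nat_lit 440217650) (nat_lit 0) (nat_lit 980937636) (nat_lit 252) (nat_lit 440217650) (nat_lit 37) (nat_lit 1) (nat_lit 36) (nat_lit 1) (nat_lit 39) (nat_lit 1) (nat_lit 282) (nat_lit 247) (nat_lit 191))) (XT.nd (nat_lit 94) (nat_lit 252) (nat_lit 0) (XT.lf (nat_lit 168) (nat_lit 323481159) (nat_lit 0) (nat_lit 753038342) (nat_lit 84) (nat_lit 753038342) (nat_lit 37) (nat_lit 1) (nat_lit 35) (nat_lit 1)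 (nat_lit 36) (nat_lit 1) (nat_lit 283) (nat_lit 247) (nat_lit 190)) (XT.lf (nat_lit 252) (nat_lit 1589840169) (nat_lit 0) (nat_lit 104415434) (nat_lit 168) (nat_lit 104415434) (nat_lit 35) (nat_lit 1) (nat_lit 32) (nat_lit 1) (nat_lit 34) (nat_lit 1) (nat_lit 284) (nat_lit 247) (nat_lit 189))))))) (XT.nd (nat_lit 1222) (nat_lit 1092) (nat_lit 0) (XT.nd (nat_lit 564) (nat_lit 672) (nat_lit 0) (XT.nd (nat_lit 282) (nat_lit 84) (nat_lit 0) (XT.nd (nat_lit 94) (nat_lit 336) (nat_lit 0) (XT.lf (nat_lit 84) (nat_lit 518508637) (nat_lit 0) (nat_lit 730756168) (nat_lit 252) (nat_lit 518508637) (nat_lit 33) (nat_lit 1) (nat_lit 32) (nat_lit 1) (nat_lit 35) (nat_lit 1) (nat_lit 285) (nat_lit 247) (nat_lit 188)) (XT.nd (nat_lit 94) (nat_lit 252) (nat_lit 0) (XT.lf (nat_lit 168) (nat_lit 498732889) (nat_lit 0) (nat_lit 619526507) (nat_lit 84) (nat_lit 619526507) (nat_lit 33) (nat_lit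 1) (nat_lit 31) (nat_lit 1) (nat_lit 32) (nat_lit 1) (nat_lit 286) (nat_lit 247) (nat_lit 187)) (XT.lf (nat_lit 252) (nat_lit 1687063739) (nat_lit 0) (nat_lit 10869243) (nat_lit 168) (nat_lit 10869243) (nat_lit 31) (nat_lit 1) (nat_lit 28) (nat_lit 1) (nat_lit 30) (nat_lit 1) (nat_lit 287) (nat_lit 247) (nat_lit 186)))) (XT.nd (nat_lit 94) (nat_lit 84) (nat_lit 0) (XT.lf (nat_lit 84) (nat_lit 575474041) (nat_lit 0) (nat_lit 528562858) (nat_lit 252) (nat_lit 575474041) (nat_lit 29) (nat_lit 1) (nat_lit 28) (nat_lit 1) (nat_lit 31) (nat_lit 1) (nat_lit 288) (nat_lit 247) (nat_lit 185)) (XT.nd (nat_lit 94) (nat_lit 0) (nat_lit 0) (XT.lf (nat_lit 168) (nat_lit 631836534) (nat_lit 0) (nat_lit 509685991) (nat_lit 84) (nat_lit 509685991) (nat_lit 29) (nat_lit 1) (nat_lit 27) (nat_lit 1) (nat_lit 28) (nat_lit 1) (nat_lit 289) (nat_lit 247) (nat_lit 184)) (XT.lf (nat_lit 0) (nat_lit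 63543303) (nat_lit 0) (nat_lit 1496673982) (nat_lit 168) (nat_lit 63543303) (nat_lit 27) (nat_lit 3) (nat_lit 27) (nat_lit 1) (nat_lit 29) (nat_lit 1) (nat_lit 290) (nat_lit 247) (nat_lit 183))))) (XT.nd (nat_lit 282) (nat_lit 420) (nat_lit 0) (XT.nd (nat_lit 94) (nat_lit 84) (nat_lit 0) (XT.lf (nat_lit 84) (nat_lit 615249348) (nat_lit 0) (nat_lit 365676591) (nat_lit 168) (nat_lit 615249348) (nat_lit 26) (nat_lit 1) (nat_lit 25) (nat_lit 1) (nat_lit 27) (nat_lit 1) (nat_lit 291) (nat_lit 247) (nat_lit 182)) (XT.nd (nat_lit 94) (nat_lit 0) (nat_lit 0) (XT.lf (nat_lit 168) (nat_lit 730792291) (nat_lit 0) (nat_lit 419319926) (nat_lit 84) (nat_lit 419319926) (nat_lit 26) (nat_lit 1) (nat_lit 24) (nat_lit 1) (nat_lit 25) (nat_lit 1) (nat_lit 292) (nat_lit 247) (nat_lit 181)) (XT.lf (nat_lit 0) (nat_lit 121450614) (nat_lit 0) (nat_lit 1300490769) (nat_lit 168) (nat_lit 121450614)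 (nat_lit 24) (nat_lit 3) (nat_lit 24) (nat_lit 1) (nat_lit 26) (nat_lit 1) (nat_lit 293) (nat_lit 247) (nat_lit 180)))) (XT.nd (nat_lit 188) (nat_lit 168) (nat_lit 0) (XT.nd (nat_lit 94) (nat_lit 84) (nat_lit 0) (XT.lf (nat_lit 84) (nat_lit 641219952) (nat_lit 0) (nat_lit 234963626) (nat_lit 168) (nat_lit 641219952) (nat_lit 23) (nat_lit 1) (nat_lit 22) (nat_lit 1) (nat_lit 24) (nat_lit 1) (nat_lit 294) (nat_lit 247) (nat_lit 179)) (XT.lf (nat_lit 168) (nat_lit 802156828) (nat_lit 0) (nat_lit 344975541) (nat_lit 84) (nat_lit 344975541) (nat_lit 23) (nat_lit 1) (nat_lit 21) (nat_lit 1) (nat_lit 22) (nat_lit 1) (nat_lit 295) (nat_lit 247) (nat_lit 178))) (XT.nd (nat_lit 94) (nat_lit 168) (nat_lit 0) (XT.lf (nat_lit 0) (nat_lit 165797131) (nat_lit 0) (nat_lit 1135796385) (nat_lit 168) (nat_lit 165797131) (nat_lit 21) (nat_lit 3) (nat_lit 21) (nat_lit 1) (nat_lit 23) (nat_lit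 1) (nat_lit 296) (nat_lit 247) (nat_lit 177)) (XT.lf (nat_lit 84) (nat_lit 656154947) (nat_lit 0) (nat_lit 130562861) (nat_lit 168) (nat_lit 656154947) (nat_lit 20) (nat_lit 1) (nat_lit 19) (nat_lit 1) (nat_lit 21) (nat_lit 1) (nat_lit 297) (nat_lit 247) (nat_lit 176)))))) (XT.nd (nat_lit 658) (nat_lit 504) (nat_lit 0) (XT.nd (nat_lit 282) (nat_lit 336) (nat_lit 0) (XT.nd (nat_lit 94) (nat_lit 168) (nat_lit 0) (XT.lf (nat_lit 168) (nat_lit 851300408) (nat_lit 0) (nat_lit 283812231) (nat_lit 84) (nat_lit 283812231) (nat_lit 20) (nat_lit 1) (nat_lit 18) (nat_lit 1) (nat_lit 19) (nat_lit 1) (nat_lit 298) (nat_lit 247) (nat_lit 175)) (XT.nd (nat_lit 94) (nat_lit 168) (nat_lit 0) (XT.lf (nat_lit 0) (nat_lit 199144005) (nat_lit 0) (nat_lit 997164792) (nat_lit 168) (nat_lit 199144005) (nat_lit 18) (nat_lit 3) (nat_lit 18) (nat_lit 1) (nat_lit 20) (nat_lit 1) (nat_lit 299) (nat_lit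 247) (nat_lit 174)) (XT.lf (nat_lit 84) (nat_lit 662317161) (nat_lit 0) (nat_lit 47659822) (nat_lit 168) (nat_lit 662317161) (nat_lit 17) (nat_lit 1) (nat_lit 16) (nat_lit 1) (nat_lit 18) (nat_lit 1) (nat_lit 300) (nat_lit 247) (nat_lit 173)))) (XT.nd (nat_lit 188) (nat_lit 252) (nat_lit 0) (XT.nd (nat_lit 94) (nat_lit 0) (nat_lit 0) (XT.lf (nat_lit 168) (nat_lit 882618382) (nat_lit 0) (nat_lit 233493025) (nat_lit 84) (nat_lit 233493025) (nat_lit 17) (nat_lit 1) (nat_lit 15) (nat_lit 1) (nat_lit 16) (nat_lit 1) (nat_lit 301) (nat_lit 247) (nat_lit 172)) (XT.lf (nat_lit 0) (nat_lit 223590833) (nat_lit 0) (nat_lit 880124509) (nat_lit 168) (nat_lit 223590833) (nat_lit 15) (nat_lit 3) (nat_lit 15) (nat_lit 1) (nat_lit 17) (nat_lit 1) (nat_lit 302) (nat_lit 247) (nat_lit 171))) (XT.nd (nat_lit 94) (nat_lit 168) (nat_lit 0) (XT.lf (nat_lit 84) (nat_lit 18284475) (nat_lit 0) (nat_lit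 643554643) (nat_lit 84) (nat_lit 643554643) (nat_lit 15) (nat_lit 3) (nat_lit 14) (nat_lit 1) (nat_lit 15) (nat_lit 1) (nat_lit 303) (nat_lit 247) (nat_lit 170)) (XT.lf (nat_lit 168) (nat_lit 899705117) (nat_lit 0) (nat_lit 192095289) (nat_lit 84) (nat_lit 192095289) (nat_lit 14) (nat_lit 1) (nat_lit 12) (nat_lit 1) (nat_lit 13) (nat_lit 1) (nat_lit 304) (nat_lit 247) (nat_lit 169))))) (XT.nd (nat_lit 282) (nat_lit 252) (nat_lit 0) (XT.nd (nat_lit 94) (nat_lit 252) (nat_lit 0) (XT.lf (nat_lit 0) (nat_lit 240857843) (nat_lit 0) (nat_lit 780989723) (nat_lit 168) (nat_lit 240857843) (nat_lit 12) (nat_lit 3) (nat_lit 12) (nat_lit 1) (nat_lit 14) (nat_lit 1) (nat_lit 305) (nat_lit 247) (nat_lit 168)) (XT.nd (nat_lit 94) (nat_lit 168) (nat_lit 0) (XT.lf (nat_lit 84) (nat_lit 71033905) (nat_lit 0) (nat_lit 585445220) (nat_lit 84) (nat_lit 585445220) (nat_lit 12) (nat_lit 3) (nat_lit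 11) (nat_lit 1) (nat_lit 12) (nat_lit 1) (nat_lit 306) (nat_lit 247) (nat_lit 167)) (XT.lf (nat_lit 168) (nat_lit 905497046) (nat_lit 0) (nat_lit 158037270) (nat_lit 84) (nat_lit 158037270) (nat_lit 11) (nat_lit 1) (nat_lit 9) (nat_lit 1) (nat_lit 10) (nat_lit 1) (nat_lit 307) (nat_lit 247) (nat_lit 166)))) (XT.nd (nat_lit 188) (nat_lit 168) (nat_lit 0) (XT.nd (nat_lit 94) (nat_lit 84) (nat_lit 0) (XT.lf (nat_lit 0) (nat_lit 252353497) (nat_lit 0) (nat_lit 696721332) (nat_lit 168) (nat_lit 252353497) (nat_lit 9) (nat_lit 3) (nat_lit 9) (nat_lit 1) (nat_lit 11) (nat_lit 1) (nat_lit 308) (nat_lit 247) (nat_lit 165)) (XT.lf (nat_lit 84) (nat_lit 111764743) (nat_lit 0) (nat_lit 534972205) (nat_lit 84) (nat_lit 534972205) (nat_lit 9) (nat_lit 3) (nat_lit 8) (nat_lit 1) (nat_lit 9) (nat_lit 1) (nat_lit 309) (nat_lit 247) (nat_lit 164))) (XT.nd (nat_lit 94) (nat_lit 0) (nat_lit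 0) (XT.lf (nat_lit 168) (nat_lit 902390298) (nat_lit 0) (nat_lit 130017653) (nat_lit 84) (nat_lit 130017653) (nat_lit 8) (nat_lit 1) (nat_lit 6) (nat_lit 1) (nat_lit 7) (nat_lit 1) (nat_lit 310) (nat_lit 247) (nat_lit 163)) (XT.lf (nat_lit 0) (nat_lit 259230088) (nat_lit 0) (nat_lit 624812606) (nat_lit 168) (nat_lit 259230088) (nat_lit 6) (nat_lit 3) (nat_lit 6) (nat_lit 1) (nat_lit 8) (nat_lit 1) (nat_lit 311) (nat_lit 247) (nat_lit 162))))))))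
noncomputable def ec41 : XT := (XT.nd (nat_lit 38070) (nat_lit 0) (nat_lit 5040) (XT.nd (nat_lit 1222) (nat_lit 0) (nat_lit 0) (XT.nd (nat_lit 564) (nat_lit 0) (nat_lit 0) (XT.nd (nat_lit 282) (nat_lit 252) (nat_lit 0) (XT.nd (nat_lit 94) (nat_lit 168) (nat_lit 0) (XT.lf (nat_lit 84) (nat_lit 142734820) (nat_lit 0) (nat_lit 490908646) (nat_lit 84) (nat_lit 490908646) (nat_lit 6) (nat_lit 3) (nat_lit 5) (nat_lit 1) (nat_lit 6) (nat_lit 1) (nat_lit 312) (nat_lit 247) (nat_lit 161)) (XT.nd (nat_lit 94) (nat_lit 0) (nat_lit 0) (XT.lf (nat_lit 168) (nat_lit 892337433) (nat_lit 0) (nat_lit 106965845) (nat_lit 84) (nat_lit 106965845) (nat_lit 5) (nat_lit 1) (nat_lit 3) (nat_lit 1) (nat_lit 4) (nat_lit 1) (nat_lit 313) (nat_lit 247) (nat_lit 160)) (XT.lf (nat_lit 0) (nat_lit 262429465) (nat_lit 0) (nat_lit 563195107) (nat_lit 168) (nat_lit 262429465) (nat_lit 3) (nat_lit 3) (nat_lit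 3) (nat_lit 1) (nat_lit 5) (nat_lit 1) (nat_lit 314) (nat_lit 247) (nat_lit 159)))) (XT.nd (nat_lit 94) (nat_lit 168) (nat_lit 0) (XT.lf (nat_lit 84) (nat_lit 165795613) (nat_lit 0) (nat_lit 452239081) (nat_lit 84) (nat_lit 452239081) (nat_lit 3) (nat_lit 3) (nat_lit 2) (nat_lit 1) (nat_lit 3) (nat_lit 1) (nat_lit 315) (nat_lit 247) (nat_lit 158)) (XT.nd (nat_lit 94) (nat_lit 0) (nat_lit 0) (XT.lf (nat_lit 0) (nat_lit 1529577497) (nat_lit 0) (nat_lit 0) (nat_lit 0) (nat_lit 0) (nat_lit 0) (nat_lit 0) (nat_lit 1) (nat_lit 0) (nat_lit 1) (nat_lit 0) (nat_lit 316) (nat_lit 247) (nat_lit 157)) (XT.lf (nat_lit 0) (nat_lit 1528686310) (nat_lit 0) (nat_lit 0) (nat_lit 0) (nat_lit 0) (nat_lit 0) (nat_lit 0) (nat_lit 1) (nat_lit 0) (nat_lit 1) (nat_lit 0) (nat_lit 317) (nat_lit 247) (nat_lit 156))))) (XT.nd (nat_lit 282) (nat_lit 0) (nat_lit 0) (XT.nd (nat_lit 94) (nat_lit 0) (nat_lit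 0) (XT.lf (nat_lit 0) (nat_lit 1527837561) (nat_lit 0) (nat_lit 0) (nat_lit 0) (nat_lit 0) (nat_lit 0) (nat_lit 0) (nat_lit 1) (nat_lit 0) (nat_lit 1) (nat_lit 0) (nat_lit 318) (nat_lit 247) (nat_lit 155)) (XT.nd (nat_lit 94) (nat_lit 0) (nat_lit 0) (XT.lf (nat_lit 0) (nat_lit 1527029228) (nat_lit 0) (nat_lit 0) (nat_lit 0) (nat_lit 0) (nat_lit 0) (nat_lit 0) (nat_lit 1) (nat_lit 0) (nat_lit 1) (nat_lit 0) (nat_lit 319) (nat_lit 247) (nat_lit 154)) (XT.lf (nat_lit 0) (nat_lit 1526259387) (nat_lit 0) (nat_lit 0) (nat_lit 0) (nat_lit 0) (nat_lit 0) (nat_lit 0) (nat_lit 1) (nat_lit 0) (nat_lit 1) (nat_lit 0) (nat_lit 320) (nat_lit 247) (nat_lit 153)))) (XT.nd (nat_lit 188) (nat_lit 0) (nat_lit 0) (XT.nd (nat_lit 94) (nat_lit 0) (nat_lit 0) (XT.lf (nat_lit 0) (nat_lit 1525526206) (nat_lit 0) (nat_lit 0) (nat_lit 0) (nat_lit 0) (nat_lit 0) (nat_lit 0) (nat_lit 1) (nat_lit 0)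 (nat_lit 1) (nat_lit 0) (nat_lit 321) (nat_lit 247) (nat_lit 152)) (XT.lf (nat_lit 0) (nat_lit 1524827938) (nat_lit 0) (nat_lit 0) (nat_lit 0) (nat_lit 0) (nat_lit 0) (nat_lit 0) (nat_lit 1) (nat_lit 0) (nat_lit 1) (nat_lit 0) (nat_lit 322) (nat_lit 247) (nat_lit 151))) (XT.nd (nat_lit 94) (nat_lit 0) (nat_lit 0) (XT.lf (nat_lit 0) (nat_lit 1524162920) (nat_lit 0) (nat_lit 0) (nat_lit 0) (nat_lit 0) (nat_lit 0) (nat_lit 0) (nat_lit 1) (nat_lit 0) (nat_lit 1) (nat_lit 0) (nat_lit 323) (nat_lit 247) (nat_lit 150)) (XT.lf (nat_lit 0) (nat_lit 1523529570) (nat_lit 0) (nat_lit 0) (nat_lit 0) (nat_lit 0) (nat_lit 0) (nat_lit 0) (nat_lit 1) (nat_lit 0) (nat_lit 1) (nat_lit 0) (nat_lit 324) (nat_lit 247) (nat_lit 149)))))) (XT.nd (nat_lit 36190) (nat_lit 0) (nat_lit 10332) (XT.nd (nat_lit 35814) (nat_lit 0) (nat_lit 10752) (XT.nd (nat_lit 94) (nat_lit 0) (nat_lit 0) (XT.lf (nat_lit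 0) (nat_lit 1522926380) (nat_lit 0) (nat_lit 0) (nat_lit 0) (nat_lit 0) (nat_lit 0) (nat_lit 0) (nat_lit 1) (nat_lit 0) (nat_lit 1) (nat_lit 0) (nat_lit 325) (nat_lit 247) (nat_lit 148)) (XT.nd (nat_lit 35626) (nat_lit 0) (nat_lit 10752) (XT.lf (nat_lit 0) (nat_lit 1522351913) (nat_lit 0) (nat_lit 0) (nat_lit 0) (nat_lit 0) (nat_lit 0) (nat_lit 0) (nat_lit 1) (nat_lit 0) (nat_lit 1) (nat_lit 0) (nat_lit 326) (nat_lit 247) (nat_lit 147)) (XT.lf (nat_lit 924) (nat_lit 793896836) (nat_lit 0) (nat_lit 1409562008) (nat_lit 924) (nat_lit 793896836) (nat_lit 139) (nat_lit 1) (nat_lit 128) (nat_lit 0) (nat_lit 139) (nat_lit 0) (nat_lit 224) (nat_lit 248) (nat_lit 248)))) (XT.nd (nat_lit 188) (nat_lit 0) (nat_lit 84) (XT.nd (nat_lit 94) (nat_lit 0) (nat_lit 84) (XT.lf (nat_lit 924) (nat_lit 3077243253) (nat_lit 84) (nat_lit 1386827137) (nat_lit 0) (nat_lit 1386827137) (nat_lit 139)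 (nat_lit 1) (nat_lit 129) (nat_lit 1) (nat_lit 128) (nat_lit 0) (nat_lit 225) (nat_lit 248) (nat_lit 247)) (XT.lf (nat_lit 924) (nat_lit 1466567800) (nat_lit 0) (nat_lit 2778394150) (nat_lit 840) (nat_lit 1466567800) (nat_lit 140) (nat_lit 1) (nat_lit 129) (nat_lit 1) (nat_lit 139) (nat_lit 1) (nat_lit 226) (nat_lit 248) (nat_lit 246))) (XT.nd (nat_lit 94) (nat_lit 0) (nat_lit 84) (XT.lf (nat_lit 924) (nat_lit 2751077409) (nat_lit 84) (nat_lit 1412793591) (nat_lit 0) (nat_lit 1412793591) (nat_lit 140) (nat_lit 1) (nat_lit 130) (nat_lit 1) (nat_lit 129) (nat_lit 1) (nat_lit 227) (nat_lit 248) (nat_lit 245)) (XT.lf (nat_lit 924) (nat_lit 1266294512) (nat_lit 0) (nat_lit 2913484955) (nat_lit 840) (nat_lit 1266294512) (nat_lit 141) (nat_lit 1) (nat_lit 130) (nat_lit 1) (nat_lit 140) (nat_lit 1) (nat_lit 228) (nat_lit 248) (nat_lit 244))))) (XT.nd (nat_lit 282) (nat_lit 588)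 (nat_lit 0) (XT.nd (nat_lit 94) (nat_lit 0) (nat_lit 84) (XT.lf (nat_lit 924) (nat_lit 2277513157) (nat_lit 84) (nat_lit 1520975556) (nat_lit 0) (nat_lit 1520975556) (nat_lit 141) (nat_lit 1) (nat_lit 131) (nat_lit 1) (nat_lit 130) (nat_lit 1) (nat_lit 229) (nat_lit 248) (nat_lit 243)) (XT.nd (nat_lit 94) (nat_lit 0) (nat_lit 0) (XT.lf (nat_lit 924) (nat_lit 998623738) (nat_lit 0) (nat_lit 3199858198) (nat_lit 840) (nat_lit 998623738) (nat_lit 142) (nat_lit 1) (nat_lit 131) (nat_lit 1) (nat_lit 141) (nat_lit 1) (nat_lit 230) (nat_lit 248) (nat_lit 242)) (XT.lf (nat_lit 924) (nat_lit 1678717167) (nat_lit 84) (nat_lit 1699699432) (nat_lit 0) (nat_lit 1699699432) (nat_lit 142) (nat_lit 1) (nat_lit 132) (nat_lit 1) (nat_lit 131) (nat_lit 1) (nat_lit 231) (nat_lit 248) (nat_lit 241)))) (XT.nd (nat_lit 188) (nat_lit 756) (nat_lit 0) (XT.nd (nat_lit 94) (nat_lit 0) (nat_lit 0)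 (XT.lf (nat_lit 924) (nat_lit 673917506) (nat_lit 0) (nat_lit 3615647076) (nat_lit 840) (nat_lit 673917506) (nat_lit 143) (nat_lit 1) (nat_lit 132) (nat_lit 1) (nat_lit 142) (nat_lit 1) (nat_lit 232) (nat_lit 248) (nat_lit 240)) (XT.lf (nat_lit 924) (nat_lit 974392263) (nat_lit 84) (nat_lit 1938568823) (nat_lit 0) (nat_lit 1938568823) (nat_lit 143) (nat_lit 1) (nat_lit 133) (nat_lit 1) (nat_lit 132) (nat_lit 1) (nat_lit 233) (nat_lit 248) (nat_lit 239))) (XT.nd (nat_lit 94) (nat_lit 840) (nat_lit 0) (XT.lf (nat_lit 84) (nat_lit 301379429) (nat_lit 0) (nat_lit 4141389279) (nat_lit 840) (nat_lit 301379429) (nat_lit 134) (nat_lit 1) (nat_lit 133) (nat_lit 1) (nat_lit 143) (nat_lit 1) (nat_lit 234) (nat_lit 248) (nat_lit 238)) (XT.lf (nat_lit 924) (nat_lit 182025680) (nat_lit 0) (nat_lit 2228336655) (nat_lit 840) (nat_lit 2228336655) (nat_lit 134) (nat_lit 1) (nat_lit 123) (nat_lit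 1) (nat_lit 133) (nat_lit 1) (nat_lit 235) (nat_lit 248) (nat_lit 237))))))) (XT.nd (nat_lit 1222) (nat_lit 2436) (nat_lit 0) (XT.nd (nat_lit 564) (nat_lit 1428) (nat_lit 0) (XT.nd (nat_lit 282) (nat_lit 420) (nat_lit 0) (XT.nd (nat_lit 94) (nat_lit 420) (nat_lit 0) (XT.lf (nat_lit 588) (nat_lit 4319698635) (nat_lit 0) (nat_lit 109040752) (nat_lit 504) (nat_lit 109040752) (nat_lit 123) (nat_lit 1) (nat_lit 116) (nat_lit 1) (nat_lit 122) (nat_lit 1) (nat_lit 236) (nat_lit 248) (nat_lit 236)) (XT.nd (nat_lit 94) (nat_lit 420) (nat_lit 0) (XT.lf (nat_lit 84) (nat_lit 1888564725) (nat_lit 0) (nat_lit 661030036) (nat_lit 588) (nat_lit 1888564725) (nat_lit 117) (nat_lit 1) (nat_lit 116) (nat_lit 1) (nat_lit 123) (nat_lit 1) (nat_lit 237) (nat_lit 248) (nat_lit 235)) (XT.lf (nat_lit 504) (nat_lit 3249735118) (nat_lit 0) (nat_lit 546519926) (nat_lit 420) (nat_lit 546519926) (nat_lit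 117) (nat_lit 1) (nat_lit 111) (nat_lit 1) (nat_lit 116) (nat_lit 1) (nat_lit 238) (nat_lit 248) (nat_lit 234)))) (XT.nd (nat_lit 94) (nat_lit 420) (nat_lit 0) (XT.lf (nat_lit 84) (nat_lit 1347090228) (nat_lit 0) (nat_lit 1555215244) (nat_lit 504) (nat_lit 1347090228) (nat_lit 112) (nat_lit 1) (nat_lit 111) (nat_lit 1) (nat_lit 117) (nat_lit 1) (nat_lit 239) (nat_lit 248) (nat_lit 233)) (XT.nd (nat_lit 94) (nat_lit 0) (nat_lit 0) (XT.lf (nat_lit 504) (nat_lit 2139996660) (nat_lit 0) (nat_lit 1009635960) (nat_lit 420) (nat_lit 1009635960) (nat_lit 112) (nat_lit 1) (nat_lit 106) (nat_lit 1) (nat_lit 111) (nat_lit 1) (nat_lit 240) (nat_lit 248) (nat_lit 232)) (XT.lf (nat_lit 84) (nat_lit 788560328) (nat_lit 0) (nat_lit 2494642004) (nat_lit 504) (nat_lit 788560328) (nat_lit 107) (nat_lit 1) (nat_lit 106) (nat_lit 1) (nat_lit 112) (nat_lit 1) (nat_lit 241) (nat_lit 248) (nat_lit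 231))))) (XT.nd (nat_lit 282) (nat_lit 672) (nat_lit 0) (XT.nd (nat_lit 94) (nat_lit 420) (nat_lit 0) (XT.lf (nat_lit 420) (nat_lit 1000812112) (nat_lit 0) (nat_lit 1492847785) (nat_lit 336) (nat_lit 1492847785) (nat_lit 107) (nat_lit 1) (nat_lit 102) (nat_lit 1) (nat_lit 106) (nat_lit 1) (nat_lit 242) (nat_lit 248) (nat_lit 230)) (XT.nd (nat_lit 94) (nat_lit 420) (nat_lit 0) (XT.lf (nat_lit 84) (nat_lit 217770037) (nat_lit 0) (nat_lit 3468991116) (nat_lit 420) (nat_lit 217770037) (nat_lit 103) (nat_lit 1) (nat_lit 102) (nat_lit 1) (nat_lit 107) (nat_lit 1) (nat_lit 243) (nat_lit 248) (nat_lit 229)) (XT.lf (nat_lit 84) (nat_lit 1834992913) (nat_lit 0) (nat_lit 153684221) (nat_lit 420) (nat_lit 1834992913) (nat_lit 98) (nat_lit 1) (nat_lit 97) (nat_lit 1) (nat_lit 102) (nat_lit 1) (nat_lit 244) (nat_lit 248) (nat_lit 228)))) (XT.nd (nat_lit 188) (nat_lit 336) (nat_lit 0)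 (XT.nd (nat_lit 94) (nat_lit 0) (nat_lit 0) (XT.lf (nat_lit 420) (nat_lit 3035367660) (nat_lit 0) (nat_lit 355260317) (nat_lit 336) (nat_lit 355260317) (nat_lit 98) (nat_lit 1) (nat_lit 93) (nat_lit 1) (nat_lit 97) (nat_lit 1) (nat_lit 245) (nat_lit 248) (nat_lit 227)) (XT.lf (nat_lit 84) (nat_lit 1190604640) (nat_lit 0) (nat_lit 1288231624) (nat_lit 420) (nat_lit 1190604640) (nat_lit 94) (nat_lit 1) (nat_lit 93) (nat_lit 1) (nat_lit 98) (nat_lit 1) (nat_lit 246) (nat_lit 248) (nat_lit 226))) (XT.nd (nat_lit 94) (nat_lit 0) (nat_lit 0) (XT.lf (nat_lit 420) (nat_lit 1737423370) (nat_lit 0) (nat_lit 929110535) (nat_lit 336) (nat_lit 929110535) (nat_lit 94) (nat_lit 1) (nat_lit 89) (nat_lit 1) (nat_lit 93) (nat_lit 1) (nat_lit 247) (nat_lit 248) (nat_lit 225)) (XT.lf (nat_lit 84) (nat_lit 547905791) (nat_lit 0) (nat_lit 2428194210) (nat_lit 420) (nat_lit 547905791) (nat_lit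 90) (nat_lit 1) (nat_lit 89) (nat_lit 1) (nat_lit 94) (nat_lit 1) (nat_lit 248) (nat_lit 248) (nat_lit 224)))))) (XT.nd (nat_lit 658) (nat_lit 924) (nat_lit 0) (XT.nd (nat_lit 282) (nat_lit 840) (nat_lit 0) (XT.nd (nat_lit 94) (nat_lit 420) (nat_lit 0) (XT.lf (nat_lit 336) (nat_lit 445588313) (nat_lit 0) (nat_lit 1504162611) (nat_lit 252) (nat_lit 1504162611) (nat_lit 90) (nat_lit 1) (nat_lit 86) (nat_lit 1) (nat_lit 89) (nat_lit 1) (nat_lit 249) (nat_lit 248) (nat_lit 223)) (XT.nd (nat_lit 94) (nat_lit 0) (nat_lit 0) (XT.lf (nat_lit 420) (nat_lit 3208468524) (nat_lit 0) (nat_lit 89028845) (nat_lit 336) (nat_lit 89028845) (nat_lit 86) (nat_lit 1) (nat_lit 81) (nat_lit 1) (nat_lit 85) (nat_lit 1) (nat_lit 250) (nat_lit 248) (nat_lit 222)) (XT.lf (nat_lit 84) (nat_lit 1255497453) (nat_lit 0) (nat_lit 808516966) (nat_lit 420) (nat_lit 1255497453) (nat_lit 82) (nat_lit 1) (nat_lit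 81) (nat_lit 1) (nat_lit 86) (nat_lit 1) (nat_lit 251) (nat_lit 248) (nat_lit 221)))) (XT.nd (nat_lit 188) (nat_lit 588) (nat_lit 0) (XT.nd (nat_lit 94) (nat_lit 0) (nat_lit 0) (XT.lf (nat_lit 336) (nat_lit 1833693722) (nat_lit 0) (nat_lit 710686993) (nat_lit 252) (nat_lit 710686993) (nat_lit 82) (nat_lit 1) (nat_lit 78) (nat_lit 1) (nat_lit 81) (nat_lit 1) (nat_lit 252) (nat_lit 248) (nat_lit 220)) (XT.lf (nat_lit 84) (nat_lit 579292211) (nat_lit 0) (nat_lit 2033676439) (nat_lit 336) (nat_lit 579292211) (nat_lit 79) (nat_lit 1) (nat_lit 78) (nat_lit 1) (nat_lit 82) (nat_lit 1) (nat_lit 253) (nat_lit 248) (nat_lit 219))) (XT.nd (nat_lit 94) (nat_lit 336) (nat_lit 0) (XT.lf (nat_lit 336) (nat_lit 482821951) (nat_lit 0) (nat_lit 1324030450) (nat_lit 252) (nat_lit 1324030450) (nat_lit 79) (nat_lit 1) (nat_lit 75) (nat_lit 1) (nat_lit 78) (nat_lit 1) (nat_lit 254) (nat_lit 248)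 (nat_lit 218)) (XT.lf (nat_lit 336) (nat_lit 2905829233) (nat_lit 0) (nat_lit 82977939) (nat_lit 252) (nat_lit 82977939) (nat_lit 75) (nat_lit 1) (nat_lit 71) (nat_lit 1) (nat_lit 74) (nat_lit 1) (nat_lit 255) (nat_lit 248) (nat_lit 217))))) (XT.nd (nat_lit 282) (nat_lit 672) (nat_lit 0) (XT.nd (nat_lit 94) (nat_lit 252) (nat_lit 0) (XT.lf (nat_lit 84) (nat_lit 1099191981) (nat_lit 0) (nat_lit 814490221) (nat_lit 336) (nat_lit 1099191981) (nat_lit 72) (nat_lit 1) (nat_lit 71) (nat_lit 1) (nat_lit 75) (nat_lit 1) (nat_lit 256) (nat_lit 248) (nat_lit 216)) (XT.nd (nat_lit 94) (nat_lit 0) (nat_lit 0) (XT.lf (nat_lit 336) (nat_lit 1511489622) (nat_lit 0) (nat_lit 722326672) (nat_lit 252) (nat_lit 722326672) (nat_lit 72) (nat_lit 1) (nat_lit 68) (nat_lit 1) (nat_lit 71) (nat_lit 1) (nat_lit 257) (nat_lit 248) (nat_lit 215)) (XT.lf (nat_lit 84) (nat_lit 416263009) (nat_lit 0)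 (nat_lit 2068407290) (nat_lit 336) (nat_lit 416263009) (nat_lit 69) (nat_lit 1) (nat_lit 68) (nat_lit 1) (nat_lit 72) (nat_lit 1) (nat_lit 258) (nat_lit 248) (nat_lit 214)))) (XT.nd (nat_lit 188) (nat_lit 168) (nat_lit 0) (XT.nd (nat_lit 94) (nat_lit 336) (nat_lit 0) (XT.lf (nat_lit 252) (nat_lit 152532607) (nat_lit 0) (nat_lit 1347115718) (nat_lit 168) (nat_lit 1347115718) (nat_lit 69) (nat_lit 1) (nat_lit 66) (nat_lit 1) (nat_lit 68) (nat_lit 1) (nat_lit 259) (nat_lit 248) (nat_lit 213)) (XT.lf (nat_lit 336) (nat_lit 2304716547) (nat_lit 0) (nat_lit 244777602) (nat_lit 252) (nat_lit 244777602) (nat_lit 66) (nat_lit 1) (nat_lit 62) (nat_lit 1) (nat_lit 65) (nat_lit 1) (nat_lit 260) (nat_lit 248) (nat_lit 212))) (XT.nd (nat_lit 94) (nat_lit 168) (nat_lit 0) (XT.lf (nat_lit 84) (nat_lit 804982782) (nat_lit 0) (nat_lit 1132400971) (nat_lit 336) (nat_lit 804982782) (nat_lit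 63) (nat_lit 1) (nat_lit 62) (nat_lit 1) (nat_lit 66) (nat_lit 1) (nat_lit 261) (nat_lit 248) (nat_lit 211)) (XT.lf (nat_lit 252) (nat_lit 930033431) (nat_lit 0) (nat_lit 881014913) (nat_lit 168) (nat_lit 881014913) (nat_lit 63) (nat_lit 1) (nat_lit 60) (nat_lit 1) (nat_lit 62) (nat_lit 1) (nat_lit 262) (nat_lit 248) (nat_lit 210))))))))
noncomputable def ec42 : XT := (XT.nd (nat_lit 2538) (nat_lit 2100) (nat_lit 0) (XT.nd (nat_lit 1222) (nat_lit 1428) (nat_lit 0) (XT.nd (nat_lit 564) (nat_lit 672) (nat_lit 0) (XT.nd (nat_lit 282) (nat_lit 420) (nat_lit 0) (XT.nd (nat_lit 94) (nat_lit 420) (nat_lit 0) (XT.lf (nat_lit 84) (nat_lit 133616284) (nat_lit 0) (nat_lit 2376196784) (nat_lit 252) (nat_lit 133616284) (nat_lit 61) (nat_lit 1) (nat_lit 60) (nat_lit 1) (nat_lit 63) (nat_lit 1) (nat_lit 263) (nat_lit 248) (nat_lit 209)) (XT.nd (nat_lit 94) (nat_lit 168) (nat_lit 0) (XT.lf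 (nat_lit 84) (nat_lit 1102758636) (nat_lit 0) (nat_lit 389454963) (nat_lit 252) (nat_lit 1102758636) (nat_lit 58) (nat_lit 1) (nat_lit 57) (nat_lit 1) (nat_lit 60) (nat_lit 1) (nat_lit 264) (nat_lit 248) (nat_lit 208)) (XT.lf (nat_lit 252) (nat_lit 1531373641) (nat_lit 0) (nat_lit 508374557) (nat_lit 168) (nat_lit 508374557) (nat_lit 58) (nat_lit 1) (nat_lit 55) (nat_lit 1) (nat_lit 57) (nat_lit 1) (nat_lit 265) (nat_lit 248) (nat_lit 207)))) (XT.nd (nat_lit 94) (nat_lit 420) (nat_lit 0) (XT.lf (nat_lit 84) (nat_lit 432113801) (nat_lit 0) (nat_lit 1638081152) (nat_lit 252) (nat_lit 432113801) (nat_lit 56) (nat_lit 1) (nat_lit 55) (nat_lit 1) (nat_lit 58) (nat_lit 1) (nat_lit 266) (nat_lit 248) (nat_lit 206)) (XT.nd (nat_lit 94) (nat_lit 252) (nat_lit 0) (XT.lf (nat_lit 252) (nat_lit 202429758) (nat_lit 0) (nat_lit 1127494243) (nat_lit 168) (nat_lit 1127494243) (nat_lit 56)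 (nat_lit 1) (nat_lit 53) (nat_lit 1) (nat_lit 55) (nat_lit 1) (nat_lit 267) (nat_lit 248) (nat_lit 205)) (XT.lf (nat_lit 252) (nat_lit 1989610443) (nat_lit 0) (nat_lit 212109014) (nat_lit 168) (nat_lit 212109014) (nat_lit 53) (nat_lit 1) (nat_lit 50) (nat_lit 1) (nat_lit 52) (nat_lit 1) (nat_lit 268) (nat_lit 248) (nat_lit 204))))) (XT.nd (nat_lit 282) (nat_lit 504) (nat_lit 0) (XT.nd (nat_lit 94) (nat_lit 168) (nat_lit 0) (XT.lf (nat_lit 84) (nat_lit 662346192) (nat_lit 0) (nat_lit 1045918349) (nat_lit 252) (nat_lit 662346192) (nat_lit 51) (nat_lit 1) (nat_lit 50) (nat_lit 1) (nat_lit 53) (nat_lit 1) (nat_lit 269) (nat_lit 248) (nat_lit 203)) (XT.nd (nat_lit 94) (nat_lit 0) (nat_lit 0) (XT.lf (nat_lit 252) (nat_lit 674567439) (nat_lit 0) (nat_lit 827040113) (nat_lit 168) (nat_lit 827040113) (nat_lit 51) (nat_lit 1) (nat_lit 48) (nat_lit 1) (nat_lit 50) (nat_lit 1) (nat_lit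 270) (nat_lit 248) (nat_lit 202)) (XT.lf (nat_lit 84) (nat_lit 22171171) (nat_lit 0) (nat_lit 2243813901) (nat_lit 252) (nat_lit 22171171) (nat_lit 49) (nat_lit 1) (nat_lit 48) (nat_lit 1) (nat_lit 51) (nat_lit 1) (nat_lit 271) (nat_lit 248) (nat_lit 201)))) (XT.nd (nat_lit 188) (nat_lit 168) (nat_lit 0) (XT.nd (nat_lit 94) (nat_lit 168) (nat_lit 0) (XT.lf (nat_lit 84) (nat_lit 837147278) (nat_lit 0) (nat_lit 573112881) (nat_lit 168) (nat_lit 837147278) (nat_lit 47) (nat_lit 1) (nat_lit 46) (nat_lit 1) (nat_lit 48) (nat_lit 1) (nat_lit 272) (nat_lit 248) (nat_lit 200)) (XT.lf (nat_lit 252) (nat_lit 1038804469) (nat_lit 0) (nat_lit 584643956) (nat_lit 168) (nat_lit 584643956) (nat_lit 47) (nat_lit 1) (nat_lit 44) (nat_lit 1) (nat_lit 46) (nat_lit 1) (nat_lit 273) (nat_lit 248) (nat_lit 199))) (XT.nd (nat_lit 94) (nat_lit 168) (nat_lit 0) (XT.lf (nat_lit 84) (nat_lit 208273116)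 (nat_lit 0) (nat_lit 1753292304) (nat_lit 252) (nat_lit 208273116) (nat_lit 45) (nat_lit 1) (nat_lit 44) (nat_lit 1) (nat_lit 47) (nat_lit 1) (nat_lit 274) (nat_lit 248) (nat_lit 198)) (XT.lf (nat_lit 84) (nat_lit 967040687) (nat_lit 0) (nat_lit 197818783) (nat_lit 168) (nat_lit 967040687) (nat_lit 43) (nat_lit 1) (nat_lit 42) (nat_lit 1) (nat_lit 44) (nat_lit 1) (nat_lit 275) (nat_lit 248) (nat_lit 197)))))) (XT.nd (nat_lit 658) (nat_lit 588) (nat_lit 0) (XT.nd (nat_lit 282) (nat_lit 588) (nat_lit 0) (XT.nd (nat_lit 94) (nat_lit 84) (nat_lit 0) (XT.lf (nat_lit 252) (nat_lit 1315423358) (nat_lit 0) (nat_lit 389784227) (nat_lit 168) (nat_lit 389784227) (nat_lit 43) (nat_lit 1) (nat_lit 40) (nat_lit 1) (nat_lit 42) (nat_lit 1) (nat_lit 276) (nat_lit 248) (nat_lit 196)) (XT.nd (nat_lit 94) (nat_lit 84) (nat_lit 0) (XT.lf (nat_lit 84) (nat_lit 352330464) (nat_lit 0) (nat_lit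 1354153207) (nat_lit 252) (nat_lit 352330464) (nat_lit 41) (nat_lit 1) (nat_lit 40) (nat_lit 1) (nat_lit 43) (nat_lit 1) (nat_lit 277) (nat_lit 248) (nat_lit 195)) (XT.lf (nat_lit 168) (nat_lit 101141245) (nat_lit 0) (nat_lit 961088952) (nat_lit 84) (nat_lit 961088952) (nat_lit 41) (nat_lit 1) (nat_lit 39) (nat_lit 1) (nat_lit 40) (nat_lit 1) (nat_lit 278) (nat_lit 248) (nat_lit 194)))) (XT.nd (nat_lit 188) (nat_lit 336) (nat_lit 0) (XT.nd (nat_lit 94) (nat_lit 0) (nat_lit 0) (XT.lf (nat_lit 252) (nat_lit 1521055719) (nat_lit 0) (nat_lit 233815685) (nat_lit 168) (nat_lit 233815685) (nat_lit 39) (nat_lit 1) (nat_lit 36) (nat_lit 1) (nat_lit 38) (nat_lit 1) (nat_lit 279) (nat_lit 248) (nat_lit 193)) (XT.lf (nat_lit 84) (nat_lit 462228532) (nat_lit 0) (nat_lit 1029984518) (nat_lit 252) (nat_lit 462228532) (nat_lit 37) (nat_lit 1) (nat_lit 36) (nat_lit 1) (nat_lit 39) (nat_lit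 1) (nat_lit 280) (nat_lit 248) (nat_lit 192))) (XT.nd (nat_lit 94) (nat_lit 252) (nat_lit 0) (XT.lf (nat_lit 168) (nat_lit 339655217) (nat_lit 0) (nat_lit 790690259) (nat_lit 84) (nat_lit 790690259) (nat_lit 37) (nat_lit 1) (nat_lit 35) (nat_lit 1) (nat_lit 36) (nat_lit 1) (nat_lit 281) (nat_lit 248) (nat_lit 191)) (XT.lf (nat_lit 252) (nat_lit 1669332178) (nat_lit 0) (nat_lit 109636206) (nat_lit 168) (nat_lit 109636206) (nat_lit 35) (nat_lit 1) (nat_lit 32) (nat_lit 1) (nat_lit 34) (nat_lit 1) (nat_lit 282) (nat_lit 248) (nat_lit 190))))) (XT.nd (nat_lit 282) (nat_lit 252) (nat_lit 0) (XT.nd (nat_lit 94) (nat_lit 336) (nat_lit 0) (XT.lf (nat_lit 84) (nat_lit 544434069) (nat_lit 0) (nat_lit 767293977) (nat_lit 252) (nat_lit 544434069) (nat_lit 33) (nat_lit 1) (nat_lit 32) (nat_lit 1) (nat_lit 35) (nat_lit 1) (nat_lit 283) (nat_lit 248) (nat_lit 189)) (XT.nd (nat_lit 94)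 (nat_lit 252) (nat_lit 0) (XT.lf (nat_lit 168) (nat_lit 523669533) (nat_lit 0) (nat_lit 650502833) (nat_lit 84) (nat_lit 650502833) (nat_lit 33) (nat_lit 1) (nat_lit 31) (nat_lit 1) (nat_lit 32) (nat_lit 1) (nat_lit 284) (nat_lit 248) (nat_lit 188)) (XT.lf (nat_lit 252) (nat_lit 1771416926) (nat_lit 0) (nat_lit 11412705) (nat_lit 168) (nat_lit 11412705) (nat_lit 31) (nat_lit 1) (nat_lit 28) (nat_lit 1) (nat_lit 30) (nat_lit 1) (nat_lit 285) (nat_lit 248) (nat_lit 187)))) (XT.nd (nat_lit 188) (nat_lit 168) (nat_lit 0) (XT.nd (nat_lit 94) (nat_lit 84) (nat_lit 0) (XT.lf (nat_lit 84) (nat_lit 604247743) (nat_lit 0) (nat_lit 554991001) (nat_lit 252) (nat_lit 604247743) (nat_lit 29) (nat_lit 1) (nat_lit 28) (nat_lit 1) (nat_lit 31) (nat_lit 1) (nat_lit 286) (nat_lit 248) (nat_lit 186)) (XT.lf (nat_lit 168) (nat_lit 663428360) (nat_lit 0) (nat_lit 535170290) (nat_lit 84) (nat_lit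 535170290) (nat_lit 29) (nat_lit 1) (nat_lit 27) (nat_lit 1) (nat_lit 28) (nat_lit 1) (nat_lit 287) (nat_lit 248) (nat_lit 185))) (XT.nd (nat_lit 94) (nat_lit 168) (nat_lit 0) (XT.lf (nat_lit 0) (nat_lit 66720469) (nat_lit 0) (nat_lit 1571507681) (nat_lit 168) (nat_lit 66720469) (nat_lit 27) (nat_lit 3) (nat_lit 27) (nat_lit 1) (nat_lit 29) (nat_lit 1) (nat_lit 288) (nat_lit 248) (nat_lit 184)) (XT.lf (nat_lit 84) (nat_lit 646011815) (nat_lit 0) (nat_lit 383960420) (nat_lit 168) (nat_lit 646011815) (nat_lit 26) (nat_lit 1) (nat_lit 25) (nat_lit 1) (nat_lit 27) (nat_lit 1) (nat_lit 289) (nat_lit 248) (nat_lit 183))))))) (XT.nd (nat_lit 1222) (nat_lit 1008) (nat_lit 0) (XT.nd (nat_lit 564) (nat_lit 588) (nat_lit 0) (XT.nd (nat_lit 282) (nat_lit 252) (nat_lit 0) (XT.nd (nat_lit 94) (nat_lit 168) (nat_lit 0) (XT.lf (nat_lit 168) (nat_lit 767331906) (nat_lit 0) (nat_lit 440285922)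 (nat_lit 84) (nat_lit 440285922) (nat_lit 26) (nat_lit 1) (nat_lit 24) (nat_lit 1) (nat_lit 25) (nat_lit 1) (nat_lit 290) (nat_lit 248) (nat_lit 182)) (XT.nd (nat_lit 94) (nat_lit 168) (nat_lit 0) (XT.lf (nat_lit 0) (nat_lit 127523144) (nat_lit 0) (nat_lit 1365515308) (nat_lit 168) (nat_lit 127523144) (nat_lit 24) (nat_lit 3) (nat_lit 24) (nat_lit 1) (nat_lit 26) (nat_lit 1) (nat_lit 291) (nat_lit 248) (nat_lit 181)) (XT.lf (nat_lit 84) (nat_lit 673280950) (nat_lit 0) (nat_lit 246711807) (nat_lit 168) (nat_lit 673280950) (nat_lit 23) (nat_lit 1) (nat_lit 22) (nat_lit 1) (nat_lit 24) (nat_lit 1) (nat_lit 292) (nat_lit 248) (nat_lit 180)))) (XT.nd (nat_lit 94) (nat_lit 168) (nat_lit 0) (XT.lf (nat_lit 168) (nat_lit 842264669) (nat_lit 0) (nat_lit 362224318) (nat_lit 84) (nat_lit 362224318) (nat_lit 23) (nat_lit 1) (nat_lit 21) (nat_lit 1) (nat_lit 22) (nat_lit 1) (nat_lit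 293) (nat_lit 248) (nat_lit 179)) (XT.nd (nat_lit 94) (nat_lit 168) (nat_lit 0) (XT.lf (nat_lit 0) (nat_lit 174086987) (nat_lit 0) (nat_lit 1192586204) (nat_lit 168) (nat_lit 174086987) (nat_lit 21) (nat_lit 3) (nat_lit 21) (nat_lit 1) (nat_lit 23) (nat_lit 1) (nat_lit 294) (nat_lit 248) (nat_lit 178)) (XT.lf (nat_lit 84) (nat_lit 688962694) (nat_lit 0) (nat_lit 137091004) (nat_lit 168) (nat_lit 688962694) (nat_lit 20) (nat_lit 1) (nat_lit 19) (nat_lit 1) (nat_lit 21) (nat_lit 1) (nat_lit 295) (nat_lit 248) (nat_lit 177))))) (XT.nd (nat_lit 282) (nat_lit 336) (nat_lit 0) (XT.nd (nat_lit 94) (nat_lit 168) (nat_lit 0) (XT.lf (nat_lit 168) (nat_lit 893865429) (nat_lit 0) (nat_lit 298002843) (nat_lit 84) (nat_lit 298002843) (nat_lit 20) (nat_lit 1) (nat_lit 18) (nat_lit 1) (nat_lit 19) (nat_lit 1) (nat_lit 296) (nat_lit 248) (nat_lit 176)) (XT.nd (nat_lit 94) (nat_lit 168) (nat_lit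 0) (XT.lf (nat_lit 0) (nat_lit 209101205) (nat_lit 0) (nat_lit 1047023031) (nat_lit 168) (nat_lit 209101205) (nat_lit 18) (nat_lit 3) (nat_lit 18) (nat_lit 1) (nat_lit 20) (nat_lit 1) (nat_lit 297) (nat_lit 248) (nat_lit 175)) (XT.lf (nat_lit 84) (nat_lit 695433019) (nat_lit 0) (nat_lit 50042813) (nat_lit 168) (nat_lit 695433019) (nat_lit 17) (nat_lit 1) (nat_lit 16) (nat_lit 1) (nat_lit 18) (nat_lit 1) (nat_lit 298) (nat_lit 248) (nat_lit 174)))) (XT.nd (nat_lit 188) (nat_lit 252) (nat_lit 0) (XT.nd (nat_lit 94) (nat_lit 0) (nat_lit 0) (XT.lf (nat_lit 168) (nat_lit 926749301) (nat_lit 0) (nat_lit 245167676) (nat_lit 84) (nat_lit 245167676) (nat_lit 17) (nat_lit 1) (nat_lit 15) (nat_lit 1) (nat_lit 16) (nat_lit 1) (nat_lit 299) (nat_lit 248) (nat_lit 173)) (XT.lf (nat_lit 0) (nat_lit 234770374) (nat_lit 0) (nat_lit 924130734) (nat_lit 168) (nat_lit 234770374) (nat_lit 15)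 (nat_lit 3) (nat_lit 15) (nat_lit 1) (nat_lit 17) (nat_lit 1) (nat_lit 300) (nat_lit 248) (nat_lit 172))) (XT.nd (nat_lit 94) (nat_lit 168) (nat_lit 0) (XT.lf (nat_lit 84) (nat_lit 19198699) (nat_lit 0) (nat_lit 675732375) (nat_lit 84) (nat_lit 675732375) (nat_lit 15) (nat_lit 3) (nat_lit 14) (nat_lit 1) (nat_lit 15) (nat_lit 1) (nat_lit 301) (nat_lit 248) (nat_lit 171)) (XT.lf (nat_lit 168) (nat_lit 944690373) (nat_lit 0) (nat_lit 201700054) (nat_lit 84) (nat_lit 201700054) (nat_lit 14) (nat_lit 1) (nat_lit 12) (nat_lit 1) (nat_lit 13) (nat_lit 1) (nat_lit 302) (nat_lit 248) (nat_lit 170)))))) (XT.nd (nat_lit 658) (nat_lit 504) (nat_lit 0) (XT.nd (nat_lit 282) (nat_lit 252) (nat_lit 0) (XT.nd (nat_lit 94) (nat_lit 252) (nat_lit 0) (XT.lf (nat_lit 0) (nat_lit 252900735) (nat_lit 0) (nat_lit 820039209) (nat_lit 168) (nat_lit 252900735) (nat_lit 12) (nat_lit 3) (nat_lit 12)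 (nat_lit 1) (nat_lit 14) (nat_lit 1) (nat_lit 303) (nat_lit 248) (nat_lit 169)) (XT.nd (nat_lit 94) (nat_lit 168) (nat_lit 0) (XT.lf (nat_lit 84) (nat_lit 74585600) (nat_lit 0) (nat_lit 614717481) (nat_lit 84) (nat_lit 614717481) (nat_lit 12) (nat_lit 3) (nat_lit 11) (nat_lit 1) (nat_lit 12) (nat_lit 1) (nat_lit 304) (nat_lit 248) (nat_lit 168)) (XT.lf (nat_lit 168) (nat_lit 950771898) (nat_lit 0) (nat_lit 165939133) (nat_lit 84) (nat_lit 165939133) (nat_lit 11) (nat_lit 1) (nat_lit 9) (nat_lit 1) (nat_lit 10) (nat_lit 1) (nat_lit 305) (nat_lit 248) (nat_lit 167)))) (XT.nd (nat_lit 188) (nat_lit 168) (nat_lit 0) (XT.nd (nat_lit 94) (nat_lit 84) (nat_lit 0) (XT.lf (nat_lit 0) (nat_lit 264971172) (nat_lit 0) (nat_lit 731557398) (nat_lit 168) (nat_lit 264971172) (nat_lit 9) (nat_lit 3) (nat_lit 9) (nat_lit 1) (nat_lit 11) (nat_lit 1) (nat_lit 306) (nat_lit 248) (nat_lit 166))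 (XT.lf (nat_lit 84) (nat_lit 117352981) (nat_lit 0) (nat_lit 561720815) (nat_lit 84) (nat_lit 561720815) (nat_lit 9) (nat_lit 3) (nat_lit 8) (nat_lit 1) (nat_lit 9) (nat_lit 1) (nat_lit 307) (nat_lit 248) (nat_lit 165))) (XT.nd (nat_lit 94) (nat_lit 0) (nat_lit 0) (XT.lf (nat_lit 168) (nat_lit 947509813) (nat_lit 0) (nat_lit 136518535) (nat_lit 84) (nat_lit 136518535) (nat_lit 8) (nat_lit 1) (nat_lit 6) (nat_lit 1) (nat_lit 7) (nat_lit 1) (nat_lit 308) (nat_lit 248) (nat_lit 164)) (XT.lf (nat_lit 0) (nat_lit 272191593) (nat_lit 0) (nat_lit 656053236) (nat_lit 168) (nat_lit 272191593) (nat_lit 6) (nat_lit 3) (nat_lit 6) (nat_lit 1) (nat_lit 8) (nat_lit 1) (nat_lit 309) (nat_lit 248) (nat_lit 163))))) (XT.nd (nat_lit 282) (nat_lit 252) (nat_lit 0) (XT.nd (nat_lit 94) (nat_lit 168) (nat_lit 0) (XT.lf (nat_lit 84) (nat_lit 149871561) (nat_lit 0) (nat_lit 515454079) (nat_lit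 84) (nat_lit 515454079) (nat_lit 6) (nat_lit 3) (nat_lit 5) (nat_lit 1) (nat_lit 6) (nat_lit 1) (nat_lit 310) (nat_lit 248) (nat_lit 162)) (XT.nd (nat_lit 94) (nat_lit 0) (nat_lit 0) (XT.lf (nat_lit 168) (nat_lit 936954305) (nat_lit 0) (nat_lit 112314137) (nat_lit 84) (nat_lit 112314137) (nat_lit 5) (nat_lit 1) (nat_lit 3) (nat_lit 1) (nat_lit 4) (nat_lit 1) (nat_lit 311) (nat_lit 248) (nat_lit 161)) (XT.lf (nat_lit 0) (nat_lit 275550939) (nat_lit 0) (nat_lit 591354862) (nat_lit 168) (nat_lit 275550939) (nat_lit 3) (nat_lit 3) (nat_lit 3) (nat_lit 1) (nat_lit 5) (nat_lit 1) (nat_lit 312) (nat_lit 248) (nat_lit 160)))) (XT.nd (nat_lit 188) (nat_lit 0) (nat_lit 0) (XT.nd (nat_lit 94) (nat_lit 168) (nat_lit 0) (XT.lf (nat_lit 84) (nat_lit 174085394) (nat_lit 0) (nat_lit 474851036) (nat_lit 84) (nat_lit 474851036) (nat_lit 3) (nat_lit 3) (nat_lit 2) (nat_lit 1) (nat_lit 3) (nat_lit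 1) (nat_lit 313) (nat_lit 248) (nat_lit 159)) (XT.lf (nat_lit 0) (nat_lit 1606056372) (nat_lit 0) (nat_lit 0) (nat_lit 0) (nat_lit 0) (nat_lit 0) (nat_lit 0) (nat_lit 1) (nat_lit 0) (nat_lit 1) (nat_lit 0) (nat_lit 314) (nat_lit 248) (nat_lit 158))) (XT.nd (nat_lit 94) (nat_lit 0) (nat_lit 0) (XT.lf (nat_lit 0) (nat_lit 1605120626) (nat_lit 0) (nat_lit 0) (nat_lit 0) (nat_lit 0) (nat_lit 0) (nat_lit 0) (nat_lit 1) (nat_lit 0) (nat_lit 1) (nat_lit 0) (nat_lit 315) (nat_lit 248) (nat_lit 157)) (XT.lf (nat_lit 0) (nat_lit 1604229439) (nat_lit 0) (nat_lit 0) (nat_lit 0) (nat_lit 0) (nat_lit 0) (nat_lit 0) (nat_lit 1) (nat_lit 0) (nat_lit 1) (nat_lit 0) (nat_lit 316) (nat_lit 248) (nat_lit 156))))))))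
noncomputable def ec43 : XT := (XT.nd (nat_lit 37882) (nat_lit 0) (nat_lit 4200) (XT.nd (nat_lit 36566) (nat_lit 0) (nat_lit 8904) (XT.nd (nat_lit 564) (nat_lit 0) (nat_lit 0) (XT.nd (nat_lit 282) (nat_lit 0) (nat_lit 0) (XT.nd (nat_lit 94) (nat_lit 0) (nat_lit 0) (XT.lf (nat_lit 0) (nat_lit 1603380690) (nat_lit 0) (nat_lit 0) (nat_lit 0) (nat_lit 0) (nat_lit 0) (nat_lit 0) (nat_lit 1) (nat_lit 0) (nat_lit 1) (nat_lit 0) (nat_lit 317) (nat_lit 248) (nat_lit 155)) (XT.nd (nat_lit 94) (nat_lit 0) (nat_lit 0) (XT.lf (nat_lit 0) (nat_lit 1602572357) (nat_lit 0) (nat_lit 0) (nat_lit 0) (nat_lit 0) (nat_lit 0) (nat_lit 0) (nat_lit 1) (nat_lit 0) (nat_lit 1) (nat_lit 0) (nat_lit 318) (nat_lit 248) (nat_lit 154)) (XT.lf (nat_lit 0) (nat_lit 1601802516) (nat_lit 0) (nat_lit 0) (nat_lit 0) (nat_lit 0) (nat_lit 0) (nat_lit 0) (nat_lit 1) (nat_lit 0) (nat_lit 1) (nat_lit 0) (nat_lit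 319) (nat_lit 248) (nat_lit 153)))) (XT.nd (nat_lit 94) (nat_lit 0) (nat_lit 0) (XT.lf (nat_lit 0) (nat_lit 1601069335) (nat_lit 0) (nat_lit 0) (nat_lit 0) (nat_lit 0) (nat_lit 0) (nat_lit 0) (nat_lit 1) (nat_lit 0) (nat_lit 1) (nat_lit 0) (nat_lit 320) (nat_lit 248) (nat_lit 152)) (XT.nd (nat_lit 94) (nat_lit 0) (nat_lit 0) (XT.lf (nat_lit 0) (nat_lit 1600371066) (nat_lit 0) (nat_lit 0) (nat_lit 0) (nat_lit 0) (nat_lit 0) (nat_lit 0) (nat_lit 1) (nat_lit 0) (nat_lit 1) (nat_lit 0) (nat_lit 321) (nat_lit 248) (nat_lit 151)) (XT.lf (nat_lit 0) (nat_lit 1599706049) (nat_lit 0) (nat_lit 0) (nat_lit 0) (nat_lit 0) (nat_lit 0) (nat_lit 0) (nat_lit 1) (nat_lit 0) (nat_lit 1) (nat_lit 0) (nat_lit 322) (nat_lit 248) (nat_lit 150))))) (XT.nd (nat_lit 282) (nat_lit 0) (nat_lit 0) (XT.nd (nat_lit 94) (nat_lit 0) (nat_lit 0) (XT.lf (nat_lit 0) (nat_lit 1599072699) (nat_lit 0) (nat_lit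 0) (nat_lit 0) (nat_lit 0) (nat_lit 0) (nat_lit 0) (nat_lit 1) (nat_lit 0) (nat_lit 1) (nat_lit 0) (nat_lit 323) (nat_lit 248) (nat_lit 149)) (XT.nd (nat_lit 94) (nat_lit 0) (nat_lit 0) (XT.lf (nat_lit 0) (nat_lit 1598469509) (nat_lit 0) (nat_lit 0) (nat_lit 0) (nat_lit 0) (nat_lit 0) (nat_lit 0) (nat_lit 1) (nat_lit 0) (nat_lit 1) (nat_lit 0) (nat_lit 324) (nat_lit 248) (nat_lit 148)) (XT.lf (nat_lit 0) (nat_lit 1597895042) (nat_lit 0) (nat_lit 0) (nat_lit 0) (nat_lit 0) (nat_lit 0) (nat_lit 0) (nat_lit 1) (nat_lit 0) (nat_lit 1) (nat_lit 0) (nat_lit 325) (nat_lit 248) (nat_lit 147)))) (XT.nd (nat_lit 35532) (nat_lit 0) (nat_lit 10752) (XT.nd (nat_lit 35438) (nat_lit 0) (nat_lit 10752) (XT.lf (nat_lit 0) (nat_lit 1597347931) (nat_lit 0) (nat_lit 0) (nat_lit 0) (nat_lit 0) (nat_lit 0) (nat_lit 0) (nat_lit 1) (nat_lit 0) (nat_lit 1) (nat_lit 0) (nat_lit 326) (nat_lit 248)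 (nat_lit 146)) (XT.lf (nat_lit 924) (nat_lit 833591678) (nat_lit 0) (nat_lit 1480040109) (nat_lit 924) (nat_lit 833591678) (nat_lit 139) (nat_lit 1) (nat_lit 128) (nat_lit 0) (nat_lit 139) (nat_lit 0) (nat_lit 222) (nat_lit 249) (nat_lit 249))) (XT.nd (nat_lit 94) (nat_lit 0) (nat_lit 84) (XT.lf (nat_lit 924) (nat_lit 3231105416) (nat_lit 84) (nat_lit 1456168494) (nat_lit 0) (nat_lit 1456168494) (nat_lit 139) (nat_lit 1) (nat_lit 129) (nat_lit 1) (nat_lit 128) (nat_lit 0) (nat_lit 223) (nat_lit 249) (nat_lit 248)) (XT.lf (nat_lit 924) (nat_lit 1539896190) (nat_lit 0) (nat_lit 2917313857) (nat_lit 840) (nat_lit 1539896190) (nat_lit 140) (nat_lit 1) (nat_lit 129) (nat_lit 1) (nat_lit 139) (nat_lit 1) (nat_lit 224) (nat_lit 249) (nat_lit 247)))))) (XT.nd (nat_lit 658) (nat_lit 1932) (nat_lit 0) (XT.nd (nat_lit 282) (nat_lit 0) (nat_lit 168) (XT.nd (nat_lit 94) (nat_lit 0) (nat_lit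 84) (XT.lf (nat_lit 924) (nat_lit 2888631279) (nat_lit 84) (nat_lit 1483433270) (nat_lit 0) (nat_lit 1483433270) (nat_lit 140) (nat_lit 1) (nat_lit 130) (nat_lit 1) (nat_lit 129) (nat_lit 1) (nat_lit 225) (nat_lit 249) (nat_lit 246)) (XT.nd (nat_lit 94) (nat_lit 0) (nat_lit 0) (XT.lf (nat_lit 924) (nat_lit 1329609238) (nat_lit 0) (nat_lit 3059159203) (nat_lit 840) (nat_lit 1329609238) (nat_lit 141) (nat_lit 1) (nat_lit 130) (nat_lit 1) (nat_lit 140) (nat_lit 1) (nat_lit 226) (nat_lit 249) (nat_lit 245)) (XT.lf (nat_lit 924) (nat_lit 2391388815) (nat_lit 84) (nat_lit 1597024334) (nat_lit 0) (nat_lit 1597024334) (nat_lit 141) (nat_lit 1) (nat_lit 131) (nat_lit 1) (nat_lit 130) (nat_lit 1) (nat_lit 227) (nat_lit 249) (nat_lit 244)))) (XT.nd (nat_lit 188) (nat_lit 0) (nat_lit 84) (XT.nd (nat_lit 94) (nat_lit 0) (nat_lit 0) (XT.lf (nat_lit 924) (nat_lit 1048554925) (nat_lit 0)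 (nat_lit 3359851108) (nat_lit 840) (nat_lit 1048554925) (nat_lit 142) (nat_lit 1) (nat_lit 131) (nat_lit 1) (nat_lit 141) (nat_lit 1) (nat_lit 228) (nat_lit 249) (nat_lit 243)) (XT.lf (nat_lit 924) (nat_lit 1762653025) (nat_lit 84) (nat_lit 1784684404) (nat_lit 0) (nat_lit 1784684404) (nat_lit 142) (nat_lit 1) (nat_lit 132) (nat_lit 1) (nat_lit 131) (nat_lit 1) (nat_lit 229) (nat_lit 249) (nat_lit 242))) (XT.nd (nat_lit 94) (nat_lit 0) (nat_lit 0) (XT.lf (nat_lit 924) (nat_lit 707613381) (nat_lit 0) (nat_lit 3796429430) (nat_lit 840) (nat_lit 707613381) (nat_lit 143) (nat_lit 1) (nat_lit 132) (nat_lit 1) (nat_lit 142) (nat_lit 1) (nat_lit 230) (nat_lit 249) (nat_lit 241)) (XT.lf (nat_lit 924) (nat_lit 1023111876) (nat_lit 84) (nat_lit 2035497264) (nat_lit 0) (nat_lit 2035497264) (nat_lit 143) (nat_lit 1) (nat_lit 133) (nat_lit 1) (nat_lit 132) (nat_lit 1) (nat_lit 231) (nat_lit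 249) (nat_lit 240))))) (XT.nd (nat_lit 282) (nat_lit 840) (nat_lit 0) (XT.nd (nat_lit 94) (nat_lit 1428) (nat_lit 0) (XT.lf (nat_lit 84) (nat_lit 316448400) (nat_lit 0) (nat_lit 4348458743) (nat_lit 840) (nat_lit 316448400) (nat_lit 134) (nat_lit 1) (nat_lit 133) (nat_lit 1) (nat_lit 143) (nat_lit 1) (nat_lit 232) (nat_lit 249) (nat_lit 239)) (XT.nd (nat_lit 94) (nat_lit 588) (nat_lit 0) (XT.lf (nat_lit 924) (nat_lit 191126964) (nat_lit 0) (nat_lit 2339753488) (nat_lit 840) (nat_lit 2339753488) (nat_lit 134) (nat_lit 1) (nat_lit 123) (nat_lit 1) (nat_lit 133) (nat_lit 1) (nat_lit 233) (nat_lit 249) (nat_lit 238)) (XT.lf (nat_lit 588) (nat_lit 4535683566) (nat_lit 0) (nat_lit 114492790) (nat_lit 504) (nat_lit 114492790) (nat_lit 123) (nat_lit 1) (nat_lit 116) (nat_lit 1) (nat_lit 122) (nat_lit 1) (nat_lit 234) (nat_lit 249) (nat_lit 237)))) (XT.nd (nat_lit 188) (nat_lit 420)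 (nat_lit 0) (XT.nd (nat_lit 94) (nat_lit 420) (nat_lit 0) (XT.lf (nat_lit 84) (nat_lit 1982992961) (nat_lit 0) (nat_lit 694081538) (nat_lit 588) (nat_lit 1982992961) (nat_lit 117) (nat_lit 1) (nat_lit 116) (nat_lit 1) (nat_lit 123) (nat_lit 1) (nat_lit 235) (nat_lit 249) (nat_lit 236)) (XT.lf (nat_lit 504) (nat_lit 3412221874) (nat_lit 0) (nat_lit 573845922) (nat_lit 420) (nat_lit 573845922) (nat_lit 117) (nat_lit 1) (nat_lit 111) (nat_lit 1) (nat_lit 116) (nat_lit 1) (nat_lit 236) (nat_lit 249) (nat_lit 235))) (XT.nd (nat_lit 94) (nat_lit 420) (nat_lit 0) (XT.lf (nat_lit 84) (nat_lit 1414444739) (nat_lit 0) (nat_lit 1632976007) (nat_lit 504) (nat_lit 1414444739) (nat_lit 112) (nat_lit 1) (nat_lit 111) (nat_lit 1) (nat_lit 117) (nat_lit 1) (nat_lit 237) (nat_lit 249) (nat_lit 234)) (XT.lf (nat_lit 504) (nat_lit 2246996493) (nat_lit 0) (nat_lit 1060117758) (nat_lit 420) (nat_lit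 1060117758) (nat_lit 112) (nat_lit 1) (nat_lit 106) (nat_lit 1) (nat_lit 111) (nat_lit 1) (nat_lit 238) (nat_lit 249) (nat_lit 233))))))) (XT.nd (nat_lit 1316) (nat_lit 2100) (nat_lit 0) (XT.nd (nat_lit 658) (nat_lit 1176) (nat_lit 0) (XT.nd (nat_lit 282) (nat_lit 1092) (nat_lit 0) (XT.nd (nat_lit 94) (nat_lit 336) (nat_lit 0) (XT.lf (nat_lit 84) (nat_lit 827988345) (nat_lit 0) (nat_lit 2619374104) (nat_lit 504) (nat_lit 827988345) (nat_lit 107) (nat_lit 1) (nat_lit 106) (nat_lit 1) (nat_lit 112) (nat_lit 1) (nat_lit 239) (nat_lit 249) (nat_lit 232)) (XT.nd (nat_lit 94) (nat_lit 0) (nat_lit 0) (XT.lf (nat_lit 420) (nat_lit 1050852718) (nat_lit 0) (nat_lit 1567490174) (nat_lit 336) (nat_lit 1567490174) (nat_lit 107) (nat_lit 1) (nat_lit 102) (nat_lit 1) (nat_lit 106) (nat_lit 1) (nat_lit 240) (nat_lit 249) (nat_lit 231)) (XT.lf (nat_lit 84) (nat_lit 228658539) (nat_lit 0)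 (nat_lit 3642440672) (nat_lit 420) (nat_lit 228658539) (nat_lit 103) (nat_lit 1) (nat_lit 102) (nat_lit 1) (nat_lit 107) (nat_lit 1) (nat_lit 241) (nat_lit 249) (nat_lit 230)))) (XT.nd (nat_lit 188) (nat_lit 336) (nat_lit 0) (XT.nd (nat_lit 94) (nat_lit 336) (nat_lit 0) (XT.lf (nat_lit 84) (nat_lit 1926742559) (nat_lit 0) (nat_lit 161368432) (nat_lit 420) (nat_lit 1926742559) (nat_lit 98) (nat_lit 1) (nat_lit 97) (nat_lit 1) (nat_lit 102) (nat_lit 1) (nat_lit 242) (nat_lit 249) (nat_lit 229)) (XT.lf (nat_lit 420) (nat_lit 3187136043) (nat_lit 0) (nat_lit 373023333) (nat_lit 336) (nat_lit 373023333) (nat_lit 98) (nat_lit 1) (nat_lit 93) (nat_lit 1) (nat_lit 97) (nat_lit 1) (nat_lit 243) (nat_lit 249) (nat_lit 228))) (XT.nd (nat_lit 94) (nat_lit 336) (nat_lit 0) (XT.lf (nat_lit 84) (nat_lit 1250134872) (nat_lit 0) (nat_lit 1352643205) (nat_lit 420) (nat_lit 1250134872) (nat_lit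 94) (nat_lit 1) (nat_lit 93) (nat_lit 1) (nat_lit 98) (nat_lit 1) (nat_lit 244) (nat_lit 249) (nat_lit 227)) (XT.lf (nat_lit 420) (nat_lit 1824294539) (nat_lit 0) (nat_lit 975566062) (nat_lit 336) (nat_lit 975566062) (nat_lit 94) (nat_lit 1) (nat_lit 89) (nat_lit 1) (nat_lit 93) (nat_lit 1) (nat_lit 245) (nat_lit 249) (nat_lit 226))))) (XT.nd (nat_lit 282) (nat_lit 504) (nat_lit 0) (XT.nd (nat_lit 94) (nat_lit 672) (nat_lit 0) (XT.lf (nat_lit 84) (nat_lit 575301080) (nat_lit 0) (nat_lit 2549603921) (nat_lit 420) (nat_lit 575301080) (nat_lit 90) (nat_lit 1) (nat_lit 89) (nat_lit 1) (nat_lit 94) (nat_lit 1) (nat_lit 246) (nat_lit 249) (nat_lit 225)) (XT.nd (nat_lit 94) (nat_lit 420) (nat_lit 0) (XT.lf (nat_lit 336) (nat_lit 467867729) (nat_lit 0) (nat_lit 1579370742) (nat_lit 252) (nat_lit 1579370742) (nat_lit 90) (nat_lit 1) (nat_lit 86) (nat_lit 1) (nat_lit 89) (nat_lit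 1) (nat_lit 247) (nat_lit 249) (nat_lit 224)) (XT.lf (nat_lit 420) (nat_lit 3368891950) (nat_lit 0) (nat_lit 93480287) (nat_lit 336) (nat_lit 93480287) (nat_lit 86) (nat_lit 1) (nat_lit 81) (nat_lit 1) (nat_lit 85) (nat_lit 1) (nat_lit 248) (nat_lit 249) (nat_lit 223)))) (XT.nd (nat_lit 188) (nat_lit 252) (nat_lit 0) (XT.nd (nat_lit 94) (nat_lit 252) (nat_lit 0) (XT.lf (nat_lit 84) (nat_lit 1318272325) (nat_lit 0) (nat_lit 848942814) (nat_lit 420) (nat_lit 1318272325) (nat_lit 82) (nat_lit 1) (nat_lit 81) (nat_lit 1) (nat_lit 86) (nat_lit 1) (nat_lit 249) (nat_lit 249) (nat_lit 222)) (XT.lf (nat_lit 336) (nat_lit 1925378408) (nat_lit 0) (nat_lit 746221343) (nat_lit 252) (nat_lit 746221343) (nat_lit 82) (nat_lit 1) (nat_lit 78) (nat_lit 1) (nat_lit 81) (nat_lit 1) (nat_lit 250) (nat_lit 249) (nat_lit 221))) (XT.nd (nat_lit 94) (nat_lit 252) (nat_lit 0) (XT.lf (nat_lit 84)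 (nat_lit 608256821) (nat_lit 0) (nat_lit 2135360260) (nat_lit 336) (nat_lit 608256821) (nat_lit 79) (nat_lit 1) (nat_lit 78) (nat_lit 1) (nat_lit 82) (nat_lit 1) (nat_lit 251) (nat_lit 249) (nat_lit 220)) (XT.lf (nat_lit 336) (nat_lit 506963049) (nat_lit 0) (nat_lit 1390231972) (nat_lit 252) (nat_lit 1390231972) (nat_lit 79) (nat_lit 1) (nat_lit 75) (nat_lit 1) (nat_lit 78) (nat_lit 1) (nat_lit 252) (nat_lit 249) (nat_lit 219)))))) (XT.nd (nat_lit 658) (nat_lit 1008) (nat_lit 0) (XT.nd (nat_lit 282) (nat_lit 504) (nat_lit 0) (XT.nd (nat_lit 94) (nat_lit 252) (nat_lit 0) (XT.lf (nat_lit 336) (nat_lit 3051120695) (nat_lit 0) (nat_lit 87126836) (nat_lit 252) (nat_lit 87126836) (nat_lit 75) (nat_lit 1) (nat_lit 71) (nat_lit 1) (nat_lit 74) (nat_lit 1) (nat_lit 253) (nat_lit 249) (nat_lit 218)) (XT.nd (nat_lit 94) (nat_lit 252) (nat_lit 0) (XT.lf (nat_lit 84) (nat_lit 1154151580)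 (nat_lit 0) (nat_lit 855214732) (nat_lit 336) (nat_lit 1154151580) (nat_lit 72) (nat_lit 1) (nat_lit 71) (nat_lit 1) (nat_lit 75) (nat_lit 1) (nat_lit 254) (nat_lit 249) (nat_lit 217)) (XT.lf (nat_lit 336) (nat_lit 1587064103) (nat_lit 0) (nat_lit 758443006) (nat_lit 252) (nat_lit 758443006) (nat_lit 72) (nat_lit 1) (nat_lit 68) (nat_lit 1) (nat_lit 71) (nat_lit 1) (nat_lit 255) (nat_lit 249) (nat_lit 216)))) (XT.nd (nat_lit 188) (nat_lit 336) (nat_lit 0) (XT.nd (nat_lit 94) (nat_lit 168) (nat_lit 0) (XT.lf (nat_lit 84) (nat_lit 437076159) (nat_lit 0) (nat_lit 2171827655) (nat_lit 336) (nat_lit 437076159) (nat_lit 69) (nat_lit 1) (nat_lit 68) (nat_lit 1) (nat_lit 72) (nat_lit 1) (nat_lit 256) (nat_lit 249) (nat_lit 215)) (XT.lf (nat_lit 252) (nat_lit 160159237) (nat_lit 0) (nat_lit 1414471504) (nat_lit 168) (nat_lit 1414471504) (nat_lit 69) (nat_lit 1) (nat_lit 66) (nat_lit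 1) (nat_lit 68) (nat_lit 1) (nat_lit 257) (nat_lit 249) (nat_lit 214))) (XT.nd (nat_lit 94) (nat_lit 0) (nat_lit 0) (XT.lf (nat_lit 336) (nat_lit 2419952374) (nat_lit 0) (nat_lit 257016482) (nat_lit 252) (nat_lit 257016482) (nat_lit 66) (nat_lit 1) (nat_lit 62) (nat_lit 1) (nat_lit 65) (nat_lit 1) (nat_lit 258) (nat_lit 249) (nat_lit 213)) (XT.lf (nat_lit 84) (nat_lit 845231921) (nat_lit 0) (nat_lit 1189021020) (nat_lit 336) (nat_lit 845231921) (nat_lit 63) (nat_lit 1) (nat_lit 62) (nat_lit 1) (nat_lit 66) (nat_lit 1) (nat_lit 259) (nat_lit 249) (nat_lit 212))))) (XT.nd (nat_lit 282) (nat_lit 588) (nat_lit 0) (XT.nd (nat_lit 94) (nat_lit 252) (nat_lit 0) (XT.lf (nat_lit 252) (nat_lit 976535102) (nat_lit 0) (nat_lit 925065659) (nat_lit 168) (nat_lit 925065659) (nat_lit 63) (nat_lit 1) (nat_lit 60) (nat_lit 1) (nat_lit 62) (nat_lit 1) (nat_lit 260) (nat_lit 249) (nat_lit 211))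 (XT.nd (nat_lit 94) (nat_lit 252) (nat_lit 0) (XT.lf (nat_lit 84) (nat_lit 140297098) (nat_lit 0) (nat_lit 2495006624) (nat_lit 252) (nat_lit 140297098) (nat_lit 61) (nat_lit 1) (nat_lit 60) (nat_lit 1) (nat_lit 63) (nat_lit 1) (nat_lit 261) (nat_lit 249) (nat_lit 210)) (XT.lf (nat_lit 84) (nat_lit 1157896568) (nat_lit 0) (nat_lit 408927711) (nat_lit 252) (nat_lit 1157896568) (nat_lit 58) (nat_lit 1) (nat_lit 57) (nat_lit 1) (nat_lit 60) (nat_lit 1) (nat_lit 262) (nat_lit 249) (nat_lit 209)))) (XT.nd (nat_lit 188) (nat_lit 420) (nat_lit 0) (XT.nd (nat_lit 94) (nat_lit 0) (nat_lit 0) (XT.lf (nat_lit 252) (nat_lit 1607942323) (nat_lit 0) (nat_lit 533793285) (nat_lit 168) (nat_lit 533793285) (nat_lit 58) (nat_lit 1) (nat_lit 55) (nat_lit 1) (nat_lit 57) (nat_lit 1) (nat_lit 263) (nat_lit 249) (nat_lit 208)) (XT.lf (nat_lit 84) (nat_lit 453719491) (nat_lit 0) (nat_lit 1719985210)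 (nat_lit 252) (nat_lit 453719491) (nat_lit 56) (nat_lit 1) (nat_lit 55) (nat_lit 1) (nat_lit 58) (nat_lit 1) (nat_lit 264) (nat_lit 249) (nat_lit 207))) (XT.nd (nat_lit 94) (nat_lit 252) (nat_lit 0) (XT.lf (nat_lit 252) (nat_lit 212551246) (nat_lit 0) (nat_lit 1183868955) (nat_lit 168) (nat_lit 1183868955) (nat_lit 56) (nat_lit 1) (nat_lit 53) (nat_lit 1) (nat_lit 55) (nat_lit 1) (nat_lit 265) (nat_lit 249) (nat_lit 206)) (XT.lf (nat_lit 252) (nat_lit 2089090965) (nat_lit 0) (nat_lit 222714465) (nat_lit 168) (nat_lit 222714465) (nat_lit 53) (nat_lit 1) (nat_lit 50) (nat_lit 1) (nat_lit 52) (nat_lit 1) (nat_lit 266) (nat_lit 249) (nat_lit 205))))))))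
noncomputable def ec44 : XT := (XT.nd (nat_lit 2538) (nat_lit 1596) (nat_lit 0) (XT.nd (nat_lit 1222) (nat_lit 1344) (nat_lit 0) (XT.nd (nat_lit 564) (nat_lit 756) (nat_lit 0) (XT.nd (nat_lit 282) (nat_lit 336) (nat_lit 0) (XT.nd (nat_lit 94) (nat_lit 168) (nat_lit 0) (XT.lf (nat_lit 84) (nat_lit 695463501) (nat_lit 0) (nat_lit 1098214266) (nat_lit 252) (nat_lit 695463501) (nat_lit 51) (nat_lit 1) (nat_lit 50) (nat_lit 1) (nat_lit 53) (nat_lit 1) (nat_lit 267) (nat_lit 249) (nat_lit 204)) (XT.nd (nat_lit 94) (nat_lit 0) (nat_lit 0) (XT.lf (nat_lit 252) (nat_lit 708295811) (nat_lit 0) (nat_lit 868392118) (nat_lit 168) (nat_lit 868392118) (nat_lit 51) (nat_lit 1) (nat_lit 48) (nat_lit 1) (nat_lit 50) (nat_lit 1) (nat_lit 268) (nat_lit 249) (nat_lit 203)) (XT.lf (nat_lit 84) (nat_lit 23279729) (nat_lit 0) (nat_lit 2356004596) (nat_lit 252) (nat_lit 23279729) (nat_lit 49) (nat_lit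 1) (nat_lit 48) (nat_lit 1) (nat_lit 51) (nat_lit 1) (nat_lit 269) (nat_lit 249) (nat_lit 202)))) (XT.nd (nat_lit 94) (nat_lit 168) (nat_lit 0) (XT.lf (nat_lit 84) (nat_lit 879004642) (nat_lit 0) (nat_lit 601768526) (nat_lit 168) (nat_lit 879004642) (nat_lit 47) (nat_lit 1) (nat_lit 46) (nat_lit 1) (nat_lit 48) (nat_lit 1) (nat_lit 270) (nat_lit 249) (nat_lit 201)) (XT.nd (nat_lit 94) (nat_lit 0) (nat_lit 0) (XT.lf (nat_lit 252) (nat_lit 1090744693) (nat_lit 0) (nat_lit 613876153) (nat_lit 168) (nat_lit 613876153) (nat_lit 47) (nat_lit 1) (nat_lit 44) (nat_lit 1) (nat_lit 46) (nat_lit 1) (nat_lit 271) (nat_lit 249) (nat_lit 200)) (XT.lf (nat_lit 84) (nat_lit 218686772) (nat_lit 0) (nat_lit 1840956919) (nat_lit 252) (nat_lit 218686772) (nat_lit 45) (nat_lit 1) (nat_lit 44) (nat_lit 1) (nat_lit 47) (nat_lit 1) (nat_lit 272) (nat_lit 249) (nat_lit 199))))) (XT.nd (nat_lit 282)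 (nat_lit 420) (nat_lit 0) (XT.nd (nat_lit 94) (nat_lit 168) (nat_lit 0) (XT.lf (nat_lit 84) (nat_lit 1015392721) (nat_lit 0) (nat_lit 207709723) (nat_lit 168) (nat_lit 1015392721) (nat_lit 43) (nat_lit 1) (nat_lit 42) (nat_lit 1) (nat_lit 44) (nat_lit 1) (nat_lit 273) (nat_lit 249) (nat_lit 198)) (XT.nd (nat_lit 94) (nat_lit 0) (nat_lit 0) (XT.lf (nat_lit 252) (nat_lit 1381194526) (nat_lit 0) (nat_lit 409273439) (nat_lit 168) (nat_lit 409273439) (nat_lit 43) (nat_lit 1) (nat_lit 40) (nat_lit 1) (nat_lit 42) (nat_lit 1) (nat_lit 274) (nat_lit 249) (nat_lit 197)) (XT.lf (nat_lit 84) (nat_lit 369946988) (nat_lit 0) (nat_lit 1421860867) (nat_lit 252) (nat_lit 369946988) (nat_lit 41) (nat_lit 1) (nat_lit 40) (nat_lit 1) (nat_lit 43) (nat_lit 1) (nat_lit 275) (nat_lit 249) (nat_lit 196)))) (XT.nd (nat_lit 188) (nat_lit 84) (nat_lit 0) (XT.nd (nat_lit 94) (nat_lit 252) (nat_lit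 0) (XT.lf (nat_lit 168) (nat_lit 106198308) (nat_lit 0) (nat_lit 1009143399) (nat_lit 84) (nat_lit 1009143399) (nat_lit 41) (nat_lit 1) (nat_lit 39) (nat_lit 1) (nat_lit 40) (nat_lit 1) (nat_lit 276) (nat_lit 249) (nat_lit 195)) (XT.lf (nat_lit 252) (nat_lit 1597108505) (nat_lit 0) (nat_lit 245506469) (nat_lit 168) (nat_lit 245506469) (nat_lit 39) (nat_lit 1) (nat_lit 36) (nat_lit 1) (nat_lit 38) (nat_lit 1) (nat_lit 277) (nat_lit 249) (nat_lit 194))) (XT.nd (nat_lit 94) (nat_lit 84) (nat_lit 0) (XT.lf (nat_lit 84) (nat_lit 485339959) (nat_lit 0) (nat_lit 1081483744) (nat_lit 252) (nat_lit 485339959) (nat_lit 37) (nat_lit 1) (nat_lit 36) (nat_lit 1) (nat_lit 39) (nat_lit 1) (nat_lit 278) (nat_lit 249) (nat_lit 193)) (XT.lf (nat_lit 168) (nat_lit 356637977) (nat_lit 0) (nat_lit 830224772) (nat_lit 84) (nat_lit 830224772) (nat_lit 37) (nat_lit 1) (nat_lit 35) (nat_lit 1) (nat_lit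 36) (nat_lit 1) (nat_lit 279) (nat_lit 249) (nat_lit 192)))))) (XT.nd (nat_lit 658) (nat_lit 672) (nat_lit 0) (XT.nd (nat_lit 282) (nat_lit 336) (nat_lit 0) (XT.nd (nat_lit 94) (nat_lit 84) (nat_lit 0) (XT.lf (nat_lit 252) (nat_lit 1752798786) (nat_lit 0) (nat_lit 115118016) (nat_lit 168) (nat_lit 115118016) (nat_lit 35) (nat_lit 1) (nat_lit 32) (nat_lit 1) (nat_lit 34) (nat_lit 1) (nat_lit 280) (nat_lit 249) (nat_lit 191)) (XT.nd (nat_lit 94) (nat_lit 84) (nat_lit 0) (XT.lf (nat_lit 84) (nat_lit 571655772) (nat_lit 0) (nat_lit 805658676) (nat_lit 252) (nat_lit 571655772) (nat_lit 33) (nat_lit 1) (nat_lit 32) (nat_lit 1) (nat_lit 35) (nat_lit 1) (nat_lit 281) (nat_lit 249) (nat_lit 190)) (XT.lf (nat_lit 168) (nat_lit 549853010) (nat_lit 0) (nat_lit 683027974) (nat_lit 84) (nat_lit 683027974) (nat_lit 33) (nat_lit 1) (nat_lit 31) (nat_lit 1) (nat_lit 32) (nat_lit 1) (nat_lit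 282) (nat_lit 249) (nat_lit 189)))) (XT.nd (nat_lit 188) (nat_lit 84) (nat_lit 0) (XT.nd (nat_lit 94) (nat_lit 0) (nat_lit 0) (XT.lf (nat_lit 252) (nat_lit 1859987773) (nat_lit 0) (nat_lit 11983340) (nat_lit 168) (nat_lit 11983340) (nat_lit 31) (nat_lit 1) (nat_lit 28) (nat_lit 1) (nat_lit 30) (nat_lit 1) (nat_lit 283) (nat_lit 249) (nat_lit 188)) (XT.lf (nat_lit 84) (nat_lit 634460130) (nat_lit 0) (nat_lit 582740551) (nat_lit 252) (nat_lit 634460130) (nat_lit 29) (nat_lit 1) (nat_lit 28) (nat_lit 1) (nat_lit 31) (nat_lit 1) (nat_lit 284) (nat_lit 249) (nat_lit 187))) (XT.nd (nat_lit 94) (nat_lit 0) (nat_lit 0) (XT.lf (nat_lit 168) (nat_lit 696599778) (nat_lit 0) (nat_lit 561928805) (nat_lit 84) (nat_lit 561928805) (nat_lit 29) (nat_lit 1) (nat_lit 27) (nat_lit 1) (nat_lit 28) (nat_lit 1) (nat_lit 285) (nat_lit 249) (nat_lit 186)) (XT.lf (nat_lit 0) (nat_lit 70056492) (nat_lit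 0) (nat_lit 1650083065) (nat_lit 168) (nat_lit 70056492) (nat_lit 27) (nat_lit 3) (nat_lit 27) (nat_lit 1) (nat_lit 29) (nat_lit 1) (nat_lit 286) (nat_lit 249) (nat_lit 185))))) (XT.nd (nat_lit 282) (nat_lit 420) (nat_lit 0) (XT.nd (nat_lit 94) (nat_lit 84) (nat_lit 0) (XT.lf (nat_lit 84) (nat_lit 678312406) (nat_lit 0) (nat_lit 403158441) (nat_lit 168) (nat_lit 678312406) (nat_lit 26) (nat_lit 1) (nat_lit 25) (nat_lit 1) (nat_lit 27) (nat_lit 1) (nat_lit 287) (nat_lit 249) (nat_lit 184)) (XT.nd (nat_lit 94) (nat_lit 0) (nat_lit 0) (XT.lf (nat_lit 168) (nat_lit 805698501) (nat_lit 0) (nat_lit 462300218) (nat_lit 84) (nat_lit 462300218) (nat_lit 26) (nat_lit 1) (nat_lit 24) (nat_lit 1) (nat_lit 25) (nat_lit 1) (nat_lit 288) (nat_lit 249) (nat_lit 183)) (XT.lf (nat_lit 0) (nat_lit 133899302) (nat_lit 0) (nat_lit 1433791073) (nat_lit 168) (nat_lit 133899302) (nat_lit 24) (nat_lit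 3) (nat_lit 24) (nat_lit 1) (nat_lit 26) (nat_lit 1) (nat_lit 289) (nat_lit 249) (nat_lit 182)))) (XT.nd (nat_lit 188) (nat_lit 168) (nat_lit 0) (XT.nd (nat_lit 94) (nat_lit 84) (nat_lit 0) (XT.lf (nat_lit 84) (nat_lit 706944997) (nat_lit 0) (nat_lit 259047398) (nat_lit 168) (nat_lit 706944997) (nat_lit 23) (nat_lit 1) (nat_lit 22) (nat_lit 1) (nat_lit 24) (nat_lit 1) (nat_lit 290) (nat_lit 249) (nat_lit 181)) (XT.lf (nat_lit 168) (nat_lit 884377902) (nat_lit 0) (nat_lit 380335534) (nat_lit 84) (nat_lit 380335534) (nat_lit 23) (nat_lit 1) (nat_lit 21) (nat_lit 1) (nat_lit 22) (nat_lit 1) (nat_lit 291) (nat_lit 249) (nat_lit 180))) (XT.nd (nat_lit 94) (nat_lit 168) (nat_lit 0) (XT.lf (nat_lit 0) (nat_lit 182791336) (nat_lit 0) (nat_lit 1252215514) (nat_lit 168) (nat_lit 182791336) (nat_lit 21) (nat_lit 3) (nat_lit 21) (nat_lit 1) (nat_lit 23) (nat_lit 1) (nat_lit 292) (nat_lit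 249) (nat_lit 179)) (XT.lf (nat_lit 84) (nat_lit 723410829) (nat_lit 0) (nat_lit 143945554) (nat_lit 168) (nat_lit 723410829) (nat_lit 20) (nat_lit 1) (nat_lit 19) (nat_lit 1) (nat_lit 21) (nat_lit 1) (nat_lit 293) (nat_lit 249) (nat_lit 178))))))) (XT.nd (nat_lit 1222) (nat_lit 504) (nat_lit 0) (XT.nd (nat_lit 564) (nat_lit 672) (nat_lit 0) (XT.nd (nat_lit 282) (nat_lit 168) (nat_lit 0) (XT.nd (nat_lit 94) (nat_lit 168) (nat_lit 0) (XT.lf (nat_lit 168) (nat_lit 938558700) (nat_lit 0) (nat_lit 312902985) (nat_lit 84) (nat_lit 312902985) (nat_lit 20) (nat_lit 1) (nat_lit 18) (nat_lit 1) (nat_lit 19) (nat_lit 1) (nat_lit 294) (nat_lit 249) (nat_lit 177)) (XT.nd (nat_lit 94) (nat_lit 168) (nat_lit 0) (XT.lf (nat_lit 0) (nat_lit 219556266) (nat_lit 0) (nat_lit 1099374183) (nat_lit 168) (nat_lit 219556266) (nat_lit 18) (nat_lit 3) (nat_lit 18) (nat_lit 1) (nat_lit 20) (nat_lit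 1) (nat_lit 295) (nat_lit 249) (nat_lit 176)) (XT.lf (nat_lit 84) (nat_lit 730204670) (nat_lit 0) (nat_lit 52544953) (nat_lit 168) (nat_lit 730204670) (nat_lit 17) (nat_lit 1) (nat_lit 16) (nat_lit 1) (nat_lit 18) (nat_lit 1) (nat_lit 296) (nat_lit 249) (nat_lit 175)))) (XT.nd (nat_lit 94) (nat_lit 84) (nat_lit 0) (XT.lf (nat_lit 168) (nat_lit 973086766) (nat_lit 0) (nat_lit 257426060) (nat_lit 84) (nat_lit 257426060) (nat_lit 17) (nat_lit 1) (nat_lit 15) (nat_lit 1) (nat_lit 16) (nat_lit 1) (nat_lit 297) (nat_lit 249) (nat_lit 174)) (XT.nd (nat_lit 94) (nat_lit 84) (nat_lit 0) (XT.lf (nat_lit 0) (nat_lit 246508893) (nat_lit 0) (nat_lit 970337271) (nat_lit 168) (nat_lit 246508893) (nat_lit 15) (nat_lit 3) (nat_lit 15) (nat_lit 1) (nat_lit 17) (nat_lit 1) (nat_lit 298) (nat_lit 249) (nat_lit 173)) (XT.lf (nat_lit 84) (nat_lit 20158634) (nat_lit 0) (nat_lit 709518994) (nat_lit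 84) (nat_lit 709518994) (nat_lit 15) (nat_lit 3) (nat_lit 14) (nat_lit 1) (nat_lit 15) (nat_lit 1) (nat_lit 299) (nat_lit 249) (nat_lit 172))))) (XT.nd (nat_lit 282) (nat_lit 420) (nat_lit 0) (XT.nd (nat_lit 94) (nat_lit 84) (nat_lit 0) (XT.lf (nat_lit 168) (nat_lit 991924892) (nat_lit 0) (nat_lit 211785056) (nat_lit 84) (nat_lit 211785056) (nat_lit 14) (nat_lit 1) (nat_lit 12) (nat_lit 1) (nat_lit 13) (nat_lit 1) (nat_lit 300) (nat_lit 249) (nat_lit 171)) (XT.nd (nat_lit 94) (nat_lit 84) (nat_lit 0) (XT.lf (nat_lit 0) (nat_lit 265545772) (nat_lit 0) (nat_lit 861041170) (nat_lit 168) (nat_lit 265545772) (nat_lit 12) (nat_lit 3) (nat_lit 12) (nat_lit 1) (nat_lit 14) (nat_lit 1) (nat_lit 301) (nat_lit 249) (nat_lit 170)) (XT.lf (nat_lit 84) (nat_lit 78314881) (nat_lit 0) (nat_lit 645453355) (nat_lit 84) (nat_lit 645453355) (nat_lit 12) (nat_lit 3) (nat_lit 11) (nat_lit 1)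 (nat_lit 12) (nat_lit 1) (nat_lit 302) (nat_lit 249) (nat_lit 169)))) (XT.nd (nat_lit 188) (nat_lit 252) (nat_lit 0) (XT.nd (nat_lit 94) (nat_lit 0) (nat_lit 0) (XT.lf (nat_lit 168) (nat_lit 998310493) (nat_lit 0) (nat_lit 174236090) (nat_lit 84) (nat_lit 174236090) (nat_lit 11) (nat_lit 1) (nat_lit 9) (nat_lit 1) (nat_lit 10) (nat_lit 1) (nat_lit 303) (nat_lit 249) (nat_lit 168)) (XT.lf (nat_lit 0) (nat_lit 278219731) (nat_lit 0) (nat_lit 768135268) (nat_lit 168) (nat_lit 278219731) (nat_lit 9) (nat_lit 3) (nat_lit 9) (nat_lit 1) (nat_lit 11) (nat_lit 1) (nat_lit 304) (nat_lit 249) (nat_lit 167))) (XT.nd (nat_lit 94) (nat_lit 168) (nat_lit 0) (XT.lf (nat_lit 84) (nat_lit 123220630) (nat_lit 0) (nat_lit 589806856) (nat_lit 84) (nat_lit 589806856) (nat_lit 9) (nat_lit 3) (nat_lit 8) (nat_lit 1) (nat_lit 9) (nat_lit 1) (nat_lit 305) (nat_lit 249) (nat_lit 166)) (XT.lf (nat_lit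 168) (nat_lit 994885303) (nat_lit 0) (nat_lit 143344462) (nat_lit 84) (nat_lit 143344462) (nat_lit 8) (nat_lit 1) (nat_lit 6) (nat_lit 1) (nat_lit 7) (nat_lit 1) (nat_lit 306) (nat_lit 249) (nat_lit 165)))))) (XT.nd (nat_lit 658) (nat_lit 0) (nat_lit 0) (XT.nd (nat_lit 282) (nat_lit 252) (nat_lit 0) (XT.nd (nat_lit 94) (nat_lit 252) (nat_lit 0) (XT.lf (nat_lit 0) (nat_lit 285801172) (nat_lit 0) (nat_lit 688855898) (nat_lit 168) (nat_lit 285801172) (nat_lit 6) (nat_lit 3) (nat_lit 6) (nat_lit 1) (nat_lit 8) (nat_lit 1) (nat_lit 307) (nat_lit 249) (nat_lit 164)) (XT.nd (nat_lit 94) (nat_lit 168) (nat_lit 0) (XT.lf (nat_lit 84) (nat_lit 157365140) (nat_lit 0) (nat_lit 541226783) (nat_lit 84) (nat_lit 541226783) (nat_lit 6) (nat_lit 3) (nat_lit 5) (nat_lit 1) (nat_lit 6) (nat_lit 1) (nat_lit 308) (nat_lit 249) (nat_lit 163)) (XT.lf (nat_lit 168) (nat_lit 983802020) (nat_lit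 0) (nat_lit 117929844) (nat_lit 84) (nat_lit 117929844) (nat_lit 5) (nat_lit 1) (nat_lit 3) (nat_lit 1) (nat_lit 4) (nat_lit 1) (nat_lit 309) (nat_lit 249) (nat_lit 162)))) (XT.nd (nat_lit 188) (nat_lit 168) (nat_lit 0) (XT.nd (nat_lit 94) (nat_lit 84) (nat_lit 0) (XT.lf (nat_lit 0) (nat_lit 289328486) (nat_lit 0) (nat_lit 620922605) (nat_lit 168) (nat_lit 289328486) (nat_lit 3) (nat_lit 3) (nat_lit 3) (nat_lit 1) (nat_lit 5) (nat_lit 1) (nat_lit 310) (nat_lit 249) (nat_lit 161)) (XT.lf (nat_lit 84) (nat_lit 182789664) (nat_lit 0) (nat_lit 498593587) (nat_lit 84) (nat_lit 498593587) (nat_lit 3) (nat_lit 3) (nat_lit 2) (nat_lit 1) (nat_lit 3) (nat_lit 1) (nat_lit 311) (nat_lit 249) (nat_lit 160))) (XT.nd (nat_lit 94) (nat_lit 0) (nat_lit 0) (XT.lf (nat_lit 0) (nat_lit 1686359190) (nat_lit 0) (nat_lit 0) (nat_lit 0) (nat_lit 0) (nat_lit 0) (nat_lit 0) (nat_lit 1) (nat_lit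 0) (nat_lit 1) (nat_lit 0) (nat_lit 312) (nat_lit 249) (nat_lit 159)) (XT.lf (nat_lit 0) (nat_lit 1685376657) (nat_lit 0) (nat_lit 0) (nat_lit 0) (nat_lit 0) (nat_lit 0) (nat_lit 0) (nat_lit 1) (nat_lit 0) (nat_lit 1) (nat_lit 0) (nat_lit 313) (nat_lit 249) (nat_lit 158))))) (XT.nd (nat_lit 282) (nat_lit 0) (nat_lit 0) (XT.nd (nat_lit 94) (nat_lit 0) (nat_lit 0) (XT.lf (nat_lit 0) (nat_lit 1684440911) (nat_lit 0) (nat_lit 0) (nat_lit 0) (nat_lit 0) (nat_lit 0) (nat_lit 0) (nat_lit 1) (nat_lit 0) (nat_lit 1) (nat_lit 0) (nat_lit 314) (nat_lit 249) (nat_lit 157)) (XT.nd (nat_lit 94) (nat_lit 0) (nat_lit 0) (XT.lf (nat_lit 0) (nat_lit 1683549724) (nat_lit 0) (nat_lit 0) (nat_lit 0) (nat_lit 0) (nat_lit 0) (nat_lit 0) (nat_lit 1) (nat_lit 0) (nat_lit 1) (nat_lit 0) (nat_lit 315) (nat_lit 249) (nat_lit 156)) (XT.lf (nat_lit 0) (nat_lit 1682700975) (nat_lit 0) (nat_lit 0) (nat_lit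 0) (nat_lit 0) (nat_lit 0) (nat_lit 0) (nat_lit 1) (nat_lit 0) (nat_lit 1) (nat_lit 0) (nat_lit 316) (nat_lit 249) (nat_lit 155)))) (XT.nd (nat_lit 188) (nat_lit 0) (nat_lit 0) (XT.nd (nat_lit 94) (nat_lit 0) (nat_lit 0) (XT.lf (nat_lit 0) (nat_lit 1681892642) (nat_lit 0) (nat_lit 0) (nat_lit 0) (nat_lit 0) (nat_lit 0) (nat_lit 0) (nat_lit 1) (nat_lit 0) (nat_lit 1) (nat_lit 0) (nat_lit 317) (nat_lit 249) (nat_lit 154)) (XT.lf (nat_lit 0) (nat_lit 1681122801) (nat_lit 0) (nat_lit 0) (nat_lit 0) (nat_lit 0) (nat_lit 0) (nat_lit 0) (nat_lit 1) (nat_lit 0) (nat_lit 1) (nat_lit 0) (nat_lit 318) (nat_lit 249) (nat_lit 153))) (XT.nd (nat_lit 94) (nat_lit 0) (nat_lit 0) (XT.lf (nat_lit 0) (nat_lit 1680389620) (nat_lit 0) (nat_lit 0) (nat_lit 0) (nat_lit 0) (nat_lit 0) (nat_lit 0) (nat_lit 1) (nat_lit 0) (nat_lit 1) (nat_lit 0) (nat_lit 319) (nat_lit 249) (nat_lit 152)) (XT.lf (nat_lit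 0) (nat_lit 1679691352) (nat_lit 0) (nat_lit 0) (nat_lit 0) (nat_lit 0) (nat_lit 0) (nat_lit 0) (nat_lit 1) (nat_lit 0) (nat_lit 1) (nat_lit 0) (nat_lit 320) (nat_lit 249) (nat_lit 151))))))))
noncomputable def ec45 : XT := (XT.nd (nat_lit 37788) (nat_lit 0) (nat_lit 3696) (XT.nd (nat_lit 36472) (nat_lit 0) (nat_lit 7812) (XT.nd (nat_lit 35814) (nat_lit 0) (nat_lit 10752) (XT.nd (nat_lit 282) (nat_lit 0) (nat_lit 0) (XT.nd (nat_lit 94) (nat_lit 0) (nat_lit 0) (XT.lf (nat_lit 0) (nat_lit 1679026334) (nat_lit 0) (nat_lit 0) (nat_lit 0) (nat_lit 0) (nat_lit 0) (nat_lit 0) (nat_lit 1) (nat_lit 0) (nat_lit 1) (nat_lit 0) (nat_lit 321) (nat_lit 249) (nat_lit 150)) (XT.nd (nat_lit 94) (nat_lit 0) (nat_lit 0) (XT.lf (nat_lit 0) (nat_lit 1678392984) (nat_lit 0) (nat_lit 0) (nat_lit 0) (nat_lit 0) (nat_lit 0) (nat_lit 0) (nat_lit 1) (nat_lit 0) (nat_lit 1) (nat_lit 0) (nat_lit 322)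 (nat_lit 249) (nat_lit 149)) (XT.lf (nat_lit 0) (nat_lit 1677789794) (nat_lit 0) (nat_lit 0) (nat_lit 0) (nat_lit 0) (nat_lit 0) (nat_lit 0) (nat_lit 1) (nat_lit 0) (nat_lit 1) (nat_lit 0) (nat_lit 323) (nat_lit 249) (nat_lit 148)))) (XT.nd (nat_lit 94) (nat_lit 0) (nat_lit 0) (XT.lf (nat_lit 0) (nat_lit 1677215327) (nat_lit 0) (nat_lit 0) (nat_lit 0) (nat_lit 0) (nat_lit 0) (nat_lit 0) (nat_lit 1) (nat_lit 0) (nat_lit 1) (nat_lit 0) (nat_lit 324) (nat_lit 249) (nat_lit 147)) (XT.nd (nat_lit 35344) (nat_lit 0) (nat_lit 10752) (XT.lf (nat_lit 0) (nat_lit 1676668216) (nat_lit 0) (nat_lit 0) (nat_lit 0) (nat_lit 0) (nat_lit 0) (nat_lit 0) (nat_lit 1) (nat_lit 0) (nat_lit 1) (nat_lit 0) (nat_lit 325) (nat_lit 249) (nat_lit 146)) (XT.lf (nat_lit 924) (nat_lit 875271262) (nat_lit 0) (nat_lit 1554042114) (nat_lit 924) (nat_lit 875271262) (nat_lit 139) (nat_lit 1) (nat_lit 128)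 (nat_lit 0) (nat_lit 139) (nat_lit 0) (nat_lit 220) (nat_lit 250) (nat_lit 250))))) (XT.nd (nat_lit 282) (nat_lit 0) (nat_lit 168) (XT.nd (nat_lit 94) (nat_lit 0) (nat_lit 84) (XT.lf (nat_lit 924) (nat_lit 3392660686) (nat_lit 84) (nat_lit 1528976919) (nat_lit 0) (nat_lit 1528976919) (nat_lit 139) (nat_lit 1) (nat_lit 129) (nat_lit 1) (nat_lit 128) (nat_lit 0) (nat_lit 221) (nat_lit 250) (nat_lit 249)) (XT.nd (nat_lit 94) (nat_lit 0) (nat_lit 0) (XT.lf (nat_lit 924) (nat_lit 1616891000) (nat_lit 0) (nat_lit 3063179550) (nat_lit 840) (nat_lit 1616891000) (nat_lit 140) (nat_lit 1) (nat_lit 129) (nat_lit 1) (nat_lit 139) (nat_lit 1) (nat_lit 222) (nat_lit 250) (nat_lit 248)) (XT.lf (nat_lit 924) (nat_lit 3033062843) (nat_lit 84) (nat_lit 1557604934) (nat_lit 0) (nat_lit 1557604934) (nat_lit 140) (nat_lit 1) (nat_lit 130) (nat_lit 1) (nat_lit 129) (nat_lit 1) (nat_lit 223) (nat_lit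 250) (nat_lit 247)))) (XT.nd (nat_lit 188) (nat_lit 0) (nat_lit 84) (XT.nd (nat_lit 94) (nat_lit 0) (nat_lit 0) (XT.lf (nat_lit 924) (nat_lit 1396089700) (nat_lit 0) (nat_lit 3212117163) (nat_lit 840) (nat_lit 1396089700) (nat_lit 141) (nat_lit 1) (nat_lit 130) (nat_lit 1) (nat_lit 140) (nat_lit 1) (nat_lit 224) (nat_lit 250) (nat_lit 246)) (XT.lf (nat_lit 924) (nat_lit 2510958255) (nat_lit 84) (nat_lit 1676875551) (nat_lit 0) (nat_lit 1676875551) (nat_lit 141) (nat_lit 1) (nat_lit 131) (nat_lit 1) (nat_lit 130) (nat_lit 1) (nat_lit 225) (nat_lit 250) (nat_lit 245))) (XT.nd (nat_lit 94) (nat_lit 0) (nat_lit 0) (XT.lf (nat_lit 924) (nat_lit 1100982672) (nat_lit 0) (nat_lit 3527843663) (nat_lit 840) (nat_lit 1100982672) (nat_lit 142) (nat_lit 1) (nat_lit 131) (nat_lit 1) (nat_lit 141) (nat_lit 1) (nat_lit 226) (nat_lit 250) (nat_lit 244)) (XT.lf (nat_lit 924) (nat_lit 1850785676)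 (nat_lit 84) (nat_lit 1873918624) (nat_lit 0) (nat_lit 1873918624) (nat_lit 142) (nat_lit 1) (nat_lit 132) (nat_lit 1) (nat_lit 131) (nat_lit 1) (nat_lit 227) (nat_lit 250) (nat_lit 243)))))) (XT.nd (nat_lit 658) (nat_lit 1512) (nat_lit 0) (XT.nd (nat_lit 282) (nat_lit 1764) (nat_lit 0) (XT.nd (nat_lit 94) (nat_lit 0) (nat_lit 0) (XT.lf (nat_lit 924) (nat_lit 742994050) (nat_lit 0) (nat_lit 3986250901) (nat_lit 840) (nat_lit 742994050) (nat_lit 143) (nat_lit 1) (nat_lit 132) (nat_lit 1) (nat_lit 142) (nat_lit 1) (nat_lit 228) (nat_lit 250) (nat_lit 242)) (XT.nd (nat_lit 94) (nat_lit 0) (nat_lit 84) (XT.lf (nat_lit 924) (nat_lit 1074267470) (nat_lit 84) (nat_lit 2137272127) (nat_lit 0) (nat_lit 2137272127) (nat_lit 143) (nat_lit 1) (nat_lit 133) (nat_lit 1) (nat_lit 132) (nat_lit 1) (nat_lit 229) (nat_lit 250) (nat_lit 241)) (XT.lf (nat_lit 84) (nat_lit 332270820) (nat_lit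 0) (nat_lit 4565881680) (nat_lit 840) (nat_lit 332270820) (nat_lit 134) (nat_lit 1) (nat_lit 133) (nat_lit 1) (nat_lit 143) (nat_lit 1) (nat_lit 230) (nat_lit 250) (nat_lit 240)))) (XT.nd (nat_lit 188) (nat_lit 420) (nat_lit 0) (XT.nd (nat_lit 94) (nat_lit 588) (nat_lit 0) (XT.lf (nat_lit 924) (nat_lit 200683312) (nat_lit 0) (nat_lit 2456741163) (nat_lit 840) (nat_lit 2456741163) (nat_lit 134) (nat_lit 1) (nat_lit 123) (nat_lit 1) (nat_lit 133) (nat_lit 1) (nat_lit 231) (nat_lit 250) (nat_lit 239)) (XT.lf (nat_lit 588) (nat_lit 4762467745) (nat_lit 0) (nat_lit 120217429) (nat_lit 504) (nat_lit 120217429) (nat_lit 123) (nat_lit 1) (nat_lit 116) (nat_lit 1) (nat_lit 122) (nat_lit 1) (nat_lit 232) (nat_lit 250) (nat_lit 238))) (XT.nd (nat_lit 94) (nat_lit 420) (nat_lit 0) (XT.lf (nat_lit 84) (nat_lit 2082142609) (nat_lit 0) (nat_lit 728785615) (nat_lit 588) (nat_lit 2082142609)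 (nat_lit 117) (nat_lit 1) (nat_lit 116) (nat_lit 1) (nat_lit 123) (nat_lit 1) (nat_lit 233) (nat_lit 250) (nat_lit 237)) (XT.lf (nat_lit 504) (nat_lit 3582832967) (nat_lit 0) (nat_lit 602538218) (nat_lit 420) (nat_lit 602538218) (nat_lit 117) (nat_lit 1) (nat_lit 111) (nat_lit 1) (nat_lit 116) (nat_lit 1) (nat_lit 234) (nat_lit 250) (nat_lit 236))))) (XT.nd (nat_lit 282) (nat_lit 1092) (nat_lit 0) (XT.nd (nat_lit 94) (nat_lit 420) (nat_lit 0) (XT.lf (nat_lit 84) (nat_lit 1485166976) (nat_lit 0) (nat_lit 1714624807) (nat_lit 504) (nat_lit 1485166976) (nat_lit 112) (nat_lit 1) (nat_lit 111) (nat_lit 1) (nat_lit 117) (nat_lit 1) (nat_lit 235) (nat_lit 250) (nat_lit 235)) (XT.nd (nat_lit 94) (nat_lit 0) (nat_lit 0) (XT.lf (nat_lit 504) (nat_lit 2359346318) (nat_lit 0) (nat_lit 1113123646) (nat_lit 420) (nat_lit 1113123646) (nat_lit 112) (nat_lit 1) (nat_lit 106) (nat_lit 1)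 (nat_lit 111) (nat_lit 1) (nat_lit 236) (nat_lit 250) (nat_lit 234)) (XT.lf (nat_lit 84) (nat_lit 869387762) (nat_lit 0) (nat_lit 2750342809) (nat_lit 504) (nat_lit 869387762) (nat_lit 107) (nat_lit 1) (nat_lit 106) (nat_lit 1) (nat_lit 112) (nat_lit 1) (nat_lit 237) (nat_lit 250) (nat_lit 233)))) (XT.nd (nat_lit 188) (nat_lit 756) (nat_lit 0) (XT.nd (nat_lit 94) (nat_lit 0) (nat_lit 0) (XT.lf (nat_lit 420) (nat_lit 1103395354) (nat_lit 0) (nat_lit 1645864683) (nat_lit 336) (nat_lit 1645864683) (nat_lit 107) (nat_lit 1) (nat_lit 102) (nat_lit 1) (nat_lit 106) (nat_lit 1) (nat_lit 238) (nat_lit 250) (nat_lit 232)) (XT.lf (nat_lit 84) (nat_lit 240091466) (nat_lit 0) (nat_lit 3824562706) (nat_lit 420) (nat_lit 240091466) (nat_lit 103) (nat_lit 1) (nat_lit 102) (nat_lit 1) (nat_lit 107) (nat_lit 1) (nat_lit 239) (nat_lit 250) (nat_lit 231))) (XT.nd (nat_lit 94) (nat_lit 336)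 (nat_lit 0) (XT.lf (nat_lit 84) (nat_lit 2023079687) (nat_lit 0) (nat_lit 169436853) (nat_lit 420) (nat_lit 2023079687) (nat_lit 98) (nat_lit 1) (nat_lit 97) (nat_lit 1) (nat_lit 102) (nat_lit 1) (nat_lit 240) (nat_lit 250) (nat_lit 230)) (XT.lf (nat_lit 420) (nat_lit 3346492845) (nat_lit 0) (nat_lit 391674499) (nat_lit 336) (nat_lit 391674499) (nat_lit 98) (nat_lit 1) (nat_lit 93) (nat_lit 1) (nat_lit 97) (nat_lit 1) (nat_lit 241) (nat_lit 250) (nat_lit 229))))))) (XT.nd (nat_lit 1316) (nat_lit 1848) (nat_lit 0) (XT.nd (nat_lit 658) (nat_lit 1008) (nat_lit 0) (XT.nd (nat_lit 282) (nat_lit 924) (nat_lit 0) (XT.nd (nat_lit 94) (nat_lit 336) (nat_lit 0) (XT.lf (nat_lit 84) (nat_lit 1312641616) (nat_lit 0) (nat_lit 1420275365) (nat_lit 420) (nat_lit 1312641616) (nat_lit 94) (nat_lit 1) (nat_lit 93) (nat_lit 1) (nat_lit 98) (nat_lit 1) (nat_lit 242) (nat_lit 250) (nat_lit 228))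 (XT.nd (nat_lit 94) (nat_lit 0) (nat_lit 0) (XT.lf (nat_lit 420) (nat_lit 1915509266) (nat_lit 0) (nat_lit 1024344365) (nat_lit 336) (nat_lit 1024344365) (nat_lit 94) (nat_lit 1) (nat_lit 89) (nat_lit 1) (nat_lit 93) (nat_lit 1) (nat_lit 243) (nat_lit 250) (nat_lit 227)) (XT.lf (nat_lit 84) (nat_lit 604066134) (nat_lit 0) (nat_lit 2677084117) (nat_lit 420) (nat_lit 604066134) (nat_lit 90) (nat_lit 1) (nat_lit 89) (nat_lit 1) (nat_lit 94) (nat_lit 1) (nat_lit 244) (nat_lit 250) (nat_lit 226)))) (XT.nd (nat_lit 188) (nat_lit 252) (nat_lit 0) (XT.nd (nat_lit 94) (nat_lit 420) (nat_lit 0) (XT.lf (nat_lit 336) (nat_lit 491261115) (nat_lit 0) (nat_lit 1658339279) (nat_lit 252) (nat_lit 1658339279) (nat_lit 90) (nat_lit 1) (nat_lit 86) (nat_lit 1) (nat_lit 89) (nat_lit 1) (nat_lit 245) (nat_lit 250) (nat_lit 225)) (XT.lf (nat_lit 420) (nat_lit 3537336547) (nat_lit 0) (nat_lit 98154301)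 (nat_lit 336) (nat_lit 98154301) (nat_lit 86) (nat_lit 1) (nat_lit 81) (nat_lit 1) (nat_lit 85) (nat_lit 1) (nat_lit 246) (nat_lit 250) (nat_lit 224))) (XT.nd (nat_lit 94) (nat_lit 252) (nat_lit 0) (XT.lf (nat_lit 84) (nat_lit 1384185942) (nat_lit 0) (nat_lit 891389955) (nat_lit 420) (nat_lit 1384185942) (nat_lit 82) (nat_lit 1) (nat_lit 81) (nat_lit 1) (nat_lit 86) (nat_lit 1) (nat_lit 247) (nat_lit 250) (nat_lit 223)) (XT.lf (nat_lit 336) (nat_lit 2021647328) (nat_lit 0) (nat_lit 783532410) (nat_lit 252) (nat_lit 783532410) (nat_lit 82) (nat_lit 1) (nat_lit 78) (nat_lit 1) (nat_lit 81) (nat_lit 1) (nat_lit 248) (nat_lit 250) (nat_lit 222))))) (XT.nd (nat_lit 282) (nat_lit 420) (nat_lit 0) (XT.nd (nat_lit 94) (nat_lit 588) (nat_lit 0) (XT.lf (nat_lit 84) (nat_lit 638669662) (nat_lit 0) (nat_lit 2242128274) (nat_lit 336) (nat_lit 638669662) (nat_lit 79) (nat_lit 1) (nat_lit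 78) (nat_lit 1) (nat_lit 82) (nat_lit 1) (nat_lit 249) (nat_lit 250) (nat_lit 221)) (XT.nd (nat_lit 94) (nat_lit 336) (nat_lit 0) (XT.lf (nat_lit 336) (nat_lit 532311201) (nat_lit 0) (nat_lit 1459743571) (nat_lit 252) (nat_lit 1459743571) (nat_lit 79) (nat_lit 1) (nat_lit 75) (nat_lit 1) (nat_lit 78) (nat_lit 1) (nat_lit 250) (nat_lit 250) (nat_lit 220)) (XT.lf (nat_lit 336) (nat_lit 3203676729) (nat_lit 0) (nat_lit 91483178) (nat_lit 252) (nat_lit 91483178) (nat_lit 75) (nat_lit 1) (nat_lit 71) (nat_lit 1) (nat_lit 74) (nat_lit 1) (nat_lit 251) (nat_lit 250) (nat_lit 219)))) (XT.nd (nat_lit 188) (nat_lit 168) (nat_lit 0) (XT.nd (nat_lit 94) (nat_lit 252) (nat_lit 0) (XT.lf (nat_lit 84) (nat_lit 1211859159) (nat_lit 0) (nat_lit 897975468) (nat_lit 336) (nat_lit 1211859159) (nat_lit 72) (nat_lit 1) (nat_lit 71) (nat_lit 1) (nat_lit 75) (nat_lit 1) (nat_lit 252) (nat_lit 250)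 (nat_lit 218)) (XT.lf (nat_lit 336) (nat_lit 1666417309) (nat_lit 0) (nat_lit 796365156) (nat_lit 252) (nat_lit 796365156) (nat_lit 72) (nat_lit 1) (nat_lit 68) (nat_lit 1) (nat_lit 71) (nat_lit 1) (nat_lit 253) (nat_lit 250) (nat_lit 217))) (XT.nd (nat_lit 94) (nat_lit 168) (nat_lit 0) (XT.lf (nat_lit 84) (nat_lit 458929967) (nat_lit 0) (nat_lit 2280419037) (nat_lit 336) (nat_lit 458929967) (nat_lit 69) (nat_lit 1) (nat_lit 68) (nat_lit 1) (nat_lit 72) (nat_lit 1) (nat_lit 254) (nat_lit 250) (nat_lit 216)) (XT.lf (nat_lit 252) (nat_lit 168167199) (nat_lit 0) (nat_lit 1485195079) (nat_lit 168) (nat_lit 1485195079) (nat_lit 69) (nat_lit 1) (nat_lit 66) (nat_lit 1) (nat_lit 68) (nat_lit 1) (nat_lit 255) (nat_lit 250) (nat_lit 215)))))) (XT.nd (nat_lit 658) (nat_lit 924) (nat_lit 0) (XT.nd (nat_lit 282) (nat_lit 420) (nat_lit 0) (XT.nd (nat_lit 94) (nat_lit 168) (nat_lit 0)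 (XT.lf (nat_lit 336) (nat_lit 2540949993) (nat_lit 0) (nat_lit 269867306) (nat_lit 252) (nat_lit 269867306) (nat_lit 66) (nat_lit 1) (nat_lit 62) (nat_lit 1) (nat_lit 65) (nat_lit 1) (nat_lit 256) (nat_lit 250) (nat_lit 214)) (XT.nd (nat_lit 94) (nat_lit 168) (nat_lit 0) (XT.lf (nat_lit 84) (nat_lit 887493517) (nat_lit 0) (nat_lit 1248472071) (nat_lit 336) (nat_lit 887493517) (nat_lit 63) (nat_lit 1) (nat_lit 62) (nat_lit 1) (nat_lit 66) (nat_lit 1) (nat_lit 257) (nat_lit 250) (nat_lit 213)) (XT.lf (nat_lit 252) (nat_lit 1025361858) (nat_lit 0) (nat_lit 971318942) (nat_lit 168) (nat_lit 971318942) (nat_lit 63) (nat_lit 1) (nat_lit 60) (nat_lit 1) (nat_lit 62) (nat_lit 1) (nat_lit 258) (nat_lit 250) (nat_lit 212)))) (XT.nd (nat_lit 188) (nat_lit 168) (nat_lit 0) (XT.nd (nat_lit 94) (nat_lit 252) (nat_lit 0) (XT.lf (nat_lit 84) (nat_lit 147311953) (nat_lit 0) (nat_lit 2619756955)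 (nat_lit 252) (nat_lit 147311953) (nat_lit 61) (nat_lit 1) (nat_lit 60) (nat_lit 1) (nat_lit 63) (nat_lit 1) (nat_lit 259) (nat_lit 250) (nat_lit 211)) (XT.lf (nat_lit 84) (nat_lit 1215791396) (nat_lit 0) (nat_lit 429374096) (nat_lit 252) (nat_lit 1215791396) (nat_lit 58) (nat_lit 1) (nat_lit 57) (nat_lit 1) (nat_lit 60) (nat_lit 1) (nat_lit 260) (nat_lit 250) (nat_lit 210))) (XT.nd (nat_lit 94) (nat_lit 0) (nat_lit 0) (XT.lf (nat_lit 252) (nat_lit 1688339439) (nat_lit 0) (nat_lit 560482950) (nat_lit 168) (nat_lit 560482950) (nat_lit 58) (nat_lit 1) (nat_lit 55) (nat_lit 1) (nat_lit 57) (nat_lit 1) (nat_lit 261) (nat_lit 250) (nat_lit 209)) (XT.lf (nat_lit 84) (nat_lit 476405465) (nat_lit 0) (nat_lit 1805984471) (nat_lit 252) (nat_lit 476405465) (nat_lit 56) (nat_lit 1) (nat_lit 55) (nat_lit 1) (nat_lit 58) (nat_lit 1) (nat_lit 262) (nat_lit 250) (nat_lit 208))))) (XT.nd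 (nat_lit 282) (nat_lit 504) (nat_lit 0) (XT.nd (nat_lit 94) (nat_lit 252) (nat_lit 0) (XT.lf (nat_lit 252) (nat_lit 223178808) (nat_lit 0) (nat_lit 1243062403) (nat_lit 168) (nat_lit 1243062403) (nat_lit 56) (nat_lit 1) (nat_lit 53) (nat_lit 1) (nat_lit 55) (nat_lit 1) (nat_lit 263) (nat_lit 250) (nat_lit 207)) (XT.nd (nat_lit 94) (nat_lit 0) (nat_lit 0) (XT.lf (nat_lit 252) (nat_lit 2193545513) (nat_lit 0) (nat_lit 233850188) (nat_lit 168) (nat_lit 233850188) (nat_lit 53) (nat_lit 1) (nat_lit 50) (nat_lit 1) (nat_lit 52) (nat_lit 1) (nat_lit 264) (nat_lit 250) (nat_lit 206)) (XT.lf (nat_lit 84) (nat_lit 730236676) (nat_lit 0) (nat_lit 1153124980) (nat_lit 252) (nat_lit 730236676) (nat_lit 51) (nat_lit 1) (nat_lit 50) (nat_lit 1) (nat_lit 53) (nat_lit 1) (nat_lit 265) (nat_lit 250) (nat_lit 205)))) (XT.nd (nat_lit 188) (nat_lit 336) (nat_lit 0) (XT.nd (nat_lit 94) (nat_lit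 0) (nat_lit 0) (XT.lf (nat_lit 252) (nat_lit 743710601) (nat_lit 0) (nat_lit 911811724) (nat_lit 168) (nat_lit 911811724) (nat_lit 51) (nat_lit 1) (nat_lit 48) (nat_lit 1) (nat_lit 50) (nat_lit 1) (nat_lit 266) (nat_lit 250) (nat_lit 204)) (XT.lf (nat_lit 84) (nat_lit 24443716) (nat_lit 0) (nat_lit 2473804826) (nat_lit 252) (nat_lit 24443716) (nat_lit 49) (nat_lit 1) (nat_lit 48) (nat_lit 1) (nat_lit 51) (nat_lit 1) (nat_lit 267) (nat_lit 250) (nat_lit 203))) (XT.nd (nat_lit 94) (nat_lit 168) (nat_lit 0) (XT.lf (nat_lit 84) (nat_lit 922954874) (nat_lit 0) (nat_lit 631856952) (nat_lit 168) (nat_lit 922954874) (nat_lit 47) (nat_lit 1) (nat_lit 46) (nat_lit 1) (nat_lit 48) (nat_lit 1) (nat_lit 268) (nat_lit 250) (nat_lit 202)) (XT.lf (nat_lit 252) (nat_lit 1145281927) (nat_lit 0) (nat_lit 644569961) (nat_lit 168) (nat_lit 644569961) (nat_lit 47) (nat_lit 1) (nat_lit 44) (nat_lit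 1) (nat_lit 46) (nat_lit 1) (nat_lit 269) (nat_lit 250) (nat_lit 201))))))))
noncomputable def ec46 : XT := (XT.nd (nat_lit 2538) (nat_lit 1260) (nat_lit 0) (XT.nd (nat_lit 1222) (nat_lit 1092) (nat_lit 0) (XT.nd (nat_lit 564) (nat_lit 672) (nat_lit 0) (XT.nd (nat_lit 282) (nat_lit 336) (nat_lit 0) (XT.nd (nat_lit 94) (nat_lit 336) (nat_lit 0) (XT.lf (nat_lit 84) (nat_lit 229621111) (nat_lit 0) (nat_lit 1933004765) (nat_lit 252) (nat_lit 229621111) (nat_lit 45) (nat_lit 1) (nat_lit 44) (nat_lit 1) (nat_lit 47) (nat_lit 1) (nat_lit 270) (nat_lit 250) (nat_lit 200)) (XT.nd (nat_lit 94) (nat_lit 168) (nat_lit 0) (XT.lf (nat_lit 84) (nat_lit 1066162358) (nat_lit 0) (nat_lit 218095209) (nat_lit 168) (nat_lit 1066162358) (nat_lit 43) (nat_lit 1) (nat_lit 42) (nat_lit 1) (nat_lit 44) (nat_lit 1) (nat_lit 271) (nat_lit 250) (nat_lit 199)) (XT.lf (nat_lit 252) (nat_lit 1450254252)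 (nat_lit 0) (nat_lit 429737111) (nat_lit 168) (nat_lit 429737111) (nat_lit 43) (nat_lit 1) (nat_lit 40) (nat_lit 1) (nat_lit 42) (nat_lit 1) (nat_lit 272) (nat_lit 250) (nat_lit 198)))) (XT.nd (nat_lit 94) (nat_lit 336) (nat_lit 0) (XT.lf (nat_lit 84) (nat_lit 388444337) (nat_lit 0) (nat_lit 1492953910) (nat_lit 252) (nat_lit 388444337) (nat_lit 41) (nat_lit 1) (nat_lit 40) (nat_lit 1) (nat_lit 43) (nat_lit 1) (nat_lit 273) (nat_lit 250) (nat_lit 197)) (XT.nd (nat_lit 94) (nat_lit 252) (nat_lit 0) (XT.lf (nat_lit 168) (nat_lit 111508223) (nat_lit 0) (nat_lit 1059600569) (nat_lit 84) (nat_lit 1059600569) (nat_lit 41) (nat_lit 1) (nat_lit 39) (nat_lit 1) (nat_lit 40) (nat_lit 1) (nat_lit 274) (nat_lit 250) (nat_lit 196)) (XT.lf (nat_lit 252) (nat_lit 1676963930) (nat_lit 0) (nat_lit 257781793) (nat_lit 168) (nat_lit 257781793) (nat_lit 39) (nat_lit 1) (nat_lit 36) (nat_lit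 1) (nat_lit 38) (nat_lit 1) (nat_lit 275) (nat_lit 250) (nat_lit 195))))) (XT.nd (nat_lit 282) (nat_lit 336) (nat_lit 0) (XT.nd (nat_lit 94) (nat_lit 336) (nat_lit 0) (XT.lf (nat_lit 84) (nat_lit 509606957) (nat_lit 0) (nat_lit 1135557931) (nat_lit 252) (nat_lit 509606957) (nat_lit 37) (nat_lit 1) (nat_lit 36) (nat_lit 1) (nat_lit 39) (nat_lit 1) (nat_lit 276) (nat_lit 250) (nat_lit 194)) (XT.nd (nat_lit 94) (nat_lit 252) (nat_lit 0) (XT.lf (nat_lit 168) (nat_lit 374469876) (nat_lit 0) (nat_lit 871736011) (nat_lit 84) (nat_lit 871736011) (nat_lit 37) (nat_lit 1) (nat_lit 35) (nat_lit 1) (nat_lit 36) (nat_lit 1) (nat_lit 277) (nat_lit 250) (nat_lit 193)) (XT.lf (nat_lit 252) (nat_lit 1840438726) (nat_lit 0) (nat_lit 120873917) (nat_lit 168) (nat_lit 120873917) (nat_lit 35) (nat_lit 1) (nat_lit 32) (nat_lit 1) (nat_lit 34) (nat_lit 1) (nat_lit 278) (nat_lit 250) (nat_lit 192))))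 (XT.nd (nat_lit 188) (nat_lit 252) (nat_lit 0) (XT.nd (nat_lit 94) (nat_lit 84) (nat_lit 0) (XT.lf (nat_lit 84) (nat_lit 600238561) (nat_lit 0) (nat_lit 845941609) (nat_lit 252) (nat_lit 600238561) (nat_lit 33) (nat_lit 1) (nat_lit 32) (nat_lit 1) (nat_lit 35) (nat_lit 1) (nat_lit 279) (nat_lit 250) (nat_lit 191)) (XT.lf (nat_lit 168) (nat_lit 577345661) (nat_lit 0) (nat_lit 717179373) (nat_lit 84) (nat_lit 717179373) (nat_lit 33) (nat_lit 1) (nat_lit 31) (nat_lit 1) (nat_lit 32) (nat_lit 1) (nat_lit 280) (nat_lit 250) (nat_lit 190))) (XT.nd (nat_lit 94) (nat_lit 0) (nat_lit 0) (XT.lf (nat_lit 252) (nat_lit 1952987161) (nat_lit 0) (nat_lit 12582507) (nat_lit 168) (nat_lit 12582507) (nat_lit 31) (nat_lit 1) (nat_lit 28) (nat_lit 1) (nat_lit 30) (nat_lit 1) (nat_lit 281) (nat_lit 250) (nat_lit 189)) (XT.lf (nat_lit 84) (nat_lit 666183136) (nat_lit 0) (nat_lit 611877579) (nat_lit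 252) (nat_lit 666183136) (nat_lit 29) (nat_lit 1) (nat_lit 28) (nat_lit 1) (nat_lit 31) (nat_lit 1) (nat_lit 282) (nat_lit 250) (nat_lit 188)))))) (XT.nd (nat_lit 658) (nat_lit 504) (nat_lit 0) (XT.nd (nat_lit 282) (nat_lit 336) (nat_lit 0) (XT.nd (nat_lit 94) (nat_lit 168) (nat_lit 0) (XT.lf (nat_lit 168) (nat_lit 731429767) (nat_lit 0) (nat_lit 590025245) (nat_lit 84) (nat_lit 590025245) (nat_lit 29) (nat_lit 1) (nat_lit 27) (nat_lit 1) (nat_lit 28) (nat_lit 1) (nat_lit 283) (nat_lit 250) (nat_lit 187)) (XT.nd (nat_lit 94) (nat_lit 168) (nat_lit 0) (XT.lf (nat_lit 0) (nat_lit 73559317) (nat_lit 0) (nat_lit 1732587218) (nat_lit 168) (nat_lit 73559317) (nat_lit 27) (nat_lit 3) (nat_lit 27) (nat_lit 1) (nat_lit 29) (nat_lit 1) (nat_lit 284) (nat_lit 250) (nat_lit 186)) (XT.lf (nat_lit 84) (nat_lit 712228026) (nat_lit 0) (nat_lit 423316363) (nat_lit 168) (nat_lit 712228026)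 (nat_lit 26) (nat_lit 1) (nat_lit 25) (nat_lit 1) (nat_lit 27) (nat_lit 1) (nat_lit 285) (nat_lit 250) (nat_lit 185)))) (XT.nd (nat_lit 188) (nat_lit 252) (nat_lit 0) (XT.nd (nat_lit 94) (nat_lit 0) (nat_lit 0) (XT.lf (nat_lit 168) (nat_lit 845983426) (nat_lit 0) (nat_lit 485415229) (nat_lit 84) (nat_lit 485415229) (nat_lit 26) (nat_lit 1) (nat_lit 24) (nat_lit 1) (nat_lit 25) (nat_lit 1) (nat_lit 286) (nat_lit 250) (nat_lit 184)) (XT.lf (nat_lit 0) (nat_lit 140594267) (nat_lit 0) (nat_lit 1505480627) (nat_lit 168) (nat_lit 140594267) (nat_lit 24) (nat_lit 3) (nat_lit 24) (nat_lit 1) (nat_lit 26) (nat_lit 1) (nat_lit 287) (nat_lit 250) (nat_lit 183))) (XT.nd (nat_lit 94) (nat_lit 84) (nat_lit 0) (XT.lf (nat_lit 84) (nat_lit 742292247) (nat_lit 0) (nat_lit 271999767) (nat_lit 168) (nat_lit 742292247) (nat_lit 23) (nat_lit 1) (nat_lit 22) (nat_lit 1) (nat_lit 24) (nat_lit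 1) (nat_lit 288) (nat_lit 250) (nat_lit 182)) (XT.lf (nat_lit 168) (nat_lit 928596798) (nat_lit 0) (nat_lit 399352310) (nat_lit 84) (nat_lit 399352310) (nat_lit 23) (nat_lit 1) (nat_lit 21) (nat_lit 1) (nat_lit 22) (nat_lit 1) (nat_lit 289) (nat_lit 250) (nat_lit 181))))) (XT.nd (nat_lit 282) (nat_lit 252) (nat_lit 0) (XT.nd (nat_lit 94) (nat_lit 252) (nat_lit 0) (XT.lf (nat_lit 0) (nat_lit 191930903) (nat_lit 0) (nat_lit 1314826290) (nat_lit 168) (nat_lit 191930903) (nat_lit 21) (nat_lit 3) (nat_lit 21) (nat_lit 1) (nat_lit 23) (nat_lit 1) (nat_lit 290) (nat_lit 250) (nat_lit 180)) (XT.nd (nat_lit 94) (nat_lit 84) (nat_lit 0) (XT.lf (nat_lit 84) (nat_lit 759581370) (nat_lit 0) (nat_lit 151142832) (nat_lit 168) (nat_lit 759581370) (nat_lit 20) (nat_lit 1) (nat_lit 19) (nat_lit 1) (nat_lit 21) (nat_lit 1) (nat_lit 291) (nat_lit 250) (nat_lit 179)) (XT.lf (nat_lit 168) (nat_lit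 985486635) (nat_lit 0) (nat_lit 328548134) (nat_lit 84) (nat_lit 328548134) (nat_lit 20) (nat_lit 1) (nat_lit 18) (nat_lit 1) (nat_lit 19) (nat_lit 1) (nat_lit 292) (nat_lit 250) (nat_lit 178)))) (XT.nd (nat_lit 188) (nat_lit 84) (nat_lit 0) (XT.nd (nat_lit 94) (nat_lit 168) (nat_lit 0) (XT.lf (nat_lit 0) (nat_lit 230534079) (nat_lit 0) (nat_lit 1154342892) (nat_lit 168) (nat_lit 230534079) (nat_lit 18) (nat_lit 3) (nat_lit 18) (nat_lit 1) (nat_lit 20) (nat_lit 1) (nat_lit 293) (nat_lit 250) (nat_lit 177)) (XT.lf (nat_lit 84) (nat_lit 766714904) (nat_lit 0) (nat_lit 55172201) (nat_lit 168) (nat_lit 766714904) (nat_lit 17) (nat_lit 1) (nat_lit 16) (nat_lit 1) (nat_lit 18) (nat_lit 1) (nat_lit 294) (nat_lit 250) (nat_lit 176))) (XT.nd (nat_lit 94) (nat_lit 0) (nat_lit 0) (XT.lf (nat_lit 168) (nat_lit 1021741105) (nat_lit 0) (nat_lit 270297363) (nat_lit 84) (nat_lit 270297363)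 (nat_lit 17) (nat_lit 1) (nat_lit 15) (nat_lit 1) (nat_lit 16) (nat_lit 1) (nat_lit 295) (nat_lit 250) (nat_lit 175)) (XT.lf (nat_lit 0) (nat_lit 258834338) (nat_lit 0) (nat_lit 1018854135) (nat_lit 168) (nat_lit 258834338) (nat_lit 15) (nat_lit 3) (nat_lit 15) (nat_lit 1) (nat_lit 17) (nat_lit 1) (nat_lit 296) (nat_lit 250) (nat_lit 174))))))) (XT.nd (nat_lit 1222) (nat_lit 168) (nat_lit 0) (XT.nd (nat_lit 564) (nat_lit 588) (nat_lit 0) (XT.nd (nat_lit 282) (nat_lit 252) (nat_lit 0) (XT.nd (nat_lit 94) (nat_lit 168) (nat_lit 0) (XT.lf (nat_lit 84) (nat_lit 21166565) (nat_lit 0) (nat_lit 744994943) (nat_lit 84) (nat_lit 744994943) (nat_lit 15) (nat_lit 3) (nat_lit 14) (nat_lit 1) (nat_lit 15) (nat_lit 1) (nat_lit 297) (nat_lit 250) (nat_lit 173)) (XT.nd (nat_lit 94) (nat_lit 0) (nat_lit 0) (XT.lf (nat_lit 168) (nat_lit 1041521137) (nat_lit 0) (nat_lit 222374309) (nat_lit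 84) (nat_lit 222374309) (nat_lit 14) (nat_lit 1) (nat_lit 12) (nat_lit 1) (nat_lit 13) (nat_lit 1) (nat_lit 298) (nat_lit 250) (nat_lit 172)) (XT.lf (nat_lit 0) (nat_lit 278823060) (nat_lit 0) (nat_lit 904093228) (nat_lit 168) (nat_lit 278823060) (nat_lit 12) (nat_lit 3) (nat_lit 12) (nat_lit 1) (nat_lit 14) (nat_lit 1) (nat_lit 299) (nat_lit 250) (nat_lit 171)))) (XT.nd (nat_lit 94) (nat_lit 168) (nat_lit 0) (XT.lf (nat_lit 84) (nat_lit 82230625) (nat_lit 0) (nat_lit 677726023) (nat_lit 84) (nat_lit 677726023) (nat_lit 12) (nat_lit 3) (nat_lit 11) (nat_lit 1) (nat_lit 12) (nat_lit 1) (nat_lit 300) (nat_lit 250) (nat_lit 170)) (XT.nd (nat_lit 94) (nat_lit 0) (nat_lit 0) (XT.lf (nat_lit 168) (nat_lit 1048226018) (nat_lit 0) (nat_lit 182947894) (nat_lit 84) (nat_lit 182947894) (nat_lit 11) (nat_lit 1) (nat_lit 9) (nat_lit 1) (nat_lit 10) (nat_lit 1) (nat_lit 301) (nat_lit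 250) (nat_lit 169)) (XT.lf (nat_lit 0) (nat_lit 292130717) (nat_lit 0) (nat_lit 806542032) (nat_lit 168) (nat_lit 292130717) (nat_lit 9) (nat_lit 3) (nat_lit 9) (nat_lit 1) (nat_lit 11) (nat_lit 1) (nat_lit 302) (nat_lit 250) (nat_lit 168))))) (XT.nd (nat_lit 282) (nat_lit 336) (nat_lit 0) (XT.nd (nat_lit 94) (nat_lit 168) (nat_lit 0) (XT.lf (nat_lit 84) (nat_lit 129381661) (nat_lit 0) (nat_lit 619297199) (nat_lit 84) (nat_lit 619297199) (nat_lit 9) (nat_lit 3) (nat_lit 8) (nat_lit 1) (nat_lit 9) (nat_lit 1) (nat_lit 303) (nat_lit 250) (nat_lit 167)) (XT.nd (nat_lit 94) (nat_lit 0) (nat_lit 0) (XT.lf (nat_lit 168) (nat_lit 1044629568) (nat_lit 0) (nat_lit 150511685) (nat_lit 84) (nat_lit 150511685) (nat_lit 8) (nat_lit 1) (nat_lit 6) (nat_lit 1) (nat_lit 7) (nat_lit 1) (nat_lit 304) (nat_lit 250) (nat_lit 166)) (XT.lf (nat_lit 0) (nat_lit 300091231) (nat_lit 0) (nat_lit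 723298693) (nat_lit 168) (nat_lit 300091231) (nat_lit 6) (nat_lit 3) (nat_lit 6) (nat_lit 1) (nat_lit 8) (nat_lit 1) (nat_lit 305) (nat_lit 250) (nat_lit 165)))) (XT.nd (nat_lit 188) (nat_lit 84) (nat_lit 0) (XT.nd (nat_lit 94) (nat_lit 168) (nat_lit 0) (XT.lf (nat_lit 84) (nat_lit 165233397) (nat_lit 0) (nat_lit 568288122) (nat_lit 84) (nat_lit 568288122) (nat_lit 6) (nat_lit 3) (nat_lit 5) (nat_lit 1) (nat_lit 6) (nat_lit 1) (nat_lit 306) (nat_lit 250) (nat_lit 164)) (XT.lf (nat_lit 168) (nat_lit 1032992121) (nat_lit 0) (nat_lit 123826336) (nat_lit 84) (nat_lit 123826336) (nat_lit 5) (nat_lit 1) (nat_lit 3) (nat_lit 1) (nat_lit 4) (nat_lit 1) (nat_lit 307) (nat_lit 250) (nat_lit 163))) (XT.nd (nat_lit 94) (nat_lit 84) (nat_lit 0) (XT.lf (nat_lit 0) (nat_lit 303794910) (nat_lit 0) (nat_lit 651968736) (nat_lit 168) (nat_lit 303794910) (nat_lit 3) (nat_lit 3) (nat_lit 3)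 (nat_lit 1) (nat_lit 5) (nat_lit 1) (nat_lit 308) (nat_lit 250) (nat_lit 162)) (XT.lf (nat_lit 84) (nat_lit 191929147) (nat_lit 0) (nat_lit 523523267) (nat_lit 84) (nat_lit 523523267) (nat_lit 3) (nat_lit 3) (nat_lit 2) (nat_lit 1) (nat_lit 3) (nat_lit 1) (nat_lit 309) (nat_lit 250) (nat_lit 161)))))) (XT.nd (nat_lit 658) (nat_lit 0) (nat_lit 0) (XT.nd (nat_lit 282) (nat_lit 0) (nat_lit 0) (XT.nd (nat_lit 94) (nat_lit 0) (nat_lit 0) (XT.lf (nat_lit 0) (nat_lit 1770677150) (nat_lit 0) (nat_lit 0) (nat_lit 0) (nat_lit 0) (nat_lit 0) (nat_lit 0) (nat_lit 1) (nat_lit 0) (nat_lit 1) (nat_lit 0) (nat_lit 310) (nat_lit 250) (nat_lit 160)) (XT.nd (nat_lit 94) (nat_lit 0) (nat_lit 0) (XT.lf (nat_lit 0) (nat_lit 1769645490) (nat_lit 0) (nat_lit 0) (nat_lit 0) (nat_lit 0) (nat_lit 0) (nat_lit 0) (nat_lit 1) (nat_lit 0) (nat_lit 1) (nat_lit 0) (nat_lit 311) (nat_lit 250) (nat_lit 159))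 (XT.lf (nat_lit 0) (nat_lit 1768662956) (nat_lit 0) (nat_lit 0) (nat_lit 0) (nat_lit 0) (nat_lit 0) (nat_lit 0) (nat_lit 1) (nat_lit 0) (nat_lit 1) (nat_lit 0) (nat_lit 312) (nat_lit 250) (nat_lit 158)))) (XT.nd (nat_lit 188) (nat_lit 0) (nat_lit 0) (XT.nd (nat_lit 94) (nat_lit 0) (nat_lit 0) (XT.lf (nat_lit 0) (nat_lit 1767727210) (nat_lit 0) (nat_lit 0) (nat_lit 0) (nat_lit 0) (nat_lit 0) (nat_lit 0) (nat_lit 1) (nat_lit 0) (nat_lit 1) (nat_lit 0) (nat_lit 313) (nat_lit 250) (nat_lit 157)) (XT.lf (nat_lit 0) (nat_lit 1766836023) (nat_lit 0) (nat_lit 0) (nat_lit 0) (nat_lit 0) (nat_lit 0) (nat_lit 0) (nat_lit 1) (nat_lit 0) (nat_lit 1) (nat_lit 0) (nat_lit 314) (nat_lit 250) (nat_lit 156))) (XT.nd (nat_lit 94) (nat_lit 0) (nat_lit 0) (XT.lf (nat_lit 0) (nat_lit 1765987274) (nat_lit 0) (nat_lit 0) (nat_lit 0) (nat_lit 0) (nat_lit 0) (nat_lit 0) (nat_lit 1) (nat_lit 0) (nat_lit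 1) (nat_lit 0) (nat_lit 315) (nat_lit 250) (nat_lit 155)) (XT.lf (nat_lit 0) (nat_lit 1765178941) (nat_lit 0) (nat_lit 0) (nat_lit 0) (nat_lit 0) (nat_lit 0) (nat_lit 0) (nat_lit 1) (nat_lit 0) (nat_lit 1) (nat_lit 0) (nat_lit 316) (nat_lit 250) (nat_lit 154))))) (XT.nd (nat_lit 282) (nat_lit 0) (nat_lit 0) (XT.nd (nat_lit 94) (nat_lit 0) (nat_lit 0) (XT.lf (nat_lit 0) (nat_lit 1764409101) (nat_lit 0) (nat_lit 0) (nat_lit 0) (nat_lit 0) (nat_lit 0) (nat_lit 0) (nat_lit 1) (nat_lit 0) (nat_lit 1) (nat_lit 0) (nat_lit 317) (nat_lit 250) (nat_lit 153)) (XT.nd (nat_lit 94) (nat_lit 0) (nat_lit 0) (XT.lf (nat_lit 0) (nat_lit 1763675919) (nat_lit 0) (nat_lit 0) (nat_lit 0) (nat_lit 0) (nat_lit 0) (nat_lit 0) (nat_lit 1) (nat_lit 0) (nat_lit 1) (nat_lit 0) (nat_lit 318) (nat_lit 250) (nat_lit 152)) (XT.lf (nat_lit 0) (nat_lit 1762977651) (nat_lit 0) (nat_lit 0) (nat_lit 0) (nat_lit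 0) (nat_lit 0) (nat_lit 0) (nat_lit 1) (nat_lit 0) (nat_lit 1) (nat_lit 0) (nat_lit 319) (nat_lit 250) (nat_lit 151)))) (XT.nd (nat_lit 188) (nat_lit 0) (nat_lit 0) (XT.nd (nat_lit 94) (nat_lit 0) (nat_lit 0) (XT.lf (nat_lit 0) (nat_lit 1762312634) (nat_lit 0) (nat_lit 0) (nat_lit 0) (nat_lit 0) (nat_lit 0) (nat_lit 0) (nat_lit 1) (nat_lit 0) (nat_lit 1) (nat_lit 0) (nat_lit 320) (nat_lit 250) (nat_lit 150)) (XT.lf (nat_lit 0) (nat_lit 1761679284) (nat_lit 0) (nat_lit 0) (nat_lit 0) (nat_lit 0) (nat_lit 0) (nat_lit 0) (nat_lit 1) (nat_lit 0) (nat_lit 1) (nat_lit 0) (nat_lit 321) (nat_lit 250) (nat_lit 149))) (XT.nd (nat_lit 94) (nat_lit 0) (nat_lit 0) (XT.lf (nat_lit 0) (nat_lit 1761076093) (nat_lit 0) (nat_lit 0) (nat_lit 0) (nat_lit 0) (nat_lit 0) (nat_lit 0) (nat_lit 1) (nat_lit 0) (nat_lit 1) (nat_lit 0) (nat_lit 322) (nat_lit 250) (nat_lit 148)) (XT.lf (nat_lit 0) (nat_lit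 1760501626) (nat_lit 0) (nat_lit 0) (nat_lit 0) (nat_lit 0) (nat_lit 0) (nat_lit 0) (nat_lit 1) (nat_lit 0) (nat_lit 1) (nat_lit 0) (nat_lit 323) (nat_lit 250) (nat_lit 147))))))))
noncomputable def ec47 : XT := (XT.nd (nat_lit 37600) (nat_lit 0) (nat_lit 3360) (XT.nd (nat_lit 36284) (nat_lit 0) (nat_lit 7476) (XT.nd (nat_lit 35626) (nat_lit 0) (nat_lit 10920) (XT.nd (nat_lit 35344) (nat_lit 0) (nat_lit 10752) (XT.nd (nat_lit 94) (nat_lit 0) (nat_lit 0) (XT.lf (nat_lit 0) (nat_lit 1759954515) (nat_lit 0) (nat_lit 0) (nat_lit 0) (nat_lit 0) (nat_lit 0) (nat_lit 0) (nat_lit 1) (nat_lit 0) (nat_lit 1) (nat_lit 0) (nat_lit 324) (nat_lit 250) (nat_lit 146)) (XT.nd (nat_lit 35156) (nat_lit 0) (nat_lit 10752) (XT.lf (nat_lit 0) (nat_lit 1759433457) (nat_lit 0) (nat_lit 0) (nat_lit 0) (nat_lit 0) (nat_lit 0) (nat_lit 0) (nat_lit 1) (nat_lit 0) (nat_lit 1) (nat_lit 0) (nat_lit 325)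 (nat_lit 250) (nat_lit 145)) (XT.lf (nat_lit 924) (nat_lit 919034825) (nat_lit 0) (nat_lit 1631744220) (nat_lit 924) (nat_lit 919034825) (nat_lit 139) (nat_lit 1) (nat_lit 128) (nat_lit 0) (nat_lit 139) (nat_lit 0) (nat_lit 218) (nat_lit 251) (nat_lit 251)))) (XT.nd (nat_lit 94) (nat_lit 0) (nat_lit 84) (XT.lf (nat_lit 924) (nat_lit 3562293721) (nat_lit 84) (nat_lit 1605425765) (nat_lit 0) (nat_lit 1605425765) (nat_lit 139) (nat_lit 1) (nat_lit 129) (nat_lit 1) (nat_lit 128) (nat_lit 0) (nat_lit 219) (nat_lit 251) (nat_lit 250)) (XT.nd (nat_lit 94) (nat_lit 0) (nat_lit 0) (XT.lf (nat_lit 924) (nat_lit 1697735550) (nat_lit 0) (nat_lit 3216338528) (nat_lit 840) (nat_lit 1697735550) (nat_lit 140) (nat_lit 1) (nat_lit 129) (nat_lit 1) (nat_lit 139) (nat_lit 1) (nat_lit 220) (nat_lit 251) (nat_lit 249)) (XT.lf (nat_lit 924) (nat_lit 3184715985) (nat_lit 84) (nat_lit 1635485180)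 (nat_lit 0) (nat_lit 1635485180) (nat_lit 140) (nat_lit 1) (nat_lit 130) (nat_lit 1) (nat_lit 129) (nat_lit 1) (nat_lit 221) (nat_lit 251) (nat_lit 248))))) (XT.nd (nat_lit 282) (nat_lit 0) (nat_lit 84) (XT.nd (nat_lit 94) (nat_lit 0) (nat_lit 0) (XT.lf (nat_lit 924) (nat_lit 1465894185) (nat_lit 0) (nat_lit 3372723021) (nat_lit 840) (nat_lit 1465894185) (nat_lit 141) (nat_lit 1) (nat_lit 130) (nat_lit 1) (nat_lit 140) (nat_lit 1) (nat_lit 222) (nat_lit 251) (nat_lit 247)) (XT.nd (nat_lit 94) (nat_lit 0) (nat_lit 84) (XT.lf (nat_lit 924) (nat_lit 2636506168) (nat_lit 84) (nat_lit 1760719328) (nat_lit 0) (nat_lit 1760719328) (nat_lit 141) (nat_lit 1) (nat_lit 131) (nat_lit 1) (nat_lit 130) (nat_lit 1) (nat_lit 223) (nat_lit 251) (nat_lit 246)) (XT.lf (nat_lit 924) (nat_lit 1156031805) (nat_lit 0) (nat_lit 3704235846) (nat_lit 840) (nat_lit 1156031805) (nat_lit 142) (nat_lit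 1) (nat_lit 131) (nat_lit 1) (nat_lit 141) (nat_lit 1) (nat_lit 224) (nat_lit 251) (nat_lit 245)))) (XT.nd (nat_lit 188) (nat_lit 0) (nat_lit 84) (XT.nd (nat_lit 94) (nat_lit 0) (nat_lit 84) (XT.lf (nat_lit 924) (nat_lit 1943324960) (nat_lit 84) (nat_lit 1967614556) (nat_lit 0) (nat_lit 1967614556) (nat_lit 142) (nat_lit 1) (nat_lit 132) (nat_lit 1) (nat_lit 131) (nat_lit 1) (nat_lit 225) (nat_lit 251) (nat_lit 244)) (XT.lf (nat_lit 924) (nat_lit 780143753) (nat_lit 0) (nat_lit 4185563447) (nat_lit 840) (nat_lit 780143753) (nat_lit 143) (nat_lit 1) (nat_lit 132) (nat_lit 1) (nat_lit 142) (nat_lit 1) (nat_lit 226) (nat_lit 251) (nat_lit 243))) (XT.nd (nat_lit 94) (nat_lit 0) (nat_lit 84) (XT.lf (nat_lit 924) (nat_lit 1127980843) (nat_lit 84) (nat_lit 2244135734) (nat_lit 0) (nat_lit 2244135734) (nat_lit 143) (nat_lit 1) (nat_lit 133) (nat_lit 1) (nat_lit 132) (nat_lit 1)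 (nat_lit 227) (nat_lit 251) (nat_lit 242)) (XT.lf (nat_lit 84) (nat_lit 348884361) (nat_lit 0) (nat_lit 4794175764) (nat_lit 840) (nat_lit 348884361) (nat_lit 134) (nat_lit 1) (nat_lit 133) (nat_lit 1) (nat_lit 143) (nat_lit 1) (nat_lit 228) (nat_lit 251) (nat_lit 241)))))) (XT.nd (nat_lit 658) (nat_lit 1428) (nat_lit 0) (XT.nd (nat_lit 282) (nat_lit 840) (nat_lit 0) (XT.nd (nat_lit 94) (nat_lit 588) (nat_lit 0) (XT.lf (nat_lit 924) (nat_lit 210717478) (nat_lit 0) (nat_lit 2579578221) (nat_lit 840) (nat_lit 2579578221) (nat_lit 134) (nat_lit 1) (nat_lit 123) (nat_lit 1) (nat_lit 133) (nat_lit 1) (nat_lit 229) (nat_lit 251) (nat_lit 240)) (XT.nd (nat_lit 94) (nat_lit 0) (nat_lit 0) (XT.lf (nat_lit 588) (nat_lit 5000591132) (nat_lit 0) (nat_lit 126228301) (nat_lit 504) (nat_lit 126228301) (nat_lit 123) (nat_lit 1) (nat_lit 116) (nat_lit 1) (nat_lit 122) (nat_lit 1) (nat_lit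 230) (nat_lit 251) (nat_lit 239)) (XT.lf (nat_lit 84) (nat_lit 2186249739) (nat_lit 0) (nat_lit 765224896) (nat_lit 588) (nat_lit 2186249739) (nat_lit 117) (nat_lit 1) (nat_lit 116) (nat_lit 1) (nat_lit 123) (nat_lit 1) (nat_lit 231) (nat_lit 251) (nat_lit 238)))) (XT.nd (nat_lit 188) (nat_lit 420) (nat_lit 0) (XT.nd (nat_lit 94) (nat_lit 0) (nat_lit 0) (XT.lf (nat_lit 504) (nat_lit 3761974616) (nat_lit 0) (nat_lit 632665129) (nat_lit 420) (nat_lit 632665129) (nat_lit 117) (nat_lit 1) (nat_lit 111) (nat_lit 1) (nat_lit 116) (nat_lit 1) (nat_lit 232) (nat_lit 251) (nat_lit 237)) (XT.lf (nat_lit 84) (nat_lit 1559425325) (nat_lit 0) (nat_lit 1800356047) (nat_lit 504) (nat_lit 1559425325) (nat_lit 112) (nat_lit 1) (nat_lit 111) (nat_lit 1) (nat_lit 117) (nat_lit 1) (nat_lit 233) (nat_lit 251) (nat_lit 236))) (XT.nd (nat_lit 94) (nat_lit 0) (nat_lit 0) (XT.lf (nat_lit 504) (nat_lit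 2477313634) (nat_lit 0) (nat_lit 1168779828) (nat_lit 420) (nat_lit 1168779828) (nat_lit 112) (nat_lit 1) (nat_lit 106) (nat_lit 1) (nat_lit 111) (nat_lit 1) (nat_lit 234) (nat_lit 251) (nat_lit 235)) (XT.lf (nat_lit 84) (nat_lit 912857150) (nat_lit 0) (nat_lit 2887859950) (nat_lit 504) (nat_lit 912857150) (nat_lit 107) (nat_lit 1) (nat_lit 106) (nat_lit 1) (nat_lit 112) (nat_lit 1) (nat_lit 235) (nat_lit 251) (nat_lit 234))))) (XT.nd (nat_lit 282) (nat_lit 672) (nat_lit 0) (XT.nd (nat_lit 94) (nat_lit 420) (nat_lit 0) (XT.lf (nat_lit 420) (nat_lit 1158565121) (nat_lit 0) (nat_lit 1728157917) (nat_lit 336) (nat_lit 1728157917) (nat_lit 107) (nat_lit 1) (nat_lit 102) (nat_lit 1) (nat_lit 106) (nat_lit 1) (nat_lit 236) (nat_lit 251) (nat_lit 233)) (XT.nd (nat_lit 94) (nat_lit 420) (nat_lit 0) (XT.lf (nat_lit 84) (nat_lit 252096039) (nat_lit 0) (nat_lit 4015790841) (nat_lit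 420) (nat_lit 252096039) (nat_lit 103) (nat_lit 1) (nat_lit 102) (nat_lit 1) (nat_lit 107) (nat_lit 1) (nat_lit 237) (nat_lit 251) (nat_lit 232)) (XT.lf (nat_lit 84) (nat_lit 2124233671) (nat_lit 0) (nat_lit 177908696) (nat_lit 420) (nat_lit 2124233671) (nat_lit 98) (nat_lit 1) (nat_lit 97) (nat_lit 1) (nat_lit 102) (nat_lit 1) (nat_lit 238) (nat_lit 251) (nat_lit 231)))) (XT.nd (nat_lit 188) (nat_lit 336) (nat_lit 0) (XT.nd (nat_lit 94) (nat_lit 0) (nat_lit 0) (XT.lf (nat_lit 420) (nat_lit 3513817487) (nat_lit 0) (nat_lit 411258224) (nat_lit 336) (nat_lit 411258224) (nat_lit 98) (nat_lit 1) (nat_lit 93) (nat_lit 1) (nat_lit 97) (nat_lit 1) (nat_lit 239) (nat_lit 251) (nat_lit 230)) (XT.lf (nat_lit 84) (nat_lit 1378273696) (nat_lit 0) (nat_lit 1491289133) (nat_lit 420) (nat_lit 1378273696) (nat_lit 94) (nat_lit 1) (nat_lit 93) (nat_lit 1) (nat_lit 98) (nat_lit 1) (nat_lit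 240) (nat_lit 251) (nat_lit 229))) (XT.nd (nat_lit 94) (nat_lit 0) (nat_lit 0) (XT.lf (nat_lit 420) (nat_lit 2011284729) (nat_lit 0) (nat_lit 1075561583) (nat_lit 336) (nat_lit 1075561583) (nat_lit 94) (nat_lit 1) (nat_lit 89) (nat_lit 1) (nat_lit 93) (nat_lit 1) (nat_lit 241) (nat_lit 251) (nat_lit 228)) (XT.lf (nat_lit 84) (nat_lit 634269441) (nat_lit 0) (nat_lit 2810938323) (nat_lit 420) (nat_lit 634269441) (nat_lit 90) (nat_lit 1) (nat_lit 89) (nat_lit 1) (nat_lit 94) (nat_lit 1) (nat_lit 242) (nat_lit 251) (nat_lit 227))))))) (XT.nd (nat_lit 1316) (nat_lit 1680) (nat_lit 0) (XT.nd (nat_lit 658) (nat_lit 924) (nat_lit 0) (XT.nd (nat_lit 282) (nat_lit 840) (nat_lit 0) (XT.nd (nat_lit 94) (nat_lit 420) (nat_lit 0) (XT.lf (nat_lit 336) (nat_lit 515824171) (nat_lit 0) (nat_lit 1741256243) (nat_lit 252) (nat_lit 1741256243) (nat_lit 90) (nat_lit 1) (nat_lit 86) (nat_lit 1)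 (nat_lit 89) (nat_lit 1) (nat_lit 243) (nat_lit 251) (nat_lit 226)) (XT.nd (nat_lit 94) (nat_lit 0) (nat_lit 0) (XT.lf (nat_lit 420) (nat_lit 3714203375) (nat_lit 0) (nat_lit 103062016) (nat_lit 336) (nat_lit 103062016) (nat_lit 86) (nat_lit 1) (nat_lit 81) (nat_lit 1) (nat_lit 85) (nat_lit 1) (nat_lit 244) (nat_lit 251) (nat_lit 225)) (XT.lf (nat_lit 84) (nat_lit 1453395239) (nat_lit 0) (nat_lit 935959453) (nat_lit 420) (nat_lit 1453395239) (nat_lit 82) (nat_lit 1) (nat_lit 81) (nat_lit 1) (nat_lit 86) (nat_lit 1) (nat_lit 245) (nat_lit 251) (nat_lit 224)))) (XT.nd (nat_lit 188) (nat_lit 588) (nat_lit 0) (XT.nd (nat_lit 94) (nat_lit 0) (nat_lit 0) (XT.lf (nat_lit 336) (nat_lit 2122729695) (nat_lit 0) (nat_lit 822709031) (nat_lit 252) (nat_lit 822709031) (nat_lit 82) (nat_lit 1) (nat_lit 78) (nat_lit 1) (nat_lit 81) (nat_lit 1) (nat_lit 246) (nat_lit 251) (nat_lit 223))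 (XT.lf (nat_lit 84) (nat_lit 670603145) (nat_lit 0) (nat_lit 2354234687) (nat_lit 336) (nat_lit 670603145) (nat_lit 79) (nat_lit 1) (nat_lit 78) (nat_lit 1) (nat_lit 82) (nat_lit 1) (nat_lit 247) (nat_lit 251) (nat_lit 222))) (XT.nd (nat_lit 94) (nat_lit 336) (nat_lit 0) (XT.lf (nat_lit 336) (nat_lit 558926761) (nat_lit 0) (nat_lit 1532730749) (nat_lit 252) (nat_lit 1532730749) (nat_lit 79) (nat_lit 1) (nat_lit 75) (nat_lit 1) (nat_lit 78) (nat_lit 1) (nat_lit 248) (nat_lit 251) (nat_lit 221)) (XT.lf (nat_lit 336) (nat_lit 3363860566) (nat_lit 0) (nat_lit 96057337) (nat_lit 252) (nat_lit 96057337) (nat_lit 75) (nat_lit 1) (nat_lit 71) (nat_lit 1) (nat_lit 74) (nat_lit 1) (nat_lit 249) (nat_lit 251) (nat_lit 220))))) (XT.nd (nat_lit 282) (nat_lit 672) (nat_lit 0) (XT.nd (nat_lit 94) (nat_lit 252) (nat_lit 0) (XT.lf (nat_lit 84) (nat_lit 1272452117) (nat_lit 0) (nat_lit 942874242)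 (nat_lit 336) (nat_lit 1272452117) (nat_lit 72) (nat_lit 1) (nat_lit 71) (nat_lit 1) (nat_lit 75) (nat_lit 1) (nat_lit 250) (nat_lit 251) (nat_lit 219)) (XT.nd (nat_lit 94) (nat_lit 0) (nat_lit 0) (XT.lf (nat_lit 336) (nat_lit 1749738174) (nat_lit 0) (nat_lit 836183414) (nat_lit 252) (nat_lit 836183414) (nat_lit 72) (nat_lit 1) (nat_lit 68) (nat_lit 1) (nat_lit 71) (nat_lit 1) (nat_lit 251) (nat_lit 251) (nat_lit 218)) (XT.lf (nat_lit 84) (nat_lit 481876466) (nat_lit 0) (nat_lit 2394439989) (nat_lit 336) (nat_lit 481876466) (nat_lit 69) (nat_lit 1) (nat_lit 68) (nat_lit 1) (nat_lit 72) (nat_lit 1) (nat_lit 252) (nat_lit 251) (nat_lit 217)))) (XT.nd (nat_lit 188) (nat_lit 168) (nat_lit 0) (XT.nd (nat_lit 94) (nat_lit 336) (nat_lit 0) (XT.lf (nat_lit 252) (nat_lit 176575559) (nat_lit 0) (nat_lit 1559454833) (nat_lit 168) (nat_lit 1559454833) (nat_lit 69) (nat_lit 1) (nat_lit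 66) (nat_lit 1) (nat_lit 68) (nat_lit 1) (nat_lit 253) (nat_lit 251) (nat_lit 216)) (XT.lf (nat_lit 336) (nat_lit 2667997492) (nat_lit 0) (nat_lit 283360672) (nat_lit 252) (nat_lit 283360672) (nat_lit 66) (nat_lit 1) (nat_lit 62) (nat_lit 1) (nat_lit 65) (nat_lit 1) (nat_lit 254) (nat_lit 251) (nat_lit 215))) (XT.nd (nat_lit 94) (nat_lit 168) (nat_lit 0) (XT.lf (nat_lit 84) (nat_lit 931868193) (nat_lit 0) (nat_lit 1310895675) (nat_lit 336) (nat_lit 931868193) (nat_lit 63) (nat_lit 1) (nat_lit 62) (nat_lit 1) (nat_lit 66) (nat_lit 1) (nat_lit 255) (nat_lit 251) (nat_lit 214)) (XT.lf (nat_lit 252) (nat_lit 1076629950) (nat_lit 0) (nat_lit 1019884889) (nat_lit 168) (nat_lit 1019884889) (nat_lit 63) (nat_lit 1) (nat_lit 60) (nat_lit 1) (nat_lit 62) (nat_lit 1) (nat_lit 256) (nat_lit 251) (nat_lit 213)))))) (XT.nd (nat_lit 658) (nat_lit 840) (nat_lit 0) (XT.nd (nat_lit 282) (nat_lit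 420) (nat_lit 0) (XT.nd (nat_lit 94) (nat_lit 420) (nat_lit 0) (XT.lf (nat_lit 84) (nat_lit 154677551) (nat_lit 0) (nat_lit 2750744803) (nat_lit 252) (nat_lit 154677551) (nat_lit 61) (nat_lit 1) (nat_lit 60) (nat_lit 1) (nat_lit 63) (nat_lit 1) (nat_lit 257) (nat_lit 251) (nat_lit 212)) (XT.nd (nat_lit 94) (nat_lit 168) (nat_lit 0) (XT.lf (nat_lit 84) (nat_lit 1276580966) (nat_lit 0) (nat_lit 450842801) (nat_lit 252) (nat_lit 1276580966) (nat_lit 58) (nat_lit 1) (nat_lit 57) (nat_lit 1) (nat_lit 60) (nat_lit 1) (nat_lit 258) (nat_lit 251) (nat_lit 211)) (XT.lf (nat_lit 252) (nat_lit 1772756411) (nat_lit 0) (nat_lit 588507097) (nat_lit 168) (nat_lit 588507097) (nat_lit 58) (nat_lit 1) (nat_lit 55) (nat_lit 1) (nat_lit 57) (nat_lit 1) (nat_lit 259) (nat_lit 251) (nat_lit 210)))) (XT.nd (nat_lit 188) (nat_lit 252) (nat_lit 0) (XT.nd (nat_lit 94) (nat_lit 168) (nat_lit 0) (XT.lf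 (nat_lit 84) (nat_lit 500225739) (nat_lit 0) (nat_lit 1896283694) (nat_lit 252) (nat_lit 500225739) (nat_lit 56) (nat_lit 1) (nat_lit 55) (nat_lit 1) (nat_lit 58) (nat_lit 1) (nat_lit 260) (nat_lit 251) (nat_lit 209)) (XT.lf (nat_lit 252) (nat_lit 234337748) (nat_lit 0) (nat_lit 1305215523) (nat_lit 168) (nat_lit 1305215523) (nat_lit 56) (nat_lit 1) (nat_lit 53) (nat_lit 1) (nat_lit 55) (nat_lit 1) (nat_lit 261) (nat_lit 251) (nat_lit 208))) (XT.nd (nat_lit 94) (nat_lit 0) (nat_lit 0) (XT.lf (nat_lit 252) (nat_lit 2303222789) (nat_lit 0) (nat_lit 245542698) (nat_lit 168) (nat_lit 245542698) (nat_lit 53) (nat_lit 1) (nat_lit 50) (nat_lit 1) (nat_lit 52) (nat_lit 1) (nat_lit 262) (nat_lit 251) (nat_lit 207)) (XT.lf (nat_lit 84) (nat_lit 766748510) (nat_lit 0) (nat_lit 1210781229) (nat_lit 252) (nat_lit 766748510) (nat_lit 51) (nat_lit 1) (nat_lit 50) (nat_lit 1) (nat_lit 53)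 (nat_lit 1) (nat_lit 263) (nat_lit 251) (nat_lit 206))))) (XT.nd (nat_lit 282) (nat_lit 504) (nat_lit 0) (XT.nd (nat_lit 94) (nat_lit 168) (nat_lit 0) (XT.lf (nat_lit 252) (nat_lit 780896132) (nat_lit 0) (nat_lit 957402310) (nat_lit 168) (nat_lit 957402310) (nat_lit 51) (nat_lit 1) (nat_lit 48) (nat_lit 1) (nat_lit 50) (nat_lit 1) (nat_lit 264) (nat_lit 251) (nat_lit 205)) (XT.nd (nat_lit 94) (nat_lit 168) (nat_lit 0) (XT.lf (nat_lit 84) (nat_lit 25665902) (nat_lit 0) (nat_lit 2597495068) (nat_lit 252) (nat_lit 25665902) (nat_lit 49) (nat_lit 1) (nat_lit 48) (nat_lit 1) (nat_lit 51) (nat_lit 1) (nat_lit 265) (nat_lit 251) (nat_lit 204)) (XT.lf (nat_lit 84) (nat_lit 969102618) (nat_lit 0) (nat_lit 663449799) (nat_lit 168) (nat_lit 969102618) (nat_lit 47) (nat_lit 1) (nat_lit 46) (nat_lit 1) (nat_lit 48) (nat_lit 1) (nat_lit 266) (nat_lit 251) (nat_lit 203)))) (XT.nd (nat_lit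 188) (nat_lit 336) (nat_lit 0) (XT.nd (nat_lit 94) (nat_lit 0) (nat_lit 0) (XT.lf (nat_lit 252) (nat_lit 1202546024) (nat_lit 0) (nat_lit 676798459) (nat_lit 168) (nat_lit 676798459) (nat_lit 47) (nat_lit 1) (nat_lit 44) (nat_lit 1) (nat_lit 46) (nat_lit 1) (nat_lit 267) (nat_lit 251) (nat_lit 202)) (XT.lf (nat_lit 84) (nat_lit 241102166) (nat_lit 0) (nat_lit 2029655003) (nat_lit 252) (nat_lit 241102166) (nat_lit 45) (nat_lit 1) (nat_lit 44) (nat_lit 1) (nat_lit 47) (nat_lit 1) (nat_lit 268) (nat_lit 251) (nat_lit 201))) (XT.nd (nat_lit 94) (nat_lit 168) (nat_lit 0) (XT.lf (nat_lit 84) (nat_lit 1119470475) (nat_lit 0) (nat_lit 228999969) (nat_lit 168) (nat_lit 1119470475) (nat_lit 43) (nat_lit 1) (nat_lit 42) (nat_lit 1) (nat_lit 44) (nat_lit 1) (nat_lit 269) (nat_lit 251) (nat_lit 200)) (XT.lf (nat_lit 252) (nat_lit 1522766965) (nat_lit 0) (nat_lit 451223966) (nat_lit 168)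 (nat_lit 451223966) (nat_lit 43) (nat_lit 1) (nat_lit 40) (nat_lit 1) (nat_lit 42) (nat_lit 1) (nat_lit 270) (nat_lit 251) (nat_lit 199))))))))
noncomputable def ec48 : XT := (XT.nd (nat_lit 2538) (nat_lit 1008) (nat_lit 0) (XT.nd (nat_lit 1222) (nat_lit 1092) (nat_lit 0) (XT.nd (nat_lit 564) (nat_lit 588) (nat_lit 0) (XT.nd (nat_lit 282) (nat_lit 336) (nat_lit 0) (XT.nd (nat_lit 94) (nat_lit 336) (nat_lit 0) (XT.lf (nat_lit 84) (nat_lit 407866554) (nat_lit 0) (nat_lit 1567601606) (nat_lit 252) (nat_lit 407866554) (nat_lit 41) (nat_lit 1) (nat_lit 40) (nat_lit 1) (nat_lit 43) (nat_lit 1) (nat_lit 271) (nat_lit 251) (nat_lit 198)) (XT.nd (nat_lit 94) (nat_lit 252) (nat_lit 0) (XT.lf (nat_lit 168) (nat_lit 117083634) (nat_lit 0) (nat_lit 1112580598) (nat_lit 84) (nat_lit 1112580598) (nat_lit 41) (nat_lit 1) (nat_lit 39) (nat_lit 1) (nat_lit 40) (nat_lit 1) (nat_lit 272) (nat_lit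 251) (nat_lit 197)) (XT.lf (nat_lit 252) (nat_lit 1760812127) (nat_lit 0) (nat_lit 270670882) (nat_lit 168) (nat_lit 270670882) (nat_lit 39) (nat_lit 1) (nat_lit 36) (nat_lit 1) (nat_lit 38) (nat_lit 1) (nat_lit 273) (nat_lit 251) (nat_lit 196)))) (XT.nd (nat_lit 94) (nat_lit 336) (nat_lit 0) (XT.lf (nat_lit 84) (nat_lit 535087304) (nat_lit 0) (nat_lit 1192335827) (nat_lit 252) (nat_lit 535087304) (nat_lit 37) (nat_lit 1) (nat_lit 36) (nat_lit 1) (nat_lit 39) (nat_lit 1) (nat_lit 274) (nat_lit 251) (nat_lit 195)) (XT.nd (nat_lit 94) (nat_lit 252) (nat_lit 0) (XT.lf (nat_lit 168) (nat_lit 393193370) (nat_lit 0) (nat_lit 915322811) (nat_lit 84) (nat_lit 915322811) (nat_lit 37) (nat_lit 1) (nat_lit 35) (nat_lit 1) (nat_lit 36) (nat_lit 1) (nat_lit 275) (nat_lit 251) (nat_lit 194)) (XT.lf (nat_lit 252) (nat_lit 1932460662) (nat_lit 0) (nat_lit 126917613) (nat_lit 168) (nat_lit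 126917613) (nat_lit 35) (nat_lit 1) (nat_lit 32) (nat_lit 1) (nat_lit 34) (nat_lit 1) (nat_lit 276) (nat_lit 251) (nat_lit 193))))) (XT.nd (nat_lit 282) (nat_lit 252) (nat_lit 0) (XT.nd (nat_lit 94) (nat_lit 336) (nat_lit 0) (XT.lf (nat_lit 84) (nat_lit 630250489) (nat_lit 0) (nat_lit 888238690) (nat_lit 252) (nat_lit 630250489) (nat_lit 33) (nat_lit 1) (nat_lit 32) (nat_lit 1) (nat_lit 35) (nat_lit 1) (nat_lit 277) (nat_lit 251) (nat_lit 192)) (XT.nd (nat_lit 94) (nat_lit 252) (nat_lit 0) (XT.lf (nat_lit 168) (nat_lit 606212944) (nat_lit 0) (nat_lit 753038342) (nat_lit 84) (nat_lit 753038342) (nat_lit 33) (nat_lit 1) (nat_lit 31) (nat_lit 1) (nat_lit 32) (nat_lit 1) (nat_lit 278) (nat_lit 251) (nat_lit 191)) (XT.lf (nat_lit 252) (nat_lit 2050636519) (nat_lit 0) (nat_lit 13211632) (nat_lit 168) (nat_lit 13211632) (nat_lit 31) (nat_lit 1) (nat_lit 28) (nat_lit 1) (nat_lit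 30) (nat_lit 1) (nat_lit 279) (nat_lit 251) (nat_lit 190)))) (XT.nd (nat_lit 188) (nat_lit 168) (nat_lit 0) (XT.nd (nat_lit 94) (nat_lit 84) (nat_lit 0) (XT.lf (nat_lit 84) (nat_lit 699492293) (nat_lit 0) (nat_lit 642471458) (nat_lit 252) (nat_lit 699492293) (nat_lit 29) (nat_lit 1) (nat_lit 28) (nat_lit 1) (nat_lit 31) (nat_lit 1) (nat_lit 280) (nat_lit 251) (nat_lit 189)) (XT.lf (nat_lit 168) (nat_lit 768001256) (nat_lit 0) (nat_lit 619526507) (nat_lit 84) (nat_lit 619526507) (nat_lit 29) (nat_lit 1) (nat_lit 27) (nat_lit 1) (nat_lit 28) (nat_lit 1) (nat_lit 281) (nat_lit 251) (nat_lit 188))) (XT.nd (nat_lit 94) (nat_lit 168) (nat_lit 0) (XT.lf (nat_lit 0) (nat_lit 77237283) (nat_lit 0) (nat_lit 1819216579) (nat_lit 168) (nat_lit 77237283) (nat_lit 27) (nat_lit 3) (nat_lit 27) (nat_lit 1) (nat_lit 29) (nat_lit 1) (nat_lit 282) (nat_lit 251) (nat_lit 187)) (XT.lf (nat_lit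 84) (nat_lit 747839428) (nat_lit 0) (nat_lit 444482182) (nat_lit 168) (nat_lit 747839428) (nat_lit 26) (nat_lit 1) (nat_lit 25) (nat_lit 1) (nat_lit 27) (nat_lit 1) (nat_lit 283) (nat_lit 251) (nat_lit 186)))))) (XT.nd (nat_lit 658) (nat_lit 504) (nat_lit 0) (XT.nd (nat_lit 282) (nat_lit 336) (nat_lit 0) (XT.nd (nat_lit 94) (nat_lit 168) (nat_lit 0) (XT.lf (nat_lit 168) (nat_lit 888282597) (nat_lit 0) (nat_lit 509685991) (nat_lit 84) (nat_lit 509685991) (nat_lit 26) (nat_lit 1) (nat_lit 24) (nat_lit 1) (nat_lit 25) (nat_lit 1) (nat_lit 284) (nat_lit 251) (nat_lit 185)) (XT.nd (nat_lit 94) (nat_lit 168) (nat_lit 0) (XT.lf (nat_lit 0) (nat_lit 147623980) (nat_lit 0) (nat_lit 1580754658) (nat_lit 168) (nat_lit 147623980) (nat_lit 24) (nat_lit 3) (nat_lit 24) (nat_lit 1) (nat_lit 26) (nat_lit 1) (nat_lit 285) (nat_lit 251) (nat_lit 184)) (XT.lf (nat_lit 84) (nat_lit 779406859)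 (nat_lit 0) (nat_lit 285599756) (nat_lit 168) (nat_lit 779406859) (nat_lit 23) (nat_lit 1) (nat_lit 22) (nat_lit 1) (nat_lit 24) (nat_lit 1) (nat_lit 286) (nat_lit 251) (nat_lit 183)))) (XT.nd (nat_lit 188) (nat_lit 252) (nat_lit 0) (XT.nd (nat_lit 94) (nat_lit 0) (nat_lit 0) (XT.lf (nat_lit 168) (nat_lit 975026637) (nat_lit 0) (nat_lit 419319926) (nat_lit 84) (nat_lit 419319926) (nat_lit 23) (nat_lit 1) (nat_lit 21) (nat_lit 1) (nat_lit 22) (nat_lit 1) (nat_lit 287) (nat_lit 251) (nat_lit 182)) (XT.lf (nat_lit 0) (nat_lit 201527448) (nat_lit 0) (nat_lit 1380567604) (nat_lit 168) (nat_lit 201527448) (nat_lit 21) (nat_lit 3) (nat_lit 21) (nat_lit 1) (nat_lit 23) (nat_lit 1) (nat_lit 288) (nat_lit 251) (nat_lit 181))) (XT.nd (nat_lit 94) (nat_lit 84) (nat_lit 0) (XT.lf (nat_lit 84) (nat_lit 797560439) (nat_lit 0) (nat_lit 158699974) (nat_lit 168) (nat_lit 797560439) (nat_lit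 20) (nat_lit 1) (nat_lit 19) (nat_lit 1) (nat_lit 21) (nat_lit 1) (nat_lit 289) (nat_lit 251) (nat_lit 180)) (XT.lf (nat_lit 168) (nat_lit 1034760967) (nat_lit 0) (nat_lit 344975541) (nat_lit 84) (nat_lit 344975541) (nat_lit 20) (nat_lit 1) (nat_lit 18) (nat_lit 1) (nat_lit 19) (nat_lit 1) (nat_lit 290) (nat_lit 251) (nat_lit 179))))) (XT.nd (nat_lit 282) (nat_lit 252) (nat_lit 0) (XT.nd (nat_lit 94) (nat_lit 252) (nat_lit 0) (XT.lf (nat_lit 0) (nat_lit 242060783) (nat_lit 0) (nat_lit 1212060037) (nat_lit 168) (nat_lit 242060783) (nat_lit 18) (nat_lit 3) (nat_lit 18) (nat_lit 1) (nat_lit 20) (nat_lit 1) (nat_lit 291) (nat_lit 251) (nat_lit 178)) (XT.nd (nat_lit 94) (nat_lit 84) (nat_lit 0) (XT.lf (nat_lit 84) (nat_lit 805050649) (nat_lit 0) (nat_lit 57930811) (nat_lit 168) (nat_lit 805050649) (nat_lit 17) (nat_lit 1) (nat_lit 16) (nat_lit 1) (nat_lit 18) (nat_lit 1) (nat_lit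 292) (nat_lit 251) (nat_lit 177)) (XT.lf (nat_lit 168) (nat_lit 1072828160) (nat_lit 0) (nat_lit 283812231) (nat_lit 84) (nat_lit 283812231) (nat_lit 17) (nat_lit 1) (nat_lit 15) (nat_lit 1) (nat_lit 16) (nat_lit 1) (nat_lit 293) (nat_lit 251) (nat_lit 176)))) (XT.nd (nat_lit 188) (nat_lit 168) (nat_lit 0) (XT.nd (nat_lit 94) (nat_lit 84) (nat_lit 0) (XT.lf (nat_lit 0) (nat_lit 271776055) (nat_lit 0) (nat_lit 1069796842) (nat_lit 168) (nat_lit 271776055) (nat_lit 15) (nat_lit 3) (nat_lit 15) (nat_lit 1) (nat_lit 17) (nat_lit 1) (nat_lit 294) (nat_lit 251) (nat_lit 175)) (XT.lf (nat_lit 84) (nat_lit 22224894) (nat_lit 0) (nat_lit 782244691) (nat_lit 84) (nat_lit 782244691) (nat_lit 15) (nat_lit 3) (nat_lit 14) (nat_lit 1) (nat_lit 15) (nat_lit 1) (nat_lit 295) (nat_lit 251) (nat_lit 174))) (XT.nd (nat_lit 94) (nat_lit 0) (nat_lit 0) (XT.lf (nat_lit 168) (nat_lit 1093597193)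 (nat_lit 0) (nat_lit 233493025) (nat_lit 84) (nat_lit 233493025) (nat_lit 14) (nat_lit 1) (nat_lit 12) (nat_lit 1) (nat_lit 13) (nat_lit 1) (nat_lit 296) (nat_lit 251) (nat_lit 173)) (XT.lf (nat_lit 0) (nat_lit 292764213) (nat_lit 0) (nat_lit 949297890) (nat_lit 168) (nat_lit 292764213) (nat_lit 12) (nat_lit 3) (nat_lit 12) (nat_lit 1) (nat_lit 14) (nat_lit 1) (nat_lit 297) (nat_lit 251) (nat_lit 172))))))) (XT.nd (nat_lit 1222) (nat_lit 0) (nat_lit 0) (XT.nd (nat_lit 564) (nat_lit 504) (nat_lit 0) (XT.nd (nat_lit 282) (nat_lit 252) (nat_lit 0) (XT.nd (nat_lit 94) (nat_lit 168) (nat_lit 0) (XT.lf (nat_lit 84) (nat_lit 86342156) (nat_lit 0) (nat_lit 711612324) (nat_lit 84) (nat_lit 711612324) (nat_lit 12) (nat_lit 3) (nat_lit 11) (nat_lit 1) (nat_lit 12) (nat_lit 1) (nat_lit 298) (nat_lit 251) (nat_lit 171)) (XT.nd (nat_lit 94) (nat_lit 0) (nat_lit 0) (XT.lf (nat_lit 168)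 (nat_lit 1100637319) (nat_lit 0) (nat_lit 192095289) (nat_lit 84) (nat_lit 192095289) (nat_lit 11) (nat_lit 1) (nat_lit 9) (nat_lit 1) (nat_lit 10) (nat_lit 1) (nat_lit 299) (nat_lit 251) (nat_lit 170)) (XT.lf (nat_lit 0) (nat_lit 306737253) (nat_lit 0) (nat_lit 846869133) (nat_lit 168) (nat_lit 306737253) (nat_lit 9) (nat_lit 3) (nat_lit 9) (nat_lit 1) (nat_lit 11) (nat_lit 1) (nat_lit 300) (nat_lit 251) (nat_lit 169)))) (XT.nd (nat_lit 94) (nat_lit 168) (nat_lit 0) (XT.lf (nat_lit 84) (nat_lit 135850744) (nat_lit 0) (nat_lit 650262059) (nat_lit 84) (nat_lit 650262059) (nat_lit 9) (nat_lit 3) (nat_lit 8) (nat_lit 1) (nat_lit 9) (nat_lit 1) (nat_lit 301) (nat_lit 251) (nat_lit 168)) (XT.nd (nat_lit 94) (nat_lit 0) (nat_lit 0) (XT.lf (nat_lit 168) (nat_lit 1096861047) (nat_lit 0) (nat_lit 158037270) (nat_lit 84) (nat_lit 158037270) (nat_lit 8) (nat_lit 1) (nat_lit 6) (nat_lit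 1) (nat_lit 7) (nat_lit 1) (nat_lit 302) (nat_lit 251) (nat_lit 167)) (XT.lf (nat_lit 0) (nat_lit 315095793) (nat_lit 0) (nat_lit 759463627) (nat_lit 168) (nat_lit 315095793) (nat_lit 6) (nat_lit 3) (nat_lit 6) (nat_lit 1) (nat_lit 8) (nat_lit 1) (nat_lit 303) (nat_lit 251) (nat_lit 166))))) (XT.nd (nat_lit 282) (nat_lit 252) (nat_lit 0) (XT.nd (nat_lit 94) (nat_lit 168) (nat_lit 0) (XT.lf (nat_lit 84) (nat_lit 173495066) (nat_lit 0) (nat_lit 596702528) (nat_lit 84) (nat_lit 596702528) (nat_lit 6) (nat_lit 3) (nat_lit 5) (nat_lit 1) (nat_lit 6) (nat_lit 1) (nat_lit 304) (nat_lit 251) (nat_lit 165)) (XT.nd (nat_lit 94) (nat_lit 0) (nat_lit 0) (XT.lf (nat_lit 168) (nat_lit 1084641727) (nat_lit 0) (nat_lit 130017653) (nat_lit 84) (nat_lit 130017653) (nat_lit 5) (nat_lit 1) (nat_lit 3) (nat_lit 1) (nat_lit 4) (nat_lit 1) (nat_lit 305) (nat_lit 251) (nat_lit 164)) (XT.lf (nat_lit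 0) (nat_lit 318984655) (nat_lit 0) (nat_lit 684567173) (nat_lit 168) (nat_lit 318984655) (nat_lit 3) (nat_lit 3) (nat_lit 3) (nat_lit 1) (nat_lit 5) (nat_lit 1) (nat_lit 306) (nat_lit 251) (nat_lit 163)))) (XT.nd (nat_lit 188) (nat_lit 0) (nat_lit 0) (XT.nd (nat_lit 94) (nat_lit 168) (nat_lit 0) (XT.lf (nat_lit 84) (nat_lit 201525604) (nat_lit 0) (nat_lit 549699430) (nat_lit 84) (nat_lit 549699430) (nat_lit 3) (nat_lit 3) (nat_lit 2) (nat_lit 1) (nat_lit 3) (nat_lit 1) (nat_lit 307) (nat_lit 251) (nat_lit 162)) (XT.lf (nat_lit 0) (nat_lit 1859211008) (nat_lit 0) (nat_lit 0) (nat_lit 0) (nat_lit 0) (nat_lit 0) (nat_lit 0) (nat_lit 1) (nat_lit 0) (nat_lit 1) (nat_lit 0) (nat_lit 308) (nat_lit 251) (nat_lit 161))) (XT.nd (nat_lit 94) (nat_lit 0) (nat_lit 0) (XT.lf (nat_lit 0) (nat_lit 1858127764) (nat_lit 0) (nat_lit 0) (nat_lit 0) (nat_lit 0) (nat_lit 0) (nat_lit 0) (nat_lit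 1) (nat_lit 0) (nat_lit 1) (nat_lit 0) (nat_lit 309) (nat_lit 251) (nat_lit 160)) (XT.lf (nat_lit 0) (nat_lit 1857096104) (nat_lit 0) (nat_lit 0) (nat_lit 0) (nat_lit 0) (nat_lit 0) (nat_lit 0) (nat_lit 1) (nat_lit 0) (nat_lit 1) (nat_lit 0) (nat_lit 310) (nat_lit 251) (nat_lit 159)))))) (XT.nd (nat_lit 658) (nat_lit 0) (nat_lit 0) (XT.nd (nat_lit 282) (nat_lit 0) (nat_lit 0) (XT.nd (nat_lit 94) (nat_lit 0) (nat_lit 0) (XT.lf (nat_lit 0) (nat_lit 1856113571) (nat_lit 0) (nat_lit 0) (nat_lit 0) (nat_lit 0) (nat_lit 0) (nat_lit 0) (nat_lit 1) (nat_lit 0) (nat_lit 1) (nat_lit 0) (nat_lit 311) (nat_lit 251) (nat_lit 158)) (XT.nd (nat_lit 94) (nat_lit 0) (nat_lit 0) (XT.lf (nat_lit 0) (nat_lit 1855177825) (nat_lit 0) (nat_lit 0) (nat_lit 0) (nat_lit 0) (nat_lit 0) (nat_lit 0) (nat_lit 1) (nat_lit 0) (nat_lit 1) (nat_lit 0) (nat_lit 312) (nat_lit 251) (nat_lit 157)) (XT.lf (nat_lit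 0) (nat_lit 1854286638) (nat_lit 0) (nat_lit 0) (nat_lit 0) (nat_lit 0) (nat_lit 0) (nat_lit 0) (nat_lit 1) (nat_lit 0) (nat_lit 1) (nat_lit 0) (nat_lit 313) (nat_lit 251) (nat_lit 156)))) (XT.nd (nat_lit 188) (nat_lit 0) (nat_lit 0) (XT.nd (nat_lit 94) (nat_lit 0) (nat_lit 0) (XT.lf (nat_lit 0) (nat_lit 1853437888) (nat_lit 0) (nat_lit 0) (nat_lit 0) (nat_lit 0) (nat_lit 0) (nat_lit 0) (nat_lit 1) (nat_lit 0) (nat_lit 1) (nat_lit 0) (nat_lit 314) (nat_lit 251) (nat_lit 155)) (XT.lf (nat_lit 0) (nat_lit 1852629556) (nat_lit 0) (nat_lit 0) (nat_lit 0) (nat_lit 0) (nat_lit 0) (nat_lit 0) (nat_lit 1) (nat_lit 0) (nat_lit 1) (nat_lit 0) (nat_lit 315) (nat_lit 251) (nat_lit 154))) (XT.nd (nat_lit 94) (nat_lit 0) (nat_lit 0) (XT.lf (nat_lit 0) (nat_lit 1851859715) (nat_lit 0) (nat_lit 0) (nat_lit 0) (nat_lit 0) (nat_lit 0) (nat_lit 0) (nat_lit 1) (nat_lit 0) (nat_lit 1) (nat_lit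 0) (nat_lit 316) (nat_lit 251) (nat_lit 153)) (XT.lf (nat_lit 0) (nat_lit 1851126533) (nat_lit 0) (nat_lit 0) (nat_lit 0) (nat_lit 0) (nat_lit 0) (nat_lit 0) (nat_lit 1) (nat_lit 0) (nat_lit 1) (nat_lit 0) (nat_lit 317) (nat_lit 251) (nat_lit 152))))) (XT.nd (nat_lit 282) (nat_lit 0) (nat_lit 0) (XT.nd (nat_lit 94) (nat_lit 0) (nat_lit 0) (XT.lf (nat_lit 0) (nat_lit 1850428265) (nat_lit 0) (nat_lit 0) (nat_lit 0) (nat_lit 0) (nat_lit 0) (nat_lit 0) (nat_lit 1) (nat_lit 0) (nat_lit 1) (nat_lit 0) (nat_lit 318) (nat_lit 251) (nat_lit 151)) (XT.nd (nat_lit 94) (nat_lit 0) (nat_lit 0) (XT.lf (nat_lit 0) (nat_lit 1849763248) (nat_lit 0) (nat_lit 0) (nat_lit 0) (nat_lit 0) (nat_lit 0) (nat_lit 0) (nat_lit 1) (nat_lit 0) (nat_lit 1) (nat_lit 0) (nat_lit 319) (nat_lit 251) (nat_lit 150)) (XT.lf (nat_lit 0) (nat_lit 1849129898) (nat_lit 0) (nat_lit 0) (nat_lit 0) (nat_lit 0) (nat_lit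 0) (nat_lit 0) (nat_lit 1) (nat_lit 0) (nat_lit 1) (nat_lit 0) (nat_lit 320) (nat_lit 251) (nat_lit 149)))) (XT.nd (nat_lit 188) (nat_lit 0) (nat_lit 0) (XT.nd (nat_lit 94) (nat_lit 0) (nat_lit 0) (XT.lf (nat_lit 0) (nat_lit 1848526708) (nat_lit 0) (nat_lit 0) (nat_lit 0) (nat_lit 0) (nat_lit 0) (nat_lit 0) (nat_lit 1) (nat_lit 0) (nat_lit 1) (nat_lit 0) (nat_lit 321) (nat_lit 251) (nat_lit 148)) (XT.lf (nat_lit 0) (nat_lit 1847952241) (nat_lit 0) (nat_lit 0) (nat_lit 0) (nat_lit 0) (nat_lit 0) (nat_lit 0) (nat_lit 1) (nat_lit 0) (nat_lit 1) (nat_lit 0) (nat_lit 322) (nat_lit 251) (nat_lit 147))) (XT.nd (nat_lit 94) (nat_lit 0) (nat_lit 0) (XT.lf (nat_lit 0) (nat_lit 1847405129) (nat_lit 0) (nat_lit 0) (nat_lit 0) (nat_lit 0) (nat_lit 0) (nat_lit 0) (nat_lit 1) (nat_lit 0) (nat_lit 1) (nat_lit 0) (nat_lit 323) (nat_lit 251) (nat_lit 146)) (XT.lf (nat_lit 0) (nat_lit 1846884071)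 (nat_lit 0) (nat_lit 0) (nat_lit 0) (nat_lit 0) (nat_lit 0) (nat_lit 0) (nat_lit 1) (nat_lit 0) (nat_lit 1) (nat_lit 0) (nat_lit 324) (nat_lit 251) (nat_lit 145))))))))
noncomputable def ec49 : XT := (XT.nd (nat_lit 2538) (nat_lit 3444) (nat_lit 0) (XT.nd (nat_lit 1222) (nat_lit 2940) (nat_lit 0) (XT.nd (nat_lit 564) (nat_lit 1008) (nat_lit 0) (XT.nd (nat_lit 282) (nat_lit 0) (nat_lit 84) (XT.nd (nat_lit 94) (nat_lit 0) (nat_lit 0) (XT.lf (nat_lit 924) (nat_lit 964986566) (nat_lit 0) (nat_lit 1713331431) (nat_lit 924) (nat_lit 964986566) (nat_lit 139) (nat_lit 1) (nat_lit 128) (nat_lit 0) (nat_lit 139) (nat_lit 0) (nat_lit 216) (nat_lit 252) (nat_lit 252)) (XT.nd (nat_lit 94) (nat_lit 0) (nat_lit 84) (XT.lf (nat_lit 924) (nat_lit 3740408407) (nat_lit 84) (nat_lit 1685697053) (nat_lit 0) (nat_lit 1685697053) (nat_lit 139) (nat_lit 1) (nat_lit 129) (nat_lit 1) (nat_lit 128)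 (nat_lit 0) (nat_lit 217) (nat_lit 252) (nat_lit 251)) (XT.lf (nat_lit 924) (nat_lit 1782622327) (nat_lit 0) (nat_lit 3377155454) (nat_lit 840) (nat_lit 1782622327) (nat_lit 140) (nat_lit 1) (nat_lit 129) (nat_lit 1) (nat_lit 139) (nat_lit 1) (nat_lit 218) (nat_lit 252) (nat_lit 250)))) (XT.nd (nat_lit 94) (nat_lit 0) (nat_lit 84) (XT.lf (nat_lit 924) (nat_lit 3343951785) (nat_lit 84) (nat_lit 1717259439) (nat_lit 0) (nat_lit 1717259439) (nat_lit 140) (nat_lit 1) (nat_lit 130) (nat_lit 1) (nat_lit 129) (nat_lit 1) (nat_lit 219) (nat_lit 252) (nat_lit 249)) (XT.nd (nat_lit 94) (nat_lit 0) (nat_lit 0) (XT.lf (nat_lit 924) (nat_lit 1539188894) (nat_lit 0) (nat_lit 3541359172) (nat_lit 840) (nat_lit 1539188894) (nat_lit 141) (nat_lit 1) (nat_lit 130) (nat_lit 1) (nat_lit 140) (nat_lit 1) (nat_lit 220) (nat_lit 252) (nat_lit 248)) (XT.lf (nat_lit 924) (nat_lit 2768331476) (nat_lit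 84) (nat_lit 1848755295) (nat_lit 0) (nat_lit 1848755295) (nat_lit 141) (nat_lit 1) (nat_lit 131) (nat_lit 1) (nat_lit 130) (nat_lit 1) (nat_lit 221) (nat_lit 252) (nat_lit 247))))) (XT.nd (nat_lit 282) (nat_lit 1260) (nat_lit 0) (XT.nd (nat_lit 94) (nat_lit 0) (nat_lit 0) (XT.lf (nat_lit 924) (nat_lit 1213833396) (nat_lit 0) (nat_lit 3889447639) (nat_lit 840) (nat_lit 1213833396) (nat_lit 142) (nat_lit 1) (nat_lit 131) (nat_lit 1) (nat_lit 141) (nat_lit 1) (nat_lit 222) (nat_lit 252) (nat_lit 246)) (XT.nd (nat_lit 94) (nat_lit 0) (nat_lit 84) (XT.lf (nat_lit 924) (nat_lit 2040491208) (nat_lit 84) (nat_lit 2065995283) (nat_lit 0) (nat_lit 2065995283) (nat_lit 142) (nat_lit 1) (nat_lit 132) (nat_lit 1) (nat_lit 131) (nat_lit 1) (nat_lit 223) (nat_lit 252) (nat_lit 245)) (XT.lf (nat_lit 924) (nat_lit 819150940) (nat_lit 0) (nat_lit 4394841619) (nat_lit 840) (nat_lit 819150940)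 (nat_lit 143) (nat_lit 1) (nat_lit 132) (nat_lit 1) (nat_lit 142) (nat_lit 1) (nat_lit 224) (nat_lit 252) (nat_lit 244)))) (XT.nd (nat_lit 188) (nat_lit 1344) (nat_lit 0) (XT.nd (nat_lit 94) (nat_lit 0) (nat_lit 84) (XT.lf (nat_lit 924) (nat_lit 1184379885) (nat_lit 84) (nat_lit 2356342521) (nat_lit 0) (nat_lit 2356342521) (nat_lit 143) (nat_lit 1) (nat_lit 133) (nat_lit 1) (nat_lit 132) (nat_lit 1) (nat_lit 225) (nat_lit 252) (nat_lit 243)) (XT.lf (nat_lit 84) (nat_lit 366328579) (nat_lit 0) (nat_lit 5033884553) (nat_lit 840) (nat_lit 366328579) (nat_lit 134) (nat_lit 1) (nat_lit 133) (nat_lit 1) (nat_lit 143) (nat_lit 1) (nat_lit 226) (nat_lit 252) (nat_lit 242))) (XT.nd (nat_lit 94) (nat_lit 588) (nat_lit 0) (XT.lf (nat_lit 924) (nat_lit 221253352) (nat_lit 0) (nat_lit 2708557132) (nat_lit 840) (nat_lit 2708557132) (nat_lit 134) (nat_lit 1) (nat_lit 123) (nat_lit 1) (nat_lit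 133) (nat_lit 1) (nat_lit 227) (nat_lit 252) (nat_lit 241)) (XT.lf (nat_lit 588) (nat_lit 5250620689) (nat_lit 0) (nat_lit 132539716) (nat_lit 504) (nat_lit 132539716) (nat_lit 123) (nat_lit 1) (nat_lit 116) (nat_lit 1) (nat_lit 122) (nat_lit 1) (nat_lit 228) (nat_lit 252) (nat_lit 240)))))) (XT.nd (nat_lit 658) (nat_lit 1764) (nat_lit 0) (XT.nd (nat_lit 282) (nat_lit 756) (nat_lit 0) (XT.nd (nat_lit 94) (nat_lit 420) (nat_lit 0) (XT.lf (nat_lit 84) (nat_lit 2295562226) (nat_lit 0) (nat_lit 803486141) (nat_lit 588) (nat_lit 2295562226) (nat_lit 117) (nat_lit 1) (nat_lit 116) (nat_lit 1) (nat_lit 123) (nat_lit 1) (nat_lit 229) (nat_lit 252) (nat_lit 239)) (XT.nd (nat_lit 94) (nat_lit 0) (nat_lit 0) (XT.lf (nat_lit 504) (nat_lit 3950073347) (nat_lit 0) (nat_lit 664298386) (nat_lit 420) (nat_lit 664298386) (nat_lit 117) (nat_lit 1) (nat_lit 111) (nat_lit 1) (nat_lit 116) (nat_lit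 1) (nat_lit 230) (nat_lit 252) (nat_lit 238)) (XT.lf (nat_lit 84) (nat_lit 1637396591) (nat_lit 0) (nat_lit 1890373850) (nat_lit 504) (nat_lit 1637396591) (nat_lit 112) (nat_lit 1) (nat_lit 111) (nat_lit 1) (nat_lit 117) (nat_lit 1) (nat_lit 231) (nat_lit 252) (nat_lit 237)))) (XT.nd (nat_lit 188) (nat_lit 336) (nat_lit 0) (XT.nd (nat_lit 94) (nat_lit 0) (nat_lit 0) (XT.lf (nat_lit 504) (nat_lit 2601179316) (nat_lit 0) (nat_lit 1227218819) (nat_lit 420) (nat_lit 1227218819) (nat_lit 112) (nat_lit 1) (nat_lit 106) (nat_lit 1) (nat_lit 111) (nat_lit 1) (nat_lit 232) (nat_lit 252) (nat_lit 236)) (XT.lf (nat_lit 84) (nat_lit 958500008) (nat_lit 0) (nat_lit 3032252947) (nat_lit 504) (nat_lit 958500008) (nat_lit 107) (nat_lit 1) (nat_lit 106) (nat_lit 1) (nat_lit 112) (nat_lit 1) (nat_lit 233) (nat_lit 252) (nat_lit 235))) (XT.nd (nat_lit 94) (nat_lit 0) (nat_lit 0) (XT.lf (nat_lit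 420) (nat_lit 1216493377) (nat_lit 0) (nat_lit 1814565813) (nat_lit 336) (nat_lit 1814565813) (nat_lit 107) (nat_lit 1) (nat_lit 102) (nat_lit 1) (nat_lit 106) (nat_lit 1) (nat_lit 234) (nat_lit 252) (nat_lit 234)) (XT.lf (nat_lit 84) (nat_lit 264700841) (nat_lit 0) (nat_lit 4216580383) (nat_lit 420) (nat_lit 264700841) (nat_lit 103) (nat_lit 1) (nat_lit 102) (nat_lit 1) (nat_lit 107) (nat_lit 1) (nat_lit 235) (nat_lit 252) (nat_lit 233))))) (XT.nd (nat_lit 282) (nat_lit 1008) (nat_lit 0) (XT.nd (nat_lit 94) (nat_lit 336) (nat_lit 0) (XT.lf (nat_lit 84) (nat_lit 2230445355) (nat_lit 0) (nat_lit 186804131) (nat_lit 420) (nat_lit 2230445355) (nat_lit 98) (nat_lit 1) (nat_lit 97) (nat_lit 1) (nat_lit 102) (nat_lit 1) (nat_lit 236) (nat_lit 252) (nat_lit 232)) (XT.nd (nat_lit 94) (nat_lit 0) (nat_lit 0) (XT.lf (nat_lit 420) (nat_lit 3689508362) (nat_lit 0) (nat_lit 431821135)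 (nat_lit 336) (nat_lit 431821135) (nat_lit 98) (nat_lit 1) (nat_lit 93) (nat_lit 1) (nat_lit 97) (nat_lit 1) (nat_lit 237) (nat_lit 252) (nat_lit 231)) (XT.lf (nat_lit 84) (nat_lit 1447187381) (nat_lit 0) (nat_lit 1565853590) (nat_lit 420) (nat_lit 1447187381) (nat_lit 94) (nat_lit 1) (nat_lit 93) (nat_lit 1) (nat_lit 98) (nat_lit 1) (nat_lit 238) (nat_lit 252) (nat_lit 230)))) (XT.nd (nat_lit 188) (nat_lit 672) (nat_lit 0) (XT.nd (nat_lit 94) (nat_lit 0) (nat_lit 0) (XT.lf (nat_lit 420) (nat_lit 2111848966) (nat_lit 0) (nat_lit 1129339662) (nat_lit 336) (nat_lit 1129339662) (nat_lit 94) (nat_lit 1) (nat_lit 89) (nat_lit 1) (nat_lit 93) (nat_lit 1) (nat_lit 239) (nat_lit 252) (nat_lit 229)) (XT.lf (nat_lit 84) (nat_lit 665982913) (nat_lit 0) (nat_lit 2951485239) (nat_lit 420) (nat_lit 665982913) (nat_lit 90) (nat_lit 1) (nat_lit 89) (nat_lit 1) (nat_lit 94) (nat_lit 1) (nat_lit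 240) (nat_lit 252) (nat_lit 228))) (XT.nd (nat_lit 94) (nat_lit 420) (nat_lit 0) (XT.lf (nat_lit 336) (nat_lit 541615380) (nat_lit 0) (nat_lit 1828319055) (nat_lit 252) (nat_lit 1828319055) (nat_lit 90) (nat_lit 1) (nat_lit 86) (nat_lit 1) (nat_lit 89) (nat_lit 1) (nat_lit 241) (nat_lit 252) (nat_lit 227)) (XT.lf (nat_lit 420) (nat_lit 3899913543) (nat_lit 0) (nat_lit 108215117) (nat_lit 336) (nat_lit 108215117) (nat_lit 86) (nat_lit 1) (nat_lit 81) (nat_lit 1) (nat_lit 85) (nat_lit 1) (nat_lit 242) (nat_lit 252) (nat_lit 226))))))) (XT.nd (nat_lit 1222) (nat_lit 1680) (nat_lit 0) (XT.nd (nat_lit 564) (nat_lit 924) (nat_lit 0) (XT.nd (nat_lit 282) (nat_lit 588) (nat_lit 0) (XT.nd (nat_lit 94) (nat_lit 252) (nat_lit 0) (XT.lf (nat_lit 84) (nat_lit 1526065001) (nat_lit 0) (nat_lit 982757425) (nat_lit 420) (nat_lit 1526065001) (nat_lit 82) (nat_lit 1) (nat_lit 81) (nat_lit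 1) (nat_lit 86) (nat_lit 1) (nat_lit 243) (nat_lit 252) (nat_lit 225)) (XT.nd (nat_lit 94) (nat_lit 0) (nat_lit 0) (XT.lf (nat_lit 336) (nat_lit 2228866179) (nat_lit 0) (nat_lit 863844482) (nat_lit 252) (nat_lit 863844482) (nat_lit 82) (nat_lit 1) (nat_lit 78) (nat_lit 1) (nat_lit 81) (nat_lit 1) (nat_lit 244) (nat_lit 252) (nat_lit 224)) (XT.lf (nat_lit 84) (nat_lit 704133303) (nat_lit 0) (nat_lit 2471946422) (nat_lit 336) (nat_lit 704133303) (nat_lit 79) (nat_lit 1) (nat_lit 78) (nat_lit 1) (nat_lit 82) (nat_lit 1) (nat_lit 245) (nat_lit 252) (nat_lit 223)))) (XT.nd (nat_lit 94) (nat_lit 336) (nat_lit 0) (XT.lf (nat_lit 336) (nat_lit 586873099) (nat_lit 0) (nat_lit 1609367287) (nat_lit 252) (nat_lit 1609367287) (nat_lit 79) (nat_lit 1) (nat_lit 75) (nat_lit 1) (nat_lit 78) (nat_lit 1) (nat_lit 246) (nat_lit 252) (nat_lit 222)) (XT.nd (nat_lit 94) (nat_lit 0) (nat_lit 0)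 (XT.lf (nat_lit 336) (nat_lit 3532053594) (nat_lit 0) (nat_lit 100860204) (nat_lit 252) (nat_lit 100860204) (nat_lit 75) (nat_lit 1) (nat_lit 71) (nat_lit 1) (nat_lit 74) (nat_lit 1) (nat_lit 247) (nat_lit 252) (nat_lit 221)) (XT.lf (nat_lit 84) (nat_lit 1336074723) (nat_lit 0) (nat_lit 990017954) (nat_lit 336) (nat_lit 1336074723) (nat_lit 72) (nat_lit 1) (nat_lit 71) (nat_lit 1) (nat_lit 75) (nat_lit 1) (nat_lit 248) (nat_lit 252) (nat_lit 220))))) (XT.nd (nat_lit 282) (nat_lit 504) (nat_lit 0) (XT.nd (nat_lit 94) (nat_lit 168) (nat_lit 0) (XT.lf (nat_lit 336) (nat_lit 1837225083) (nat_lit 0) (nat_lit 877992585) (nat_lit 252) (nat_lit 877992585) (nat_lit 72) (nat_lit 1) (nat_lit 68) (nat_lit 1) (nat_lit 71) (nat_lit 1) (nat_lit 249) (nat_lit 252) (nat_lit 219)) (XT.nd (nat_lit 94) (nat_lit 168) (nat_lit 0) (XT.lf (nat_lit 84) (nat_lit 505970289) (nat_lit 0) (nat_lit 2514161989)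 (nat_lit 336) (nat_lit 505970289) (nat_lit 69) (nat_lit 1) (nat_lit 68) (nat_lit 1) (nat_lit 72) (nat_lit 1) (nat_lit 250) (nat_lit 252) (nat_lit 218)) (XT.lf (nat_lit 252) (nat_lit 185404337) (nat_lit 0) (nat_lit 1637427574) (nat_lit 168) (nat_lit 1637427574) (nat_lit 69) (nat_lit 1) (nat_lit 66) (nat_lit 1) (nat_lit 68) (nat_lit 1) (nat_lit 251) (nat_lit 252) (nat_lit 217)))) (XT.nd (nat_lit 188) (nat_lit 168) (nat_lit 0) (XT.nd (nat_lit 94) (nat_lit 0) (nat_lit 0) (XT.lf (nat_lit 336) (nat_lit 2801397367) (nat_lit 0) (nat_lit 297528705) (nat_lit 252) (nat_lit 297528705) (nat_lit 66) (nat_lit 1) (nat_lit 62) (nat_lit 1) (nat_lit 65) (nat_lit 1) (nat_lit 252) (nat_lit 252) (nat_lit 216)) (XT.lf (nat_lit 84) (nat_lit 978461603) (nat_lit 0) (nat_lit 1376440458) (nat_lit 336) (nat_lit 978461603) (nat_lit 63) (nat_lit 1) (nat_lit 62) (nat_lit 1) (nat_lit 66) (nat_lit 1) (nat_lit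 253) (nat_lit 252) (nat_lit 215))) (XT.nd (nat_lit 94) (nat_lit 0) (nat_lit 0) (XT.lf (nat_lit 252) (nat_lit 1130461448) (nat_lit 0) (nat_lit 1070879133) (nat_lit 168) (nat_lit 1070879133) (nat_lit 63) (nat_lit 1) (nat_lit 60) (nat_lit 1) (nat_lit 62) (nat_lit 1) (nat_lit 254) (nat_lit 252) (nat_lit 214)) (XT.lf (nat_lit 84) (nat_lit 162411428) (nat_lit 0) (nat_lit 2888282043) (nat_lit 252) (nat_lit 162411428) (nat_lit 61) (nat_lit 1) (nat_lit 60) (nat_lit 1) (nat_lit 63) (nat_lit 1) (nat_lit 255) (nat_lit 252) (nat_lit 213)))))) (XT.nd (nat_lit 658) (nat_lit 672) (nat_lit 0) (XT.nd (nat_lit 282) (nat_lit 588) (nat_lit 0) (XT.nd (nat_lit 94) (nat_lit 168) (nat_lit 0) (XT.lf (nat_lit 84) (nat_lit 1340410014) (nat_lit 0) (nat_lit 473384941) (nat_lit 252) (nat_lit 1340410014) (nat_lit 58) (nat_lit 1) (nat_lit 57) (nat_lit 1) (nat_lit 60) (nat_lit 1) (nat_lit 256) (nat_lit 252)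 (nat_lit 212)) (XT.nd (nat_lit 94) (nat_lit 0) (nat_lit 0) (XT.lf (nat_lit 252) (nat_lit 1861394232) (nat_lit 0) (nat_lit 617932452) (nat_lit 168) (nat_lit 617932452) (nat_lit 58) (nat_lit 1) (nat_lit 55) (nat_lit 1) (nat_lit 57) (nat_lit 1) (nat_lit 257) (nat_lit 252) (nat_lit 211)) (XT.lf (nat_lit 84) (nat_lit 525237026) (nat_lit 0) (nat_lit 1991097879) (nat_lit 252) (nat_lit 525237026) (nat_lit 56) (nat_lit 1) (nat_lit 55) (nat_lit 1) (nat_lit 58) (nat_lit 1) (nat_lit 258) (nat_lit 252) (nat_lit 210)))) (XT.nd (nat_lit 188) (nat_lit 168) (nat_lit 0) (XT.nd (nat_lit 94) (nat_lit 252) (nat_lit 0) (XT.lf (nat_lit 252) (nat_lit 246054636) (nat_lit 0) (nat_lit 1370476299) (nat_lit 168) (nat_lit 1370476299) (nat_lit 56) (nat_lit 1) (nat_lit 53) (nat_lit 1) (nat_lit 55) (nat_lit 1) (nat_lit 259) (nat_lit 252) (nat_lit 209)) (XT.lf (nat_lit 252) (nat_lit 2418383928) (nat_lit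 0) (nat_lit 257819833) (nat_lit 168) (nat_lit 257819833) (nat_lit 53) (nat_lit 1) (nat_lit 50) (nat_lit 1) (nat_lit 52) (nat_lit 1) (nat_lit 260) (nat_lit 252) (nat_lit 208))) (XT.nd (nat_lit 94) (nat_lit 168) (nat_lit 0) (XT.lf (nat_lit 84) (nat_lit 805085936) (nat_lit 0) (nat_lit 1271320290) (nat_lit 252) (nat_lit 805085936) (nat_lit 51) (nat_lit 1) (nat_lit 50) (nat_lit 1) (nat_lit 53) (nat_lit 1) (nat_lit 261) (nat_lit 252) (nat_lit 207)) (XT.lf (nat_lit 252) (nat_lit 819940938) (nat_lit 0) (nat_lit 1005272426) (nat_lit 168) (nat_lit 1005272426) (nat_lit 51) (nat_lit 1) (nat_lit 48) (nat_lit 1) (nat_lit 50) (nat_lit 1) (nat_lit 262) (nat_lit 252) (nat_lit 206))))) (XT.nd (nat_lit 282) (nat_lit 336) (nat_lit 0) (XT.nd (nat_lit 94) (nat_lit 336) (nat_lit 0) (XT.lf (nat_lit 84) (nat_lit 26949197) (nat_lit 0) (nat_lit 2727369821) (nat_lit 252) (nat_lit 26949197) (nat_lit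 49) (nat_lit 1) (nat_lit 48) (nat_lit 1) (nat_lit 51) (nat_lit 1) (nat_lit 263) (nat_lit 252) (nat_lit 205)) (XT.nd (nat_lit 94) (nat_lit 168) (nat_lit 0) (XT.lf (nat_lit 84) (nat_lit 1017557749) (nat_lit 0) (nat_lit 696622289) (nat_lit 168) (nat_lit 1017557749) (nat_lit 47) (nat_lit 1) (nat_lit 46) (nat_lit 1) (nat_lit 48) (nat_lit 1) (nat_lit 264) (nat_lit 252) (nat_lit 204)) (XT.lf (nat_lit 252) (nat_lit 1262673325) (nat_lit 0) (nat_lit 710638382) (nat_lit 168) (nat_lit 710638382) (nat_lit 47) (nat_lit 1) (nat_lit 44) (nat_lit 1) (nat_lit 46) (nat_lit 1) (nat_lit 265) (nat_lit 252) (nat_lit 203)))) (XT.nd (nat_lit 188) (nat_lit 168) (nat_lit 0) (XT.nd (nat_lit 94) (nat_lit 168) (nat_lit 0) (XT.lf (nat_lit 84) (nat_lit 253157275) (nat_lit 0) (nat_lit 2131137753) (nat_lit 252) (nat_lit 253157275) (nat_lit 45) (nat_lit 1) (nat_lit 44) (nat_lit 1) (nat_lit 47) (nat_lit 1)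 (nat_lit 266) (nat_lit 252) (nat_lit 202)) (XT.lf (nat_lit 84) (nat_lit 1175443999) (nat_lit 0) (nat_lit 240449968) (nat_lit 168) (nat_lit 1175443999) (nat_lit 43) (nat_lit 1) (nat_lit 42) (nat_lit 1) (nat_lit 44) (nat_lit 1) (nat_lit 267) (nat_lit 252) (nat_lit 201))) (XT.nd (nat_lit 94) (nat_lit 0) (nat_lit 0) (XT.lf (nat_lit 252) (nat_lit 1598905313) (nat_lit 0) (nat_lit 473785165) (nat_lit 168) (nat_lit 473785165) (nat_lit 43) (nat_lit 1) (nat_lit 40) (nat_lit 1) (nat_lit 42) (nat_lit 1) (nat_lit 268) (nat_lit 252) (nat_lit 200)) (XT.lf (nat_lit 84) (nat_lit 428259882) (nat_lit 0) (nat_lit 1645981686) (nat_lit 252) (nat_lit 428259882) (nat_lit 41) (nat_lit 1) (nat_lit 40) (nat_lit 1) (nat_lit 43) (nat_lit 1) (nat_lit 269) (nat_lit 252) (nat_lit 199))))))))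
noncomputable def ec50 : XT := (XT.nd (nat_lit 2538) (nat_lit 924) (nat_lit 0) (XT.nd (nat_lit 1222) (nat_lit 1092) (nat_lit 0) (XT.nd (nat_lit 564) (nat_lit 672) (nat_lit 0) (XT.nd (nat_lit 282) (nat_lit 336) (nat_lit 0) (XT.nd (nat_lit 94) (nat_lit 252) (nat_lit 0) (XT.lf (nat_lit 168) (nat_lit 122937816) (nat_lit 0) (nat_lit 1168209628) (nat_lit 84) (nat_lit 1168209628) (nat_lit 41) (nat_lit 1) (nat_lit 39) (nat_lit 1) (nat_lit 40) (nat_lit 1) (nat_lit 270) (nat_lit 252) (nat_lit 198)) (XT.nd (nat_lit 94) (nat_lit 0) (nat_lit 0) (XT.lf (nat_lit 252) (nat_lit 1848852733) (nat_lit 0) (nat_lit 284204426) (nat_lit 168) (nat_lit 284204426) (nat_lit 39) (nat_lit 1) (nat_lit 36) (nat_lit 1) (nat_lit 38) (nat_lit 1) (nat_lit 271) (nat_lit 252) (nat_lit 197)) (XT.lf (nat_lit 84) (nat_lit 561841670) (nat_lit 0) (nat_lit 1251952619) (nat_lit 252) (nat_lit 561841670) (nat_lit 37)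 (nat_lit 1) (nat_lit 36) (nat_lit 1) (nat_lit 39) (nat_lit 1) (nat_lit 272) (nat_lit 252) (nat_lit 196)))) (XT.nd (nat_lit 94) (nat_lit 252) (nat_lit 0) (XT.lf (nat_lit 168) (nat_lit 412853039) (nat_lit 0) (nat_lit 961088952) (nat_lit 84) (nat_lit 961088952) (nat_lit 37) (nat_lit 1) (nat_lit 35) (nat_lit 1) (nat_lit 36) (nat_lit 1) (nat_lit 273) (nat_lit 252) (nat_lit 195)) (XT.nd (nat_lit 94) (nat_lit 0) (nat_lit 0) (XT.lf (nat_lit 252) (nat_lit 2029083695) (nat_lit 0) (nat_lit 133263494) (nat_lit 168) (nat_lit 133263494) (nat_lit 35) (nat_lit 1) (nat_lit 32) (nat_lit 1) (nat_lit 34) (nat_lit 1) (nat_lit 274) (nat_lit 252) (nat_lit 194)) (XT.lf (nat_lit 84) (nat_lit 661763013) (nat_lit 0) (nat_lit 932650624) (nat_lit 252) (nat_lit 661763013) (nat_lit 33) (nat_lit 1) (nat_lit 32) (nat_lit 1) (nat_lit 35) (nat_lit 1) (nat_lit 275) (nat_lit 252) (nat_lit 193))))) (XT.nd (nat_lit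 282) (nat_lit 336) (nat_lit 0) (XT.nd (nat_lit 94) (nat_lit 252) (nat_lit 0) (XT.lf (nat_lit 168) (nat_lit 636523591) (nat_lit 0) (nat_lit 790690259) (nat_lit 84) (nat_lit 790690259) (nat_lit 33) (nat_lit 1) (nat_lit 31) (nat_lit 1) (nat_lit 32) (nat_lit 1) (nat_lit 276) (nat_lit 252) (nat_lit 192)) (XT.nd (nat_lit 94) (nat_lit 0) (nat_lit 0) (XT.lf (nat_lit 252) (nat_lit 2153168345) (nat_lit 0) (nat_lit 13872214) (nat_lit 168) (nat_lit 13872214) (nat_lit 31) (nat_lit 1) (nat_lit 28) (nat_lit 1) (nat_lit 30) (nat_lit 1) (nat_lit 277) (nat_lit 252) (nat_lit 191)) (XT.lf (nat_lit 84) (nat_lit 734466908) (nat_lit 0) (nat_lit 674595031) (nat_lit 252) (nat_lit 734466908) (nat_lit 29) (nat_lit 1) (nat_lit 28) (nat_lit 1) (nat_lit 31) (nat_lit 1) (nat_lit 278) (nat_lit 252) (nat_lit 190)))) (XT.nd (nat_lit 188) (nat_lit 252) (nat_lit 0) (XT.nd (nat_lit 94) (nat_lit 0) (nat_lit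 0) (XT.lf (nat_lit 168) (nat_lit 806401319) (nat_lit 0) (nat_lit 650502833) (nat_lit 84) (nat_lit 650502833) (nat_lit 29) (nat_lit 1) (nat_lit 27) (nat_lit 1) (nat_lit 28) (nat_lit 1) (nat_lit 279) (nat_lit 252) (nat_lit 189)) (XT.lf (nat_lit 0) (nat_lit 81099147) (nat_lit 0) (nat_lit 1910177408) (nat_lit 168) (nat_lit 81099147) (nat_lit 27) (nat_lit 3) (nat_lit 27) (nat_lit 1) (nat_lit 29) (nat_lit 1) (nat_lit 280) (nat_lit 252) (nat_lit 188))) (XT.nd (nat_lit 94) (nat_lit 84) (nat_lit 0) (XT.lf (nat_lit 84) (nat_lit 785231399) (nat_lit 0) (nat_lit 466706291) (nat_lit 168) (nat_lit 785231399) (nat_lit 26) (nat_lit 1) (nat_lit 25) (nat_lit 1) (nat_lit 27) (nat_lit 1) (nat_lit 281) (nat_lit 252) (nat_lit 187)) (XT.lf (nat_lit 168) (nat_lit 932696727) (nat_lit 0) (nat_lit 535170290) (nat_lit 84) (nat_lit 535170290) (nat_lit 26) (nat_lit 1) (nat_lit 24) (nat_lit 1) (nat_lit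 25) (nat_lit 1) (nat_lit 282) (nat_lit 252) (nat_lit 186)))))) (XT.nd (nat_lit 658) (nat_lit 588) (nat_lit 0) (XT.nd (nat_lit 282) (nat_lit 252) (nat_lit 0) (XT.nd (nat_lit 94) (nat_lit 252) (nat_lit 0) (XT.lf (nat_lit 0) (nat_lit 155005179) (nat_lit 0) (nat_lit 1659792391) (nat_lit 168) (nat_lit 155005179) (nat_lit 24) (nat_lit 3) (nat_lit 24) (nat_lit 1) (nat_lit 26) (nat_lit 1) (nat_lit 283) (nat_lit 252) (nat_lit 185)) (XT.nd (nat_lit 94) (nat_lit 84) (nat_lit 0) (XT.lf (nat_lit 84) (nat_lit 818377202) (nat_lit 0) (nat_lit 299879744) (nat_lit 168) (nat_lit 818377202) (nat_lit 23) (nat_lit 1) (nat_lit 22) (nat_lit 1) (nat_lit 24) (nat_lit 1) (nat_lit 284) (nat_lit 252) (nat_lit 184)) (XT.lf (nat_lit 168) (nat_lit 1023777969) (nat_lit 0) (nat_lit 440285922) (nat_lit 84) (nat_lit 440285922) (nat_lit 23) (nat_lit 1) (nat_lit 21) (nat_lit 1) (nat_lit 22) (nat_lit 1) (nat_lit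 285) (nat_lit 252) (nat_lit 183)))) (XT.nd (nat_lit 188) (nat_lit 84) (nat_lit 0) (XT.nd (nat_lit 94) (nat_lit 168) (nat_lit 0) (XT.lf (nat_lit 0) (nat_lit 211603821) (nat_lit 0) (nat_lit 1449595985) (nat_lit 168) (nat_lit 211603821) (nat_lit 21) (nat_lit 3) (nat_lit 21) (nat_lit 1) (nat_lit 23) (nat_lit 1) (nat_lit 286) (nat_lit 252) (nat_lit 182)) (XT.lf (nat_lit 84) (nat_lit 837438461) (nat_lit 0) (nat_lit 166634972) (nat_lit 168) (nat_lit 837438461) (nat_lit 20) (nat_lit 1) (nat_lit 19) (nat_lit 1) (nat_lit 21) (nat_lit 1) (nat_lit 287) (nat_lit 252) (nat_lit 181))) (XT.nd (nat_lit 94) (nat_lit 0) (nat_lit 0) (XT.lf (nat_lit 168) (nat_lit 1086499015) (nat_lit 0) (nat_lit 362224318) (nat_lit 84) (nat_lit 362224318) (nat_lit 20) (nat_lit 1) (nat_lit 18) (nat_lit 1) (nat_lit 19) (nat_lit 1) (nat_lit 288) (nat_lit 252) (nat_lit 180)) (XT.lf (nat_lit 0) (nat_lit 254163822)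 (nat_lit 0) (nat_lit 1272663039) (nat_lit 168) (nat_lit 254163822) (nat_lit 18) (nat_lit 3) (nat_lit 18) (nat_lit 1) (nat_lit 20) (nat_lit 1) (nat_lit 289) (nat_lit 252) (nat_lit 179))))) (XT.nd (nat_lit 282) (nat_lit 336) (nat_lit 0) (XT.nd (nat_lit 94) (nat_lit 84) (nat_lit 0) (XT.lf (nat_lit 84) (nat_lit 845303181) (nat_lit 0) (nat_lit 60827352) (nat_lit 168) (nat_lit 845303181) (nat_lit 17) (nat_lit 1) (nat_lit 16) (nat_lit 1) (nat_lit 18) (nat_lit 1) (nat_lit 290) (nat_lit 252) (nat_lit 178)) (XT.nd (nat_lit 94) (nat_lit 0) (nat_lit 0) (XT.lf (nat_lit 168) (nat_lit 1126469568) (nat_lit 0) (nat_lit 298002843) (nat_lit 84) (nat_lit 298002843) (nat_lit 17) (nat_lit 1) (nat_lit 15) (nat_lit 1) (nat_lit 16) (nat_lit 1) (nat_lit 291) (nat_lit 252) (nat_lit 177)) (XT.lf (nat_lit 0) (nat_lit 285364857) (nat_lit 0) (nat_lit 1123286684) (nat_lit 168) (nat_lit 285364857) (nat_lit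 15) (nat_lit 3) (nat_lit 15) (nat_lit 1) (nat_lit 17) (nat_lit 1) (nat_lit 292) (nat_lit 252) (nat_lit 176)))) (XT.nd (nat_lit 188) (nat_lit 84) (nat_lit 0) (XT.nd (nat_lit 94) (nat_lit 168) (nat_lit 0) (XT.lf (nat_lit 84) (nat_lit 23336138) (nat_lit 0) (nat_lit 821356925) (nat_lit 84) (nat_lit 821356925) (nat_lit 15) (nat_lit 3) (nat_lit 14) (nat_lit 1) (nat_lit 15) (nat_lit 1) (nat_lit 293) (nat_lit 252) (nat_lit 175)) (XT.lf (nat_lit 168) (nat_lit 1148277053) (nat_lit 0) (nat_lit 245167676) (nat_lit 84) (nat_lit 245167676) (nat_lit 14) (nat_lit 1) (nat_lit 12) (nat_lit 1) (nat_lit 13) (nat_lit 1) (nat_lit 294) (nat_lit 252) (nat_lit 174))) (XT.nd (nat_lit 94) (nat_lit 84) (nat_lit 0) (XT.lf (nat_lit 0) (nat_lit 307402424) (nat_lit 0) (nat_lit 996762784) (nat_lit 168) (nat_lit 307402424) (nat_lit 12) (nat_lit 3) (nat_lit 12) (nat_lit 1) (nat_lit 14) (nat_lit 1) (nat_lit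 295) (nat_lit 252) (nat_lit 173)) (XT.lf (nat_lit 84) (nat_lit 90659264) (nat_lit 0) (nat_lit 747192940) (nat_lit 84) (nat_lit 747192940) (nat_lit 12) (nat_lit 3) (nat_lit 11) (nat_lit 1) (nat_lit 12) (nat_lit 1) (nat_lit 296) (nat_lit 252) (nat_lit 172))))))) (XT.nd (nat_lit 1222) (nat_lit 0) (nat_lit 0) (XT.nd (nat_lit 564) (nat_lit 420) (nat_lit 0) (XT.nd (nat_lit 282) (nat_lit 252) (nat_lit 0) (XT.nd (nat_lit 94) (nat_lit 84) (nat_lit 0) (XT.lf (nat_lit 168) (nat_lit 1155669184) (nat_lit 0) (nat_lit 201700054) (nat_lit 84) (nat_lit 201700054) (nat_lit 11) (nat_lit 1) (nat_lit 9) (nat_lit 1) (nat_lit 10) (nat_lit 1) (nat_lit 297) (nat_lit 252) (nat_lit 171)) (XT.nd (nat_lit 94) (nat_lit 84) (nat_lit 0) (XT.lf (nat_lit 0) (nat_lit 322074116) (nat_lit 0) (nat_lit 889212590) (nat_lit 168) (nat_lit 322074116) (nat_lit 9) (nat_lit 3) (nat_lit 9) (nat_lit 1) (nat_lit 11) (nat_lit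 1) (nat_lit 298) (nat_lit 252) (nat_lit 170)) (XT.lf (nat_lit 84) (nat_lit 142643282) (nat_lit 0) (nat_lit 682775162) (nat_lit 84) (nat_lit 682775162) (nat_lit 9) (nat_lit 3) (nat_lit 8) (nat_lit 1) (nat_lit 9) (nat_lit 1) (nat_lit 299) (nat_lit 252) (nat_lit 169)))) (XT.nd (nat_lit 94) (nat_lit 84) (nat_lit 0) (XT.lf (nat_lit 168) (nat_lit 1151704099) (nat_lit 0) (nat_lit 165939133) (nat_lit 84) (nat_lit 165939133) (nat_lit 8) (nat_lit 1) (nat_lit 6) (nat_lit 1) (nat_lit 7) (nat_lit 1) (nat_lit 300) (nat_lit 252) (nat_lit 168)) (XT.nd (nat_lit 94) (nat_lit 84) (nat_lit 0) (XT.lf (nat_lit 0) (nat_lit 330850582) (nat_lit 0) (nat_lit 797436809) (nat_lit 168) (nat_lit 330850582) (nat_lit 6) (nat_lit 3) (nat_lit 6) (nat_lit 1) (nat_lit 8) (nat_lit 1) (nat_lit 301) (nat_lit 252) (nat_lit 167)) (XT.lf (nat_lit 84) (nat_lit 182169820) (nat_lit 0) (nat_lit 626537654) (nat_lit 84)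 (nat_lit 626537654) (nat_lit 6) (nat_lit 3) (nat_lit 5) (nat_lit 1) (nat_lit 6) (nat_lit 1) (nat_lit 302) (nat_lit 252) (nat_lit 166))))) (XT.nd (nat_lit 282) (nat_lit 168) (nat_lit 0) (XT.nd (nat_lit 94) (nat_lit 84) (nat_lit 0) (XT.lf (nat_lit 168) (nat_lit 1138873814) (nat_lit 0) (nat_lit 136518535) (nat_lit 84) (nat_lit 136518535) (nat_lit 5) (nat_lit 1) (nat_lit 3) (nat_lit 1) (nat_lit 4) (nat_lit 1) (nat_lit 303) (nat_lit 252) (nat_lit 165)) (XT.nd (nat_lit 94) (nat_lit 84) (nat_lit 0) (XT.lf (nat_lit 0) (nat_lit 334933888) (nat_lit 0) (nat_lit 718795531) (nat_lit 168) (nat_lit 334933888) (nat_lit 3) (nat_lit 3) (nat_lit 3) (nat_lit 1) (nat_lit 5) (nat_lit 1) (nat_lit 304) (nat_lit 252) (nat_lit 164)) (XT.lf (nat_lit 84) (nat_lit 211601884) (nat_lit 0) (nat_lit 577184402) (nat_lit 84) (nat_lit 577184402) (nat_lit 3) (nat_lit 3) (nat_lit 2) (nat_lit 1) (nat_lit 3) (nat_lit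 1) (nat_lit 305) (nat_lit 252) (nat_lit 163)))) (XT.nd (nat_lit 188) (nat_lit 0) (nat_lit 0) (XT.nd (nat_lit 94) (nat_lit 0) (nat_lit 0) (XT.lf (nat_lit 0) (nat_lit 1952171558) (nat_lit 0) (nat_lit 0) (nat_lit 0) (nat_lit 0) (nat_lit 0) (nat_lit 0) (nat_lit 1) (nat_lit 0) (nat_lit 1) (nat_lit 0) (nat_lit 306) (nat_lit 252) (nat_lit 162)) (XT.lf (nat_lit 0) (nat_lit 1951034153) (nat_lit 0) (nat_lit 0) (nat_lit 0) (nat_lit 0) (nat_lit 0) (nat_lit 0) (nat_lit 1) (nat_lit 0) (nat_lit 1) (nat_lit 0) (nat_lit 307) (nat_lit 252) (nat_lit 161))) (XT.nd (nat_lit 94) (nat_lit 0) (nat_lit 0) (XT.lf (nat_lit 0) (nat_lit 1949950909) (nat_lit 0) (nat_lit 0) (nat_lit 0) (nat_lit 0) (nat_lit 0) (nat_lit 0) (nat_lit 1) (nat_lit 0) (nat_lit 1) (nat_lit 0) (nat_lit 308) (nat_lit 252) (nat_lit 160)) (XT.lf (nat_lit 0) (nat_lit 1948919249) (nat_lit 0) (nat_lit 0) (nat_lit 0) (nat_lit 0) (nat_lit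 0) (nat_lit 0) (nat_lit 1) (nat_lit 0) (nat_lit 1) (nat_lit 0) (nat_lit 309) (nat_lit 252) (nat_lit 159)))))) (XT.nd (nat_lit 658) (nat_lit 0) (nat_lit 0) (XT.nd (nat_lit 282) (nat_lit 0) (nat_lit 0) (XT.nd (nat_lit 94) (nat_lit 0) (nat_lit 0) (XT.lf (nat_lit 0) (nat_lit 1947936716) (nat_lit 0) (nat_lit 0) (nat_lit 0) (nat_lit 0) (nat_lit 0) (nat_lit 0) (nat_lit 1) (nat_lit 0) (nat_lit 1) (nat_lit 0) (nat_lit 310) (nat_lit 252) (nat_lit 158)) (XT.nd (nat_lit 94) (nat_lit 0) (nat_lit 0) (XT.lf (nat_lit 0) (nat_lit 1947000970) (nat_lit 0) (nat_lit 0) (nat_lit 0) (nat_lit 0) (nat_lit 0) (nat_lit 0) (nat_lit 1) (nat_lit 0) (nat_lit 1) (nat_lit 0) (nat_lit 311) (nat_lit 252) (nat_lit 157)) (XT.lf (nat_lit 0) (nat_lit 1946109783) (nat_lit 0) (nat_lit 0) (nat_lit 0) (nat_lit 0) (nat_lit 0) (nat_lit 0) (nat_lit 1) (nat_lit 0) (nat_lit 1) (nat_lit 0) (nat_lit 312) (nat_lit 252) (nat_lit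 156)))) (XT.nd (nat_lit 188) (nat_lit 0) (nat_lit 0) (XT.nd (nat_lit 94) (nat_lit 0) (nat_lit 0) (XT.lf (nat_lit 0) (nat_lit 1945261034) (nat_lit 0) (nat_lit 0) (nat_lit 0) (nat_lit 0) (nat_lit 0) (nat_lit 0) (nat_lit 1) (nat_lit 0) (nat_lit 1) (nat_lit 0) (nat_lit 313) (nat_lit 252) (nat_lit 155)) (XT.lf (nat_lit 0) (nat_lit 1944452701) (nat_lit 0) (nat_lit 0) (nat_lit 0) (nat_lit 0) (nat_lit 0) (nat_lit 0) (nat_lit 1) (nat_lit 0) (nat_lit 1) (nat_lit 0) (nat_lit 314) (nat_lit 252) (nat_lit 154))) (XT.nd (nat_lit 94) (nat_lit 0) (nat_lit 0) (XT.lf (nat_lit 0) (nat_lit 1943682860) (nat_lit 0) (nat_lit 0) (nat_lit 0) (nat_lit 0) (nat_lit 0) (nat_lit 0) (nat_lit 1) (nat_lit 0) (nat_lit 1) (nat_lit 0) (nat_lit 315) (nat_lit 252) (nat_lit 153)) (XT.lf (nat_lit 0) (nat_lit 1942949679) (nat_lit 0) (nat_lit 0) (nat_lit 0) (nat_lit 0) (nat_lit 0) (nat_lit 0) (nat_lit 1) (nat_lit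 0) (nat_lit 1) (nat_lit 0) (nat_lit 316) (nat_lit 252) (nat_lit 152))))) (XT.nd (nat_lit 282) (nat_lit 0) (nat_lit 0) (XT.nd (nat_lit 94) (nat_lit 0) (nat_lit 0) (XT.lf (nat_lit 0) (nat_lit 1942251410) (nat_lit 0) (nat_lit 0) (nat_lit 0) (nat_lit 0) (nat_lit 0) (nat_lit 0) (nat_lit 1) (nat_lit 0) (nat_lit 1) (nat_lit 0) (nat_lit 317) (nat_lit 252) (nat_lit 151)) (XT.nd (nat_lit 94) (nat_lit 0) (nat_lit 0) (XT.lf (nat_lit 0) (nat_lit 1941586393) (nat_lit 0) (nat_lit 0) (nat_lit 0) (nat_lit 0) (nat_lit 0) (nat_lit 0) (nat_lit 1) (nat_lit 0) (nat_lit 1) (nat_lit 0) (nat_lit 318) (nat_lit 252) (nat_lit 150)) (XT.lf (nat_lit 0) (nat_lit 1940953043) (nat_lit 0) (nat_lit 0) (nat_lit 0) (nat_lit 0) (nat_lit 0) (nat_lit 0) (nat_lit 1) (nat_lit 0) (nat_lit 1) (nat_lit 0) (nat_lit 319) (nat_lit 252) (nat_lit 149)))) (XT.nd (nat_lit 188) (nat_lit 0) (nat_lit 0) (XT.nd (nat_lit 94) (nat_lit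 0) (nat_lit 0) (XT.lf (nat_lit 0) (nat_lit 1940349853) (nat_lit 0) (nat_lit 0) (nat_lit 0) (nat_lit 0) (nat_lit 0) (nat_lit 0) (nat_lit 1) (nat_lit 0) (nat_lit 1) (nat_lit 0) (nat_lit 320) (nat_lit 252) (nat_lit 148)) (XT.lf (nat_lit 0) (nat_lit 1939775386) (nat_lit 0) (nat_lit 0) (nat_lit 0) (nat_lit 0) (nat_lit 0) (nat_lit 0) (nat_lit 1) (nat_lit 0) (nat_lit 1) (nat_lit 0) (nat_lit 321) (nat_lit 252) (nat_lit 147))) (XT.nd (nat_lit 94) (nat_lit 0) (nat_lit 0) (XT.lf (nat_lit 0) (nat_lit 1939228275) (nat_lit 0) (nat_lit 0) (nat_lit 0) (nat_lit 0) (nat_lit 0) (nat_lit 0) (nat_lit 1) (nat_lit 0) (nat_lit 1) (nat_lit 0) (nat_lit 322) (nat_lit 252) (nat_lit 146)) (XT.lf (nat_lit 0) (nat_lit 1938707216) (nat_lit 0) (nat_lit 0) (nat_lit 0) (nat_lit 0) (nat_lit 0) (nat_lit 0) (nat_lit 1) (nat_lit 0) (nat_lit 1) (nat_lit 0) (nat_lit 323) (nat_lit 252) (nat_lit 145))))))))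
noncomputable def ec51 : XT := (XT.nd (nat_lit 37318) (nat_lit 0) (nat_lit 3360) (XT.nd (nat_lit 36002) (nat_lit 0) (nat_lit 7224) (XT.nd (nat_lit 35344) (nat_lit 0) (nat_lit 10332) (XT.nd (nat_lit 35062) (nat_lit 0) (nat_lit 10836) (XT.nd (nat_lit 34874) (nat_lit 0) (nat_lit 10752) (XT.lf (nat_lit 0) (nat_lit 1938210970) (nat_lit 0) (nat_lit 0) (nat_lit 0) (nat_lit 0) (nat_lit 0) (nat_lit 0) (nat_lit 1) (nat_lit 0) (nat_lit 1) (nat_lit 0) (nat_lit 324) (nat_lit 252) (nat_lit 144)) (XT.nd (nat_lit 94) (nat_lit 0) (nat_lit 0) (XT.lf (nat_lit 924) (nat_lit 1013235895) (nat_lit 0) (nat_lit 1798998003) (nat_lit 924) (nat_lit 1013235895) (nat_lit 139) (nat_lit 1) (nat_lit 128) (nat_lit 0) (nat_lit 139) (nat_lit 0) (nat_lit 214) (nat_lit 253) (nat_lit 253)) (XT.lf (nat_lit 924) (nat_lit 3927428827) (nat_lit 84) (nat_lit 1769981906) (nat_lit 0) (nat_lit 1769981906) (nat_lit 139)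 (nat_lit 1) (nat_lit 129) (nat_lit 1) (nat_lit 128) (nat_lit 0) (nat_lit 215) (nat_lit 253) (nat_lit 252)))) (XT.nd (nat_lit 94) (nat_lit 0) (nat_lit 0) (XT.lf (nat_lit 924) (nat_lit 1871753444) (nat_lit 0) (nat_lit 3546013227) (nat_lit 840) (nat_lit 1871753444) (nat_lit 140) (nat_lit 1) (nat_lit 129) (nat_lit 1) (nat_lit 139) (nat_lit 1) (nat_lit 216) (nat_lit 253) (nat_lit 251)) (XT.nd (nat_lit 94) (nat_lit 0) (nat_lit 84) (XT.lf (nat_lit 924) (nat_lit 3511149374) (nat_lit 84) (nat_lit 1803122411) (nat_lit 0) (nat_lit 1803122411) (nat_lit 140) (nat_lit 1) (nat_lit 130) (nat_lit 1) (nat_lit 129) (nat_lit 1) (nat_lit 217) (nat_lit 253) (nat_lit 250)) (XT.lf (nat_lit 924) (nat_lit 1616148339) (nat_lit 0) (nat_lit 3718427131) (nat_lit 840) (nat_lit 1616148339) (nat_lit 141) (nat_lit 1) (nat_lit 130) (nat_lit 1) (nat_lit 140) (nat_lit 1) (nat_lit 218) (nat_lit 253) (nat_lit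 249))))) (XT.nd (nat_lit 282) (nat_lit 588) (nat_lit 0) (XT.nd (nat_lit 94) (nat_lit 0) (nat_lit 84) (XT.lf (nat_lit 924) (nat_lit 2906748050) (nat_lit 84) (nat_lit 1941193059) (nat_lit 0) (nat_lit 1941193059) (nat_lit 141) (nat_lit 1) (nat_lit 131) (nat_lit 1) (nat_lit 130) (nat_lit 1) (nat_lit 219) (nat_lit 253) (nat_lit 248)) (XT.nd (nat_lit 94) (nat_lit 0) (nat_lit 0) (XT.lf (nat_lit 924) (nat_lit 1274525065) (nat_lit 0) (nat_lit 4083920020) (nat_lit 840) (nat_lit 1274525065) (nat_lit 142) (nat_lit 1) (nat_lit 131) (nat_lit 1) (nat_lit 141) (nat_lit 1) (nat_lit 220) (nat_lit 253) (nat_lit 247)) (XT.lf (nat_lit 924) (nat_lit 2142515768) (nat_lit 84) (nat_lit 2169295048) (nat_lit 0) (nat_lit 2169295048) (nat_lit 142) (nat_lit 1) (nat_lit 132) (nat_lit 1) (nat_lit 131) (nat_lit 1) (nat_lit 221) (nat_lit 253) (nat_lit 246)))) (XT.nd (nat_lit 188) (nat_lit 756) (nat_lit 0)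 (XT.nd (nat_lit 94) (nat_lit 0) (nat_lit 0) (XT.lf (nat_lit 924) (nat_lit 860108488) (nat_lit 0) (nat_lit 4614583700) (nat_lit 840) (nat_lit 860108488) (nat_lit 143) (nat_lit 1) (nat_lit 132) (nat_lit 1) (nat_lit 142) (nat_lit 1) (nat_lit 222) (nat_lit 253) (nat_lit 245)) (XT.lf (nat_lit 924) (nat_lit 1243598880) (nat_lit 84) (nat_lit 2474159647) (nat_lit 0) (nat_lit 2474159647) (nat_lit 143) (nat_lit 1) (nat_lit 133) (nat_lit 1) (nat_lit 132) (nat_lit 1) (nat_lit 223) (nat_lit 253) (nat_lit 244))) (XT.nd (nat_lit 94) (nat_lit 840) (nat_lit 0) (XT.lf (nat_lit 84) (nat_lit 384645008) (nat_lit 0) (nat_lit 5285578780) (nat_lit 840) (nat_lit 384645008) (nat_lit 134) (nat_lit 1) (nat_lit 133) (nat_lit 1) (nat_lit 143) (nat_lit 1) (nat_lit 224) (nat_lit 253) (nat_lit 243)) (XT.lf (nat_lit 924) (nat_lit 232316019) (nat_lit 0) (nat_lit 2843984989) (nat_lit 840) (nat_lit 2843984989)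 (nat_lit 134) (nat_lit 1) (nat_lit 123) (nat_lit 1) (nat_lit 133) (nat_lit 1) (nat_lit 225) (nat_lit 253) (nat_lit 242)))))) (XT.nd (nat_lit 658) (nat_lit 1344) (nat_lit 0) (XT.nd (nat_lit 282) (nat_lit 756) (nat_lit 0) (XT.nd (nat_lit 94) (nat_lit 420) (nat_lit 0) (XT.lf (nat_lit 588) (nat_lit 5513151723) (nat_lit 0) (nat_lit 139166701) (nat_lit 504) (nat_lit 139166701) (nat_lit 123) (nat_lit 1) (nat_lit 116) (nat_lit 1) (nat_lit 122) (nat_lit 1) (nat_lit 226) (nat_lit 253) (nat_lit 241)) (XT.nd (nat_lit 94) (nat_lit 420) (nat_lit 0) (XT.lf (nat_lit 84) (nat_lit 2410340338) (nat_lit 0) (nat_lit 843660448) (nat_lit 588) (nat_lit 2410340338) (nat_lit 117) (nat_lit 1) (nat_lit 116) (nat_lit 1) (nat_lit 123) (nat_lit 1) (nat_lit 227) (nat_lit 253) (nat_lit 240)) (XT.lf (nat_lit 504) (nat_lit 4147577014) (nat_lit 0) (nat_lit 697513305) (nat_lit 420) (nat_lit 697513305) (nat_lit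 117) (nat_lit 1) (nat_lit 111) (nat_lit 1) (nat_lit 116) (nat_lit 1) (nat_lit 228) (nat_lit 253) (nat_lit 239)))) (XT.nd (nat_lit 188) (nat_lit 336) (nat_lit 0) (XT.nd (nat_lit 94) (nat_lit 420) (nat_lit 0) (XT.lf (nat_lit 84) (nat_lit 1719266421) (nat_lit 0) (nat_lit 1984892542) (nat_lit 504) (nat_lit 1719266421) (nat_lit 112) (nat_lit 1) (nat_lit 111) (nat_lit 1) (nat_lit 117) (nat_lit 1) (nat_lit 229) (nat_lit 253) (nat_lit 238)) (XT.lf (nat_lit 504) (nat_lit 2731238282) (nat_lit 0) (nat_lit 1288579760) (nat_lit 420) (nat_lit 1288579760) (nat_lit 112) (nat_lit 1) (nat_lit 106) (nat_lit 1) (nat_lit 111) (nat_lit 1) (nat_lit 230) (nat_lit 253) (nat_lit 237))) (XT.nd (nat_lit 94) (nat_lit 336) (nat_lit 0) (XT.lf (nat_lit 84) (nat_lit 1006425008) (nat_lit 0) (nat_lit 3183865595) (nat_lit 504) (nat_lit 1006425008) (nat_lit 107) (nat_lit 1) (nat_lit 106) (nat_lit 1) (nat_lit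 112) (nat_lit 1) (nat_lit 231) (nat_lit 253) (nat_lit 236)) (XT.lf (nat_lit 420) (nat_lit 1277318046) (nat_lit 0) (nat_lit 1905294104) (nat_lit 336) (nat_lit 1905294104) (nat_lit 107) (nat_lit 1) (nat_lit 102) (nat_lit 1) (nat_lit 106) (nat_lit 1) (nat_lit 232) (nat_lit 253) (nat_lit 235))))) (XT.nd (nat_lit 282) (nat_lit 588) (nat_lit 0) (XT.nd (nat_lit 94) (nat_lit 756) (nat_lit 0) (XT.lf (nat_lit 84) (nat_lit 277935883) (nat_lit 0) (nat_lit 4427409402) (nat_lit 420) (nat_lit 277935883) (nat_lit 103) (nat_lit 1) (nat_lit 102) (nat_lit 1) (nat_lit 107) (nat_lit 1) (nat_lit 233) (nat_lit 253) (nat_lit 234)) (XT.nd (nat_lit 94) (nat_lit 336) (nat_lit 0) (XT.lf (nat_lit 84) (nat_lit 2341967622) (nat_lit 0) (nat_lit 196144337) (nat_lit 420) (nat_lit 2341967622) (nat_lit 98) (nat_lit 1) (nat_lit 97) (nat_lit 1) (nat_lit 102) (nat_lit 1) (nat_lit 234) (nat_lit 253) (nat_lit 233))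 (XT.lf (nat_lit 420) (nat_lit 3873983780) (nat_lit 0) (nat_lit 453412192) (nat_lit 336) (nat_lit 453412192) (nat_lit 98) (nat_lit 1) (nat_lit 93) (nat_lit 1) (nat_lit 97) (nat_lit 1) (nat_lit 235) (nat_lit 253) (nat_lit 232)))) (XT.nd (nat_lit 188) (nat_lit 252) (nat_lit 0) (XT.nd (nat_lit 94) (nat_lit 336) (nat_lit 0) (XT.lf (nat_lit 84) (nat_lit 1519546750) (nat_lit 0) (nat_lit 1644146270) (nat_lit 420) (nat_lit 1519546750) (nat_lit 94) (nat_lit 1) (nat_lit 93) (nat_lit 1) (nat_lit 98) (nat_lit 1) (nat_lit 236) (nat_lit 253) (nat_lit 231)) (XT.lf (nat_lit 420) (nat_lit 2217441414) (nat_lit 0) (nat_lit 1185806645) (nat_lit 336) (nat_lit 1185806645) (nat_lit 94) (nat_lit 1) (nat_lit 89) (nat_lit 1) (nat_lit 93) (nat_lit 1) (nat_lit 237) (nat_lit 253) (nat_lit 230))) (XT.nd (nat_lit 94) (nat_lit 252) (nat_lit 0) (XT.lf (nat_lit 84) (nat_lit 699282059) (nat_lit 0) (nat_lit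 3099059501) (nat_lit 420) (nat_lit 699282059) (nat_lit 90) (nat_lit 1) (nat_lit 89) (nat_lit 1) (nat_lit 94) (nat_lit 1) (nat_lit 238) (nat_lit 253) (nat_lit 229)) (XT.lf (nat_lit 336) (nat_lit 568696149) (nat_lit 0) (nat_lit 1919735008) (nat_lit 252) (nat_lit 1919735008) (nat_lit 90) (nat_lit 1) (nat_lit 86) (nat_lit 1) (nat_lit 89) (nat_lit 1) (nat_lit 239) (nat_lit 253) (nat_lit 228))))))) (XT.nd (nat_lit 1316) (nat_lit 1680) (nat_lit 0) (XT.nd (nat_lit 658) (nat_lit 924) (nat_lit 0) (XT.nd (nat_lit 282) (nat_lit 588) (nat_lit 0) (XT.nd (nat_lit 94) (nat_lit 252) (nat_lit 0) (XT.lf (nat_lit 420) (nat_lit 4094909221) (nat_lit 0) (nat_lit 113625873) (nat_lit 336) (nat_lit 113625873) (nat_lit 86) (nat_lit 1) (nat_lit 81) (nat_lit 1) (nat_lit 85) (nat_lit 1) (nat_lit 240) (nat_lit 253) (nat_lit 227)) (XT.nd (nat_lit 94) (nat_lit 252) (nat_lit 0) (XT.lf (nat_lit 84) (nat_lit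 1602368251) (nat_lit 0) (nat_lit 1031895297) (nat_lit 420) (nat_lit 1602368251) (nat_lit 82) (nat_lit 1) (nat_lit 81) (nat_lit 1) (nat_lit 86) (nat_lit 1) (nat_lit 241) (nat_lit 253) (nat_lit 226)) (XT.lf (nat_lit 336) (nat_lit 2340309488) (nat_lit 0) (nat_lit 907036706) (nat_lit 252) (nat_lit 907036706) (nat_lit 82) (nat_lit 1) (nat_lit 78) (nat_lit 1) (nat_lit 81) (nat_lit 1) (nat_lit 242) (nat_lit 253) (nat_lit 225)))) (XT.nd (nat_lit 188) (nat_lit 336) (nat_lit 0) (XT.nd (nat_lit 94) (nat_lit 252) (nat_lit 0) (XT.lf (nat_lit 84) (nat_lit 739339968) (nat_lit 0) (nat_lit 2595543743) (nat_lit 336) (nat_lit 739339968) (nat_lit 79) (nat_lit 1) (nat_lit 78) (nat_lit 1) (nat_lit 82) (nat_lit 1) (nat_lit 243) (nat_lit 253) (nat_lit 224)) (XT.lf (nat_lit 336) (nat_lit 616216754) (nat_lit 0) (nat_lit 1689835651) (nat_lit 252) (nat_lit 1689835651) (nat_lit 79) (nat_lit 1) (nat_lit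 75) (nat_lit 1) (nat_lit 78) (nat_lit 1) (nat_lit 244) (nat_lit 253) (nat_lit 223))) (XT.nd (nat_lit 94) (nat_lit 0) (nat_lit 0) (XT.lf (nat_lit 336) (nat_lit 3708656274) (nat_lit 0) (nat_lit 105903214) (nat_lit 252) (nat_lit 105903214) (nat_lit 75) (nat_lit 1) (nat_lit 71) (nat_lit 1) (nat_lit 74) (nat_lit 1) (nat_lit 245) (nat_lit 253) (nat_lit 222)) (XT.lf (nat_lit 84) (nat_lit 1402878459) (nat_lit 0) (nat_lit 1039518851) (nat_lit 336) (nat_lit 1402878459) (nat_lit 72) (nat_lit 1) (nat_lit 71) (nat_lit 1) (nat_lit 75) (nat_lit 1) (nat_lit 246) (nat_lit 253) (nat_lit 221))))) (XT.nd (nat_lit 282) (nat_lit 504) (nat_lit 0) (XT.nd (nat_lit 94) (nat_lit 168) (nat_lit 0) (XT.lf (nat_lit 336) (nat_lit 1929086337) (nat_lit 0) (nat_lit 921892214) (nat_lit 252) (nat_lit 921892214) (nat_lit 72) (nat_lit 1) (nat_lit 68) (nat_lit 1) (nat_lit 71) (nat_lit 1) (nat_lit 247) (nat_lit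 253) (nat_lit 220)) (XT.nd (nat_lit 94) (nat_lit 168) (nat_lit 0) (XT.lf (nat_lit 84) (nat_lit 531268804) (nat_lit 0) (nat_lit 2639870088) (nat_lit 336) (nat_lit 531268804) (nat_lit 69) (nat_lit 1) (nat_lit 68) (nat_lit 1) (nat_lit 72) (nat_lit 1) (nat_lit 248) (nat_lit 253) (nat_lit 219)) (XT.lf (nat_lit 252) (nat_lit 194674554) (nat_lit 0) (nat_lit 1719298953) (nat_lit 168) (nat_lit 1719298953) (nat_lit 69) (nat_lit 1) (nat_lit 66) (nat_lit 1) (nat_lit 68) (nat_lit 1) (nat_lit 249) (nat_lit 253) (nat_lit 218)))) (XT.nd (nat_lit 188) (nat_lit 168) (nat_lit 0) (XT.nd (nat_lit 94) (nat_lit 0) (nat_lit 0) (XT.lf (nat_lit 336) (nat_lit 2941467235) (nat_lit 0) (nat_lit 312405141) (nat_lit 252) (nat_lit 312405141) (nat_lit 66) (nat_lit 1) (nat_lit 62) (nat_lit 1) (nat_lit 65) (nat_lit 1) (nat_lit 250) (nat_lit 253) (nat_lit 217)) (XT.lf (nat_lit 84) (nat_lit 1027384683) (nat_lit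 0) (nat_lit 1445262481) (nat_lit 336) (nat_lit 1027384683) (nat_lit 63) (nat_lit 1) (nat_lit 62) (nat_lit 1) (nat_lit 66) (nat_lit 1) (nat_lit 251) (nat_lit 253) (nat_lit 216))) (XT.nd (nat_lit 94) (nat_lit 0) (nat_lit 0) (XT.lf (nat_lit 252) (nat_lit 1186984520) (nat_lit 0) (nat_lit 1124423090) (nat_lit 168) (nat_lit 1124423090) (nat_lit 63) (nat_lit 1) (nat_lit 60) (nat_lit 1) (nat_lit 62) (nat_lit 1) (nat_lit 252) (nat_lit 253) (nat_lit 215)) (XT.lf (nat_lit 84) (nat_lit 170532000) (nat_lit 0) (nat_lit 3032696145) (nat_lit 252) (nat_lit 170532000) (nat_lit 61) (nat_lit 1) (nat_lit 60) (nat_lit 1) (nat_lit 63) (nat_lit 1) (nat_lit 253) (nat_lit 253) (nat_lit 214)))))) (XT.nd (nat_lit 658) (nat_lit 672) (nat_lit 0) (XT.nd (nat_lit 282) (nat_lit 588) (nat_lit 0) (XT.nd (nat_lit 94) (nat_lit 168) (nat_lit 0) (XT.lf (nat_lit 84) (nat_lit 1407430515) (nat_lit 0) (nat_lit 497054188)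 (nat_lit 252) (nat_lit 1407430515) (nat_lit 58) (nat_lit 1) (nat_lit 57) (nat_lit 1) (nat_lit 60) (nat_lit 1) (nat_lit 254) (nat_lit 253) (nat_lit 213)) (XT.nd (nat_lit 94) (nat_lit 0) (nat_lit 0) (XT.lf (nat_lit 252) (nat_lit 1954463944) (nat_lit 0) (nat_lit 648829075) (nat_lit 168) (nat_lit 648829075) (nat_lit 58) (nat_lit 1) (nat_lit 55) (nat_lit 1) (nat_lit 57) (nat_lit 1) (nat_lit 255) (nat_lit 253) (nat_lit 212)) (XT.lf (nat_lit 84) (nat_lit 551498877) (nat_lit 0) (nat_lit 2090652773) (nat_lit 252) (nat_lit 551498877) (nat_lit 56) (nat_lit 1) (nat_lit 55) (nat_lit 1) (nat_lit 58) (nat_lit 1) (nat_lit 256) (nat_lit 253) (nat_lit 211)))) (XT.nd (nat_lit 188) (nat_lit 168) (nat_lit 0) (XT.nd (nat_lit 94) (nat_lit 252) (nat_lit 0) (XT.lf (nat_lit 252) (nat_lit 258357368) (nat_lit 0) (nat_lit 1439000114) (nat_lit 168) (nat_lit 1439000114) (nat_lit 56) (nat_lit 1) (nat_lit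 53) (nat_lit 1) (nat_lit 55) (nat_lit 1) (nat_lit 257) (nat_lit 253) (nat_lit 210)) (XT.lf (nat_lit 252) (nat_lit 2539303125) (nat_lit 0) (nat_lit 270710824) (nat_lit 168) (nat_lit 270710824) (nat_lit 53) (nat_lit 1) (nat_lit 50) (nat_lit 1) (nat_lit 52) (nat_lit 1) (nat_lit 258) (nat_lit 253) (nat_lit 209))) (XT.nd (nat_lit 94) (nat_lit 168) (nat_lit 0) (XT.lf (nat_lit 84) (nat_lit 845340233) (nat_lit 0) (nat_lit 1334886305) (nat_lit 252) (nat_lit 845340233) (nat_lit 51) (nat_lit 1) (nat_lit 50) (nat_lit 1) (nat_lit 53) (nat_lit 1) (nat_lit 259) (nat_lit 253) (nat_lit 208)) (XT.lf (nat_lit 252) (nat_lit 860937985) (nat_lit 0) (nat_lit 1055536047) (nat_lit 168) (nat_lit 1055536047) (nat_lit 51) (nat_lit 1) (nat_lit 48) (nat_lit 1) (nat_lit 50) (nat_lit 1) (nat_lit 260) (nat_lit 253) (nat_lit 207))))) (XT.nd (nat_lit 282) (nat_lit 336) (nat_lit 0) (XT.nd (nat_lit 94) (nat_lit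 336) (nat_lit 0) (XT.lf (nat_lit 84) (nat_lit 28296657) (nat_lit 0) (nat_lit 2863738312) (nat_lit 252) (nat_lit 28296657) (nat_lit 49) (nat_lit 1) (nat_lit 48) (nat_lit 1) (nat_lit 51) (nat_lit 1) (nat_lit 261) (nat_lit 253) (nat_lit 206)) (XT.nd (nat_lit 94) (nat_lit 168) (nat_lit 0) (XT.lf (nat_lit 84) (nat_lit 1068435636) (nat_lit 0) (nat_lit 731453404) (nat_lit 168) (nat_lit 1068435636) (nat_lit 47) (nat_lit 1) (nat_lit 46) (nat_lit 1) (nat_lit 48) (nat_lit 1) (nat_lit 262) (nat_lit 253) (nat_lit 205)) (XT.lf (nat_lit 252) (nat_lit 1325806991) (nat_lit 0) (nat_lit 746170301) (nat_lit 168) (nat_lit 746170301) (nat_lit 47) (nat_lit 1) (nat_lit 44) (nat_lit 1) (nat_lit 46) (nat_lit 1) (nat_lit 263) (nat_lit 253) (nat_lit 204)))) (XT.nd (nat_lit 188) (nat_lit 168) (nat_lit 0) (XT.nd (nat_lit 94) (nat_lit 168) (nat_lit 0) (XT.lf (nat_lit 84) (nat_lit 265815138) (nat_lit 0)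 (nat_lit 2237694641) (nat_lit 252) (nat_lit 265815138) (nat_lit 45) (nat_lit 1) (nat_lit 44) (nat_lit 1) (nat_lit 47) (nat_lit 1) (nat_lit 264) (nat_lit 253) (nat_lit 203)) (XT.lf (nat_lit 84) (nat_lit 1234216199) (nat_lit 0) (nat_lit 252472466) (nat_lit 168) (nat_lit 1234216199) (nat_lit 43) (nat_lit 1) (nat_lit 42) (nat_lit 1) (nat_lit 44) (nat_lit 1) (nat_lit 265) (nat_lit 253) (nat_lit 202))) (XT.nd (nat_lit 94) (nat_lit 0) (nat_lit 0) (XT.lf (nat_lit 252) (nat_lit 1678850579) (nat_lit 0) (nat_lit 497474423) (nat_lit 168) (nat_lit 497474423) (nat_lit 43) (nat_lit 1) (nat_lit 40) (nat_lit 1) (nat_lit 42) (nat_lit 1) (nat_lit 266) (nat_lit 253) (nat_lit 201)) (XT.lf (nat_lit 84) (nat_lit 449672876) (nat_lit 0) (nat_lit 1728280771) (nat_lit 252) (nat_lit 449672876) (nat_lit 41) (nat_lit 1) (nat_lit 40) (nat_lit 1) (nat_lit 43) (nat_lit 1) (nat_lit 267) (nat_lit 253) (nat_lit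 200))))))))
noncomputable def ec52 : XT := (XT.nd (nat_lit 2538) (nat_lit 924) (nat_lit 0) (XT.nd (nat_lit 1222) (nat_lit 1092) (nat_lit 0) (XT.nd (nat_lit 564) (nat_lit 672) (nat_lit 0) (XT.nd (nat_lit 282) (nat_lit 336) (nat_lit 0) (XT.nd (nat_lit 94) (nat_lit 252) (nat_lit 0) (XT.lf (nat_lit 168) (nat_lit 129084707) (nat_lit 0) (nat_lit 1226620109) (nat_lit 84) (nat_lit 1226620109) (nat_lit 41) (nat_lit 1) (nat_lit 39) (nat_lit 1) (nat_lit 40) (nat_lit 1) (nat_lit 268) (nat_lit 253) (nat_lit 199)) (XT.nd (nat_lit 94) (nat_lit 0) (nat_lit 0) (XT.lf (nat_lit 252) (nat_lit 1941295370) (nat_lit 0) (nat_lit 298414648) (nat_lit 168) (nat_lit 298414648) (nat_lit 39) (nat_lit 1) (nat_lit 36) (nat_lit 1) (nat_lit 38) (nat_lit 1) (nat_lit 269) (nat_lit 253) (nat_lit 198)) (XT.lf (nat_lit 84) (nat_lit 589933753) (nat_lit 0) (nat_lit 1314550250) (nat_lit 252) (nat_lit 589933753)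 (nat_lit 37) (nat_lit 1) (nat_lit 36) (nat_lit 1) (nat_lit 39) (nat_lit 1) (nat_lit 270) (nat_lit 253) (nat_lit 197)))) (XT.nd (nat_lit 94) (nat_lit 252) (nat_lit 0) (XT.lf (nat_lit 168) (nat_lit 433495691) (nat_lit 0) (nat_lit 1009143399) (nat_lit 84) (nat_lit 1009143399) (nat_lit 37) (nat_lit 1) (nat_lit 35) (nat_lit 1) (nat_lit 36) (nat_lit 1) (nat_lit 271) (nat_lit 253) (nat_lit 196)) (XT.nd (nat_lit 94) (nat_lit 0) (nat_lit 0) (XT.lf (nat_lit 252) (nat_lit 2130537880) (nat_lit 0) (nat_lit 139926668) (nat_lit 168) (nat_lit 139926668) (nat_lit 35) (nat_lit 1) (nat_lit 32) (nat_lit 1) (nat_lit 34) (nat_lit 1) (nat_lit 272) (nat_lit 253) (nat_lit 195)) (XT.lf (nat_lit 84) (nat_lit 694851164) (nat_lit 0) (nat_lit 979283156) (nat_lit 252) (nat_lit 694851164) (nat_lit 33) (nat_lit 1) (nat_lit 32) (nat_lit 1) (nat_lit 35) (nat_lit 1) (nat_lit 273) (nat_lit 253) (nat_lit 194)))))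 (XT.nd (nat_lit 282) (nat_lit 336) (nat_lit 0) (XT.nd (nat_lit 94) (nat_lit 252) (nat_lit 0) (XT.lf (nat_lit 168) (nat_lit 668349771) (nat_lit 0) (nat_lit 830224772) (nat_lit 84) (nat_lit 830224772) (nat_lit 33) (nat_lit 1) (nat_lit 31) (nat_lit 1) (nat_lit 32) (nat_lit 1) (nat_lit 274) (nat_lit 253) (nat_lit 193)) (XT.nd (nat_lit 94) (nat_lit 0) (nat_lit 0) (XT.lf (nat_lit 252) (nat_lit 2260826763) (nat_lit 0) (nat_lit 14565825) (nat_lit 168) (nat_lit 14565825) (nat_lit 31) (nat_lit 1) (nat_lit 28) (nat_lit 1) (nat_lit 30) (nat_lit 1) (nat_lit 275) (nat_lit 253) (nat_lit 192)) (XT.lf (nat_lit 84) (nat_lit 771190253) (nat_lit 0) (nat_lit 708324782) (nat_lit 252) (nat_lit 771190253) (nat_lit 29) (nat_lit 1) (nat_lit 28) (nat_lit 1) (nat_lit 31) (nat_lit 1) (nat_lit 276) (nat_lit 253) (nat_lit 191)))) (XT.nd (nat_lit 188) (nat_lit 252) (nat_lit 0) (XT.nd (nat_lit 94) (nat_lit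 0) (nat_lit 0) (XT.lf (nat_lit 168) (nat_lit 846721385) (nat_lit 0) (nat_lit 683027974) (nat_lit 84) (nat_lit 683027974) (nat_lit 29) (nat_lit 1) (nat_lit 27) (nat_lit 1) (nat_lit 28) (nat_lit 1) (nat_lit 277) (nat_lit 253) (nat_lit 190)) (XT.lf (nat_lit 0) (nat_lit 85154104) (nat_lit 0) (nat_lit 2005686279) (nat_lit 168) (nat_lit 85154104) (nat_lit 27) (nat_lit 3) (nat_lit 27) (nat_lit 1) (nat_lit 29) (nat_lit 1) (nat_lit 278) (nat_lit 253) (nat_lit 189))) (XT.nd (nat_lit 94) (nat_lit 84) (nat_lit 0) (XT.lf (nat_lit 84) (nat_lit 824492969) (nat_lit 0) (nat_lit 490041605) (nat_lit 168) (nat_lit 824492969) (nat_lit 26) (nat_lit 1) (nat_lit 25) (nat_lit 1) (nat_lit 27) (nat_lit 1) (nat_lit 279) (nat_lit 253) (nat_lit 188)) (XT.lf (nat_lit 168) (nat_lit 979331564) (nat_lit 0) (nat_lit 561928805) (nat_lit 84) (nat_lit 561928805) (nat_lit 26) (nat_lit 1) (nat_lit 24) (nat_lit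 1) (nat_lit 25) (nat_lit 1) (nat_lit 280) (nat_lit 253) (nat_lit 187)))))) (XT.nd (nat_lit 658) (nat_lit 588) (nat_lit 0) (XT.nd (nat_lit 282) (nat_lit 252) (nat_lit 0) (XT.nd (nat_lit 94) (nat_lit 252) (nat_lit 0) (XT.lf (nat_lit 0) (nat_lit 162755438) (nat_lit 0) (nat_lit 1742782011) (nat_lit 168) (nat_lit 162755438) (nat_lit 24) (nat_lit 3) (nat_lit 24) (nat_lit 1) (nat_lit 26) (nat_lit 1) (nat_lit 281) (nat_lit 253) (nat_lit 186)) (XT.nd (nat_lit 94) (nat_lit 84) (nat_lit 0) (XT.lf (nat_lit 84) (nat_lit 859296062) (nat_lit 0) (nat_lit 314873731) (nat_lit 168) (nat_lit 859296062) (nat_lit 23) (nat_lit 1) (nat_lit 22) (nat_lit 1) (nat_lit 24) (nat_lit 1) (nat_lit 282) (nat_lit 253) (nat_lit 185)) (XT.lf (nat_lit 168) (nat_lit 1074966868) (nat_lit 0) (nat_lit 462300218) (nat_lit 84) (nat_lit 462300218) (nat_lit 23) (nat_lit 1) (nat_lit 21) (nat_lit 1) (nat_lit 22) (nat_lit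 1) (nat_lit 283) (nat_lit 253) (nat_lit 184)))) (XT.nd (nat_lit 188) (nat_lit 84) (nat_lit 0) (XT.nd (nat_lit 94) (nat_lit 168) (nat_lit 0) (XT.lf (nat_lit 0) (nat_lit 222184012) (nat_lit 0) (nat_lit 1522075784) (nat_lit 168) (nat_lit 222184012) (nat_lit 21) (nat_lit 3) (nat_lit 21) (nat_lit 1) (nat_lit 23) (nat_lit 1) (nat_lit 284) (nat_lit 253) (nat_lit 183)) (XT.lf (nat_lit 84) (nat_lit 879310384) (nat_lit 0) (nat_lit 174966721) (nat_lit 168) (nat_lit 879310384) (nat_lit 20) (nat_lit 1) (nat_lit 19) (nat_lit 1) (nat_lit 21) (nat_lit 1) (nat_lit 285) (nat_lit 253) (nat_lit 182))) (XT.nd (nat_lit 94) (nat_lit 0) (nat_lit 0) (XT.lf (nat_lit 168) (nat_lit 1140823966) (nat_lit 0) (nat_lit 380335534) (nat_lit 84) (nat_lit 380335534) (nat_lit 20) (nat_lit 1) (nat_lit 18) (nat_lit 1) (nat_lit 19) (nat_lit 1) (nat_lit 286) (nat_lit 253) (nat_lit 181)) (XT.lf (nat_lit 0) (nat_lit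 266872013) (nat_lit 0) (nat_lit 1336296191) (nat_lit 168) (nat_lit 266872013) (nat_lit 18) (nat_lit 3) (nat_lit 18) (nat_lit 1) (nat_lit 20) (nat_lit 1) (nat_lit 287) (nat_lit 253) (nat_lit 180))))) (XT.nd (nat_lit 282) (nat_lit 336) (nat_lit 0) (XT.nd (nat_lit 94) (nat_lit 84) (nat_lit 0) (XT.lf (nat_lit 84) (nat_lit 887568341) (nat_lit 0) (nat_lit 63868719) (nat_lit 168) (nat_lit 887568341) (nat_lit 17) (nat_lit 1) (nat_lit 16) (nat_lit 1) (nat_lit 18) (nat_lit 1) (nat_lit 288) (nat_lit 253) (nat_lit 179)) (XT.nd (nat_lit 94) (nat_lit 0) (nat_lit 0) (XT.lf (nat_lit 168) (nat_lit 1182793046) (nat_lit 0) (nat_lit 312902985) (nat_lit 84) (nat_lit 312902985) (nat_lit 17) (nat_lit 1) (nat_lit 15) (nat_lit 1) (nat_lit 16) (nat_lit 1) (nat_lit 289) (nat_lit 253) (nat_lit 178)) (XT.lf (nat_lit 0) (nat_lit 299633100) (nat_lit 0) (nat_lit 1179451018) (nat_lit 168) (nat_lit 299633100)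 (nat_lit 15) (nat_lit 3) (nat_lit 15) (nat_lit 1) (nat_lit 17) (nat_lit 1) (nat_lit 290) (nat_lit 253) (nat_lit 177)))) (XT.nd (nat_lit 188) (nat_lit 84) (nat_lit 0) (XT.nd (nat_lit 94) (nat_lit 168) (nat_lit 0) (XT.lf (nat_lit 84) (nat_lit 24502945) (nat_lit 0) (nat_lit 862424771) (nat_lit 84) (nat_lit 862424771) (nat_lit 15) (nat_lit 3) (nat_lit 14) (nat_lit 1) (nat_lit 15) (nat_lit 1) (nat_lit 291) (nat_lit 253) (nat_lit 176)) (XT.lf (nat_lit 168) (nat_lit 1205690906) (nat_lit 0) (nat_lit 257426060) (nat_lit 84) (nat_lit 257426060) (nat_lit 14) (nat_lit 1) (nat_lit 12) (nat_lit 1) (nat_lit 13) (nat_lit 1) (nat_lit 292) (nat_lit 253) (nat_lit 175))) (XT.nd (nat_lit 94) (nat_lit 84) (nat_lit 0) (XT.lf (nat_lit 0) (nat_lit 322772545) (nat_lit 0) (nat_lit 1046600923) (nat_lit 168) (nat_lit 322772545) (nat_lit 12) (nat_lit 3) (nat_lit 12) (nat_lit 1) (nat_lit 14) (nat_lit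 1) (nat_lit 293) (nat_lit 253) (nat_lit 174)) (XT.lf (nat_lit 84) (nat_lit 95192227) (nat_lit 0) (nat_lit 784552587) (nat_lit 84) (nat_lit 784552587) (nat_lit 12) (nat_lit 3) (nat_lit 11) (nat_lit 1) (nat_lit 12) (nat_lit 1) (nat_lit 294) (nat_lit 253) (nat_lit 173))))))) (XT.nd (nat_lit 1222) (nat_lit 0) (nat_lit 0) (XT.nd (nat_lit 564) (nat_lit 420) (nat_lit 0) (XT.nd (nat_lit 282) (nat_lit 252) (nat_lit 0) (XT.nd (nat_lit 94) (nat_lit 84) (nat_lit 0) (XT.lf (nat_lit 168) (nat_lit 1213452644) (nat_lit 0) (nat_lit 211785056) (nat_lit 84) (nat_lit 211785056) (nat_lit 11) (nat_lit 1) (nat_lit 9) (nat_lit 1) (nat_lit 10) (nat_lit 1) (nat_lit 295) (nat_lit 253) (nat_lit 172)) (XT.nd (nat_lit 94) (nat_lit 84) (nat_lit 0) (XT.lf (nat_lit 0) (nat_lit 338177822) (nat_lit 0) (nat_lit 933673220) (nat_lit 168) (nat_lit 338177822) (nat_lit 9) (nat_lit 3) (nat_lit 9) (nat_lit 1) (nat_lit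 11) (nat_lit 1) (nat_lit 296) (nat_lit 253) (nat_lit 171)) (XT.lf (nat_lit 84) (nat_lit 149775446) (nat_lit 0) (nat_lit 716913920) (nat_lit 84) (nat_lit 716913920) (nat_lit 9) (nat_lit 3) (nat_lit 8) (nat_lit 1) (nat_lit 9) (nat_lit 1) (nat_lit 297) (nat_lit 253) (nat_lit 170)))) (XT.nd (nat_lit 94) (nat_lit 84) (nat_lit 0) (XT.lf (nat_lit 168) (nat_lit 1209289304) (nat_lit 0) (nat_lit 174236090) (nat_lit 84) (nat_lit 174236090) (nat_lit 8) (nat_lit 1) (nat_lit 6) (nat_lit 1) (nat_lit 7) (nat_lit 1) (nat_lit 298) (nat_lit 253) (nat_lit 169)) (XT.nd (nat_lit 94) (nat_lit 84) (nat_lit 0) (XT.lf (nat_lit 0) (nat_lit 347393111) (nat_lit 0) (nat_lit 837308649) (nat_lit 168) (nat_lit 347393111) (nat_lit 6) (nat_lit 3) (nat_lit 6) (nat_lit 1) (nat_lit 8) (nat_lit 1) (nat_lit 299) (nat_lit 253) (nat_lit 168)) (XT.lf (nat_lit 84) (nat_lit 191278311) (nat_lit 0) (nat_lit 657864537)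 (nat_lit 84) (nat_lit 657864537) (nat_lit 6) (nat_lit 3) (nat_lit 5) (nat_lit 1) (nat_lit 6) (nat_lit 1) (nat_lit 300) (nat_lit 253) (nat_lit 167))))) (XT.nd (nat_lit 282) (nat_lit 168) (nat_lit 0) (XT.nd (nat_lit 94) (nat_lit 84) (nat_lit 0) (XT.lf (nat_lit 168) (nat_lit 1195817504) (nat_lit 0) (nat_lit 143344462) (nat_lit 84) (nat_lit 143344462) (nat_lit 5) (nat_lit 1) (nat_lit 3) (nat_lit 1) (nat_lit 4) (nat_lit 1) (nat_lit 301) (nat_lit 253) (nat_lit 166)) (XT.nd (nat_lit 94) (nat_lit 84) (nat_lit 0) (XT.lf (nat_lit 0) (nat_lit 351680583) (nat_lit 0) (nat_lit 754735308) (nat_lit 168) (nat_lit 351680583) (nat_lit 3) (nat_lit 3) (nat_lit 3) (nat_lit 1) (nat_lit 5) (nat_lit 1) (nat_lit 302) (nat_lit 253) (nat_lit 165)) (XT.lf (nat_lit 84) (nat_lit 222181979) (nat_lit 0) (nat_lit 606043622) (nat_lit 84) (nat_lit 606043622) (nat_lit 3) (nat_lit 3) (nat_lit 2) (nat_lit 1)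 (nat_lit 3) (nat_lit 1) (nat_lit 303) (nat_lit 253) (nat_lit 164)))) (XT.nd (nat_lit 188) (nat_lit 0) (nat_lit 0) (XT.nd (nat_lit 94) (nat_lit 0) (nat_lit 0) (XT.lf (nat_lit 0) (nat_lit 2049780136) (nat_lit 0) (nat_lit 0) (nat_lit 0) (nat_lit 0) (nat_lit 0) (nat_lit 0) (nat_lit 1) (nat_lit 0) (nat_lit 1) (nat_lit 0) (nat_lit 304) (nat_lit 253) (nat_lit 163)) (XT.lf (nat_lit 0) (nat_lit 2048585860) (nat_lit 0) (nat_lit 0) (nat_lit 0) (nat_lit 0) (nat_lit 0) (nat_lit 0) (nat_lit 1) (nat_lit 0) (nat_lit 1) (nat_lit 0) (nat_lit 305) (nat_lit 253) (nat_lit 162))) (XT.nd (nat_lit 94) (nat_lit 0) (nat_lit 0) (XT.lf (nat_lit 0) (nat_lit 2047448455) (nat_lit 0) (nat_lit 0) (nat_lit 0) (nat_lit 0) (nat_lit 0) (nat_lit 0) (nat_lit 1) (nat_lit 0) (nat_lit 1) (nat_lit 0) (nat_lit 306) (nat_lit 253) (nat_lit 161)) (XT.lf (nat_lit 0) (nat_lit 2046365212) (nat_lit 0) (nat_lit 0) (nat_lit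 0) (nat_lit 0) (nat_lit 0) (nat_lit 0) (nat_lit 1) (nat_lit 0) (nat_lit 1) (nat_lit 0) (nat_lit 307) (nat_lit 253) (nat_lit 160)))))) (XT.nd (nat_lit 658) (nat_lit 0) (nat_lit 0) (XT.nd (nat_lit 282) (nat_lit 0) (nat_lit 0) (XT.nd (nat_lit 94) (nat_lit 0) (nat_lit 0) (XT.lf (nat_lit 0) (nat_lit 2045333552) (nat_lit 0) (nat_lit 0) (nat_lit 0) (nat_lit 0) (nat_lit 0) (nat_lit 0) (nat_lit 1) (nat_lit 0) (nat_lit 1) (nat_lit 0) (nat_lit 308) (nat_lit 253) (nat_lit 159)) (XT.nd (nat_lit 94) (nat_lit 0) (nat_lit 0) (XT.lf (nat_lit 0) (nat_lit 2044351018) (nat_lit 0) (nat_lit 0) (nat_lit 0) (nat_lit 0) (nat_lit 0) (nat_lit 0) (nat_lit 1) (nat_lit 0) (nat_lit 1) (nat_lit 0) (nat_lit 309) (nat_lit 253) (nat_lit 158)) (XT.lf (nat_lit 0) (nat_lit 2043415272) (nat_lit 0) (nat_lit 0) (nat_lit 0) (nat_lit 0) (nat_lit 0) (nat_lit 0) (nat_lit 1) (nat_lit 0) (nat_lit 1) (nat_lit 0) (nat_lit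 310) (nat_lit 253) (nat_lit 157)))) (XT.nd (nat_lit 188) (nat_lit 0) (nat_lit 0) (XT.nd (nat_lit 94) (nat_lit 0) (nat_lit 0) (XT.lf (nat_lit 0) (nat_lit 2042524085) (nat_lit 0) (nat_lit 0) (nat_lit 0) (nat_lit 0) (nat_lit 0) (nat_lit 0) (nat_lit 1) (nat_lit 0) (nat_lit 1) (nat_lit 0) (nat_lit 311) (nat_lit 253) (nat_lit 156)) (XT.lf (nat_lit 0) (nat_lit 2041675336) (nat_lit 0) (nat_lit 0) (nat_lit 0) (nat_lit 0) (nat_lit 0) (nat_lit 0) (nat_lit 1) (nat_lit 0) (nat_lit 1) (nat_lit 0) (nat_lit 312) (nat_lit 253) (nat_lit 155))) (XT.nd (nat_lit 94) (nat_lit 0) (nat_lit 0) (XT.lf (nat_lit 0) (nat_lit 2040867003) (nat_lit 0) (nat_lit 0) (nat_lit 0) (nat_lit 0) (nat_lit 0) (nat_lit 0) (nat_lit 1) (nat_lit 0) (nat_lit 1) (nat_lit 0) (nat_lit 313) (nat_lit 253) (nat_lit 154)) (XT.lf (nat_lit 0) (nat_lit 2040097163) (nat_lit 0) (nat_lit 0) (nat_lit 0) (nat_lit 0) (nat_lit 0) (nat_lit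 0) (nat_lit 1) (nat_lit 0) (nat_lit 1) (nat_lit 0) (nat_lit 314) (nat_lit 253) (nat_lit 153))))) (XT.nd (nat_lit 282) (nat_lit 0) (nat_lit 0) (XT.nd (nat_lit 94) (nat_lit 0) (nat_lit 0) (XT.lf (nat_lit 0) (nat_lit 2039363981) (nat_lit 0) (nat_lit 0) (nat_lit 0) (nat_lit 0) (nat_lit 0) (nat_lit 0) (nat_lit 1) (nat_lit 0) (nat_lit 1) (nat_lit 0) (nat_lit 315) (nat_lit 253) (nat_lit 152)) (XT.nd (nat_lit 94) (nat_lit 0) (nat_lit 0) (XT.lf (nat_lit 0) (nat_lit 2038665713) (nat_lit 0) (nat_lit 0) (nat_lit 0) (nat_lit 0) (nat_lit 0) (nat_lit 0) (nat_lit 1) (nat_lit 0) (nat_lit 1) (nat_lit 0) (nat_lit 316) (nat_lit 253) (nat_lit 151)) (XT.lf (nat_lit 0) (nat_lit 2038000695) (nat_lit 0) (nat_lit 0) (nat_lit 0) (nat_lit 0) (nat_lit 0) (nat_lit 0) (nat_lit 1) (nat_lit 0) (nat_lit 1) (nat_lit 0) (nat_lit 317) (nat_lit 253) (nat_lit 150)))) (XT.nd (nat_lit 188) (nat_lit 0) (nat_lit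 0) (XT.nd (nat_lit 94) (nat_lit 0) (nat_lit 0) (XT.lf (nat_lit 0) (nat_lit 2037367346) (nat_lit 0) (nat_lit 0) (nat_lit 0) (nat_lit 0) (nat_lit 0) (nat_lit 0) (nat_lit 1) (nat_lit 0) (nat_lit 1) (nat_lit 0) (nat_lit 318) (nat_lit 253) (nat_lit 149)) (XT.lf (nat_lit 0) (nat_lit 2036764155) (nat_lit 0) (nat_lit 0) (nat_lit 0) (nat_lit 0) (nat_lit 0) (nat_lit 0) (nat_lit 1) (nat_lit 0) (nat_lit 1) (nat_lit 0) (nat_lit 319) (nat_lit 253) (nat_lit 148))) (XT.nd (nat_lit 94) (nat_lit 0) (nat_lit 0) (XT.lf (nat_lit 0) (nat_lit 2036189688) (nat_lit 0) (nat_lit 0) (nat_lit 0) (nat_lit 0) (nat_lit 0) (nat_lit 0) (nat_lit 1) (nat_lit 0) (nat_lit 1) (nat_lit 0) (nat_lit 320) (nat_lit 253) (nat_lit 147)) (XT.lf (nat_lit 0) (nat_lit 2035642577) (nat_lit 0) (nat_lit 0) (nat_lit 0) (nat_lit 0) (nat_lit 0) (nat_lit 0) (nat_lit 1) (nat_lit 0) (nat_lit 1) (nat_lit 0) (nat_lit 321) (nat_lit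 253) (nat_lit 146))))))))
noncomputable def ec53 : XT := (XT.nd (nat_lit 37224) (nat_lit 0) (nat_lit 3360) (XT.nd (nat_lit 35908) (nat_lit 0) (nat_lit 7476) (XT.nd (nat_lit 35250) (nat_lit 0) (nat_lit 10920) (XT.nd (nat_lit 34968) (nat_lit 0) (nat_lit 10752) (XT.nd (nat_lit 94) (nat_lit 0) (nat_lit 0) (XT.lf (nat_lit 0) (nat_lit 2035121518) (nat_lit 0) (nat_lit 0) (nat_lit 0) (nat_lit 0) (nat_lit 0) (nat_lit 0) (nat_lit 1) (nat_lit 0) (nat_lit 1) (nat_lit 0) (nat_lit 322) (nat_lit 253) (nat_lit 145)) (XT.nd (nat_lit 34780) (nat_lit 0) (nat_lit 10752) (XT.lf (nat_lit 0) (nat_lit 2034625272) (nat_lit 0) (nat_lit 0) (nat_lit 0) (nat_lit 0) (nat_lit 0) (nat_lit 0) (nat_lit 1) (nat_lit 0) (nat_lit 1) (nat_lit 0) (nat_lit 323) (nat_lit 253) (nat_lit 144)) (XT.lf (nat_lit 924) (nat_lit 1063897690) (nat_lit 0) (nat_lit 1888947903) (nat_lit 924) (nat_lit 1063897690) (nat_lit 139)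 (nat_lit 1) (nat_lit 128) (nat_lit 0) (nat_lit 139) (nat_lit 0) (nat_lit 212) (nat_lit 254) (nat_lit 254)))) (XT.nd (nat_lit 94) (nat_lit 0) (nat_lit 84) (XT.lf (nat_lit 924) (nat_lit 4123800269) (nat_lit 84) (nat_lit 1858481001) (nat_lit 0) (nat_lit 1858481001) (nat_lit 139) (nat_lit 1) (nat_lit 129) (nat_lit 1) (nat_lit 128) (nat_lit 0) (nat_lit 213) (nat_lit 254) (nat_lit 253)) (XT.nd (nat_lit 94) (nat_lit 0) (nat_lit 0) (XT.lf (nat_lit 924) (nat_lit 1965341116) (nat_lit 0) (nat_lit 3723313888) (nat_lit 840) (nat_lit 1965341116) (nat_lit 140) (nat_lit 1) (nat_lit 129) (nat_lit 1) (nat_lit 139) (nat_lit 1) (nat_lit 214) (nat_lit 254) (nat_lit 252)) (XT.lf (nat_lit 924) (nat_lit 3686706842) (nat_lit 84) (nat_lit 1893278532) (nat_lit 0) (nat_lit 1893278532) (nat_lit 140) (nat_lit 1) (nat_lit 130) (nat_lit 1) (nat_lit 129) (nat_lit 1) (nat_lit 215) (nat_lit 254) (nat_lit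 251))))) (XT.nd (nat_lit 282) (nat_lit 0) (nat_lit 84) (XT.nd (nat_lit 94) (nat_lit 0) (nat_lit 0) (XT.lf (nat_lit 924) (nat_lit 1696955756) (nat_lit 0) (nat_lit 3904348487) (nat_lit 840) (nat_lit 1696955756) (nat_lit 141) (nat_lit 1) (nat_lit 130) (nat_lit 1) (nat_lit 140) (nat_lit 1) (nat_lit 216) (nat_lit 254) (nat_lit 250)) (XT.nd (nat_lit 94) (nat_lit 0) (nat_lit 84) (XT.lf (nat_lit 924) (nat_lit 3052085453) (nat_lit 84) (nat_lit 2038252712) (nat_lit 0) (nat_lit 2038252712) (nat_lit 141) (nat_lit 1) (nat_lit 131) (nat_lit 1) (nat_lit 130) (nat_lit 1) (nat_lit 217) (nat_lit 254) (nat_lit 249)) (XT.lf (nat_lit 924) (nat_lit 1338251319) (nat_lit 0) (nat_lit 4288116022) (nat_lit 840) (nat_lit 1338251319) (nat_lit 142) (nat_lit 1) (nat_lit 131) (nat_lit 1) (nat_lit 141) (nat_lit 1) (nat_lit 218) (nat_lit 254) (nat_lit 248)))) (XT.nd (nat_lit 188) (nat_lit 0) (nat_lit 84)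 (XT.nd (nat_lit 94) (nat_lit 0) (nat_lit 84) (XT.lf (nat_lit 924) (nat_lit 2249641557) (nat_lit 84) (nat_lit 2277759800) (nat_lit 0) (nat_lit 2277759800) (nat_lit 142) (nat_lit 1) (nat_lit 132) (nat_lit 1) (nat_lit 131) (nat_lit 1) (nat_lit 219) (nat_lit 254) (nat_lit 247)) (XT.lf (nat_lit 924) (nat_lit 903113912) (nat_lit 0) (nat_lit 4845312885) (nat_lit 840) (nat_lit 903113912) (nat_lit 143) (nat_lit 1) (nat_lit 132) (nat_lit 1) (nat_lit 142) (nat_lit 1) (nat_lit 220) (nat_lit 254) (nat_lit 246))) (XT.nd (nat_lit 94) (nat_lit 0) (nat_lit 84) (XT.lf (nat_lit 924) (nat_lit 1305778824) (nat_lit 84) (nat_lit 2597867629) (nat_lit 0) (nat_lit 2597867629) (nat_lit 143) (nat_lit 1) (nat_lit 133) (nat_lit 1) (nat_lit 132) (nat_lit 1) (nat_lit 221) (nat_lit 254) (nat_lit 245)) (XT.lf (nat_lit 84) (nat_lit 403877259) (nat_lit 0) (nat_lit 5549857719) (nat_lit 840) (nat_lit 403877259)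 (nat_lit 134) (nat_lit 1) (nat_lit 133) (nat_lit 1) (nat_lit 143) (nat_lit 1) (nat_lit 222) (nat_lit 254) (nat_lit 244)))))) (XT.nd (nat_lit 658) (nat_lit 1428) (nat_lit 0) (XT.nd (nat_lit 282) (nat_lit 840) (nat_lit 0) (XT.nd (nat_lit 94) (nat_lit 588) (nat_lit 0) (XT.lf (nat_lit 924) (nat_lit 243931820) (nat_lit 0) (nat_lit 2986184238) (nat_lit 840) (nat_lit 2986184238) (nat_lit 134) (nat_lit 1) (nat_lit 123) (nat_lit 1) (nat_lit 133) (nat_lit 1) (nat_lit 223) (nat_lit 254) (nat_lit 243)) (XT.nd (nat_lit 94) (nat_lit 0) (nat_lit 0) (XT.lf (nat_lit 588) (nat_lit 5788809309) (nat_lit 0) (nat_lit 146125036) (nat_lit 504) (nat_lit 146125036) (nat_lit 123) (nat_lit 1) (nat_lit 116) (nat_lit 1) (nat_lit 122) (nat_lit 1) (nat_lit 224) (nat_lit 254) (nat_lit 242)) (XT.lf (nat_lit 84) (nat_lit 2530857355) (nat_lit 0) (nat_lit 885843470) (nat_lit 588) (nat_lit 2530857355) (nat_lit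 117) (nat_lit 1) (nat_lit 116) (nat_lit 1) (nat_lit 123) (nat_lit 1) (nat_lit 225) (nat_lit 254) (nat_lit 241)))) (XT.nd (nat_lit 188) (nat_lit 420) (nat_lit 0) (XT.nd (nat_lit 94) (nat_lit 0) (nat_lit 0) (XT.lf (nat_lit 504) (nat_lit 4354955865) (nat_lit 0) (nat_lit 732388970) (nat_lit 420) (nat_lit 732388970) (nat_lit 117) (nat_lit 1) (nat_lit 111) (nat_lit 1) (nat_lit 116) (nat_lit 1) (nat_lit 226) (nat_lit 254) (nat_lit 240)) (XT.lf (nat_lit 84) (nat_lit 1805229742) (nat_lit 0) (nat_lit 2084137170) (nat_lit 504) (nat_lit 1805229742) (nat_lit 112) (nat_lit 1) (nat_lit 111) (nat_lit 1) (nat_lit 117) (nat_lit 1) (nat_lit 227) (nat_lit 254) (nat_lit 239))) (XT.nd (nat_lit 94) (nat_lit 0) (nat_lit 0) (XT.lf (nat_lit 504) (nat_lit 2867800196) (nat_lit 0) (nat_lit 1353008748) (nat_lit 420) (nat_lit 1353008748) (nat_lit 112) (nat_lit 1) (nat_lit 106) (nat_lit 1) (nat_lit 111)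 (nat_lit 1) (nat_lit 228) (nat_lit 254) (nat_lit 238)) (XT.lf (nat_lit 84) (nat_lit 1056746259) (nat_lit 0) (nat_lit 3343058874) (nat_lit 504) (nat_lit 1056746259) (nat_lit 107) (nat_lit 1) (nat_lit 106) (nat_lit 1) (nat_lit 112) (nat_lit 1) (nat_lit 229) (nat_lit 254) (nat_lit 237))))) (XT.nd (nat_lit 282) (nat_lit 672) (nat_lit 0) (XT.nd (nat_lit 94) (nat_lit 420) (nat_lit 0) (XT.lf (nat_lit 420) (nat_lit 1341183949) (nat_lit 0) (nat_lit 2000558809) (nat_lit 336) (nat_lit 2000558809) (nat_lit 107) (nat_lit 1) (nat_lit 102) (nat_lit 1) (nat_lit 106) (nat_lit 1) (nat_lit 230) (nat_lit 254) (nat_lit 236)) (XT.nd (nat_lit 94) (nat_lit 420) (nat_lit 0) (XT.lf (nat_lit 84) (nat_lit 291832678) (nat_lit 0) (nat_lit 4648779872) (nat_lit 420) (nat_lit 291832678) (nat_lit 103) (nat_lit 1) (nat_lit 102) (nat_lit 1) (nat_lit 107) (nat_lit 1) (nat_lit 231) (nat_lit 254) (nat_lit 235))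 (XT.lf (nat_lit 84) (nat_lit 2459066004) (nat_lit 0) (nat_lit 205951554) (nat_lit 420) (nat_lit 2459066004) (nat_lit 98) (nat_lit 1) (nat_lit 97) (nat_lit 1) (nat_lit 102) (nat_lit 1) (nat_lit 232) (nat_lit 254) (nat_lit 234)))) (XT.nd (nat_lit 188) (nat_lit 336) (nat_lit 0) (XT.nd (nat_lit 94) (nat_lit 0) (nat_lit 0) (XT.lf (nat_lit 420) (nat_lit 4067682969) (nat_lit 0) (nat_lit 476082802) (nat_lit 336) (nat_lit 476082802) (nat_lit 98) (nat_lit 1) (nat_lit 93) (nat_lit 1) (nat_lit 97) (nat_lit 1) (nat_lit 233) (nat_lit 254) (nat_lit 233)) (XT.lf (nat_lit 84) (nat_lit 1595524088) (nat_lit 0) (nat_lit 1726353583) (nat_lit 420) (nat_lit 1595524088) (nat_lit 94) (nat_lit 1) (nat_lit 93) (nat_lit 1) (nat_lit 98) (nat_lit 1) (nat_lit 234) (nat_lit 254) (nat_lit 232))) (XT.nd (nat_lit 94) (nat_lit 0) (nat_lit 0) (XT.lf (nat_lit 420) (nat_lit 2328313485) (nat_lit 0) (nat_lit 1245096978)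 (nat_lit 336) (nat_lit 1245096978) (nat_lit 94) (nat_lit 1) (nat_lit 89) (nat_lit 1) (nat_lit 93) (nat_lit 1) (nat_lit 235) (nat_lit 254) (nat_lit 231)) (XT.lf (nat_lit 84) (nat_lit 734246162) (nat_lit 0) (nat_lit 3254012476) (nat_lit 420) (nat_lit 734246162) (nat_lit 90) (nat_lit 1) (nat_lit 89) (nat_lit 1) (nat_lit 94) (nat_lit 1) (nat_lit 236) (nat_lit 254) (nat_lit 230))))))) (XT.nd (nat_lit 1316) (nat_lit 1680) (nat_lit 0) (XT.nd (nat_lit 658) (nat_lit 924) (nat_lit 0) (XT.nd (nat_lit 282) (nat_lit 840) (nat_lit 0) (XT.nd (nat_lit 94) (nat_lit 420) (nat_lit 0) (XT.lf (nat_lit 336) (nat_lit 597130956) (nat_lit 0) (nat_lit 2015721758) (nat_lit 252) (nat_lit 2015721758) (nat_lit 90) (nat_lit 1) (nat_lit 86) (nat_lit 1) (nat_lit 89) (nat_lit 1) (nat_lit 237) (nat_lit 254) (nat_lit 229)) (XT.nd (nat_lit 94) (nat_lit 0) (nat_lit 0) (XT.lf (nat_lit 420) (nat_lit 4299654682)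 (nat_lit 0) (nat_lit 119307167) (nat_lit 336) (nat_lit 119307167) (nat_lit 86) (nat_lit 1) (nat_lit 81) (nat_lit 1) (nat_lit 85) (nat_lit 1) (nat_lit 238) (nat_lit 254) (nat_lit 228)) (XT.lf (nat_lit 84) (nat_lit 1682486663) (nat_lit 0) (nat_lit 1083490062) (nat_lit 420) (nat_lit 1682486663) (nat_lit 82) (nat_lit 1) (nat_lit 81) (nat_lit 1) (nat_lit 86) (nat_lit 1) (nat_lit 239) (nat_lit 254) (nat_lit 227)))) (XT.nd (nat_lit 188) (nat_lit 588) (nat_lit 0) (XT.nd (nat_lit 94) (nat_lit 0) (nat_lit 0) (XT.lf (nat_lit 336) (nat_lit 2457324963) (nat_lit 0) (nat_lit 952388542) (nat_lit 252) (nat_lit 952388542) (nat_lit 82) (nat_lit 1) (nat_lit 78) (nat_lit 1) (nat_lit 81) (nat_lit 1) (nat_lit 240) (nat_lit 254) (nat_lit 226)) (XT.lf (nat_lit 84) (nat_lit 776306966) (nat_lit 0) (nat_lit 2725320930) (nat_lit 336) (nat_lit 776306966) (nat_lit 79) (nat_lit 1) (nat_lit 78) (nat_lit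 1) (nat_lit 82) (nat_lit 1) (nat_lit 241) (nat_lit 254) (nat_lit 225))) (XT.nd (nat_lit 94) (nat_lit 336) (nat_lit 0) (XT.lf (nat_lit 336) (nat_lit 647027592) (nat_lit 0) (nat_lit 1774327434) (nat_lit 252) (nat_lit 1774327434) (nat_lit 79) (nat_lit 1) (nat_lit 75) (nat_lit 1) (nat_lit 78) (nat_lit 1) (nat_lit 242) (nat_lit 254) (nat_lit 224)) (XT.lf (nat_lit 336) (nat_lit 3894089088) (nat_lit 0) (nat_lit 111198375) (nat_lit 252) (nat_lit 111198375) (nat_lit 75) (nat_lit 1) (nat_lit 71) (nat_lit 1) (nat_lit 74) (nat_lit 1) (nat_lit 243) (nat_lit 254) (nat_lit 223))))) (XT.nd (nat_lit 282) (nat_lit 672) (nat_lit 0) (XT.nd (nat_lit 94) (nat_lit 252) (nat_lit 0) (XT.lf (nat_lit 84) (nat_lit 1473022382) (nat_lit 0) (nat_lit 1091494794) (nat_lit 336) (nat_lit 1473022382) (nat_lit 72) (nat_lit 1) (nat_lit 71) (nat_lit 1) (nat_lit 75) (nat_lit 1) (nat_lit 244) (nat_lit 254) (nat_lit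 222)) (XT.nd (nat_lit 94) (nat_lit 0) (nat_lit 0) (XT.lf (nat_lit 336) (nat_lit 2025540654) (nat_lit 0) (nat_lit 967986825) (nat_lit 252) (nat_lit 967986825) (nat_lit 72) (nat_lit 1) (nat_lit 68) (nat_lit 1) (nat_lit 71) (nat_lit 1) (nat_lit 245) (nat_lit 254) (nat_lit 221)) (XT.lf (nat_lit 84) (nat_lit 557832244) (nat_lit 0) (nat_lit 2771863593) (nat_lit 336) (nat_lit 557832244) (nat_lit 69) (nat_lit 1) (nat_lit 68) (nat_lit 1) (nat_lit 72) (nat_lit 1) (nat_lit 246) (nat_lit 254) (nat_lit 220)))) (XT.nd (nat_lit 188) (nat_lit 168) (nat_lit 0) (XT.nd (nat_lit 94) (nat_lit 336) (nat_lit 0) (XT.lf (nat_lit 252) (nat_lit 204408281) (nat_lit 0) (nat_lit 1805263901) (nat_lit 168) (nat_lit 1805263901) (nat_lit 69) (nat_lit 1) (nat_lit 66) (nat_lit 1) (nat_lit 68) (nat_lit 1) (nat_lit 247) (nat_lit 254) (nat_lit 219)) (XT.lf (nat_lit 336) (nat_lit 3088540597) (nat_lit 0) (nat_lit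 328025398) (nat_lit 252) (nat_lit 328025398) (nat_lit 66) (nat_lit 1) (nat_lit 62) (nat_lit 1) (nat_lit 65) (nat_lit 1) (nat_lit 248) (nat_lit 254) (nat_lit 218))) (XT.nd (nat_lit 94) (nat_lit 168) (nat_lit 0) (XT.lf (nat_lit 84) (nat_lit 1078753917) (nat_lit 0) (nat_lit 1517525605) (nat_lit 336) (nat_lit 1078753917) (nat_lit 63) (nat_lit 1) (nat_lit 62) (nat_lit 1) (nat_lit 66) (nat_lit 1) (nat_lit 249) (nat_lit 254) (nat_lit 217)) (XT.lf (nat_lit 252) (nat_lit 1246333746) (nat_lit 0) (nat_lit 1180644245) (nat_lit 168) (nat_lit 1180644245) (nat_lit 63) (nat_lit 1) (nat_lit 60) (nat_lit 1) (nat_lit 62) (nat_lit 1) (nat_lit 250) (nat_lit 254) (nat_lit 216)))))) (XT.nd (nat_lit 658) (nat_lit 840) (nat_lit 0) (XT.nd (nat_lit 282) (nat_lit 420) (nat_lit 0) (XT.nd (nat_lit 94) (nat_lit 420) (nat_lit 0) (XT.lf (nat_lit 84) (nat_lit 179058600) (nat_lit 0) (nat_lit 3184330952) (nat_lit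 252) (nat_lit 179058600) (nat_lit 61) (nat_lit 1) (nat_lit 60) (nat_lit 1) (nat_lit 63) (nat_lit 1) (nat_lit 251) (nat_lit 254) (nat_lit 215)) (XT.nd (nat_lit 94) (nat_lit 168) (nat_lit 0) (XT.lf (nat_lit 84) (nat_lit 1477802041) (nat_lit 0) (nat_lit 521906898) (nat_lit 252) (nat_lit 1477802041) (nat_lit 58) (nat_lit 1) (nat_lit 57) (nat_lit 1) (nat_lit 60) (nat_lit 1) (nat_lit 252) (nat_lit 254) (nat_lit 214)) (XT.lf (nat_lit 252) (nat_lit 2052187141) (nat_lit 0) (nat_lit 681270528) (nat_lit 168) (nat_lit 681270528) (nat_lit 58) (nat_lit 1) (nat_lit 55) (nat_lit 1) (nat_lit 57) (nat_lit 1) (nat_lit 253) (nat_lit 254) (nat_lit 213)))) (XT.nd (nat_lit 188) (nat_lit 252) (nat_lit 0) (XT.nd (nat_lit 94) (nat_lit 168) (nat_lit 0) (XT.lf (nat_lit 84) (nat_lit 579073821) (nat_lit 0) (nat_lit 2195185412) (nat_lit 252) (nat_lit 579073821) (nat_lit 56) (nat_lit 1) (nat_lit 55) (nat_lit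 1) (nat_lit 58) (nat_lit 1) (nat_lit 254) (nat_lit 254) (nat_lit 212)) (XT.lf (nat_lit 252) (nat_lit 271275236) (nat_lit 0) (nat_lit 1510950120) (nat_lit 168) (nat_lit 1510950120) (nat_lit 56) (nat_lit 1) (nat_lit 53) (nat_lit 1) (nat_lit 55) (nat_lit 1) (nat_lit 255) (nat_lit 254) (nat_lit 211))) (XT.nd (nat_lit 94) (nat_lit 0) (nat_lit 0) (XT.lf (nat_lit 252) (nat_lit 2666268281) (nat_lit 0) (nat_lit 284246365) (nat_lit 168) (nat_lit 284246365) (nat_lit 53) (nat_lit 1) (nat_lit 50) (nat_lit 1) (nat_lit 52) (nat_lit 1) (nat_lit 256) (nat_lit 254) (nat_lit 210)) (XT.lf (nat_lit 84) (nat_lit 887607244) (nat_lit 0) (nat_lit 1401630620) (nat_lit 252) (nat_lit 887607244) (nat_lit 51) (nat_lit 1) (nat_lit 50) (nat_lit 1) (nat_lit 53) (nat_lit 1) (nat_lit 257) (nat_lit 254) (nat_lit 209))))) (XT.nd (nat_lit 282) (nat_lit 504) (nat_lit 0) (XT.nd (nat_lit 94) (nat_lit 168) (nat_lit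 0) (XT.lf (nat_lit 252) (nat_lit 903984884) (nat_lit 0) (nat_lit 1108312850) (nat_lit 168) (nat_lit 1108312850) (nat_lit 51) (nat_lit 1) (nat_lit 48) (nat_lit 1) (nat_lit 50) (nat_lit 1) (nat_lit 258) (nat_lit 254) (nat_lit 208)) (XT.nd (nat_lit 94) (nat_lit 168) (nat_lit 0) (XT.lf (nat_lit 84) (nat_lit 29711490) (nat_lit 0) (nat_lit 3006925228) (nat_lit 252) (nat_lit 29711490) (nat_lit 49) (nat_lit 1) (nat_lit 48) (nat_lit 1) (nat_lit 51) (nat_lit 1) (nat_lit 259) (nat_lit 254) (nat_lit 207)) (XT.lf (nat_lit 84) (nat_lit 1121857418) (nat_lit 0) (nat_lit 768026074) (nat_lit 168) (nat_lit 1121857418) (nat_lit 47) (nat_lit 1) (nat_lit 46) (nat_lit 1) (nat_lit 48) (nat_lit 1) (nat_lit 260) (nat_lit 254) (nat_lit 206)))) (XT.nd (nat_lit 188) (nat_lit 336) (nat_lit 0) (XT.nd (nat_lit 94) (nat_lit 0) (nat_lit 0) (XT.lf (nat_lit 252) (nat_lit 1392097341) (nat_lit 0) (nat_lit 783478816)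 (nat_lit 168) (nat_lit 783478816) (nat_lit 47) (nat_lit 1) (nat_lit 44) (nat_lit 1) (nat_lit 46) (nat_lit 1) (nat_lit 261) (nat_lit 254) (nat_lit 205)) (XT.lf (nat_lit 84) (nat_lit 279105895) (nat_lit 0) (nat_lit 2349579373) (nat_lit 252) (nat_lit 279105895) (nat_lit 45) (nat_lit 1) (nat_lit 44) (nat_lit 1) (nat_lit 47) (nat_lit 1) (nat_lit 262) (nat_lit 254) (nat_lit 204))) (XT.nd (nat_lit 94) (nat_lit 168) (nat_lit 0) (XT.lf (nat_lit 84) (nat_lit 1295927009) (nat_lit 0) (nat_lit 265096089) (nat_lit 168) (nat_lit 1295927009) (nat_lit 43) (nat_lit 1) (nat_lit 42) (nat_lit 1) (nat_lit 44) (nat_lit 1) (nat_lit 263) (nat_lit 254) (nat_lit 203)) (XT.lf (nat_lit 252) (nat_lit 1762793108) (nat_lit 0) (nat_lit 522348144) (nat_lit 168) (nat_lit 522348144) (nat_lit 43) (nat_lit 1) (nat_lit 40) (nat_lit 1) (nat_lit 42) (nat_lit 1) (nat_lit 264) (nat_lit 254) (nat_lit 202))))))))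
noncomputable def ec54 : XT := (XT.nd (nat_lit 2538) (nat_lit 1008) (nat_lit 0) (XT.nd (nat_lit 1222) (nat_lit 1092) (nat_lit 0) (XT.nd (nat_lit 564) (nat_lit 588) (nat_lit 0) (XT.nd (nat_lit 282) (nat_lit 336) (nat_lit 0) (XT.nd (nat_lit 94) (nat_lit 336) (nat_lit 0) (XT.lf (nat_lit 84) (nat_lit 472156520) (nat_lit 0) (nat_lit 1814694809) (nat_lit 252) (nat_lit 472156520) (nat_lit 41) (nat_lit 1) (nat_lit 40) (nat_lit 1) (nat_lit 43) (nat_lit 1) (nat_lit 265) (nat_lit 254) (nat_lit 201)) (XT.nd (nat_lit 94) (nat_lit 252) (nat_lit 0) (XT.lf (nat_lit 168) (nat_lit 135538942) (nat_lit 0) (nat_lit 1287951115) (nat_lit 84) (nat_lit 1287951115) (nat_lit 41) (nat_lit 1) (nat_lit 39) (nat_lit 1) (nat_lit 40) (nat_lit 1) (nat_lit 266) (nat_lit 254) (nat_lit 200)) (XT.lf (nat_lit 252) (nat_lit 2038360138) (nat_lit 0) (nat_lit 313335380) (nat_lit 168) (nat_lit 313335380) (nat_lit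 39) (nat_lit 1) (nat_lit 36) (nat_lit 1) (nat_lit 38) (nat_lit 1) (nat_lit 267) (nat_lit 254) (nat_lit 199)))) (XT.nd (nat_lit 94) (nat_lit 336) (nat_lit 0) (XT.lf (nat_lit 84) (nat_lit 619430441) (nat_lit 0) (nat_lit 1380277762) (nat_lit 252) (nat_lit 619430441) (nat_lit 37) (nat_lit 1) (nat_lit 36) (nat_lit 1) (nat_lit 39) (nat_lit 1) (nat_lit 268) (nat_lit 254) (nat_lit 198)) (XT.nd (nat_lit 94) (nat_lit 252) (nat_lit 0) (XT.lf (nat_lit 168) (nat_lit 455170475) (nat_lit 0) (nat_lit 1059600569) (nat_lit 84) (nat_lit 1059600569) (nat_lit 37) (nat_lit 1) (nat_lit 35) (nat_lit 1) (nat_lit 36) (nat_lit 1) (nat_lit 269) (nat_lit 254) (nat_lit 197)) (XT.lf (nat_lit 252) (nat_lit 2237064774) (nat_lit 0) (nat_lit 146923002) (nat_lit 168) (nat_lit 146923002) (nat_lit 35) (nat_lit 1) (nat_lit 32) (nat_lit 1) (nat_lit 34) (nat_lit 1) (nat_lit 270) (nat_lit 254) (nat_lit 196)))))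 (XT.nd (nat_lit 282) (nat_lit 252) (nat_lit 0) (XT.nd (nat_lit 94) (nat_lit 336) (nat_lit 0) (XT.lf (nat_lit 84) (nat_lit 729593722) (nat_lit 0) (nat_lit 1028247313) (nat_lit 252) (nat_lit 729593722) (nat_lit 33) (nat_lit 1) (nat_lit 32) (nat_lit 1) (nat_lit 35) (nat_lit 1) (nat_lit 271) (nat_lit 254) (nat_lit 195)) (XT.nd (nat_lit 94) (nat_lit 252) (nat_lit 0) (XT.lf (nat_lit 168) (nat_lit 701767259) (nat_lit 0) (nat_lit 871736011) (nat_lit 84) (nat_lit 871736011) (nat_lit 33) (nat_lit 1) (nat_lit 31) (nat_lit 1) (nat_lit 32) (nat_lit 1) (nat_lit 272) (nat_lit 254) (nat_lit 194)) (XT.lf (nat_lit 252) (nat_lit 2373868101) (nat_lit 0) (nat_lit 15294116) (nat_lit 168) (nat_lit 15294116) (nat_lit 31) (nat_lit 1) (nat_lit 28) (nat_lit 1) (nat_lit 30) (nat_lit 1) (nat_lit 273) (nat_lit 254) (nat_lit 193)))) (XT.nd (nat_lit 188) (nat_lit 168) (nat_lit 0) (XT.nd (nat_lit 94) (nat_lit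 84) (nat_lit 0) (XT.lf (nat_lit 84) (nat_lit 809749766) (nat_lit 0) (nat_lit 743741021) (nat_lit 252) (nat_lit 809749766) (nat_lit 29) (nat_lit 1) (nat_lit 28) (nat_lit 1) (nat_lit 31) (nat_lit 1) (nat_lit 274) (nat_lit 254) (nat_lit 192)) (XT.lf (nat_lit 168) (nat_lit 889057454) (nat_lit 0) (nat_lit 717179373) (nat_lit 84) (nat_lit 717179373) (nat_lit 29) (nat_lit 1) (nat_lit 27) (nat_lit 1) (nat_lit 28) (nat_lit 1) (nat_lit 275) (nat_lit 254) (nat_lit 191))) (XT.nd (nat_lit 94) (nat_lit 168) (nat_lit 0) (XT.lf (nat_lit 0) (nat_lit 89411809) (nat_lit 0) (nat_lit 2105970593) (nat_lit 168) (nat_lit 89411809) (nat_lit 27) (nat_lit 3) (nat_lit 27) (nat_lit 1) (nat_lit 29) (nat_lit 1) (nat_lit 276) (nat_lit 254) (nat_lit 190)) (XT.lf (nat_lit 84) (nat_lit 865717618) (nat_lit 0) (nat_lit 514543686) (nat_lit 168) (nat_lit 865717618) (nat_lit 26) (nat_lit 1) (nat_lit 25) (nat_lit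 1) (nat_lit 27) (nat_lit 1) (nat_lit 277) (nat_lit 254) (nat_lit 189)))))) (XT.nd (nat_lit 658) (nat_lit 504) (nat_lit 0) (XT.nd (nat_lit 282) (nat_lit 336) (nat_lit 0) (XT.nd (nat_lit 94) (nat_lit 168) (nat_lit 0) (XT.lf (nat_lit 168) (nat_lit 1028298142) (nat_lit 0) (nat_lit 590025245) (nat_lit 84) (nat_lit 590025245) (nat_lit 26) (nat_lit 1) (nat_lit 24) (nat_lit 1) (nat_lit 25) (nat_lit 1) (nat_lit 278) (nat_lit 254) (nat_lit 188)) (XT.nd (nat_lit 94) (nat_lit 168) (nat_lit 0) (XT.lf (nat_lit 0) (nat_lit 170893210) (nat_lit 0) (nat_lit 1829921111) (nat_lit 168) (nat_lit 170893210) (nat_lit 24) (nat_lit 3) (nat_lit 24) (nat_lit 1) (nat_lit 26) (nat_lit 1) (nat_lit 279) (nat_lit 254) (nat_lit 187)) (XT.lf (nat_lit 84) (nat_lit 902260866) (nat_lit 0) (nat_lit 330617417) (nat_lit 168) (nat_lit 902260866) (nat_lit 23) (nat_lit 1) (nat_lit 22) (nat_lit 1) (nat_lit 24) (nat_lit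 1) (nat_lit 280) (nat_lit 254) (nat_lit 186)))) (XT.nd (nat_lit 188) (nat_lit 252) (nat_lit 0) (XT.nd (nat_lit 94) (nat_lit 0) (nat_lit 0) (XT.lf (nat_lit 168) (nat_lit 1128715211) (nat_lit 0) (nat_lit 485415229) (nat_lit 84) (nat_lit 485415229) (nat_lit 23) (nat_lit 1) (nat_lit 21) (nat_lit 1) (nat_lit 22) (nat_lit 1) (nat_lit 281) (nat_lit 254) (nat_lit 185)) (XT.lf (nat_lit 0) (nat_lit 233293213) (nat_lit 0) (nat_lit 1598179573) (nat_lit 168) (nat_lit 233293213) (nat_lit 21) (nat_lit 3) (nat_lit 21) (nat_lit 1) (nat_lit 23) (nat_lit 1) (nat_lit 282) (nat_lit 254) (nat_lit 184))) (XT.nd (nat_lit 94) (nat_lit 84) (nat_lit 0) (XT.lf (nat_lit 84) (nat_lit 923275903) (nat_lit 0) (nat_lit 183715057) (nat_lit 168) (nat_lit 923275903) (nat_lit 20) (nat_lit 1) (nat_lit 19) (nat_lit 1) (nat_lit 21) (nat_lit 1) (nat_lit 283) (nat_lit 254) (nat_lit 183)) (XT.lf (nat_lit 168) (nat_lit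 1197865164) (nat_lit 0) (nat_lit 399352310) (nat_lit 84) (nat_lit 399352310) (nat_lit 20) (nat_lit 1) (nat_lit 18) (nat_lit 1) (nat_lit 19) (nat_lit 1) (nat_lit 284) (nat_lit 254) (nat_lit 182))))) (XT.nd (nat_lit 282) (nat_lit 252) (nat_lit 0) (XT.nd (nat_lit 94) (nat_lit 252) (nat_lit 0) (XT.lf (nat_lit 0) (nat_lit 280215614) (nat_lit 0) (nat_lit 1403111000) (nat_lit 168) (nat_lit 280215614) (nat_lit 18) (nat_lit 3) (nat_lit 18) (nat_lit 1) (nat_lit 20) (nat_lit 1) (nat_lit 285) (nat_lit 254) (nat_lit 181)) (XT.nd (nat_lit 94) (nat_lit 84) (nat_lit 0) (XT.lf (nat_lit 84) (nat_lit 931946758) (nat_lit 0) (nat_lit 67062155) (nat_lit 168) (nat_lit 931946758) (nat_lit 17) (nat_lit 1) (nat_lit 16) (nat_lit 1) (nat_lit 18) (nat_lit 1) (nat_lit 286) (nat_lit 254) (nat_lit 180)) (XT.lf (nat_lit 168) (nat_lit 1241932699) (nat_lit 0) (nat_lit 328548134) (nat_lit 84) (nat_lit 328548134)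 (nat_lit 17) (nat_lit 1) (nat_lit 15) (nat_lit 1) (nat_lit 16) (nat_lit 1) (nat_lit 287) (nat_lit 254) (nat_lit 179)))) (XT.nd (nat_lit 188) (nat_lit 168) (nat_lit 0) (XT.nd (nat_lit 94) (nat_lit 84) (nat_lit 0) (XT.lf (nat_lit 0) (nat_lit 314614755) (nat_lit 0) (nat_lit 1238423569) (nat_lit 168) (nat_lit 314614755) (nat_lit 15) (nat_lit 3) (nat_lit 15) (nat_lit 1) (nat_lit 17) (nat_lit 1) (nat_lit 288) (nat_lit 254) (nat_lit 178)) (XT.lf (nat_lit 84) (nat_lit 25728092) (nat_lit 0) (nat_lit 905546010) (nat_lit 84) (nat_lit 905546010) (nat_lit 15) (nat_lit 3) (nat_lit 14) (nat_lit 1) (nat_lit 15) (nat_lit 1) (nat_lit 289) (nat_lit 254) (nat_lit 177))) (XT.nd (nat_lit 94) (nat_lit 0) (nat_lit 0) (XT.lf (nat_lit 168) (nat_lit 1265975451) (nat_lit 0) (nat_lit 270297363) (nat_lit 84) (nat_lit 270297363) (nat_lit 14) (nat_lit 1) (nat_lit 12) (nat_lit 1) (nat_lit 13) (nat_lit 1)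 (nat_lit 290) (nat_lit 254) (nat_lit 176)) (XT.lf (nat_lit 0) (nat_lit 338911173) (nat_lit 0) (nat_lit 1098930970) (nat_lit 168) (nat_lit 338911173) (nat_lit 12) (nat_lit 3) (nat_lit 12) (nat_lit 1) (nat_lit 14) (nat_lit 1) (nat_lit 291) (nat_lit 254) (nat_lit 175))))))) (XT.nd (nat_lit 1222) (nat_lit 0) (nat_lit 0) (XT.nd (nat_lit 564) (nat_lit 504) (nat_lit 0) (XT.nd (nat_lit 282) (nat_lit 252) (nat_lit 0) (XT.nd (nat_lit 94) (nat_lit 168) (nat_lit 0) (XT.lf (nat_lit 84) (nat_lit 99951838) (nat_lit 0) (nat_lit 823780216) (nat_lit 84) (nat_lit 823780216) (nat_lit 12) (nat_lit 3) (nat_lit 11) (nat_lit 1) (nat_lit 12) (nat_lit 1) (nat_lit 292) (nat_lit 254) (nat_lit 174)) (XT.nd (nat_lit 94) (nat_lit 0) (nat_lit 0) (XT.lf (nat_lit 168) (nat_lit 1274125276) (nat_lit 0) (nat_lit 222374309) (nat_lit 84) (nat_lit 222374309) (nat_lit 11) (nat_lit 1) (nat_lit 9) (nat_lit 1) (nat_lit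 10) (nat_lit 1) (nat_lit 293) (nat_lit 254) (nat_lit 173)) (XT.lf (nat_lit 0) (nat_lit 355086713) (nat_lit 0) (nat_lit 980356881) (nat_lit 168) (nat_lit 355086713) (nat_lit 9) (nat_lit 3) (nat_lit 9) (nat_lit 1) (nat_lit 11) (nat_lit 1) (nat_lit 294) (nat_lit 254) (nat_lit 172)))) (XT.nd (nat_lit 94) (nat_lit 168) (nat_lit 0) (XT.lf (nat_lit 84) (nat_lit 157264218) (nat_lit 0) (nat_lit 752759616) (nat_lit 84) (nat_lit 752759616) (nat_lit 9) (nat_lit 3) (nat_lit 8) (nat_lit 1) (nat_lit 9) (nat_lit 1) (nat_lit 295) (nat_lit 254) (nat_lit 171)) (XT.nd (nat_lit 94) (nat_lit 0) (nat_lit 0) (XT.lf (nat_lit 168) (nat_lit 1269753769) (nat_lit 0) (nat_lit 182947894) (nat_lit 84) (nat_lit 182947894) (nat_lit 8) (nat_lit 1) (nat_lit 6) (nat_lit 1) (nat_lit 7) (nat_lit 1) (nat_lit 296) (nat_lit 254) (nat_lit 170)) (XT.lf (nat_lit 0) (nat_lit 364762767) (nat_lit 0) (nat_lit 879174081)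 (nat_lit 168) (nat_lit 364762767) (nat_lit 6) (nat_lit 3) (nat_lit 6) (nat_lit 1) (nat_lit 8) (nat_lit 1) (nat_lit 297) (nat_lit 254) (nat_lit 169))))) (XT.nd (nat_lit 282) (nat_lit 252) (nat_lit 0) (XT.nd (nat_lit 94) (nat_lit 168) (nat_lit 0) (XT.lf (nat_lit 84) (nat_lit 200842226) (nat_lit 0) (nat_lit 690757764) (nat_lit 84) (nat_lit 690757764) (nat_lit 6) (nat_lit 3) (nat_lit 5) (nat_lit 1) (nat_lit 6) (nat_lit 1) (nat_lit 298) (nat_lit 254) (nat_lit 168)) (XT.nd (nat_lit 94) (nat_lit 0) (nat_lit 0) (XT.lf (nat_lit 168) (nat_lit 1255608380) (nat_lit 0) (nat_lit 150511685) (nat_lit 84) (nat_lit 150511685) (nat_lit 5) (nat_lit 1) (nat_lit 3) (nat_lit 1) (nat_lit 4) (nat_lit 1) (nat_lit 299) (nat_lit 254) (nat_lit 167)) (XT.lf (nat_lit 0) (nat_lit 369264612) (nat_lit 0) (nat_lit 792472073) (nat_lit 168) (nat_lit 369264612) (nat_lit 3) (nat_lit 3) (nat_lit 3) (nat_lit 1)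 (nat_lit 5) (nat_lit 1) (nat_lit 300) (nat_lit 254) (nat_lit 166)))) (XT.nd (nat_lit 188) (nat_lit 0) (nat_lit 0) (XT.nd (nat_lit 94) (nat_lit 168) (nat_lit 0) (XT.lf (nat_lit 84) (nat_lit 233291078) (nat_lit 0) (nat_lit 636345803) (nat_lit 84) (nat_lit 636345803) (nat_lit 3) (nat_lit 3) (nat_lit 2) (nat_lit 1) (nat_lit 3) (nat_lit 1) (nat_lit 301) (nat_lit 254) (nat_lit 165)) (XT.lf (nat_lit 0) (nat_lit 2152269143) (nat_lit 0) (nat_lit 0) (nat_lit 0) (nat_lit 0) (nat_lit 0) (nat_lit 0) (nat_lit 1) (nat_lit 0) (nat_lit 1) (nat_lit 0) (nat_lit 302) (nat_lit 254) (nat_lit 164))) (XT.nd (nat_lit 94) (nat_lit 0) (nat_lit 0) (XT.lf (nat_lit 0) (nat_lit 2151015153) (nat_lit 0) (nat_lit 0) (nat_lit 0) (nat_lit 0) (nat_lit 0) (nat_lit 0) (nat_lit 1) (nat_lit 0) (nat_lit 1) (nat_lit 0) (nat_lit 303) (nat_lit 254) (nat_lit 163)) (XT.lf (nat_lit 0) (nat_lit 2149820878) (nat_lit 0)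 (nat_lit 0) (nat_lit 0) (nat_lit 0) (nat_lit 0) (nat_lit 0) (nat_lit 1) (nat_lit 0) (nat_lit 1) (nat_lit 0) (nat_lit 304) (nat_lit 254) (nat_lit 162)))))) (XT.nd (nat_lit 658) (nat_lit 0) (nat_lit 0) (XT.nd (nat_lit 282) (nat_lit 0) (nat_lit 0) (XT.nd (nat_lit 94) (nat_lit 0) (nat_lit 0) (XT.lf (nat_lit 0) (nat_lit 2148683472) (nat_lit 0) (nat_lit 0) (nat_lit 0) (nat_lit 0) (nat_lit 0) (nat_lit 0) (nat_lit 1) (nat_lit 0) (nat_lit 1) (nat_lit 0) (nat_lit 305) (nat_lit 254) (nat_lit 161)) (XT.nd (nat_lit 94) (nat_lit 0) (nat_lit 0) (XT.lf (nat_lit 0) (nat_lit 2147600229) (nat_lit 0) (nat_lit 0) (nat_lit 0) (nat_lit 0) (nat_lit 0) (nat_lit 0) (nat_lit 1) (nat_lit 0) (nat_lit 1) (nat_lit 0) (nat_lit 306) (nat_lit 254) (nat_lit 160)) (XT.lf (nat_lit 0) (nat_lit 2146568569) (nat_lit 0) (nat_lit 0) (nat_lit 0) (nat_lit 0) (nat_lit 0) (nat_lit 0) (nat_lit 1) (nat_lit 0) (nat_lit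 1) (nat_lit 0) (nat_lit 307) (nat_lit 254) (nat_lit 159)))) (XT.nd (nat_lit 188) (nat_lit 0) (nat_lit 0) (XT.nd (nat_lit 94) (nat_lit 0) (nat_lit 0) (XT.lf (nat_lit 0) (nat_lit 2145586036) (nat_lit 0) (nat_lit 0) (nat_lit 0) (nat_lit 0) (nat_lit 0) (nat_lit 0) (nat_lit 1) (nat_lit 0) (nat_lit 1) (nat_lit 0) (nat_lit 308) (nat_lit 254) (nat_lit 158)) (XT.lf (nat_lit 0) (nat_lit 2144650290) (nat_lit 0) (nat_lit 0) (nat_lit 0) (nat_lit 0) (nat_lit 0) (nat_lit 0) (nat_lit 1) (nat_lit 0) (nat_lit 1) (nat_lit 0) (nat_lit 309) (nat_lit 254) (nat_lit 157))) (XT.nd (nat_lit 94) (nat_lit 0) (nat_lit 0) (XT.lf (nat_lit 0) (nat_lit 2143759103) (nat_lit 0) (nat_lit 0) (nat_lit 0) (nat_lit 0) (nat_lit 0) (nat_lit 0) (nat_lit 1) (nat_lit 0) (nat_lit 1) (nat_lit 0) (nat_lit 310) (nat_lit 254) (nat_lit 156)) (XT.lf (nat_lit 0) (nat_lit 2142910353) (nat_lit 0) (nat_lit 0) (nat_lit 0) (nat_lit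 0) (nat_lit 0) (nat_lit 0) (nat_lit 1) (nat_lit 0) (nat_lit 1) (nat_lit 0) (nat_lit 311) (nat_lit 254) (nat_lit 155))))) (XT.nd (nat_lit 282) (nat_lit 0) (nat_lit 0) (XT.nd (nat_lit 94) (nat_lit 0) (nat_lit 0) (XT.lf (nat_lit 0) (nat_lit 2142102021) (nat_lit 0) (nat_lit 0) (nat_lit 0) (nat_lit 0) (nat_lit 0) (nat_lit 0) (nat_lit 1) (nat_lit 0) (nat_lit 1) (nat_lit 0) (nat_lit 312) (nat_lit 254) (nat_lit 154)) (XT.nd (nat_lit 94) (nat_lit 0) (nat_lit 0) (XT.lf (nat_lit 0) (nat_lit 2141332180) (nat_lit 0) (nat_lit 0) (nat_lit 0) (nat_lit 0) (nat_lit 0) (nat_lit 0) (nat_lit 1) (nat_lit 0) (nat_lit 1) (nat_lit 0) (nat_lit 313) (nat_lit 254) (nat_lit 153)) (XT.lf (nat_lit 0) (nat_lit 2140598998) (nat_lit 0) (nat_lit 0) (nat_lit 0) (nat_lit 0) (nat_lit 0) (nat_lit 0) (nat_lit 1) (nat_lit 0) (nat_lit 1) (nat_lit 0) (nat_lit 314) (nat_lit 254) (nat_lit 152)))) (XT.nd (nat_lit 188)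 (nat_lit 0) (nat_lit 0) (XT.nd (nat_lit 94) (nat_lit 0) (nat_lit 0) (XT.lf (nat_lit 0) (nat_lit 2139900730) (nat_lit 0) (nat_lit 0) (nat_lit 0) (nat_lit 0) (nat_lit 0) (nat_lit 0) (nat_lit 1) (nat_lit 0) (nat_lit 1) (nat_lit 0) (nat_lit 315) (nat_lit 254) (nat_lit 151)) (XT.lf (nat_lit 0) (nat_lit 2139235713) (nat_lit 0) (nat_lit 0) (nat_lit 0) (nat_lit 0) (nat_lit 0) (nat_lit 0) (nat_lit 1) (nat_lit 0) (nat_lit 1) (nat_lit 0) (nat_lit 316) (nat_lit 254) (nat_lit 150))) (XT.nd (nat_lit 94) (nat_lit 0) (nat_lit 0) (XT.lf (nat_lit 0) (nat_lit 2138602363) (nat_lit 0) (nat_lit 0) (nat_lit 0) (nat_lit 0) (nat_lit 0) (nat_lit 0) (nat_lit 1) (nat_lit 0) (nat_lit 1) (nat_lit 0) (nat_lit 317) (nat_lit 254) (nat_lit 149)) (XT.lf (nat_lit 0) (nat_lit 2137999173) (nat_lit 0) (nat_lit 0) (nat_lit 0) (nat_lit 0) (nat_lit 0) (nat_lit 0) (nat_lit 1) (nat_lit 0) (nat_lit 1) (nat_lit 0) (nat_lit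 318) (nat_lit 254) (nat_lit 148))))))))
noncomputable def ec55 : XT := (XT.nd (nat_lit 37036) (nat_lit 0) (nat_lit 3696) (XT.nd (nat_lit 35720) (nat_lit 0) (nat_lit 7812) (XT.nd (nat_lit 35062) (nat_lit 0) (nat_lit 10752) (XT.nd (nat_lit 282) (nat_lit 0) (nat_lit 0) (XT.nd (nat_lit 94) (nat_lit 0) (nat_lit 0) (XT.lf (nat_lit 0) (nat_lit 2137424706) (nat_lit 0) (nat_lit 0) (nat_lit 0) (nat_lit 0) (nat_lit 0) (nat_lit 0) (nat_lit 1) (nat_lit 0) (nat_lit 1) (nat_lit 0) (nat_lit 319) (nat_lit 254) (nat_lit 147)) (XT.nd (nat_lit 94) (nat_lit 0) (nat_lit 0) (XT.lf (nat_lit 0) (nat_lit 2136877594) (nat_lit 0) (nat_lit 0) (nat_lit 0) (nat_lit 0) (nat_lit 0) (nat_lit 0) (nat_lit 1) (nat_lit 0) (nat_lit 1) (nat_lit 0) (nat_lit 320) (nat_lit 254) (nat_lit 146)) (XT.lf (nat_lit 0) (nat_lit 2136356536) (nat_lit 0) (nat_lit 0) (nat_lit 0) (nat_lit 0) (nat_lit 0) (nat_lit 0) (nat_lit 1)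 (nat_lit 0) (nat_lit 1) (nat_lit 0) (nat_lit 321) (nat_lit 254) (nat_lit 145)))) (XT.nd (nat_lit 94) (nat_lit 0) (nat_lit 0) (XT.lf (nat_lit 0) (nat_lit 2135860290) (nat_lit 0) (nat_lit 0) (nat_lit 0) (nat_lit 0) (nat_lit 0) (nat_lit 0) (nat_lit 1) (nat_lit 0) (nat_lit 1) (nat_lit 0) (nat_lit 322) (nat_lit 254) (nat_lit 144)) (XT.nd (nat_lit 34592) (nat_lit 0) (nat_lit 10752) (XT.lf (nat_lit 0) (nat_lit 2135387674) (nat_lit 0) (nat_lit 0) (nat_lit 0) (nat_lit 0) (nat_lit 0) (nat_lit 0) (nat_lit 1) (nat_lit 0) (nat_lit 1) (nat_lit 0) (nat_lit 323) (nat_lit 254) (nat_lit 143)) (XT.lf (nat_lit 924) (nat_lit 1117092574) (nat_lit 0) (nat_lit 1983395298) (nat_lit 924) (nat_lit 1117092574) (nat_lit 139) (nat_lit 1) (nat_lit 128) (nat_lit 0) (nat_lit 139) (nat_lit 0) (nat_lit 210) (nat_lit 255) (nat_lit 255))))) (XT.nd (nat_lit 282) (nat_lit 0) (nat_lit 168) (XT.nd (nat_lit 94)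 (nat_lit 0) (nat_lit 84) (XT.lf (nat_lit 924) (nat_lit 4329990282) (nat_lit 84) (nat_lit 1951405051) (nat_lit 0) (nat_lit 1951405051) (nat_lit 139) (nat_lit 1) (nat_lit 129) (nat_lit 1) (nat_lit 128) (nat_lit 0) (nat_lit 211) (nat_lit 255) (nat_lit 254)) (XT.nd (nat_lit 94) (nat_lit 0) (nat_lit 0) (XT.lf (nat_lit 924) (nat_lit 2063608172) (nat_lit 0) (nat_lit 3909479583) (nat_lit 840) (nat_lit 2063608172) (nat_lit 140) (nat_lit 1) (nat_lit 129) (nat_lit 1) (nat_lit 139) (nat_lit 1) (nat_lit 212) (nat_lit 255) (nat_lit 253)) (XT.lf (nat_lit 924) (nat_lit 3871042185) (nat_lit 84) (nat_lit 1987942459) (nat_lit 0) (nat_lit 1987942459) (nat_lit 140) (nat_lit 1) (nat_lit 130) (nat_lit 1) (nat_lit 129) (nat_lit 1) (nat_lit 213) (nat_lit 255) (nat_lit 252)))) (XT.nd (nat_lit 188) (nat_lit 0) (nat_lit 84) (XT.nd (nat_lit 94) (nat_lit 0) (nat_lit 0) (XT.lf (nat_lit 924) (nat_lit 1781803543)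 (nat_lit 0) (nat_lit 4099565911) (nat_lit 840) (nat_lit 1781803543) (nat_lit 141) (nat_lit 1) (nat_lit 130) (nat_lit 1) (nat_lit 140) (nat_lit 1) (nat_lit 214) (nat_lit 255) (nat_lit 251)) (XT.lf (nat_lit 924) (nat_lit 3204689726) (nat_lit 84) (nat_lit 2140165348) (nat_lit 0) (nat_lit 2140165348) (nat_lit 141) (nat_lit 1) (nat_lit 131) (nat_lit 1) (nat_lit 130) (nat_lit 1) (nat_lit 215) (nat_lit 255) (nat_lit 250))) (XT.nd (nat_lit 94) (nat_lit 0) (nat_lit 0) (XT.lf (nat_lit 924) (nat_lit 1405163885) (nat_lit 0) (nat_lit 4502521823) (nat_lit 840) (nat_lit 1405163885) (nat_lit 142) (nat_lit 1) (nat_lit 131) (nat_lit 1) (nat_lit 141) (nat_lit 1) (nat_lit 216) (nat_lit 255) (nat_lit 249)) (XT.lf (nat_lit 924) (nat_lit 2362123635) (nat_lit 84) (nat_lit 2391647790) (nat_lit 0) (nat_lit 2391647790) (nat_lit 142) (nat_lit 1) (nat_lit 132) (nat_lit 1) (nat_lit 131) (nat_lit 1) (nat_lit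 217) (nat_lit 255) (nat_lit 248)))))) (XT.nd (nat_lit 658) (nat_lit 1512) (nat_lit 0) (XT.nd (nat_lit 282) (nat_lit 1764) (nat_lit 0) (XT.nd (nat_lit 94) (nat_lit 0) (nat_lit 0) (XT.lf (nat_lit 924) (nat_lit 948269608) (nat_lit 0) (nat_lit 5087578529) (nat_lit 840) (nat_lit 948269608) (nat_lit 143) (nat_lit 1) (nat_lit 132) (nat_lit 1) (nat_lit 142) (nat_lit 1) (nat_lit 218) (nat_lit 255) (nat_lit 247)) (XT.nd (nat_lit 94) (nat_lit 0) (nat_lit 84) (XT.lf (nat_lit 924) (nat_lit 1371067765) (nat_lit 84) (nat_lit 2727761010) (nat_lit 0) (nat_lit 2727761010) (nat_lit 143) (nat_lit 1) (nat_lit 133) (nat_lit 1) (nat_lit 132) (nat_lit 1) (nat_lit 219) (nat_lit 255) (nat_lit 246)) (XT.lf (nat_lit 84) (nat_lit 424071121) (nat_lit 0) (nat_lit 5827350605) (nat_lit 840) (nat_lit 424071121) (nat_lit 134) (nat_lit 1) (nat_lit 133) (nat_lit 1) (nat_lit 143) (nat_lit 1) (nat_lit 220) (nat_lit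 255) (nat_lit 245)))) (XT.nd (nat_lit 188) (nat_lit 420) (nat_lit 0) (XT.nd (nat_lit 94) (nat_lit 588) (nat_lit 0) (XT.lf (nat_lit 924) (nat_lit 256128411) (nat_lit 0) (nat_lit 3135493450) (nat_lit 840) (nat_lit 3135493450) (nat_lit 134) (nat_lit 1) (nat_lit 123) (nat_lit 1) (nat_lit 133) (nat_lit 1) (nat_lit 221) (nat_lit 255) (nat_lit 244)) (XT.lf (nat_lit 588) (nat_lit 6078249775) (nat_lit 0) (nat_lit 153431288) (nat_lit 504) (nat_lit 153431288) (nat_lit 123) (nat_lit 1) (nat_lit 116) (nat_lit 1) (nat_lit 122) (nat_lit 1) (nat_lit 222) (nat_lit 255) (nat_lit 243))) (XT.nd (nat_lit 94) (nat_lit 420) (nat_lit 0) (XT.lf (nat_lit 84) (nat_lit 2657400222) (nat_lit 0) (nat_lit 930135644) (nat_lit 588) (nat_lit 2657400222) (nat_lit 117) (nat_lit 1) (nat_lit 116) (nat_lit 1) (nat_lit 123) (nat_lit 1) (nat_lit 223) (nat_lit 255) (nat_lit 242)) (XT.lf (nat_lit 504) (nat_lit 4572703658)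 (nat_lit 0) (nat_lit 769008419) (nat_lit 420) (nat_lit 769008419) (nat_lit 117) (nat_lit 1) (nat_lit 111) (nat_lit 1) (nat_lit 116) (nat_lit 1) (nat_lit 224) (nat_lit 255) (nat_lit 241))))) (XT.nd (nat_lit 282) (nat_lit 1092) (nat_lit 0) (XT.nd (nat_lit 94) (nat_lit 420) (nat_lit 0) (XT.lf (nat_lit 84) (nat_lit 1895491229) (nat_lit 0) (nat_lit 2188344028) (nat_lit 504) (nat_lit 1895491229) (nat_lit 112) (nat_lit 1) (nat_lit 111) (nat_lit 1) (nat_lit 117) (nat_lit 1) (nat_lit 225) (nat_lit 255) (nat_lit 240)) (XT.nd (nat_lit 94) (nat_lit 0) (nat_lit 0) (XT.lf (nat_lit 504) (nat_lit 3011190206) (nat_lit 0) (nat_lit 1420659186) (nat_lit 420) (nat_lit 1420659186) (nat_lit 112) (nat_lit 1) (nat_lit 106) (nat_lit 1) (nat_lit 111) (nat_lit 1) (nat_lit 226) (nat_lit 255) (nat_lit 239)) (XT.lf (nat_lit 84) (nat_lit 1109583572) (nat_lit 0) (nat_lit 3510211818) (nat_lit 504) (nat_lit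 1109583572) (nat_lit 107) (nat_lit 1) (nat_lit 106) (nat_lit 1) (nat_lit 112) (nat_lit 1) (nat_lit 227) (nat_lit 255) (nat_lit 238)))) (XT.nd (nat_lit 188) (nat_lit 756) (nat_lit 0) (XT.nd (nat_lit 94) (nat_lit 0) (nat_lit 0) (XT.lf (nat_lit 420) (nat_lit 1408243146) (nat_lit 0) (nat_lit 2100586750) (nat_lit 336) (nat_lit 2100586750) (nat_lit 107) (nat_lit 1) (nat_lit 102) (nat_lit 1) (nat_lit 106) (nat_lit 1) (nat_lit 228) (nat_lit 255) (nat_lit 237)) (XT.lf (nat_lit 84) (nat_lit 306424312) (nat_lit 0) (nat_lit 4881218866) (nat_lit 420) (nat_lit 306424312) (nat_lit 103) (nat_lit 1) (nat_lit 102) (nat_lit 1) (nat_lit 107) (nat_lit 1) (nat_lit 229) (nat_lit 255) (nat_lit 236))) (XT.nd (nat_lit 94) (nat_lit 336) (nat_lit 0) (XT.lf (nat_lit 84) (nat_lit 2582019304) (nat_lit 0) (nat_lit 216249132) (nat_lit 420) (nat_lit 2582019304) (nat_lit 98) (nat_lit 1) (nat_lit 97) (nat_lit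 1) (nat_lit 102) (nat_lit 1) (nat_lit 230) (nat_lit 255) (nat_lit 235)) (XT.lf (nat_lit 420) (nat_lit 4271067117) (nat_lit 0) (nat_lit 499886942) (nat_lit 336) (nat_lit 499886942) (nat_lit 98) (nat_lit 1) (nat_lit 93) (nat_lit 1) (nat_lit 97) (nat_lit 1) (nat_lit 231) (nat_lit 255) (nat_lit 234))))))) (XT.nd (nat_lit 1316) (nat_lit 1848) (nat_lit 0) (XT.nd (nat_lit 658) (nat_lit 1008) (nat_lit 0) (XT.nd (nat_lit 282) (nat_lit 924) (nat_lit 0) (XT.nd (nat_lit 94) (nat_lit 336) (nat_lit 0) (XT.lf (nat_lit 84) (nat_lit 1675300292) (nat_lit 0) (nat_lit 1812671262) (nat_lit 420) (nat_lit 1675300292) (nat_lit 94) (nat_lit 1) (nat_lit 93) (nat_lit 1) (nat_lit 98) (nat_lit 1) (nat_lit 232) (nat_lit 255) (nat_lit 233)) (XT.nd (nat_lit 94) (nat_lit 0) (nat_lit 0) (XT.lf (nat_lit 420) (nat_lit 2444729159) (nat_lit 0) (nat_lit 1307351827) (nat_lit 336) (nat_lit 1307351827) (nat_lit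 94) (nat_lit 1) (nat_lit 89) (nat_lit 1) (nat_lit 93) (nat_lit 1) (nat_lit 233) (nat_lit 255) (nat_lit 232)) (XT.lf (nat_lit 84) (nat_lit 770958470) (nat_lit 0) (nat_lit 3416713100) (nat_lit 420) (nat_lit 770958470) (nat_lit 90) (nat_lit 1) (nat_lit 89) (nat_lit 1) (nat_lit 94) (nat_lit 1) (nat_lit 234) (nat_lit 255) (nat_lit 231)))) (XT.nd (nat_lit 188) (nat_lit 252) (nat_lit 0) (XT.nd (nat_lit 94) (nat_lit 420) (nat_lit 0) (XT.lf (nat_lit 336) (nat_lit 626987504) (nat_lit 0) (nat_lit 2116507846) (nat_lit 252) (nat_lit 2116507846) (nat_lit 90) (nat_lit 1) (nat_lit 86) (nat_lit 1) (nat_lit 89) (nat_lit 1) (nat_lit 235) (nat_lit 255) (nat_lit 230)) (XT.lf (nat_lit 420) (nat_lit 4514637416) (nat_lit 0) (nat_lit 125272525) (nat_lit 336) (nat_lit 125272525) (nat_lit 86) (nat_lit 1) (nat_lit 81) (nat_lit 1) (nat_lit 85) (nat_lit 1) (nat_lit 236) (nat_lit 255) (nat_lit 229)))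 (XT.nd (nat_lit 94) (nat_lit 252) (nat_lit 0) (XT.lf (nat_lit 84) (nat_lit 1766610997) (nat_lit 0) (nat_lit 1137664565) (nat_lit 420) (nat_lit 1766610997) (nat_lit 82) (nat_lit 1) (nat_lit 81) (nat_lit 1) (nat_lit 86) (nat_lit 1) (nat_lit 237) (nat_lit 255) (nat_lit 228)) (XT.lf (nat_lit 336) (nat_lit 2580191211) (nat_lit 0) (nat_lit 1000007969) (nat_lit 252) (nat_lit 1000007969) (nat_lit 82) (nat_lit 1) (nat_lit 78) (nat_lit 1) (nat_lit 81) (nat_lit 1) (nat_lit 238) (nat_lit 255) (nat_lit 227))))) (XT.nd (nat_lit 282) (nat_lit 420) (nat_lit 0) (XT.nd (nat_lit 94) (nat_lit 588) (nat_lit 0) (XT.lf (nat_lit 84) (nat_lit 815122315) (nat_lit 0) (nat_lit 2861586976) (nat_lit 336) (nat_lit 815122315) (nat_lit 79) (nat_lit 1) (nat_lit 78) (nat_lit 1) (nat_lit 82) (nat_lit 1) (nat_lit 239) (nat_lit 255) (nat_lit 226)) (XT.nd (nat_lit 94) (nat_lit 336) (nat_lit 0) (XT.lf (nat_lit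 336) (nat_lit 679378972) (nat_lit 0) (nat_lit 1863043806) (nat_lit 252) (nat_lit 1863043806) (nat_lit 79) (nat_lit 1) (nat_lit 75) (nat_lit 1) (nat_lit 78) (nat_lit 1) (nat_lit 240) (nat_lit 255) (nat_lit 225)) (XT.lf (nat_lit 336) (nat_lit 4088793542) (nat_lit 0) (nat_lit 116758294) (nat_lit 252) (nat_lit 116758294) (nat_lit 75) (nat_lit 1) (nat_lit 71) (nat_lit 1) (nat_lit 74) (nat_lit 1) (nat_lit 241) (nat_lit 255) (nat_lit 224)))) (XT.nd (nat_lit 188) (nat_lit 168) (nat_lit 0) (XT.nd (nat_lit 94) (nat_lit 252) (nat_lit 0) (XT.lf (nat_lit 84) (nat_lit 1546673501) (nat_lit 0) (nat_lit 1146069534) (nat_lit 336) (nat_lit 1546673501) (nat_lit 72) (nat_lit 1) (nat_lit 71) (nat_lit 1) (nat_lit 75) (nat_lit 1) (nat_lit 242) (nat_lit 255) (nat_lit 223)) (XT.lf (nat_lit 336) (nat_lit 2126817687) (nat_lit 0) (nat_lit 1016386166) (nat_lit 252) (nat_lit 1016386166) (nat_lit 72) (nat_lit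 1) (nat_lit 68) (nat_lit 1) (nat_lit 71) (nat_lit 1) (nat_lit 243) (nat_lit 255) (nat_lit 222))) (XT.nd (nat_lit 94) (nat_lit 168) (nat_lit 0) (XT.lf (nat_lit 84) (nat_lit 585723856) (nat_lit 0) (nat_lit 2910456772) (nat_lit 336) (nat_lit 585723856) (nat_lit 69) (nat_lit 1) (nat_lit 68) (nat_lit 1) (nat_lit 72) (nat_lit 1) (nat_lit 244) (nat_lit 255) (nat_lit 221)) (XT.lf (nat_lit 252) (nat_lit 214628695) (nat_lit 0) (nat_lit 1895527096) (nat_lit 168) (nat_lit 1895527096) (nat_lit 69) (nat_lit 1) (nat_lit 66) (nat_lit 1) (nat_lit 68) (nat_lit 1) (nat_lit 245) (nat_lit 255) (nat_lit 220)))))) (XT.nd (nat_lit 658) (nat_lit 924) (nat_lit 0) (XT.nd (nat_lit 282) (nat_lit 420) (nat_lit 0) (XT.nd (nat_lit 94) (nat_lit 168) (nat_lit 0) (XT.lf (nat_lit 336) (nat_lit 3242967627) (nat_lit 0) (nat_lit 344426668) (nat_lit 252) (nat_lit 344426668) (nat_lit 66) (nat_lit 1) (nat_lit 62)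 (nat_lit 1) (nat_lit 65) (nat_lit 1) (nat_lit 246) (nat_lit 255) (nat_lit 219)) (XT.nd (nat_lit 94) (nat_lit 168) (nat_lit 0) (XT.lf (nat_lit 84) (nat_lit 1132691613) (nat_lit 0) (nat_lit 1593401886) (nat_lit 336) (nat_lit 1132691613) (nat_lit 63) (nat_lit 1) (nat_lit 62) (nat_lit 1) (nat_lit 66) (nat_lit 1) (nat_lit 247) (nat_lit 255) (nat_lit 218)) (XT.lf (nat_lit 252) (nat_lit 1308650434) (nat_lit 0) (nat_lit 1239676457) (nat_lit 168) (nat_lit 1239676457) (nat_lit 63) (nat_lit 1) (nat_lit 60) (nat_lit 1) (nat_lit 62) (nat_lit 1) (nat_lit 248) (nat_lit 255) (nat_lit 217)))) (XT.nd (nat_lit 188) (nat_lit 168) (nat_lit 0) (XT.nd (nat_lit 94) (nat_lit 252) (nat_lit 0) (XT.lf (nat_lit 84) (nat_lit 188011530) (nat_lit 0) (nat_lit 3343547500) (nat_lit 252) (nat_lit 188011530) (nat_lit 61) (nat_lit 1) (nat_lit 60) (nat_lit 1) (nat_lit 63) (nat_lit 1) (nat_lit 249) (nat_lit 255)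 (nat_lit 216)) (XT.lf (nat_lit 84) (nat_lit 1551692143) (nat_lit 0) (nat_lit 548002243) (nat_lit 252) (nat_lit 1551692143) (nat_lit 58) (nat_lit 1) (nat_lit 57) (nat_lit 1) (nat_lit 60) (nat_lit 1) (nat_lit 250) (nat_lit 255) (nat_lit 215))) (XT.nd (nat_lit 94) (nat_lit 0) (nat_lit 0) (XT.lf (nat_lit 252) (nat_lit 2154796498) (nat_lit 0) (nat_lit 715334055) (nat_lit 168) (nat_lit 715334055) (nat_lit 58) (nat_lit 1) (nat_lit 55) (nat_lit 1) (nat_lit 57) (nat_lit 1) (nat_lit 251) (nat_lit 255) (nat_lit 214)) (XT.lf (nat_lit 84) (nat_lit 608027512) (nat_lit 0) (nat_lit 2304944682) (nat_lit 252) (nat_lit 608027512) (nat_lit 56) (nat_lit 1) (nat_lit 55) (nat_lit 1) (nat_lit 58) (nat_lit 1) (nat_lit 252) (nat_lit 255) (nat_lit 213))))) (XT.nd (nat_lit 282) (nat_lit 504) (nat_lit 0) (XT.nd (nat_lit 94) (nat_lit 252) (nat_lit 0) (XT.lf (nat_lit 252) (nat_lit 284838998) (nat_lit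 0) (nat_lit 1586497626) (nat_lit 168) (nat_lit 1586497626) (nat_lit 56) (nat_lit 1) (nat_lit 53) (nat_lit 1) (nat_lit 55) (nat_lit 1) (nat_lit 253) (nat_lit 255) (nat_lit 212)) (XT.nd (nat_lit 94) (nat_lit 0) (nat_lit 0) (XT.lf (nat_lit 252) (nat_lit 2799581695) (nat_lit 0) (nat_lit 298458684) (nat_lit 168) (nat_lit 298458684) (nat_lit 53) (nat_lit 1) (nat_lit 50) (nat_lit 1) (nat_lit 52) (nat_lit 1) (nat_lit 254) (nat_lit 255) (nat_lit 211)) (XT.lf (nat_lit 84) (nat_lit 931987606) (nat_lit 0) (nat_lit 1471712151) (nat_lit 252) (nat_lit 931987606) (nat_lit 51) (nat_lit 1) (nat_lit 50) (nat_lit 1) (nat_lit 53) (nat_lit 1) (nat_lit 255) (nat_lit 255) (nat_lit 210)))) (XT.nd (nat_lit 188) (nat_lit 336) (nat_lit 0) (XT.nd (nat_lit 94) (nat_lit 0) (nat_lit 0) (XT.lf (nat_lit 252) (nat_lit 949184129) (nat_lit 0) (nat_lit 1163728492) (nat_lit 168) (nat_lit 1163728492) (nat_lit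 51) (nat_lit 1) (nat_lit 48) (nat_lit 1) (nat_lit 50) (nat_lit 1) (nat_lit 256) (nat_lit 255) (nat_lit 209)) (XT.lf (nat_lit 84) (nat_lit 31197064) (nat_lit 0) (nat_lit 3157271489) (nat_lit 252) (nat_lit 31197064) (nat_lit 49) (nat_lit 1) (nat_lit 48) (nat_lit 1) (nat_lit 51) (nat_lit 1) (nat_lit 257) (nat_lit 255) (nat_lit 208))) (XT.nd (nat_lit 94) (nat_lit 168) (nat_lit 0) (XT.lf (nat_lit 84) (nat_lit 1177950289) (nat_lit 0) (nat_lit 806427378) (nat_lit 168) (nat_lit 1177950289) (nat_lit 47) (nat_lit 1) (nat_lit 46) (nat_lit 1) (nat_lit 48) (nat_lit 1) (nat_lit 258) (nat_lit 255) (nat_lit 207)) (XT.lf (nat_lit 252) (nat_lit 1461702208) (nat_lit 0) (nat_lit 822652757) (nat_lit 168) (nat_lit 822652757) (nat_lit 47) (nat_lit 1) (nat_lit 44) (nat_lit 1) (nat_lit 46) (nat_lit 1) (nat_lit 259) (nat_lit 255) (nat_lit 206))))))))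
noncomputable def ec56 : XT := (XT.nd (nat_lit 2538) (nat_lit 1260) (nat_lit 0) (XT.nd (nat_lit 1222) (nat_lit 1092) (nat_lit 0) (XT.nd (nat_lit 564) (nat_lit 672) (nat_lit 0) (XT.nd (nat_lit 282) (nat_lit 336) (nat_lit 0) (XT.nd (nat_lit 94) (nat_lit 336) (nat_lit 0) (XT.lf (nat_lit 84) (nat_lit 293061190) (nat_lit 0) (nat_lit 2467058342) (nat_lit 252) (nat_lit 293061190) (nat_lit 45) (nat_lit 1) (nat_lit 44) (nat_lit 1) (nat_lit 47) (nat_lit 1) (nat_lit 260) (nat_lit 255) (nat_lit 205)) (XT.nd (nat_lit 94) (nat_lit 168) (nat_lit 0) (XT.lf (nat_lit 84) (nat_lit 1360723360) (nat_lit 0) (nat_lit 278350894) (nat_lit 168) (nat_lit 1360723360) (nat_lit 43) (nat_lit 1) (nat_lit 42) (nat_lit 1) (nat_lit 44) (nat_lit 1) (nat_lit 261) (nat_lit 255) (nat_lit 204)) (XT.lf (nat_lit 252) (nat_lit 1850932763) (nat_lit 0) (nat_lit 548465551) (nat_lit 168) (nat_lit 548465551) (nat_lit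 43) (nat_lit 1) (nat_lit 40) (nat_lit 1) (nat_lit 42) (nat_lit 1) (nat_lit 262) (nat_lit 255) (nat_lit 203)))) (XT.nd (nat_lit 94) (nat_lit 336) (nat_lit 0) (XT.lf (nat_lit 84) (nat_lit 495764346) (nat_lit 0) (nat_lit 1905429550) (nat_lit 252) (nat_lit 495764346) (nat_lit 41) (nat_lit 1) (nat_lit 40) (nat_lit 1) (nat_lit 43) (nat_lit 1) (nat_lit 263) (nat_lit 255) (nat_lit 202)) (XT.nd (nat_lit 94) (nat_lit 252) (nat_lit 0) (XT.lf (nat_lit 168) (nat_lit 142315889) (nat_lit 0) (nat_lit 1352348670) (nat_lit 84) (nat_lit 1352348670) (nat_lit 41) (nat_lit 1) (nat_lit 39) (nat_lit 1) (nat_lit 40) (nat_lit 1) (nat_lit 264) (nat_lit 255) (nat_lit 201)) (XT.lf (nat_lit 252) (nat_lit 2140278145) (nat_lit 0) (nat_lit 329002149) (nat_lit 168) (nat_lit 329002149) (nat_lit 39) (nat_lit 1) (nat_lit 36) (nat_lit 1) (nat_lit 38) (nat_lit 1) (nat_lit 265) (nat_lit 255) (nat_lit 200)))))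 (XT.nd (nat_lit 282) (nat_lit 336) (nat_lit 0) (XT.nd (nat_lit 94) (nat_lit 336) (nat_lit 0) (XT.lf (nat_lit 84) (nat_lit 650401963) (nat_lit 0) (nat_lit 1449291650) (nat_lit 252) (nat_lit 650401963) (nat_lit 37) (nat_lit 1) (nat_lit 36) (nat_lit 1) (nat_lit 39) (nat_lit 1) (nat_lit 266) (nat_lit 255) (nat_lit 199)) (XT.nd (nat_lit 94) (nat_lit 252) (nat_lit 0) (XT.lf (nat_lit 168) (nat_lit 477928999) (nat_lit 0) (nat_lit 1112580598) (nat_lit 84) (nat_lit 1112580598) (nat_lit 37) (nat_lit 1) (nat_lit 35) (nat_lit 1) (nat_lit 36) (nat_lit 1) (nat_lit 267) (nat_lit 255) (nat_lit 198)) (XT.lf (nat_lit 252) (nat_lit 2348918013) (nat_lit 0) (nat_lit 154269152) (nat_lit 168) (nat_lit 154269152) (nat_lit 35) (nat_lit 1) (nat_lit 32) (nat_lit 1) (nat_lit 34) (nat_lit 1) (nat_lit 268) (nat_lit 255) (nat_lit 197)))) (XT.nd (nat_lit 188) (nat_lit 252) (nat_lit 0) (XT.nd (nat_lit 94)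 (nat_lit 84) (nat_lit 0) (XT.lf (nat_lit 84) (nat_lit 766073408) (nat_lit 0) (nat_lit 1079659679) (nat_lit 252) (nat_lit 766073408) (nat_lit 33) (nat_lit 1) (nat_lit 32) (nat_lit 1) (nat_lit 35) (nat_lit 1) (nat_lit 269) (nat_lit 255) (nat_lit 196)) (XT.lf (nat_lit 168) (nat_lit 736855622) (nat_lit 0) (nat_lit 915322811) (nat_lit 84) (nat_lit 915322811) (nat_lit 33) (nat_lit 1) (nat_lit 31) (nat_lit 1) (nat_lit 32) (nat_lit 1) (nat_lit 270) (nat_lit 255) (nat_lit 195))) (XT.nd (nat_lit 94) (nat_lit 0) (nat_lit 0) (XT.lf (nat_lit 252) (nat_lit 2492561506) (nat_lit 0) (nat_lit 16058822) (nat_lit 168) (nat_lit 16058822) (nat_lit 31) (nat_lit 1) (nat_lit 28) (nat_lit 1) (nat_lit 30) (nat_lit 1) (nat_lit 271) (nat_lit 255) (nat_lit 194)) (XT.lf (nat_lit 84) (nat_lit 850237254) (nat_lit 0) (nat_lit 780928073) (nat_lit 252) (nat_lit 850237254) (nat_lit 29) (nat_lit 1) (nat_lit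 28) (nat_lit 1) (nat_lit 31) (nat_lit 1) (nat_lit 272) (nat_lit 255) (nat_lit 193)))))) (XT.nd (nat_lit 658) (nat_lit 504) (nat_lit 0) (XT.nd (nat_lit 282) (nat_lit 336) (nat_lit 0) (XT.nd (nat_lit 94) (nat_lit 168) (nat_lit 0) (XT.lf (nat_lit 168) (nat_lit 933510327) (nat_lit 0) (nat_lit 753038342) (nat_lit 84) (nat_lit 753038342) (nat_lit 29) (nat_lit 1) (nat_lit 27) (nat_lit 1) (nat_lit 28) (nat_lit 1) (nat_lit 273) (nat_lit 255) (nat_lit 192)) (XT.nd (nat_lit 94) (nat_lit 168) (nat_lit 0) (XT.lf (nat_lit 0) (nat_lit 93882400) (nat_lit 0) (nat_lit 2211269122) (nat_lit 168) (nat_lit 93882400) (nat_lit 27) (nat_lit 3) (nat_lit 27) (nat_lit 1) (nat_lit 29) (nat_lit 1) (nat_lit 274) (nat_lit 255) (nat_lit 191)) (XT.lf (nat_lit 84) (nat_lit 909003498) (nat_lit 0) (nat_lit 540270870) (nat_lit 168) (nat_lit 909003498) (nat_lit 26) (nat_lit 1) (nat_lit 25) (nat_lit 1) (nat_lit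 27) (nat_lit 1) (nat_lit 275) (nat_lit 255) (nat_lit 190)))) (XT.nd (nat_lit 188) (nat_lit 252) (nat_lit 0) (XT.nd (nat_lit 94) (nat_lit 0) (nat_lit 0) (XT.lf (nat_lit 168) (nat_lit 1079713049) (nat_lit 0) (nat_lit 619526507) (nat_lit 84) (nat_lit 619526507) (nat_lit 26) (nat_lit 1) (nat_lit 24) (nat_lit 1) (nat_lit 25) (nat_lit 1) (nat_lit 276) (nat_lit 255) (nat_lit 189)) (XT.lf (nat_lit 0) (nat_lit 179437870) (nat_lit 0) (nat_lit 1921417167) (nat_lit 168) (nat_lit 179437870) (nat_lit 24) (nat_lit 3) (nat_lit 24) (nat_lit 1) (nat_lit 26) (nat_lit 1) (nat_lit 277) (nat_lit 255) (nat_lit 188))) (XT.nd (nat_lit 94) (nat_lit 84) (nat_lit 0) (XT.lf (nat_lit 84) (nat_lit 947373909) (nat_lit 0) (nat_lit 347148288) (nat_lit 168) (nat_lit 947373909) (nat_lit 23) (nat_lit 1) (nat_lit 22) (nat_lit 1) (nat_lit 24) (nat_lit 1) (nat_lit 278) (nat_lit 255) (nat_lit 187)) (XT.lf (nat_lit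 168) (nat_lit 1185150972) (nat_lit 0) (nat_lit 509685991) (nat_lit 84) (nat_lit 509685991) (nat_lit 23) (nat_lit 1) (nat_lit 21) (nat_lit 1) (nat_lit 22) (nat_lit 1) (nat_lit 279) (nat_lit 255) (nat_lit 186))))) (XT.nd (nat_lit 282) (nat_lit 252) (nat_lit 0) (XT.nd (nat_lit 94) (nat_lit 252) (nat_lit 0) (XT.lf (nat_lit 0) (nat_lit 244957873) (nat_lit 0) (nat_lit 1678088552) (nat_lit 168) (nat_lit 244957873) (nat_lit 21) (nat_lit 3) (nat_lit 21) (nat_lit 1) (nat_lit 23) (nat_lit 1) (nat_lit 280) (nat_lit 255) (nat_lit 185)) (XT.nd (nat_lit 94) (nat_lit 84) (nat_lit 0) (XT.lf (nat_lit 84) (nat_lit 969439699) (nat_lit 0) (nat_lit 192900810) (nat_lit 168) (nat_lit 969439699) (nat_lit 20) (nat_lit 1) (nat_lit 19) (nat_lit 1) (nat_lit 21) (nat_lit 1) (nat_lit 281) (nat_lit 255) (nat_lit 184)) (XT.lf (nat_lit 168) (nat_lit 1257758423) (nat_lit 0) (nat_lit 419319926) (nat_lit 84)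 (nat_lit 419319926) (nat_lit 20) (nat_lit 1) (nat_lit 18) (nat_lit 1) (nat_lit 19) (nat_lit 1) (nat_lit 282) (nat_lit 255) (nat_lit 183)))) (XT.nd (nat_lit 188) (nat_lit 84) (nat_lit 0) (XT.nd (nat_lit 94) (nat_lit 168) (nat_lit 0) (XT.lf (nat_lit 0) (nat_lit 294226394) (nat_lit 0) (nat_lit 1473266550) (nat_lit 168) (nat_lit 294226394) (nat_lit 18) (nat_lit 3) (nat_lit 18) (nat_lit 1) (nat_lit 20) (nat_lit 1) (nat_lit 283) (nat_lit 255) (nat_lit 182)) (XT.lf (nat_lit 84) (nat_lit 978544095) (nat_lit 0) (nat_lit 70415263) (nat_lit 168) (nat_lit 978544095) (nat_lit 17) (nat_lit 1) (nat_lit 16) (nat_lit 1) (nat_lit 18) (nat_lit 1) (nat_lit 284) (nat_lit 255) (nat_lit 181))) (XT.nd (nat_lit 94) (nat_lit 0) (nat_lit 0) (XT.lf (nat_lit 168) (nat_lit 1304029334) (nat_lit 0) (nat_lit 344975541) (nat_lit 84) (nat_lit 344975541) (nat_lit 17) (nat_lit 1) (nat_lit 15) (nat_lit 1) (nat_lit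 16) (nat_lit 1) (nat_lit 285) (nat_lit 255) (nat_lit 180)) (XT.lf (nat_lit 0) (nat_lit 330345493) (nat_lit 0) (nat_lit 1300344747) (nat_lit 168) (nat_lit 330345493) (nat_lit 15) (nat_lit 3) (nat_lit 15) (nat_lit 1) (nat_lit 17) (nat_lit 1) (nat_lit 286) (nat_lit 255) (nat_lit 179))))))) (XT.nd (nat_lit 1222) (nat_lit 168) (nat_lit 0) (XT.nd (nat_lit 564) (nat_lit 588) (nat_lit 0) (XT.nd (nat_lit 282) (nat_lit 252) (nat_lit 0) (XT.nd (nat_lit 94) (nat_lit 168) (nat_lit 0) (XT.lf (nat_lit 84) (nat_lit 27014497) (nat_lit 0) (nat_lit 950823310) (nat_lit 84) (nat_lit 950823310) (nat_lit 15) (nat_lit 3) (nat_lit 14) (nat_lit 1) (nat_lit 15) (nat_lit 1) (nat_lit 287) (nat_lit 255) (nat_lit 178)) (XT.nd (nat_lit 94) (nat_lit 0) (nat_lit 0) (XT.lf (nat_lit 168) (nat_lit 1329274224) (nat_lit 0) (nat_lit 283812231) (nat_lit 84) (nat_lit 283812231) (nat_lit 14) (nat_lit 1) (nat_lit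 12) (nat_lit 1) (nat_lit 13) (nat_lit 1) (nat_lit 288) (nat_lit 255) (nat_lit 177)) (XT.lf (nat_lit 0) (nat_lit 355856731) (nat_lit 0) (nat_lit 1153877518) (nat_lit 168) (nat_lit 355856731) (nat_lit 12) (nat_lit 3) (nat_lit 12) (nat_lit 1) (nat_lit 14) (nat_lit 1) (nat_lit 289) (nat_lit 255) (nat_lit 176)))) (XT.nd (nat_lit 94) (nat_lit 168) (nat_lit 0) (XT.lf (nat_lit 84) (nat_lit 104949430) (nat_lit 0) (nat_lit 864969227) (nat_lit 84) (nat_lit 864969227) (nat_lit 12) (nat_lit 3) (nat_lit 11) (nat_lit 1) (nat_lit 12) (nat_lit 1) (nat_lit 290) (nat_lit 255) (nat_lit 175)) (XT.nd (nat_lit 94) (nat_lit 0) (nat_lit 0) (XT.lf (nat_lit 168) (nat_lit 1337831540) (nat_lit 0) (nat_lit 233493025) (nat_lit 84) (nat_lit 233493025) (nat_lit 11) (nat_lit 1) (nat_lit 9) (nat_lit 1) (nat_lit 10) (nat_lit 1) (nat_lit 291) (nat_lit 255) (nat_lit 174)) (XT.lf (nat_lit 0) (nat_lit 372841048)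 (nat_lit 0) (nat_lit 1029374725) (nat_lit 168) (nat_lit 372841048) (nat_lit 9) (nat_lit 3) (nat_lit 9) (nat_lit 1) (nat_lit 11) (nat_lit 1) (nat_lit 292) (nat_lit 255) (nat_lit 173))))) (XT.nd (nat_lit 282) (nat_lit 336) (nat_lit 0) (XT.nd (nat_lit 94) (nat_lit 168) (nat_lit 0) (XT.lf (nat_lit 84) (nat_lit 165127429) (nat_lit 0) (nat_lit 790397597) (nat_lit 84) (nat_lit 790397597) (nat_lit 9) (nat_lit 3) (nat_lit 8) (nat_lit 1) (nat_lit 9) (nat_lit 1) (nat_lit 293) (nat_lit 255) (nat_lit 172)) (XT.nd (nat_lit 94) (nat_lit 0) (nat_lit 0) (XT.lf (nat_lit 168) (nat_lit 1333241458) (nat_lit 0) (nat_lit 192095289) (nat_lit 84) (nat_lit 192095289) (nat_lit 8) (nat_lit 1) (nat_lit 6) (nat_lit 1) (nat_lit 7) (nat_lit 1) (nat_lit 294) (nat_lit 255) (nat_lit 171)) (XT.lf (nat_lit 0) (nat_lit 383000905) (nat_lit 0) (nat_lit 923132786) (nat_lit 168) (nat_lit 383000905) (nat_lit 6) (nat_lit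 3) (nat_lit 6) (nat_lit 1) (nat_lit 8) (nat_lit 1) (nat_lit 295) (nat_lit 255) (nat_lit 170)))) (XT.nd (nat_lit 188) (nat_lit 84) (nat_lit 0) (XT.nd (nat_lit 94) (nat_lit 168) (nat_lit 0) (XT.lf (nat_lit 84) (nat_lit 210884338) (nat_lit 0) (nat_lit 725295652) (nat_lit 84) (nat_lit 725295652) (nat_lit 6) (nat_lit 3) (nat_lit 5) (nat_lit 1) (nat_lit 6) (nat_lit 1) (nat_lit 296) (nat_lit 255) (nat_lit 169)) (XT.lf (nat_lit 168) (nat_lit 1318388799) (nat_lit 0) (nat_lit 158037270) (nat_lit 84) (nat_lit 158037270) (nat_lit 5) (nat_lit 1) (nat_lit 3) (nat_lit 1) (nat_lit 4) (nat_lit 1) (nat_lit 297) (nat_lit 255) (nat_lit 168))) (XT.nd (nat_lit 94) (nat_lit 84) (nat_lit 0) (XT.lf (nat_lit 0) (nat_lit 387727842) (nat_lit 0) (nat_lit 832095677) (nat_lit 168) (nat_lit 387727842) (nat_lit 3) (nat_lit 3) (nat_lit 3) (nat_lit 1) (nat_lit 5) (nat_lit 1) (nat_lit 298) (nat_lit 255) (nat_lit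 167)) (XT.lf (nat_lit 84) (nat_lit 244955631) (nat_lit 0) (nat_lit 668163093) (nat_lit 84) (nat_lit 668163093) (nat_lit 3) (nat_lit 3) (nat_lit 2) (nat_lit 1) (nat_lit 3) (nat_lit 1) (nat_lit 299) (nat_lit 255) (nat_lit 166)))))) (XT.nd (nat_lit 658) (nat_lit 0) (nat_lit 0) (XT.nd (nat_lit 282) (nat_lit 0) (nat_lit 0) (XT.nd (nat_lit 94) (nat_lit 0) (nat_lit 0) (XT.lf (nat_lit 0) (nat_lit 2259882600) (nat_lit 0) (nat_lit 0) (nat_lit 0) (nat_lit 0) (nat_lit 0) (nat_lit 0) (nat_lit 1) (nat_lit 0) (nat_lit 1) (nat_lit 0) (nat_lit 300) (nat_lit 255) (nat_lit 165)) (XT.nd (nat_lit 94) (nat_lit 0) (nat_lit 0) (XT.lf (nat_lit 0) (nat_lit 2258565911) (nat_lit 0) (nat_lit 0) (nat_lit 0) (nat_lit 0) (nat_lit 0) (nat_lit 0) (nat_lit 1) (nat_lit 0) (nat_lit 1) (nat_lit 0) (nat_lit 301) (nat_lit 255) (nat_lit 164)) (XT.lf (nat_lit 0) (nat_lit 2257311922) (nat_lit 0) (nat_lit 0) (nat_lit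 0) (nat_lit 0) (nat_lit 0) (nat_lit 0) (nat_lit 1) (nat_lit 0) (nat_lit 1) (nat_lit 0) (nat_lit 302) (nat_lit 255) (nat_lit 163)))) (XT.nd (nat_lit 188) (nat_lit 0) (nat_lit 0) (XT.nd (nat_lit 94) (nat_lit 0) (nat_lit 0) (XT.lf (nat_lit 0) (nat_lit 2256117646) (nat_lit 0) (nat_lit 0) (nat_lit 0) (nat_lit 0) (nat_lit 0) (nat_lit 0) (nat_lit 1) (nat_lit 0) (nat_lit 1) (nat_lit 0) (nat_lit 303) (nat_lit 255) (nat_lit 162)) (XT.lf (nat_lit 0) (nat_lit 2254980241) (nat_lit 0) (nat_lit 0) (nat_lit 0) (nat_lit 0) (nat_lit 0) (nat_lit 0) (nat_lit 1) (nat_lit 0) (nat_lit 1) (nat_lit 0) (nat_lit 304) (nat_lit 255) (nat_lit 161))) (XT.nd (nat_lit 94) (nat_lit 0) (nat_lit 0) (XT.lf (nat_lit 0) (nat_lit 2253896998) (nat_lit 0) (nat_lit 0) (nat_lit 0) (nat_lit 0) (nat_lit 0) (nat_lit 0) (nat_lit 1) (nat_lit 0) (nat_lit 1) (nat_lit 0) (nat_lit 305) (nat_lit 255) (nat_lit 160)) (XT.lf (nat_lit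 0) (nat_lit 2252865338) (nat_lit 0) (nat_lit 0) (nat_lit 0) (nat_lit 0) (nat_lit 0) (nat_lit 0) (nat_lit 1) (nat_lit 0) (nat_lit 1) (nat_lit 0) (nat_lit 306) (nat_lit 255) (nat_lit 159))))) (XT.nd (nat_lit 282) (nat_lit 0) (nat_lit 0) (XT.nd (nat_lit 94) (nat_lit 0) (nat_lit 0) (XT.lf (nat_lit 0) (nat_lit 2251882804) (nat_lit 0) (nat_lit 0) (nat_lit 0) (nat_lit 0) (nat_lit 0) (nat_lit 0) (nat_lit 1) (nat_lit 0) (nat_lit 1) (nat_lit 0) (nat_lit 307) (nat_lit 255) (nat_lit 158)) (XT.nd (nat_lit 94) (nat_lit 0) (nat_lit 0) (XT.lf (nat_lit 0) (nat_lit 2250947058) (nat_lit 0) (nat_lit 0) (nat_lit 0) (nat_lit 0) (nat_lit 0) (nat_lit 0) (nat_lit 1) (nat_lit 0) (nat_lit 1) (nat_lit 0) (nat_lit 308) (nat_lit 255) (nat_lit 157)) (XT.lf (nat_lit 0) (nat_lit 2250055871) (nat_lit 0) (nat_lit 0) (nat_lit 0) (nat_lit 0) (nat_lit 0) (nat_lit 0) (nat_lit 1) (nat_lit 0) (nat_lit 1) (nat_lit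 0) (nat_lit 309) (nat_lit 255) (nat_lit 156)))) (XT.nd (nat_lit 188) (nat_lit 0) (nat_lit 0) (XT.nd (nat_lit 94) (nat_lit 0) (nat_lit 0) (XT.lf (nat_lit 0) (nat_lit 2249207122) (nat_lit 0) (nat_lit 0) (nat_lit 0) (nat_lit 0) (nat_lit 0) (nat_lit 0) (nat_lit 1) (nat_lit 0) (nat_lit 1) (nat_lit 0) (nat_lit 310) (nat_lit 255) (nat_lit 155)) (XT.lf (nat_lit 0) (nat_lit 2248398789) (nat_lit 0) (nat_lit 0) (nat_lit 0) (nat_lit 0) (nat_lit 0) (nat_lit 0) (nat_lit 1) (nat_lit 0) (nat_lit 1) (nat_lit 0) (nat_lit 311) (nat_lit 255) (nat_lit 154))) (XT.nd (nat_lit 94) (nat_lit 0) (nat_lit 0) (XT.lf (nat_lit 0) (nat_lit 2247628948) (nat_lit 0) (nat_lit 0) (nat_lit 0) (nat_lit 0) (nat_lit 0) (nat_lit 0) (nat_lit 1) (nat_lit 0) (nat_lit 1) (nat_lit 0) (nat_lit 312) (nat_lit 255) (nat_lit 153)) (XT.lf (nat_lit 0) (nat_lit 2246895767) (nat_lit 0) (nat_lit 0) (nat_lit 0) (nat_lit 0) (nat_lit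 0) (nat_lit 0) (nat_lit 1) (nat_lit 0) (nat_lit 1) (nat_lit 0) (nat_lit 313) (nat_lit 255) (nat_lit 152))))))))
noncomputable def ec57 : XT := (XT.nd (nat_lit 36848) (nat_lit 0) (nat_lit 4452) (XT.nd (nat_lit 35532) (nat_lit 0) (nat_lit 8904) (XT.nd (nat_lit 564) (nat_lit 0) (nat_lit 0) (XT.nd (nat_lit 282) (nat_lit 0) (nat_lit 0) (XT.nd (nat_lit 94) (nat_lit 0) (nat_lit 0) (XT.lf (nat_lit 0) (nat_lit 2246197499) (nat_lit 0) (nat_lit 0) (nat_lit 0) (nat_lit 0) (nat_lit 0) (nat_lit 0) (nat_lit 1) (nat_lit 0) (nat_lit 1) (nat_lit 0) (nat_lit 314) (nat_lit 255) (nat_lit 151)) (XT.nd (nat_lit 94) (nat_lit 0) (nat_lit 0) (XT.lf (nat_lit 0) (nat_lit 2245532481) (nat_lit 0) (nat_lit 0) (nat_lit 0) (nat_lit 0) (nat_lit 0) (nat_lit 0) (nat_lit 1) (nat_lit 0) (nat_lit 1) (nat_lit 0) (nat_lit 315) (nat_lit 255) (nat_lit 150)) (XT.lf (nat_lit 0) (nat_lit 2244899131) (nat_lit 0) (nat_lit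 0) (nat_lit 0) (nat_lit 0) (nat_lit 0) (nat_lit 0) (nat_lit 1) (nat_lit 0) (nat_lit 1) (nat_lit 0) (nat_lit 316) (nat_lit 255) (nat_lit 149)))) (XT.nd (nat_lit 94) (nat_lit 0) (nat_lit 0) (XT.lf (nat_lit 0) (nat_lit 2244295941) (nat_lit 0) (nat_lit 0) (nat_lit 0) (nat_lit 0) (nat_lit 0) (nat_lit 0) (nat_lit 1) (nat_lit 0) (nat_lit 1) (nat_lit 0) (nat_lit 317) (nat_lit 255) (nat_lit 148)) (XT.nd (nat_lit 94) (nat_lit 0) (nat_lit 0) (XT.lf (nat_lit 0) (nat_lit 2243721474) (nat_lit 0) (nat_lit 0) (nat_lit 0) (nat_lit 0) (nat_lit 0) (nat_lit 0) (nat_lit 1) (nat_lit 0) (nat_lit 1) (nat_lit 0) (nat_lit 318) (nat_lit 255) (nat_lit 147)) (XT.lf (nat_lit 0) (nat_lit 2243174363) (nat_lit 0) (nat_lit 0) (nat_lit 0) (nat_lit 0) (nat_lit 0) (nat_lit 0) (nat_lit 1) (nat_lit 0) (nat_lit 1) (nat_lit 0) (nat_lit 319) (nat_lit 255) (nat_lit 146))))) (XT.nd (nat_lit 282) (nat_lit 0) (nat_lit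 0) (XT.nd (nat_lit 94) (nat_lit 0) (nat_lit 0) (XT.lf (nat_lit 0) (nat_lit 2242653304) (nat_lit 0) (nat_lit 0) (nat_lit 0) (nat_lit 0) (nat_lit 0) (nat_lit 0) (nat_lit 1) (nat_lit 0) (nat_lit 1) (nat_lit 0) (nat_lit 320) (nat_lit 255) (nat_lit 145)) (XT.nd (nat_lit 94) (nat_lit 0) (nat_lit 0) (XT.lf (nat_lit 0) (nat_lit 2242157058) (nat_lit 0) (nat_lit 0) (nat_lit 0) (nat_lit 0) (nat_lit 0) (nat_lit 0) (nat_lit 1) (nat_lit 0) (nat_lit 1) (nat_lit 0) (nat_lit 321) (nat_lit 255) (nat_lit 144)) (XT.lf (nat_lit 0) (nat_lit 2241684443) (nat_lit 0) (nat_lit 0) (nat_lit 0) (nat_lit 0) (nat_lit 0) (nat_lit 0) (nat_lit 1) (nat_lit 0) (nat_lit 1) (nat_lit 0) (nat_lit 322) (nat_lit 255) (nat_lit 143)))) (XT.nd (nat_lit 34498) (nat_lit 0) (nat_lit 10752) (XT.nd (nat_lit 34404) (nat_lit 0) (nat_lit 10752) (XT.lf (nat_lit 0) (nat_lit 2241234333) (nat_lit 0) (nat_lit 0) (nat_lit 0) (nat_lit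 0) (nat_lit 0) (nat_lit 0) (nat_lit 1) (nat_lit 0) (nat_lit 1) (nat_lit 0) (nat_lit 323) (nat_lit 255) (nat_lit 142)) (XT.lf (nat_lit 924) (nat_lit 1172947203) (nat_lit 0) (nat_lit 2082565063) (nat_lit 924) (nat_lit 1172947203) (nat_lit 139) (nat_lit 1) (nat_lit 128) (nat_lit 0) (nat_lit 139) (nat_lit 0) (nat_lit 208) (nat_lit 256) (nat_lit 256))) (XT.nd (nat_lit 94) (nat_lit 0) (nat_lit 84) (XT.lf (nat_lit 924) (nat_lit 4546489796) (nat_lit 84) (nat_lit 2048975304) (nat_lit 0) (nat_lit 2048975304) (nat_lit 139) (nat_lit 1) (nat_lit 129) (nat_lit 1) (nat_lit 128) (nat_lit 0) (nat_lit 209) (nat_lit 256) (nat_lit 255)) (XT.lf (nat_lit 924) (nat_lit 2166788580) (nat_lit 0) (nat_lit 4104953562) (nat_lit 840) (nat_lit 2166788580) (nat_lit 140) (nat_lit 1) (nat_lit 129) (nat_lit 1) (nat_lit 139) (nat_lit 1) (nat_lit 210) (nat_lit 256) (nat_lit 254)))))) (XT.nd (nat_lit 658) (nat_lit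 1932) (nat_lit 0) (XT.nd (nat_lit 282) (nat_lit 0) (nat_lit 168) (XT.nd (nat_lit 94) (nat_lit 0) (nat_lit 84) (XT.lf (nat_lit 924) (nat_lit 4064594294) (nat_lit 84) (nat_lit 2087339582) (nat_lit 0) (nat_lit 2087339582) (nat_lit 140) (nat_lit 1) (nat_lit 130) (nat_lit 1) (nat_lit 129) (nat_lit 1) (nat_lit 211) (nat_lit 256) (nat_lit 253)) (XT.nd (nat_lit 94) (nat_lit 0) (nat_lit 0) (XT.lf (nat_lit 924) (nat_lit 1870893721) (nat_lit 0) (nat_lit 4304544207) (nat_lit 840) (nat_lit 1870893721) (nat_lit 141) (nat_lit 1) (nat_lit 130) (nat_lit 1) (nat_lit 140) (nat_lit 1) (nat_lit 212) (nat_lit 256) (nat_lit 252)) (XT.lf (nat_lit 924) (nat_lit 3364924212) (nat_lit 84) (nat_lit 2247173615) (nat_lit 0) (nat_lit 2247173615) (nat_lit 141) (nat_lit 1) (nat_lit 131) (nat_lit 1) (nat_lit 130) (nat_lit 1) (nat_lit 213) (nat_lit 256) (nat_lit 251)))) (XT.nd (nat_lit 188) (nat_lit 0) (nat_lit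 84) (XT.nd (nat_lit 94) (nat_lit 0) (nat_lit 0) (XT.lf (nat_lit 924) (nat_lit 1475422079) (nat_lit 0) (nat_lit 4727647914) (nat_lit 840) (nat_lit 1475422079) (nat_lit 142) (nat_lit 1) (nat_lit 131) (nat_lit 1) (nat_lit 141) (nat_lit 1) (nat_lit 214) (nat_lit 256) (nat_lit 250)) (XT.lf (nat_lit 924) (nat_lit 2480229816) (nat_lit 84) (nat_lit 2511230180) (nat_lit 0) (nat_lit 2511230180) (nat_lit 142) (nat_lit 1) (nat_lit 132) (nat_lit 1) (nat_lit 131) (nat_lit 1) (nat_lit 215) (nat_lit 256) (nat_lit 249))) (XT.nd (nat_lit 94) (nat_lit 0) (nat_lit 0) (XT.lf (nat_lit 924) (nat_lit 995683088) (nat_lit 0) (nat_lit 5341957456) (nat_lit 840) (nat_lit 995683088) (nat_lit 143) (nat_lit 1) (nat_lit 132) (nat_lit 1) (nat_lit 142) (nat_lit 1) (nat_lit 216) (nat_lit 256) (nat_lit 248)) (XT.lf (nat_lit 924) (nat_lit 1439621153) (nat_lit 84) (nat_lit 2864149061) (nat_lit 0) (nat_lit 2864149061)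 (nat_lit 143) (nat_lit 1) (nat_lit 133) (nat_lit 1) (nat_lit 132) (nat_lit 1) (nat_lit 217) (nat_lit 256) (nat_lit 247))))) (XT.nd (nat_lit 282) (nat_lit 840) (nat_lit 0) (XT.nd (nat_lit 94) (nat_lit 1428) (nat_lit 0) (XT.lf (nat_lit 84) (nat_lit 445274678) (nat_lit 0) (nat_lit 6118718136) (nat_lit 840) (nat_lit 445274678) (nat_lit 134) (nat_lit 1) (nat_lit 133) (nat_lit 1) (nat_lit 143) (nat_lit 1) (nat_lit 218) (nat_lit 256) (nat_lit 246)) (XT.nd (nat_lit 94) (nat_lit 588) (nat_lit 0) (XT.lf (nat_lit 924) (nat_lit 268934832) (nat_lit 0) (nat_lit 3292268122) (nat_lit 840) (nat_lit 3292268122) (nat_lit 134) (nat_lit 1) (nat_lit 123) (nat_lit 1) (nat_lit 133) (nat_lit 1) (nat_lit 219) (nat_lit 256) (nat_lit 245)) (XT.lf (nat_lit 588) (nat_lit 6382162263) (nat_lit 0) (nat_lit 161102853) (nat_lit 504) (nat_lit 161102853) (nat_lit 123) (nat_lit 1) (nat_lit 116) (nat_lit 1) (nat_lit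 122) (nat_lit 1) (nat_lit 220) (nat_lit 256) (nat_lit 244)))) (XT.nd (nat_lit 188) (nat_lit 420) (nat_lit 0) (XT.nd (nat_lit 94) (nat_lit 420) (nat_lit 0) (XT.lf (nat_lit 84) (nat_lit 2790270234) (nat_lit 0) (nat_lit 976642426) (nat_lit 588) (nat_lit 2790270234) (nat_lit 117) (nat_lit 1) (nat_lit 116) (nat_lit 1) (nat_lit 123) (nat_lit 1) (nat_lit 221) (nat_lit 256) (nat_lit 243)) (XT.lf (nat_lit 504) (nat_lit 4801338841) (nat_lit 0) (nat_lit 807458840) (nat_lit 420) (nat_lit 807458840) (nat_lit 117) (nat_lit 1) (nat_lit 111) (nat_lit 1) (nat_lit 116) (nat_lit 1) (nat_lit 222) (nat_lit 256) (nat_lit 242))) (XT.nd (nat_lit 94) (nat_lit 420) (nat_lit 0) (XT.lf (nat_lit 84) (nat_lit 1990265790) (nat_lit 0) (nat_lit 2297761229) (nat_lit 504) (nat_lit 1990265790) (nat_lit 112) (nat_lit 1) (nat_lit 111) (nat_lit 1) (nat_lit 117) (nat_lit 1) (nat_lit 223) (nat_lit 256) (nat_lit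 241)) (XT.lf (nat_lit 504) (nat_lit 3161749716) (nat_lit 0) (nat_lit 1491692145) (nat_lit 420) (nat_lit 1491692145) (nat_lit 112) (nat_lit 1) (nat_lit 106) (nat_lit 1) (nat_lit 111) (nat_lit 1) (nat_lit 224) (nat_lit 256) (nat_lit 240))))))) (XT.nd (nat_lit 1222) (nat_lit 2100) (nat_lit 0) (XT.nd (nat_lit 564) (nat_lit 1260) (nat_lit 0) (XT.nd (nat_lit 282) (nat_lit 756) (nat_lit 0) (XT.nd (nat_lit 94) (nat_lit 336) (nat_lit 0) (XT.lf (nat_lit 84) (nat_lit 1165062750) (nat_lit 0) (nat_lit 3685722409) (nat_lit 504) (nat_lit 1165062750) (nat_lit 107) (nat_lit 1) (nat_lit 106) (nat_lit 1) (nat_lit 112) (nat_lit 1) (nat_lit 225) (nat_lit 256) (nat_lit 239)) (XT.nd (nat_lit 94) (nat_lit 0) (nat_lit 0) (XT.lf (nat_lit 420) (nat_lit 1478655303) (nat_lit 0) (nat_lit 2205616087) (nat_lit 336) (nat_lit 2205616087) (nat_lit 107) (nat_lit 1) (nat_lit 102) (nat_lit 1) (nat_lit 106) (nat_lit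 1) (nat_lit 226) (nat_lit 256) (nat_lit 238)) (XT.lf (nat_lit 84) (nat_lit 321745527) (nat_lit 0) (nat_lit 5125279809) (nat_lit 420) (nat_lit 321745527) (nat_lit 103) (nat_lit 1) (nat_lit 102) (nat_lit 1) (nat_lit 107) (nat_lit 1) (nat_lit 227) (nat_lit 256) (nat_lit 237)))) (XT.nd (nat_lit 94) (nat_lit 336) (nat_lit 0) (XT.lf (nat_lit 84) (nat_lit 2711120269) (nat_lit 0) (nat_lit 227061588) (nat_lit 420) (nat_lit 2711120269) (nat_lit 98) (nat_lit 1) (nat_lit 97) (nat_lit 1) (nat_lit 102) (nat_lit 1) (nat_lit 228) (nat_lit 256) (nat_lit 236)) (XT.nd (nat_lit 94) (nat_lit 0) (nat_lit 0) (XT.lf (nat_lit 420) (nat_lit 4484620473) (nat_lit 0) (nat_lit 524881289) (nat_lit 336) (nat_lit 524881289) (nat_lit 98) (nat_lit 1) (nat_lit 93) (nat_lit 1) (nat_lit 97) (nat_lit 1) (nat_lit 229) (nat_lit 256) (nat_lit 235)) (XT.lf (nat_lit 84) (nat_lit 1759065307) (nat_lit 0) (nat_lit 1903304825)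 (nat_lit 420) (nat_lit 1759065307) (nat_lit 94) (nat_lit 1) (nat_lit 93) (nat_lit 1) (nat_lit 98) (nat_lit 1) (nat_lit 230) (nat_lit 256) (nat_lit 234))))) (XT.nd (nat_lit 282) (nat_lit 672) (nat_lit 0) (XT.nd (nat_lit 94) (nat_lit 252) (nat_lit 0) (XT.lf (nat_lit 420) (nat_lit 2566965617) (nat_lit 0) (nat_lit 1372719418) (nat_lit 336) (nat_lit 1372719418) (nat_lit 94) (nat_lit 1) (nat_lit 89) (nat_lit 1) (nat_lit 93) (nat_lit 1) (nat_lit 231) (nat_lit 256) (nat_lit 233)) (XT.nd (nat_lit 94) (nat_lit 252) (nat_lit 0) (XT.lf (nat_lit 84) (nat_lit 809506393) (nat_lit 0) (nat_lit 3587548755) (nat_lit 420) (nat_lit 809506393) (nat_lit 90) (nat_lit 1) (nat_lit 89) (nat_lit 1) (nat_lit 94) (nat_lit 1) (nat_lit 232) (nat_lit 256) (nat_lit 232)) (XT.lf (nat_lit 336) (nat_lit 658336879) (nat_lit 0) (nat_lit 2222333238) (nat_lit 252) (nat_lit 2222333238) (nat_lit 90) (nat_lit 1) (nat_lit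 86) (nat_lit 1) (nat_lit 89) (nat_lit 1) (nat_lit 233) (nat_lit 256) (nat_lit 231)))) (XT.nd (nat_lit 188) (nat_lit 252) (nat_lit 0) (XT.nd (nat_lit 94) (nat_lit 0) (nat_lit 0) (XT.lf (nat_lit 420) (nat_lit 4740369287) (nat_lit 0) (nat_lit 131536151) (nat_lit 336) (nat_lit 131536151) (nat_lit 86) (nat_lit 1) (nat_lit 81) (nat_lit 1) (nat_lit 85) (nat_lit 1) (nat_lit 234) (nat_lit 256) (nat_lit 230)) (XT.lf (nat_lit 84) (nat_lit 1854941546) (nat_lit 0) (nat_lit 1194547793) (nat_lit 420) (nat_lit 1854941546) (nat_lit 82) (nat_lit 1) (nat_lit 81) (nat_lit 1) (nat_lit 86) (nat_lit 1) (nat_lit 235) (nat_lit 256) (nat_lit 229))) (XT.nd (nat_lit 94) (nat_lit 0) (nat_lit 0) (XT.lf (nat_lit 336) (nat_lit 2709200772) (nat_lit 0) (nat_lit 1050008367) (nat_lit 252) (nat_lit 1050008367) (nat_lit 82) (nat_lit 1) (nat_lit 78) (nat_lit 1) (nat_lit 81) (nat_lit 1) (nat_lit 236) (nat_lit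 256) (nat_lit 228)) (XT.lf (nat_lit 84) (nat_lit 855878430) (nat_lit 0) (nat_lit 3004666325) (nat_lit 336) (nat_lit 855878430) (nat_lit 79) (nat_lit 1) (nat_lit 78) (nat_lit 1) (nat_lit 82) (nat_lit 1) (nat_lit 237) (nat_lit 256) (nat_lit 227)))))) (XT.nd (nat_lit 658) (nat_lit 756) (nat_lit 0) (XT.nd (nat_lit 282) (nat_lit 756) (nat_lit 0) (XT.nd (nat_lit 94) (nat_lit 336) (nat_lit 0) (XT.lf (nat_lit 336) (nat_lit 713347920) (nat_lit 0) (nat_lit 1956195996) (nat_lit 252) (nat_lit 1956195996) (nat_lit 79) (nat_lit 1) (nat_lit 75) (nat_lit 1) (nat_lit 78) (nat_lit 1) (nat_lit 238) (nat_lit 256) (nat_lit 226)) (XT.nd (nat_lit 94) (nat_lit 0) (nat_lit 0) (XT.lf (nat_lit 336) (nat_lit 4293233219) (nat_lit 0) (nat_lit 122596208) (nat_lit 252) (nat_lit 122596208) (nat_lit 75) (nat_lit 1) (nat_lit 71) (nat_lit 1) (nat_lit 74) (nat_lit 1) (nat_lit 239) (nat_lit 256) (nat_lit 225))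 (XT.lf (nat_lit 84) (nat_lit 1624007176) (nat_lit 0) (nat_lit 1203373011) (nat_lit 336) (nat_lit 1624007176) (nat_lit 72) (nat_lit 1) (nat_lit 71) (nat_lit 1) (nat_lit 75) (nat_lit 1) (nat_lit 240) (nat_lit 256) (nat_lit 224)))) (XT.nd (nat_lit 188) (nat_lit 504) (nat_lit 0) (XT.nd (nat_lit 94) (nat_lit 0) (nat_lit 0) (XT.lf (nat_lit 336) (nat_lit 2233158571) (nat_lit 0) (nat_lit 1067205474) (nat_lit 252) (nat_lit 1067205474) (nat_lit 72) (nat_lit 1) (nat_lit 68) (nat_lit 1) (nat_lit 71) (nat_lit 1) (nat_lit 241) (nat_lit 256) (nat_lit 223)) (XT.lf (nat_lit 84) (nat_lit 615010049) (nat_lit 0) (nat_lit 3055979611) (nat_lit 336) (nat_lit 615010049) (nat_lit 69) (nat_lit 1) (nat_lit 68) (nat_lit 1) (nat_lit 72) (nat_lit 1) (nat_lit 242) (nat_lit 256) (nat_lit 222))) (XT.nd (nat_lit 94) (nat_lit 336) (nat_lit 0) (XT.lf (nat_lit 252) (nat_lit 225360130) (nat_lit 0) (nat_lit 1990303451)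 (nat_lit 168) (nat_lit 1990303451) (nat_lit 69) (nat_lit 1) (nat_lit 66) (nat_lit 1) (nat_lit 68) (nat_lit 1) (nat_lit 243) (nat_lit 256) (nat_lit 221)) (XT.lf (nat_lit 336) (nat_lit 3405116008) (nat_lit 0) (nat_lit 361648001) (nat_lit 252) (nat_lit 361648001) (nat_lit 66) (nat_lit 1) (nat_lit 62) (nat_lit 1) (nat_lit 65) (nat_lit 1) (nat_lit 244) (nat_lit 256) (nat_lit 220))))) (XT.nd (nat_lit 282) (nat_lit 588) (nat_lit 0) (XT.nd (nat_lit 94) (nat_lit 168) (nat_lit 0) (XT.lf (nat_lit 84) (nat_lit 1189326194) (nat_lit 0) (nat_lit 1673071980) (nat_lit 336) (nat_lit 1189326194) (nat_lit 63) (nat_lit 1) (nat_lit 62) (nat_lit 1) (nat_lit 66) (nat_lit 1) (nat_lit 245) (nat_lit 256) (nat_lit 219)) (XT.nd (nat_lit 94) (nat_lit 0) (nat_lit 0) (XT.lf (nat_lit 252) (nat_lit 1374082955) (nat_lit 0) (nat_lit 1301660280) (nat_lit 168) (nat_lit 1301660280) (nat_lit 63) (nat_lit 1) (nat_lit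 60) (nat_lit 1) (nat_lit 62) (nat_lit 1) (nat_lit 246) (nat_lit 256) (nat_lit 218)) (XT.lf (nat_lit 84) (nat_lit 197412106) (nat_lit 0) (nat_lit 3510724875) (nat_lit 252) (nat_lit 197412106) (nat_lit 61) (nat_lit 1) (nat_lit 60) (nat_lit 1) (nat_lit 63) (nat_lit 1) (nat_lit 247) (nat_lit 256) (nat_lit 217)))) (XT.nd (nat_lit 188) (nat_lit 168) (nat_lit 0) (XT.nd (nat_lit 94) (nat_lit 168) (nat_lit 0) (XT.lf (nat_lit 84) (nat_lit 1629276750) (nat_lit 0) (nat_lit 575402355) (nat_lit 252) (nat_lit 1629276750) (nat_lit 58) (nat_lit 1) (nat_lit 57) (nat_lit 1) (nat_lit 60) (nat_lit 1) (nat_lit 248) (nat_lit 256) (nat_lit 216)) (XT.lf (nat_lit 252) (nat_lit 2262536323) (nat_lit 0) (nat_lit 751100758) (nat_lit 168) (nat_lit 751100758) (nat_lit 58) (nat_lit 1) (nat_lit 55) (nat_lit 1) (nat_lit 57) (nat_lit 1) (nat_lit 249) (nat_lit 256) (nat_lit 215))) (XT.nd (nat_lit 94) (nat_lit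 168) (nat_lit 0) (XT.lf (nat_lit 84) (nat_lit 638428887) (nat_lit 0) (nat_lit 2420191916) (nat_lit 252) (nat_lit 638428887) (nat_lit 56) (nat_lit 1) (nat_lit 55) (nat_lit 1) (nat_lit 58) (nat_lit 1) (nat_lit 250) (nat_lit 256) (nat_lit 214)) (XT.lf (nat_lit 252) (nat_lit 299080948) (nat_lit 0) (nat_lit 1665822507) (nat_lit 168) (nat_lit 1665822507) (nat_lit 56) (nat_lit 1) (nat_lit 53) (nat_lit 1) (nat_lit 55) (nat_lit 1) (nat_lit 251) (nat_lit 256) (nat_lit 213))))))))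
noncomputable def ec58 : XT := (XT.nd (nat_lit 2538) (nat_lit 1764) (nat_lit 0) (XT.nd (nat_lit 1222) (nat_lit 1260) (nat_lit 0) (XT.nd (nat_lit 564) (nat_lit 672) (nat_lit 0) (XT.nd (nat_lit 282) (nat_lit 336) (nat_lit 0) (XT.nd (nat_lit 94) (nat_lit 168) (nat_lit 0) (XT.lf (nat_lit 252) (nat_lit 2939560780) (nat_lit 0) (nat_lit 313381618) (nat_lit 168) (nat_lit 313381618) (nat_lit 53) (nat_lit 1) (nat_lit 50) (nat_lit 1) (nat_lit 52) (nat_lit 1) (nat_lit 252) (nat_lit 256) (nat_lit 212)) (XT.nd (nat_lit 94) (nat_lit 168) (nat_lit 0) (XT.lf (nat_lit 84) (nat_lit 978586987) (nat_lit 0) (nat_lit 1545297758) (nat_lit 252) (nat_lit 978586987) (nat_lit 51) (nat_lit 1) (nat_lit 50) (nat_lit 1) (nat_lit 53) (nat_lit 1) (nat_lit 253) (nat_lit 256) (nat_lit 211)) (XT.lf (nat_lit 252) (nat_lit 996643335) (nat_lit 0) (nat_lit 1221914917) (nat_lit 168) (nat_lit 1221914917) (nat_lit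 51) (nat_lit 1) (nat_lit 48) (nat_lit 1) (nat_lit 50) (nat_lit 1) (nat_lit 254) (nat_lit 256) (nat_lit 210)))) (XT.nd (nat_lit 94) (nat_lit 336) (nat_lit 0) (XT.lf (nat_lit 84) (nat_lit 32756917) (nat_lit 0) (nat_lit 3315135064) (nat_lit 252) (nat_lit 32756917) (nat_lit 49) (nat_lit 1) (nat_lit 48) (nat_lit 1) (nat_lit 51) (nat_lit 1) (nat_lit 255) (nat_lit 256) (nat_lit 209)) (XT.nd (nat_lit 94) (nat_lit 168) (nat_lit 0) (XT.lf (nat_lit 84) (nat_lit 1236847804) (nat_lit 0) (nat_lit 846748747) (nat_lit 168) (nat_lit 1236847804) (nat_lit 47) (nat_lit 1) (nat_lit 46) (nat_lit 1) (nat_lit 48) (nat_lit 1) (nat_lit 256) (nat_lit 256) (nat_lit 208)) (XT.lf (nat_lit 252) (nat_lit 1534787318) (nat_lit 0) (nat_lit 863785395) (nat_lit 168) (nat_lit 863785395) (nat_lit 47) (nat_lit 1) (nat_lit 44) (nat_lit 1) (nat_lit 46) (nat_lit 1) (nat_lit 257) (nat_lit 256) (nat_lit 207))))) (XT.nd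 (nat_lit 282) (nat_lit 336) (nat_lit 0) (XT.nd (nat_lit 94) (nat_lit 336) (nat_lit 0) (XT.lf (nat_lit 84) (nat_lit 307714250) (nat_lit 0) (nat_lit 2590411259) (nat_lit 252) (nat_lit 307714250) (nat_lit 45) (nat_lit 1) (nat_lit 44) (nat_lit 1) (nat_lit 47) (nat_lit 1) (nat_lit 258) (nat_lit 256) (nat_lit 206)) (XT.nd (nat_lit 94) (nat_lit 168) (nat_lit 0) (XT.lf (nat_lit 84) (nat_lit 1428759528) (nat_lit 0) (nat_lit 292268439) (nat_lit 168) (nat_lit 1428759528) (nat_lit 43) (nat_lit 1) (nat_lit 42) (nat_lit 1) (nat_lit 44) (nat_lit 1) (nat_lit 259) (nat_lit 256) (nat_lit 205)) (XT.lf (nat_lit 252) (nat_lit 1943479401) (nat_lit 0) (nat_lit 575888829) (nat_lit 168) (nat_lit 575888829) (nat_lit 43) (nat_lit 1) (nat_lit 40) (nat_lit 1) (nat_lit 42) (nat_lit 1) (nat_lit 260) (nat_lit 256) (nat_lit 204)))) (XT.nd (nat_lit 188) (nat_lit 252) (nat_lit 0) (XT.nd (nat_lit 94) (nat_lit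 84) (nat_lit 0) (XT.lf (nat_lit 84) (nat_lit 520552563) (nat_lit 0) (nat_lit 2000701027) (nat_lit 252) (nat_lit 520552563) (nat_lit 41) (nat_lit 1) (nat_lit 40) (nat_lit 1) (nat_lit 43) (nat_lit 1) (nat_lit 261) (nat_lit 256) (nat_lit 203)) (XT.lf (nat_lit 168) (nat_lit 149431684) (nat_lit 0) (nat_lit 1419966104) (nat_lit 84) (nat_lit 1419966104) (nat_lit 41) (nat_lit 1) (nat_lit 39) (nat_lit 1) (nat_lit 40) (nat_lit 1) (nat_lit 262) (nat_lit 256) (nat_lit 202))) (XT.nd (nat_lit 94) (nat_lit 0) (nat_lit 0) (XT.lf (nat_lit 252) (nat_lit 2247292052) (nat_lit 0) (nat_lit 345452257) (nat_lit 168) (nat_lit 345452257) (nat_lit 39) (nat_lit 1) (nat_lit 36) (nat_lit 1) (nat_lit 38) (nat_lit 1) (nat_lit 263) (nat_lit 256) (nat_lit 201)) (XT.lf (nat_lit 84) (nat_lit 682922061) (nat_lit 0) (nat_lit 1521756233) (nat_lit 252) (nat_lit 682922061) (nat_lit 37) (nat_lit 1) (nat_lit 36)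 (nat_lit 1) (nat_lit 39) (nat_lit 1) (nat_lit 264) (nat_lit 256) (nat_lit 200)))))) (XT.nd (nat_lit 658) (nat_lit 504) (nat_lit 0) (XT.nd (nat_lit 282) (nat_lit 420) (nat_lit 0) (XT.nd (nat_lit 94) (nat_lit 252) (nat_lit 0) (XT.lf (nat_lit 168) (nat_lit 501825449) (nat_lit 0) (nat_lit 1168209628) (nat_lit 84) (nat_lit 1168209628) (nat_lit 37) (nat_lit 1) (nat_lit 35) (nat_lit 1) (nat_lit 36) (nat_lit 1) (nat_lit 265) (nat_lit 256) (nat_lit 199)) (XT.nd (nat_lit 94) (nat_lit 0) (nat_lit 0) (XT.lf (nat_lit 252) (nat_lit 2466363913) (nat_lit 0) (nat_lit 161982609) (nat_lit 168) (nat_lit 161982609) (nat_lit 35) (nat_lit 1) (nat_lit 32) (nat_lit 1) (nat_lit 34) (nat_lit 1) (nat_lit 266) (nat_lit 256) (nat_lit 198)) (XT.lf (nat_lit 84) (nat_lit 804377079) (nat_lit 0) (nat_lit 1133642663) (nat_lit 252) (nat_lit 804377079) (nat_lit 33) (nat_lit 1) (nat_lit 32) (nat_lit 1) (nat_lit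 35) (nat_lit 1) (nat_lit 267) (nat_lit 256) (nat_lit 197)))) (XT.nd (nat_lit 188) (nat_lit 84) (nat_lit 0) (XT.nd (nat_lit 94) (nat_lit 252) (nat_lit 0) (XT.lf (nat_lit 168) (nat_lit 773698403) (nat_lit 0) (nat_lit 961088952) (nat_lit 84) (nat_lit 961088952) (nat_lit 33) (nat_lit 1) (nat_lit 31) (nat_lit 1) (nat_lit 32) (nat_lit 1) (nat_lit 268) (nat_lit 256) (nat_lit 196)) (XT.lf (nat_lit 252) (nat_lit 2617189581) (nat_lit 0) (nat_lit 16861763) (nat_lit 168) (nat_lit 16861763) (nat_lit 31) (nat_lit 1) (nat_lit 28) (nat_lit 1) (nat_lit 30) (nat_lit 1) (nat_lit 269) (nat_lit 256) (nat_lit 195))) (XT.nd (nat_lit 94) (nat_lit 84) (nat_lit 0) (XT.lf (nat_lit 84) (nat_lit 892749117) (nat_lit 0) (nat_lit 819974476) (nat_lit 252) (nat_lit 892749117) (nat_lit 29) (nat_lit 1) (nat_lit 28) (nat_lit 1) (nat_lit 31) (nat_lit 1) (nat_lit 270) (nat_lit 256) (nat_lit 194)) (XT.lf (nat_lit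 168) (nat_lit 980185843) (nat_lit 0) (nat_lit 790690259) (nat_lit 84) (nat_lit 790690259) (nat_lit 29) (nat_lit 1) (nat_lit 27) (nat_lit 1) (nat_lit 28) (nat_lit 1) (nat_lit 271) (nat_lit 256) (nat_lit 193))))) (XT.nd (nat_lit 282) (nat_lit 252) (nat_lit 0) (XT.nd (nat_lit 94) (nat_lit 252) (nat_lit 0) (XT.lf (nat_lit 0) (nat_lit 98576520) (nat_lit 0) (nat_lit 2321832578) (nat_lit 168) (nat_lit 98576520) (nat_lit 27) (nat_lit 3) (nat_lit 27) (nat_lit 1) (nat_lit 29) (nat_lit 1) (nat_lit 272) (nat_lit 256) (nat_lit 192)) (XT.nd (nat_lit 94) (nat_lit 84) (nat_lit 0) (XT.lf (nat_lit 84) (nat_lit 954453673) (nat_lit 0) (nat_lit 567284413) (nat_lit 168) (nat_lit 954453673) (nat_lit 26) (nat_lit 1) (nat_lit 25) (nat_lit 1) (nat_lit 27) (nat_lit 1) (nat_lit 273) (nat_lit 256) (nat_lit 191)) (XT.lf (nat_lit 168) (nat_lit 1133698702) (nat_lit 0) (nat_lit 650502833) (nat_lit 84) (nat_lit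 650502833) (nat_lit 26) (nat_lit 1) (nat_lit 24) (nat_lit 1) (nat_lit 25) (nat_lit 1) (nat_lit 274) (nat_lit 256) (nat_lit 190)))) (XT.nd (nat_lit 188) (nat_lit 84) (nat_lit 0) (XT.nd (nat_lit 94) (nat_lit 168) (nat_lit 0) (XT.lf (nat_lit 0) (nat_lit 188409764) (nat_lit 0) (nat_lit 2017488025) (nat_lit 168) (nat_lit 188409764) (nat_lit 24) (nat_lit 3) (nat_lit 24) (nat_lit 1) (nat_lit 26) (nat_lit 1) (nat_lit 275) (nat_lit 256) (nat_lit 189)) (XT.lf (nat_lit 84) (nat_lit 994742604) (nat_lit 0) (nat_lit 364505703) (nat_lit 168) (nat_lit 994742604) (nat_lit 23) (nat_lit 1) (nat_lit 22) (nat_lit 1) (nat_lit 24) (nat_lit 1) (nat_lit 276) (nat_lit 256) (nat_lit 188))) (XT.nd (nat_lit 94) (nat_lit 0) (nat_lit 0) (XT.lf (nat_lit 168) (nat_lit 1244408520) (nat_lit 0) (nat_lit 535170290) (nat_lit 84) (nat_lit 535170290) (nat_lit 23) (nat_lit 1) (nat_lit 21) (nat_lit 1) (nat_lit 22)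 (nat_lit 1) (nat_lit 277) (nat_lit 256) (nat_lit 187)) (XT.lf (nat_lit 0) (nat_lit 257205767) (nat_lit 0) (nat_lit 1761992979) (nat_lit 168) (nat_lit 257205767) (nat_lit 21) (nat_lit 3) (nat_lit 21) (nat_lit 1) (nat_lit 23) (nat_lit 1) (nat_lit 278) (nat_lit 256) (nat_lit 186))))))) (XT.nd (nat_lit 1222) (nat_lit 672) (nat_lit 0) (XT.nd (nat_lit 564) (nat_lit 588) (nat_lit 0) (XT.nd (nat_lit 282) (nat_lit 252) (nat_lit 0) (XT.nd (nat_lit 94) (nat_lit 84) (nat_lit 0) (XT.lf (nat_lit 84) (nat_lit 1017911683) (nat_lit 0) (nat_lit 202545850) (nat_lit 168) (nat_lit 1017911683) (nat_lit 20) (nat_lit 1) (nat_lit 19) (nat_lit 1) (nat_lit 21) (nat_lit 1) (nat_lit 279) (nat_lit 256) (nat_lit 185)) (XT.nd (nat_lit 94) (nat_lit 0) (nat_lit 0) (XT.lf (nat_lit 168) (nat_lit 1320646344) (nat_lit 0) (nat_lit 440285922) (nat_lit 84) (nat_lit 440285922) (nat_lit 20) (nat_lit 1) (nat_lit 18)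 (nat_lit 1) (nat_lit 19) (nat_lit 1) (nat_lit 280) (nat_lit 256) (nat_lit 184)) (XT.lf (nat_lit 0) (nat_lit 308937714) (nat_lit 0) (nat_lit 1546929878) (nat_lit 168) (nat_lit 308937714) (nat_lit 18) (nat_lit 3) (nat_lit 18) (nat_lit 1) (nat_lit 20) (nat_lit 1) (nat_lit 281) (nat_lit 256) (nat_lit 183)))) (XT.nd (nat_lit 94) (nat_lit 84) (nat_lit 0) (XT.lf (nat_lit 84) (nat_lit 1027471300) (nat_lit 0) (nat_lit 73936026) (nat_lit 168) (nat_lit 1027471300) (nat_lit 17) (nat_lit 1) (nat_lit 16) (nat_lit 1) (nat_lit 18) (nat_lit 1) (nat_lit 282) (nat_lit 256) (nat_lit 182)) (XT.nd (nat_lit 94) (nat_lit 0) (nat_lit 0) (XT.lf (nat_lit 168) (nat_lit 1369230801) (nat_lit 0) (nat_lit 362224318) (nat_lit 84) (nat_lit 362224318) (nat_lit 17) (nat_lit 1) (nat_lit 15) (nat_lit 1) (nat_lit 16) (nat_lit 1) (nat_lit 283) (nat_lit 256) (nat_lit 181)) (XT.lf (nat_lit 0) (nat_lit 346862768)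 (nat_lit 0) (nat_lit 1365361985) (nat_lit 168) (nat_lit 346862768) (nat_lit 15) (nat_lit 3) (nat_lit 15) (nat_lit 1) (nat_lit 17) (nat_lit 1) (nat_lit 284) (nat_lit 256) (nat_lit 180))))) (XT.nd (nat_lit 282) (nat_lit 336) (nat_lit 0) (XT.nd (nat_lit 94) (nat_lit 168) (nat_lit 0) (XT.lf (nat_lit 84) (nat_lit 28365222) (nat_lit 0) (nat_lit 998364476) (nat_lit 84) (nat_lit 998364476) (nat_lit 15) (nat_lit 3) (nat_lit 14) (nat_lit 1) (nat_lit 15) (nat_lit 1) (nat_lit 285) (nat_lit 256) (nat_lit 179)) (XT.nd (nat_lit 94) (nat_lit 0) (nat_lit 0) (XT.lf (nat_lit 168) (nat_lit 1395737935) (nat_lit 0) (nat_lit 298002843) (nat_lit 84) (nat_lit 298002843) (nat_lit 14) (nat_lit 1) (nat_lit 12) (nat_lit 1) (nat_lit 13) (nat_lit 1) (nat_lit 286) (nat_lit 256) (nat_lit 178)) (XT.lf (nat_lit 0) (nat_lit 373649568) (nat_lit 0) (nat_lit 1211571394) (nat_lit 168) (nat_lit 373649568) (nat_lit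 12) (nat_lit 3) (nat_lit 12) (nat_lit 1) (nat_lit 14) (nat_lit 1) (nat_lit 287) (nat_lit 256) (nat_lit 177)))) (XT.nd (nat_lit 188) (nat_lit 84) (nat_lit 0) (XT.nd (nat_lit 94) (nat_lit 168) (nat_lit 0) (XT.lf (nat_lit 84) (nat_lit 110196902) (nat_lit 0) (nat_lit 908217689) (nat_lit 84) (nat_lit 908217689) (nat_lit 12) (nat_lit 3) (nat_lit 11) (nat_lit 1) (nat_lit 12) (nat_lit 1) (nat_lit 288) (nat_lit 256) (nat_lit 176)) (XT.lf (nat_lit 168) (nat_lit 1404723117) (nat_lit 0) (nat_lit 245167676) (nat_lit 84) (nat_lit 245167676) (nat_lit 11) (nat_lit 1) (nat_lit 9) (nat_lit 1) (nat_lit 10) (nat_lit 1) (nat_lit 289) (nat_lit 256) (nat_lit 175))) (XT.nd (nat_lit 94) (nat_lit 84) (nat_lit 0) (XT.lf (nat_lit 0) (nat_lit 391483101) (nat_lit 0) (nat_lit 1080843461) (nat_lit 168) (nat_lit 391483101) (nat_lit 9) (nat_lit 3) (nat_lit 9) (nat_lit 1) (nat_lit 11) (nat_lit 1) (nat_lit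 290) (nat_lit 256) (nat_lit 174)) (XT.lf (nat_lit 84) (nat_lit 173383800) (nat_lit 0) (nat_lit 829917477) (nat_lit 84) (nat_lit 829917477) (nat_lit 9) (nat_lit 3) (nat_lit 8) (nat_lit 1) (nat_lit 9) (nat_lit 1) (nat_lit 291) (nat_lit 256) (nat_lit 173)))))) (XT.nd (nat_lit 658) (nat_lit 0) (nat_lit 0) (XT.nd (nat_lit 282) (nat_lit 420) (nat_lit 0) (XT.nd (nat_lit 94) (nat_lit 84) (nat_lit 0) (XT.lf (nat_lit 168) (nat_lit 1399903531) (nat_lit 0) (nat_lit 201700054) (nat_lit 84) (nat_lit 201700054) (nat_lit 8) (nat_lit 1) (nat_lit 6) (nat_lit 1) (nat_lit 7) (nat_lit 1) (nat_lit 292) (nat_lit 256) (nat_lit 172)) (XT.nd (nat_lit 94) (nat_lit 84) (nat_lit 0) (XT.lf (nat_lit 0) (nat_lit 402150951) (nat_lit 0) (nat_lit 969289425) (nat_lit 168) (nat_lit 402150951) (nat_lit 6) (nat_lit 3) (nat_lit 6) (nat_lit 1) (nat_lit 8) (nat_lit 1) (nat_lit 293) (nat_lit 256) (nat_lit 171)) (XT.lf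 (nat_lit 84) (nat_lit 221428555) (nat_lit 0) (nat_lit 761560435) (nat_lit 84) (nat_lit 761560435) (nat_lit 6) (nat_lit 3) (nat_lit 5) (nat_lit 1) (nat_lit 6) (nat_lit 1) (nat_lit 294) (nat_lit 256) (nat_lit 170)))) (XT.nd (nat_lit 188) (nat_lit 252) (nat_lit 0) (XT.nd (nat_lit 94) (nat_lit 0) (nat_lit 0) (XT.lf (nat_lit 168) (nat_lit 1384308239) (nat_lit 0) (nat_lit 165939133) (nat_lit 84) (nat_lit 165939133) (nat_lit 5) (nat_lit 1) (nat_lit 3) (nat_lit 1) (nat_lit 4) (nat_lit 1) (nat_lit 295) (nat_lit 256) (nat_lit 169)) (XT.lf (nat_lit 0) (nat_lit 407114234) (nat_lit 0) (nat_lit 873700461) (nat_lit 168) (nat_lit 407114234) (nat_lit 3) (nat_lit 3) (nat_lit 3) (nat_lit 1) (nat_lit 5) (nat_lit 1) (nat_lit 296) (nat_lit 256) (nat_lit 168))) (XT.nd (nat_lit 94) (nat_lit 168) (nat_lit 0) (XT.lf (nat_lit 84) (nat_lit 257203413) (nat_lit 0) (nat_lit 701571248) (nat_lit 84) (nat_lit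 701571248) (nat_lit 3) (nat_lit 3) (nat_lit 2) (nat_lit 1) (nat_lit 3) (nat_lit 1) (nat_lit 297) (nat_lit 256) (nat_lit 167)) (XT.lf (nat_lit 0) (nat_lit 2372876730) (nat_lit 0) (nat_lit 0) (nat_lit 0) (nat_lit 0) (nat_lit 0) (nat_lit 0) (nat_lit 1) (nat_lit 0) (nat_lit 1) (nat_lit 0) (nat_lit 298) (nat_lit 256) (nat_lit 166))))) (XT.nd (nat_lit 282) (nat_lit 0) (nat_lit 0) (XT.nd (nat_lit 94) (nat_lit 0) (nat_lit 0) (XT.lf (nat_lit 0) (nat_lit 2371494207) (nat_lit 0) (nat_lit 0) (nat_lit 0) (nat_lit 0) (nat_lit 0) (nat_lit 0) (nat_lit 1) (nat_lit 0) (nat_lit 1) (nat_lit 0) (nat_lit 299) (nat_lit 256) (nat_lit 165)) (XT.nd (nat_lit 94) (nat_lit 0) (nat_lit 0) (XT.lf (nat_lit 0) (nat_lit 2370177518) (nat_lit 0) (nat_lit 0) (nat_lit 0) (nat_lit 0) (nat_lit 0) (nat_lit 0) (nat_lit 1) (nat_lit 0) (nat_lit 1) (nat_lit 0) (nat_lit 300) (nat_lit 256) (nat_lit 164)) (XT.lf (nat_lit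 0) (nat_lit 2368923528) (nat_lit 0) (nat_lit 0) (nat_lit 0) (nat_lit 0) (nat_lit 0) (nat_lit 0) (nat_lit 1) (nat_lit 0) (nat_lit 1) (nat_lit 0) (nat_lit 301) (nat_lit 256) (nat_lit 163)))) (XT.nd (nat_lit 188) (nat_lit 0) (nat_lit 0) (XT.nd (nat_lit 94) (nat_lit 0) (nat_lit 0) (XT.lf (nat_lit 0) (nat_lit 2367729253) (nat_lit 0) (nat_lit 0) (nat_lit 0) (nat_lit 0) (nat_lit 0) (nat_lit 0) (nat_lit 1) (nat_lit 0) (nat_lit 1) (nat_lit 0) (nat_lit 302) (nat_lit 256) (nat_lit 162)) (XT.lf (nat_lit 0) (nat_lit 2366591848) (nat_lit 0) (nat_lit 0) (nat_lit 0) (nat_lit 0) (nat_lit 0) (nat_lit 0) (nat_lit 1) (nat_lit 0) (nat_lit 1) (nat_lit 0) (nat_lit 303) (nat_lit 256) (nat_lit 161))) (XT.nd (nat_lit 94) (nat_lit 0) (nat_lit 0) (XT.lf (nat_lit 0) (nat_lit 2365508604) (nat_lit 0) (nat_lit 0) (nat_lit 0) (nat_lit 0) (nat_lit 0) (nat_lit 0) (nat_lit 1) (nat_lit 0) (nat_lit 1) (nat_lit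 0) (nat_lit 304) (nat_lit 256) (nat_lit 160)) (XT.lf (nat_lit 0) (nat_lit 2364476944) (nat_lit 0) (nat_lit 0) (nat_lit 0) (nat_lit 0) (nat_lit 0) (nat_lit 0) (nat_lit 1) (nat_lit 0) (nat_lit 1) (nat_lit 0) (nat_lit 305) (nat_lit 256) (nat_lit 159))))))))
noncomputable def ec59 : XT := (XT.nd (nat_lit 36754) (nat_lit 0) (nat_lit 5208) (XT.nd (nat_lit 1222) (nat_lit 0) (nat_lit 0) (XT.nd (nat_lit 564) (nat_lit 0) (nat_lit 0) (XT.nd (nat_lit 282) (nat_lit 0) (nat_lit 0) (XT.nd (nat_lit 94) (nat_lit 0) (nat_lit 0) (XT.lf (nat_lit 0) (nat_lit 2363494411) (nat_lit 0) (nat_lit 0) (nat_lit 0) (nat_lit 0) (nat_lit 0) (nat_lit 0) (nat_lit 1) (nat_lit 0) (nat_lit 1) (nat_lit 0) (nat_lit 306) (nat_lit 256) (nat_lit 158)) (XT.nd (nat_lit 94) (nat_lit 0) (nat_lit 0) (XT.lf (nat_lit 0) (nat_lit 2362558665) (nat_lit 0) (nat_lit 0) (nat_lit 0) (nat_lit 0) (nat_lit 0) (nat_lit 0) (nat_lit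 1) (nat_lit 0) (nat_lit 1) (nat_lit 0) (nat_lit 307) (nat_lit 256) (nat_lit 157)) (XT.lf (nat_lit 0) (nat_lit 2361667478) (nat_lit 0) (nat_lit 0) (nat_lit 0) (nat_lit 0) (nat_lit 0) (nat_lit 0) (nat_lit 1) (nat_lit 0) (nat_lit 1) (nat_lit 0) (nat_lit 308) (nat_lit 256) (nat_lit 156)))) (XT.nd (nat_lit 94) (nat_lit 0) (nat_lit 0) (XT.lf (nat_lit 0) (nat_lit 2360818729) (nat_lit 0) (nat_lit 0) (nat_lit 0) (nat_lit 0) (nat_lit 0) (nat_lit 0) (nat_lit 1) (nat_lit 0) (nat_lit 1) (nat_lit 0) (nat_lit 309) (nat_lit 256) (nat_lit 155)) (XT.nd (nat_lit 94) (nat_lit 0) (nat_lit 0) (XT.lf (nat_lit 0) (nat_lit 2360010396) (nat_lit 0) (nat_lit 0) (nat_lit 0) (nat_lit 0) (nat_lit 0) (nat_lit 0) (nat_lit 1) (nat_lit 0) (nat_lit 1) (nat_lit 0) (nat_lit 310) (nat_lit 256) (nat_lit 154)) (XT.lf (nat_lit 0) (nat_lit 2359240555) (nat_lit 0) (nat_lit 0) (nat_lit 0) (nat_lit 0) (nat_lit 0) (nat_lit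 0) (nat_lit 1) (nat_lit 0) (nat_lit 1) (nat_lit 0) (nat_lit 311) (nat_lit 256) (nat_lit 153))))) (XT.nd (nat_lit 282) (nat_lit 0) (nat_lit 0) (XT.nd (nat_lit 94) (nat_lit 0) (nat_lit 0) (XT.lf (nat_lit 0) (nat_lit 2358507374) (nat_lit 0) (nat_lit 0) (nat_lit 0) (nat_lit 0) (nat_lit 0) (nat_lit 0) (nat_lit 1) (nat_lit 0) (nat_lit 1) (nat_lit 0) (nat_lit 312) (nat_lit 256) (nat_lit 152)) (XT.nd (nat_lit 94) (nat_lit 0) (nat_lit 0) (XT.lf (nat_lit 0) (nat_lit 2357809105) (nat_lit 0) (nat_lit 0) (nat_lit 0) (nat_lit 0) (nat_lit 0) (nat_lit 0) (nat_lit 1) (nat_lit 0) (nat_lit 1) (nat_lit 0) (nat_lit 313) (nat_lit 256) (nat_lit 151)) (XT.lf (nat_lit 0) (nat_lit 2357144088) (nat_lit 0) (nat_lit 0) (nat_lit 0) (nat_lit 0) (nat_lit 0) (nat_lit 0) (nat_lit 1) (nat_lit 0) (nat_lit 1) (nat_lit 0) (nat_lit 314) (nat_lit 256) (nat_lit 150)))) (XT.nd (nat_lit 188) (nat_lit 0) (nat_lit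 0) (XT.nd (nat_lit 94) (nat_lit 0) (nat_lit 0) (XT.lf (nat_lit 0) (nat_lit 2356510738) (nat_lit 0) (nat_lit 0) (nat_lit 0) (nat_lit 0) (nat_lit 0) (nat_lit 0) (nat_lit 1) (nat_lit 0) (nat_lit 1) (nat_lit 0) (nat_lit 315) (nat_lit 256) (nat_lit 149)) (XT.lf (nat_lit 0) (nat_lit 2355907548) (nat_lit 0) (nat_lit 0) (nat_lit 0) (nat_lit 0) (nat_lit 0) (nat_lit 0) (nat_lit 1) (nat_lit 0) (nat_lit 1) (nat_lit 0) (nat_lit 316) (nat_lit 256) (nat_lit 148))) (XT.nd (nat_lit 94) (nat_lit 0) (nat_lit 0) (XT.lf (nat_lit 0) (nat_lit 2355333081) (nat_lit 0) (nat_lit 0) (nat_lit 0) (nat_lit 0) (nat_lit 0) (nat_lit 0) (nat_lit 1) (nat_lit 0) (nat_lit 1) (nat_lit 0) (nat_lit 317) (nat_lit 256) (nat_lit 147)) (XT.lf (nat_lit 0) (nat_lit 2354785970) (nat_lit 0) (nat_lit 0) (nat_lit 0) (nat_lit 0) (nat_lit 0) (nat_lit 0) (nat_lit 1) (nat_lit 0) (nat_lit 1) (nat_lit 0) (nat_lit 318) (nat_lit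 256) (nat_lit 146)))))) (XT.nd (nat_lit 34874) (nat_lit 0) (nat_lit 10836) (XT.nd (nat_lit 282) (nat_lit 0) (nat_lit 0) (XT.nd (nat_lit 94) (nat_lit 0) (nat_lit 0) (XT.lf (nat_lit 0) (nat_lit 2354264911) (nat_lit 0) (nat_lit 0) (nat_lit 0) (nat_lit 0) (nat_lit 0) (nat_lit 0) (nat_lit 1) (nat_lit 0) (nat_lit 1) (nat_lit 0) (nat_lit 319) (nat_lit 256) (nat_lit 145)) (XT.nd (nat_lit 94) (nat_lit 0) (nat_lit 0) (XT.lf (nat_lit 0) (nat_lit 2353768665) (nat_lit 0) (nat_lit 0) (nat_lit 0) (nat_lit 0) (nat_lit 0) (nat_lit 0) (nat_lit 1) (nat_lit 0) (nat_lit 1) (nat_lit 0) (nat_lit 320) (nat_lit 256) (nat_lit 144)) (XT.lf (nat_lit 0) (nat_lit 2353296049) (nat_lit 0) (nat_lit 0) (nat_lit 0) (nat_lit 0) (nat_lit 0) (nat_lit 0) (nat_lit 1) (nat_lit 0) (nat_lit 1) (nat_lit 0) (nat_lit 321) (nat_lit 256) (nat_lit 143)))) (XT.nd (nat_lit 34404) (nat_lit 0) (nat_lit 10752) (XT.nd (nat_lit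 34310) (nat_lit 0) (nat_lit 10752) (XT.lf (nat_lit 0) (nat_lit 2352845940) (nat_lit 0) (nat_lit 0) (nat_lit 0) (nat_lit 0) (nat_lit 0) (nat_lit 0) (nat_lit 1) (nat_lit 0) (nat_lit 1) (nat_lit 0) (nat_lit 322) (nat_lit 256) (nat_lit 142)) (XT.lf (nat_lit 924) (nat_lit 1231594563) (nat_lit 0) (nat_lit 2186693316) (nat_lit 924) (nat_lit 1231594563) (nat_lit 139) (nat_lit 1) (nat_lit 128) (nat_lit 0) (nat_lit 139) (nat_lit 0) (nat_lit 206) (nat_lit 257) (nat_lit 257))) (XT.nd (nat_lit 94) (nat_lit 0) (nat_lit 84) (XT.lf (nat_lit 924) (nat_lit 4773814286) (nat_lit 84) (nat_lit 2151424069) (nat_lit 0) (nat_lit 2151424069) (nat_lit 139) (nat_lit 1) (nat_lit 129) (nat_lit 1) (nat_lit 128) (nat_lit 0) (nat_lit 207) (nat_lit 257) (nat_lit 256)) (XT.lf (nat_lit 924) (nat_lit 2275128009) (nat_lit 0) (nat_lit 4310201240) (nat_lit 840) (nat_lit 2275128009) (nat_lit 140) (nat_lit 1) (nat_lit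 129) (nat_lit 1) (nat_lit 139) (nat_lit 1) (nat_lit 208) (nat_lit 257) (nat_lit 255))))) (XT.nd (nat_lit 282) (nat_lit 0) (nat_lit 168) (XT.nd (nat_lit 94) (nat_lit 0) (nat_lit 84) (XT.lf (nat_lit 924) (nat_lit 4267824009) (nat_lit 84) (nat_lit 2191706561) (nat_lit 0) (nat_lit 2191706561) (nat_lit 140) (nat_lit 1) (nat_lit 130) (nat_lit 1) (nat_lit 129) (nat_lit 1) (nat_lit 209) (nat_lit 257) (nat_lit 254)) (XT.nd (nat_lit 94) (nat_lit 0) (nat_lit 0) (XT.lf (nat_lit 924) (nat_lit 1964438407) (nat_lit 0) (nat_lit 4519771417) (nat_lit 840) (nat_lit 1964438407) (nat_lit 141) (nat_lit 1) (nat_lit 130) (nat_lit 1) (nat_lit 140) (nat_lit 1) (nat_lit 210) (nat_lit 257) (nat_lit 253)) (XT.lf (nat_lit 924) (nat_lit 3533170422) (nat_lit 84) (nat_lit 2359532296) (nat_lit 0) (nat_lit 2359532296) (nat_lit 141) (nat_lit 1) (nat_lit 131) (nat_lit 1) (nat_lit 130) (nat_lit 1) (nat_lit 211)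 (nat_lit 257) (nat_lit 252)))) (XT.nd (nat_lit 188) (nat_lit 0) (nat_lit 84) (XT.nd (nat_lit 94) (nat_lit 0) (nat_lit 0) (XT.lf (nat_lit 924) (nat_lit 1549193183) (nat_lit 0) (nat_lit 4964030310) (nat_lit 840) (nat_lit 1549193183) (nat_lit 142) (nat_lit 1) (nat_lit 131) (nat_lit 1) (nat_lit 141) (nat_lit 1) (nat_lit 212) (nat_lit 257) (nat_lit 251)) (XT.lf (nat_lit 924) (nat_lit 2604241307) (nat_lit 84) (nat_lit 2636791689) (nat_lit 0) (nat_lit 2636791689) (nat_lit 142) (nat_lit 1) (nat_lit 132) (nat_lit 1) (nat_lit 131) (nat_lit 1) (nat_lit 213) (nat_lit 257) (nat_lit 250))) (XT.nd (nat_lit 94) (nat_lit 0) (nat_lit 0) (XT.lf (nat_lit 924) (nat_lit 1045467242) (nat_lit 0) (nat_lit 5609055328) (nat_lit 840) (nat_lit 1045467242) (nat_lit 143) (nat_lit 1) (nat_lit 132) (nat_lit 1) (nat_lit 142) (nat_lit 1) (nat_lit 214) (nat_lit 257) (nat_lit 249)) (XT.lf (nat_lit 924) (nat_lit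 1511602211) (nat_lit 84) (nat_lit 3007356514) (nat_lit 0) (nat_lit 3007356514) (nat_lit 143) (nat_lit 1) (nat_lit 133) (nat_lit 1) (nat_lit 132) (nat_lit 1) (nat_lit 215) (nat_lit 257) (nat_lit 248))))))) (XT.nd (nat_lit 1316) (nat_lit 2268) (nat_lit 0) (XT.nd (nat_lit 658) (nat_lit 1428) (nat_lit 0) (XT.nd (nat_lit 282) (nat_lit 840) (nat_lit 0) (XT.nd (nat_lit 94) (nat_lit 1428) (nat_lit 0) (XT.lf (nat_lit 84) (nat_lit 467538411) (nat_lit 0) (nat_lit 6424654042) (nat_lit 840) (nat_lit 467538411) (nat_lit 134) (nat_lit 1) (nat_lit 133) (nat_lit 1) (nat_lit 143) (nat_lit 1) (nat_lit 216) (nat_lit 257) (nat_lit 247)) (XT.nd (nat_lit 94) (nat_lit 588) (nat_lit 0) (XT.lf (nat_lit 924) (nat_lit 282381574) (nat_lit 0) (nat_lit 3456881529) (nat_lit 840) (nat_lit 3456881529) (nat_lit 134) (nat_lit 1) (nat_lit 123) (nat_lit 1) (nat_lit 133) (nat_lit 1) (nat_lit 217) (nat_lit 257)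 (nat_lit 246)) (XT.lf (nat_lit 588) (nat_lit 6701270377) (nat_lit 0) (nat_lit 169157995) (nat_lit 504) (nat_lit 169157995) (nat_lit 123) (nat_lit 1) (nat_lit 116) (nat_lit 1) (nat_lit 122) (nat_lit 1) (nat_lit 218) (nat_lit 257) (nat_lit 245)))) (XT.nd (nat_lit 188) (nat_lit 420) (nat_lit 0) (XT.nd (nat_lit 94) (nat_lit 420) (nat_lit 0) (XT.lf (nat_lit 84) (nat_lit 2929783745) (nat_lit 0) (nat_lit 1025474547) (nat_lit 588) (nat_lit 2929783745) (nat_lit 117) (nat_lit 1) (nat_lit 116) (nat_lit 1) (nat_lit 123) (nat_lit 1) (nat_lit 219) (nat_lit 257) (nat_lit 244)) (XT.lf (nat_lit 504) (nat_lit 5041405783) (nat_lit 0) (nat_lit 847831782) (nat_lit 420) (nat_lit 847831782) (nat_lit 117) (nat_lit 1) (nat_lit 111) (nat_lit 1) (nat_lit 116) (nat_lit 1) (nat_lit 220) (nat_lit 257) (nat_lit 243))) (XT.nd (nat_lit 94) (nat_lit 420) (nat_lit 0) (XT.lf (nat_lit 84) (nat_lit 2089779080)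 (nat_lit 0) (nat_lit 2412649291) (nat_lit 504) (nat_lit 2089779080) (nat_lit 112) (nat_lit 1) (nat_lit 111) (nat_lit 1) (nat_lit 117) (nat_lit 1) (nat_lit 221) (nat_lit 257) (nat_lit 242)) (XT.lf (nat_lit 504) (nat_lit 3319837202) (nat_lit 0) (nat_lit 1566276753) (nat_lit 420) (nat_lit 1566276753) (nat_lit 112) (nat_lit 1) (nat_lit 106) (nat_lit 1) (nat_lit 111) (nat_lit 1) (nat_lit 222) (nat_lit 257) (nat_lit 241))))) (XT.nd (nat_lit 282) (nat_lit 1092) (nat_lit 0) (XT.nd (nat_lit 94) (nat_lit 336) (nat_lit 0) (XT.lf (nat_lit 84) (nat_lit 1223315888) (nat_lit 0) (nat_lit 3870008530) (nat_lit 504) (nat_lit 1223315888) (nat_lit 107) (nat_lit 1) (nat_lit 106) (nat_lit 1) (nat_lit 112) (nat_lit 1) (nat_lit 223) (nat_lit 257) (nat_lit 240)) (XT.nd (nat_lit 94) (nat_lit 0) (nat_lit 0) (XT.lf (nat_lit 420) (nat_lit 1552588068) (nat_lit 0) (nat_lit 2315896891) (nat_lit 336) (nat_lit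 2315896891) (nat_lit 107) (nat_lit 1) (nat_lit 102) (nat_lit 1) (nat_lit 106) (nat_lit 1) (nat_lit 224) (nat_lit 257) (nat_lit 239)) (XT.lf (nat_lit 84) (nat_lit 337832804) (nat_lit 0) (nat_lit 5381543800) (nat_lit 420) (nat_lit 337832804) (nat_lit 103) (nat_lit 1) (nat_lit 102) (nat_lit 1) (nat_lit 107) (nat_lit 1) (nat_lit 225) (nat_lit 257) (nat_lit 238)))) (XT.nd (nat_lit 188) (nat_lit 336) (nat_lit 0) (XT.nd (nat_lit 94) (nat_lit 336) (nat_lit 0) (XT.lf (nat_lit 84) (nat_lit 2846676282) (nat_lit 0) (nat_lit 238414668) (nat_lit 420) (nat_lit 2846676282) (nat_lit 98) (nat_lit 1) (nat_lit 97) (nat_lit 1) (nat_lit 102) (nat_lit 1) (nat_lit 226) (nat_lit 257) (nat_lit 237)) (XT.lf (nat_lit 420) (nat_lit 4708851497) (nat_lit 0) (nat_lit 551125354) (nat_lit 336) (nat_lit 551125354) (nat_lit 98) (nat_lit 1) (nat_lit 93) (nat_lit 1) (nat_lit 97) (nat_lit 1) (nat_lit 227) (nat_lit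 257) (nat_lit 236))) (XT.nd (nat_lit 94) (nat_lit 336) (nat_lit 0) (XT.lf (nat_lit 84) (nat_lit 1847018572) (nat_lit 0) (nat_lit 1998470067) (nat_lit 420) (nat_lit 1847018572) (nat_lit 94) (nat_lit 1) (nat_lit 93) (nat_lit 1) (nat_lit 98) (nat_lit 1) (nat_lit 228) (nat_lit 257) (nat_lit 235)) (XT.lf (nat_lit 420) (nat_lit 2695313898) (nat_lit 0) (nat_lit 1441355389) (nat_lit 336) (nat_lit 1441355389) (nat_lit 94) (nat_lit 1) (nat_lit 89) (nat_lit 1) (nat_lit 93) (nat_lit 1) (nat_lit 229) (nat_lit 257) (nat_lit 234)))))) (XT.nd (nat_lit 658) (nat_lit 1092) (nat_lit 0) (XT.nd (nat_lit 282) (nat_lit 504) (nat_lit 0) (XT.nd (nat_lit 94) (nat_lit 672) (nat_lit 0) (XT.lf (nat_lit 84) (nat_lit 849981713) (nat_lit 0) (nat_lit 3766926193) (nat_lit 420) (nat_lit 849981713) (nat_lit 90) (nat_lit 1) (nat_lit 89) (nat_lit 1) (nat_lit 94) (nat_lit 1) (nat_lit 230) (nat_lit 257) (nat_lit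 233)) (XT.nd (nat_lit 94) (nat_lit 420) (nat_lit 0) (XT.lf (nat_lit 336) (nat_lit 691253723) (nat_lit 0) (nat_lit 2333449900) (nat_lit 252) (nat_lit 2333449900) (nat_lit 90) (nat_lit 1) (nat_lit 86) (nat_lit 1) (nat_lit 89) (nat_lit 1) (nat_lit 231) (nat_lit 257) (nat_lit 232)) (XT.lf (nat_lit 420) (nat_lit 4977387751) (nat_lit 0) (nat_lit 138112959) (nat_lit 336) (nat_lit 138112959) (nat_lit 86) (nat_lit 1) (nat_lit 81) (nat_lit 1) (nat_lit 85) (nat_lit 1) (nat_lit 232) (nat_lit 257) (nat_lit 231)))) (XT.nd (nat_lit 188) (nat_lit 252) (nat_lit 0) (XT.nd (nat_lit 94) (nat_lit 252) (nat_lit 0) (XT.lf (nat_lit 84) (nat_lit 1947688624) (nat_lit 0) (nat_lit 1254275183) (nat_lit 420) (nat_lit 1947688624) (nat_lit 82) (nat_lit 1) (nat_lit 81) (nat_lit 1) (nat_lit 86) (nat_lit 1) (nat_lit 233) (nat_lit 257) (nat_lit 230)) (XT.lf (nat_lit 336) (nat_lit 2844660810) (nat_lit 0) (nat_lit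 1102508786) (nat_lit 252) (nat_lit 1102508786) (nat_lit 82) (nat_lit 1) (nat_lit 78) (nat_lit 1) (nat_lit 81) (nat_lit 1) (nat_lit 234) (nat_lit 257) (nat_lit 229))) (XT.nd (nat_lit 94) (nat_lit 252) (nat_lit 0) (XT.lf (nat_lit 84) (nat_lit 898672352) (nat_lit 0) (nat_lit 3154899642) (nat_lit 336) (nat_lit 898672352) (nat_lit 79) (nat_lit 1) (nat_lit 78) (nat_lit 1) (nat_lit 82) (nat_lit 1) (nat_lit 235) (nat_lit 257) (nat_lit 228)) (XT.lf (nat_lit 336) (nat_lit 749015316) (nat_lit 0) (nat_lit 2054005796) (nat_lit 252) (nat_lit 2054005796) (nat_lit 79) (nat_lit 1) (nat_lit 75) (nat_lit 1) (nat_lit 78) (nat_lit 1) (nat_lit 236) (nat_lit 257) (nat_lit 227))))) (XT.nd (nat_lit 282) (nat_lit 504) (nat_lit 0) (XT.nd (nat_lit 94) (nat_lit 252) (nat_lit 0) (XT.lf (nat_lit 336) (nat_lit 4507894880) (nat_lit 0) (nat_lit 128726019) (nat_lit 252) (nat_lit 128726019) (nat_lit 75) (nat_lit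 1) (nat_lit 71) (nat_lit 1) (nat_lit 74) (nat_lit 1) (nat_lit 237) (nat_lit 257) (nat_lit 226)) (XT.nd (nat_lit 94) (nat_lit 252) (nat_lit 0) (XT.lf (nat_lit 84) (nat_lit 1705207535) (nat_lit 0) (nat_lit 1263541661) (nat_lit 336) (nat_lit 1705207535) (nat_lit 72) (nat_lit 1) (nat_lit 71) (nat_lit 1) (nat_lit 75) (nat_lit 1) (nat_lit 238) (nat_lit 257) (nat_lit 225)) (XT.lf (nat_lit 336) (nat_lit 2344816500) (nat_lit 0) (nat_lit 1120565748) (nat_lit 252) (nat_lit 1120565748) (nat_lit 72) (nat_lit 1) (nat_lit 68) (nat_lit 1) (nat_lit 71) (nat_lit 1) (nat_lit 239) (nat_lit 257) (nat_lit 224)))) (XT.nd (nat_lit 188) (nat_lit 336) (nat_lit 0) (XT.nd (nat_lit 94) (nat_lit 168) (nat_lit 0) (XT.lf (nat_lit 84) (nat_lit 645760551) (nat_lit 0) (nat_lit 3208778591) (nat_lit 336) (nat_lit 645760551) (nat_lit 69) (nat_lit 1) (nat_lit 68) (nat_lit 1) (nat_lit 72) (nat_lit 1) (nat_lit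 240) (nat_lit 257) (nat_lit 223)) (XT.lf (nat_lit 252) (nat_lit 236628137) (nat_lit 0) (nat_lit 2089818623) (nat_lit 168) (nat_lit 2089818623) (nat_lit 69) (nat_lit 1) (nat_lit 66) (nat_lit 1) (nat_lit 68) (nat_lit 1) (nat_lit 241) (nat_lit 257) (nat_lit 222))) (XT.nd (nat_lit 94) (nat_lit 0) (nat_lit 0) (XT.lf (nat_lit 336) (nat_lit 3575371809) (nat_lit 0) (nat_lit 379730401) (nat_lit 252) (nat_lit 379730401) (nat_lit 66) (nat_lit 1) (nat_lit 62) (nat_lit 1) (nat_lit 65) (nat_lit 1) (nat_lit 242) (nat_lit 257) (nat_lit 221)) (XT.lf (nat_lit 84) (nat_lit 1248792503) (nat_lit 0) (nat_lit 1756725579) (nat_lit 336) (nat_lit 1248792503) (nat_lit 63) (nat_lit 1) (nat_lit 62) (nat_lit 1) (nat_lit 66) (nat_lit 1) (nat_lit 243) (nat_lit 257) (nat_lit 220))))))))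
noncomputable def ec60 : XT := (XT.nd (nat_lit 2538) (nat_lit 2268) (nat_lit 0) (XT.nd (nat_lit 1222) (nat_lit 1428) (nat_lit 0) (XT.nd (nat_lit 564) (nat_lit 756) (nat_lit 0) (XT.nd (nat_lit 282) (nat_lit 336) (nat_lit 0) (XT.nd (nat_lit 94) (nat_lit 252) (nat_lit 0) (XT.lf (nat_lit 252) (nat_lit 1442787103) (nat_lit 0) (nat_lit 1366743294) (nat_lit 168) (nat_lit 1366743294) (nat_lit 63) (nat_lit 1) (nat_lit 60) (nat_lit 1) (nat_lit 62) (nat_lit 1) (nat_lit 244) (nat_lit 257) (nat_lit 219)) (XT.nd (nat_lit 94) (nat_lit 252) (nat_lit 0) (XT.lf (nat_lit 84) (nat_lit 207282711) (nat_lit 0) (nat_lit 3686261119) (nat_lit 252) (nat_lit 207282711) (nat_lit 61) (nat_lit 1) (nat_lit 60) (nat_lit 1) (nat_lit 63) (nat_lit 1) (nat_lit 245) (nat_lit 257) (nat_lit 218)) (XT.lf (nat_lit 84) (nat_lit 1710740588) (nat_lit 0) (nat_lit 604172473) (nat_lit 252) (nat_lit 1710740588) (nat_lit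 58) (nat_lit 1) (nat_lit 57) (nat_lit 1) (nat_lit 60) (nat_lit 1) (nat_lit 246) (nat_lit 257) (nat_lit 217)))) (XT.nd (nat_lit 94) (nat_lit 168) (nat_lit 0) (XT.lf (nat_lit 252) (nat_lit 2375663139) (nat_lit 0) (nat_lit 788655796) (nat_lit 168) (nat_lit 788655796) (nat_lit 58) (nat_lit 1) (nat_lit 55) (nat_lit 1) (nat_lit 57) (nat_lit 1) (nat_lit 247) (nat_lit 257) (nat_lit 216)) (XT.nd (nat_lit 94) (nat_lit 168) (nat_lit 0) (XT.lf (nat_lit 84) (nat_lit 670350332) (nat_lit 0) (nat_lit 2541201512) (nat_lit 252) (nat_lit 670350332) (nat_lit 56) (nat_lit 1) (nat_lit 55) (nat_lit 1) (nat_lit 58) (nat_lit 1) (nat_lit 248) (nat_lit 257) (nat_lit 215)) (XT.lf (nat_lit 252) (nat_lit 314034995) (nat_lit 0) (nat_lit 1749113633) (nat_lit 168) (nat_lit 1749113633) (nat_lit 56) (nat_lit 1) (nat_lit 53) (nat_lit 1) (nat_lit 55) (nat_lit 1) (nat_lit 249) (nat_lit 257) (nat_lit 214)))))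 (XT.nd (nat_lit 282) (nat_lit 336) (nat_lit 0) (XT.nd (nat_lit 94) (nat_lit 168) (nat_lit 0) (XT.lf (nat_lit 252) (nat_lit 3086538819) (nat_lit 0) (nat_lit 329050699) (nat_lit 168) (nat_lit 329050699) (nat_lit 53) (nat_lit 1) (nat_lit 50) (nat_lit 1) (nat_lit 52) (nat_lit 1) (nat_lit 250) (nat_lit 257) (nat_lit 213)) (XT.nd (nat_lit 94) (nat_lit 168) (nat_lit 0) (XT.lf (nat_lit 84) (nat_lit 1027516336) (nat_lit 0) (nat_lit 1622562646) (nat_lit 252) (nat_lit 1027516336) (nat_lit 51) (nat_lit 1) (nat_lit 50) (nat_lit 1) (nat_lit 53) (nat_lit 1) (nat_lit 251) (nat_lit 257) (nat_lit 212)) (XT.lf (nat_lit 252) (nat_lit 1046475502) (nat_lit 0) (nat_lit 1283010663) (nat_lit 168) (nat_lit 1283010663) (nat_lit 51) (nat_lit 1) (nat_lit 48) (nat_lit 1) (nat_lit 50) (nat_lit 1) (nat_lit 252) (nat_lit 257) (nat_lit 211)))) (XT.nd (nat_lit 188) (nat_lit 168) (nat_lit 0) (XT.nd (nat_lit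 94) (nat_lit 168) (nat_lit 0) (XT.lf (nat_lit 84) (nat_lit 34394763) (nat_lit 0) (nat_lit 3480891817) (nat_lit 252) (nat_lit 34394763) (nat_lit 49) (nat_lit 1) (nat_lit 48) (nat_lit 1) (nat_lit 51) (nat_lit 1) (nat_lit 253) (nat_lit 257) (nat_lit 210)) (XT.lf (nat_lit 84) (nat_lit 1298690194) (nat_lit 0) (nat_lit 889086184) (nat_lit 168) (nat_lit 1298690194) (nat_lit 47) (nat_lit 1) (nat_lit 46) (nat_lit 1) (nat_lit 48) (nat_lit 1) (nat_lit 254) (nat_lit 257) (nat_lit 209))) (XT.nd (nat_lit 94) (nat_lit 0) (nat_lit 0) (XT.lf (nat_lit 252) (nat_lit 1611526684) (nat_lit 0) (nat_lit 906974665) (nat_lit 168) (nat_lit 906974665) (nat_lit 47) (nat_lit 1) (nat_lit 44) (nat_lit 1) (nat_lit 46) (nat_lit 1) (nat_lit 255) (nat_lit 257) (nat_lit 208)) (XT.lf (nat_lit 84) (nat_lit 323099962) (nat_lit 0) (nat_lit 2719931822) (nat_lit 252) (nat_lit 323099962) (nat_lit 45) (nat_lit 1) (nat_lit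 44) (nat_lit 1) (nat_lit 47) (nat_lit 1) (nat_lit 256) (nat_lit 257) (nat_lit 207)))))) (XT.nd (nat_lit 658) (nat_lit 672) (nat_lit 0) (XT.nd (nat_lit 282) (nat_lit 420) (nat_lit 0) (XT.nd (nat_lit 94) (nat_lit 168) (nat_lit 0) (XT.lf (nat_lit 84) (nat_lit 1500197504) (nat_lit 0) (nat_lit 306881861) (nat_lit 168) (nat_lit 1500197504) (nat_lit 43) (nat_lit 1) (nat_lit 42) (nat_lit 1) (nat_lit 44) (nat_lit 1) (nat_lit 257) (nat_lit 257) (nat_lit 206)) (XT.nd (nat_lit 94) (nat_lit 0) (nat_lit 0) (XT.lf (nat_lit 252) (nat_lit 2040653371) (nat_lit 0) (nat_lit 604683270) (nat_lit 168) (nat_lit 604683270) (nat_lit 43) (nat_lit 1) (nat_lit 40) (nat_lit 1) (nat_lit 42) (nat_lit 1) (nat_lit 258) (nat_lit 257) (nat_lit 205)) (XT.lf (nat_lit 84) (nat_lit 546580191) (nat_lit 0) (nat_lit 2100736078) (nat_lit 252) (nat_lit 546580191) (nat_lit 41) (nat_lit 1) (nat_lit 40) (nat_lit 1) (nat_lit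 43) (nat_lit 1) (nat_lit 259) (nat_lit 257) (nat_lit 204)))) (XT.nd (nat_lit 188) (nat_lit 84) (nat_lit 0) (XT.nd (nat_lit 94) (nat_lit 252) (nat_lit 0) (XT.lf (nat_lit 168) (nat_lit 156903268) (nat_lit 0) (nat_lit 1490964409) (nat_lit 84) (nat_lit 1490964409) (nat_lit 41) (nat_lit 1) (nat_lit 39) (nat_lit 1) (nat_lit 40) (nat_lit 1) (nat_lit 260) (nat_lit 257) (nat_lit 203)) (XT.lf (nat_lit 252) (nat_lit 2359656655) (nat_lit 0) (nat_lit 362724870) (nat_lit 168) (nat_lit 362724870) (nat_lit 39) (nat_lit 1) (nat_lit 36) (nat_lit 1) (nat_lit 38) (nat_lit 1) (nat_lit 261) (nat_lit 257) (nat_lit 202))) (XT.nd (nat_lit 94) (nat_lit 84) (nat_lit 0) (XT.lf (nat_lit 84) (nat_lit 717068164) (nat_lit 0) (nat_lit 1597844045) (nat_lit 252) (nat_lit 717068164) (nat_lit 37) (nat_lit 1) (nat_lit 36) (nat_lit 1) (nat_lit 39) (nat_lit 1) (nat_lit 262) (nat_lit 257) (nat_lit 201)) (XT.lf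 (nat_lit 168) (nat_lit 526916721) (nat_lit 0) (nat_lit 1226620109) (nat_lit 84) (nat_lit 1226620109) (nat_lit 37) (nat_lit 1) (nat_lit 35) (nat_lit 1) (nat_lit 36) (nat_lit 1) (nat_lit 263) (nat_lit 257) (nat_lit 200))))) (XT.nd (nat_lit 282) (nat_lit 336) (nat_lit 0) (XT.nd (nat_lit 94) (nat_lit 84) (nat_lit 0) (XT.lf (nat_lit 252) (nat_lit 2589682109) (nat_lit 0) (nat_lit 170081740) (nat_lit 168) (nat_lit 170081740) (nat_lit 35) (nat_lit 1) (nat_lit 32) (nat_lit 1) (nat_lit 34) (nat_lit 1) (nat_lit 264) (nat_lit 257) (nat_lit 199)) (XT.nd (nat_lit 94) (nat_lit 84) (nat_lit 0) (XT.lf (nat_lit 84) (nat_lit 844595933) (nat_lit 0) (nat_lit 1190324796) (nat_lit 252) (nat_lit 844595933) (nat_lit 33) (nat_lit 1) (nat_lit 32) (nat_lit 1) (nat_lit 35) (nat_lit 1) (nat_lit 265) (nat_lit 257) (nat_lit 198)) (XT.lf (nat_lit 168) (nat_lit 812383323) (nat_lit 0) (nat_lit 1009143399)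 (nat_lit 84) (nat_lit 1009143399) (nat_lit 33) (nat_lit 1) (nat_lit 31) (nat_lit 1) (nat_lit 32) (nat_lit 1) (nat_lit 266) (nat_lit 257) (nat_lit 197)))) (XT.nd (nat_lit 188) (nat_lit 84) (nat_lit 0) (XT.nd (nat_lit 94) (nat_lit 0) (nat_lit 0) (XT.lf (nat_lit 252) (nat_lit 2748049060) (nat_lit 0) (nat_lit 17704851) (nat_lit 168) (nat_lit 17704851) (nat_lit 31) (nat_lit 1) (nat_lit 28) (nat_lit 1) (nat_lit 30) (nat_lit 1) (nat_lit 267) (nat_lit 257) (nat_lit 196)) (XT.lf (nat_lit 84) (nat_lit 937386573) (nat_lit 0) (nat_lit 860973200) (nat_lit 252) (nat_lit 937386573) (nat_lit 29) (nat_lit 1) (nat_lit 28) (nat_lit 1) (nat_lit 31) (nat_lit 1) (nat_lit 268) (nat_lit 257) (nat_lit 195))) (XT.nd (nat_lit 94) (nat_lit 0) (nat_lit 0) (XT.lf (nat_lit 168) (nat_lit 1029195135) (nat_lit 0) (nat_lit 830224772) (nat_lit 84) (nat_lit 830224772) (nat_lit 29) (nat_lit 1) (nat_lit 27) (nat_lit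 1) (nat_lit 28) (nat_lit 1) (nat_lit 269) (nat_lit 257) (nat_lit 194)) (XT.lf (nat_lit 0) (nat_lit 103505346) (nat_lit 0) (nat_lit 2437924207) (nat_lit 168) (nat_lit 103505346) (nat_lit 27) (nat_lit 3) (nat_lit 27) (nat_lit 1) (nat_lit 29) (nat_lit 1) (nat_lit 270) (nat_lit 257) (nat_lit 193))))))) (XT.nd (nat_lit 1222) (nat_lit 1176) (nat_lit 0) (XT.nd (nat_lit 564) (nat_lit 588) (nat_lit 0) (XT.nd (nat_lit 282) (nat_lit 252) (nat_lit 0) (XT.nd (nat_lit 94) (nat_lit 84) (nat_lit 0) (XT.lf (nat_lit 84) (nat_lit 1002176357) (nat_lit 0) (nat_lit 595648634) (nat_lit 168) (nat_lit 1002176357) (nat_lit 26) (nat_lit 1) (nat_lit 25) (nat_lit 1) (nat_lit 27) (nat_lit 1) (nat_lit 271) (nat_lit 257) (nat_lit 192)) (XT.nd (nat_lit 94) (nat_lit 0) (nat_lit 0) (XT.lf (nat_lit 168) (nat_lit 1190383637) (nat_lit 0) (nat_lit 683027974) (nat_lit 84) (nat_lit 683027974) (nat_lit 26) (nat_lit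 1) (nat_lit 24) (nat_lit 1) (nat_lit 25) (nat_lit 1) (nat_lit 272) (nat_lit 257) (nat_lit 191)) (XT.lf (nat_lit 0) (nat_lit 197830252) (nat_lit 0) (nat_lit 2118362427) (nat_lit 168) (nat_lit 197830252) (nat_lit 24) (nat_lit 3) (nat_lit 24) (nat_lit 1) (nat_lit 26) (nat_lit 1) (nat_lit 273) (nat_lit 257) (nat_lit 190)))) (XT.nd (nat_lit 94) (nat_lit 84) (nat_lit 0) (XT.lf (nat_lit 84) (nat_lit 1044479735) (nat_lit 0) (nat_lit 382730988) (nat_lit 168) (nat_lit 1044479735) (nat_lit 23) (nat_lit 1) (nat_lit 22) (nat_lit 1) (nat_lit 24) (nat_lit 1) (nat_lit 274) (nat_lit 257) (nat_lit 189)) (XT.nd (nat_lit 94) (nat_lit 0) (nat_lit 0) (XT.lf (nat_lit 168) (nat_lit 1306628947) (nat_lit 0) (nat_lit 561928805) (nat_lit 84) (nat_lit 561928805) (nat_lit 23) (nat_lit 1) (nat_lit 21) (nat_lit 1) (nat_lit 22) (nat_lit 1) (nat_lit 275) (nat_lit 257) (nat_lit 188)) (XT.lf (nat_lit 0) (nat_lit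 270066055) (nat_lit 0) (nat_lit 1850092628) (nat_lit 168) (nat_lit 270066055) (nat_lit 21) (nat_lit 3) (nat_lit 21) (nat_lit 1) (nat_lit 23) (nat_lit 1) (nat_lit 276) (nat_lit 257) (nat_lit 187))))) (XT.nd (nat_lit 282) (nat_lit 336) (nat_lit 0) (XT.nd (nat_lit 94) (nat_lit 84) (nat_lit 0) (XT.lf (nat_lit 84) (nat_lit 1068807268) (nat_lit 0) (nat_lit 212673143) (nat_lit 168) (nat_lit 1068807268) (nat_lit 20) (nat_lit 1) (nat_lit 19) (nat_lit 1) (nat_lit 21) (nat_lit 1) (nat_lit 277) (nat_lit 257) (nat_lit 186)) (XT.nd (nat_lit 94) (nat_lit 0) (nat_lit 0) (XT.lf (nat_lit 168) (nat_lit 1386678661) (nat_lit 0) (nat_lit 462300218) (nat_lit 84) (nat_lit 462300218) (nat_lit 20) (nat_lit 1) (nat_lit 18) (nat_lit 1) (nat_lit 19) (nat_lit 1) (nat_lit 278) (nat_lit 257) (nat_lit 185)) (XT.lf (nat_lit 0) (nat_lit 324384600) (nat_lit 0) (nat_lit 1624276372) (nat_lit 168) (nat_lit 324384600)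 (nat_lit 18) (nat_lit 3) (nat_lit 18) (nat_lit 1) (nat_lit 20) (nat_lit 1) (nat_lit 279) (nat_lit 257) (nat_lit 184)))) (XT.nd (nat_lit 188) (nat_lit 84) (nat_lit 0) (XT.nd (nat_lit 94) (nat_lit 84) (nat_lit 0) (XT.lf (nat_lit 84) (nat_lit 1078844865) (nat_lit 0) (nat_lit 77632828) (nat_lit 168) (nat_lit 1078844865) (nat_lit 17) (nat_lit 1) (nat_lit 16) (nat_lit 1) (nat_lit 18) (nat_lit 1) (nat_lit 280) (nat_lit 257) (nat_lit 183)) (XT.lf (nat_lit 168) (nat_lit 1437692341) (nat_lit 0) (nat_lit 380335534) (nat_lit 84) (nat_lit 380335534) (nat_lit 17) (nat_lit 1) (nat_lit 15) (nat_lit 1) (nat_lit 16) (nat_lit 1) (nat_lit 281) (nat_lit 257) (nat_lit 182))) (XT.nd (nat_lit 94) (nat_lit 84) (nat_lit 0) (XT.lf (nat_lit 0) (nat_lit 364205906) (nat_lit 0) (nat_lit 1433630084) (nat_lit 168) (nat_lit 364205906) (nat_lit 15) (nat_lit 3) (nat_lit 15) (nat_lit 1) (nat_lit 17) (nat_lit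 1) (nat_lit 282) (nat_lit 257) (nat_lit 181)) (XT.lf (nat_lit 84) (nat_lit 29783483) (nat_lit 0) (nat_lit 1048282700) (nat_lit 84) (nat_lit 1048282700) (nat_lit 15) (nat_lit 3) (nat_lit 14) (nat_lit 1) (nat_lit 15) (nat_lit 1) (nat_lit 283) (nat_lit 257) (nat_lit 180)))))) (XT.nd (nat_lit 658) (nat_lit 504) (nat_lit 0) (XT.nd (nat_lit 282) (nat_lit 420) (nat_lit 0) (XT.nd (nat_lit 94) (nat_lit 84) (nat_lit 0) (XT.lf (nat_lit 168) (nat_lit 1465524832) (nat_lit 0) (nat_lit 312902985) (nat_lit 84) (nat_lit 312902985) (nat_lit 14) (nat_lit 1) (nat_lit 12) (nat_lit 1) (nat_lit 13) (nat_lit 1) (nat_lit 284) (nat_lit 257) (nat_lit 179)) (XT.nd (nat_lit 94) (nat_lit 84) (nat_lit 0) (XT.lf (nat_lit 0) (nat_lit 392332046) (nat_lit 0) (nat_lit 1272149964) (nat_lit 168) (nat_lit 392332046) (nat_lit 12) (nat_lit 3) (nat_lit 12) (nat_lit 1) (nat_lit 14) (nat_lit 1) (nat_lit 285) (nat_lit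 257) (nat_lit 178)) (XT.lf (nat_lit 84) (nat_lit 115706747) (nat_lit 0) (nat_lit 953628573) (nat_lit 84) (nat_lit 953628573) (nat_lit 12) (nat_lit 3) (nat_lit 11) (nat_lit 1) (nat_lit 12) (nat_lit 1) (nat_lit 286) (nat_lit 257) (nat_lit 177)))) (XT.nd (nat_lit 188) (nat_lit 252) (nat_lit 0) (XT.nd (nat_lit 94) (nat_lit 0) (nat_lit 0) (XT.lf (nat_lit 168) (nat_lit 1474959273) (nat_lit 0) (nat_lit 257426060) (nat_lit 84) (nat_lit 257426060) (nat_lit 11) (nat_lit 1) (nat_lit 9) (nat_lit 1) (nat_lit 10) (nat_lit 1) (nat_lit 287) (nat_lit 257) (nat_lit 176)) (XT.lf (nat_lit 0) (nat_lit 411057256) (nat_lit 0) (nat_lit 1134885634) (nat_lit 168) (nat_lit 411057256) (nat_lit 9) (nat_lit 3) (nat_lit 9) (nat_lit 1) (nat_lit 11) (nat_lit 1) (nat_lit 288) (nat_lit 257) (nat_lit 175))) (XT.nd (nat_lit 94) (nat_lit 168) (nat_lit 0) (XT.lf (nat_lit 84) (nat_lit 182052990) (nat_lit 0) (nat_lit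 871413350) (nat_lit 84) (nat_lit 871413350) (nat_lit 9) (nat_lit 3) (nat_lit 8) (nat_lit 1) (nat_lit 9) (nat_lit 1) (nat_lit 289) (nat_lit 257) (nat_lit 174)) (XT.lf (nat_lit 168) (nat_lit 1469898707) (nat_lit 0) (nat_lit 211785056) (nat_lit 84) (nat_lit 211785056) (nat_lit 8) (nat_lit 1) (nat_lit 6) (nat_lit 1) (nat_lit 7) (nat_lit 1) (nat_lit 290) (nat_lit 257) (nat_lit 173))))) (XT.nd (nat_lit 282) (nat_lit 252) (nat_lit 0) (XT.nd (nat_lit 94) (nat_lit 252) (nat_lit 0) (XT.lf (nat_lit 0) (nat_lit 422258498) (nat_lit 0) (nat_lit 1017753896) (nat_lit 168) (nat_lit 422258498) (nat_lit 6) (nat_lit 3) (nat_lit 6) (nat_lit 1) (nat_lit 8) (nat_lit 1) (nat_lit 291) (nat_lit 257) (nat_lit 172)) (XT.nd (nat_lit 94) (nat_lit 168) (nat_lit 0) (XT.lf (nat_lit 84) (nat_lit 232499982) (nat_lit 0) (nat_lit 799638457) (nat_lit 84) (nat_lit 799638457) (nat_lit 6) (nat_lit 3) (nat_lit 5)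 (nat_lit 1) (nat_lit 6) (nat_lit 1) (nat_lit 292) (nat_lit 257) (nat_lit 171)) (XT.lf (nat_lit 168) (nat_lit 1453523651) (nat_lit 0) (nat_lit 174236090) (nat_lit 84) (nat_lit 174236090) (nat_lit 5) (nat_lit 1) (nat_lit 3) (nat_lit 1) (nat_lit 4) (nat_lit 1) (nat_lit 293) (nat_lit 257) (nat_lit 170)))) (XT.nd (nat_lit 188) (nat_lit 168) (nat_lit 0) (XT.nd (nat_lit 94) (nat_lit 84) (nat_lit 0) (XT.lf (nat_lit 0) (nat_lit 427469946) (nat_lit 0) (nat_lit 917385484) (nat_lit 168) (nat_lit 427469946) (nat_lit 3) (nat_lit 3) (nat_lit 3) (nat_lit 1) (nat_lit 5) (nat_lit 1) (nat_lit 294) (nat_lit 257) (nat_lit 169)) (XT.lf (nat_lit 84) (nat_lit 270063584) (nat_lit 0) (nat_lit 736649810) (nat_lit 84) (nat_lit 736649810) (nat_lit 3) (nat_lit 3) (nat_lit 2) (nat_lit 1) (nat_lit 3) (nat_lit 1) (nat_lit 295) (nat_lit 257) (nat_lit 168))) (XT.nd (nat_lit 94) (nat_lit 0) (nat_lit 0) (XT.lf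 (nat_lit 0) (nat_lit 2491520566) (nat_lit 0) (nat_lit 0) (nat_lit 0) (nat_lit 0) (nat_lit 0) (nat_lit 0) (nat_lit 1) (nat_lit 0) (nat_lit 1) (nat_lit 0) (nat_lit 296) (nat_lit 257) (nat_lit 167)) (XT.lf (nat_lit 0) (nat_lit 2490068917) (nat_lit 0) (nat_lit 0) (nat_lit 0) (nat_lit 0) (nat_lit 0) (nat_lit 0) (nat_lit 1) (nat_lit 0) (nat_lit 1) (nat_lit 0) (nat_lit 297) (nat_lit 257) (nat_lit 166))))))))
noncomputable def ec61 : XT := (XT.nd (nat_lit 36566) (nat_lit 0) (nat_lit 6552) (XT.nd (nat_lit 1222) (nat_lit 0) (nat_lit 0) (XT.nd (nat_lit 564) (nat_lit 0) (nat_lit 0) (XT.nd (nat_lit 282) (nat_lit 0) (nat_lit 0) (XT.nd (nat_lit 94) (nat_lit 0) (nat_lit 0) (XT.lf (nat_lit 0) (nat_lit 2488686394) (nat_lit 0) (nat_lit 0) (nat_lit 0) (nat_lit 0) (nat_lit 0) (nat_lit 0) (nat_lit 1) (nat_lit 0) (nat_lit 1) (nat_lit 0) (nat_lit 298) (nat_lit 257) (nat_lit 165)) (XT.nd (nat_lit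 94) (nat_lit 0) (nat_lit 0) (XT.lf (nat_lit 0) (nat_lit 2487369705) (nat_lit 0) (nat_lit 0) (nat_lit 0) (nat_lit 0) (nat_lit 0) (nat_lit 0) (nat_lit 1) (nat_lit 0) (nat_lit 1) (nat_lit 0) (nat_lit 299) (nat_lit 257) (nat_lit 164)) (XT.lf (nat_lit 0) (nat_lit 2486115716) (nat_lit 0) (nat_lit 0) (nat_lit 0) (nat_lit 0) (nat_lit 0) (nat_lit 0) (nat_lit 1) (nat_lit 0) (nat_lit 1) (nat_lit 0) (nat_lit 300) (nat_lit 257) (nat_lit 163)))) (XT.nd (nat_lit 94) (nat_lit 0) (nat_lit 0) (XT.lf (nat_lit 0) (nat_lit 2484921440) (nat_lit 0) (nat_lit 0) (nat_lit 0) (nat_lit 0) (nat_lit 0) (nat_lit 0) (nat_lit 1) (nat_lit 0) (nat_lit 1) (nat_lit 0) (nat_lit 301) (nat_lit 257) (nat_lit 162)) (XT.nd (nat_lit 94) (nat_lit 0) (nat_lit 0) (XT.lf (nat_lit 0) (nat_lit 2483784035) (nat_lit 0) (nat_lit 0) (nat_lit 0) (nat_lit 0) (nat_lit 0) (nat_lit 0) (nat_lit 1) (nat_lit 0) (nat_lit 1) (nat_lit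 0) (nat_lit 302) (nat_lit 257) (nat_lit 161)) (XT.lf (nat_lit 0) (nat_lit 2482700792) (nat_lit 0) (nat_lit 0) (nat_lit 0) (nat_lit 0) (nat_lit 0) (nat_lit 0) (nat_lit 1) (nat_lit 0) (nat_lit 1) (nat_lit 0) (nat_lit 303) (nat_lit 257) (nat_lit 160))))) (XT.nd (nat_lit 282) (nat_lit 0) (nat_lit 0) (XT.nd (nat_lit 94) (nat_lit 0) (nat_lit 0) (XT.lf (nat_lit 0) (nat_lit 2481669131) (nat_lit 0) (nat_lit 0) (nat_lit 0) (nat_lit 0) (nat_lit 0) (nat_lit 0) (nat_lit 1) (nat_lit 0) (nat_lit 1) (nat_lit 0) (nat_lit 304) (nat_lit 257) (nat_lit 159)) (XT.nd (nat_lit 94) (nat_lit 0) (nat_lit 0) (XT.lf (nat_lit 0) (nat_lit 2480686598) (nat_lit 0) (nat_lit 0) (nat_lit 0) (nat_lit 0) (nat_lit 0) (nat_lit 0) (nat_lit 1) (nat_lit 0) (nat_lit 1) (nat_lit 0) (nat_lit 305) (nat_lit 257) (nat_lit 158)) (XT.lf (nat_lit 0) (nat_lit 2479750852) (nat_lit 0) (nat_lit 0) (nat_lit 0) (nat_lit 0) (nat_lit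 0) (nat_lit 0) (nat_lit 1) (nat_lit 0) (nat_lit 1) (nat_lit 0) (nat_lit 306) (nat_lit 257) (nat_lit 157)))) (XT.nd (nat_lit 188) (nat_lit 0) (nat_lit 0) (XT.nd (nat_lit 94) (nat_lit 0) (nat_lit 0) (XT.lf (nat_lit 0) (nat_lit 2478859665) (nat_lit 0) (nat_lit 0) (nat_lit 0) (nat_lit 0) (nat_lit 0) (nat_lit 0) (nat_lit 1) (nat_lit 0) (nat_lit 1) (nat_lit 0) (nat_lit 307) (nat_lit 257) (nat_lit 156)) (XT.lf (nat_lit 0) (nat_lit 2478010916) (nat_lit 0) (nat_lit 0) (nat_lit 0) (nat_lit 0) (nat_lit 0) (nat_lit 0) (nat_lit 1) (nat_lit 0) (nat_lit 1) (nat_lit 0) (nat_lit 308) (nat_lit 257) (nat_lit 155))) (XT.nd (nat_lit 94) (nat_lit 0) (nat_lit 0) (XT.lf (nat_lit 0) (nat_lit 2477202583) (nat_lit 0) (nat_lit 0) (nat_lit 0) (nat_lit 0) (nat_lit 0) (nat_lit 0) (nat_lit 1) (nat_lit 0) (nat_lit 1) (nat_lit 0) (nat_lit 309) (nat_lit 257) (nat_lit 154)) (XT.lf (nat_lit 0) (nat_lit 2476432742)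 (nat_lit 0) (nat_lit 0) (nat_lit 0) (nat_lit 0) (nat_lit 0) (nat_lit 0) (nat_lit 1) (nat_lit 0) (nat_lit 1) (nat_lit 0) (nat_lit 310) (nat_lit 257) (nat_lit 153)))))) (XT.nd (nat_lit 658) (nat_lit 0) (nat_lit 0) (XT.nd (nat_lit 282) (nat_lit 0) (nat_lit 0) (XT.nd (nat_lit 94) (nat_lit 0) (nat_lit 0) (XT.lf (nat_lit 0) (nat_lit 2475699561) (nat_lit 0) (nat_lit 0) (nat_lit 0) (nat_lit 0) (nat_lit 0) (nat_lit 0) (nat_lit 1) (nat_lit 0) (nat_lit 1) (nat_lit 0) (nat_lit 311) (nat_lit 257) (nat_lit 152)) (XT.nd (nat_lit 94) (nat_lit 0) (nat_lit 0) (XT.lf (nat_lit 0) (nat_lit 2475001292) (nat_lit 0) (nat_lit 0) (nat_lit 0) (nat_lit 0) (nat_lit 0) (nat_lit 0) (nat_lit 1) (nat_lit 0) (nat_lit 1) (nat_lit 0) (nat_lit 312) (nat_lit 257) (nat_lit 151)) (XT.lf (nat_lit 0) (nat_lit 2474336275) (nat_lit 0) (nat_lit 0) (nat_lit 0) (nat_lit 0) (nat_lit 0) (nat_lit 0) (nat_lit 1) (nat_lit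 0) (nat_lit 1) (nat_lit 0) (nat_lit 313) (nat_lit 257) (nat_lit 150)))) (XT.nd (nat_lit 188) (nat_lit 0) (nat_lit 0) (XT.nd (nat_lit 94) (nat_lit 0) (nat_lit 0) (XT.lf (nat_lit 0) (nat_lit 2473702925) (nat_lit 0) (nat_lit 0) (nat_lit 0) (nat_lit 0) (nat_lit 0) (nat_lit 0) (nat_lit 1) (nat_lit 0) (nat_lit 1) (nat_lit 0) (nat_lit 314) (nat_lit 257) (nat_lit 149)) (XT.lf (nat_lit 0) (nat_lit 2473099735) (nat_lit 0) (nat_lit 0) (nat_lit 0) (nat_lit 0) (nat_lit 0) (nat_lit 0) (nat_lit 1) (nat_lit 0) (nat_lit 1) (nat_lit 0) (nat_lit 315) (nat_lit 257) (nat_lit 148))) (XT.nd (nat_lit 94) (nat_lit 0) (nat_lit 0) (XT.lf (nat_lit 0) (nat_lit 2472525268) (nat_lit 0) (nat_lit 0) (nat_lit 0) (nat_lit 0) (nat_lit 0) (nat_lit 0) (nat_lit 1) (nat_lit 0) (nat_lit 1) (nat_lit 0) (nat_lit 316) (nat_lit 257) (nat_lit 147)) (XT.lf (nat_lit 0) (nat_lit 2471978157) (nat_lit 0) (nat_lit 0) (nat_lit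 0) (nat_lit 0) (nat_lit 0) (nat_lit 0) (nat_lit 1) (nat_lit 0) (nat_lit 1) (nat_lit 0) (nat_lit 317) (nat_lit 257) (nat_lit 146))))) (XT.nd (nat_lit 282) (nat_lit 0) (nat_lit 0) (XT.nd (nat_lit 94) (nat_lit 0) (nat_lit 0) (XT.lf (nat_lit 0) (nat_lit 2471457098) (nat_lit 0) (nat_lit 0) (nat_lit 0) (nat_lit 0) (nat_lit 0) (nat_lit 0) (nat_lit 1) (nat_lit 0) (nat_lit 1) (nat_lit 0) (nat_lit 318) (nat_lit 257) (nat_lit 145)) (XT.nd (nat_lit 94) (nat_lit 0) (nat_lit 0) (XT.lf (nat_lit 0) (nat_lit 2470960852) (nat_lit 0) (nat_lit 0) (nat_lit 0) (nat_lit 0) (nat_lit 0) (nat_lit 0) (nat_lit 1) (nat_lit 0) (nat_lit 1) (nat_lit 0) (nat_lit 319) (nat_lit 257) (nat_lit 144)) (XT.lf (nat_lit 0) (nat_lit 2470488237) (nat_lit 0) (nat_lit 0) (nat_lit 0) (nat_lit 0) (nat_lit 0) (nat_lit 0) (nat_lit 1) (nat_lit 0) (nat_lit 1) (nat_lit 0) (nat_lit 320) (nat_lit 257) (nat_lit 143)))) (XT.nd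 (nat_lit 34216) (nat_lit 0) (nat_lit 10752) (XT.nd (nat_lit 94) (nat_lit 0) (nat_lit 0) (XT.lf (nat_lit 0) (nat_lit 2470038127) (nat_lit 0) (nat_lit 0) (nat_lit 0) (nat_lit 0) (nat_lit 0) (nat_lit 0) (nat_lit 1) (nat_lit 0) (nat_lit 1) (nat_lit 0) (nat_lit 321) (nat_lit 257) (nat_lit 142)) (XT.lf (nat_lit 0) (nat_lit 2469609451) (nat_lit 0) (nat_lit 0) (nat_lit 0) (nat_lit 0) (nat_lit 0) (nat_lit 0) (nat_lit 1) (nat_lit 0) (nat_lit 1) (nat_lit 0) (nat_lit 322) (nat_lit 257) (nat_lit 141))) (XT.nd (nat_lit 94) (nat_lit 0) (nat_lit 0) (XT.lf (nat_lit 924) (nat_lit 1293174291) (nat_lit 0) (nat_lit 2296027982) (nat_lit 924) (nat_lit 1293174291) (nat_lit 139) (nat_lit 1) (nat_lit 128) (nat_lit 0) (nat_lit 139) (nat_lit 0) (nat_lit 204) (nat_lit 258) (nat_lit 258)) (XT.lf (nat_lit 924) (nat_lit 5012505000) (nat_lit 84) (nat_lit 2258995272) (nat_lit 0) (nat_lit 2258995272) (nat_lit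 139) (nat_lit 1) (nat_lit 129) (nat_lit 1) (nat_lit 128) (nat_lit 0) (nat_lit 205) (nat_lit 258) (nat_lit 257))))))) (XT.nd (nat_lit 1316) (nat_lit 2772) (nat_lit 0) (XT.nd (nat_lit 658) (nat_lit 1512) (nat_lit 0) (XT.nd (nat_lit 282) (nat_lit 0) (nat_lit 84) (XT.nd (nat_lit 94) (nat_lit 0) (nat_lit 0) (XT.lf (nat_lit 924) (nat_lit 2388884410) (nat_lit 0) (nat_lit 4525711302) (nat_lit 840) (nat_lit 2388884410) (nat_lit 140) (nat_lit 1) (nat_lit 129) (nat_lit 1) (nat_lit 139) (nat_lit 1) (nat_lit 206) (nat_lit 258) (nat_lit 256)) (XT.nd (nat_lit 94) (nat_lit 0) (nat_lit 84) (XT.lf (nat_lit 924) (nat_lit 4481215209) (nat_lit 84) (nat_lit 2301291889) (nat_lit 0) (nat_lit 2301291889) (nat_lit 140) (nat_lit 1) (nat_lit 130) (nat_lit 1) (nat_lit 129) (nat_lit 1) (nat_lit 207) (nat_lit 258) (nat_lit 255)) (XT.lf (nat_lit 924) (nat_lit 2062660327) (nat_lit 0) (nat_lit 4745759988)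 (nat_lit 840) (nat_lit 2062660327) (nat_lit 141) (nat_lit 1) (nat_lit 130) (nat_lit 1) (nat_lit 140) (nat_lit 1) (nat_lit 208) (nat_lit 258) (nat_lit 254)))) (XT.nd (nat_lit 188) (nat_lit 0) (nat_lit 84) (XT.nd (nat_lit 94) (nat_lit 0) (nat_lit 84) (XT.lf (nat_lit 924) (nat_lit 3709828944) (nat_lit 84) (nat_lit 2477508911) (nat_lit 0) (nat_lit 2477508911) (nat_lit 141) (nat_lit 1) (nat_lit 131) (nat_lit 1) (nat_lit 130) (nat_lit 1) (nat_lit 209) (nat_lit 258) (nat_lit 253)) (XT.lf (nat_lit 924) (nat_lit 1626652842) (nat_lit 0) (nat_lit 5212231825) (nat_lit 840) (nat_lit 1626652842) (nat_lit 142) (nat_lit 1) (nat_lit 131) (nat_lit 1) (nat_lit 141) (nat_lit 1) (nat_lit 210) (nat_lit 258) (nat_lit 252))) (XT.nd (nat_lit 94) (nat_lit 0) (nat_lit 84) (XT.lf (nat_lit 924) (nat_lit 2734453373) (nat_lit 84) (nat_lit 2768631273) (nat_lit 0) (nat_lit 2768631273) (nat_lit 142) (nat_lit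 1) (nat_lit 132) (nat_lit 1) (nat_lit 131) (nat_lit 1) (nat_lit 211) (nat_lit 258) (nat_lit 251)) (XT.lf (nat_lit 924) (nat_lit 1097740605) (nat_lit 0) (nat_lit 5889508095) (nat_lit 840) (nat_lit 1097740605) (nat_lit 143) (nat_lit 1) (nat_lit 132) (nat_lit 1) (nat_lit 142) (nat_lit 1) (nat_lit 212) (nat_lit 258) (nat_lit 250))))) (XT.nd (nat_lit 282) (nat_lit 1008) (nat_lit 0) (XT.nd (nat_lit 94) (nat_lit 756) (nat_lit 0) (XT.lf (nat_lit 924) (nat_lit 1587182321) (nat_lit 84) (nat_lit 3157724340) (nat_lit 0) (nat_lit 3157724340) (nat_lit 143) (nat_lit 1) (nat_lit 133) (nat_lit 1) (nat_lit 132) (nat_lit 1) (nat_lit 213) (nat_lit 258) (nat_lit 249)) (XT.nd (nat_lit 94) (nat_lit 840) (nat_lit 0) (XT.lf (nat_lit 84) (nat_lit 490915332) (nat_lit 0) (nat_lit 6745886745) (nat_lit 840) (nat_lit 490915332) (nat_lit 134) (nat_lit 1) (nat_lit 133) (nat_lit 1) (nat_lit 143) (nat_lit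 1) (nat_lit 214) (nat_lit 258) (nat_lit 248)) (XT.lf (nat_lit 924) (nat_lit 296500652) (nat_lit 0) (nat_lit 3629725605) (nat_lit 840) (nat_lit 3629725605) (nat_lit 134) (nat_lit 1) (nat_lit 123) (nat_lit 1) (nat_lit 133) (nat_lit 1) (nat_lit 215) (nat_lit 258) (nat_lit 247)))) (XT.nd (nat_lit 188) (nat_lit 420) (nat_lit 0) (XT.nd (nat_lit 94) (nat_lit 0) (nat_lit 0) (XT.lf (nat_lit 588) (nat_lit 7036333895) (nat_lit 0) (nat_lit 177615895) (nat_lit 504) (nat_lit 177615895) (nat_lit 123) (nat_lit 1) (nat_lit 116) (nat_lit 1) (nat_lit 122) (nat_lit 1) (nat_lit 216) (nat_lit 258) (nat_lit 246)) (XT.lf (nat_lit 84) (nat_lit 3076272932) (nat_lit 0) (nat_lit 1076748274) (nat_lit 588) (nat_lit 3076272932) (nat_lit 117) (nat_lit 1) (nat_lit 116) (nat_lit 1) (nat_lit 123) (nat_lit 1) (nat_lit 217) (nat_lit 258) (nat_lit 245))) (XT.nd (nat_lit 94) (nat_lit 0) (nat_lit 0) (XT.lf (nat_lit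 504) (nat_lit 5293476072) (nat_lit 0) (nat_lit 890223371) (nat_lit 420) (nat_lit 890223371) (nat_lit 117) (nat_lit 1) (nat_lit 111) (nat_lit 1) (nat_lit 116) (nat_lit 1) (nat_lit 218) (nat_lit 258) (nat_lit 244)) (XT.lf (nat_lit 84) (nat_lit 2194268034) (nat_lit 0) (nat_lit 2533281756) (nat_lit 504) (nat_lit 2194268034) (nat_lit 112) (nat_lit 1) (nat_lit 111) (nat_lit 1) (nat_lit 117) (nat_lit 1) (nat_lit 219) (nat_lit 258) (nat_lit 243)))))) (XT.nd (nat_lit 658) (nat_lit 1260) (nat_lit 0) (XT.nd (nat_lit 282) (nat_lit 756) (nat_lit 0) (XT.nd (nat_lit 94) (nat_lit 336) (nat_lit 0) (XT.lf (nat_lit 504) (nat_lit 3485829062) (nat_lit 0) (nat_lit 1644590590) (nat_lit 420) (nat_lit 1644590590) (nat_lit 112) (nat_lit 1) (nat_lit 106) (nat_lit 1) (nat_lit 111) (nat_lit 1) (nat_lit 220) (nat_lit 258) (nat_lit 242)) (XT.nd (nat_lit 94) (nat_lit 336) (nat_lit 0) (XT.lf (nat_lit 84)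 (nat_lit 1284481682) (nat_lit 0) (nat_lit 4063508956) (nat_lit 504) (nat_lit 1284481682) (nat_lit 107) (nat_lit 1) (nat_lit 106) (nat_lit 1) (nat_lit 112) (nat_lit 1) (nat_lit 221) (nat_lit 258) (nat_lit 241)) (XT.lf (nat_lit 420) (nat_lit 1630217472) (nat_lit 0) (nat_lit 2431691736) (nat_lit 336) (nat_lit 2431691736) (nat_lit 107) (nat_lit 1) (nat_lit 102) (nat_lit 1) (nat_lit 106) (nat_lit 1) (nat_lit 222) (nat_lit 258) (nat_lit 240)))) (XT.nd (nat_lit 188) (nat_lit 336) (nat_lit 0) (XT.nd (nat_lit 94) (nat_lit 420) (nat_lit 0) (XT.lf (nat_lit 84) (nat_lit 354724444) (nat_lit 0) (nat_lit 5650620990) (nat_lit 420) (nat_lit 354724444) (nat_lit 103) (nat_lit 1) (nat_lit 102) (nat_lit 1) (nat_lit 107) (nat_lit 1) (nat_lit 223) (nat_lit 258) (nat_lit 239)) (XT.lf (nat_lit 84) (nat_lit 2989010097) (nat_lit 0) (nat_lit 250335401) (nat_lit 420) (nat_lit 2989010097) (nat_lit 98)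 (nat_lit 1) (nat_lit 97) (nat_lit 1) (nat_lit 102) (nat_lit 1) (nat_lit 224) (nat_lit 258) (nat_lit 238))) (XT.nd (nat_lit 94) (nat_lit 0) (nat_lit 0) (XT.lf (nat_lit 420) (nat_lit 4944294072) (nat_lit 0) (nat_lit 578681621) (nat_lit 336) (nat_lit 578681621) (nat_lit 98) (nat_lit 1) (nat_lit 93) (nat_lit 1) (nat_lit 97) (nat_lit 1) (nat_lit 225) (nat_lit 258) (nat_lit 237)) (XT.lf (nat_lit 84) (nat_lit 1939369501) (nat_lit 0) (nat_lit 2098393570) (nat_lit 420) (nat_lit 1939369501) (nat_lit 94) (nat_lit 1) (nat_lit 93) (nat_lit 1) (nat_lit 98) (nat_lit 1) (nat_lit 226) (nat_lit 258) (nat_lit 236))))) (XT.nd (nat_lit 282) (nat_lit 672) (nat_lit 0) (XT.nd (nat_lit 94) (nat_lit 252) (nat_lit 0) (XT.lf (nat_lit 420) (nat_lit 2830079593) (nat_lit 0) (nat_lit 1513423158) (nat_lit 336) (nat_lit 1513423158) (nat_lit 94) (nat_lit 1) (nat_lit 89) (nat_lit 1) (nat_lit 93) (nat_lit 1)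 (nat_lit 227) (nat_lit 258) (nat_lit 235)) (XT.nd (nat_lit 94) (nat_lit 252) (nat_lit 0) (XT.lf (nat_lit 84) (nat_lit 892480799) (nat_lit 0) (nat_lit 3955272502) (nat_lit 420) (nat_lit 892480799) (nat_lit 90) (nat_lit 1) (nat_lit 89) (nat_lit 1) (nat_lit 94) (nat_lit 1) (nat_lit 228) (nat_lit 258) (nat_lit 234)) (XT.lf (nat_lit 336) (nat_lit 725816409) (nat_lit 0) (nat_lit 2450122395) (nat_lit 252) (nat_lit 2450122395) (nat_lit 90) (nat_lit 1) (nat_lit 86) (nat_lit 1) (nat_lit 89) (nat_lit 1) (nat_lit 229) (nat_lit 258) (nat_lit 233)))) (XT.nd (nat_lit 188) (nat_lit 252) (nat_lit 0) (XT.nd (nat_lit 94) (nat_lit 0) (nat_lit 0) (XT.lf (nat_lit 420) (nat_lit 5226257139) (nat_lit 0) (nat_lit 145018607) (nat_lit 336) (nat_lit 145018607) (nat_lit 86) (nat_lit 1) (nat_lit 81) (nat_lit 1) (nat_lit 85) (nat_lit 1) (nat_lit 230) (nat_lit 258) (nat_lit 232)) (XT.lf (nat_lit 84) (nat_lit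 2045073055) (nat_lit 0) (nat_lit 1316988942) (nat_lit 420) (nat_lit 2045073055) (nat_lit 82) (nat_lit 1) (nat_lit 81) (nat_lit 1) (nat_lit 86) (nat_lit 1) (nat_lit 231) (nat_lit 258) (nat_lit 231))) (XT.nd (nat_lit 94) (nat_lit 0) (nat_lit 0) (XT.lf (nat_lit 336) (nat_lit 2986893851) (nat_lit 0) (nat_lit 1157634225) (nat_lit 252) (nat_lit 1157634225) (nat_lit 82) (nat_lit 1) (nat_lit 78) (nat_lit 1) (nat_lit 81) (nat_lit 1) (nat_lit 232) (nat_lit 258) (nat_lit 230)) (XT.lf (nat_lit 84) (nat_lit 943605970) (nat_lit 0) (nat_lit 3312644624) (nat_lit 336) (nat_lit 943605970) (nat_lit 79) (nat_lit 1) (nat_lit 78) (nat_lit 1) (nat_lit 82) (nat_lit 1) (nat_lit 233) (nat_lit 258) (nat_lit 229))))))))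
noncomputable def ec62 : XT := (XT.nd (nat_lit 2538) (nat_lit 2352) (nat_lit 0) (XT.nd (nat_lit 1222) (nat_lit 1596) (nat_lit 0) (XT.nd (nat_lit 564) (nat_lit 924) (nat_lit 0) (XT.nd (nat_lit 282) (nat_lit 420) (nat_lit 0) (XT.nd (nat_lit 94) (nat_lit 336) (nat_lit 0) (XT.lf (nat_lit 336) (nat_lit 786466082) (nat_lit 0) (nat_lit 2156706085) (nat_lit 252) (nat_lit 2156706085) (nat_lit 79) (nat_lit 1) (nat_lit 75) (nat_lit 1) (nat_lit 78) (nat_lit 1) (nat_lit 234) (nat_lit 258) (nat_lit 228)) (XT.nd (nat_lit 94) (nat_lit 0) (nat_lit 0) (XT.lf (nat_lit 336) (nat_lit 4733289624) (nat_lit 0) (nat_lit 135162320) (nat_lit 252) (nat_lit 135162320) (nat_lit 75) (nat_lit 1) (nat_lit 71) (nat_lit 1) (nat_lit 74) (nat_lit 1) (nat_lit 235) (nat_lit 258) (nat_lit 227)) (XT.lf (nat_lit 84) (nat_lit 1790467912) (nat_lit 0) (nat_lit 1326718744) (nat_lit 336) (nat_lit 1790467912) (nat_lit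 72) (nat_lit 1) (nat_lit 71) (nat_lit 1) (nat_lit 75) (nat_lit 1) (nat_lit 236) (nat_lit 258) (nat_lit 226)))) (XT.nd (nat_lit 94) (nat_lit 168) (nat_lit 0) (XT.lf (nat_lit 336) (nat_lit 2462057325) (nat_lit 0) (nat_lit 1176594035) (nat_lit 252) (nat_lit 1176594035) (nat_lit 72) (nat_lit 1) (nat_lit 68) (nat_lit 1) (nat_lit 71) (nat_lit 1) (nat_lit 237) (nat_lit 258) (nat_lit 225)) (XT.nd (nat_lit 94) (nat_lit 168) (nat_lit 0) (XT.lf (nat_lit 84) (nat_lit 678048579) (nat_lit 0) (nat_lit 3369217521) (nat_lit 336) (nat_lit 678048579) (nat_lit 69) (nat_lit 1) (nat_lit 68) (nat_lit 1) (nat_lit 72) (nat_lit 1) (nat_lit 238) (nat_lit 258) (nat_lit 224)) (XT.lf (nat_lit 252) (nat_lit 248459544) (nat_lit 0) (nat_lit 2194309555) (nat_lit 168) (nat_lit 2194309555) (nat_lit 69) (nat_lit 1) (nat_lit 66) (nat_lit 1) (nat_lit 68) (nat_lit 1) (nat_lit 239) (nat_lit 258) (nat_lit 223)))))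 (XT.nd (nat_lit 282) (nat_lit 420) (nat_lit 0) (XT.nd (nat_lit 94) (nat_lit 168) (nat_lit 0) (XT.lf (nat_lit 336) (nat_lit 3754140399) (nat_lit 0) (nat_lit 398716921) (nat_lit 252) (nat_lit 398716921) (nat_lit 66) (nat_lit 1) (nat_lit 62) (nat_lit 1) (nat_lit 65) (nat_lit 1) (nat_lit 240) (nat_lit 258) (nat_lit 222)) (XT.nd (nat_lit 94) (nat_lit 168) (nat_lit 0) (XT.lf (nat_lit 84) (nat_lit 1311232129) (nat_lit 0) (nat_lit 1844561858) (nat_lit 336) (nat_lit 1311232129) (nat_lit 63) (nat_lit 1) (nat_lit 62) (nat_lit 1) (nat_lit 66) (nat_lit 1) (nat_lit 241) (nat_lit 258) (nat_lit 221)) (XT.lf (nat_lit 252) (nat_lit 1514926458) (nat_lit 0) (nat_lit 1435080459) (nat_lit 168) (nat_lit 1435080459) (nat_lit 63) (nat_lit 1) (nat_lit 60) (nat_lit 1) (nat_lit 62) (nat_lit 1) (nat_lit 242) (nat_lit 258) (nat_lit 220)))) (XT.nd (nat_lit 188) (nat_lit 168) (nat_lit 0) (XT.nd (nat_lit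 94) (nat_lit 252) (nat_lit 0) (XT.lf (nat_lit 84) (nat_lit 217646847) (nat_lit 0) (nat_lit 3870574175) (nat_lit 252) (nat_lit 217646847) (nat_lit 61) (nat_lit 1) (nat_lit 60) (nat_lit 1) (nat_lit 63) (nat_lit 1) (nat_lit 243) (nat_lit 258) (nat_lit 219)) (XT.lf (nat_lit 84) (nat_lit 1796277617) (nat_lit 0) (nat_lit 634381096) (nat_lit 252) (nat_lit 1796277617) (nat_lit 58) (nat_lit 1) (nat_lit 57) (nat_lit 1) (nat_lit 60) (nat_lit 1) (nat_lit 244) (nat_lit 258) (nat_lit 218))) (XT.nd (nat_lit 94) (nat_lit 0) (nat_lit 0) (XT.lf (nat_lit 252) (nat_lit 2494446296) (nat_lit 0) (nat_lit 828088585) (nat_lit 168) (nat_lit 828088585) (nat_lit 58) (nat_lit 1) (nat_lit 55) (nat_lit 1) (nat_lit 57) (nat_lit 1) (nat_lit 245) (nat_lit 258) (nat_lit 217)) (XT.lf (nat_lit 84) (nat_lit 703867848) (nat_lit 0) (nat_lit 2668261588) (nat_lit 252) (nat_lit 703867848) (nat_lit 56) (nat_lit 1)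 (nat_lit 55) (nat_lit 1) (nat_lit 58) (nat_lit 1) (nat_lit 246) (nat_lit 258) (nat_lit 216)))))) (XT.nd (nat_lit 658) (nat_lit 672) (nat_lit 0) (XT.nd (nat_lit 282) (nat_lit 504) (nat_lit 0) (XT.nd (nat_lit 94) (nat_lit 252) (nat_lit 0) (XT.lf (nat_lit 252) (nat_lit 329736745) (nat_lit 0) (nat_lit 1836569314) (nat_lit 168) (nat_lit 1836569314) (nat_lit 56) (nat_lit 1) (nat_lit 53) (nat_lit 1) (nat_lit 55) (nat_lit 1) (nat_lit 247) (nat_lit 258) (nat_lit 215)) (XT.nd (nat_lit 94) (nat_lit 0) (nat_lit 0) (XT.lf (nat_lit 252) (nat_lit 3240865760) (nat_lit 0) (nat_lit 345503234) (nat_lit 168) (nat_lit 345503234) (nat_lit 53) (nat_lit 1) (nat_lit 50) (nat_lit 1) (nat_lit 52) (nat_lit 1) (nat_lit 248) (nat_lit 258) (nat_lit 214)) (XT.lf (nat_lit 84) (nat_lit 1078892153) (nat_lit 0) (nat_lit 1703690779) (nat_lit 252) (nat_lit 1078892153) (nat_lit 51) (nat_lit 1) (nat_lit 50) (nat_lit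 1) (nat_lit 53) (nat_lit 1) (nat_lit 249) (nat_lit 258) (nat_lit 213)))) (XT.nd (nat_lit 188) (nat_lit 336) (nat_lit 0) (XT.nd (nat_lit 94) (nat_lit 0) (nat_lit 0) (XT.lf (nat_lit 252) (nat_lit 1098799277) (nat_lit 0) (nat_lit 1347161196) (nat_lit 168) (nat_lit 1347161196) (nat_lit 51) (nat_lit 1) (nat_lit 48) (nat_lit 1) (nat_lit 50) (nat_lit 1) (nat_lit 250) (nat_lit 258) (nat_lit 212)) (XT.lf (nat_lit 84) (nat_lit 36114501) (nat_lit 0) (nat_lit 3654936408) (nat_lit 252) (nat_lit 36114501) (nat_lit 49) (nat_lit 1) (nat_lit 48) (nat_lit 1) (nat_lit 51) (nat_lit 1) (nat_lit 251) (nat_lit 258) (nat_lit 211))) (XT.nd (nat_lit 94) (nat_lit 168) (nat_lit 0) (XT.lf (nat_lit 84) (nat_lit 1363624703) (nat_lit 0) (nat_lit 933540493) (nat_lit 168) (nat_lit 1363624703) (nat_lit 47) (nat_lit 1) (nat_lit 46) (nat_lit 1) (nat_lit 48) (nat_lit 1) (nat_lit 252) (nat_lit 258) (nat_lit 210))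 (XT.lf (nat_lit 252) (nat_lit 1692103019) (nat_lit 0) (nat_lit 952323398) (nat_lit 168) (nat_lit 952323398) (nat_lit 47) (nat_lit 1) (nat_lit 44) (nat_lit 1) (nat_lit 46) (nat_lit 1) (nat_lit 253) (nat_lit 258) (nat_lit 209))))) (XT.nd (nat_lit 282) (nat_lit 336) (nat_lit 0) (XT.nd (nat_lit 94) (nat_lit 336) (nat_lit 0) (XT.lf (nat_lit 84) (nat_lit 339254960) (nat_lit 0) (nat_lit 2855928413) (nat_lit 252) (nat_lit 339254960) (nat_lit 45) (nat_lit 1) (nat_lit 44) (nat_lit 1) (nat_lit 47) (nat_lit 1) (nat_lit 254) (nat_lit 258) (nat_lit 208)) (XT.nd (nat_lit 94) (nat_lit 168) (nat_lit 0) (XT.lf (nat_lit 84) (nat_lit 1575207379) (nat_lit 0) (nat_lit 322225954) (nat_lit 168) (nat_lit 1575207379) (nat_lit 43) (nat_lit 1) (nat_lit 42) (nat_lit 1) (nat_lit 44) (nat_lit 1) (nat_lit 255) (nat_lit 258) (nat_lit 207)) (XT.lf (nat_lit 252) (nat_lit 2142686040) (nat_lit 0) (nat_lit 634917434)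 (nat_lit 168) (nat_lit 634917434) (nat_lit 43) (nat_lit 1) (nat_lit 40) (nat_lit 1) (nat_lit 42) (nat_lit 1) (nat_lit 256) (nat_lit 258) (nat_lit 206)))) (XT.nd (nat_lit 188) (nat_lit 252) (nat_lit 0) (XT.nd (nat_lit 94) (nat_lit 84) (nat_lit 0) (XT.lf (nat_lit 84) (nat_lit 573909201) (nat_lit 0) (nat_lit 2205772882) (nat_lit 252) (nat_lit 573909201) (nat_lit 41) (nat_lit 1) (nat_lit 40) (nat_lit 1) (nat_lit 43) (nat_lit 1) (nat_lit 257) (nat_lit 258) (nat_lit 205)) (XT.lf (nat_lit 168) (nat_lit 164748432) (nat_lit 0) (nat_lit 1565512630) (nat_lit 84) (nat_lit 1565512630) (nat_lit 41) (nat_lit 1) (nat_lit 39) (nat_lit 1) (nat_lit 40) (nat_lit 1) (nat_lit 258) (nat_lit 258) (nat_lit 204))) (XT.nd (nat_lit 94) (nat_lit 0) (nat_lit 0) (XT.lf (nat_lit 252) (nat_lit 2477639488) (nat_lit 0) (nat_lit 380861113) (nat_lit 168) (nat_lit 380861113) (nat_lit 39) (nat_lit 1) (nat_lit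 36) (nat_lit 1) (nat_lit 38) (nat_lit 1) (nat_lit 259) (nat_lit 258) (nat_lit 203)) (XT.lf (nat_lit 84) (nat_lit 752921573) (nat_lit 0) (nat_lit 1677736247) (nat_lit 252) (nat_lit 752921573) (nat_lit 37) (nat_lit 1) (nat_lit 36) (nat_lit 1) (nat_lit 39) (nat_lit 1) (nat_lit 260) (nat_lit 258) (nat_lit 202))))))) (XT.nd (nat_lit 1222) (nat_lit 1092) (nat_lit 0) (XT.nd (nat_lit 564) (nat_lit 588) (nat_lit 0) (XT.nd (nat_lit 282) (nat_lit 336) (nat_lit 0) (XT.nd (nat_lit 94) (nat_lit 252) (nat_lit 0) (XT.lf (nat_lit 168) (nat_lit 553262557) (nat_lit 0) (nat_lit 1287951115) (nat_lit 84) (nat_lit 1287951115) (nat_lit 37) (nat_lit 1) (nat_lit 35) (nat_lit 1) (nat_lit 36) (nat_lit 1) (nat_lit 261) (nat_lit 258) (nat_lit 201)) (XT.nd (nat_lit 94) (nat_lit 0) (nat_lit 0) (XT.lf (nat_lit 252) (nat_lit 2719166215) (nat_lit 0) (nat_lit 178585827) (nat_lit 168) (nat_lit 178585827) (nat_lit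 35) (nat_lit 1) (nat_lit 32) (nat_lit 1) (nat_lit 34) (nat_lit 1) (nat_lit 262) (nat_lit 258) (nat_lit 200)) (XT.lf (nat_lit 84) (nat_lit 886825729) (nat_lit 0) (nat_lit 1249841036) (nat_lit 252) (nat_lit 886825729) (nat_lit 33) (nat_lit 1) (nat_lit 32) (nat_lit 1) (nat_lit 35) (nat_lit 1) (nat_lit 263) (nat_lit 258) (nat_lit 199)))) (XT.nd (nat_lit 94) (nat_lit 252) (nat_lit 0) (XT.lf (nat_lit 168) (nat_lit 853002490) (nat_lit 0) (nat_lit 1059600569) (nat_lit 84) (nat_lit 1059600569) (nat_lit 33) (nat_lit 1) (nat_lit 31) (nat_lit 1) (nat_lit 32) (nat_lit 1) (nat_lit 264) (nat_lit 258) (nat_lit 198)) (XT.nd (nat_lit 94) (nat_lit 0) (nat_lit 0) (XT.lf (nat_lit 252) (nat_lit 2885451513) (nat_lit 0) (nat_lit 18590094) (nat_lit 168) (nat_lit 18590094) (nat_lit 31) (nat_lit 1) (nat_lit 28) (nat_lit 1) (nat_lit 30) (nat_lit 1) (nat_lit 265) (nat_lit 258) (nat_lit 197)) (XT.lf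 (nat_lit 84) (nat_lit 984255902) (nat_lit 0) (nat_lit 904021860) (nat_lit 252) (nat_lit 984255902) (nat_lit 29) (nat_lit 1) (nat_lit 28) (nat_lit 1) (nat_lit 31) (nat_lit 1) (nat_lit 266) (nat_lit 258) (nat_lit 196))))) (XT.nd (nat_lit 282) (nat_lit 336) (nat_lit 0) (XT.nd (nat_lit 94) (nat_lit 168) (nat_lit 0) (XT.lf (nat_lit 168) (nat_lit 1080654892) (nat_lit 0) (nat_lit 871736011) (nat_lit 84) (nat_lit 871736011) (nat_lit 29) (nat_lit 1) (nat_lit 27) (nat_lit 1) (nat_lit 28) (nat_lit 1) (nat_lit 267) (nat_lit 258) (nat_lit 195)) (XT.nd (nat_lit 94) (nat_lit 168) (nat_lit 0) (XT.lf (nat_lit 0) (nat_lit 108680613) (nat_lit 0) (nat_lit 2559820418) (nat_lit 168) (nat_lit 108680613) (nat_lit 27) (nat_lit 3) (nat_lit 27) (nat_lit 1) (nat_lit 29) (nat_lit 1) (nat_lit 268) (nat_lit 258) (nat_lit 194)) (XT.lf (nat_lit 84) (nat_lit 1052285175) (nat_lit 0) (nat_lit 625431066) (nat_lit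 168) (nat_lit 1052285175) (nat_lit 26) (nat_lit 1) (nat_lit 25) (nat_lit 1) (nat_lit 27) (nat_lit 1) (nat_lit 269) (nat_lit 258) (nat_lit 193)))) (XT.nd (nat_lit 188) (nat_lit 252) (nat_lit 0) (XT.nd (nat_lit 94) (nat_lit 0) (nat_lit 0) (XT.lf (nat_lit 168) (nat_lit 1249902818) (nat_lit 0) (nat_lit 717179373) (nat_lit 84) (nat_lit 717179373) (nat_lit 26) (nat_lit 1) (nat_lit 24) (nat_lit 1) (nat_lit 25) (nat_lit 1) (nat_lit 270) (nat_lit 258) (nat_lit 192)) (XT.lf (nat_lit 0) (nat_lit 207721765) (nat_lit 0) (nat_lit 2224280548) (nat_lit 168) (nat_lit 207721765) (nat_lit 24) (nat_lit 3) (nat_lit 24) (nat_lit 1) (nat_lit 26) (nat_lit 1) (nat_lit 271) (nat_lit 258) (nat_lit 191))) (XT.nd (nat_lit 94) (nat_lit 84) (nat_lit 0) (XT.lf (nat_lit 84) (nat_lit 1096703721) (nat_lit 0) (nat_lit 401867537) (nat_lit 168) (nat_lit 1096703721) (nat_lit 23) (nat_lit 1) (nat_lit 22) (nat_lit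 1) (nat_lit 24) (nat_lit 1) (nat_lit 272) (nat_lit 258) (nat_lit 190)) (XT.lf (nat_lit 168) (nat_lit 1371960394) (nat_lit 0) (nat_lit 590025245) (nat_lit 84) (nat_lit 590025245) (nat_lit 23) (nat_lit 1) (nat_lit 21) (nat_lit 1) (nat_lit 22) (nat_lit 1) (nat_lit 273) (nat_lit 258) (nat_lit 189)))))) (XT.nd (nat_lit 658) (nat_lit 588) (nat_lit 0) (XT.nd (nat_lit 282) (nat_lit 252) (nat_lit 0) (XT.nd (nat_lit 94) (nat_lit 252) (nat_lit 0) (XT.lf (nat_lit 0) (nat_lit 283569358) (nat_lit 0) (nat_lit 1942597260) (nat_lit 168) (nat_lit 283569358) (nat_lit 21) (nat_lit 3) (nat_lit 21) (nat_lit 1) (nat_lit 23) (nat_lit 1) (nat_lit 274) (nat_lit 258) (nat_lit 188)) (XT.nd (nat_lit 94) (nat_lit 84) (nat_lit 0) (XT.lf (nat_lit 84) (nat_lit 1122247631) (nat_lit 0) (nat_lit 223306800) (nat_lit 168) (nat_lit 1122247631) (nat_lit 20) (nat_lit 1) (nat_lit 19) (nat_lit 1) (nat_lit 21) (nat_lit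 1) (nat_lit 275) (nat_lit 258) (nat_lit 187)) (XT.lf (nat_lit 168) (nat_lit 1456012594) (nat_lit 0) (nat_lit 485415229) (nat_lit 84) (nat_lit 485415229) (nat_lit 20) (nat_lit 1) (nat_lit 18) (nat_lit 1) (nat_lit 19) (nat_lit 1) (nat_lit 276) (nat_lit 258) (nat_lit 186)))) (XT.nd (nat_lit 188) (nat_lit 84) (nat_lit 0) (XT.nd (nat_lit 94) (nat_lit 168) (nat_lit 0) (XT.lf (nat_lit 0) (nat_lit 340603830) (nat_lit 0) (nat_lit 1705490190) (nat_lit 168) (nat_lit 340603830) (nat_lit 18) (nat_lit 3) (nat_lit 18) (nat_lit 1) (nat_lit 20) (nat_lit 1) (nat_lit 277) (nat_lit 258) (nat_lit 185)) (XT.lf (nat_lit 84) (nat_lit 1132787109) (nat_lit 0) (nat_lit 81514469) (nat_lit 168) (nat_lit 1132787109) (nat_lit 17) (nat_lit 1) (nat_lit 16) (nat_lit 1) (nat_lit 18) (nat_lit 1) (nat_lit 278) (nat_lit 258) (nat_lit 184))) (XT.nd (nat_lit 94) (nat_lit 0) (nat_lit 0) (XT.lf (nat_lit 168) (nat_lit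 1509576958) (nat_lit 0) (nat_lit 399352310) (nat_lit 84) (nat_lit 399352310) (nat_lit 17) (nat_lit 1) (nat_lit 15) (nat_lit 1) (nat_lit 16) (nat_lit 1) (nat_lit 279) (nat_lit 258) (nat_lit 183)) (XT.lf (nat_lit 0) (nat_lit 382416202) (nat_lit 0) (nat_lit 1505311588) (nat_lit 168) (nat_lit 382416202) (nat_lit 15) (nat_lit 3) (nat_lit 15) (nat_lit 1) (nat_lit 17) (nat_lit 1) (nat_lit 280) (nat_lit 258) (nat_lit 182))))) (XT.nd (nat_lit 282) (nat_lit 336) (nat_lit 0) (XT.nd (nat_lit 94) (nat_lit 168) (nat_lit 0) (XT.lf (nat_lit 84) (nat_lit 31272657) (nat_lit 0) (nat_lit 1100696835) (nat_lit 84) (nat_lit 1100696835) (nat_lit 15) (nat_lit 3) (nat_lit 14) (nat_lit 1) (nat_lit 15) (nat_lit 1) (nat_lit 281) (nat_lit 258) (nat_lit 181)) (XT.nd (nat_lit 94) (nat_lit 0) (nat_lit 0) (XT.lf (nat_lit 168) (nat_lit 1538801073) (nat_lit 0) (nat_lit 328548134) (nat_lit 84) (nat_lit 328548134)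 (nat_lit 14) (nat_lit 1) (nat_lit 12) (nat_lit 1) (nat_lit 13) (nat_lit 1) (nat_lit 282) (nat_lit 258) (nat_lit 180)) (XT.lf (nat_lit 0) (nat_lit 411948649) (nat_lit 0) (nat_lit 1335757462) (nat_lit 168) (nat_lit 411948649) (nat_lit 12) (nat_lit 3) (nat_lit 12) (nat_lit 1) (nat_lit 14) (nat_lit 1) (nat_lit 283) (nat_lit 258) (nat_lit 179)))) (XT.nd (nat_lit 188) (nat_lit 84) (nat_lit 0) (XT.nd (nat_lit 94) (nat_lit 168) (nat_lit 0) (XT.lf (nat_lit 84) (nat_lit 121492084) (nat_lit 0) (nat_lit 1001310002) (nat_lit 84) (nat_lit 1001310002) (nat_lit 12) (nat_lit 3) (nat_lit 11) (nat_lit 1) (nat_lit 12) (nat_lit 1) (nat_lit 284) (nat_lit 258) (nat_lit 178)) (XT.lf (nat_lit 168) (nat_lit 1548707236) (nat_lit 0) (nat_lit 270297363) (nat_lit 84) (nat_lit 270297363) (nat_lit 11) (nat_lit 1) (nat_lit 9) (nat_lit 1) (nat_lit 10) (nat_lit 1) (nat_lit 285) (nat_lit 258) (nat_lit 177)))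 (XT.nd (nat_lit 94) (nat_lit 84) (nat_lit 0) (XT.lf (nat_lit 0) (nat_lit 431610119) (nat_lit 0) (nat_lit 1191629916) (nat_lit 168) (nat_lit 431610119) (nat_lit 9) (nat_lit 3) (nat_lit 9) (nat_lit 1) (nat_lit 11) (nat_lit 1) (nat_lit 286) (nat_lit 258) (nat_lit 176)) (XT.lf (nat_lit 84) (nat_lit 191155640) (nat_lit 0) (nat_lit 914984018) (nat_lit 84) (nat_lit 914984018) (nat_lit 9) (nat_lit 3) (nat_lit 8) (nat_lit 1) (nat_lit 9) (nat_lit 1) (nat_lit 287) (nat_lit 258) (nat_lit 175))))))))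
noncomputable def ec63 : XT := (XT.nd (nat_lit 2538) (nat_lit 0) (nat_lit 0) (XT.nd (nat_lit 1222) (nat_lit 0) (nat_lit 0) (XT.nd (nat_lit 564) (nat_lit 168) (nat_lit 0) (XT.nd (nat_lit 282) (nat_lit 252) (nat_lit 0) (XT.nd (nat_lit 94) (nat_lit 84) (nat_lit 0) (XT.lf (nat_lit 168) (nat_lit 1543393643) (nat_lit 0) (nat_lit 222374309) (nat_lit 84) (nat_lit 222374309) (nat_lit 8) (nat_lit 1) (nat_lit 6) (nat_lit 1) (nat_lit 7) (nat_lit 1) (nat_lit 288) (nat_lit 258) (nat_lit 174)) (XT.nd (nat_lit 94) (nat_lit 84) (nat_lit 0) (XT.lf (nat_lit 0) (nat_lit 443371423) (nat_lit 0) (nat_lit 1068641591) (nat_lit 168) (nat_lit 443371423) (nat_lit 6) (nat_lit 3) (nat_lit 6) (nat_lit 1) (nat_lit 8) (nat_lit 1) (nat_lit 289) (nat_lit 258) (nat_lit 173)) (XT.lf (nat_lit 84) (nat_lit 244124981) (nat_lit 0) (nat_lit 839620379) (nat_lit 84) (nat_lit 839620379) (nat_lit 6) (nat_lit 3) (nat_lit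 5) (nat_lit 1) (nat_lit 6) (nat_lit 1) (nat_lit 290) (nat_lit 258) (nat_lit 172)))) (XT.nd (nat_lit 94) (nat_lit 84) (nat_lit 0) (XT.lf (nat_lit 168) (nat_lit 1526199833) (nat_lit 0) (nat_lit 182947894) (nat_lit 84) (nat_lit 182947894) (nat_lit 5) (nat_lit 1) (nat_lit 3) (nat_lit 1) (nat_lit 4) (nat_lit 1) (nat_lit 291) (nat_lit 258) (nat_lit 171)) (XT.nd (nat_lit 94) (nat_lit 84) (nat_lit 0) (XT.lf (nat_lit 0) (nat_lit 448843444) (nat_lit 0) (nat_lit 963254758) (nat_lit 168) (nat_lit 448843444) (nat_lit 3) (nat_lit 3) (nat_lit 3) (nat_lit 1) (nat_lit 5) (nat_lit 1) (nat_lit 292) (nat_lit 258) (nat_lit 170)) (XT.lf (nat_lit 84) (nat_lit 283566763) (nat_lit 0) (nat_lit 773482301) (nat_lit 84) (nat_lit 773482301) (nat_lit 3) (nat_lit 3) (nat_lit 2) (nat_lit 1) (nat_lit 3) (nat_lit 1) (nat_lit 293) (nat_lit 258) (nat_lit 169))))) (XT.nd (nat_lit 282) (nat_lit 0) (nat_lit 0)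 (XT.nd (nat_lit 94) (nat_lit 0) (nat_lit 0) (XT.lf (nat_lit 0) (nat_lit 2616096595) (nat_lit 0) (nat_lit 0) (nat_lit 0) (nat_lit 0) (nat_lit 0) (nat_lit 0) (nat_lit 1) (nat_lit 0) (nat_lit 1) (nat_lit 0) (nat_lit 294) (nat_lit 258) (nat_lit 168)) (XT.nd (nat_lit 94) (nat_lit 0) (nat_lit 0) (XT.lf (nat_lit 0) (nat_lit 2614572363) (nat_lit 0) (nat_lit 0) (nat_lit 0) (nat_lit 0) (nat_lit 0) (nat_lit 0) (nat_lit 1) (nat_lit 0) (nat_lit 1) (nat_lit 0) (nat_lit 295) (nat_lit 258) (nat_lit 167)) (XT.lf (nat_lit 0) (nat_lit 2613120713) (nat_lit 0) (nat_lit 0) (nat_lit 0) (nat_lit 0) (nat_lit 0) (nat_lit 0) (nat_lit 1) (nat_lit 0) (nat_lit 1) (nat_lit 0) (nat_lit 296) (nat_lit 258) (nat_lit 166)))) (XT.nd (nat_lit 188) (nat_lit 0) (nat_lit 0) (XT.nd (nat_lit 94) (nat_lit 0) (nat_lit 0) (XT.lf (nat_lit 0) (nat_lit 2611738190) (nat_lit 0) (nat_lit 0) (nat_lit 0) (nat_lit 0) (nat_lit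 0) (nat_lit 0) (nat_lit 1) (nat_lit 0) (nat_lit 1) (nat_lit 0) (nat_lit 297) (nat_lit 258) (nat_lit 165)) (XT.lf (nat_lit 0) (nat_lit 2610421501) (nat_lit 0) (nat_lit 0) (nat_lit 0) (nat_lit 0) (nat_lit 0) (nat_lit 0) (nat_lit 1) (nat_lit 0) (nat_lit 1) (nat_lit 0) (nat_lit 298) (nat_lit 258) (nat_lit 164))) (XT.nd (nat_lit 94) (nat_lit 0) (nat_lit 0) (XT.lf (nat_lit 0) (nat_lit 2609167512) (nat_lit 0) (nat_lit 0) (nat_lit 0) (nat_lit 0) (nat_lit 0) (nat_lit 0) (nat_lit 1) (nat_lit 0) (nat_lit 1) (nat_lit 0) (nat_lit 299) (nat_lit 258) (nat_lit 163)) (XT.lf (nat_lit 0) (nat_lit 2607973236) (nat_lit 0) (nat_lit 0) (nat_lit 0) (nat_lit 0) (nat_lit 0) (nat_lit 0) (nat_lit 1) (nat_lit 0) (nat_lit 1) (nat_lit 0) (nat_lit 300) (nat_lit 258) (nat_lit 162)))))) (XT.nd (nat_lit 658) (nat_lit 0) (nat_lit 0) (XT.nd (nat_lit 282) (nat_lit 0) (nat_lit 0) (XT.nd (nat_lit 94) (nat_lit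 0) (nat_lit 0) (XT.lf (nat_lit 0) (nat_lit 2606835831) (nat_lit 0) (nat_lit 0) (nat_lit 0) (nat_lit 0) (nat_lit 0) (nat_lit 0) (nat_lit 1) (nat_lit 0) (nat_lit 1) (nat_lit 0) (nat_lit 301) (nat_lit 258) (nat_lit 161)) (XT.nd (nat_lit 94) (nat_lit 0) (nat_lit 0) (XT.lf (nat_lit 0) (nat_lit 2605752588) (nat_lit 0) (nat_lit 0) (nat_lit 0) (nat_lit 0) (nat_lit 0) (nat_lit 0) (nat_lit 1) (nat_lit 0) (nat_lit 1) (nat_lit 0) (nat_lit 302) (nat_lit 258) (nat_lit 160)) (XT.lf (nat_lit 0) (nat_lit 2604720928) (nat_lit 0) (nat_lit 0) (nat_lit 0) (nat_lit 0) (nat_lit 0) (nat_lit 0) (nat_lit 1) (nat_lit 0) (nat_lit 1) (nat_lit 0) (nat_lit 303) (nat_lit 258) (nat_lit 159)))) (XT.nd (nat_lit 188) (nat_lit 0) (nat_lit 0) (XT.nd (nat_lit 94) (nat_lit 0) (nat_lit 0) (XT.lf (nat_lit 0) (nat_lit 2603738394) (nat_lit 0) (nat_lit 0) (nat_lit 0) (nat_lit 0) (nat_lit 0) (nat_lit 0) (nat_lit 1)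 (nat_lit 0) (nat_lit 1) (nat_lit 0) (nat_lit 304) (nat_lit 258) (nat_lit 158)) (XT.lf (nat_lit 0) (nat_lit 2602802648) (nat_lit 0) (nat_lit 0) (nat_lit 0) (nat_lit 0) (nat_lit 0) (nat_lit 0) (nat_lit 1) (nat_lit 0) (nat_lit 1) (nat_lit 0) (nat_lit 305) (nat_lit 258) (nat_lit 157))) (XT.nd (nat_lit 94) (nat_lit 0) (nat_lit 0) (XT.lf (nat_lit 0) (nat_lit 2601911461) (nat_lit 0) (nat_lit 0) (nat_lit 0) (nat_lit 0) (nat_lit 0) (nat_lit 0) (nat_lit 1) (nat_lit 0) (nat_lit 1) (nat_lit 0) (nat_lit 306) (nat_lit 258) (nat_lit 156)) (XT.lf (nat_lit 0) (nat_lit 2601062712) (nat_lit 0) (nat_lit 0) (nat_lit 0) (nat_lit 0) (nat_lit 0) (nat_lit 0) (nat_lit 1) (nat_lit 0) (nat_lit 1) (nat_lit 0) (nat_lit 307) (nat_lit 258) (nat_lit 155))))) (XT.nd (nat_lit 282) (nat_lit 0) (nat_lit 0) (XT.nd (nat_lit 94) (nat_lit 0) (nat_lit 0) (XT.lf (nat_lit 0) (nat_lit 2600254379) (nat_lit 0) (nat_lit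 0) (nat_lit 0) (nat_lit 0) (nat_lit 0) (nat_lit 0) (nat_lit 1) (nat_lit 0) (nat_lit 1) (nat_lit 0) (nat_lit 308) (nat_lit 258) (nat_lit 154)) (XT.nd (nat_lit 94) (nat_lit 0) (nat_lit 0) (XT.lf (nat_lit 0) (nat_lit 2599484539) (nat_lit 0) (nat_lit 0) (nat_lit 0) (nat_lit 0) (nat_lit 0) (nat_lit 0) (nat_lit 1) (nat_lit 0) (nat_lit 1) (nat_lit 0) (nat_lit 309) (nat_lit 258) (nat_lit 153)) (XT.lf (nat_lit 0) (nat_lit 2598751357) (nat_lit 0) (nat_lit 0) (nat_lit 0) (nat_lit 0) (nat_lit 0) (nat_lit 0) (nat_lit 1) (nat_lit 0) (nat_lit 1) (nat_lit 0) (nat_lit 310) (nat_lit 258) (nat_lit 152)))) (XT.nd (nat_lit 188) (nat_lit 0) (nat_lit 0) (XT.nd (nat_lit 94) (nat_lit 0) (nat_lit 0) (XT.lf (nat_lit 0) (nat_lit 2598053089) (nat_lit 0) (nat_lit 0) (nat_lit 0) (nat_lit 0) (nat_lit 0) (nat_lit 0) (nat_lit 1) (nat_lit 0) (nat_lit 1) (nat_lit 0) (nat_lit 311) (nat_lit 258) (nat_lit 151))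 (XT.lf (nat_lit 0) (nat_lit 2597388072) (nat_lit 0) (nat_lit 0) (nat_lit 0) (nat_lit 0) (nat_lit 0) (nat_lit 0) (nat_lit 1) (nat_lit 0) (nat_lit 1) (nat_lit 0) (nat_lit 312) (nat_lit 258) (nat_lit 150))) (XT.nd (nat_lit 94) (nat_lit 0) (nat_lit 0) (XT.lf (nat_lit 0) (nat_lit 2596754722) (nat_lit 0) (nat_lit 0) (nat_lit 0) (nat_lit 0) (nat_lit 0) (nat_lit 0) (nat_lit 1) (nat_lit 0) (nat_lit 1) (nat_lit 0) (nat_lit 313) (nat_lit 258) (nat_lit 149)) (XT.lf (nat_lit 0) (nat_lit 2596151531) (nat_lit 0) (nat_lit 0) (nat_lit 0) (nat_lit 0) (nat_lit 0) (nat_lit 0) (nat_lit 1) (nat_lit 0) (nat_lit 1) (nat_lit 0) (nat_lit 314) (nat_lit 258) (nat_lit 148))))))) (XT.nd (nat_lit 35250) (nat_lit 0) (nat_lit 8148) (XT.nd (nat_lit 34592) (nat_lit 0) (nat_lit 10752) (XT.nd (nat_lit 282) (nat_lit 0) (nat_lit 0) (XT.nd (nat_lit 94) (nat_lit 0) (nat_lit 0) (XT.lf (nat_lit 0) (nat_lit 2595577064)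 (nat_lit 0) (nat_lit 0) (nat_lit 0) (nat_lit 0) (nat_lit 0) (nat_lit 0) (nat_lit 1) (nat_lit 0) (nat_lit 1) (nat_lit 0) (nat_lit 315) (nat_lit 258) (nat_lit 147)) (XT.nd (nat_lit 94) (nat_lit 0) (nat_lit 0) (XT.lf (nat_lit 0) (nat_lit 2595029953) (nat_lit 0) (nat_lit 0) (nat_lit 0) (nat_lit 0) (nat_lit 0) (nat_lit 0) (nat_lit 1) (nat_lit 0) (nat_lit 1) (nat_lit 0) (nat_lit 316) (nat_lit 258) (nat_lit 146)) (XT.lf (nat_lit 0) (nat_lit 2594508895) (nat_lit 0) (nat_lit 0) (nat_lit 0) (nat_lit 0) (nat_lit 0) (nat_lit 0) (nat_lit 1) (nat_lit 0) (nat_lit 1) (nat_lit 0) (nat_lit 317) (nat_lit 258) (nat_lit 145)))) (XT.nd (nat_lit 188) (nat_lit 0) (nat_lit 0) (XT.nd (nat_lit 94) (nat_lit 0) (nat_lit 0) (XT.lf (nat_lit 0) (nat_lit 2594012648) (nat_lit 0) (nat_lit 0) (nat_lit 0) (nat_lit 0) (nat_lit 0) (nat_lit 0) (nat_lit 1) (nat_lit 0) (nat_lit 1) (nat_lit 0) (nat_lit 318) (nat_lit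 258) (nat_lit 144)) (XT.lf (nat_lit 0) (nat_lit 2593540033) (nat_lit 0) (nat_lit 0) (nat_lit 0) (nat_lit 0) (nat_lit 0) (nat_lit 0) (nat_lit 1) (nat_lit 0) (nat_lit 1) (nat_lit 0) (nat_lit 319) (nat_lit 258) (nat_lit 143))) (XT.nd (nat_lit 94) (nat_lit 0) (nat_lit 0) (XT.lf (nat_lit 0) (nat_lit 2593089923) (nat_lit 0) (nat_lit 0) (nat_lit 0) (nat_lit 0) (nat_lit 0) (nat_lit 0) (nat_lit 1) (nat_lit 0) (nat_lit 1) (nat_lit 0) (nat_lit 320) (nat_lit 258) (nat_lit 142)) (XT.lf (nat_lit 0) (nat_lit 2592661247) (nat_lit 0) (nat_lit 0) (nat_lit 0) (nat_lit 0) (nat_lit 0) (nat_lit 0) (nat_lit 1) (nat_lit 0) (nat_lit 1) (nat_lit 0) (nat_lit 321) (nat_lit 258) (nat_lit 141))))) (XT.nd (nat_lit 282) (nat_lit 0) (nat_lit 84) (XT.nd (nat_lit 94) (nat_lit 0) (nat_lit 0) (XT.lf (nat_lit 924) (nat_lit 1357833006) (nat_lit 0) (nat_lit 2410829381) (nat_lit 924) (nat_lit 1357833006) (nat_lit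 139) (nat_lit 1) (nat_lit 128) (nat_lit 0) (nat_lit 139) (nat_lit 0) (nat_lit 202) (nat_lit 259) (nat_lit 259)) (XT.nd (nat_lit 94) (nat_lit 0) (nat_lit 84) (XT.lf (nat_lit 924) (nat_lit 5263130250) (nat_lit 84) (nat_lit 2371945036) (nat_lit 0) (nat_lit 2371945036) (nat_lit 139) (nat_lit 1) (nat_lit 129) (nat_lit 1) (nat_lit 128) (nat_lit 0) (nat_lit 203) (nat_lit 259) (nat_lit 258)) (XT.lf (nat_lit 924) (nat_lit 2508328630) (nat_lit 0) (nat_lit 4751996867) (nat_lit 840) (nat_lit 2508328630) (nat_lit 140) (nat_lit 1) (nat_lit 129) (nat_lit 1) (nat_lit 139) (nat_lit 1) (nat_lit 204) (nat_lit 259) (nat_lit 257)))) (XT.nd (nat_lit 188) (nat_lit 0) (nat_lit 84) (XT.nd (nat_lit 94) (nat_lit 0) (nat_lit 84) (XT.lf (nat_lit 924) (nat_lit 4705275970) (nat_lit 84) (nat_lit 2416356483) (nat_lit 0) (nat_lit 2416356483) (nat_lit 140) (nat_lit 1) (nat_lit 130) (nat_lit 1) (nat_lit 129)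 (nat_lit 1) (nat_lit 205) (nat_lit 259) (nat_lit 256)) (XT.lf (nat_lit 924) (nat_lit 2165793343) (nat_lit 0) (nat_lit 4983047988) (nat_lit 840) (nat_lit 2165793343) (nat_lit 141) (nat_lit 1) (nat_lit 130) (nat_lit 1) (nat_lit 140) (nat_lit 1) (nat_lit 206) (nat_lit 259) (nat_lit 255))) (XT.nd (nat_lit 94) (nat_lit 0) (nat_lit 84) (XT.lf (nat_lit 924) (nat_lit 3895320391) (nat_lit 84) (nat_lit 2601384357) (nat_lit 0) (nat_lit 2601384357) (nat_lit 141) (nat_lit 1) (nat_lit 131) (nat_lit 1) (nat_lit 130) (nat_lit 1) (nat_lit 207) (nat_lit 259) (nat_lit 254)) (XT.lf (nat_lit 924) (nat_lit 1707985484) (nat_lit 0) (nat_lit 5472843416) (nat_lit 840) (nat_lit 1707985484) (nat_lit 142) (nat_lit 1) (nat_lit 131) (nat_lit 1) (nat_lit 141) (nat_lit 1) (nat_lit 208) (nat_lit 259) (nat_lit 253)))))) (XT.nd (nat_lit 658) (nat_lit 1596) (nat_lit 0) (XT.nd (nat_lit 282) (nat_lit 1260) (nat_lit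 0) (XT.nd (nat_lit 94) (nat_lit 0) (nat_lit 84) (XT.lf (nat_lit 924) (nat_lit 2871176041) (nat_lit 84) (nat_lit 2907062837) (nat_lit 0) (nat_lit 2907062837) (nat_lit 142) (nat_lit 1) (nat_lit 132) (nat_lit 1) (nat_lit 131) (nat_lit 1) (nat_lit 209) (nat_lit 259) (nat_lit 252)) (XT.nd (nat_lit 94) (nat_lit 0) (nat_lit 0) (XT.lf (nat_lit 924) (nat_lit 1152627635) (nat_lit 0) (nat_lit 6183983500) (nat_lit 840) (nat_lit 1152627635) (nat_lit 143) (nat_lit 1) (nat_lit 132) (nat_lit 1) (nat_lit 142) (nat_lit 1) (nat_lit 210) (nat_lit 259) (nat_lit 251)) (XT.lf (nat_lit 924) (nat_lit 1666541438) (nat_lit 84) (nat_lit 3315610557) (nat_lit 0) (nat_lit 3315610557) (nat_lit 143) (nat_lit 1) (nat_lit 133) (nat_lit 1) (nat_lit 132) (nat_lit 1) (nat_lit 211) (nat_lit 259) (nat_lit 250)))) (XT.nd (nat_lit 188) (nat_lit 588) (nat_lit 0) (XT.nd (nat_lit 94) (nat_lit 840) (nat_lit 0) (XT.lf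 (nat_lit 84) (nat_lit 515461099) (nat_lit 0) (nat_lit 7083181082) (nat_lit 840) (nat_lit 515461099) (nat_lit 134) (nat_lit 1) (nat_lit 133) (nat_lit 1) (nat_lit 143) (nat_lit 1) (nat_lit 212) (nat_lit 259) (nat_lit 249)) (XT.lf (nat_lit 924) (nat_lit 311325685) (nat_lit 0) (nat_lit 3811211885) (nat_lit 840) (nat_lit 3811211885) (nat_lit 134) (nat_lit 1) (nat_lit 123) (nat_lit 1) (nat_lit 133) (nat_lit 1) (nat_lit 213) (nat_lit 259) (nat_lit 248))) (XT.nd (nat_lit 94) (nat_lit 0) (nat_lit 0) (XT.lf (nat_lit 588) (nat_lit 7388150590) (nat_lit 0) (nat_lit 186496690) (nat_lit 504) (nat_lit 186496690) (nat_lit 123) (nat_lit 1) (nat_lit 116) (nat_lit 1) (nat_lit 122) (nat_lit 1) (nat_lit 214) (nat_lit 259) (nat_lit 247)) (XT.lf (nat_lit 84) (nat_lit 3230086579) (nat_lit 0) (nat_lit 1130585688) (nat_lit 588) (nat_lit 3230086579) (nat_lit 117) (nat_lit 1) (nat_lit 116) (nat_lit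 1) (nat_lit 123) (nat_lit 1) (nat_lit 215) (nat_lit 259) (nat_lit 246))))) (XT.nd (nat_lit 282) (nat_lit 756) (nat_lit 0) (XT.nd (nat_lit 94) (nat_lit 420) (nat_lit 0) (XT.lf (nat_lit 504) (nat_lit 5558149876) (nat_lit 0) (nat_lit 934734539) (nat_lit 420) (nat_lit 934734539) (nat_lit 117) (nat_lit 1) (nat_lit 111) (nat_lit 1) (nat_lit 116) (nat_lit 1) (nat_lit 216) (nat_lit 259) (nat_lit 245)) (XT.nd (nat_lit 94) (nat_lit 420) (nat_lit 0) (XT.lf (nat_lit 84) (nat_lit 2303981435) (nat_lit 0) (nat_lit 2659945843) (nat_lit 504) (nat_lit 2303981435) (nat_lit 112) (nat_lit 1) (nat_lit 111) (nat_lit 1) (nat_lit 117) (nat_lit 1) (nat_lit 217) (nat_lit 259) (nat_lit 244)) (XT.lf (nat_lit 504) (nat_lit 3660120515) (nat_lit 0) (nat_lit 1726820120) (nat_lit 420) (nat_lit 1726820120) (nat_lit 112) (nat_lit 1) (nat_lit 106) (nat_lit 1) (nat_lit 111) (nat_lit 1) (nat_lit 218) (nat_lit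 259) (nat_lit 243)))) (XT.nd (nat_lit 188) (nat_lit 420) (nat_lit 0) (XT.nd (nat_lit 94) (nat_lit 336) (nat_lit 0) (XT.lf (nat_lit 84) (nat_lit 1348705766) (nat_lit 0) (nat_lit 4266684404) (nat_lit 504) (nat_lit 1348705766) (nat_lit 107) (nat_lit 1) (nat_lit 106) (nat_lit 1) (nat_lit 112) (nat_lit 1) (nat_lit 219) (nat_lit 259) (nat_lit 242)) (XT.lf (nat_lit 420) (nat_lit 1711728346) (nat_lit 0) (nat_lit 2553276323) (nat_lit 336) (nat_lit 2553276323) (nat_lit 107) (nat_lit 1) (nat_lit 102) (nat_lit 1) (nat_lit 106) (nat_lit 1) (nat_lit 220) (nat_lit 259) (nat_lit 241))) (XT.nd (nat_lit 94) (nat_lit 420) (nat_lit 0) (XT.lf (nat_lit 84) (nat_lit 372460666) (nat_lit 0) (nat_lit 5933152039) (nat_lit 420) (nat_lit 372460666) (nat_lit 103) (nat_lit 1) (nat_lit 102) (nat_lit 1) (nat_lit 107) (nat_lit 1) (nat_lit 221) (nat_lit 259) (nat_lit 240)) (XT.lf (nat_lit 84) (nat_lit 3138460601)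 (nat_lit 0) (nat_lit 262852171) (nat_lit 420) (nat_lit 3138460601) (nat_lit 98) (nat_lit 1) (nat_lit 97) (nat_lit 1) (nat_lit 102) (nat_lit 1) (nat_lit 222) (nat_lit 259) (nat_lit 239))))))))
noncomputable def ec64 : XT := (XT.nd (nat_lit 2538) (nat_lit 2688) (nat_lit 0) (XT.nd (nat_lit 1222) (nat_lit 1680) (nat_lit 0) (XT.nd (nat_lit 564) (nat_lit 1092) (nat_lit 0) (XT.nd (nat_lit 282) (nat_lit 672) (nat_lit 0) (XT.nd (nat_lit 94) (nat_lit 336) (nat_lit 0) (XT.lf (nat_lit 420) (nat_lit 5191508776) (nat_lit 0) (nat_lit 607615702) (nat_lit 336) (nat_lit 607615702) (nat_lit 98) (nat_lit 1) (nat_lit 93) (nat_lit 1) (nat_lit 97) (nat_lit 1) (nat_lit 223) (nat_lit 259) (nat_lit 238)) (XT.nd (nat_lit 94) (nat_lit 336) (nat_lit 0) (XT.lf (nat_lit 84) (nat_lit 2036337976) (nat_lit 0) (nat_lit 2203313249) (nat_lit 420) (nat_lit 2036337976) (nat_lit 94) (nat_lit 1) (nat_lit 93) (nat_lit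 1) (nat_lit 98) (nat_lit 1) (nat_lit 224) (nat_lit 259) (nat_lit 237)) (XT.lf (nat_lit 420) (nat_lit 2971583572) (nat_lit 0) (nat_lit 1589094316) (nat_lit 336) (nat_lit 1589094316) (nat_lit 94) (nat_lit 1) (nat_lit 89) (nat_lit 1) (nat_lit 93) (nat_lit 1) (nat_lit 225) (nat_lit 259) (nat_lit 236)))) (XT.nd (nat_lit 94) (nat_lit 672) (nat_lit 0) (XT.lf (nat_lit 84) (nat_lit 937104839) (nat_lit 0) (nat_lit 4153036127) (nat_lit 420) (nat_lit 937104839) (nat_lit 90) (nat_lit 1) (nat_lit 89) (nat_lit 1) (nat_lit 94) (nat_lit 1) (nat_lit 226) (nat_lit 259) (nat_lit 235)) (XT.nd (nat_lit 94) (nat_lit 420) (nat_lit 0) (XT.lf (nat_lit 336) (nat_lit 762107230) (nat_lit 0) (nat_lit 2572628515) (nat_lit 252) (nat_lit 2572628515) (nat_lit 90) (nat_lit 1) (nat_lit 86) (nat_lit 1) (nat_lit 89) (nat_lit 1) (nat_lit 227) (nat_lit 259) (nat_lit 234)) (XT.lf (nat_lit 420) (nat_lit 5487569995)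 (nat_lit 0) (nat_lit 152269537) (nat_lit 336) (nat_lit 152269537) (nat_lit 86) (nat_lit 1) (nat_lit 81) (nat_lit 1) (nat_lit 85) (nat_lit 1) (nat_lit 228) (nat_lit 259) (nat_lit 233))))) (XT.nd (nat_lit 282) (nat_lit 840) (nat_lit 0) (XT.nd (nat_lit 94) (nat_lit 252) (nat_lit 0) (XT.lf (nat_lit 84) (nat_lit 2147326708) (nat_lit 0) (nat_lit 1382838389) (nat_lit 420) (nat_lit 2147326708) (nat_lit 82) (nat_lit 1) (nat_lit 81) (nat_lit 1) (nat_lit 86) (nat_lit 1) (nat_lit 229) (nat_lit 259) (nat_lit 232)) (XT.nd (nat_lit 94) (nat_lit 0) (nat_lit 0) (XT.lf (nat_lit 336) (nat_lit 3136238543) (nat_lit 0) (nat_lit 1215515936) (nat_lit 252) (nat_lit 1215515936) (nat_lit 82) (nat_lit 1) (nat_lit 78) (nat_lit 1) (nat_lit 81) (nat_lit 1) (nat_lit 230) (nat_lit 259) (nat_lit 231)) (XT.lf (nat_lit 84) (nat_lit 990786268) (nat_lit 0) (nat_lit 3478276855) (nat_lit 336) (nat_lit 990786268)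 (nat_lit 79) (nat_lit 1) (nat_lit 78) (nat_lit 1) (nat_lit 82) (nat_lit 1) (nat_lit 231) (nat_lit 259) (nat_lit 230)))) (XT.nd (nat_lit 188) (nat_lit 252) (nat_lit 0) (XT.nd (nat_lit 94) (nat_lit 336) (nat_lit 0) (XT.lf (nat_lit 336) (nat_lit 825789386) (nat_lit 0) (nat_lit 2264541390) (nat_lit 252) (nat_lit 2264541390) (nat_lit 79) (nat_lit 1) (nat_lit 75) (nat_lit 1) (nat_lit 78) (nat_lit 1) (nat_lit 232) (nat_lit 259) (nat_lit 229)) (XT.lf (nat_lit 336) (nat_lit 4969954106) (nat_lit 0) (nat_lit 141920436) (nat_lit 252) (nat_lit 141920436) (nat_lit 75) (nat_lit 1) (nat_lit 71) (nat_lit 1) (nat_lit 74) (nat_lit 1) (nat_lit 233) (nat_lit 259) (nat_lit 228))) (XT.nd (nat_lit 94) (nat_lit 252) (nat_lit 0) (XT.lf (nat_lit 84) (nat_lit 1879991307) (nat_lit 0) (nat_lit 1393054681) (nat_lit 336) (nat_lit 1879991307) (nat_lit 72) (nat_lit 1) (nat_lit 71) (nat_lit 1) (nat_lit 75)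 (nat_lit 1) (nat_lit 234) (nat_lit 259) (nat_lit 227)) (XT.lf (nat_lit 336) (nat_lit 2585160191) (nat_lit 0) (nat_lit 1235423737) (nat_lit 252) (nat_lit 1235423737) (nat_lit 72) (nat_lit 1) (nat_lit 68) (nat_lit 1) (nat_lit 71) (nat_lit 1) (nat_lit 235) (nat_lit 259) (nat_lit 226)))))) (XT.nd (nat_lit 658) (nat_lit 756) (nat_lit 0) (XT.nd (nat_lit 282) (nat_lit 420) (nat_lit 0) (XT.nd (nat_lit 94) (nat_lit 504) (nat_lit 0) (XT.lf (nat_lit 84) (nat_lit 711951008) (nat_lit 0) (nat_lit 3537678397) (nat_lit 336) (nat_lit 711951008) (nat_lit 69) (nat_lit 1) (nat_lit 68) (nat_lit 1) (nat_lit 72) (nat_lit 1) (nat_lit 236) (nat_lit 259) (nat_lit 225)) (XT.nd (nat_lit 94) (nat_lit 336) (nat_lit 0) (XT.lf (nat_lit 252) (nat_lit 260882521) (nat_lit 0) (nat_lit 2304025032) (nat_lit 168) (nat_lit 2304025032) (nat_lit 69) (nat_lit 1) (nat_lit 66) (nat_lit 1) (nat_lit 68) (nat_lit 1) (nat_lit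 237) (nat_lit 259) (nat_lit 224)) (XT.lf (nat_lit 336) (nat_lit 3941847419) (nat_lit 0) (nat_lit 418652767) (nat_lit 252) (nat_lit 418652767) (nat_lit 66) (nat_lit 1) (nat_lit 62) (nat_lit 1) (nat_lit 65) (nat_lit 1) (nat_lit 238) (nat_lit 259) (nat_lit 223)))) (XT.nd (nat_lit 188) (nat_lit 252) (nat_lit 0) (XT.nd (nat_lit 94) (nat_lit 168) (nat_lit 0) (XT.lf (nat_lit 84) (nat_lit 1376793735) (nat_lit 0) (nat_lit 1936789951) (nat_lit 336) (nat_lit 1376793735) (nat_lit 63) (nat_lit 1) (nat_lit 62) (nat_lit 1) (nat_lit 66) (nat_lit 1) (nat_lit 239) (nat_lit 259) (nat_lit 222)) (XT.lf (nat_lit 252) (nat_lit 1590672781) (nat_lit 0) (nat_lit 1506834482) (nat_lit 168) (nat_lit 1506834482) (nat_lit 63) (nat_lit 1) (nat_lit 60) (nat_lit 1) (nat_lit 62) (nat_lit 1) (nat_lit 240) (nat_lit 259) (nat_lit 221))) (XT.nd (nat_lit 94) (nat_lit 252) (nat_lit 0) (XT.lf (nat_lit 84) (nat_lit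 228529189) (nat_lit 0) (nat_lit 4064102883) (nat_lit 252) (nat_lit 228529189) (nat_lit 61) (nat_lit 1) (nat_lit 60) (nat_lit 1) (nat_lit 63) (nat_lit 1) (nat_lit 241) (nat_lit 259) (nat_lit 220)) (XT.lf (nat_lit 84) (nat_lit 1886091498) (nat_lit 0) (nat_lit 666100151) (nat_lit 252) (nat_lit 1886091498) (nat_lit 58) (nat_lit 1) (nat_lit 57) (nat_lit 1) (nat_lit 60) (nat_lit 1) (nat_lit 242) (nat_lit 259) (nat_lit 219))))) (XT.nd (nat_lit 282) (nat_lit 420) (nat_lit 0) (XT.nd (nat_lit 94) (nat_lit 168) (nat_lit 0) (XT.lf (nat_lit 252) (nat_lit 2619168611) (nat_lit 0) (nat_lit 869493015) (nat_lit 168) (nat_lit 869493015) (nat_lit 58) (nat_lit 1) (nat_lit 55) (nat_lit 1) (nat_lit 57) (nat_lit 1) (nat_lit 243) (nat_lit 259) (nat_lit 218)) (XT.nd (nat_lit 94) (nat_lit 168) (nat_lit 0) (XT.lf (nat_lit 84) (nat_lit 739061241) (nat_lit 0) (nat_lit 2801674667) (nat_lit 252) (nat_lit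 739061241) (nat_lit 56) (nat_lit 1) (nat_lit 55) (nat_lit 1) (nat_lit 58) (nat_lit 1) (nat_lit 244) (nat_lit 259) (nat_lit 217)) (XT.lf (nat_lit 252) (nat_lit 346223582) (nat_lit 0) (nat_lit 1928397780) (nat_lit 168) (nat_lit 1928397780) (nat_lit 56) (nat_lit 1) (nat_lit 53) (nat_lit 1) (nat_lit 55) (nat_lit 1) (nat_lit 245) (nat_lit 259) (nat_lit 216)))) (XT.nd (nat_lit 188) (nat_lit 168) (nat_lit 0) (XT.nd (nat_lit 94) (nat_lit 0) (nat_lit 0) (XT.lf (nat_lit 252) (nat_lit 3402909048) (nat_lit 0) (nat_lit 362778396) (nat_lit 168) (nat_lit 362778396) (nat_lit 53) (nat_lit 1) (nat_lit 50) (nat_lit 1) (nat_lit 52) (nat_lit 1) (nat_lit 246) (nat_lit 259) (nat_lit 215)) (XT.lf (nat_lit 84) (nat_lit 1132836761) (nat_lit 0) (nat_lit 1788875318) (nat_lit 252) (nat_lit 1132836761) (nat_lit 51) (nat_lit 1) (nat_lit 50) (nat_lit 1) (nat_lit 53) (nat_lit 1) (nat_lit 247) (nat_lit 259)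 (nat_lit 214))) (XT.nd (nat_lit 94) (nat_lit 0) (nat_lit 0) (XT.lf (nat_lit 252) (nat_lit 1153739241) (nat_lit 0) (nat_lit 1414519256) (nat_lit 168) (nat_lit 1414519256) (nat_lit 51) (nat_lit 1) (nat_lit 48) (nat_lit 1) (nat_lit 50) (nat_lit 1) (nat_lit 248) (nat_lit 259) (nat_lit 213)) (XT.lf (nat_lit 84) (nat_lit 37920226) (nat_lit 0) (nat_lit 3837683228) (nat_lit 252) (nat_lit 37920226) (nat_lit 49) (nat_lit 1) (nat_lit 48) (nat_lit 1) (nat_lit 51) (nat_lit 1) (nat_lit 249) (nat_lit 259) (nat_lit 212))))))) (XT.nd (nat_lit 1222) (nat_lit 1260) (nat_lit 0) (XT.nd (nat_lit 564) (nat_lit 756) (nat_lit 0) (XT.nd (nat_lit 282) (nat_lit 336) (nat_lit 0) (XT.nd (nat_lit 94) (nat_lit 168) (nat_lit 0) (XT.lf (nat_lit 84) (nat_lit 1431805939) (nat_lit 0) (nat_lit 980217518) (nat_lit 168) (nat_lit 1431805939) (nat_lit 47) (nat_lit 1) (nat_lit 46) (nat_lit 1) (nat_lit 48) (nat_lit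 1) (nat_lit 250) (nat_lit 259) (nat_lit 211)) (XT.nd (nat_lit 94) (nat_lit 0) (nat_lit 0) (XT.lf (nat_lit 252) (nat_lit 1776708169) (nat_lit 0) (nat_lit 999939568) (nat_lit 168) (nat_lit 999939568) (nat_lit 47) (nat_lit 1) (nat_lit 44) (nat_lit 1) (nat_lit 46) (nat_lit 1) (nat_lit 251) (nat_lit 259) (nat_lit 210)) (XT.lf (nat_lit 84) (nat_lit 356217708) (nat_lit 0) (nat_lit 2998724833) (nat_lit 252) (nat_lit 356217708) (nat_lit 45) (nat_lit 1) (nat_lit 44) (nat_lit 1) (nat_lit 47) (nat_lit 1) (nat_lit 252) (nat_lit 259) (nat_lit 209)))) (XT.nd (nat_lit 94) (nat_lit 168) (nat_lit 0) (XT.lf (nat_lit 84) (nat_lit 1653967748) (nat_lit 0) (nat_lit 338337251) (nat_lit 168) (nat_lit 1653967748) (nat_lit 43) (nat_lit 1) (nat_lit 42) (nat_lit 1) (nat_lit 44) (nat_lit 1) (nat_lit 253) (nat_lit 259) (nat_lit 208)) (XT.nd (nat_lit 94) (nat_lit 0) (nat_lit 0) (XT.lf (nat_lit 252) (nat_lit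 2249820342) (nat_lit 0) (nat_lit 666663306) (nat_lit 168) (nat_lit 666663306) (nat_lit 43) (nat_lit 1) (nat_lit 40) (nat_lit 1) (nat_lit 42) (nat_lit 1) (nat_lit 254) (nat_lit 259) (nat_lit 207)) (XT.lf (nat_lit 84) (nat_lit 602604661) (nat_lit 0) (nat_lit 2316061527) (nat_lit 252) (nat_lit 602604661) (nat_lit 41) (nat_lit 1) (nat_lit 40) (nat_lit 1) (nat_lit 43) (nat_lit 1) (nat_lit 255) (nat_lit 259) (nat_lit 206))))) (XT.nd (nat_lit 282) (nat_lit 420) (nat_lit 0) (XT.nd (nat_lit 94) (nat_lit 252) (nat_lit 0) (XT.lf (nat_lit 168) (nat_lit 172985853) (nat_lit 0) (nat_lit 1643788261) (nat_lit 84) (nat_lit 1643788261) (nat_lit 41) (nat_lit 1) (nat_lit 39) (nat_lit 1) (nat_lit 40) (nat_lit 1) (nat_lit 256) (nat_lit 259) (nat_lit 205)) (XT.nd (nat_lit 94) (nat_lit 0) (nat_lit 0) (XT.lf (nat_lit 252) (nat_lit 2601521462) (nat_lit 0) (nat_lit 399904169) (nat_lit 168) (nat_lit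 399904169) (nat_lit 39) (nat_lit 1) (nat_lit 36) (nat_lit 1) (nat_lit 38) (nat_lit 1) (nat_lit 257) (nat_lit 259) (nat_lit 204)) (XT.lf (nat_lit 84) (nat_lit 790567651) (nat_lit 0) (nat_lit 1761623059) (nat_lit 252) (nat_lit 790567651) (nat_lit 37) (nat_lit 1) (nat_lit 36) (nat_lit 1) (nat_lit 39) (nat_lit 1) (nat_lit 258) (nat_lit 259) (nat_lit 203)))) (XT.nd (nat_lit 188) (nat_lit 84) (nat_lit 0) (XT.nd (nat_lit 94) (nat_lit 252) (nat_lit 0) (XT.lf (nat_lit 168) (nat_lit 580925685) (nat_lit 0) (nat_lit 1352348670) (nat_lit 84) (nat_lit 1352348670) (nat_lit 37) (nat_lit 1) (nat_lit 35) (nat_lit 1) (nat_lit 36) (nat_lit 1) (nat_lit 259) (nat_lit 259) (nat_lit 202)) (XT.lf (nat_lit 252) (nat_lit 2855124525) (nat_lit 0) (nat_lit 187515118) (nat_lit 168) (nat_lit 187515118) (nat_lit 35) (nat_lit 1) (nat_lit 32) (nat_lit 1) (nat_lit 34) (nat_lit 1) (nat_lit 260) (nat_lit 259)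 (nat_lit 201))) (XT.nd (nat_lit 94) (nat_lit 84) (nat_lit 0) (XT.lf (nat_lit 84) (nat_lit 931167016) (nat_lit 0) (nat_lit 1312333088) (nat_lit 252) (nat_lit 931167016) (nat_lit 33) (nat_lit 1) (nat_lit 32) (nat_lit 1) (nat_lit 35) (nat_lit 1) (nat_lit 261) (nat_lit 259) (nat_lit 200)) (XT.lf (nat_lit 168) (nat_lit 895652614) (nat_lit 0) (nat_lit 1112580598) (nat_lit 84) (nat_lit 1112580598) (nat_lit 33) (nat_lit 1) (nat_lit 31) (nat_lit 1) (nat_lit 32) (nat_lit 1) (nat_lit 262) (nat_lit 259) (nat_lit 199)))))) (XT.nd (nat_lit 658) (nat_lit 672) (nat_lit 0) (XT.nd (nat_lit 282) (nat_lit 252) (nat_lit 0) (XT.nd (nat_lit 94) (nat_lit 84) (nat_lit 0) (XT.lf (nat_lit 252) (nat_lit 3029724089) (nat_lit 0) (nat_lit 19519598) (nat_lit 168) (nat_lit 19519598) (nat_lit 31) (nat_lit 1) (nat_lit 28) (nat_lit 1) (nat_lit 30) (nat_lit 1) (nat_lit 263) (nat_lit 259) (nat_lit 198)) (XT.nd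 (nat_lit 94) (nat_lit 84) (nat_lit 0) (XT.lf (nat_lit 84) (nat_lit 1033468697) (nat_lit 0) (nat_lit 949222953) (nat_lit 252) (nat_lit 1033468697) (nat_lit 29) (nat_lit 1) (nat_lit 28) (nat_lit 1) (nat_lit 31) (nat_lit 1) (nat_lit 264) (nat_lit 259) (nat_lit 197)) (XT.lf (nat_lit 168) (nat_lit 1134687637) (nat_lit 0) (nat_lit 915322811) (nat_lit 84) (nat_lit 915322811) (nat_lit 29) (nat_lit 1) (nat_lit 27) (nat_lit 1) (nat_lit 28) (nat_lit 1) (nat_lit 265) (nat_lit 259) (nat_lit 196)))) (XT.nd (nat_lit 188) (nat_lit 84) (nat_lit 0) (XT.nd (nat_lit 94) (nat_lit 168) (nat_lit 0) (XT.lf (nat_lit 0) (nat_lit 114114644) (nat_lit 0) (nat_lit 2687811439) (nat_lit 168) (nat_lit 114114644) (nat_lit 27) (nat_lit 3) (nat_lit 27) (nat_lit 1) (nat_lit 29) (nat_lit 1) (nat_lit 266) (nat_lit 259) (nat_lit 195)) (XT.lf (nat_lit 84) (nat_lit 1104899434) (nat_lit 0) (nat_lit 656702619) (nat_lit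 168) (nat_lit 1104899434) (nat_lit 26) (nat_lit 1) (nat_lit 25) (nat_lit 1) (nat_lit 27) (nat_lit 1) (nat_lit 267) (nat_lit 259) (nat_lit 194))) (XT.nd (nat_lit 94) (nat_lit 0) (nat_lit 0) (XT.lf (nat_lit 168) (nat_lit 1312397959) (nat_lit 0) (nat_lit 753038342) (nat_lit 84) (nat_lit 753038342) (nat_lit 26) (nat_lit 1) (nat_lit 24) (nat_lit 1) (nat_lit 25) (nat_lit 1) (nat_lit 268) (nat_lit 259) (nat_lit 193)) (XT.lf (nat_lit 0) (nat_lit 218107853) (nat_lit 0) (nat_lit 2335494576) (nat_lit 168) (nat_lit 218107853) (nat_lit 24) (nat_lit 3) (nat_lit 24) (nat_lit 1) (nat_lit 26) (nat_lit 1) (nat_lit 269) (nat_lit 259) (nat_lit 192))))) (XT.nd (nat_lit 282) (nat_lit 420) (nat_lit 0) (XT.nd (nat_lit 94) (nat_lit 84) (nat_lit 0) (XT.lf (nat_lit 84) (nat_lit 1151538907) (nat_lit 0) (nat_lit 421960914) (nat_lit 168) (nat_lit 1151538907) (nat_lit 23) (nat_lit 1) (nat_lit 22) (nat_lit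 1) (nat_lit 24) (nat_lit 1) (nat_lit 270) (nat_lit 259) (nat_lit 191)) (XT.nd (nat_lit 94) (nat_lit 0) (nat_lit 0) (XT.lf (nat_lit 168) (nat_lit 1440558414) (nat_lit 0) (nat_lit 619526507) (nat_lit 84) (nat_lit 619526507) (nat_lit 23) (nat_lit 1) (nat_lit 21) (nat_lit 1) (nat_lit 22) (nat_lit 1) (nat_lit 271) (nat_lit 259) (nat_lit 190)) (XT.lf (nat_lit 0) (nat_lit 297747826) (nat_lit 0) (nat_lit 2039727123) (nat_lit 168) (nat_lit 297747826) (nat_lit 21) (nat_lit 3) (nat_lit 21) (nat_lit 1) (nat_lit 23) (nat_lit 1) (nat_lit 272) (nat_lit 259) (nat_lit 189)))) (XT.nd (nat_lit 188) (nat_lit 168) (nat_lit 0) (XT.nd (nat_lit 94) (nat_lit 84) (nat_lit 0) (XT.lf (nat_lit 84) (nat_lit 1178360013) (nat_lit 0) (nat_lit 234472140) (nat_lit 168) (nat_lit 1178360013) (nat_lit 20) (nat_lit 1) (nat_lit 19) (nat_lit 1) (nat_lit 21) (nat_lit 1) (nat_lit 273) (nat_lit 259) (nat_lit 188))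 (XT.lf (nat_lit 168) (nat_lit 1528813224) (nat_lit 0) (nat_lit 509685991) (nat_lit 84) (nat_lit 509685991) (nat_lit 20) (nat_lit 1) (nat_lit 18) (nat_lit 1) (nat_lit 19) (nat_lit 1) (nat_lit 274) (nat_lit 259) (nat_lit 187))) (XT.nd (nat_lit 94) (nat_lit 168) (nat_lit 0) (XT.lf (nat_lit 0) (nat_lit 357634021) (nat_lit 0) (nat_lit 1790764700) (nat_lit 168) (nat_lit 357634021) (nat_lit 18) (nat_lit 3) (nat_lit 18) (nat_lit 1) (nat_lit 20) (nat_lit 1) (nat_lit 275) (nat_lit 259) (nat_lit 186)) (XT.lf (nat_lit 84) (nat_lit 1189426464) (nat_lit 0) (nat_lit 85590193) (nat_lit 168) (nat_lit 1189426464) (nat_lit 17) (nat_lit 1) (nat_lit 16) (nat_lit 1) (nat_lit 18) (nat_lit 1) (nat_lit 276) (nat_lit 259) (nat_lit 185))))))))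
noncomputable def ec65 : XT := (XT.nd (nat_lit 2538) (nat_lit 0) (nat_lit 0) (XT.nd (nat_lit 1222) (nat_lit 252) (nat_lit 0) (XT.nd (nat_lit 564) (nat_lit 672) (nat_lit 0) (XT.nd (nat_lit 282) (nat_lit 252) (nat_lit 0) (XT.nd (nat_lit 94) (nat_lit 84) (nat_lit 0) (XT.lf (nat_lit 168) (nat_lit 1585055806) (nat_lit 0) (nat_lit 419319926) (nat_lit 84) (nat_lit 419319926) (nat_lit 17) (nat_lit 1) (nat_lit 15) (nat_lit 1) (nat_lit 16) (nat_lit 1) (nat_lit 277) (nat_lit 259) (nat_lit 184)) (XT.nd (nat_lit 94) (nat_lit 84) (nat_lit 0) (XT.lf (nat_lit 0) (nat_lit 401537012) (nat_lit 0) (nat_lit 1580577168) (nat_lit 168) (nat_lit 401537012) (nat_lit 15) (nat_lit 3) (nat_lit 15) (nat_lit 1) (nat_lit 17) (nat_lit 1) (nat_lit 278) (nat_lit 259) (nat_lit 183)) (XT.lf (nat_lit 84) (nat_lit 32836290) (nat_lit 0) (nat_lit 1155731677) (nat_lit 84) (nat_lit 1155731677) (nat_lit 15) (nat_lit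 3) (nat_lit 14) (nat_lit 1) (nat_lit 15) (nat_lit 1) (nat_lit 279) (nat_lit 259) (nat_lit 182)))) (XT.nd (nat_lit 94) (nat_lit 84) (nat_lit 0) (XT.lf (nat_lit 168) (nat_lit 1615741127) (nat_lit 0) (nat_lit 344975541) (nat_lit 84) (nat_lit 344975541) (nat_lit 14) (nat_lit 1) (nat_lit 12) (nat_lit 1) (nat_lit 13) (nat_lit 1) (nat_lit 280) (nat_lit 259) (nat_lit 181)) (XT.nd (nat_lit 94) (nat_lit 84) (nat_lit 0) (XT.lf (nat_lit 0) (nat_lit 432546081) (nat_lit 0) (nat_lit 1402545335) (nat_lit 168) (nat_lit 432546081) (nat_lit 12) (nat_lit 3) (nat_lit 12) (nat_lit 1) (nat_lit 14) (nat_lit 1) (nat_lit 281) (nat_lit 259) (nat_lit 180)) (XT.lf (nat_lit 84) (nat_lit 127566688) (nat_lit 0) (nat_lit 1051375502) (nat_lit 84) (nat_lit 1051375502) (nat_lit 12) (nat_lit 3) (nat_lit 11) (nat_lit 1) (nat_lit 12) (nat_lit 1) (nat_lit 282) (nat_lit 259) (nat_lit 179))))) (XT.nd (nat_lit 282)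 (nat_lit 420) (nat_lit 0) (XT.nd (nat_lit 94) (nat_lit 84) (nat_lit 0) (XT.lf (nat_lit 168) (nat_lit 1626142598) (nat_lit 0) (nat_lit 283812231) (nat_lit 84) (nat_lit 283812231) (nat_lit 11) (nat_lit 1) (nat_lit 9) (nat_lit 1) (nat_lit 10) (nat_lit 1) (nat_lit 283) (nat_lit 259) (nat_lit 178)) (XT.nd (nat_lit 94) (nat_lit 84) (nat_lit 0) (XT.lf (nat_lit 0) (nat_lit 453190625) (nat_lit 0) (nat_lit 1251211411) (nat_lit 168) (nat_lit 453190625) (nat_lit 9) (nat_lit 3) (nat_lit 9) (nat_lit 1) (nat_lit 11) (nat_lit 1) (nat_lit 284) (nat_lit 259) (nat_lit 177)) (XT.lf (nat_lit 84) (nat_lit 200713422) (nat_lit 0) (nat_lit 960733219) (nat_lit 84) (nat_lit 960733219) (nat_lit 9) (nat_lit 3) (nat_lit 8) (nat_lit 1) (nat_lit 9) (nat_lit 1) (nat_lit 285) (nat_lit 259) (nat_lit 176)))) (XT.nd (nat_lit 188) (nat_lit 252) (nat_lit 0) (XT.nd (nat_lit 94) (nat_lit 0) (nat_lit 0) (XT.lf (nat_lit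 168) (nat_lit 1620563325) (nat_lit 0) (nat_lit 233493025) (nat_lit 84) (nat_lit 233493025) (nat_lit 8) (nat_lit 1) (nat_lit 6) (nat_lit 1) (nat_lit 7) (nat_lit 1) (nat_lit 286) (nat_lit 259) (nat_lit 175)) (XT.lf (nat_lit 0) (nat_lit 465539994) (nat_lit 0) (nat_lit 1122073671) (nat_lit 168) (nat_lit 465539994) (nat_lit 6) (nat_lit 3) (nat_lit 6) (nat_lit 1) (nat_lit 8) (nat_lit 1) (nat_lit 287) (nat_lit 259) (nat_lit 174))) (XT.nd (nat_lit 94) (nat_lit 168) (nat_lit 0) (XT.lf (nat_lit 84) (nat_lit 256331231) (nat_lit 0) (nat_lit 881601398) (nat_lit 84) (nat_lit 881601398) (nat_lit 6) (nat_lit 3) (nat_lit 5) (nat_lit 1) (nat_lit 6) (nat_lit 1) (nat_lit 288) (nat_lit 259) (nat_lit 173)) (XT.lf (nat_lit 168) (nat_lit 1602509825) (nat_lit 0) (nat_lit 192095289) (nat_lit 84) (nat_lit 192095289) (nat_lit 5) (nat_lit 1) (nat_lit 3) (nat_lit 1) (nat_lit 4) (nat_lit 1) (nat_lit 289)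 (nat_lit 259) (nat_lit 172)))))) (XT.nd (nat_lit 658) (nat_lit 0) (nat_lit 0) (XT.nd (nat_lit 282) (nat_lit 0) (nat_lit 0) (XT.nd (nat_lit 94) (nat_lit 252) (nat_lit 0) (XT.lf (nat_lit 0) (nat_lit 471285616) (nat_lit 0) (nat_lit 1011417496) (nat_lit 168) (nat_lit 471285616) (nat_lit 3) (nat_lit 3) (nat_lit 3) (nat_lit 1) (nat_lit 5) (nat_lit 1) (nat_lit 290) (nat_lit 259) (nat_lit 171)) (XT.nd (nat_lit 94) (nat_lit 168) (nat_lit 0) (XT.lf (nat_lit 84) (nat_lit 297745101) (nat_lit 0) (nat_lit 812156416) (nat_lit 84) (nat_lit 812156416) (nat_lit 3) (nat_lit 3) (nat_lit 2) (nat_lit 1) (nat_lit 3) (nat_lit 1) (nat_lit 291) (nat_lit 259) (nat_lit 170)) (XT.lf (nat_lit 0) (nat_lit 2746901424) (nat_lit 0) (nat_lit 0) (nat_lit 0) (nat_lit 0) (nat_lit 0) (nat_lit 0) (nat_lit 1) (nat_lit 0) (nat_lit 1) (nat_lit 0) (nat_lit 292) (nat_lit 259) (nat_lit 169)))) (XT.nd (nat_lit 188) (nat_lit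 0) (nat_lit 0) (XT.nd (nat_lit 94) (nat_lit 0) (nat_lit 0) (XT.lf (nat_lit 0) (nat_lit 2745300981) (nat_lit 0) (nat_lit 0) (nat_lit 0) (nat_lit 0) (nat_lit 0) (nat_lit 0) (nat_lit 1) (nat_lit 0) (nat_lit 1) (nat_lit 0) (nat_lit 293) (nat_lit 259) (nat_lit 168)) (XT.lf (nat_lit 0) (nat_lit 2743776749) (nat_lit 0) (nat_lit 0) (nat_lit 0) (nat_lit 0) (nat_lit 0) (nat_lit 0) (nat_lit 1) (nat_lit 0) (nat_lit 1) (nat_lit 0) (nat_lit 294) (nat_lit 259) (nat_lit 167))) (XT.nd (nat_lit 94) (nat_lit 0) (nat_lit 0) (XT.lf (nat_lit 0) (nat_lit 2742325100) (nat_lit 0) (nat_lit 0) (nat_lit 0) (nat_lit 0) (nat_lit 0) (nat_lit 0) (nat_lit 1) (nat_lit 0) (nat_lit 1) (nat_lit 0) (nat_lit 295) (nat_lit 259) (nat_lit 166)) (XT.lf (nat_lit 0) (nat_lit 2740942576) (nat_lit 0) (nat_lit 0) (nat_lit 0) (nat_lit 0) (nat_lit 0) (nat_lit 0) (nat_lit 1) (nat_lit 0) (nat_lit 1) (nat_lit 0) (nat_lit 296)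 (nat_lit 259) (nat_lit 165))))) (XT.nd (nat_lit 282) (nat_lit 0) (nat_lit 0) (XT.nd (nat_lit 94) (nat_lit 0) (nat_lit 0) (XT.lf (nat_lit 0) (nat_lit 2739625888) (nat_lit 0) (nat_lit 0) (nat_lit 0) (nat_lit 0) (nat_lit 0) (nat_lit 0) (nat_lit 1) (nat_lit 0) (nat_lit 1) (nat_lit 0) (nat_lit 297) (nat_lit 259) (nat_lit 164)) (XT.nd (nat_lit 94) (nat_lit 0) (nat_lit 0) (XT.lf (nat_lit 0) (nat_lit 2738371898) (nat_lit 0) (nat_lit 0) (nat_lit 0) (nat_lit 0) (nat_lit 0) (nat_lit 0) (nat_lit 1) (nat_lit 0) (nat_lit 1) (nat_lit 0) (nat_lit 298) (nat_lit 259) (nat_lit 163)) (XT.lf (nat_lit 0) (nat_lit 2737177623) (nat_lit 0) (nat_lit 0) (nat_lit 0) (nat_lit 0) (nat_lit 0) (nat_lit 0) (nat_lit 1) (nat_lit 0) (nat_lit 1) (nat_lit 0) (nat_lit 299) (nat_lit 259) (nat_lit 162)))) (XT.nd (nat_lit 188) (nat_lit 0) (nat_lit 0) (XT.nd (nat_lit 94) (nat_lit 0) (nat_lit 0) (XT.lf (nat_lit 0)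 (nat_lit 2736040217) (nat_lit 0) (nat_lit 0) (nat_lit 0) (nat_lit 0) (nat_lit 0) (nat_lit 0) (nat_lit 1) (nat_lit 0) (nat_lit 1) (nat_lit 0) (nat_lit 300) (nat_lit 259) (nat_lit 161)) (XT.lf (nat_lit 0) (nat_lit 2734956974) (nat_lit 0) (nat_lit 0) (nat_lit 0) (nat_lit 0) (nat_lit 0) (nat_lit 0) (nat_lit 1) (nat_lit 0) (nat_lit 1) (nat_lit 0) (nat_lit 301) (nat_lit 259) (nat_lit 160))) (XT.nd (nat_lit 94) (nat_lit 0) (nat_lit 0) (XT.lf (nat_lit 0) (nat_lit 2733925314) (nat_lit 0) (nat_lit 0) (nat_lit 0) (nat_lit 0) (nat_lit 0) (nat_lit 0) (nat_lit 1) (nat_lit 0) (nat_lit 1) (nat_lit 0) (nat_lit 302) (nat_lit 259) (nat_lit 159)) (XT.lf (nat_lit 0) (nat_lit 2732942781) (nat_lit 0) (nat_lit 0) (nat_lit 0) (nat_lit 0) (nat_lit 0) (nat_lit 0) (nat_lit 1) (nat_lit 0) (nat_lit 1) (nat_lit 0) (nat_lit 303) (nat_lit 259) (nat_lit 158))))))) (XT.nd (nat_lit 1222) (nat_lit 0) (nat_lit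 0) (XT.nd (nat_lit 564) (nat_lit 0) (nat_lit 0) (XT.nd (nat_lit 282) (nat_lit 0) (nat_lit 0) (XT.nd (nat_lit 94) (nat_lit 0) (nat_lit 0) (XT.lf (nat_lit 0) (nat_lit 2732007035) (nat_lit 0) (nat_lit 0) (nat_lit 0) (nat_lit 0) (nat_lit 0) (nat_lit 0) (nat_lit 1) (nat_lit 0) (nat_lit 1) (nat_lit 0) (nat_lit 304) (nat_lit 259) (nat_lit 157)) (XT.nd (nat_lit 94) (nat_lit 0) (nat_lit 0) (XT.lf (nat_lit 0) (nat_lit 2731115848) (nat_lit 0) (nat_lit 0) (nat_lit 0) (nat_lit 0) (nat_lit 0) (nat_lit 0) (nat_lit 1) (nat_lit 0) (nat_lit 1) (nat_lit 0) (nat_lit 305) (nat_lit 259) (nat_lit 156)) (XT.lf (nat_lit 0) (nat_lit 2730267098) (nat_lit 0) (nat_lit 0) (nat_lit 0) (nat_lit 0) (nat_lit 0) (nat_lit 0) (nat_lit 1) (nat_lit 0) (nat_lit 1) (nat_lit 0) (nat_lit 306) (nat_lit 259) (nat_lit 155)))) (XT.nd (nat_lit 94) (nat_lit 0) (nat_lit 0) (XT.lf (nat_lit 0) (nat_lit 2729458766) (nat_lit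 0) (nat_lit 0) (nat_lit 0) (nat_lit 0) (nat_lit 0) (nat_lit 0) (nat_lit 1) (nat_lit 0) (nat_lit 1) (nat_lit 0) (nat_lit 307) (nat_lit 259) (nat_lit 154)) (XT.nd (nat_lit 94) (nat_lit 0) (nat_lit 0) (XT.lf (nat_lit 0) (nat_lit 2728688925) (nat_lit 0) (nat_lit 0) (nat_lit 0) (nat_lit 0) (nat_lit 0) (nat_lit 0) (nat_lit 1) (nat_lit 0) (nat_lit 1) (nat_lit 0) (nat_lit 308) (nat_lit 259) (nat_lit 153)) (XT.lf (nat_lit 0) (nat_lit 2727955743) (nat_lit 0) (nat_lit 0) (nat_lit 0) (nat_lit 0) (nat_lit 0) (nat_lit 0) (nat_lit 1) (nat_lit 0) (nat_lit 1) (nat_lit 0) (nat_lit 309) (nat_lit 259) (nat_lit 152))))) (XT.nd (nat_lit 282) (nat_lit 0) (nat_lit 0) (XT.nd (nat_lit 94) (nat_lit 0) (nat_lit 0) (XT.lf (nat_lit 0) (nat_lit 2727257475) (nat_lit 0) (nat_lit 0) (nat_lit 0) (nat_lit 0) (nat_lit 0) (nat_lit 0) (nat_lit 1) (nat_lit 0) (nat_lit 1) (nat_lit 0) (nat_lit 310) (nat_lit 259)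 (nat_lit 151)) (XT.nd (nat_lit 94) (nat_lit 0) (nat_lit 0) (XT.lf (nat_lit 0) (nat_lit 2726592458) (nat_lit 0) (nat_lit 0) (nat_lit 0) (nat_lit 0) (nat_lit 0) (nat_lit 0) (nat_lit 1) (nat_lit 0) (nat_lit 1) (nat_lit 0) (nat_lit 311) (nat_lit 259) (nat_lit 150)) (XT.lf (nat_lit 0) (nat_lit 2725959108) (nat_lit 0) (nat_lit 0) (nat_lit 0) (nat_lit 0) (nat_lit 0) (nat_lit 0) (nat_lit 1) (nat_lit 0) (nat_lit 1) (nat_lit 0) (nat_lit 312) (nat_lit 259) (nat_lit 149)))) (XT.nd (nat_lit 188) (nat_lit 0) (nat_lit 0) (XT.nd (nat_lit 94) (nat_lit 0) (nat_lit 0) (XT.lf (nat_lit 0) (nat_lit 2725355918) (nat_lit 0) (nat_lit 0) (nat_lit 0) (nat_lit 0) (nat_lit 0) (nat_lit 0) (nat_lit 1) (nat_lit 0) (nat_lit 1) (nat_lit 0) (nat_lit 313) (nat_lit 259) (nat_lit 148)) (XT.lf (nat_lit 0) (nat_lit 2724781451) (nat_lit 0) (nat_lit 0) (nat_lit 0) (nat_lit 0) (nat_lit 0) (nat_lit 0) (nat_lit 1)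 (nat_lit 0) (nat_lit 1) (nat_lit 0) (nat_lit 314) (nat_lit 259) (nat_lit 147))) (XT.nd (nat_lit 94) (nat_lit 0) (nat_lit 0) (XT.lf (nat_lit 0) (nat_lit 2724234339) (nat_lit 0) (nat_lit 0) (nat_lit 0) (nat_lit 0) (nat_lit 0) (nat_lit 0) (nat_lit 1) (nat_lit 0) (nat_lit 1) (nat_lit 0) (nat_lit 315) (nat_lit 259) (nat_lit 146)) (XT.lf (nat_lit 0) (nat_lit 2723713281) (nat_lit 0) (nat_lit 0) (nat_lit 0) (nat_lit 0) (nat_lit 0) (nat_lit 0) (nat_lit 1) (nat_lit 0) (nat_lit 1) (nat_lit 0) (nat_lit 316) (nat_lit 259) (nat_lit 145)))))) (XT.nd (nat_lit 34404) (nat_lit 0) (nat_lit 10836) (XT.nd (nat_lit 282) (nat_lit 0) (nat_lit 0) (XT.nd (nat_lit 94) (nat_lit 0) (nat_lit 0) (XT.lf (nat_lit 0) (nat_lit 2723217035) (nat_lit 0) (nat_lit 0) (nat_lit 0) (nat_lit 0) (nat_lit 0) (nat_lit 0) (nat_lit 1) (nat_lit 0) (nat_lit 1) (nat_lit 0) (nat_lit 317) (nat_lit 259) (nat_lit 144)) (XT.nd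 (nat_lit 94) (nat_lit 0) (nat_lit 0) (XT.lf (nat_lit 0) (nat_lit 2722744419) (nat_lit 0) (nat_lit 0) (nat_lit 0) (nat_lit 0) (nat_lit 0) (nat_lit 0) (nat_lit 1) (nat_lit 0) (nat_lit 1) (nat_lit 0) (nat_lit 318) (nat_lit 259) (nat_lit 143)) (XT.lf (nat_lit 0) (nat_lit 2722294309) (nat_lit 0) (nat_lit 0) (nat_lit 0) (nat_lit 0) (nat_lit 0) (nat_lit 0) (nat_lit 1) (nat_lit 0) (nat_lit 1) (nat_lit 0) (nat_lit 319) (nat_lit 259) (nat_lit 142)))) (XT.nd (nat_lit 33934) (nat_lit 0) (nat_lit 10752) (XT.nd (nat_lit 94) (nat_lit 0) (nat_lit 0) (XT.lf (nat_lit 0) (nat_lit 2721865633) (nat_lit 0) (nat_lit 0) (nat_lit 0) (nat_lit 0) (nat_lit 0) (nat_lit 0) (nat_lit 1) (nat_lit 0) (nat_lit 1) (nat_lit 0) (nat_lit 320) (nat_lit 259) (nat_lit 141)) (XT.lf (nat_lit 0) (nat_lit 2721457370) (nat_lit 0) (nat_lit 0) (nat_lit 0) (nat_lit 0) (nat_lit 0) (nat_lit 0) (nat_lit 1) (nat_lit 0) (nat_lit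 1) (nat_lit 0) (nat_lit 321) (nat_lit 259) (nat_lit 140))) (XT.nd (nat_lit 94) (nat_lit 0) (nat_lit 0) (XT.lf (nat_lit 924) (nat_lit 1425724656) (nat_lit 0) (nat_lit 2531370850) (nat_lit 924) (nat_lit 1425724656) (nat_lit 139) (nat_lit 1) (nat_lit 128) (nat_lit 0) (nat_lit 139) (nat_lit 0) (nat_lit 200) (nat_lit 260) (nat_lit 260)) (XT.lf (nat_lit 924) (nat_lit 5526286763) (nat_lit 84) (nat_lit 2490542288) (nat_lit 0) (nat_lit 2490542288) (nat_lit 139) (nat_lit 1) (nat_lit 129) (nat_lit 1) (nat_lit 128) (nat_lit 0) (nat_lit 201) (nat_lit 260) (nat_lit 259))))) (XT.nd (nat_lit 282) (nat_lit 0) (nat_lit 84) (XT.nd (nat_lit 94) (nat_lit 0) (nat_lit 0) (XT.lf (nat_lit 924) (nat_lit 2633745062) (nat_lit 0) (nat_lit 4989596710) (nat_lit 840) (nat_lit 2633745062) (nat_lit 140) (nat_lit 1) (nat_lit 129) (nat_lit 1) (nat_lit 139) (nat_lit 1) (nat_lit 202) (nat_lit 260) (nat_lit 258))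 (XT.nd (nat_lit 94) (nat_lit 0) (nat_lit 84) (XT.lf (nat_lit 924) (nat_lit 4940539768) (nat_lit 84) (nat_lit 2537174307) (nat_lit 0) (nat_lit 2537174307) (nat_lit 140) (nat_lit 1) (nat_lit 130) (nat_lit 1) (nat_lit 129) (nat_lit 1) (nat_lit 203) (nat_lit 260) (nat_lit 257)) (XT.lf (nat_lit 924) (nat_lit 2274083011) (nat_lit 0) (nat_lit 5232200387) (nat_lit 840) (nat_lit 2274083011) (nat_lit 141) (nat_lit 1) (nat_lit 130) (nat_lit 1) (nat_lit 140) (nat_lit 1) (nat_lit 204) (nat_lit 260) (nat_lit 256)))) (XT.nd (nat_lit 188) (nat_lit 0) (nat_lit 84) (XT.nd (nat_lit 94) (nat_lit 0) (nat_lit 84) (XT.lf (nat_lit 924) (nat_lit 4090086410) (nat_lit 84) (nat_lit 2731453575) (nat_lit 0) (nat_lit 2731453575) (nat_lit 141) (nat_lit 1) (nat_lit 131) (nat_lit 1) (nat_lit 130) (nat_lit 1) (nat_lit 205) (nat_lit 260) (nat_lit 255)) (XT.lf (nat_lit 924) (nat_lit 1793384758) (nat_lit 0)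 (nat_lit 5746485587) (nat_lit 840) (nat_lit 1793384758) (nat_lit 142) (nat_lit 1) (nat_lit 131) (nat_lit 1) (nat_lit 141) (nat_lit 1) (nat_lit 206) (nat_lit 260) (nat_lit 254))) (XT.nd (nat_lit 94) (nat_lit 0) (nat_lit 84) (XT.lf (nat_lit 924) (nat_lit 3014734843) (nat_lit 84) (nat_lit 3052415979) (nat_lit 0) (nat_lit 3052415979) (nat_lit 142) (nat_lit 1) (nat_lit 132) (nat_lit 1) (nat_lit 131) (nat_lit 1) (nat_lit 207) (nat_lit 260) (nat_lit 253)) (XT.lf (nat_lit 924) (nat_lit 1210259017) (nat_lit 0) (nat_lit 6493182675) (nat_lit 840) (nat_lit 1210259017) (nat_lit 143) (nat_lit 1) (nat_lit 132) (nat_lit 1) (nat_lit 142) (nat_lit 1) (nat_lit 208) (nat_lit 260) (nat_lit 252))))))))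
noncomputable def ec66 : XT := (XT.nd (nat_lit 2538) (nat_lit 3192) (nat_lit 0) (XT.nd (nat_lit 1222) (nat_lit 2268) (nat_lit 0) (XT.nd (nat_lit 564) (nat_lit 1512) (nat_lit 0) (XT.nd (nat_lit 282) (nat_lit 1008) (nat_lit 0) (XT.nd (nat_lit 94) (nat_lit 756) (nat_lit 0) (XT.lf (nat_lit 924) (nat_lit 1749868509) (nat_lit 84) (nat_lit 3481391085) (nat_lit 0) (nat_lit 3481391085) (nat_lit 143) (nat_lit 1) (nat_lit 133) (nat_lit 1) (nat_lit 132) (nat_lit 1) (nat_lit 209) (nat_lit 260) (nat_lit 251)) (XT.nd (nat_lit 94) (nat_lit 840) (nat_lit 0) (XT.lf (nat_lit 84) (nat_lit 541234154) (nat_lit 0) (nat_lit 7437340136) (nat_lit 840) (nat_lit 541234154) (nat_lit 134) (nat_lit 1) (nat_lit 133) (nat_lit 1) (nat_lit 143) (nat_lit 1) (nat_lit 210) (nat_lit 260) (nat_lit 250)) (XT.lf (nat_lit 924) (nat_lit 326891969) (nat_lit 0) (nat_lit 4001772480) (nat_lit 840) (nat_lit 4001772480)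 (nat_lit 134) (nat_lit 1) (nat_lit 123) (nat_lit 1) (nat_lit 133) (nat_lit 1) (nat_lit 211) (nat_lit 260) (nat_lit 249)))) (XT.nd (nat_lit 94) (nat_lit 420) (nat_lit 0) (XT.lf (nat_lit 588) (nat_lit 7757558120) (nat_lit 0) (nat_lit 195821524) (nat_lit 504) (nat_lit 195821524) (nat_lit 123) (nat_lit 1) (nat_lit 116) (nat_lit 1) (nat_lit 122) (nat_lit 1) (nat_lit 212) (nat_lit 260) (nat_lit 248)) (XT.nd (nat_lit 94) (nat_lit 420) (nat_lit 0) (XT.lf (nat_lit 84) (nat_lit 3391590908) (nat_lit 0) (nat_lit 1187114973) (nat_lit 588) (nat_lit 3391590908) (nat_lit 117) (nat_lit 1) (nat_lit 116) (nat_lit 1) (nat_lit 123) (nat_lit 1) (nat_lit 213) (nat_lit 260) (nat_lit 247)) (XT.lf (nat_lit 504) (nat_lit 5836057370) (nat_lit 0) (nat_lit 981471266) (nat_lit 420) (nat_lit 981471266) (nat_lit 117) (nat_lit 1) (nat_lit 111) (nat_lit 1) (nat_lit 116) (nat_lit 1) (nat_lit 214) (nat_lit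 260) (nat_lit 246))))) (XT.nd (nat_lit 282) (nat_lit 1092) (nat_lit 0) (XT.nd (nat_lit 94) (nat_lit 420) (nat_lit 0) (XT.lf (nat_lit 84) (nat_lit 2419180507) (nat_lit 0) (nat_lit 2792943136) (nat_lit 504) (nat_lit 2419180507) (nat_lit 112) (nat_lit 1) (nat_lit 111) (nat_lit 1) (nat_lit 117) (nat_lit 1) (nat_lit 215) (nat_lit 260) (nat_lit 245)) (XT.nd (nat_lit 94) (nat_lit 0) (nat_lit 0) (XT.lf (nat_lit 504) (nat_lit 3843126541) (nat_lit 0) (nat_lit 1813161126) (nat_lit 420) (nat_lit 1813161126) (nat_lit 112) (nat_lit 1) (nat_lit 106) (nat_lit 1) (nat_lit 111) (nat_lit 1) (nat_lit 216) (nat_lit 260) (nat_lit 244)) (XT.lf (nat_lit 84) (nat_lit 1416141055) (nat_lit 0) (nat_lit 4480018624) (nat_lit 504) (nat_lit 1416141055) (nat_lit 107) (nat_lit 1) (nat_lit 106) (nat_lit 1) (nat_lit 112) (nat_lit 1) (nat_lit 217) (nat_lit 260) (nat_lit 243)))) (XT.nd (nat_lit 188) (nat_lit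 756) (nat_lit 0) (XT.nd (nat_lit 94) (nat_lit 0) (nat_lit 0) (XT.lf (nat_lit 420) (nat_lit 1797314763) (nat_lit 0) (nat_lit 2680940139) (nat_lit 336) (nat_lit 2680940139) (nat_lit 107) (nat_lit 1) (nat_lit 102) (nat_lit 1) (nat_lit 106) (nat_lit 1) (nat_lit 218) (nat_lit 260) (nat_lit 242)) (XT.lf (nat_lit 84) (nat_lit 391083699) (nat_lit 0) (nat_lit 6229809641) (nat_lit 420) (nat_lit 391083699) (nat_lit 103) (nat_lit 1) (nat_lit 102) (nat_lit 1) (nat_lit 107) (nat_lit 1) (nat_lit 219) (nat_lit 260) (nat_lit 241))) (XT.nd (nat_lit 94) (nat_lit 336) (nat_lit 0) (XT.lf (nat_lit 84) (nat_lit 3295383632) (nat_lit 0) (nat_lit 275994780) (nat_lit 420) (nat_lit 3295383632) (nat_lit 98) (nat_lit 1) (nat_lit 97) (nat_lit 1) (nat_lit 102) (nat_lit 1) (nat_lit 220) (nat_lit 260) (nat_lit 240)) (XT.lf (nat_lit 420) (nat_lit 5451084214) (nat_lit 0) (nat_lit 637996488) (nat_lit 336) (nat_lit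 637996488) (nat_lit 98) (nat_lit 1) (nat_lit 93) (nat_lit 1) (nat_lit 97) (nat_lit 1) (nat_lit 221) (nat_lit 260) (nat_lit 239)))))) (XT.nd (nat_lit 658) (nat_lit 1008) (nat_lit 0) (XT.nd (nat_lit 282) (nat_lit 924) (nat_lit 0) (XT.nd (nat_lit 94) (nat_lit 336) (nat_lit 0) (XT.lf (nat_lit 84) (nat_lit 2138154875) (nat_lit 0) (nat_lit 2313478911) (nat_lit 420) (nat_lit 2138154875) (nat_lit 94) (nat_lit 1) (nat_lit 93) (nat_lit 1) (nat_lit 98) (nat_lit 1) (nat_lit 222) (nat_lit 260) (nat_lit 238)) (XT.nd (nat_lit 94) (nat_lit 0) (nat_lit 0) (XT.lf (nat_lit 420) (nat_lit 3120162751) (nat_lit 0) (nat_lit 1668549032) (nat_lit 336) (nat_lit 1668549032) (nat_lit 94) (nat_lit 1) (nat_lit 89) (nat_lit 1) (nat_lit 93) (nat_lit 1) (nat_lit 223) (nat_lit 260) (nat_lit 237)) (XT.lf (nat_lit 84) (nat_lit 983960081) (nat_lit 0) (nat_lit 4360687934) (nat_lit 420) (nat_lit 983960081) (nat_lit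 90) (nat_lit 1) (nat_lit 89) (nat_lit 1) (nat_lit 94) (nat_lit 1) (nat_lit 224) (nat_lit 260) (nat_lit 236)))) (XT.nd (nat_lit 188) (nat_lit 252) (nat_lit 0) (XT.nd (nat_lit 94) (nat_lit 420) (nat_lit 0) (XT.lf (nat_lit 336) (nat_lit 800212591) (nat_lit 0) (nat_lit 2701259941) (nat_lit 252) (nat_lit 2701259941) (nat_lit 90) (nat_lit 1) (nat_lit 86) (nat_lit 1) (nat_lit 89) (nat_lit 1) (nat_lit 225) (nat_lit 260) (nat_lit 235)) (XT.lf (nat_lit 420) (nat_lit 5761948495) (nat_lit 0) (nat_lit 159883014) (nat_lit 336) (nat_lit 159883014) (nat_lit 86) (nat_lit 1) (nat_lit 81) (nat_lit 1) (nat_lit 85) (nat_lit 1) (nat_lit 226) (nat_lit 260) (nat_lit 234))) (XT.nd (nat_lit 94) (nat_lit 252) (nat_lit 0) (XT.lf (nat_lit 84) (nat_lit 2254693043) (nat_lit 0) (nat_lit 1451980308) (nat_lit 420) (nat_lit 2254693043) (nat_lit 82) (nat_lit 1) (nat_lit 81) (nat_lit 1) (nat_lit 86) (nat_lit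 1) (nat_lit 227) (nat_lit 260) (nat_lit 233)) (XT.lf (nat_lit 336) (nat_lit 3293050470) (nat_lit 0) (nat_lit 1276291733) (nat_lit 252) (nat_lit 1276291733) (nat_lit 82) (nat_lit 1) (nat_lit 78) (nat_lit 1) (nat_lit 81) (nat_lit 1) (nat_lit 228) (nat_lit 260) (nat_lit 232))))) (XT.nd (nat_lit 282) (nat_lit 420) (nat_lit 0) (XT.nd (nat_lit 94) (nat_lit 588) (nat_lit 0) (XT.lf (nat_lit 84) (nat_lit 1040325582) (nat_lit 0) (nat_lit 3652190698) (nat_lit 336) (nat_lit 1040325582) (nat_lit 79) (nat_lit 1) (nat_lit 78) (nat_lit 1) (nat_lit 82) (nat_lit 1) (nat_lit 229) (nat_lit 260) (nat_lit 231)) (XT.nd (nat_lit 94) (nat_lit 336) (nat_lit 0) (XT.lf (nat_lit 336) (nat_lit 867078856) (nat_lit 0) (nat_lit 2377768459) (nat_lit 252) (nat_lit 2377768459) (nat_lit 79) (nat_lit 1) (nat_lit 75) (nat_lit 1) (nat_lit 78) (nat_lit 1) (nat_lit 230) (nat_lit 260) (nat_lit 230)) (XT.lf (nat_lit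 336) (nat_lit 5218451811) (nat_lit 0) (nat_lit 149016458) (nat_lit 252) (nat_lit 149016458) (nat_lit 75) (nat_lit 1) (nat_lit 71) (nat_lit 1) (nat_lit 74) (nat_lit 1) (nat_lit 231) (nat_lit 260) (nat_lit 229)))) (XT.nd (nat_lit 188) (nat_lit 168) (nat_lit 0) (XT.nd (nat_lit 94) (nat_lit 252) (nat_lit 0) (XT.lf (nat_lit 84) (nat_lit 1973990873) (nat_lit 0) (nat_lit 1462707415) (nat_lit 336) (nat_lit 1973990873) (nat_lit 72) (nat_lit 1) (nat_lit 71) (nat_lit 1) (nat_lit 75) (nat_lit 1) (nat_lit 232) (nat_lit 260) (nat_lit 228)) (XT.lf (nat_lit 336) (nat_lit 2714418200) (nat_lit 0) (nat_lit 1297194924) (nat_lit 252) (nat_lit 1297194924) (nat_lit 72) (nat_lit 1) (nat_lit 68) (nat_lit 1) (nat_lit 71) (nat_lit 1) (nat_lit 233) (nat_lit 260) (nat_lit 227))) (XT.nd (nat_lit 94) (nat_lit 168) (nat_lit 0) (XT.lf (nat_lit 84) (nat_lit 747548558) (nat_lit 0) (nat_lit 3714562317) (nat_lit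 336) (nat_lit 747548558) (nat_lit 69) (nat_lit 1) (nat_lit 68) (nat_lit 1) (nat_lit 72) (nat_lit 1) (nat_lit 234) (nat_lit 260) (nat_lit 226)) (XT.lf (nat_lit 252) (nat_lit 273926647) (nat_lit 0) (nat_lit 2419226284) (nat_lit 168) (nat_lit 2419226284) (nat_lit 69) (nat_lit 1) (nat_lit 66) (nat_lit 1) (nat_lit 68) (nat_lit 1) (nat_lit 235) (nat_lit 260) (nat_lit 225))))))) (XT.nd (nat_lit 1222) (nat_lit 1512) (nat_lit 0) (XT.nd (nat_lit 564) (nat_lit 756) (nat_lit 0) (XT.nd (nat_lit 282) (nat_lit 420) (nat_lit 0) (XT.nd (nat_lit 94) (nat_lit 168) (nat_lit 0) (XT.lf (nat_lit 336) (nat_lit 4138939790) (nat_lit 0) (nat_lit 439585406) (nat_lit 252) (nat_lit 439585406) (nat_lit 66) (nat_lit 1) (nat_lit 62) (nat_lit 1) (nat_lit 65) (nat_lit 1) (nat_lit 236) (nat_lit 260) (nat_lit 224)) (XT.nd (nat_lit 94) (nat_lit 168) (nat_lit 0) (XT.lf (nat_lit 84) (nat_lit 1445633422) (nat_lit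 0) (nat_lit 2033629448) (nat_lit 336) (nat_lit 1445633422) (nat_lit 63) (nat_lit 1) (nat_lit 62) (nat_lit 1) (nat_lit 66) (nat_lit 1) (nat_lit 237) (nat_lit 260) (nat_lit 223)) (XT.lf (nat_lit 252) (nat_lit 1670206421) (nat_lit 0) (nat_lit 1582176206) (nat_lit 168) (nat_lit 1582176206) (nat_lit 63) (nat_lit 1) (nat_lit 60) (nat_lit 1) (nat_lit 62) (nat_lit 1) (nat_lit 238) (nat_lit 260) (nat_lit 222)))) (XT.nd (nat_lit 94) (nat_lit 420) (nat_lit 0) (XT.lf (nat_lit 84) (nat_lit 239955649) (nat_lit 0) (nat_lit 4267308028) (nat_lit 252) (nat_lit 239955649) (nat_lit 61) (nat_lit 1) (nat_lit 60) (nat_lit 1) (nat_lit 63) (nat_lit 1) (nat_lit 239) (nat_lit 260) (nat_lit 221)) (XT.nd (nat_lit 94) (nat_lit 168) (nat_lit 0) (XT.lf (nat_lit 84) (nat_lit 1980396073) (nat_lit 0) (nat_lit 699405159) (nat_lit 252) (nat_lit 1980396073) (nat_lit 58) (nat_lit 1) (nat_lit 57) (nat_lit 1) (nat_lit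 60) (nat_lit 1) (nat_lit 240) (nat_lit 260) (nat_lit 220)) (XT.lf (nat_lit 252) (nat_lit 2750127041) (nat_lit 0) (nat_lit 912967665) (nat_lit 168) (nat_lit 912967665) (nat_lit 58) (nat_lit 1) (nat_lit 55) (nat_lit 1) (nat_lit 57) (nat_lit 1) (nat_lit 241) (nat_lit 260) (nat_lit 219))))) (XT.nd (nat_lit 282) (nat_lit 336) (nat_lit 0) (XT.nd (nat_lit 94) (nat_lit 420) (nat_lit 0) (XT.lf (nat_lit 84) (nat_lit 776014303) (nat_lit 0) (nat_lit 2941758401) (nat_lit 252) (nat_lit 776014303) (nat_lit 56) (nat_lit 1) (nat_lit 55) (nat_lit 1) (nat_lit 58) (nat_lit 1) (nat_lit 242) (nat_lit 260) (nat_lit 218)) (XT.nd (nat_lit 94) (nat_lit 252) (nat_lit 0) (XT.lf (nat_lit 252) (nat_lit 363534762) (nat_lit 0) (nat_lit 2024817669) (nat_lit 168) (nat_lit 2024817669) (nat_lit 56) (nat_lit 1) (nat_lit 53) (nat_lit 1) (nat_lit 55) (nat_lit 1) (nat_lit 243) (nat_lit 260) (nat_lit 217)) (XT.lf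 (nat_lit 252) (nat_lit 3573054500) (nat_lit 0) (nat_lit 380917315) (nat_lit 168) (nat_lit 380917315) (nat_lit 53) (nat_lit 1) (nat_lit 50) (nat_lit 1) (nat_lit 52) (nat_lit 1) (nat_lit 244) (nat_lit 260) (nat_lit 216)))) (XT.nd (nat_lit 188) (nat_lit 168) (nat_lit 0) (XT.nd (nat_lit 94) (nat_lit 168) (nat_lit 0) (XT.lf (nat_lit 84) (nat_lit 1189478599) (nat_lit 0) (nat_lit 1878319084) (nat_lit 252) (nat_lit 1189478599) (nat_lit 51) (nat_lit 1) (nat_lit 50) (nat_lit 1) (nat_lit 53) (nat_lit 1) (nat_lit 245) (nat_lit 260) (nat_lit 215)) (XT.lf (nat_lit 252) (nat_lit 1211426203) (nat_lit 0) (nat_lit 1485245218) (nat_lit 168) (nat_lit 1485245218) (nat_lit 51) (nat_lit 1) (nat_lit 48) (nat_lit 1) (nat_lit 50) (nat_lit 1) (nat_lit 246) (nat_lit 260) (nat_lit 214))) (XT.nd (nat_lit 94) (nat_lit 168) (nat_lit 0) (XT.lf (nat_lit 84) (nat_lit 39816238) (nat_lit 0) (nat_lit 4029567390)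 (nat_lit 252) (nat_lit 39816238) (nat_lit 49) (nat_lit 1) (nat_lit 48) (nat_lit 1) (nat_lit 51) (nat_lit 1) (nat_lit 247) (nat_lit 260) (nat_lit 213)) (XT.lf (nat_lit 84) (nat_lit 1503396236) (nat_lit 0) (nat_lit 1029228394) (nat_lit 168) (nat_lit 1503396236) (nat_lit 47) (nat_lit 1) (nat_lit 46) (nat_lit 1) (nat_lit 48) (nat_lit 1) (nat_lit 248) (nat_lit 260) (nat_lit 212)))))) (XT.nd (nat_lit 658) (nat_lit 672) (nat_lit 0) (XT.nd (nat_lit 282) (nat_lit 504) (nat_lit 0) (XT.nd (nat_lit 94) (nat_lit 168) (nat_lit 0) (XT.lf (nat_lit 252) (nat_lit 1865543578) (nat_lit 0) (nat_lit 1049936546) (nat_lit 168) (nat_lit 1049936546) (nat_lit 47) (nat_lit 1) (nat_lit 44) (nat_lit 1) (nat_lit 46) (nat_lit 1) (nat_lit 249) (nat_lit 260) (nat_lit 211)) (XT.nd (nat_lit 94) (nat_lit 168) (nat_lit 0) (XT.lf (nat_lit 84) (nat_lit 374028594) (nat_lit 0) (nat_lit 3148661075) (nat_lit 252)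 (nat_lit 374028594) (nat_lit 45) (nat_lit 1) (nat_lit 44) (nat_lit 1) (nat_lit 47) (nat_lit 1) (nat_lit 250) (nat_lit 260) (nat_lit 210)) (XT.lf (nat_lit 84) (nat_lit 1736666136) (nat_lit 0) (nat_lit 355254114) (nat_lit 168) (nat_lit 1736666136) (nat_lit 43) (nat_lit 1) (nat_lit 42) (nat_lit 1) (nat_lit 44) (nat_lit 1) (nat_lit 251) (nat_lit 260) (nat_lit 209)))) (XT.nd (nat_lit 188) (nat_lit 336) (nat_lit 0) (XT.nd (nat_lit 94) (nat_lit 0) (nat_lit 0) (XT.lf (nat_lit 252) (nat_lit 2362311359) (nat_lit 0) (nat_lit 699996471) (nat_lit 168) (nat_lit 699996471) (nat_lit 43) (nat_lit 1) (nat_lit 40) (nat_lit 1) (nat_lit 42) (nat_lit 1) (nat_lit 252) (nat_lit 260) (nat_lit 208)) (XT.lf (nat_lit 84) (nat_lit 632734894) (nat_lit 0) (nat_lit 2431864603) (nat_lit 252) (nat_lit 632734894) (nat_lit 41) (nat_lit 1) (nat_lit 40) (nat_lit 1) (nat_lit 43) (nat_lit 1) (nat_lit 253) (nat_lit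 260) (nat_lit 207))) (XT.nd (nat_lit 94) (nat_lit 252) (nat_lit 0) (XT.lf (nat_lit 168) (nat_lit 181635146) (nat_lit 0) (nat_lit 1725977674) (nat_lit 84) (nat_lit 1725977674) (nat_lit 41) (nat_lit 1) (nat_lit 39) (nat_lit 1) (nat_lit 40) (nat_lit 1) (nat_lit 254) (nat_lit 260) (nat_lit 206)) (XT.lf (nat_lit 252) (nat_lit 2731597535) (nat_lit 0) (nat_lit 419899377) (nat_lit 168) (nat_lit 419899377) (nat_lit 39) (nat_lit 1) (nat_lit 36) (nat_lit 1) (nat_lit 38) (nat_lit 1) (nat_lit 255) (nat_lit 260) (nat_lit 205))))) (XT.nd (nat_lit 282) (nat_lit 336) (nat_lit 0) (XT.nd (nat_lit 94) (nat_lit 336) (nat_lit 0) (XT.lf (nat_lit 84) (nat_lit 830096034) (nat_lit 0) (nat_lit 1849704212) (nat_lit 252) (nat_lit 830096034) (nat_lit 37) (nat_lit 1) (nat_lit 36) (nat_lit 1) (nat_lit 39) (nat_lit 1) (nat_lit 256) (nat_lit 260) (nat_lit 204)) (XT.nd (nat_lit 94) (nat_lit 252) (nat_lit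 0) (XT.lf (nat_lit 168) (nat_lit 609971970) (nat_lit 0) (nat_lit 1419966104) (nat_lit 84) (nat_lit 1419966104) (nat_lit 37) (nat_lit 1) (nat_lit 35) (nat_lit 1) (nat_lit 36) (nat_lit 1) (nat_lit 257) (nat_lit 260) (nat_lit 203)) (XT.lf (nat_lit 252) (nat_lit 2997880752) (nat_lit 0) (nat_lit 196890874) (nat_lit 168) (nat_lit 196890874) (nat_lit 35) (nat_lit 1) (nat_lit 32) (nat_lit 1) (nat_lit 34) (nat_lit 1) (nat_lit 258) (nat_lit 260) (nat_lit 202)))) (XT.nd (nat_lit 188) (nat_lit 252) (nat_lit 0) (XT.nd (nat_lit 94) (nat_lit 84) (nat_lit 0) (XT.lf (nat_lit 84) (nat_lit 977725367) (nat_lit 0) (nat_lit 1377949742) (nat_lit 252) (nat_lit 977725367) (nat_lit 33) (nat_lit 1) (nat_lit 32) (nat_lit 1) (nat_lit 35) (nat_lit 1) (nat_lit 259) (nat_lit 260) (nat_lit 201)) (XT.lf (nat_lit 168) (nat_lit 940435245) (nat_lit 0) (nat_lit 1168209628) (nat_lit 84) (nat_lit 1168209628) (nat_lit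 33) (nat_lit 1) (nat_lit 31) (nat_lit 1) (nat_lit 32) (nat_lit 1) (nat_lit 260) (nat_lit 260) (nat_lit 200))) (XT.nd (nat_lit 94) (nat_lit 0) (nat_lit 0) (XT.lf (nat_lit 252) (nat_lit 3181210294) (nat_lit 0) (nat_lit 20495578) (nat_lit 168) (nat_lit 20495578) (nat_lit 31) (nat_lit 1) (nat_lit 28) (nat_lit 1) (nat_lit 30) (nat_lit 1) (nat_lit 261) (nat_lit 260) (nat_lit 199)) (XT.lf (nat_lit 84) (nat_lit 1085142132) (nat_lit 0) (nat_lit 996684101) (nat_lit 252) (nat_lit 1085142132) (nat_lit 29) (nat_lit 1) (nat_lit 28) (nat_lit 1) (nat_lit 31) (nat_lit 1) (nat_lit 262) (nat_lit 260) (nat_lit 198))))))))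
noncomputable def ec67 : XT := (XT.nd (nat_lit 2538) (nat_lit 168) (nat_lit 0) (XT.nd (nat_lit 1222) (nat_lit 1092) (nat_lit 0) (XT.nd (nat_lit 564) (nat_lit 588) (nat_lit 0) (XT.nd (nat_lit 282) (nat_lit 252) (nat_lit 0) (XT.nd (nat_lit 94) (nat_lit 168) (nat_lit 0) (XT.lf (nat_lit 168) (nat_lit 1191422018) (nat_lit 0) (nat_lit 961088952) (nat_lit 84) (nat_lit 961088952) (nat_lit 29) (nat_lit 1) (nat_lit 27) (nat_lit 1) (nat_lit 28) (nat_lit 1) (nat_lit 263) (nat_lit 260) (nat_lit 197)) (XT.nd (nat_lit 94) (nat_lit 168) (nat_lit 0) (XT.lf (nat_lit 0) (nat_lit 119820376) (nat_lit 0) (nat_lit 2822202010) (nat_lit 168) (nat_lit 119820376) (nat_lit 27) (nat_lit 3) (nat_lit 27) (nat_lit 1) (nat_lit 29) (nat_lit 1) (nat_lit 264) (nat_lit 260) (nat_lit 196)) (XT.lf (nat_lit 84) (nat_lit 1160144405) (nat_lit 0) (nat_lit 689537750) (nat_lit 168) (nat_lit 1160144405) (nat_lit 26)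 (nat_lit 1) (nat_lit 25) (nat_lit 1) (nat_lit 27) (nat_lit 1) (nat_lit 265) (nat_lit 260) (nat_lit 195)))) (XT.nd (nat_lit 94) (nat_lit 168) (nat_lit 0) (XT.lf (nat_lit 168) (nat_lit 1378017857) (nat_lit 0) (nat_lit 790690259) (nat_lit 84) (nat_lit 790690259) (nat_lit 26) (nat_lit 1) (nat_lit 24) (nat_lit 1) (nat_lit 25) (nat_lit 1) (nat_lit 266) (nat_lit 260) (nat_lit 194)) (XT.nd (nat_lit 94) (nat_lit 168) (nat_lit 0) (XT.lf (nat_lit 0) (nat_lit 229013246) (nat_lit 0) (nat_lit 2452269304) (nat_lit 168) (nat_lit 229013246) (nat_lit 24) (nat_lit 3) (nat_lit 24) (nat_lit 1) (nat_lit 26) (nat_lit 1) (nat_lit 267) (nat_lit 260) (nat_lit 193)) (XT.lf (nat_lit 84) (nat_lit 1209115853) (nat_lit 0) (nat_lit 443058960) (nat_lit 168) (nat_lit 1209115853) (nat_lit 23) (nat_lit 1) (nat_lit 22) (nat_lit 1) (nat_lit 24) (nat_lit 1) (nat_lit 268) (nat_lit 260) (nat_lit 192))))) (XT.nd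 (nat_lit 282) (nat_lit 336) (nat_lit 0) (XT.nd (nat_lit 94) (nat_lit 168) (nat_lit 0) (XT.lf (nat_lit 168) (nat_lit 1512586334) (nat_lit 0) (nat_lit 650502833) (nat_lit 84) (nat_lit 650502833) (nat_lit 23) (nat_lit 1) (nat_lit 21) (nat_lit 1) (nat_lit 22) (nat_lit 1) (nat_lit 269) (nat_lit 260) (nat_lit 191)) (XT.nd (nat_lit 94) (nat_lit 168) (nat_lit 0) (XT.lf (nat_lit 0) (nat_lit 312635217) (nat_lit 0) (nat_lit 2141713479) (nat_lit 168) (nat_lit 312635217) (nat_lit 21) (nat_lit 3) (nat_lit 21) (nat_lit 1) (nat_lit 23) (nat_lit 1) (nat_lit 270) (nat_lit 260) (nat_lit 190)) (XT.lf (nat_lit 84) (nat_lit 1237278013) (nat_lit 0) (nat_lit 246195747) (nat_lit 168) (nat_lit 1237278013) (nat_lit 20) (nat_lit 1) (nat_lit 19) (nat_lit 1) (nat_lit 21) (nat_lit 1) (nat_lit 271) (nat_lit 260) (nat_lit 189)))) (XT.nd (nat_lit 188) (nat_lit 252) (nat_lit 0) (XT.nd (nat_lit 94) (nat_lit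 0) (nat_lit 0) (XT.lf (nat_lit 168) (nat_lit 1605253885) (nat_lit 0) (nat_lit 535170290) (nat_lit 84) (nat_lit 535170290) (nat_lit 20) (nat_lit 1) (nat_lit 18) (nat_lit 1) (nat_lit 19) (nat_lit 1) (nat_lit 272) (nat_lit 260) (nat_lit 188)) (XT.lf (nat_lit 0) (nat_lit 375515723) (nat_lit 0) (nat_lit 1880302935) (nat_lit 168) (nat_lit 375515723) (nat_lit 18) (nat_lit 3) (nat_lit 18) (nat_lit 1) (nat_lit 20) (nat_lit 1) (nat_lit 273) (nat_lit 260) (nat_lit 187))) (XT.nd (nat_lit 94) (nat_lit 84) (nat_lit 0) (XT.lf (nat_lit 84) (nat_lit 1248897787) (nat_lit 0) (nat_lit 89869702) (nat_lit 168) (nat_lit 1248897787) (nat_lit 17) (nat_lit 1) (nat_lit 16) (nat_lit 1) (nat_lit 18) (nat_lit 1) (nat_lit 274) (nat_lit 260) (nat_lit 186)) (XT.lf (nat_lit 168) (nat_lit 1664308596) (nat_lit 0) (nat_lit 440285922) (nat_lit 84) (nat_lit 440285922) (nat_lit 17) (nat_lit 1) (nat_lit 15) (nat_lit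 1) (nat_lit 16) (nat_lit 1) (nat_lit 275) (nat_lit 260) (nat_lit 185)))))) (XT.nd (nat_lit 658) (nat_lit 588) (nat_lit 0) (XT.nd (nat_lit 282) (nat_lit 252) (nat_lit 0) (XT.nd (nat_lit 94) (nat_lit 252) (nat_lit 0) (XT.lf (nat_lit 0) (nat_lit 421613862) (nat_lit 0) (nat_lit 1659606026) (nat_lit 168) (nat_lit 421613862) (nat_lit 15) (nat_lit 3) (nat_lit 15) (nat_lit 1) (nat_lit 17) (nat_lit 1) (nat_lit 276) (nat_lit 260) (nat_lit 184)) (XT.nd (nat_lit 94) (nat_lit 168) (nat_lit 0) (XT.lf (nat_lit 84) (nat_lit 34478105) (nat_lit 0) (nat_lit 1213518260) (nat_lit 84) (nat_lit 1213518260) (nat_lit 15) (nat_lit 3) (nat_lit 14) (nat_lit 1) (nat_lit 15) (nat_lit 1) (nat_lit 277) (nat_lit 260) (nat_lit 183)) (XT.lf (nat_lit 168) (nat_lit 1696528183) (nat_lit 0) (nat_lit 362224318) (nat_lit 84) (nat_lit 362224318) (nat_lit 14) (nat_lit 1) (nat_lit 12) (nat_lit 1) (nat_lit 13) (nat_lit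 1) (nat_lit 278) (nat_lit 260) (nat_lit 182)))) (XT.nd (nat_lit 188) (nat_lit 168) (nat_lit 0) (XT.nd (nat_lit 94) (nat_lit 84) (nat_lit 0) (XT.lf (nat_lit 0) (nat_lit 454173385) (nat_lit 0) (nat_lit 1472672602) (nat_lit 168) (nat_lit 454173385) (nat_lit 12) (nat_lit 3) (nat_lit 12) (nat_lit 1) (nat_lit 14) (nat_lit 1) (nat_lit 279) (nat_lit 260) (nat_lit 181)) (XT.lf (nat_lit 84) (nat_lit 133945023) (nat_lit 0) (nat_lit 1103944277) (nat_lit 84) (nat_lit 1103944277) (nat_lit 12) (nat_lit 3) (nat_lit 11) (nat_lit 1) (nat_lit 12) (nat_lit 1) (nat_lit 280) (nat_lit 260) (nat_lit 180))) (XT.nd (nat_lit 94) (nat_lit 0) (nat_lit 0) (XT.lf (nat_lit 168) (nat_lit 1707449728) (nat_lit 0) (nat_lit 298002843) (nat_lit 84) (nat_lit 298002843) (nat_lit 11) (nat_lit 1) (nat_lit 9) (nat_lit 1) (nat_lit 10) (nat_lit 1) (nat_lit 281) (nat_lit 260) (nat_lit 179)) (XT.lf (nat_lit 0) (nat_lit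 475850156) (nat_lit 0) (nat_lit 1313771982) (nat_lit 168) (nat_lit 475850156) (nat_lit 9) (nat_lit 3) (nat_lit 9) (nat_lit 1) (nat_lit 11) (nat_lit 1) (nat_lit 282) (nat_lit 260) (nat_lit 178))))) (XT.nd (nat_lit 282) (nat_lit 336) (nat_lit 0) (XT.nd (nat_lit 94) (nat_lit 168) (nat_lit 0) (XT.lf (nat_lit 84) (nat_lit 210749093) (nat_lit 0) (nat_lit 1008769880) (nat_lit 84) (nat_lit 1008769880) (nat_lit 9) (nat_lit 3) (nat_lit 8) (nat_lit 1) (nat_lit 9) (nat_lit 1) (nat_lit 283) (nat_lit 260) (nat_lit 177)) (XT.nd (nat_lit 94) (nat_lit 0) (nat_lit 0) (XT.lf (nat_lit 168) (nat_lit 1701591491) (nat_lit 0) (nat_lit 245167676) (nat_lit 84) (nat_lit 245167676) (nat_lit 8) (nat_lit 1) (nat_lit 6) (nat_lit 1) (nat_lit 7) (nat_lit 1) (nat_lit 284) (nat_lit 260) (nat_lit 176)) (XT.lf (nat_lit 0) (nat_lit 488816994) (nat_lit 0) (nat_lit 1178177354) (nat_lit 168) (nat_lit 488816994)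 (nat_lit 6) (nat_lit 3) (nat_lit 6) (nat_lit 1) (nat_lit 8) (nat_lit 1) (nat_lit 285) (nat_lit 260) (nat_lit 175)))) (XT.nd (nat_lit 188) (nat_lit 84) (nat_lit 0) (XT.nd (nat_lit 94) (nat_lit 168) (nat_lit 0) (XT.lf (nat_lit 84) (nat_lit 269147792) (nat_lit 0) (nat_lit 925681468) (nat_lit 84) (nat_lit 925681468) (nat_lit 6) (nat_lit 3) (nat_lit 5) (nat_lit 1) (nat_lit 6) (nat_lit 1) (nat_lit 286) (nat_lit 260) (nat_lit 174)) (XT.lf (nat_lit 168) (nat_lit 1682635316) (nat_lit 0) (nat_lit 201700054) (nat_lit 84) (nat_lit 201700054) (nat_lit 5) (nat_lit 1) (nat_lit 3) (nat_lit 1) (nat_lit 4) (nat_lit 1) (nat_lit 287) (nat_lit 260) (nat_lit 173))) (XT.nd (nat_lit 94) (nat_lit 84) (nat_lit 0) (XT.lf (nat_lit 0) (nat_lit 494849897) (nat_lit 0) (nat_lit 1061988371) (nat_lit 168) (nat_lit 494849897) (nat_lit 3) (nat_lit 3) (nat_lit 3) (nat_lit 1) (nat_lit 5) (nat_lit 1) (nat_lit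 288) (nat_lit 260) (nat_lit 172)) (XT.lf (nat_lit 84) (nat_lit 312632356) (nat_lit 0) (nat_lit 852764236) (nat_lit 84) (nat_lit 852764236) (nat_lit 3) (nat_lit 3) (nat_lit 2) (nat_lit 1) (nat_lit 3) (nat_lit 1) (nat_lit 289) (nat_lit 260) (nat_lit 171))))))) (XT.nd (nat_lit 1316) (nat_lit 0) (nat_lit 0) (XT.nd (nat_lit 658) (nat_lit 0) (nat_lit 0) (XT.nd (nat_lit 282) (nat_lit 0) (nat_lit 0) (XT.nd (nat_lit 94) (nat_lit 0) (nat_lit 0) (XT.lf (nat_lit 0) (nat_lit 2884246496) (nat_lit 0) (nat_lit 0) (nat_lit 0) (nat_lit 0) (nat_lit 0) (nat_lit 0) (nat_lit 1) (nat_lit 0) (nat_lit 1) (nat_lit 0) (nat_lit 290) (nat_lit 260) (nat_lit 170)) (XT.nd (nat_lit 94) (nat_lit 0) (nat_lit 0) (XT.lf (nat_lit 0) (nat_lit 2882566030) (nat_lit 0) (nat_lit 0) (nat_lit 0) (nat_lit 0) (nat_lit 0) (nat_lit 0) (nat_lit 1) (nat_lit 0) (nat_lit 1) (nat_lit 0) (nat_lit 291) (nat_lit 260) (nat_lit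 169)) (XT.lf (nat_lit 0) (nat_lit 2880965587) (nat_lit 0) (nat_lit 0) (nat_lit 0) (nat_lit 0) (nat_lit 0) (nat_lit 0) (nat_lit 1) (nat_lit 0) (nat_lit 1) (nat_lit 0) (nat_lit 292) (nat_lit 260) (nat_lit 168)))) (XT.nd (nat_lit 188) (nat_lit 0) (nat_lit 0) (XT.nd (nat_lit 94) (nat_lit 0) (nat_lit 0) (XT.lf (nat_lit 0) (nat_lit 2879441355) (nat_lit 0) (nat_lit 0) (nat_lit 0) (nat_lit 0) (nat_lit 0) (nat_lit 0) (nat_lit 1) (nat_lit 0) (nat_lit 1) (nat_lit 0) (nat_lit 293) (nat_lit 260) (nat_lit 167)) (XT.lf (nat_lit 0) (nat_lit 2877989705) (nat_lit 0) (nat_lit 0) (nat_lit 0) (nat_lit 0) (nat_lit 0) (nat_lit 0) (nat_lit 1) (nat_lit 0) (nat_lit 1) (nat_lit 0) (nat_lit 294) (nat_lit 260) (nat_lit 166))) (XT.nd (nat_lit 94) (nat_lit 0) (nat_lit 0) (XT.lf (nat_lit 0) (nat_lit 2876607182) (nat_lit 0) (nat_lit 0) (nat_lit 0) (nat_lit 0) (nat_lit 0) (nat_lit 0) (nat_lit 1) (nat_lit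 0) (nat_lit 1) (nat_lit 0) (nat_lit 295) (nat_lit 260) (nat_lit 165)) (XT.lf (nat_lit 0) (nat_lit 2875290493) (nat_lit 0) (nat_lit 0) (nat_lit 0) (nat_lit 0) (nat_lit 0) (nat_lit 0) (nat_lit 1) (nat_lit 0) (nat_lit 1) (nat_lit 0) (nat_lit 296) (nat_lit 260) (nat_lit 164))))) (XT.nd (nat_lit 282) (nat_lit 0) (nat_lit 0) (XT.nd (nat_lit 94) (nat_lit 0) (nat_lit 0) (XT.lf (nat_lit 0) (nat_lit 2874036504) (nat_lit 0) (nat_lit 0) (nat_lit 0) (nat_lit 0) (nat_lit 0) (nat_lit 0) (nat_lit 1) (nat_lit 0) (nat_lit 1) (nat_lit 0) (nat_lit 297) (nat_lit 260) (nat_lit 163)) (XT.nd (nat_lit 94) (nat_lit 0) (nat_lit 0) (XT.lf (nat_lit 0) (nat_lit 2872842228) (nat_lit 0) (nat_lit 0) (nat_lit 0) (nat_lit 0) (nat_lit 0) (nat_lit 0) (nat_lit 1) (nat_lit 0) (nat_lit 1) (nat_lit 0) (nat_lit 298) (nat_lit 260) (nat_lit 162)) (XT.lf (nat_lit 0) (nat_lit 2871704823) (nat_lit 0) (nat_lit 0) (nat_lit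 0) (nat_lit 0) (nat_lit 0) (nat_lit 0) (nat_lit 1) (nat_lit 0) (nat_lit 1) (nat_lit 0) (nat_lit 299) (nat_lit 260) (nat_lit 161)))) (XT.nd (nat_lit 188) (nat_lit 0) (nat_lit 0) (XT.nd (nat_lit 94) (nat_lit 0) (nat_lit 0) (XT.lf (nat_lit 0) (nat_lit 2870621580) (nat_lit 0) (nat_lit 0) (nat_lit 0) (nat_lit 0) (nat_lit 0) (nat_lit 0) (nat_lit 1) (nat_lit 0) (nat_lit 1) (nat_lit 0) (nat_lit 300) (nat_lit 260) (nat_lit 160)) (XT.lf (nat_lit 0) (nat_lit 2869589920) (nat_lit 0) (nat_lit 0) (nat_lit 0) (nat_lit 0) (nat_lit 0) (nat_lit 0) (nat_lit 1) (nat_lit 0) (nat_lit 1) (nat_lit 0) (nat_lit 301) (nat_lit 260) (nat_lit 159))) (XT.nd (nat_lit 94) (nat_lit 0) (nat_lit 0) (XT.lf (nat_lit 0) (nat_lit 2868607386) (nat_lit 0) (nat_lit 0) (nat_lit 0) (nat_lit 0) (nat_lit 0) (nat_lit 0) (nat_lit 1) (nat_lit 0) (nat_lit 1) (nat_lit 0) (nat_lit 302) (nat_lit 260) (nat_lit 158)) (XT.lf (nat_lit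 0) (nat_lit 2867671640) (nat_lit 0) (nat_lit 0) (nat_lit 0) (nat_lit 0) (nat_lit 0) (nat_lit 0) (nat_lit 1) (nat_lit 0) (nat_lit 1) (nat_lit 0) (nat_lit 303) (nat_lit 260) (nat_lit 157)))))) (XT.nd (nat_lit 658) (nat_lit 0) (nat_lit 0) (XT.nd (nat_lit 282) (nat_lit 0) (nat_lit 0) (XT.nd (nat_lit 94) (nat_lit 0) (nat_lit 0) (XT.lf (nat_lit 0) (nat_lit 2866780453) (nat_lit 0) (nat_lit 0) (nat_lit 0) (nat_lit 0) (nat_lit 0) (nat_lit 0) (nat_lit 1) (nat_lit 0) (nat_lit 1) (nat_lit 0) (nat_lit 304) (nat_lit 260) (nat_lit 156)) (XT.nd (nat_lit 94) (nat_lit 0) (nat_lit 0) (XT.lf (nat_lit 0) (nat_lit 2865931704) (nat_lit 0) (nat_lit 0) (nat_lit 0) (nat_lit 0) (nat_lit 0) (nat_lit 0) (nat_lit 1) (nat_lit 0) (nat_lit 1) (nat_lit 0) (nat_lit 305) (nat_lit 260) (nat_lit 155)) (XT.lf (nat_lit 0) (nat_lit 2865123371) (nat_lit 0) (nat_lit 0) (nat_lit 0) (nat_lit 0) (nat_lit 0) (nat_lit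 0) (nat_lit 1) (nat_lit 0) (nat_lit 1) (nat_lit 0) (nat_lit 306) (nat_lit 260) (nat_lit 154)))) (XT.nd (nat_lit 188) (nat_lit 0) (nat_lit 0) (XT.nd (nat_lit 94) (nat_lit 0) (nat_lit 0) (XT.lf (nat_lit 0) (nat_lit 2864353531) (nat_lit 0) (nat_lit 0) (nat_lit 0) (nat_lit 0) (nat_lit 0) (nat_lit 0) (nat_lit 1) (nat_lit 0) (nat_lit 1) (nat_lit 0) (nat_lit 307) (nat_lit 260) (nat_lit 153)) (XT.lf (nat_lit 0) (nat_lit 2863620349) (nat_lit 0) (nat_lit 0) (nat_lit 0) (nat_lit 0) (nat_lit 0) (nat_lit 0) (nat_lit 1) (nat_lit 0) (nat_lit 1) (nat_lit 0) (nat_lit 308) (nat_lit 260) (nat_lit 152))) (XT.nd (nat_lit 94) (nat_lit 0) (nat_lit 0) (XT.lf (nat_lit 0) (nat_lit 2862922081) (nat_lit 0) (nat_lit 0) (nat_lit 0) (nat_lit 0) (nat_lit 0) (nat_lit 0) (nat_lit 1) (nat_lit 0) (nat_lit 1) (nat_lit 0) (nat_lit 309) (nat_lit 260) (nat_lit 151)) (XT.lf (nat_lit 0) (nat_lit 2862257063) (nat_lit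 0) (nat_lit 0) (nat_lit 0) (nat_lit 0) (nat_lit 0) (nat_lit 0) (nat_lit 1) (nat_lit 0) (nat_lit 1) (nat_lit 0) (nat_lit 310) (nat_lit 260) (nat_lit 150))))) (XT.nd (nat_lit 282) (nat_lit 0) (nat_lit 0) (XT.nd (nat_lit 94) (nat_lit 0) (nat_lit 0) (XT.lf (nat_lit 0) (nat_lit 2861623714) (nat_lit 0) (nat_lit 0) (nat_lit 0) (nat_lit 0) (nat_lit 0) (nat_lit 0) (nat_lit 1) (nat_lit 0) (nat_lit 1) (nat_lit 0) (nat_lit 311) (nat_lit 260) (nat_lit 149)) (XT.nd (nat_lit 94) (nat_lit 0) (nat_lit 0) (XT.lf (nat_lit 0) (nat_lit 2861020523) (nat_lit 0) (nat_lit 0) (nat_lit 0) (nat_lit 0) (nat_lit 0) (nat_lit 0) (nat_lit 1) (nat_lit 0) (nat_lit 1) (nat_lit 0) (nat_lit 312) (nat_lit 260) (nat_lit 148)) (XT.lf (nat_lit 0) (nat_lit 2860446056) (nat_lit 0) (nat_lit 0) (nat_lit 0) (nat_lit 0) (nat_lit 0) (nat_lit 0) (nat_lit 1) (nat_lit 0) (nat_lit 1) (nat_lit 0) (nat_lit 313) (nat_lit 260)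 (nat_lit 147)))) (XT.nd (nat_lit 188) (nat_lit 0) (nat_lit 0) (XT.nd (nat_lit 94) (nat_lit 0) (nat_lit 0) (XT.lf (nat_lit 0) (nat_lit 2859898945) (nat_lit 0) (nat_lit 0) (nat_lit 0) (nat_lit 0) (nat_lit 0) (nat_lit 0) (nat_lit 1) (nat_lit 0) (nat_lit 1) (nat_lit 0) (nat_lit 314) (nat_lit 260) (nat_lit 146)) (XT.lf (nat_lit 0) (nat_lit 2859377886) (nat_lit 0) (nat_lit 0) (nat_lit 0) (nat_lit 0) (nat_lit 0) (nat_lit 0) (nat_lit 1) (nat_lit 0) (nat_lit 1) (nat_lit 0) (nat_lit 315) (nat_lit 260) (nat_lit 145))) (XT.nd (nat_lit 94) (nat_lit 0) (nat_lit 0) (XT.lf (nat_lit 0) (nat_lit 2858881640) (nat_lit 0) (nat_lit 0) (nat_lit 0) (nat_lit 0) (nat_lit 0) (nat_lit 0) (nat_lit 1) (nat_lit 0) (nat_lit 1) (nat_lit 0) (nat_lit 316) (nat_lit 260) (nat_lit 144)) (XT.lf (nat_lit 0) (nat_lit 2858409025) (nat_lit 0) (nat_lit 0) (nat_lit 0) (nat_lit 0) (nat_lit 0) (nat_lit 0) (nat_lit 1)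 (nat_lit 0) (nat_lit 1) (nat_lit 0) (nat_lit 317) (nat_lit 260) (nat_lit 143))))))))
noncomputable def ec68 : XT := (XT.nd (nat_lit 36190) (nat_lit 0) (nat_lit 3696) (XT.nd (nat_lit 34874) (nat_lit 0) (nat_lit 7476) (XT.nd (nat_lit 34216) (nat_lit 0) (nat_lit 10836) (XT.nd (nat_lit 33934) (nat_lit 0) (nat_lit 10752) (XT.nd (nat_lit 94) (nat_lit 0) (nat_lit 0) (XT.lf (nat_lit 0) (nat_lit 2857958915) (nat_lit 0) (nat_lit 0) (nat_lit 0) (nat_lit 0) (nat_lit 0) (nat_lit 0) (nat_lit 1) (nat_lit 0) (nat_lit 1) (nat_lit 0) (nat_lit 318) (nat_lit 260) (nat_lit 142)) (XT.nd (nat_lit 94) (nat_lit 0) (nat_lit 0) (XT.lf (nat_lit 0) (nat_lit 2857530239) (nat_lit 0) (nat_lit 0) (nat_lit 0) (nat_lit 0) (nat_lit 0) (nat_lit 0) (nat_lit 1) (nat_lit 0) (nat_lit 1) (nat_lit 0) (nat_lit 319) (nat_lit 260) (nat_lit 141)) (XT.lf (nat_lit 0) (nat_lit 2857121976) (nat_lit 0) (nat_lit 0) (nat_lit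 0) (nat_lit 0) (nat_lit 0) (nat_lit 0) (nat_lit 1) (nat_lit 0) (nat_lit 1) (nat_lit 0) (nat_lit 320) (nat_lit 260) (nat_lit 140)))) (XT.nd (nat_lit 94) (nat_lit 0) (nat_lit 0) (XT.lf (nat_lit 924) (nat_lit 1497010889) (nat_lit 0) (nat_lit 2657939393) (nat_lit 924) (nat_lit 1497010889) (nat_lit 139) (nat_lit 1) (nat_lit 128) (nat_lit 0) (nat_lit 139) (nat_lit 0) (nat_lit 198) (nat_lit 261) (nat_lit 261)) (XT.nd (nat_lit 94) (nat_lit 0) (nat_lit 84) (XT.lf (nat_lit 924) (nat_lit 5802601101) (nat_lit 84) (nat_lit 2615069402) (nat_lit 0) (nat_lit 2615069402) (nat_lit 139) (nat_lit 1) (nat_lit 129) (nat_lit 1) (nat_lit 128) (nat_lit 0) (nat_lit 199) (nat_lit 261) (nat_lit 260)) (XT.lf (nat_lit 924) (nat_lit 2765432315) (nat_lit 0) (nat_lit 5239076546) (nat_lit 840) (nat_lit 2765432315) (nat_lit 140) (nat_lit 1) (nat_lit 129) (nat_lit 1) (nat_lit 139) (nat_lit 1) (nat_lit 200)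 (nat_lit 261) (nat_lit 259))))) (XT.nd (nat_lit 282) (nat_lit 0) (nat_lit 168) (XT.nd (nat_lit 94) (nat_lit 0) (nat_lit 84) (XT.lf (nat_lit 924) (nat_lit 5187566756) (nat_lit 84) (nat_lit 2664033023) (nat_lit 0) (nat_lit 2664033023) (nat_lit 140) (nat_lit 1) (nat_lit 130) (nat_lit 1) (nat_lit 129) (nat_lit 1) (nat_lit 201) (nat_lit 261) (nat_lit 258)) (XT.nd (nat_lit 94) (nat_lit 0) (nat_lit 0) (XT.lf (nat_lit 924) (nat_lit 2387787161) (nat_lit 0) (nat_lit 5493810407) (nat_lit 840) (nat_lit 2387787161) (nat_lit 141) (nat_lit 1) (nat_lit 130) (nat_lit 1) (nat_lit 140) (nat_lit 1) (nat_lit 202) (nat_lit 261) (nat_lit 257)) (XT.lf (nat_lit 924) (nat_lit 4294590731) (nat_lit 84) (nat_lit 2868026253) (nat_lit 0) (nat_lit 2868026253) (nat_lit 141) (nat_lit 1) (nat_lit 131) (nat_lit 1) (nat_lit 130) (nat_lit 1) (nat_lit 203) (nat_lit 261) (nat_lit 256)))) (XT.nd (nat_lit 188) (nat_lit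 0) (nat_lit 84) (XT.nd (nat_lit 94) (nat_lit 0) (nat_lit 0) (XT.lf (nat_lit 924) (nat_lit 1883053996) (nat_lit 0) (nat_lit 6033809867) (nat_lit 840) (nat_lit 1883053996) (nat_lit 142) (nat_lit 1) (nat_lit 131) (nat_lit 1) (nat_lit 141) (nat_lit 1) (nat_lit 204) (nat_lit 261) (nat_lit 255)) (XT.lf (nat_lit 924) (nat_lit 3165471586) (nat_lit 84) (nat_lit 3205036777) (nat_lit 0) (nat_lit 3205036777) (nat_lit 142) (nat_lit 1) (nat_lit 132) (nat_lit 1) (nat_lit 131) (nat_lit 1) (nat_lit 205) (nat_lit 261) (nat_lit 254))) (XT.nd (nat_lit 94) (nat_lit 0) (nat_lit 0) (XT.lf (nat_lit 924) (nat_lit 1270771967) (nat_lit 0) (nat_lit 6817841808) (nat_lit 840) (nat_lit 1270771967) (nat_lit 143) (nat_lit 1) (nat_lit 132) (nat_lit 1) (nat_lit 142) (nat_lit 1) (nat_lit 206) (nat_lit 261) (nat_lit 253)) (XT.lf (nat_lit 924) (nat_lit 1837361935) (nat_lit 84) (nat_lit 3655460639) (nat_lit 0)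 (nat_lit 3655460639) (nat_lit 143) (nat_lit 1) (nat_lit 133) (nat_lit 1) (nat_lit 132) (nat_lit 1) (nat_lit 207) (nat_lit 261) (nat_lit 252)))))) (XT.nd (nat_lit 658) (nat_lit 1428) (nat_lit 0) (XT.nd (nat_lit 282) (nat_lit 840) (nat_lit 0) (XT.nd (nat_lit 94) (nat_lit 1428) (nat_lit 0) (XT.lf (nat_lit 84) (nat_lit 568295861) (nat_lit 0) (nat_lit 7809207143) (nat_lit 840) (nat_lit 568295861) (nat_lit 134) (nat_lit 1) (nat_lit 133) (nat_lit 1) (nat_lit 143) (nat_lit 1) (nat_lit 208) (nat_lit 261) (nat_lit 251)) (XT.nd (nat_lit 94) (nat_lit 588) (nat_lit 0) (XT.lf (nat_lit 924) (nat_lit 343236568) (nat_lit 0) (nat_lit 4201861104) (nat_lit 840) (nat_lit 4201861104) (nat_lit 134) (nat_lit 1) (nat_lit 123) (nat_lit 1) (nat_lit 133) (nat_lit 1) (nat_lit 209) (nat_lit 261) (nat_lit 250)) (XT.lf (nat_lit 588) (nat_lit 8145436026) (nat_lit 0) (nat_lit 205612601) (nat_lit 504) (nat_lit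 205612601) (nat_lit 123) (nat_lit 1) (nat_lit 116) (nat_lit 1) (nat_lit 122) (nat_lit 1) (nat_lit 210) (nat_lit 261) (nat_lit 249)))) (XT.nd (nat_lit 188) (nat_lit 420) (nat_lit 0) (XT.nd (nat_lit 94) (nat_lit 420) (nat_lit 0) (XT.lf (nat_lit 84) (nat_lit 3561170454) (nat_lit 0) (nat_lit 1246470721) (nat_lit 588) (nat_lit 3561170454) (nat_lit 117) (nat_lit 1) (nat_lit 116) (nat_lit 1) (nat_lit 123) (nat_lit 1) (nat_lit 211) (nat_lit 261) (nat_lit 248)) (XT.lf (nat_lit 504) (nat_lit 6127860238) (nat_lit 0) (nat_lit 1030544830) (nat_lit 420) (nat_lit 1030544830) (nat_lit 117) (nat_lit 1) (nat_lit 111) (nat_lit 1) (nat_lit 116) (nat_lit 1) (nat_lit 212) (nat_lit 261) (nat_lit 247))) (XT.nd (nat_lit 94) (nat_lit 420) (nat_lit 0) (XT.lf (nat_lit 84) (nat_lit 2540139533) (nat_lit 0) (nat_lit 2932590292) (nat_lit 504) (nat_lit 2540139533) (nat_lit 112) (nat_lit 1) (nat_lit 111)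 (nat_lit 1) (nat_lit 117) (nat_lit 1) (nat_lit 213) (nat_lit 261) (nat_lit 246)) (XT.lf (nat_lit 504) (nat_lit 4035282868) (nat_lit 0) (nat_lit 1903819182) (nat_lit 420) (nat_lit 1903819182) (nat_lit 112) (nat_lit 1) (nat_lit 106) (nat_lit 1) (nat_lit 111) (nat_lit 1) (nat_lit 214) (nat_lit 261) (nat_lit 245))))) (XT.nd (nat_lit 282) (nat_lit 1092) (nat_lit 0) (XT.nd (nat_lit 94) (nat_lit 336) (nat_lit 0) (XT.lf (nat_lit 84) (nat_lit 1486948107) (nat_lit 0) (nat_lit 4704019555) (nat_lit 504) (nat_lit 1486948107) (nat_lit 107) (nat_lit 1) (nat_lit 106) (nat_lit 1) (nat_lit 112) (nat_lit 1) (nat_lit 215) (nat_lit 261) (nat_lit 244)) (XT.nd (nat_lit 94) (nat_lit 0) (nat_lit 0) (XT.lf (nat_lit 420) (nat_lit 1887180501) (nat_lit 0) (nat_lit 2814987146) (nat_lit 336) (nat_lit 2814987146) (nat_lit 107) (nat_lit 1) (nat_lit 102) (nat_lit 1) (nat_lit 106) (nat_lit 1) (nat_lit 216)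 (nat_lit 261) (nat_lit 243)) (XT.lf (nat_lit 84) (nat_lit 410637884) (nat_lit 0) (nat_lit 6541300123) (nat_lit 420) (nat_lit 410637884) (nat_lit 103) (nat_lit 1) (nat_lit 102) (nat_lit 1) (nat_lit 107) (nat_lit 1) (nat_lit 217) (nat_lit 261) (nat_lit 242)))) (XT.nd (nat_lit 188) (nat_lit 336) (nat_lit 0) (XT.nd (nat_lit 94) (nat_lit 336) (nat_lit 0) (XT.lf (nat_lit 84) (nat_lit 3460152813) (nat_lit 0) (nat_lit 289794519) (nat_lit 420) (nat_lit 3460152813) (nat_lit 98) (nat_lit 1) (nat_lit 97) (nat_lit 1) (nat_lit 102) (nat_lit 1) (nat_lit 218) (nat_lit 261) (nat_lit 241)) (XT.lf (nat_lit 420) (nat_lit 5723638425) (nat_lit 0) (nat_lit 669896312) (nat_lit 336) (nat_lit 669896312) (nat_lit 98) (nat_lit 1) (nat_lit 93) (nat_lit 1) (nat_lit 97) (nat_lit 1) (nat_lit 219) (nat_lit 261) (nat_lit 240))) (XT.nd (nat_lit 94) (nat_lit 336) (nat_lit 0) (XT.lf (nat_lit 84) (nat_lit 2245062619)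 (nat_lit 0) (nat_lit 2429152857) (nat_lit 420) (nat_lit 2245062619) (nat_lit 94) (nat_lit 1) (nat_lit 93) (nat_lit 1) (nat_lit 98) (nat_lit 1) (nat_lit 220) (nat_lit 261) (nat_lit 239)) (XT.lf (nat_lit 420) (nat_lit 3276170889) (nat_lit 0) (nat_lit 1751976484) (nat_lit 336) (nat_lit 1751976484) (nat_lit 94) (nat_lit 1) (nat_lit 89) (nat_lit 1) (nat_lit 93) (nat_lit 1) (nat_lit 221) (nat_lit 261) (nat_lit 238))))))) (XT.nd (nat_lit 1222) (nat_lit 1512) (nat_lit 0) (XT.nd (nat_lit 564) (nat_lit 1344) (nat_lit 0) (XT.nd (nat_lit 282) (nat_lit 252) (nat_lit 0) (XT.nd (nat_lit 94) (nat_lit 672) (nat_lit 0) (XT.lf (nat_lit 84) (nat_lit 1033158085) (nat_lit 0) (nat_lit 4578722330) (nat_lit 420) (nat_lit 1033158085) (nat_lit 90) (nat_lit 1) (nat_lit 89) (nat_lit 1) (nat_lit 94) (nat_lit 1) (nat_lit 222) (nat_lit 261) (nat_lit 237)) (XT.nd (nat_lit 94) (nat_lit 420) (nat_lit 0) (XT.lf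 (nat_lit 336) (nat_lit 840223221) (nat_lit 0) (nat_lit 2836322938) (nat_lit 252) (nat_lit 2836322938) (nat_lit 90) (nat_lit 1) (nat_lit 86) (nat_lit 1) (nat_lit 89) (nat_lit 1) (nat_lit 223) (nat_lit 261) (nat_lit 236)) (XT.lf (nat_lit 420) (nat_lit 6050045920) (nat_lit 0) (nat_lit 167877165) (nat_lit 336) (nat_lit 167877165) (nat_lit 86) (nat_lit 1) (nat_lit 81) (nat_lit 1) (nat_lit 85) (nat_lit 1) (nat_lit 224) (nat_lit 261) (nat_lit 235)))) (XT.nd (nat_lit 94) (nat_lit 252) (nat_lit 0) (XT.lf (nat_lit 84) (nat_lit 2367427695) (nat_lit 0) (nat_lit 1524579324) (nat_lit 420) (nat_lit 2367427695) (nat_lit 82) (nat_lit 1) (nat_lit 81) (nat_lit 1) (nat_lit 86) (nat_lit 1) (nat_lit 225) (nat_lit 261) (nat_lit 234)) (XT.nd (nat_lit 94) (nat_lit 0) (nat_lit 0) (XT.lf (nat_lit 336) (nat_lit 3457702994) (nat_lit 0) (nat_lit 1340106320) (nat_lit 252) (nat_lit 1340106320) (nat_lit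 82) (nat_lit 1) (nat_lit 78) (nat_lit 1) (nat_lit 81) (nat_lit 1) (nat_lit 226) (nat_lit 261) (nat_lit 233)) (XT.lf (nat_lit 84) (nat_lit 1092341861) (nat_lit 0) (nat_lit 3834800233) (nat_lit 336) (nat_lit 1092341861) (nat_lit 79) (nat_lit 1) (nat_lit 78) (nat_lit 1) (nat_lit 82) (nat_lit 1) (nat_lit 227) (nat_lit 261) (nat_lit 232))))) (XT.nd (nat_lit 282) (nat_lit 756) (nat_lit 0) (XT.nd (nat_lit 94) (nat_lit 336) (nat_lit 0) (XT.lf (nat_lit 336) (nat_lit 910432798) (nat_lit 0) (nat_lit 2496656882) (nat_lit 252) (nat_lit 2496656882) (nat_lit 79) (nat_lit 1) (nat_lit 75) (nat_lit 1) (nat_lit 78) (nat_lit 1) (nat_lit 228) (nat_lit 261) (nat_lit 231)) (XT.nd (nat_lit 94) (nat_lit 0) (nat_lit 0) (XT.lf (nat_lit 336) (nat_lit 5479374401) (nat_lit 0) (nat_lit 156467281) (nat_lit 252) (nat_lit 156467281) (nat_lit 75) (nat_lit 1) (nat_lit 71) (nat_lit 1) (nat_lit 74) (nat_lit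 1) (nat_lit 229) (nat_lit 261) (nat_lit 230)) (XT.lf (nat_lit 84) (nat_lit 2072690416) (nat_lit 0) (nat_lit 1535842786) (nat_lit 336) (nat_lit 2072690416) (nat_lit 72) (nat_lit 1) (nat_lit 71) (nat_lit 1) (nat_lit 75) (nat_lit 1) (nat_lit 230) (nat_lit 261) (nat_lit 229)))) (XT.nd (nat_lit 188) (nat_lit 504) (nat_lit 0) (XT.nd (nat_lit 94) (nat_lit 0) (nat_lit 0) (XT.lf (nat_lit 336) (nat_lit 2850139110) (nat_lit 0) (nat_lit 1362054670) (nat_lit 252) (nat_lit 1362054670) (nat_lit 72) (nat_lit 1) (nat_lit 68) (nat_lit 1) (nat_lit 71) (nat_lit 1) (nat_lit 231) (nat_lit 261) (nat_lit 228)) (XT.lf (nat_lit 84) (nat_lit 784925986) (nat_lit 0) (nat_lit 3900290433) (nat_lit 336) (nat_lit 784925986) (nat_lit 69) (nat_lit 1) (nat_lit 68) (nat_lit 1) (nat_lit 72) (nat_lit 1) (nat_lit 232) (nat_lit 261) (nat_lit 227))) (XT.nd (nat_lit 94) (nat_lit 336) (nat_lit 0) (XT.lf (nat_lit 252)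 (nat_lit 287622979) (nat_lit 0) (nat_lit 2540187598) (nat_lit 168) (nat_lit 2540187598) (nat_lit 69) (nat_lit 1) (nat_lit 66) (nat_lit 1) (nat_lit 68) (nat_lit 1) (nat_lit 233) (nat_lit 261) (nat_lit 226)) (XT.lf (nat_lit 336) (nat_lit 4345886780) (nat_lit 0) (nat_lit 461564676) (nat_lit 252) (nat_lit 461564676) (nat_lit 66) (nat_lit 1) (nat_lit 62) (nat_lit 1) (nat_lit 65) (nat_lit 1) (nat_lit 234) (nat_lit 261) (nat_lit 225)))))) (XT.nd (nat_lit 658) (nat_lit 756) (nat_lit 0) (XT.nd (nat_lit 282) (nat_lit 588) (nat_lit 0) (XT.nd (nat_lit 94) (nat_lit 168) (nat_lit 0) (XT.lf (nat_lit 84) (nat_lit 1517915093) (nat_lit 0) (nat_lit 2135310921) (nat_lit 336) (nat_lit 1517915093) (nat_lit 63) (nat_lit 1) (nat_lit 62) (nat_lit 1) (nat_lit 66) (nat_lit 1) (nat_lit 235) (nat_lit 261) (nat_lit 224)) (XT.nd (nat_lit 94) (nat_lit 0) (nat_lit 0) (XT.lf (nat_lit 252) (nat_lit 1753716742)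 (nat_lit 0) (nat_lit 1661285016) (nat_lit 168) (nat_lit 1661285016) (nat_lit 63) (nat_lit 1) (nat_lit 60) (nat_lit 1) (nat_lit 62) (nat_lit 1) (nat_lit 236) (nat_lit 261) (nat_lit 223)) (XT.lf (nat_lit 84) (nat_lit 251953431) (nat_lit 0) (nat_lit 4480673429) (nat_lit 252) (nat_lit 251953431) (nat_lit 61) (nat_lit 1) (nat_lit 60) (nat_lit 1) (nat_lit 63) (nat_lit 1) (nat_lit 237) (nat_lit 261) (nat_lit 222)))) (XT.nd (nat_lit 188) (nat_lit 168) (nat_lit 0) (XT.nd (nat_lit 94) (nat_lit 168) (nat_lit 0) (XT.lf (nat_lit 84) (nat_lit 2079415876) (nat_lit 0) (nat_lit 734375417) (nat_lit 252) (nat_lit 2079415876) (nat_lit 58) (nat_lit 1) (nat_lit 57) (nat_lit 1) (nat_lit 60) (nat_lit 1) (nat_lit 238) (nat_lit 261) (nat_lit 221)) (XT.lf (nat_lit 252) (nat_lit 2887633394) (nat_lit 0) (nat_lit 958616049) (nat_lit 168) (nat_lit 958616049) (nat_lit 58) (nat_lit 1) (nat_lit 55) (nat_lit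 1) (nat_lit 57) (nat_lit 1) (nat_lit 239) (nat_lit 261) (nat_lit 220))) (XT.nd (nat_lit 94) (nat_lit 168) (nat_lit 0) (XT.lf (nat_lit 84) (nat_lit 814815018) (nat_lit 0) (nat_lit 3088846321) (nat_lit 252) (nat_lit 814815018) (nat_lit 56) (nat_lit 1) (nat_lit 55) (nat_lit 1) (nat_lit 58) (nat_lit 1) (nat_lit 240) (nat_lit 261) (nat_lit 219)) (XT.lf (nat_lit 252) (nat_lit 381711500) (nat_lit 0) (nat_lit 2126058553) (nat_lit 168) (nat_lit 2126058553) (nat_lit 56) (nat_lit 1) (nat_lit 53) (nat_lit 1) (nat_lit 55) (nat_lit 1) (nat_lit 241) (nat_lit 261) (nat_lit 218))))) (XT.nd (nat_lit 282) (nat_lit 336) (nat_lit 0) (XT.nd (nat_lit 94) (nat_lit 168) (nat_lit 0) (XT.lf (nat_lit 252) (nat_lit 3751707225) (nat_lit 0) (nat_lit 399963181) (nat_lit 168) (nat_lit 399963181) (nat_lit 53) (nat_lit 1) (nat_lit 50) (nat_lit 1) (nat_lit 52) (nat_lit 1) (nat_lit 242) (nat_lit 261) (nat_lit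 217)) (XT.nd (nat_lit 94) (nat_lit 168) (nat_lit 0) (XT.lf (nat_lit 84) (nat_lit 1248952529) (nat_lit 0) (nat_lit 1972235038) (nat_lit 252) (nat_lit 1248952529) (nat_lit 51) (nat_lit 1) (nat_lit 50) (nat_lit 1) (nat_lit 53) (nat_lit 1) (nat_lit 243) (nat_lit 261) (nat_lit 216)) (XT.lf (nat_lit 252) (nat_lit 1271997513) (nat_lit 0) (nat_lit 1559507479) (nat_lit 168) (nat_lit 1559507479) (nat_lit 51) (nat_lit 1) (nat_lit 48) (nat_lit 1) (nat_lit 50) (nat_lit 1) (nat_lit 244) (nat_lit 261) (nat_lit 215)))) (XT.nd (nat_lit 188) (nat_lit 168) (nat_lit 0) (XT.nd (nat_lit 94) (nat_lit 168) (nat_lit 0) (XT.lf (nat_lit 84) (nat_lit 41807050) (nat_lit 0) (nat_lit 4231045759) (nat_lit 252) (nat_lit 41807050) (nat_lit 49) (nat_lit 1) (nat_lit 48) (nat_lit 1) (nat_lit 51) (nat_lit 1) (nat_lit 245) (nat_lit 261) (nat_lit 214)) (XT.lf (nat_lit 84) (nat_lit 1578566047) (nat_lit 0) (nat_lit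 1080689814) (nat_lit 168) (nat_lit 1578566047) (nat_lit 47) (nat_lit 1) (nat_lit 46) (nat_lit 1) (nat_lit 48) (nat_lit 1) (nat_lit 246) (nat_lit 261) (nat_lit 213))) (XT.nd (nat_lit 94) (nat_lit 0) (nat_lit 0) (XT.lf (nat_lit 252) (nat_lit 1958820757) (nat_lit 0) (nat_lit 1102433374) (nat_lit 168) (nat_lit 1102433374) (nat_lit 47) (nat_lit 1) (nat_lit 44) (nat_lit 1) (nat_lit 46) (nat_lit 1) (nat_lit 247) (nat_lit 261) (nat_lit 212)) (XT.lf (nat_lit 84) (nat_lit 392730023) (nat_lit 0) (nat_lit 3306094129) (nat_lit 252) (nat_lit 392730023) (nat_lit 45) (nat_lit 1) (nat_lit 44) (nat_lit 1) (nat_lit 47) (nat_lit 1) (nat_lit 248) (nat_lit 261) (nat_lit 211))))))))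
noncomputable def ec69 : XT := (XT.nd (nat_lit 2538) (nat_lit 1176) (nat_lit 0) (XT.nd (nat_lit 1222) (nat_lit 1092) (nat_lit 0) (XT.nd (nat_lit 564) (nat_lit 756) (nat_lit 0) (XT.nd (nat_lit 282) (nat_lit 336) (nat_lit 0) (XT.nd (nat_lit 94) (nat_lit 168) (nat_lit 0) (XT.lf (nat_lit 84) (nat_lit 1823499443) (nat_lit 0) (nat_lit 373016820) (nat_lit 168) (nat_lit 1823499443) (nat_lit 43) (nat_lit 1) (nat_lit 42) (nat_lit 1) (nat_lit 44) (nat_lit 1) (nat_lit 249) (nat_lit 261) (nat_lit 210)) (XT.nd (nat_lit 94) (nat_lit 0) (nat_lit 0) (XT.lf (nat_lit 252) (nat_lit 2480426927) (nat_lit 0) (nat_lit 734996294) (nat_lit 168) (nat_lit 734996294) (nat_lit 43) (nat_lit 1) (nat_lit 40) (nat_lit 1) (nat_lit 42) (nat_lit 1) (nat_lit 250) (nat_lit 261) (nat_lit 209)) (XT.lf (nat_lit 84) (nat_lit 664371639) (nat_lit 0) (nat_lit 2553457833) (nat_lit 252) (nat_lit 664371639) (nat_lit 41)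 (nat_lit 1) (nat_lit 40) (nat_lit 1) (nat_lit 43) (nat_lit 1) (nat_lit 251) (nat_lit 261) (nat_lit 208)))) (XT.nd (nat_lit 94) (nat_lit 252) (nat_lit 0) (XT.lf (nat_lit 168) (nat_lit 190716903) (nat_lit 0) (nat_lit 1812276558) (nat_lit 84) (nat_lit 1812276558) (nat_lit 41) (nat_lit 1) (nat_lit 39) (nat_lit 1) (nat_lit 40) (nat_lit 1) (nat_lit 252) (nat_lit 261) (nat_lit 207)) (XT.nd (nat_lit 94) (nat_lit 0) (nat_lit 0) (XT.lf (nat_lit 252) (nat_lit 2868177412) (nat_lit 0) (nat_lit 440894346) (nat_lit 168) (nat_lit 440894346) (nat_lit 39) (nat_lit 1) (nat_lit 36) (nat_lit 1) (nat_lit 38) (nat_lit 1) (nat_lit 253) (nat_lit 261) (nat_lit 206)) (XT.lf (nat_lit 84) (nat_lit 871600835) (nat_lit 0) (nat_lit 1942189423) (nat_lit 252) (nat_lit 871600835) (nat_lit 37) (nat_lit 1) (nat_lit 36) (nat_lit 1) (nat_lit 39) (nat_lit 1) (nat_lit 254) (nat_lit 261) (nat_lit 205))))) (XT.nd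 (nat_lit 282) (nat_lit 420) (nat_lit 0) (XT.nd (nat_lit 94) (nat_lit 252) (nat_lit 0) (XT.lf (nat_lit 168) (nat_lit 640470568) (nat_lit 0) (nat_lit 1490964409) (nat_lit 84) (nat_lit 1490964409) (nat_lit 37) (nat_lit 1) (nat_lit 35) (nat_lit 1) (nat_lit 36) (nat_lit 1) (nat_lit 255) (nat_lit 261) (nat_lit 204)) (XT.nd (nat_lit 94) (nat_lit 0) (nat_lit 0) (XT.lf (nat_lit 252) (nat_lit 3147774789) (nat_lit 0) (nat_lit 206735418) (nat_lit 168) (nat_lit 206735418) (nat_lit 35) (nat_lit 1) (nat_lit 32) (nat_lit 1) (nat_lit 34) (nat_lit 1) (nat_lit 256) (nat_lit 261) (nat_lit 203)) (XT.lf (nat_lit 84) (nat_lit 1026611635) (nat_lit 0) (nat_lit 1446847230) (nat_lit 252) (nat_lit 1026611635) (nat_lit 33) (nat_lit 1) (nat_lit 32) (nat_lit 1) (nat_lit 35) (nat_lit 1) (nat_lit 257) (nat_lit 261) (nat_lit 202)))) (XT.nd (nat_lit 188) (nat_lit 84) (nat_lit 0) (XT.nd (nat_lit 94) (nat_lit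 252) (nat_lit 0) (XT.lf (nat_lit 168) (nat_lit 987457007) (nat_lit 0) (nat_lit 1226620109) (nat_lit 84) (nat_lit 1226620109) (nat_lit 33) (nat_lit 1) (nat_lit 31) (nat_lit 1) (nat_lit 32) (nat_lit 1) (nat_lit 258) (nat_lit 261) (nat_lit 201)) (XT.lf (nat_lit 252) (nat_lit 3340270808) (nat_lit 0) (nat_lit 21520357) (nat_lit 168) (nat_lit 21520357) (nat_lit 31) (nat_lit 1) (nat_lit 28) (nat_lit 1) (nat_lit 30) (nat_lit 1) (nat_lit 259) (nat_lit 261) (nat_lit 200))) (XT.nd (nat_lit 94) (nat_lit 84) (nat_lit 0) (XT.lf (nat_lit 84) (nat_lit 1139399238) (nat_lit 0) (nat_lit 1046518306) (nat_lit 252) (nat_lit 1139399238) (nat_lit 29) (nat_lit 1) (nat_lit 28) (nat_lit 1) (nat_lit 31) (nat_lit 1) (nat_lit 260) (nat_lit 261) (nat_lit 199)) (XT.lf (nat_lit 168) (nat_lit 1250993119) (nat_lit 0) (nat_lit 1009143399) (nat_lit 84) (nat_lit 1009143399) (nat_lit 29) (nat_lit 1) (nat_lit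 27) (nat_lit 1) (nat_lit 28) (nat_lit 1) (nat_lit 261) (nat_lit 261) (nat_lit 198)))))) (XT.nd (nat_lit 658) (nat_lit 588) (nat_lit 0) (XT.nd (nat_lit 282) (nat_lit 252) (nat_lit 0) (XT.nd (nat_lit 94) (nat_lit 252) (nat_lit 0) (XT.lf (nat_lit 0) (nat_lit 125811395) (nat_lit 0) (nat_lit 2963312111) (nat_lit 168) (nat_lit 125811395) (nat_lit 27) (nat_lit 3) (nat_lit 27) (nat_lit 1) (nat_lit 29) (nat_lit 1) (nat_lit 262) (nat_lit 261) (nat_lit 197)) (XT.nd (nat_lit 94) (nat_lit 84) (nat_lit 0) (XT.lf (nat_lit 84) (nat_lit 1218151626) (nat_lit 0) (nat_lit 724014638) (nat_lit 168) (nat_lit 1218151626) (nat_lit 26) (nat_lit 1) (nat_lit 25) (nat_lit 1) (nat_lit 27) (nat_lit 1) (nat_lit 263) (nat_lit 261) (nat_lit 196)) (XT.lf (nat_lit 168) (nat_lit 1446918750) (nat_lit 0) (nat_lit 830224772) (nat_lit 84) (nat_lit 830224772) (nat_lit 26) (nat_lit 1) (nat_lit 24) (nat_lit 1) (nat_lit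 25) (nat_lit 1) (nat_lit 264) (nat_lit 261) (nat_lit 195)))) (XT.nd (nat_lit 188) (nat_lit 84) (nat_lit 0) (XT.nd (nat_lit 94) (nat_lit 168) (nat_lit 0) (XT.lf (nat_lit 0) (nat_lit 240463908) (nat_lit 0) (nat_lit 2574882770) (nat_lit 168) (nat_lit 240463908) (nat_lit 24) (nat_lit 3) (nat_lit 24) (nat_lit 1) (nat_lit 26) (nat_lit 1) (nat_lit 265) (nat_lit 261) (nat_lit 194)) (XT.lf (nat_lit 84) (nat_lit 1269571645) (nat_lit 0) (nat_lit 465211908) (nat_lit 168) (nat_lit 1269571645) (nat_lit 23) (nat_lit 1) (nat_lit 22) (nat_lit 1) (nat_lit 24) (nat_lit 1) (nat_lit 266) (nat_lit 261) (nat_lit 193))) (XT.nd (nat_lit 94) (nat_lit 0) (nat_lit 0) (XT.lf (nat_lit 168) (nat_lit 1588215651) (nat_lit 0) (nat_lit 683027974) (nat_lit 84) (nat_lit 683027974) (nat_lit 23) (nat_lit 1) (nat_lit 21) (nat_lit 1) (nat_lit 22) (nat_lit 1) (nat_lit 267) (nat_lit 261) (nat_lit 192)) (XT.lf (nat_lit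 0) (nat_lit 328266978) (nat_lit 0) (nat_lit 2248799153) (nat_lit 168) (nat_lit 328266978) (nat_lit 21) (nat_lit 3) (nat_lit 21) (nat_lit 1) (nat_lit 23) (nat_lit 1) (nat_lit 268) (nat_lit 261) (nat_lit 191))))) (XT.nd (nat_lit 282) (nat_lit 336) (nat_lit 0) (XT.nd (nat_lit 94) (nat_lit 84) (nat_lit 0) (XT.lf (nat_lit 84) (nat_lit 1299141914) (nat_lit 0) (nat_lit 258505535) (nat_lit 168) (nat_lit 1299141914) (nat_lit 20) (nat_lit 1) (nat_lit 19) (nat_lit 1) (nat_lit 21) (nat_lit 1) (nat_lit 269) (nat_lit 261) (nat_lit 190)) (XT.nd (nat_lit 94) (nat_lit 0) (nat_lit 0) (XT.lf (nat_lit 168) (nat_lit 1685516579) (nat_lit 0) (nat_lit 561928805) (nat_lit 84) (nat_lit 561928805) (nat_lit 20) (nat_lit 1) (nat_lit 18) (nat_lit 1) (nat_lit 19) (nat_lit 1) (nat_lit 270) (nat_lit 261) (nat_lit 189)) (XT.lf (nat_lit 0) (nat_lit 394291509) (nat_lit 0) (nat_lit 1974318082) (nat_lit 168)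 (nat_lit 394291509) (nat_lit 18) (nat_lit 3) (nat_lit 18) (nat_lit 1) (nat_lit 20) (nat_lit 1) (nat_lit 271) (nat_lit 261) (nat_lit 188)))) (XT.nd (nat_lit 188) (nat_lit 84) (nat_lit 0) (XT.nd (nat_lit 94) (nat_lit 84) (nat_lit 0) (XT.lf (nat_lit 84) (nat_lit 1311342677) (nat_lit 0) (nat_lit 94363187) (nat_lit 168) (nat_lit 1311342677) (nat_lit 17) (nat_lit 1) (nat_lit 16) (nat_lit 1) (nat_lit 18) (nat_lit 1) (nat_lit 272) (nat_lit 261) (nat_lit 187)) (XT.lf (nat_lit 168) (nat_lit 1747524026) (nat_lit 0) (nat_lit 462300218) (nat_lit 84) (nat_lit 462300218) (nat_lit 17) (nat_lit 1) (nat_lit 15) (nat_lit 1) (nat_lit 16) (nat_lit 1) (nat_lit 273) (nat_lit 261) (nat_lit 186))) (XT.nd (nat_lit 94) (nat_lit 84) (nat_lit 0) (XT.lf (nat_lit 0) (nat_lit 442694556) (nat_lit 0) (nat_lit 1742586327) (nat_lit 168) (nat_lit 442694556) (nat_lit 15) (nat_lit 3) (nat_lit 15) (nat_lit 1)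 (nat_lit 17) (nat_lit 1) (nat_lit 274) (nat_lit 261) (nat_lit 185)) (XT.lf (nat_lit 84) (nat_lit 36202010) (nat_lit 0) (nat_lit 1274194174) (nat_lit 84) (nat_lit 1274194174) (nat_lit 15) (nat_lit 3) (nat_lit 14) (nat_lit 1) (nat_lit 15) (nat_lit 1) (nat_lit 275) (nat_lit 261) (nat_lit 184))))))) (XT.nd (nat_lit 1316) (nat_lit 0) (nat_lit 0) (XT.nd (nat_lit 658) (nat_lit 504) (nat_lit 0) (XT.nd (nat_lit 282) (nat_lit 420) (nat_lit 0) (XT.nd (nat_lit 94) (nat_lit 84) (nat_lit 0) (XT.lf (nat_lit 168) (nat_lit 1781354593) (nat_lit 0) (nat_lit 380335534) (nat_lit 84) (nat_lit 380335534) (nat_lit 14) (nat_lit 1) (nat_lit 12) (nat_lit 1) (nat_lit 13) (nat_lit 1) (nat_lit 276) (nat_lit 261) (nat_lit 183)) (XT.nd (nat_lit 94) (nat_lit 84) (nat_lit 0) (XT.lf (nat_lit 0) (nat_lit 476882055) (nat_lit 0) (nat_lit 1546306232) (nat_lit 168) (nat_lit 476882055) (nat_lit 12) (nat_lit 3)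 (nat_lit 12) (nat_lit 1) (nat_lit 14) (nat_lit 1) (nat_lit 277) (nat_lit 261) (nat_lit 182)) (XT.lf (nat_lit 84) (nat_lit 140642274) (nat_lit 0) (nat_lit 1159141491) (nat_lit 84) (nat_lit 1159141491) (nat_lit 12) (nat_lit 3) (nat_lit 11) (nat_lit 1) (nat_lit 12) (nat_lit 1) (nat_lit 278) (nat_lit 261) (nat_lit 181)))) (XT.nd (nat_lit 188) (nat_lit 252) (nat_lit 0) (XT.nd (nat_lit 94) (nat_lit 0) (nat_lit 0) (XT.lf (nat_lit 168) (nat_lit 1792822215) (nat_lit 0) (nat_lit 312902985) (nat_lit 84) (nat_lit 312902985) (nat_lit 11) (nat_lit 1) (nat_lit 9) (nat_lit 1) (nat_lit 10) (nat_lit 1) (nat_lit 279) (nat_lit 261) (nat_lit 180)) (XT.lf (nat_lit 0) (nat_lit 499642664) (nat_lit 0) (nat_lit 1379460581) (nat_lit 168) (nat_lit 499642664) (nat_lit 9) (nat_lit 3) (nat_lit 9) (nat_lit 1) (nat_lit 11) (nat_lit 1) (nat_lit 280) (nat_lit 261) (nat_lit 179))) (XT.nd (nat_lit 94) (nat_lit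 168) (nat_lit 0) (XT.lf (nat_lit 84) (nat_lit 221286548) (nat_lit 0) (nat_lit 1059208374) (nat_lit 84) (nat_lit 1059208374) (nat_lit 9) (nat_lit 3) (nat_lit 8) (nat_lit 1) (nat_lit 9) (nat_lit 1) (nat_lit 281) (nat_lit 261) (nat_lit 178)) (XT.lf (nat_lit 168) (nat_lit 1786671066) (nat_lit 0) (nat_lit 257426060) (nat_lit 84) (nat_lit 257426060) (nat_lit 8) (nat_lit 1) (nat_lit 6) (nat_lit 1) (nat_lit 7) (nat_lit 1) (nat_lit 282) (nat_lit 261) (nat_lit 177))))) (XT.nd (nat_lit 282) (nat_lit 252) (nat_lit 0) (XT.nd (nat_lit 94) (nat_lit 252) (nat_lit 0) (XT.lf (nat_lit 0) (nat_lit 513257844) (nat_lit 0) (nat_lit 1237086222) (nat_lit 168) (nat_lit 513257844) (nat_lit 6) (nat_lit 3) (nat_lit 6) (nat_lit 1) (nat_lit 8) (nat_lit 1) (nat_lit 283) (nat_lit 261) (nat_lit 176)) (XT.nd (nat_lit 94) (nat_lit 168) (nat_lit 0) (XT.lf (nat_lit 84) (nat_lit 282605182) (nat_lit 0) (nat_lit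 971965542) (nat_lit 84) (nat_lit 971965542) (nat_lit 6) (nat_lit 3) (nat_lit 5) (nat_lit 1) (nat_lit 6) (nat_lit 1) (nat_lit 284) (nat_lit 261) (nat_lit 175)) (XT.lf (nat_lit 168) (nat_lit 1766767082) (nat_lit 0) (nat_lit 211785056) (nat_lit 84) (nat_lit 211785056) (nat_lit 5) (nat_lit 1) (nat_lit 3) (nat_lit 1) (nat_lit 4) (nat_lit 1) (nat_lit 285) (nat_lit 261) (nat_lit 174)))) (XT.nd (nat_lit 188) (nat_lit 168) (nat_lit 0) (XT.nd (nat_lit 94) (nat_lit 84) (nat_lit 0) (XT.lf (nat_lit 0) (nat_lit 519592391) (nat_lit 0) (nat_lit 1115087789) (nat_lit 168) (nat_lit 519592391) (nat_lit 3) (nat_lit 3) (nat_lit 3) (nat_lit 1) (nat_lit 5) (nat_lit 1) (nat_lit 286) (nat_lit 261) (nat_lit 173)) (XT.lf (nat_lit 84) (nat_lit 328263974) (nat_lit 0) (nat_lit 895402448) (nat_lit 84) (nat_lit 895402448) (nat_lit 3) (nat_lit 3) (nat_lit 2) (nat_lit 1) (nat_lit 3) (nat_lit 1) (nat_lit 287)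 (nat_lit 261) (nat_lit 172))) (XT.nd (nat_lit 94) (nat_lit 0) (nat_lit 0) (XT.lf (nat_lit 0) (nat_lit 3028458821) (nat_lit 0) (nat_lit 0) (nat_lit 0) (nat_lit 0) (nat_lit 0) (nat_lit 0) (nat_lit 1) (nat_lit 0) (nat_lit 1) (nat_lit 0) (nat_lit 288) (nat_lit 261) (nat_lit 171)) (XT.lf (nat_lit 0) (nat_lit 3026694332) (nat_lit 0) (nat_lit 0) (nat_lit 0) (nat_lit 0) (nat_lit 0) (nat_lit 0) (nat_lit 1) (nat_lit 0) (nat_lit 1) (nat_lit 0) (nat_lit 289) (nat_lit 261) (nat_lit 170)))))) (XT.nd (nat_lit 658) (nat_lit 0) (nat_lit 0) (XT.nd (nat_lit 282) (nat_lit 0) (nat_lit 0) (XT.nd (nat_lit 94) (nat_lit 0) (nat_lit 0) (XT.lf (nat_lit 0) (nat_lit 3025013866) (nat_lit 0) (nat_lit 0) (nat_lit 0) (nat_lit 0) (nat_lit 0) (nat_lit 0) (nat_lit 1) (nat_lit 0) (nat_lit 1) (nat_lit 0) (nat_lit 290) (nat_lit 261) (nat_lit 169)) (XT.nd (nat_lit 94) (nat_lit 0) (nat_lit 0) (XT.lf (nat_lit 0)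 (nat_lit 3023413422) (nat_lit 0) (nat_lit 0) (nat_lit 0) (nat_lit 0) (nat_lit 0) (nat_lit 0) (nat_lit 1) (nat_lit 0) (nat_lit 1) (nat_lit 0) (nat_lit 291) (nat_lit 261) (nat_lit 168)) (XT.lf (nat_lit 0) (nat_lit 3021889191) (nat_lit 0) (nat_lit 0) (nat_lit 0) (nat_lit 0) (nat_lit 0) (nat_lit 0) (nat_lit 1) (nat_lit 0) (nat_lit 1) (nat_lit 0) (nat_lit 292) (nat_lit 261) (nat_lit 167)))) (XT.nd (nat_lit 188) (nat_lit 0) (nat_lit 0) (XT.nd (nat_lit 94) (nat_lit 0) (nat_lit 0) (XT.lf (nat_lit 0) (nat_lit 3020437541) (nat_lit 0) (nat_lit 0) (nat_lit 0) (nat_lit 0) (nat_lit 0) (nat_lit 0) (nat_lit 1) (nat_lit 0) (nat_lit 1) (nat_lit 0) (nat_lit 293) (nat_lit 261) (nat_lit 166)) (XT.lf (nat_lit 0) (nat_lit 3019055018) (nat_lit 0) (nat_lit 0) (nat_lit 0) (nat_lit 0) (nat_lit 0) (nat_lit 0) (nat_lit 1) (nat_lit 0) (nat_lit 1) (nat_lit 0) (nat_lit 294) (nat_lit 261) (nat_lit 165)))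 (XT.nd (nat_lit 94) (nat_lit 0) (nat_lit 0) (XT.lf (nat_lit 0) (nat_lit 3017738329) (nat_lit 0) (nat_lit 0) (nat_lit 0) (nat_lit 0) (nat_lit 0) (nat_lit 0) (nat_lit 1) (nat_lit 0) (nat_lit 1) (nat_lit 0) (nat_lit 295) (nat_lit 261) (nat_lit 164)) (XT.lf (nat_lit 0) (nat_lit 3016484340) (nat_lit 0) (nat_lit 0) (nat_lit 0) (nat_lit 0) (nat_lit 0) (nat_lit 0) (nat_lit 1) (nat_lit 0) (nat_lit 1) (nat_lit 0) (nat_lit 296) (nat_lit 261) (nat_lit 163))))) (XT.nd (nat_lit 282) (nat_lit 0) (nat_lit 0) (XT.nd (nat_lit 94) (nat_lit 0) (nat_lit 0) (XT.lf (nat_lit 0) (nat_lit 3015290064) (nat_lit 0) (nat_lit 0) (nat_lit 0) (nat_lit 0) (nat_lit 0) (nat_lit 0) (nat_lit 1) (nat_lit 0) (nat_lit 1) (nat_lit 0) (nat_lit 297) (nat_lit 261) (nat_lit 162)) (XT.nd (nat_lit 94) (nat_lit 0) (nat_lit 0) (XT.lf (nat_lit 0) (nat_lit 3014152659) (nat_lit 0) (nat_lit 0) (nat_lit 0) (nat_lit 0) (nat_lit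 0) (nat_lit 0) (nat_lit 1) (nat_lit 0) (nat_lit 1) (nat_lit 0) (nat_lit 298) (nat_lit 261) (nat_lit 161)) (XT.lf (nat_lit 0) (nat_lit 3013069416) (nat_lit 0) (nat_lit 0) (nat_lit 0) (nat_lit 0) (nat_lit 0) (nat_lit 0) (nat_lit 1) (nat_lit 0) (nat_lit 1) (nat_lit 0) (nat_lit 299) (nat_lit 261) (nat_lit 160)))) (XT.nd (nat_lit 188) (nat_lit 0) (nat_lit 0) (XT.nd (nat_lit 94) (nat_lit 0) (nat_lit 0) (XT.lf (nat_lit 0) (nat_lit 3012037756) (nat_lit 0) (nat_lit 0) (nat_lit 0) (nat_lit 0) (nat_lit 0) (nat_lit 0) (nat_lit 1) (nat_lit 0) (nat_lit 1) (nat_lit 0) (nat_lit 300) (nat_lit 261) (nat_lit 159)) (XT.lf (nat_lit 0) (nat_lit 3011055222) (nat_lit 0) (nat_lit 0) (nat_lit 0) (nat_lit 0) (nat_lit 0) (nat_lit 0) (nat_lit 1) (nat_lit 0) (nat_lit 1) (nat_lit 0) (nat_lit 301) (nat_lit 261) (nat_lit 158))) (XT.nd (nat_lit 94) (nat_lit 0) (nat_lit 0) (XT.lf (nat_lit 0) (nat_lit 3010119476)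 (nat_lit 0) (nat_lit 0) (nat_lit 0) (nat_lit 0) (nat_lit 0) (nat_lit 0) (nat_lit 1) (nat_lit 0) (nat_lit 1) (nat_lit 0) (nat_lit 302) (nat_lit 261) (nat_lit 157)) (XT.lf (nat_lit 0) (nat_lit 3009228289) (nat_lit 0) (nat_lit 0) (nat_lit 0) (nat_lit 0) (nat_lit 0) (nat_lit 0) (nat_lit 1) (nat_lit 0) (nat_lit 1) (nat_lit 0) (nat_lit 303) (nat_lit 261) (nat_lit 156))))))))
noncomputable def ec70 : XT := (XT.nd (nat_lit 36002) (nat_lit 0) (nat_lit 5208) (XT.nd (nat_lit 1222) (nat_lit 0) (nat_lit 0) (XT.nd (nat_lit 564) (nat_lit 0) (nat_lit 0) (XT.nd (nat_lit 282) (nat_lit 0) (nat_lit 0) (XT.nd (nat_lit 94) (nat_lit 0) (nat_lit 0) (XT.lf (nat_lit 0) (nat_lit 3008379540) (nat_lit 0) (nat_lit 0) (nat_lit 0) (nat_lit 0) (nat_lit 0) (nat_lit 0) (nat_lit 1) (nat_lit 0) (nat_lit 1) (nat_lit 0) (nat_lit 304) (nat_lit 261) (nat_lit 155)) (XT.nd (nat_lit 94) (nat_lit 0) (nat_lit 0) (XT.lf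 (nat_lit 0) (nat_lit 3007571207) (nat_lit 0) (nat_lit 0) (nat_lit 0) (nat_lit 0) (nat_lit 0) (nat_lit 0) (nat_lit 1) (nat_lit 0) (nat_lit 1) (nat_lit 0) (nat_lit 305) (nat_lit 261) (nat_lit 154)) (XT.lf (nat_lit 0) (nat_lit 3006801366) (nat_lit 0) (nat_lit 0) (nat_lit 0) (nat_lit 0) (nat_lit 0) (nat_lit 0) (nat_lit 1) (nat_lit 0) (nat_lit 1) (nat_lit 0) (nat_lit 306) (nat_lit 261) (nat_lit 153)))) (XT.nd (nat_lit 94) (nat_lit 0) (nat_lit 0) (XT.lf (nat_lit 0) (nat_lit 3006068185) (nat_lit 0) (nat_lit 0) (nat_lit 0) (nat_lit 0) (nat_lit 0) (nat_lit 0) (nat_lit 1) (nat_lit 0) (nat_lit 1) (nat_lit 0) (nat_lit 307) (nat_lit 261) (nat_lit 152)) (XT.nd (nat_lit 94) (nat_lit 0) (nat_lit 0) (XT.lf (nat_lit 0) (nat_lit 3005369917) (nat_lit 0) (nat_lit 0) (nat_lit 0) (nat_lit 0) (nat_lit 0) (nat_lit 0) (nat_lit 1) (nat_lit 0) (nat_lit 1) (nat_lit 0) (nat_lit 308) (nat_lit 261) (nat_lit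 151)) (XT.lf (nat_lit 0) (nat_lit 3004704899) (nat_lit 0) (nat_lit 0) (nat_lit 0) (nat_lit 0) (nat_lit 0) (nat_lit 0) (nat_lit 1) (nat_lit 0) (nat_lit 1) (nat_lit 0) (nat_lit 309) (nat_lit 261) (nat_lit 150))))) (XT.nd (nat_lit 282) (nat_lit 0) (nat_lit 0) (XT.nd (nat_lit 94) (nat_lit 0) (nat_lit 0) (XT.lf (nat_lit 0) (nat_lit 3004071550) (nat_lit 0) (nat_lit 0) (nat_lit 0) (nat_lit 0) (nat_lit 0) (nat_lit 0) (nat_lit 1) (nat_lit 0) (nat_lit 1) (nat_lit 0) (nat_lit 310) (nat_lit 261) (nat_lit 149)) (XT.nd (nat_lit 94) (nat_lit 0) (nat_lit 0) (XT.lf (nat_lit 0) (nat_lit 3003468359) (nat_lit 0) (nat_lit 0) (nat_lit 0) (nat_lit 0) (nat_lit 0) (nat_lit 0) (nat_lit 1) (nat_lit 0) (nat_lit 1) (nat_lit 0) (nat_lit 311) (nat_lit 261) (nat_lit 148)) (XT.lf (nat_lit 0) (nat_lit 3002893892) (nat_lit 0) (nat_lit 0) (nat_lit 0) (nat_lit 0) (nat_lit 0) (nat_lit 0) (nat_lit 1) (nat_lit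 0) (nat_lit 1) (nat_lit 0) (nat_lit 312) (nat_lit 261) (nat_lit 147)))) (XT.nd (nat_lit 188) (nat_lit 0) (nat_lit 0) (XT.nd (nat_lit 94) (nat_lit 0) (nat_lit 0) (XT.lf (nat_lit 0) (nat_lit 3002346781) (nat_lit 0) (nat_lit 0) (nat_lit 0) (nat_lit 0) (nat_lit 0) (nat_lit 0) (nat_lit 1) (nat_lit 0) (nat_lit 1) (nat_lit 0) (nat_lit 313) (nat_lit 261) (nat_lit 146)) (XT.lf (nat_lit 0) (nat_lit 3001825722) (nat_lit 0) (nat_lit 0) (nat_lit 0) (nat_lit 0) (nat_lit 0) (nat_lit 0) (nat_lit 1) (nat_lit 0) (nat_lit 1) (nat_lit 0) (nat_lit 314) (nat_lit 261) (nat_lit 145))) (XT.nd (nat_lit 94) (nat_lit 0) (nat_lit 0) (XT.lf (nat_lit 0) (nat_lit 3001329476) (nat_lit 0) (nat_lit 0) (nat_lit 0) (nat_lit 0) (nat_lit 0) (nat_lit 0) (nat_lit 1) (nat_lit 0) (nat_lit 1) (nat_lit 0) (nat_lit 315) (nat_lit 261) (nat_lit 144)) (XT.lf (nat_lit 0) (nat_lit 3000856861) (nat_lit 0) (nat_lit 0) (nat_lit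 0) (nat_lit 0) (nat_lit 0) (nat_lit 0) (nat_lit 1) (nat_lit 0) (nat_lit 1) (nat_lit 0) (nat_lit 316) (nat_lit 261) (nat_lit 143)))))) (XT.nd (nat_lit 34122) (nat_lit 0) (nat_lit 10836) (XT.nd (nat_lit 282) (nat_lit 0) (nat_lit 0) (XT.nd (nat_lit 94) (nat_lit 0) (nat_lit 0) (XT.lf (nat_lit 0) (nat_lit 3000406751) (nat_lit 0) (nat_lit 0) (nat_lit 0) (nat_lit 0) (nat_lit 0) (nat_lit 0) (nat_lit 1) (nat_lit 0) (nat_lit 1) (nat_lit 0) (nat_lit 317) (nat_lit 261) (nat_lit 142)) (XT.nd (nat_lit 94) (nat_lit 0) (nat_lit 0) (XT.lf (nat_lit 0) (nat_lit 2999978075) (nat_lit 0) (nat_lit 0) (nat_lit 0) (nat_lit 0) (nat_lit 0) (nat_lit 0) (nat_lit 1) (nat_lit 0) (nat_lit 1) (nat_lit 0) (nat_lit 318) (nat_lit 261) (nat_lit 141)) (XT.lf (nat_lit 0) (nat_lit 2999569812) (nat_lit 0) (nat_lit 0) (nat_lit 0) (nat_lit 0) (nat_lit 0) (nat_lit 0) (nat_lit 1) (nat_lit 0) (nat_lit 1) (nat_lit 0)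 (nat_lit 319) (nat_lit 261) (nat_lit 140)))) (XT.nd (nat_lit 33652) (nat_lit 0) (nat_lit 10752) (XT.nd (nat_lit 33558) (nat_lit 0) (nat_lit 10752) (XT.lf (nat_lit 0) (nat_lit 2999180990) (nat_lit 0) (nat_lit 0) (nat_lit 0) (nat_lit 0) (nat_lit 0) (nat_lit 0) (nat_lit 1) (nat_lit 0) (nat_lit 1) (nat_lit 0) (nat_lit 320) (nat_lit 261) (nat_lit 139)) (XT.lf (nat_lit 924) (nat_lit 1571861433) (nat_lit 0) (nat_lit 2790836362) (nat_lit 924) (nat_lit 1571861433) (nat_lit 139) (nat_lit 1) (nat_lit 128) (nat_lit 0) (nat_lit 139) (nat_lit 0) (nat_lit 196) (nat_lit 262) (nat_lit 262))) (XT.nd (nat_lit 94) (nat_lit 0) (nat_lit 84) (XT.lf (nat_lit 924) (nat_lit 6092731156) (nat_lit 84) (nat_lit 2745822872) (nat_lit 0) (nat_lit 2745822872) (nat_lit 139) (nat_lit 1) (nat_lit 129) (nat_lit 1) (nat_lit 128) (nat_lit 0) (nat_lit 197) (nat_lit 262) (nat_lit 261)) (XT.lf (nat_lit 924) (nat_lit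 2903703931) (nat_lit 0) (nat_lit 5501030373) (nat_lit 840) (nat_lit 2903703931) (nat_lit 140) (nat_lit 1) (nat_lit 129) (nat_lit 1) (nat_lit 139) (nat_lit 1) (nat_lit 198) (nat_lit 262) (nat_lit 260))))) (XT.nd (nat_lit 282) (nat_lit 0) (nat_lit 168) (XT.nd (nat_lit 94) (nat_lit 0) (nat_lit 84) (XT.lf (nat_lit 924) (nat_lit 5446945094) (nat_lit 84) (nat_lit 2797234674) (nat_lit 0) (nat_lit 2797234674) (nat_lit 140) (nat_lit 1) (nat_lit 130) (nat_lit 1) (nat_lit 129) (nat_lit 1) (nat_lit 199) (nat_lit 262) (nat_lit 259)) (XT.nd (nat_lit 94) (nat_lit 0) (nat_lit 0) (XT.lf (nat_lit 924) (nat_lit 2507176519) (nat_lit 0) (nat_lit 5768500927) (nat_lit 840) (nat_lit 2507176519) (nat_lit 141) (nat_lit 1) (nat_lit 130) (nat_lit 1) (nat_lit 140) (nat_lit 1) (nat_lit 200) (nat_lit 262) (nat_lit 258)) (XT.lf (nat_lit 924) (nat_lit 4509320267) (nat_lit 84) (nat_lit 3011427566) (nat_lit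 0) (nat_lit 3011427566) (nat_lit 141) (nat_lit 1) (nat_lit 131) (nat_lit 1) (nat_lit 130) (nat_lit 1) (nat_lit 201) (nat_lit 262) (nat_lit 257)))) (XT.nd (nat_lit 188) (nat_lit 0) (nat_lit 84) (XT.nd (nat_lit 94) (nat_lit 0) (nat_lit 0) (XT.lf (nat_lit 924) (nat_lit 1977206696) (nat_lit 0) (nat_lit 6335500360) (nat_lit 840) (nat_lit 1977206696) (nat_lit 142) (nat_lit 1) (nat_lit 131) (nat_lit 1) (nat_lit 141) (nat_lit 1) (nat_lit 202) (nat_lit 262) (nat_lit 256)) (XT.lf (nat_lit 924) (nat_lit 3323745165) (nat_lit 84) (nat_lit 3365288616) (nat_lit 0) (nat_lit 3365288616) (nat_lit 142) (nat_lit 1) (nat_lit 132) (nat_lit 1) (nat_lit 131) (nat_lit 1) (nat_lit 203) (nat_lit 262) (nat_lit 255))) (XT.nd (nat_lit 94) (nat_lit 0) (nat_lit 0) (XT.lf (nat_lit 924) (nat_lit 1334310566) (nat_lit 0) (nat_lit 7158733899) (nat_lit 840) (nat_lit 1334310566) (nat_lit 143) (nat_lit 1) (nat_lit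 132) (nat_lit 1) (nat_lit 142) (nat_lit 1) (nat_lit 204) (nat_lit 262) (nat_lit 254)) (XT.lf (nat_lit 924) (nat_lit 1929230032) (nat_lit 84) (nat_lit 3838233671) (nat_lit 0) (nat_lit 3838233671) (nat_lit 143) (nat_lit 1) (nat_lit 133) (nat_lit 1) (nat_lit 132) (nat_lit 1) (nat_lit 205) (nat_lit 262) (nat_lit 253))))))) (XT.nd (nat_lit 1222) (nat_lit 2604) (nat_lit 0) (XT.nd (nat_lit 564) (nat_lit 1512) (nat_lit 0) (XT.nd (nat_lit 282) (nat_lit 420) (nat_lit 0) (XT.nd (nat_lit 94) (nat_lit 1428) (nat_lit 0) (XT.lf (nat_lit 84) (nat_lit 596710654) (nat_lit 0) (nat_lit 8199667500) (nat_lit 840) (nat_lit 596710654) (nat_lit 134) (nat_lit 1) (nat_lit 133) (nat_lit 1) (nat_lit 143) (nat_lit 1) (nat_lit 206) (nat_lit 262) (nat_lit 252)) (XT.nd (nat_lit 94) (nat_lit 588) (nat_lit 0) (XT.lf (nat_lit 924) (nat_lit 360398396) (nat_lit 0) (nat_lit 4411954159) (nat_lit 840) (nat_lit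 4411954159) (nat_lit 134) (nat_lit 1) (nat_lit 123) (nat_lit 1) (nat_lit 133) (nat_lit 1) (nat_lit 207) (nat_lit 262) (nat_lit 251)) (XT.lf (nat_lit 588) (nat_lit 8552707827) (nat_lit 0) (nat_lit 215893231) (nat_lit 504) (nat_lit 215893231) (nat_lit 123) (nat_lit 1) (nat_lit 116) (nat_lit 1) (nat_lit 122) (nat_lit 1) (nat_lit 208) (nat_lit 262) (nat_lit 250)))) (XT.nd (nat_lit 94) (nat_lit 420) (nat_lit 0) (XT.lf (nat_lit 84) (nat_lit 3739228976) (nat_lit 0) (nat_lit 1308794257) (nat_lit 588) (nat_lit 3739228976) (nat_lit 117) (nat_lit 1) (nat_lit 116) (nat_lit 1) (nat_lit 123) (nat_lit 1) (nat_lit 209) (nat_lit 262) (nat_lit 249)) (XT.nd (nat_lit 94) (nat_lit 0) (nat_lit 0) (XT.lf (nat_lit 504) (nat_lit 6434253250) (nat_lit 0) (nat_lit 1082072071) (nat_lit 420) (nat_lit 1082072071) (nat_lit 117) (nat_lit 1) (nat_lit 111) (nat_lit 1) (nat_lit 116) (nat_lit 1) (nat_lit 210)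 (nat_lit 262) (nat_lit 248)) (XT.lf (nat_lit 84) (nat_lit 2667146509) (nat_lit 0) (nat_lit 3079219807) (nat_lit 504) (nat_lit 2667146509) (nat_lit 112) (nat_lit 1) (nat_lit 111) (nat_lit 1) (nat_lit 117) (nat_lit 1) (nat_lit 211) (nat_lit 262) (nat_lit 247))))) (XT.nd (nat_lit 282) (nat_lit 756) (nat_lit 0) (XT.nd (nat_lit 94) (nat_lit 336) (nat_lit 0) (XT.lf (nat_lit 504) (nat_lit 4237047011) (nat_lit 0) (nat_lit 1999010141) (nat_lit 420) (nat_lit 1999010141) (nat_lit 112) (nat_lit 1) (nat_lit 106) (nat_lit 1) (nat_lit 111) (nat_lit 1) (nat_lit 212) (nat_lit 262) (nat_lit 246)) (XT.nd (nat_lit 94) (nat_lit 336) (nat_lit 0) (XT.lf (nat_lit 84) (nat_lit 1561295513) (nat_lit 0) (nat_lit 4939220533) (nat_lit 504) (nat_lit 1561295513) (nat_lit 107) (nat_lit 1) (nat_lit 106) (nat_lit 1) (nat_lit 112) (nat_lit 1) (nat_lit 213) (nat_lit 262) (nat_lit 245)) (XT.lf (nat_lit 420)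 (nat_lit 1981539526) (nat_lit 0) (nat_lit 2955736503) (nat_lit 336) (nat_lit 2955736503) (nat_lit 107) (nat_lit 1) (nat_lit 102) (nat_lit 1) (nat_lit 106) (nat_lit 1) (nat_lit 214) (nat_lit 262) (nat_lit 244)))) (XT.nd (nat_lit 188) (nat_lit 336) (nat_lit 0) (XT.nd (nat_lit 94) (nat_lit 420) (nat_lit 0) (XT.lf (nat_lit 84) (nat_lit 431169778) (nat_lit 0) (nat_lit 6868365129) (nat_lit 420) (nat_lit 431169778) (nat_lit 103) (nat_lit 1) (nat_lit 102) (nat_lit 1) (nat_lit 107) (nat_lit 1) (nat_lit 215) (nat_lit 262) (nat_lit 243)) (XT.lf (nat_lit 84) (nat_lit 3633160454) (nat_lit 0) (nat_lit 304284245) (nat_lit 420) (nat_lit 3633160454) (nat_lit 98) (nat_lit 1) (nat_lit 97) (nat_lit 1) (nat_lit 102) (nat_lit 1) (nat_lit 216) (nat_lit 262) (nat_lit 242))) (XT.nd (nat_lit 94) (nat_lit 0) (nat_lit 0) (XT.lf (nat_lit 420) (nat_lit 6009820346) (nat_lit 0) (nat_lit 703391128) (nat_lit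 336) (nat_lit 703391128) (nat_lit 98) (nat_lit 1) (nat_lit 93) (nat_lit 1) (nat_lit 97) (nat_lit 1) (nat_lit 217) (nat_lit 262) (nat_lit 241)) (XT.lf (nat_lit 84) (nat_lit 2357315750) (nat_lit 0) (nat_lit 2550610499) (nat_lit 420) (nat_lit 2357315750) (nat_lit 94) (nat_lit 1) (nat_lit 93) (nat_lit 1) (nat_lit 98) (nat_lit 1) (nat_lit 218) (nat_lit 262) (nat_lit 240)))))) (XT.nd (nat_lit 658) (nat_lit 1344) (nat_lit 0) (XT.nd (nat_lit 282) (nat_lit 672) (nat_lit 0) (XT.nd (nat_lit 94) (nat_lit 252) (nat_lit 0) (XT.lf (nat_lit 420) (nat_lit 3439979433) (nat_lit 0) (nat_lit 1839575308) (nat_lit 336) (nat_lit 1839575308) (nat_lit 94) (nat_lit 1) (nat_lit 89) (nat_lit 1) (nat_lit 93) (nat_lit 1) (nat_lit 219) (nat_lit 262) (nat_lit 239)) (XT.nd (nat_lit 94) (nat_lit 252) (nat_lit 0) (XT.lf (nat_lit 84) (nat_lit 1084815989) (nat_lit 0) (nat_lit 4807658447) (nat_lit 420) (nat_lit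 1084815989) (nat_lit 90) (nat_lit 1) (nat_lit 89) (nat_lit 1) (nat_lit 94) (nat_lit 1) (nat_lit 220) (nat_lit 262) (nat_lit 238)) (XT.lf (nat_lit 336) (nat_lit 882234382) (nat_lit 0) (nat_lit 2978139085) (nat_lit 252) (nat_lit 2978139085) (nat_lit 90) (nat_lit 1) (nat_lit 86) (nat_lit 1) (nat_lit 89) (nat_lit 1) (nat_lit 221) (nat_lit 262) (nat_lit 237)))) (XT.nd (nat_lit 188) (nat_lit 252) (nat_lit 0) (XT.nd (nat_lit 94) (nat_lit 0) (nat_lit 0) (XT.lf (nat_lit 420) (nat_lit 6352548216) (nat_lit 0) (nat_lit 176271023) (nat_lit 336) (nat_lit 176271023) (nat_lit 86) (nat_lit 1) (nat_lit 81) (nat_lit 1) (nat_lit 85) (nat_lit 1) (nat_lit 222) (nat_lit 262) (nat_lit 236)) (XT.lf (nat_lit 84) (nat_lit 2485799080) (nat_lit 0) (nat_lit 1600808290) (nat_lit 420) (nat_lit 2485799080) (nat_lit 82) (nat_lit 1) (nat_lit 81) (nat_lit 1) (nat_lit 86) (nat_lit 1) (nat_lit 223) (nat_lit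 262) (nat_lit 235))) (XT.nd (nat_lit 94) (nat_lit 0) (nat_lit 0) (XT.lf (nat_lit 336) (nat_lit 3630588144) (nat_lit 0) (nat_lit 1407111636) (nat_lit 252) (nat_lit 1407111636) (nat_lit 82) (nat_lit 1) (nat_lit 78) (nat_lit 1) (nat_lit 81) (nat_lit 1) (nat_lit 224) (nat_lit 262) (nat_lit 234)) (XT.lf (nat_lit 84) (nat_lit 1146958954) (nat_lit 0) (nat_lit 4026540244) (nat_lit 336) (nat_lit 1146958954) (nat_lit 79) (nat_lit 1) (nat_lit 78) (nat_lit 1) (nat_lit 82) (nat_lit 1) (nat_lit 225) (nat_lit 262) (nat_lit 233))))) (XT.nd (nat_lit 282) (nat_lit 756) (nat_lit 0) (XT.nd (nat_lit 94) (nat_lit 336) (nat_lit 0) (XT.lf (nat_lit 336) (nat_lit 955954438) (nat_lit 0) (nat_lit 2621489726) (nat_lit 252) (nat_lit 2621489726) (nat_lit 79) (nat_lit 1) (nat_lit 75) (nat_lit 1) (nat_lit 78) (nat_lit 1) (nat_lit 226) (nat_lit 262) (nat_lit 232)) (XT.nd (nat_lit 94) (nat_lit 0) (nat_lit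 0) (XT.lf (nat_lit 336) (nat_lit 5753343122) (nat_lit 0) (nat_lit 164290645) (nat_lit 252) (nat_lit 164290645) (nat_lit 75) (nat_lit 1) (nat_lit 71) (nat_lit 1) (nat_lit 74) (nat_lit 1) (nat_lit 227) (nat_lit 262) (nat_lit 231)) (XT.lf (nat_lit 84) (nat_lit 2176324937) (nat_lit 0) (nat_lit 1612634926) (nat_lit 336) (nat_lit 2176324937) (nat_lit 72) (nat_lit 1) (nat_lit 71) (nat_lit 1) (nat_lit 75) (nat_lit 1) (nat_lit 228) (nat_lit 262) (nat_lit 230)))) (XT.nd (nat_lit 188) (nat_lit 504) (nat_lit 0) (XT.nd (nat_lit 94) (nat_lit 0) (nat_lit 0) (XT.lf (nat_lit 336) (nat_lit 2992646066) (nat_lit 0) (nat_lit 1430157404) (nat_lit 252) (nat_lit 1430157404) (nat_lit 72) (nat_lit 1) (nat_lit 68) (nat_lit 1) (nat_lit 71) (nat_lit 1) (nat_lit 229) (nat_lit 262) (nat_lit 229)) (XT.lf (nat_lit 84) (nat_lit 824172286) (nat_lit 0) (nat_lit 4095304955) (nat_lit 336) (nat_lit 824172286)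 (nat_lit 69) (nat_lit 1) (nat_lit 68) (nat_lit 1) (nat_lit 72) (nat_lit 1) (nat_lit 230) (nat_lit 262) (nat_lit 228))) (XT.nd (nat_lit 94) (nat_lit 336) (nat_lit 0) (XT.lf (nat_lit 252) (nat_lit 302004128) (nat_lit 0) (nat_lit 2667196978) (nat_lit 168) (nat_lit 2667196978) (nat_lit 69) (nat_lit 1) (nat_lit 66) (nat_lit 1) (nat_lit 68) (nat_lit 1) (nat_lit 231) (nat_lit 262) (nat_lit 227)) (XT.lf (nat_lit 336) (nat_lit 4563181119) (nat_lit 0) (nat_lit 484642910) (nat_lit 252) (nat_lit 484642910) (nat_lit 66) (nat_lit 1) (nat_lit 62) (nat_lit 1) (nat_lit 65) (nat_lit 1) (nat_lit 232) (nat_lit 262) (nat_lit 226))))))))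
noncomputable def ec71 : XT := (XT.nd (nat_lit 2538) (nat_lit 2268) (nat_lit 0) (XT.nd (nat_lit 1222) (nat_lit 1428) (nat_lit 0) (XT.nd (nat_lit 564) (nat_lit 924) (nat_lit 0) (XT.nd (nat_lit 282) (nat_lit 420) (nat_lit 0) (XT.nd (nat_lit 94) (nat_lit 168) (nat_lit 0) (XT.lf (nat_lit 84) (nat_lit 1593810848) (nat_lit 0) (nat_lit 2242076467) (nat_lit 336) (nat_lit 1593810848) (nat_lit 63) (nat_lit 1) (nat_lit 62) (nat_lit 1) (nat_lit 66) (nat_lit 1) (nat_lit 233) (nat_lit 262) (nat_lit 225)) (XT.nd (nat_lit 94) (nat_lit 0) (nat_lit 0) (XT.lf (nat_lit 252) (nat_lit 1841402579) (nat_lit 0) (nat_lit 1744349267) (nat_lit 168) (nat_lit 1744349267) (nat_lit 63) (nat_lit 1) (nat_lit 60) (nat_lit 1) (nat_lit 62) (nat_lit 1) (nat_lit 234) (nat_lit 262) (nat_lit 224)) (XT.lf (nat_lit 84) (nat_lit 264551103) (nat_lit 0) (nat_lit 4704707100) (nat_lit 252) (nat_lit 264551103) (nat_lit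 61) (nat_lit 1) (nat_lit 60) (nat_lit 1) (nat_lit 63) (nat_lit 1) (nat_lit 235) (nat_lit 262) (nat_lit 223)))) (XT.nd (nat_lit 94) (nat_lit 168) (nat_lit 0) (XT.lf (nat_lit 84) (nat_lit 2183386670) (nat_lit 0) (nat_lit 771094187) (nat_lit 252) (nat_lit 2183386670) (nat_lit 58) (nat_lit 1) (nat_lit 57) (nat_lit 1) (nat_lit 60) (nat_lit 1) (nat_lit 236) (nat_lit 262) (nat_lit 222)) (XT.nd (nat_lit 94) (nat_lit 0) (nat_lit 0) (XT.lf (nat_lit 252) (nat_lit 3032015063) (nat_lit 0) (nat_lit 1006546851) (nat_lit 168) (nat_lit 1006546851) (nat_lit 58) (nat_lit 1) (nat_lit 55) (nat_lit 1) (nat_lit 57) (nat_lit 1) (nat_lit 237) (nat_lit 262) (nat_lit 221)) (XT.lf (nat_lit 84) (nat_lit 855555769) (nat_lit 0) (nat_lit 3243288637) (nat_lit 252) (nat_lit 855555769) (nat_lit 56) (nat_lit 1) (nat_lit 55) (nat_lit 1) (nat_lit 58) (nat_lit 1) (nat_lit 238) (nat_lit 262) (nat_lit 220)))))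 (XT.nd (nat_lit 282) (nat_lit 504) (nat_lit 0) (XT.nd (nat_lit 94) (nat_lit 252) (nat_lit 0) (XT.lf (nat_lit 252) (nat_lit 400797075) (nat_lit 0) (nat_lit 2232361480) (nat_lit 168) (nat_lit 2232361480) (nat_lit 56) (nat_lit 1) (nat_lit 53) (nat_lit 1) (nat_lit 55) (nat_lit 1) (nat_lit 239) (nat_lit 262) (nat_lit 219)) (XT.nd (nat_lit 94) (nat_lit 0) (nat_lit 0) (XT.lf (nat_lit 252) (nat_lit 3939292586) (nat_lit 0) (nat_lit 419961340) (nat_lit 168) (nat_lit 419961340) (nat_lit 53) (nat_lit 1) (nat_lit 50) (nat_lit 1) (nat_lit 52) (nat_lit 1) (nat_lit 240) (nat_lit 262) (nat_lit 218)) (XT.lf (nat_lit 84) (nat_lit 1311400155) (nat_lit 0) (nat_lit 2070846790) (nat_lit 252) (nat_lit 1311400155) (nat_lit 51) (nat_lit 1) (nat_lit 50) (nat_lit 1) (nat_lit 53) (nat_lit 1) (nat_lit 241) (nat_lit 262) (nat_lit 217)))) (XT.nd (nat_lit 188) (nat_lit 336) (nat_lit 0) (XT.nd (nat_lit 94)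 (nat_lit 0) (nat_lit 0) (XT.lf (nat_lit 252) (nat_lit 1335597389) (nat_lit 0) (nat_lit 1637482853) (nat_lit 168) (nat_lit 1637482853) (nat_lit 51) (nat_lit 1) (nat_lit 48) (nat_lit 1) (nat_lit 50) (nat_lit 1) (nat_lit 242) (nat_lit 262) (nat_lit 216)) (XT.lf (nat_lit 84) (nat_lit 43897402) (nat_lit 0) (nat_lit 4442598047) (nat_lit 252) (nat_lit 43897402) (nat_lit 49) (nat_lit 1) (nat_lit 48) (nat_lit 1) (nat_lit 51) (nat_lit 1) (nat_lit 243) (nat_lit 262) (nat_lit 215))) (XT.nd (nat_lit 94) (nat_lit 168) (nat_lit 0) (XT.lf (nat_lit 84) (nat_lit 1657494350) (nat_lit 0) (nat_lit 1134724304) (nat_lit 168) (nat_lit 1657494350) (nat_lit 47) (nat_lit 1) (nat_lit 46) (nat_lit 1) (nat_lit 48) (nat_lit 1) (nat_lit 244) (nat_lit 262) (nat_lit 214)) (XT.lf (nat_lit 252) (nat_lit 2056761795) (nat_lit 0) (nat_lit 1157555042) (nat_lit 168) (nat_lit 1157555042) (nat_lit 47) (nat_lit 1)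 (nat_lit 44) (nat_lit 1) (nat_lit 46) (nat_lit 1) (nat_lit 245) (nat_lit 262) (nat_lit 213)))))) (XT.nd (nat_lit 658) (nat_lit 756) (nat_lit 0) (XT.nd (nat_lit 282) (nat_lit 336) (nat_lit 0) (XT.nd (nat_lit 94) (nat_lit 336) (nat_lit 0) (XT.lf (nat_lit 84) (nat_lit 412366525) (nat_lit 0) (nat_lit 3471398835) (nat_lit 252) (nat_lit 412366525) (nat_lit 45) (nat_lit 1) (nat_lit 44) (nat_lit 1) (nat_lit 47) (nat_lit 1) (nat_lit 246) (nat_lit 262) (nat_lit 212)) (XT.nd (nat_lit 94) (nat_lit 168) (nat_lit 0) (XT.lf (nat_lit 84) (nat_lit 1914674415) (nat_lit 0) (nat_lit 391667661) (nat_lit 168) (nat_lit 1914674415) (nat_lit 43) (nat_lit 1) (nat_lit 42) (nat_lit 1) (nat_lit 44) (nat_lit 1) (nat_lit 247) (nat_lit 262) (nat_lit 211)) (XT.lf (nat_lit 252) (nat_lit 2604448274) (nat_lit 0) (nat_lit 771746109) (nat_lit 168) (nat_lit 771746109) (nat_lit 43) (nat_lit 1) (nat_lit 40) (nat_lit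 1) (nat_lit 42) (nat_lit 1) (nat_lit 248) (nat_lit 262) (nat_lit 210)))) (XT.nd (nat_lit 188) (nat_lit 252) (nat_lit 0) (XT.nd (nat_lit 94) (nat_lit 84) (nat_lit 0) (XT.lf (nat_lit 84) (nat_lit 697590221) (nat_lit 0) (nat_lit 2681130725) (nat_lit 252) (nat_lit 697590221) (nat_lit 41) (nat_lit 1) (nat_lit 40) (nat_lit 1) (nat_lit 43) (nat_lit 1) (nat_lit 249) (nat_lit 262) (nat_lit 209)) (XT.lf (nat_lit 168) (nat_lit 200252748) (nat_lit 0) (nat_lit 1902890386) (nat_lit 84) (nat_lit 1902890386) (nat_lit 41) (nat_lit 1) (nat_lit 39) (nat_lit 1) (nat_lit 40) (nat_lit 1) (nat_lit 250) (nat_lit 262) (nat_lit 208))) (XT.nd (nat_lit 94) (nat_lit 0) (nat_lit 0) (XT.lf (nat_lit 252) (nat_lit 3011586283) (nat_lit 0) (nat_lit 462939063) (nat_lit 168) (nat_lit 462939063) (nat_lit 39) (nat_lit 1) (nat_lit 36) (nat_lit 1) (nat_lit 38) (nat_lit 1) (nat_lit 251) (nat_lit 262) (nat_lit 207))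 (XT.lf (nat_lit 84) (nat_lit 915180877) (nat_lit 0) (nat_lit 2039298894) (nat_lit 252) (nat_lit 915180877) (nat_lit 37) (nat_lit 1) (nat_lit 36) (nat_lit 1) (nat_lit 39) (nat_lit 1) (nat_lit 252) (nat_lit 262) (nat_lit 206))))) (XT.nd (nat_lit 282) (nat_lit 420) (nat_lit 0) (XT.nd (nat_lit 94) (nat_lit 252) (nat_lit 0) (XT.lf (nat_lit 168) (nat_lit 672494097) (nat_lit 0) (nat_lit 1565512630) (nat_lit 84) (nat_lit 1565512630) (nat_lit 37) (nat_lit 1) (nat_lit 35) (nat_lit 1) (nat_lit 36) (nat_lit 1) (nat_lit 253) (nat_lit 262) (nat_lit 205)) (XT.nd (nat_lit 94) (nat_lit 0) (nat_lit 0) (XT.lf (nat_lit 252) (nat_lit 3305163529) (nat_lit 0) (nat_lit 217072189) (nat_lit 168) (nat_lit 217072189) (nat_lit 35) (nat_lit 1) (nat_lit 32) (nat_lit 1) (nat_lit 34) (nat_lit 1) (nat_lit 254) (nat_lit 262) (nat_lit 204)) (XT.lf (nat_lit 84) (nat_lit 1077942217) (nat_lit 0) (nat_lit 1519189591)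 (nat_lit 252) (nat_lit 1077942217) (nat_lit 33) (nat_lit 1) (nat_lit 32) (nat_lit 1) (nat_lit 35) (nat_lit 1) (nat_lit 255) (nat_lit 262) (nat_lit 203)))) (XT.nd (nat_lit 188) (nat_lit 84) (nat_lit 0) (XT.nd (nat_lit 94) (nat_lit 252) (nat_lit 0) (XT.lf (nat_lit 168) (nat_lit 1036829857) (nat_lit 0) (nat_lit 1287951115) (nat_lit 84) (nat_lit 1287951115) (nat_lit 33) (nat_lit 1) (nat_lit 31) (nat_lit 1) (nat_lit 32) (nat_lit 1) (nat_lit 256) (nat_lit 262) (nat_lit 202)) (XT.lf (nat_lit 252) (nat_lit 3507284349) (nat_lit 0) (nat_lit 22596375) (nat_lit 168) (nat_lit 22596375) (nat_lit 31) (nat_lit 1) (nat_lit 28) (nat_lit 1) (nat_lit 30) (nat_lit 1) (nat_lit 257) (nat_lit 262) (nat_lit 201))) (XT.nd (nat_lit 94) (nat_lit 84) (nat_lit 0) (XT.lf (nat_lit 84) (nat_lit 1196369200) (nat_lit 0) (nat_lit 1098844221) (nat_lit 252) (nat_lit 1196369200) (nat_lit 29) (nat_lit 1) (nat_lit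 28) (nat_lit 1) (nat_lit 31) (nat_lit 1) (nat_lit 258) (nat_lit 262) (nat_lit 200)) (XT.lf (nat_lit 168) (nat_lit 1313542775) (nat_lit 0) (nat_lit 1059600569) (nat_lit 84) (nat_lit 1059600569) (nat_lit 29) (nat_lit 1) (nat_lit 27) (nat_lit 1) (nat_lit 28) (nat_lit 1) (nat_lit 259) (nat_lit 262) (nat_lit 199))))))) (XT.nd (nat_lit 1316) (nat_lit 1176) (nat_lit 0) (XT.nd (nat_lit 658) (nat_lit 588) (nat_lit 0) (XT.nd (nat_lit 282) (nat_lit 252) (nat_lit 0) (XT.nd (nat_lit 94) (nat_lit 252) (nat_lit 0) (XT.lf (nat_lit 0) (nat_lit 132101965) (nat_lit 0) (nat_lit 3111477717) (nat_lit 168) (nat_lit 132101965) (nat_lit 27) (nat_lit 3) (nat_lit 27) (nat_lit 1) (nat_lit 29) (nat_lit 1) (nat_lit 260) (nat_lit 262) (nat_lit 198)) (XT.nd (nat_lit 94) (nat_lit 84) (nat_lit 0) (XT.lf (nat_lit 84) (nat_lit 1279059207) (nat_lit 0) (nat_lit 760215370) (nat_lit 168) (nat_lit 1279059207) (nat_lit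 26) (nat_lit 1) (nat_lit 25) (nat_lit 1) (nat_lit 27) (nat_lit 1) (nat_lit 261) (nat_lit 262) (nat_lit 197)) (XT.lf (nat_lit 168) (nat_lit 1519264688) (nat_lit 0) (nat_lit 871736011) (nat_lit 84) (nat_lit 871736011) (nat_lit 26) (nat_lit 1) (nat_lit 24) (nat_lit 1) (nat_lit 25) (nat_lit 1) (nat_lit 262) (nat_lit 262) (nat_lit 196)))) (XT.nd (nat_lit 188) (nat_lit 84) (nat_lit 0) (XT.nd (nat_lit 94) (nat_lit 168) (nat_lit 0) (XT.lf (nat_lit 0) (nat_lit 252487104) (nat_lit 0) (nat_lit 2703626908) (nat_lit 168) (nat_lit 252487104) (nat_lit 24) (nat_lit 3) (nat_lit 24) (nat_lit 1) (nat_lit 26) (nat_lit 1) (nat_lit 263) (nat_lit 262) (nat_lit 195)) (XT.lf (nat_lit 84) (nat_lit 1333050228) (nat_lit 0) (nat_lit 488472503) (nat_lit 168) (nat_lit 1333050228) (nat_lit 23) (nat_lit 1) (nat_lit 22) (nat_lit 1) (nat_lit 24) (nat_lit 1) (nat_lit 264) (nat_lit 262) (nat_lit 194))) (XT.nd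 (nat_lit 94) (nat_lit 0) (nat_lit 0) (XT.lf (nat_lit 168) (nat_lit 1667626434) (nat_lit 0) (nat_lit 717179373) (nat_lit 84) (nat_lit 717179373) (nat_lit 23) (nat_lit 1) (nat_lit 21) (nat_lit 1) (nat_lit 22) (nat_lit 1) (nat_lit 265) (nat_lit 262) (nat_lit 193)) (XT.lf (nat_lit 0) (nat_lit 344680327) (nat_lit 0) (nat_lit 2361239110) (nat_lit 168) (nat_lit 344680327) (nat_lit 21) (nat_lit 3) (nat_lit 21) (nat_lit 1) (nat_lit 23) (nat_lit 1) (nat_lit 266) (nat_lit 262) (nat_lit 192))))) (XT.nd (nat_lit 282) (nat_lit 336) (nat_lit 0) (XT.nd (nat_lit 94) (nat_lit 84) (nat_lit 0) (XT.lf (nat_lit 84) (nat_lit 1364099010) (nat_lit 0) (nat_lit 271430811) (nat_lit 168) (nat_lit 1364099010) (nat_lit 20) (nat_lit 1) (nat_lit 19) (nat_lit 1) (nat_lit 21) (nat_lit 1) (nat_lit 267) (nat_lit 262) (nat_lit 191)) (XT.nd (nat_lit 94) (nat_lit 0) (nat_lit 0) (XT.lf (nat_lit 168) (nat_lit 1769792408)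 (nat_lit 0) (nat_lit 590025245) (nat_lit 84) (nat_lit 590025245) (nat_lit 20) (nat_lit 1) (nat_lit 18) (nat_lit 1) (nat_lit 19) (nat_lit 1) (nat_lit 268) (nat_lit 262) (nat_lit 190)) (XT.lf (nat_lit 0) (nat_lit 414006084) (nat_lit 0) (nat_lit 2073033986) (nat_lit 168) (nat_lit 414006084) (nat_lit 18) (nat_lit 3) (nat_lit 18) (nat_lit 1) (nat_lit 20) (nat_lit 1) (nat_lit 269) (nat_lit 262) (nat_lit 189)))) (XT.nd (nat_lit 188) (nat_lit 84) (nat_lit 0) (XT.nd (nat_lit 94) (nat_lit 84) (nat_lit 0) (XT.lf (nat_lit 84) (nat_lit 1376909811) (nat_lit 0) (nat_lit 99081347) (nat_lit 168) (nat_lit 1376909811) (nat_lit 17) (nat_lit 1) (nat_lit 16) (nat_lit 1) (nat_lit 18) (nat_lit 1) (nat_lit 270) (nat_lit 262) (nat_lit 188)) (XT.lf (nat_lit 168) (nat_lit 1834900227) (nat_lit 0) (nat_lit 485415229) (nat_lit 84) (nat_lit 485415229) (nat_lit 17) (nat_lit 1) (nat_lit 15) (nat_lit 1) (nat_lit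 16) (nat_lit 1) (nat_lit 271) (nat_lit 262) (nat_lit 187))) (XT.nd (nat_lit 94) (nat_lit 84) (nat_lit 0) (XT.lf (nat_lit 0) (nat_lit 464829283) (nat_lit 0) (nat_lit 1829715644) (nat_lit 168) (nat_lit 464829283) (nat_lit 15) (nat_lit 3) (nat_lit 15) (nat_lit 1) (nat_lit 17) (nat_lit 1) (nat_lit 272) (nat_lit 262) (nat_lit 186)) (XT.lf (nat_lit 84) (nat_lit 38012110) (nat_lit 0) (nat_lit 1337903882) (nat_lit 84) (nat_lit 1337903882) (nat_lit 15) (nat_lit 3) (nat_lit 14) (nat_lit 1) (nat_lit 15) (nat_lit 1) (nat_lit 273) (nat_lit 262) (nat_lit 185)))))) (XT.nd (nat_lit 658) (nat_lit 504) (nat_lit 0) (XT.nd (nat_lit 282) (nat_lit 420) (nat_lit 0) (XT.nd (nat_lit 94) (nat_lit 84) (nat_lit 0) (XT.lf (nat_lit 168) (nat_lit 1870422322) (nat_lit 0) (nat_lit 399352310) (nat_lit 84) (nat_lit 399352310) (nat_lit 14) (nat_lit 1) (nat_lit 12) (nat_lit 1) (nat_lit 13) (nat_lit 1) (nat_lit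 274) (nat_lit 262) (nat_lit 184)) (XT.nd (nat_lit 94) (nat_lit 84) (nat_lit 0) (XT.lf (nat_lit 0) (nat_lit 500726157) (nat_lit 0) (nat_lit 1623621544) (nat_lit 168) (nat_lit 500726157) (nat_lit 12) (nat_lit 3) (nat_lit 12) (nat_lit 1) (nat_lit 14) (nat_lit 1) (nat_lit 275) (nat_lit 262) (nat_lit 183)) (XT.lf (nat_lit 84) (nat_lit 147674388) (nat_lit 0) (nat_lit 1217098565) (nat_lit 84) (nat_lit 1217098565) (nat_lit 12) (nat_lit 3) (nat_lit 11) (nat_lit 1) (nat_lit 12) (nat_lit 1) (nat_lit 276) (nat_lit 262) (nat_lit 182)))) (XT.nd (nat_lit 188) (nat_lit 252) (nat_lit 0) (XT.nd (nat_lit 94) (nat_lit 0) (nat_lit 0) (XT.lf (nat_lit 168) (nat_lit 1882463325) (nat_lit 0) (nat_lit 328548134) (nat_lit 84) (nat_lit 328548134) (nat_lit 11) (nat_lit 1) (nat_lit 9) (nat_lit 1) (nat_lit 10) (nat_lit 1) (nat_lit 277) (nat_lit 262) (nat_lit 181)) (XT.lf (nat_lit 0) (nat_lit 524624797)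 (nat_lit 0) (nat_lit 1448433610) (nat_lit 168) (nat_lit 524624797) (nat_lit 9) (nat_lit 3) (nat_lit 9) (nat_lit 1) (nat_lit 11) (nat_lit 1) (nat_lit 278) (nat_lit 262) (nat_lit 180))) (XT.nd (nat_lit 94) (nat_lit 168) (nat_lit 0) (XT.lf (nat_lit 84) (nat_lit 232350875) (nat_lit 0) (nat_lit 1112168793) (nat_lit 84) (nat_lit 1112168793) (nat_lit 9) (nat_lit 3) (nat_lit 8) (nat_lit 1) (nat_lit 9) (nat_lit 1) (nat_lit 279) (nat_lit 262) (nat_lit 179)) (XT.lf (nat_lit 168) (nat_lit 1876004619) (nat_lit 0) (nat_lit 270297363) (nat_lit 84) (nat_lit 270297363) (nat_lit 8) (nat_lit 1) (nat_lit 6) (nat_lit 1) (nat_lit 7) (nat_lit 1) (nat_lit 280) (nat_lit 262) (nat_lit 178))))) (XT.nd (nat_lit 282) (nat_lit 252) (nat_lit 0) (XT.nd (nat_lit 94) (nat_lit 252) (nat_lit 0) (XT.lf (nat_lit 0) (nat_lit 538920736) (nat_lit 0) (nat_lit 1298940533) (nat_lit 168) (nat_lit 538920736) (nat_lit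 6) (nat_lit 3) (nat_lit 6) (nat_lit 1) (nat_lit 8) (nat_lit 1) (nat_lit 281) (nat_lit 262) (nat_lit 177)) (XT.nd (nat_lit 94) (nat_lit 168) (nat_lit 0) (XT.lf (nat_lit 84) (nat_lit 296735441) (nat_lit 0) (nat_lit 1020563819) (nat_lit 84) (nat_lit 1020563819) (nat_lit 6) (nat_lit 3) (nat_lit 5) (nat_lit 1) (nat_lit 6) (nat_lit 1) (nat_lit 282) (nat_lit 262) (nat_lit 176)) (XT.lf (nat_lit 168) (nat_lit 1855105436) (nat_lit 0) (nat_lit 222374309) (nat_lit 84) (nat_lit 222374309) (nat_lit 5) (nat_lit 1) (nat_lit 3) (nat_lit 1) (nat_lit 4) (nat_lit 1) (nat_lit 283) (nat_lit 262) (nat_lit 175)))) (XT.nd (nat_lit 188) (nat_lit 168) (nat_lit 0) (XT.nd (nat_lit 94) (nat_lit 84) (nat_lit 0) (XT.lf (nat_lit 0) (nat_lit 545572011) (nat_lit 0) (nat_lit 1170842179) (nat_lit 168) (nat_lit 545572011) (nat_lit 3) (nat_lit 3) (nat_lit 3) (nat_lit 1) (nat_lit 5) (nat_lit 1) (nat_lit 284) (nat_lit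 262) (nat_lit 174)) (XT.lf (nat_lit 84) (nat_lit 344677173) (nat_lit 0) (nat_lit 940172571) (nat_lit 84) (nat_lit 940172571) (nat_lit 3) (nat_lit 3) (nat_lit 2) (nat_lit 1) (nat_lit 3) (nat_lit 1) (nat_lit 285) (nat_lit 262) (nat_lit 173))) (XT.nd (nat_lit 94) (nat_lit 0) (nat_lit 0) (XT.lf (nat_lit 0) (nat_lit 3179881762) (nat_lit 0) (nat_lit 0) (nat_lit 0) (nat_lit 0) (nat_lit 0) (nat_lit 0) (nat_lit 1) (nat_lit 0) (nat_lit 1) (nat_lit 0) (nat_lit 286) (nat_lit 262) (nat_lit 172)) (XT.lf (nat_lit 0) (nat_lit 3178029048) (nat_lit 0) (nat_lit 0) (nat_lit 0) (nat_lit 0) (nat_lit 0) (nat_lit 0) (nat_lit 1) (nat_lit 0) (nat_lit 1) (nat_lit 0) (nat_lit 287) (nat_lit 262) (nat_lit 171))))))))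
noncomputable def ec72 : XT := (XT.nd (nat_lit 2538) (nat_lit 0) (nat_lit 0) (XT.nd (nat_lit 1222) (nat_lit 0) (nat_lit 0) (XT.nd (nat_lit 564) (nat_lit 0) (nat_lit 0) (XT.nd (nat_lit 282) (nat_lit 0) (nat_lit 0) (XT.nd (nat_lit 94) (nat_lit 0) (nat_lit 0) (XT.lf (nat_lit 0) (nat_lit 3176264559) (nat_lit 0) (nat_lit 0) (nat_lit 0) (nat_lit 0) (nat_lit 0) (nat_lit 0) (nat_lit 1) (nat_lit 0) (nat_lit 1) (nat_lit 0) (nat_lit 288) (nat_lit 262) (nat_lit 170)) (XT.nd (nat_lit 94) (nat_lit 0) (nat_lit 0) (XT.lf (nat_lit 0) (nat_lit 3174584094) (nat_lit 0) (nat_lit 0) (nat_lit 0) (nat_lit 0) (nat_lit 0) (nat_lit 0) (nat_lit 1) (nat_lit 0) (nat_lit 1) (nat_lit 0) (nat_lit 289) (nat_lit 262) (nat_lit 169)) (XT.lf (nat_lit 0) (nat_lit 3172983650) (nat_lit 0) (nat_lit 0) (nat_lit 0) (nat_lit 0) (nat_lit 0) (nat_lit 0) (nat_lit 1) (nat_lit 0) (nat_lit 1) (nat_lit 0) (nat_lit 290) (nat_lit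 262) (nat_lit 168)))) (XT.nd (nat_lit 94) (nat_lit 0) (nat_lit 0) (XT.lf (nat_lit 0) (nat_lit 3171459418) (nat_lit 0) (nat_lit 0) (nat_lit 0) (nat_lit 0) (nat_lit 0) (nat_lit 0) (nat_lit 1) (nat_lit 0) (nat_lit 1) (nat_lit 0) (nat_lit 291) (nat_lit 262) (nat_lit 167)) (XT.nd (nat_lit 94) (nat_lit 0) (nat_lit 0) (XT.lf (nat_lit 0) (nat_lit 3170007769) (nat_lit 0) (nat_lit 0) (nat_lit 0) (nat_lit 0) (nat_lit 0) (nat_lit 0) (nat_lit 1) (nat_lit 0) (nat_lit 1) (nat_lit 0) (nat_lit 292) (nat_lit 262) (nat_lit 166)) (XT.lf (nat_lit 0) (nat_lit 3168625246) (nat_lit 0) (nat_lit 0) (nat_lit 0) (nat_lit 0) (nat_lit 0) (nat_lit 0) (nat_lit 1) (nat_lit 0) (nat_lit 1) (nat_lit 0) (nat_lit 293) (nat_lit 262) (nat_lit 165))))) (XT.nd (nat_lit 282) (nat_lit 0) (nat_lit 0) (XT.nd (nat_lit 94) (nat_lit 0) (nat_lit 0) (XT.lf (nat_lit 0) (nat_lit 3167308557) (nat_lit 0) (nat_lit 0) (nat_lit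 0) (nat_lit 0) (nat_lit 0) (nat_lit 0) (nat_lit 1) (nat_lit 0) (nat_lit 1) (nat_lit 0) (nat_lit 294) (nat_lit 262) (nat_lit 164)) (XT.nd (nat_lit 94) (nat_lit 0) (nat_lit 0) (XT.lf (nat_lit 0) (nat_lit 3166054567) (nat_lit 0) (nat_lit 0) (nat_lit 0) (nat_lit 0) (nat_lit 0) (nat_lit 0) (nat_lit 1) (nat_lit 0) (nat_lit 1) (nat_lit 0) (nat_lit 295) (nat_lit 262) (nat_lit 163)) (XT.lf (nat_lit 0) (nat_lit 3164860292) (nat_lit 0) (nat_lit 0) (nat_lit 0) (nat_lit 0) (nat_lit 0) (nat_lit 0) (nat_lit 1) (nat_lit 0) (nat_lit 1) (nat_lit 0) (nat_lit 296) (nat_lit 262) (nat_lit 162)))) (XT.nd (nat_lit 188) (nat_lit 0) (nat_lit 0) (XT.nd (nat_lit 94) (nat_lit 0) (nat_lit 0) (XT.lf (nat_lit 0) (nat_lit 3163722887) (nat_lit 0) (nat_lit 0) (nat_lit 0) (nat_lit 0) (nat_lit 0) (nat_lit 0) (nat_lit 1) (nat_lit 0) (nat_lit 1) (nat_lit 0) (nat_lit 297) (nat_lit 262) (nat_lit 161)) (XT.lf (nat_lit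 0) (nat_lit 3162639643) (nat_lit 0) (nat_lit 0) (nat_lit 0) (nat_lit 0) (nat_lit 0) (nat_lit 0) (nat_lit 1) (nat_lit 0) (nat_lit 1) (nat_lit 0) (nat_lit 298) (nat_lit 262) (nat_lit 160))) (XT.nd (nat_lit 94) (nat_lit 0) (nat_lit 0) (XT.lf (nat_lit 0) (nat_lit 3161607983) (nat_lit 0) (nat_lit 0) (nat_lit 0) (nat_lit 0) (nat_lit 0) (nat_lit 0) (nat_lit 1) (nat_lit 0) (nat_lit 1) (nat_lit 0) (nat_lit 299) (nat_lit 262) (nat_lit 159)) (XT.lf (nat_lit 0) (nat_lit 3160625450) (nat_lit 0) (nat_lit 0) (nat_lit 0) (nat_lit 0) (nat_lit 0) (nat_lit 0) (nat_lit 1) (nat_lit 0) (nat_lit 1) (nat_lit 0) (nat_lit 300) (nat_lit 262) (nat_lit 158)))))) (XT.nd (nat_lit 658) (nat_lit 0) (nat_lit 0) (XT.nd (nat_lit 282) (nat_lit 0) (nat_lit 0) (XT.nd (nat_lit 94) (nat_lit 0) (nat_lit 0) (XT.lf (nat_lit 0) (nat_lit 3159689704) (nat_lit 0) (nat_lit 0) (nat_lit 0) (nat_lit 0) (nat_lit 0) (nat_lit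 0) (nat_lit 1) (nat_lit 0) (nat_lit 1) (nat_lit 0) (nat_lit 301) (nat_lit 262) (nat_lit 157)) (XT.nd (nat_lit 94) (nat_lit 0) (nat_lit 0) (XT.lf (nat_lit 0) (nat_lit 3158798517) (nat_lit 0) (nat_lit 0) (nat_lit 0) (nat_lit 0) (nat_lit 0) (nat_lit 0) (nat_lit 1) (nat_lit 0) (nat_lit 1) (nat_lit 0) (nat_lit 302) (nat_lit 262) (nat_lit 156)) (XT.lf (nat_lit 0) (nat_lit 3157949767) (nat_lit 0) (nat_lit 0) (nat_lit 0) (nat_lit 0) (nat_lit 0) (nat_lit 0) (nat_lit 1) (nat_lit 0) (nat_lit 1) (nat_lit 0) (nat_lit 303) (nat_lit 262) (nat_lit 155)))) (XT.nd (nat_lit 188) (nat_lit 0) (nat_lit 0) (XT.nd (nat_lit 94) (nat_lit 0) (nat_lit 0) (XT.lf (nat_lit 0) (nat_lit 3157141435) (nat_lit 0) (nat_lit 0) (nat_lit 0) (nat_lit 0) (nat_lit 0) (nat_lit 0) (nat_lit 1) (nat_lit 0) (nat_lit 1) (nat_lit 0) (nat_lit 304) (nat_lit 262) (nat_lit 154)) (XT.lf (nat_lit 0) (nat_lit 3156371594) (nat_lit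 0) (nat_lit 0) (nat_lit 0) (nat_lit 0) (nat_lit 0) (nat_lit 0) (nat_lit 1) (nat_lit 0) (nat_lit 1) (nat_lit 0) (nat_lit 305) (nat_lit 262) (nat_lit 153))) (XT.nd (nat_lit 94) (nat_lit 0) (nat_lit 0) (XT.lf (nat_lit 0) (nat_lit 3155638413) (nat_lit 0) (nat_lit 0) (nat_lit 0) (nat_lit 0) (nat_lit 0) (nat_lit 0) (nat_lit 1) (nat_lit 0) (nat_lit 1) (nat_lit 0) (nat_lit 306) (nat_lit 262) (nat_lit 152)) (XT.lf (nat_lit 0) (nat_lit 3154940144) (nat_lit 0) (nat_lit 0) (nat_lit 0) (nat_lit 0) (nat_lit 0) (nat_lit 0) (nat_lit 1) (nat_lit 0) (nat_lit 1) (nat_lit 0) (nat_lit 307) (nat_lit 262) (nat_lit 151))))) (XT.nd (nat_lit 282) (nat_lit 0) (nat_lit 0) (XT.nd (nat_lit 94) (nat_lit 0) (nat_lit 0) (XT.lf (nat_lit 0) (nat_lit 3154275127) (nat_lit 0) (nat_lit 0) (nat_lit 0) (nat_lit 0) (nat_lit 0) (nat_lit 0) (nat_lit 1) (nat_lit 0) (nat_lit 1) (nat_lit 0) (nat_lit 308) (nat_lit 262)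 (nat_lit 150)) (XT.nd (nat_lit 94) (nat_lit 0) (nat_lit 0) (XT.lf (nat_lit 0) (nat_lit 3153641777) (nat_lit 0) (nat_lit 0) (nat_lit 0) (nat_lit 0) (nat_lit 0) (nat_lit 0) (nat_lit 1) (nat_lit 0) (nat_lit 1) (nat_lit 0) (nat_lit 309) (nat_lit 262) (nat_lit 149)) (XT.lf (nat_lit 0) (nat_lit 3153038587) (nat_lit 0) (nat_lit 0) (nat_lit 0) (nat_lit 0) (nat_lit 0) (nat_lit 0) (nat_lit 1) (nat_lit 0) (nat_lit 1) (nat_lit 0) (nat_lit 310) (nat_lit 262) (nat_lit 148)))) (XT.nd (nat_lit 188) (nat_lit 0) (nat_lit 0) (XT.nd (nat_lit 94) (nat_lit 0) (nat_lit 0) (XT.lf (nat_lit 0) (nat_lit 3152464120) (nat_lit 0) (nat_lit 0) (nat_lit 0) (nat_lit 0) (nat_lit 0) (nat_lit 0) (nat_lit 1) (nat_lit 0) (nat_lit 1) (nat_lit 0) (nat_lit 311) (nat_lit 262) (nat_lit 147)) (XT.lf (nat_lit 0) (nat_lit 3151917008) (nat_lit 0) (nat_lit 0) (nat_lit 0) (nat_lit 0) (nat_lit 0) (nat_lit 0) (nat_lit 1)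 (nat_lit 0) (nat_lit 1) (nat_lit 0) (nat_lit 312) (nat_lit 262) (nat_lit 146))) (XT.nd (nat_lit 94) (nat_lit 0) (nat_lit 0) (XT.lf (nat_lit 0) (nat_lit 3151395950) (nat_lit 0) (nat_lit 0) (nat_lit 0) (nat_lit 0) (nat_lit 0) (nat_lit 0) (nat_lit 1) (nat_lit 0) (nat_lit 1) (nat_lit 0) (nat_lit 313) (nat_lit 262) (nat_lit 145)) (XT.lf (nat_lit 0) (nat_lit 3150899704) (nat_lit 0) (nat_lit 0) (nat_lit 0) (nat_lit 0) (nat_lit 0) (nat_lit 0) (nat_lit 1) (nat_lit 0) (nat_lit 1) (nat_lit 0) (nat_lit 314) (nat_lit 262) (nat_lit 144))))))) (XT.nd (nat_lit 34498) (nat_lit 0) (nat_lit 8148) (XT.nd (nat_lit 33840) (nat_lit 0) (nat_lit 10752) (XT.nd (nat_lit 282) (nat_lit 0) (nat_lit 0) (XT.nd (nat_lit 94) (nat_lit 0) (nat_lit 0) (XT.lf (nat_lit 0) (nat_lit 3150427088) (nat_lit 0) (nat_lit 0) (nat_lit 0) (nat_lit 0) (nat_lit 0) (nat_lit 0) (nat_lit 1) (nat_lit 0) (nat_lit 1) (nat_lit 0)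 (nat_lit 315) (nat_lit 262) (nat_lit 143)) (XT.nd (nat_lit 94) (nat_lit 0) (nat_lit 0) (XT.lf (nat_lit 0) (nat_lit 3149976979) (nat_lit 0) (nat_lit 0) (nat_lit 0) (nat_lit 0) (nat_lit 0) (nat_lit 0) (nat_lit 1) (nat_lit 0) (nat_lit 1) (nat_lit 0) (nat_lit 316) (nat_lit 262) (nat_lit 142)) (XT.lf (nat_lit 0) (nat_lit 3149548302) (nat_lit 0) (nat_lit 0) (nat_lit 0) (nat_lit 0) (nat_lit 0) (nat_lit 0) (nat_lit 1) (nat_lit 0) (nat_lit 1) (nat_lit 0) (nat_lit 317) (nat_lit 262) (nat_lit 141)))) (XT.nd (nat_lit 94) (nat_lit 0) (nat_lit 0) (XT.lf (nat_lit 0) (nat_lit 3149140040) (nat_lit 0) (nat_lit 0) (nat_lit 0) (nat_lit 0) (nat_lit 0) (nat_lit 0) (nat_lit 1) (nat_lit 0) (nat_lit 1) (nat_lit 0) (nat_lit 318) (nat_lit 262) (nat_lit 140)) (XT.nd (nat_lit 94) (nat_lit 0) (nat_lit 0) (XT.lf (nat_lit 0) (nat_lit 3148751218) (nat_lit 0) (nat_lit 0) (nat_lit 0) (nat_lit 0) (nat_lit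 0) (nat_lit 0) (nat_lit 1) (nat_lit 0) (nat_lit 1) (nat_lit 0) (nat_lit 319) (nat_lit 262) (nat_lit 139)) (XT.lf (nat_lit 0) (nat_lit 3148380911) (nat_lit 0) (nat_lit 0) (nat_lit 0) (nat_lit 0) (nat_lit 0) (nat_lit 0) (nat_lit 1) (nat_lit 0) (nat_lit 1) (nat_lit 0) (nat_lit 320) (nat_lit 262) (nat_lit 138))))) (XT.nd (nat_lit 282) (nat_lit 0) (nat_lit 84) (XT.nd (nat_lit 94) (nat_lit 0) (nat_lit 0) (XT.lf (nat_lit 924) (nat_lit 1650454505) (nat_lit 0) (nat_lit 2930378180) (nat_lit 924) (nat_lit 1650454505) (nat_lit 139) (nat_lit 1) (nat_lit 128) (nat_lit 0) (nat_lit 139) (nat_lit 0) (nat_lit 194) (nat_lit 263) (nat_lit 263)) (XT.nd (nat_lit 94) (nat_lit 0) (nat_lit 84) (XT.lf (nat_lit 924) (nat_lit 6397367714) (nat_lit 84) (nat_lit 2883114016) (nat_lit 0) (nat_lit 2883114016) (nat_lit 139) (nat_lit 1) (nat_lit 129) (nat_lit 1) (nat_lit 128) (nat_lit 0) (nat_lit 195) (nat_lit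 263) (nat_lit 262)) (XT.lf (nat_lit 924) (nat_lit 3048889127) (nat_lit 0) (nat_lit 5776081892) (nat_lit 840) (nat_lit 3048889127) (nat_lit 140) (nat_lit 1) (nat_lit 129) (nat_lit 1) (nat_lit 139) (nat_lit 1) (nat_lit 196) (nat_lit 263) (nat_lit 261)))) (XT.nd (nat_lit 188) (nat_lit 0) (nat_lit 84) (XT.nd (nat_lit 94) (nat_lit 0) (nat_lit 84) (XT.lf (nat_lit 924) (nat_lit 5719292349) (nat_lit 84) (nat_lit 2937096408) (nat_lit 0) (nat_lit 2937096408) (nat_lit 140) (nat_lit 1) (nat_lit 130) (nat_lit 1) (nat_lit 129) (nat_lit 1) (nat_lit 197) (nat_lit 263) (nat_lit 260)) (XT.lf (nat_lit 924) (nat_lit 2632535345) (nat_lit 0) (nat_lit 6056925973) (nat_lit 840) (nat_lit 2632535345) (nat_lit 141) (nat_lit 1) (nat_lit 130) (nat_lit 1) (nat_lit 140) (nat_lit 1) (nat_lit 198) (nat_lit 263) (nat_lit 259))) (XT.nd (nat_lit 94) (nat_lit 0) (nat_lit 84) (XT.lf (nat_lit 924) (nat_lit 4734786281)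 (nat_lit 84) (nat_lit 3161998944) (nat_lit 0) (nat_lit 3161998944) (nat_lit 141) (nat_lit 1) (nat_lit 131) (nat_lit 1) (nat_lit 130) (nat_lit 1) (nat_lit 199) (nat_lit 263) (nat_lit 258)) (XT.lf (nat_lit 924) (nat_lit 2076067031) (nat_lit 0) (nat_lit 6652275378) (nat_lit 840) (nat_lit 2076067031) (nat_lit 142) (nat_lit 1) (nat_lit 131) (nat_lit 1) (nat_lit 141) (nat_lit 1) (nat_lit 200) (nat_lit 263) (nat_lit 257)))))) (XT.nd (nat_lit 658) (nat_lit 1596) (nat_lit 0) (XT.nd (nat_lit 282) (nat_lit 1260) (nat_lit 0) (XT.nd (nat_lit 94) (nat_lit 0) (nat_lit 84) (XT.lf (nat_lit 924) (nat_lit 3489932423) (nat_lit 84) (nat_lit 3533553047) (nat_lit 0) (nat_lit 3533553047) (nat_lit 142) (nat_lit 1) (nat_lit 132) (nat_lit 1) (nat_lit 131) (nat_lit 1) (nat_lit 201) (nat_lit 263) (nat_lit 256)) (XT.nd (nat_lit 94) (nat_lit 0) (nat_lit 0) (XT.lf (nat_lit 924) (nat_lit 1401026094) (nat_lit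 0) (nat_lit 7516670594) (nat_lit 840) (nat_lit 1401026094) (nat_lit 143) (nat_lit 1) (nat_lit 132) (nat_lit 1) (nat_lit 142) (nat_lit 1) (nat_lit 202) (nat_lit 263) (nat_lit 255)) (XT.lf (nat_lit 924) (nat_lit 2025691533) (nat_lit 84) (nat_lit 4030145355) (nat_lit 0) (nat_lit 4030145355) (nat_lit 143) (nat_lit 1) (nat_lit 133) (nat_lit 1) (nat_lit 132) (nat_lit 1) (nat_lit 203) (nat_lit 263) (nat_lit 254)))) (XT.nd (nat_lit 188) (nat_lit 588) (nat_lit 0) (XT.nd (nat_lit 94) (nat_lit 840) (nat_lit 0) (XT.lf (nat_lit 84) (nat_lit 626546187) (nat_lit 0) (nat_lit 8609650875) (nat_lit 840) (nat_lit 626546187) (nat_lit 134) (nat_lit 1) (nat_lit 133) (nat_lit 1) (nat_lit 143) (nat_lit 1) (nat_lit 204) (nat_lit 263) (nat_lit 253)) (XT.lf (nat_lit 924) (nat_lit 378418316) (nat_lit 0) (nat_lit 4632551867) (nat_lit 840) (nat_lit 4632551867) (nat_lit 134) (nat_lit 1) (nat_lit 123) (nat_lit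 1) (nat_lit 133) (nat_lit 1) (nat_lit 205) (nat_lit 263) (nat_lit 252))) (XT.nd (nat_lit 94) (nat_lit 0) (nat_lit 0) (XT.lf (nat_lit 588) (nat_lit 8980343218) (nat_lit 0) (nat_lit 226687892) (nat_lit 504) (nat_lit 226687892) (nat_lit 123) (nat_lit 1) (nat_lit 116) (nat_lit 1) (nat_lit 122) (nat_lit 1) (nat_lit 206) (nat_lit 263) (nat_lit 251)) (XT.lf (nat_lit 84) (nat_lit 3926190425) (nat_lit 0) (nat_lit 1374233970) (nat_lit 588) (nat_lit 3926190425) (nat_lit 117) (nat_lit 1) (nat_lit 116) (nat_lit 1) (nat_lit 123) (nat_lit 1) (nat_lit 207) (nat_lit 263) (nat_lit 250))))) (XT.nd (nat_lit 282) (nat_lit 756) (nat_lit 0) (XT.nd (nat_lit 94) (nat_lit 420) (nat_lit 0) (XT.lf (nat_lit 504) (nat_lit 6755965913) (nat_lit 0) (nat_lit 1136175675) (nat_lit 420) (nat_lit 1136175675) (nat_lit 117) (nat_lit 1) (nat_lit 111) (nat_lit 1) (nat_lit 116) (nat_lit 1) (nat_lit 208) (nat_lit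 263) (nat_lit 249)) (XT.nd (nat_lit 94) (nat_lit 420) (nat_lit 0) (XT.lf (nat_lit 84) (nat_lit 2800503835) (nat_lit 0) (nat_lit 3233180797) (nat_lit 504) (nat_lit 2800503835) (nat_lit 112) (nat_lit 1) (nat_lit 111) (nat_lit 1) (nat_lit 117) (nat_lit 1) (nat_lit 209) (nat_lit 263) (nat_lit 248)) (XT.lf (nat_lit 504) (nat_lit 4448899362) (nat_lit 0) (nat_lit 2098960648) (nat_lit 420) (nat_lit 2098960648) (nat_lit 112) (nat_lit 1) (nat_lit 106) (nat_lit 1) (nat_lit 111) (nat_lit 1) (nat_lit 210) (nat_lit 263) (nat_lit 247)))) (XT.nd (nat_lit 188) (nat_lit 420) (nat_lit 0) (XT.nd (nat_lit 94) (nat_lit 336) (nat_lit 0) (XT.lf (nat_lit 84) (nat_lit 1639360288) (nat_lit 0) (nat_lit 5186181560) (nat_lit 504) (nat_lit 1639360288) (nat_lit 107) (nat_lit 1) (nat_lit 106) (nat_lit 1) (nat_lit 112) (nat_lit 1) (nat_lit 211) (nat_lit 263) (nat_lit 246)) (XT.lf (nat_lit 420) (nat_lit 2080616502)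 (nat_lit 0) (nat_lit 3103523328) (nat_lit 336) (nat_lit 3103523328) (nat_lit 107) (nat_lit 1) (nat_lit 102) (nat_lit 1) (nat_lit 106) (nat_lit 1) (nat_lit 212) (nat_lit 263) (nat_lit 245))) (XT.nd (nat_lit 94) (nat_lit 420) (nat_lit 0) (XT.lf (nat_lit 84) (nat_lit 452728267) (nat_lit 0) (nat_lit 7211783386) (nat_lit 420) (nat_lit 452728267) (nat_lit 103) (nat_lit 1) (nat_lit 102) (nat_lit 1) (nat_lit 107) (nat_lit 1) (nat_lit 213) (nat_lit 263) (nat_lit 244)) (XT.lf (nat_lit 84) (nat_lit 3814818477) (nat_lit 0) (nat_lit 319498457) (nat_lit 420) (nat_lit 3814818477) (nat_lit 98) (nat_lit 1) (nat_lit 97) (nat_lit 1) (nat_lit 102) (nat_lit 1) (nat_lit 214) (nat_lit 263) (nat_lit 243))))))))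
noncomputable def ec73 : XT := (XT.nd (nat_lit 2538) (nat_lit 2688) (nat_lit 0) (XT.nd (nat_lit 1222) (nat_lit 1680) (nat_lit 0) (XT.nd (nat_lit 564) (nat_lit 1092) (nat_lit 0) (XT.nd (nat_lit 282) (nat_lit 672) (nat_lit 0) (XT.nd (nat_lit 94) (nat_lit 336) (nat_lit 0) (XT.lf (nat_lit 420) (nat_lit 6310311364) (nat_lit 0) (nat_lit 738560684) (nat_lit 336) (nat_lit 738560684) (nat_lit 98) (nat_lit 1) (nat_lit 93) (nat_lit 1) (nat_lit 97) (nat_lit 1) (nat_lit 215) (nat_lit 263) (nat_lit 242)) (XT.nd (nat_lit 94) (nat_lit 336) (nat_lit 0) (XT.lf (nat_lit 84) (nat_lit 2475181537) (nat_lit 0) (nat_lit 2678141024) (nat_lit 420) (nat_lit 2475181537) (nat_lit 94) (nat_lit 1) (nat_lit 93) (nat_lit 1) (nat_lit 98) (nat_lit 1) (nat_lit 216) (nat_lit 263) (nat_lit 241)) (XT.lf (nat_lit 420) (nat_lit 3611978405) (nat_lit 0) (nat_lit 1931554073) (nat_lit 336) (nat_lit 1931554073) (nat_lit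 94) (nat_lit 1) (nat_lit 89) (nat_lit 1) (nat_lit 93) (nat_lit 1) (nat_lit 217) (nat_lit 263) (nat_lit 240)))) (XT.nd (nat_lit 94) (nat_lit 672) (nat_lit 0) (XT.lf (nat_lit 84) (nat_lit 1139056789) (nat_lit 0) (nat_lit 5048041369) (nat_lit 420) (nat_lit 1139056789) (nat_lit 90) (nat_lit 1) (nat_lit 89) (nat_lit 1) (nat_lit 94) (nat_lit 1) (nat_lit 218) (nat_lit 263) (nat_lit 239)) (XT.nd (nat_lit 94) (nat_lit 420) (nat_lit 0) (XT.lf (nat_lit 336) (nat_lit 926346101) (nat_lit 0) (nat_lit 3127046039) (nat_lit 252) (nat_lit 3127046039) (nat_lit 90) (nat_lit 1) (nat_lit 86) (nat_lit 1) (nat_lit 89) (nat_lit 1) (nat_lit 219) (nat_lit 263) (nat_lit 238)) (XT.lf (nat_lit 420) (nat_lit 6670175627) (nat_lit 0) (nat_lit 185084574) (nat_lit 336) (nat_lit 185084574) (nat_lit 86) (nat_lit 1) (nat_lit 81) (nat_lit 1) (nat_lit 85) (nat_lit 1) (nat_lit 220) (nat_lit 263) (nat_lit 237)))))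 (XT.nd (nat_lit 282) (nat_lit 840) (nat_lit 0) (XT.nd (nat_lit 94) (nat_lit 252) (nat_lit 0) (XT.lf (nat_lit 84) (nat_lit 2610089034) (nat_lit 0) (nat_lit 1680848704) (nat_lit 420) (nat_lit 2610089034) (nat_lit 82) (nat_lit 1) (nat_lit 81) (nat_lit 1) (nat_lit 86) (nat_lit 1) (nat_lit 221) (nat_lit 263) (nat_lit 236)) (XT.nd (nat_lit 94) (nat_lit 0) (nat_lit 0) (XT.lf (nat_lit 336) (nat_lit 3812117551) (nat_lit 0) (nat_lit 1477467218) (nat_lit 252) (nat_lit 1477467218) (nat_lit 82) (nat_lit 1) (nat_lit 78) (nat_lit 1) (nat_lit 81) (nat_lit 1) (nat_lit 222) (nat_lit 263) (nat_lit 235)) (XT.lf (nat_lit 84) (nat_lit 1204306901) (nat_lit 0) (nat_lit 4227867256) (nat_lit 336) (nat_lit 1204306901) (nat_lit 79) (nat_lit 1) (nat_lit 78) (nat_lit 1) (nat_lit 82) (nat_lit 1) (nat_lit 223) (nat_lit 263) (nat_lit 234)))) (XT.nd (nat_lit 188) (nat_lit 252) (nat_lit 0) (XT.nd (nat_lit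 94) (nat_lit 336) (nat_lit 0) (XT.lf (nat_lit 336) (nat_lit 1003752160) (nat_lit 0) (nat_lit 2752564213) (nat_lit 252) (nat_lit 2752564213) (nat_lit 79) (nat_lit 1) (nat_lit 75) (nat_lit 1) (nat_lit 78) (nat_lit 1) (nat_lit 224) (nat_lit 263) (nat_lit 233)) (XT.lf (nat_lit 336) (nat_lit 6041010278) (nat_lit 0) (nat_lit 172505177) (nat_lit 252) (nat_lit 172505177) (nat_lit 75) (nat_lit 1) (nat_lit 71) (nat_lit 1) (nat_lit 74) (nat_lit 1) (nat_lit 225) (nat_lit 263) (nat_lit 232))) (XT.nd (nat_lit 94) (nat_lit 252) (nat_lit 0) (XT.lf (nat_lit 84) (nat_lit 2285141184) (nat_lit 0) (nat_lit 1693266672) (nat_lit 336) (nat_lit 2285141184) (nat_lit 72) (nat_lit 1) (nat_lit 71) (nat_lit 1) (nat_lit 75) (nat_lit 1) (nat_lit 226) (nat_lit 263) (nat_lit 231)) (XT.lf (nat_lit 336) (nat_lit 3142278369) (nat_lit 0) (nat_lit 1501665274) (nat_lit 252) (nat_lit 1501665274) (nat_lit 72) (nat_lit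 1) (nat_lit 68) (nat_lit 1) (nat_lit 71) (nat_lit 1) (nat_lit 227) (nat_lit 263) (nat_lit 230)))))) (XT.nd (nat_lit 658) (nat_lit 756) (nat_lit 0) (XT.nd (nat_lit 282) (nat_lit 420) (nat_lit 0) (XT.nd (nat_lit 94) (nat_lit 504) (nat_lit 0) (XT.lf (nat_lit 84) (nat_lit 865380900) (nat_lit 0) (nat_lit 4300070202) (nat_lit 336) (nat_lit 865380900) (nat_lit 69) (nat_lit 1) (nat_lit 68) (nat_lit 1) (nat_lit 72) (nat_lit 1) (nat_lit 228) (nat_lit 263) (nat_lit 229)) (XT.nd (nat_lit 94) (nat_lit 336) (nat_lit 0) (XT.lf (nat_lit 252) (nat_lit 317104335) (nat_lit 0) (nat_lit 2800556827) (nat_lit 168) (nat_lit 2800556827) (nat_lit 69) (nat_lit 1) (nat_lit 66) (nat_lit 1) (nat_lit 68) (nat_lit 1) (nat_lit 229) (nat_lit 263) (nat_lit 228)) (XT.lf (nat_lit 336) (nat_lit 4791340175) (nat_lit 0) (nat_lit 508875055) (nat_lit 252) (nat_lit 508875055) (nat_lit 66) (nat_lit 1) (nat_lit 62)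 (nat_lit 1) (nat_lit 65) (nat_lit 1) (nat_lit 230) (nat_lit 263) (nat_lit 227)))) (XT.nd (nat_lit 188) (nat_lit 252) (nat_lit 0) (XT.nd (nat_lit 94) (nat_lit 168) (nat_lit 0) (XT.lf (nat_lit 84) (nat_lit 1673501390) (nat_lit 0) (nat_lit 2354180290) (nat_lit 336) (nat_lit 1673501390) (nat_lit 63) (nat_lit 1) (nat_lit 62) (nat_lit 1) (nat_lit 66) (nat_lit 1) (nat_lit 231) (nat_lit 263) (nat_lit 226)) (XT.lf (nat_lit 252) (nat_lit 1933472708) (nat_lit 0) (nat_lit 1831566730) (nat_lit 168) (nat_lit 1831566730) (nat_lit 63) (nat_lit 1) (nat_lit 60) (nat_lit 1) (nat_lit 62) (nat_lit 1) (nat_lit 232) (nat_lit 263) (nat_lit 225))) (XT.nd (nat_lit 94) (nat_lit 252) (nat_lit 0) (XT.lf (nat_lit 84) (nat_lit 277778658) (nat_lit 0) (nat_lit 4939942455) (nat_lit 252) (nat_lit 277778658) (nat_lit 61) (nat_lit 1) (nat_lit 60) (nat_lit 1) (nat_lit 63) (nat_lit 1) (nat_lit 233) (nat_lit 263)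 (nat_lit 224)) (XT.lf (nat_lit 84) (nat_lit 2292556004) (nat_lit 0) (nat_lit 809648897) (nat_lit 252) (nat_lit 2292556004) (nat_lit 58) (nat_lit 1) (nat_lit 57) (nat_lit 1) (nat_lit 60) (nat_lit 1) (nat_lit 234) (nat_lit 263) (nat_lit 223))))) (XT.nd (nat_lit 282) (nat_lit 420) (nat_lit 0) (XT.nd (nat_lit 94) (nat_lit 168) (nat_lit 0) (XT.lf (nat_lit 252) (nat_lit 3183615816) (nat_lit 0) (nat_lit 1056874194) (nat_lit 168) (nat_lit 1056874194) (nat_lit 58) (nat_lit 1) (nat_lit 55) (nat_lit 1) (nat_lit 57) (nat_lit 1) (nat_lit 235) (nat_lit 263) (nat_lit 222)) (XT.nd (nat_lit 94) (nat_lit 168) (nat_lit 0) (XT.lf (nat_lit 84) (nat_lit 898333557) (nat_lit 0) (nat_lit 3405453069) (nat_lit 252) (nat_lit 898333557) (nat_lit 56) (nat_lit 1) (nat_lit 55) (nat_lit 1) (nat_lit 58) (nat_lit 1) (nat_lit 236) (nat_lit 263) (nat_lit 221)) (XT.lf (nat_lit 252) (nat_lit 420836928) (nat_lit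 0) (nat_lit 2343979554) (nat_lit 168) (nat_lit 2343979554) (nat_lit 56) (nat_lit 1) (nat_lit 53) (nat_lit 1) (nat_lit 55) (nat_lit 1) (nat_lit 237) (nat_lit 263) (nat_lit 220)))) (XT.nd (nat_lit 188) (nat_lit 168) (nat_lit 0) (XT.nd (nat_lit 94) (nat_lit 0) (nat_lit 0) (XT.lf (nat_lit 252) (nat_lit 4136257216) (nat_lit 0) (nat_lit 440959407) (nat_lit 168) (nat_lit 440959407) (nat_lit 53) (nat_lit 1) (nat_lit 50) (nat_lit 1) (nat_lit 52) (nat_lit 1) (nat_lit 238) (nat_lit 263) (nat_lit 219)) (XT.lf (nat_lit 84) (nat_lit 1376970163) (nat_lit 0) (nat_lit 2174389129) (nat_lit 252) (nat_lit 1376970163) (nat_lit 51) (nat_lit 1) (nat_lit 50) (nat_lit 1) (nat_lit 53) (nat_lit 1) (nat_lit 239) (nat_lit 263) (nat_lit 218))) (XT.nd (nat_lit 94) (nat_lit 0) (nat_lit 0) (XT.lf (nat_lit 252) (nat_lit 1402377258) (nat_lit 0) (nat_lit 1719356996) (nat_lit 168) (nat_lit 1719356996) (nat_lit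 51) (nat_lit 1) (nat_lit 48) (nat_lit 1) (nat_lit 50) (nat_lit 1) (nat_lit 240) (nat_lit 263) (nat_lit 217)) (XT.lf (nat_lit 84) (nat_lit 46092272) (nat_lit 0) (nat_lit 4664727949) (nat_lit 252) (nat_lit 46092272) (nat_lit 49) (nat_lit 1) (nat_lit 48) (nat_lit 1) (nat_lit 51) (nat_lit 1) (nat_lit 241) (nat_lit 263) (nat_lit 216))))))) (XT.nd (nat_lit 1222) (nat_lit 1260) (nat_lit 0) (XT.nd (nat_lit 564) (nat_lit 756) (nat_lit 0) (XT.nd (nat_lit 282) (nat_lit 336) (nat_lit 0) (XT.nd (nat_lit 94) (nat_lit 168) (nat_lit 0) (XT.lf (nat_lit 84) (nat_lit 1740369067) (nat_lit 0) (nat_lit 1191460520) (nat_lit 168) (nat_lit 1740369067) (nat_lit 47) (nat_lit 1) (nat_lit 46) (nat_lit 1) (nat_lit 48) (nat_lit 1) (nat_lit 242) (nat_lit 263) (nat_lit 215)) (XT.nd (nat_lit 94) (nat_lit 0) (nat_lit 0) (XT.lf (nat_lit 252) (nat_lit 2159599885) (nat_lit 0) (nat_lit 1215432795) (nat_lit 168)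 (nat_lit 1215432795) (nat_lit 47) (nat_lit 1) (nat_lit 44) (nat_lit 1) (nat_lit 46) (nat_lit 1) (nat_lit 243) (nat_lit 263) (nat_lit 214)) (XT.lf (nat_lit 84) (nat_lit 432984851) (nat_lit 0) (nat_lit 3644968777) (nat_lit 252) (nat_lit 432984851) (nat_lit 45) (nat_lit 1) (nat_lit 44) (nat_lit 1) (nat_lit 47) (nat_lit 1) (nat_lit 244) (nat_lit 263) (nat_lit 213)))) (XT.nd (nat_lit 94) (nat_lit 168) (nat_lit 0) (XT.lf (nat_lit 84) (nat_lit 2010408135) (nat_lit 0) (nat_lit 411251044) (nat_lit 168) (nat_lit 2010408135) (nat_lit 43) (nat_lit 1) (nat_lit 42) (nat_lit 1) (nat_lit 44) (nat_lit 1) (nat_lit 245) (nat_lit 263) (nat_lit 212)) (XT.nd (nat_lit 94) (nat_lit 0) (nat_lit 0) (XT.lf (nat_lit 252) (nat_lit 2734670687) (nat_lit 0) (nat_lit 810333415) (nat_lit 168) (nat_lit 810333415) (nat_lit 43) (nat_lit 1) (nat_lit 40) (nat_lit 1) (nat_lit 42) (nat_lit 1) (nat_lit 246) (nat_lit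 263) (nat_lit 211)) (XT.lf (nat_lit 84) (nat_lit 732469732) (nat_lit 0) (nat_lit 2815187261) (nat_lit 252) (nat_lit 732469732) (nat_lit 41) (nat_lit 1) (nat_lit 40) (nat_lit 1) (nat_lit 43) (nat_lit 1) (nat_lit 247) (nat_lit 263) (nat_lit 210))))) (XT.nd (nat_lit 282) (nat_lit 420) (nat_lit 0) (XT.nd (nat_lit 94) (nat_lit 252) (nat_lit 0) (XT.lf (nat_lit 168) (nat_lit 210265386) (nat_lit 0) (nat_lit 1998034905) (nat_lit 84) (nat_lit 1998034905) (nat_lit 41) (nat_lit 1) (nat_lit 39) (nat_lit 1) (nat_lit 40) (nat_lit 1) (nat_lit 248) (nat_lit 263) (nat_lit 209)) (XT.nd (nat_lit 94) (nat_lit 0) (nat_lit 0) (XT.lf (nat_lit 252) (nat_lit 3162165597) (nat_lit 0) (nat_lit 486086017) (nat_lit 168) (nat_lit 486086017) (nat_lit 39) (nat_lit 1) (nat_lit 36) (nat_lit 1) (nat_lit 38) (nat_lit 1) (nat_lit 249) (nat_lit 263) (nat_lit 208)) (XT.lf (nat_lit 84) (nat_lit 960939921) (nat_lit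 0) (nat_lit 2141263839) (nat_lit 252) (nat_lit 960939921) (nat_lit 37) (nat_lit 1) (nat_lit 36) (nat_lit 1) (nat_lit 39) (nat_lit 1) (nat_lit 250) (nat_lit 263) (nat_lit 207)))) (XT.nd (nat_lit 188) (nat_lit 84) (nat_lit 0) (XT.nd (nat_lit 94) (nat_lit 252) (nat_lit 0) (XT.lf (nat_lit 168) (nat_lit 706118801) (nat_lit 0) (nat_lit 1643788261) (nat_lit 84) (nat_lit 1643788261) (nat_lit 37) (nat_lit 1) (nat_lit 35) (nat_lit 1) (nat_lit 36) (nat_lit 1) (nat_lit 251) (nat_lit 263) (nat_lit 206)) (XT.lf (nat_lit 252) (nat_lit 3470421705) (nat_lit 0) (nat_lit 227925798) (nat_lit 168) (nat_lit 227925798) (nat_lit 35) (nat_lit 1) (nat_lit 32) (nat_lit 1) (nat_lit 34) (nat_lit 1) (nat_lit 252) (nat_lit 263) (nat_lit 205))) (XT.nd (nat_lit 94) (nat_lit 84) (nat_lit 0) (XT.lf (nat_lit 84) (nat_lit 1131839328) (nat_lit 0) (nat_lit 1595149071) (nat_lit 252) (nat_lit 1131839328) (nat_lit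 33) (nat_lit 1) (nat_lit 32) (nat_lit 1) (nat_lit 35) (nat_lit 1) (nat_lit 253) (nat_lit 263) (nat_lit 204)) (XT.lf (nat_lit 168) (nat_lit 1088671350) (nat_lit 0) (nat_lit 1352348670) (nat_lit 84) (nat_lit 1352348670) (nat_lit 33) (nat_lit 1) (nat_lit 31) (nat_lit 1) (nat_lit 32) (nat_lit 1) (nat_lit 254) (nat_lit 263) (nat_lit 203)))))) (XT.nd (nat_lit 658) (nat_lit 672) (nat_lit 0) (XT.nd (nat_lit 282) (nat_lit 252) (nat_lit 0) (XT.nd (nat_lit 94) (nat_lit 84) (nat_lit 0) (XT.lf (nat_lit 252) (nat_lit 3682648566) (nat_lit 0) (nat_lit 23726194) (nat_lit 168) (nat_lit 23726194) (nat_lit 31) (nat_lit 1) (nat_lit 28) (nat_lit 1) (nat_lit 30) (nat_lit 1) (nat_lit 255) (nat_lit 263) (nat_lit 202)) (XT.nd (nat_lit 94) (nat_lit 84) (nat_lit 0) (XT.lf (nat_lit 84) (nat_lit 1256187660) (nat_lit 0) (nat_lit 1153786432) (nat_lit 252) (nat_lit 1256187660) (nat_lit 29) (nat_lit 1) (nat_lit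 28) (nat_lit 1) (nat_lit 31) (nat_lit 1) (nat_lit 256) (nat_lit 263) (nat_lit 201)) (XT.lf (nat_lit 168) (nat_lit 1379219914) (nat_lit 0) (nat_lit 1112580598) (nat_lit 84) (nat_lit 1112580598) (nat_lit 29) (nat_lit 1) (nat_lit 27) (nat_lit 1) (nat_lit 28) (nat_lit 1) (nat_lit 257) (nat_lit 263) (nat_lit 200)))) (XT.nd (nat_lit 188) (nat_lit 84) (nat_lit 0) (XT.nd (nat_lit 94) (nat_lit 168) (nat_lit 0) (XT.lf (nat_lit 0) (nat_lit 138707063) (nat_lit 0) (nat_lit 3267051602) (nat_lit 168) (nat_lit 138707063) (nat_lit 27) (nat_lit 3) (nat_lit 27) (nat_lit 1) (nat_lit 29) (nat_lit 1) (nat_lit 258) (nat_lit 263) (nat_lit 199)) (XT.lf (nat_lit 84) (nat_lit 1343012167) (nat_lit 0) (nat_lit 798226138) (nat_lit 168) (nat_lit 1343012167) (nat_lit 26) (nat_lit 1) (nat_lit 25) (nat_lit 1) (nat_lit 27) (nat_lit 1) (nat_lit 259) (nat_lit 263) (nat_lit 198))) (XT.nd (nat_lit 94) (nat_lit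 0) (nat_lit 0) (XT.lf (nat_lit 168) (nat_lit 1595227922) (nat_lit 0) (nat_lit 915322811) (nat_lit 84) (nat_lit 915322811) (nat_lit 26) (nat_lit 1) (nat_lit 24) (nat_lit 1) (nat_lit 25) (nat_lit 1) (nat_lit 260) (nat_lit 263) (nat_lit 197)) (XT.lf (nat_lit 0) (nat_lit 265111459) (nat_lit 0) (nat_lit 2838808254) (nat_lit 168) (nat_lit 265111459) (nat_lit 24) (nat_lit 3) (nat_lit 24) (nat_lit 1) (nat_lit 26) (nat_lit 1) (nat_lit 261) (nat_lit 263) (nat_lit 196))))) (XT.nd (nat_lit 282) (nat_lit 420) (nat_lit 0) (XT.nd (nat_lit 94) (nat_lit 84) (nat_lit 0) (XT.lf (nat_lit 84) (nat_lit 1399702739) (nat_lit 0) (nat_lit 512896129) (nat_lit 168) (nat_lit 1399702739) (nat_lit 23) (nat_lit 1) (nat_lit 22) (nat_lit 1) (nat_lit 24) (nat_lit 1) (nat_lit 262) (nat_lit 263) (nat_lit 195)) (XT.nd (nat_lit 94) (nat_lit 0) (nat_lit 0) (XT.lf (nat_lit 168) (nat_lit 1751007755) (nat_lit 0)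 (nat_lit 753038342) (nat_lit 84) (nat_lit 753038342) (nat_lit 23) (nat_lit 1) (nat_lit 21) (nat_lit 1) (nat_lit 22) (nat_lit 1) (nat_lit 263) (nat_lit 263) (nat_lit 194)) (XT.lf (nat_lit 0) (nat_lit 361914344) (nat_lit 0) (nat_lit 2479301066) (nat_lit 168) (nat_lit 361914344) (nat_lit 21) (nat_lit 3) (nat_lit 21) (nat_lit 1) (nat_lit 23) (nat_lit 1) (nat_lit 264) (nat_lit 263) (nat_lit 193)))) (XT.nd (nat_lit 188) (nat_lit 168) (nat_lit 0) (XT.nd (nat_lit 94) (nat_lit 84) (nat_lit 0) (XT.lf (nat_lit 84) (nat_lit 1432303960) (nat_lit 0) (nat_lit 285002352) (nat_lit 168) (nat_lit 1432303960) (nat_lit 20) (nat_lit 1) (nat_lit 19) (nat_lit 1) (nat_lit 21) (nat_lit 1) (nat_lit 265) (nat_lit 263) (nat_lit 192)) (XT.lf (nat_lit 168) (nat_lit 1858282029) (nat_lit 0) (nat_lit 619526507) (nat_lit 84) (nat_lit 619526507) (nat_lit 20) (nat_lit 1) (nat_lit 18) (nat_lit 1) (nat_lit 19)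 (nat_lit 1) (nat_lit 266) (nat_lit 263) (nat_lit 191))) (XT.nd (nat_lit 94) (nat_lit 168) (nat_lit 0) (XT.lf (nat_lit 0) (nat_lit 434706388) (nat_lit 0) (nat_lit 2176685685) (nat_lit 168) (nat_lit 434706388) (nat_lit 18) (nat_lit 3) (nat_lit 18) (nat_lit 1) (nat_lit 20) (nat_lit 1) (nat_lit 267) (nat_lit 263) (nat_lit 190)) (XT.lf (nat_lit 84) (nat_lit 1445755301) (nat_lit 0) (nat_lit 104035414) (nat_lit 168) (nat_lit 1445755301) (nat_lit 17) (nat_lit 1) (nat_lit 16) (nat_lit 1) (nat_lit 18) (nat_lit 1) (nat_lit 268) (nat_lit 263) (nat_lit 189))))))))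
noncomputable def ec74 : XT := (XT.nd (nat_lit 2538) (nat_lit 0) (nat_lit 0) (XT.nd (nat_lit 1222) (nat_lit 252) (nat_lit 0) (XT.nd (nat_lit 564) (nat_lit 672) (nat_lit 0) (XT.nd (nat_lit 282) (nat_lit 252) (nat_lit 0) (XT.nd (nat_lit 94) (nat_lit 84) (nat_lit 0) (XT.lf (nat_lit 168) (nat_lit 1926645238) (nat_lit 0) (nat_lit 509685991) (nat_lit 84) (nat_lit 509685991) (nat_lit 17) (nat_lit 1) (nat_lit 15) (nat_lit 1) (nat_lit 16) (nat_lit 1) (nat_lit 269) (nat_lit 263) (nat_lit 188)) (XT.nd (nat_lit 94) (nat_lit 84) (nat_lit 0) (XT.lf (nat_lit 0) (nat_lit 488070748) (nat_lit 0) (nat_lit 1921201426) (nat_lit 168) (nat_lit 488070748) (nat_lit 15) (nat_lit 3) (nat_lit 15) (nat_lit 1) (nat_lit 17) (nat_lit 1) (nat_lit 270) (nat_lit 263) (nat_lit 187)) (XT.lf (nat_lit 84) (nat_lit 39912716) (nat_lit 0) (nat_lit 1404799076) (nat_lit 84) (nat_lit 1404799076) (nat_lit 15) (nat_lit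 3) (nat_lit 14) (nat_lit 1) (nat_lit 15) (nat_lit 1) (nat_lit 271) (nat_lit 263) (nat_lit 186)))) (XT.nd (nat_lit 94) (nat_lit 84) (nat_lit 0) (XT.lf (nat_lit 168) (nat_lit 1963943438) (nat_lit 0) (nat_lit 419319926) (nat_lit 84) (nat_lit 419319926) (nat_lit 14) (nat_lit 1) (nat_lit 12) (nat_lit 1) (nat_lit 13) (nat_lit 1) (nat_lit 272) (nat_lit 263) (nat_lit 185)) (XT.nd (nat_lit 94) (nat_lit 84) (nat_lit 0) (XT.lf (nat_lit 0) (nat_lit 525762465) (nat_lit 0) (nat_lit 1704802621) (nat_lit 168) (nat_lit 525762465) (nat_lit 12) (nat_lit 3) (nat_lit 12) (nat_lit 1) (nat_lit 14) (nat_lit 1) (nat_lit 273) (nat_lit 263) (nat_lit 184)) (XT.lf (nat_lit 84) (nat_lit 155058107) (nat_lit 0) (nat_lit 1277953494) (nat_lit 84) (nat_lit 1277953494) (nat_lit 12) (nat_lit 3) (nat_lit 11) (nat_lit 1) (nat_lit 12) (nat_lit 1) (nat_lit 274) (nat_lit 263) (nat_lit 183))))) (XT.nd (nat_lit 282)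 (nat_lit 420) (nat_lit 0) (XT.nd (nat_lit 94) (nat_lit 84) (nat_lit 0) (XT.lf (nat_lit 168) (nat_lit 1976586492) (nat_lit 0) (nat_lit 344975541) (nat_lit 84) (nat_lit 344975541) (nat_lit 11) (nat_lit 1) (nat_lit 9) (nat_lit 1) (nat_lit 10) (nat_lit 1) (nat_lit 275) (nat_lit 263) (nat_lit 182)) (XT.nd (nat_lit 94) (nat_lit 84) (nat_lit 0) (XT.lf (nat_lit 0) (nat_lit 550856037) (nat_lit 0) (nat_lit 1520855291) (nat_lit 168) (nat_lit 550856037) (nat_lit 9) (nat_lit 3) (nat_lit 9) (nat_lit 1) (nat_lit 11) (nat_lit 1) (nat_lit 276) (nat_lit 263) (nat_lit 181)) (XT.lf (nat_lit 84) (nat_lit 243968419) (nat_lit 0) (nat_lit 1167777232) (nat_lit 84) (nat_lit 1167777232) (nat_lit 9) (nat_lit 3) (nat_lit 8) (nat_lit 1) (nat_lit 9) (nat_lit 1) (nat_lit 277) (nat_lit 263) (nat_lit 180)))) (XT.nd (nat_lit 188) (nat_lit 252) (nat_lit 0) (XT.nd (nat_lit 94) (nat_lit 0) (nat_lit 0) (XT.lf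 (nat_lit 168) (nat_lit 1969804850) (nat_lit 0) (nat_lit 283812231) (nat_lit 84) (nat_lit 283812231) (nat_lit 8) (nat_lit 1) (nat_lit 6) (nat_lit 1) (nat_lit 7) (nat_lit 1) (nat_lit 278) (nat_lit 263) (nat_lit 179)) (XT.lf (nat_lit 0) (nat_lit 565866773) (nat_lit 0) (nat_lit 1363887560) (nat_lit 168) (nat_lit 565866773) (nat_lit 6) (nat_lit 3) (nat_lit 6) (nat_lit 1) (nat_lit 8) (nat_lit 1) (nat_lit 279) (nat_lit 263) (nat_lit 178))) (XT.nd (nat_lit 94) (nat_lit 168) (nat_lit 0) (XT.lf (nat_lit 84) (nat_lit 311572213) (nat_lit 0) (nat_lit 1071592010) (nat_lit 84) (nat_lit 1071592010) (nat_lit 6) (nat_lit 3) (nat_lit 5) (nat_lit 1) (nat_lit 6) (nat_lit 1) (nat_lit 280) (nat_lit 263) (nat_lit 177)) (XT.lf (nat_lit 168) (nat_lit 1947860708) (nat_lit 0) (nat_lit 233493025) (nat_lit 84) (nat_lit 233493025) (nat_lit 5) (nat_lit 1) (nat_lit 3) (nat_lit 1) (nat_lit 4) (nat_lit 1)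 (nat_lit 281) (nat_lit 263) (nat_lit 176)))))) (XT.nd (nat_lit 658) (nat_lit 0) (nat_lit 0) (XT.nd (nat_lit 282) (nat_lit 0) (nat_lit 0) (XT.nd (nat_lit 94) (nat_lit 252) (nat_lit 0) (XT.lf (nat_lit 0) (nat_lit 572850612) (nat_lit 0) (nat_lit 1229384288) (nat_lit 168) (nat_lit 572850612) (nat_lit 3) (nat_lit 3) (nat_lit 3) (nat_lit 1) (nat_lit 5) (nat_lit 1) (nat_lit 282) (nat_lit 263) (nat_lit 175)) (XT.nd (nat_lit 94) (nat_lit 168) (nat_lit 0) (XT.lf (nat_lit 84) (nat_lit 361911031) (nat_lit 0) (nat_lit 987181199) (nat_lit 84) (nat_lit 987181199) (nat_lit 3) (nat_lit 3) (nat_lit 2) (nat_lit 1) (nat_lit 3) (nat_lit 1) (nat_lit 283) (nat_lit 263) (nat_lit 174)) (XT.lf (nat_lit 0) (nat_lit 3338875850) (nat_lit 0) (nat_lit 0) (nat_lit 0) (nat_lit 0) (nat_lit 0) (nat_lit 0) (nat_lit 1) (nat_lit 0) (nat_lit 1) (nat_lit 0) (nat_lit 284) (nat_lit 263) (nat_lit 173)))) (XT.nd (nat_lit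 188) (nat_lit 0) (nat_lit 0) (XT.nd (nat_lit 94) (nat_lit 0) (nat_lit 0) (XT.lf (nat_lit 0) (nat_lit 3336930501) (nat_lit 0) (nat_lit 0) (nat_lit 0) (nat_lit 0) (nat_lit 0) (nat_lit 0) (nat_lit 1) (nat_lit 0) (nat_lit 1) (nat_lit 0) (nat_lit 285) (nat_lit 263) (nat_lit 172)) (XT.lf (nat_lit 0) (nat_lit 3335077787) (nat_lit 0) (nat_lit 0) (nat_lit 0) (nat_lit 0) (nat_lit 0) (nat_lit 0) (nat_lit 1) (nat_lit 0) (nat_lit 1) (nat_lit 0) (nat_lit 286) (nat_lit 263) (nat_lit 171))) (XT.nd (nat_lit 94) (nat_lit 0) (nat_lit 0) (XT.lf (nat_lit 0) (nat_lit 3333313298) (nat_lit 0) (nat_lit 0) (nat_lit 0) (nat_lit 0) (nat_lit 0) (nat_lit 0) (nat_lit 1) (nat_lit 0) (nat_lit 1) (nat_lit 0) (nat_lit 287) (nat_lit 263) (nat_lit 170)) (XT.lf (nat_lit 0) (nat_lit 3331632833) (nat_lit 0) (nat_lit 0) (nat_lit 0) (nat_lit 0) (nat_lit 0) (nat_lit 0) (nat_lit 1) (nat_lit 0) (nat_lit 1) (nat_lit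 0) (nat_lit 288) (nat_lit 263) (nat_lit 169))))) (XT.nd (nat_lit 282) (nat_lit 0) (nat_lit 0) (XT.nd (nat_lit 94) (nat_lit 0) (nat_lit 0) (XT.lf (nat_lit 0) (nat_lit 3330032389) (nat_lit 0) (nat_lit 0) (nat_lit 0) (nat_lit 0) (nat_lit 0) (nat_lit 0) (nat_lit 1) (nat_lit 0) (nat_lit 1) (nat_lit 0) (nat_lit 289) (nat_lit 263) (nat_lit 168)) (XT.nd (nat_lit 94) (nat_lit 0) (nat_lit 0) (XT.lf (nat_lit 0) (nat_lit 3328508157) (nat_lit 0) (nat_lit 0) (nat_lit 0) (nat_lit 0) (nat_lit 0) (nat_lit 0) (nat_lit 1) (nat_lit 0) (nat_lit 1) (nat_lit 0) (nat_lit 290) (nat_lit 263) (nat_lit 167)) (XT.lf (nat_lit 0) (nat_lit 3327056508) (nat_lit 0) (nat_lit 0) (nat_lit 0) (nat_lit 0) (nat_lit 0) (nat_lit 0) (nat_lit 1) (nat_lit 0) (nat_lit 1) (nat_lit 0) (nat_lit 291) (nat_lit 263) (nat_lit 166)))) (XT.nd (nat_lit 188) (nat_lit 0) (nat_lit 0) (XT.nd (nat_lit 94) (nat_lit 0) (nat_lit 0) (XT.lf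 (nat_lit 0) (nat_lit 3325673985) (nat_lit 0) (nat_lit 0) (nat_lit 0) (nat_lit 0) (nat_lit 0) (nat_lit 0) (nat_lit 1) (nat_lit 0) (nat_lit 1) (nat_lit 0) (nat_lit 292) (nat_lit 263) (nat_lit 165)) (XT.lf (nat_lit 0) (nat_lit 3324357296) (nat_lit 0) (nat_lit 0) (nat_lit 0) (nat_lit 0) (nat_lit 0) (nat_lit 0) (nat_lit 1) (nat_lit 0) (nat_lit 1) (nat_lit 0) (nat_lit 293) (nat_lit 263) (nat_lit 164))) (XT.nd (nat_lit 94) (nat_lit 0) (nat_lit 0) (XT.lf (nat_lit 0) (nat_lit 3323103306) (nat_lit 0) (nat_lit 0) (nat_lit 0) (nat_lit 0) (nat_lit 0) (nat_lit 0) (nat_lit 1) (nat_lit 0) (nat_lit 1) (nat_lit 0) (nat_lit 294) (nat_lit 263) (nat_lit 163)) (XT.lf (nat_lit 0) (nat_lit 3321909031) (nat_lit 0) (nat_lit 0) (nat_lit 0) (nat_lit 0) (nat_lit 0) (nat_lit 0) (nat_lit 1) (nat_lit 0) (nat_lit 1) (nat_lit 0) (nat_lit 295) (nat_lit 263) (nat_lit 162))))))) (XT.nd (nat_lit 1222) (nat_lit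 0) (nat_lit 0) (XT.nd (nat_lit 564) (nat_lit 0) (nat_lit 0) (XT.nd (nat_lit 282) (nat_lit 0) (nat_lit 0) (XT.nd (nat_lit 94) (nat_lit 0) (nat_lit 0) (XT.lf (nat_lit 0) (nat_lit 3320771626) (nat_lit 0) (nat_lit 0) (nat_lit 0) (nat_lit 0) (nat_lit 0) (nat_lit 0) (nat_lit 1) (nat_lit 0) (nat_lit 1) (nat_lit 0) (nat_lit 296) (nat_lit 263) (nat_lit 161)) (XT.nd (nat_lit 94) (nat_lit 0) (nat_lit 0) (XT.lf (nat_lit 0) (nat_lit 3319688382) (nat_lit 0) (nat_lit 0) (nat_lit 0) (nat_lit 0) (nat_lit 0) (nat_lit 0) (nat_lit 1) (nat_lit 0) (nat_lit 1) (nat_lit 0) (nat_lit 297) (nat_lit 263) (nat_lit 160)) (XT.lf (nat_lit 0) (nat_lit 3318656722) (nat_lit 0) (nat_lit 0) (nat_lit 0) (nat_lit 0) (nat_lit 0) (nat_lit 0) (nat_lit 1) (nat_lit 0) (nat_lit 1) (nat_lit 0) (nat_lit 298) (nat_lit 263) (nat_lit 159)))) (XT.nd (nat_lit 94) (nat_lit 0) (nat_lit 0) (XT.lf (nat_lit 0) (nat_lit 3317674189)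 (nat_lit 0) (nat_lit 0) (nat_lit 0) (nat_lit 0) (nat_lit 0) (nat_lit 0) (nat_lit 1) (nat_lit 0) (nat_lit 1) (nat_lit 0) (nat_lit 299) (nat_lit 263) (nat_lit 158)) (XT.nd (nat_lit 94) (nat_lit 0) (nat_lit 0) (XT.lf (nat_lit 0) (nat_lit 3316738443) (nat_lit 0) (nat_lit 0) (nat_lit 0) (nat_lit 0) (nat_lit 0) (nat_lit 0) (nat_lit 1) (nat_lit 0) (nat_lit 1) (nat_lit 0) (nat_lit 300) (nat_lit 263) (nat_lit 157)) (XT.lf (nat_lit 0) (nat_lit 3315847256) (nat_lit 0) (nat_lit 0) (nat_lit 0) (nat_lit 0) (nat_lit 0) (nat_lit 0) (nat_lit 1) (nat_lit 0) (nat_lit 1) (nat_lit 0) (nat_lit 301) (nat_lit 263) (nat_lit 156))))) (XT.nd (nat_lit 282) (nat_lit 0) (nat_lit 0) (XT.nd (nat_lit 94) (nat_lit 0) (nat_lit 0) (XT.lf (nat_lit 0) (nat_lit 3314998507) (nat_lit 0) (nat_lit 0) (nat_lit 0) (nat_lit 0) (nat_lit 0) (nat_lit 0) (nat_lit 1) (nat_lit 0) (nat_lit 1) (nat_lit 0) (nat_lit 302) (nat_lit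 263) (nat_lit 155)) (XT.nd (nat_lit 94) (nat_lit 0) (nat_lit 0) (XT.lf (nat_lit 0) (nat_lit 3314190174) (nat_lit 0) (nat_lit 0) (nat_lit 0) (nat_lit 0) (nat_lit 0) (nat_lit 0) (nat_lit 1) (nat_lit 0) (nat_lit 1) (nat_lit 0) (nat_lit 303) (nat_lit 263) (nat_lit 154)) (XT.lf (nat_lit 0) (nat_lit 3313420333) (nat_lit 0) (nat_lit 0) (nat_lit 0) (nat_lit 0) (nat_lit 0) (nat_lit 0) (nat_lit 1) (nat_lit 0) (nat_lit 1) (nat_lit 0) (nat_lit 304) (nat_lit 263) (nat_lit 153)))) (XT.nd (nat_lit 188) (nat_lit 0) (nat_lit 0) (XT.nd (nat_lit 94) (nat_lit 0) (nat_lit 0) (XT.lf (nat_lit 0) (nat_lit 3312687152) (nat_lit 0) (nat_lit 0) (nat_lit 0) (nat_lit 0) (nat_lit 0) (nat_lit 0) (nat_lit 1) (nat_lit 0) (nat_lit 1) (nat_lit 0) (nat_lit 305) (nat_lit 263) (nat_lit 152)) (XT.lf (nat_lit 0) (nat_lit 3311988883) (nat_lit 0) (nat_lit 0) (nat_lit 0) (nat_lit 0) (nat_lit 0) (nat_lit 0) (nat_lit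 1) (nat_lit 0) (nat_lit 1) (nat_lit 0) (nat_lit 306) (nat_lit 263) (nat_lit 151))) (XT.nd (nat_lit 94) (nat_lit 0) (nat_lit 0) (XT.lf (nat_lit 0) (nat_lit 3311323866) (nat_lit 0) (nat_lit 0) (nat_lit 0) (nat_lit 0) (nat_lit 0) (nat_lit 0) (nat_lit 1) (nat_lit 0) (nat_lit 1) (nat_lit 0) (nat_lit 307) (nat_lit 263) (nat_lit 150)) (XT.lf (nat_lit 0) (nat_lit 3310690516) (nat_lit 0) (nat_lit 0) (nat_lit 0) (nat_lit 0) (nat_lit 0) (nat_lit 0) (nat_lit 1) (nat_lit 0) (nat_lit 1) (nat_lit 0) (nat_lit 308) (nat_lit 263) (nat_lit 149)))))) (XT.nd (nat_lit 658) (nat_lit 0) (nat_lit 0) (XT.nd (nat_lit 282) (nat_lit 0) (nat_lit 0) (XT.nd (nat_lit 94) (nat_lit 0) (nat_lit 0) (XT.lf (nat_lit 0) (nat_lit 3310087326) (nat_lit 0) (nat_lit 0) (nat_lit 0) (nat_lit 0) (nat_lit 0) (nat_lit 0) (nat_lit 1) (nat_lit 0) (nat_lit 1) (nat_lit 0) (nat_lit 309) (nat_lit 263) (nat_lit 148)) (XT.nd (nat_lit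 94) (nat_lit 0) (nat_lit 0) (XT.lf (nat_lit 0) (nat_lit 3309512859) (nat_lit 0) (nat_lit 0) (nat_lit 0) (nat_lit 0) (nat_lit 0) (nat_lit 0) (nat_lit 1) (nat_lit 0) (nat_lit 1) (nat_lit 0) (nat_lit 310) (nat_lit 263) (nat_lit 147)) (XT.lf (nat_lit 0) (nat_lit 3308965748) (nat_lit 0) (nat_lit 0) (nat_lit 0) (nat_lit 0) (nat_lit 0) (nat_lit 0) (nat_lit 1) (nat_lit 0) (nat_lit 1) (nat_lit 0) (nat_lit 311) (nat_lit 263) (nat_lit 146)))) (XT.nd (nat_lit 188) (nat_lit 0) (nat_lit 0) (XT.nd (nat_lit 94) (nat_lit 0) (nat_lit 0) (XT.lf (nat_lit 0) (nat_lit 3308444689) (nat_lit 0) (nat_lit 0) (nat_lit 0) (nat_lit 0) (nat_lit 0) (nat_lit 0) (nat_lit 1) (nat_lit 0) (nat_lit 1) (nat_lit 0) (nat_lit 312) (nat_lit 263) (nat_lit 145)) (XT.lf (nat_lit 0) (nat_lit 3307948443) (nat_lit 0) (nat_lit 0) (nat_lit 0) (nat_lit 0) (nat_lit 0) (nat_lit 0) (nat_lit 1) (nat_lit 0) (nat_lit 1) (nat_lit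 0) (nat_lit 313) (nat_lit 263) (nat_lit 144))) (XT.nd (nat_lit 94) (nat_lit 0) (nat_lit 0) (XT.lf (nat_lit 0) (nat_lit 3307475828) (nat_lit 0) (nat_lit 0) (nat_lit 0) (nat_lit 0) (nat_lit 0) (nat_lit 0) (nat_lit 1) (nat_lit 0) (nat_lit 1) (nat_lit 0) (nat_lit 314) (nat_lit 263) (nat_lit 143)) (XT.lf (nat_lit 0) (nat_lit 3307025718) (nat_lit 0) (nat_lit 0) (nat_lit 0) (nat_lit 0) (nat_lit 0) (nat_lit 0) (nat_lit 1) (nat_lit 0) (nat_lit 1) (nat_lit 0) (nat_lit 315) (nat_lit 263) (nat_lit 142))))) (XT.nd (nat_lit 282) (nat_lit 0) (nat_lit 0) (XT.nd (nat_lit 94) (nat_lit 0) (nat_lit 0) (XT.lf (nat_lit 0) (nat_lit 3306597042) (nat_lit 0) (nat_lit 0) (nat_lit 0) (nat_lit 0) (nat_lit 0) (nat_lit 0) (nat_lit 1) (nat_lit 0) (nat_lit 1) (nat_lit 0) (nat_lit 316) (nat_lit 263) (nat_lit 141)) (XT.nd (nat_lit 94) (nat_lit 0) (nat_lit 0) (XT.lf (nat_lit 0) (nat_lit 3306188779) (nat_lit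 0) (nat_lit 0) (nat_lit 0) (nat_lit 0) (nat_lit 0) (nat_lit 0) (nat_lit 1) (nat_lit 0) (nat_lit 1) (nat_lit 0) (nat_lit 317) (nat_lit 263) (nat_lit 140)) (XT.lf (nat_lit 0) (nat_lit 3305799957) (nat_lit 0) (nat_lit 0) (nat_lit 0) (nat_lit 0) (nat_lit 0) (nat_lit 0) (nat_lit 1) (nat_lit 0) (nat_lit 1) (nat_lit 0) (nat_lit 318) (nat_lit 263) (nat_lit 139)))) (XT.nd (nat_lit 33370) (nat_lit 0) (nat_lit 10752) (XT.nd (nat_lit 33276) (nat_lit 0) (nat_lit 10752) (XT.lf (nat_lit 0) (nat_lit 3305429650) (nat_lit 0) (nat_lit 0) (nat_lit 0) (nat_lit 0) (nat_lit 0) (nat_lit 0) (nat_lit 1) (nat_lit 0) (nat_lit 1) (nat_lit 0) (nat_lit 319) (nat_lit 263) (nat_lit 138)) (XT.lf (nat_lit 924) (nat_lit 1732977230) (nat_lit 0) (nat_lit 3076897089) (nat_lit 924) (nat_lit 1732977230) (nat_lit 139) (nat_lit 1) (nat_lit 128) (nat_lit 0) (nat_lit 139) (nat_lit 0) (nat_lit 192) (nat_lit 264) (nat_lit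 264))) (XT.nd (nat_lit 94) (nat_lit 0) (nat_lit 84) (XT.lf (nat_lit 924) (nat_lit 6717236100) (nat_lit 84) (nat_lit 3027269717) (nat_lit 0) (nat_lit 3027269717) (nat_lit 139) (nat_lit 1) (nat_lit 129) (nat_lit 1) (nat_lit 128) (nat_lit 0) (nat_lit 193) (nat_lit 264) (nat_lit 263)) (XT.lf (nat_lit 924) (nat_lit 3201333583) (nat_lit 0) (nat_lit 6064885987) (nat_lit 840) (nat_lit 3201333583) (nat_lit 140) (nat_lit 1) (nat_lit 129) (nat_lit 1) (nat_lit 139) (nat_lit 1) (nat_lit 194) (nat_lit 264) (nat_lit 262))))))))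
noncomputable def ec75 : XT := (XT.nd (nat_lit 2538) (nat_lit 3612) (nat_lit 0) (XT.nd (nat_lit 1222) (nat_lit 2772) (nat_lit 0) (XT.nd (nat_lit 564) (nat_lit 1512) (nat_lit 0) (XT.nd (nat_lit 282) (nat_lit 0) (nat_lit 168) (XT.nd (nat_lit 94) (nat_lit 0) (nat_lit 84) (XT.lf (nat_lit 924) (nat_lit 6005256967) (nat_lit 84) (nat_lit 3083951228) (nat_lit 0) (nat_lit 3083951228) (nat_lit 140) (nat_lit 1) (nat_lit 130) (nat_lit 1) (nat_lit 129) (nat_lit 1) (nat_lit 195) (nat_lit 264) (nat_lit 261)) (XT.nd (nat_lit 94) (nat_lit 0) (nat_lit 0) (XT.lf (nat_lit 924) (nat_lit 2764162112) (nat_lit 0) (nat_lit 6359772272) (nat_lit 840) (nat_lit 2764162112) (nat_lit 141) (nat_lit 1) (nat_lit 130) (nat_lit 1) (nat_lit 140) (nat_lit 1) (nat_lit 196) (nat_lit 264) (nat_lit 260)) (XT.lf (nat_lit 924) (nat_lit 4971525595) (nat_lit 84) (nat_lit 3320098892) (nat_lit 0) (nat_lit 3320098892)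 (nat_lit 141) (nat_lit 1) (nat_lit 131) (nat_lit 1) (nat_lit 130) (nat_lit 1) (nat_lit 197) (nat_lit 264) (nat_lit 259)))) (XT.nd (nat_lit 94) (nat_lit 0) (nat_lit 0) (XT.lf (nat_lit 924) (nat_lit 2179870382) (nat_lit 0) (nat_lit 6984889147) (nat_lit 840) (nat_lit 2179870382) (nat_lit 142) (nat_lit 1) (nat_lit 131) (nat_lit 1) (nat_lit 141) (nat_lit 1) (nat_lit 198) (nat_lit 264) (nat_lit 258)) (XT.nd (nat_lit 94) (nat_lit 0) (nat_lit 84) (XT.lf (nat_lit 924) (nat_lit 3664429044) (nat_lit 84) (nat_lit 3710230700) (nat_lit 0) (nat_lit 3710230700) (nat_lit 142) (nat_lit 1) (nat_lit 132) (nat_lit 1) (nat_lit 131) (nat_lit 1) (nat_lit 199) (nat_lit 264) (nat_lit 257)) (XT.lf (nat_lit 924) (nat_lit 1471077399) (nat_lit 0) (nat_lit 7892504124) (nat_lit 840) (nat_lit 1471077399) (nat_lit 143) (nat_lit 1) (nat_lit 132) (nat_lit 1) (nat_lit 142) (nat_lit 1) (nat_lit 200) (nat_lit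 264) (nat_lit 256))))) (XT.nd (nat_lit 282) (nat_lit 1008) (nat_lit 0) (XT.nd (nat_lit 94) (nat_lit 756) (nat_lit 0) (XT.lf (nat_lit 924) (nat_lit 2126976110) (nat_lit 84) (nat_lit 4231652622) (nat_lit 0) (nat_lit 4231652622) (nat_lit 143) (nat_lit 1) (nat_lit 133) (nat_lit 1) (nat_lit 132) (nat_lit 1) (nat_lit 201) (nat_lit 264) (nat_lit 255)) (XT.nd (nat_lit 94) (nat_lit 840) (nat_lit 0) (XT.lf (nat_lit 84) (nat_lit 657873497) (nat_lit 0) (nat_lit 9040133419) (nat_lit 840) (nat_lit 657873497) (nat_lit 134) (nat_lit 1) (nat_lit 133) (nat_lit 1) (nat_lit 143) (nat_lit 1) (nat_lit 202) (nat_lit 264) (nat_lit 254)) (XT.lf (nat_lit 924) (nat_lit 397339232) (nat_lit 0) (nat_lit 4864179460) (nat_lit 840) (nat_lit 4864179460) (nat_lit 134) (nat_lit 1) (nat_lit 123) (nat_lit 1) (nat_lit 133) (nat_lit 1) (nat_lit 203) (nat_lit 264) (nat_lit 253)))) (XT.nd (nat_lit 188) (nat_lit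 420) (nat_lit 0) (XT.nd (nat_lit 94) (nat_lit 0) (nat_lit 0) (XT.lf (nat_lit 588) (nat_lit 9429360379) (nat_lit 0) (nat_lit 238022287) (nat_lit 504) (nat_lit 238022287) (nat_lit 123) (nat_lit 1) (nat_lit 116) (nat_lit 1) (nat_lit 122) (nat_lit 1) (nat_lit 204) (nat_lit 264) (nat_lit 252)) (XT.lf (nat_lit 84) (nat_lit 4122499946) (nat_lit 0) (nat_lit 1442945669) (nat_lit 588) (nat_lit 4122499946) (nat_lit 117) (nat_lit 1) (nat_lit 116) (nat_lit 1) (nat_lit 123) (nat_lit 1) (nat_lit 205) (nat_lit 264) (nat_lit 251))) (XT.nd (nat_lit 94) (nat_lit 0) (nat_lit 0) (XT.lf (nat_lit 504) (nat_lit 7093764208) (nat_lit 0) (nat_lit 1192984459) (nat_lit 420) (nat_lit 1192984459) (nat_lit 117) (nat_lit 1) (nat_lit 111) (nat_lit 1) (nat_lit 116) (nat_lit 1) (nat_lit 206) (nat_lit 264) (nat_lit 250)) (XT.lf (nat_lit 84) (nat_lit 2940529027) (nat_lit 0) (nat_lit 3394839837) (nat_lit 504)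 (nat_lit 2940529027) (nat_lit 112) (nat_lit 1) (nat_lit 111) (nat_lit 1) (nat_lit 117) (nat_lit 1) (nat_lit 207) (nat_lit 264) (nat_lit 249)))))) (XT.nd (nat_lit 658) (nat_lit 1260) (nat_lit 0) (XT.nd (nat_lit 282) (nat_lit 756) (nat_lit 0) (XT.nd (nat_lit 94) (nat_lit 336) (nat_lit 0) (XT.lf (nat_lit 504) (nat_lit 4671344330) (nat_lit 0) (nat_lit 2203908681) (nat_lit 420) (nat_lit 2203908681) (nat_lit 112) (nat_lit 1) (nat_lit 106) (nat_lit 1) (nat_lit 111) (nat_lit 1) (nat_lit 208) (nat_lit 264) (nat_lit 248)) (XT.nd (nat_lit 94) (nat_lit 336) (nat_lit 0) (XT.lf (nat_lit 84) (nat_lit 1721328303) (nat_lit 0) (nat_lit 5445490638) (nat_lit 504) (nat_lit 1721328303) (nat_lit 107) (nat_lit 1) (nat_lit 106) (nat_lit 1) (nat_lit 112) (nat_lit 1) (nat_lit 209) (nat_lit 264) (nat_lit 247)) (XT.lf (nat_lit 420) (nat_lit 2184647328) (nat_lit 0) (nat_lit 3258699495) (nat_lit 336)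 (nat_lit 3258699495) (nat_lit 107) (nat_lit 1) (nat_lit 102) (nat_lit 1) (nat_lit 106) (nat_lit 1) (nat_lit 210) (nat_lit 264) (nat_lit 246)))) (XT.nd (nat_lit 188) (nat_lit 336) (nat_lit 0) (XT.nd (nat_lit 94) (nat_lit 420) (nat_lit 0) (XT.lf (nat_lit 84) (nat_lit 475364681) (nat_lit 0) (nat_lit 7572372555) (nat_lit 420) (nat_lit 475364681) (nat_lit 103) (nat_lit 1) (nat_lit 102) (nat_lit 1) (nat_lit 107) (nat_lit 1) (nat_lit 211) (nat_lit 264) (nat_lit 245)) (XT.lf (nat_lit 84) (nat_lit 4005559400) (nat_lit 0) (nat_lit 335473380) (nat_lit 420) (nat_lit 4005559400) (nat_lit 98) (nat_lit 1) (nat_lit 97) (nat_lit 1) (nat_lit 102) (nat_lit 1) (nat_lit 212) (nat_lit 264) (nat_lit 244))) (XT.nd (nat_lit 94) (nat_lit 0) (nat_lit 0) (XT.lf (nat_lit 420) (nat_lit 6625826932) (nat_lit 0) (nat_lit 775488718) (nat_lit 336) (nat_lit 775488718) (nat_lit 98) (nat_lit 1) (nat_lit 93)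 (nat_lit 1) (nat_lit 97) (nat_lit 1) (nat_lit 213) (nat_lit 264) (nat_lit 243)) (XT.lf (nat_lit 84) (nat_lit 2598940614) (nat_lit 0) (nat_lit 2812048076) (nat_lit 420) (nat_lit 2598940614) (nat_lit 94) (nat_lit 1) (nat_lit 93) (nat_lit 1) (nat_lit 98) (nat_lit 1) (nat_lit 214) (nat_lit 264) (nat_lit 242))))) (XT.nd (nat_lit 282) (nat_lit 672) (nat_lit 0) (XT.nd (nat_lit 94) (nat_lit 252) (nat_lit 0) (XT.lf (nat_lit 420) (nat_lit 3792577325) (nat_lit 0) (nat_lit 2028131777) (nat_lit 336) (nat_lit 2028131777) (nat_lit 94) (nat_lit 1) (nat_lit 89) (nat_lit 1) (nat_lit 93) (nat_lit 1) (nat_lit 215) (nat_lit 264) (nat_lit 241)) (XT.nd (nat_lit 94) (nat_lit 252) (nat_lit 0) (XT.lf (nat_lit 84) (nat_lit 1196009628) (nat_lit 0) (nat_lit 5300443438) (nat_lit 420) (nat_lit 1196009628) (nat_lit 90) (nat_lit 1) (nat_lit 89) (nat_lit 1) (nat_lit 94) (nat_lit 1) (nat_lit 216) (nat_lit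 264) (nat_lit 240)) (XT.lf (nat_lit 336) (nat_lit 972663406) (nat_lit 0) (nat_lit 3283398341) (nat_lit 252) (nat_lit 3283398341) (nat_lit 90) (nat_lit 1) (nat_lit 86) (nat_lit 1) (nat_lit 89) (nat_lit 1) (nat_lit 217) (nat_lit 264) (nat_lit 239)))) (XT.nd (nat_lit 188) (nat_lit 252) (nat_lit 0) (XT.nd (nat_lit 94) (nat_lit 0) (nat_lit 0) (XT.lf (nat_lit 420) (nat_lit 7003684408) (nat_lit 0) (nat_lit 194338803) (nat_lit 336) (nat_lit 194338803) (nat_lit 86) (nat_lit 1) (nat_lit 81) (nat_lit 1) (nat_lit 85) (nat_lit 1) (nat_lit 218) (nat_lit 264) (nat_lit 238)) (XT.lf (nat_lit 84) (nat_lit 2740593486) (nat_lit 0) (nat_lit 1764891140) (nat_lit 420) (nat_lit 2740593486) (nat_lit 82) (nat_lit 1) (nat_lit 81) (nat_lit 1) (nat_lit 86) (nat_lit 1) (nat_lit 219) (nat_lit 264) (nat_lit 237))) (XT.nd (nat_lit 94) (nat_lit 0) (nat_lit 0) (XT.lf (nat_lit 336) (nat_lit 4002723429) (nat_lit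 0) (nat_lit 1551340579) (nat_lit 252) (nat_lit 1551340579) (nat_lit 82) (nat_lit 1) (nat_lit 78) (nat_lit 1) (nat_lit 81) (nat_lit 1) (nat_lit 220) (nat_lit 264) (nat_lit 236)) (XT.lf (nat_lit 84) (nat_lit 1264522247) (nat_lit 0) (nat_lit 4439260619) (nat_lit 336) (nat_lit 1264522247) (nat_lit 79) (nat_lit 1) (nat_lit 78) (nat_lit 1) (nat_lit 82) (nat_lit 1) (nat_lit 221) (nat_lit 264) (nat_lit 235))))))) (XT.nd (nat_lit 1316) (nat_lit 1512) (nat_lit 0) (XT.nd (nat_lit 658) (nat_lit 756) (nat_lit 0) (XT.nd (nat_lit 282) (nat_lit 756) (nat_lit 0) (XT.nd (nat_lit 94) (nat_lit 336) (nat_lit 0) (XT.lf (nat_lit 336) (nat_lit 1053939768) (nat_lit 0) (nat_lit 2890192423) (nat_lit 252) (nat_lit 2890192423) (nat_lit 79) (nat_lit 1) (nat_lit 75) (nat_lit 1) (nat_lit 78) (nat_lit 1) (nat_lit 222) (nat_lit 264) (nat_lit 234)) (XT.nd (nat_lit 94) (nat_lit 0) (nat_lit 0) (XT.lf (nat_lit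 336) (nat_lit 6343060792) (nat_lit 0) (nat_lit 181130436) (nat_lit 252) (nat_lit 181130436) (nat_lit 75) (nat_lit 1) (nat_lit 71) (nat_lit 1) (nat_lit 74) (nat_lit 1) (nat_lit 223) (nat_lit 264) (nat_lit 233)) (XT.lf (nat_lit 84) (nat_lit 2399398243) (nat_lit 0) (nat_lit 1777930006) (nat_lit 336) (nat_lit 2399398243) (nat_lit 72) (nat_lit 1) (nat_lit 71) (nat_lit 1) (nat_lit 75) (nat_lit 1) (nat_lit 224) (nat_lit 264) (nat_lit 232)))) (XT.nd (nat_lit 188) (nat_lit 504) (nat_lit 0) (XT.nd (nat_lit 94) (nat_lit 0) (nat_lit 0) (XT.lf (nat_lit 336) (nat_lit 3299392288) (nat_lit 0) (nat_lit 1576748538) (nat_lit 252) (nat_lit 1576748538) (nat_lit 72) (nat_lit 1) (nat_lit 68) (nat_lit 1) (nat_lit 71) (nat_lit 1) (nat_lit 225) (nat_lit 264) (nat_lit 231)) (XT.lf (nat_lit 84) (nat_lit 908649945) (nat_lit 0) (nat_lit 4515073712) (nat_lit 336) (nat_lit 908649945) (nat_lit 69) (nat_lit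 1) (nat_lit 68) (nat_lit 1) (nat_lit 72) (nat_lit 1) (nat_lit 226) (nat_lit 264) (nat_lit 230))) (XT.nd (nat_lit 94) (nat_lit 336) (nat_lit 0) (XT.lf (nat_lit 252) (nat_lit 332959551) (nat_lit 0) (nat_lit 2940584668) (nat_lit 168) (nat_lit 2940584668) (nat_lit 69) (nat_lit 1) (nat_lit 66) (nat_lit 1) (nat_lit 68) (nat_lit 1) (nat_lit 227) (nat_lit 264) (nat_lit 229)) (XT.lf (nat_lit 336) (nat_lit 5030907183) (nat_lit 0) (nat_lit 534318808) (nat_lit 252) (nat_lit 534318808) (nat_lit 66) (nat_lit 1) (nat_lit 62) (nat_lit 1) (nat_lit 65) (nat_lit 1) (nat_lit 228) (nat_lit 264) (nat_lit 228))))) (XT.nd (nat_lit 282) (nat_lit 588) (nat_lit 0) (XT.nd (nat_lit 94) (nat_lit 168) (nat_lit 0) (XT.lf (nat_lit 84) (nat_lit 1757176460) (nat_lit 0) (nat_lit 2471889305) (nat_lit 336) (nat_lit 1757176460) (nat_lit 63) (nat_lit 1) (nat_lit 62) (nat_lit 1) (nat_lit 66) (nat_lit 1) (nat_lit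 229) (nat_lit 264) (nat_lit 227)) (XT.nd (nat_lit 94) (nat_lit 0) (nat_lit 0) (XT.lf (nat_lit 252) (nat_lit 2030146343) (nat_lit 0) (nat_lit 1923145067) (nat_lit 168) (nat_lit 1923145067) (nat_lit 63) (nat_lit 1) (nat_lit 60) (nat_lit 1) (nat_lit 62) (nat_lit 1) (nat_lit 230) (nat_lit 264) (nat_lit 226)) (XT.lf (nat_lit 84) (nat_lit 291667591) (nat_lit 0) (nat_lit 5186939578) (nat_lit 252) (nat_lit 291667591) (nat_lit 61) (nat_lit 1) (nat_lit 60) (nat_lit 1) (nat_lit 63) (nat_lit 1) (nat_lit 231) (nat_lit 264) (nat_lit 225)))) (XT.nd (nat_lit 188) (nat_lit 168) (nat_lit 0) (XT.nd (nat_lit 94) (nat_lit 168) (nat_lit 0) (XT.lf (nat_lit 84) (nat_lit 2407183804) (nat_lit 0) (nat_lit 850131342) (nat_lit 252) (nat_lit 2407183804) (nat_lit 58) (nat_lit 1) (nat_lit 57) (nat_lit 1) (nat_lit 60) (nat_lit 1) (nat_lit 232) (nat_lit 264) (nat_lit 224)) (XT.lf (nat_lit 252) (nat_lit 3342796607)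 (nat_lit 0) (nat_lit 1109717904) (nat_lit 168) (nat_lit 1109717904) (nat_lit 58) (nat_lit 1) (nat_lit 55) (nat_lit 1) (nat_lit 57) (nat_lit 1) (nat_lit 233) (nat_lit 264) (nat_lit 223))) (XT.nd (nat_lit 94) (nat_lit 168) (nat_lit 0) (XT.lf (nat_lit 84) (nat_lit 943250235) (nat_lit 0) (nat_lit 3575725722) (nat_lit 252) (nat_lit 943250235) (nat_lit 56) (nat_lit 1) (nat_lit 55) (nat_lit 1) (nat_lit 58) (nat_lit 1) (nat_lit 234) (nat_lit 264) (nat_lit 222)) (XT.lf (nat_lit 252) (nat_lit 441878775) (nat_lit 0) (nat_lit 2461178532) (nat_lit 168) (nat_lit 2461178532) (nat_lit 56) (nat_lit 1) (nat_lit 53) (nat_lit 1) (nat_lit 55) (nat_lit 1) (nat_lit 235) (nat_lit 264) (nat_lit 221)))))) (XT.nd (nat_lit 658) (nat_lit 756) (nat_lit 0) (XT.nd (nat_lit 282) (nat_lit 336) (nat_lit 0) (XT.nd (nat_lit 94) (nat_lit 168) (nat_lit 0) (XT.lf (nat_lit 252) (nat_lit 4343070076) (nat_lit 0)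 (nat_lit 463007378) (nat_lit 168) (nat_lit 463007378) (nat_lit 53) (nat_lit 1) (nat_lit 50) (nat_lit 1) (nat_lit 52) (nat_lit 1) (nat_lit 236) (nat_lit 264) (nat_lit 220)) (XT.nd (nat_lit 94) (nat_lit 168) (nat_lit 0) (XT.lf (nat_lit 84) (nat_lit 1445818671) (nat_lit 0) (nat_lit 2283108586) (nat_lit 252) (nat_lit 1445818671) (nat_lit 51) (nat_lit 1) (nat_lit 50) (nat_lit 1) (nat_lit 53) (nat_lit 1) (nat_lit 237) (nat_lit 264) (nat_lit 219)) (XT.lf (nat_lit 252) (nat_lit 1472496121) (nat_lit 0) (nat_lit 1805324846) (nat_lit 168) (nat_lit 1805324846) (nat_lit 51) (nat_lit 1) (nat_lit 48) (nat_lit 1) (nat_lit 50) (nat_lit 1) (nat_lit 238) (nat_lit 264) (nat_lit 218)))) (XT.nd (nat_lit 188) (nat_lit 168) (nat_lit 0) (XT.nd (nat_lit 94) (nat_lit 168) (nat_lit 0) (XT.lf (nat_lit 84) (nat_lit 48396886) (nat_lit 0) (nat_lit 4897964347) (nat_lit 252) (nat_lit 48396886) (nat_lit 49)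 (nat_lit 1) (nat_lit 48) (nat_lit 1) (nat_lit 51) (nat_lit 1) (nat_lit 239) (nat_lit 264) (nat_lit 217)) (XT.lf (nat_lit 84) (nat_lit 1827387521) (nat_lit 0) (nat_lit 1251033546) (nat_lit 168) (nat_lit 1827387521) (nat_lit 47) (nat_lit 1) (nat_lit 46) (nat_lit 1) (nat_lit 48) (nat_lit 1) (nat_lit 240) (nat_lit 264) (nat_lit 216))) (XT.nd (nat_lit 94) (nat_lit 0) (nat_lit 0) (XT.lf (nat_lit 252) (nat_lit 2267579879) (nat_lit 0) (nat_lit 1276204434) (nat_lit 168) (nat_lit 1276204434) (nat_lit 47) (nat_lit 1) (nat_lit 44) (nat_lit 1) (nat_lit 46) (nat_lit 1) (nat_lit 241) (nat_lit 264) (nat_lit 215)) (XT.lf (nat_lit 84) (nat_lit 454634093) (nat_lit 0) (nat_lit 3827217216) (nat_lit 252) (nat_lit 454634093) (nat_lit 45) (nat_lit 1) (nat_lit 44) (nat_lit 1) (nat_lit 47) (nat_lit 1) (nat_lit 242) (nat_lit 264) (nat_lit 214))))) (XT.nd (nat_lit 282) (nat_lit 420) (nat_lit 0) (XT.nd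 (nat_lit 94) (nat_lit 168) (nat_lit 0) (XT.lf (nat_lit 84) (nat_lit 2110928542) (nat_lit 0) (nat_lit 431813596) (nat_lit 168) (nat_lit 2110928542) (nat_lit 43) (nat_lit 1) (nat_lit 42) (nat_lit 1) (nat_lit 44) (nat_lit 1) (nat_lit 243) (nat_lit 264) (nat_lit 213)) (XT.nd (nat_lit 94) (nat_lit 0) (nat_lit 0) (XT.lf (nat_lit 252) (nat_lit 2871404222) (nat_lit 0) (nat_lit 850850085) (nat_lit 168) (nat_lit 850850085) (nat_lit 43) (nat_lit 1) (nat_lit 40) (nat_lit 1) (nat_lit 42) (nat_lit 1) (nat_lit 244) (nat_lit 264) (nat_lit 212)) (XT.lf (nat_lit 84) (nat_lit 769093218) (nat_lit 0) (nat_lit 2955946624) (nat_lit 252) (nat_lit 769093218) (nat_lit 41) (nat_lit 1) (nat_lit 40) (nat_lit 1) (nat_lit 43) (nat_lit 1) (nat_lit 245) (nat_lit 264) (nat_lit 211)))) (XT.nd (nat_lit 188) (nat_lit 84) (nat_lit 0) (XT.nd (nat_lit 94) (nat_lit 252) (nat_lit 0) (XT.lf (nat_lit 168) (nat_lit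 220778655) (nat_lit 0) (nat_lit 2097936651) (nat_lit 84) (nat_lit 2097936651) (nat_lit 41) (nat_lit 1) (nat_lit 39) (nat_lit 1) (nat_lit 40) (nat_lit 1) (nat_lit 246) (nat_lit 264) (nat_lit 210)) (XT.lf (nat_lit 252) (nat_lit 3320273877) (nat_lit 0) (nat_lit 510390317) (nat_lit 168) (nat_lit 510390317) (nat_lit 39) (nat_lit 1) (nat_lit 36) (nat_lit 1) (nat_lit 38) (nat_lit 1) (nat_lit 247) (nat_lit 264) (nat_lit 209))) (XT.nd (nat_lit 94) (nat_lit 84) (nat_lit 0) (XT.lf (nat_lit 84) (nat_lit 1008986917) (nat_lit 0) (nat_lit 2248327031) (nat_lit 252) (nat_lit 1008986917) (nat_lit 37) (nat_lit 1) (nat_lit 36) (nat_lit 1) (nat_lit 39) (nat_lit 1) (nat_lit 248) (nat_lit 264) (nat_lit 208)) (XT.lf (nat_lit 168) (nat_lit 741424742) (nat_lit 0) (nat_lit 1725977674) (nat_lit 84) (nat_lit 1725977674) (nat_lit 37) (nat_lit 1) (nat_lit 35) (nat_lit 1) (nat_lit 36) (nat_lit 1) (nat_lit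 249) (nat_lit 264) (nat_lit 207))))))))
noncomputable def ec76 : XT := (XT.nd (nat_lit 2538) (nat_lit 504) (nat_lit 0) (XT.nd (nat_lit 1222) (nat_lit 1260) (nat_lit 0) (XT.nd (nat_lit 564) (nat_lit 504) (nat_lit 0) (XT.nd (nat_lit 282) (nat_lit 336) (nat_lit 0) (XT.nd (nat_lit 94) (nat_lit 84) (nat_lit 0) (XT.lf (nat_lit 252) (nat_lit 3643942790) (nat_lit 0) (nat_lit 239322088) (nat_lit 168) (nat_lit 239322088) (nat_lit 35) (nat_lit 1) (nat_lit 32) (nat_lit 1) (nat_lit 34) (nat_lit 1) (nat_lit 250) (nat_lit 264) (nat_lit 206)) (XT.nd (nat_lit 94) (nat_lit 84) (nat_lit 0) (XT.lf (nat_lit 84) (nat_lit 1188431294) (nat_lit 0) (nat_lit 1674906524) (nat_lit 252) (nat_lit 1188431294) (nat_lit 33) (nat_lit 1) (nat_lit 32) (nat_lit 1) (nat_lit 35) (nat_lit 1) (nat_lit 251) (nat_lit 264) (nat_lit 205)) (XT.lf (nat_lit 168) (nat_lit 1143104918) (nat_lit 0) (nat_lit 1419966104) (nat_lit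 84) (nat_lit 1419966104) (nat_lit 33) (nat_lit 1) (nat_lit 31) (nat_lit 1) (nat_lit 32) (nat_lit 1) (nat_lit 252) (nat_lit 264) (nat_lit 204)))) (XT.nd (nat_lit 94) (nat_lit 84) (nat_lit 0) (XT.lf (nat_lit 252) (nat_lit 3866780995) (nat_lit 0) (nat_lit 24912504) (nat_lit 168) (nat_lit 24912504) (nat_lit 31) (nat_lit 1) (nat_lit 28) (nat_lit 1) (nat_lit 30) (nat_lit 1) (nat_lit 253) (nat_lit 264) (nat_lit 203)) (XT.nd (nat_lit 94) (nat_lit 84) (nat_lit 0) (XT.lf (nat_lit 84) (nat_lit 1318997043) (nat_lit 0) (nat_lit 1211475754) (nat_lit 252) (nat_lit 1318997043) (nat_lit 29) (nat_lit 1) (nat_lit 28) (nat_lit 1) (nat_lit 31) (nat_lit 1) (nat_lit 254) (nat_lit 264) (nat_lit 202)) (XT.lf (nat_lit 168) (nat_lit 1448180910) (nat_lit 0) (nat_lit 1168209628) (nat_lit 84) (nat_lit 1168209628) (nat_lit 29) (nat_lit 1) (nat_lit 27) (nat_lit 1) (nat_lit 28) (nat_lit 1) (nat_lit 255)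 (nat_lit 264) (nat_lit 201))))) (XT.nd (nat_lit 282) (nat_lit 252) (nat_lit 0) (XT.nd (nat_lit 94) (nat_lit 252) (nat_lit 0) (XT.lf (nat_lit 0) (nat_lit 145642416) (nat_lit 0) (nat_lit 3430404183) (nat_lit 168) (nat_lit 145642416) (nat_lit 27) (nat_lit 3) (nat_lit 27) (nat_lit 1) (nat_lit 29) (nat_lit 1) (nat_lit 256) (nat_lit 264) (nat_lit 200)) (XT.nd (nat_lit 94) (nat_lit 84) (nat_lit 0) (XT.lf (nat_lit 84) (nat_lit 1410162776) (nat_lit 0) (nat_lit 838137445) (nat_lit 168) (nat_lit 1410162776) (nat_lit 26) (nat_lit 1) (nat_lit 25) (nat_lit 1) (nat_lit 27) (nat_lit 1) (nat_lit 257) (nat_lit 264) (nat_lit 199)) (XT.lf (nat_lit 168) (nat_lit 1674989318) (nat_lit 0) (nat_lit 961088952) (nat_lit 84) (nat_lit 961088952) (nat_lit 26) (nat_lit 1) (nat_lit 24) (nat_lit 1) (nat_lit 25) (nat_lit 1) (nat_lit 258) (nat_lit 264) (nat_lit 198)))) (XT.nd (nat_lit 188) (nat_lit 84) (nat_lit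 0) (XT.nd (nat_lit 94) (nat_lit 168) (nat_lit 0) (XT.lf (nat_lit 0) (nat_lit 278367032) (nat_lit 0) (nat_lit 2980748666) (nat_lit 168) (nat_lit 278367032) (nat_lit 24) (nat_lit 3) (nat_lit 24) (nat_lit 1) (nat_lit 26) (nat_lit 1) (nat_lit 259) (nat_lit 264) (nat_lit 197)) (XT.lf (nat_lit 84) (nat_lit 1469687876) (nat_lit 0) (nat_lit 538540935) (nat_lit 168) (nat_lit 1469687876) (nat_lit 23) (nat_lit 1) (nat_lit 22) (nat_lit 1) (nat_lit 24) (nat_lit 1) (nat_lit 260) (nat_lit 264) (nat_lit 196))) (XT.nd (nat_lit 94) (nat_lit 0) (nat_lit 0) (XT.lf (nat_lit 168) (nat_lit 1838558143) (nat_lit 0) (nat_lit 790690259) (nat_lit 84) (nat_lit 790690259) (nat_lit 23) (nat_lit 1) (nat_lit 21) (nat_lit 1) (nat_lit 22) (nat_lit 1) (nat_lit 261) (nat_lit 264) (nat_lit 195)) (XT.lf (nat_lit 0) (nat_lit 380010061) (nat_lit 0) (nat_lit 2603266119) (nat_lit 168) (nat_lit 380010061) (nat_lit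 21) (nat_lit 3) (nat_lit 21) (nat_lit 1) (nat_lit 23) (nat_lit 1) (nat_lit 262) (nat_lit 264) (nat_lit 194)))))) (XT.nd (nat_lit 658) (nat_lit 672) (nat_lit 0) (XT.nd (nat_lit 282) (nat_lit 336) (nat_lit 0) (XT.nd (nat_lit 94) (nat_lit 84) (nat_lit 0) (XT.lf (nat_lit 84) (nat_lit 1503919158) (nat_lit 0) (nat_lit 299252470) (nat_lit 168) (nat_lit 1503919158) (nat_lit 20) (nat_lit 1) (nat_lit 19) (nat_lit 1) (nat_lit 21) (nat_lit 1) (nat_lit 263) (nat_lit 264) (nat_lit 193)) (XT.nd (nat_lit 94) (nat_lit 0) (nat_lit 0) (XT.lf (nat_lit 168) (nat_lit 1951196130) (nat_lit 0) (nat_lit 650502833) (nat_lit 84) (nat_lit 650502833) (nat_lit 20) (nat_lit 1) (nat_lit 18) (nat_lit 1) (nat_lit 19) (nat_lit 1) (nat_lit 264) (nat_lit 264) (nat_lit 192)) (XT.lf (nat_lit 0) (nat_lit 456441708) (nat_lit 0) (nat_lit 2285519969) (nat_lit 168) (nat_lit 456441708) (nat_lit 18) (nat_lit 3) (nat_lit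 18) (nat_lit 1) (nat_lit 20) (nat_lit 1) (nat_lit 265) (nat_lit 264) (nat_lit 191)))) (XT.nd (nat_lit 188) (nat_lit 84) (nat_lit 0) (XT.nd (nat_lit 94) (nat_lit 84) (nat_lit 0) (XT.lf (nat_lit 84) (nat_lit 1518043066) (nat_lit 0) (nat_lit 109237185) (nat_lit 168) (nat_lit 1518043066) (nat_lit 17) (nat_lit 1) (nat_lit 16) (nat_lit 1) (nat_lit 18) (nat_lit 1) (nat_lit 266) (nat_lit 264) (nat_lit 190)) (XT.lf (nat_lit 168) (nat_lit 2022977500) (nat_lit 0) (nat_lit 535170290) (nat_lit 84) (nat_lit 535170290) (nat_lit 17) (nat_lit 1) (nat_lit 15) (nat_lit 1) (nat_lit 16) (nat_lit 1) (nat_lit 267) (nat_lit 264) (nat_lit 189))) (XT.nd (nat_lit 94) (nat_lit 84) (nat_lit 0) (XT.lf (nat_lit 0) (nat_lit 512474285) (nat_lit 0) (nat_lit 2017261497) (nat_lit 168) (nat_lit 512474285) (nat_lit 15) (nat_lit 3) (nat_lit 15) (nat_lit 1) (nat_lit 17) (nat_lit 1) (nat_lit 268) (nat_lit 264)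 (nat_lit 188)) (XT.lf (nat_lit 84) (nat_lit 41908352) (nat_lit 0) (nat_lit 1475039030) (nat_lit 84) (nat_lit 1475039030) (nat_lit 15) (nat_lit 3) (nat_lit 14) (nat_lit 1) (nat_lit 15) (nat_lit 1) (nat_lit 269) (nat_lit 264) (nat_lit 187))))) (XT.nd (nat_lit 282) (nat_lit 420) (nat_lit 0) (XT.nd (nat_lit 94) (nat_lit 84) (nat_lit 0) (XT.lf (nat_lit 168) (nat_lit 2062140610) (nat_lit 0) (nat_lit 440285922) (nat_lit 84) (nat_lit 440285922) (nat_lit 14) (nat_lit 1) (nat_lit 12) (nat_lit 1) (nat_lit 13) (nat_lit 1) (nat_lit 270) (nat_lit 264) (nat_lit 186)) (XT.nd (nat_lit 94) (nat_lit 84) (nat_lit 0) (XT.lf (nat_lit 0) (nat_lit 552050588) (nat_lit 0) (nat_lit 1790042752) (nat_lit 168) (nat_lit 552050588) (nat_lit 12) (nat_lit 3) (nat_lit 12) (nat_lit 1) (nat_lit 14) (nat_lit 1) (nat_lit 271) (nat_lit 264) (nat_lit 185)) (XT.lf (nat_lit 84) (nat_lit 162811013) (nat_lit 0) (nat_lit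 1341851168) (nat_lit 84) (nat_lit 1341851168) (nat_lit 12) (nat_lit 3) (nat_lit 11) (nat_lit 1) (nat_lit 12) (nat_lit 1) (nat_lit 272) (nat_lit 264) (nat_lit 184)))) (XT.nd (nat_lit 188) (nat_lit 252) (nat_lit 0) (XT.nd (nat_lit 94) (nat_lit 0) (nat_lit 0) (XT.lf (nat_lit 168) (nat_lit 2075415816) (nat_lit 0) (nat_lit 362224318) (nat_lit 84) (nat_lit 362224318) (nat_lit 11) (nat_lit 1) (nat_lit 9) (nat_lit 1) (nat_lit 10) (nat_lit 1) (nat_lit 273) (nat_lit 264) (nat_lit 183)) (XT.lf (nat_lit 0) (nat_lit 578398839) (nat_lit 0) (nat_lit 1596898055) (nat_lit 168) (nat_lit 578398839) (nat_lit 9) (nat_lit 3) (nat_lit 9) (nat_lit 1) (nat_lit 11) (nat_lit 1) (nat_lit 274) (nat_lit 264) (nat_lit 182))) (XT.nd (nat_lit 94) (nat_lit 168) (nat_lit 0) (XT.lf (nat_lit 84) (nat_lit 256166840) (nat_lit 0) (nat_lit 1226166094) (nat_lit 84) (nat_lit 1226166094) (nat_lit 9) (nat_lit 3) (nat_lit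 8) (nat_lit 1) (nat_lit 9) (nat_lit 1) (nat_lit 275) (nat_lit 264) (nat_lit 181)) (XT.lf (nat_lit 168) (nat_lit 2068295093) (nat_lit 0) (nat_lit 298002843) (nat_lit 84) (nat_lit 298002843) (nat_lit 8) (nat_lit 1) (nat_lit 6) (nat_lit 1) (nat_lit 7) (nat_lit 1) (nat_lit 276) (nat_lit 264) (nat_lit 180))))))) (XT.nd (nat_lit 1222) (nat_lit 0) (nat_lit 0) (XT.nd (nat_lit 564) (nat_lit 0) (nat_lit 0) (XT.nd (nat_lit 282) (nat_lit 252) (nat_lit 0) (XT.nd (nat_lit 94) (nat_lit 252) (nat_lit 0) (XT.lf (nat_lit 0) (nat_lit 594160111) (nat_lit 0) (nat_lit 1432081938) (nat_lit 168) (nat_lit 594160111) (nat_lit 6) (nat_lit 3) (nat_lit 6) (nat_lit 1) (nat_lit 8) (nat_lit 1) (nat_lit 277) (nat_lit 264) (nat_lit 179)) (XT.nd (nat_lit 94) (nat_lit 168) (nat_lit 0) (XT.lf (nat_lit 84) (nat_lit 327150824) (nat_lit 0) (nat_lit 1125171610) (nat_lit 84) (nat_lit 1125171610) (nat_lit 6) (nat_lit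 3) (nat_lit 5) (nat_lit 1) (nat_lit 6) (nat_lit 1) (nat_lit 278) (nat_lit 264) (nat_lit 178)) (XT.lf (nat_lit 168) (nat_lit 2045253743) (nat_lit 0) (nat_lit 245167676) (nat_lit 84) (nat_lit 245167676) (nat_lit 5) (nat_lit 1) (nat_lit 3) (nat_lit 1) (nat_lit 4) (nat_lit 1) (nat_lit 279) (nat_lit 264) (nat_lit 177)))) (XT.nd (nat_lit 94) (nat_lit 252) (nat_lit 0) (XT.lf (nat_lit 0) (nat_lit 601493142) (nat_lit 0) (nat_lit 1290853502) (nat_lit 168) (nat_lit 601493142) (nat_lit 3) (nat_lit 3) (nat_lit 3) (nat_lit 1) (nat_lit 5) (nat_lit 1) (nat_lit 280) (nat_lit 264) (nat_lit 176)) (XT.nd (nat_lit 94) (nat_lit 168) (nat_lit 0) (XT.lf (nat_lit 84) (nat_lit 380006583) (nat_lit 0) (nat_lit 1036540259) (nat_lit 84) (nat_lit 1036540259) (nat_lit 3) (nat_lit 3) (nat_lit 2) (nat_lit 1) (nat_lit 3) (nat_lit 1) (nat_lit 281) (nat_lit 264) (nat_lit 175)) (XT.lf (nat_lit 0) (nat_lit 3505819642)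 (nat_lit 0) (nat_lit 0) (nat_lit 0) (nat_lit 0) (nat_lit 0) (nat_lit 0) (nat_lit 1) (nat_lit 0) (nat_lit 1) (nat_lit 0) (nat_lit 282) (nat_lit 264) (nat_lit 174))))) (XT.nd (nat_lit 282) (nat_lit 0) (nat_lit 0) (XT.nd (nat_lit 94) (nat_lit 0) (nat_lit 0) (XT.lf (nat_lit 0) (nat_lit 3503777026) (nat_lit 0) (nat_lit 0) (nat_lit 0) (nat_lit 0) (nat_lit 0) (nat_lit 0) (nat_lit 1) (nat_lit 0) (nat_lit 1) (nat_lit 0) (nat_lit 283) (nat_lit 264) (nat_lit 173)) (XT.nd (nat_lit 94) (nat_lit 0) (nat_lit 0) (XT.lf (nat_lit 0) (nat_lit 3501831677) (nat_lit 0) (nat_lit 0) (nat_lit 0) (nat_lit 0) (nat_lit 0) (nat_lit 0) (nat_lit 1) (nat_lit 0) (nat_lit 1) (nat_lit 0) (nat_lit 284) (nat_lit 264) (nat_lit 172)) (XT.lf (nat_lit 0) (nat_lit 3499978963) (nat_lit 0) (nat_lit 0) (nat_lit 0) (nat_lit 0) (nat_lit 0) (nat_lit 0) (nat_lit 1) (nat_lit 0) (nat_lit 1) (nat_lit 0) (nat_lit 285) (nat_lit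 264) (nat_lit 171)))) (XT.nd (nat_lit 188) (nat_lit 0) (nat_lit 0) (XT.nd (nat_lit 94) (nat_lit 0) (nat_lit 0) (XT.lf (nat_lit 0) (nat_lit 3498214474) (nat_lit 0) (nat_lit 0) (nat_lit 0) (nat_lit 0) (nat_lit 0) (nat_lit 0) (nat_lit 1) (nat_lit 0) (nat_lit 1) (nat_lit 0) (nat_lit 286) (nat_lit 264) (nat_lit 170)) (XT.lf (nat_lit 0) (nat_lit 3496534009) (nat_lit 0) (nat_lit 0) (nat_lit 0) (nat_lit 0) (nat_lit 0) (nat_lit 0) (nat_lit 1) (nat_lit 0) (nat_lit 1) (nat_lit 0) (nat_lit 287) (nat_lit 264) (nat_lit 169))) (XT.nd (nat_lit 94) (nat_lit 0) (nat_lit 0) (XT.lf (nat_lit 0) (nat_lit 3494933565) (nat_lit 0) (nat_lit 0) (nat_lit 0) (nat_lit 0) (nat_lit 0) (nat_lit 0) (nat_lit 1) (nat_lit 0) (nat_lit 1) (nat_lit 0) (nat_lit 288) (nat_lit 264) (nat_lit 168)) (XT.lf (nat_lit 0) (nat_lit 3493409333) (nat_lit 0) (nat_lit 0) (nat_lit 0) (nat_lit 0) (nat_lit 0) (nat_lit 0) (nat_lit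 1) (nat_lit 0) (nat_lit 1) (nat_lit 0) (nat_lit 289) (nat_lit 264) (nat_lit 167)))))) (XT.nd (nat_lit 658) (nat_lit 0) (nat_lit 0) (XT.nd (nat_lit 282) (nat_lit 0) (nat_lit 0) (XT.nd (nat_lit 94) (nat_lit 0) (nat_lit 0) (XT.lf (nat_lit 0) (nat_lit 3491957684) (nat_lit 0) (nat_lit 0) (nat_lit 0) (nat_lit 0) (nat_lit 0) (nat_lit 0) (nat_lit 1) (nat_lit 0) (nat_lit 1) (nat_lit 0) (nat_lit 290) (nat_lit 264) (nat_lit 166)) (XT.nd (nat_lit 94) (nat_lit 0) (nat_lit 0) (XT.lf (nat_lit 0) (nat_lit 3490575161) (nat_lit 0) (nat_lit 0) (nat_lit 0) (nat_lit 0) (nat_lit 0) (nat_lit 0) (nat_lit 1) (nat_lit 0) (nat_lit 1) (nat_lit 0) (nat_lit 291) (nat_lit 264) (nat_lit 165)) (XT.lf (nat_lit 0) (nat_lit 3489258472) (nat_lit 0) (nat_lit 0) (nat_lit 0) (nat_lit 0) (nat_lit 0) (nat_lit 0) (nat_lit 1) (nat_lit 0) (nat_lit 1) (nat_lit 0) (nat_lit 292) (nat_lit 264) (nat_lit 164)))) (XT.nd (nat_lit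 188) (nat_lit 0) (nat_lit 0) (XT.nd (nat_lit 94) (nat_lit 0) (nat_lit 0) (XT.lf (nat_lit 0) (nat_lit 3488004482) (nat_lit 0) (nat_lit 0) (nat_lit 0) (nat_lit 0) (nat_lit 0) (nat_lit 0) (nat_lit 1) (nat_lit 0) (nat_lit 1) (nat_lit 0) (nat_lit 293) (nat_lit 264) (nat_lit 163)) (XT.lf (nat_lit 0) (nat_lit 3486810207) (nat_lit 0) (nat_lit 0) (nat_lit 0) (nat_lit 0) (nat_lit 0) (nat_lit 0) (nat_lit 1) (nat_lit 0) (nat_lit 1) (nat_lit 0) (nat_lit 294) (nat_lit 264) (nat_lit 162))) (XT.nd (nat_lit 94) (nat_lit 0) (nat_lit 0) (XT.lf (nat_lit 0) (nat_lit 3485672802) (nat_lit 0) (nat_lit 0) (nat_lit 0) (nat_lit 0) (nat_lit 0) (nat_lit 0) (nat_lit 1) (nat_lit 0) (nat_lit 1) (nat_lit 0) (nat_lit 295) (nat_lit 264) (nat_lit 161)) (XT.lf (nat_lit 0) (nat_lit 3484589558) (nat_lit 0) (nat_lit 0) (nat_lit 0) (nat_lit 0) (nat_lit 0) (nat_lit 0) (nat_lit 1) (nat_lit 0) (nat_lit 1) (nat_lit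 0) (nat_lit 296) (nat_lit 264) (nat_lit 160))))) (XT.nd (nat_lit 282) (nat_lit 0) (nat_lit 0) (XT.nd (nat_lit 94) (nat_lit 0) (nat_lit 0) (XT.lf (nat_lit 0) (nat_lit 3483557898) (nat_lit 0) (nat_lit 0) (nat_lit 0) (nat_lit 0) (nat_lit 0) (nat_lit 0) (nat_lit 1) (nat_lit 0) (nat_lit 1) (nat_lit 0) (nat_lit 297) (nat_lit 264) (nat_lit 159)) (XT.nd (nat_lit 94) (nat_lit 0) (nat_lit 0) (XT.lf (nat_lit 0) (nat_lit 3482575365) (nat_lit 0) (nat_lit 0) (nat_lit 0) (nat_lit 0) (nat_lit 0) (nat_lit 0) (nat_lit 1) (nat_lit 0) (nat_lit 1) (nat_lit 0) (nat_lit 298) (nat_lit 264) (nat_lit 158)) (XT.lf (nat_lit 0) (nat_lit 3481639619) (nat_lit 0) (nat_lit 0) (nat_lit 0) (nat_lit 0) (nat_lit 0) (nat_lit 0) (nat_lit 1) (nat_lit 0) (nat_lit 1) (nat_lit 0) (nat_lit 299) (nat_lit 264) (nat_lit 157)))) (XT.nd (nat_lit 188) (nat_lit 0) (nat_lit 0) (XT.nd (nat_lit 94) (nat_lit 0) (nat_lit 0) (XT.lf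 (nat_lit 0) (nat_lit 3480748432) (nat_lit 0) (nat_lit 0) (nat_lit 0) (nat_lit 0) (nat_lit 0) (nat_lit 0) (nat_lit 1) (nat_lit 0) (nat_lit 1) (nat_lit 0) (nat_lit 300) (nat_lit 264) (nat_lit 156)) (XT.lf (nat_lit 0) (nat_lit 3479899683) (nat_lit 0) (nat_lit 0) (nat_lit 0) (nat_lit 0) (nat_lit 0) (nat_lit 0) (nat_lit 1) (nat_lit 0) (nat_lit 1) (nat_lit 0) (nat_lit 301) (nat_lit 264) (nat_lit 155))) (XT.nd (nat_lit 94) (nat_lit 0) (nat_lit 0) (XT.lf (nat_lit 0) (nat_lit 3479091350) (nat_lit 0) (nat_lit 0) (nat_lit 0) (nat_lit 0) (nat_lit 0) (nat_lit 0) (nat_lit 1) (nat_lit 0) (nat_lit 1) (nat_lit 0) (nat_lit 302) (nat_lit 264) (nat_lit 154)) (XT.lf (nat_lit 0) (nat_lit 3478321509) (nat_lit 0) (nat_lit 0) (nat_lit 0) (nat_lit 0) (nat_lit 0) (nat_lit 0) (nat_lit 1) (nat_lit 0) (nat_lit 1) (nat_lit 0) (nat_lit 303) (nat_lit 264) (nat_lit 153))))))))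
noncomputable def ec77 : XT := (XT.nd (nat_lit 35532) (nat_lit 0) (nat_lit 5040) (XT.nd (nat_lit 1222) (nat_lit 0) (nat_lit 0) (XT.nd (nat_lit 564) (nat_lit 0) (nat_lit 0) (XT.nd (nat_lit 282) (nat_lit 0) (nat_lit 0) (XT.nd (nat_lit 94) (nat_lit 0) (nat_lit 0) (XT.lf (nat_lit 0) (nat_lit 3477588328) (nat_lit 0) (nat_lit 0) (nat_lit 0) (nat_lit 0) (nat_lit 0) (nat_lit 0) (nat_lit 1) (nat_lit 0) (nat_lit 1) (nat_lit 0) (nat_lit 304) (nat_lit 264) (nat_lit 152)) (XT.nd (nat_lit 94) (nat_lit 0) (nat_lit 0) (XT.lf (nat_lit 0) (nat_lit 3476890059) (nat_lit 0) (nat_lit 0) (nat_lit 0) (nat_lit 0) (nat_lit 0) (nat_lit 0) (nat_lit 1) (nat_lit 0) (nat_lit 1) (nat_lit 0) (nat_lit 305) (nat_lit 264) (nat_lit 151)) (XT.lf (nat_lit 0) (nat_lit 3476225042) (nat_lit 0) (nat_lit 0) (nat_lit 0) (nat_lit 0) (nat_lit 0) (nat_lit 0) (nat_lit 1) (nat_lit 0) (nat_lit 1) (nat_lit 0) (nat_lit 306)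 (nat_lit 264) (nat_lit 150)))) (XT.nd (nat_lit 94) (nat_lit 0) (nat_lit 0) (XT.lf (nat_lit 0) (nat_lit 3475591692) (nat_lit 0) (nat_lit 0) (nat_lit 0) (nat_lit 0) (nat_lit 0) (nat_lit 0) (nat_lit 1) (nat_lit 0) (nat_lit 1) (nat_lit 0) (nat_lit 307) (nat_lit 264) (nat_lit 149)) (XT.nd (nat_lit 94) (nat_lit 0) (nat_lit 0) (XT.lf (nat_lit 0) (nat_lit 3474988502) (nat_lit 0) (nat_lit 0) (nat_lit 0) (nat_lit 0) (nat_lit 0) (nat_lit 0) (nat_lit 1) (nat_lit 0) (nat_lit 1) (nat_lit 0) (nat_lit 308) (nat_lit 264) (nat_lit 148)) (XT.lf (nat_lit 0) (nat_lit 3474414035) (nat_lit 0) (nat_lit 0) (nat_lit 0) (nat_lit 0) (nat_lit 0) (nat_lit 0) (nat_lit 1) (nat_lit 0) (nat_lit 1) (nat_lit 0) (nat_lit 309) (nat_lit 264) (nat_lit 147))))) (XT.nd (nat_lit 282) (nat_lit 0) (nat_lit 0) (XT.nd (nat_lit 94) (nat_lit 0) (nat_lit 0) (XT.lf (nat_lit 0) (nat_lit 3473866924) (nat_lit 0) (nat_lit 0)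 (nat_lit 0) (nat_lit 0) (nat_lit 0) (nat_lit 0) (nat_lit 1) (nat_lit 0) (nat_lit 1) (nat_lit 0) (nat_lit 310) (nat_lit 264) (nat_lit 146)) (XT.nd (nat_lit 94) (nat_lit 0) (nat_lit 0) (XT.lf (nat_lit 0) (nat_lit 3473345865) (nat_lit 0) (nat_lit 0) (nat_lit 0) (nat_lit 0) (nat_lit 0) (nat_lit 0) (nat_lit 1) (nat_lit 0) (nat_lit 1) (nat_lit 0) (nat_lit 311) (nat_lit 264) (nat_lit 145)) (XT.lf (nat_lit 0) (nat_lit 3472849619) (nat_lit 0) (nat_lit 0) (nat_lit 0) (nat_lit 0) (nat_lit 0) (nat_lit 0) (nat_lit 1) (nat_lit 0) (nat_lit 1) (nat_lit 0) (nat_lit 312) (nat_lit 264) (nat_lit 144)))) (XT.nd (nat_lit 188) (nat_lit 0) (nat_lit 0) (XT.nd (nat_lit 94) (nat_lit 0) (nat_lit 0) (XT.lf (nat_lit 0) (nat_lit 3472377004) (nat_lit 0) (nat_lit 0) (nat_lit 0) (nat_lit 0) (nat_lit 0) (nat_lit 0) (nat_lit 1) (nat_lit 0) (nat_lit 1) (nat_lit 0) (nat_lit 313) (nat_lit 264) (nat_lit 143))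 (XT.lf (nat_lit 0) (nat_lit 3471926894) (nat_lit 0) (nat_lit 0) (nat_lit 0) (nat_lit 0) (nat_lit 0) (nat_lit 0) (nat_lit 1) (nat_lit 0) (nat_lit 1) (nat_lit 0) (nat_lit 314) (nat_lit 264) (nat_lit 142))) (XT.nd (nat_lit 94) (nat_lit 0) (nat_lit 0) (XT.lf (nat_lit 0) (nat_lit 3471498218) (nat_lit 0) (nat_lit 0) (nat_lit 0) (nat_lit 0) (nat_lit 0) (nat_lit 0) (nat_lit 1) (nat_lit 0) (nat_lit 1) (nat_lit 0) (nat_lit 315) (nat_lit 264) (nat_lit 141)) (XT.lf (nat_lit 0) (nat_lit 3471089955) (nat_lit 0) (nat_lit 0) (nat_lit 0) (nat_lit 0) (nat_lit 0) (nat_lit 0) (nat_lit 1) (nat_lit 0) (nat_lit 1) (nat_lit 0) (nat_lit 316) (nat_lit 264) (nat_lit 140)))))) (XT.nd (nat_lit 33652) (nat_lit 0) (nat_lit 10920) (XT.nd (nat_lit 33276) (nat_lit 0) (nat_lit 10752) (XT.nd (nat_lit 94) (nat_lit 0) (nat_lit 0) (XT.lf (nat_lit 0) (nat_lit 3470701133) (nat_lit 0) (nat_lit 0) (nat_lit 0) (nat_lit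 0) (nat_lit 0) (nat_lit 0) (nat_lit 1) (nat_lit 0) (nat_lit 1) (nat_lit 0) (nat_lit 317) (nat_lit 264) (nat_lit 139)) (XT.nd (nat_lit 94) (nat_lit 0) (nat_lit 0) (XT.lf (nat_lit 0) (nat_lit 3470330826) (nat_lit 0) (nat_lit 0) (nat_lit 0) (nat_lit 0) (nat_lit 0) (nat_lit 0) (nat_lit 1) (nat_lit 0) (nat_lit 1) (nat_lit 0) (nat_lit 318) (nat_lit 264) (nat_lit 138)) (XT.lf (nat_lit 0) (nat_lit 3469978153) (nat_lit 0) (nat_lit 0) (nat_lit 0) (nat_lit 0) (nat_lit 0) (nat_lit 0) (nat_lit 1) (nat_lit 0) (nat_lit 1) (nat_lit 0) (nat_lit 319) (nat_lit 264) (nat_lit 137)))) (XT.nd (nat_lit 188) (nat_lit 0) (nat_lit 84) (XT.nd (nat_lit 94) (nat_lit 0) (nat_lit 0) (XT.lf (nat_lit 924) (nat_lit 1819626092) (nat_lit 0) (nat_lit 3230741944) (nat_lit 924) (nat_lit 1819626092) (nat_lit 139) (nat_lit 1) (nat_lit 128) (nat_lit 0) (nat_lit 139) (nat_lit 0) (nat_lit 190) (nat_lit 265) (nat_lit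 265)) (XT.lf (nat_lit 924) (nat_lit 7053097905) (nat_lit 84) (nat_lit 3178633203) (nat_lit 0) (nat_lit 3178633203) (nat_lit 139) (nat_lit 1) (nat_lit 129) (nat_lit 1) (nat_lit 128) (nat_lit 0) (nat_lit 191) (nat_lit 265) (nat_lit 264))) (XT.nd (nat_lit 94) (nat_lit 0) (nat_lit 0) (XT.lf (nat_lit 924) (nat_lit 3361400263) (nat_lit 0) (nat_lit 6368130286) (nat_lit 840) (nat_lit 3361400263) (nat_lit 140) (nat_lit 1) (nat_lit 129) (nat_lit 1) (nat_lit 139) (nat_lit 1) (nat_lit 192) (nat_lit 265) (nat_lit 263)) (XT.lf (nat_lit 924) (nat_lit 6305519815) (nat_lit 84) (nat_lit 3238148790) (nat_lit 0) (nat_lit 3238148790) (nat_lit 140) (nat_lit 1) (nat_lit 130) (nat_lit 1) (nat_lit 129) (nat_lit 1) (nat_lit 193) (nat_lit 265) (nat_lit 262))))) (XT.nd (nat_lit 282) (nat_lit 0) (nat_lit 84) (XT.nd (nat_lit 94) (nat_lit 0) (nat_lit 0) (XT.lf (nat_lit 924) (nat_lit 2902370218) (nat_lit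 0) (nat_lit 6677760886) (nat_lit 840) (nat_lit 2902370218) (nat_lit 141) (nat_lit 1) (nat_lit 130) (nat_lit 1) (nat_lit 140) (nat_lit 1) (nat_lit 194) (nat_lit 265) (nat_lit 261)) (XT.nd (nat_lit 94) (nat_lit 0) (nat_lit 84) (XT.lf (nat_lit 924) (nat_lit 5220101875) (nat_lit 84) (nat_lit 3486103836) (nat_lit 0) (nat_lit 3486103836) (nat_lit 141) (nat_lit 1) (nat_lit 131) (nat_lit 1) (nat_lit 130) (nat_lit 1) (nat_lit 195) (nat_lit 265) (nat_lit 260)) (XT.lf (nat_lit 924) (nat_lit 2288863902) (nat_lit 0) (nat_lit 7334133604) (nat_lit 840) (nat_lit 2288863902) (nat_lit 142) (nat_lit 1) (nat_lit 131) (nat_lit 1) (nat_lit 141) (nat_lit 1) (nat_lit 196) (nat_lit 265) (nat_lit 259)))) (XT.nd (nat_lit 188) (nat_lit 0) (nat_lit 84) (XT.nd (nat_lit 94) (nat_lit 0) (nat_lit 84) (XT.lf (nat_lit 924) (nat_lit 3847650497) (nat_lit 84) (nat_lit 3895742235) (nat_lit 0) (nat_lit 3895742235)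 (nat_lit 142) (nat_lit 1) (nat_lit 132) (nat_lit 1) (nat_lit 131) (nat_lit 1) (nat_lit 197) (nat_lit 265) (nat_lit 258)) (XT.lf (nat_lit 924) (nat_lit 1544631269) (nat_lit 0) (nat_lit 8287129330) (nat_lit 840) (nat_lit 1544631269) (nat_lit 143) (nat_lit 1) (nat_lit 132) (nat_lit 1) (nat_lit 142) (nat_lit 1) (nat_lit 198) (nat_lit 265) (nat_lit 257))) (XT.nd (nat_lit 94) (nat_lit 0) (nat_lit 84) (XT.lf (nat_lit 924) (nat_lit 2233324915) (nat_lit 84) (nat_lit 4443235253) (nat_lit 0) (nat_lit 4443235253) (nat_lit 143) (nat_lit 1) (nat_lit 133) (nat_lit 1) (nat_lit 132) (nat_lit 1) (nat_lit 199) (nat_lit 265) (nat_lit 256)) (XT.lf (nat_lit 84) (nat_lit 690767171) (nat_lit 0) (nat_lit 9492140090) (nat_lit 840) (nat_lit 690767171) (nat_lit 134) (nat_lit 1) (nat_lit 133) (nat_lit 1) (nat_lit 143) (nat_lit 1) (nat_lit 200) (nat_lit 265) (nat_lit 255))))))) (XT.nd (nat_lit 1316)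 (nat_lit 2436) (nat_lit 0) (XT.nd (nat_lit 658) (nat_lit 1428) (nat_lit 0) (XT.nd (nat_lit 282) (nat_lit 840) (nat_lit 0) (XT.nd (nat_lit 94) (nat_lit 588) (nat_lit 0) (XT.lf (nat_lit 924) (nat_lit 417206193) (nat_lit 0) (nat_lit 5107388433) (nat_lit 840) (nat_lit 5107388433) (nat_lit 134) (nat_lit 1) (nat_lit 123) (nat_lit 1) (nat_lit 133) (nat_lit 1) (nat_lit 201) (nat_lit 265) (nat_lit 254)) (XT.nd (nat_lit 94) (nat_lit 0) (nat_lit 0) (XT.lf (nat_lit 588) (nat_lit 9900828398) (nat_lit 0) (nat_lit 249923401) (nat_lit 504) (nat_lit 249923401) (nat_lit 123) (nat_lit 1) (nat_lit 116) (nat_lit 1) (nat_lit 122) (nat_lit 1) (nat_lit 202) (nat_lit 265) (nat_lit 253)) (XT.lf (nat_lit 84) (nat_lit 4328624944) (nat_lit 0) (nat_lit 1515092952) (nat_lit 588) (nat_lit 4328624944) (nat_lit 117) (nat_lit 1) (nat_lit 116) (nat_lit 1) (nat_lit 123) (nat_lit 1) (nat_lit 203) (nat_lit 265)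 (nat_lit 252)))) (XT.nd (nat_lit 188) (nat_lit 420) (nat_lit 0) (XT.nd (nat_lit 94) (nat_lit 0) (nat_lit 0) (XT.lf (nat_lit 504) (nat_lit 7448452419) (nat_lit 0) (nat_lit 1252633682) (nat_lit 420) (nat_lit 1252633682) (nat_lit 117) (nat_lit 1) (nat_lit 111) (nat_lit 1) (nat_lit 116) (nat_lit 1) (nat_lit 204) (nat_lit 265) (nat_lit 251)) (XT.lf (nat_lit 84) (nat_lit 3087555478) (nat_lit 0) (nat_lit 3564581829) (nat_lit 504) (nat_lit 3087555478) (nat_lit 112) (nat_lit 1) (nat_lit 111) (nat_lit 1) (nat_lit 117) (nat_lit 1) (nat_lit 205) (nat_lit 265) (nat_lit 250))) (XT.nd (nat_lit 94) (nat_lit 0) (nat_lit 0) (XT.lf (nat_lit 504) (nat_lit 4904911546) (nat_lit 0) (nat_lit 2314104115) (nat_lit 420) (nat_lit 2314104115) (nat_lit 112) (nat_lit 1) (nat_lit 106) (nat_lit 1) (nat_lit 111) (nat_lit 1) (nat_lit 206) (nat_lit 265) (nat_lit 249)) (XT.lf (nat_lit 84) (nat_lit 1807394718)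 (nat_lit 0) (nat_lit 5717765170) (nat_lit 504) (nat_lit 1807394718) (nat_lit 107) (nat_lit 1) (nat_lit 106) (nat_lit 1) (nat_lit 112) (nat_lit 1) (nat_lit 207) (nat_lit 265) (nat_lit 248))))) (XT.nd (nat_lit 282) (nat_lit 672) (nat_lit 0) (XT.nd (nat_lit 94) (nat_lit 420) (nat_lit 0) (XT.lf (nat_lit 420) (nat_lit 2293879694) (nat_lit 0) (nat_lit 3421634470) (nat_lit 336) (nat_lit 3421634470) (nat_lit 107) (nat_lit 1) (nat_lit 102) (nat_lit 1) (nat_lit 106) (nat_lit 1) (nat_lit 208) (nat_lit 265) (nat_lit 247)) (XT.nd (nat_lit 94) (nat_lit 420) (nat_lit 0) (XT.lf (nat_lit 84) (nat_lit 499132915) (nat_lit 0) (nat_lit 7950991183) (nat_lit 420) (nat_lit 499132915) (nat_lit 103) (nat_lit 1) (nat_lit 102) (nat_lit 1) (nat_lit 107) (nat_lit 1) (nat_lit 209) (nat_lit 265) (nat_lit 246)) (XT.lf (nat_lit 84) (nat_lit 4205837370) (nat_lit 0) (nat_lit 352247049) (nat_lit 420) (nat_lit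 4205837370) (nat_lit 98) (nat_lit 1) (nat_lit 97) (nat_lit 1) (nat_lit 102) (nat_lit 1) (nat_lit 210) (nat_lit 265) (nat_lit 245)))) (XT.nd (nat_lit 188) (nat_lit 336) (nat_lit 0) (XT.nd (nat_lit 94) (nat_lit 0) (nat_lit 0) (XT.lf (nat_lit 420) (nat_lit 6957118279) (nat_lit 0) (nat_lit 814263154) (nat_lit 336) (nat_lit 814263154) (nat_lit 98) (nat_lit 1) (nat_lit 93) (nat_lit 1) (nat_lit 97) (nat_lit 1) (nat_lit 211) (nat_lit 265) (nat_lit 244)) (XT.lf (nat_lit 84) (nat_lit 2728887645) (nat_lit 0) (nat_lit 2952650479) (nat_lit 420) (nat_lit 2728887645) (nat_lit 94) (nat_lit 1) (nat_lit 93) (nat_lit 1) (nat_lit 98) (nat_lit 1) (nat_lit 212) (nat_lit 265) (nat_lit 243))) (XT.nd (nat_lit 94) (nat_lit 0) (nat_lit 0) (XT.lf (nat_lit 420) (nat_lit 3982206191) (nat_lit 0) (nat_lit 2129538366) (nat_lit 336) (nat_lit 2129538366) (nat_lit 94) (nat_lit 1) (nat_lit 89) (nat_lit 1) (nat_lit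 93) (nat_lit 1) (nat_lit 213) (nat_lit 265) (nat_lit 242)) (XT.lf (nat_lit 84) (nat_lit 1255810109) (nat_lit 0) (nat_lit 5565465610) (nat_lit 420) (nat_lit 1255810109) (nat_lit 90) (nat_lit 1) (nat_lit 89) (nat_lit 1) (nat_lit 94) (nat_lit 1) (nat_lit 214) (nat_lit 265) (nat_lit 241)))))) (XT.nd (nat_lit 658) (nat_lit 924) (nat_lit 0) (XT.nd (nat_lit 282) (nat_lit 840) (nat_lit 0) (XT.nd (nat_lit 94) (nat_lit 420) (nat_lit 0) (XT.lf (nat_lit 336) (nat_lit 1021296577) (nat_lit 0) (nat_lit 3447568258) (nat_lit 252) (nat_lit 3447568258) (nat_lit 90) (nat_lit 1) (nat_lit 86) (nat_lit 1) (nat_lit 89) (nat_lit 1) (nat_lit 215) (nat_lit 265) (nat_lit 240)) (XT.nd (nat_lit 94) (nat_lit 0) (nat_lit 0) (XT.lf (nat_lit 420) (nat_lit 7353868629) (nat_lit 0) (nat_lit 204055743) (nat_lit 336) (nat_lit 204055743) (nat_lit 86) (nat_lit 1) (nat_lit 81) (nat_lit 1) (nat_lit 85) (nat_lit 1)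 (nat_lit 216) (nat_lit 265) (nat_lit 239)) (XT.lf (nat_lit 84) (nat_lit 2877623160) (nat_lit 0) (nat_lit 1853135697) (nat_lit 420) (nat_lit 2877623160) (nat_lit 82) (nat_lit 1) (nat_lit 81) (nat_lit 1) (nat_lit 86) (nat_lit 1) (nat_lit 217) (nat_lit 265) (nat_lit 238)))) (XT.nd (nat_lit 188) (nat_lit 588) (nat_lit 0) (XT.nd (nat_lit 94) (nat_lit 0) (nat_lit 0) (XT.lf (nat_lit 336) (nat_lit 4202859600) (nat_lit 0) (nat_lit 1628907607) (nat_lit 252) (nat_lit 1628907607) (nat_lit 82) (nat_lit 1) (nat_lit 78) (nat_lit 1) (nat_lit 81) (nat_lit 1) (nat_lit 218) (nat_lit 265) (nat_lit 237)) (XT.lf (nat_lit 84) (nat_lit 1327748359) (nat_lit 0) (nat_lit 4661223650) (nat_lit 336) (nat_lit 1327748359) (nat_lit 79) (nat_lit 1) (nat_lit 78) (nat_lit 1) (nat_lit 82) (nat_lit 1) (nat_lit 219) (nat_lit 265) (nat_lit 236))) (XT.nd (nat_lit 94) (nat_lit 336) (nat_lit 0) (XT.lf (nat_lit 336)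 (nat_lit 1106636757) (nat_lit 0) (nat_lit 3034702045) (nat_lit 252) (nat_lit 3034702045) (nat_lit 79) (nat_lit 1) (nat_lit 75) (nat_lit 1) (nat_lit 78) (nat_lit 1) (nat_lit 220) (nat_lit 265) (nat_lit 235)) (XT.lf (nat_lit 336) (nat_lit 6660213831) (nat_lit 0) (nat_lit 190186958) (nat_lit 252) (nat_lit 190186958) (nat_lit 75) (nat_lit 1) (nat_lit 71) (nat_lit 1) (nat_lit 74) (nat_lit 1) (nat_lit 221) (nat_lit 265) (nat_lit 234))))) (XT.nd (nat_lit 282) (nat_lit 672) (nat_lit 0) (XT.nd (nat_lit 94) (nat_lit 252) (nat_lit 0) (XT.lf (nat_lit 84) (nat_lit 2519368156) (nat_lit 0) (nat_lit 1866826506) (nat_lit 336) (nat_lit 2519368156) (nat_lit 72) (nat_lit 1) (nat_lit 71) (nat_lit 1) (nat_lit 75) (nat_lit 1) (nat_lit 222) (nat_lit 265) (nat_lit 233)) (XT.nd (nat_lit 94) (nat_lit 0) (nat_lit 0) (XT.lf (nat_lit 336) (nat_lit 3464361902) (nat_lit 0) (nat_lit 1655585965) (nat_lit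 252) (nat_lit 1655585965) (nat_lit 72) (nat_lit 1) (nat_lit 68) (nat_lit 1) (nat_lit 71) (nat_lit 1) (nat_lit 223) (nat_lit 265) (nat_lit 232)) (XT.lf (nat_lit 84) (nat_lit 954082442) (nat_lit 0) (nat_lit 4740827398) (nat_lit 336) (nat_lit 954082442) (nat_lit 69) (nat_lit 1) (nat_lit 68) (nat_lit 1) (nat_lit 72) (nat_lit 1) (nat_lit 224) (nat_lit 265) (nat_lit 231)))) (XT.nd (nat_lit 188) (nat_lit 168) (nat_lit 0) (XT.nd (nat_lit 94) (nat_lit 336) (nat_lit 0) (XT.lf (nat_lit 252) (nat_lit 349607529) (nat_lit 0) (nat_lit 3087613902) (nat_lit 168) (nat_lit 3087613902) (nat_lit 69) (nat_lit 1) (nat_lit 66) (nat_lit 1) (nat_lit 68) (nat_lit 1) (nat_lit 225) (nat_lit 265) (nat_lit 230)) (XT.lf (nat_lit 336) (nat_lit 5282452543) (nat_lit 0) (nat_lit 561034749) (nat_lit 252) (nat_lit 561034749) (nat_lit 66) (nat_lit 1) (nat_lit 62) (nat_lit 1) (nat_lit 65) (nat_lit 1) (nat_lit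 226) (nat_lit 265) (nat_lit 229))) (XT.nd (nat_lit 94) (nat_lit 168) (nat_lit 0) (XT.lf (nat_lit 84) (nat_lit 1845035283) (nat_lit 0) (nat_lit 2595483770) (nat_lit 336) (nat_lit 1845035283) (nat_lit 63) (nat_lit 1) (nat_lit 62) (nat_lit 1) (nat_lit 66) (nat_lit 1) (nat_lit 227) (nat_lit 265) (nat_lit 228)) (XT.lf (nat_lit 252) (nat_lit 2131653660) (nat_lit 0) (nat_lit 2019302320) (nat_lit 168) (nat_lit 2019302320) (nat_lit 63) (nat_lit 1) (nat_lit 60) (nat_lit 1) (nat_lit 62) (nat_lit 1) (nat_lit 228) (nat_lit 265) (nat_lit 227))))))))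
noncomputable def ec78 : XT := (XT.nd (nat_lit 2538) (nat_lit 2100) (nat_lit 0) (XT.nd (nat_lit 1222) (nat_lit 1428) (nat_lit 0) (XT.nd (nat_lit 564) (nat_lit 672) (nat_lit 0) (XT.nd (nat_lit 282) (nat_lit 420) (nat_lit 0) (XT.nd (nat_lit 94) (nat_lit 420) (nat_lit 0) (XT.lf (nat_lit 84) (nat_lit 306250971) (nat_lit 0) (nat_lit 5446286557) (nat_lit 252) (nat_lit 306250971) (nat_lit 61) (nat_lit 1) (nat_lit 60) (nat_lit 1) (nat_lit 63) (nat_lit 1) (nat_lit 229) (nat_lit 265) (nat_lit 226)) (XT.nd (nat_lit 94) (nat_lit 168) (nat_lit 0) (XT.lf (nat_lit 84) (nat_lit 2527542994) (nat_lit 0) (nat_lit 892637909) (nat_lit 252) (nat_lit 2527542994) (nat_lit 58) (nat_lit 1) (nat_lit 57) (nat_lit 1) (nat_lit 60) (nat_lit 1) (nat_lit 230) (nat_lit 265) (nat_lit 225)) (XT.lf (nat_lit 252) (nat_lit 3509936438) (nat_lit 0) (nat_lit 1165203799) (nat_lit 168) (nat_lit 1165203799) (nat_lit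 58) (nat_lit 1) (nat_lit 55) (nat_lit 1) (nat_lit 57) (nat_lit 1) (nat_lit 231) (nat_lit 265) (nat_lit 224)))) (XT.nd (nat_lit 94) (nat_lit 420) (nat_lit 0) (XT.lf (nat_lit 84) (nat_lit 990412747) (nat_lit 0) (nat_lit 3754512008) (nat_lit 252) (nat_lit 990412747) (nat_lit 56) (nat_lit 1) (nat_lit 55) (nat_lit 1) (nat_lit 58) (nat_lit 1) (nat_lit 232) (nat_lit 265) (nat_lit 223)) (XT.nd (nat_lit 94) (nat_lit 252) (nat_lit 0) (XT.lf (nat_lit 252) (nat_lit 463972714) (nat_lit 0) (nat_lit 2584237459) (nat_lit 168) (nat_lit 2584237459) (nat_lit 56) (nat_lit 1) (nat_lit 53) (nat_lit 1) (nat_lit 55) (nat_lit 1) (nat_lit 233) (nat_lit 265) (nat_lit 222)) (XT.lf (nat_lit 252) (nat_lit 4560223580) (nat_lit 0) (nat_lit 486157747) (nat_lit 168) (nat_lit 486157747) (nat_lit 53) (nat_lit 1) (nat_lit 50) (nat_lit 1) (nat_lit 52) (nat_lit 1) (nat_lit 234) (nat_lit 265) (nat_lit 221)))))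 (XT.nd (nat_lit 282) (nat_lit 504) (nat_lit 0) (XT.nd (nat_lit 94) (nat_lit 168) (nat_lit 0) (XT.lf (nat_lit 84) (nat_lit 1518109605) (nat_lit 0) (nat_lit 2397264015) (nat_lit 252) (nat_lit 1518109605) (nat_lit 51) (nat_lit 1) (nat_lit 50) (nat_lit 1) (nat_lit 53) (nat_lit 1) (nat_lit 235) (nat_lit 265) (nat_lit 220)) (XT.nd (nat_lit 94) (nat_lit 0) (nat_lit 0) (XT.lf (nat_lit 252) (nat_lit 1546120927) (nat_lit 0) (nat_lit 1895591088) (nat_lit 168) (nat_lit 1895591088) (nat_lit 51) (nat_lit 1) (nat_lit 48) (nat_lit 1) (nat_lit 50) (nat_lit 1) (nat_lit 236) (nat_lit 265) (nat_lit 219)) (XT.lf (nat_lit 84) (nat_lit 50816730) (nat_lit 0) (nat_lit 5142862564) (nat_lit 252) (nat_lit 50816730) (nat_lit 49) (nat_lit 1) (nat_lit 48) (nat_lit 1) (nat_lit 51) (nat_lit 1) (nat_lit 237) (nat_lit 265) (nat_lit 218)))) (XT.nd (nat_lit 188) (nat_lit 168) (nat_lit 0) (XT.nd (nat_lit 94)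 (nat_lit 168) (nat_lit 0) (XT.lf (nat_lit 84) (nat_lit 1918756897) (nat_lit 0) (nat_lit 1313585223) (nat_lit 168) (nat_lit 1918756897) (nat_lit 47) (nat_lit 1) (nat_lit 46) (nat_lit 1) (nat_lit 48) (nat_lit 1) (nat_lit 238) (nat_lit 265) (nat_lit 217)) (XT.lf (nat_lit 252) (nat_lit 2380958873) (nat_lit 0) (nat_lit 1340014656) (nat_lit 168) (nat_lit 1340014656) (nat_lit 47) (nat_lit 1) (nat_lit 44) (nat_lit 1) (nat_lit 46) (nat_lit 1) (nat_lit 239) (nat_lit 265) (nat_lit 216))) (XT.nd (nat_lit 94) (nat_lit 168) (nat_lit 0) (XT.lf (nat_lit 84) (nat_lit 477365798) (nat_lit 0) (nat_lit 4018578077) (nat_lit 252) (nat_lit 477365798) (nat_lit 45) (nat_lit 1) (nat_lit 44) (nat_lit 1) (nat_lit 47) (nat_lit 1) (nat_lit 240) (nat_lit 265) (nat_lit 215)) (XT.lf (nat_lit 84) (nat_lit 2216474969) (nat_lit 0) (nat_lit 453404276) (nat_lit 168) (nat_lit 2216474969) (nat_lit 43) (nat_lit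 1) (nat_lit 42) (nat_lit 1) (nat_lit 44) (nat_lit 1) (nat_lit 241) (nat_lit 265) (nat_lit 214)))))) (XT.nd (nat_lit 658) (nat_lit 588) (nat_lit 0) (XT.nd (nat_lit 282) (nat_lit 588) (nat_lit 0) (XT.nd (nat_lit 94) (nat_lit 84) (nat_lit 0) (XT.lf (nat_lit 252) (nat_lit 3014974433) (nat_lit 0) (nat_lit 893392590) (nat_lit 168) (nat_lit 893392590) (nat_lit 43) (nat_lit 1) (nat_lit 40) (nat_lit 1) (nat_lit 42) (nat_lit 1) (nat_lit 242) (nat_lit 265) (nat_lit 213)) (XT.nd (nat_lit 94) (nat_lit 84) (nat_lit 0) (XT.lf (nat_lit 84) (nat_lit 807547879) (nat_lit 0) (nat_lit 3103743955) (nat_lit 252) (nat_lit 807547879) (nat_lit 41) (nat_lit 1) (nat_lit 40) (nat_lit 1) (nat_lit 43) (nat_lit 1) (nat_lit 243) (nat_lit 265) (nat_lit 212)) (XT.lf (nat_lit 168) (nat_lit 231817588) (nat_lit 0) (nat_lit 2202833483) (nat_lit 84) (nat_lit 2202833483) (nat_lit 41) (nat_lit 1) (nat_lit 39) (nat_lit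 1) (nat_lit 40) (nat_lit 1) (nat_lit 244) (nat_lit 265) (nat_lit 211)))) (XT.nd (nat_lit 188) (nat_lit 336) (nat_lit 0) (XT.nd (nat_lit 94) (nat_lit 0) (nat_lit 0) (XT.lf (nat_lit 252) (nat_lit 3486287571) (nat_lit 0) (nat_lit 535909833) (nat_lit 168) (nat_lit 535909833) (nat_lit 39) (nat_lit 1) (nat_lit 36) (nat_lit 1) (nat_lit 38) (nat_lit 1) (nat_lit 245) (nat_lit 265) (nat_lit 210)) (XT.lf (nat_lit 84) (nat_lit 1059436263) (nat_lit 0) (nat_lit 2360743382) (nat_lit 252) (nat_lit 1059436263) (nat_lit 37) (nat_lit 1) (nat_lit 36) (nat_lit 1) (nat_lit 39) (nat_lit 1) (nat_lit 246) (nat_lit 265) (nat_lit 209))) (XT.nd (nat_lit 94) (nat_lit 252) (nat_lit 0) (XT.lf (nat_lit 168) (nat_lit 778495979) (nat_lit 0) (nat_lit 1812276558) (nat_lit 84) (nat_lit 1812276558) (nat_lit 37) (nat_lit 1) (nat_lit 35) (nat_lit 1) (nat_lit 36) (nat_lit 1) (nat_lit 247) (nat_lit 265) (nat_lit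 208)) (XT.lf (nat_lit 252) (nat_lit 3826139930) (nat_lit 0) (nat_lit 251288193) (nat_lit 168) (nat_lit 251288193) (nat_lit 35) (nat_lit 1) (nat_lit 32) (nat_lit 1) (nat_lit 34) (nat_lit 1) (nat_lit 248) (nat_lit 265) (nat_lit 207))))) (XT.nd (nat_lit 282) (nat_lit 252) (nat_lit 0) (XT.nd (nat_lit 94) (nat_lit 336) (nat_lit 0) (XT.lf (nat_lit 84) (nat_lit 1247852859) (nat_lit 0) (nat_lit 1758651850) (nat_lit 252) (nat_lit 1247852859) (nat_lit 33) (nat_lit 1) (nat_lit 32) (nat_lit 1) (nat_lit 35) (nat_lit 1) (nat_lit 249) (nat_lit 265) (nat_lit 206)) (XT.nd (nat_lit 94) (nat_lit 252) (nat_lit 0) (XT.lf (nat_lit 168) (nat_lit 1200260164) (nat_lit 0) (nat_lit 1490964409) (nat_lit 84) (nat_lit 1490964409) (nat_lit 33) (nat_lit 1) (nat_lit 31) (nat_lit 1) (nat_lit 32) (nat_lit 1) (nat_lit 250) (nat_lit 265) (nat_lit 205)) (XT.lf (nat_lit 252) (nat_lit 4060120044) (nat_lit 0) (nat_lit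 26158129) (nat_lit 168) (nat_lit 26158129) (nat_lit 31) (nat_lit 1) (nat_lit 28) (nat_lit 1) (nat_lit 30) (nat_lit 1) (nat_lit 251) (nat_lit 265) (nat_lit 204)))) (XT.nd (nat_lit 188) (nat_lit 168) (nat_lit 0) (XT.nd (nat_lit 94) (nat_lit 84) (nat_lit 0) (XT.lf (nat_lit 84) (nat_lit 1384946895) (nat_lit 0) (nat_lit 1272049542) (nat_lit 252) (nat_lit 1384946895) (nat_lit 29) (nat_lit 1) (nat_lit 28) (nat_lit 1) (nat_lit 31) (nat_lit 1) (nat_lit 252) (nat_lit 265) (nat_lit 203)) (XT.lf (nat_lit 168) (nat_lit 1520589955) (nat_lit 0) (nat_lit 1226620109) (nat_lit 84) (nat_lit 1226620109) (nat_lit 29) (nat_lit 1) (nat_lit 27) (nat_lit 1) (nat_lit 28) (nat_lit 1) (nat_lit 253) (nat_lit 265) (nat_lit 202))) (XT.nd (nat_lit 94) (nat_lit 168) (nat_lit 0) (XT.lf (nat_lit 0) (nat_lit 152924537) (nat_lit 0) (nat_lit 3601924392) (nat_lit 168) (nat_lit 152924537) (nat_lit 27) (nat_lit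 3) (nat_lit 27) (nat_lit 1) (nat_lit 29) (nat_lit 1) (nat_lit 254) (nat_lit 265) (nat_lit 201)) (XT.lf (nat_lit 84) (nat_lit 1480670915) (nat_lit 0) (nat_lit 880044317) (nat_lit 168) (nat_lit 1480670915) (nat_lit 26) (nat_lit 1) (nat_lit 25) (nat_lit 1) (nat_lit 27) (nat_lit 1) (nat_lit 255) (nat_lit 265) (nat_lit 200))))))) (XT.nd (nat_lit 1222) (nat_lit 1008) (nat_lit 0) (XT.nd (nat_lit 564) (nat_lit 588) (nat_lit 0) (XT.nd (nat_lit 282) (nat_lit 252) (nat_lit 0) (XT.nd (nat_lit 94) (nat_lit 168) (nat_lit 0) (XT.lf (nat_lit 168) (nat_lit 1758738784) (nat_lit 0) (nat_lit 1009143399) (nat_lit 84) (nat_lit 1009143399) (nat_lit 26) (nat_lit 1) (nat_lit 24) (nat_lit 1) (nat_lit 25) (nat_lit 1) (nat_lit 256) (nat_lit 265) (nat_lit 199)) (XT.nd (nat_lit 94) (nat_lit 168) (nat_lit 0) (XT.lf (nat_lit 0) (nat_lit 292285383) (nat_lit 0) (nat_lit 3129786100) (nat_lit 168) (nat_lit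 292285383) (nat_lit 24) (nat_lit 3) (nat_lit 24) (nat_lit 1) (nat_lit 26) (nat_lit 1) (nat_lit 257) (nat_lit 265) (nat_lit 198)) (XT.lf (nat_lit 84) (nat_lit 1543172270) (nat_lit 0) (nat_lit 565467982) (nat_lit 168) (nat_lit 1543172270) (nat_lit 23) (nat_lit 1) (nat_lit 22) (nat_lit 1) (nat_lit 24) (nat_lit 1) (nat_lit 258) (nat_lit 265) (nat_lit 197)))) (XT.nd (nat_lit 94) (nat_lit 168) (nat_lit 0) (XT.lf (nat_lit 168) (nat_lit 1930486050) (nat_lit 0) (nat_lit 830224772) (nat_lit 84) (nat_lit 830224772) (nat_lit 23) (nat_lit 1) (nat_lit 21) (nat_lit 1) (nat_lit 22) (nat_lit 1) (nat_lit 259) (nat_lit 265) (nat_lit 196)) (XT.nd (nat_lit 94) (nat_lit 168) (nat_lit 0) (XT.lf (nat_lit 0) (nat_lit 399010564) (nat_lit 0) (nat_lit 2733429425) (nat_lit 168) (nat_lit 399010564) (nat_lit 21) (nat_lit 3) (nat_lit 21) (nat_lit 1) (nat_lit 23) (nat_lit 1) (nat_lit 260) (nat_lit 265)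 (nat_lit 195)) (XT.lf (nat_lit 84) (nat_lit 1579115116) (nat_lit 0) (nat_lit 314215093) (nat_lit 168) (nat_lit 1579115116) (nat_lit 20) (nat_lit 1) (nat_lit 19) (nat_lit 1) (nat_lit 21) (nat_lit 1) (nat_lit 261) (nat_lit 265) (nat_lit 194))))) (XT.nd (nat_lit 282) (nat_lit 336) (nat_lit 0) (XT.nd (nat_lit 94) (nat_lit 168) (nat_lit 0) (XT.lf (nat_lit 168) (nat_lit 2048755937) (nat_lit 0) (nat_lit 683027974) (nat_lit 84) (nat_lit 683027974) (nat_lit 20) (nat_lit 1) (nat_lit 18) (nat_lit 1) (nat_lit 19) (nat_lit 1) (nat_lit 262) (nat_lit 265) (nat_lit 193)) (XT.nd (nat_lit 94) (nat_lit 168) (nat_lit 0) (XT.lf (nat_lit 0) (nat_lit 479263793) (nat_lit 0) (nat_lit 2399795968) (nat_lit 168) (nat_lit 479263793) (nat_lit 18) (nat_lit 3) (nat_lit 18) (nat_lit 1) (nat_lit 20) (nat_lit 1) (nat_lit 263) (nat_lit 265) (nat_lit 192)) (XT.lf (nat_lit 84) (nat_lit 1593945219) (nat_lit 0)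 (nat_lit 114699044) (nat_lit 168) (nat_lit 1593945219) (nat_lit 17) (nat_lit 1) (nat_lit 16) (nat_lit 1) (nat_lit 18) (nat_lit 1) (nat_lit 264) (nat_lit 265) (nat_lit 191)))) (XT.nd (nat_lit 188) (nat_lit 252) (nat_lit 0) (XT.nd (nat_lit 94) (nat_lit 0) (nat_lit 0) (XT.lf (nat_lit 168) (nat_lit 2124126375) (nat_lit 0) (nat_lit 561928805) (nat_lit 84) (nat_lit 561928805) (nat_lit 17) (nat_lit 1) (nat_lit 15) (nat_lit 1) (nat_lit 16) (nat_lit 1) (nat_lit 265) (nat_lit 265) (nat_lit 190)) (XT.lf (nat_lit 0) (nat_lit 538097999) (nat_lit 0) (nat_lit 2118124572) (nat_lit 168) (nat_lit 538097999) (nat_lit 15) (nat_lit 3) (nat_lit 15) (nat_lit 1) (nat_lit 17) (nat_lit 1) (nat_lit 266) (nat_lit 265) (nat_lit 189))) (XT.nd (nat_lit 94) (nat_lit 168) (nat_lit 0) (XT.lf (nat_lit 84) (nat_lit 44003769) (nat_lit 0) (nat_lit 1548790982) (nat_lit 84) (nat_lit 1548790982) (nat_lit 15) (nat_lit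 3) (nat_lit 14) (nat_lit 1) (nat_lit 15) (nat_lit 1) (nat_lit 267) (nat_lit 265) (nat_lit 188)) (XT.lf (nat_lit 168) (nat_lit 2165247641) (nat_lit 0) (nat_lit 462300218) (nat_lit 84) (nat_lit 462300218) (nat_lit 14) (nat_lit 1) (nat_lit 12) (nat_lit 1) (nat_lit 13) (nat_lit 1) (nat_lit 268) (nat_lit 265) (nat_lit 187)))))) (XT.nd (nat_lit 658) (nat_lit 504) (nat_lit 0) (XT.nd (nat_lit 282) (nat_lit 252) (nat_lit 0) (XT.nd (nat_lit 94) (nat_lit 252) (nat_lit 0) (XT.lf (nat_lit 0) (nat_lit 579653118) (nat_lit 0) (nat_lit 1879544890) (nat_lit 168) (nat_lit 579653118) (nat_lit 12) (nat_lit 3) (nat_lit 12) (nat_lit 1) (nat_lit 14) (nat_lit 1) (nat_lit 269) (nat_lit 265) (nat_lit 186)) (XT.nd (nat_lit 94) (nat_lit 168) (nat_lit 0) (XT.lf (nat_lit 84) (nat_lit 170951563) (nat_lit 0) (nat_lit 1408943727) (nat_lit 84) (nat_lit 1408943727) (nat_lit 12) (nat_lit 3) (nat_lit 11) (nat_lit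 1) (nat_lit 12) (nat_lit 1) (nat_lit 270) (nat_lit 265) (nat_lit 185)) (XT.lf (nat_lit 168) (nat_lit 2179186607) (nat_lit 0) (nat_lit 380335534) (nat_lit 84) (nat_lit 380335534) (nat_lit 11) (nat_lit 1) (nat_lit 9) (nat_lit 1) (nat_lit 10) (nat_lit 1) (nat_lit 271) (nat_lit 265) (nat_lit 184)))) (XT.nd (nat_lit 188) (nat_lit 168) (nat_lit 0) (XT.nd (nat_lit 94) (nat_lit 84) (nat_lit 0) (XT.lf (nat_lit 0) (nat_lit 607318781) (nat_lit 0) (nat_lit 1676742958) (nat_lit 168) (nat_lit 607318781) (nat_lit 9) (nat_lit 3) (nat_lit 9) (nat_lit 1) (nat_lit 11) (nat_lit 1) (nat_lit 272) (nat_lit 265) (nat_lit 183)) (XT.lf (nat_lit 84) (nat_lit 268975182) (nat_lit 0) (nat_lit 1287474399) (nat_lit 84) (nat_lit 1287474399) (nat_lit 9) (nat_lit 3) (nat_lit 8) (nat_lit 1) (nat_lit 9) (nat_lit 1) (nat_lit 273) (nat_lit 265) (nat_lit 182))) (XT.nd (nat_lit 94) (nat_lit 0) (nat_lit 0) (XT.lf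 (nat_lit 168) (nat_lit 2171709847) (nat_lit 0) (nat_lit 312902985) (nat_lit 84) (nat_lit 312902985) (nat_lit 8) (nat_lit 1) (nat_lit 6) (nat_lit 1) (nat_lit 7) (nat_lit 1) (nat_lit 274) (nat_lit 265) (nat_lit 181)) (XT.lf (nat_lit 0) (nat_lit 623868117) (nat_lit 0) (nat_lit 1503686035) (nat_lit 168) (nat_lit 623868117) (nat_lit 6) (nat_lit 3) (nat_lit 6) (nat_lit 1) (nat_lit 8) (nat_lit 1) (nat_lit 275) (nat_lit 265) (nat_lit 180))))) (XT.nd (nat_lit 282) (nat_lit 252) (nat_lit 0) (XT.nd (nat_lit 94) (nat_lit 168) (nat_lit 0) (XT.lf (nat_lit 84) (nat_lit 343508365) (nat_lit 0) (nat_lit 1181430191) (nat_lit 84) (nat_lit 1181430191) (nat_lit 6) (nat_lit 3) (nat_lit 5) (nat_lit 1) (nat_lit 6) (nat_lit 1) (nat_lit 276) (nat_lit 265) (nat_lit 179)) (XT.nd (nat_lit 94) (nat_lit 0) (nat_lit 0) (XT.lf (nat_lit 168) (nat_lit 2147516430) (nat_lit 0) (nat_lit 257426060) (nat_lit 84)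 (nat_lit 257426060) (nat_lit 5) (nat_lit 1) (nat_lit 3) (nat_lit 1) (nat_lit 4) (nat_lit 1) (nat_lit 277) (nat_lit 265) (nat_lit 178)) (XT.lf (nat_lit 0) (nat_lit 631567799) (nat_lit 0) (nat_lit 1355396177) (nat_lit 168) (nat_lit 631567799) (nat_lit 3) (nat_lit 3) (nat_lit 3) (nat_lit 1) (nat_lit 5) (nat_lit 1) (nat_lit 278) (nat_lit 265) (nat_lit 177)))) (XT.nd (nat_lit 188) (nat_lit 0) (nat_lit 0) (XT.nd (nat_lit 94) (nat_lit 168) (nat_lit 0) (XT.lf (nat_lit 84) (nat_lit 399006912) (nat_lit 0) (nat_lit 1088367272) (nat_lit 84) (nat_lit 1088367272) (nat_lit 3) (nat_lit 3) (nat_lit 2) (nat_lit 1) (nat_lit 3) (nat_lit 1) (nat_lit 279) (nat_lit 265) (nat_lit 176)) (XT.lf (nat_lit 0) (nat_lit 3681110624) (nat_lit 0) (nat_lit 0) (nat_lit 0) (nat_lit 0) (nat_lit 0) (nat_lit 0) (nat_lit 1) (nat_lit 0) (nat_lit 1) (nat_lit 0) (nat_lit 280) (nat_lit 265) (nat_lit 175))) (XT.nd (nat_lit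 94) (nat_lit 0) (nat_lit 0) (XT.lf (nat_lit 0) (nat_lit 3678965877) (nat_lit 0) (nat_lit 0) (nat_lit 0) (nat_lit 0) (nat_lit 0) (nat_lit 0) (nat_lit 1) (nat_lit 0) (nat_lit 1) (nat_lit 0) (nat_lit 281) (nat_lit 265) (nat_lit 174)) (XT.lf (nat_lit 0) (nat_lit 3676923260) (nat_lit 0) (nat_lit 0) (nat_lit 0) (nat_lit 0) (nat_lit 0) (nat_lit 0) (nat_lit 1) (nat_lit 0) (nat_lit 1) (nat_lit 0) (nat_lit 282) (nat_lit 265) (nat_lit 173))))))))
noncomputable def ec79 : XT := (XT.nd (nat_lit 2538) (nat_lit 0) (nat_lit 0) (XT.nd (nat_lit 1222) (nat_lit 0) (nat_lit 0) (XT.nd (nat_lit 564) (nat_lit 0) (nat_lit 0) (XT.nd (nat_lit 282) (nat_lit 0) (nat_lit 0) (XT.nd (nat_lit 94) (nat_lit 0) (nat_lit 0) (XT.lf (nat_lit 0) (nat_lit 3674977911) (nat_lit 0) (nat_lit 0) (nat_lit 0) (nat_lit 0) (nat_lit 0) (nat_lit 0) (nat_lit 1) (nat_lit 0) (nat_lit 1) (nat_lit 0) (nat_lit 283) (nat_lit 265)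 (nat_lit 172)) (XT.nd (nat_lit 94) (nat_lit 0) (nat_lit 0) (XT.lf (nat_lit 0) (nat_lit 3673125198) (nat_lit 0) (nat_lit 0) (nat_lit 0) (nat_lit 0) (nat_lit 0) (nat_lit 0) (nat_lit 1) (nat_lit 0) (nat_lit 1) (nat_lit 0) (nat_lit 284) (nat_lit 265) (nat_lit 171)) (XT.lf (nat_lit 0) (nat_lit 3671360709) (nat_lit 0) (nat_lit 0) (nat_lit 0) (nat_lit 0) (nat_lit 0) (nat_lit 0) (nat_lit 1) (nat_lit 0) (nat_lit 1) (nat_lit 0) (nat_lit 285) (nat_lit 265) (nat_lit 170)))) (XT.nd (nat_lit 94) (nat_lit 0) (nat_lit 0) (XT.lf (nat_lit 0) (nat_lit 3669680243) (nat_lit 0) (nat_lit 0) (nat_lit 0) (nat_lit 0) (nat_lit 0) (nat_lit 0) (nat_lit 1) (nat_lit 0) (nat_lit 1) (nat_lit 0) (nat_lit 286) (nat_lit 265) (nat_lit 169)) (XT.nd (nat_lit 94) (nat_lit 0) (nat_lit 0) (XT.lf (nat_lit 0) (nat_lit 3668079800) (nat_lit 0) (nat_lit 0) (nat_lit 0) (nat_lit 0) (nat_lit 0) (nat_lit 0) (nat_lit 1) (nat_lit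 0) (nat_lit 1) (nat_lit 0) (nat_lit 287) (nat_lit 265) (nat_lit 168)) (XT.lf (nat_lit 0) (nat_lit 3666555568) (nat_lit 0) (nat_lit 0) (nat_lit 0) (nat_lit 0) (nat_lit 0) (nat_lit 0) (nat_lit 1) (nat_lit 0) (nat_lit 1) (nat_lit 0) (nat_lit 288) (nat_lit 265) (nat_lit 167))))) (XT.nd (nat_lit 282) (nat_lit 0) (nat_lit 0) (XT.nd (nat_lit 94) (nat_lit 0) (nat_lit 0) (XT.lf (nat_lit 0) (nat_lit 3665103919) (nat_lit 0) (nat_lit 0) (nat_lit 0) (nat_lit 0) (nat_lit 0) (nat_lit 0) (nat_lit 1) (nat_lit 0) (nat_lit 1) (nat_lit 0) (nat_lit 289) (nat_lit 265) (nat_lit 166)) (XT.nd (nat_lit 94) (nat_lit 0) (nat_lit 0) (XT.lf (nat_lit 0) (nat_lit 3663721395) (nat_lit 0) (nat_lit 0) (nat_lit 0) (nat_lit 0) (nat_lit 0) (nat_lit 0) (nat_lit 1) (nat_lit 0) (nat_lit 1) (nat_lit 0) (nat_lit 290) (nat_lit 265) (nat_lit 165)) (XT.lf (nat_lit 0) (nat_lit 3662404707) (nat_lit 0) (nat_lit 0) (nat_lit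 0) (nat_lit 0) (nat_lit 0) (nat_lit 0) (nat_lit 1) (nat_lit 0) (nat_lit 1) (nat_lit 0) (nat_lit 291) (nat_lit 265) (nat_lit 164)))) (XT.nd (nat_lit 188) (nat_lit 0) (nat_lit 0) (XT.nd (nat_lit 94) (nat_lit 0) (nat_lit 0) (XT.lf (nat_lit 0) (nat_lit 3661150717) (nat_lit 0) (nat_lit 0) (nat_lit 0) (nat_lit 0) (nat_lit 0) (nat_lit 0) (nat_lit 1) (nat_lit 0) (nat_lit 1) (nat_lit 0) (nat_lit 292) (nat_lit 265) (nat_lit 163)) (XT.lf (nat_lit 0) (nat_lit 3659956442) (nat_lit 0) (nat_lit 0) (nat_lit 0) (nat_lit 0) (nat_lit 0) (nat_lit 0) (nat_lit 1) (nat_lit 0) (nat_lit 1) (nat_lit 0) (nat_lit 293) (nat_lit 265) (nat_lit 162))) (XT.nd (nat_lit 94) (nat_lit 0) (nat_lit 0) (XT.lf (nat_lit 0) (nat_lit 3658819036) (nat_lit 0) (nat_lit 0) (nat_lit 0) (nat_lit 0) (nat_lit 0) (nat_lit 0) (nat_lit 1) (nat_lit 0) (nat_lit 1) (nat_lit 0) (nat_lit 294) (nat_lit 265) (nat_lit 161)) (XT.lf (nat_lit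 0) (nat_lit 3657735793) (nat_lit 0) (nat_lit 0) (nat_lit 0) (nat_lit 0) (nat_lit 0) (nat_lit 0) (nat_lit 1) (nat_lit 0) (nat_lit 1) (nat_lit 0) (nat_lit 295) (nat_lit 265) (nat_lit 160)))))) (XT.nd (nat_lit 658) (nat_lit 0) (nat_lit 0) (XT.nd (nat_lit 282) (nat_lit 0) (nat_lit 0) (XT.nd (nat_lit 94) (nat_lit 0) (nat_lit 0) (XT.lf (nat_lit 0) (nat_lit 3656704133) (nat_lit 0) (nat_lit 0) (nat_lit 0) (nat_lit 0) (nat_lit 0) (nat_lit 0) (nat_lit 1) (nat_lit 0) (nat_lit 1) (nat_lit 0) (nat_lit 296) (nat_lit 265) (nat_lit 159)) (XT.nd (nat_lit 94) (nat_lit 0) (nat_lit 0) (XT.lf (nat_lit 0) (nat_lit 3655721600) (nat_lit 0) (nat_lit 0) (nat_lit 0) (nat_lit 0) (nat_lit 0) (nat_lit 0) (nat_lit 1) (nat_lit 0) (nat_lit 1) (nat_lit 0) (nat_lit 297) (nat_lit 265) (nat_lit 158)) (XT.lf (nat_lit 0) (nat_lit 3654785854) (nat_lit 0) (nat_lit 0) (nat_lit 0) (nat_lit 0) (nat_lit 0) (nat_lit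 0) (nat_lit 1) (nat_lit 0) (nat_lit 1) (nat_lit 0) (nat_lit 298) (nat_lit 265) (nat_lit 157)))) (XT.nd (nat_lit 188) (nat_lit 0) (nat_lit 0) (XT.nd (nat_lit 94) (nat_lit 0) (nat_lit 0) (XT.lf (nat_lit 0) (nat_lit 3653894667) (nat_lit 0) (nat_lit 0) (nat_lit 0) (nat_lit 0) (nat_lit 0) (nat_lit 0) (nat_lit 1) (nat_lit 0) (nat_lit 1) (nat_lit 0) (nat_lit 299) (nat_lit 265) (nat_lit 156)) (XT.lf (nat_lit 0) (nat_lit 3653045917) (nat_lit 0) (nat_lit 0) (nat_lit 0) (nat_lit 0) (nat_lit 0) (nat_lit 0) (nat_lit 1) (nat_lit 0) (nat_lit 1) (nat_lit 0) (nat_lit 300) (nat_lit 265) (nat_lit 155))) (XT.nd (nat_lit 94) (nat_lit 0) (nat_lit 0) (XT.lf (nat_lit 0) (nat_lit 3652237585) (nat_lit 0) (nat_lit 0) (nat_lit 0) (nat_lit 0) (nat_lit 0) (nat_lit 0) (nat_lit 1) (nat_lit 0) (nat_lit 1) (nat_lit 0) (nat_lit 301) (nat_lit 265) (nat_lit 154)) (XT.lf (nat_lit 0) (nat_lit 3651467744) (nat_lit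 0) (nat_lit 0) (nat_lit 0) (nat_lit 0) (nat_lit 0) (nat_lit 0) (nat_lit 1) (nat_lit 0) (nat_lit 1) (nat_lit 0) (nat_lit 302) (nat_lit 265) (nat_lit 153))))) (XT.nd (nat_lit 282) (nat_lit 0) (nat_lit 0) (XT.nd (nat_lit 94) (nat_lit 0) (nat_lit 0) (XT.lf (nat_lit 0) (nat_lit 3650734562) (nat_lit 0) (nat_lit 0) (nat_lit 0) (nat_lit 0) (nat_lit 0) (nat_lit 0) (nat_lit 1) (nat_lit 0) (nat_lit 1) (nat_lit 0) (nat_lit 303) (nat_lit 265) (nat_lit 152)) (XT.nd (nat_lit 94) (nat_lit 0) (nat_lit 0) (XT.lf (nat_lit 0) (nat_lit 3650036294) (nat_lit 0) (nat_lit 0) (nat_lit 0) (nat_lit 0) (nat_lit 0) (nat_lit 0) (nat_lit 1) (nat_lit 0) (nat_lit 1) (nat_lit 0) (nat_lit 304) (nat_lit 265) (nat_lit 151)) (XT.lf (nat_lit 0) (nat_lit 3649371277) (nat_lit 0) (nat_lit 0) (nat_lit 0) (nat_lit 0) (nat_lit 0) (nat_lit 0) (nat_lit 1) (nat_lit 0) (nat_lit 1) (nat_lit 0) (nat_lit 305) (nat_lit 265)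 (nat_lit 150)))) (XT.nd (nat_lit 188) (nat_lit 0) (nat_lit 0) (XT.nd (nat_lit 94) (nat_lit 0) (nat_lit 0) (XT.lf (nat_lit 0) (nat_lit 3648737927) (nat_lit 0) (nat_lit 0) (nat_lit 0) (nat_lit 0) (nat_lit 0) (nat_lit 0) (nat_lit 1) (nat_lit 0) (nat_lit 1) (nat_lit 0) (nat_lit 306) (nat_lit 265) (nat_lit 149)) (XT.lf (nat_lit 0) (nat_lit 3648134737) (nat_lit 0) (nat_lit 0) (nat_lit 0) (nat_lit 0) (nat_lit 0) (nat_lit 0) (nat_lit 1) (nat_lit 0) (nat_lit 1) (nat_lit 0) (nat_lit 307) (nat_lit 265) (nat_lit 148))) (XT.nd (nat_lit 94) (nat_lit 0) (nat_lit 0) (XT.lf (nat_lit 0) (nat_lit 3647560270) (nat_lit 0) (nat_lit 0) (nat_lit 0) (nat_lit 0) (nat_lit 0) (nat_lit 0) (nat_lit 1) (nat_lit 0) (nat_lit 1) (nat_lit 0) (nat_lit 308) (nat_lit 265) (nat_lit 147)) (XT.lf (nat_lit 0) (nat_lit 3647013158) (nat_lit 0) (nat_lit 0) (nat_lit 0) (nat_lit 0) (nat_lit 0) (nat_lit 0) (nat_lit 1)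 (nat_lit 0) (nat_lit 1) (nat_lit 0) (nat_lit 309) (nat_lit 265) (nat_lit 146))))))) (XT.nd (nat_lit 34216) (nat_lit 0) (nat_lit 8568) (XT.nd (nat_lit 658) (nat_lit 0) (nat_lit 0) (XT.nd (nat_lit 282) (nat_lit 0) (nat_lit 0) (XT.nd (nat_lit 94) (nat_lit 0) (nat_lit 0) (XT.lf (nat_lit 0) (nat_lit 3646492100) (nat_lit 0) (nat_lit 0) (nat_lit 0) (nat_lit 0) (nat_lit 0) (nat_lit 0) (nat_lit 1) (nat_lit 0) (nat_lit 1) (nat_lit 0) (nat_lit 310) (nat_lit 265) (nat_lit 145)) (XT.nd (nat_lit 94) (nat_lit 0) (nat_lit 0) (XT.lf (nat_lit 0) (nat_lit 3645995854) (nat_lit 0) (nat_lit 0) (nat_lit 0) (nat_lit 0) (nat_lit 0) (nat_lit 0) (nat_lit 1) (nat_lit 0) (nat_lit 1) (nat_lit 0) (nat_lit 311) (nat_lit 265) (nat_lit 144)) (XT.lf (nat_lit 0) (nat_lit 3645523238) (nat_lit 0) (nat_lit 0) (nat_lit 0) (nat_lit 0) (nat_lit 0) (nat_lit 0) (nat_lit 1) (nat_lit 0) (nat_lit 1) (nat_lit 0) (nat_lit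 312) (nat_lit 265) (nat_lit 143)))) (XT.nd (nat_lit 188) (nat_lit 0) (nat_lit 0) (XT.nd (nat_lit 94) (nat_lit 0) (nat_lit 0) (XT.lf (nat_lit 0) (nat_lit 3645073128) (nat_lit 0) (nat_lit 0) (nat_lit 0) (nat_lit 0) (nat_lit 0) (nat_lit 0) (nat_lit 1) (nat_lit 0) (nat_lit 1) (nat_lit 0) (nat_lit 313) (nat_lit 265) (nat_lit 142)) (XT.lf (nat_lit 0) (nat_lit 3644644452) (nat_lit 0) (nat_lit 0) (nat_lit 0) (nat_lit 0) (nat_lit 0) (nat_lit 0) (nat_lit 1) (nat_lit 0) (nat_lit 1) (nat_lit 0) (nat_lit 314) (nat_lit 265) (nat_lit 141))) (XT.nd (nat_lit 94) (nat_lit 0) (nat_lit 0) (XT.lf (nat_lit 0) (nat_lit 3644236189) (nat_lit 0) (nat_lit 0) (nat_lit 0) (nat_lit 0) (nat_lit 0) (nat_lit 0) (nat_lit 1) (nat_lit 0) (nat_lit 1) (nat_lit 0) (nat_lit 315) (nat_lit 265) (nat_lit 140)) (XT.lf (nat_lit 0) (nat_lit 3643847368) (nat_lit 0) (nat_lit 0) (nat_lit 0) (nat_lit 0) (nat_lit 0) (nat_lit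 0) (nat_lit 1) (nat_lit 0) (nat_lit 1) (nat_lit 0) (nat_lit 316) (nat_lit 265) (nat_lit 139))))) (XT.nd (nat_lit 33182) (nat_lit 0) (nat_lit 10752) (XT.nd (nat_lit 94) (nat_lit 0) (nat_lit 0) (XT.lf (nat_lit 0) (nat_lit 3643477061) (nat_lit 0) (nat_lit 0) (nat_lit 0) (nat_lit 0) (nat_lit 0) (nat_lit 0) (nat_lit 1) (nat_lit 0) (nat_lit 1) (nat_lit 0) (nat_lit 317) (nat_lit 265) (nat_lit 138)) (XT.nd (nat_lit 32994) (nat_lit 0) (nat_lit 10752) (XT.lf (nat_lit 0) (nat_lit 3643124388) (nat_lit 0) (nat_lit 0) (nat_lit 0) (nat_lit 0) (nat_lit 0) (nat_lit 0) (nat_lit 1) (nat_lit 0) (nat_lit 1) (nat_lit 0) (nat_lit 318) (nat_lit 265) (nat_lit 137)) (XT.lf (nat_lit 924) (nat_lit 1910607396) (nat_lit 0) (nat_lit 3392279041) (nat_lit 924) (nat_lit 1910607396) (nat_lit 139) (nat_lit 1) (nat_lit 128) (nat_lit 0) (nat_lit 139) (nat_lit 0) (nat_lit 188) (nat_lit 266) (nat_lit 266)))) (XT.nd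 (nat_lit 188) (nat_lit 0) (nat_lit 84) (XT.nd (nat_lit 94) (nat_lit 0) (nat_lit 84) (XT.lf (nat_lit 924) (nat_lit 7405752800) (nat_lit 84) (nat_lit 3337564863) (nat_lit 0) (nat_lit 3337564863) (nat_lit 139) (nat_lit 1) (nat_lit 129) (nat_lit 1) (nat_lit 128) (nat_lit 0) (nat_lit 189) (nat_lit 266) (nat_lit 265)) (XT.lf (nat_lit 924) (nat_lit 3529470276) (nat_lit 0) (nat_lit 6686536800) (nat_lit 840) (nat_lit 3529470276) (nat_lit 140) (nat_lit 1) (nat_lit 129) (nat_lit 1) (nat_lit 139) (nat_lit 1) (nat_lit 190) (nat_lit 266) (nat_lit 264))) (XT.nd (nat_lit 94) (nat_lit 0) (nat_lit 84) (XT.lf (nat_lit 924) (nat_lit 6620795806) (nat_lit 84) (nat_lit 3400056229) (nat_lit 0) (nat_lit 3400056229) (nat_lit 140) (nat_lit 1) (nat_lit 130) (nat_lit 1) (nat_lit 129) (nat_lit 1) (nat_lit 191) (nat_lit 266) (nat_lit 263)) (XT.lf (nat_lit 924) (nat_lit 3047488729) (nat_lit 0) (nat_lit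 7011648930) (nat_lit 840) (nat_lit 3047488729) (nat_lit 141) (nat_lit 1) (nat_lit 130) (nat_lit 1) (nat_lit 140) (nat_lit 1) (nat_lit 192) (nat_lit 266) (nat_lit 262)))))) (XT.nd (nat_lit 658) (nat_lit 1764) (nat_lit 0) (XT.nd (nat_lit 282) (nat_lit 588) (nat_lit 0) (XT.nd (nat_lit 94) (nat_lit 0) (nat_lit 84) (XT.lf (nat_lit 924) (nat_lit 5481106968) (nat_lit 84) (nat_lit 3660409028) (nat_lit 0) (nat_lit 3660409028) (nat_lit 141) (nat_lit 1) (nat_lit 131) (nat_lit 1) (nat_lit 130) (nat_lit 1) (nat_lit 193) (nat_lit 266) (nat_lit 261)) (XT.nd (nat_lit 94) (nat_lit 0) (nat_lit 0) (XT.lf (nat_lit 924) (nat_lit 2403307097) (nat_lit 0) (nat_lit 7700840284) (nat_lit 840) (nat_lit 2403307097) (nat_lit 142) (nat_lit 1) (nat_lit 131) (nat_lit 1) (nat_lit 141) (nat_lit 1) (nat_lit 194) (nat_lit 266) (nat_lit 260)) (XT.lf (nat_lit 924) (nat_lit 4040033022) (nat_lit 84) (nat_lit 4090529346)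 (nat_lit 0) (nat_lit 4090529346) (nat_lit 142) (nat_lit 1) (nat_lit 132) (nat_lit 1) (nat_lit 131) (nat_lit 1) (nat_lit 195) (nat_lit 266) (nat_lit 259)))) (XT.nd (nat_lit 188) (nat_lit 756) (nat_lit 0) (XT.nd (nat_lit 94) (nat_lit 0) (nat_lit 0) (XT.lf (nat_lit 924) (nat_lit 1621862832) (nat_lit 0) (nat_lit 8701485796) (nat_lit 840) (nat_lit 1621862832) (nat_lit 143) (nat_lit 1) (nat_lit 132) (nat_lit 1) (nat_lit 142) (nat_lit 1) (nat_lit 196) (nat_lit 266) (nat_lit 258)) (XT.lf (nat_lit 924) (nat_lit 2344991161) (nat_lit 84) (nat_lit 4665397016) (nat_lit 0) (nat_lit 4665397016) (nat_lit 143) (nat_lit 1) (nat_lit 133) (nat_lit 1) (nat_lit 132) (nat_lit 1) (nat_lit 197) (nat_lit 266) (nat_lit 257))) (XT.nd (nat_lit 94) (nat_lit 840) (nat_lit 0) (XT.lf (nat_lit 84) (nat_lit 725305530) (nat_lit 0) (nat_lit 9966747094) (nat_lit 840) (nat_lit 725305530) (nat_lit 134) (nat_lit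 1) (nat_lit 133) (nat_lit 1) (nat_lit 143) (nat_lit 1) (nat_lit 198) (nat_lit 266) (nat_lit 256)) (XT.lf (nat_lit 924) (nat_lit 438066503) (nat_lit 0) (nat_lit 5362757855) (nat_lit 840) (nat_lit 5362757855) (nat_lit 134) (nat_lit 1) (nat_lit 123) (nat_lit 1) (nat_lit 133) (nat_lit 1) (nat_lit 199) (nat_lit 266) (nat_lit 255))))) (XT.nd (nat_lit 282) (nat_lit 756) (nat_lit 0) (XT.nd (nat_lit 94) (nat_lit 420) (nat_lit 0) (XT.lf (nat_lit 588) (nat_lit 10395869818) (nat_lit 0) (nat_lit 262419571) (nat_lit 504) (nat_lit 262419571) (nat_lit 123) (nat_lit 1) (nat_lit 116) (nat_lit 1) (nat_lit 122) (nat_lit 1) (nat_lit 200) (nat_lit 266) (nat_lit 254)) (XT.nd (nat_lit 94) (nat_lit 420) (nat_lit 0) (XT.lf (nat_lit 84) (nat_lit 4545056191) (nat_lit 0) (nat_lit 1590847600) (nat_lit 588) (nat_lit 4545056191) (nat_lit 117) (nat_lit 1) (nat_lit 116) (nat_lit 1) (nat_lit 123) (nat_lit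 1) (nat_lit 201) (nat_lit 266) (nat_lit 253)) (XT.lf (nat_lit 504) (nat_lit 7820875040) (nat_lit 0) (nat_lit 1315265366) (nat_lit 420) (nat_lit 1315265366) (nat_lit 117) (nat_lit 1) (nat_lit 111) (nat_lit 1) (nat_lit 116) (nat_lit 1) (nat_lit 202) (nat_lit 266) (nat_lit 252)))) (XT.nd (nat_lit 188) (nat_lit 336) (nat_lit 0) (XT.nd (nat_lit 94) (nat_lit 420) (nat_lit 0) (XT.lf (nat_lit 84) (nat_lit 3241933252) (nat_lit 0) (nat_lit 3742810921) (nat_lit 504) (nat_lit 3241933252) (nat_lit 112) (nat_lit 1) (nat_lit 111) (nat_lit 1) (nat_lit 117) (nat_lit 1) (nat_lit 203) (nat_lit 266) (nat_lit 251)) (XT.lf (nat_lit 504) (nat_lit 5150157124) (nat_lit 0) (nat_lit 2429809320) (nat_lit 420) (nat_lit 2429809320) (nat_lit 112) (nat_lit 1) (nat_lit 106) (nat_lit 1) (nat_lit 111) (nat_lit 1) (nat_lit 204) (nat_lit 266) (nat_lit 250))) (XT.nd (nat_lit 94) (nat_lit 336) (nat_lit 0) (XT.lf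 (nat_lit 84) (nat_lit 1897764454) (nat_lit 0) (nat_lit 6003653428) (nat_lit 504) (nat_lit 1897764454) (nat_lit 107) (nat_lit 1) (nat_lit 106) (nat_lit 1) (nat_lit 112) (nat_lit 1) (nat_lit 205) (nat_lit 266) (nat_lit 249)) (XT.lf (nat_lit 420) (nat_lit 2408573679) (nat_lit 0) (nat_lit 3592716193) (nat_lit 336) (nat_lit 3592716193) (nat_lit 107) (nat_lit 1) (nat_lit 102) (nat_lit 1) (nat_lit 106) (nat_lit 1) (nat_lit 206) (nat_lit 266) (nat_lit 248))))))))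
noncomputable def ec80 : XT := (XT.nd (nat_lit 2538) (nat_lit 2688) (nat_lit 0) (XT.nd (nat_lit 1222) (nat_lit 1764) (nat_lit 0) (XT.nd (nat_lit 564) (nat_lit 1512) (nat_lit 0) (XT.nd (nat_lit 282) (nat_lit 336) (nat_lit 0) (XT.nd (nat_lit 94) (nat_lit 756) (nat_lit 0) (XT.lf (nat_lit 84) (nat_lit 524089561) (nat_lit 0) (nat_lit 8348540742) (nat_lit 420) (nat_lit 524089561) (nat_lit 103) (nat_lit 1) (nat_lit 102) (nat_lit 1) (nat_lit 107) (nat_lit 1) (nat_lit 207) (nat_lit 266) (nat_lit 247)) (XT.nd (nat_lit 94) (nat_lit 336) (nat_lit 0) (XT.lf (nat_lit 84) (nat_lit 4416129239) (nat_lit 0) (nat_lit 369859402) (nat_lit 420) (nat_lit 4416129239) (nat_lit 98) (nat_lit 1) (nat_lit 97) (nat_lit 1) (nat_lit 102) (nat_lit 1) (nat_lit 208) (nat_lit 266) (nat_lit 246)) (XT.lf (nat_lit 420) (nat_lit 7304974192) (nat_lit 0) (nat_lit 854976312) (nat_lit 336) (nat_lit 854976312) (nat_lit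 98) (nat_lit 1) (nat_lit 93) (nat_lit 1) (nat_lit 97) (nat_lit 1) (nat_lit 209) (nat_lit 266) (nat_lit 245)))) (XT.nd (nat_lit 94) (nat_lit 336) (nat_lit 0) (XT.lf (nat_lit 84) (nat_lit 2865332027) (nat_lit 0) (nat_lit 3100283003) (nat_lit 420) (nat_lit 2865332027) (nat_lit 94) (nat_lit 1) (nat_lit 93) (nat_lit 1) (nat_lit 98) (nat_lit 1) (nat_lit 210) (nat_lit 266) (nat_lit 244)) (XT.nd (nat_lit 94) (nat_lit 0) (nat_lit 0) (XT.lf (nat_lit 420) (nat_lit 4181316501) (nat_lit 0) (nat_lit 2236015284) (nat_lit 336) (nat_lit 2236015284) (nat_lit 94) (nat_lit 1) (nat_lit 89) (nat_lit 1) (nat_lit 93) (nat_lit 1) (nat_lit 211) (nat_lit 266) (nat_lit 243)) (XT.lf (nat_lit 84) (nat_lit 1318600615) (nat_lit 0) (nat_lit 5843738890) (nat_lit 420) (nat_lit 1318600615) (nat_lit 90) (nat_lit 1) (nat_lit 89) (nat_lit 1) (nat_lit 94) (nat_lit 1) (nat_lit 212) (nat_lit 266) (nat_lit 242)))))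 (XT.nd (nat_lit 282) (nat_lit 840) (nat_lit 0) (XT.nd (nat_lit 94) (nat_lit 420) (nat_lit 0) (XT.lf (nat_lit 336) (nat_lit 1072361405) (nat_lit 0) (nat_lit 3619946671) (nat_lit 252) (nat_lit 3619946671) (nat_lit 90) (nat_lit 1) (nat_lit 86) (nat_lit 1) (nat_lit 89) (nat_lit 1) (nat_lit 213) (nat_lit 266) (nat_lit 241)) (XT.nd (nat_lit 94) (nat_lit 0) (nat_lit 0) (XT.lf (nat_lit 420) (nat_lit 7721562060) (nat_lit 0) (nat_lit 214258531) (nat_lit 336) (nat_lit 214258531) (nat_lit 86) (nat_lit 1) (nat_lit 81) (nat_lit 1) (nat_lit 85) (nat_lit 1) (nat_lit 214) (nat_lit 266) (nat_lit 240)) (XT.lf (nat_lit 84) (nat_lit 3021504318) (nat_lit 0) (nat_lit 1945792482) (nat_lit 420) (nat_lit 3021504318) (nat_lit 82) (nat_lit 1) (nat_lit 81) (nat_lit 1) (nat_lit 86) (nat_lit 1) (nat_lit 215) (nat_lit 266) (nat_lit 239)))) (XT.nd (nat_lit 188) (nat_lit 588) (nat_lit 0) (XT.nd (nat_lit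 94) (nat_lit 0) (nat_lit 0) (XT.lf (nat_lit 336) (nat_lit 4413002580) (nat_lit 0) (nat_lit 1710352988) (nat_lit 252) (nat_lit 1710352988) (nat_lit 82) (nat_lit 1) (nat_lit 78) (nat_lit 1) (nat_lit 81) (nat_lit 1) (nat_lit 216) (nat_lit 266) (nat_lit 238)) (XT.lf (nat_lit 84) (nat_lit 1394135777) (nat_lit 0) (nat_lit 4894284833) (nat_lit 336) (nat_lit 1394135777) (nat_lit 79) (nat_lit 1) (nat_lit 78) (nat_lit 1) (nat_lit 82) (nat_lit 1) (nat_lit 217) (nat_lit 266) (nat_lit 237))) (XT.nd (nat_lit 94) (nat_lit 336) (nat_lit 0) (XT.lf (nat_lit 336) (nat_lit 1161968595) (nat_lit 0) (nat_lit 3186437147) (nat_lit 252) (nat_lit 3186437147) (nat_lit 79) (nat_lit 1) (nat_lit 75) (nat_lit 1) (nat_lit 78) (nat_lit 1) (nat_lit 218) (nat_lit 266) (nat_lit 236)) (XT.lf (nat_lit 336) (nat_lit 6993224523) (nat_lit 0) (nat_lit 199696306) (nat_lit 252) (nat_lit 199696306) (nat_lit 75) (nat_lit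 1) (nat_lit 71) (nat_lit 1) (nat_lit 74) (nat_lit 1) (nat_lit 219) (nat_lit 266) (nat_lit 235)))))) (XT.nd (nat_lit 658) (nat_lit 840) (nat_lit 0) (XT.nd (nat_lit 282) (nat_lit 672) (nat_lit 0) (XT.nd (nat_lit 94) (nat_lit 252) (nat_lit 0) (XT.lf (nat_lit 84) (nat_lit 2645336563) (nat_lit 0) (nat_lit 1960167831) (nat_lit 336) (nat_lit 2645336563) (nat_lit 72) (nat_lit 1) (nat_lit 71) (nat_lit 1) (nat_lit 75) (nat_lit 1) (nat_lit 220) (nat_lit 266) (nat_lit 234)) (XT.nd (nat_lit 94) (nat_lit 0) (nat_lit 0) (XT.lf (nat_lit 336) (nat_lit 3637579997) (nat_lit 0) (nat_lit 1738365263) (nat_lit 252) (nat_lit 1738365263) (nat_lit 72) (nat_lit 1) (nat_lit 68) (nat_lit 1) (nat_lit 71) (nat_lit 1) (nat_lit 221) (nat_lit 266) (nat_lit 233)) (XT.lf (nat_lit 84) (nat_lit 1001786564) (nat_lit 0) (nat_lit 4977868768) (nat_lit 336) (nat_lit 1001786564) (nat_lit 69) (nat_lit 1) (nat_lit 68)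 (nat_lit 1) (nat_lit 72) (nat_lit 1) (nat_lit 222) (nat_lit 266) (nat_lit 232)))) (XT.nd (nat_lit 188) (nat_lit 168) (nat_lit 0) (XT.nd (nat_lit 94) (nat_lit 336) (nat_lit 0) (XT.lf (nat_lit 252) (nat_lit 367087906) (nat_lit 0) (nat_lit 3241994597) (nat_lit 168) (nat_lit 3241994597) (nat_lit 69) (nat_lit 1) (nat_lit 66) (nat_lit 1) (nat_lit 68) (nat_lit 1) (nat_lit 223) (nat_lit 266) (nat_lit 231)) (XT.lf (nat_lit 336) (nat_lit 5546575170) (nat_lit 0) (nat_lit 589086486) (nat_lit 252) (nat_lit 589086486) (nat_lit 66) (nat_lit 1) (nat_lit 62) (nat_lit 1) (nat_lit 65) (nat_lit 1) (nat_lit 224) (nat_lit 266) (nat_lit 230))) (XT.nd (nat_lit 94) (nat_lit 168) (nat_lit 0) (XT.lf (nat_lit 84) (nat_lit 1937287047) (nat_lit 0) (nat_lit 2725257959) (nat_lit 336) (nat_lit 1937287047) (nat_lit 63) (nat_lit 1) (nat_lit 62) (nat_lit 1) (nat_lit 66) (nat_lit 1) (nat_lit 225) (nat_lit 266)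 (nat_lit 229)) (XT.lf (nat_lit 252) (nat_lit 2238236343) (nat_lit 0) (nat_lit 2120267436) (nat_lit 168) (nat_lit 2120267436) (nat_lit 63) (nat_lit 1) (nat_lit 60) (nat_lit 1) (nat_lit 62) (nat_lit 1) (nat_lit 226) (nat_lit 266) (nat_lit 228))))) (XT.nd (nat_lit 282) (nat_lit 420) (nat_lit 0) (XT.nd (nat_lit 94) (nat_lit 420) (nat_lit 0) (XT.lf (nat_lit 84) (nat_lit 321563519) (nat_lit 0) (nat_lit 5718600885) (nat_lit 252) (nat_lit 321563519) (nat_lit 61) (nat_lit 1) (nat_lit 60) (nat_lit 1) (nat_lit 63) (nat_lit 1) (nat_lit 227) (nat_lit 266) (nat_lit 227)) (XT.nd (nat_lit 94) (nat_lit 168) (nat_lit 0) (XT.lf (nat_lit 84) (nat_lit 2653920144) (nat_lit 0) (nat_lit 937269804) (nat_lit 252) (nat_lit 2653920144) (nat_lit 58) (nat_lit 1) (nat_lit 57) (nat_lit 1) (nat_lit 60) (nat_lit 1) (nat_lit 228) (nat_lit 266) (nat_lit 226)) (XT.lf (nat_lit 252) (nat_lit 3685433260) (nat_lit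 0) (nat_lit 1223463989) (nat_lit 168) (nat_lit 1223463989) (nat_lit 58) (nat_lit 1) (nat_lit 55) (nat_lit 1) (nat_lit 57) (nat_lit 1) (nat_lit 229) (nat_lit 266) (nat_lit 225)))) (XT.nd (nat_lit 188) (nat_lit 252) (nat_lit 0) (XT.nd (nat_lit 94) (nat_lit 168) (nat_lit 0) (XT.lf (nat_lit 84) (nat_lit 1039933385) (nat_lit 0) (nat_lit 3942237609) (nat_lit 252) (nat_lit 1039933385) (nat_lit 56) (nat_lit 1) (nat_lit 55) (nat_lit 1) (nat_lit 58) (nat_lit 1) (nat_lit 230) (nat_lit 266) (nat_lit 224)) (XT.lf (nat_lit 252) (nat_lit 487171349) (nat_lit 0) (nat_lit 2713449332) (nat_lit 168) (nat_lit 2713449332) (nat_lit 56) (nat_lit 1) (nat_lit 53) (nat_lit 1) (nat_lit 55) (nat_lit 1) (nat_lit 231) (nat_lit 266) (nat_lit 223))) (XT.nd (nat_lit 94) (nat_lit 0) (nat_lit 0) (XT.lf (nat_lit 252) (nat_lit 4788234759) (nat_lit 0) (nat_lit 510465634) (nat_lit 168) (nat_lit 510465634) (nat_lit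 53) (nat_lit 1) (nat_lit 50) (nat_lit 1) (nat_lit 52) (nat_lit 1) (nat_lit 232) (nat_lit 266) (nat_lit 222)) (XT.lf (nat_lit 84) (nat_lit 1594015085) (nat_lit 0) (nat_lit 2517127216) (nat_lit 252) (nat_lit 1594015085) (nat_lit 51) (nat_lit 1) (nat_lit 50) (nat_lit 1) (nat_lit 53) (nat_lit 1) (nat_lit 233) (nat_lit 266) (nat_lit 221))))))) (XT.nd (nat_lit 1222) (nat_lit 1176) (nat_lit 0) (XT.nd (nat_lit 564) (nat_lit 840) (nat_lit 0) (XT.nd (nat_lit 282) (nat_lit 336) (nat_lit 0) (XT.nd (nat_lit 94) (nat_lit 168) (nat_lit 0) (XT.lf (nat_lit 252) (nat_lit 1623426974) (nat_lit 0) (nat_lit 1990370643) (nat_lit 168) (nat_lit 1990370643) (nat_lit 51) (nat_lit 1) (nat_lit 48) (nat_lit 1) (nat_lit 50) (nat_lit 1) (nat_lit 234) (nat_lit 266) (nat_lit 220)) (XT.nd (nat_lit 94) (nat_lit 168) (nat_lit 0) (XT.lf (nat_lit 84) (nat_lit 53357567) (nat_lit 0) (nat_lit 5400005693) (nat_lit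 252) (nat_lit 53357567) (nat_lit 49) (nat_lit 1) (nat_lit 48) (nat_lit 1) (nat_lit 51) (nat_lit 1) (nat_lit 235) (nat_lit 266) (nat_lit 219)) (XT.lf (nat_lit 84) (nat_lit 2014694742) (nat_lit 0) (nat_lit 1379264484) (nat_lit 168) (nat_lit 2014694742) (nat_lit 47) (nat_lit 1) (nat_lit 46) (nat_lit 1) (nat_lit 48) (nat_lit 1) (nat_lit 236) (nat_lit 266) (nat_lit 218)))) (XT.nd (nat_lit 94) (nat_lit 168) (nat_lit 0) (XT.lf (nat_lit 252) (nat_lit 2500006816) (nat_lit 0) (nat_lit 1407015389) (nat_lit 168) (nat_lit 1407015389) (nat_lit 47) (nat_lit 1) (nat_lit 44) (nat_lit 1) (nat_lit 46) (nat_lit 1) (nat_lit 237) (nat_lit 266) (nat_lit 217)) (XT.nd (nat_lit 94) (nat_lit 168) (nat_lit 0) (XT.lf (nat_lit 84) (nat_lit 501234088) (nat_lit 0) (nat_lit 4219506981) (nat_lit 252) (nat_lit 501234088) (nat_lit 45) (nat_lit 1) (nat_lit 44) (nat_lit 1) (nat_lit 47) (nat_lit 1) (nat_lit 238)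 (nat_lit 266) (nat_lit 216)) (XT.lf (nat_lit 84) (nat_lit 2327298718) (nat_lit 0) (nat_lit 476074490) (nat_lit 168) (nat_lit 2327298718) (nat_lit 43) (nat_lit 1) (nat_lit 42) (nat_lit 1) (nat_lit 44) (nat_lit 1) (nat_lit 239) (nat_lit 266) (nat_lit 215))))) (XT.nd (nat_lit 282) (nat_lit 588) (nat_lit 0) (XT.nd (nat_lit 94) (nat_lit 84) (nat_lit 0) (XT.lf (nat_lit 252) (nat_lit 3165723154) (nat_lit 0) (nat_lit 938062219) (nat_lit 168) (nat_lit 938062219) (nat_lit 43) (nat_lit 1) (nat_lit 40) (nat_lit 1) (nat_lit 42) (nat_lit 1) (nat_lit 240) (nat_lit 266) (nat_lit 214)) (XT.nd (nat_lit 94) (nat_lit 84) (nat_lit 0) (XT.lf (nat_lit 84) (nat_lit 847925273) (nat_lit 0) (nat_lit 3258931153) (nat_lit 252) (nat_lit 847925273) (nat_lit 41) (nat_lit 1) (nat_lit 40) (nat_lit 1) (nat_lit 43) (nat_lit 1) (nat_lit 241) (nat_lit 266) (nat_lit 213)) (XT.lf (nat_lit 168) (nat_lit 243408467)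 (nat_lit 0) (nat_lit 2312975157) (nat_lit 84) (nat_lit 2312975157) (nat_lit 41) (nat_lit 1) (nat_lit 39) (nat_lit 1) (nat_lit 40) (nat_lit 1) (nat_lit 242) (nat_lit 266) (nat_lit 212)))) (XT.nd (nat_lit 188) (nat_lit 336) (nat_lit 0) (XT.nd (nat_lit 94) (nat_lit 0) (nat_lit 0) (XT.lf (nat_lit 252) (nat_lit 3660601949) (nat_lit 0) (nat_lit 562705325) (nat_lit 168) (nat_lit 562705325) (nat_lit 39) (nat_lit 1) (nat_lit 36) (nat_lit 1) (nat_lit 38) (nat_lit 1) (nat_lit 243) (nat_lit 266) (nat_lit 211)) (XT.lf (nat_lit 84) (nat_lit 1112408076) (nat_lit 0) (nat_lit 2478780551) (nat_lit 252) (nat_lit 1112408076) (nat_lit 37) (nat_lit 1) (nat_lit 36) (nat_lit 1) (nat_lit 39) (nat_lit 1) (nat_lit 244) (nat_lit 266) (nat_lit 210))) (XT.nd (nat_lit 94) (nat_lit 252) (nat_lit 0) (XT.lf (nat_lit 168) (nat_lit 817420778) (nat_lit 0) (nat_lit 1902890386) (nat_lit 84) (nat_lit 1902890386)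 (nat_lit 37) (nat_lit 1) (nat_lit 35) (nat_lit 1) (nat_lit 36) (nat_lit 1) (nat_lit 245) (nat_lit 266) (nat_lit 209)) (XT.lf (nat_lit 252) (nat_lit 4017446927) (nat_lit 0) (nat_lit 263852602) (nat_lit 168) (nat_lit 263852602) (nat_lit 35) (nat_lit 1) (nat_lit 32) (nat_lit 1) (nat_lit 34) (nat_lit 1) (nat_lit 246) (nat_lit 266) (nat_lit 208)))))) (XT.nd (nat_lit 658) (nat_lit 588) (nat_lit 0) (XT.nd (nat_lit 282) (nat_lit 252) (nat_lit 0) (XT.nd (nat_lit 94) (nat_lit 336) (nat_lit 0) (XT.lf (nat_lit 84) (nat_lit 1310245502) (nat_lit 0) (nat_lit 1846584443) (nat_lit 252) (nat_lit 1310245502) (nat_lit 33) (nat_lit 1) (nat_lit 32) (nat_lit 1) (nat_lit 35) (nat_lit 1) (nat_lit 247) (nat_lit 266) (nat_lit 207)) (XT.nd (nat_lit 94) (nat_lit 252) (nat_lit 0) (XT.lf (nat_lit 168) (nat_lit 1260273172) (nat_lit 0) (nat_lit 1565512630) (nat_lit 84) (nat_lit 1565512630) (nat_lit 33)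 (nat_lit 1) (nat_lit 31) (nat_lit 1) (nat_lit 32) (nat_lit 1) (nat_lit 248) (nat_lit 266) (nat_lit 206)) (XT.lf (nat_lit 252) (nat_lit 4263126047) (nat_lit 0) (nat_lit 27466035) (nat_lit 168) (nat_lit 27466035) (nat_lit 31) (nat_lit 1) (nat_lit 28) (nat_lit 1) (nat_lit 30) (nat_lit 1) (nat_lit 249) (nat_lit 266) (nat_lit 205)))) (XT.nd (nat_lit 188) (nat_lit 168) (nat_lit 0) (XT.nd (nat_lit 94) (nat_lit 84) (nat_lit 0) (XT.lf (nat_lit 84) (nat_lit 1454194240) (nat_lit 0) (nat_lit 1335652019) (nat_lit 252) (nat_lit 1454194240) (nat_lit 29) (nat_lit 1) (nat_lit 28) (nat_lit 1) (nat_lit 31) (nat_lit 1) (nat_lit 250) (nat_lit 266) (nat_lit 204)) (XT.lf (nat_lit 168) (nat_lit 1596619453) (nat_lit 0) (nat_lit 1287951115) (nat_lit 84) (nat_lit 1287951115) (nat_lit 29) (nat_lit 1) (nat_lit 27) (nat_lit 1) (nat_lit 28) (nat_lit 1) (nat_lit 251) (nat_lit 266) (nat_lit 203))) (XT.nd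 (nat_lit 94) (nat_lit 168) (nat_lit 0) (XT.lf (nat_lit 0) (nat_lit 160570764) (nat_lit 0) (nat_lit 3782020611) (nat_lit 168) (nat_lit 160570764) (nat_lit 27) (nat_lit 3) (nat_lit 27) (nat_lit 1) (nat_lit 29) (nat_lit 1) (nat_lit 252) (nat_lit 266) (nat_lit 202)) (XT.lf (nat_lit 84) (nat_lit 1554704460) (nat_lit 0) (nat_lit 924046533) (nat_lit 168) (nat_lit 1554704460) (nat_lit 26) (nat_lit 1) (nat_lit 25) (nat_lit 1) (nat_lit 27) (nat_lit 1) (nat_lit 253) (nat_lit 266) (nat_lit 201))))) (XT.nd (nat_lit 282) (nat_lit 336) (nat_lit 0) (XT.nd (nat_lit 94) (nat_lit 168) (nat_lit 0) (XT.lf (nat_lit 168) (nat_lit 1846675724) (nat_lit 0) (nat_lit 1059600569) (nat_lit 84) (nat_lit 1059600569) (nat_lit 26) (nat_lit 1) (nat_lit 24) (nat_lit 1) (nat_lit 25) (nat_lit 1) (nat_lit 254) (nat_lit 266) (nat_lit 200)) (XT.nd (nat_lit 94) (nat_lit 168) (nat_lit 0) (XT.lf (nat_lit 0) (nat_lit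 306899653) (nat_lit 0) (nat_lit 3286275405) (nat_lit 168) (nat_lit 306899653) (nat_lit 24) (nat_lit 3) (nat_lit 24) (nat_lit 1) (nat_lit 26) (nat_lit 1) (nat_lit 255) (nat_lit 266) (nat_lit 199)) (XT.lf (nat_lit 84) (nat_lit 1620330884) (nat_lit 0) (nat_lit 593741381) (nat_lit 168) (nat_lit 1620330884) (nat_lit 23) (nat_lit 1) (nat_lit 22) (nat_lit 1) (nat_lit 24) (nat_lit 1) (nat_lit 256) (nat_lit 266) (nat_lit 198)))) (XT.nd (nat_lit 188) (nat_lit 252) (nat_lit 0) (XT.nd (nat_lit 94) (nat_lit 0) (nat_lit 0) (XT.lf (nat_lit 168) (nat_lit 2027010353) (nat_lit 0) (nat_lit 871736011) (nat_lit 84) (nat_lit 871736011) (nat_lit 23) (nat_lit 1) (nat_lit 21) (nat_lit 1) (nat_lit 22) (nat_lit 1) (nat_lit 257) (nat_lit 266) (nat_lit 197)) (XT.lf (nat_lit 0) (nat_lit 418961092) (nat_lit 0) (nat_lit 2870100897) (nat_lit 168) (nat_lit 418961092) (nat_lit 21) (nat_lit 3) (nat_lit 21)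 (nat_lit 1) (nat_lit 23) (nat_lit 1) (nat_lit 258) (nat_lit 266) (nat_lit 196))) (XT.nd (nat_lit 94) (nat_lit 84) (nat_lit 0) (XT.lf (nat_lit 84) (nat_lit 1658070872) (nat_lit 0) (nat_lit 329925848) (nat_lit 168) (nat_lit 1658070872) (nat_lit 20) (nat_lit 1) (nat_lit 19) (nat_lit 1) (nat_lit 21) (nat_lit 1) (nat_lit 259) (nat_lit 266) (nat_lit 195)) (XT.lf (nat_lit 168) (nat_lit 2151193734) (nat_lit 0) (nat_lit 717179373) (nat_lit 84) (nat_lit 717179373) (nat_lit 20) (nat_lit 1) (nat_lit 18) (nat_lit 1) (nat_lit 19) (nat_lit 1) (nat_lit 260) (nat_lit 266) (nat_lit 194))))))))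
noncomputable def ec81 : XT := (XT.nd (nat_lit 2538) (nat_lit 0) (nat_lit 0) (XT.nd (nat_lit 1222) (nat_lit 504) (nat_lit 0) (XT.nd (nat_lit 564) (nat_lit 504) (nat_lit 0) (XT.nd (nat_lit 282) (nat_lit 252) (nat_lit 0) (XT.nd (nat_lit 94) (nat_lit 252) (nat_lit 0) (XT.lf (nat_lit 0) (nat_lit 503226983) (nat_lit 0) (nat_lit 2519785766) (nat_lit 168) (nat_lit 503226983) (nat_lit 18) (nat_lit 3) (nat_lit 18) (nat_lit 1) (nat_lit 20) (nat_lit 1) (nat_lit 261) (nat_lit 266) (nat_lit 193)) (XT.nd (nat_lit 94) (nat_lit 84) (nat_lit 0) (XT.lf (nat_lit 84) (nat_lit 1673642480) (nat_lit 0) (nat_lit 120433996) (nat_lit 168) (nat_lit 1673642480) (nat_lit 17) (nat_lit 1) (nat_lit 16) (nat_lit 1) (nat_lit 18) (nat_lit 1) (nat_lit 262) (nat_lit 266) (nat_lit 192)) (XT.lf (nat_lit 168) (nat_lit 2230332694) (nat_lit 0) (nat_lit 590025245) (nat_lit 84) (nat_lit 590025245) (nat_lit 17) (nat_lit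 1) (nat_lit 15) (nat_lit 1) (nat_lit 16) (nat_lit 1) (nat_lit 263) (nat_lit 266) (nat_lit 191)))) (XT.nd (nat_lit 94) (nat_lit 252) (nat_lit 0) (XT.lf (nat_lit 0) (nat_lit 565002899) (nat_lit 0) (nat_lit 2224030801) (nat_lit 168) (nat_lit 565002899) (nat_lit 15) (nat_lit 3) (nat_lit 15) (nat_lit 1) (nat_lit 17) (nat_lit 1) (nat_lit 264) (nat_lit 266) (nat_lit 190)) (XT.nd (nat_lit 94) (nat_lit 168) (nat_lit 0) (XT.lf (nat_lit 84) (nat_lit 46203958) (nat_lit 0) (nat_lit 1626230531) (nat_lit 84) (nat_lit 1626230531) (nat_lit 15) (nat_lit 3) (nat_lit 14) (nat_lit 1) (nat_lit 15) (nat_lit 1) (nat_lit 265) (nat_lit 266) (nat_lit 189)) (XT.lf (nat_lit 168) (nat_lit 2273510023) (nat_lit 0) (nat_lit 485415229) (nat_lit 84) (nat_lit 485415229) (nat_lit 14) (nat_lit 1) (nat_lit 12) (nat_lit 1) (nat_lit 13) (nat_lit 1) (nat_lit 266) (nat_lit 266) (nat_lit 188))))) (XT.nd (nat_lit 282)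 (nat_lit 252) (nat_lit 0) (XT.nd (nat_lit 94) (nat_lit 252) (nat_lit 0) (XT.lf (nat_lit 0) (nat_lit 608635774) (nat_lit 0) (nat_lit 1973522134) (nat_lit 168) (nat_lit 608635774) (nat_lit 12) (nat_lit 3) (nat_lit 12) (nat_lit 1) (nat_lit 14) (nat_lit 1) (nat_lit 267) (nat_lit 266) (nat_lit 187)) (XT.nd (nat_lit 94) (nat_lit 168) (nat_lit 0) (XT.lf (nat_lit 84) (nat_lit 179499141) (nat_lit 0) (nat_lit 1479390913) (nat_lit 84) (nat_lit 1479390913) (nat_lit 12) (nat_lit 3) (nat_lit 11) (nat_lit 1) (nat_lit 12) (nat_lit 1) (nat_lit 268) (nat_lit 266) (nat_lit 186)) (XT.lf (nat_lit 168) (nat_lit 2288145937) (nat_lit 0) (nat_lit 399352310) (nat_lit 84) (nat_lit 399352310) (nat_lit 11) (nat_lit 1) (nat_lit 9) (nat_lit 1) (nat_lit 10) (nat_lit 1) (nat_lit 269) (nat_lit 266) (nat_lit 185)))) (XT.nd (nat_lit 188) (nat_lit 168) (nat_lit 0) (XT.nd (nat_lit 94) (nat_lit 84) (nat_lit 0)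 (XT.lf (nat_lit 0) (nat_lit 637684720) (nat_lit 0) (nat_lit 1760580106) (nat_lit 168) (nat_lit 637684720) (nat_lit 9) (nat_lit 3) (nat_lit 9) (nat_lit 1) (nat_lit 11) (nat_lit 1) (nat_lit 270) (nat_lit 266) (nat_lit 184)) (XT.lf (nat_lit 84) (nat_lit 282423941) (nat_lit 0) (nat_lit 1351848119) (nat_lit 84) (nat_lit 1351848119) (nat_lit 9) (nat_lit 3) (nat_lit 8) (nat_lit 1) (nat_lit 9) (nat_lit 1) (nat_lit 271) (nat_lit 266) (nat_lit 183))) (XT.nd (nat_lit 94) (nat_lit 0) (nat_lit 0) (XT.lf (nat_lit 168) (nat_lit 2280295340) (nat_lit 0) (nat_lit 328548134) (nat_lit 84) (nat_lit 328548134) (nat_lit 8) (nat_lit 1) (nat_lit 6) (nat_lit 1) (nat_lit 7) (nat_lit 1) (nat_lit 272) (nat_lit 266) (nat_lit 182)) (XT.lf (nat_lit 0) (nat_lit 655061523) (nat_lit 0) (nat_lit 1578870336) (nat_lit 168) (nat_lit 655061523) (nat_lit 6) (nat_lit 3) (nat_lit 6) (nat_lit 1) (nat_lit 8) (nat_lit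 1) (nat_lit 273) (nat_lit 266) (nat_lit 181)))))) (XT.nd (nat_lit 658) (nat_lit 0) (nat_lit 0) (XT.nd (nat_lit 282) (nat_lit 252) (nat_lit 0) (XT.nd (nat_lit 94) (nat_lit 168) (nat_lit 0) (XT.lf (nat_lit 84) (nat_lit 360683783) (nat_lit 0) (nat_lit 1240501701) (nat_lit 84) (nat_lit 1240501701) (nat_lit 6) (nat_lit 3) (nat_lit 5) (nat_lit 1) (nat_lit 6) (nat_lit 1) (nat_lit 274) (nat_lit 266) (nat_lit 180)) (XT.nd (nat_lit 94) (nat_lit 0) (nat_lit 0) (XT.lf (nat_lit 168) (nat_lit 2254892252) (nat_lit 0) (nat_lit 270297363) (nat_lit 84) (nat_lit 270297363) (nat_lit 5) (nat_lit 1) (nat_lit 3) (nat_lit 1) (nat_lit 4) (nat_lit 1) (nat_lit 275) (nat_lit 266) (nat_lit 179)) (XT.lf (nat_lit 0) (nat_lit 663146189) (nat_lit 0) (nat_lit 1423165986) (nat_lit 168) (nat_lit 663146189) (nat_lit 3) (nat_lit 3) (nat_lit 3) (nat_lit 1) (nat_lit 5) (nat_lit 1) (nat_lit 276) (nat_lit 266) (nat_lit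 178)))) (XT.nd (nat_lit 188) (nat_lit 0) (nat_lit 0) (XT.nd (nat_lit 94) (nat_lit 168) (nat_lit 0) (XT.lf (nat_lit 84) (nat_lit 418957258) (nat_lit 0) (nat_lit 1142785636) (nat_lit 84) (nat_lit 1142785636) (nat_lit 3) (nat_lit 3) (nat_lit 2) (nat_lit 1) (nat_lit 3) (nat_lit 1) (nat_lit 277) (nat_lit 266) (nat_lit 177)) (XT.lf (nat_lit 0) (nat_lit 3865166156) (nat_lit 0) (nat_lit 0) (nat_lit 0) (nat_lit 0) (nat_lit 0) (nat_lit 0) (nat_lit 1) (nat_lit 0) (nat_lit 1) (nat_lit 0) (nat_lit 278) (nat_lit 266) (nat_lit 176))) (XT.nd (nat_lit 94) (nat_lit 0) (nat_lit 0) (XT.lf (nat_lit 0) (nat_lit 3862914171) (nat_lit 0) (nat_lit 0) (nat_lit 0) (nat_lit 0) (nat_lit 0) (nat_lit 0) (nat_lit 1) (nat_lit 0) (nat_lit 1) (nat_lit 0) (nat_lit 279) (nat_lit 266) (nat_lit 175)) (XT.lf (nat_lit 0) (nat_lit 3860769424) (nat_lit 0) (nat_lit 0) (nat_lit 0) (nat_lit 0) (nat_lit 0) (nat_lit 0)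 (nat_lit 1) (nat_lit 0) (nat_lit 1) (nat_lit 0) (nat_lit 280) (nat_lit 266) (nat_lit 174))))) (XT.nd (nat_lit 282) (nat_lit 0) (nat_lit 0) (XT.nd (nat_lit 94) (nat_lit 0) (nat_lit 0) (XT.lf (nat_lit 0) (nat_lit 3858726807) (nat_lit 0) (nat_lit 0) (nat_lit 0) (nat_lit 0) (nat_lit 0) (nat_lit 0) (nat_lit 1) (nat_lit 0) (nat_lit 1) (nat_lit 0) (nat_lit 281) (nat_lit 266) (nat_lit 173)) (XT.nd (nat_lit 94) (nat_lit 0) (nat_lit 0) (XT.lf (nat_lit 0) (nat_lit 3856781458) (nat_lit 0) (nat_lit 0) (nat_lit 0) (nat_lit 0) (nat_lit 0) (nat_lit 0) (nat_lit 1) (nat_lit 0) (nat_lit 1) (nat_lit 0) (nat_lit 282) (nat_lit 266) (nat_lit 172)) (XT.lf (nat_lit 0) (nat_lit 3854928745) (nat_lit 0) (nat_lit 0) (nat_lit 0) (nat_lit 0) (nat_lit 0) (nat_lit 0) (nat_lit 1) (nat_lit 0) (nat_lit 1) (nat_lit 0) (nat_lit 283) (nat_lit 266) (nat_lit 171)))) (XT.nd (nat_lit 188) (nat_lit 0) (nat_lit 0)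 (XT.nd (nat_lit 94) (nat_lit 0) (nat_lit 0) (XT.lf (nat_lit 0) (nat_lit 3853164256) (nat_lit 0) (nat_lit 0) (nat_lit 0) (nat_lit 0) (nat_lit 0) (nat_lit 0) (nat_lit 1) (nat_lit 0) (nat_lit 1) (nat_lit 0) (nat_lit 284) (nat_lit 266) (nat_lit 170)) (XT.lf (nat_lit 0) (nat_lit 3851483790) (nat_lit 0) (nat_lit 0) (nat_lit 0) (nat_lit 0) (nat_lit 0) (nat_lit 0) (nat_lit 1) (nat_lit 0) (nat_lit 1) (nat_lit 0) (nat_lit 285) (nat_lit 266) (nat_lit 169))) (XT.nd (nat_lit 94) (nat_lit 0) (nat_lit 0) (XT.lf (nat_lit 0) (nat_lit 3849883347) (nat_lit 0) (nat_lit 0) (nat_lit 0) (nat_lit 0) (nat_lit 0) (nat_lit 0) (nat_lit 1) (nat_lit 0) (nat_lit 1) (nat_lit 0) (nat_lit 286) (nat_lit 266) (nat_lit 168)) (XT.lf (nat_lit 0) (nat_lit 3848359115) (nat_lit 0) (nat_lit 0) (nat_lit 0) (nat_lit 0) (nat_lit 0) (nat_lit 0) (nat_lit 1) (nat_lit 0) (nat_lit 1) (nat_lit 0) (nat_lit 287) (nat_lit 266)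 (nat_lit 167))))))) (XT.nd (nat_lit 1222) (nat_lit 0) (nat_lit 0) (XT.nd (nat_lit 564) (nat_lit 0) (nat_lit 0) (XT.nd (nat_lit 282) (nat_lit 0) (nat_lit 0) (XT.nd (nat_lit 94) (nat_lit 0) (nat_lit 0) (XT.lf (nat_lit 0) (nat_lit 3846907465) (nat_lit 0) (nat_lit 0) (nat_lit 0) (nat_lit 0) (nat_lit 0) (nat_lit 0) (nat_lit 1) (nat_lit 0) (nat_lit 1) (nat_lit 0) (nat_lit 288) (nat_lit 266) (nat_lit 166)) (XT.nd (nat_lit 94) (nat_lit 0) (nat_lit 0) (XT.lf (nat_lit 0) (nat_lit 3845524942) (nat_lit 0) (nat_lit 0) (nat_lit 0) (nat_lit 0) (nat_lit 0) (nat_lit 0) (nat_lit 1) (nat_lit 0) (nat_lit 1) (nat_lit 0) (nat_lit 289) (nat_lit 266) (nat_lit 165)) (XT.lf (nat_lit 0) (nat_lit 3844208253) (nat_lit 0) (nat_lit 0) (nat_lit 0) (nat_lit 0) (nat_lit 0) (nat_lit 0) (nat_lit 1) (nat_lit 0) (nat_lit 1) (nat_lit 0) (nat_lit 290) (nat_lit 266) (nat_lit 164)))) (XT.nd (nat_lit 94) (nat_lit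 0) (nat_lit 0) (XT.lf (nat_lit 0) (nat_lit 3842954264) (nat_lit 0) (nat_lit 0) (nat_lit 0) (nat_lit 0) (nat_lit 0) (nat_lit 0) (nat_lit 1) (nat_lit 0) (nat_lit 1) (nat_lit 0) (nat_lit 291) (nat_lit 266) (nat_lit 163)) (XT.nd (nat_lit 94) (nat_lit 0) (nat_lit 0) (XT.lf (nat_lit 0) (nat_lit 3841759988) (nat_lit 0) (nat_lit 0) (nat_lit 0) (nat_lit 0) (nat_lit 0) (nat_lit 0) (nat_lit 1) (nat_lit 0) (nat_lit 1) (nat_lit 0) (nat_lit 292) (nat_lit 266) (nat_lit 162)) (XT.lf (nat_lit 0) (nat_lit 3840622583) (nat_lit 0) (nat_lit 0) (nat_lit 0) (nat_lit 0) (nat_lit 0) (nat_lit 0) (nat_lit 1) (nat_lit 0) (nat_lit 1) (nat_lit 0) (nat_lit 293) (nat_lit 266) (nat_lit 161))))) (XT.nd (nat_lit 282) (nat_lit 0) (nat_lit 0) (XT.nd (nat_lit 94) (nat_lit 0) (nat_lit 0) (XT.lf (nat_lit 0) (nat_lit 3839539340) (nat_lit 0) (nat_lit 0) (nat_lit 0) (nat_lit 0) (nat_lit 0) (nat_lit 0) (nat_lit 1)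 (nat_lit 0) (nat_lit 1) (nat_lit 0) (nat_lit 294) (nat_lit 266) (nat_lit 160)) (XT.nd (nat_lit 94) (nat_lit 0) (nat_lit 0) (XT.lf (nat_lit 0) (nat_lit 3838507680) (nat_lit 0) (nat_lit 0) (nat_lit 0) (nat_lit 0) (nat_lit 0) (nat_lit 0) (nat_lit 1) (nat_lit 0) (nat_lit 1) (nat_lit 0) (nat_lit 295) (nat_lit 266) (nat_lit 159)) (XT.lf (nat_lit 0) (nat_lit 3837525146) (nat_lit 0) (nat_lit 0) (nat_lit 0) (nat_lit 0) (nat_lit 0) (nat_lit 0) (nat_lit 1) (nat_lit 0) (nat_lit 1) (nat_lit 0) (nat_lit 296) (nat_lit 266) (nat_lit 158)))) (XT.nd (nat_lit 188) (nat_lit 0) (nat_lit 0) (XT.nd (nat_lit 94) (nat_lit 0) (nat_lit 0) (XT.lf (nat_lit 0) (nat_lit 3836589400) (nat_lit 0) (nat_lit 0) (nat_lit 0) (nat_lit 0) (nat_lit 0) (nat_lit 0) (nat_lit 1) (nat_lit 0) (nat_lit 1) (nat_lit 0) (nat_lit 297) (nat_lit 266) (nat_lit 157)) (XT.lf (nat_lit 0) (nat_lit 3835698213) (nat_lit 0) (nat_lit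 0) (nat_lit 0) (nat_lit 0) (nat_lit 0) (nat_lit 0) (nat_lit 1) (nat_lit 0) (nat_lit 1) (nat_lit 0) (nat_lit 298) (nat_lit 266) (nat_lit 156))) (XT.nd (nat_lit 94) (nat_lit 0) (nat_lit 0) (XT.lf (nat_lit 0) (nat_lit 3834849464) (nat_lit 0) (nat_lit 0) (nat_lit 0) (nat_lit 0) (nat_lit 0) (nat_lit 0) (nat_lit 1) (nat_lit 0) (nat_lit 1) (nat_lit 0) (nat_lit 299) (nat_lit 266) (nat_lit 155)) (XT.lf (nat_lit 0) (nat_lit 3834041131) (nat_lit 0) (nat_lit 0) (nat_lit 0) (nat_lit 0) (nat_lit 0) (nat_lit 0) (nat_lit 1) (nat_lit 0) (nat_lit 1) (nat_lit 0) (nat_lit 300) (nat_lit 266) (nat_lit 154)))))) (XT.nd (nat_lit 658) (nat_lit 0) (nat_lit 0) (XT.nd (nat_lit 282) (nat_lit 0) (nat_lit 0) (XT.nd (nat_lit 94) (nat_lit 0) (nat_lit 0) (XT.lf (nat_lit 0) (nat_lit 3833271291) (nat_lit 0) (nat_lit 0) (nat_lit 0) (nat_lit 0) (nat_lit 0) (nat_lit 0) (nat_lit 1) (nat_lit 0) (nat_lit 1) (nat_lit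 0) (nat_lit 301) (nat_lit 266) (nat_lit 153)) (XT.nd (nat_lit 94) (nat_lit 0) (nat_lit 0) (XT.lf (nat_lit 0) (nat_lit 3832538109) (nat_lit 0) (nat_lit 0) (nat_lit 0) (nat_lit 0) (nat_lit 0) (nat_lit 0) (nat_lit 1) (nat_lit 0) (nat_lit 1) (nat_lit 0) (nat_lit 302) (nat_lit 266) (nat_lit 152)) (XT.lf (nat_lit 0) (nat_lit 3831839841) (nat_lit 0) (nat_lit 0) (nat_lit 0) (nat_lit 0) (nat_lit 0) (nat_lit 0) (nat_lit 1) (nat_lit 0) (nat_lit 1) (nat_lit 0) (nat_lit 303) (nat_lit 266) (nat_lit 151)))) (XT.nd (nat_lit 188) (nat_lit 0) (nat_lit 0) (XT.nd (nat_lit 94) (nat_lit 0) (nat_lit 0) (XT.lf (nat_lit 0) (nat_lit 3831174823) (nat_lit 0) (nat_lit 0) (nat_lit 0) (nat_lit 0) (nat_lit 0) (nat_lit 0) (nat_lit 1) (nat_lit 0) (nat_lit 1) (nat_lit 0) (nat_lit 304) (nat_lit 266) (nat_lit 150)) (XT.lf (nat_lit 0) (nat_lit 3830541474) (nat_lit 0) (nat_lit 0) (nat_lit 0) (nat_lit 0) (nat_lit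 0) (nat_lit 0) (nat_lit 1) (nat_lit 0) (nat_lit 1) (nat_lit 0) (nat_lit 305) (nat_lit 266) (nat_lit 149))) (XT.nd (nat_lit 94) (nat_lit 0) (nat_lit 0) (XT.lf (nat_lit 0) (nat_lit 3829938283) (nat_lit 0) (nat_lit 0) (nat_lit 0) (nat_lit 0) (nat_lit 0) (nat_lit 0) (nat_lit 1) (nat_lit 0) (nat_lit 1) (nat_lit 0) (nat_lit 306) (nat_lit 266) (nat_lit 148)) (XT.lf (nat_lit 0) (nat_lit 3829363816) (nat_lit 0) (nat_lit 0) (nat_lit 0) (nat_lit 0) (nat_lit 0) (nat_lit 0) (nat_lit 1) (nat_lit 0) (nat_lit 1) (nat_lit 0) (nat_lit 307) (nat_lit 266) (nat_lit 147))))) (XT.nd (nat_lit 282) (nat_lit 0) (nat_lit 0) (XT.nd (nat_lit 94) (nat_lit 0) (nat_lit 0) (XT.lf (nat_lit 0) (nat_lit 3828816705) (nat_lit 0) (nat_lit 0) (nat_lit 0) (nat_lit 0) (nat_lit 0) (nat_lit 0) (nat_lit 1) (nat_lit 0) (nat_lit 1) (nat_lit 0) (nat_lit 308) (nat_lit 266) (nat_lit 146)) (XT.nd (nat_lit 94) (nat_lit 0)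 (nat_lit 0) (XT.lf (nat_lit 0) (nat_lit 3828295646) (nat_lit 0) (nat_lit 0) (nat_lit 0) (nat_lit 0) (nat_lit 0) (nat_lit 0) (nat_lit 1) (nat_lit 0) (nat_lit 1) (nat_lit 0) (nat_lit 309) (nat_lit 266) (nat_lit 145)) (XT.lf (nat_lit 0) (nat_lit 3827799400) (nat_lit 0) (nat_lit 0) (nat_lit 0) (nat_lit 0) (nat_lit 0) (nat_lit 0) (nat_lit 1) (nat_lit 0) (nat_lit 1) (nat_lit 0) (nat_lit 310) (nat_lit 266) (nat_lit 144)))) (XT.nd (nat_lit 188) (nat_lit 0) (nat_lit 0) (XT.nd (nat_lit 94) (nat_lit 0) (nat_lit 0) (XT.lf (nat_lit 0) (nat_lit 3827326785) (nat_lit 0) (nat_lit 0) (nat_lit 0) (nat_lit 0) (nat_lit 0) (nat_lit 0) (nat_lit 1) (nat_lit 0) (nat_lit 1) (nat_lit 0) (nat_lit 311) (nat_lit 266) (nat_lit 143)) (XT.lf (nat_lit 0) (nat_lit 3826876675) (nat_lit 0) (nat_lit 0) (nat_lit 0) (nat_lit 0) (nat_lit 0) (nat_lit 0) (nat_lit 1) (nat_lit 0) (nat_lit 1) (nat_lit 0) (nat_lit 312)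 (nat_lit 266) (nat_lit 142))) (XT.nd (nat_lit 94) (nat_lit 0) (nat_lit 0) (XT.lf (nat_lit 0) (nat_lit 3826447999) (nat_lit 0) (nat_lit 0) (nat_lit 0) (nat_lit 0) (nat_lit 0) (nat_lit 0) (nat_lit 1) (nat_lit 0) (nat_lit 1) (nat_lit 0) (nat_lit 313) (nat_lit 266) (nat_lit 141)) (XT.lf (nat_lit 0) (nat_lit 3826039736) (nat_lit 0) (nat_lit 0) (nat_lit 0) (nat_lit 0) (nat_lit 0) (nat_lit 0) (nat_lit 1) (nat_lit 0) (nat_lit 1) (nat_lit 0) (nat_lit 314) (nat_lit 266) (nat_lit 140))))))))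
noncomputable def ec82 : XT := (XT.nd (nat_lit 35250) (nat_lit 0) (nat_lit 3696) (XT.nd (nat_lit 33934) (nat_lit 0) (nat_lit 7812) (XT.nd (nat_lit 33276) (nat_lit 0) (nat_lit 10836) (XT.nd (nat_lit 282) (nat_lit 0) (nat_lit 0) (XT.nd (nat_lit 94) (nat_lit 0) (nat_lit 0) (XT.lf (nat_lit 0) (nat_lit 3825650914) (nat_lit 0) (nat_lit 0) (nat_lit 0) (nat_lit 0) (nat_lit 0) (nat_lit 0) (nat_lit 1) (nat_lit 0) (nat_lit 1) (nat_lit 0) (nat_lit 315) (nat_lit 266) (nat_lit 139)) (XT.nd (nat_lit 94) (nat_lit 0) (nat_lit 0) (XT.lf (nat_lit 0) (nat_lit 3825280608) (nat_lit 0) (nat_lit 0) (nat_lit 0) (nat_lit 0) (nat_lit 0) (nat_lit 0) (nat_lit 1) (nat_lit 0) (nat_lit 1) (nat_lit 0) (nat_lit 316) (nat_lit 266) (nat_lit 138)) (XT.lf (nat_lit 0) (nat_lit 3824927935) (nat_lit 0) (nat_lit 0) (nat_lit 0) (nat_lit 0) (nat_lit 0) (nat_lit 0) (nat_lit 1) (nat_lit 0) (nat_lit 1) (nat_lit 0) (nat_lit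 317) (nat_lit 266) (nat_lit 137)))) (XT.nd (nat_lit 32806) (nat_lit 0) (nat_lit 10752) (XT.lf (nat_lit 0) (nat_lit 3824592056) (nat_lit 0) (nat_lit 0) (nat_lit 0) (nat_lit 0) (nat_lit 0) (nat_lit 0) (nat_lit 1) (nat_lit 0) (nat_lit 1) (nat_lit 0) (nat_lit 318) (nat_lit 266) (nat_lit 136)) (XT.nd (nat_lit 94) (nat_lit 0) (nat_lit 0) (XT.lf (nat_lit 924) (nat_lit 2006137766) (nat_lit 0) (nat_lit 3561892993) (nat_lit 924) (nat_lit 2006137766) (nat_lit 139) (nat_lit 1) (nat_lit 128) (nat_lit 0) (nat_lit 139) (nat_lit 0) (nat_lit 186) (nat_lit 267) (nat_lit 267)) (XT.lf (nat_lit 924) (nat_lit 7776040440) (nat_lit 84) (nat_lit 3504443106) (nat_lit 0) (nat_lit 3504443106) (nat_lit 139) (nat_lit 1) (nat_lit 129) (nat_lit 1) (nat_lit 128) (nat_lit 0) (nat_lit 187) (nat_lit 267) (nat_lit 266))))) (XT.nd (nat_lit 282) (nat_lit 0) (nat_lit 84) (XT.nd (nat_lit 94) (nat_lit 0) (nat_lit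 0) (XT.lf (nat_lit 924) (nat_lit 3705943790) (nat_lit 0) (nat_lit 7020863640) (nat_lit 840) (nat_lit 3705943790) (nat_lit 140) (nat_lit 1) (nat_lit 129) (nat_lit 1) (nat_lit 139) (nat_lit 1) (nat_lit 188) (nat_lit 267) (nat_lit 265)) (XT.nd (nat_lit 94) (nat_lit 0) (nat_lit 84) (XT.lf (nat_lit 924) (nat_lit 6951835596) (nat_lit 84) (nat_lit 3570059041) (nat_lit 0) (nat_lit 3570059041) (nat_lit 140) (nat_lit 1) (nat_lit 130) (nat_lit 1) (nat_lit 129) (nat_lit 1) (nat_lit 189) (nat_lit 267) (nat_lit 264)) (XT.lf (nat_lit 924) (nat_lit 3199863165) (nat_lit 0) (nat_lit 7362231376) (nat_lit 840) (nat_lit 3199863165) (nat_lit 141) (nat_lit 1) (nat_lit 130) (nat_lit 1) (nat_lit 140) (nat_lit 1) (nat_lit 190) (nat_lit 267) (nat_lit 263)))) (XT.nd (nat_lit 188) (nat_lit 0) (nat_lit 84) (XT.nd (nat_lit 94) (nat_lit 0) (nat_lit 84) (XT.lf (nat_lit 924) (nat_lit 5755162317) (nat_lit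 84) (nat_lit 3843429479) (nat_lit 0) (nat_lit 3843429479) (nat_lit 141) (nat_lit 1) (nat_lit 131) (nat_lit 1) (nat_lit 130) (nat_lit 1) (nat_lit 191) (nat_lit 267) (nat_lit 262)) (XT.lf (nat_lit 924) (nat_lit 2523472452) (nat_lit 0) (nat_lit 8085882299) (nat_lit 840) (nat_lit 2523472452) (nat_lit 142) (nat_lit 1) (nat_lit 131) (nat_lit 1) (nat_lit 141) (nat_lit 1) (nat_lit 192) (nat_lit 267) (nat_lit 261))) (XT.nd (nat_lit 94) (nat_lit 0) (nat_lit 84) (XT.lf (nat_lit 924) (nat_lit 4242034673) (nat_lit 84) (nat_lit 4295055814) (nat_lit 0) (nat_lit 4295055814) (nat_lit 142) (nat_lit 1) (nat_lit 132) (nat_lit 1) (nat_lit 131) (nat_lit 1) (nat_lit 193) (nat_lit 267) (nat_lit 260)) (XT.lf (nat_lit 924) (nat_lit 1702955974) (nat_lit 0) (nat_lit 9136560086) (nat_lit 840) (nat_lit 1702955974) (nat_lit 143) (nat_lit 1) (nat_lit 132) (nat_lit 1) (nat_lit 142) (nat_lit 1) (nat_lit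 194) (nat_lit 267) (nat_lit 259)))))) (XT.nd (nat_lit 658) (nat_lit 1512) (nat_lit 0) (XT.nd (nat_lit 282) (nat_lit 1008) (nat_lit 0) (XT.nd (nat_lit 94) (nat_lit 756) (nat_lit 0) (XT.lf (nat_lit 924) (nat_lit 2462240719) (nat_lit 84) (nat_lit 4898666867) (nat_lit 0) (nat_lit 4898666867) (nat_lit 143) (nat_lit 1) (nat_lit 133) (nat_lit 1) (nat_lit 132) (nat_lit 1) (nat_lit 195) (nat_lit 267) (nat_lit 258)) (XT.nd (nat_lit 94) (nat_lit 840) (nat_lit 0) (XT.lf (nat_lit 84) (nat_lit 761570807) (nat_lit 0) (nat_lit 10465084449) (nat_lit 840) (nat_lit 761570807) (nat_lit 134) (nat_lit 1) (nat_lit 133) (nat_lit 1) (nat_lit 143) (nat_lit 1) (nat_lit 196) (nat_lit 267) (nat_lit 257)) (XT.lf (nat_lit 924) (nat_lit 459969828) (nat_lit 0) (nat_lit 5630895748) (nat_lit 840) (nat_lit 5630895748) (nat_lit 134) (nat_lit 1) (nat_lit 123) (nat_lit 1) (nat_lit 133) (nat_lit 1) (nat_lit 197)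 (nat_lit 267) (nat_lit 256)))) (XT.nd (nat_lit 188) (nat_lit 420) (nat_lit 0) (XT.nd (nat_lit 94) (nat_lit 0) (nat_lit 0) (XT.lf (nat_lit 588) (nat_lit 10915663309) (nat_lit 0) (nat_lit 275540550) (nat_lit 504) (nat_lit 275540550) (nat_lit 123) (nat_lit 1) (nat_lit 116) (nat_lit 1) (nat_lit 122) (nat_lit 1) (nat_lit 198) (nat_lit 267) (nat_lit 255)) (XT.lf (nat_lit 84) (nat_lit 4772309000) (nat_lit 0) (nat_lit 1670389980) (nat_lit 588) (nat_lit 4772309000) (nat_lit 117) (nat_lit 1) (nat_lit 116) (nat_lit 1) (nat_lit 123) (nat_lit 1) (nat_lit 199) (nat_lit 267) (nat_lit 254))) (XT.nd (nat_lit 94) (nat_lit 0) (nat_lit 0) (XT.lf (nat_lit 504) (nat_lit 8211918792) (nat_lit 0) (nat_lit 1381028634) (nat_lit 420) (nat_lit 1381028634) (nat_lit 117) (nat_lit 1) (nat_lit 111) (nat_lit 1) (nat_lit 116) (nat_lit 1) (nat_lit 200) (nat_lit 267) (nat_lit 253)) (XT.lf (nat_lit 84) (nat_lit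 3404029914) (nat_lit 0) (nat_lit 3929951467) (nat_lit 504) (nat_lit 3404029914) (nat_lit 112) (nat_lit 1) (nat_lit 111) (nat_lit 1) (nat_lit 117) (nat_lit 1) (nat_lit 201) (nat_lit 267) (nat_lit 252))))) (XT.nd (nat_lit 282) (nat_lit 756) (nat_lit 0) (XT.nd (nat_lit 94) (nat_lit 336) (nat_lit 0) (XT.lf (nat_lit 504) (nat_lit 5407664980) (nat_lit 0) (nat_lit 2551299787) (nat_lit 420) (nat_lit 2551299787) (nat_lit 112) (nat_lit 1) (nat_lit 106) (nat_lit 1) (nat_lit 111) (nat_lit 1) (nat_lit 202) (nat_lit 267) (nat_lit 251)) (XT.nd (nat_lit 94) (nat_lit 336) (nat_lit 0) (XT.lf (nat_lit 84) (nat_lit 1992652677) (nat_lit 0) (nat_lit 6303836100) (nat_lit 504) (nat_lit 1992652677) (nat_lit 107) (nat_lit 1) (nat_lit 106) (nat_lit 1) (nat_lit 112) (nat_lit 1) (nat_lit 203) (nat_lit 267) (nat_lit 250)) (XT.lf (nat_lit 420) (nat_lit 2529002363) (nat_lit 0) (nat_lit 3772352003) (nat_lit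 336) (nat_lit 3772352003) (nat_lit 107) (nat_lit 1) (nat_lit 102) (nat_lit 1) (nat_lit 106) (nat_lit 1) (nat_lit 204) (nat_lit 267) (nat_lit 249)))) (XT.nd (nat_lit 188) (nat_lit 336) (nat_lit 0) (XT.nd (nat_lit 94) (nat_lit 420) (nat_lit 0) (XT.lf (nat_lit 84) (nat_lit 550294039) (nat_lit 0) (nat_lit 8765967779) (nat_lit 420) (nat_lit 550294039) (nat_lit 103) (nat_lit 1) (nat_lit 102) (nat_lit 1) (nat_lit 107) (nat_lit 1) (nat_lit 205) (nat_lit 267) (nat_lit 248)) (XT.lf (nat_lit 84) (nat_lit 4636935701) (nat_lit 0) (nat_lit 388352372) (nat_lit 420) (nat_lit 4636935701) (nat_lit 98) (nat_lit 1) (nat_lit 97) (nat_lit 1) (nat_lit 102) (nat_lit 1) (nat_lit 206) (nat_lit 267) (nat_lit 247))) (XT.nd (nat_lit 94) (nat_lit 0) (nat_lit 0) (XT.lf (nat_lit 420) (nat_lit 7670222902) (nat_lit 0) (nat_lit 897725128) (nat_lit 336) (nat_lit 897725128) (nat_lit 98) (nat_lit 1) (nat_lit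 93) (nat_lit 1) (nat_lit 97) (nat_lit 1) (nat_lit 207) (nat_lit 267) (nat_lit 246)) (XT.lf (nat_lit 84) (nat_lit 3008598628) (nat_lit 0) (nat_lit 3255297154) (nat_lit 420) (nat_lit 3008598628) (nat_lit 94) (nat_lit 1) (nat_lit 93) (nat_lit 1) (nat_lit 98) (nat_lit 1) (nat_lit 208) (nat_lit 267) (nat_lit 245))))))) (XT.nd (nat_lit 1222) (nat_lit 1848) (nat_lit 0) (XT.nd (nat_lit 564) (nat_lit 1008) (nat_lit 0) (XT.nd (nat_lit 282) (nat_lit 672) (nat_lit 0) (XT.nd (nat_lit 94) (nat_lit 252) (nat_lit 0) (XT.lf (nat_lit 420) (nat_lit 4390382326) (nat_lit 0) (nat_lit 2347816048) (nat_lit 336) (nat_lit 2347816048) (nat_lit 94) (nat_lit 1) (nat_lit 89) (nat_lit 1) (nat_lit 93) (nat_lit 1) (nat_lit 209) (nat_lit 267) (nat_lit 244)) (XT.nd (nat_lit 94) (nat_lit 252) (nat_lit 0) (XT.lf (nat_lit 84) (nat_lit 1384530646) (nat_lit 0) (nat_lit 6135925835) (nat_lit 420) (nat_lit 1384530646)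 (nat_lit 90) (nat_lit 1) (nat_lit 89) (nat_lit 1) (nat_lit 94) (nat_lit 1) (nat_lit 210) (nat_lit 267) (nat_lit 243)) (XT.lf (nat_lit 336) (nat_lit 1125979476) (nat_lit 0) (nat_lit 3800944004) (nat_lit 252) (nat_lit 3800944004) (nat_lit 90) (nat_lit 1) (nat_lit 86) (nat_lit 1) (nat_lit 89) (nat_lit 1) (nat_lit 211) (nat_lit 267) (nat_lit 242)))) (XT.nd (nat_lit 94) (nat_lit 252) (nat_lit 0) (XT.lf (nat_lit 420) (nat_lit 8107640163) (nat_lit 0) (nat_lit 224971457) (nat_lit 336) (nat_lit 224971457) (nat_lit 86) (nat_lit 1) (nat_lit 81) (nat_lit 1) (nat_lit 85) (nat_lit 1) (nat_lit 212) (nat_lit 267) (nat_lit 241)) (XT.nd (nat_lit 94) (nat_lit 252) (nat_lit 0) (XT.lf (nat_lit 84) (nat_lit 3172579534) (nat_lit 0) (nat_lit 2043082106) (nat_lit 420) (nat_lit 3172579534) (nat_lit 82) (nat_lit 1) (nat_lit 81) (nat_lit 1) (nat_lit 86) (nat_lit 1) (nat_lit 213) (nat_lit 267) (nat_lit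 240)) (XT.lf (nat_lit 336) (nat_lit 4633652709) (nat_lit 0) (nat_lit 1795870637) (nat_lit 252) (nat_lit 1795870637) (nat_lit 82) (nat_lit 1) (nat_lit 78) (nat_lit 1) (nat_lit 81) (nat_lit 1) (nat_lit 214) (nat_lit 267) (nat_lit 239))))) (XT.nd (nat_lit 282) (nat_lit 420) (nat_lit 0) (XT.nd (nat_lit 94) (nat_lit 588) (nat_lit 0) (XT.lf (nat_lit 84) (nat_lit 1463842566) (nat_lit 0) (nat_lit 5138999074) (nat_lit 336) (nat_lit 1463842566) (nat_lit 79) (nat_lit 1) (nat_lit 78) (nat_lit 1) (nat_lit 82) (nat_lit 1) (nat_lit 215) (nat_lit 267) (nat_lit 238)) (XT.nd (nat_lit 94) (nat_lit 336) (nat_lit 0) (XT.lf (nat_lit 336) (nat_lit 1220067024) (nat_lit 0) (nat_lit 3345759004) (nat_lit 252) (nat_lit 3345759004) (nat_lit 79) (nat_lit 1) (nat_lit 75) (nat_lit 1) (nat_lit 78) (nat_lit 1) (nat_lit 216) (nat_lit 267) (nat_lit 237)) (XT.lf (nat_lit 336) (nat_lit 7342885749) (nat_lit 0)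 (nat_lit 209681121) (nat_lit 252) (nat_lit 209681121) (nat_lit 75) (nat_lit 1) (nat_lit 71) (nat_lit 1) (nat_lit 74) (nat_lit 1) (nat_lit 217) (nat_lit 267) (nat_lit 236)))) (XT.nd (nat_lit 188) (nat_lit 168) (nat_lit 0) (XT.nd (nat_lit 94) (nat_lit 252) (nat_lit 0) (XT.lf (nat_lit 84) (nat_lit 2777603392) (nat_lit 0) (nat_lit 2058176223) (nat_lit 336) (nat_lit 2777603392) (nat_lit 72) (nat_lit 1) (nat_lit 71) (nat_lit 1) (nat_lit 75) (nat_lit 1) (nat_lit 218) (nat_lit 267) (nat_lit 235)) (XT.lf (nat_lit 336) (nat_lit 3819458997) (nat_lit 0) (nat_lit 1825283526) (nat_lit 252) (nat_lit 1825283526) (nat_lit 72) (nat_lit 1) (nat_lit 68) (nat_lit 1) (nat_lit 71) (nat_lit 1) (nat_lit 219) (nat_lit 267) (nat_lit 234))) (XT.nd (nat_lit 94) (nat_lit 168) (nat_lit 0) (XT.lf (nat_lit 84) (nat_lit 1051875892) (nat_lit 0) (nat_lit 5226762206) (nat_lit 336) (nat_lit 1051875892) (nat_lit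 69) (nat_lit 1) (nat_lit 68) (nat_lit 1) (nat_lit 72) (nat_lit 1) (nat_lit 220) (nat_lit 267) (nat_lit 233)) (XT.lf (nat_lit 252) (nat_lit 385442301) (nat_lit 0) (nat_lit 3404094327) (nat_lit 168) (nat_lit 3404094327) (nat_lit 69) (nat_lit 1) (nat_lit 66) (nat_lit 1) (nat_lit 68) (nat_lit 1) (nat_lit 221) (nat_lit 267) (nat_lit 232)))))) (XT.nd (nat_lit 658) (nat_lit 924) (nat_lit 0) (XT.nd (nat_lit 282) (nat_lit 420) (nat_lit 0) (XT.nd (nat_lit 94) (nat_lit 168) (nat_lit 0) (XT.lf (nat_lit 336) (nat_lit 5823903928) (nat_lit 0) (nat_lit 618540810) (nat_lit 252) (nat_lit 618540810) (nat_lit 66) (nat_lit 1) (nat_lit 62) (nat_lit 1) (nat_lit 65) (nat_lit 1) (nat_lit 222) (nat_lit 267) (nat_lit 231)) (XT.nd (nat_lit 94) (nat_lit 168) (nat_lit 0) (XT.lf (nat_lit 84) (nat_lit 2034151399) (nat_lit 0) (nat_lit 2861520857) (nat_lit 336) (nat_lit 2034151399) (nat_lit 63) (nat_lit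 1) (nat_lit 62) (nat_lit 1) (nat_lit 66) (nat_lit 1) (nat_lit 223) (nat_lit 267) (nat_lit 230)) (XT.lf (nat_lit 252) (nat_lit 2350148160) (nat_lit 0) (nat_lit 2226280808) (nat_lit 168) (nat_lit 2226280808) (nat_lit 63) (nat_lit 1) (nat_lit 60) (nat_lit 1) (nat_lit 62) (nat_lit 1) (nat_lit 224) (nat_lit 267) (nat_lit 229)))) (XT.nd (nat_lit 188) (nat_lit 168) (nat_lit 0) (XT.nd (nat_lit 94) (nat_lit 252) (nat_lit 0) (XT.lf (nat_lit 84) (nat_lit 337641695) (nat_lit 0) (nat_lit 6004530929) (nat_lit 252) (nat_lit 337641695) (nat_lit 61) (nat_lit 1) (nat_lit 60) (nat_lit 1) (nat_lit 63) (nat_lit 1) (nat_lit 225) (nat_lit 267) (nat_lit 228)) (XT.lf (nat_lit 84) (nat_lit 2786616151) (nat_lit 0) (nat_lit 984133295) (nat_lit 252) (nat_lit 2786616151) (nat_lit 58) (nat_lit 1) (nat_lit 57) (nat_lit 1) (nat_lit 60) (nat_lit 1) (nat_lit 226) (nat_lit 267) (nat_lit 227))) (XT.nd (nat_lit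 94) (nat_lit 0) (nat_lit 0) (XT.lf (nat_lit 252) (nat_lit 3869704923) (nat_lit 0) (nat_lit 1284637188) (nat_lit 168) (nat_lit 1284637188) (nat_lit 58) (nat_lit 1) (nat_lit 55) (nat_lit 1) (nat_lit 57) (nat_lit 1) (nat_lit 227) (nat_lit 267) (nat_lit 226)) (XT.lf (nat_lit 84) (nat_lit 1091930054) (nat_lit 0) (nat_lit 4139349489) (nat_lit 252) (nat_lit 1091930054) (nat_lit 56) (nat_lit 1) (nat_lit 55) (nat_lit 1) (nat_lit 58) (nat_lit 1) (nat_lit 228) (nat_lit 267) (nat_lit 225))))) (XT.nd (nat_lit 282) (nat_lit 504) (nat_lit 0) (XT.nd (nat_lit 94) (nat_lit 252) (nat_lit 0) (XT.lf (nat_lit 252) (nat_lit 511529917) (nat_lit 0) (nat_lit 2849121798) (nat_lit 168) (nat_lit 2849121798) (nat_lit 56) (nat_lit 1) (nat_lit 53) (nat_lit 1) (nat_lit 55) (nat_lit 1) (nat_lit 229) (nat_lit 267) (nat_lit 224)) (XT.nd (nat_lit 94) (nat_lit 0) (nat_lit 0) (XT.lf (nat_lit 252) (nat_lit 5027646497)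 (nat_lit 0) (nat_lit 535988916) (nat_lit 168) (nat_lit 535988916) (nat_lit 53) (nat_lit 1) (nat_lit 50) (nat_lit 1) (nat_lit 52) (nat_lit 1) (nat_lit 230) (nat_lit 267) (nat_lit 223)) (XT.lf (nat_lit 84) (nat_lit 1673715839) (nat_lit 0) (nat_lit 2642983577) (nat_lit 252) (nat_lit 1673715839) (nat_lit 51) (nat_lit 1) (nat_lit 50) (nat_lit 1) (nat_lit 53) (nat_lit 1) (nat_lit 231) (nat_lit 267) (nat_lit 222)))) (XT.nd (nat_lit 188) (nat_lit 336) (nat_lit 0) (XT.nd (nat_lit 94) (nat_lit 0) (nat_lit 0) (XT.lf (nat_lit 252) (nat_lit 1704598322) (nat_lit 0) (nat_lit 2089889175) (nat_lit 168) (nat_lit 2089889175) (nat_lit 51) (nat_lit 1) (nat_lit 48) (nat_lit 1) (nat_lit 50) (nat_lit 1) (nat_lit 232) (nat_lit 267) (nat_lit 221)) (XT.lf (nat_lit 84) (nat_lit 56025445) (nat_lit 0) (nat_lit 5670005977) (nat_lit 252) (nat_lit 56025445) (nat_lit 49) (nat_lit 1) (nat_lit 48) (nat_lit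 1) (nat_lit 51) (nat_lit 1) (nat_lit 233) (nat_lit 267) (nat_lit 220))) (XT.nd (nat_lit 94) (nat_lit 168) (nat_lit 0) (XT.lf (nat_lit 84) (nat_lit 2115429479) (nat_lit 0) (nat_lit 1448227708) (nat_lit 168) (nat_lit 2115429479) (nat_lit 47) (nat_lit 1) (nat_lit 46) (nat_lit 1) (nat_lit 48) (nat_lit 1) (nat_lit 234) (nat_lit 267) (nat_lit 219)) (XT.lf (nat_lit 252) (nat_lit 2625007157) (nat_lit 0) (nat_lit 1477366158) (nat_lit 168) (nat_lit 1477366158) (nat_lit 47) (nat_lit 1) (nat_lit 44) (nat_lit 1) (nat_lit 46) (nat_lit 1) (nat_lit 235) (nat_lit 267) (nat_lit 218))))))))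
noncomputable def ec83 : XT := (XT.nd (nat_lit 2538) (nat_lit 1260) (nat_lit 0) (XT.nd (nat_lit 1222) (nat_lit 1092) (nat_lit 0) (XT.nd (nat_lit 564) (nat_lit 672) (nat_lit 0) (XT.nd (nat_lit 282) (nat_lit 336) (nat_lit 0) (XT.nd (nat_lit 94) (nat_lit 336) (nat_lit 0) (XT.lf (nat_lit 84) (nat_lit 526295793) (nat_lit 0) (nat_lit 4430482330) (nat_lit 252) (nat_lit 526295793) (nat_lit 45) (nat_lit 1) (nat_lit 44) (nat_lit 1) (nat_lit 47) (nat_lit 1) (nat_lit 236) (nat_lit 267) (nat_lit 217)) (XT.nd (nat_lit 94) (nat_lit 168) (nat_lit 0) (XT.lf (nat_lit 84) (nat_lit 2443663654) (nat_lit 0) (nat_lit 499878214) (nat_lit 168) (nat_lit 2443663654) (nat_lit 43) (nat_lit 1) (nat_lit 42) (nat_lit 1) (nat_lit 44) (nat_lit 1) (nat_lit 237) (nat_lit 267) (nat_lit 216)) (XT.lf (nat_lit 252) (nat_lit 3324009312) (nat_lit 0) (nat_lit 984965330) (nat_lit 168) (nat_lit 984965330) (nat_lit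 43) (nat_lit 1) (nat_lit 40) (nat_lit 1) (nat_lit 42) (nat_lit 1) (nat_lit 238) (nat_lit 267) (nat_lit 215)))) (XT.nd (nat_lit 94) (nat_lit 336) (nat_lit 0) (XT.lf (nat_lit 84) (nat_lit 890321537) (nat_lit 0) (nat_lit 3421877711) (nat_lit 252) (nat_lit 890321537) (nat_lit 41) (nat_lit 1) (nat_lit 40) (nat_lit 1) (nat_lit 43) (nat_lit 1) (nat_lit 239) (nat_lit 267) (nat_lit 214)) (XT.nd (nat_lit 94) (nat_lit 252) (nat_lit 0) (XT.lf (nat_lit 168) (nat_lit 255578891) (nat_lit 0) (nat_lit 2428623915) (nat_lit 84) (nat_lit 2428623915) (nat_lit 41) (nat_lit 1) (nat_lit 39) (nat_lit 1) (nat_lit 40) (nat_lit 1) (nat_lit 240) (nat_lit 267) (nat_lit 213)) (XT.lf (nat_lit 252) (nat_lit 3843632047) (nat_lit 0) (nat_lit 590840591) (nat_lit 168) (nat_lit 590840591) (nat_lit 39) (nat_lit 1) (nat_lit 36) (nat_lit 1) (nat_lit 38) (nat_lit 1) (nat_lit 241) (nat_lit 267) (nat_lit 212)))))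 (XT.nd (nat_lit 282) (nat_lit 336) (nat_lit 0) (XT.nd (nat_lit 94) (nat_lit 336) (nat_lit 0) (XT.lf (nat_lit 84) (nat_lit 1168028480) (nat_lit 0) (nat_lit 2602719579) (nat_lit 252) (nat_lit 1168028480) (nat_lit 37) (nat_lit 1) (nat_lit 36) (nat_lit 1) (nat_lit 39) (nat_lit 1) (nat_lit 242) (nat_lit 267) (nat_lit 211)) (XT.nd (nat_lit 94) (nat_lit 252) (nat_lit 0) (XT.lf (nat_lit 168) (nat_lit 858291816) (nat_lit 0) (nat_lit 1998034905) (nat_lit 84) (nat_lit 1998034905) (nat_lit 37) (nat_lit 1) (nat_lit 35) (nat_lit 1) (nat_lit 36) (nat_lit 1) (nat_lit 243) (nat_lit 267) (nat_lit 210)) (XT.lf (nat_lit 252) (nat_lit 4218319273) (nat_lit 0) (nat_lit 277045232) (nat_lit 168) (nat_lit 277045232) (nat_lit 35) (nat_lit 1) (nat_lit 32) (nat_lit 1) (nat_lit 34) (nat_lit 1) (nat_lit 244) (nat_lit 267) (nat_lit 209)))) (XT.nd (nat_lit 188) (nat_lit 252) (nat_lit 0) (XT.nd (nat_lit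 94) (nat_lit 84) (nat_lit 0) (XT.lf (nat_lit 84) (nat_lit 1375757777) (nat_lit 0) (nat_lit 1938913665) (nat_lit 252) (nat_lit 1375757777) (nat_lit 33) (nat_lit 1) (nat_lit 32) (nat_lit 1) (nat_lit 35) (nat_lit 1) (nat_lit 245) (nat_lit 267) (nat_lit 208)) (XT.lf (nat_lit 168) (nat_lit 1323286831) (nat_lit 0) (nat_lit 1643788261) (nat_lit 84) (nat_lit 1643788261) (nat_lit 33) (nat_lit 1) (nat_lit 31) (nat_lit 1) (nat_lit 32) (nat_lit 1) (nat_lit 246) (nat_lit 267) (nat_lit 207))) (XT.nd (nat_lit 94) (nat_lit 0) (nat_lit 0) (XT.lf (nat_lit 252) (nat_lit 4476282349) (nat_lit 0) (nat_lit 28839337) (nat_lit 168) (nat_lit 28839337) (nat_lit 31) (nat_lit 1) (nat_lit 28) (nat_lit 1) (nat_lit 30) (nat_lit 1) (nat_lit 247) (nat_lit 267) (nat_lit 206)) (XT.lf (nat_lit 84) (nat_lit 1526903952) (nat_lit 0) (nat_lit 1402434620) (nat_lit 252) (nat_lit 1526903952) (nat_lit 29) (nat_lit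 1) (nat_lit 28) (nat_lit 1) (nat_lit 31) (nat_lit 1) (nat_lit 248) (nat_lit 267) (nat_lit 205)))))) (XT.nd (nat_lit 658) (nat_lit 504) (nat_lit 0) (XT.nd (nat_lit 282) (nat_lit 336) (nat_lit 0) (XT.nd (nat_lit 94) (nat_lit 168) (nat_lit 0) (XT.lf (nat_lit 168) (nat_lit 1676450426) (nat_lit 0) (nat_lit 1352348670) (nat_lit 84) (nat_lit 1352348670) (nat_lit 29) (nat_lit 1) (nat_lit 27) (nat_lit 1) (nat_lit 28) (nat_lit 1) (nat_lit 249) (nat_lit 267) (nat_lit 204)) (XT.nd (nat_lit 94) (nat_lit 168) (nat_lit 0) (XT.lf (nat_lit 0) (nat_lit 168599302) (nat_lit 0) (nat_lit 3971121642) (nat_lit 168) (nat_lit 168599302) (nat_lit 27) (nat_lit 3) (nat_lit 27) (nat_lit 1) (nat_lit 29) (nat_lit 1) (nat_lit 250) (nat_lit 267) (nat_lit 203)) (XT.lf (nat_lit 84) (nat_lit 1632439683) (nat_lit 0) (nat_lit 970248860) (nat_lit 168) (nat_lit 1632439683) (nat_lit 26) (nat_lit 1) (nat_lit 25)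 (nat_lit 1) (nat_lit 27) (nat_lit 1) (nat_lit 251) (nat_lit 267) (nat_lit 202)))) (XT.nd (nat_lit 188) (nat_lit 252) (nat_lit 0) (XT.nd (nat_lit 94) (nat_lit 0) (nat_lit 0) (XT.lf (nat_lit 168) (nat_lit 1939009510) (nat_lit 0) (nat_lit 1112580598) (nat_lit 84) (nat_lit 1112580598) (nat_lit 26) (nat_lit 1) (nat_lit 24) (nat_lit 1) (nat_lit 25) (nat_lit 1) (nat_lit 252) (nat_lit 267) (nat_lit 201)) (XT.lf (nat_lit 0) (nat_lit 322244635) (nat_lit 0) (nat_lit 3450589175) (nat_lit 168) (nat_lit 322244635) (nat_lit 24) (nat_lit 3) (nat_lit 24) (nat_lit 1) (nat_lit 26) (nat_lit 1) (nat_lit 253) (nat_lit 267) (nat_lit 200))) (XT.nd (nat_lit 94) (nat_lit 84) (nat_lit 0) (XT.lf (nat_lit 84) (nat_lit 1701347428) (nat_lit 0) (nat_lit 623428450) (nat_lit 168) (nat_lit 1701347428) (nat_lit 23) (nat_lit 1) (nat_lit 22) (nat_lit 1) (nat_lit 24) (nat_lit 1) (nat_lit 254) (nat_lit 267) (nat_lit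 199)) (XT.lf (nat_lit 168) (nat_lit 2128360871) (nat_lit 0) (nat_lit 915322811) (nat_lit 84) (nat_lit 915322811) (nat_lit 23) (nat_lit 1) (nat_lit 21) (nat_lit 1) (nat_lit 22) (nat_lit 1) (nat_lit 255) (nat_lit 267) (nat_lit 198))))) (XT.nd (nat_lit 282) (nat_lit 252) (nat_lit 0) (XT.nd (nat_lit 94) (nat_lit 252) (nat_lit 0) (XT.lf (nat_lit 0) (nat_lit 439909147) (nat_lit 0) (nat_lit 3013605941) (nat_lit 168) (nat_lit 439909147) (nat_lit 21) (nat_lit 3) (nat_lit 21) (nat_lit 1) (nat_lit 23) (nat_lit 1) (nat_lit 256) (nat_lit 267) (nat_lit 197)) (XT.nd (nat_lit 94) (nat_lit 84) (nat_lit 0) (XT.lf (nat_lit 84) (nat_lit 1740974416) (nat_lit 0) (nat_lit 346422140) (nat_lit 168) (nat_lit 1740974416) (nat_lit 20) (nat_lit 1) (nat_lit 19) (nat_lit 1) (nat_lit 21) (nat_lit 1) (nat_lit 257) (nat_lit 267) (nat_lit 196)) (XT.lf (nat_lit 168) (nat_lit 2258753420) (nat_lit 0) (nat_lit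 753038342) (nat_lit 84) (nat_lit 753038342) (nat_lit 20) (nat_lit 1) (nat_lit 18) (nat_lit 1) (nat_lit 19) (nat_lit 1) (nat_lit 258) (nat_lit 267) (nat_lit 195)))) (XT.nd (nat_lit 188) (nat_lit 84) (nat_lit 0) (XT.nd (nat_lit 94) (nat_lit 168) (nat_lit 0) (XT.lf (nat_lit 0) (nat_lit 528388332) (nat_lit 0) (nat_lit 2645775055) (nat_lit 168) (nat_lit 528388332) (nat_lit 18) (nat_lit 3) (nat_lit 18) (nat_lit 1) (nat_lit 20) (nat_lit 1) (nat_lit 259) (nat_lit 267) (nat_lit 194)) (XT.lf (nat_lit 84) (nat_lit 1757324605) (nat_lit 0) (nat_lit 126455696) (nat_lit 168) (nat_lit 1757324605) (nat_lit 17) (nat_lit 1) (nat_lit 16) (nat_lit 1) (nat_lit 18) (nat_lit 1) (nat_lit 260) (nat_lit 267) (nat_lit 193))) (XT.nd (nat_lit 94) (nat_lit 0) (nat_lit 0) (XT.lf (nat_lit 168) (nat_lit 2341849329) (nat_lit 0) (nat_lit 619526507) (nat_lit 84) (nat_lit 619526507) (nat_lit 17) (nat_lit 1)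 (nat_lit 15) (nat_lit 1) (nat_lit 16) (nat_lit 1) (nat_lit 261) (nat_lit 267) (nat_lit 192)) (XT.lf (nat_lit 0) (nat_lit 593253044) (nat_lit 0) (nat_lit 2335232341) (nat_lit 168) (nat_lit 593253044) (nat_lit 15) (nat_lit 3) (nat_lit 15) (nat_lit 1) (nat_lit 17) (nat_lit 1) (nat_lit 262) (nat_lit 267) (nat_lit 191))))))) (XT.nd (nat_lit 1316) (nat_lit 0) (nat_lit 0) (XT.nd (nat_lit 658) (nat_lit 672) (nat_lit 0) (XT.nd (nat_lit 282) (nat_lit 336) (nat_lit 0) (XT.nd (nat_lit 94) (nat_lit 168) (nat_lit 0) (XT.lf (nat_lit 84) (nat_lit 48514156) (nat_lit 0) (nat_lit 1707542057) (nat_lit 84) (nat_lit 1707542057) (nat_lit 15) (nat_lit 3) (nat_lit 14) (nat_lit 1) (nat_lit 15) (nat_lit 1) (nat_lit 263) (nat_lit 267) (nat_lit 190)) (XT.nd (nat_lit 94) (nat_lit 0) (nat_lit 0) (XT.lf (nat_lit 168) (nat_lit 2387185524) (nat_lit 0) (nat_lit 509685991) (nat_lit 84) (nat_lit 509685991)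 (nat_lit 14) (nat_lit 1) (nat_lit 12) (nat_lit 1) (nat_lit 13) (nat_lit 1) (nat_lit 264) (nat_lit 267) (nat_lit 189)) (XT.lf (nat_lit 0) (nat_lit 639067563) (nat_lit 0) (nat_lit 2072198241) (nat_lit 168) (nat_lit 639067563) (nat_lit 12) (nat_lit 3) (nat_lit 12) (nat_lit 1) (nat_lit 14) (nat_lit 1) (nat_lit 265) (nat_lit 267) (nat_lit 188)))) (XT.nd (nat_lit 188) (nat_lit 84) (nat_lit 0) (XT.nd (nat_lit 94) (nat_lit 168) (nat_lit 0) (XT.lf (nat_lit 84) (nat_lit 188474098) (nat_lit 0) (nat_lit 1553360459) (nat_lit 84) (nat_lit 1553360459) (nat_lit 12) (nat_lit 3) (nat_lit 11) (nat_lit 1) (nat_lit 12) (nat_lit 1) (nat_lit 266) (nat_lit 267) (nat_lit 187)) (XT.lf (nat_lit 168) (nat_lit 2402553234) (nat_lit 0) (nat_lit 419319926) (nat_lit 84) (nat_lit 419319926) (nat_lit 11) (nat_lit 1) (nat_lit 9) (nat_lit 1) (nat_lit 10) (nat_lit 1) (nat_lit 267) (nat_lit 267) (nat_lit 186)))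 (XT.nd (nat_lit 94) (nat_lit 84) (nat_lit 0) (XT.lf (nat_lit 0) (nat_lit 669568956) (nat_lit 0) (nat_lit 1848609111) (nat_lit 168) (nat_lit 669568956) (nat_lit 9) (nat_lit 3) (nat_lit 9) (nat_lit 1) (nat_lit 11) (nat_lit 1) (nat_lit 268) (nat_lit 267) (nat_lit 185)) (XT.lf (nat_lit 84) (nat_lit 296545138) (nat_lit 0) (nat_lit 1419440525) (nat_lit 84) (nat_lit 1419440525) (nat_lit 9) (nat_lit 3) (nat_lit 8) (nat_lit 1) (nat_lit 9) (nat_lit 1) (nat_lit 269) (nat_lit 267) (nat_lit 184))))) (XT.nd (nat_lit 282) (nat_lit 420) (nat_lit 0) (XT.nd (nat_lit 94) (nat_lit 84) (nat_lit 0) (XT.lf (nat_lit 168) (nat_lit 2394310107) (nat_lit 0) (nat_lit 344975541) (nat_lit 84) (nat_lit 344975541) (nat_lit 8) (nat_lit 1) (nat_lit 6) (nat_lit 1) (nat_lit 7) (nat_lit 1) (nat_lit 270) (nat_lit 267) (nat_lit 183)) (XT.nd (nat_lit 94) (nat_lit 84) (nat_lit 0) (XT.lf (nat_lit 0) (nat_lit 687814599)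 (nat_lit 0) (nat_lit 1657813853) (nat_lit 168) (nat_lit 687814599) (nat_lit 6) (nat_lit 3) (nat_lit 6) (nat_lit 1) (nat_lit 8) (nat_lit 1) (nat_lit 271) (nat_lit 267) (nat_lit 182)) (XT.lf (nat_lit 84) (nat_lit 378717972) (nat_lit 0) (nat_lit 1302526786) (nat_lit 84) (nat_lit 1302526786) (nat_lit 6) (nat_lit 3) (nat_lit 5) (nat_lit 1) (nat_lit 6) (nat_lit 1) (nat_lit 272) (nat_lit 267) (nat_lit 181)))) (XT.nd (nat_lit 188) (nat_lit 252) (nat_lit 0) (XT.nd (nat_lit 94) (nat_lit 0) (nat_lit 0) (XT.lf (nat_lit 168) (nat_lit 2367636865) (nat_lit 0) (nat_lit 283812231) (nat_lit 84) (nat_lit 283812231) (nat_lit 5) (nat_lit 1) (nat_lit 3) (nat_lit 1) (nat_lit 4) (nat_lit 1) (nat_lit 273) (nat_lit 267) (nat_lit 180)) (XT.lf (nat_lit 0) (nat_lit 696303499) (nat_lit 0) (nat_lit 1494324286) (nat_lit 168) (nat_lit 696303499) (nat_lit 3) (nat_lit 3) (nat_lit 3) (nat_lit 1) (nat_lit 5)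 (nat_lit 1) (nat_lit 274) (nat_lit 267) (nat_lit 179))) (XT.nd (nat_lit 94) (nat_lit 168) (nat_lit 0) (XT.lf (nat_lit 84) (nat_lit 439905121) (nat_lit 0) (nat_lit 1199924918) (nat_lit 84) (nat_lit 1199924918) (nat_lit 3) (nat_lit 3) (nat_lit 2) (nat_lit 1) (nat_lit 3) (nat_lit 1) (nat_lit 275) (nat_lit 267) (nat_lit 178)) (XT.lf (nat_lit 0) (nat_lit 4058424463) (nat_lit 0) (nat_lit 0) (nat_lit 0) (nat_lit 0) (nat_lit 0) (nat_lit 0) (nat_lit 1) (nat_lit 0) (nat_lit 1) (nat_lit 0) (nat_lit 276) (nat_lit 267) (nat_lit 177)))))) (XT.nd (nat_lit 658) (nat_lit 0) (nat_lit 0) (XT.nd (nat_lit 282) (nat_lit 0) (nat_lit 0) (XT.nd (nat_lit 94) (nat_lit 0) (nat_lit 0) (XT.lf (nat_lit 0) (nat_lit 4056059879) (nat_lit 0) (nat_lit 0) (nat_lit 0) (nat_lit 0) (nat_lit 0) (nat_lit 0) (nat_lit 1) (nat_lit 0) (nat_lit 1) (nat_lit 0) (nat_lit 277) (nat_lit 267) (nat_lit 176)) (XT.nd (nat_lit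 94) (nat_lit 0) (nat_lit 0) (XT.lf (nat_lit 0) (nat_lit 4053807895) (nat_lit 0) (nat_lit 0) (nat_lit 0) (nat_lit 0) (nat_lit 0) (nat_lit 0) (nat_lit 1) (nat_lit 0) (nat_lit 1) (nat_lit 0) (nat_lit 278) (nat_lit 267) (nat_lit 175)) (XT.lf (nat_lit 0) (nat_lit 4051663147) (nat_lit 0) (nat_lit 0) (nat_lit 0) (nat_lit 0) (nat_lit 0) (nat_lit 0) (nat_lit 1) (nat_lit 0) (nat_lit 1) (nat_lit 0) (nat_lit 279) (nat_lit 267) (nat_lit 174)))) (XT.nd (nat_lit 188) (nat_lit 0) (nat_lit 0) (XT.nd (nat_lit 94) (nat_lit 0) (nat_lit 0) (XT.lf (nat_lit 0) (nat_lit 4049620531) (nat_lit 0) (nat_lit 0) (nat_lit 0) (nat_lit 0) (nat_lit 0) (nat_lit 0) (nat_lit 1) (nat_lit 0) (nat_lit 1) (nat_lit 0) (nat_lit 280) (nat_lit 267) (nat_lit 173)) (XT.lf (nat_lit 0) (nat_lit 4047675182) (nat_lit 0) (nat_lit 0) (nat_lit 0) (nat_lit 0) (nat_lit 0) (nat_lit 0) (nat_lit 1) (nat_lit 0) (nat_lit 1) (nat_lit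 0) (nat_lit 281) (nat_lit 267) (nat_lit 172))) (XT.nd (nat_lit 94) (nat_lit 0) (nat_lit 0) (XT.lf (nat_lit 0) (nat_lit 4045822468) (nat_lit 0) (nat_lit 0) (nat_lit 0) (nat_lit 0) (nat_lit 0) (nat_lit 0) (nat_lit 1) (nat_lit 0) (nat_lit 1) (nat_lit 0) (nat_lit 282) (nat_lit 267) (nat_lit 171)) (XT.lf (nat_lit 0) (nat_lit 4044057980) (nat_lit 0) (nat_lit 0) (nat_lit 0) (nat_lit 0) (nat_lit 0) (nat_lit 0) (nat_lit 1) (nat_lit 0) (nat_lit 1) (nat_lit 0) (nat_lit 283) (nat_lit 267) (nat_lit 170))))) (XT.nd (nat_lit 282) (nat_lit 0) (nat_lit 0) (XT.nd (nat_lit 94) (nat_lit 0) (nat_lit 0) (XT.lf (nat_lit 0) (nat_lit 4042377514) (nat_lit 0) (nat_lit 0) (nat_lit 0) (nat_lit 0) (nat_lit 0) (nat_lit 0) (nat_lit 1) (nat_lit 0) (nat_lit 1) (nat_lit 0) (nat_lit 284) (nat_lit 267) (nat_lit 169)) (XT.nd (nat_lit 94) (nat_lit 0) (nat_lit 0) (XT.lf (nat_lit 0) (nat_lit 4040777070) (nat_lit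 0) (nat_lit 0) (nat_lit 0) (nat_lit 0) (nat_lit 0) (nat_lit 0) (nat_lit 1) (nat_lit 0) (nat_lit 1) (nat_lit 0) (nat_lit 285) (nat_lit 267) (nat_lit 168)) (XT.lf (nat_lit 0) (nat_lit 4039252839) (nat_lit 0) (nat_lit 0) (nat_lit 0) (nat_lit 0) (nat_lit 0) (nat_lit 0) (nat_lit 1) (nat_lit 0) (nat_lit 1) (nat_lit 0) (nat_lit 286) (nat_lit 267) (nat_lit 167)))) (XT.nd (nat_lit 188) (nat_lit 0) (nat_lit 0) (XT.nd (nat_lit 94) (nat_lit 0) (nat_lit 0) (XT.lf (nat_lit 0) (nat_lit 4037801189) (nat_lit 0) (nat_lit 0) (nat_lit 0) (nat_lit 0) (nat_lit 0) (nat_lit 0) (nat_lit 1) (nat_lit 0) (nat_lit 1) (nat_lit 0) (nat_lit 287) (nat_lit 267) (nat_lit 166)) (XT.lf (nat_lit 0) (nat_lit 4036418666) (nat_lit 0) (nat_lit 0) (nat_lit 0) (nat_lit 0) (nat_lit 0) (nat_lit 0) (nat_lit 1) (nat_lit 0) (nat_lit 1) (nat_lit 0) (nat_lit 288) (nat_lit 267) (nat_lit 165))) (XT.nd (nat_lit 94) (nat_lit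 0) (nat_lit 0) (XT.lf (nat_lit 0) (nat_lit 4035101977) (nat_lit 0) (nat_lit 0) (nat_lit 0) (nat_lit 0) (nat_lit 0) (nat_lit 0) (nat_lit 1) (nat_lit 0) (nat_lit 1) (nat_lit 0) (nat_lit 289) (nat_lit 267) (nat_lit 164)) (XT.lf (nat_lit 0) (nat_lit 4033847988) (nat_lit 0) (nat_lit 0) (nat_lit 0) (nat_lit 0) (nat_lit 0) (nat_lit 0) (nat_lit 1) (nat_lit 0) (nat_lit 1) (nat_lit 0) (nat_lit 290) (nat_lit 267) (nat_lit 163))))))))
noncomputable def ec84 : XT := (XT.nd (nat_lit 35156) (nat_lit 0) (nat_lit 6804) (XT.nd (nat_lit 1222) (nat_lit 0) (nat_lit 0) (XT.nd (nat_lit 564) (nat_lit 0) (nat_lit 0) (XT.nd (nat_lit 282) (nat_lit 0) (nat_lit 0) (XT.nd (nat_lit 94) (nat_lit 0) (nat_lit 0) (XT.lf (nat_lit 0) (nat_lit 4032653712) (nat_lit 0) (nat_lit 0) (nat_lit 0) (nat_lit 0) (nat_lit 0) (nat_lit 0) (nat_lit 1) (nat_lit 0) (nat_lit 1) (nat_lit 0) (nat_lit 291) (nat_lit 267) (nat_lit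 162)) (XT.nd (nat_lit 94) (nat_lit 0) (nat_lit 0) (XT.lf (nat_lit 0) (nat_lit 4031516307) (nat_lit 0) (nat_lit 0) (nat_lit 0) (nat_lit 0) (nat_lit 0) (nat_lit 0) (nat_lit 1) (nat_lit 0) (nat_lit 1) (nat_lit 0) (nat_lit 292) (nat_lit 267) (nat_lit 161)) (XT.lf (nat_lit 0) (nat_lit 4030433064) (nat_lit 0) (nat_lit 0) (nat_lit 0) (nat_lit 0) (nat_lit 0) (nat_lit 0) (nat_lit 1) (nat_lit 0) (nat_lit 1) (nat_lit 0) (nat_lit 293) (nat_lit 267) (nat_lit 160)))) (XT.nd (nat_lit 94) (nat_lit 0) (nat_lit 0) (XT.lf (nat_lit 0) (nat_lit 4029401404) (nat_lit 0) (nat_lit 0) (nat_lit 0) (nat_lit 0) (nat_lit 0) (nat_lit 0) (nat_lit 1) (nat_lit 0) (nat_lit 1) (nat_lit 0) (nat_lit 294) (nat_lit 267) (nat_lit 159)) (XT.nd (nat_lit 94) (nat_lit 0) (nat_lit 0) (XT.lf (nat_lit 0) (nat_lit 4028418870) (nat_lit 0) (nat_lit 0) (nat_lit 0) (nat_lit 0) (nat_lit 0) (nat_lit 0) (nat_lit 1) (nat_lit 0)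 (nat_lit 1) (nat_lit 0) (nat_lit 295) (nat_lit 267) (nat_lit 158)) (XT.lf (nat_lit 0) (nat_lit 4027483124) (nat_lit 0) (nat_lit 0) (nat_lit 0) (nat_lit 0) (nat_lit 0) (nat_lit 0) (nat_lit 1) (nat_lit 0) (nat_lit 1) (nat_lit 0) (nat_lit 296) (nat_lit 267) (nat_lit 157))))) (XT.nd (nat_lit 282) (nat_lit 0) (nat_lit 0) (XT.nd (nat_lit 94) (nat_lit 0) (nat_lit 0) (XT.lf (nat_lit 0) (nat_lit 4026591937) (nat_lit 0) (nat_lit 0) (nat_lit 0) (nat_lit 0) (nat_lit 0) (nat_lit 0) (nat_lit 1) (nat_lit 0) (nat_lit 1) (nat_lit 0) (nat_lit 297) (nat_lit 267) (nat_lit 156)) (XT.nd (nat_lit 94) (nat_lit 0) (nat_lit 0) (XT.lf (nat_lit 0) (nat_lit 4025743188) (nat_lit 0) (nat_lit 0) (nat_lit 0) (nat_lit 0) (nat_lit 0) (nat_lit 0) (nat_lit 1) (nat_lit 0) (nat_lit 1) (nat_lit 0) (nat_lit 298) (nat_lit 267) (nat_lit 155)) (XT.lf (nat_lit 0) (nat_lit 4024934855) (nat_lit 0) (nat_lit 0) (nat_lit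 0) (nat_lit 0) (nat_lit 0) (nat_lit 0) (nat_lit 1) (nat_lit 0) (nat_lit 1) (nat_lit 0) (nat_lit 299) (nat_lit 267) (nat_lit 154)))) (XT.nd (nat_lit 188) (nat_lit 0) (nat_lit 0) (XT.nd (nat_lit 94) (nat_lit 0) (nat_lit 0) (XT.lf (nat_lit 0) (nat_lit 4024165014) (nat_lit 0) (nat_lit 0) (nat_lit 0) (nat_lit 0) (nat_lit 0) (nat_lit 0) (nat_lit 1) (nat_lit 0) (nat_lit 1) (nat_lit 0) (nat_lit 300) (nat_lit 267) (nat_lit 153)) (XT.lf (nat_lit 0) (nat_lit 4023431833) (nat_lit 0) (nat_lit 0) (nat_lit 0) (nat_lit 0) (nat_lit 0) (nat_lit 0) (nat_lit 1) (nat_lit 0) (nat_lit 1) (nat_lit 0) (nat_lit 301) (nat_lit 267) (nat_lit 152))) (XT.nd (nat_lit 94) (nat_lit 0) (nat_lit 0) (XT.lf (nat_lit 0) (nat_lit 4022733565) (nat_lit 0) (nat_lit 0) (nat_lit 0) (nat_lit 0) (nat_lit 0) (nat_lit 0) (nat_lit 1) (nat_lit 0) (nat_lit 1) (nat_lit 0) (nat_lit 302) (nat_lit 267) (nat_lit 151)) (XT.lf (nat_lit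 0) (nat_lit 4022068547) (nat_lit 0) (nat_lit 0) (nat_lit 0) (nat_lit 0) (nat_lit 0) (nat_lit 0) (nat_lit 1) (nat_lit 0) (nat_lit 1) (nat_lit 0) (nat_lit 303) (nat_lit 267) (nat_lit 150)))))) (XT.nd (nat_lit 658) (nat_lit 0) (nat_lit 0) (XT.nd (nat_lit 282) (nat_lit 0) (nat_lit 0) (XT.nd (nat_lit 94) (nat_lit 0) (nat_lit 0) (XT.lf (nat_lit 0) (nat_lit 4021435197) (nat_lit 0) (nat_lit 0) (nat_lit 0) (nat_lit 0) (nat_lit 0) (nat_lit 0) (nat_lit 1) (nat_lit 0) (nat_lit 1) (nat_lit 0) (nat_lit 304) (nat_lit 267) (nat_lit 149)) (XT.nd (nat_lit 94) (nat_lit 0) (nat_lit 0) (XT.lf (nat_lit 0) (nat_lit 4020832007) (nat_lit 0) (nat_lit 0) (nat_lit 0) (nat_lit 0) (nat_lit 0) (nat_lit 0) (nat_lit 1) (nat_lit 0) (nat_lit 1) (nat_lit 0) (nat_lit 305) (nat_lit 267) (nat_lit 148)) (XT.lf (nat_lit 0) (nat_lit 4020257540) (nat_lit 0) (nat_lit 0) (nat_lit 0) (nat_lit 0) (nat_lit 0) (nat_lit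 0) (nat_lit 1) (nat_lit 0) (nat_lit 1) (nat_lit 0) (nat_lit 306) (nat_lit 267) (nat_lit 147)))) (XT.nd (nat_lit 188) (nat_lit 0) (nat_lit 0) (XT.nd (nat_lit 94) (nat_lit 0) (nat_lit 0) (XT.lf (nat_lit 0) (nat_lit 4019710429) (nat_lit 0) (nat_lit 0) (nat_lit 0) (nat_lit 0) (nat_lit 0) (nat_lit 0) (nat_lit 1) (nat_lit 0) (nat_lit 1) (nat_lit 0) (nat_lit 307) (nat_lit 267) (nat_lit 146)) (XT.lf (nat_lit 0) (nat_lit 4019189370) (nat_lit 0) (nat_lit 0) (nat_lit 0) (nat_lit 0) (nat_lit 0) (nat_lit 0) (nat_lit 1) (nat_lit 0) (nat_lit 1) (nat_lit 0) (nat_lit 308) (nat_lit 267) (nat_lit 145))) (XT.nd (nat_lit 94) (nat_lit 0) (nat_lit 0) (XT.lf (nat_lit 0) (nat_lit 4018693124) (nat_lit 0) (nat_lit 0) (nat_lit 0) (nat_lit 0) (nat_lit 0) (nat_lit 0) (nat_lit 1) (nat_lit 0) (nat_lit 1) (nat_lit 0) (nat_lit 309) (nat_lit 267) (nat_lit 144)) (XT.lf (nat_lit 0) (nat_lit 4018220509) (nat_lit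 0) (nat_lit 0) (nat_lit 0) (nat_lit 0) (nat_lit 0) (nat_lit 0) (nat_lit 1) (nat_lit 0) (nat_lit 1) (nat_lit 0) (nat_lit 310) (nat_lit 267) (nat_lit 143))))) (XT.nd (nat_lit 282) (nat_lit 0) (nat_lit 0) (XT.nd (nat_lit 94) (nat_lit 0) (nat_lit 0) (XT.lf (nat_lit 0) (nat_lit 4017770399) (nat_lit 0) (nat_lit 0) (nat_lit 0) (nat_lit 0) (nat_lit 0) (nat_lit 0) (nat_lit 1) (nat_lit 0) (nat_lit 1) (nat_lit 0) (nat_lit 311) (nat_lit 267) (nat_lit 142)) (XT.nd (nat_lit 94) (nat_lit 0) (nat_lit 0) (XT.lf (nat_lit 0) (nat_lit 4017341723) (nat_lit 0) (nat_lit 0) (nat_lit 0) (nat_lit 0) (nat_lit 0) (nat_lit 0) (nat_lit 1) (nat_lit 0) (nat_lit 1) (nat_lit 0) (nat_lit 312) (nat_lit 267) (nat_lit 141)) (XT.lf (nat_lit 0) (nat_lit 4016933460) (nat_lit 0) (nat_lit 0) (nat_lit 0) (nat_lit 0) (nat_lit 0) (nat_lit 0) (nat_lit 1) (nat_lit 0) (nat_lit 1) (nat_lit 0) (nat_lit 313) (nat_lit 267)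 (nat_lit 140)))) (XT.nd (nat_lit 188) (nat_lit 0) (nat_lit 0) (XT.nd (nat_lit 94) (nat_lit 0) (nat_lit 0) (XT.lf (nat_lit 0) (nat_lit 4016544638) (nat_lit 0) (nat_lit 0) (nat_lit 0) (nat_lit 0) (nat_lit 0) (nat_lit 0) (nat_lit 1) (nat_lit 0) (nat_lit 1) (nat_lit 0) (nat_lit 314) (nat_lit 267) (nat_lit 139)) (XT.lf (nat_lit 0) (nat_lit 4016174331) (nat_lit 0) (nat_lit 0) (nat_lit 0) (nat_lit 0) (nat_lit 0) (nat_lit 0) (nat_lit 1) (nat_lit 0) (nat_lit 1) (nat_lit 0) (nat_lit 315) (nat_lit 267) (nat_lit 138))) (XT.nd (nat_lit 94) (nat_lit 0) (nat_lit 0) (XT.lf (nat_lit 0) (nat_lit 4015821659) (nat_lit 0) (nat_lit 0) (nat_lit 0) (nat_lit 0) (nat_lit 0) (nat_lit 0) (nat_lit 1) (nat_lit 0) (nat_lit 1) (nat_lit 0) (nat_lit 316) (nat_lit 267) (nat_lit 137)) (XT.lf (nat_lit 0) (nat_lit 4015485780) (nat_lit 0) (nat_lit 0) (nat_lit 0) (nat_lit 0) (nat_lit 0) (nat_lit 0) (nat_lit 1)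 (nat_lit 0) (nat_lit 1) (nat_lit 0) (nat_lit 317) (nat_lit 267) (nat_lit 136))))))) (XT.nd (nat_lit 1222) (nat_lit 2940) (nat_lit 0) (XT.nd (nat_lit 564) (nat_lit 1008) (nat_lit 0) (XT.nd (nat_lit 282) (nat_lit 0) (nat_lit 84) (XT.nd (nat_lit 94) (nat_lit 0) (nat_lit 0) (XT.lf (nat_lit 924) (nat_lit 2106444655) (nat_lit 0) (nat_lit 3739987643) (nat_lit 924) (nat_lit 2106444655) (nat_lit 139) (nat_lit 1) (nat_lit 128) (nat_lit 0) (nat_lit 139) (nat_lit 0) (nat_lit 184) (nat_lit 268) (nat_lit 268)) (XT.nd (nat_lit 94) (nat_lit 0) (nat_lit 84) (XT.lf (nat_lit 924) (nat_lit 8164842462) (nat_lit 84) (nat_lit 3679665261) (nat_lit 0) (nat_lit 3679665261) (nat_lit 139) (nat_lit 1) (nat_lit 129) (nat_lit 1) (nat_lit 128) (nat_lit 0) (nat_lit 185) (nat_lit 268) (nat_lit 267)) (XT.lf (nat_lit 924) (nat_lit 3891240979) (nat_lit 0) (nat_lit 7371906822) (nat_lit 840) (nat_lit 3891240979)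 (nat_lit 140) (nat_lit 1) (nat_lit 129) (nat_lit 1) (nat_lit 139) (nat_lit 1) (nat_lit 186) (nat_lit 268) (nat_lit 266)))) (XT.nd (nat_lit 94) (nat_lit 0) (nat_lit 84) (XT.lf (nat_lit 924) (nat_lit 7299427376) (nat_lit 84) (nat_lit 3748561993) (nat_lit 0) (nat_lit 3748561993) (nat_lit 140) (nat_lit 1) (nat_lit 130) (nat_lit 1) (nat_lit 129) (nat_lit 1) (nat_lit 187) (nat_lit 268) (nat_lit 265)) (XT.nd (nat_lit 94) (nat_lit 0) (nat_lit 0) (XT.lf (nat_lit 924) (nat_lit 3359856324) (nat_lit 0) (nat_lit 7730342945) (nat_lit 840) (nat_lit 3359856324) (nat_lit 141) (nat_lit 1) (nat_lit 130) (nat_lit 1) (nat_lit 140) (nat_lit 1) (nat_lit 188) (nat_lit 268) (nat_lit 264)) (XT.lf (nat_lit 924) (nat_lit 6042920433) (nat_lit 84) (nat_lit 4035600953) (nat_lit 0) (nat_lit 4035600953) (nat_lit 141) (nat_lit 1) (nat_lit 131) (nat_lit 1) (nat_lit 130) (nat_lit 1) (nat_lit 189) (nat_lit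 268) (nat_lit 263))))) (XT.nd (nat_lit 282) (nat_lit 1260) (nat_lit 0) (XT.nd (nat_lit 94) (nat_lit 0) (nat_lit 0) (XT.lf (nat_lit 924) (nat_lit 2649646074) (nat_lit 0) (nat_lit 8490176414) (nat_lit 840) (nat_lit 2649646074) (nat_lit 142) (nat_lit 1) (nat_lit 131) (nat_lit 1) (nat_lit 141) (nat_lit 1) (nat_lit 190) (nat_lit 268) (nat_lit 262)) (XT.nd (nat_lit 94) (nat_lit 0) (nat_lit 84) (XT.lf (nat_lit 924) (nat_lit 4454136406) (nat_lit 84) (nat_lit 4509808604) (nat_lit 0) (nat_lit 4509808604) (nat_lit 142) (nat_lit 1) (nat_lit 132) (nat_lit 1) (nat_lit 131) (nat_lit 1) (nat_lit 191) (nat_lit 268) (nat_lit 261)) (XT.lf (nat_lit 924) (nat_lit 1788103773) (nat_lit 0) (nat_lit 9593388091) (nat_lit 840) (nat_lit 1788103773) (nat_lit 143) (nat_lit 1) (nat_lit 132) (nat_lit 1) (nat_lit 142) (nat_lit 1) (nat_lit 192) (nat_lit 268) (nat_lit 260)))) (XT.nd (nat_lit 188) (nat_lit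 1344) (nat_lit 0) (XT.nd (nat_lit 94) (nat_lit 0) (nat_lit 84) (XT.lf (nat_lit 924) (nat_lit 2585352755) (nat_lit 84) (nat_lit 5143600210) (nat_lit 0) (nat_lit 5143600210) (nat_lit 143) (nat_lit 1) (nat_lit 133) (nat_lit 1) (nat_lit 132) (nat_lit 1) (nat_lit 193) (nat_lit 268) (nat_lit 259)) (XT.lf (nat_lit 84) (nat_lit 799649347) (nat_lit 0) (nat_lit 10988338671) (nat_lit 840) (nat_lit 799649347) (nat_lit 134) (nat_lit 1) (nat_lit 133) (nat_lit 1) (nat_lit 143) (nat_lit 1) (nat_lit 194) (nat_lit 268) (nat_lit 258))) (XT.nd (nat_lit 94) (nat_lit 588) (nat_lit 0) (XT.lf (nat_lit 924) (nat_lit 482968320) (nat_lit 0) (nat_lit 5912440535) (nat_lit 840) (nat_lit 5912440535) (nat_lit 134) (nat_lit 1) (nat_lit 123) (nat_lit 1) (nat_lit 133) (nat_lit 1) (nat_lit 195) (nat_lit 268) (nat_lit 257)) (XT.lf (nat_lit 588) (nat_lit 11461446475) (nat_lit 0) (nat_lit 289317578) (nat_lit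 504) (nat_lit 289317578) (nat_lit 123) (nat_lit 1) (nat_lit 116) (nat_lit 1) (nat_lit 122) (nat_lit 1) (nat_lit 196) (nat_lit 268) (nat_lit 256)))))) (XT.nd (nat_lit 658) (nat_lit 1764) (nat_lit 0) (XT.nd (nat_lit 282) (nat_lit 756) (nat_lit 0) (XT.nd (nat_lit 94) (nat_lit 420) (nat_lit 0) (XT.lf (nat_lit 84) (nat_lit 5010924451) (nat_lit 0) (nat_lit 1753909479) (nat_lit 588) (nat_lit 5010924451) (nat_lit 117) (nat_lit 1) (nat_lit 116) (nat_lit 1) (nat_lit 123) (nat_lit 1) (nat_lit 197) (nat_lit 268) (nat_lit 255)) (XT.nd (nat_lit 94) (nat_lit 0) (nat_lit 0) (XT.lf (nat_lit 504) (nat_lit 8622514731) (nat_lit 0) (nat_lit 1450080066) (nat_lit 420) (nat_lit 1450080066) (nat_lit 117) (nat_lit 1) (nat_lit 111) (nat_lit 1) (nat_lit 116) (nat_lit 1) (nat_lit 198) (nat_lit 268) (nat_lit 254)) (XT.lf (nat_lit 84) (nat_lit 3574231410) (nat_lit 0) (nat_lit 4126449040) (nat_lit 504)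 (nat_lit 3574231410) (nat_lit 112) (nat_lit 1) (nat_lit 111) (nat_lit 1) (nat_lit 117) (nat_lit 1) (nat_lit 199) (nat_lit 268) (nat_lit 253)))) (XT.nd (nat_lit 188) (nat_lit 336) (nat_lit 0) (XT.nd (nat_lit 94) (nat_lit 0) (nat_lit 0) (XT.lf (nat_lit 504) (nat_lit 5678048229) (nat_lit 0) (nat_lit 2678864776) (nat_lit 420) (nat_lit 2678864776) (nat_lit 112) (nat_lit 1) (nat_lit 106) (nat_lit 1) (nat_lit 111) (nat_lit 1) (nat_lit 200) (nat_lit 268) (nat_lit 252)) (XT.lf (nat_lit 84) (nat_lit 2092285310) (nat_lit 0) (nat_lit 6619027905) (nat_lit 504) (nat_lit 2092285310) (nat_lit 107) (nat_lit 1) (nat_lit 106) (nat_lit 1) (nat_lit 112) (nat_lit 1) (nat_lit 201) (nat_lit 268) (nat_lit 251))) (XT.nd (nat_lit 94) (nat_lit 0) (nat_lit 0) (XT.lf (nat_lit 420) (nat_lit 2655452481) (nat_lit 0) (nat_lit 3960969603) (nat_lit 336) (nat_lit 3960969603) (nat_lit 107) (nat_lit 1) (nat_lit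 102) (nat_lit 1) (nat_lit 106) (nat_lit 1) (nat_lit 202) (nat_lit 268) (nat_lit 250)) (XT.lf (nat_lit 84) (nat_lit 577808741) (nat_lit 0) (nat_lit 9204266168) (nat_lit 420) (nat_lit 577808741) (nat_lit 103) (nat_lit 1) (nat_lit 102) (nat_lit 1) (nat_lit 107) (nat_lit 1) (nat_lit 203) (nat_lit 268) (nat_lit 249))))) (XT.nd (nat_lit 282) (nat_lit 1008) (nat_lit 0) (XT.nd (nat_lit 94) (nat_lit 336) (nat_lit 0) (XT.lf (nat_lit 84) (nat_lit 4868782486) (nat_lit 0) (nat_lit 407769990) (nat_lit 420) (nat_lit 4868782486) (nat_lit 98) (nat_lit 1) (nat_lit 97) (nat_lit 1) (nat_lit 102) (nat_lit 1) (nat_lit 204) (nat_lit 268) (nat_lit 248)) (XT.nd (nat_lit 94) (nat_lit 0) (nat_lit 0) (XT.lf (nat_lit 420) (nat_lit 8053734047) (nat_lit 0) (nat_lit 942611384) (nat_lit 336) (nat_lit 942611384) (nat_lit 98) (nat_lit 1) (nat_lit 93) (nat_lit 1) (nat_lit 97) (nat_lit 1) (nat_lit 205) (nat_lit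 268) (nat_lit 247)) (XT.lf (nat_lit 84) (nat_lit 3159028560) (nat_lit 0) (nat_lit 3418062011) (nat_lit 420) (nat_lit 3159028560) (nat_lit 94) (nat_lit 1) (nat_lit 93) (nat_lit 1) (nat_lit 98) (nat_lit 1) (nat_lit 206) (nat_lit 268) (nat_lit 246)))) (XT.nd (nat_lit 188) (nat_lit 672) (nat_lit 0) (XT.nd (nat_lit 94) (nat_lit 0) (nat_lit 0) (XT.lf (nat_lit 420) (nat_lit 4609901442) (nat_lit 0) (nat_lit 2465206851) (nat_lit 336) (nat_lit 2465206851) (nat_lit 94) (nat_lit 1) (nat_lit 89) (nat_lit 1) (nat_lit 93) (nat_lit 1) (nat_lit 207) (nat_lit 268) (nat_lit 245)) (XT.lf (nat_lit 84) (nat_lit 1453757178) (nat_lit 0) (nat_lit 6442722127) (nat_lit 420) (nat_lit 1453757178) (nat_lit 90) (nat_lit 1) (nat_lit 89) (nat_lit 1) (nat_lit 94) (nat_lit 1) (nat_lit 208) (nat_lit 268) (nat_lit 244))) (XT.nd (nat_lit 94) (nat_lit 420) (nat_lit 0) (XT.lf (nat_lit 336) (nat_lit 1182278450)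 (nat_lit 0) (nat_lit 3990991205) (nat_lit 252) (nat_lit 3990991205) (nat_lit 90) (nat_lit 1) (nat_lit 86) (nat_lit 1) (nat_lit 89) (nat_lit 1) (nat_lit 209) (nat_lit 268) (nat_lit 243)) (XT.lf (nat_lit 420) (nat_lit 8513022171) (nat_lit 0) (nat_lit 236220030) (nat_lit 336) (nat_lit 236220030) (nat_lit 86) (nat_lit 1) (nat_lit 81) (nat_lit 1) (nat_lit 85) (nat_lit 1) (nat_lit 210) (nat_lit 268) (nat_lit 242))))))))
noncomputable def ec85 : XT := (XT.nd (nat_lit 2538) (nat_lit 2604) (nat_lit 0) (XT.nd (nat_lit 1222) (nat_lit 1680) (nat_lit 0) (XT.nd (nat_lit 564) (nat_lit 924) (nat_lit 0) (XT.nd (nat_lit 282) (nat_lit 588) (nat_lit 0) (XT.nd (nat_lit 94) (nat_lit 252) (nat_lit 0) (XT.lf (nat_lit 84) (nat_lit 3331208511) (nat_lit 0) (nat_lit 2145236211) (nat_lit 420) (nat_lit 3331208511) (nat_lit 82) (nat_lit 1) (nat_lit 81) (nat_lit 1) (nat_lit 86) (nat_lit 1) (nat_lit 211)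 (nat_lit 268) (nat_lit 241)) (XT.nd (nat_lit 94) (nat_lit 0) (nat_lit 0) (XT.lf (nat_lit 336) (nat_lit 4865335345) (nat_lit 0) (nat_lit 1885664169) (nat_lit 252) (nat_lit 1885664169) (nat_lit 82) (nat_lit 1) (nat_lit 78) (nat_lit 1) (nat_lit 81) (nat_lit 1) (nat_lit 212) (nat_lit 268) (nat_lit 240)) (XT.lf (nat_lit 84) (nat_lit 1537034694) (nat_lit 0) (nat_lit 5395949028) (nat_lit 336) (nat_lit 1537034694) (nat_lit 79) (nat_lit 1) (nat_lit 78) (nat_lit 1) (nat_lit 82) (nat_lit 1) (nat_lit 213) (nat_lit 268) (nat_lit 239)))) (XT.nd (nat_lit 94) (nat_lit 336) (nat_lit 0) (XT.lf (nat_lit 336) (nat_lit 1281070376) (nat_lit 0) (nat_lit 3513046954) (nat_lit 252) (nat_lit 3513046954) (nat_lit 79) (nat_lit 1) (nat_lit 75) (nat_lit 1) (nat_lit 78) (nat_lit 1) (nat_lit 214) (nat_lit 268) (nat_lit 238)) (XT.nd (nat_lit 94) (nat_lit 0) (nat_lit 0) (XT.lf (nat_lit 336) (nat_lit 7710030036)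 (nat_lit 0) (nat_lit 220165177) (nat_lit 252) (nat_lit 220165177) (nat_lit 75) (nat_lit 1) (nat_lit 71) (nat_lit 1) (nat_lit 74) (nat_lit 1) (nat_lit 215) (nat_lit 268) (nat_lit 237)) (XT.lf (nat_lit 84) (nat_lit 2916483561) (nat_lit 0) (nat_lit 2161085034) (nat_lit 336) (nat_lit 2916483561) (nat_lit 72) (nat_lit 1) (nat_lit 71) (nat_lit 1) (nat_lit 75) (nat_lit 1) (nat_lit 216) (nat_lit 268) (nat_lit 236))))) (XT.nd (nat_lit 282) (nat_lit 504) (nat_lit 0) (XT.nd (nat_lit 94) (nat_lit 168) (nat_lit 0) (XT.lf (nat_lit 336) (nat_lit 4010431947) (nat_lit 0) (nat_lit 1916547702) (nat_lit 252) (nat_lit 1916547702) (nat_lit 72) (nat_lit 1) (nat_lit 68) (nat_lit 1) (nat_lit 71) (nat_lit 1) (nat_lit 217) (nat_lit 268) (nat_lit 235)) (XT.nd (nat_lit 94) (nat_lit 168) (nat_lit 0) (XT.lf (nat_lit 84) (nat_lit 1104469687) (nat_lit 0) (nat_lit 5488100317) (nat_lit 336) (nat_lit 1104469687)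 (nat_lit 69) (nat_lit 1) (nat_lit 68) (nat_lit 1) (nat_lit 72) (nat_lit 1) (nat_lit 218) (nat_lit 268) (nat_lit 234)) (XT.lf (nat_lit 252) (nat_lit 404714416) (nat_lit 0) (nat_lit 3574299043) (nat_lit 168) (nat_lit 3574299043) (nat_lit 69) (nat_lit 1) (nat_lit 66) (nat_lit 1) (nat_lit 68) (nat_lit 1) (nat_lit 219) (nat_lit 268) (nat_lit 233)))) (XT.nd (nat_lit 188) (nat_lit 168) (nat_lit 0) (XT.nd (nat_lit 94) (nat_lit 0) (nat_lit 0) (XT.lf (nat_lit 336) (nat_lit 6115099125) (nat_lit 0) (nat_lit 649467851) (nat_lit 252) (nat_lit 649467851) (nat_lit 66) (nat_lit 1) (nat_lit 62) (nat_lit 1) (nat_lit 65) (nat_lit 1) (nat_lit 220) (nat_lit 268) (nat_lit 232)) (XT.lf (nat_lit 84) (nat_lit 2135858969) (nat_lit 0) (nat_lit 3004596900) (nat_lit 336) (nat_lit 2135858969) (nat_lit 63) (nat_lit 1) (nat_lit 62) (nat_lit 1) (nat_lit 66) (nat_lit 1) (nat_lit 221) (nat_lit 268) (nat_lit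 231))) (XT.nd (nat_lit 94) (nat_lit 0) (nat_lit 0) (XT.lf (nat_lit 252) (nat_lit 2467655568) (nat_lit 0) (nat_lit 2337594848) (nat_lit 168) (nat_lit 2337594848) (nat_lit 63) (nat_lit 1) (nat_lit 60) (nat_lit 1) (nat_lit 62) (nat_lit 1) (nat_lit 222) (nat_lit 268) (nat_lit 230)) (XT.lf (nat_lit 84) (nat_lit 354523780) (nat_lit 0) (nat_lit 6304757476) (nat_lit 252) (nat_lit 354523780) (nat_lit 61) (nat_lit 1) (nat_lit 60) (nat_lit 1) (nat_lit 63) (nat_lit 1) (nat_lit 223) (nat_lit 268) (nat_lit 229)))))) (XT.nd (nat_lit 658) (nat_lit 672) (nat_lit 0) (XT.nd (nat_lit 282) (nat_lit 588) (nat_lit 0) (XT.nd (nat_lit 94) (nat_lit 168) (nat_lit 0) (XT.lf (nat_lit 84) (nat_lit 2925946959) (nat_lit 0) (nat_lit 1033339959) (nat_lit 252) (nat_lit 2925946959) (nat_lit 58) (nat_lit 1) (nat_lit 57) (nat_lit 1) (nat_lit 60) (nat_lit 1) (nat_lit 224) (nat_lit 268) (nat_lit 228)) (XT.nd (nat_lit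 94) (nat_lit 0) (nat_lit 0) (XT.lf (nat_lit 252) (nat_lit 4063190169) (nat_lit 0) (nat_lit 1348869048) (nat_lit 168) (nat_lit 1348869048) (nat_lit 58) (nat_lit 1) (nat_lit 55) (nat_lit 1) (nat_lit 57) (nat_lit 1) (nat_lit 225) (nat_lit 268) (nat_lit 227)) (XT.lf (nat_lit 84) (nat_lit 1146526557) (nat_lit 0) (nat_lit 4346316963) (nat_lit 252) (nat_lit 1146526557) (nat_lit 56) (nat_lit 1) (nat_lit 55) (nat_lit 1) (nat_lit 58) (nat_lit 1) (nat_lit 226) (nat_lit 268) (nat_lit 226)))) (XT.nd (nat_lit 188) (nat_lit 168) (nat_lit 0) (XT.nd (nat_lit 94) (nat_lit 252) (nat_lit 0) (XT.lf (nat_lit 252) (nat_lit 537106413) (nat_lit 0) (nat_lit 2991577888) (nat_lit 168) (nat_lit 2991577888) (nat_lit 56) (nat_lit 1) (nat_lit 53) (nat_lit 1) (nat_lit 55) (nat_lit 1) (nat_lit 227) (nat_lit 268) (nat_lit 225)) (XT.lf (nat_lit 252) (nat_lit 5279028822) (nat_lit 0) (nat_lit 562788361) (nat_lit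 168) (nat_lit 562788361) (nat_lit 53) (nat_lit 1) (nat_lit 50) (nat_lit 1) (nat_lit 52) (nat_lit 1) (nat_lit 228) (nat_lit 268) (nat_lit 224))) (XT.nd (nat_lit 94) (nat_lit 168) (nat_lit 0) (XT.lf (nat_lit 84) (nat_lit 1757401631) (nat_lit 0) (nat_lit 2775132756) (nat_lit 252) (nat_lit 1757401631) (nat_lit 51) (nat_lit 1) (nat_lit 50) (nat_lit 1) (nat_lit 53) (nat_lit 1) (nat_lit 229) (nat_lit 268) (nat_lit 223)) (XT.lf (nat_lit 252) (nat_lit 1789828238) (nat_lit 0) (nat_lit 2194383634) (nat_lit 168) (nat_lit 2194383634) (nat_lit 51) (nat_lit 1) (nat_lit 48) (nat_lit 1) (nat_lit 50) (nat_lit 1) (nat_lit 230) (nat_lit 268) (nat_lit 222))))) (XT.nd (nat_lit 282) (nat_lit 336) (nat_lit 0) (XT.nd (nat_lit 94) (nat_lit 336) (nat_lit 0) (XT.lf (nat_lit 84) (nat_lit 58826717) (nat_lit 0) (nat_lit 5953506276) (nat_lit 252) (nat_lit 58826717) (nat_lit 49) (nat_lit 1) (nat_lit 48)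 (nat_lit 1) (nat_lit 51) (nat_lit 1) (nat_lit 231) (nat_lit 268) (nat_lit 221)) (XT.nd (nat_lit 94) (nat_lit 168) (nat_lit 0) (XT.lf (nat_lit 84) (nat_lit 2221200953) (nat_lit 0) (nat_lit 1520639094) (nat_lit 168) (nat_lit 2221200953) (nat_lit 47) (nat_lit 1) (nat_lit 46) (nat_lit 1) (nat_lit 48) (nat_lit 1) (nat_lit 232) (nat_lit 268) (nat_lit 220)) (XT.lf (nat_lit 252) (nat_lit 2756257515) (nat_lit 0) (nat_lit 1551234466) (nat_lit 168) (nat_lit 1551234466) (nat_lit 47) (nat_lit 1) (nat_lit 44) (nat_lit 1) (nat_lit 46) (nat_lit 1) (nat_lit 233) (nat_lit 268) (nat_lit 219)))) (XT.nd (nat_lit 188) (nat_lit 168) (nat_lit 0) (XT.nd (nat_lit 94) (nat_lit 168) (nat_lit 0) (XT.lf (nat_lit 84) (nat_lit 552610582) (nat_lit 0) (nat_lit 4652006446) (nat_lit 252) (nat_lit 552610582) (nat_lit 45) (nat_lit 1) (nat_lit 44) (nat_lit 1) (nat_lit 47) (nat_lit 1) (nat_lit 234) (nat_lit 268)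 (nat_lit 218)) (XT.lf (nat_lit 84) (nat_lit 2565846837) (nat_lit 0) (nat_lit 524872125) (nat_lit 168) (nat_lit 2565846837) (nat_lit 43) (nat_lit 1) (nat_lit 42) (nat_lit 1) (nat_lit 44) (nat_lit 1) (nat_lit 235) (nat_lit 268) (nat_lit 217))) (XT.nd (nat_lit 94) (nat_lit 0) (nat_lit 0) (XT.lf (nat_lit 252) (nat_lit 3490209778) (nat_lit 0) (nat_lit 1034213597) (nat_lit 168) (nat_lit 1034213597) (nat_lit 43) (nat_lit 1) (nat_lit 40) (nat_lit 1) (nat_lit 42) (nat_lit 1) (nat_lit 236) (nat_lit 268) (nat_lit 216)) (XT.lf (nat_lit 84) (nat_lit 934837614) (nat_lit 0) (nat_lit 3592971596) (nat_lit 252) (nat_lit 934837614) (nat_lit 41) (nat_lit 1) (nat_lit 40) (nat_lit 1) (nat_lit 43) (nat_lit 1) (nat_lit 237) (nat_lit 268) (nat_lit 215))))))) (XT.nd (nat_lit 1316) (nat_lit 1260) (nat_lit 0) (XT.nd (nat_lit 658) (nat_lit 588) (nat_lit 0) (XT.nd (nat_lit 282) (nat_lit 420) (nat_lit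 0) (XT.nd (nat_lit 94) (nat_lit 252) (nat_lit 0) (XT.lf (nat_lit 168) (nat_lit 268357835) (nat_lit 0) (nat_lit 2550055111) (nat_lit 84) (nat_lit 2550055111) (nat_lit 41) (nat_lit 1) (nat_lit 39) (nat_lit 1) (nat_lit 40) (nat_lit 1) (nat_lit 238) (nat_lit 268) (nat_lit 214)) (XT.nd (nat_lit 94) (nat_lit 0) (nat_lit 0) (XT.lf (nat_lit 252) (nat_lit 4035813649) (nat_lit 0) (nat_lit 620382621) (nat_lit 168) (nat_lit 620382621) (nat_lit 39) (nat_lit 1) (nat_lit 36) (nat_lit 1) (nat_lit 38) (nat_lit 1) (nat_lit 239) (nat_lit 268) (nat_lit 213)) (XT.lf (nat_lit 84) (nat_lit 1226429904) (nat_lit 0) (nat_lit 2732855558) (nat_lit 252) (nat_lit 1226429904) (nat_lit 37) (nat_lit 1) (nat_lit 36) (nat_lit 1) (nat_lit 39) (nat_lit 1) (nat_lit 240) (nat_lit 268) (nat_lit 212)))) (XT.nd (nat_lit 188) (nat_lit 84) (nat_lit 0) (XT.nd (nat_lit 94) (nat_lit 252) (nat_lit 0) (XT.lf (nat_lit 168)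 (nat_lit 901206407) (nat_lit 0) (nat_lit 2097936651) (nat_lit 84) (nat_lit 2097936651) (nat_lit 37) (nat_lit 1) (nat_lit 35) (nat_lit 1) (nat_lit 36) (nat_lit 1) (nat_lit 241) (nat_lit 268) (nat_lit 211)) (XT.lf (nat_lit 252) (nat_lit 4429235237) (nat_lit 0) (nat_lit 290897494) (nat_lit 168) (nat_lit 290897494) (nat_lit 35) (nat_lit 1) (nat_lit 32) (nat_lit 1) (nat_lit 34) (nat_lit 1) (nat_lit 242) (nat_lit 268) (nat_lit 210))) (XT.nd (nat_lit 94) (nat_lit 84) (nat_lit 0) (XT.lf (nat_lit 84) (nat_lit 1444545666) (nat_lit 0) (nat_lit 2035859348) (nat_lit 252) (nat_lit 1444545666) (nat_lit 33) (nat_lit 1) (nat_lit 32) (nat_lit 1) (nat_lit 35) (nat_lit 1) (nat_lit 243) (nat_lit 268) (nat_lit 209)) (XT.lf (nat_lit 168) (nat_lit 1389451172) (nat_lit 0) (nat_lit 1725977674) (nat_lit 84) (nat_lit 1725977674) (nat_lit 33) (nat_lit 1) (nat_lit 31) (nat_lit 1) (nat_lit 32) (nat_lit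 1) (nat_lit 244) (nat_lit 268) (nat_lit 208))))) (XT.nd (nat_lit 282) (nat_lit 252) (nat_lit 0) (XT.nd (nat_lit 94) (nat_lit 84) (nat_lit 0) (XT.lf (nat_lit 252) (nat_lit 4700096466) (nat_lit 0) (nat_lit 30281304) (nat_lit 168) (nat_lit 30281304) (nat_lit 31) (nat_lit 1) (nat_lit 28) (nat_lit 1) (nat_lit 30) (nat_lit 1) (nat_lit 245) (nat_lit 268) (nat_lit 207)) (XT.nd (nat_lit 94) (nat_lit 84) (nat_lit 0) (XT.lf (nat_lit 84) (nat_lit 1603249150) (nat_lit 0) (nat_lit 1472556351) (nat_lit 252) (nat_lit 1603249150) (nat_lit 29) (nat_lit 1) (nat_lit 28) (nat_lit 1) (nat_lit 31) (nat_lit 1) (nat_lit 246) (nat_lit 268) (nat_lit 206)) (XT.lf (nat_lit 168) (nat_lit 1760272947) (nat_lit 0) (nat_lit 1419966104) (nat_lit 84) (nat_lit 1419966104) (nat_lit 29) (nat_lit 1) (nat_lit 27) (nat_lit 1) (nat_lit 28) (nat_lit 1) (nat_lit 247) (nat_lit 268) (nat_lit 205)))) (XT.nd (nat_lit 188)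 (nat_lit 84) (nat_lit 0) (XT.nd (nat_lit 94) (nat_lit 168) (nat_lit 0) (XT.lf (nat_lit 0) (nat_lit 177029267) (nat_lit 0) (nat_lit 4169677724) (nat_lit 168) (nat_lit 177029267) (nat_lit 27) (nat_lit 3) (nat_lit 27) (nat_lit 1) (nat_lit 29) (nat_lit 1) (nat_lit 248) (nat_lit 268) (nat_lit 204)) (XT.lf (nat_lit 84) (nat_lit 1714061668) (nat_lit 0) (nat_lit 1018761303) (nat_lit 168) (nat_lit 1714061668) (nat_lit 26) (nat_lit 1) (nat_lit 25) (nat_lit 1) (nat_lit 27) (nat_lit 1) (nat_lit 249) (nat_lit 268) (nat_lit 203))) (XT.nd (nat_lit 94) (nat_lit 0) (nat_lit 0) (XT.lf (nat_lit 168) (nat_lit 2035959985) (nat_lit 0) (nat_lit 1168209628) (nat_lit 84) (nat_lit 1168209628) (nat_lit 26) (nat_lit 1) (nat_lit 24) (nat_lit 1) (nat_lit 25) (nat_lit 1) (nat_lit 250) (nat_lit 268) (nat_lit 202)) (XT.lf (nat_lit 0) (nat_lit 338356867) (nat_lit 0) (nat_lit 3623118634) (nat_lit 168) (nat_lit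 338356867) (nat_lit 24) (nat_lit 3) (nat_lit 24) (nat_lit 1) (nat_lit 26) (nat_lit 1) (nat_lit 251) (nat_lit 268) (nat_lit 201)))))) (XT.nd (nat_lit 658) (nat_lit 588) (nat_lit 0) (XT.nd (nat_lit 282) (nat_lit 420) (nat_lit 0) (XT.nd (nat_lit 94) (nat_lit 84) (nat_lit 0) (XT.lf (nat_lit 84) (nat_lit 1786414799) (nat_lit 0) (nat_lit 654599873) (nat_lit 168) (nat_lit 1786414799) (nat_lit 23) (nat_lit 1) (nat_lit 22) (nat_lit 1) (nat_lit 24) (nat_lit 1) (nat_lit 252) (nat_lit 268) (nat_lit 200)) (XT.nd (nat_lit 94) (nat_lit 0) (nat_lit 0) (XT.lf (nat_lit 168) (nat_lit 2234778914) (nat_lit 0) (nat_lit 961088952) (nat_lit 84) (nat_lit 961088952) (nat_lit 23) (nat_lit 1) (nat_lit 21) (nat_lit 1) (nat_lit 22) (nat_lit 1) (nat_lit 253) (nat_lit 268) (nat_lit 199)) (XT.lf (nat_lit 0) (nat_lit 461904604) (nat_lit 0) (nat_lit 3164286239) (nat_lit 168) (nat_lit 461904604) (nat_lit 21)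 (nat_lit 3) (nat_lit 21) (nat_lit 1) (nat_lit 23) (nat_lit 1) (nat_lit 254) (nat_lit 268) (nat_lit 198)))) (XT.nd (nat_lit 188) (nat_lit 168) (nat_lit 0) (XT.nd (nat_lit 94) (nat_lit 84) (nat_lit 0) (XT.lf (nat_lit 84) (nat_lit 1828023136) (nat_lit 0) (nat_lit 363743247) (nat_lit 168) (nat_lit 1828023136) (nat_lit 20) (nat_lit 1) (nat_lit 19) (nat_lit 1) (nat_lit 21) (nat_lit 1) (nat_lit 255) (nat_lit 268) (nat_lit 197)) (XT.lf (nat_lit 168) (nat_lit 2371691091) (nat_lit 0) (nat_lit 790690259) (nat_lit 84) (nat_lit 790690259) (nat_lit 20) (nat_lit 1) (nat_lit 18) (nat_lit 1) (nat_lit 19) (nat_lit 1) (nat_lit 256) (nat_lit 268) (nat_lit 196))) (XT.nd (nat_lit 94) (nat_lit 168) (nat_lit 0) (XT.lf (nat_lit 0) (nat_lit 554807749) (nat_lit 0) (nat_lit 2778063807) (nat_lit 168) (nat_lit 554807749) (nat_lit 18) (nat_lit 3) (nat_lit 18) (nat_lit 1) (nat_lit 20) (nat_lit 1) (nat_lit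 257) (nat_lit 268) (nat_lit 195)) (XT.lf (nat_lit 84) (nat_lit 1845190835) (nat_lit 0) (nat_lit 132778481) (nat_lit 168) (nat_lit 1845190835) (nat_lit 17) (nat_lit 1) (nat_lit 16) (nat_lit 1) (nat_lit 18) (nat_lit 1) (nat_lit 258) (nat_lit 268) (nat_lit 194))))) (XT.nd (nat_lit 282) (nat_lit 420) (nat_lit 0) (XT.nd (nat_lit 94) (nat_lit 84) (nat_lit 0) (XT.lf (nat_lit 168) (nat_lit 2458941795) (nat_lit 0) (nat_lit 650502833) (nat_lit 84) (nat_lit 650502833) (nat_lit 17) (nat_lit 1) (nat_lit 15) (nat_lit 1) (nat_lit 16) (nat_lit 1) (nat_lit 259) (nat_lit 268) (nat_lit 193)) (XT.nd (nat_lit 94) (nat_lit 84) (nat_lit 0) (XT.lf (nat_lit 0) (nat_lit 622915696) (nat_lit 0) (nat_lit 2451993958) (nat_lit 168) (nat_lit 622915696) (nat_lit 15) (nat_lit 3) (nat_lit 15) (nat_lit 1) (nat_lit 17) (nat_lit 1) (nat_lit 260) (nat_lit 268) (nat_lit 192)) (XT.lf (nat_lit 84) (nat_lit 50939864)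 (nat_lit 0) (nat_lit 1792919160) (nat_lit 84) (nat_lit 1792919160) (nat_lit 15) (nat_lit 3) (nat_lit 14) (nat_lit 1) (nat_lit 15) (nat_lit 1) (nat_lit 261) (nat_lit 268) (nat_lit 191)))) (XT.nd (nat_lit 188) (nat_lit 252) (nat_lit 0) (XT.nd (nat_lit 94) (nat_lit 0) (nat_lit 0) (XT.lf (nat_lit 168) (nat_lit 2506544800) (nat_lit 0) (nat_lit 535170290) (nat_lit 84) (nat_lit 535170290) (nat_lit 14) (nat_lit 1) (nat_lit 12) (nat_lit 1) (nat_lit 13) (nat_lit 1) (nat_lit 262) (nat_lit 268) (nat_lit 190)) (XT.lf (nat_lit 0) (nat_lit 671020941) (nat_lit 0) (nat_lit 2175808153) (nat_lit 168) (nat_lit 671020941) (nat_lit 12) (nat_lit 3) (nat_lit 12) (nat_lit 1) (nat_lit 14) (nat_lit 1) (nat_lit 263) (nat_lit 268) (nat_lit 189))) (XT.nd (nat_lit 94) (nat_lit 168) (nat_lit 0) (XT.lf (nat_lit 84) (nat_lit 197897803) (nat_lit 0) (nat_lit 1631028482) (nat_lit 84) (nat_lit 1631028482) (nat_lit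 12) (nat_lit 3) (nat_lit 11) (nat_lit 1) (nat_lit 12) (nat_lit 1) (nat_lit 264) (nat_lit 268) (nat_lit 188)) (XT.lf (nat_lit 168) (nat_lit 2522680896) (nat_lit 0) (nat_lit 440285922) (nat_lit 84) (nat_lit 440285922) (nat_lit 11) (nat_lit 1) (nat_lit 9) (nat_lit 1) (nat_lit 10) (nat_lit 1) (nat_lit 265) (nat_lit 268) (nat_lit 187))))))))
noncomputable def ec86 : XT := (XT.nd (nat_lit 2538) (nat_lit 0) (nat_lit 0) (XT.nd (nat_lit 1222) (nat_lit 0) (nat_lit 0) (XT.nd (nat_lit 564) (nat_lit 252) (nat_lit 0) (XT.nd (nat_lit 282) (nat_lit 252) (nat_lit 0) (XT.nd (nat_lit 94) (nat_lit 252) (nat_lit 0) (XT.lf (nat_lit 0) (nat_lit 703047403) (nat_lit 0) (nat_lit 1941039567) (nat_lit 168) (nat_lit 703047403) (nat_lit 9) (nat_lit 3) (nat_lit 9) (nat_lit 1) (nat_lit 11) (nat_lit 1) (nat_lit 266) (nat_lit 268) (nat_lit 186)) (XT.nd (nat_lit 94) (nat_lit 168) (nat_lit 0) (XT.lf (nat_lit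 84) (nat_lit 311372395) (nat_lit 0) (nat_lit 1490412551) (nat_lit 84) (nat_lit 1490412551) (nat_lit 9) (nat_lit 3) (nat_lit 8) (nat_lit 1) (nat_lit 9) (nat_lit 1) (nat_lit 267) (nat_lit 268) (nat_lit 185)) (XT.lf (nat_lit 168) (nat_lit 2514025612) (nat_lit 0) (nat_lit 362224318) (nat_lit 84) (nat_lit 362224318) (nat_lit 8) (nat_lit 1) (nat_lit 6) (nat_lit 1) (nat_lit 7) (nat_lit 1) (nat_lit 268) (nat_lit 268) (nat_lit 184)))) (XT.nd (nat_lit 94) (nat_lit 252) (nat_lit 0) (XT.lf (nat_lit 0) (nat_lit 722205329) (nat_lit 0) (nat_lit 1740704546) (nat_lit 168) (nat_lit 722205329) (nat_lit 6) (nat_lit 3) (nat_lit 6) (nat_lit 1) (nat_lit 8) (nat_lit 1) (nat_lit 269) (nat_lit 268) (nat_lit 183)) (XT.nd (nat_lit 94) (nat_lit 168) (nat_lit 0) (XT.lf (nat_lit 84) (nat_lit 397653871) (nat_lit 0) (nat_lit 1367653125) (nat_lit 84) (nat_lit 1367653125) (nat_lit 6) (nat_lit 3) (nat_lit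 5) (nat_lit 1) (nat_lit 6) (nat_lit 1) (nat_lit 270) (nat_lit 268) (nat_lit 182)) (XT.lf (nat_lit 168) (nat_lit 2486018708) (nat_lit 0) (nat_lit 298002843) (nat_lit 84) (nat_lit 298002843) (nat_lit 5) (nat_lit 1) (nat_lit 3) (nat_lit 1) (nat_lit 4) (nat_lit 1) (nat_lit 271) (nat_lit 268) (nat_lit 181))))) (XT.nd (nat_lit 282) (nat_lit 0) (nat_lit 0) (XT.nd (nat_lit 94) (nat_lit 252) (nat_lit 0) (XT.lf (nat_lit 0) (nat_lit 731118674) (nat_lit 0) (nat_lit 1569040500) (nat_lit 168) (nat_lit 731118674) (nat_lit 3) (nat_lit 3) (nat_lit 3) (nat_lit 1) (nat_lit 5) (nat_lit 1) (nat_lit 272) (nat_lit 268) (nat_lit 180)) (XT.nd (nat_lit 94) (nat_lit 168) (nat_lit 0) (XT.lf (nat_lit 84) (nat_lit 461900377) (nat_lit 0) (nat_lit 1259921164) (nat_lit 84) (nat_lit 1259921164) (nat_lit 3) (nat_lit 3) (nat_lit 2) (nat_lit 1) (nat_lit 3) (nat_lit 1) (nat_lit 273) (nat_lit 268) (nat_lit 179))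 (XT.lf (nat_lit 0) (nat_lit 4261345687) (nat_lit 0) (nat_lit 0) (nat_lit 0) (nat_lit 0) (nat_lit 0) (nat_lit 0) (nat_lit 1) (nat_lit 0) (nat_lit 1) (nat_lit 0) (nat_lit 274) (nat_lit 268) (nat_lit 178)))) (XT.nd (nat_lit 188) (nat_lit 0) (nat_lit 0) (XT.nd (nat_lit 94) (nat_lit 0) (nat_lit 0) (XT.lf (nat_lit 0) (nat_lit 4258862873) (nat_lit 0) (nat_lit 0) (nat_lit 0) (nat_lit 0) (nat_lit 0) (nat_lit 0) (nat_lit 1) (nat_lit 0) (nat_lit 1) (nat_lit 0) (nat_lit 275) (nat_lit 268) (nat_lit 177)) (XT.lf (nat_lit 0) (nat_lit 4256498290) (nat_lit 0) (nat_lit 0) (nat_lit 0) (nat_lit 0) (nat_lit 0) (nat_lit 0) (nat_lit 1) (nat_lit 0) (nat_lit 1) (nat_lit 0) (nat_lit 276) (nat_lit 268) (nat_lit 176))) (XT.nd (nat_lit 94) (nat_lit 0) (nat_lit 0) (XT.lf (nat_lit 0) (nat_lit 4254246305) (nat_lit 0) (nat_lit 0) (nat_lit 0) (nat_lit 0) (nat_lit 0) (nat_lit 0) (nat_lit 1) (nat_lit 0) (nat_lit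 1) (nat_lit 0) (nat_lit 277) (nat_lit 268) (nat_lit 175)) (XT.lf (nat_lit 0) (nat_lit 4252101557) (nat_lit 0) (nat_lit 0) (nat_lit 0) (nat_lit 0) (nat_lit 0) (nat_lit 0) (nat_lit 1) (nat_lit 0) (nat_lit 1) (nat_lit 0) (nat_lit 278) (nat_lit 268) (nat_lit 174)))))) (XT.nd (nat_lit 658) (nat_lit 0) (nat_lit 0) (XT.nd (nat_lit 282) (nat_lit 0) (nat_lit 0) (XT.nd (nat_lit 94) (nat_lit 0) (nat_lit 0) (XT.lf (nat_lit 0) (nat_lit 4250058941) (nat_lit 0) (nat_lit 0) (nat_lit 0) (nat_lit 0) (nat_lit 0) (nat_lit 0) (nat_lit 1) (nat_lit 0) (nat_lit 1) (nat_lit 0) (nat_lit 279) (nat_lit 268) (nat_lit 173)) (XT.nd (nat_lit 94) (nat_lit 0) (nat_lit 0) (XT.lf (nat_lit 0) (nat_lit 4248113592) (nat_lit 0) (nat_lit 0) (nat_lit 0) (nat_lit 0) (nat_lit 0) (nat_lit 0) (nat_lit 1) (nat_lit 0) (nat_lit 1) (nat_lit 0) (nat_lit 280) (nat_lit 268) (nat_lit 172)) (XT.lf (nat_lit 0) (nat_lit 4246260879)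 (nat_lit 0) (nat_lit 0) (nat_lit 0) (nat_lit 0) (nat_lit 0) (nat_lit 0) (nat_lit 1) (nat_lit 0) (nat_lit 1) (nat_lit 0) (nat_lit 281) (nat_lit 268) (nat_lit 171)))) (XT.nd (nat_lit 188) (nat_lit 0) (nat_lit 0) (XT.nd (nat_lit 94) (nat_lit 0) (nat_lit 0) (XT.lf (nat_lit 0) (nat_lit 4244496390) (nat_lit 0) (nat_lit 0) (nat_lit 0) (nat_lit 0) (nat_lit 0) (nat_lit 0) (nat_lit 1) (nat_lit 0) (nat_lit 1) (nat_lit 0) (nat_lit 282) (nat_lit 268) (nat_lit 170)) (XT.lf (nat_lit 0) (nat_lit 4242815924) (nat_lit 0) (nat_lit 0) (nat_lit 0) (nat_lit 0) (nat_lit 0) (nat_lit 0) (nat_lit 1) (nat_lit 0) (nat_lit 1) (nat_lit 0) (nat_lit 283) (nat_lit 268) (nat_lit 169))) (XT.nd (nat_lit 94) (nat_lit 0) (nat_lit 0) (XT.lf (nat_lit 0) (nat_lit 4241215480) (nat_lit 0) (nat_lit 0) (nat_lit 0) (nat_lit 0) (nat_lit 0) (nat_lit 0) (nat_lit 1) (nat_lit 0) (nat_lit 1) (nat_lit 0) (nat_lit 284) (nat_lit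 268) (nat_lit 168)) (XT.lf (nat_lit 0) (nat_lit 4239691249) (nat_lit 0) (nat_lit 0) (nat_lit 0) (nat_lit 0) (nat_lit 0) (nat_lit 0) (nat_lit 1) (nat_lit 0) (nat_lit 1) (nat_lit 0) (nat_lit 285) (nat_lit 268) (nat_lit 167))))) (XT.nd (nat_lit 282) (nat_lit 0) (nat_lit 0) (XT.nd (nat_lit 94) (nat_lit 0) (nat_lit 0) (XT.lf (nat_lit 0) (nat_lit 4238239599) (nat_lit 0) (nat_lit 0) (nat_lit 0) (nat_lit 0) (nat_lit 0) (nat_lit 0) (nat_lit 1) (nat_lit 0) (nat_lit 1) (nat_lit 0) (nat_lit 286) (nat_lit 268) (nat_lit 166)) (XT.nd (nat_lit 94) (nat_lit 0) (nat_lit 0) (XT.lf (nat_lit 0) (nat_lit 4236857076) (nat_lit 0) (nat_lit 0) (nat_lit 0) (nat_lit 0) (nat_lit 0) (nat_lit 0) (nat_lit 1) (nat_lit 0) (nat_lit 1) (nat_lit 0) (nat_lit 287) (nat_lit 268) (nat_lit 165)) (XT.lf (nat_lit 0) (nat_lit 4235540387) (nat_lit 0) (nat_lit 0) (nat_lit 0) (nat_lit 0) (nat_lit 0) (nat_lit 0) (nat_lit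 1) (nat_lit 0) (nat_lit 1) (nat_lit 0) (nat_lit 288) (nat_lit 268) (nat_lit 164)))) (XT.nd (nat_lit 188) (nat_lit 0) (nat_lit 0) (XT.nd (nat_lit 94) (nat_lit 0) (nat_lit 0) (XT.lf (nat_lit 0) (nat_lit 4234286398) (nat_lit 0) (nat_lit 0) (nat_lit 0) (nat_lit 0) (nat_lit 0) (nat_lit 0) (nat_lit 1) (nat_lit 0) (nat_lit 1) (nat_lit 0) (nat_lit 289) (nat_lit 268) (nat_lit 163)) (XT.lf (nat_lit 0) (nat_lit 4233092122) (nat_lit 0) (nat_lit 0) (nat_lit 0) (nat_lit 0) (nat_lit 0) (nat_lit 0) (nat_lit 1) (nat_lit 0) (nat_lit 1) (nat_lit 0) (nat_lit 290) (nat_lit 268) (nat_lit 162))) (XT.nd (nat_lit 94) (nat_lit 0) (nat_lit 0) (XT.lf (nat_lit 0) (nat_lit 4231954717) (nat_lit 0) (nat_lit 0) (nat_lit 0) (nat_lit 0) (nat_lit 0) (nat_lit 0) (nat_lit 1) (nat_lit 0) (nat_lit 1) (nat_lit 0) (nat_lit 291) (nat_lit 268) (nat_lit 161)) (XT.lf (nat_lit 0) (nat_lit 4230871474) (nat_lit 0) (nat_lit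 0) (nat_lit 0) (nat_lit 0) (nat_lit 0) (nat_lit 0) (nat_lit 1) (nat_lit 0) (nat_lit 1) (nat_lit 0) (nat_lit 292) (nat_lit 268) (nat_lit 160))))))) (XT.nd (nat_lit 1222) (nat_lit 0) (nat_lit 0) (XT.nd (nat_lit 564) (nat_lit 0) (nat_lit 0) (XT.nd (nat_lit 282) (nat_lit 0) (nat_lit 0) (XT.nd (nat_lit 94) (nat_lit 0) (nat_lit 0) (XT.lf (nat_lit 0) (nat_lit 4229839814) (nat_lit 0) (nat_lit 0) (nat_lit 0) (nat_lit 0) (nat_lit 0) (nat_lit 0) (nat_lit 1) (nat_lit 0) (nat_lit 1) (nat_lit 0) (nat_lit 293) (nat_lit 268) (nat_lit 159)) (XT.nd (nat_lit 94) (nat_lit 0) (nat_lit 0) (XT.lf (nat_lit 0) (nat_lit 4228857280) (nat_lit 0) (nat_lit 0) (nat_lit 0) (nat_lit 0) (nat_lit 0) (nat_lit 0) (nat_lit 1) (nat_lit 0) (nat_lit 1) (nat_lit 0) (nat_lit 294) (nat_lit 268) (nat_lit 158)) (XT.lf (nat_lit 0) (nat_lit 4227921534) (nat_lit 0) (nat_lit 0) (nat_lit 0) (nat_lit 0) (nat_lit 0) (nat_lit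 0) (nat_lit 1) (nat_lit 0) (nat_lit 1) (nat_lit 0) (nat_lit 295) (nat_lit 268) (nat_lit 157)))) (XT.nd (nat_lit 94) (nat_lit 0) (nat_lit 0) (XT.lf (nat_lit 0) (nat_lit 4227030347) (nat_lit 0) (nat_lit 0) (nat_lit 0) (nat_lit 0) (nat_lit 0) (nat_lit 0) (nat_lit 1) (nat_lit 0) (nat_lit 1) (nat_lit 0) (nat_lit 296) (nat_lit 268) (nat_lit 156)) (XT.nd (nat_lit 94) (nat_lit 0) (nat_lit 0) (XT.lf (nat_lit 0) (nat_lit 4226181598) (nat_lit 0) (nat_lit 0) (nat_lit 0) (nat_lit 0) (nat_lit 0) (nat_lit 0) (nat_lit 1) (nat_lit 0) (nat_lit 1) (nat_lit 0) (nat_lit 297) (nat_lit 268) (nat_lit 155)) (XT.lf (nat_lit 0) (nat_lit 4225373265) (nat_lit 0) (nat_lit 0) (nat_lit 0) (nat_lit 0) (nat_lit 0) (nat_lit 0) (nat_lit 1) (nat_lit 0) (nat_lit 1) (nat_lit 0) (nat_lit 298) (nat_lit 268) (nat_lit 154))))) (XT.nd (nat_lit 282) (nat_lit 0) (nat_lit 0) (XT.nd (nat_lit 94) (nat_lit 0) (nat_lit 0)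 (XT.lf (nat_lit 0) (nat_lit 4224603424) (nat_lit 0) (nat_lit 0) (nat_lit 0) (nat_lit 0) (nat_lit 0) (nat_lit 0) (nat_lit 1) (nat_lit 0) (nat_lit 1) (nat_lit 0) (nat_lit 299) (nat_lit 268) (nat_lit 153)) (XT.nd (nat_lit 94) (nat_lit 0) (nat_lit 0) (XT.lf (nat_lit 0) (nat_lit 4223870243) (nat_lit 0) (nat_lit 0) (nat_lit 0) (nat_lit 0) (nat_lit 0) (nat_lit 0) (nat_lit 1) (nat_lit 0) (nat_lit 1) (nat_lit 0) (nat_lit 300) (nat_lit 268) (nat_lit 152)) (XT.lf (nat_lit 0) (nat_lit 4223171975) (nat_lit 0) (nat_lit 0) (nat_lit 0) (nat_lit 0) (nat_lit 0) (nat_lit 0) (nat_lit 1) (nat_lit 0) (nat_lit 1) (nat_lit 0) (nat_lit 301) (nat_lit 268) (nat_lit 151)))) (XT.nd (nat_lit 188) (nat_lit 0) (nat_lit 0) (XT.nd (nat_lit 94) (nat_lit 0) (nat_lit 0) (XT.lf (nat_lit 0) (nat_lit 4222506957) (nat_lit 0) (nat_lit 0) (nat_lit 0) (nat_lit 0) (nat_lit 0) (nat_lit 0) (nat_lit 1) (nat_lit 0) (nat_lit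 1) (nat_lit 0) (nat_lit 302) (nat_lit 268) (nat_lit 150)) (XT.lf (nat_lit 0) (nat_lit 4221873608) (nat_lit 0) (nat_lit 0) (nat_lit 0) (nat_lit 0) (nat_lit 0) (nat_lit 0) (nat_lit 1) (nat_lit 0) (nat_lit 1) (nat_lit 0) (nat_lit 303) (nat_lit 268) (nat_lit 149))) (XT.nd (nat_lit 94) (nat_lit 0) (nat_lit 0) (XT.lf (nat_lit 0) (nat_lit 4221270417) (nat_lit 0) (nat_lit 0) (nat_lit 0) (nat_lit 0) (nat_lit 0) (nat_lit 0) (nat_lit 1) (nat_lit 0) (nat_lit 1) (nat_lit 0) (nat_lit 304) (nat_lit 268) (nat_lit 148)) (XT.lf (nat_lit 0) (nat_lit 4220695950) (nat_lit 0) (nat_lit 0) (nat_lit 0) (nat_lit 0) (nat_lit 0) (nat_lit 0) (nat_lit 1) (nat_lit 0) (nat_lit 1) (nat_lit 0) (nat_lit 305) (nat_lit 268) (nat_lit 147)))))) (XT.nd (nat_lit 658) (nat_lit 0) (nat_lit 0) (XT.nd (nat_lit 282) (nat_lit 0) (nat_lit 0) (XT.nd (nat_lit 94) (nat_lit 0) (nat_lit 0) (XT.lf (nat_lit 0) (nat_lit 4220148839)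 (nat_lit 0) (nat_lit 0) (nat_lit 0) (nat_lit 0) (nat_lit 0) (nat_lit 0) (nat_lit 1) (nat_lit 0) (nat_lit 1) (nat_lit 0) (nat_lit 306) (nat_lit 268) (nat_lit 146)) (XT.nd (nat_lit 94) (nat_lit 0) (nat_lit 0) (XT.lf (nat_lit 0) (nat_lit 4219627780) (nat_lit 0) (nat_lit 0) (nat_lit 0) (nat_lit 0) (nat_lit 0) (nat_lit 0) (nat_lit 1) (nat_lit 0) (nat_lit 1) (nat_lit 0) (nat_lit 307) (nat_lit 268) (nat_lit 145)) (XT.lf (nat_lit 0) (nat_lit 4219131534) (nat_lit 0) (nat_lit 0) (nat_lit 0) (nat_lit 0) (nat_lit 0) (nat_lit 0) (nat_lit 1) (nat_lit 0) (nat_lit 1) (nat_lit 0) (nat_lit 308) (nat_lit 268) (nat_lit 144)))) (XT.nd (nat_lit 188) (nat_lit 0) (nat_lit 0) (XT.nd (nat_lit 94) (nat_lit 0) (nat_lit 0) (XT.lf (nat_lit 0) (nat_lit 4218658919) (nat_lit 0) (nat_lit 0) (nat_lit 0) (nat_lit 0) (nat_lit 0) (nat_lit 0) (nat_lit 1) (nat_lit 0) (nat_lit 1) (nat_lit 0) (nat_lit 309) (nat_lit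 268) (nat_lit 143)) (XT.lf (nat_lit 0) (nat_lit 4218208809) (nat_lit 0) (nat_lit 0) (nat_lit 0) (nat_lit 0) (nat_lit 0) (nat_lit 0) (nat_lit 1) (nat_lit 0) (nat_lit 1) (nat_lit 0) (nat_lit 310) (nat_lit 268) (nat_lit 142))) (XT.nd (nat_lit 94) (nat_lit 0) (nat_lit 0) (XT.lf (nat_lit 0) (nat_lit 4217780133) (nat_lit 0) (nat_lit 0) (nat_lit 0) (nat_lit 0) (nat_lit 0) (nat_lit 0) (nat_lit 1) (nat_lit 0) (nat_lit 1) (nat_lit 0) (nat_lit 311) (nat_lit 268) (nat_lit 141)) (XT.lf (nat_lit 0) (nat_lit 4217371870) (nat_lit 0) (nat_lit 0) (nat_lit 0) (nat_lit 0) (nat_lit 0) (nat_lit 0) (nat_lit 1) (nat_lit 0) (nat_lit 1) (nat_lit 0) (nat_lit 312) (nat_lit 268) (nat_lit 140))))) (XT.nd (nat_lit 282) (nat_lit 0) (nat_lit 0) (XT.nd (nat_lit 94) (nat_lit 0) (nat_lit 0) (XT.lf (nat_lit 0) (nat_lit 4216983048) (nat_lit 0) (nat_lit 0) (nat_lit 0) (nat_lit 0) (nat_lit 0) (nat_lit 0) (nat_lit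 1) (nat_lit 0) (nat_lit 1) (nat_lit 0) (nat_lit 313) (nat_lit 268) (nat_lit 139)) (XT.nd (nat_lit 94) (nat_lit 0) (nat_lit 0) (XT.lf (nat_lit 0) (nat_lit 4216612741) (nat_lit 0) (nat_lit 0) (nat_lit 0) (nat_lit 0) (nat_lit 0) (nat_lit 0) (nat_lit 1) (nat_lit 0) (nat_lit 1) (nat_lit 0) (nat_lit 314) (nat_lit 268) (nat_lit 138)) (XT.lf (nat_lit 0) (nat_lit 4216260069) (nat_lit 0) (nat_lit 0) (nat_lit 0) (nat_lit 0) (nat_lit 0) (nat_lit 0) (nat_lit 1) (nat_lit 0) (nat_lit 1) (nat_lit 0) (nat_lit 315) (nat_lit 268) (nat_lit 137)))) (XT.nd (nat_lit 32618) (nat_lit 0) (nat_lit 10752) (XT.nd (nat_lit 94) (nat_lit 0) (nat_lit 0) (XT.lf (nat_lit 0) (nat_lit 4215924190) (nat_lit 0) (nat_lit 0) (nat_lit 0) (nat_lit 0) (nat_lit 0) (nat_lit 0) (nat_lit 1) (nat_lit 0) (nat_lit 1) (nat_lit 0) (nat_lit 316) (nat_lit 268) (nat_lit 136)) (XT.lf (nat_lit 0) (nat_lit 4215604305) (nat_lit 0)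 (nat_lit 0) (nat_lit 0) (nat_lit 0) (nat_lit 0) (nat_lit 0) (nat_lit 1) (nat_lit 0) (nat_lit 1) (nat_lit 0) (nat_lit 317) (nat_lit 268) (nat_lit 135))) (XT.nd (nat_lit 94) (nat_lit 0) (nat_lit 0) (XT.lf (nat_lit 924) (nat_lit 2211766887) (nat_lit 0) (nat_lit 3926987025) (nat_lit 924) (nat_lit 2211766887) (nat_lit 139) (nat_lit 1) (nat_lit 128) (nat_lit 0) (nat_lit 139) (nat_lit 0) (nat_lit 182) (nat_lit 269) (nat_lit 269)) (XT.lf (nat_lit 924) (nat_lit 8573084585) (nat_lit 84) (nat_lit 3863648525) (nat_lit 0) (nat_lit 3863648525) (nat_lit 139) (nat_lit 1) (nat_lit 129) (nat_lit 1) (nat_lit 128) (nat_lit 0) (nat_lit 183) (nat_lit 269) (nat_lit 268))))))))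
noncomputable def ec87 : XT := (XT.nd (nat_lit 2538) (nat_lit 3528) (nat_lit 0) (XT.nd (nat_lit 1222) (nat_lit 2772) (nat_lit 0) (XT.nd (nat_lit 564) (nat_lit 1512) (nat_lit 0) (XT.nd (nat_lit 282) (nat_lit 0) (nat_lit 84) (XT.nd (nat_lit 94) (nat_lit 0) (nat_lit 0) (XT.lf (nat_lit 924) (nat_lit 4085803028) (nat_lit 0) (nat_lit 7740502163) (nat_lit 840) (nat_lit 4085803028) (nat_lit 140) (nat_lit 1) (nat_lit 129) (nat_lit 1) (nat_lit 139) (nat_lit 1) (nat_lit 184) (nat_lit 269) (nat_lit 267)) (XT.nd (nat_lit 94) (nat_lit 0) (nat_lit 84) (XT.lf (nat_lit 924) (nat_lit 7664398745) (nat_lit 84) (nat_lit 3935990092) (nat_lit 0) (nat_lit 3935990092) (nat_lit 140) (nat_lit 1) (nat_lit 130) (nat_lit 1) (nat_lit 129) (nat_lit 1) (nat_lit 185) (nat_lit 269) (nat_lit 266)) (XT.lf (nat_lit 924) (nat_lit 3527849140) (nat_lit 0) (nat_lit 8116860093) (nat_lit 840) (nat_lit 3527849140)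 (nat_lit 141) (nat_lit 1) (nat_lit 130) (nat_lit 1) (nat_lit 140) (nat_lit 1) (nat_lit 186) (nat_lit 269) (nat_lit 265)))) (XT.nd (nat_lit 94) (nat_lit 0) (nat_lit 84) (XT.lf (nat_lit 924) (nat_lit 6345066454) (nat_lit 84) (nat_lit 4237381001) (nat_lit 0) (nat_lit 4237381001) (nat_lit 141) (nat_lit 1) (nat_lit 131) (nat_lit 1) (nat_lit 130) (nat_lit 1) (nat_lit 187) (nat_lit 269) (nat_lit 264)) (XT.nd (nat_lit 94) (nat_lit 0) (nat_lit 0) (XT.lf (nat_lit 924) (nat_lit 2782128378) (nat_lit 0) (nat_lit 8914685234) (nat_lit 840) (nat_lit 2782128378) (nat_lit 142) (nat_lit 1) (nat_lit 131) (nat_lit 1) (nat_lit 141) (nat_lit 1) (nat_lit 188) (nat_lit 269) (nat_lit 263)) (XT.lf (nat_lit 924) (nat_lit 4676843227) (nat_lit 84) (nat_lit 4735299035) (nat_lit 0) (nat_lit 4735299035) (nat_lit 142) (nat_lit 1) (nat_lit 132) (nat_lit 1) (nat_lit 131) (nat_lit 1) (nat_lit 189) (nat_lit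 269) (nat_lit 262))))) (XT.nd (nat_lit 282) (nat_lit 1764) (nat_lit 0) (XT.nd (nat_lit 94) (nat_lit 0) (nat_lit 0) (XT.lf (nat_lit 924) (nat_lit 1877508961) (nat_lit 0) (nat_lit 10073057495) (nat_lit 840) (nat_lit 1877508961) (nat_lit 143) (nat_lit 1) (nat_lit 132) (nat_lit 1) (nat_lit 142) (nat_lit 1) (nat_lit 190) (nat_lit 269) (nat_lit 261)) (XT.nd (nat_lit 94) (nat_lit 0) (nat_lit 84) (XT.lf (nat_lit 924) (nat_lit 2714620393) (nat_lit 84) (nat_lit 5400780221) (nat_lit 0) (nat_lit 5400780221) (nat_lit 143) (nat_lit 1) (nat_lit 133) (nat_lit 1) (nat_lit 132) (nat_lit 1) (nat_lit 191) (nat_lit 269) (nat_lit 260)) (XT.lf (nat_lit 84) (nat_lit 839631814) (nat_lit 0) (nat_lit 11537755605) (nat_lit 840) (nat_lit 839631814) (nat_lit 134) (nat_lit 1) (nat_lit 133) (nat_lit 1) (nat_lit 143) (nat_lit 1) (nat_lit 192) (nat_lit 269) (nat_lit 259)))) (XT.nd (nat_lit 188) (nat_lit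 420) (nat_lit 0) (XT.nd (nat_lit 94) (nat_lit 588) (nat_lit 0) (XT.lf (nat_lit 924) (nat_lit 507116736) (nat_lit 0) (nat_lit 6208062562) (nat_lit 840) (nat_lit 6208062562) (nat_lit 134) (nat_lit 1) (nat_lit 123) (nat_lit 1) (nat_lit 133) (nat_lit 1) (nat_lit 193) (nat_lit 269) (nat_lit 258)) (XT.lf (nat_lit 588) (nat_lit 12034518799) (nat_lit 0) (nat_lit 303783457) (nat_lit 504) (nat_lit 303783457) (nat_lit 123) (nat_lit 1) (nat_lit 116) (nat_lit 1) (nat_lit 122) (nat_lit 1) (nat_lit 194) (nat_lit 269) (nat_lit 257))) (XT.nd (nat_lit 94) (nat_lit 420) (nat_lit 0) (XT.lf (nat_lit 84) (nat_lit 5261470673) (nat_lit 0) (nat_lit 1841604953) (nat_lit 588) (nat_lit 5261470673) (nat_lit 117) (nat_lit 1) (nat_lit 116) (nat_lit 1) (nat_lit 123) (nat_lit 1) (nat_lit 195) (nat_lit 269) (nat_lit 256)) (XT.lf (nat_lit 504) (nat_lit 9053640468) (nat_lit 0) (nat_lit 1522584069) (nat_lit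 420) (nat_lit 1522584069) (nat_lit 117) (nat_lit 1) (nat_lit 111) (nat_lit 1) (nat_lit 116) (nat_lit 1) (nat_lit 196) (nat_lit 269) (nat_lit 255)))))) (XT.nd (nat_lit 658) (nat_lit 1260) (nat_lit 0) (XT.nd (nat_lit 282) (nat_lit 1092) (nat_lit 0) (XT.nd (nat_lit 94) (nat_lit 420) (nat_lit 0) (XT.lf (nat_lit 84) (nat_lit 3752942981) (nat_lit 0) (nat_lit 4332771492) (nat_lit 504) (nat_lit 3752942981) (nat_lit 112) (nat_lit 1) (nat_lit 111) (nat_lit 1) (nat_lit 117) (nat_lit 1) (nat_lit 197) (nat_lit 269) (nat_lit 254)) (XT.nd (nat_lit 94) (nat_lit 0) (nat_lit 0) (XT.lf (nat_lit 504) (nat_lit 5961950640) (nat_lit 0) (nat_lit 2812808015) (nat_lit 420) (nat_lit 2812808015) (nat_lit 112) (nat_lit 1) (nat_lit 106) (nat_lit 1) (nat_lit 111) (nat_lit 1) (nat_lit 198) (nat_lit 269) (nat_lit 253)) (XT.lf (nat_lit 84) (nat_lit 2196899576) (nat_lit 0) (nat_lit 6949979300) (nat_lit 504)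 (nat_lit 2196899576) (nat_lit 107) (nat_lit 1) (nat_lit 106) (nat_lit 1) (nat_lit 112) (nat_lit 1) (nat_lit 199) (nat_lit 269) (nat_lit 252)))) (XT.nd (nat_lit 188) (nat_lit 756) (nat_lit 0) (XT.nd (nat_lit 94) (nat_lit 0) (nat_lit 0) (XT.lf (nat_lit 420) (nat_lit 2788225105) (nat_lit 0) (nat_lit 4159018083) (nat_lit 336) (nat_lit 4159018083) (nat_lit 107) (nat_lit 1) (nat_lit 102) (nat_lit 1) (nat_lit 106) (nat_lit 1) (nat_lit 200) (nat_lit 269) (nat_lit 251)) (XT.lf (nat_lit 84) (nat_lit 606699178) (nat_lit 0) (nat_lit 9664479477) (nat_lit 420) (nat_lit 606699178) (nat_lit 103) (nat_lit 1) (nat_lit 102) (nat_lit 1) (nat_lit 107) (nat_lit 1) (nat_lit 201) (nat_lit 269) (nat_lit 250))) (XT.nd (nat_lit 94) (nat_lit 336) (nat_lit 0) (XT.lf (nat_lit 84) (nat_lit 5112221610) (nat_lit 0) (nat_lit 428158490) (nat_lit 420) (nat_lit 5112221610) (nat_lit 98) (nat_lit 1) (nat_lit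 97) (nat_lit 1) (nat_lit 102) (nat_lit 1) (nat_lit 202) (nat_lit 269) (nat_lit 249)) (XT.lf (nat_lit 420) (nat_lit 8456420750) (nat_lit 0) (nat_lit 989741953) (nat_lit 336) (nat_lit 989741953) (nat_lit 98) (nat_lit 1) (nat_lit 93) (nat_lit 1) (nat_lit 97) (nat_lit 1) (nat_lit 203) (nat_lit 269) (nat_lit 248))))) (XT.nd (nat_lit 282) (nat_lit 924) (nat_lit 0) (XT.nd (nat_lit 94) (nat_lit 336) (nat_lit 0) (XT.lf (nat_lit 84) (nat_lit 3316979988) (nat_lit 0) (nat_lit 3588965112) (nat_lit 420) (nat_lit 3316979988) (nat_lit 94) (nat_lit 1) (nat_lit 93) (nat_lit 1) (nat_lit 98) (nat_lit 1) (nat_lit 204) (nat_lit 269) (nat_lit 247)) (XT.nd (nat_lit 94) (nat_lit 0) (nat_lit 0) (XT.lf (nat_lit 420) (nat_lit 4840396515) (nat_lit 0) (nat_lit 2588467193) (nat_lit 336) (nat_lit 2588467193) (nat_lit 94) (nat_lit 1) (nat_lit 89) (nat_lit 1) (nat_lit 93) (nat_lit 1) (nat_lit 205) (nat_lit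 269) (nat_lit 246)) (XT.lf (nat_lit 84) (nat_lit 1526445037) (nat_lit 0) (nat_lit 6764858233) (nat_lit 420) (nat_lit 1526445037) (nat_lit 90) (nat_lit 1) (nat_lit 89) (nat_lit 1) (nat_lit 94) (nat_lit 1) (nat_lit 206) (nat_lit 269) (nat_lit 245)))) (XT.nd (nat_lit 188) (nat_lit 252) (nat_lit 0) (XT.nd (nat_lit 94) (nat_lit 420) (nat_lit 0) (XT.lf (nat_lit 336) (nat_lit 1241392372) (nat_lit 0) (nat_lit 4190540765) (nat_lit 252) (nat_lit 4190540765) (nat_lit 90) (nat_lit 1) (nat_lit 86) (nat_lit 1) (nat_lit 89) (nat_lit 1) (nat_lit 207) (nat_lit 269) (nat_lit 244)) (XT.lf (nat_lit 420) (nat_lit 8938673280) (nat_lit 0) (nat_lit 248031032) (nat_lit 336) (nat_lit 248031032) (nat_lit 86) (nat_lit 1) (nat_lit 81) (nat_lit 1) (nat_lit 85) (nat_lit 1) (nat_lit 208) (nat_lit 269) (nat_lit 243))) (XT.nd (nat_lit 94) (nat_lit 252) (nat_lit 0) (XT.lf (nat_lit 84) (nat_lit 3497768937)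 (nat_lit 0) (nat_lit 2252498022) (nat_lit 420) (nat_lit 3497768937) (nat_lit 82) (nat_lit 1) (nat_lit 81) (nat_lit 1) (nat_lit 86) (nat_lit 1) (nat_lit 209) (nat_lit 269) (nat_lit 242)) (XT.lf (nat_lit 336) (nat_lit 5108602112) (nat_lit 0) (nat_lit 1979947378) (nat_lit 252) (nat_lit 1979947378) (nat_lit 82) (nat_lit 1) (nat_lit 78) (nat_lit 1) (nat_lit 81) (nat_lit 1) (nat_lit 210) (nat_lit 269) (nat_lit 241))))))) (XT.nd (nat_lit 1316) (nat_lit 1596) (nat_lit 0) (XT.nd (nat_lit 658) (nat_lit 924) (nat_lit 0) (XT.nd (nat_lit 282) (nat_lit 420) (nat_lit 0) (XT.nd (nat_lit 94) (nat_lit 588) (nat_lit 0) (XT.lf (nat_lit 84) (nat_lit 1613886429) (nat_lit 0) (nat_lit 5665746480) (nat_lit 336) (nat_lit 1613886429) (nat_lit 79) (nat_lit 1) (nat_lit 78) (nat_lit 1) (nat_lit 82) (nat_lit 1) (nat_lit 211) (nat_lit 269) (nat_lit 240)) (XT.nd (nat_lit 94) (nat_lit 336) (nat_lit 0) (XT.lf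 (nat_lit 336) (nat_lit 1345123894) (nat_lit 0) (nat_lit 3688699302) (nat_lit 252) (nat_lit 3688699302) (nat_lit 79) (nat_lit 1) (nat_lit 75) (nat_lit 1) (nat_lit 78) (nat_lit 1) (nat_lit 212) (nat_lit 269) (nat_lit 239)) (XT.lf (nat_lit 336) (nat_lit 8095531538) (nat_lit 0) (nat_lit 231173436) (nat_lit 252) (nat_lit 231173436) (nat_lit 75) (nat_lit 1) (nat_lit 71) (nat_lit 1) (nat_lit 74) (nat_lit 1) (nat_lit 213) (nat_lit 269) (nat_lit 238)))) (XT.nd (nat_lit 188) (nat_lit 168) (nat_lit 0) (XT.nd (nat_lit 94) (nat_lit 252) (nat_lit 0) (XT.lf (nat_lit 84) (nat_lit 3062307739) (nat_lit 0) (nat_lit 2269139286) (nat_lit 336) (nat_lit 3062307739) (nat_lit 72) (nat_lit 1) (nat_lit 71) (nat_lit 1) (nat_lit 75) (nat_lit 1) (nat_lit 214) (nat_lit 269) (nat_lit 237)) (XT.lf (nat_lit 336) (nat_lit 4210953544) (nat_lit 0) (nat_lit 2012375087) (nat_lit 252) (nat_lit 2012375087) (nat_lit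 72) (nat_lit 1) (nat_lit 68) (nat_lit 1) (nat_lit 71) (nat_lit 1) (nat_lit 215) (nat_lit 269) (nat_lit 236))) (XT.nd (nat_lit 94) (nat_lit 168) (nat_lit 0) (XT.lf (nat_lit 84) (nat_lit 1159693171) (nat_lit 0) (nat_lit 5762505333) (nat_lit 336) (nat_lit 1159693171) (nat_lit 69) (nat_lit 1) (nat_lit 68) (nat_lit 1) (nat_lit 72) (nat_lit 1) (nat_lit 216) (nat_lit 269) (nat_lit 235)) (XT.lf (nat_lit 252) (nat_lit 424950137) (nat_lit 0) (nat_lit 3753013995) (nat_lit 168) (nat_lit 3753013995) (nat_lit 69) (nat_lit 1) (nat_lit 66) (nat_lit 1) (nat_lit 68) (nat_lit 1) (nat_lit 217) (nat_lit 269) (nat_lit 234))))) (XT.nd (nat_lit 282) (nat_lit 420) (nat_lit 0) (XT.nd (nat_lit 94) (nat_lit 168) (nat_lit 0) (XT.lf (nat_lit 336) (nat_lit 6420854081) (nat_lit 0) (nat_lit 681941243) (nat_lit 252) (nat_lit 681941243) (nat_lit 66) (nat_lit 1) (nat_lit 62) (nat_lit 1) (nat_lit 65) (nat_lit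 1) (nat_lit 218) (nat_lit 269) (nat_lit 233)) (XT.nd (nat_lit 94) (nat_lit 168) (nat_lit 0) (XT.lf (nat_lit 84) (nat_lit 2242651917) (nat_lit 0) (nat_lit 3154826745) (nat_lit 336) (nat_lit 2242651917) (nat_lit 63) (nat_lit 1) (nat_lit 62) (nat_lit 1) (nat_lit 66) (nat_lit 1) (nat_lit 219) (nat_lit 269) (nat_lit 232)) (XT.lf (nat_lit 252) (nat_lit 2591038347) (nat_lit 0) (nat_lit 2454474591) (nat_lit 168) (nat_lit 2454474591) (nat_lit 63) (nat_lit 1) (nat_lit 60) (nat_lit 1) (nat_lit 62) (nat_lit 1) (nat_lit 220) (nat_lit 269) (nat_lit 231)))) (XT.nd (nat_lit 188) (nat_lit 168) (nat_lit 0) (XT.nd (nat_lit 94) (nat_lit 252) (nat_lit 0) (XT.lf (nat_lit 84) (nat_lit 372249969) (nat_lit 0) (nat_lit 6619995350) (nat_lit 252) (nat_lit 372249969) (nat_lit 61) (nat_lit 1) (nat_lit 60) (nat_lit 1) (nat_lit 63) (nat_lit 1) (nat_lit 221) (nat_lit 269) (nat_lit 230)) (XT.lf (nat_lit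 84) (nat_lit 3072244307) (nat_lit 0) (nat_lit 1085006957) (nat_lit 252) (nat_lit 3072244307) (nat_lit 58) (nat_lit 1) (nat_lit 57) (nat_lit 1) (nat_lit 60) (nat_lit 1) (nat_lit 222) (nat_lit 269) (nat_lit 229))) (XT.nd (nat_lit 94) (nat_lit 0) (nat_lit 0) (XT.lf (nat_lit 252) (nat_lit 4266349677) (nat_lit 0) (nat_lit 1416312500) (nat_lit 168) (nat_lit 1416312500) (nat_lit 58) (nat_lit 1) (nat_lit 55) (nat_lit 1) (nat_lit 57) (nat_lit 1) (nat_lit 223) (nat_lit 269) (nat_lit 228)) (XT.lf (nat_lit 84) (nat_lit 1203852884) (nat_lit 0) (nat_lit 4563632812) (nat_lit 252) (nat_lit 1203852884) (nat_lit 56) (nat_lit 1) (nat_lit 55) (nat_lit 1) (nat_lit 58) (nat_lit 1) (nat_lit 224) (nat_lit 269) (nat_lit 227)))))) (XT.nd (nat_lit 658) (nat_lit 672) (nat_lit 0) (XT.nd (nat_lit 282) (nat_lit 504) (nat_lit 0) (XT.nd (nat_lit 94) (nat_lit 252) (nat_lit 0) (XT.lf (nat_lit 252) (nat_lit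 563961733) (nat_lit 0) (nat_lit 3141156783) (nat_lit 168) (nat_lit 3141156783) (nat_lit 56) (nat_lit 1) (nat_lit 53) (nat_lit 1) (nat_lit 55) (nat_lit 1) (nat_lit 225) (nat_lit 269) (nat_lit 226)) (XT.nd (nat_lit 94) (nat_lit 0) (nat_lit 0) (XT.lf (nat_lit 252) (nat_lit 5542980263) (nat_lit 0) (nat_lit 590927780) (nat_lit 168) (nat_lit 590927780) (nat_lit 53) (nat_lit 1) (nat_lit 50) (nat_lit 1) (nat_lit 52) (nat_lit 1) (nat_lit 226) (nat_lit 269) (nat_lit 225)) (XT.lf (nat_lit 84) (nat_lit 1845271713) (nat_lit 0) (nat_lit 2913889393) (nat_lit 252) (nat_lit 1845271713) (nat_lit 51) (nat_lit 1) (nat_lit 50) (nat_lit 1) (nat_lit 53) (nat_lit 1) (nat_lit 227) (nat_lit 269) (nat_lit 224)))) (XT.nd (nat_lit 188) (nat_lit 336) (nat_lit 0) (XT.nd (nat_lit 94) (nat_lit 0) (nat_lit 0) (XT.lf (nat_lit 252) (nat_lit 1879319650) (nat_lit 0) (nat_lit 2304102815) (nat_lit 168) (nat_lit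 2304102815) (nat_lit 51) (nat_lit 1) (nat_lit 48) (nat_lit 1) (nat_lit 50) (nat_lit 1) (nat_lit 228) (nat_lit 269) (nat_lit 223)) (XT.lf (nat_lit 84) (nat_lit 61768053) (nat_lit 0) (nat_lit 6251181590) (nat_lit 252) (nat_lit 61768053) (nat_lit 49) (nat_lit 1) (nat_lit 48) (nat_lit 1) (nat_lit 51) (nat_lit 1) (nat_lit 229) (nat_lit 269) (nat_lit 222))) (XT.nd (nat_lit 94) (nat_lit 168) (nat_lit 0) (XT.lf (nat_lit 84) (nat_lit 2332261000) (nat_lit 0) (nat_lit 1596671049) (nat_lit 168) (nat_lit 2332261000) (nat_lit 47) (nat_lit 1) (nat_lit 46) (nat_lit 1) (nat_lit 48) (nat_lit 1) (nat_lit 230) (nat_lit 269) (nat_lit 221)) (XT.lf (nat_lit 252) (nat_lit 2894070391) (nat_lit 0) (nat_lit 1628796190) (nat_lit 168) (nat_lit 1628796190) (nat_lit 47) (nat_lit 1) (nat_lit 44) (nat_lit 1) (nat_lit 46) (nat_lit 1) (nat_lit 231) (nat_lit 269) (nat_lit 220))))) (XT.nd (nat_lit 282) (nat_lit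 336) (nat_lit 0) (XT.nd (nat_lit 94) (nat_lit 336) (nat_lit 0) (XT.lf (nat_lit 84) (nat_lit 580241111) (nat_lit 0) (nat_lit 4884606769) (nat_lit 252) (nat_lit 580241111) (nat_lit 45) (nat_lit 1) (nat_lit 44) (nat_lit 1) (nat_lit 47) (nat_lit 1) (nat_lit 232) (nat_lit 269) (nat_lit 219)) (XT.nd (nat_lit 94) (nat_lit 168) (nat_lit 0) (XT.lf (nat_lit 84) (nat_lit 2694139178) (nat_lit 0) (nat_lit 551115731) (nat_lit 168) (nat_lit 2694139178) (nat_lit 43) (nat_lit 1) (nat_lit 42) (nat_lit 1) (nat_lit 44) (nat_lit 1) (nat_lit 233) (nat_lit 269) (nat_lit 218)) (XT.lf (nat_lit 252) (nat_lit 3664720267) (nat_lit 0) (nat_lit 1085924277) (nat_lit 168) (nat_lit 1085924277) (nat_lit 43) (nat_lit 1) (nat_lit 40) (nat_lit 1) (nat_lit 42) (nat_lit 1) (nat_lit 234) (nat_lit 269) (nat_lit 217)))) (XT.nd (nat_lit 188) (nat_lit 252) (nat_lit 0) (XT.nd (nat_lit 94) (nat_lit 84) (nat_lit 0) (XT.lf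 (nat_lit 84) (nat_lit 981579494) (nat_lit 0) (nat_lit 3772620176) (nat_lit 252) (nat_lit 981579494) (nat_lit 41) (nat_lit 1) (nat_lit 40) (nat_lit 1) (nat_lit 43) (nat_lit 1) (nat_lit 235) (nat_lit 269) (nat_lit 216)) (XT.lf (nat_lit 168) (nat_lit 281775727) (nat_lit 0) (nat_lit 2677557867) (nat_lit 84) (nat_lit 2677557867) (nat_lit 41) (nat_lit 1) (nat_lit 39) (nat_lit 1) (nat_lit 40) (nat_lit 1) (nat_lit 236) (nat_lit 269) (nat_lit 215))) (XT.nd (nat_lit 94) (nat_lit 0) (nat_lit 0) (XT.lf (nat_lit 252) (nat_lit 4237604332) (nat_lit 0) (nat_lit 651401752) (nat_lit 168) (nat_lit 651401752) (nat_lit 39) (nat_lit 1) (nat_lit 36) (nat_lit 1) (nat_lit 38) (nat_lit 1) (nat_lit 237) (nat_lit 269) (nat_lit 214)) (XT.lf (nat_lit 84) (nat_lit 1287751399) (nat_lit 0) (nat_lit 2869498336) (nat_lit 252) (nat_lit 1287751399) (nat_lit 37) (nat_lit 1) (nat_lit 36) (nat_lit 1) (nat_lit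 39) (nat_lit 1) (nat_lit 238) (nat_lit 269) (nat_lit 213))))))))
noncomputable def ec88 : XT := (XT.nd (nat_lit 2538) (nat_lit 672) (nat_lit 0) (XT.nd (nat_lit 1222) (nat_lit 1092) (nat_lit 0) (XT.nd (nat_lit 564) (nat_lit 588) (nat_lit 0) (XT.nd (nat_lit 282) (nat_lit 336) (nat_lit 0) (XT.nd (nat_lit 94) (nat_lit 252) (nat_lit 0) (XT.lf (nat_lit 168) (nat_lit 946266728) (nat_lit 0) (nat_lit 2202833483) (nat_lit 84) (nat_lit 2202833483) (nat_lit 37) (nat_lit 1) (nat_lit 35) (nat_lit 1) (nat_lit 36) (nat_lit 1) (nat_lit 239) (nat_lit 269) (nat_lit 212)) (XT.nd (nat_lit 94) (nat_lit 0) (nat_lit 0) (XT.lf (nat_lit 252) (nat_lit 4650696998) (nat_lit 0) (nat_lit 305442369) (nat_lit 168) (nat_lit 305442369) (nat_lit 35) (nat_lit 1) (nat_lit 32) (nat_lit 1) (nat_lit 34) (nat_lit 1) (nat_lit 240) (nat_lit 269) (nat_lit 211)) (XT.lf (nat_lit 84) (nat_lit 1516772949) (nat_lit 0) (nat_lit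 2137652316) (nat_lit 252) (nat_lit 1516772949) (nat_lit 33) (nat_lit 1) (nat_lit 32) (nat_lit 1) (nat_lit 35) (nat_lit 1) (nat_lit 241) (nat_lit 269) (nat_lit 210)))) (XT.nd (nat_lit 94) (nat_lit 252) (nat_lit 0) (XT.lf (nat_lit 168) (nat_lit 1458923731) (nat_lit 0) (nat_lit 1812276558) (nat_lit 84) (nat_lit 1812276558) (nat_lit 33) (nat_lit 1) (nat_lit 31) (nat_lit 1) (nat_lit 32) (nat_lit 1) (nat_lit 242) (nat_lit 269) (nat_lit 209)) (XT.nd (nat_lit 94) (nat_lit 0) (nat_lit 0) (XT.lf (nat_lit 252) (nat_lit 4935101290) (nat_lit 0) (nat_lit 31795369) (nat_lit 168) (nat_lit 31795369) (nat_lit 31) (nat_lit 1) (nat_lit 28) (nat_lit 1) (nat_lit 30) (nat_lit 1) (nat_lit 243) (nat_lit 269) (nat_lit 208)) (XT.lf (nat_lit 84) (nat_lit 1683411607) (nat_lit 0) (nat_lit 1546184168) (nat_lit 252) (nat_lit 1683411607) (nat_lit 29) (nat_lit 1) (nat_lit 28) (nat_lit 1) (nat_lit 31) (nat_lit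 1) (nat_lit 244) (nat_lit 269) (nat_lit 207))))) (XT.nd (nat_lit 282) (nat_lit 336) (nat_lit 0) (XT.nd (nat_lit 94) (nat_lit 168) (nat_lit 0) (XT.lf (nat_lit 168) (nat_lit 1848286595) (nat_lit 0) (nat_lit 1490964409) (nat_lit 84) (nat_lit 1490964409) (nat_lit 29) (nat_lit 1) (nat_lit 27) (nat_lit 1) (nat_lit 28) (nat_lit 1) (nat_lit 245) (nat_lit 269) (nat_lit 206)) (XT.nd (nat_lit 94) (nat_lit 168) (nat_lit 0) (XT.lf (nat_lit 0) (nat_lit 185880730) (nat_lit 0) (nat_lit 4378161610) (nat_lit 168) (nat_lit 185880730) (nat_lit 27) (nat_lit 3) (nat_lit 27) (nat_lit 1) (nat_lit 29) (nat_lit 1) (nat_lit 246) (nat_lit 269) (nat_lit 205)) (XT.lf (nat_lit 84) (nat_lit 1799764751) (nat_lit 0) (nat_lit 1069699368) (nat_lit 168) (nat_lit 1799764751) (nat_lit 26) (nat_lit 1) (nat_lit 25) (nat_lit 1) (nat_lit 27) (nat_lit 1) (nat_lit 247) (nat_lit 269) (nat_lit 204)))) (XT.nd (nat_lit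 188) (nat_lit 252) (nat_lit 0) (XT.nd (nat_lit 94) (nat_lit 0) (nat_lit 0) (XT.lf (nat_lit 168) (nat_lit 2137757985) (nat_lit 0) (nat_lit 1226620109) (nat_lit 84) (nat_lit 1226620109) (nat_lit 26) (nat_lit 1) (nat_lit 24) (nat_lit 1) (nat_lit 25) (nat_lit 1) (nat_lit 248) (nat_lit 269) (nat_lit 203)) (XT.lf (nat_lit 0) (nat_lit 355274710) (nat_lit 0) (nat_lit 3804274565) (nat_lit 168) (nat_lit 355274710) (nat_lit 24) (nat_lit 3) (nat_lit 24) (nat_lit 1) (nat_lit 26) (nat_lit 1) (nat_lit 249) (nat_lit 269) (nat_lit 202))) (XT.nd (nat_lit 94) (nat_lit 84) (nat_lit 0) (XT.lf (nat_lit 84) (nat_lit 1875735539) (nat_lit 0) (nat_lit 687329866) (nat_lit 168) (nat_lit 1875735539) (nat_lit 23) (nat_lit 1) (nat_lit 22) (nat_lit 1) (nat_lit 24) (nat_lit 1) (nat_lit 250) (nat_lit 269) (nat_lit 201)) (XT.lf (nat_lit 168) (nat_lit 2346517860) (nat_lit 0) (nat_lit 1009143399) (nat_lit 84)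 (nat_lit 1009143399) (nat_lit 23) (nat_lit 1) (nat_lit 21) (nat_lit 1) (nat_lit 22) (nat_lit 1) (nat_lit 251) (nat_lit 269) (nat_lit 200)))))) (XT.nd (nat_lit 658) (nat_lit 588) (nat_lit 0) (XT.nd (nat_lit 282) (nat_lit 252) (nat_lit 0) (XT.nd (nat_lit 94) (nat_lit 252) (nat_lit 0) (XT.lf (nat_lit 0) (nat_lit 484999834) (nat_lit 0) (nat_lit 3322500551) (nat_lit 168) (nat_lit 484999834) (nat_lit 21) (nat_lit 3) (nat_lit 21) (nat_lit 1) (nat_lit 23) (nat_lit 1) (nat_lit 252) (nat_lit 269) (nat_lit 199)) (XT.nd (nat_lit 94) (nat_lit 84) (nat_lit 0) (XT.lf (nat_lit 84) (nat_lit 1919424293) (nat_lit 0) (nat_lit 381930410) (nat_lit 168) (nat_lit 1919424293) (nat_lit 20) (nat_lit 1) (nat_lit 19) (nat_lit 1) (nat_lit 21) (nat_lit 1) (nat_lit 253) (nat_lit 269) (nat_lit 198)) (XT.lf (nat_lit 168) (nat_lit 2490275646) (nat_lit 0) (nat_lit 830224772) (nat_lit 84) (nat_lit 830224772)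 (nat_lit 20) (nat_lit 1) (nat_lit 18) (nat_lit 1) (nat_lit 19) (nat_lit 1) (nat_lit 254) (nat_lit 269) (nat_lit 197)))) (XT.nd (nat_lit 188) (nat_lit 84) (nat_lit 0) (XT.nd (nat_lit 94) (nat_lit 168) (nat_lit 0) (XT.lf (nat_lit 0) (nat_lit 582548136) (nat_lit 0) (nat_lit 2916966998) (nat_lit 168) (nat_lit 582548136) (nat_lit 18) (nat_lit 3) (nat_lit 18) (nat_lit 1) (nat_lit 20) (nat_lit 1) (nat_lit 255) (nat_lit 269) (nat_lit 196)) (XT.lf (nat_lit 84) (nat_lit 1937450377) (nat_lit 0) (nat_lit 139417405) (nat_lit 168) (nat_lit 1937450377) (nat_lit 17) (nat_lit 1) (nat_lit 16) (nat_lit 1) (nat_lit 18) (nat_lit 1) (nat_lit 256) (nat_lit 269) (nat_lit 195))) (XT.nd (nat_lit 94) (nat_lit 0) (nat_lit 0) (XT.lf (nat_lit 168) (nat_lit 2581888885) (nat_lit 0) (nat_lit 683027974) (nat_lit 84) (nat_lit 683027974) (nat_lit 17) (nat_lit 1) (nat_lit 15) (nat_lit 1) (nat_lit 16) (nat_lit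 1) (nat_lit 257) (nat_lit 269) (nat_lit 194)) (XT.lf (nat_lit 0) (nat_lit 654061481) (nat_lit 0) (nat_lit 2574593656) (nat_lit 168) (nat_lit 654061481) (nat_lit 15) (nat_lit 3) (nat_lit 15) (nat_lit 1) (nat_lit 17) (nat_lit 1) (nat_lit 258) (nat_lit 269) (nat_lit 193))))) (XT.nd (nat_lit 282) (nat_lit 336) (nat_lit 0) (XT.nd (nat_lit 94) (nat_lit 168) (nat_lit 0) (XT.lf (nat_lit 84) (nat_lit 53486857) (nat_lit 0) (nat_lit 1882565118) (nat_lit 84) (nat_lit 1882565118) (nat_lit 15) (nat_lit 3) (nat_lit 14) (nat_lit 1) (nat_lit 15) (nat_lit 1) (nat_lit 259) (nat_lit 269) (nat_lit 192)) (XT.nd (nat_lit 94) (nat_lit 0) (nat_lit 0) (XT.lf (nat_lit 168) (nat_lit 2631872040) (nat_lit 0) (nat_lit 561928805) (nat_lit 84) (nat_lit 561928805) (nat_lit 14) (nat_lit 1) (nat_lit 12) (nat_lit 1) (nat_lit 13) (nat_lit 1) (nat_lit 260) (nat_lit 269) (nat_lit 191)) (XT.lf (nat_lit 0) (nat_lit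 704571988) (nat_lit 0) (nat_lit 2284598561) (nat_lit 168) (nat_lit 704571988) (nat_lit 12) (nat_lit 3) (nat_lit 12) (nat_lit 1) (nat_lit 14) (nat_lit 1) (nat_lit 261) (nat_lit 269) (nat_lit 190)))) (XT.nd (nat_lit 188) (nat_lit 84) (nat_lit 0) (XT.nd (nat_lit 94) (nat_lit 168) (nat_lit 0) (XT.lf (nat_lit 84) (nat_lit 207792694) (nat_lit 0) (nat_lit 1712579906) (nat_lit 84) (nat_lit 1712579906) (nat_lit 12) (nat_lit 3) (nat_lit 11) (nat_lit 1) (nat_lit 12) (nat_lit 1) (nat_lit 262) (nat_lit 269) (nat_lit 189)) (XT.lf (nat_lit 168) (nat_lit 2648814941) (nat_lit 0) (nat_lit 462300218) (nat_lit 84) (nat_lit 462300218) (nat_lit 11) (nat_lit 1) (nat_lit 9) (nat_lit 1) (nat_lit 10) (nat_lit 1) (nat_lit 263) (nat_lit 269) (nat_lit 188))) (XT.nd (nat_lit 94) (nat_lit 84) (nat_lit 0) (XT.lf (nat_lit 0) (nat_lit 738199774) (nat_lit 0) (nat_lit 2038091545) (nat_lit 168) (nat_lit 738199774)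 (nat_lit 9) (nat_lit 3) (nat_lit 9) (nat_lit 1) (nat_lit 11) (nat_lit 1) (nat_lit 264) (nat_lit 269) (nat_lit 187)) (XT.lf (nat_lit 84) (nat_lit 326941015) (nat_lit 0) (nat_lit 1564933178) (nat_lit 84) (nat_lit 1564933178) (nat_lit 9) (nat_lit 3) (nat_lit 8) (nat_lit 1) (nat_lit 9) (nat_lit 1) (nat_lit 265) (nat_lit 269) (nat_lit 186))))))) (XT.nd (nat_lit 1222) (nat_lit 0) (nat_lit 0) (XT.nd (nat_lit 564) (nat_lit 168) (nat_lit 0) (XT.nd (nat_lit 282) (nat_lit 252) (nat_lit 0) (XT.nd (nat_lit 94) (nat_lit 84) (nat_lit 0) (XT.lf (nat_lit 168) (nat_lit 2639726893) (nat_lit 0) (nat_lit 380335534) (nat_lit 84) (nat_lit 380335534) (nat_lit 8) (nat_lit 1) (nat_lit 6) (nat_lit 1) (nat_lit 7) (nat_lit 1) (nat_lit 266) (nat_lit 269) (nat_lit 185)) (XT.nd (nat_lit 94) (nat_lit 84) (nat_lit 0) (XT.lf (nat_lit 0) (nat_lit 758315596) (nat_lit 0) (nat_lit 1827739773) (nat_lit 168) (nat_lit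 758315596) (nat_lit 6) (nat_lit 3) (nat_lit 6) (nat_lit 1) (nat_lit 8) (nat_lit 1) (nat_lit 267) (nat_lit 269) (nat_lit 184)) (XT.lf (nat_lit 84) (nat_lit 417536564) (nat_lit 0) (nat_lit 1436035781) (nat_lit 84) (nat_lit 1436035781) (nat_lit 6) (nat_lit 3) (nat_lit 5) (nat_lit 1) (nat_lit 6) (nat_lit 1) (nat_lit 268) (nat_lit 269) (nat_lit 183)))) (XT.nd (nat_lit 94) (nat_lit 84) (nat_lit 0) (XT.lf (nat_lit 168) (nat_lit 2610319643) (nat_lit 0) (nat_lit 312902985) (nat_lit 84) (nat_lit 312902985) (nat_lit 5) (nat_lit 1) (nat_lit 3) (nat_lit 1) (nat_lit 4) (nat_lit 1) (nat_lit 269) (nat_lit 269) (nat_lit 182)) (XT.nd (nat_lit 94) (nat_lit 84) (nat_lit 0) (XT.lf (nat_lit 0) (nat_lit 767674608) (nat_lit 0) (nat_lit 1647492525) (nat_lit 168) (nat_lit 767674608) (nat_lit 3) (nat_lit 3) (nat_lit 3) (nat_lit 1) (nat_lit 5) (nat_lit 1) (nat_lit 270) (nat_lit 269) (nat_lit 181))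 (XT.lf (nat_lit 84) (nat_lit 484995396) (nat_lit 0) (nat_lit 1322917222) (nat_lit 84) (nat_lit 1322917222) (nat_lit 3) (nat_lit 3) (nat_lit 2) (nat_lit 1) (nat_lit 3) (nat_lit 1) (nat_lit 271) (nat_lit 269) (nat_lit 180))))) (XT.nd (nat_lit 282) (nat_lit 0) (nat_lit 0) (XT.nd (nat_lit 94) (nat_lit 0) (nat_lit 0) (XT.lf (nat_lit 0) (nat_lit 4474412971) (nat_lit 0) (nat_lit 0) (nat_lit 0) (nat_lit 0) (nat_lit 0) (nat_lit 0) (nat_lit 1) (nat_lit 0) (nat_lit 1) (nat_lit 0) (nat_lit 272) (nat_lit 269) (nat_lit 179)) (XT.nd (nat_lit 94) (nat_lit 0) (nat_lit 0) (XT.lf (nat_lit 0) (nat_lit 4471806017) (nat_lit 0) (nat_lit 0) (nat_lit 0) (nat_lit 0) (nat_lit 0) (nat_lit 0) (nat_lit 1) (nat_lit 0) (nat_lit 1) (nat_lit 0) (nat_lit 273) (nat_lit 269) (nat_lit 178)) (XT.lf (nat_lit 0) (nat_lit 4469323204) (nat_lit 0) (nat_lit 0) (nat_lit 0) (nat_lit 0) (nat_lit 0) (nat_lit 0) (nat_lit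 1) (nat_lit 0) (nat_lit 1) (nat_lit 0) (nat_lit 274) (nat_lit 269) (nat_lit 177)))) (XT.nd (nat_lit 188) (nat_lit 0) (nat_lit 0) (XT.nd (nat_lit 94) (nat_lit 0) (nat_lit 0) (XT.lf (nat_lit 0) (nat_lit 4466958620) (nat_lit 0) (nat_lit 0) (nat_lit 0) (nat_lit 0) (nat_lit 0) (nat_lit 0) (nat_lit 1) (nat_lit 0) (nat_lit 1) (nat_lit 0) (nat_lit 275) (nat_lit 269) (nat_lit 176)) (XT.lf (nat_lit 0) (nat_lit 4464706635) (nat_lit 0) (nat_lit 0) (nat_lit 0) (nat_lit 0) (nat_lit 0) (nat_lit 0) (nat_lit 1) (nat_lit 0) (nat_lit 1) (nat_lit 0) (nat_lit 276) (nat_lit 269) (nat_lit 175))) (XT.nd (nat_lit 94) (nat_lit 0) (nat_lit 0) (XT.lf (nat_lit 0) (nat_lit 4462561888) (nat_lit 0) (nat_lit 0) (nat_lit 0) (nat_lit 0) (nat_lit 0) (nat_lit 0) (nat_lit 1) (nat_lit 0) (nat_lit 1) (nat_lit 0) (nat_lit 277) (nat_lit 269) (nat_lit 174)) (XT.lf (nat_lit 0) (nat_lit 4460519272) (nat_lit 0) (nat_lit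 0) (nat_lit 0) (nat_lit 0) (nat_lit 0) (nat_lit 0) (nat_lit 1) (nat_lit 0) (nat_lit 1) (nat_lit 0) (nat_lit 278) (nat_lit 269) (nat_lit 173)))))) (XT.nd (nat_lit 658) (nat_lit 0) (nat_lit 0) (XT.nd (nat_lit 282) (nat_lit 0) (nat_lit 0) (XT.nd (nat_lit 94) (nat_lit 0) (nat_lit 0) (XT.lf (nat_lit 0) (nat_lit 4458573922) (nat_lit 0) (nat_lit 0) (nat_lit 0) (nat_lit 0) (nat_lit 0) (nat_lit 0) (nat_lit 1) (nat_lit 0) (nat_lit 1) (nat_lit 0) (nat_lit 279) (nat_lit 269) (nat_lit 172)) (XT.nd (nat_lit 94) (nat_lit 0) (nat_lit 0) (XT.lf (nat_lit 0) (nat_lit 4456721209) (nat_lit 0) (nat_lit 0) (nat_lit 0) (nat_lit 0) (nat_lit 0) (nat_lit 0) (nat_lit 1) (nat_lit 0) (nat_lit 1) (nat_lit 0) (nat_lit 280) (nat_lit 269) (nat_lit 171)) (XT.lf (nat_lit 0) (nat_lit 4454956720) (nat_lit 0) (nat_lit 0) (nat_lit 0) (nat_lit 0) (nat_lit 0) (nat_lit 0) (nat_lit 1) (nat_lit 0) (nat_lit 1) (nat_lit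 0) (nat_lit 281) (nat_lit 269) (nat_lit 170)))) (XT.nd (nat_lit 188) (nat_lit 0) (nat_lit 0) (XT.nd (nat_lit 94) (nat_lit 0) (nat_lit 0) (XT.lf (nat_lit 0) (nat_lit 4453276255) (nat_lit 0) (nat_lit 0) (nat_lit 0) (nat_lit 0) (nat_lit 0) (nat_lit 0) (nat_lit 1) (nat_lit 0) (nat_lit 1) (nat_lit 0) (nat_lit 282) (nat_lit 269) (nat_lit 169)) (XT.lf (nat_lit 0) (nat_lit 4451675811) (nat_lit 0) (nat_lit 0) (nat_lit 0) (nat_lit 0) (nat_lit 0) (nat_lit 0) (nat_lit 1) (nat_lit 0) (nat_lit 1) (nat_lit 0) (nat_lit 283) (nat_lit 269) (nat_lit 168))) (XT.nd (nat_lit 94) (nat_lit 0) (nat_lit 0) (XT.lf (nat_lit 0) (nat_lit 4450151579) (nat_lit 0) (nat_lit 0) (nat_lit 0) (nat_lit 0) (nat_lit 0) (nat_lit 0) (nat_lit 1) (nat_lit 0) (nat_lit 1) (nat_lit 0) (nat_lit 284) (nat_lit 269) (nat_lit 167)) (XT.lf (nat_lit 0) (nat_lit 4448699930) (nat_lit 0) (nat_lit 0) (nat_lit 0) (nat_lit 0) (nat_lit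 0) (nat_lit 0) (nat_lit 1) (nat_lit 0) (nat_lit 1) (nat_lit 0) (nat_lit 285) (nat_lit 269) (nat_lit 166))))) (XT.nd (nat_lit 282) (nat_lit 0) (nat_lit 0) (XT.nd (nat_lit 94) (nat_lit 0) (nat_lit 0) (XT.lf (nat_lit 0) (nat_lit 4447317406) (nat_lit 0) (nat_lit 0) (nat_lit 0) (nat_lit 0) (nat_lit 0) (nat_lit 0) (nat_lit 1) (nat_lit 0) (nat_lit 1) (nat_lit 0) (nat_lit 286) (nat_lit 269) (nat_lit 165)) (XT.nd (nat_lit 94) (nat_lit 0) (nat_lit 0) (XT.lf (nat_lit 0) (nat_lit 4446000718) (nat_lit 0) (nat_lit 0) (nat_lit 0) (nat_lit 0) (nat_lit 0) (nat_lit 0) (nat_lit 1) (nat_lit 0) (nat_lit 1) (nat_lit 0) (nat_lit 287) (nat_lit 269) (nat_lit 164)) (XT.lf (nat_lit 0) (nat_lit 4444746728) (nat_lit 0) (nat_lit 0) (nat_lit 0) (nat_lit 0) (nat_lit 0) (nat_lit 0) (nat_lit 1) (nat_lit 0) (nat_lit 1) (nat_lit 0) (nat_lit 288) (nat_lit 269) (nat_lit 163)))) (XT.nd (nat_lit 188) (nat_lit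 0) (nat_lit 0) (XT.nd (nat_lit 94) (nat_lit 0) (nat_lit 0) (XT.lf (nat_lit 0) (nat_lit 4443552453) (nat_lit 0) (nat_lit 0) (nat_lit 0) (nat_lit 0) (nat_lit 0) (nat_lit 0) (nat_lit 1) (nat_lit 0) (nat_lit 1) (nat_lit 0) (nat_lit 289) (nat_lit 269) (nat_lit 162)) (XT.lf (nat_lit 0) (nat_lit 4442415047) (nat_lit 0) (nat_lit 0) (nat_lit 0) (nat_lit 0) (nat_lit 0) (nat_lit 0) (nat_lit 1) (nat_lit 0) (nat_lit 1) (nat_lit 0) (nat_lit 290) (nat_lit 269) (nat_lit 161))) (XT.nd (nat_lit 94) (nat_lit 0) (nat_lit 0) (XT.lf (nat_lit 0) (nat_lit 4441331804) (nat_lit 0) (nat_lit 0) (nat_lit 0) (nat_lit 0) (nat_lit 0) (nat_lit 0) (nat_lit 1) (nat_lit 0) (nat_lit 1) (nat_lit 0) (nat_lit 291) (nat_lit 269) (nat_lit 160)) (XT.lf (nat_lit 0) (nat_lit 4440300144) (nat_lit 0) (nat_lit 0) (nat_lit 0) (nat_lit 0) (nat_lit 0) (nat_lit 0) (nat_lit 1) (nat_lit 0) (nat_lit 1) (nat_lit 0) (nat_lit 292)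 (nat_lit 269) (nat_lit 159))))))))
noncomputable def ec89 : XT := (XT.nd (nat_lit 34780) (nat_lit 0) (nat_lit 6552) (XT.nd (nat_lit 1222) (nat_lit 0) (nat_lit 0) (XT.nd (nat_lit 564) (nat_lit 0) (nat_lit 0) (XT.nd (nat_lit 282) (nat_lit 0) (nat_lit 0) (XT.nd (nat_lit 94) (nat_lit 0) (nat_lit 0) (XT.lf (nat_lit 0) (nat_lit 4439317611) (nat_lit 0) (nat_lit 0) (nat_lit 0) (nat_lit 0) (nat_lit 0) (nat_lit 0) (nat_lit 1) (nat_lit 0) (nat_lit 1) (nat_lit 0) (nat_lit 293) (nat_lit 269) (nat_lit 158)) (XT.nd (nat_lit 94) (nat_lit 0) (nat_lit 0) (XT.lf (nat_lit 0) (nat_lit 4438381865) (nat_lit 0) (nat_lit 0) (nat_lit 0) (nat_lit 0) (nat_lit 0) (nat_lit 0) (nat_lit 1) (nat_lit 0) (nat_lit 1) (nat_lit 0) (nat_lit 294) (nat_lit 269) (nat_lit 157)) (XT.lf (nat_lit 0) (nat_lit 4437490678) (nat_lit 0) (nat_lit 0) (nat_lit 0) (nat_lit 0) (nat_lit 0) (nat_lit 0) (nat_lit 1) (nat_lit 0) (nat_lit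 1) (nat_lit 0) (nat_lit 295) (nat_lit 269) (nat_lit 156)))) (XT.nd (nat_lit 94) (nat_lit 0) (nat_lit 0) (XT.lf (nat_lit 0) (nat_lit 4436641928) (nat_lit 0) (nat_lit 0) (nat_lit 0) (nat_lit 0) (nat_lit 0) (nat_lit 0) (nat_lit 1) (nat_lit 0) (nat_lit 1) (nat_lit 0) (nat_lit 296) (nat_lit 269) (nat_lit 155)) (XT.nd (nat_lit 94) (nat_lit 0) (nat_lit 0) (XT.lf (nat_lit 0) (nat_lit 4435833596) (nat_lit 0) (nat_lit 0) (nat_lit 0) (nat_lit 0) (nat_lit 0) (nat_lit 0) (nat_lit 1) (nat_lit 0) (nat_lit 1) (nat_lit 0) (nat_lit 297) (nat_lit 269) (nat_lit 154)) (XT.lf (nat_lit 0) (nat_lit 4435063755) (nat_lit 0) (nat_lit 0) (nat_lit 0) (nat_lit 0) (nat_lit 0) (nat_lit 0) (nat_lit 1) (nat_lit 0) (nat_lit 1) (nat_lit 0) (nat_lit 298) (nat_lit 269) (nat_lit 153))))) (XT.nd (nat_lit 282) (nat_lit 0) (nat_lit 0) (XT.nd (nat_lit 94) (nat_lit 0) (nat_lit 0) (XT.lf (nat_lit 0) (nat_lit 4434330573)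 (nat_lit 0) (nat_lit 0) (nat_lit 0) (nat_lit 0) (nat_lit 0) (nat_lit 0) (nat_lit 1) (nat_lit 0) (nat_lit 1) (nat_lit 0) (nat_lit 299) (nat_lit 269) (nat_lit 152)) (XT.nd (nat_lit 94) (nat_lit 0) (nat_lit 0) (XT.lf (nat_lit 0) (nat_lit 4433632305) (nat_lit 0) (nat_lit 0) (nat_lit 0) (nat_lit 0) (nat_lit 0) (nat_lit 0) (nat_lit 1) (nat_lit 0) (nat_lit 1) (nat_lit 0) (nat_lit 300) (nat_lit 269) (nat_lit 151)) (XT.lf (nat_lit 0) (nat_lit 4432967288) (nat_lit 0) (nat_lit 0) (nat_lit 0) (nat_lit 0) (nat_lit 0) (nat_lit 0) (nat_lit 1) (nat_lit 0) (nat_lit 1) (nat_lit 0) (nat_lit 301) (nat_lit 269) (nat_lit 150)))) (XT.nd (nat_lit 188) (nat_lit 0) (nat_lit 0) (XT.nd (nat_lit 94) (nat_lit 0) (nat_lit 0) (XT.lf (nat_lit 0) (nat_lit 4432333938) (nat_lit 0) (nat_lit 0) (nat_lit 0) (nat_lit 0) (nat_lit 0) (nat_lit 0) (nat_lit 1) (nat_lit 0) (nat_lit 1) (nat_lit 0) (nat_lit 302) (nat_lit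 269) (nat_lit 149)) (XT.lf (nat_lit 0) (nat_lit 4431730748) (nat_lit 0) (nat_lit 0) (nat_lit 0) (nat_lit 0) (nat_lit 0) (nat_lit 0) (nat_lit 1) (nat_lit 0) (nat_lit 1) (nat_lit 0) (nat_lit 303) (nat_lit 269) (nat_lit 148))) (XT.nd (nat_lit 94) (nat_lit 0) (nat_lit 0) (XT.lf (nat_lit 0) (nat_lit 4431156281) (nat_lit 0) (nat_lit 0) (nat_lit 0) (nat_lit 0) (nat_lit 0) (nat_lit 0) (nat_lit 1) (nat_lit 0) (nat_lit 1) (nat_lit 0) (nat_lit 304) (nat_lit 269) (nat_lit 147)) (XT.lf (nat_lit 0) (nat_lit 4430609169) (nat_lit 0) (nat_lit 0) (nat_lit 0) (nat_lit 0) (nat_lit 0) (nat_lit 0) (nat_lit 1) (nat_lit 0) (nat_lit 1) (nat_lit 0) (nat_lit 305) (nat_lit 269) (nat_lit 146)))))) (XT.nd (nat_lit 658) (nat_lit 0) (nat_lit 0) (XT.nd (nat_lit 282) (nat_lit 0) (nat_lit 0) (XT.nd (nat_lit 94) (nat_lit 0) (nat_lit 0) (XT.lf (nat_lit 0) (nat_lit 4430088111) (nat_lit 0) (nat_lit 0) (nat_lit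 0) (nat_lit 0) (nat_lit 0) (nat_lit 0) (nat_lit 1) (nat_lit 0) (nat_lit 1) (nat_lit 0) (nat_lit 306) (nat_lit 269) (nat_lit 145)) (XT.nd (nat_lit 94) (nat_lit 0) (nat_lit 0) (XT.lf (nat_lit 0) (nat_lit 4429591865) (nat_lit 0) (nat_lit 0) (nat_lit 0) (nat_lit 0) (nat_lit 0) (nat_lit 0) (nat_lit 1) (nat_lit 0) (nat_lit 1) (nat_lit 0) (nat_lit 307) (nat_lit 269) (nat_lit 144)) (XT.lf (nat_lit 0) (nat_lit 4429119249) (nat_lit 0) (nat_lit 0) (nat_lit 0) (nat_lit 0) (nat_lit 0) (nat_lit 0) (nat_lit 1) (nat_lit 0) (nat_lit 1) (nat_lit 0) (nat_lit 308) (nat_lit 269) (nat_lit 143)))) (XT.nd (nat_lit 188) (nat_lit 0) (nat_lit 0) (XT.nd (nat_lit 94) (nat_lit 0) (nat_lit 0) (XT.lf (nat_lit 0) (nat_lit 4428669139) (nat_lit 0) (nat_lit 0) (nat_lit 0) (nat_lit 0) (nat_lit 0) (nat_lit 0) (nat_lit 1) (nat_lit 0) (nat_lit 1) (nat_lit 0) (nat_lit 309) (nat_lit 269) (nat_lit 142)) (XT.lf (nat_lit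 0) (nat_lit 4428240463) (nat_lit 0) (nat_lit 0) (nat_lit 0) (nat_lit 0) (nat_lit 0) (nat_lit 0) (nat_lit 1) (nat_lit 0) (nat_lit 1) (nat_lit 0) (nat_lit 310) (nat_lit 269) (nat_lit 141))) (XT.nd (nat_lit 94) (nat_lit 0) (nat_lit 0) (XT.lf (nat_lit 0) (nat_lit 4427832200) (nat_lit 0) (nat_lit 0) (nat_lit 0) (nat_lit 0) (nat_lit 0) (nat_lit 0) (nat_lit 1) (nat_lit 0) (nat_lit 1) (nat_lit 0) (nat_lit 311) (nat_lit 269) (nat_lit 140)) (XT.lf (nat_lit 0) (nat_lit 4427443379) (nat_lit 0) (nat_lit 0) (nat_lit 0) (nat_lit 0) (nat_lit 0) (nat_lit 0) (nat_lit 1) (nat_lit 0) (nat_lit 1) (nat_lit 0) (nat_lit 312) (nat_lit 269) (nat_lit 139))))) (XT.nd (nat_lit 282) (nat_lit 0) (nat_lit 0) (XT.nd (nat_lit 94) (nat_lit 0) (nat_lit 0) (XT.lf (nat_lit 0) (nat_lit 4427073072) (nat_lit 0) (nat_lit 0) (nat_lit 0) (nat_lit 0) (nat_lit 0) (nat_lit 0) (nat_lit 1) (nat_lit 0) (nat_lit 1) (nat_lit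 0) (nat_lit 313) (nat_lit 269) (nat_lit 138)) (XT.nd (nat_lit 94) (nat_lit 0) (nat_lit 0) (XT.lf (nat_lit 0) (nat_lit 4426720399) (nat_lit 0) (nat_lit 0) (nat_lit 0) (nat_lit 0) (nat_lit 0) (nat_lit 0) (nat_lit 1) (nat_lit 0) (nat_lit 1) (nat_lit 0) (nat_lit 314) (nat_lit 269) (nat_lit 137)) (XT.lf (nat_lit 0) (nat_lit 4426384520) (nat_lit 0) (nat_lit 0) (nat_lit 0) (nat_lit 0) (nat_lit 0) (nat_lit 0) (nat_lit 1) (nat_lit 0) (nat_lit 1) (nat_lit 0) (nat_lit 315) (nat_lit 269) (nat_lit 136)))) (XT.nd (nat_lit 32430) (nat_lit 0) (nat_lit 10752) (XT.nd (nat_lit 94) (nat_lit 0) (nat_lit 0) (XT.lf (nat_lit 0) (nat_lit 4426064636) (nat_lit 0) (nat_lit 0) (nat_lit 0) (nat_lit 0) (nat_lit 0) (nat_lit 0) (nat_lit 1) (nat_lit 0) (nat_lit 1) (nat_lit 0) (nat_lit 316) (nat_lit 269) (nat_lit 135)) (XT.lf (nat_lit 0) (nat_lit 4425759983) (nat_lit 0) (nat_lit 0) (nat_lit 0) (nat_lit 0)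 (nat_lit 0) (nat_lit 0) (nat_lit 1) (nat_lit 0) (nat_lit 1) (nat_lit 0) (nat_lit 317) (nat_lit 269) (nat_lit 134))) (XT.nd (nat_lit 94) (nat_lit 0) (nat_lit 0) (XT.lf (nat_lit 924) (nat_lit 2322355232) (nat_lit 0) (nat_lit 4123336376) (nat_lit 924) (nat_lit 2322355232) (nat_lit 139) (nat_lit 1) (nat_lit 128) (nat_lit 0) (nat_lit 139) (nat_lit 0) (nat_lit 180) (nat_lit 270) (nat_lit 270)) (XT.lf (nat_lit 924) (nat_lit 9001738814) (nat_lit 84) (nat_lit 4056830951) (nat_lit 0) (nat_lit 4056830951) (nat_lit 139) (nat_lit 1) (nat_lit 129) (nat_lit 1) (nat_lit 128) (nat_lit 0) (nat_lit 181) (nat_lit 270) (nat_lit 269))))))) (XT.nd (nat_lit 1222) (nat_lit 2772) (nat_lit 0) (XT.nd (nat_lit 564) (nat_lit 1512) (nat_lit 0) (XT.nd (nat_lit 282) (nat_lit 0) (nat_lit 84) (XT.nd (nat_lit 94) (nat_lit 0) (nat_lit 0) (XT.lf (nat_lit 924) (nat_lit 4290093180) (nat_lit 0) (nat_lit 8127527272)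 (nat_lit 840) (nat_lit 4290093180) (nat_lit 140) (nat_lit 1) (nat_lit 129) (nat_lit 1) (nat_lit 139) (nat_lit 1) (nat_lit 182) (nat_lit 270) (nat_lit 268)) (XT.nd (nat_lit 94) (nat_lit 0) (nat_lit 84) (XT.lf (nat_lit 924) (nat_lit 8047618682) (nat_lit 84) (nat_lit 4132789597) (nat_lit 0) (nat_lit 4132789597) (nat_lit 140) (nat_lit 1) (nat_lit 130) (nat_lit 1) (nat_lit 129) (nat_lit 1) (nat_lit 183) (nat_lit 270) (nat_lit 267)) (XT.lf (nat_lit 924) (nat_lit 3704241597) (nat_lit 0) (nat_lit 8522703097) (nat_lit 840) (nat_lit 3704241597) (nat_lit 141) (nat_lit 1) (nat_lit 130) (nat_lit 1) (nat_lit 140) (nat_lit 1) (nat_lit 184) (nat_lit 270) (nat_lit 266)))) (XT.nd (nat_lit 94) (nat_lit 0) (nat_lit 84) (XT.lf (nat_lit 924) (nat_lit 6662319777) (nat_lit 84) (nat_lit 4449250051) (nat_lit 0) (nat_lit 4449250051) (nat_lit 141) (nat_lit 1) (nat_lit 131) (nat_lit 1) (nat_lit 130)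 (nat_lit 1) (nat_lit 185) (nat_lit 270) (nat_lit 265)) (XT.nd (nat_lit 94) (nat_lit 0) (nat_lit 0) (XT.lf (nat_lit 924) (nat_lit 2921234797) (nat_lit 0) (nat_lit 9360419496) (nat_lit 840) (nat_lit 2921234797) (nat_lit 142) (nat_lit 1) (nat_lit 131) (nat_lit 1) (nat_lit 141) (nat_lit 1) (nat_lit 186) (nat_lit 270) (nat_lit 264)) (XT.lf (nat_lit 924) (nat_lit 4910685388) (nat_lit 84) (nat_lit 4972063986) (nat_lit 0) (nat_lit 4972063986) (nat_lit 142) (nat_lit 1) (nat_lit 132) (nat_lit 1) (nat_lit 131) (nat_lit 1) (nat_lit 187) (nat_lit 270) (nat_lit 263))))) (XT.nd (nat_lit 282) (nat_lit 1764) (nat_lit 0) (XT.nd (nat_lit 94) (nat_lit 0) (nat_lit 0) (XT.lf (nat_lit 924) (nat_lit 1971384409) (nat_lit 0) (nat_lit 10576710370) (nat_lit 840) (nat_lit 1971384409) (nat_lit 143) (nat_lit 1) (nat_lit 132) (nat_lit 1) (nat_lit 142) (nat_lit 1) (nat_lit 188) (nat_lit 270) (nat_lit 262))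 (XT.nd (nat_lit 94) (nat_lit 0) (nat_lit 84) (XT.lf (nat_lit 924) (nat_lit 2850351413) (nat_lit 84) (nat_lit 5670819232) (nat_lit 0) (nat_lit 5670819232) (nat_lit 143) (nat_lit 1) (nat_lit 133) (nat_lit 1) (nat_lit 132) (nat_lit 1) (nat_lit 189) (nat_lit 270) (nat_lit 261)) (XT.lf (nat_lit 84) (nat_lit 881613405) (nat_lit 0) (nat_lit 12114643385) (nat_lit 840) (nat_lit 881613405) (nat_lit 134) (nat_lit 1) (nat_lit 133) (nat_lit 1) (nat_lit 143) (nat_lit 1) (nat_lit 190) (nat_lit 270) (nat_lit 260)))) (XT.nd (nat_lit 188) (nat_lit 420) (nat_lit 0) (XT.nd (nat_lit 94) (nat_lit 588) (nat_lit 0) (XT.lf (nat_lit 924) (nat_lit 532472573) (nat_lit 0) (nat_lit 6518465690) (nat_lit 840) (nat_lit 6518465690) (nat_lit 134) (nat_lit 1) (nat_lit 123) (nat_lit 1) (nat_lit 133) (nat_lit 1) (nat_lit 191) (nat_lit 270) (nat_lit 259)) (XT.lf (nat_lit 588) (nat_lit 12636244739) (nat_lit 0)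 (nat_lit 318972629) (nat_lit 504) (nat_lit 318972629) (nat_lit 123) (nat_lit 1) (nat_lit 116) (nat_lit 1) (nat_lit 122) (nat_lit 1) (nat_lit 192) (nat_lit 270) (nat_lit 258))) (XT.nd (nat_lit 94) (nat_lit 420) (nat_lit 0) (XT.lf (nat_lit 84) (nat_lit 5524544207) (nat_lit 0) (nat_lit 1933685200) (nat_lit 588) (nat_lit 5524544207) (nat_lit 117) (nat_lit 1) (nat_lit 116) (nat_lit 1) (nat_lit 123) (nat_lit 1) (nat_lit 193) (nat_lit 270) (nat_lit 257)) (XT.lf (nat_lit 504) (nat_lit 9506322491) (nat_lit 0) (nat_lit 1598713272) (nat_lit 420) (nat_lit 1598713272) (nat_lit 117) (nat_lit 1) (nat_lit 111) (nat_lit 1) (nat_lit 116) (nat_lit 1) (nat_lit 194) (nat_lit 270) (nat_lit 256)))))) (XT.nd (nat_lit 658) (nat_lit 1260) (nat_lit 0) (XT.nd (nat_lit 282) (nat_lit 1092) (nat_lit 0) (XT.nd (nat_lit 94) (nat_lit 420) (nat_lit 0) (XT.lf (nat_lit 84) (nat_lit 3940590130) (nat_lit 0) (nat_lit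 4549410067) (nat_lit 504) (nat_lit 3940590130) (nat_lit 112) (nat_lit 1) (nat_lit 111) (nat_lit 1) (nat_lit 117) (nat_lit 1) (nat_lit 195) (nat_lit 270) (nat_lit 255)) (XT.nd (nat_lit 94) (nat_lit 0) (nat_lit 0) (XT.lf (nat_lit 504) (nat_lit 6260048172) (nat_lit 0) (nat_lit 2953448415) (nat_lit 420) (nat_lit 2953448415) (nat_lit 112) (nat_lit 1) (nat_lit 106) (nat_lit 1) (nat_lit 111) (nat_lit 1) (nat_lit 196) (nat_lit 270) (nat_lit 254)) (XT.lf (nat_lit 84) (nat_lit 2306744555) (nat_lit 0) (nat_lit 7297478265) (nat_lit 504) (nat_lit 2306744555) (nat_lit 107) (nat_lit 1) (nat_lit 106) (nat_lit 1) (nat_lit 112) (nat_lit 1) (nat_lit 197) (nat_lit 270) (nat_lit 253)))) (XT.nd (nat_lit 188) (nat_lit 756) (nat_lit 0) (XT.nd (nat_lit 94) (nat_lit 0) (nat_lit 0) (XT.lf (nat_lit 420) (nat_lit 2927636360) (nat_lit 0) (nat_lit 4366968987) (nat_lit 336) (nat_lit 4366968987) (nat_lit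 107) (nat_lit 1) (nat_lit 102) (nat_lit 1) (nat_lit 106) (nat_lit 1) (nat_lit 198) (nat_lit 270) (nat_lit 252)) (XT.lf (nat_lit 84) (nat_lit 637034137) (nat_lit 0) (nat_lit 10147703451) (nat_lit 420) (nat_lit 637034137) (nat_lit 103) (nat_lit 1) (nat_lit 102) (nat_lit 1) (nat_lit 107) (nat_lit 1) (nat_lit 199) (nat_lit 270) (nat_lit 251))) (XT.nd (nat_lit 94) (nat_lit 336) (nat_lit 0) (XT.lf (nat_lit 84) (nat_lit 5367832691) (nat_lit 0) (nat_lit 449566414) (nat_lit 420) (nat_lit 5367832691) (nat_lit 98) (nat_lit 1) (nat_lit 97) (nat_lit 1) (nat_lit 102) (nat_lit 1) (nat_lit 200) (nat_lit 270) (nat_lit 250)) (XT.lf (nat_lit 420) (nat_lit 8879241787) (nat_lit 0) (nat_lit 1039229051) (nat_lit 336) (nat_lit 1039229051) (nat_lit 98) (nat_lit 1) (nat_lit 93) (nat_lit 1) (nat_lit 97) (nat_lit 1) (nat_lit 201) (nat_lit 270) (nat_lit 249))))) (XT.nd (nat_lit 282) (nat_lit 924) (nat_lit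 0) (XT.nd (nat_lit 94) (nat_lit 336) (nat_lit 0) (XT.lf (nat_lit 84) (nat_lit 3482828987) (nat_lit 0) (nat_lit 3768413368) (nat_lit 420) (nat_lit 3482828987) (nat_lit 94) (nat_lit 1) (nat_lit 93) (nat_lit 1) (nat_lit 98) (nat_lit 1) (nat_lit 202) (nat_lit 270) (nat_lit 248)) (XT.nd (nat_lit 94) (nat_lit 0) (nat_lit 0) (XT.lf (nat_lit 420) (nat_lit 5082416340) (nat_lit 0) (nat_lit 2717890553) (nat_lit 336) (nat_lit 2717890553) (nat_lit 94) (nat_lit 1) (nat_lit 89) (nat_lit 1) (nat_lit 93) (nat_lit 1) (nat_lit 203) (nat_lit 270) (nat_lit 247)) (XT.lf (nat_lit 84) (nat_lit 1602767289) (nat_lit 0) (nat_lit 7103101145) (nat_lit 420) (nat_lit 1602767289) (nat_lit 90) (nat_lit 1) (nat_lit 89) (nat_lit 1) (nat_lit 94) (nat_lit 1) (nat_lit 204) (nat_lit 270) (nat_lit 246)))) (XT.nd (nat_lit 188) (nat_lit 252) (nat_lit 0) (XT.nd (nat_lit 94) (nat_lit 420) (nat_lit 0) (XT.lf (nat_lit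 336) (nat_lit 1303461991) (nat_lit 0) (nat_lit 4400067803) (nat_lit 252) (nat_lit 4400067803) (nat_lit 90) (nat_lit 1) (nat_lit 86) (nat_lit 1) (nat_lit 89) (nat_lit 1) (nat_lit 205) (nat_lit 270) (nat_lit 245)) (XT.lf (nat_lit 420) (nat_lit 9385606944) (nat_lit 0) (nat_lit 260432583) (nat_lit 336) (nat_lit 260432583) (nat_lit 86) (nat_lit 1) (nat_lit 81) (nat_lit 1) (nat_lit 85) (nat_lit 1) (nat_lit 206) (nat_lit 270) (nat_lit 244))) (XT.nd (nat_lit 94) (nat_lit 252) (nat_lit 0) (XT.lf (nat_lit 84) (nat_lit 3672657384) (nat_lit 0) (nat_lit 2365122923) (nat_lit 420) (nat_lit 3672657384) (nat_lit 82) (nat_lit 1) (nat_lit 81) (nat_lit 1) (nat_lit 86) (nat_lit 1) (nat_lit 207) (nat_lit 270) (nat_lit 243)) (XT.lf (nat_lit 336) (nat_lit 5364032217) (nat_lit 0) (nat_lit 2078944747) (nat_lit 252) (nat_lit 2078944747) (nat_lit 82) (nat_lit 1) (nat_lit 78) (nat_lit 1) (nat_lit 81)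 (nat_lit 1) (nat_lit 208) (nat_lit 270) (nat_lit 242))))))))
noncomputable def ec90 : XT := (XT.nd (nat_lit 2538) (nat_lit 2268) (nat_lit 0) (XT.nd (nat_lit 1222) (nat_lit 1596) (nat_lit 0) (XT.nd (nat_lit 564) (nat_lit 1092) (nat_lit 0) (XT.nd (nat_lit 282) (nat_lit 252) (nat_lit 0) (XT.nd (nat_lit 94) (nat_lit 588) (nat_lit 0) (XT.lf (nat_lit 84) (nat_lit 1694580750) (nat_lit 0) (nat_lit 5949033804) (nat_lit 336) (nat_lit 1694580750) (nat_lit 79) (nat_lit 1) (nat_lit 78) (nat_lit 1) (nat_lit 82) (nat_lit 1) (nat_lit 209) (nat_lit 270) (nat_lit 241)) (XT.nd (nat_lit 94) (nat_lit 336) (nat_lit 0) (XT.lf (nat_lit 336) (nat_lit 1412380089) (nat_lit 0) (nat_lit 3873134267) (nat_lit 252) (nat_lit 3873134267) (nat_lit 79) (nat_lit 1) (nat_lit 75) (nat_lit 1) (nat_lit 78) (nat_lit 1) (nat_lit 210) (nat_lit 270) (nat_lit 240)) (XT.lf (nat_lit 336) (nat_lit 8500308115) (nat_lit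 0) (nat_lit 242732108) (nat_lit 252) (nat_lit 242732108) (nat_lit 75) (nat_lit 1) (nat_lit 71) (nat_lit 1) (nat_lit 74) (nat_lit 1) (nat_lit 211) (nat_lit 270) (nat_lit 239)))) (XT.nd (nat_lit 94) (nat_lit 252) (nat_lit 0) (XT.lf (nat_lit 84) (nat_lit 3215423126) (nat_lit 0) (nat_lit 2382596250) (nat_lit 336) (nat_lit 3215423126) (nat_lit 72) (nat_lit 1) (nat_lit 71) (nat_lit 1) (nat_lit 75) (nat_lit 1) (nat_lit 212) (nat_lit 270) (nat_lit 238)) (XT.nd (nat_lit 94) (nat_lit 0) (nat_lit 0) (XT.lf (nat_lit 336) (nat_lit 4421501222) (nat_lit 0) (nat_lit 2112993842) (nat_lit 252) (nat_lit 2112993842) (nat_lit 72) (nat_lit 1) (nat_lit 68) (nat_lit 1) (nat_lit 71) (nat_lit 1) (nat_lit 213) (nat_lit 270) (nat_lit 237)) (XT.lf (nat_lit 84) (nat_lit 1217677830) (nat_lit 0) (nat_lit 6050630599) (nat_lit 336) (nat_lit 1217677830) (nat_lit 69) (nat_lit 1) (nat_lit 68) (nat_lit 1) (nat_lit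 72) (nat_lit 1) (nat_lit 214) (nat_lit 270) (nat_lit 236))))) (XT.nd (nat_lit 282) (nat_lit 588) (nat_lit 0) (XT.nd (nat_lit 94) (nat_lit 336) (nat_lit 0) (XT.lf (nat_lit 252) (nat_lit 446197644) (nat_lit 0) (nat_lit 3940664695) (nat_lit 168) (nat_lit 3940664695) (nat_lit 69) (nat_lit 1) (nat_lit 66) (nat_lit 1) (nat_lit 68) (nat_lit 1) (nat_lit 215) (nat_lit 270) (nat_lit 235)) (XT.nd (nat_lit 94) (nat_lit 0) (nat_lit 0) (XT.lf (nat_lit 336) (nat_lit 6741896785) (nat_lit 0) (nat_lit 716038306) (nat_lit 252) (nat_lit 716038306) (nat_lit 66) (nat_lit 1) (nat_lit 62) (nat_lit 1) (nat_lit 65) (nat_lit 1) (nat_lit 216) (nat_lit 270) (nat_lit 234)) (XT.lf (nat_lit 84) (nat_lit 2354784513) (nat_lit 0) (nat_lit 3312568082) (nat_lit 336) (nat_lit 2354784513) (nat_lit 63) (nat_lit 1) (nat_lit 62) (nat_lit 1) (nat_lit 66) (nat_lit 1) (nat_lit 217) (nat_lit 270) (nat_lit 233)))) (XT.nd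 (nat_lit 188) (nat_lit 420) (nat_lit 0) (XT.nd (nat_lit 94) (nat_lit 0) (nat_lit 0) (XT.lf (nat_lit 252) (nat_lit 2720590264) (nat_lit 0) (nat_lit 2577198320) (nat_lit 168) (nat_lit 2577198320) (nat_lit 63) (nat_lit 1) (nat_lit 60) (nat_lit 1) (nat_lit 62) (nat_lit 1) (nat_lit 218) (nat_lit 270) (nat_lit 232)) (XT.lf (nat_lit 84) (nat_lit 390862467) (nat_lit 0) (nat_lit 6950995117) (nat_lit 252) (nat_lit 390862467) (nat_lit 61) (nat_lit 1) (nat_lit 60) (nat_lit 1) (nat_lit 63) (nat_lit 1) (nat_lit 219) (nat_lit 270) (nat_lit 231))) (XT.nd (nat_lit 94) (nat_lit 168) (nat_lit 0) (XT.lf (nat_lit 84) (nat_lit 3225856522) (nat_lit 0) (nat_lit 1139257305) (nat_lit 252) (nat_lit 3225856522) (nat_lit 58) (nat_lit 1) (nat_lit 57) (nat_lit 1) (nat_lit 60) (nat_lit 1) (nat_lit 220) (nat_lit 270) (nat_lit 230)) (XT.lf (nat_lit 252) (nat_lit 4479667161) (nat_lit 0) (nat_lit 1487128125)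 (nat_lit 168) (nat_lit 1487128125) (nat_lit 58) (nat_lit 1) (nat_lit 55) (nat_lit 1) (nat_lit 57) (nat_lit 1) (nat_lit 221) (nat_lit 270) (nat_lit 229)))))) (XT.nd (nat_lit 658) (nat_lit 840) (nat_lit 0) (XT.nd (nat_lit 282) (nat_lit 336) (nat_lit 0) (XT.nd (nat_lit 94) (nat_lit 420) (nat_lit 0) (XT.lf (nat_lit 84) (nat_lit 1264045529) (nat_lit 0) (nat_lit 4791814452) (nat_lit 252) (nat_lit 1264045529) (nat_lit 56) (nat_lit 1) (nat_lit 55) (nat_lit 1) (nat_lit 58) (nat_lit 1) (nat_lit 222) (nat_lit 270) (nat_lit 228)) (XT.nd (nat_lit 94) (nat_lit 252) (nat_lit 0) (XT.lf (nat_lit 252) (nat_lit 592159820) (nat_lit 0) (nat_lit 3298214622) (nat_lit 168) (nat_lit 3298214622) (nat_lit 56) (nat_lit 1) (nat_lit 53) (nat_lit 1) (nat_lit 55) (nat_lit 1) (nat_lit 223) (nat_lit 270) (nat_lit 227)) (XT.lf (nat_lit 252) (nat_lit 5820129277) (nat_lit 0) (nat_lit 620474169) (nat_lit 168)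 (nat_lit 620474169) (nat_lit 53) (nat_lit 1) (nat_lit 50) (nat_lit 1) (nat_lit 52) (nat_lit 1) (nat_lit 224) (nat_lit 270) (nat_lit 226)))) (XT.nd (nat_lit 188) (nat_lit 168) (nat_lit 0) (XT.nd (nat_lit 94) (nat_lit 168) (nat_lit 0) (XT.lf (nat_lit 84) (nat_lit 1937535298) (nat_lit 0) (nat_lit 3059583863) (nat_lit 252) (nat_lit 1937535298) (nat_lit 51) (nat_lit 1) (nat_lit 50) (nat_lit 1) (nat_lit 53) (nat_lit 1) (nat_lit 225) (nat_lit 270) (nat_lit 225)) (XT.lf (nat_lit 252) (nat_lit 1973285633) (nat_lit 0) (nat_lit 2419307956) (nat_lit 168) (nat_lit 2419307956) (nat_lit 51) (nat_lit 1) (nat_lit 48) (nat_lit 1) (nat_lit 50) (nat_lit 1) (nat_lit 226) (nat_lit 270) (nat_lit 224))) (XT.nd (nat_lit 94) (nat_lit 168) (nat_lit 0) (XT.lf (nat_lit 84) (nat_lit 64856456) (nat_lit 0) (nat_lit 6563740669) (nat_lit 252) (nat_lit 64856456) (nat_lit 49) (nat_lit 1) (nat_lit 48) (nat_lit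 1) (nat_lit 51) (nat_lit 1) (nat_lit 227) (nat_lit 270) (nat_lit 223)) (XT.lf (nat_lit 84) (nat_lit 2448874050) (nat_lit 0) (nat_lit 1676504601) (nat_lit 168) (nat_lit 2448874050) (nat_lit 47) (nat_lit 1) (nat_lit 46) (nat_lit 1) (nat_lit 48) (nat_lit 1) (nat_lit 228) (nat_lit 270) (nat_lit 222))))) (XT.nd (nat_lit 282) (nat_lit 504) (nat_lit 0) (XT.nd (nat_lit 94) (nat_lit 168) (nat_lit 0) (XT.lf (nat_lit 252) (nat_lit 3038773910) (nat_lit 0) (nat_lit 1710235999) (nat_lit 168) (nat_lit 1710235999) (nat_lit 47) (nat_lit 1) (nat_lit 44) (nat_lit 1) (nat_lit 46) (nat_lit 1) (nat_lit 229) (nat_lit 270) (nat_lit 221)) (XT.nd (nat_lit 94) (nat_lit 168) (nat_lit 0) (XT.lf (nat_lit 84) (nat_lit 609253167) (nat_lit 0) (nat_lit 5128837107) (nat_lit 252) (nat_lit 609253167) (nat_lit 45) (nat_lit 1) (nat_lit 44) (nat_lit 1) (nat_lit 47) (nat_lit 1) (nat_lit 230) (nat_lit 270) (nat_lit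 220)) (XT.lf (nat_lit 84) (nat_lit 2828846137) (nat_lit 0) (nat_lit 578671518) (nat_lit 168) (nat_lit 2828846137) (nat_lit 43) (nat_lit 1) (nat_lit 42) (nat_lit 1) (nat_lit 44) (nat_lit 1) (nat_lit 231) (nat_lit 270) (nat_lit 219)))) (XT.nd (nat_lit 188) (nat_lit 336) (nat_lit 0) (XT.nd (nat_lit 94) (nat_lit 0) (nat_lit 0) (XT.lf (nat_lit 252) (nat_lit 3847956280) (nat_lit 0) (nat_lit 1140220490) (nat_lit 168) (nat_lit 1140220490) (nat_lit 43) (nat_lit 1) (nat_lit 40) (nat_lit 1) (nat_lit 42) (nat_lit 1) (nat_lit 232) (nat_lit 270) (nat_lit 218)) (XT.lf (nat_lit 84) (nat_lit 1030658469) (nat_lit 0) (nat_lit 3961251185) (nat_lit 252) (nat_lit 1030658469) (nat_lit 41) (nat_lit 1) (nat_lit 40) (nat_lit 1) (nat_lit 43) (nat_lit 1) (nat_lit 233) (nat_lit 270) (nat_lit 217))) (XT.nd (nat_lit 94) (nat_lit 252) (nat_lit 0) (XT.lf (nat_lit 168) (nat_lit 295864513) (nat_lit 0) (nat_lit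 2811435760) (nat_lit 84) (nat_lit 2811435760) (nat_lit 41) (nat_lit 1) (nat_lit 39) (nat_lit 1) (nat_lit 40) (nat_lit 1) (nat_lit 234) (nat_lit 270) (nat_lit 216)) (XT.lf (nat_lit 252) (nat_lit 4449484548) (nat_lit 0) (nat_lit 683971840) (nat_lit 168) (nat_lit 683971840) (nat_lit 39) (nat_lit 1) (nat_lit 36) (nat_lit 1) (nat_lit 38) (nat_lit 1) (nat_lit 235) (nat_lit 270) (nat_lit 215))))))) (XT.nd (nat_lit 1222) (nat_lit 1092) (nat_lit 0) (XT.nd (nat_lit 564) (nat_lit 504) (nat_lit 0) (XT.nd (nat_lit 282) (nat_lit 336) (nat_lit 0) (XT.nd (nat_lit 94) (nat_lit 336) (nat_lit 0) (XT.lf (nat_lit 84) (nat_lit 1352138969) (nat_lit 0) (nat_lit 3012973253) (nat_lit 252) (nat_lit 1352138969) (nat_lit 37) (nat_lit 1) (nat_lit 36) (nat_lit 1) (nat_lit 39) (nat_lit 1) (nat_lit 236) (nat_lit 270) (nat_lit 214)) (XT.nd (nat_lit 94) (nat_lit 252) (nat_lit 0) (XT.lf (nat_lit 168) (nat_lit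 993580064) (nat_lit 0) (nat_lit 2312975157) (nat_lit 84) (nat_lit 2312975157) (nat_lit 37) (nat_lit 1) (nat_lit 35) (nat_lit 1) (nat_lit 36) (nat_lit 1) (nat_lit 237) (nat_lit 270) (nat_lit 213)) (XT.lf (nat_lit 252) (nat_lit 4883231848) (nat_lit 0) (nat_lit 320714487) (nat_lit 168) (nat_lit 320714487) (nat_lit 35) (nat_lit 1) (nat_lit 32) (nat_lit 1) (nat_lit 34) (nat_lit 1) (nat_lit 238) (nat_lit 270) (nat_lit 212)))) (XT.nd (nat_lit 94) (nat_lit 336) (nat_lit 0) (XT.lf (nat_lit 84) (nat_lit 1592611597) (nat_lit 0) (nat_lit 2244534932) (nat_lit 252) (nat_lit 1592611597) (nat_lit 33) (nat_lit 1) (nat_lit 32) (nat_lit 1) (nat_lit 35) (nat_lit 1) (nat_lit 239) (nat_lit 270) (nat_lit 211)) (XT.nd (nat_lit 94) (nat_lit 252) (nat_lit 0) (XT.lf (nat_lit 168) (nat_lit 1531869917) (nat_lit 0) (nat_lit 1902890386) (nat_lit 84) (nat_lit 1902890386) (nat_lit 33) (nat_lit 1) (nat_lit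 31) (nat_lit 1) (nat_lit 32) (nat_lit 1) (nat_lit 240) (nat_lit 270) (nat_lit 210)) (XT.lf (nat_lit 252) (nat_lit 5181856354) (nat_lit 0) (nat_lit 33385138) (nat_lit 168) (nat_lit 33385138) (nat_lit 31) (nat_lit 1) (nat_lit 28) (nat_lit 1) (nat_lit 30) (nat_lit 1) (nat_lit 241) (nat_lit 270) (nat_lit 209))))) (XT.nd (nat_lit 282) (nat_lit 420) (nat_lit 0) (XT.nd (nat_lit 94) (nat_lit 84) (nat_lit 0) (XT.lf (nat_lit 84) (nat_lit 1767582188) (nat_lit 0) (nat_lit 1623493377) (nat_lit 252) (nat_lit 1767582188) (nat_lit 29) (nat_lit 1) (nat_lit 28) (nat_lit 1) (nat_lit 31) (nat_lit 1) (nat_lit 242) (nat_lit 270) (nat_lit 208)) (XT.nd (nat_lit 94) (nat_lit 0) (nat_lit 0) (XT.lf (nat_lit 168) (nat_lit 1940700924) (nat_lit 0) (nat_lit 1565512630) (nat_lit 84) (nat_lit 1565512630) (nat_lit 29) (nat_lit 1) (nat_lit 27) (nat_lit 1) (nat_lit 28) (nat_lit 1) (nat_lit 243) (nat_lit 270)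 (nat_lit 207)) (XT.lf (nat_lit 0) (nat_lit 195174767) (nat_lit 0) (nat_lit 4597069691) (nat_lit 168) (nat_lit 195174767) (nat_lit 27) (nat_lit 3) (nat_lit 27) (nat_lit 1) (nat_lit 29) (nat_lit 1) (nat_lit 244) (nat_lit 270) (nat_lit 206)))) (XT.nd (nat_lit 188) (nat_lit 168) (nat_lit 0) (XT.nd (nat_lit 94) (nat_lit 84) (nat_lit 0) (XT.lf (nat_lit 84) (nat_lit 1889752989) (nat_lit 0) (nat_lit 1123184336) (nat_lit 168) (nat_lit 1889752989) (nat_lit 26) (nat_lit 1) (nat_lit 25) (nat_lit 1) (nat_lit 27) (nat_lit 1) (nat_lit 245) (nat_lit 270) (nat_lit 205)) (XT.lf (nat_lit 168) (nat_lit 2244645884) (nat_lit 0) (nat_lit 1287951115) (nat_lit 84) (nat_lit 1287951115) (nat_lit 26) (nat_lit 1) (nat_lit 24) (nat_lit 1) (nat_lit 25) (nat_lit 1) (nat_lit 246) (nat_lit 270) (nat_lit 204))) (XT.nd (nat_lit 94) (nat_lit 168) (nat_lit 0) (XT.lf (nat_lit 0) (nat_lit 373038446) (nat_lit 0)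 (nat_lit 3994488294) (nat_lit 168) (nat_lit 373038446) (nat_lit 24) (nat_lit 3) (nat_lit 24) (nat_lit 1) (nat_lit 26) (nat_lit 1) (nat_lit 247) (nat_lit 270) (nat_lit 203)) (XT.lf (nat_lit 84) (nat_lit 1969522316) (nat_lit 0) (nat_lit 721696360) (nat_lit 168) (nat_lit 1969522316) (nat_lit 23) (nat_lit 1) (nat_lit 22) (nat_lit 1) (nat_lit 24) (nat_lit 1) (nat_lit 248) (nat_lit 270) (nat_lit 202)))))) (XT.nd (nat_lit 658) (nat_lit 504) (nat_lit 0) (XT.nd (nat_lit 282) (nat_lit 336) (nat_lit 0) (XT.nd (nat_lit 94) (nat_lit 168) (nat_lit 0) (XT.lf (nat_lit 168) (nat_lit 2463843753) (nat_lit 0) (nat_lit 1059600569) (nat_lit 84) (nat_lit 1059600569) (nat_lit 23) (nat_lit 1) (nat_lit 21) (nat_lit 1) (nat_lit 22) (nat_lit 1) (nat_lit 249) (nat_lit 270) (nat_lit 201)) (XT.nd (nat_lit 94) (nat_lit 168) (nat_lit 0) (XT.lf (nat_lit 0) (nat_lit 509249826) (nat_lit 0) (nat_lit 3488625578)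 (nat_lit 168) (nat_lit 509249826) (nat_lit 21) (nat_lit 3) (nat_lit 21) (nat_lit 1) (nat_lit 23) (nat_lit 1) (nat_lit 250) (nat_lit 270) (nat_lit 200)) (XT.lf (nat_lit 84) (nat_lit 2015395508) (nat_lit 0) (nat_lit 401026930) (nat_lit 168) (nat_lit 2015395508) (nat_lit 20) (nat_lit 1) (nat_lit 19) (nat_lit 1) (nat_lit 21) (nat_lit 1) (nat_lit 251) (nat_lit 270) (nat_lit 199)))) (XT.nd (nat_lit 188) (nat_lit 252) (nat_lit 0) (XT.nd (nat_lit 94) (nat_lit 0) (nat_lit 0) (XT.lf (nat_lit 168) (nat_lit 2614789428) (nat_lit 0) (nat_lit 871736011) (nat_lit 84) (nat_lit 871736011) (nat_lit 20) (nat_lit 1) (nat_lit 18) (nat_lit 1) (nat_lit 19) (nat_lit 1) (nat_lit 252) (nat_lit 270) (nat_lit 198)) (XT.lf (nat_lit 0) (nat_lit 611675543) (nat_lit 0) (nat_lit 3062815348) (nat_lit 168) (nat_lit 611675543) (nat_lit 18) (nat_lit 3) (nat_lit 18) (nat_lit 1) (nat_lit 20) (nat_lit 1) (nat_lit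 253) (nat_lit 270) (nat_lit 197))) (XT.nd (nat_lit 94) (nat_lit 84) (nat_lit 0) (XT.lf (nat_lit 84) (nat_lit 2034322895) (nat_lit 0) (nat_lit 146388275) (nat_lit 168) (nat_lit 2034322895) (nat_lit 17) (nat_lit 1) (nat_lit 16) (nat_lit 1) (nat_lit 18) (nat_lit 1) (nat_lit 254) (nat_lit 270) (nat_lit 196)) (XT.lf (nat_lit 168) (nat_lit 2710983329) (nat_lit 0) (nat_lit 717179373) (nat_lit 84) (nat_lit 717179373) (nat_lit 17) (nat_lit 1) (nat_lit 15) (nat_lit 1) (nat_lit 16) (nat_lit 1) (nat_lit 255) (nat_lit 270) (nat_lit 195))))) (XT.nd (nat_lit 282) (nat_lit 252) (nat_lit 0) (XT.nd (nat_lit 94) (nat_lit 252) (nat_lit 0) (XT.lf (nat_lit 0) (nat_lit 686764555) (nat_lit 0) (nat_lit 2703323339) (nat_lit 168) (nat_lit 686764555) (nat_lit 15) (nat_lit 3) (nat_lit 15) (nat_lit 1) (nat_lit 17) (nat_lit 1) (nat_lit 256) (nat_lit 270) (nat_lit 194)) (XT.nd (nat_lit 94) (nat_lit 168)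 (nat_lit 0) (XT.lf (nat_lit 84) (nat_lit 56161200) (nat_lit 0) (nat_lit 1976693374) (nat_lit 84) (nat_lit 1976693374) (nat_lit 15) (nat_lit 3) (nat_lit 14) (nat_lit 1) (nat_lit 15) (nat_lit 1) (nat_lit 257) (nat_lit 270) (nat_lit 193)) (XT.lf (nat_lit 168) (nat_lit 2763465642) (nat_lit 0) (nat_lit 590025245) (nat_lit 84) (nat_lit 590025245) (nat_lit 14) (nat_lit 1) (nat_lit 12) (nat_lit 1) (nat_lit 13) (nat_lit 1) (nat_lit 258) (nat_lit 270) (nat_lit 192)))) (XT.nd (nat_lit 188) (nat_lit 168) (nat_lit 0) (XT.nd (nat_lit 94) (nat_lit 84) (nat_lit 0) (XT.lf (nat_lit 0) (nat_lit 739800587) (nat_lit 0) (nat_lit 2398828489) (nat_lit 168) (nat_lit 739800587) (nat_lit 12) (nat_lit 3) (nat_lit 12) (nat_lit 1) (nat_lit 14) (nat_lit 1) (nat_lit 259) (nat_lit 270) (nat_lit 191)) (XT.lf (nat_lit 84) (nat_lit 218182328) (nat_lit 0) (nat_lit 1798208901) (nat_lit 84) (nat_lit 1798208901)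 (nat_lit 12) (nat_lit 3) (nat_lit 11) (nat_lit 1) (nat_lit 12) (nat_lit 1) (nat_lit 260) (nat_lit 270) (nat_lit 190))) (XT.nd (nat_lit 94) (nat_lit 0) (nat_lit 0) (XT.lf (nat_lit 168) (nat_lit 2781255688) (nat_lit 0) (nat_lit 485415229) (nat_lit 84) (nat_lit 485415229) (nat_lit 11) (nat_lit 1) (nat_lit 9) (nat_lit 1) (nat_lit 10) (nat_lit 1) (nat_lit 261) (nat_lit 270) (nat_lit 189)) (XT.lf (nat_lit 0) (nat_lit 775109762) (nat_lit 0) (nat_lit 2139996123) (nat_lit 168) (nat_lit 775109762) (nat_lit 9) (nat_lit 3) (nat_lit 9) (nat_lit 1) (nat_lit 11) (nat_lit 1) (nat_lit 262) (nat_lit 270) (nat_lit 188))))))))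
noncomputable def ec91 : XT := (XT.nd (nat_lit 2538) (nat_lit 0) (nat_lit 0) (XT.nd (nat_lit 1222) (nat_lit 0) (nat_lit 0) (XT.nd (nat_lit 564) (nat_lit 252) (nat_lit 0) (XT.nd (nat_lit 282) (nat_lit 252) (nat_lit 0) (XT.nd (nat_lit 94) (nat_lit 168) (nat_lit 0) (XT.lf (nat_lit 84) (nat_lit 343288066) (nat_lit 0) (nat_lit 1643179837) (nat_lit 84) (nat_lit 1643179837) (nat_lit 9) (nat_lit 3) (nat_lit 8) (nat_lit 1) (nat_lit 9) (nat_lit 1) (nat_lit 263) (nat_lit 270) (nat_lit 187)) (XT.nd (nat_lit 94) (nat_lit 0) (nat_lit 0) (XT.lf (nat_lit 168) (nat_lit 2771713237) (nat_lit 0) (nat_lit 399352310) (nat_lit 84) (nat_lit 399352310) (nat_lit 8) (nat_lit 1) (nat_lit 6) (nat_lit 1) (nat_lit 7) (nat_lit 1) (nat_lit 264) (nat_lit 270) (nat_lit 186)) (XT.lf (nat_lit 0) (nat_lit 796231375) (nat_lit 0) (nat_lit 1919126762) (nat_lit 168) (nat_lit 796231375) (nat_lit 6) (nat_lit 3) (nat_lit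 6) (nat_lit 1) (nat_lit 8) (nat_lit 1) (nat_lit 265) (nat_lit 270) (nat_lit 185)))) (XT.nd (nat_lit 94) (nat_lit 168) (nat_lit 0) (XT.lf (nat_lit 84) (nat_lit 438413393) (nat_lit 0) (nat_lit 1507837570) (nat_lit 84) (nat_lit 1507837570) (nat_lit 6) (nat_lit 3) (nat_lit 5) (nat_lit 1) (nat_lit 6) (nat_lit 1) (nat_lit 266) (nat_lit 270) (nat_lit 184)) (XT.nd (nat_lit 94) (nat_lit 0) (nat_lit 0) (XT.lf (nat_lit 168) (nat_lit 2740835625) (nat_lit 0) (nat_lit 328548134) (nat_lit 84) (nat_lit 328548134) (nat_lit 5) (nat_lit 1) (nat_lit 3) (nat_lit 1) (nat_lit 4) (nat_lit 1) (nat_lit 267) (nat_lit 270) (nat_lit 183)) (XT.lf (nat_lit 0) (nat_lit 806058338) (nat_lit 0) (nat_lit 1729867151) (nat_lit 168) (nat_lit 806058338) (nat_lit 3) (nat_lit 3) (nat_lit 3) (nat_lit 1) (nat_lit 5) (nat_lit 1) (nat_lit 268) (nat_lit 270) (nat_lit 182))))) (XT.nd (nat_lit 282) (nat_lit 0) (nat_lit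 0) (XT.nd (nat_lit 94) (nat_lit 168) (nat_lit 0) (XT.lf (nat_lit 84) (nat_lit 509245166) (nat_lit 0) (nat_lit 1389063083) (nat_lit 84) (nat_lit 1389063083) (nat_lit 3) (nat_lit 3) (nat_lit 2) (nat_lit 1) (nat_lit 3) (nat_lit 1) (nat_lit 269) (nat_lit 270) (nat_lit 181)) (XT.nd (nat_lit 94) (nat_lit 0) (nat_lit 0) (XT.lf (nat_lit 0) (nat_lit 4698133619) (nat_lit 0) (nat_lit 0) (nat_lit 0) (nat_lit 0) (nat_lit 0) (nat_lit 0) (nat_lit 1) (nat_lit 0) (nat_lit 1) (nat_lit 0) (nat_lit 270) (nat_lit 270) (nat_lit 180)) (XT.lf (nat_lit 0) (nat_lit 4695396318) (nat_lit 0) (nat_lit 0) (nat_lit 0) (nat_lit 0) (nat_lit 0) (nat_lit 0) (nat_lit 1) (nat_lit 0) (nat_lit 1) (nat_lit 0) (nat_lit 271) (nat_lit 270) (nat_lit 179)))) (XT.nd (nat_lit 188) (nat_lit 0) (nat_lit 0) (XT.nd (nat_lit 94) (nat_lit 0) (nat_lit 0) (XT.lf (nat_lit 0) (nat_lit 4692789364) (nat_lit 0) (nat_lit 0) (nat_lit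 0) (nat_lit 0) (nat_lit 0) (nat_lit 0) (nat_lit 1) (nat_lit 0) (nat_lit 1) (nat_lit 0) (nat_lit 272) (nat_lit 270) (nat_lit 178)) (XT.lf (nat_lit 0) (nat_lit 4690306551) (nat_lit 0) (nat_lit 0) (nat_lit 0) (nat_lit 0) (nat_lit 0) (nat_lit 0) (nat_lit 1) (nat_lit 0) (nat_lit 1) (nat_lit 0) (nat_lit 273) (nat_lit 270) (nat_lit 177))) (XT.nd (nat_lit 94) (nat_lit 0) (nat_lit 0) (XT.lf (nat_lit 0) (nat_lit 4687941967) (nat_lit 0) (nat_lit 0) (nat_lit 0) (nat_lit 0) (nat_lit 0) (nat_lit 0) (nat_lit 1) (nat_lit 0) (nat_lit 1) (nat_lit 0) (nat_lit 274) (nat_lit 270) (nat_lit 176)) (XT.lf (nat_lit 0) (nat_lit 4685689982) (nat_lit 0) (nat_lit 0) (nat_lit 0) (nat_lit 0) (nat_lit 0) (nat_lit 0) (nat_lit 1) (nat_lit 0) (nat_lit 1) (nat_lit 0) (nat_lit 275) (nat_lit 270) (nat_lit 175)))))) (XT.nd (nat_lit 658) (nat_lit 0) (nat_lit 0) (XT.nd (nat_lit 282) (nat_lit 0) (nat_lit 0) (XT.nd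 (nat_lit 94) (nat_lit 0) (nat_lit 0) (XT.lf (nat_lit 0) (nat_lit 4683545235) (nat_lit 0) (nat_lit 0) (nat_lit 0) (nat_lit 0) (nat_lit 0) (nat_lit 0) (nat_lit 1) (nat_lit 0) (nat_lit 1) (nat_lit 0) (nat_lit 276) (nat_lit 270) (nat_lit 174)) (XT.nd (nat_lit 94) (nat_lit 0) (nat_lit 0) (XT.lf (nat_lit 0) (nat_lit 4681502619) (nat_lit 0) (nat_lit 0) (nat_lit 0) (nat_lit 0) (nat_lit 0) (nat_lit 0) (nat_lit 1) (nat_lit 0) (nat_lit 1) (nat_lit 0) (nat_lit 277) (nat_lit 270) (nat_lit 173)) (XT.lf (nat_lit 0) (nat_lit 4679557270) (nat_lit 0) (nat_lit 0) (nat_lit 0) (nat_lit 0) (nat_lit 0) (nat_lit 0) (nat_lit 1) (nat_lit 0) (nat_lit 1) (nat_lit 0) (nat_lit 278) (nat_lit 270) (nat_lit 172)))) (XT.nd (nat_lit 188) (nat_lit 0) (nat_lit 0) (XT.nd (nat_lit 94) (nat_lit 0) (nat_lit 0) (XT.lf (nat_lit 0) (nat_lit 4677704556) (nat_lit 0) (nat_lit 0) (nat_lit 0) (nat_lit 0) (nat_lit 0) (nat_lit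 0) (nat_lit 1) (nat_lit 0) (nat_lit 1) (nat_lit 0) (nat_lit 279) (nat_lit 270) (nat_lit 171)) (XT.lf (nat_lit 0) (nat_lit 4675940067) (nat_lit 0) (nat_lit 0) (nat_lit 0) (nat_lit 0) (nat_lit 0) (nat_lit 0) (nat_lit 1) (nat_lit 0) (nat_lit 1) (nat_lit 0) (nat_lit 280) (nat_lit 270) (nat_lit 170))) (XT.nd (nat_lit 94) (nat_lit 0) (nat_lit 0) (XT.lf (nat_lit 0) (nat_lit 4674259602) (nat_lit 0) (nat_lit 0) (nat_lit 0) (nat_lit 0) (nat_lit 0) (nat_lit 0) (nat_lit 1) (nat_lit 0) (nat_lit 1) (nat_lit 0) (nat_lit 281) (nat_lit 270) (nat_lit 169)) (XT.lf (nat_lit 0) (nat_lit 4672659158) (nat_lit 0) (nat_lit 0) (nat_lit 0) (nat_lit 0) (nat_lit 0) (nat_lit 0) (nat_lit 1) (nat_lit 0) (nat_lit 1) (nat_lit 0) (nat_lit 282) (nat_lit 270) (nat_lit 168))))) (XT.nd (nat_lit 282) (nat_lit 0) (nat_lit 0) (XT.nd (nat_lit 94) (nat_lit 0) (nat_lit 0) (XT.lf (nat_lit 0) (nat_lit 4671134926) (nat_lit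 0) (nat_lit 0) (nat_lit 0) (nat_lit 0) (nat_lit 0) (nat_lit 0) (nat_lit 1) (nat_lit 0) (nat_lit 1) (nat_lit 0) (nat_lit 283) (nat_lit 270) (nat_lit 167)) (XT.nd (nat_lit 94) (nat_lit 0) (nat_lit 0) (XT.lf (nat_lit 0) (nat_lit 4669683277) (nat_lit 0) (nat_lit 0) (nat_lit 0) (nat_lit 0) (nat_lit 0) (nat_lit 0) (nat_lit 1) (nat_lit 0) (nat_lit 1) (nat_lit 0) (nat_lit 284) (nat_lit 270) (nat_lit 166)) (XT.lf (nat_lit 0) (nat_lit 4668300754) (nat_lit 0) (nat_lit 0) (nat_lit 0) (nat_lit 0) (nat_lit 0) (nat_lit 0) (nat_lit 1) (nat_lit 0) (nat_lit 1) (nat_lit 0) (nat_lit 285) (nat_lit 270) (nat_lit 165)))) (XT.nd (nat_lit 188) (nat_lit 0) (nat_lit 0) (XT.nd (nat_lit 94) (nat_lit 0) (nat_lit 0) (XT.lf (nat_lit 0) (nat_lit 4666984065) (nat_lit 0) (nat_lit 0) (nat_lit 0) (nat_lit 0) (nat_lit 0) (nat_lit 0) (nat_lit 1) (nat_lit 0) (nat_lit 1) (nat_lit 0) (nat_lit 286) (nat_lit 270)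 (nat_lit 164)) (XT.lf (nat_lit 0) (nat_lit 4665730075) (nat_lit 0) (nat_lit 0) (nat_lit 0) (nat_lit 0) (nat_lit 0) (nat_lit 0) (nat_lit 1) (nat_lit 0) (nat_lit 1) (nat_lit 0) (nat_lit 287) (nat_lit 270) (nat_lit 163))) (XT.nd (nat_lit 94) (nat_lit 0) (nat_lit 0) (XT.lf (nat_lit 0) (nat_lit 4664535800) (nat_lit 0) (nat_lit 0) (nat_lit 0) (nat_lit 0) (nat_lit 0) (nat_lit 0) (nat_lit 1) (nat_lit 0) (nat_lit 1) (nat_lit 0) (nat_lit 288) (nat_lit 270) (nat_lit 162)) (XT.lf (nat_lit 0) (nat_lit 4663398395) (nat_lit 0) (nat_lit 0) (nat_lit 0) (nat_lit 0) (nat_lit 0) (nat_lit 0) (nat_lit 1) (nat_lit 0) (nat_lit 1) (nat_lit 0) (nat_lit 289) (nat_lit 270) (nat_lit 161))))))) (XT.nd (nat_lit 1316) (nat_lit 0) (nat_lit 0) (XT.nd (nat_lit 658) (nat_lit 0) (nat_lit 0) (XT.nd (nat_lit 282) (nat_lit 0) (nat_lit 0) (XT.nd (nat_lit 94) (nat_lit 0) (nat_lit 0) (XT.lf (nat_lit 0) (nat_lit 4662315151)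 (nat_lit 0) (nat_lit 0) (nat_lit 0) (nat_lit 0) (nat_lit 0) (nat_lit 0) (nat_lit 1) (nat_lit 0) (nat_lit 1) (nat_lit 0) (nat_lit 290) (nat_lit 270) (nat_lit 160)) (XT.nd (nat_lit 94) (nat_lit 0) (nat_lit 0) (XT.lf (nat_lit 0) (nat_lit 4661283491) (nat_lit 0) (nat_lit 0) (nat_lit 0) (nat_lit 0) (nat_lit 0) (nat_lit 0) (nat_lit 1) (nat_lit 0) (nat_lit 1) (nat_lit 0) (nat_lit 291) (nat_lit 270) (nat_lit 159)) (XT.lf (nat_lit 0) (nat_lit 4660300958) (nat_lit 0) (nat_lit 0) (nat_lit 0) (nat_lit 0) (nat_lit 0) (nat_lit 0) (nat_lit 1) (nat_lit 0) (nat_lit 1) (nat_lit 0) (nat_lit 292) (nat_lit 270) (nat_lit 158)))) (XT.nd (nat_lit 188) (nat_lit 0) (nat_lit 0) (XT.nd (nat_lit 94) (nat_lit 0) (nat_lit 0) (XT.lf (nat_lit 0) (nat_lit 4659365212) (nat_lit 0) (nat_lit 0) (nat_lit 0) (nat_lit 0) (nat_lit 0) (nat_lit 0) (nat_lit 1) (nat_lit 0) (nat_lit 1) (nat_lit 0) (nat_lit 293) (nat_lit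 270) (nat_lit 157)) (XT.lf (nat_lit 0) (nat_lit 4658474025) (nat_lit 0) (nat_lit 0) (nat_lit 0) (nat_lit 0) (nat_lit 0) (nat_lit 0) (nat_lit 1) (nat_lit 0) (nat_lit 1) (nat_lit 0) (nat_lit 294) (nat_lit 270) (nat_lit 156))) (XT.nd (nat_lit 94) (nat_lit 0) (nat_lit 0) (XT.lf (nat_lit 0) (nat_lit 4657625276) (nat_lit 0) (nat_lit 0) (nat_lit 0) (nat_lit 0) (nat_lit 0) (nat_lit 0) (nat_lit 1) (nat_lit 0) (nat_lit 1) (nat_lit 0) (nat_lit 295) (nat_lit 270) (nat_lit 155)) (XT.lf (nat_lit 0) (nat_lit 4656816943) (nat_lit 0) (nat_lit 0) (nat_lit 0) (nat_lit 0) (nat_lit 0) (nat_lit 0) (nat_lit 1) (nat_lit 0) (nat_lit 1) (nat_lit 0) (nat_lit 296) (nat_lit 270) (nat_lit 154))))) (XT.nd (nat_lit 282) (nat_lit 0) (nat_lit 0) (XT.nd (nat_lit 94) (nat_lit 0) (nat_lit 0) (XT.lf (nat_lit 0) (nat_lit 4656047102) (nat_lit 0) (nat_lit 0) (nat_lit 0) (nat_lit 0) (nat_lit 0) (nat_lit 0) (nat_lit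 1) (nat_lit 0) (nat_lit 1) (nat_lit 0) (nat_lit 297) (nat_lit 270) (nat_lit 153)) (XT.nd (nat_lit 94) (nat_lit 0) (nat_lit 0) (XT.lf (nat_lit 0) (nat_lit 4655313921) (nat_lit 0) (nat_lit 0) (nat_lit 0) (nat_lit 0) (nat_lit 0) (nat_lit 0) (nat_lit 1) (nat_lit 0) (nat_lit 1) (nat_lit 0) (nat_lit 298) (nat_lit 270) (nat_lit 152)) (XT.lf (nat_lit 0) (nat_lit 4654615652) (nat_lit 0) (nat_lit 0) (nat_lit 0) (nat_lit 0) (nat_lit 0) (nat_lit 0) (nat_lit 1) (nat_lit 0) (nat_lit 1) (nat_lit 0) (nat_lit 299) (nat_lit 270) (nat_lit 151)))) (XT.nd (nat_lit 188) (nat_lit 0) (nat_lit 0) (XT.nd (nat_lit 94) (nat_lit 0) (nat_lit 0) (XT.lf (nat_lit 0) (nat_lit 4653950635) (nat_lit 0) (nat_lit 0) (nat_lit 0) (nat_lit 0) (nat_lit 0) (nat_lit 0) (nat_lit 1) (nat_lit 0) (nat_lit 1) (nat_lit 0) (nat_lit 300) (nat_lit 270) (nat_lit 150)) (XT.lf (nat_lit 0) (nat_lit 4653317285) (nat_lit 0) (nat_lit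 0) (nat_lit 0) (nat_lit 0) (nat_lit 0) (nat_lit 0) (nat_lit 1) (nat_lit 0) (nat_lit 1) (nat_lit 0) (nat_lit 301) (nat_lit 270) (nat_lit 149))) (XT.nd (nat_lit 94) (nat_lit 0) (nat_lit 0) (XT.lf (nat_lit 0) (nat_lit 4652714095) (nat_lit 0) (nat_lit 0) (nat_lit 0) (nat_lit 0) (nat_lit 0) (nat_lit 0) (nat_lit 1) (nat_lit 0) (nat_lit 1) (nat_lit 0) (nat_lit 302) (nat_lit 270) (nat_lit 148)) (XT.lf (nat_lit 0) (nat_lit 4652139628) (nat_lit 0) (nat_lit 0) (nat_lit 0) (nat_lit 0) (nat_lit 0) (nat_lit 0) (nat_lit 1) (nat_lit 0) (nat_lit 1) (nat_lit 0) (nat_lit 303) (nat_lit 270) (nat_lit 147)))))) (XT.nd (nat_lit 658) (nat_lit 0) (nat_lit 0) (XT.nd (nat_lit 282) (nat_lit 0) (nat_lit 0) (XT.nd (nat_lit 94) (nat_lit 0) (nat_lit 0) (XT.lf (nat_lit 0) (nat_lit 4651592517) (nat_lit 0) (nat_lit 0) (nat_lit 0) (nat_lit 0) (nat_lit 0) (nat_lit 0) (nat_lit 1) (nat_lit 0) (nat_lit 1) (nat_lit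 0) (nat_lit 304) (nat_lit 270) (nat_lit 146)) (XT.nd (nat_lit 94) (nat_lit 0) (nat_lit 0) (XT.lf (nat_lit 0) (nat_lit 4651071458) (nat_lit 0) (nat_lit 0) (nat_lit 0) (nat_lit 0) (nat_lit 0) (nat_lit 0) (nat_lit 1) (nat_lit 0) (nat_lit 1) (nat_lit 0) (nat_lit 305) (nat_lit 270) (nat_lit 145)) (XT.lf (nat_lit 0) (nat_lit 4650575212) (nat_lit 0) (nat_lit 0) (nat_lit 0) (nat_lit 0) (nat_lit 0) (nat_lit 0) (nat_lit 1) (nat_lit 0) (nat_lit 1) (nat_lit 0) (nat_lit 306) (nat_lit 270) (nat_lit 144)))) (XT.nd (nat_lit 188) (nat_lit 0) (nat_lit 0) (XT.nd (nat_lit 94) (nat_lit 0) (nat_lit 0) (XT.lf (nat_lit 0) (nat_lit 4650102596) (nat_lit 0) (nat_lit 0) (nat_lit 0) (nat_lit 0) (nat_lit 0) (nat_lit 0) (nat_lit 1) (nat_lit 0) (nat_lit 1) (nat_lit 0) (nat_lit 307) (nat_lit 270) (nat_lit 143)) (XT.lf (nat_lit 0) (nat_lit 4649652487) (nat_lit 0) (nat_lit 0) (nat_lit 0) (nat_lit 0) (nat_lit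 0) (nat_lit 0) (nat_lit 1) (nat_lit 0) (nat_lit 1) (nat_lit 0) (nat_lit 308) (nat_lit 270) (nat_lit 142))) (XT.nd (nat_lit 94) (nat_lit 0) (nat_lit 0) (XT.lf (nat_lit 0) (nat_lit 4649223810) (nat_lit 0) (nat_lit 0) (nat_lit 0) (nat_lit 0) (nat_lit 0) (nat_lit 0) (nat_lit 1) (nat_lit 0) (nat_lit 1) (nat_lit 0) (nat_lit 309) (nat_lit 270) (nat_lit 141)) (XT.lf (nat_lit 0) (nat_lit 4648815548) (nat_lit 0) (nat_lit 0) (nat_lit 0) (nat_lit 0) (nat_lit 0) (nat_lit 0) (nat_lit 1) (nat_lit 0) (nat_lit 1) (nat_lit 0) (nat_lit 310) (nat_lit 270) (nat_lit 140))))) (XT.nd (nat_lit 282) (nat_lit 0) (nat_lit 0) (XT.nd (nat_lit 94) (nat_lit 0) (nat_lit 0) (XT.lf (nat_lit 0) (nat_lit 4648426726) (nat_lit 0) (nat_lit 0) (nat_lit 0) (nat_lit 0) (nat_lit 0) (nat_lit 0) (nat_lit 1) (nat_lit 0) (nat_lit 1) (nat_lit 0) (nat_lit 311) (nat_lit 270) (nat_lit 139)) (XT.nd (nat_lit 94) (nat_lit 0)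 (nat_lit 0) (XT.lf (nat_lit 0) (nat_lit 4648056419) (nat_lit 0) (nat_lit 0) (nat_lit 0) (nat_lit 0) (nat_lit 0) (nat_lit 0) (nat_lit 1) (nat_lit 0) (nat_lit 1) (nat_lit 0) (nat_lit 312) (nat_lit 270) (nat_lit 138)) (XT.lf (nat_lit 0) (nat_lit 4647703746) (nat_lit 0) (nat_lit 0) (nat_lit 0) (nat_lit 0) (nat_lit 0) (nat_lit 0) (nat_lit 1) (nat_lit 0) (nat_lit 1) (nat_lit 0) (nat_lit 313) (nat_lit 270) (nat_lit 137)))) (XT.nd (nat_lit 188) (nat_lit 0) (nat_lit 0) (XT.nd (nat_lit 94) (nat_lit 0) (nat_lit 0) (XT.lf (nat_lit 0) (nat_lit 4647367867) (nat_lit 0) (nat_lit 0) (nat_lit 0) (nat_lit 0) (nat_lit 0) (nat_lit 0) (nat_lit 1) (nat_lit 0) (nat_lit 1) (nat_lit 0) (nat_lit 314) (nat_lit 270) (nat_lit 136)) (XT.lf (nat_lit 0) (nat_lit 4647047983) (nat_lit 0) (nat_lit 0) (nat_lit 0) (nat_lit 0) (nat_lit 0) (nat_lit 0) (nat_lit 1) (nat_lit 0) (nat_lit 1) (nat_lit 0) (nat_lit 315)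 (nat_lit 270) (nat_lit 135))) (XT.nd (nat_lit 32242) (nat_lit 0) (nat_lit 10752) (XT.lf (nat_lit 0) (nat_lit 4646743331) (nat_lit 0) (nat_lit 0) (nat_lit 0) (nat_lit 0) (nat_lit 0) (nat_lit 0) (nat_lit 1) (nat_lit 0) (nat_lit 1) (nat_lit 0) (nat_lit 316) (nat_lit 270) (nat_lit 134)) (XT.lf (nat_lit 924) (nat_lit 2438472993) (nat_lit 0) (nat_lit 4329503195) (nat_lit 924) (nat_lit 2438472993) (nat_lit 139) (nat_lit 1) (nat_lit 128) (nat_lit 0) (nat_lit 139) (nat_lit 0) (nat_lit 178) (nat_lit 271) (nat_lit 271))))))))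
noncomputable def ec92 : XT := (XT.nd (nat_lit 2538) (nat_lit 3528) (nat_lit 0) (XT.nd (nat_lit 1222) (nat_lit 2940) (nat_lit 0) (XT.nd (nat_lit 564) (nat_lit 1008) (nat_lit 0) (XT.nd (nat_lit 282) (nat_lit 0) (nat_lit 168) (XT.nd (nat_lit 94) (nat_lit 0) (nat_lit 84) (XT.lf (nat_lit 924) (nat_lit 9451825755) (nat_lit 84) (nat_lit 4259672498) (nat_lit 0) (nat_lit 4259672498) (nat_lit 139) (nat_lit 1) (nat_lit 129) (nat_lit 1) (nat_lit 128) (nat_lit 0) (nat_lit 179) (nat_lit 271) (nat_lit 270)) (XT.nd (nat_lit 94) (nat_lit 0) (nat_lit 0) (XT.lf (nat_lit 924) (nat_lit 4504597839) (nat_lit 0) (nat_lit 8533903635) (nat_lit 840) (nat_lit 4504597839) (nat_lit 140) (nat_lit 1) (nat_lit 129) (nat_lit 1) (nat_lit 139) (nat_lit 1) (nat_lit 180) (nat_lit 271) (nat_lit 269)) (XT.lf (nat_lit 924) (nat_lit 8449999616) (nat_lit 84) (nat_lit 4339429077) (nat_lit 0) (nat_lit 4339429077)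 (nat_lit 140) (nat_lit 1) (nat_lit 130) (nat_lit 1) (nat_lit 129) (nat_lit 1) (nat_lit 181) (nat_lit 271) (nat_lit 268)))) (XT.nd (nat_lit 94) (nat_lit 0) (nat_lit 0) (XT.lf (nat_lit 924) (nat_lit 3889453677) (nat_lit 0) (nat_lit 8948838252) (nat_lit 840) (nat_lit 3889453677) (nat_lit 141) (nat_lit 1) (nat_lit 130) (nat_lit 1) (nat_lit 140) (nat_lit 1) (nat_lit 182) (nat_lit 271) (nat_lit 267)) (XT.nd (nat_lit 94) (nat_lit 0) (nat_lit 84) (XT.lf (nat_lit 924) (nat_lit 6995435766) (nat_lit 84) (nat_lit 4671712554) (nat_lit 0) (nat_lit 4671712554) (nat_lit 141) (nat_lit 1) (nat_lit 131) (nat_lit 1) (nat_lit 130) (nat_lit 1) (nat_lit 183) (nat_lit 271) (nat_lit 266)) (XT.lf (nat_lit 924) (nat_lit 3067296537) (nat_lit 0) (nat_lit 9828440471) (nat_lit 840) (nat_lit 3067296537) (nat_lit 142) (nat_lit 1) (nat_lit 131) (nat_lit 1) (nat_lit 141) (nat_lit 1) (nat_lit 184) (nat_lit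 271) (nat_lit 265))))) (XT.nd (nat_lit 282) (nat_lit 1260) (nat_lit 0) (XT.nd (nat_lit 94) (nat_lit 0) (nat_lit 84) (XT.lf (nat_lit 924) (nat_lit 5156219657) (nat_lit 84) (nat_lit 5220667186) (nat_lit 0) (nat_lit 5220667186) (nat_lit 142) (nat_lit 1) (nat_lit 132) (nat_lit 1) (nat_lit 131) (nat_lit 1) (nat_lit 185) (nat_lit 271) (nat_lit 264)) (XT.nd (nat_lit 94) (nat_lit 0) (nat_lit 0) (XT.lf (nat_lit 924) (nat_lit 2069953630) (nat_lit 0) (nat_lit 11105545888) (nat_lit 840) (nat_lit 2069953630) (nat_lit 143) (nat_lit 1) (nat_lit 132) (nat_lit 1) (nat_lit 142) (nat_lit 1) (nat_lit 186) (nat_lit 271) (nat_lit 263)) (XT.lf (nat_lit 924) (nat_lit 2992868984) (nat_lit 84) (nat_lit 5954360194) (nat_lit 0) (nat_lit 5954360194) (nat_lit 143) (nat_lit 1) (nat_lit 133) (nat_lit 1) (nat_lit 132) (nat_lit 1) (nat_lit 187) (nat_lit 271) (nat_lit 262)))) (XT.nd (nat_lit 188) (nat_lit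 588) (nat_lit 0) (XT.nd (nat_lit 94) (nat_lit 840) (nat_lit 0) (XT.lf (nat_lit 84) (nat_lit 925694075) (nat_lit 0) (nat_lit 12720375555) (nat_lit 840) (nat_lit 925694075) (nat_lit 134) (nat_lit 1) (nat_lit 133) (nat_lit 1) (nat_lit 143) (nat_lit 1) (nat_lit 188) (nat_lit 271) (nat_lit 261)) (XT.lf (nat_lit 924) (nat_lit 559096201) (nat_lit 0) (nat_lit 6844388974) (nat_lit 840) (nat_lit 6844388974) (nat_lit 134) (nat_lit 1) (nat_lit 123) (nat_lit 1) (nat_lit 133) (nat_lit 1) (nat_lit 189) (nat_lit 271) (nat_lit 260))) (XT.nd (nat_lit 94) (nat_lit 0) (nat_lit 0) (XT.lf (nat_lit 588) (nat_lit 13268056975) (nat_lit 0) (nat_lit 334921261) (nat_lit 504) (nat_lit 334921261) (nat_lit 123) (nat_lit 1) (nat_lit 116) (nat_lit 1) (nat_lit 122) (nat_lit 1) (nat_lit 190) (nat_lit 271) (nat_lit 259)) (XT.lf (nat_lit 84) (nat_lit 5800771417) (nat_lit 0) (nat_lit 2030369461) (nat_lit 588)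 (nat_lit 5800771417) (nat_lit 117) (nat_lit 1) (nat_lit 116) (nat_lit 1) (nat_lit 123) (nat_lit 1) (nat_lit 191) (nat_lit 271) (nat_lit 258)))))) (XT.nd (nat_lit 658) (nat_lit 1344) (nat_lit 0) (XT.nd (nat_lit 282) (nat_lit 756) (nat_lit 0) (XT.nd (nat_lit 94) (nat_lit 420) (nat_lit 0) (XT.lf (nat_lit 504) (nat_lit 9981638616) (nat_lit 0) (nat_lit 1678648936) (nat_lit 420) (nat_lit 1678648936) (nat_lit 117) (nat_lit 1) (nat_lit 111) (nat_lit 1) (nat_lit 116) (nat_lit 1) (nat_lit 192) (nat_lit 271) (nat_lit 257)) (XT.nd (nat_lit 94) (nat_lit 420) (nat_lit 0) (XT.lf (nat_lit 84) (nat_lit 4137619636) (nat_lit 0) (nat_lit 4776880570) (nat_lit 504) (nat_lit 4137619636) (nat_lit 112) (nat_lit 1) (nat_lit 111) (nat_lit 1) (nat_lit 117) (nat_lit 1) (nat_lit 193) (nat_lit 271) (nat_lit 256)) (XT.lf (nat_lit 504) (nat_lit 6573050581) (nat_lit 0) (nat_lit 3101120836) (nat_lit 420)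 (nat_lit 3101120836) (nat_lit 112) (nat_lit 1) (nat_lit 106) (nat_lit 1) (nat_lit 111) (nat_lit 1) (nat_lit 194) (nat_lit 271) (nat_lit 255)))) (XT.nd (nat_lit 188) (nat_lit 420) (nat_lit 0) (XT.nd (nat_lit 94) (nat_lit 336) (nat_lit 0) (XT.lf (nat_lit 84) (nat_lit 2422081783) (nat_lit 0) (nat_lit 7662352178) (nat_lit 504) (nat_lit 2422081783) (nat_lit 107) (nat_lit 1) (nat_lit 106) (nat_lit 1) (nat_lit 112) (nat_lit 1) (nat_lit 195) (nat_lit 271) (nat_lit 254)) (XT.lf (nat_lit 420) (nat_lit 3074018178) (nat_lit 0) (nat_lit 4585317437) (nat_lit 336) (nat_lit 4585317437) (nat_lit 107) (nat_lit 1) (nat_lit 102) (nat_lit 1) (nat_lit 106) (nat_lit 1) (nat_lit 196) (nat_lit 271) (nat_lit 253))) (XT.nd (nat_lit 94) (nat_lit 420) (nat_lit 0) (XT.lf (nat_lit 84) (nat_lit 668885844) (nat_lit 0) (nat_lit 10655088623) (nat_lit 420) (nat_lit 668885844) (nat_lit 103) (nat_lit 1) (nat_lit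 102) (nat_lit 1) (nat_lit 107) (nat_lit 1) (nat_lit 197) (nat_lit 271) (nat_lit 252)) (XT.lf (nat_lit 84) (nat_lit 5636224325) (nat_lit 0) (nat_lit 472044735) (nat_lit 420) (nat_lit 5636224325) (nat_lit 98) (nat_lit 1) (nat_lit 97) (nat_lit 1) (nat_lit 102) (nat_lit 1) (nat_lit 198) (nat_lit 271) (nat_lit 251))))) (XT.nd (nat_lit 282) (nat_lit 672) (nat_lit 0) (XT.nd (nat_lit 94) (nat_lit 336) (nat_lit 0) (XT.lf (nat_lit 420) (nat_lit 9323203877) (nat_lit 0) (nat_lit 1091190503) (nat_lit 336) (nat_lit 1091190503) (nat_lit 98) (nat_lit 1) (nat_lit 93) (nat_lit 1) (nat_lit 97) (nat_lit 1) (nat_lit 199) (nat_lit 271) (nat_lit 250)) (XT.nd (nat_lit 94) (nat_lit 336) (nat_lit 0) (XT.lf (nat_lit 84) (nat_lit 3656970437) (nat_lit 0) (nat_lit 3956834036) (nat_lit 420) (nat_lit 3656970437) (nat_lit 94) (nat_lit 1) (nat_lit 93) (nat_lit 1) (nat_lit 98) (nat_lit 1) (nat_lit 200) (nat_lit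 271) (nat_lit 249)) (XT.lf (nat_lit 420) (nat_lit 5336537157) (nat_lit 0) (nat_lit 2853785081) (nat_lit 336) (nat_lit 2853785081) (nat_lit 94) (nat_lit 1) (nat_lit 89) (nat_lit 1) (nat_lit 93) (nat_lit 1) (nat_lit 201) (nat_lit 271) (nat_lit 248)))) (XT.nd (nat_lit 188) (nat_lit 420) (nat_lit 0) (XT.nd (nat_lit 94) (nat_lit 252) (nat_lit 0) (XT.lf (nat_lit 84) (nat_lit 1682905653) (nat_lit 0) (nat_lit 7458256202) (nat_lit 420) (nat_lit 1682905653) (nat_lit 90) (nat_lit 1) (nat_lit 89) (nat_lit 1) (nat_lit 94) (nat_lit 1) (nat_lit 202) (nat_lit 271) (nat_lit 247)) (XT.lf (nat_lit 336) (nat_lit 1368635090) (nat_lit 0) (nat_lit 4620071193) (nat_lit 252) (nat_lit 4620071193) (nat_lit 90) (nat_lit 1) (nat_lit 86) (nat_lit 1) (nat_lit 89) (nat_lit 1) (nat_lit 203) (nat_lit 271) (nat_lit 246))) (XT.nd (nat_lit 94) (nat_lit 0) (nat_lit 0) (XT.lf (nat_lit 420) (nat_lit 9854887291)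 (nat_lit 0) (nat_lit 273454212) (nat_lit 336) (nat_lit 273454212) (nat_lit 86) (nat_lit 1) (nat_lit 81) (nat_lit 1) (nat_lit 85) (nat_lit 1) (nat_lit 204) (nat_lit 271) (nat_lit 245)) (XT.lf (nat_lit 84) (nat_lit 3856290253) (nat_lit 0) (nat_lit 2483379069) (nat_lit 420) (nat_lit 3856290253) (nat_lit 82) (nat_lit 1) (nat_lit 81) (nat_lit 1) (nat_lit 86) (nat_lit 1) (nat_lit 205) (nat_lit 271) (nat_lit 244))))))) (XT.nd (nat_lit 1222) (nat_lit 1512) (nat_lit 0) (XT.nd (nat_lit 564) (nat_lit 924) (nat_lit 0) (XT.nd (nat_lit 282) (nat_lit 588) (nat_lit 0) (XT.nd (nat_lit 94) (nat_lit 252) (nat_lit 0) (XT.lf (nat_lit 336) (nat_lit 5632233828) (nat_lit 0) (nat_lit 2182891984) (nat_lit 252) (nat_lit 2182891984) (nat_lit 82) (nat_lit 1) (nat_lit 78) (nat_lit 1) (nat_lit 81) (nat_lit 1) (nat_lit 206) (nat_lit 271) (nat_lit 243)) (XT.nd (nat_lit 94) (nat_lit 252) (nat_lit 0) (XT.lf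 (nat_lit 84) (nat_lit 1779309788) (nat_lit 0) (nat_lit 6246485494) (nat_lit 336) (nat_lit 1779309788) (nat_lit 79) (nat_lit 1) (nat_lit 78) (nat_lit 1) (nat_lit 82) (nat_lit 1) (nat_lit 207) (nat_lit 271) (nat_lit 242)) (XT.lf (nat_lit 336) (nat_lit 1482999094) (nat_lit 0) (nat_lit 4066790981) (nat_lit 252) (nat_lit 4066790981) (nat_lit 79) (nat_lit 1) (nat_lit 75) (nat_lit 1) (nat_lit 78) (nat_lit 1) (nat_lit 208) (nat_lit 271) (nat_lit 241)))) (XT.nd (nat_lit 94) (nat_lit 252) (nat_lit 0) (XT.lf (nat_lit 336) (nat_lit 8925323521) (nat_lit 0) (nat_lit 254868713) (nat_lit 252) (nat_lit 254868713) (nat_lit 75) (nat_lit 1) (nat_lit 71) (nat_lit 1) (nat_lit 74) (nat_lit 1) (nat_lit 209) (nat_lit 271) (nat_lit 240)) (XT.nd (nat_lit 94) (nat_lit 252) (nat_lit 0) (XT.lf (nat_lit 84) (nat_lit 3376194283) (nat_lit 0) (nat_lit 2501726062) (nat_lit 336) (nat_lit 3376194283) (nat_lit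 72) (nat_lit 1) (nat_lit 71) (nat_lit 1) (nat_lit 75) (nat_lit 1) (nat_lit 210) (nat_lit 271) (nat_lit 239)) (XT.lf (nat_lit 336) (nat_lit 4642576283) (nat_lit 0) (nat_lit 2218643534) (nat_lit 252) (nat_lit 2218643534) (nat_lit 72) (nat_lit 1) (nat_lit 68) (nat_lit 1) (nat_lit 71) (nat_lit 1) (nat_lit 211) (nat_lit 271) (nat_lit 238))))) (XT.nd (nat_lit 282) (nat_lit 420) (nat_lit 0) (XT.nd (nat_lit 94) (nat_lit 504) (nat_lit 0) (XT.lf (nat_lit 84) (nat_lit 1278561722) (nat_lit 0) (nat_lit 6353162129) (nat_lit 336) (nat_lit 1278561722) (nat_lit 69) (nat_lit 1) (nat_lit 68) (nat_lit 1) (nat_lit 72) (nat_lit 1) (nat_lit 212) (nat_lit 271) (nat_lit 237)) (XT.nd (nat_lit 94) (nat_lit 336) (nat_lit 0) (XT.lf (nat_lit 252) (nat_lit 468507526) (nat_lit 0) (nat_lit 4137697930) (nat_lit 168) (nat_lit 4137697930) (nat_lit 69) (nat_lit 1) (nat_lit 66) (nat_lit 1) (nat_lit 68) (nat_lit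 1) (nat_lit 213) (nat_lit 271) (nat_lit 236)) (XT.lf (nat_lit 336) (nat_lit 7078991624) (nat_lit 0) (nat_lit 751840221) (nat_lit 252) (nat_lit 751840221) (nat_lit 66) (nat_lit 1) (nat_lit 62) (nat_lit 1) (nat_lit 65) (nat_lit 1) (nat_lit 214) (nat_lit 271) (nat_lit 235)))) (XT.nd (nat_lit 188) (nat_lit 252) (nat_lit 0) (XT.nd (nat_lit 94) (nat_lit 168) (nat_lit 0) (XT.lf (nat_lit 84) (nat_lit 2472523739) (nat_lit 0) (nat_lit 3478196486) (nat_lit 336) (nat_lit 2472523739) (nat_lit 63) (nat_lit 1) (nat_lit 62) (nat_lit 1) (nat_lit 66) (nat_lit 1) (nat_lit 215) (nat_lit 271) (nat_lit 234)) (XT.lf (nat_lit 252) (nat_lit 2856619778) (nat_lit 0) (nat_lit 2706058236) (nat_lit 168) (nat_lit 2706058236) (nat_lit 63) (nat_lit 1) (nat_lit 60) (nat_lit 1) (nat_lit 62) (nat_lit 1) (nat_lit 216) (nat_lit 271) (nat_lit 233))) (XT.nd (nat_lit 94) (nat_lit 252) (nat_lit 0) (XT.lf (nat_lit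 84) (nat_lit 410405591) (nat_lit 0) (nat_lit 7298544873) (nat_lit 252) (nat_lit 410405591) (nat_lit 61) (nat_lit 1) (nat_lit 60) (nat_lit 1) (nat_lit 63) (nat_lit 1) (nat_lit 217) (nat_lit 271) (nat_lit 232)) (XT.lf (nat_lit 84) (nat_lit 3387149348) (nat_lit 0) (nat_lit 1196220170) (nat_lit 252) (nat_lit 3387149348) (nat_lit 58) (nat_lit 1) (nat_lit 57) (nat_lit 1) (nat_lit 60) (nat_lit 1) (nat_lit 218) (nat_lit 271) (nat_lit 231)))))) (XT.nd (nat_lit 658) (nat_lit 756) (nat_lit 0) (XT.nd (nat_lit 282) (nat_lit 420) (nat_lit 0) (XT.nd (nat_lit 94) (nat_lit 168) (nat_lit 0) (XT.lf (nat_lit 252) (nat_lit 4703650519) (nat_lit 0) (nat_lit 1561484531) (nat_lit 168) (nat_lit 1561484531) (nat_lit 58) (nat_lit 1) (nat_lit 55) (nat_lit 1) (nat_lit 57) (nat_lit 1) (nat_lit 219) (nat_lit 271) (nat_lit 230)) (XT.nd (nat_lit 94) (nat_lit 168) (nat_lit 0) (XT.lf (nat_lit 84) (nat_lit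 1327247805) (nat_lit 0) (nat_lit 5031405175) (nat_lit 252) (nat_lit 1327247805) (nat_lit 56) (nat_lit 1) (nat_lit 55) (nat_lit 1) (nat_lit 58) (nat_lit 1) (nat_lit 220) (nat_lit 271) (nat_lit 229)) (XT.lf (nat_lit 252) (nat_lit 621767811) (nat_lit 0) (nat_lit 3463125353) (nat_lit 168) (nat_lit 3463125353) (nat_lit 56) (nat_lit 1) (nat_lit 53) (nat_lit 1) (nat_lit 55) (nat_lit 1) (nat_lit 221) (nat_lit 271) (nat_lit 228)))) (XT.nd (nat_lit 188) (nat_lit 168) (nat_lit 0) (XT.nd (nat_lit 94) (nat_lit 0) (nat_lit 0) (XT.lf (nat_lit 252) (nat_lit 6111135740) (nat_lit 0) (nat_lit 651497877) (nat_lit 168) (nat_lit 651497877) (nat_lit 53) (nat_lit 1) (nat_lit 50) (nat_lit 1) (nat_lit 52) (nat_lit 1) (nat_lit 222) (nat_lit 271) (nat_lit 227)) (XT.lf (nat_lit 84) (nat_lit 2034412063) (nat_lit 0) (nat_lit 3212563056) (nat_lit 252) (nat_lit 2034412063) (nat_lit 51) (nat_lit 1) (nat_lit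 50) (nat_lit 1) (nat_lit 53) (nat_lit 1) (nat_lit 223) (nat_lit 271) (nat_lit 226))) (XT.nd (nat_lit 94) (nat_lit 0) (nat_lit 0) (XT.lf (nat_lit 252) (nat_lit 2071949915) (nat_lit 0) (nat_lit 2540273354) (nat_lit 168) (nat_lit 2540273354) (nat_lit 51) (nat_lit 1) (nat_lit 48) (nat_lit 1) (nat_lit 50) (nat_lit 1) (nat_lit 224) (nat_lit 271) (nat_lit 225)) (XT.lf (nat_lit 84) (nat_lit 68099279) (nat_lit 0) (nat_lit 6891927703) (nat_lit 252) (nat_lit 68099279) (nat_lit 49) (nat_lit 1) (nat_lit 48) (nat_lit 1) (nat_lit 51) (nat_lit 1) (nat_lit 225) (nat_lit 271) (nat_lit 224))))) (XT.nd (nat_lit 282) (nat_lit 420) (nat_lit 0) (XT.nd (nat_lit 94) (nat_lit 168) (nat_lit 0) (XT.lf (nat_lit 84) (nat_lit 2571317753) (nat_lit 0) (nat_lit 1760329831) (nat_lit 168) (nat_lit 2571317753) (nat_lit 47) (nat_lit 1) (nat_lit 46) (nat_lit 1) (nat_lit 48) (nat_lit 1) (nat_lit 226) (nat_lit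 271) (nat_lit 223)) (XT.nd (nat_lit 94) (nat_lit 0) (nat_lit 0) (XT.lf (nat_lit 252) (nat_lit 3190712606) (nat_lit 0) (nat_lit 1795747799) (nat_lit 168) (nat_lit 1795747799) (nat_lit 47) (nat_lit 1) (nat_lit 44) (nat_lit 1) (nat_lit 46) (nat_lit 1) (nat_lit 227) (nat_lit 271) (nat_lit 222)) (XT.lf (nat_lit 84) (nat_lit 639715825) (nat_lit 0) (nat_lit 5385278963) (nat_lit 252) (nat_lit 639715825) (nat_lit 45) (nat_lit 1) (nat_lit 44) (nat_lit 1) (nat_lit 47) (nat_lit 1) (nat_lit 228) (nat_lit 271) (nat_lit 221)))) (XT.nd (nat_lit 188) (nat_lit 84) (nat_lit 0) (XT.nd (nat_lit 94) (nat_lit 168) (nat_lit 0) (XT.lf (nat_lit 84) (nat_lit 2970288444) (nat_lit 0) (nat_lit 607605094) (nat_lit 168) (nat_lit 2970288444) (nat_lit 43) (nat_lit 1) (nat_lit 42) (nat_lit 1) (nat_lit 44) (nat_lit 1) (nat_lit 229) (nat_lit 271) (nat_lit 220)) (XT.lf (nat_lit 252) (nat_lit 4040354094) (nat_lit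 0) (nat_lit 1197231515) (nat_lit 168) (nat_lit 1197231515) (nat_lit 43) (nat_lit 1) (nat_lit 40) (nat_lit 1) (nat_lit 42) (nat_lit 1) (nat_lit 230) (nat_lit 271) (nat_lit 219))) (XT.nd (nat_lit 94) (nat_lit 84) (nat_lit 0) (XT.lf (nat_lit 84) (nat_lit 1082191393) (nat_lit 0) (nat_lit 4159313744) (nat_lit 252) (nat_lit 1082191393) (nat_lit 41) (nat_lit 1) (nat_lit 40) (nat_lit 1) (nat_lit 43) (nat_lit 1) (nat_lit 231) (nat_lit 271) (nat_lit 218)) (XT.lf (nat_lit 168) (nat_lit 310657739) (nat_lit 0) (nat_lit 2952007548) (nat_lit 84) (nat_lit 2952007548) (nat_lit 41) (nat_lit 1) (nat_lit 39) (nat_lit 1) (nat_lit 40) (nat_lit 1) (nat_lit 232) (nat_lit 271) (nat_lit 217))))))))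
noncomputable def ec93 : XT := (XT.nd (nat_lit 2538) (nat_lit 756) (nat_lit 0) (XT.nd (nat_lit 1222) (nat_lit 1260) (nat_lit 0) (XT.nd (nat_lit 564) (nat_lit 588) (nat_lit 0) (XT.nd (nat_lit 282) (nat_lit 336) (nat_lit 0) (XT.nd (nat_lit 94) (nat_lit 84) (nat_lit 0) (XT.lf (nat_lit 252) (nat_lit 4671958776) (nat_lit 0) (nat_lit 718170432) (nat_lit 168) (nat_lit 718170432) (nat_lit 39) (nat_lit 1) (nat_lit 36) (nat_lit 1) (nat_lit 38) (nat_lit 1) (nat_lit 233) (nat_lit 271) (nat_lit 216)) (XT.nd (nat_lit 94) (nat_lit 84) (nat_lit 0) (XT.lf (nat_lit 84) (nat_lit 1419745918) (nat_lit 0) (nat_lit 3163621915) (nat_lit 252) (nat_lit 1419745918) (nat_lit 37) (nat_lit 1) (nat_lit 36) (nat_lit 1) (nat_lit 39) (nat_lit 1) (nat_lit 234) (nat_lit 271) (nat_lit 215)) (XT.lf (nat_lit 168) (nat_lit 1043259067) (nat_lit 0) (nat_lit 2428623915) (nat_lit 84) (nat_lit 2428623915) (nat_lit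 37) (nat_lit 1) (nat_lit 35) (nat_lit 1) (nat_lit 36) (nat_lit 1) (nat_lit 235) (nat_lit 271) (nat_lit 214)))) (XT.nd (nat_lit 94) (nat_lit 84) (nat_lit 0) (XT.lf (nat_lit 252) (nat_lit 5127393441) (nat_lit 0) (nat_lit 336750212) (nat_lit 168) (nat_lit 336750212) (nat_lit 35) (nat_lit 1) (nat_lit 32) (nat_lit 1) (nat_lit 34) (nat_lit 1) (nat_lit 236) (nat_lit 271) (nat_lit 213)) (XT.nd (nat_lit 94) (nat_lit 84) (nat_lit 0) (XT.lf (nat_lit 84) (nat_lit 1672242176) (nat_lit 0) (nat_lit 2356761678) (nat_lit 252) (nat_lit 1672242176) (nat_lit 33) (nat_lit 1) (nat_lit 32) (nat_lit 1) (nat_lit 35) (nat_lit 1) (nat_lit 237) (nat_lit 271) (nat_lit 212)) (XT.lf (nat_lit 168) (nat_lit 1608463413) (nat_lit 0) (nat_lit 1998034905) (nat_lit 84) (nat_lit 1998034905) (nat_lit 33) (nat_lit 1) (nat_lit 31) (nat_lit 1) (nat_lit 32) (nat_lit 1) (nat_lit 238) (nat_lit 271) (nat_lit 211)))))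 (XT.nd (nat_lit 282) (nat_lit 252) (nat_lit 0) (XT.nd (nat_lit 94) (nat_lit 84) (nat_lit 0) (XT.lf (nat_lit 252) (nat_lit 5440949172) (nat_lit 0) (nat_lit 35054395) (nat_lit 168) (nat_lit 35054395) (nat_lit 31) (nat_lit 1) (nat_lit 28) (nat_lit 1) (nat_lit 30) (nat_lit 1) (nat_lit 239) (nat_lit 271) (nat_lit 210)) (XT.nd (nat_lit 94) (nat_lit 84) (nat_lit 0) (XT.lf (nat_lit 84) (nat_lit 1855961297) (nat_lit 0) (nat_lit 1704668045) (nat_lit 252) (nat_lit 1855961297) (nat_lit 29) (nat_lit 1) (nat_lit 28) (nat_lit 1) (nat_lit 31) (nat_lit 1) (nat_lit 240) (nat_lit 271) (nat_lit 209)) (XT.lf (nat_lit 168) (nat_lit 2037735971) (nat_lit 0) (nat_lit 1643788261) (nat_lit 84) (nat_lit 1643788261) (nat_lit 29) (nat_lit 1) (nat_lit 27) (nat_lit 1) (nat_lit 28) (nat_lit 1) (nat_lit 241) (nat_lit 271) (nat_lit 208)))) (XT.nd (nat_lit 188) (nat_lit 84) (nat_lit 0) (XT.nd (nat_lit 94)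 (nat_lit 168) (nat_lit 0) (XT.lf (nat_lit 0) (nat_lit 204933505) (nat_lit 0) (nat_lit 4826923175) (nat_lit 168) (nat_lit 204933505) (nat_lit 27) (nat_lit 3) (nat_lit 27) (nat_lit 1) (nat_lit 29) (nat_lit 1) (nat_lit 242) (nat_lit 271) (nat_lit 207)) (XT.lf (nat_lit 84) (nat_lit 1984240638) (nat_lit 0) (nat_lit 1179343553) (nat_lit 168) (nat_lit 1984240638) (nat_lit 26) (nat_lit 1) (nat_lit 25) (nat_lit 1) (nat_lit 27) (nat_lit 1) (nat_lit 243) (nat_lit 271) (nat_lit 206))) (XT.nd (nat_lit 94) (nat_lit 0) (nat_lit 0) (XT.lf (nat_lit 168) (nat_lit 2356878178) (nat_lit 0) (nat_lit 1352348670) (nat_lit 84) (nat_lit 1352348670) (nat_lit 26) (nat_lit 1) (nat_lit 24) (nat_lit 1) (nat_lit 25) (nat_lit 1) (nat_lit 244) (nat_lit 271) (nat_lit 205)) (XT.lf (nat_lit 0) (nat_lit 391690368) (nat_lit 0) (nat_lit 4194212708) (nat_lit 168) (nat_lit 391690368) (nat_lit 24) (nat_lit 3) (nat_lit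 24) (nat_lit 1) (nat_lit 26) (nat_lit 1) (nat_lit 245) (nat_lit 271) (nat_lit 204)))))) (XT.nd (nat_lit 658) (nat_lit 588) (nat_lit 0) (XT.nd (nat_lit 282) (nat_lit 420) (nat_lit 0) (XT.nd (nat_lit 94) (nat_lit 84) (nat_lit 0) (XT.lf (nat_lit 84) (nat_lit 2067998432) (nat_lit 0) (nat_lit 757781178) (nat_lit 168) (nat_lit 2067998432) (nat_lit 23) (nat_lit 1) (nat_lit 22) (nat_lit 1) (nat_lit 24) (nat_lit 1) (nat_lit 246) (nat_lit 271) (nat_lit 203)) (XT.nd (nat_lit 94) (nat_lit 0) (nat_lit 0) (XT.lf (nat_lit 168) (nat_lit 2587035940) (nat_lit 0) (nat_lit 1112580598) (nat_lit 84) (nat_lit 1112580598) (nat_lit 23) (nat_lit 1) (nat_lit 21) (nat_lit 1) (nat_lit 22) (nat_lit 1) (nat_lit 247) (nat_lit 271) (nat_lit 202)) (XT.lf (nat_lit 0) (nat_lit 534712317) (nat_lit 0) (nat_lit 3663056857) (nat_lit 168) (nat_lit 534712317) (nat_lit 21) (nat_lit 3) (nat_lit 21) (nat_lit 1) (nat_lit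 23) (nat_lit 1) (nat_lit 248) (nat_lit 271) (nat_lit 201)))) (XT.nd (nat_lit 188) (nat_lit 168) (nat_lit 0) (XT.nd (nat_lit 94) (nat_lit 84) (nat_lit 0) (XT.lf (nat_lit 84) (nat_lit 2116165283) (nat_lit 0) (nat_lit 421078277) (nat_lit 168) (nat_lit 2116165283) (nat_lit 20) (nat_lit 1) (nat_lit 19) (nat_lit 1) (nat_lit 21) (nat_lit 1) (nat_lit 249) (nat_lit 271) (nat_lit 200)) (XT.lf (nat_lit 168) (nat_lit 2745528900) (nat_lit 0) (nat_lit 915322811) (nat_lit 84) (nat_lit 915322811) (nat_lit 20) (nat_lit 1) (nat_lit 18) (nat_lit 1) (nat_lit 19) (nat_lit 1) (nat_lit 250) (nat_lit 271) (nat_lit 199))) (XT.nd (nat_lit 94) (nat_lit 168) (nat_lit 0) (XT.lf (nat_lit 0) (nat_lit 642259320) (nat_lit 0) (nat_lit 3215956115) (nat_lit 168) (nat_lit 642259320) (nat_lit 18) (nat_lit 3) (nat_lit 18) (nat_lit 1) (nat_lit 20) (nat_lit 1) (nat_lit 251) (nat_lit 271) (nat_lit 198)) (XT.lf (nat_lit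 84) (nat_lit 2136039040) (nat_lit 0) (nat_lit 153707689) (nat_lit 168) (nat_lit 2136039040) (nat_lit 17) (nat_lit 1) (nat_lit 16) (nat_lit 1) (nat_lit 18) (nat_lit 1) (nat_lit 252) (nat_lit 271) (nat_lit 197))))) (XT.nd (nat_lit 282) (nat_lit 420) (nat_lit 0) (XT.nd (nat_lit 94) (nat_lit 84) (nat_lit 0) (XT.lf (nat_lit 168) (nat_lit 2846532496) (nat_lit 0) (nat_lit 753038342) (nat_lit 84) (nat_lit 753038342) (nat_lit 17) (nat_lit 1) (nat_lit 15) (nat_lit 1) (nat_lit 16) (nat_lit 1) (nat_lit 253) (nat_lit 271) (nat_lit 196)) (XT.nd (nat_lit 94) (nat_lit 84) (nat_lit 0) (XT.lf (nat_lit 0) (nat_lit 721102783) (nat_lit 0) (nat_lit 2838489506) (nat_lit 168) (nat_lit 721102783) (nat_lit 15) (nat_lit 3) (nat_lit 15) (nat_lit 1) (nat_lit 17) (nat_lit 1) (nat_lit 254) (nat_lit 271) (nat_lit 195)) (XT.lf (nat_lit 84) (nat_lit 58969260) (nat_lit 0) (nat_lit 2075528043) (nat_lit 84)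 (nat_lit 2075528043) (nat_lit 15) (nat_lit 3) (nat_lit 14) (nat_lit 1) (nat_lit 15) (nat_lit 1) (nat_lit 255) (nat_lit 271) (nat_lit 194)))) (XT.nd (nat_lit 188) (nat_lit 252) (nat_lit 0) (XT.nd (nat_lit 94) (nat_lit 0) (nat_lit 0) (XT.lf (nat_lit 168) (nat_lit 2901638924) (nat_lit 0) (nat_lit 619526507) (nat_lit 84) (nat_lit 619526507) (nat_lit 14) (nat_lit 1) (nat_lit 12) (nat_lit 1) (nat_lit 13) (nat_lit 1) (nat_lit 256) (nat_lit 271) (nat_lit 193)) (XT.lf (nat_lit 0) (nat_lit 776790617) (nat_lit 0) (nat_lit 2518769913) (nat_lit 168) (nat_lit 776790617) (nat_lit 12) (nat_lit 3) (nat_lit 12) (nat_lit 1) (nat_lit 14) (nat_lit 1) (nat_lit 257) (nat_lit 271) (nat_lit 192))) (XT.nd (nat_lit 94) (nat_lit 168) (nat_lit 0) (XT.lf (nat_lit 84) (nat_lit 229091445) (nat_lit 0) (nat_lit 1888119346) (nat_lit 84) (nat_lit 1888119346) (nat_lit 12) (nat_lit 3) (nat_lit 11) (nat_lit 1)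 (nat_lit 12) (nat_lit 1) (nat_lit 258) (nat_lit 271) (nat_lit 191)) (XT.lf (nat_lit 168) (nat_lit 2920318472) (nat_lit 0) (nat_lit 509685991) (nat_lit 84) (nat_lit 509685991) (nat_lit 11) (nat_lit 1) (nat_lit 9) (nat_lit 1) (nat_lit 10) (nat_lit 1) (nat_lit 259) (nat_lit 271) (nat_lit 190))))))) (XT.nd (nat_lit 1316) (nat_lit 0) (nat_lit 0) (XT.nd (nat_lit 658) (nat_lit 252) (nat_lit 0) (XT.nd (nat_lit 282) (nat_lit 252) (nat_lit 0) (XT.nd (nat_lit 94) (nat_lit 252) (nat_lit 0) (XT.lf (nat_lit 0) (nat_lit 813865250) (nat_lit 0) (nat_lit 2246995929) (nat_lit 168) (nat_lit 813865250) (nat_lit 9) (nat_lit 3) (nat_lit 9) (nat_lit 1) (nat_lit 11) (nat_lit 1) (nat_lit 260) (nat_lit 271) (nat_lit 189)) (XT.nd (nat_lit 94) (nat_lit 168) (nat_lit 0) (XT.lf (nat_lit 84) (nat_lit 360452469) (nat_lit 0) (nat_lit 1725338829) (nat_lit 84) (nat_lit 1725338829) (nat_lit 9) (nat_lit 3) (nat_lit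 8) (nat_lit 1) (nat_lit 9) (nat_lit 1) (nat_lit 261) (nat_lit 271) (nat_lit 188)) (XT.lf (nat_lit 168) (nat_lit 2910298899) (nat_lit 0) (nat_lit 419319926) (nat_lit 84) (nat_lit 419319926) (nat_lit 8) (nat_lit 1) (nat_lit 6) (nat_lit 1) (nat_lit 7) (nat_lit 1) (nat_lit 262) (nat_lit 271) (nat_lit 187)))) (XT.nd (nat_lit 188) (nat_lit 168) (nat_lit 0) (XT.nd (nat_lit 94) (nat_lit 84) (nat_lit 0) (XT.lf (nat_lit 0) (nat_lit 836042944) (nat_lit 0) (nat_lit 2015083100) (nat_lit 168) (nat_lit 836042944) (nat_lit 6) (nat_lit 3) (nat_lit 6) (nat_lit 1) (nat_lit 8) (nat_lit 1) (nat_lit 263) (nat_lit 271) (nat_lit 186)) (XT.lf (nat_lit 84) (nat_lit 460334062) (nat_lit 0) (nat_lit 1583229449) (nat_lit 84) (nat_lit 1583229449) (nat_lit 6) (nat_lit 3) (nat_lit 5) (nat_lit 1) (nat_lit 6) (nat_lit 1) (nat_lit 264) (nat_lit 271) (nat_lit 185))) (XT.nd (nat_lit 94) (nat_lit 0) (nat_lit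 0) (XT.lf (nat_lit 168) (nat_lit 2877877407) (nat_lit 0) (nat_lit 344975541) (nat_lit 84) (nat_lit 344975541) (nat_lit 5) (nat_lit 1) (nat_lit 3) (nat_lit 1) (nat_lit 4) (nat_lit 1) (nat_lit 265) (nat_lit 271) (nat_lit 184)) (XT.lf (nat_lit 0) (nat_lit 846361255) (nat_lit 0) (nat_lit 1816360509) (nat_lit 168) (nat_lit 846361255) (nat_lit 3) (nat_lit 3) (nat_lit 3) (nat_lit 1) (nat_lit 5) (nat_lit 1) (nat_lit 266) (nat_lit 271) (nat_lit 183))))) (XT.nd (nat_lit 282) (nat_lit 0) (nat_lit 0) (XT.nd (nat_lit 94) (nat_lit 168) (nat_lit 0) (XT.lf (nat_lit 84) (nat_lit 534707424) (nat_lit 0) (nat_lit 1458516237) (nat_lit 84) (nat_lit 1458516237) (nat_lit 3) (nat_lit 3) (nat_lit 2) (nat_lit 1) (nat_lit 3) (nat_lit 1) (nat_lit 267) (nat_lit 271) (nat_lit 182)) (XT.nd (nat_lit 94) (nat_lit 0) (nat_lit 0) (XT.lf (nat_lit 0) (nat_lit 4933040300) (nat_lit 0) (nat_lit 0) (nat_lit 0) (nat_lit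 0) (nat_lit 0) (nat_lit 0) (nat_lit 1) (nat_lit 0) (nat_lit 1) (nat_lit 0) (nat_lit 268) (nat_lit 271) (nat_lit 181)) (XT.lf (nat_lit 0) (nat_lit 4930166134) (nat_lit 0) (nat_lit 0) (nat_lit 0) (nat_lit 0) (nat_lit 0) (nat_lit 0) (nat_lit 1) (nat_lit 0) (nat_lit 1) (nat_lit 0) (nat_lit 269) (nat_lit 271) (nat_lit 180)))) (XT.nd (nat_lit 188) (nat_lit 0) (nat_lit 0) (XT.nd (nat_lit 94) (nat_lit 0) (nat_lit 0) (XT.lf (nat_lit 0) (nat_lit 4927428832) (nat_lit 0) (nat_lit 0) (nat_lit 0) (nat_lit 0) (nat_lit 0) (nat_lit 0) (nat_lit 1) (nat_lit 0) (nat_lit 1) (nat_lit 0) (nat_lit 270) (nat_lit 271) (nat_lit 179)) (XT.lf (nat_lit 0) (nat_lit 4924821879) (nat_lit 0) (nat_lit 0) (nat_lit 0) (nat_lit 0) (nat_lit 0) (nat_lit 0) (nat_lit 1) (nat_lit 0) (nat_lit 1) (nat_lit 0) (nat_lit 271) (nat_lit 271) (nat_lit 178))) (XT.nd (nat_lit 94) (nat_lit 0) (nat_lit 0) (XT.lf (nat_lit 0) (nat_lit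 4922339066) (nat_lit 0) (nat_lit 0) (nat_lit 0) (nat_lit 0) (nat_lit 0) (nat_lit 0) (nat_lit 1) (nat_lit 0) (nat_lit 1) (nat_lit 0) (nat_lit 272) (nat_lit 271) (nat_lit 177)) (XT.lf (nat_lit 0) (nat_lit 4919974482) (nat_lit 0) (nat_lit 0) (nat_lit 0) (nat_lit 0) (nat_lit 0) (nat_lit 0) (nat_lit 1) (nat_lit 0) (nat_lit 1) (nat_lit 0) (nat_lit 273) (nat_lit 271) (nat_lit 176)))))) (XT.nd (nat_lit 658) (nat_lit 0) (nat_lit 0) (XT.nd (nat_lit 282) (nat_lit 0) (nat_lit 0) (XT.nd (nat_lit 94) (nat_lit 0) (nat_lit 0) (XT.lf (nat_lit 0) (nat_lit 4917722497) (nat_lit 0) (nat_lit 0) (nat_lit 0) (nat_lit 0) (nat_lit 0) (nat_lit 0) (nat_lit 1) (nat_lit 0) (nat_lit 1) (nat_lit 0) (nat_lit 274) (nat_lit 271) (nat_lit 175)) (XT.nd (nat_lit 94) (nat_lit 0) (nat_lit 0) (XT.lf (nat_lit 0) (nat_lit 4915577750) (nat_lit 0) (nat_lit 0) (nat_lit 0) (nat_lit 0) (nat_lit 0) (nat_lit 0) (nat_lit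 1) (nat_lit 0) (nat_lit 1) (nat_lit 0) (nat_lit 275) (nat_lit 271) (nat_lit 174)) (XT.lf (nat_lit 0) (nat_lit 4913535133) (nat_lit 0) (nat_lit 0) (nat_lit 0) (nat_lit 0) (nat_lit 0) (nat_lit 0) (nat_lit 1) (nat_lit 0) (nat_lit 1) (nat_lit 0) (nat_lit 276) (nat_lit 271) (nat_lit 173)))) (XT.nd (nat_lit 188) (nat_lit 0) (nat_lit 0) (XT.nd (nat_lit 94) (nat_lit 0) (nat_lit 0) (XT.lf (nat_lit 0) (nat_lit 4911589784) (nat_lit 0) (nat_lit 0) (nat_lit 0) (nat_lit 0) (nat_lit 0) (nat_lit 0) (nat_lit 1) (nat_lit 0) (nat_lit 1) (nat_lit 0) (nat_lit 277) (nat_lit 271) (nat_lit 172)) (XT.lf (nat_lit 0) (nat_lit 4909737071) (nat_lit 0) (nat_lit 0) (nat_lit 0) (nat_lit 0) (nat_lit 0) (nat_lit 0) (nat_lit 1) (nat_lit 0) (nat_lit 1) (nat_lit 0) (nat_lit 278) (nat_lit 271) (nat_lit 171))) (XT.nd (nat_lit 94) (nat_lit 0) (nat_lit 0) (XT.lf (nat_lit 0) (nat_lit 4907972582) (nat_lit 0) (nat_lit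 0) (nat_lit 0) (nat_lit 0) (nat_lit 0) (nat_lit 0) (nat_lit 1) (nat_lit 0) (nat_lit 1) (nat_lit 0) (nat_lit 279) (nat_lit 271) (nat_lit 170)) (XT.lf (nat_lit 0) (nat_lit 4906292116) (nat_lit 0) (nat_lit 0) (nat_lit 0) (nat_lit 0) (nat_lit 0) (nat_lit 0) (nat_lit 1) (nat_lit 0) (nat_lit 1) (nat_lit 0) (nat_lit 280) (nat_lit 271) (nat_lit 169))))) (XT.nd (nat_lit 282) (nat_lit 0) (nat_lit 0) (XT.nd (nat_lit 94) (nat_lit 0) (nat_lit 0) (XT.lf (nat_lit 0) (nat_lit 4904691673) (nat_lit 0) (nat_lit 0) (nat_lit 0) (nat_lit 0) (nat_lit 0) (nat_lit 0) (nat_lit 1) (nat_lit 0) (nat_lit 1) (nat_lit 0) (nat_lit 281) (nat_lit 271) (nat_lit 168)) (XT.nd (nat_lit 94) (nat_lit 0) (nat_lit 0) (XT.lf (nat_lit 0) (nat_lit 4903167441) (nat_lit 0) (nat_lit 0) (nat_lit 0) (nat_lit 0) (nat_lit 0) (nat_lit 0) (nat_lit 1) (nat_lit 0) (nat_lit 1) (nat_lit 0) (nat_lit 282) (nat_lit 271) (nat_lit 167))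 (XT.lf (nat_lit 0) (nat_lit 4901715791) (nat_lit 0) (nat_lit 0) (nat_lit 0) (nat_lit 0) (nat_lit 0) (nat_lit 0) (nat_lit 1) (nat_lit 0) (nat_lit 1) (nat_lit 0) (nat_lit 283) (nat_lit 271) (nat_lit 166)))) (XT.nd (nat_lit 188) (nat_lit 0) (nat_lit 0) (XT.nd (nat_lit 94) (nat_lit 0) (nat_lit 0) (XT.lf (nat_lit 0) (nat_lit 4900333268) (nat_lit 0) (nat_lit 0) (nat_lit 0) (nat_lit 0) (nat_lit 0) (nat_lit 0) (nat_lit 1) (nat_lit 0) (nat_lit 1) (nat_lit 0) (nat_lit 284) (nat_lit 271) (nat_lit 165)) (XT.lf (nat_lit 0) (nat_lit 4899016579) (nat_lit 0) (nat_lit 0) (nat_lit 0) (nat_lit 0) (nat_lit 0) (nat_lit 0) (nat_lit 1) (nat_lit 0) (nat_lit 1) (nat_lit 0) (nat_lit 285) (nat_lit 271) (nat_lit 164))) (XT.nd (nat_lit 94) (nat_lit 0) (nat_lit 0) (XT.lf (nat_lit 0) (nat_lit 4897762590) (nat_lit 0) (nat_lit 0) (nat_lit 0) (nat_lit 0) (nat_lit 0) (nat_lit 0) (nat_lit 1) (nat_lit 0) (nat_lit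 1) (nat_lit 0) (nat_lit 286) (nat_lit 271) (nat_lit 163)) (XT.lf (nat_lit 0) (nat_lit 4896568314) (nat_lit 0) (nat_lit 0) (nat_lit 0) (nat_lit 0) (nat_lit 0) (nat_lit 0) (nat_lit 1) (nat_lit 0) (nat_lit 1) (nat_lit 0) (nat_lit 287) (nat_lit 271) (nat_lit 162))))))))
noncomputable def ec94 : XT := (XT.nd (nat_lit 2538) (nat_lit 0) (nat_lit 0) (XT.nd (nat_lit 1222) (nat_lit 0) (nat_lit 0) (XT.nd (nat_lit 564) (nat_lit 0) (nat_lit 0) (XT.nd (nat_lit 282) (nat_lit 0) (nat_lit 0) (XT.nd (nat_lit 94) (nat_lit 0) (nat_lit 0) (XT.lf (nat_lit 0) (nat_lit 4895430909) (nat_lit 0) (nat_lit 0) (nat_lit 0) (nat_lit 0) (nat_lit 0) (nat_lit 0) (nat_lit 1) (nat_lit 0) (nat_lit 1) (nat_lit 0) (nat_lit 288) (nat_lit 271) (nat_lit 161)) (XT.nd (nat_lit 94) (nat_lit 0) (nat_lit 0) (XT.lf (nat_lit 0) (nat_lit 4894347666) (nat_lit 0) (nat_lit 0) (nat_lit 0) (nat_lit 0) (nat_lit 0) (nat_lit 0)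 (nat_lit 1) (nat_lit 0) (nat_lit 1) (nat_lit 0) (nat_lit 289) (nat_lit 271) (nat_lit 160)) (XT.lf (nat_lit 0) (nat_lit 4893316006) (nat_lit 0) (nat_lit 0) (nat_lit 0) (nat_lit 0) (nat_lit 0) (nat_lit 0) (nat_lit 1) (nat_lit 0) (nat_lit 1) (nat_lit 0) (nat_lit 290) (nat_lit 271) (nat_lit 159)))) (XT.nd (nat_lit 94) (nat_lit 0) (nat_lit 0) (XT.lf (nat_lit 0) (nat_lit 4892333472) (nat_lit 0) (nat_lit 0) (nat_lit 0) (nat_lit 0) (nat_lit 0) (nat_lit 0) (nat_lit 1) (nat_lit 0) (nat_lit 1) (nat_lit 0) (nat_lit 291) (nat_lit 271) (nat_lit 158)) (XT.nd (nat_lit 94) (nat_lit 0) (nat_lit 0) (XT.lf (nat_lit 0) (nat_lit 4891397726) (nat_lit 0) (nat_lit 0) (nat_lit 0) (nat_lit 0) (nat_lit 0) (nat_lit 0) (nat_lit 1) (nat_lit 0) (nat_lit 1) (nat_lit 0) (nat_lit 292) (nat_lit 271) (nat_lit 157)) (XT.lf (nat_lit 0) (nat_lit 4890506539) (nat_lit 0) (nat_lit 0) (nat_lit 0) (nat_lit 0) (nat_lit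 0) (nat_lit 0) (nat_lit 1) (nat_lit 0) (nat_lit 1) (nat_lit 0) (nat_lit 293) (nat_lit 271) (nat_lit 156))))) (XT.nd (nat_lit 282) (nat_lit 0) (nat_lit 0) (XT.nd (nat_lit 94) (nat_lit 0) (nat_lit 0) (XT.lf (nat_lit 0) (nat_lit 4889657790) (nat_lit 0) (nat_lit 0) (nat_lit 0) (nat_lit 0) (nat_lit 0) (nat_lit 0) (nat_lit 1) (nat_lit 0) (nat_lit 1) (nat_lit 0) (nat_lit 294) (nat_lit 271) (nat_lit 155)) (XT.nd (nat_lit 94) (nat_lit 0) (nat_lit 0) (XT.lf (nat_lit 0) (nat_lit 4888849457) (nat_lit 0) (nat_lit 0) (nat_lit 0) (nat_lit 0) (nat_lit 0) (nat_lit 0) (nat_lit 1) (nat_lit 0) (nat_lit 1) (nat_lit 0) (nat_lit 295) (nat_lit 271) (nat_lit 154)) (XT.lf (nat_lit 0) (nat_lit 4888079617) (nat_lit 0) (nat_lit 0) (nat_lit 0) (nat_lit 0) (nat_lit 0) (nat_lit 0) (nat_lit 1) (nat_lit 0) (nat_lit 1) (nat_lit 0) (nat_lit 296) (nat_lit 271) (nat_lit 153)))) (XT.nd (nat_lit 188) (nat_lit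 0) (nat_lit 0) (XT.nd (nat_lit 94) (nat_lit 0) (nat_lit 0) (XT.lf (nat_lit 0) (nat_lit 4887346435) (nat_lit 0) (nat_lit 0) (nat_lit 0) (nat_lit 0) (nat_lit 0) (nat_lit 0) (nat_lit 1) (nat_lit 0) (nat_lit 1) (nat_lit 0) (nat_lit 297) (nat_lit 271) (nat_lit 152)) (XT.lf (nat_lit 0) (nat_lit 4886648167) (nat_lit 0) (nat_lit 0) (nat_lit 0) (nat_lit 0) (nat_lit 0) (nat_lit 0) (nat_lit 1) (nat_lit 0) (nat_lit 1) (nat_lit 0) (nat_lit 298) (nat_lit 271) (nat_lit 151))) (XT.nd (nat_lit 94) (nat_lit 0) (nat_lit 0) (XT.lf (nat_lit 0) (nat_lit 4885983149) (nat_lit 0) (nat_lit 0) (nat_lit 0) (nat_lit 0) (nat_lit 0) (nat_lit 0) (nat_lit 1) (nat_lit 0) (nat_lit 1) (nat_lit 0) (nat_lit 299) (nat_lit 271) (nat_lit 150)) (XT.lf (nat_lit 0) (nat_lit 4885349800) (nat_lit 0) (nat_lit 0) (nat_lit 0) (nat_lit 0) (nat_lit 0) (nat_lit 0) (nat_lit 1) (nat_lit 0) (nat_lit 1) (nat_lit 0) (nat_lit 300)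 (nat_lit 271) (nat_lit 149)))))) (XT.nd (nat_lit 658) (nat_lit 0) (nat_lit 0) (XT.nd (nat_lit 282) (nat_lit 0) (nat_lit 0) (XT.nd (nat_lit 94) (nat_lit 0) (nat_lit 0) (XT.lf (nat_lit 0) (nat_lit 4884746609) (nat_lit 0) (nat_lit 0) (nat_lit 0) (nat_lit 0) (nat_lit 0) (nat_lit 0) (nat_lit 1) (nat_lit 0) (nat_lit 1) (nat_lit 0) (nat_lit 301) (nat_lit 271) (nat_lit 148)) (XT.nd (nat_lit 94) (nat_lit 0) (nat_lit 0) (XT.lf (nat_lit 0) (nat_lit 4884172142) (nat_lit 0) (nat_lit 0) (nat_lit 0) (nat_lit 0) (nat_lit 0) (nat_lit 0) (nat_lit 1) (nat_lit 0) (nat_lit 1) (nat_lit 0) (nat_lit 302) (nat_lit 271) (nat_lit 147)) (XT.lf (nat_lit 0) (nat_lit 4883625031) (nat_lit 0) (nat_lit 0) (nat_lit 0) (nat_lit 0) (nat_lit 0) (nat_lit 0) (nat_lit 1) (nat_lit 0) (nat_lit 1) (nat_lit 0) (nat_lit 303) (nat_lit 271) (nat_lit 146)))) (XT.nd (nat_lit 188) (nat_lit 0) (nat_lit 0) (XT.nd (nat_lit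 94) (nat_lit 0) (nat_lit 0) (XT.lf (nat_lit 0) (nat_lit 4883103972) (nat_lit 0) (nat_lit 0) (nat_lit 0) (nat_lit 0) (nat_lit 0) (nat_lit 0) (nat_lit 1) (nat_lit 0) (nat_lit 1) (nat_lit 0) (nat_lit 304) (nat_lit 271) (nat_lit 145)) (XT.lf (nat_lit 0) (nat_lit 4882607726) (nat_lit 0) (nat_lit 0) (nat_lit 0) (nat_lit 0) (nat_lit 0) (nat_lit 0) (nat_lit 1) (nat_lit 0) (nat_lit 1) (nat_lit 0) (nat_lit 305) (nat_lit 271) (nat_lit 144))) (XT.nd (nat_lit 94) (nat_lit 0) (nat_lit 0) (XT.lf (nat_lit 0) (nat_lit 4882135111) (nat_lit 0) (nat_lit 0) (nat_lit 0) (nat_lit 0) (nat_lit 0) (nat_lit 0) (nat_lit 1) (nat_lit 0) (nat_lit 1) (nat_lit 0) (nat_lit 306) (nat_lit 271) (nat_lit 143)) (XT.lf (nat_lit 0) (nat_lit 4881685001) (nat_lit 0) (nat_lit 0) (nat_lit 0) (nat_lit 0) (nat_lit 0) (nat_lit 0) (nat_lit 1) (nat_lit 0) (nat_lit 1) (nat_lit 0) (nat_lit 307) (nat_lit 271) (nat_lit 142)))))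 (XT.nd (nat_lit 282) (nat_lit 0) (nat_lit 0) (XT.nd (nat_lit 94) (nat_lit 0) (nat_lit 0) (XT.lf (nat_lit 0) (nat_lit 4881256325) (nat_lit 0) (nat_lit 0) (nat_lit 0) (nat_lit 0) (nat_lit 0) (nat_lit 0) (nat_lit 1) (nat_lit 0) (nat_lit 1) (nat_lit 0) (nat_lit 308) (nat_lit 271) (nat_lit 141)) (XT.nd (nat_lit 94) (nat_lit 0) (nat_lit 0) (XT.lf (nat_lit 0) (nat_lit 4880848062) (nat_lit 0) (nat_lit 0) (nat_lit 0) (nat_lit 0) (nat_lit 0) (nat_lit 0) (nat_lit 1) (nat_lit 0) (nat_lit 1) (nat_lit 0) (nat_lit 309) (nat_lit 271) (nat_lit 140)) (XT.lf (nat_lit 0) (nat_lit 4880459240) (nat_lit 0) (nat_lit 0) (nat_lit 0) (nat_lit 0) (nat_lit 0) (nat_lit 0) (nat_lit 1) (nat_lit 0) (nat_lit 1) (nat_lit 0) (nat_lit 310) (nat_lit 271) (nat_lit 139)))) (XT.nd (nat_lit 188) (nat_lit 0) (nat_lit 0) (XT.nd (nat_lit 94) (nat_lit 0) (nat_lit 0) (XT.lf (nat_lit 0) (nat_lit 4880088934) (nat_lit 0)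 (nat_lit 0) (nat_lit 0) (nat_lit 0) (nat_lit 0) (nat_lit 0) (nat_lit 1) (nat_lit 0) (nat_lit 1) (nat_lit 0) (nat_lit 311) (nat_lit 271) (nat_lit 138)) (XT.lf (nat_lit 0) (nat_lit 4879736261) (nat_lit 0) (nat_lit 0) (nat_lit 0) (nat_lit 0) (nat_lit 0) (nat_lit 0) (nat_lit 1) (nat_lit 0) (nat_lit 1) (nat_lit 0) (nat_lit 312) (nat_lit 271) (nat_lit 137))) (XT.nd (nat_lit 94) (nat_lit 0) (nat_lit 0) (XT.lf (nat_lit 0) (nat_lit 4879400382) (nat_lit 0) (nat_lit 0) (nat_lit 0) (nat_lit 0) (nat_lit 0) (nat_lit 0) (nat_lit 1) (nat_lit 0) (nat_lit 1) (nat_lit 0) (nat_lit 313) (nat_lit 271) (nat_lit 136)) (XT.lf (nat_lit 0) (nat_lit 4879080497) (nat_lit 0) (nat_lit 0) (nat_lit 0) (nat_lit 0) (nat_lit 0) (nat_lit 0) (nat_lit 1) (nat_lit 0) (nat_lit 1) (nat_lit 0) (nat_lit 314) (nat_lit 271) (nat_lit 135))))))) (XT.nd (nat_lit 33182) (nat_lit 0) (nat_lit 7476) (XT.nd (nat_lit 32524)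 (nat_lit 0) (nat_lit 10920) (XT.nd (nat_lit 32242) (nat_lit 0) (nat_lit 10752) (XT.nd (nat_lit 94) (nat_lit 0) (nat_lit 0) (XT.lf (nat_lit 0) (nat_lit 4878775845) (nat_lit 0) (nat_lit 0) (nat_lit 0) (nat_lit 0) (nat_lit 0) (nat_lit 0) (nat_lit 1) (nat_lit 0) (nat_lit 1) (nat_lit 0) (nat_lit 315) (nat_lit 271) (nat_lit 134)) (XT.nd (nat_lit 32054) (nat_lit 0) (nat_lit 10752) (XT.lf (nat_lit 0) (nat_lit 4878485700) (nat_lit 0) (nat_lit 0) (nat_lit 0) (nat_lit 0) (nat_lit 0) (nat_lit 0) (nat_lit 1) (nat_lit 0) (nat_lit 1) (nat_lit 0) (nat_lit 316) (nat_lit 271) (nat_lit 133)) (XT.lf (nat_lit 924) (nat_lit 2560396643) (nat_lit 0) (nat_lit 4545978355) (nat_lit 924) (nat_lit 2560396643) (nat_lit 139) (nat_lit 1) (nat_lit 128) (nat_lit 0) (nat_lit 139) (nat_lit 0) (nat_lit 176) (nat_lit 272) (nat_lit 272)))) (XT.nd (nat_lit 94) (nat_lit 0) (nat_lit 84) (XT.lf (nat_lit 924) (nat_lit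 9924417043) (nat_lit 84) (nat_lit 4472656123) (nat_lit 0) (nat_lit 4472656123) (nat_lit 139) (nat_lit 1) (nat_lit 129) (nat_lit 1) (nat_lit 128) (nat_lit 0) (nat_lit 177) (nat_lit 272) (nat_lit 271)) (XT.nd (nat_lit 94) (nat_lit 0) (nat_lit 0) (XT.lf (nat_lit 924) (nat_lit 4729827731) (nat_lit 0) (nat_lit 8960598817) (nat_lit 840) (nat_lit 4729827731) (nat_lit 140) (nat_lit 1) (nat_lit 129) (nat_lit 1) (nat_lit 139) (nat_lit 1) (nat_lit 178) (nat_lit 272) (nat_lit 270)) (XT.lf (nat_lit 924) (nat_lit 8872499597) (nat_lit 84) (nat_lit 4556400531) (nat_lit 0) (nat_lit 4556400531) (nat_lit 140) (nat_lit 1) (nat_lit 130) (nat_lit 1) (nat_lit 129) (nat_lit 1) (nat_lit 179) (nat_lit 272) (nat_lit 269))))) (XT.nd (nat_lit 282) (nat_lit 0) (nat_lit 84) (XT.nd (nat_lit 94) (nat_lit 0) (nat_lit 0) (XT.lf (nat_lit 924) (nat_lit 4083926361) (nat_lit 0) (nat_lit 9396280165) (nat_lit 840)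 (nat_lit 4083926361) (nat_lit 141) (nat_lit 1) (nat_lit 130) (nat_lit 1) (nat_lit 140) (nat_lit 1) (nat_lit 180) (nat_lit 272) (nat_lit 268)) (XT.nd (nat_lit 94) (nat_lit 0) (nat_lit 84) (XT.lf (nat_lit 924) (nat_lit 7345207554) (nat_lit 84) (nat_lit 4905298182) (nat_lit 0) (nat_lit 4905298182) (nat_lit 141) (nat_lit 1) (nat_lit 131) (nat_lit 1) (nat_lit 130) (nat_lit 1) (nat_lit 181) (nat_lit 272) (nat_lit 267)) (XT.lf (nat_lit 924) (nat_lit 3220661364) (nat_lit 0) (nat_lit 10319862494) (nat_lit 840) (nat_lit 3220661364) (nat_lit 142) (nat_lit 1) (nat_lit 131) (nat_lit 1) (nat_lit 141) (nat_lit 1) (nat_lit 182) (nat_lit 272) (nat_lit 266)))) (XT.nd (nat_lit 188) (nat_lit 0) (nat_lit 84) (XT.nd (nat_lit 94) (nat_lit 0) (nat_lit 84) (XT.lf (nat_lit 924) (nat_lit 5414030640) (nat_lit 84) (nat_lit 5481700545) (nat_lit 0) (nat_lit 5481700545) (nat_lit 142) (nat_lit 1) (nat_lit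 132) (nat_lit 1) (nat_lit 131) (nat_lit 1) (nat_lit 183) (nat_lit 272) (nat_lit 265)) (XT.lf (nat_lit 924) (nat_lit 2173451311) (nat_lit 0) (nat_lit 11660823183) (nat_lit 840) (nat_lit 2173451311) (nat_lit 143) (nat_lit 1) (nat_lit 132) (nat_lit 1) (nat_lit 142) (nat_lit 1) (nat_lit 184) (nat_lit 272) (nat_lit 264))) (XT.nd (nat_lit 94) (nat_lit 0) (nat_lit 84) (XT.lf (nat_lit 924) (nat_lit 3142512433) (nat_lit 84) (nat_lit 6252078203) (nat_lit 0) (nat_lit 6252078203) (nat_lit 143) (nat_lit 1) (nat_lit 133) (nat_lit 1) (nat_lit 132) (nat_lit 1) (nat_lit 185) (nat_lit 272) (nat_lit 263)) (XT.lf (nat_lit 84) (nat_lit 971978779) (nat_lit 0) (nat_lit 13356394332) (nat_lit 840) (nat_lit 971978779) (nat_lit 134) (nat_lit 1) (nat_lit 133) (nat_lit 1) (nat_lit 143) (nat_lit 1) (nat_lit 186) (nat_lit 272) (nat_lit 262)))))) (XT.nd (nat_lit 658) (nat_lit 1428) (nat_lit 0) (XT.nd (nat_lit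 282) (nat_lit 840) (nat_lit 0) (XT.nd (nat_lit 94) (nat_lit 588) (nat_lit 0) (XT.lf (nat_lit 924) (nat_lit 587051011) (nat_lit 0) (nat_lit 7186608423) (nat_lit 840) (nat_lit 7186608423) (nat_lit 134) (nat_lit 1) (nat_lit 123) (nat_lit 1) (nat_lit 133) (nat_lit 1) (nat_lit 187) (nat_lit 272) (nat_lit 261)) (XT.nd (nat_lit 94) (nat_lit 0) (nat_lit 0) (XT.lf (nat_lit 588) (nat_lit 13931459824) (nat_lit 0) (nat_lit 351667324) (nat_lit 504) (nat_lit 351667324) (nat_lit 123) (nat_lit 1) (nat_lit 116) (nat_lit 1) (nat_lit 122) (nat_lit 1) (nat_lit 188) (nat_lit 272) (nat_lit 260)) (XT.lf (nat_lit 84) (nat_lit 6090809988) (nat_lit 0) (nat_lit 2131887934) (nat_lit 588) (nat_lit 6090809988) (nat_lit 117) (nat_lit 1) (nat_lit 116) (nat_lit 1) (nat_lit 123) (nat_lit 1) (nat_lit 189) (nat_lit 272) (nat_lit 259)))) (XT.nd (nat_lit 188) (nat_lit 420) (nat_lit 0) (XT.nd (nat_lit 94) (nat_lit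 0) (nat_lit 0) (XT.lf (nat_lit 504) (nat_lit 10480720547) (nat_lit 0) (nat_lit 1762581383) (nat_lit 420) (nat_lit 1762581383) (nat_lit 117) (nat_lit 1) (nat_lit 111) (nat_lit 1) (nat_lit 116) (nat_lit 1) (nat_lit 190) (nat_lit 272) (nat_lit 258)) (XT.lf (nat_lit 84) (nat_lit 4344500618) (nat_lit 0) (nat_lit 5015724599) (nat_lit 504) (nat_lit 4344500618) (nat_lit 112) (nat_lit 1) (nat_lit 111) (nat_lit 1) (nat_lit 117) (nat_lit 1) (nat_lit 191) (nat_lit 272) (nat_lit 257))) (XT.nd (nat_lit 94) (nat_lit 0) (nat_lit 0) (XT.lf (nat_lit 504) (nat_lit 6901703110) (nat_lit 0) (nat_lit 3256176878) (nat_lit 420) (nat_lit 3256176878) (nat_lit 112) (nat_lit 1) (nat_lit 106) (nat_lit 1) (nat_lit 111) (nat_lit 1) (nat_lit 192) (nat_lit 272) (nat_lit 256)) (XT.lf (nat_lit 84) (nat_lit 2543185872) (nat_lit 0) (nat_lit 8045469787) (nat_lit 504) (nat_lit 2543185872) (nat_lit 107) (nat_lit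 1) (nat_lit 106) (nat_lit 1) (nat_lit 112) (nat_lit 1) (nat_lit 193) (nat_lit 272) (nat_lit 255))))) (XT.nd (nat_lit 282) (nat_lit 672) (nat_lit 0) (XT.nd (nat_lit 94) (nat_lit 420) (nat_lit 0) (XT.lf (nat_lit 420) (nat_lit 3227719087) (nat_lit 0) (nat_lit 4814583309) (nat_lit 336) (nat_lit 4814583309) (nat_lit 107) (nat_lit 1) (nat_lit 102) (nat_lit 1) (nat_lit 106) (nat_lit 1) (nat_lit 194) (nat_lit 272) (nat_lit 254)) (XT.nd (nat_lit 94) (nat_lit 420) (nat_lit 0) (XT.lf (nat_lit 84) (nat_lit 702330136) (nat_lit 0) (nat_lit 11187843054) (nat_lit 420) (nat_lit 702330136) (nat_lit 103) (nat_lit 1) (nat_lit 102) (nat_lit 1) (nat_lit 107) (nat_lit 1) (nat_lit 195) (nat_lit 272) (nat_lit 253)) (XT.lf (nat_lit 84) (nat_lit 5918035542) (nat_lit 0) (nat_lit 495646972) (nat_lit 420) (nat_lit 5918035542) (nat_lit 98) (nat_lit 1) (nat_lit 97) (nat_lit 1) (nat_lit 102) (nat_lit 1)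 (nat_lit 196) (nat_lit 272) (nat_lit 252)))) (XT.nd (nat_lit 188) (nat_lit 336) (nat_lit 0) (XT.nd (nat_lit 94) (nat_lit 0) (nat_lit 0) (XT.lf (nat_lit 420) (nat_lit 9789364070) (nat_lit 0) (nat_lit 1145750029) (nat_lit 336) (nat_lit 1145750029) (nat_lit 98) (nat_lit 1) (nat_lit 93) (nat_lit 1) (nat_lit 97) (nat_lit 1) (nat_lit 197) (nat_lit 272) (nat_lit 251)) (XT.lf (nat_lit 84) (nat_lit 3839818958) (nat_lit 0) (nat_lit 4154675738) (nat_lit 420) (nat_lit 3839818958) (nat_lit 94) (nat_lit 1) (nat_lit 93) (nat_lit 1) (nat_lit 98) (nat_lit 1) (nat_lit 198) (nat_lit 272) (nat_lit 250))) (XT.nd (nat_lit 94) (nat_lit 0) (nat_lit 0) (XT.lf (nat_lit 420) (nat_lit 5603364015) (nat_lit 0) (nat_lit 2996474335) (nat_lit 336) (nat_lit 2996474335) (nat_lit 94) (nat_lit 1) (nat_lit 89) (nat_lit 1) (nat_lit 93) (nat_lit 1) (nat_lit 199) (nat_lit 272) (nat_lit 249)) (XT.lf (nat_lit 84)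 (nat_lit 1767050936) (nat_lit 0) (nat_lit 7831169012) (nat_lit 420) (nat_lit 1767050936) (nat_lit 90) (nat_lit 1) (nat_lit 89) (nat_lit 1) (nat_lit 94) (nat_lit 1) (nat_lit 200) (nat_lit 272) (nat_lit 248))))))))
noncomputable def ec95 : XT := (XT.nd (nat_lit 2538) (nat_lit 2520) (nat_lit 0) (XT.nd (nat_lit 1222) (nat_lit 1680) (nat_lit 0) (XT.nd (nat_lit 564) (nat_lit 1092) (nat_lit 0) (XT.nd (nat_lit 282) (nat_lit 504) (nat_lit 0) (XT.nd (nat_lit 94) (nat_lit 420) (nat_lit 0) (XT.lf (nat_lit 336) (nat_lit 1437066845) (nat_lit 0) (nat_lit 4851074753) (nat_lit 252) (nat_lit 4851074753) (nat_lit 90) (nat_lit 1) (nat_lit 86) (nat_lit 1) (nat_lit 89) (nat_lit 1) (nat_lit 201) (nat_lit 272) (nat_lit 247)) (XT.nd (nat_lit 94) (nat_lit 0) (nat_lit 0) (XT.lf (nat_lit 420) (nat_lit 10347631656) (nat_lit 0) (nat_lit 287126923) (nat_lit 336) (nat_lit 287126923) (nat_lit 86) (nat_lit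 1) (nat_lit 81) (nat_lit 1) (nat_lit 85) (nat_lit 1) (nat_lit 202) (nat_lit 272) (nat_lit 246)) (XT.lf (nat_lit 84) (nat_lit 4049104765) (nat_lit 0) (nat_lit 2607548022) (nat_lit 420) (nat_lit 4049104765) (nat_lit 82) (nat_lit 1) (nat_lit 81) (nat_lit 1) (nat_lit 86) (nat_lit 1) (nat_lit 203) (nat_lit 272) (nat_lit 245)))) (XT.nd (nat_lit 94) (nat_lit 252) (nat_lit 0) (XT.lf (nat_lit 336) (nat_lit 5913845520) (nat_lit 0) (nat_lit 2292036583) (nat_lit 252) (nat_lit 2292036583) (nat_lit 82) (nat_lit 1) (nat_lit 78) (nat_lit 1) (nat_lit 81) (nat_lit 1) (nat_lit 204) (nat_lit 272) (nat_lit 244)) (XT.nd (nat_lit 94) (nat_lit 252) (nat_lit 0) (XT.lf (nat_lit 84) (nat_lit 1868275277) (nat_lit 0) (nat_lit 6558809769) (nat_lit 336) (nat_lit 1868275277) (nat_lit 79) (nat_lit 1) (nat_lit 78) (nat_lit 1) (nat_lit 82) (nat_lit 1) (nat_lit 205) (nat_lit 272) (nat_lit 243)) (XT.lf (nat_lit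 336) (nat_lit 1557149048) (nat_lit 0) (nat_lit 4270130530) (nat_lit 252) (nat_lit 4270130530) (nat_lit 79) (nat_lit 1) (nat_lit 75) (nat_lit 1) (nat_lit 78) (nat_lit 1) (nat_lit 206) (nat_lit 272) (nat_lit 242))))) (XT.nd (nat_lit 282) (nat_lit 504) (nat_lit 0) (XT.nd (nat_lit 94) (nat_lit 252) (nat_lit 0) (XT.lf (nat_lit 336) (nat_lit 9371589697) (nat_lit 0) (nat_lit 267612149) (nat_lit 252) (nat_lit 267612149) (nat_lit 75) (nat_lit 1) (nat_lit 71) (nat_lit 1) (nat_lit 74) (nat_lit 1) (nat_lit 207) (nat_lit 272) (nat_lit 241)) (XT.nd (nat_lit 94) (nat_lit 252) (nat_lit 0) (XT.lf (nat_lit 84) (nat_lit 3545003997) (nat_lit 0) (nat_lit 2626812366) (nat_lit 336) (nat_lit 3545003997) (nat_lit 72) (nat_lit 1) (nat_lit 71) (nat_lit 1) (nat_lit 75) (nat_lit 1) (nat_lit 208) (nat_lit 272) (nat_lit 240)) (XT.lf (nat_lit 336) (nat_lit 4874705097) (nat_lit 0) (nat_lit 2329575711) (nat_lit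 252) (nat_lit 2329575711) (nat_lit 72) (nat_lit 1) (nat_lit 68) (nat_lit 1) (nat_lit 71) (nat_lit 1) (nat_lit 209) (nat_lit 272) (nat_lit 239)))) (XT.nd (nat_lit 188) (nat_lit 336) (nat_lit 0) (XT.nd (nat_lit 94) (nat_lit 168) (nat_lit 0) (XT.lf (nat_lit 84) (nat_lit 1342489808) (nat_lit 0) (nat_lit 6670820236) (nat_lit 336) (nat_lit 1342489808) (nat_lit 69) (nat_lit 1) (nat_lit 68) (nat_lit 1) (nat_lit 72) (nat_lit 1) (nat_lit 210) (nat_lit 272) (nat_lit 238)) (XT.lf (nat_lit 252) (nat_lit 491932902) (nat_lit 0) (nat_lit 4344582827) (nat_lit 168) (nat_lit 4344582827) (nat_lit 69) (nat_lit 1) (nat_lit 66) (nat_lit 1) (nat_lit 68) (nat_lit 1) (nat_lit 211) (nat_lit 272) (nat_lit 237))) (XT.nd (nat_lit 94) (nat_lit 0) (nat_lit 0) (XT.lf (nat_lit 336) (nat_lit 7432941206) (nat_lit 0) (nat_lit 789432232) (nat_lit 252) (nat_lit 789432232) (nat_lit 66) (nat_lit 1) (nat_lit 62)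 (nat_lit 1) (nat_lit 65) (nat_lit 1) (nat_lit 212) (nat_lit 272) (nat_lit 236)) (XT.lf (nat_lit 84) (nat_lit 2596149926) (nat_lit 0) (nat_lit 3652106310) (nat_lit 336) (nat_lit 2596149926) (nat_lit 63) (nat_lit 1) (nat_lit 62) (nat_lit 1) (nat_lit 66) (nat_lit 1) (nat_lit 213) (nat_lit 272) (nat_lit 235)))))) (XT.nd (nat_lit 658) (nat_lit 672) (nat_lit 0) (XT.nd (nat_lit 282) (nat_lit 588) (nat_lit 0) (XT.nd (nat_lit 94) (nat_lit 252) (nat_lit 0) (XT.lf (nat_lit 252) (nat_lit 2999450766) (nat_lit 0) (nat_lit 2841361148) (nat_lit 168) (nat_lit 2841361148) (nat_lit 63) (nat_lit 1) (nat_lit 60) (nat_lit 1) (nat_lit 62) (nat_lit 1) (nat_lit 214) (nat_lit 272) (nat_lit 234)) (XT.nd (nat_lit 94) (nat_lit 252) (nat_lit 0) (XT.lf (nat_lit 84) (nat_lit 430925870) (nat_lit 0) (nat_lit 7663472117) (nat_lit 252) (nat_lit 430925870) (nat_lit 61) (nat_lit 1) (nat_lit 60) (nat_lit 1) (nat_lit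 63) (nat_lit 1) (nat_lit 215) (nat_lit 272) (nat_lit 233)) (XT.lf (nat_lit 84) (nat_lit 3556506816) (nat_lit 0) (nat_lit 1256031179) (nat_lit 252) (nat_lit 3556506816) (nat_lit 58) (nat_lit 1) (nat_lit 57) (nat_lit 1) (nat_lit 60) (nat_lit 1) (nat_lit 216) (nat_lit 272) (nat_lit 232)))) (XT.nd (nat_lit 188) (nat_lit 420) (nat_lit 0) (XT.nd (nat_lit 94) (nat_lit 0) (nat_lit 0) (XT.lf (nat_lit 252) (nat_lit 4938833045) (nat_lit 0) (nat_lit 1639558758) (nat_lit 168) (nat_lit 1639558758) (nat_lit 58) (nat_lit 1) (nat_lit 55) (nat_lit 1) (nat_lit 57) (nat_lit 1) (nat_lit 217) (nat_lit 272) (nat_lit 231)) (XT.lf (nat_lit 84) (nat_lit 1393610195) (nat_lit 0) (nat_lit 5282975434) (nat_lit 252) (nat_lit 1393610195) (nat_lit 56) (nat_lit 1) (nat_lit 55) (nat_lit 1) (nat_lit 58) (nat_lit 1) (nat_lit 218) (nat_lit 272) (nat_lit 230))) (XT.nd (nat_lit 94) (nat_lit 252) (nat_lit 0) (XT.lf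 (nat_lit 252) (nat_lit 652856202) (nat_lit 0) (nat_lit 3636281621) (nat_lit 168) (nat_lit 3636281621) (nat_lit 56) (nat_lit 1) (nat_lit 53) (nat_lit 1) (nat_lit 55) (nat_lit 1) (nat_lit 219) (nat_lit 272) (nat_lit 229)) (XT.lf (nat_lit 252) (nat_lit 6416692527) (nat_lit 0) (nat_lit 684072771) (nat_lit 168) (nat_lit 684072771) (nat_lit 53) (nat_lit 1) (nat_lit 50) (nat_lit 1) (nat_lit 52) (nat_lit 1) (nat_lit 220) (nat_lit 272) (nat_lit 228))))) (XT.nd (nat_lit 282) (nat_lit 504) (nat_lit 0) (XT.nd (nat_lit 94) (nat_lit 168) (nat_lit 0) (XT.lf (nat_lit 84) (nat_lit 2136132667) (nat_lit 0) (nat_lit 3373191209) (nat_lit 252) (nat_lit 2136132667) (nat_lit 51) (nat_lit 1) (nat_lit 50) (nat_lit 1) (nat_lit 53) (nat_lit 1) (nat_lit 221) (nat_lit 272) (nat_lit 227)) (XT.nd (nat_lit 94) (nat_lit 0) (nat_lit 0) (XT.lf (nat_lit 252) (nat_lit 2175547410) (nat_lit 0) (nat_lit 2667287022)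 (nat_lit 168) (nat_lit 2667287022) (nat_lit 51) (nat_lit 1) (nat_lit 48) (nat_lit 1) (nat_lit 50) (nat_lit 1) (nat_lit 222) (nat_lit 272) (nat_lit 226)) (XT.lf (nat_lit 84) (nat_lit 71504243) (nat_lit 0) (nat_lit 7236524088) (nat_lit 252) (nat_lit 71504243) (nat_lit 49) (nat_lit 1) (nat_lit 48) (nat_lit 1) (nat_lit 51) (nat_lit 1) (nat_lit 223) (nat_lit 272) (nat_lit 225)))) (XT.nd (nat_lit 188) (nat_lit 168) (nat_lit 0) (XT.nd (nat_lit 94) (nat_lit 168) (nat_lit 0) (XT.lf (nat_lit 84) (nat_lit 2699883641) (nat_lit 0) (nat_lit 1848346323) (nat_lit 168) (nat_lit 2699883641) (nat_lit 47) (nat_lit 1) (nat_lit 46) (nat_lit 1) (nat_lit 48) (nat_lit 1) (nat_lit 224) (nat_lit 272) (nat_lit 224)) (XT.lf (nat_lit 252) (nat_lit 3350248236) (nat_lit 0) (nat_lit 1885535189) (nat_lit 168) (nat_lit 1885535189) (nat_lit 47) (nat_lit 1) (nat_lit 44) (nat_lit 1) (nat_lit 46) (nat_lit 1)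 (nat_lit 225) (nat_lit 272) (nat_lit 223))) (XT.nd (nat_lit 94) (nat_lit 168) (nat_lit 0) (XT.lf (nat_lit 84) (nat_lit 671701617) (nat_lit 0) (nat_lit 5654542911) (nat_lit 252) (nat_lit 671701617) (nat_lit 45) (nat_lit 1) (nat_lit 44) (nat_lit 1) (nat_lit 47) (nat_lit 1) (nat_lit 226) (nat_lit 272) (nat_lit 222)) (XT.lf (nat_lit 84) (nat_lit 3118802867) (nat_lit 0) (nat_lit 637985348) (nat_lit 168) (nat_lit 3118802867) (nat_lit 43) (nat_lit 1) (nat_lit 42) (nat_lit 1) (nat_lit 44) (nat_lit 1) (nat_lit 227) (nat_lit 272) (nat_lit 221))))))) (XT.nd (nat_lit 1316) (nat_lit 1092) (nat_lit 0) (XT.nd (nat_lit 658) (nat_lit 588) (nat_lit 0) (XT.nd (nat_lit 282) (nat_lit 588) (nat_lit 0) (XT.nd (nat_lit 94) (nat_lit 84) (nat_lit 0) (XT.lf (nat_lit 252) (nat_lit 4242371799) (nat_lit 0) (nat_lit 1257093091) (nat_lit 168) (nat_lit 1257093091) (nat_lit 43) (nat_lit 1) (nat_lit 40) (nat_lit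 1) (nat_lit 42) (nat_lit 1) (nat_lit 228) (nat_lit 272) (nat_lit 220)) (XT.nd (nat_lit 94) (nat_lit 84) (nat_lit 0) (XT.lf (nat_lit 84) (nat_lit 1136300962) (nat_lit 0) (nat_lit 4367279432) (nat_lit 252) (nat_lit 1136300962) (nat_lit 41) (nat_lit 1) (nat_lit 40) (nat_lit 1) (nat_lit 43) (nat_lit 1) (nat_lit 229) (nat_lit 272) (nat_lit 219)) (XT.lf (nat_lit 168) (nat_lit 326190626) (nat_lit 0) (nat_lit 3099607925) (nat_lit 84) (nat_lit 3099607925) (nat_lit 41) (nat_lit 1) (nat_lit 39) (nat_lit 1) (nat_lit 40) (nat_lit 1) (nat_lit 230) (nat_lit 272) (nat_lit 218)))) (XT.nd (nat_lit 188) (nat_lit 336) (nat_lit 0) (XT.nd (nat_lit 94) (nat_lit 0) (nat_lit 0) (XT.lf (nat_lit 252) (nat_lit 4905556715) (nat_lit 0) (nat_lit 754078953) (nat_lit 168) (nat_lit 754078953) (nat_lit 39) (nat_lit 1) (nat_lit 36) (nat_lit 1) (nat_lit 38) (nat_lit 1) (nat_lit 231) (nat_lit 272) (nat_lit 217))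 (XT.lf (nat_lit 84) (nat_lit 1490733214) (nat_lit 0) (nat_lit 3321803011) (nat_lit 252) (nat_lit 1490733214) (nat_lit 37) (nat_lit 1) (nat_lit 36) (nat_lit 1) (nat_lit 39) (nat_lit 1) (nat_lit 232) (nat_lit 272) (nat_lit 216))) (XT.nd (nat_lit 94) (nat_lit 252) (nat_lit 0) (XT.lf (nat_lit 168) (nat_lit 1095422021) (nat_lit 0) (nat_lit 2550055111) (nat_lit 84) (nat_lit 2550055111) (nat_lit 37) (nat_lit 1) (nat_lit 35) (nat_lit 1) (nat_lit 36) (nat_lit 1) (nat_lit 233) (nat_lit 272) (nat_lit 215)) (XT.lf (nat_lit 252) (nat_lit 5383763113) (nat_lit 0) (nat_lit 353587722) (nat_lit 168) (nat_lit 353587722) (nat_lit 35) (nat_lit 1) (nat_lit 32) (nat_lit 1) (nat_lit 34) (nat_lit 1) (nat_lit 234) (nat_lit 272) (nat_lit 214))))) (XT.nd (nat_lit 282) (nat_lit 252) (nat_lit 0) (XT.nd (nat_lit 94) (nat_lit 336) (nat_lit 0) (XT.lf (nat_lit 84) (nat_lit 1755854285) (nat_lit 0) (nat_lit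 2474599762) (nat_lit 252) (nat_lit 1755854285) (nat_lit 33) (nat_lit 1) (nat_lit 32) (nat_lit 1) (nat_lit 35) (nat_lit 1) (nat_lit 235) (nat_lit 272) (nat_lit 213)) (XT.nd (nat_lit 94) (nat_lit 252) (nat_lit 0) (XT.lf (nat_lit 168) (nat_lit 1688886584) (nat_lit 0) (nat_lit 2097936651) (nat_lit 84) (nat_lit 2097936651) (nat_lit 33) (nat_lit 1) (nat_lit 31) (nat_lit 1) (nat_lit 32) (nat_lit 1) (nat_lit 236) (nat_lit 272) (nat_lit 212)) (XT.lf (nat_lit 252) (nat_lit 5712996631) (nat_lit 0) (nat_lit 36807115) (nat_lit 168) (nat_lit 36807115) (nat_lit 31) (nat_lit 1) (nat_lit 28) (nat_lit 1) (nat_lit 30) (nat_lit 1) (nat_lit 237) (nat_lit 272) (nat_lit 211)))) (XT.nd (nat_lit 188) (nat_lit 168) (nat_lit 0) (XT.nd (nat_lit 94) (nat_lit 84) (nat_lit 0) (XT.lf (nat_lit 84) (nat_lit 1948759362) (nat_lit 0) (nat_lit 1789901448) (nat_lit 252) (nat_lit 1948759362) (nat_lit 29) (nat_lit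 1) (nat_lit 28) (nat_lit 1) (nat_lit 31) (nat_lit 1) (nat_lit 238) (nat_lit 272) (nat_lit 210)) (XT.lf (nat_lit 168) (nat_lit 2139622769) (nat_lit 0) (nat_lit 1725977674) (nat_lit 84) (nat_lit 1725977674) (nat_lit 29) (nat_lit 1) (nat_lit 27) (nat_lit 1) (nat_lit 28) (nat_lit 1) (nat_lit 239) (nat_lit 272) (nat_lit 209))) (XT.nd (nat_lit 94) (nat_lit 168) (nat_lit 0) (XT.lf (nat_lit 0) (nat_lit 215180181) (nat_lit 0) (nat_lit 5068269334) (nat_lit 168) (nat_lit 215180181) (nat_lit 27) (nat_lit 3) (nat_lit 27) (nat_lit 1) (nat_lit 29) (nat_lit 1) (nat_lit 240) (nat_lit 272) (nat_lit 208)) (XT.lf (nat_lit 84) (nat_lit 2083452670) (nat_lit 0) (nat_lit 1238310731) (nat_lit 168) (nat_lit 2083452670) (nat_lit 26) (nat_lit 1) (nat_lit 25) (nat_lit 1) (nat_lit 27) (nat_lit 1) (nat_lit 241) (nat_lit 272) (nat_lit 207)))))) (XT.nd (nat_lit 658) (nat_lit 504) (nat_lit 0) (XT.nd (nat_lit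 282) (nat_lit 336) (nat_lit 0) (XT.nd (nat_lit 94) (nat_lit 168) (nat_lit 0) (XT.lf (nat_lit 168) (nat_lit 2474722087) (nat_lit 0) (nat_lit 1419966104) (nat_lit 84) (nat_lit 1419966104) (nat_lit 26) (nat_lit 1) (nat_lit 24) (nat_lit 1) (nat_lit 25) (nat_lit 1) (nat_lit 242) (nat_lit 272) (nat_lit 206)) (XT.nd (nat_lit 94) (nat_lit 168) (nat_lit 0) (XT.lf (nat_lit 0) (nat_lit 411274887) (nat_lit 0) (nat_lit 4403923344) (nat_lit 168) (nat_lit 411274887) (nat_lit 24) (nat_lit 3) (nat_lit 24) (nat_lit 1) (nat_lit 26) (nat_lit 1) (nat_lit 243) (nat_lit 272) (nat_lit 205)) (XT.lf (nat_lit 84) (nat_lit 2171398354) (nat_lit 0) (nat_lit 795670237) (nat_lit 168) (nat_lit 2171398354) (nat_lit 23) (nat_lit 1) (nat_lit 22) (nat_lit 1) (nat_lit 24) (nat_lit 1) (nat_lit 244) (nat_lit 272) (nat_lit 204)))) (XT.nd (nat_lit 188) (nat_lit 252) (nat_lit 0) (XT.nd (nat_lit 94) (nat_lit 0) (nat_lit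 0) (XT.lf (nat_lit 168) (nat_lit 2716387738) (nat_lit 0) (nat_lit 1168209628) (nat_lit 84) (nat_lit 1168209628) (nat_lit 23) (nat_lit 1) (nat_lit 21) (nat_lit 1) (nat_lit 22) (nat_lit 1) (nat_lit 245) (nat_lit 272) (nat_lit 203)) (XT.lf (nat_lit 0) (nat_lit 561447933) (nat_lit 0) (nat_lit 3846209700) (nat_lit 168) (nat_lit 561447933) (nat_lit 21) (nat_lit 3) (nat_lit 21) (nat_lit 1) (nat_lit 23) (nat_lit 1) (nat_lit 246) (nat_lit 272) (nat_lit 202))) (XT.nd (nat_lit 94) (nat_lit 84) (nat_lit 0) (XT.lf (nat_lit 84) (nat_lit 2221973548) (nat_lit 0) (nat_lit 442132190) (nat_lit 168) (nat_lit 2221973548) (nat_lit 20) (nat_lit 1) (nat_lit 19) (nat_lit 1) (nat_lit 21) (nat_lit 1) (nat_lit 247) (nat_lit 272) (nat_lit 201)) (XT.lf (nat_lit 168) (nat_lit 2882805345) (nat_lit 0) (nat_lit 961088952) (nat_lit 84) (nat_lit 961088952) (nat_lit 20) (nat_lit 1) (nat_lit 18) (nat_lit 1)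 (nat_lit 19) (nat_lit 1) (nat_lit 248) (nat_lit 272) (nat_lit 200))))) (XT.nd (nat_lit 282) (nat_lit 252) (nat_lit 0) (XT.nd (nat_lit 94) (nat_lit 252) (nat_lit 0) (XT.lf (nat_lit 0) (nat_lit 674372286) (nat_lit 0) (nat_lit 3376753921) (nat_lit 168) (nat_lit 674372286) (nat_lit 18) (nat_lit 3) (nat_lit 18) (nat_lit 1) (nat_lit 20) (nat_lit 1) (nat_lit 249) (nat_lit 272) (nat_lit 199)) (XT.nd (nat_lit 94) (nat_lit 84) (nat_lit 0) (XT.lf (nat_lit 84) (nat_lit 2242840992) (nat_lit 0) (nat_lit 161393074) (nat_lit 168) (nat_lit 2242840992) (nat_lit 17) (nat_lit 1) (nat_lit 16) (nat_lit 1) (nat_lit 18) (nat_lit 1) (nat_lit 250) (nat_lit 272) (nat_lit 198)) (XT.lf (nat_lit 168) (nat_lit 2988859121) (nat_lit 0) (nat_lit 790690259) (nat_lit 84) (nat_lit 790690259) (nat_lit 17) (nat_lit 1) (nat_lit 15) (nat_lit 1) (nat_lit 16) (nat_lit 1) (nat_lit 251) (nat_lit 272) (nat_lit 197))))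 (XT.nd (nat_lit 188) (nat_lit 168) (nat_lit 0) (XT.nd (nat_lit 94) (nat_lit 84) (nat_lit 0) (XT.lf (nat_lit 0) (nat_lit 757157922) (nat_lit 0) (nat_lit 2980413981) (nat_lit 168) (nat_lit 757157922) (nat_lit 15) (nat_lit 3) (nat_lit 15) (nat_lit 1) (nat_lit 17) (nat_lit 1) (nat_lit 252) (nat_lit 272) (nat_lit 196)) (XT.lf (nat_lit 84) (nat_lit 61917723) (nat_lit 0) (nat_lit 2179304445) (nat_lit 84) (nat_lit 2179304445) (nat_lit 15) (nat_lit 3) (nat_lit 14) (nat_lit 1) (nat_lit 15) (nat_lit 1) (nat_lit 253) (nat_lit 272) (nat_lit 195))) (XT.nd (nat_lit 94) (nat_lit 0) (nat_lit 0) (XT.lf (nat_lit 168) (nat_lit 3046720871) (nat_lit 0) (nat_lit 650502833) (nat_lit 84) (nat_lit 650502833) (nat_lit 14) (nat_lit 1) (nat_lit 12) (nat_lit 1) (nat_lit 13) (nat_lit 1) (nat_lit 254) (nat_lit 272) (nat_lit 194)) (XT.lf (nat_lit 0) (nat_lit 815630147) (nat_lit 0) (nat_lit 2644708409) (nat_lit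 168) (nat_lit 815630147) (nat_lit 12) (nat_lit 3) (nat_lit 12) (nat_lit 1) (nat_lit 14) (nat_lit 1) (nat_lit 255) (nat_lit 272) (nat_lit 193))))))))
noncomputable def ec96 : XT := (XT.nd (nat_lit 2538) (nat_lit 0) (nat_lit 0) (XT.nd (nat_lit 1222) (nat_lit 0) (nat_lit 0) (XT.nd (nat_lit 564) (nat_lit 504) (nat_lit 0) (XT.nd (nat_lit 282) (nat_lit 252) (nat_lit 0) (XT.nd (nat_lit 94) (nat_lit 168) (nat_lit 0) (XT.lf (nat_lit 84) (nat_lit 240546017) (nat_lit 0) (nat_lit 1982525314) (nat_lit 84) (nat_lit 1982525314) (nat_lit 12) (nat_lit 3) (nat_lit 11) (nat_lit 1) (nat_lit 12) (nat_lit 1) (nat_lit 256) (nat_lit 272) (nat_lit 192)) (XT.nd (nat_lit 94) (nat_lit 0) (nat_lit 0) (XT.lf (nat_lit 168) (nat_lit 3066334396) (nat_lit 0) (nat_lit 535170290) (nat_lit 84) (nat_lit 535170290) (nat_lit 11) (nat_lit 1) (nat_lit 9) (nat_lit 1) (nat_lit 10) (nat_lit 1) (nat_lit 257) (nat_lit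 272) (nat_lit 191)) (XT.lf (nat_lit 0) (nat_lit 854558513) (nat_lit 0) (nat_lit 2359345725) (nat_lit 168) (nat_lit 854558513) (nat_lit 9) (nat_lit 3) (nat_lit 9) (nat_lit 1) (nat_lit 11) (nat_lit 1) (nat_lit 258) (nat_lit 272) (nat_lit 190)))) (XT.nd (nat_lit 94) (nat_lit 168) (nat_lit 0) (XT.lf (nat_lit 84) (nat_lit 378475092) (nat_lit 0) (nat_lit 1811605771) (nat_lit 84) (nat_lit 1811605771) (nat_lit 9) (nat_lit 3) (nat_lit 8) (nat_lit 1) (nat_lit 9) (nat_lit 1) (nat_lit 259) (nat_lit 272) (nat_lit 189)) (XT.nd (nat_lit 94) (nat_lit 0) (nat_lit 0) (XT.lf (nat_lit 168) (nat_lit 3055813844) (nat_lit 0) (nat_lit 440285922) (nat_lit 84) (nat_lit 440285922) (nat_lit 8) (nat_lit 1) (nat_lit 6) (nat_lit 1) (nat_lit 7) (nat_lit 1) (nat_lit 260) (nat_lit 272) (nat_lit 188)) (XT.lf (nat_lit 0) (nat_lit 877845091) (nat_lit 0) (nat_lit 2115837255) (nat_lit 168) (nat_lit 877845091)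 (nat_lit 6) (nat_lit 3) (nat_lit 6) (nat_lit 1) (nat_lit 8) (nat_lit 1) (nat_lit 261) (nat_lit 272) (nat_lit 187))))) (XT.nd (nat_lit 282) (nat_lit 252) (nat_lit 0) (XT.nd (nat_lit 94) (nat_lit 168) (nat_lit 0) (XT.lf (nat_lit 84) (nat_lit 483350765) (nat_lit 0) (nat_lit 1662390921) (nat_lit 84) (nat_lit 1662390921) (nat_lit 6) (nat_lit 3) (nat_lit 5) (nat_lit 1) (nat_lit 6) (nat_lit 1) (nat_lit 262) (nat_lit 272) (nat_lit 186)) (XT.nd (nat_lit 94) (nat_lit 0) (nat_lit 0) (XT.lf (nat_lit 168) (nat_lit 3021771277) (nat_lit 0) (nat_lit 362224318) (nat_lit 84) (nat_lit 362224318) (nat_lit 5) (nat_lit 1) (nat_lit 3) (nat_lit 1) (nat_lit 4) (nat_lit 1) (nat_lit 263) (nat_lit 272) (nat_lit 185)) (XT.lf (nat_lit 0) (nat_lit 888679318) (nat_lit 0) (nat_lit 1907178534) (nat_lit 168) (nat_lit 888679318) (nat_lit 3) (nat_lit 3) (nat_lit 3) (nat_lit 1) (nat_lit 5) (nat_lit 1) (nat_lit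 264) (nat_lit 272) (nat_lit 184)))) (XT.nd (nat_lit 188) (nat_lit 0) (nat_lit 0) (XT.nd (nat_lit 94) (nat_lit 168) (nat_lit 0) (XT.lf (nat_lit 84) (nat_lit 561442795) (nat_lit 0) (nat_lit 1531442049) (nat_lit 84) (nat_lit 1531442049) (nat_lit 3) (nat_lit 3) (nat_lit 2) (nat_lit 1) (nat_lit 3) (nat_lit 1) (nat_lit 265) (nat_lit 272) (nat_lit 183)) (XT.lf (nat_lit 0) (nat_lit 5179692316) (nat_lit 0) (nat_lit 0) (nat_lit 0) (nat_lit 0) (nat_lit 0) (nat_lit 0) (nat_lit 1) (nat_lit 0) (nat_lit 1) (nat_lit 0) (nat_lit 266) (nat_lit 272) (nat_lit 182))) (XT.nd (nat_lit 94) (nat_lit 0) (nat_lit 0) (XT.lf (nat_lit 0) (nat_lit 5176674441) (nat_lit 0) (nat_lit 0) (nat_lit 0) (nat_lit 0) (nat_lit 0) (nat_lit 0) (nat_lit 1) (nat_lit 0) (nat_lit 1) (nat_lit 0) (nat_lit 267) (nat_lit 272) (nat_lit 181)) (XT.lf (nat_lit 0) (nat_lit 5173800274) (nat_lit 0) (nat_lit 0) (nat_lit 0) (nat_lit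 0) (nat_lit 0) (nat_lit 0) (nat_lit 1) (nat_lit 0) (nat_lit 1) (nat_lit 0) (nat_lit 268) (nat_lit 272) (nat_lit 180)))))) (XT.nd (nat_lit 658) (nat_lit 0) (nat_lit 0) (XT.nd (nat_lit 282) (nat_lit 0) (nat_lit 0) (XT.nd (nat_lit 94) (nat_lit 0) (nat_lit 0) (XT.lf (nat_lit 0) (nat_lit 5171062973) (nat_lit 0) (nat_lit 0) (nat_lit 0) (nat_lit 0) (nat_lit 0) (nat_lit 0) (nat_lit 1) (nat_lit 0) (nat_lit 1) (nat_lit 0) (nat_lit 269) (nat_lit 272) (nat_lit 179)) (XT.nd (nat_lit 94) (nat_lit 0) (nat_lit 0) (XT.lf (nat_lit 0) (nat_lit 5168456019) (nat_lit 0) (nat_lit 0) (nat_lit 0) (nat_lit 0) (nat_lit 0) (nat_lit 0) (nat_lit 1) (nat_lit 0) (nat_lit 1) (nat_lit 0) (nat_lit 270) (nat_lit 272) (nat_lit 178)) (XT.lf (nat_lit 0) (nat_lit 5165973206) (nat_lit 0) (nat_lit 0) (nat_lit 0) (nat_lit 0) (nat_lit 0) (nat_lit 0) (nat_lit 1) (nat_lit 0) (nat_lit 1) (nat_lit 0) (nat_lit 271) (nat_lit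 272) (nat_lit 177)))) (XT.nd (nat_lit 188) (nat_lit 0) (nat_lit 0) (XT.nd (nat_lit 94) (nat_lit 0) (nat_lit 0) (XT.lf (nat_lit 0) (nat_lit 5163608622) (nat_lit 0) (nat_lit 0) (nat_lit 0) (nat_lit 0) (nat_lit 0) (nat_lit 0) (nat_lit 1) (nat_lit 0) (nat_lit 1) (nat_lit 0) (nat_lit 272) (nat_lit 272) (nat_lit 176)) (XT.lf (nat_lit 0) (nat_lit 5161356637) (nat_lit 0) (nat_lit 0) (nat_lit 0) (nat_lit 0) (nat_lit 0) (nat_lit 0) (nat_lit 1) (nat_lit 0) (nat_lit 1) (nat_lit 0) (nat_lit 273) (nat_lit 272) (nat_lit 175))) (XT.nd (nat_lit 94) (nat_lit 0) (nat_lit 0) (XT.lf (nat_lit 0) (nat_lit 5159211890) (nat_lit 0) (nat_lit 0) (nat_lit 0) (nat_lit 0) (nat_lit 0) (nat_lit 0) (nat_lit 1) (nat_lit 0) (nat_lit 1) (nat_lit 0) (nat_lit 274) (nat_lit 272) (nat_lit 174)) (XT.lf (nat_lit 0) (nat_lit 5157169273) (nat_lit 0) (nat_lit 0) (nat_lit 0) (nat_lit 0) (nat_lit 0) (nat_lit 0) (nat_lit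 1) (nat_lit 0) (nat_lit 1) (nat_lit 0) (nat_lit 275) (nat_lit 272) (nat_lit 173))))) (XT.nd (nat_lit 282) (nat_lit 0) (nat_lit 0) (XT.nd (nat_lit 94) (nat_lit 0) (nat_lit 0) (XT.lf (nat_lit 0) (nat_lit 5155223924) (nat_lit 0) (nat_lit 0) (nat_lit 0) (nat_lit 0) (nat_lit 0) (nat_lit 0) (nat_lit 1) (nat_lit 0) (nat_lit 1) (nat_lit 0) (nat_lit 276) (nat_lit 272) (nat_lit 172)) (XT.nd (nat_lit 94) (nat_lit 0) (nat_lit 0) (XT.lf (nat_lit 0) (nat_lit 5153371211) (nat_lit 0) (nat_lit 0) (nat_lit 0) (nat_lit 0) (nat_lit 0) (nat_lit 0) (nat_lit 1) (nat_lit 0) (nat_lit 1) (nat_lit 0) (nat_lit 277) (nat_lit 272) (nat_lit 171)) (XT.lf (nat_lit 0) (nat_lit 5151606722) (nat_lit 0) (nat_lit 0) (nat_lit 0) (nat_lit 0) (nat_lit 0) (nat_lit 0) (nat_lit 1) (nat_lit 0) (nat_lit 1) (nat_lit 0) (nat_lit 278) (nat_lit 272) (nat_lit 170)))) (XT.nd (nat_lit 188) (nat_lit 0) (nat_lit 0) (XT.nd (nat_lit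 94) (nat_lit 0) (nat_lit 0) (XT.lf (nat_lit 0) (nat_lit 5149926256) (nat_lit 0) (nat_lit 0) (nat_lit 0) (nat_lit 0) (nat_lit 0) (nat_lit 0) (nat_lit 1) (nat_lit 0) (nat_lit 1) (nat_lit 0) (nat_lit 279) (nat_lit 272) (nat_lit 169)) (XT.lf (nat_lit 0) (nat_lit 5148325813) (nat_lit 0) (nat_lit 0) (nat_lit 0) (nat_lit 0) (nat_lit 0) (nat_lit 0) (nat_lit 1) (nat_lit 0) (nat_lit 1) (nat_lit 0) (nat_lit 280) (nat_lit 272) (nat_lit 168))) (XT.nd (nat_lit 94) (nat_lit 0) (nat_lit 0) (XT.lf (nat_lit 0) (nat_lit 5146801581) (nat_lit 0) (nat_lit 0) (nat_lit 0) (nat_lit 0) (nat_lit 0) (nat_lit 0) (nat_lit 1) (nat_lit 0) (nat_lit 1) (nat_lit 0) (nat_lit 281) (nat_lit 272) (nat_lit 167)) (XT.lf (nat_lit 0) (nat_lit 5145349931) (nat_lit 0) (nat_lit 0) (nat_lit 0) (nat_lit 0) (nat_lit 0) (nat_lit 0) (nat_lit 1) (nat_lit 0) (nat_lit 1) (nat_lit 0) (nat_lit 282) (nat_lit 272) (nat_lit 166)))))))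 (XT.nd (nat_lit 1222) (nat_lit 0) (nat_lit 0) (XT.nd (nat_lit 564) (nat_lit 0) (nat_lit 0) (XT.nd (nat_lit 282) (nat_lit 0) (nat_lit 0) (XT.nd (nat_lit 94) (nat_lit 0) (nat_lit 0) (XT.lf (nat_lit 0) (nat_lit 5143967408) (nat_lit 0) (nat_lit 0) (nat_lit 0) (nat_lit 0) (nat_lit 0) (nat_lit 0) (nat_lit 1) (nat_lit 0) (nat_lit 1) (nat_lit 0) (nat_lit 283) (nat_lit 272) (nat_lit 165)) (XT.nd (nat_lit 94) (nat_lit 0) (nat_lit 0) (XT.lf (nat_lit 0) (nat_lit 5142650719) (nat_lit 0) (nat_lit 0) (nat_lit 0) (nat_lit 0) (nat_lit 0) (nat_lit 0) (nat_lit 1) (nat_lit 0) (nat_lit 1) (nat_lit 0) (nat_lit 284) (nat_lit 272) (nat_lit 164)) (XT.lf (nat_lit 0) (nat_lit 5141396730) (nat_lit 0) (nat_lit 0) (nat_lit 0) (nat_lit 0) (nat_lit 0) (nat_lit 0) (nat_lit 1) (nat_lit 0) (nat_lit 1) (nat_lit 0) (nat_lit 285) (nat_lit 272) (nat_lit 163)))) (XT.nd (nat_lit 94) (nat_lit 0) (nat_lit 0) (XT.lf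 (nat_lit 0) (nat_lit 5140202455) (nat_lit 0) (nat_lit 0) (nat_lit 0) (nat_lit 0) (nat_lit 0) (nat_lit 0) (nat_lit 1) (nat_lit 0) (nat_lit 1) (nat_lit 0) (nat_lit 286) (nat_lit 272) (nat_lit 162)) (XT.nd (nat_lit 94) (nat_lit 0) (nat_lit 0) (XT.lf (nat_lit 0) (nat_lit 5139065049) (nat_lit 0) (nat_lit 0) (nat_lit 0) (nat_lit 0) (nat_lit 0) (nat_lit 0) (nat_lit 1) (nat_lit 0) (nat_lit 1) (nat_lit 0) (nat_lit 287) (nat_lit 272) (nat_lit 161)) (XT.lf (nat_lit 0) (nat_lit 5137981806) (nat_lit 0) (nat_lit 0) (nat_lit 0) (nat_lit 0) (nat_lit 0) (nat_lit 0) (nat_lit 1) (nat_lit 0) (nat_lit 1) (nat_lit 0) (nat_lit 288) (nat_lit 272) (nat_lit 160))))) (XT.nd (nat_lit 282) (nat_lit 0) (nat_lit 0) (XT.nd (nat_lit 94) (nat_lit 0) (nat_lit 0) (XT.lf (nat_lit 0) (nat_lit 5136950146) (nat_lit 0) (nat_lit 0) (nat_lit 0) (nat_lit 0) (nat_lit 0) (nat_lit 0) (nat_lit 1) (nat_lit 0) (nat_lit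 1) (nat_lit 0) (nat_lit 289) (nat_lit 272) (nat_lit 159)) (XT.nd (nat_lit 94) (nat_lit 0) (nat_lit 0) (XT.lf (nat_lit 0) (nat_lit 5135967612) (nat_lit 0) (nat_lit 0) (nat_lit 0) (nat_lit 0) (nat_lit 0) (nat_lit 0) (nat_lit 1) (nat_lit 0) (nat_lit 1) (nat_lit 0) (nat_lit 290) (nat_lit 272) (nat_lit 158)) (XT.lf (nat_lit 0) (nat_lit 5135031866) (nat_lit 0) (nat_lit 0) (nat_lit 0) (nat_lit 0) (nat_lit 0) (nat_lit 0) (nat_lit 1) (nat_lit 0) (nat_lit 1) (nat_lit 0) (nat_lit 291) (nat_lit 272) (nat_lit 157)))) (XT.nd (nat_lit 188) (nat_lit 0) (nat_lit 0) (XT.nd (nat_lit 94) (nat_lit 0) (nat_lit 0) (XT.lf (nat_lit 0) (nat_lit 5134140679) (nat_lit 0) (nat_lit 0) (nat_lit 0) (nat_lit 0) (nat_lit 0) (nat_lit 0) (nat_lit 1) (nat_lit 0) (nat_lit 1) (nat_lit 0) (nat_lit 292) (nat_lit 272) (nat_lit 156)) (XT.lf (nat_lit 0) (nat_lit 5133291930) (nat_lit 0) (nat_lit 0) (nat_lit 0) (nat_lit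 0) (nat_lit 0) (nat_lit 0) (nat_lit 1) (nat_lit 0) (nat_lit 1) (nat_lit 0) (nat_lit 293) (nat_lit 272) (nat_lit 155))) (XT.nd (nat_lit 94) (nat_lit 0) (nat_lit 0) (XT.lf (nat_lit 0) (nat_lit 5132483597) (nat_lit 0) (nat_lit 0) (nat_lit 0) (nat_lit 0) (nat_lit 0) (nat_lit 0) (nat_lit 1) (nat_lit 0) (nat_lit 1) (nat_lit 0) (nat_lit 294) (nat_lit 272) (nat_lit 154)) (XT.lf (nat_lit 0) (nat_lit 5131713757) (nat_lit 0) (nat_lit 0) (nat_lit 0) (nat_lit 0) (nat_lit 0) (nat_lit 0) (nat_lit 1) (nat_lit 0) (nat_lit 1) (nat_lit 0) (nat_lit 295) (nat_lit 272) (nat_lit 153)))))) (XT.nd (nat_lit 658) (nat_lit 0) (nat_lit 0) (XT.nd (nat_lit 282) (nat_lit 0) (nat_lit 0) (XT.nd (nat_lit 94) (nat_lit 0) (nat_lit 0) (XT.lf (nat_lit 0) (nat_lit 5130980575) (nat_lit 0) (nat_lit 0) (nat_lit 0) (nat_lit 0) (nat_lit 0) (nat_lit 0) (nat_lit 1) (nat_lit 0) (nat_lit 1) (nat_lit 0) (nat_lit 296) (nat_lit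 272) (nat_lit 152)) (XT.nd (nat_lit 94) (nat_lit 0) (nat_lit 0) (XT.lf (nat_lit 0) (nat_lit 5130282307) (nat_lit 0) (nat_lit 0) (nat_lit 0) (nat_lit 0) (nat_lit 0) (nat_lit 0) (nat_lit 1) (nat_lit 0) (nat_lit 1) (nat_lit 0) (nat_lit 297) (nat_lit 272) (nat_lit 151)) (XT.lf (nat_lit 0) (nat_lit 5129617290) (nat_lit 0) (nat_lit 0) (nat_lit 0) (nat_lit 0) (nat_lit 0) (nat_lit 0) (nat_lit 1) (nat_lit 0) (nat_lit 1) (nat_lit 0) (nat_lit 298) (nat_lit 272) (nat_lit 150)))) (XT.nd (nat_lit 188) (nat_lit 0) (nat_lit 0) (XT.nd (nat_lit 94) (nat_lit 0) (nat_lit 0) (XT.lf (nat_lit 0) (nat_lit 5128983940) (nat_lit 0) (nat_lit 0) (nat_lit 0) (nat_lit 0) (nat_lit 0) (nat_lit 0) (nat_lit 1) (nat_lit 0) (nat_lit 1) (nat_lit 0) (nat_lit 299) (nat_lit 272) (nat_lit 149)) (XT.lf (nat_lit 0) (nat_lit 5128380750) (nat_lit 0) (nat_lit 0) (nat_lit 0) (nat_lit 0) (nat_lit 0) (nat_lit 0) (nat_lit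 1) (nat_lit 0) (nat_lit 1) (nat_lit 0) (nat_lit 300) (nat_lit 272) (nat_lit 148))) (XT.nd (nat_lit 94) (nat_lit 0) (nat_lit 0) (XT.lf (nat_lit 0) (nat_lit 5127806283) (nat_lit 0) (nat_lit 0) (nat_lit 0) (nat_lit 0) (nat_lit 0) (nat_lit 0) (nat_lit 1) (nat_lit 0) (nat_lit 1) (nat_lit 0) (nat_lit 301) (nat_lit 272) (nat_lit 147)) (XT.lf (nat_lit 0) (nat_lit 5127259171) (nat_lit 0) (nat_lit 0) (nat_lit 0) (nat_lit 0) (nat_lit 0) (nat_lit 0) (nat_lit 1) (nat_lit 0) (nat_lit 1) (nat_lit 0) (nat_lit 302) (nat_lit 272) (nat_lit 146))))) (XT.nd (nat_lit 282) (nat_lit 0) (nat_lit 0) (XT.nd (nat_lit 94) (nat_lit 0) (nat_lit 0) (XT.lf (nat_lit 0) (nat_lit 5126738113) (nat_lit 0) (nat_lit 0) (nat_lit 0) (nat_lit 0) (nat_lit 0) (nat_lit 0) (nat_lit 1) (nat_lit 0) (nat_lit 1) (nat_lit 0) (nat_lit 303) (nat_lit 272) (nat_lit 145)) (XT.nd (nat_lit 94) (nat_lit 0) (nat_lit 0) (XT.lf (nat_lit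 0) (nat_lit 5126241867) (nat_lit 0) (nat_lit 0) (nat_lit 0) (nat_lit 0) (nat_lit 0) (nat_lit 0) (nat_lit 1) (nat_lit 0) (nat_lit 1) (nat_lit 0) (nat_lit 304) (nat_lit 272) (nat_lit 144)) (XT.lf (nat_lit 0) (nat_lit 5125769251) (nat_lit 0) (nat_lit 0) (nat_lit 0) (nat_lit 0) (nat_lit 0) (nat_lit 0) (nat_lit 1) (nat_lit 0) (nat_lit 1) (nat_lit 0) (nat_lit 305) (nat_lit 272) (nat_lit 143)))) (XT.nd (nat_lit 188) (nat_lit 0) (nat_lit 0) (XT.nd (nat_lit 94) (nat_lit 0) (nat_lit 0) (XT.lf (nat_lit 0) (nat_lit 5125319141) (nat_lit 0) (nat_lit 0) (nat_lit 0) (nat_lit 0) (nat_lit 0) (nat_lit 0) (nat_lit 1) (nat_lit 0) (nat_lit 1) (nat_lit 0) (nat_lit 306) (nat_lit 272) (nat_lit 142)) (XT.lf (nat_lit 0) (nat_lit 5124890465) (nat_lit 0) (nat_lit 0) (nat_lit 0) (nat_lit 0) (nat_lit 0) (nat_lit 0) (nat_lit 1) (nat_lit 0) (nat_lit 1) (nat_lit 0) (nat_lit 307) (nat_lit 272) (nat_lit 141)))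 (XT.nd (nat_lit 94) (nat_lit 0) (nat_lit 0) (XT.lf (nat_lit 0) (nat_lit 5124482202) (nat_lit 0) (nat_lit 0) (nat_lit 0) (nat_lit 0) (nat_lit 0) (nat_lit 0) (nat_lit 1) (nat_lit 0) (nat_lit 1) (nat_lit 0) (nat_lit 308) (nat_lit 272) (nat_lit 140)) (XT.lf (nat_lit 0) (nat_lit 5124093380) (nat_lit 0) (nat_lit 0) (nat_lit 0) (nat_lit 0) (nat_lit 0) (nat_lit 0) (nat_lit 1) (nat_lit 0) (nat_lit 1) (nat_lit 0) (nat_lit 309) (nat_lit 272) (nat_lit 139))))))))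
noncomputable def ec97 : XT := (XT.nd (nat_lit 34404) (nat_lit 0) (nat_lit 4032) (XT.nd (nat_lit 33088) (nat_lit 0) (nat_lit 8148) (XT.nd (nat_lit 32430) (nat_lit 0) (nat_lit 10752) (XT.nd (nat_lit 282) (nat_lit 0) (nat_lit 0) (XT.nd (nat_lit 94) (nat_lit 0) (nat_lit 0) (XT.lf (nat_lit 0) (nat_lit 5123723074) (nat_lit 0) (nat_lit 0) (nat_lit 0) (nat_lit 0) (nat_lit 0) (nat_lit 0) (nat_lit 1) (nat_lit 0) (nat_lit 1) (nat_lit 0) (nat_lit 310) (nat_lit 272) (nat_lit 138)) (XT.nd (nat_lit 94) (nat_lit 0) (nat_lit 0) (XT.lf (nat_lit 0) (nat_lit 5123370401) (nat_lit 0) (nat_lit 0) (nat_lit 0) (nat_lit 0) (nat_lit 0) (nat_lit 0) (nat_lit 1) (nat_lit 0) (nat_lit 1) (nat_lit 0) (nat_lit 311) (nat_lit 272) (nat_lit 137)) (XT.lf (nat_lit 0) (nat_lit 5123034522) (nat_lit 0) (nat_lit 0) (nat_lit 0) (nat_lit 0) (nat_lit 0) (nat_lit 0) (nat_lit 1) (nat_lit 0) (nat_lit 1) (nat_lit 0) (nat_lit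 312) (nat_lit 272) (nat_lit 136)))) (XT.nd (nat_lit 94) (nat_lit 0) (nat_lit 0) (XT.lf (nat_lit 0) (nat_lit 5122714637) (nat_lit 0) (nat_lit 0) (nat_lit 0) (nat_lit 0) (nat_lit 0) (nat_lit 0) (nat_lit 1) (nat_lit 0) (nat_lit 1) (nat_lit 0) (nat_lit 313) (nat_lit 272) (nat_lit 135)) (XT.nd (nat_lit 94) (nat_lit 0) (nat_lit 0) (XT.lf (nat_lit 0) (nat_lit 5122409985) (nat_lit 0) (nat_lit 0) (nat_lit 0) (nat_lit 0) (nat_lit 0) (nat_lit 0) (nat_lit 1) (nat_lit 0) (nat_lit 1) (nat_lit 0) (nat_lit 314) (nat_lit 272) (nat_lit 134)) (XT.lf (nat_lit 0) (nat_lit 5122119840) (nat_lit 0) (nat_lit 0) (nat_lit 0) (nat_lit 0) (nat_lit 0) (nat_lit 0) (nat_lit 1) (nat_lit 0) (nat_lit 1) (nat_lit 0) (nat_lit 315) (nat_lit 272) (nat_lit 133))))) (XT.nd (nat_lit 282) (nat_lit 0) (nat_lit 84) (XT.nd (nat_lit 94) (nat_lit 0) (nat_lit 0) (XT.lf (nat_lit 924) (nat_lit 2688416475) (nat_lit 0) (nat_lit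 4773277273) (nat_lit 924) (nat_lit 2688416475) (nat_lit 139) (nat_lit 1) (nat_lit 128) (nat_lit 0) (nat_lit 139) (nat_lit 0) (nat_lit 174) (nat_lit 273) (nat_lit 273)) (XT.nd (nat_lit 94) (nat_lit 0) (nat_lit 84) (XT.lf (nat_lit 924) (nat_lit 10420637895) (nat_lit 84) (nat_lit 4696288930) (nat_lit 0) (nat_lit 4696288930) (nat_lit 139) (nat_lit 1) (nat_lit 129) (nat_lit 1) (nat_lit 128) (nat_lit 0) (nat_lit 175) (nat_lit 273) (nat_lit 272)) (XT.lf (nat_lit 924) (nat_lit 4966319117) (nat_lit 0) (nat_lit 9408628758) (nat_lit 840) (nat_lit 4966319117) (nat_lit 140) (nat_lit 1) (nat_lit 129) (nat_lit 1) (nat_lit 139) (nat_lit 1) (nat_lit 176) (nat_lit 273) (nat_lit 271)))) (XT.nd (nat_lit 188) (nat_lit 0) (nat_lit 84) (XT.nd (nat_lit 94) (nat_lit 0) (nat_lit 84) (XT.lf (nat_lit 924) (nat_lit 9316124577) (nat_lit 84) (nat_lit 4784220557) (nat_lit 0) (nat_lit 4784220557) (nat_lit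 140) (nat_lit 1) (nat_lit 130) (nat_lit 1) (nat_lit 129) (nat_lit 1) (nat_lit 177) (nat_lit 273) (nat_lit 270)) (XT.lf (nat_lit 924) (nat_lit 4288122679) (nat_lit 0) (nat_lit 9866094173) (nat_lit 840) (nat_lit 4288122679) (nat_lit 141) (nat_lit 1) (nat_lit 130) (nat_lit 1) (nat_lit 140) (nat_lit 1) (nat_lit 178) (nat_lit 273) (nat_lit 269))) (XT.nd (nat_lit 94) (nat_lit 0) (nat_lit 84) (XT.lf (nat_lit 924) (nat_lit 7712467932) (nat_lit 84) (nat_lit 5150563091) (nat_lit 0) (nat_lit 5150563091) (nat_lit 141) (nat_lit 1) (nat_lit 131) (nat_lit 1) (nat_lit 130) (nat_lit 1) (nat_lit 179) (nat_lit 273) (nat_lit 268)) (XT.lf (nat_lit 924) (nat_lit 3381694432) (nat_lit 0) (nat_lit 10835855619) (nat_lit 840) (nat_lit 3381694432) (nat_lit 142) (nat_lit 1) (nat_lit 131) (nat_lit 1) (nat_lit 141) (nat_lit 1) (nat_lit 180) (nat_lit 273) (nat_lit 267)))))) (XT.nd (nat_lit 658) (nat_lit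 1596) (nat_lit 0) (XT.nd (nat_lit 282) (nat_lit 1260) (nat_lit 0) (XT.nd (nat_lit 94) (nat_lit 0) (nat_lit 84) (XT.lf (nat_lit 924) (nat_lit 5684732172) (nat_lit 84) (nat_lit 5755785572) (nat_lit 0) (nat_lit 5755785572) (nat_lit 142) (nat_lit 1) (nat_lit 132) (nat_lit 1) (nat_lit 131) (nat_lit 1) (nat_lit 181) (nat_lit 273) (nat_lit 266)) (XT.nd (nat_lit 94) (nat_lit 0) (nat_lit 0) (XT.lf (nat_lit 924) (nat_lit 2282123877) (nat_lit 0) (nat_lit 12243864342) (nat_lit 840) (nat_lit 2282123877) (nat_lit 143) (nat_lit 1) (nat_lit 132) (nat_lit 1) (nat_lit 142) (nat_lit 1) (nat_lit 182) (nat_lit 273) (nat_lit 265)) (XT.lf (nat_lit 924) (nat_lit 3299638054) (nat_lit 84) (nat_lit 6564682113) (nat_lit 0) (nat_lit 6564682113) (nat_lit 143) (nat_lit 1) (nat_lit 133) (nat_lit 1) (nat_lit 132) (nat_lit 1) (nat_lit 183) (nat_lit 273) (nat_lit 264)))) (XT.nd (nat_lit 188) (nat_lit 588)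 (nat_lit 0) (XT.nd (nat_lit 94) (nat_lit 840) (nat_lit 0) (XT.lf (nat_lit 84) (nat_lit 1020577718) (nat_lit 0) (nat_lit 14024214049) (nat_lit 840) (nat_lit 1020577718) (nat_lit 134) (nat_lit 1) (nat_lit 133) (nat_lit 1) (nat_lit 143) (nat_lit 1) (nat_lit 184) (nat_lit 273) (nat_lit 263)) (XT.lf (nat_lit 924) (nat_lit 616403562) (nat_lit 0) (nat_lit 7545938844) (nat_lit 840) (nat_lit 7545938844) (nat_lit 134) (nat_lit 1) (nat_lit 123) (nat_lit 1) (nat_lit 133) (nat_lit 1) (nat_lit 185) (nat_lit 273) (nat_lit 262))) (XT.nd (nat_lit 94) (nat_lit 0) (nat_lit 0) (XT.lf (nat_lit 588) (nat_lit 14628032815) (nat_lit 0) (nat_lit 369250690) (nat_lit 504) (nat_lit 369250690) (nat_lit 123) (nat_lit 1) (nat_lit 116) (nat_lit 1) (nat_lit 122) (nat_lit 1) (nat_lit 186) (nat_lit 273) (nat_lit 261)) (XT.lf (nat_lit 84) (nat_lit 6395350487) (nat_lit 0) (nat_lit 2238482330) (nat_lit 588) (nat_lit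 6395350487) (nat_lit 117) (nat_lit 1) (nat_lit 116) (nat_lit 1) (nat_lit 123) (nat_lit 1) (nat_lit 187) (nat_lit 273) (nat_lit 260))))) (XT.nd (nat_lit 282) (nat_lit 756) (nat_lit 0) (XT.nd (nat_lit 94) (nat_lit 420) (nat_lit 0) (XT.lf (nat_lit 504) (nat_lit 11004756574) (nat_lit 0) (nat_lit 1850710452) (nat_lit 420) (nat_lit 1850710452) (nat_lit 117) (nat_lit 1) (nat_lit 111) (nat_lit 1) (nat_lit 116) (nat_lit 1) (nat_lit 188) (nat_lit 273) (nat_lit 259)) (XT.nd (nat_lit 94) (nat_lit 420) (nat_lit 0) (XT.lf (nat_lit 84) (nat_lit 4561725649) (nat_lit 0) (nat_lit 5266510829) (nat_lit 504) (nat_lit 4561725649) (nat_lit 112) (nat_lit 1) (nat_lit 111) (nat_lit 1) (nat_lit 117) (nat_lit 1) (nat_lit 189) (nat_lit 273) (nat_lit 258)) (XT.lf (nat_lit 504) (nat_lit 7246788266) (nat_lit 0) (nat_lit 3418985722) (nat_lit 420) (nat_lit 3418985722) (nat_lit 112) (nat_lit 1) (nat_lit 106)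 (nat_lit 1) (nat_lit 111) (nat_lit 1) (nat_lit 190) (nat_lit 273) (nat_lit 257)))) (XT.nd (nat_lit 188) (nat_lit 420) (nat_lit 0) (XT.nd (nat_lit 94) (nat_lit 336) (nat_lit 0) (XT.lf (nat_lit 84) (nat_lit 2670345165) (nat_lit 0) (nat_lit 8447743277) (nat_lit 504) (nat_lit 2670345165) (nat_lit 107) (nat_lit 1) (nat_lit 106) (nat_lit 1) (nat_lit 112) (nat_lit 1) (nat_lit 191) (nat_lit 273) (nat_lit 256)) (XT.lf (nat_lit 420) (nat_lit 3389105042) (nat_lit 0) (nat_lit 5055312474) (nat_lit 336) (nat_lit 5055312474) (nat_lit 107) (nat_lit 1) (nat_lit 102) (nat_lit 1) (nat_lit 106) (nat_lit 1) (nat_lit 192) (nat_lit 273) (nat_lit 255))) (XT.nd (nat_lit 94) (nat_lit 420) (nat_lit 0) (XT.lf (nat_lit 84) (nat_lit 737446643) (nat_lit 0) (nat_lit 11747235207) (nat_lit 420) (nat_lit 737446643) (nat_lit 103) (nat_lit 1) (nat_lit 102) (nat_lit 1) (nat_lit 107) (nat_lit 1) (nat_lit 193)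 (nat_lit 273) (nat_lit 254)) (XT.lf (nat_lit 84) (nat_lit 6213937319) (nat_lit 0) (nat_lit 520429321) (nat_lit 420) (nat_lit 6213937319) (nat_lit 98) (nat_lit 1) (nat_lit 97) (nat_lit 1) (nat_lit 102) (nat_lit 1) (nat_lit 194) (nat_lit 273) (nat_lit 253))))))) (XT.nd (nat_lit 1222) (nat_lit 1680) (nat_lit 0) (XT.nd (nat_lit 564) (nat_lit 1092) (nat_lit 0) (XT.nd (nat_lit 282) (nat_lit 672) (nat_lit 0) (XT.nd (nat_lit 94) (nat_lit 336) (nat_lit 0) (XT.lf (nat_lit 420) (nat_lit 10278832274) (nat_lit 0) (nat_lit 1203037530) (nat_lit 336) (nat_lit 1203037530) (nat_lit 98) (nat_lit 1) (nat_lit 93) (nat_lit 1) (nat_lit 97) (nat_lit 1) (nat_lit 195) (nat_lit 273) (nat_lit 252)) (XT.nd (nat_lit 94) (nat_lit 336) (nat_lit 0) (XT.lf (nat_lit 84) (nat_lit 4031809906) (nat_lit 0) (nat_lit 4362409525) (nat_lit 420) (nat_lit 4031809906) (nat_lit 94) (nat_lit 1) (nat_lit 93) (nat_lit 1)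 (nat_lit 98) (nat_lit 1) (nat_lit 196) (nat_lit 273) (nat_lit 251)) (XT.lf (nat_lit 420) (nat_lit 5883532216) (nat_lit 0) (nat_lit 3146298052) (nat_lit 336) (nat_lit 3146298052) (nat_lit 94) (nat_lit 1) (nat_lit 89) (nat_lit 1) (nat_lit 93) (nat_lit 1) (nat_lit 197) (nat_lit 273) (nat_lit 250)))) (XT.nd (nat_lit 94) (nat_lit 672) (nat_lit 0) (XT.lf (nat_lit 84) (nat_lit 1855403483) (nat_lit 0) (nat_lit 8222727463) (nat_lit 420) (nat_lit 1855403483) (nat_lit 90) (nat_lit 1) (nat_lit 89) (nat_lit 1) (nat_lit 94) (nat_lit 1) (nat_lit 198) (nat_lit 273) (nat_lit 249)) (XT.nd (nat_lit 94) (nat_lit 420) (nat_lit 0) (XT.lf (nat_lit 336) (nat_lit 1508920187) (nat_lit 0) (nat_lit 5093628491) (nat_lit 252) (nat_lit 5093628491) (nat_lit 90) (nat_lit 1) (nat_lit 86) (nat_lit 1) (nat_lit 89) (nat_lit 1) (nat_lit 199) (nat_lit 273) (nat_lit 248)) (XT.lf (nat_lit 420) (nat_lit 10865013239)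 (nat_lit 0) (nat_lit 301483269) (nat_lit 336) (nat_lit 301483269) (nat_lit 86) (nat_lit 1) (nat_lit 81) (nat_lit 1) (nat_lit 85) (nat_lit 1) (nat_lit 200) (nat_lit 273) (nat_lit 247))))) (XT.nd (nat_lit 282) (nat_lit 840) (nat_lit 0) (XT.nd (nat_lit 94) (nat_lit 252) (nat_lit 0) (XT.lf (nat_lit 84) (nat_lit 4251560004) (nat_lit 0) (nat_lit 2737925423) (nat_lit 420) (nat_lit 4251560004) (nat_lit 82) (nat_lit 1) (nat_lit 81) (nat_lit 1) (nat_lit 86) (nat_lit 1) (nat_lit 201) (nat_lit 273) (nat_lit 246)) (XT.nd (nat_lit 94) (nat_lit 0) (nat_lit 0) (XT.lf (nat_lit 336) (nat_lit 6209537796) (nat_lit 0) (nat_lit 2406638412) (nat_lit 252) (nat_lit 2406638412) (nat_lit 82) (nat_lit 1) (nat_lit 78) (nat_lit 1) (nat_lit 81) (nat_lit 1) (nat_lit 202) (nat_lit 273) (nat_lit 245)) (XT.lf (nat_lit 84) (nat_lit 1961689041) (nat_lit 0) (nat_lit 6886750257) (nat_lit 336) (nat_lit 1961689041)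 (nat_lit 79) (nat_lit 1) (nat_lit 78) (nat_lit 1) (nat_lit 82) (nat_lit 1) (nat_lit 203) (nat_lit 273) (nat_lit 244)))) (XT.nd (nat_lit 188) (nat_lit 252) (nat_lit 0) (XT.nd (nat_lit 94) (nat_lit 336) (nat_lit 0) (XT.lf (nat_lit 336) (nat_lit 1635006501) (nat_lit 0) (nat_lit 4483637056) (nat_lit 252) (nat_lit 4483637056) (nat_lit 79) (nat_lit 1) (nat_lit 75) (nat_lit 1) (nat_lit 78) (nat_lit 1) (nat_lit 204) (nat_lit 273) (nat_lit 243)) (XT.lf (nat_lit 336) (nat_lit 9840169182) (nat_lit 0) (nat_lit 280992756) (nat_lit 252) (nat_lit 280992756) (nat_lit 75) (nat_lit 1) (nat_lit 71) (nat_lit 1) (nat_lit 74) (nat_lit 1) (nat_lit 205) (nat_lit 273) (nat_lit 242))) (XT.nd (nat_lit 94) (nat_lit 252) (nat_lit 0) (XT.lf (nat_lit 84) (nat_lit 3722254197) (nat_lit 0) (nat_lit 2758152984) (nat_lit 336) (nat_lit 3722254197) (nat_lit 72) (nat_lit 1) (nat_lit 71) (nat_lit 1) (nat_lit 75)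 (nat_lit 1) (nat_lit 206) (nat_lit 273) (nat_lit 241)) (XT.lf (nat_lit 336) (nat_lit 5118440352) (nat_lit 0) (nat_lit 2446054496) (nat_lit 252) (nat_lit 2446054496) (nat_lit 72) (nat_lit 1) (nat_lit 68) (nat_lit 1) (nat_lit 71) (nat_lit 1) (nat_lit 207) (nat_lit 273) (nat_lit 240)))))) (XT.nd (nat_lit 658) (nat_lit 756) (nat_lit 0) (XT.nd (nat_lit 282) (nat_lit 420) (nat_lit 0) (XT.nd (nat_lit 94) (nat_lit 504) (nat_lit 0) (XT.lf (nat_lit 84) (nat_lit 1409614298) (nat_lit 0) (nat_lit 7004361248) (nat_lit 336) (nat_lit 1409614298) (nat_lit 69) (nat_lit 1) (nat_lit 68) (nat_lit 1) (nat_lit 72) (nat_lit 1) (nat_lit 208) (nat_lit 273) (nat_lit 239)) (XT.nd (nat_lit 94) (nat_lit 336) (nat_lit 0) (XT.lf (nat_lit 252) (nat_lit 516529547) (nat_lit 0) (nat_lit 4561811968) (nat_lit 168) (nat_lit 4561811968) (nat_lit 69) (nat_lit 1) (nat_lit 66) (nat_lit 1) (nat_lit 68) (nat_lit 1)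 (nat_lit 209) (nat_lit 273) (nat_lit 238)) (XT.lf (nat_lit 336) (nat_lit 7804588266) (nat_lit 0) (nat_lit 828903844) (nat_lit 252) (nat_lit 828903844) (nat_lit 66) (nat_lit 1) (nat_lit 62) (nat_lit 1) (nat_lit 65) (nat_lit 1) (nat_lit 210) (nat_lit 273) (nat_lit 237)))) (XT.nd (nat_lit 188) (nat_lit 252) (nat_lit 0) (XT.nd (nat_lit 94) (nat_lit 168) (nat_lit 0) (XT.lf (nat_lit 84) (nat_lit 2725957422) (nat_lit 0) (nat_lit 3834711626) (nat_lit 336) (nat_lit 2725957422) (nat_lit 63) (nat_lit 1) (nat_lit 62) (nat_lit 1) (nat_lit 66) (nat_lit 1) (nat_lit 211) (nat_lit 273) (nat_lit 236)) (XT.lf (nat_lit 252) (nat_lit 3149423305) (nat_lit 0) (nat_lit 2983429206) (nat_lit 168) (nat_lit 2983429206) (nat_lit 63) (nat_lit 1) (nat_lit 60) (nat_lit 1) (nat_lit 62) (nat_lit 1) (nat_lit 212) (nat_lit 273) (nat_lit 235))) (XT.nd (nat_lit 94) (nat_lit 252) (nat_lit 0) (XT.lf (nat_lit 84)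 (nat_lit 452472164) (nat_lit 0) (nat_lit 8046645723) (nat_lit 252) (nat_lit 452472164) (nat_lit 61) (nat_lit 1) (nat_lit 60) (nat_lit 1) (nat_lit 63) (nat_lit 1) (nat_lit 213) (nat_lit 273) (nat_lit 234)) (XT.lf (nat_lit 84) (nat_lit 3734332156) (nat_lit 0) (nat_lit 1318832738) (nat_lit 252) (nat_lit 3734332156) (nat_lit 58) (nat_lit 1) (nat_lit 57) (nat_lit 1) (nat_lit 60) (nat_lit 1) (nat_lit 214) (nat_lit 273) (nat_lit 233))))) (XT.nd (nat_lit 282) (nat_lit 420) (nat_lit 0) (XT.nd (nat_lit 94) (nat_lit 168) (nat_lit 0) (XT.lf (nat_lit 252) (nat_lit 5185774697) (nat_lit 0) (nat_lit 1721536696) (nat_lit 168) (nat_lit 1721536696) (nat_lit 58) (nat_lit 1) (nat_lit 55) (nat_lit 1) (nat_lit 57) (nat_lit 1) (nat_lit 215) (nat_lit 273) (nat_lit 232)) (XT.nd (nat_lit 94) (nat_lit 168) (nat_lit 0) (XT.lf (nat_lit 84) (nat_lit 1463290705) (nat_lit 0) (nat_lit 5547124205) (nat_lit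 252) (nat_lit 1463290705) (nat_lit 56) (nat_lit 1) (nat_lit 55) (nat_lit 1) (nat_lit 58) (nat_lit 1) (nat_lit 216) (nat_lit 273) (nat_lit 231)) (XT.lf (nat_lit 252) (nat_lit 685499012) (nat_lit 0) (nat_lit 3818095702) (nat_lit 168) (nat_lit 3818095702) (nat_lit 56) (nat_lit 1) (nat_lit 53) (nat_lit 1) (nat_lit 55) (nat_lit 1) (nat_lit 217) (nat_lit 273) (nat_lit 230)))) (XT.nd (nat_lit 188) (nat_lit 168) (nat_lit 0) (XT.nd (nat_lit 94) (nat_lit 0) (nat_lit 0) (XT.lf (nat_lit 252) (nat_lit 6737527154) (nat_lit 0) (nat_lit 718276409) (nat_lit 168) (nat_lit 718276409) (nat_lit 53) (nat_lit 1) (nat_lit 50) (nat_lit 1) (nat_lit 52) (nat_lit 1) (nat_lit 218) (nat_lit 273) (nat_lit 229)) (XT.lf (nat_lit 84) (nat_lit 2242939300) (nat_lit 0) (nat_lit 3541850769) (nat_lit 252) (nat_lit 2242939300) (nat_lit 51) (nat_lit 1) (nat_lit 50) (nat_lit 1) (nat_lit 53) (nat_lit 1) (nat_lit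 219) (nat_lit 273) (nat_lit 228))) (XT.nd (nat_lit 94) (nat_lit 0) (nat_lit 0) (XT.lf (nat_lit 252) (nat_lit 2284324781) (nat_lit 0) (nat_lit 2800651373) (nat_lit 168) (nat_lit 2800651373) (nat_lit 51) (nat_lit 1) (nat_lit 48) (nat_lit 1) (nat_lit 50) (nat_lit 1) (nat_lit 220) (nat_lit 273) (nat_lit 227)) (XT.lf (nat_lit 84) (nat_lit 75079455) (nat_lit 0) (nat_lit 7598350293) (nat_lit 252) (nat_lit 75079455) (nat_lit 49) (nat_lit 1) (nat_lit 48) (nat_lit 1) (nat_lit 51) (nat_lit 1) (nat_lit 221) (nat_lit 273) (nat_lit 226))))))))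
noncomputable def ec98 : XT := (XT.nd (nat_lit 2538) (nat_lit 1344) (nat_lit 0) (XT.nd (nat_lit 1222) (nat_lit 1260) (nat_lit 0) (XT.nd (nat_lit 564) (nat_lit 756) (nat_lit 0) (XT.nd (nat_lit 282) (nat_lit 336) (nat_lit 0) (XT.nd (nat_lit 94) (nat_lit 168) (nat_lit 0) (XT.lf (nat_lit 84) (nat_lit 2834877823) (nat_lit 0) (nat_lit 1940763639) (nat_lit 168) (nat_lit 2834877823) (nat_lit 47) (nat_lit 1) (nat_lit 46) (nat_lit 1) (nat_lit 48) (nat_lit 1) (nat_lit 222) (nat_lit 273) (nat_lit 225)) (XT.nd (nat_lit 94) (nat_lit 0) (nat_lit 0) (XT.lf (nat_lit 252) (nat_lit 3517760648) (nat_lit 0) (nat_lit 1979811949) (nat_lit 168) (nat_lit 1979811949) (nat_lit 47) (nat_lit 1) (nat_lit 44) (nat_lit 1) (nat_lit 46) (nat_lit 1) (nat_lit 223) (nat_lit 273) (nat_lit 224)) (XT.lf (nat_lit 84) (nat_lit 705286697) (nat_lit 0) (nat_lit 5937270056) (nat_lit 252) (nat_lit 705286697) (nat_lit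 45) (nat_lit 1) (nat_lit 44) (nat_lit 1) (nat_lit 47) (nat_lit 1) (nat_lit 224) (nat_lit 273) (nat_lit 223)))) (XT.nd (nat_lit 94) (nat_lit 168) (nat_lit 0) (XT.lf (nat_lit 84) (nat_lit 3274743010) (nat_lit 0) (nat_lit 669884616) (nat_lit 168) (nat_lit 3274743010) (nat_lit 43) (nat_lit 1) (nat_lit 42) (nat_lit 1) (nat_lit 44) (nat_lit 1) (nat_lit 225) (nat_lit 273) (nat_lit 222)) (XT.nd (nat_lit 94) (nat_lit 0) (nat_lit 0) (XT.lf (nat_lit 252) (nat_lit 4454490389) (nat_lit 0) (nat_lit 1319947745) (nat_lit 168) (nat_lit 1319947745) (nat_lit 43) (nat_lit 1) (nat_lit 40) (nat_lit 1) (nat_lit 42) (nat_lit 1) (nat_lit 226) (nat_lit 273) (nat_lit 221)) (XT.lf (nat_lit 84) (nat_lit 1193116010) (nat_lit 0) (nat_lit 4585643403) (nat_lit 252) (nat_lit 1193116010) (nat_lit 41) (nat_lit 1) (nat_lit 40) (nat_lit 1) (nat_lit 43) (nat_lit 1) (nat_lit 227) (nat_lit 273) (nat_lit 220)))))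 (XT.nd (nat_lit 282) (nat_lit 420) (nat_lit 0) (XT.nd (nat_lit 94) (nat_lit 252) (nat_lit 0) (XT.lf (nat_lit 168) (nat_lit 342500157) (nat_lit 0) (nat_lit 3254588322) (nat_lit 84) (nat_lit 3254588322) (nat_lit 41) (nat_lit 1) (nat_lit 39) (nat_lit 1) (nat_lit 40) (nat_lit 1) (nat_lit 228) (nat_lit 273) (nat_lit 219)) (XT.nd (nat_lit 94) (nat_lit 0) (nat_lit 0) (XT.lf (nat_lit 252) (nat_lit 5150834550) (nat_lit 0) (nat_lit 791782901) (nat_lit 168) (nat_lit 791782901) (nat_lit 39) (nat_lit 1) (nat_lit 36) (nat_lit 1) (nat_lit 38) (nat_lit 1) (nat_lit 229) (nat_lit 273) (nat_lit 218)) (XT.lf (nat_lit 84) (nat_lit 1565269875) (nat_lit 0) (nat_lit 3487893162) (nat_lit 252) (nat_lit 1565269875) (nat_lit 37) (nat_lit 1) (nat_lit 36) (nat_lit 1) (nat_lit 39) (nat_lit 1) (nat_lit 230) (nat_lit 273) (nat_lit 217)))) (XT.nd (nat_lit 188) (nat_lit 84) (nat_lit 0) (XT.nd (nat_lit 94)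 (nat_lit 252) (nat_lit 0) (XT.lf (nat_lit 168) (nat_lit 1150193122) (nat_lit 0) (nat_lit 2677557867) (nat_lit 84) (nat_lit 2677557867) (nat_lit 37) (nat_lit 1) (nat_lit 35) (nat_lit 1) (nat_lit 36) (nat_lit 1) (nat_lit 231) (nat_lit 273) (nat_lit 216)) (XT.lf (nat_lit 252) (nat_lit 5652951269) (nat_lit 0) (nat_lit 371267108) (nat_lit 168) (nat_lit 371267108) (nat_lit 35) (nat_lit 1) (nat_lit 32) (nat_lit 1) (nat_lit 34) (nat_lit 1) (nat_lit 232) (nat_lit 273) (nat_lit 215))) (XT.nd (nat_lit 94) (nat_lit 84) (nat_lit 0) (XT.lf (nat_lit 84) (nat_lit 1843647000) (nat_lit 0) (nat_lit 2598329750) (nat_lit 252) (nat_lit 1843647000) (nat_lit 33) (nat_lit 1) (nat_lit 32) (nat_lit 1) (nat_lit 35) (nat_lit 1) (nat_lit 233) (nat_lit 273) (nat_lit 214)) (XT.lf (nat_lit 168) (nat_lit 1773330913) (nat_lit 0) (nat_lit 2202833483) (nat_lit 84) (nat_lit 2202833483) (nat_lit 33) (nat_lit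 1) (nat_lit 31) (nat_lit 1) (nat_lit 32) (nat_lit 1) (nat_lit 234) (nat_lit 273) (nat_lit 213)))))) (XT.nd (nat_lit 658) (nat_lit 672) (nat_lit 0) (XT.nd (nat_lit 282) (nat_lit 252) (nat_lit 0) (XT.nd (nat_lit 94) (nat_lit 84) (nat_lit 0) (XT.lf (nat_lit 252) (nat_lit 5998646462) (nat_lit 0) (nat_lit 38647470) (nat_lit 168) (nat_lit 38647470) (nat_lit 31) (nat_lit 1) (nat_lit 28) (nat_lit 1) (nat_lit 30) (nat_lit 1) (nat_lit 235) (nat_lit 273) (nat_lit 212)) (XT.nd (nat_lit 94) (nat_lit 84) (nat_lit 0) (XT.lf (nat_lit 84) (nat_lit 2046197330) (nat_lit 0) (nat_lit 1879396520) (nat_lit 252) (nat_lit 2046197330) (nat_lit 29) (nat_lit 1) (nat_lit 28) (nat_lit 1) (nat_lit 31) (nat_lit 1) (nat_lit 236) (nat_lit 273) (nat_lit 211)) (XT.lf (nat_lit 168) (nat_lit 2246603908) (nat_lit 0) (nat_lit 1812276558) (nat_lit 84) (nat_lit 1812276558) (nat_lit 29) (nat_lit 1) (nat_lit 27) (nat_lit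 1) (nat_lit 28) (nat_lit 1) (nat_lit 237) (nat_lit 273) (nat_lit 210)))) (XT.nd (nat_lit 188) (nat_lit 84) (nat_lit 0) (XT.nd (nat_lit 94) (nat_lit 168) (nat_lit 0) (XT.lf (nat_lit 0) (nat_lit 225939190) (nat_lit 0) (nat_lit 5321682801) (nat_lit 168) (nat_lit 225939190) (nat_lit 27) (nat_lit 3) (nat_lit 27) (nat_lit 1) (nat_lit 29) (nat_lit 1) (nat_lit 238) (nat_lit 273) (nat_lit 209)) (XT.lf (nat_lit 84) (nat_lit 2187625304) (nat_lit 0) (nat_lit 1300226268) (nat_lit 168) (nat_lit 2187625304) (nat_lit 26) (nat_lit 1) (nat_lit 25) (nat_lit 1) (nat_lit 27) (nat_lit 1) (nat_lit 239) (nat_lit 273) (nat_lit 208))) (XT.nd (nat_lit 94) (nat_lit 0) (nat_lit 0) (XT.lf (nat_lit 168) (nat_lit 2598458191) (nat_lit 0) (nat_lit 1490964409) (nat_lit 84) (nat_lit 1490964409) (nat_lit 26) (nat_lit 1) (nat_lit 24) (nat_lit 1) (nat_lit 25) (nat_lit 1) (nat_lit 240) (nat_lit 273) (nat_lit 207))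 (XT.lf (nat_lit 0) (nat_lit 431838631) (nat_lit 0) (nat_lit 4624119511) (nat_lit 168) (nat_lit 431838631) (nat_lit 24) (nat_lit 3) (nat_lit 24) (nat_lit 1) (nat_lit 26) (nat_lit 1) (nat_lit 241) (nat_lit 273) (nat_lit 206))))) (XT.nd (nat_lit 282) (nat_lit 420) (nat_lit 0) (XT.nd (nat_lit 94) (nat_lit 84) (nat_lit 0) (XT.lf (nat_lit 84) (nat_lit 2279968271) (nat_lit 0) (nat_lit 835453748) (nat_lit 168) (nat_lit 2279968271) (nat_lit 23) (nat_lit 1) (nat_lit 22) (nat_lit 1) (nat_lit 24) (nat_lit 1) (nat_lit 242) (nat_lit 273) (nat_lit 205)) (XT.nd (nat_lit 94) (nat_lit 0) (nat_lit 0) (XT.lf (nat_lit 168) (nat_lit 2852207124) (nat_lit 0) (nat_lit 1226620109) (nat_lit 84) (nat_lit 1226620109) (nat_lit 23) (nat_lit 1) (nat_lit 21) (nat_lit 1) (nat_lit 22) (nat_lit 1) (nat_lit 243) (nat_lit 273) (nat_lit 204)) (XT.lf (nat_lit 0) (nat_lit 589520330) (nat_lit 0) (nat_lit 4038520185)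 (nat_lit 168) (nat_lit 589520330) (nat_lit 21) (nat_lit 3) (nat_lit 21) (nat_lit 1) (nat_lit 23) (nat_lit 1) (nat_lit 244) (nat_lit 273) (nat_lit 203)))) (XT.nd (nat_lit 188) (nat_lit 168) (nat_lit 0) (XT.nd (nat_lit 94) (nat_lit 84) (nat_lit 0) (XT.lf (nat_lit 84) (nat_lit 2333072225) (nat_lit 0) (nat_lit 464238800) (nat_lit 168) (nat_lit 2333072225) (nat_lit 20) (nat_lit 1) (nat_lit 19) (nat_lit 1) (nat_lit 21) (nat_lit 1) (nat_lit 245) (nat_lit 273) (nat_lit 202)) (XT.lf (nat_lit 168) (nat_lit 3026945612) (nat_lit 0) (nat_lit 1009143399) (nat_lit 84) (nat_lit 1009143399) (nat_lit 20) (nat_lit 1) (nat_lit 18) (nat_lit 1) (nat_lit 19) (nat_lit 1) (nat_lit 246) (nat_lit 273) (nat_lit 201))) (XT.nd (nat_lit 94) (nat_lit 168) (nat_lit 0) (XT.lf (nat_lit 0) (nat_lit 708090901) (nat_lit 0) (nat_lit 3545591617) (nat_lit 168) (nat_lit 708090901) (nat_lit 18) (nat_lit 3) (nat_lit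 18) (nat_lit 1) (nat_lit 20) (nat_lit 1) (nat_lit 247) (nat_lit 273) (nat_lit 200)) (XT.lf (nat_lit 84) (nat_lit 2354983042) (nat_lit 0) (nat_lit 169462727) (nat_lit 168) (nat_lit 2354983042) (nat_lit 17) (nat_lit 1) (nat_lit 16) (nat_lit 1) (nat_lit 18) (nat_lit 1) (nat_lit 248) (nat_lit 273) (nat_lit 199))))))) (XT.nd (nat_lit 1222) (nat_lit 252) (nat_lit 0) (XT.nd (nat_lit 564) (nat_lit 672) (nat_lit 0) (XT.nd (nat_lit 282) (nat_lit 252) (nat_lit 0) (XT.nd (nat_lit 94) (nat_lit 84) (nat_lit 0) (XT.lf (nat_lit 168) (nat_lit 3138302077) (nat_lit 0) (nat_lit 830224772) (nat_lit 84) (nat_lit 830224772) (nat_lit 17) (nat_lit 1) (nat_lit 15) (nat_lit 1) (nat_lit 16) (nat_lit 1) (nat_lit 249) (nat_lit 273) (nat_lit 198)) (XT.nd (nat_lit 94) (nat_lit 84) (nat_lit 0) (XT.lf (nat_lit 0) (nat_lit 795015818) (nat_lit 0) (nat_lit 3129434680) (nat_lit 168) (nat_lit 795015818) (nat_lit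 15) (nat_lit 3) (nat_lit 15) (nat_lit 1) (nat_lit 17) (nat_lit 1) (nat_lit 250) (nat_lit 273) (nat_lit 197)) (XT.lf (nat_lit 84) (nat_lit 65013609) (nat_lit 0) (nat_lit 2288269667) (nat_lit 84) (nat_lit 2288269667) (nat_lit 15) (nat_lit 3) (nat_lit 14) (nat_lit 1) (nat_lit 15) (nat_lit 1) (nat_lit 251) (nat_lit 273) (nat_lit 196)))) (XT.nd (nat_lit 94) (nat_lit 84) (nat_lit 0) (XT.lf (nat_lit 168) (nat_lit 3199056914) (nat_lit 0) (nat_lit 683027974) (nat_lit 84) (nat_lit 683027974) (nat_lit 14) (nat_lit 1) (nat_lit 12) (nat_lit 1) (nat_lit 13) (nat_lit 1) (nat_lit 252) (nat_lit 273) (nat_lit 195)) (XT.nd (nat_lit 94) (nat_lit 84) (nat_lit 0) (XT.lf (nat_lit 0) (nat_lit 856411655) (nat_lit 0) (nat_lit 2776943829) (nat_lit 168) (nat_lit 856411655) (nat_lit 12) (nat_lit 3) (nat_lit 12) (nat_lit 1) (nat_lit 14) (nat_lit 1) (nat_lit 253) (nat_lit 273) (nat_lit 194)) (XT.lf (nat_lit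 84) (nat_lit 252573318) (nat_lit 0) (nat_lit 2081651579) (nat_lit 84) (nat_lit 2081651579) (nat_lit 12) (nat_lit 3) (nat_lit 11) (nat_lit 1) (nat_lit 12) (nat_lit 1) (nat_lit 254) (nat_lit 273) (nat_lit 193))))) (XT.nd (nat_lit 282) (nat_lit 420) (nat_lit 0) (XT.nd (nat_lit 94) (nat_lit 84) (nat_lit 0) (XT.lf (nat_lit 168) (nat_lit 3219651116) (nat_lit 0) (nat_lit 561928805) (nat_lit 84) (nat_lit 561928805) (nat_lit 11) (nat_lit 1) (nat_lit 9) (nat_lit 1) (nat_lit 10) (nat_lit 1) (nat_lit 255) (nat_lit 273) (nat_lit 192)) (XT.nd (nat_lit 94) (nat_lit 84) (nat_lit 0) (XT.lf (nat_lit 0) (nat_lit 897286439) (nat_lit 0) (nat_lit 2477313012) (nat_lit 168) (nat_lit 897286439) (nat_lit 9) (nat_lit 3) (nat_lit 9) (nat_lit 1) (nat_lit 11) (nat_lit 1) (nat_lit 256) (nat_lit 273) (nat_lit 191)) (XT.lf (nat_lit 84) (nat_lit 397398847) (nat_lit 0) (nat_lit 1902186059) (nat_lit 84) (nat_lit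 1902186059) (nat_lit 9) (nat_lit 3) (nat_lit 8) (nat_lit 1) (nat_lit 9) (nat_lit 1) (nat_lit 257) (nat_lit 273) (nat_lit 190)))) (XT.nd (nat_lit 188) (nat_lit 252) (nat_lit 0) (XT.nd (nat_lit 94) (nat_lit 0) (nat_lit 0) (XT.lf (nat_lit 168) (nat_lit 3208604537) (nat_lit 0) (nat_lit 462300218) (nat_lit 84) (nat_lit 462300218) (nat_lit 8) (nat_lit 1) (nat_lit 6) (nat_lit 1) (nat_lit 7) (nat_lit 1) (nat_lit 258) (nat_lit 273) (nat_lit 189)) (XT.lf (nat_lit 0) (nat_lit 921737346) (nat_lit 0) (nat_lit 2221629118) (nat_lit 168) (nat_lit 921737346) (nat_lit 6) (nat_lit 3) (nat_lit 6) (nat_lit 1) (nat_lit 8) (nat_lit 1) (nat_lit 259) (nat_lit 273) (nat_lit 188))) (XT.nd (nat_lit 94) (nat_lit 168) (nat_lit 0) (XT.lf (nat_lit 84) (nat_lit 507518304) (nat_lit 0) (nat_lit 1745510467) (nat_lit 84) (nat_lit 1745510467) (nat_lit 6) (nat_lit 3) (nat_lit 5) (nat_lit 1) (nat_lit 6) (nat_lit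 1) (nat_lit 260) (nat_lit 273) (nat_lit 187)) (XT.lf (nat_lit 168) (nat_lit 3172859841) (nat_lit 0) (nat_lit 380335534) (nat_lit 84) (nat_lit 380335534) (nat_lit 5) (nat_lit 1) (nat_lit 3) (nat_lit 1) (nat_lit 4) (nat_lit 1) (nat_lit 261) (nat_lit 273) (nat_lit 186)))))) (XT.nd (nat_lit 658) (nat_lit 0) (nat_lit 0) (XT.nd (nat_lit 282) (nat_lit 0) (nat_lit 0) (XT.nd (nat_lit 94) (nat_lit 252) (nat_lit 0) (XT.lf (nat_lit 0) (nat_lit 933113284) (nat_lit 0) (nat_lit 2002537461) (nat_lit 168) (nat_lit 933113284) (nat_lit 3) (nat_lit 3) (nat_lit 3) (nat_lit 1) (nat_lit 5) (nat_lit 1) (nat_lit 262) (nat_lit 273) (nat_lit 185)) (XT.nd (nat_lit 94) (nat_lit 168) (nat_lit 0) (XT.lf (nat_lit 84) (nat_lit 589514935) (nat_lit 0) (nat_lit 1608014152) (nat_lit 84) (nat_lit 1608014152) (nat_lit 3) (nat_lit 3) (nat_lit 2) (nat_lit 1) (nat_lit 3) (nat_lit 1) (nat_lit 263) (nat_lit 273) (nat_lit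 184)) (XT.lf (nat_lit 0) (nat_lit 5438676931) (nat_lit 0) (nat_lit 0) (nat_lit 0) (nat_lit 0) (nat_lit 0) (nat_lit 0) (nat_lit 1) (nat_lit 0) (nat_lit 1) (nat_lit 0) (nat_lit 264) (nat_lit 273) (nat_lit 183)))) (XT.nd (nat_lit 188) (nat_lit 0) (nat_lit 0) (XT.nd (nat_lit 94) (nat_lit 0) (nat_lit 0) (XT.lf (nat_lit 0) (nat_lit 5435508163) (nat_lit 0) (nat_lit 0) (nat_lit 0) (nat_lit 0) (nat_lit 0) (nat_lit 0) (nat_lit 1) (nat_lit 0) (nat_lit 1) (nat_lit 0) (nat_lit 265) (nat_lit 273) (nat_lit 182)) (XT.lf (nat_lit 0) (nat_lit 5432490288) (nat_lit 0) (nat_lit 0) (nat_lit 0) (nat_lit 0) (nat_lit 0) (nat_lit 0) (nat_lit 1) (nat_lit 0) (nat_lit 1) (nat_lit 0) (nat_lit 266) (nat_lit 273) (nat_lit 181))) (XT.nd (nat_lit 94) (nat_lit 0) (nat_lit 0) (XT.lf (nat_lit 0) (nat_lit 5429616121) (nat_lit 0) (nat_lit 0) (nat_lit 0) (nat_lit 0) (nat_lit 0) (nat_lit 0) (nat_lit 1) (nat_lit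 0) (nat_lit 1) (nat_lit 0) (nat_lit 267) (nat_lit 273) (nat_lit 180)) (XT.lf (nat_lit 0) (nat_lit 5426878820) (nat_lit 0) (nat_lit 0) (nat_lit 0) (nat_lit 0) (nat_lit 0) (nat_lit 0) (nat_lit 1) (nat_lit 0) (nat_lit 1) (nat_lit 0) (nat_lit 268) (nat_lit 273) (nat_lit 179))))) (XT.nd (nat_lit 282) (nat_lit 0) (nat_lit 0) (XT.nd (nat_lit 94) (nat_lit 0) (nat_lit 0) (XT.lf (nat_lit 0) (nat_lit 5424271866) (nat_lit 0) (nat_lit 0) (nat_lit 0) (nat_lit 0) (nat_lit 0) (nat_lit 0) (nat_lit 1) (nat_lit 0) (nat_lit 1) (nat_lit 0) (nat_lit 269) (nat_lit 273) (nat_lit 178)) (XT.nd (nat_lit 94) (nat_lit 0) (nat_lit 0) (XT.lf (nat_lit 0) (nat_lit 5421789053) (nat_lit 0) (nat_lit 0) (nat_lit 0) (nat_lit 0) (nat_lit 0) (nat_lit 0) (nat_lit 1) (nat_lit 0) (nat_lit 1) (nat_lit 0) (nat_lit 270) (nat_lit 273) (nat_lit 177)) (XT.lf (nat_lit 0) (nat_lit 5419424469) (nat_lit 0) (nat_lit 0) (nat_lit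 0) (nat_lit 0) (nat_lit 0) (nat_lit 0) (nat_lit 1) (nat_lit 0) (nat_lit 1) (nat_lit 0) (nat_lit 271) (nat_lit 273) (nat_lit 176)))) (XT.nd (nat_lit 188) (nat_lit 0) (nat_lit 0) (XT.nd (nat_lit 94) (nat_lit 0) (nat_lit 0) (XT.lf (nat_lit 0) (nat_lit 5417172484) (nat_lit 0) (nat_lit 0) (nat_lit 0) (nat_lit 0) (nat_lit 0) (nat_lit 0) (nat_lit 1) (nat_lit 0) (nat_lit 1) (nat_lit 0) (nat_lit 272) (nat_lit 273) (nat_lit 175)) (XT.lf (nat_lit 0) (nat_lit 5415027737) (nat_lit 0) (nat_lit 0) (nat_lit 0) (nat_lit 0) (nat_lit 0) (nat_lit 0) (nat_lit 1) (nat_lit 0) (nat_lit 1) (nat_lit 0) (nat_lit 273) (nat_lit 273) (nat_lit 174))) (XT.nd (nat_lit 94) (nat_lit 0) (nat_lit 0) (XT.lf (nat_lit 0) (nat_lit 5412985120) (nat_lit 0) (nat_lit 0) (nat_lit 0) (nat_lit 0) (nat_lit 0) (nat_lit 0) (nat_lit 1) (nat_lit 0) (nat_lit 1) (nat_lit 0) (nat_lit 274) (nat_lit 273) (nat_lit 173)) (XT.lf (nat_lit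 0) (nat_lit 5411039771) (nat_lit 0) (nat_lit 0) (nat_lit 0) (nat_lit 0) (nat_lit 0) (nat_lit 0) (nat_lit 1) (nat_lit 0) (nat_lit 1) (nat_lit 0) (nat_lit 275) (nat_lit 273) (nat_lit 172))))))))
noncomputable def ec99 : XT := (XT.nd (nat_lit 2538) (nat_lit 0) (nat_lit 0) (XT.nd (nat_lit 1222) (nat_lit 0) (nat_lit 0) (XT.nd (nat_lit 564) (nat_lit 0) (nat_lit 0) (XT.nd (nat_lit 282) (nat_lit 0) (nat_lit 0) (XT.nd (nat_lit 94) (nat_lit 0) (nat_lit 0) (XT.lf (nat_lit 0) (nat_lit 5409187058) (nat_lit 0) (nat_lit 0) (nat_lit 0) (nat_lit 0) (nat_lit 0) (nat_lit 0) (nat_lit 1) (nat_lit 0) (nat_lit 1) (nat_lit 0) (nat_lit 276) (nat_lit 273) (nat_lit 171)) (XT.nd (nat_lit 94) (nat_lit 0) (nat_lit 0) (XT.lf (nat_lit 0) (nat_lit 5407422569) (nat_lit 0) (nat_lit 0) (nat_lit 0) (nat_lit 0) (nat_lit 0) (nat_lit 0) (nat_lit 1) (nat_lit 0) (nat_lit 1) (nat_lit 0) (nat_lit 277) (nat_lit 273)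 (nat_lit 170)) (XT.lf (nat_lit 0) (nat_lit 5405742103) (nat_lit 0) (nat_lit 0) (nat_lit 0) (nat_lit 0) (nat_lit 0) (nat_lit 0) (nat_lit 1) (nat_lit 0) (nat_lit 1) (nat_lit 0) (nat_lit 278) (nat_lit 273) (nat_lit 169)))) (XT.nd (nat_lit 94) (nat_lit 0) (nat_lit 0) (XT.lf (nat_lit 0) (nat_lit 5404141660) (nat_lit 0) (nat_lit 0) (nat_lit 0) (nat_lit 0) (nat_lit 0) (nat_lit 0) (nat_lit 1) (nat_lit 0) (nat_lit 1) (nat_lit 0) (nat_lit 279) (nat_lit 273) (nat_lit 168)) (XT.nd (nat_lit 94) (nat_lit 0) (nat_lit 0) (XT.lf (nat_lit 0) (nat_lit 5402617428) (nat_lit 0) (nat_lit 0) (nat_lit 0) (nat_lit 0) (nat_lit 0) (nat_lit 0) (nat_lit 1) (nat_lit 0) (nat_lit 1) (nat_lit 0) (nat_lit 280) (nat_lit 273) (nat_lit 167)) (XT.lf (nat_lit 0) (nat_lit 5401165779) (nat_lit 0) (nat_lit 0) (nat_lit 0) (nat_lit 0) (nat_lit 0) (nat_lit 0) (nat_lit 1) (nat_lit 0) (nat_lit 1) (nat_lit 0) (nat_lit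 281) (nat_lit 273) (nat_lit 166))))) (XT.nd (nat_lit 282) (nat_lit 0) (nat_lit 0) (XT.nd (nat_lit 94) (nat_lit 0) (nat_lit 0) (XT.lf (nat_lit 0) (nat_lit 5399783255) (nat_lit 0) (nat_lit 0) (nat_lit 0) (nat_lit 0) (nat_lit 0) (nat_lit 0) (nat_lit 1) (nat_lit 0) (nat_lit 1) (nat_lit 0) (nat_lit 282) (nat_lit 273) (nat_lit 165)) (XT.nd (nat_lit 94) (nat_lit 0) (nat_lit 0) (XT.lf (nat_lit 0) (nat_lit 5398466567) (nat_lit 0) (nat_lit 0) (nat_lit 0) (nat_lit 0) (nat_lit 0) (nat_lit 0) (nat_lit 1) (nat_lit 0) (nat_lit 1) (nat_lit 0) (nat_lit 283) (nat_lit 273) (nat_lit 164)) (XT.lf (nat_lit 0) (nat_lit 5397212577) (nat_lit 0) (nat_lit 0) (nat_lit 0) (nat_lit 0) (nat_lit 0) (nat_lit 0) (nat_lit 1) (nat_lit 0) (nat_lit 1) (nat_lit 0) (nat_lit 284) (nat_lit 273) (nat_lit 163)))) (XT.nd (nat_lit 188) (nat_lit 0) (nat_lit 0) (XT.nd (nat_lit 94) (nat_lit 0) (nat_lit 0) (XT.lf (nat_lit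 0) (nat_lit 5396018302) (nat_lit 0) (nat_lit 0) (nat_lit 0) (nat_lit 0) (nat_lit 0) (nat_lit 0) (nat_lit 1) (nat_lit 0) (nat_lit 1) (nat_lit 0) (nat_lit 285) (nat_lit 273) (nat_lit 162)) (XT.lf (nat_lit 0) (nat_lit 5394880896) (nat_lit 0) (nat_lit 0) (nat_lit 0) (nat_lit 0) (nat_lit 0) (nat_lit 0) (nat_lit 1) (nat_lit 0) (nat_lit 1) (nat_lit 0) (nat_lit 286) (nat_lit 273) (nat_lit 161))) (XT.nd (nat_lit 94) (nat_lit 0) (nat_lit 0) (XT.lf (nat_lit 0) (nat_lit 5393797653) (nat_lit 0) (nat_lit 0) (nat_lit 0) (nat_lit 0) (nat_lit 0) (nat_lit 0) (nat_lit 1) (nat_lit 0) (nat_lit 1) (nat_lit 0) (nat_lit 287) (nat_lit 273) (nat_lit 160)) (XT.lf (nat_lit 0) (nat_lit 5392765993) (nat_lit 0) (nat_lit 0) (nat_lit 0) (nat_lit 0) (nat_lit 0) (nat_lit 0) (nat_lit 1) (nat_lit 0) (nat_lit 1) (nat_lit 0) (nat_lit 288) (nat_lit 273) (nat_lit 159)))))) (XT.nd (nat_lit 658) (nat_lit 0) (nat_lit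 0) (XT.nd (nat_lit 282) (nat_lit 0) (nat_lit 0) (XT.nd (nat_lit 94) (nat_lit 0) (nat_lit 0) (XT.lf (nat_lit 0) (nat_lit 5391783460) (nat_lit 0) (nat_lit 0) (nat_lit 0) (nat_lit 0) (nat_lit 0) (nat_lit 0) (nat_lit 1) (nat_lit 0) (nat_lit 1) (nat_lit 0) (nat_lit 289) (nat_lit 273) (nat_lit 158)) (XT.nd (nat_lit 94) (nat_lit 0) (nat_lit 0) (XT.lf (nat_lit 0) (nat_lit 5390847713) (nat_lit 0) (nat_lit 0) (nat_lit 0) (nat_lit 0) (nat_lit 0) (nat_lit 0) (nat_lit 1) (nat_lit 0) (nat_lit 1) (nat_lit 0) (nat_lit 290) (nat_lit 273) (nat_lit 157)) (XT.lf (nat_lit 0) (nat_lit 5389956527) (nat_lit 0) (nat_lit 0) (nat_lit 0) (nat_lit 0) (nat_lit 0) (nat_lit 0) (nat_lit 1) (nat_lit 0) (nat_lit 1) (nat_lit 0) (nat_lit 291) (nat_lit 273) (nat_lit 156)))) (XT.nd (nat_lit 188) (nat_lit 0) (nat_lit 0) (XT.nd (nat_lit 94) (nat_lit 0) (nat_lit 0) (XT.lf (nat_lit 0) (nat_lit 5389107777) (nat_lit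 0) (nat_lit 0) (nat_lit 0) (nat_lit 0) (nat_lit 0) (nat_lit 0) (nat_lit 1) (nat_lit 0) (nat_lit 1) (nat_lit 0) (nat_lit 292) (nat_lit 273) (nat_lit 155)) (XT.lf (nat_lit 0) (nat_lit 5388299445) (nat_lit 0) (nat_lit 0) (nat_lit 0) (nat_lit 0) (nat_lit 0) (nat_lit 0) (nat_lit 1) (nat_lit 0) (nat_lit 1) (nat_lit 0) (nat_lit 293) (nat_lit 273) (nat_lit 154))) (XT.nd (nat_lit 94) (nat_lit 0) (nat_lit 0) (XT.lf (nat_lit 0) (nat_lit 5387529604) (nat_lit 0) (nat_lit 0) (nat_lit 0) (nat_lit 0) (nat_lit 0) (nat_lit 0) (nat_lit 1) (nat_lit 0) (nat_lit 1) (nat_lit 0) (nat_lit 294) (nat_lit 273) (nat_lit 153)) (XT.lf (nat_lit 0) (nat_lit 5386796422) (nat_lit 0) (nat_lit 0) (nat_lit 0) (nat_lit 0) (nat_lit 0) (nat_lit 0) (nat_lit 1) (nat_lit 0) (nat_lit 1) (nat_lit 0) (nat_lit 295) (nat_lit 273) (nat_lit 152))))) (XT.nd (nat_lit 282) (nat_lit 0) (nat_lit 0) (XT.nd (nat_lit 94) (nat_lit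 0) (nat_lit 0) (XT.lf (nat_lit 0) (nat_lit 5386098154) (nat_lit 0) (nat_lit 0) (nat_lit 0) (nat_lit 0) (nat_lit 0) (nat_lit 0) (nat_lit 1) (nat_lit 0) (nat_lit 1) (nat_lit 0) (nat_lit 296) (nat_lit 273) (nat_lit 151)) (XT.nd (nat_lit 94) (nat_lit 0) (nat_lit 0) (XT.lf (nat_lit 0) (nat_lit 5385433137) (nat_lit 0) (nat_lit 0) (nat_lit 0) (nat_lit 0) (nat_lit 0) (nat_lit 0) (nat_lit 1) (nat_lit 0) (nat_lit 1) (nat_lit 0) (nat_lit 297) (nat_lit 273) (nat_lit 150)) (XT.lf (nat_lit 0) (nat_lit 5384799787) (nat_lit 0) (nat_lit 0) (nat_lit 0) (nat_lit 0) (nat_lit 0) (nat_lit 0) (nat_lit 1) (nat_lit 0) (nat_lit 1) (nat_lit 0) (nat_lit 298) (nat_lit 273) (nat_lit 149)))) (XT.nd (nat_lit 188) (nat_lit 0) (nat_lit 0) (XT.nd (nat_lit 94) (nat_lit 0) (nat_lit 0) (XT.lf (nat_lit 0) (nat_lit 5384196597) (nat_lit 0) (nat_lit 0) (nat_lit 0) (nat_lit 0) (nat_lit 0) (nat_lit 0) (nat_lit 1)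 (nat_lit 0) (nat_lit 1) (nat_lit 0) (nat_lit 299) (nat_lit 273) (nat_lit 148)) (XT.lf (nat_lit 0) (nat_lit 5383622130) (nat_lit 0) (nat_lit 0) (nat_lit 0) (nat_lit 0) (nat_lit 0) (nat_lit 0) (nat_lit 1) (nat_lit 0) (nat_lit 1) (nat_lit 0) (nat_lit 300) (nat_lit 273) (nat_lit 147))) (XT.nd (nat_lit 94) (nat_lit 0) (nat_lit 0) (XT.lf (nat_lit 0) (nat_lit 5383075018) (nat_lit 0) (nat_lit 0) (nat_lit 0) (nat_lit 0) (nat_lit 0) (nat_lit 0) (nat_lit 1) (nat_lit 0) (nat_lit 1) (nat_lit 0) (nat_lit 301) (nat_lit 273) (nat_lit 146)) (XT.lf (nat_lit 0) (nat_lit 5382553960) (nat_lit 0) (nat_lit 0) (nat_lit 0) (nat_lit 0) (nat_lit 0) (nat_lit 0) (nat_lit 1) (nat_lit 0) (nat_lit 1) (nat_lit 0) (nat_lit 302) (nat_lit 273) (nat_lit 145))))))) (XT.nd (nat_lit 32994) (nat_lit 0) (nat_lit 9324) (XT.nd (nat_lit 658) (nat_lit 0) (nat_lit 0) (XT.nd (nat_lit 282) (nat_lit 0) (nat_lit 0) (XT.nd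 (nat_lit 94) (nat_lit 0) (nat_lit 0) (XT.lf (nat_lit 0) (nat_lit 5382057714) (nat_lit 0) (nat_lit 0) (nat_lit 0) (nat_lit 0) (nat_lit 0) (nat_lit 0) (nat_lit 1) (nat_lit 0) (nat_lit 1) (nat_lit 0) (nat_lit 303) (nat_lit 273) (nat_lit 144)) (XT.nd (nat_lit 94) (nat_lit 0) (nat_lit 0) (XT.lf (nat_lit 0) (nat_lit 5381585098) (nat_lit 0) (nat_lit 0) (nat_lit 0) (nat_lit 0) (nat_lit 0) (nat_lit 0) (nat_lit 1) (nat_lit 0) (nat_lit 1) (nat_lit 0) (nat_lit 304) (nat_lit 273) (nat_lit 143)) (XT.lf (nat_lit 0) (nat_lit 5381134988) (nat_lit 0) (nat_lit 0) (nat_lit 0) (nat_lit 0) (nat_lit 0) (nat_lit 0) (nat_lit 1) (nat_lit 0) (nat_lit 1) (nat_lit 0) (nat_lit 305) (nat_lit 273) (nat_lit 142)))) (XT.nd (nat_lit 188) (nat_lit 0) (nat_lit 0) (XT.nd (nat_lit 94) (nat_lit 0) (nat_lit 0) (XT.lf (nat_lit 0) (nat_lit 5380706312) (nat_lit 0) (nat_lit 0) (nat_lit 0) (nat_lit 0) (nat_lit 0) (nat_lit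 0) (nat_lit 1) (nat_lit 0) (nat_lit 1) (nat_lit 0) (nat_lit 306) (nat_lit 273) (nat_lit 141)) (XT.lf (nat_lit 0) (nat_lit 5380298049) (nat_lit 0) (nat_lit 0) (nat_lit 0) (nat_lit 0) (nat_lit 0) (nat_lit 0) (nat_lit 1) (nat_lit 0) (nat_lit 1) (nat_lit 0) (nat_lit 307) (nat_lit 273) (nat_lit 140))) (XT.nd (nat_lit 94) (nat_lit 0) (nat_lit 0) (XT.lf (nat_lit 0) (nat_lit 5379909227) (nat_lit 0) (nat_lit 0) (nat_lit 0) (nat_lit 0) (nat_lit 0) (nat_lit 0) (nat_lit 1) (nat_lit 0) (nat_lit 1) (nat_lit 0) (nat_lit 308) (nat_lit 273) (nat_lit 139)) (XT.lf (nat_lit 0) (nat_lit 5379538921) (nat_lit 0) (nat_lit 0) (nat_lit 0) (nat_lit 0) (nat_lit 0) (nat_lit 0) (nat_lit 1) (nat_lit 0) (nat_lit 1) (nat_lit 0) (nat_lit 309) (nat_lit 273) (nat_lit 138))))) (XT.nd (nat_lit 282) (nat_lit 0) (nat_lit 0) (XT.nd (nat_lit 94) (nat_lit 0) (nat_lit 0) (XT.lf (nat_lit 0) (nat_lit 5379186248) (nat_lit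 0) (nat_lit 0) (nat_lit 0) (nat_lit 0) (nat_lit 0) (nat_lit 0) (nat_lit 1) (nat_lit 0) (nat_lit 1) (nat_lit 0) (nat_lit 310) (nat_lit 273) (nat_lit 137)) (XT.nd (nat_lit 94) (nat_lit 0) (nat_lit 0) (XT.lf (nat_lit 0) (nat_lit 5378850369) (nat_lit 0) (nat_lit 0) (nat_lit 0) (nat_lit 0) (nat_lit 0) (nat_lit 0) (nat_lit 1) (nat_lit 0) (nat_lit 1) (nat_lit 0) (nat_lit 311) (nat_lit 273) (nat_lit 136)) (XT.lf (nat_lit 0) (nat_lit 5378530484) (nat_lit 0) (nat_lit 0) (nat_lit 0) (nat_lit 0) (nat_lit 0) (nat_lit 0) (nat_lit 1) (nat_lit 0) (nat_lit 1) (nat_lit 0) (nat_lit 312) (nat_lit 273) (nat_lit 135)))) (XT.nd (nat_lit 188) (nat_lit 0) (nat_lit 0) (XT.nd (nat_lit 94) (nat_lit 0) (nat_lit 0) (XT.lf (nat_lit 0) (nat_lit 5378225832) (nat_lit 0) (nat_lit 0) (nat_lit 0) (nat_lit 0) (nat_lit 0) (nat_lit 0) (nat_lit 1) (nat_lit 0) (nat_lit 1) (nat_lit 0) (nat_lit 313) (nat_lit 273)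 (nat_lit 134)) (XT.lf (nat_lit 0) (nat_lit 5377935687) (nat_lit 0) (nat_lit 0) (nat_lit 0) (nat_lit 0) (nat_lit 0) (nat_lit 0) (nat_lit 1) (nat_lit 0) (nat_lit 1) (nat_lit 0) (nat_lit 314) (nat_lit 273) (nat_lit 133))) (XT.nd (nat_lit 31772) (nat_lit 0) (nat_lit 10752) (XT.lf (nat_lit 0) (nat_lit 5377659359) (nat_lit 0) (nat_lit 0) (nat_lit 0) (nat_lit 0) (nat_lit 0) (nat_lit 0) (nat_lit 1) (nat_lit 0) (nat_lit 1) (nat_lit 0) (nat_lit 315) (nat_lit 273) (nat_lit 132)) (XT.lf (nat_lit 924) (nat_lit 2822837299) (nat_lit 0) (nat_lit 5011941136) (nat_lit 924) (nat_lit 2822837299) (nat_lit 139) (nat_lit 1) (nat_lit 128) (nat_lit 0) (nat_lit 139) (nat_lit 0) (nat_lit 172) (nat_lit 274) (nat_lit 274)))))) (XT.nd (nat_lit 658) (nat_lit 1428) (nat_lit 0) (XT.nd (nat_lit 282) (nat_lit 0) (nat_lit 168) (XT.nd (nat_lit 94) (nat_lit 0) (nat_lit 84) (XT.lf (nat_lit 924) (nat_lit 10941669790)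 (nat_lit 84) (nat_lit 4931103376) (nat_lit 0) (nat_lit 4931103376) (nat_lit 139) (nat_lit 1) (nat_lit 129) (nat_lit 1) (nat_lit 128) (nat_lit 0) (nat_lit 173) (nat_lit 274) (nat_lit 273)) (XT.nd (nat_lit 94) (nat_lit 0) (nat_lit 0) (XT.lf (nat_lit 924) (nat_lit 5214635073) (nat_lit 0) (nat_lit 9879060196) (nat_lit 840) (nat_lit 5214635073) (nat_lit 140) (nat_lit 1) (nat_lit 129) (nat_lit 1) (nat_lit 139) (nat_lit 1) (nat_lit 174) (nat_lit 274) (nat_lit 272)) (XT.lf (nat_lit 924) (nat_lit 9781930806) (nat_lit 84) (nat_lit 5023431585) (nat_lit 0) (nat_lit 5023431585) (nat_lit 140) (nat_lit 1) (nat_lit 130) (nat_lit 1) (nat_lit 129) (nat_lit 1) (nat_lit 175) (nat_lit 274) (nat_lit 271)))) (XT.nd (nat_lit 188) (nat_lit 0) (nat_lit 84) (XT.nd (nat_lit 94) (nat_lit 0) (nat_lit 0) (XT.lf (nat_lit 924) (nat_lit 4502528813) (nat_lit 0) (nat_lit 10359398882) (nat_lit 840) (nat_lit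 4502528813) (nat_lit 141) (nat_lit 1) (nat_lit 130) (nat_lit 1) (nat_lit 140) (nat_lit 1) (nat_lit 176) (nat_lit 274) (nat_lit 270)) (XT.lf (nat_lit 924) (nat_lit 8098091329) (nat_lit 84) (nat_lit 5408091245) (nat_lit 0) (nat_lit 5408091245) (nat_lit 141) (nat_lit 1) (nat_lit 131) (nat_lit 1) (nat_lit 130) (nat_lit 1) (nat_lit 177) (nat_lit 274) (nat_lit 269))) (XT.nd (nat_lit 94) (nat_lit 0) (nat_lit 0) (XT.lf (nat_lit 924) (nat_lit 3550779153) (nat_lit 0) (nat_lit 11377648400) (nat_lit 840) (nat_lit 3550779153) (nat_lit 142) (nat_lit 1) (nat_lit 131) (nat_lit 1) (nat_lit 141) (nat_lit 1) (nat_lit 178) (nat_lit 274) (nat_lit 268)) (XT.lf (nat_lit 924) (nat_lit 5968968781) (nat_lit 84) (nat_lit 6043574851) (nat_lit 0) (nat_lit 6043574851) (nat_lit 142) (nat_lit 1) (nat_lit 132) (nat_lit 1) (nat_lit 131) (nat_lit 1) (nat_lit 179) (nat_lit 274) (nat_lit 267))))) (XT.nd (nat_lit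 282) (nat_lit 1764) (nat_lit 0) (XT.nd (nat_lit 94) (nat_lit 0) (nat_lit 0) (XT.lf (nat_lit 924) (nat_lit 2396230071) (nat_lit 0) (nat_lit 12856057559) (nat_lit 840) (nat_lit 2396230071) (nat_lit 143) (nat_lit 1) (nat_lit 132) (nat_lit 1) (nat_lit 142) (nat_lit 1) (nat_lit 180) (nat_lit 274) (nat_lit 266)) (XT.nd (nat_lit 94) (nat_lit 0) (nat_lit 84) (XT.lf (nat_lit 924) (nat_lit 3464619957) (nat_lit 84) (nat_lit 6892916219) (nat_lit 0) (nat_lit 6892916219) (nat_lit 143) (nat_lit 1) (nat_lit 133) (nat_lit 1) (nat_lit 132) (nat_lit 1) (nat_lit 181) (nat_lit 274) (nat_lit 265)) (XT.lf (nat_lit 84) (nat_lit 1071606604) (nat_lit 0) (nat_lit 14725424751) (nat_lit 840) (nat_lit 1071606604) (nat_lit 134) (nat_lit 1) (nat_lit 133) (nat_lit 1) (nat_lit 143) (nat_lit 1) (nat_lit 182) (nat_lit 274) (nat_lit 264)))) (XT.nd (nat_lit 188) (nat_lit 420) (nat_lit 0) (XT.nd (nat_lit 94)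 (nat_lit 588) (nat_lit 0) (XT.lf (nat_lit 924) (nat_lit 647223740) (nat_lit 0) (nat_lit 7923235787) (nat_lit 840) (nat_lit 7923235787) (nat_lit 134) (nat_lit 1) (nat_lit 123) (nat_lit 1) (nat_lit 133) (nat_lit 1) (nat_lit 183) (nat_lit 274) (nat_lit 263)) (XT.lf (nat_lit 588) (nat_lit 15359434456) (nat_lit 0) (nat_lit 387713225) (nat_lit 504) (nat_lit 387713225) (nat_lit 123) (nat_lit 1) (nat_lit 116) (nat_lit 1) (nat_lit 122) (nat_lit 1) (nat_lit 184) (nat_lit 274) (nat_lit 262))) (XT.nd (nat_lit 94) (nat_lit 420) (nat_lit 0) (XT.lf (nat_lit 84) (nat_lit 6715118012) (nat_lit 0) (nat_lit 2350406447) (nat_lit 588) (nat_lit 6715118012) (nat_lit 117) (nat_lit 1) (nat_lit 116) (nat_lit 1) (nat_lit 123) (nat_lit 1) (nat_lit 185) (nat_lit 274) (nat_lit 261)) (XT.lf (nat_lit 504) (nat_lit 11554994403) (nat_lit 0) (nat_lit 1943245975) (nat_lit 420) (nat_lit 1943245975) (nat_lit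 117) (nat_lit 1) (nat_lit 111) (nat_lit 1) (nat_lit 116) (nat_lit 1) (nat_lit 186) (nat_lit 274) (nat_lit 260))))))))
noncomputable def ec100 : XT := (XT.nd (nat_lit 2538) (nat_lit 2772) (nat_lit 0) (XT.nd (nat_lit 1222) (nat_lit 2184) (nat_lit 0) (XT.nd (nat_lit 564) (nat_lit 1344) (nat_lit 0) (XT.nd (nat_lit 282) (nat_lit 756) (nat_lit 0) (XT.nd (nat_lit 94) (nat_lit 420) (nat_lit 0) (XT.lf (nat_lit 84) (nat_lit 4789811932) (nat_lit 0) (nat_lit 5529836370) (nat_lit 504) (nat_lit 4789811932) (nat_lit 112) (nat_lit 1) (nat_lit 111) (nat_lit 1) (nat_lit 117) (nat_lit 1) (nat_lit 187) (nat_lit 274) (nat_lit 259)) (XT.nd (nat_lit 94) (nat_lit 0) (nat_lit 0) (XT.lf (nat_lit 504) (nat_lit 7609127679) (nat_lit 0) (nat_lit 3589935008) (nat_lit 420) (nat_lit 3589935008) (nat_lit 112) (nat_lit 1) (nat_lit 106) (nat_lit 1) (nat_lit 111) (nat_lit 1) (nat_lit 188) (nat_lit 274) (nat_lit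 258)) (XT.lf (nat_lit 84) (nat_lit 2803862424) (nat_lit 0) (nat_lit 8870130440) (nat_lit 504) (nat_lit 2803862424) (nat_lit 107) (nat_lit 1) (nat_lit 106) (nat_lit 1) (nat_lit 112) (nat_lit 1) (nat_lit 189) (nat_lit 274) (nat_lit 257)))) (XT.nd (nat_lit 94) (nat_lit 420) (nat_lit 0) (XT.lf (nat_lit 420) (nat_lit 3558560294) (nat_lit 0) (nat_lit 5308078098) (nat_lit 336) (nat_lit 5308078098) (nat_lit 107) (nat_lit 1) (nat_lit 102) (nat_lit 1) (nat_lit 106) (nat_lit 1) (nat_lit 190) (nat_lit 274) (nat_lit 256)) (XT.nd (nat_lit 94) (nat_lit 420) (nat_lit 0) (XT.lf (nat_lit 84) (nat_lit 774318975) (nat_lit 0) (nat_lit 12334596968) (nat_lit 420) (nat_lit 774318975) (nat_lit 103) (nat_lit 1) (nat_lit 102) (nat_lit 1) (nat_lit 107) (nat_lit 1) (nat_lit 191) (nat_lit 274) (nat_lit 255)) (XT.lf (nat_lit 84) (nat_lit 6524634185) (nat_lit 0) (nat_lit 546450787) (nat_lit 420) (nat_lit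 6524634185) (nat_lit 98) (nat_lit 1) (nat_lit 97) (nat_lit 1) (nat_lit 102) (nat_lit 1) (nat_lit 192) (nat_lit 274) (nat_lit 254))))) (XT.nd (nat_lit 282) (nat_lit 672) (nat_lit 0) (XT.nd (nat_lit 94) (nat_lit 336) (nat_lit 0) (XT.lf (nat_lit 420) (nat_lit 10792773888) (nat_lit 0) (nat_lit 1263189407) (nat_lit 336) (nat_lit 1263189407) (nat_lit 98) (nat_lit 1) (nat_lit 93) (nat_lit 1) (nat_lit 97) (nat_lit 1) (nat_lit 193) (nat_lit 274) (nat_lit 253)) (XT.nd (nat_lit 94) (nat_lit 336) (nat_lit 0) (XT.lf (nat_lit 84) (nat_lit 4233400402) (nat_lit 0) (nat_lit 4580530001) (nat_lit 420) (nat_lit 4233400402) (nat_lit 94) (nat_lit 1) (nat_lit 93) (nat_lit 1) (nat_lit 98) (nat_lit 1) (nat_lit 194) (nat_lit 274) (nat_lit 252)) (XT.lf (nat_lit 420) (nat_lit 6177708827) (nat_lit 0) (nat_lit 3303612954) (nat_lit 336) (nat_lit 3303612954) (nat_lit 94) (nat_lit 1) (nat_lit 89) (nat_lit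 1) (nat_lit 93) (nat_lit 1) (nat_lit 195) (nat_lit 274) (nat_lit 251)))) (XT.nd (nat_lit 188) (nat_lit 420) (nat_lit 0) (XT.nd (nat_lit 94) (nat_lit 252) (nat_lit 0) (XT.lf (nat_lit 84) (nat_lit 1948173657) (nat_lit 0) (nat_lit 8633863836) (nat_lit 420) (nat_lit 1948173657) (nat_lit 90) (nat_lit 1) (nat_lit 89) (nat_lit 1) (nat_lit 94) (nat_lit 1) (nat_lit 196) (nat_lit 274) (nat_lit 250)) (XT.lf (nat_lit 336) (nat_lit 1584366196) (nat_lit 0) (nat_lit 5348309915) (nat_lit 252) (nat_lit 5348309915) (nat_lit 90) (nat_lit 1) (nat_lit 86) (nat_lit 1) (nat_lit 89) (nat_lit 1) (nat_lit 197) (nat_lit 274) (nat_lit 249))) (XT.nd (nat_lit 94) (nat_lit 0) (nat_lit 0) (XT.lf (nat_lit 420) (nat_lit 11408263901) (nat_lit 0) (nat_lit 316557433) (nat_lit 336) (nat_lit 316557433) (nat_lit 86) (nat_lit 1) (nat_lit 81) (nat_lit 1) (nat_lit 85) (nat_lit 1) (nat_lit 198) (nat_lit 274) (nat_lit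 248)) (XT.lf (nat_lit 84) (nat_lit 4464138004) (nat_lit 0) (nat_lit 2874821695) (nat_lit 420) (nat_lit 4464138004) (nat_lit 82) (nat_lit 1) (nat_lit 81) (nat_lit 1) (nat_lit 86) (nat_lit 1) (nat_lit 199) (nat_lit 274) (nat_lit 247)))))) (XT.nd (nat_lit 658) (nat_lit 1092) (nat_lit 0) (XT.nd (nat_lit 282) (nat_lit 588) (nat_lit 0) (XT.nd (nat_lit 94) (nat_lit 252) (nat_lit 0) (XT.lf (nat_lit 336) (nat_lit 6520014686) (nat_lit 0) (nat_lit 2526970333) (nat_lit 252) (nat_lit 2526970333) (nat_lit 82) (nat_lit 1) (nat_lit 78) (nat_lit 1) (nat_lit 81) (nat_lit 1) (nat_lit 200) (nat_lit 274) (nat_lit 246)) (XT.nd (nat_lit 94) (nat_lit 252) (nat_lit 0) (XT.lf (nat_lit 84) (nat_lit 2059773493) (nat_lit 0) (nat_lit 7231087770) (nat_lit 336) (nat_lit 2059773493) (nat_lit 79) (nat_lit 1) (nat_lit 78) (nat_lit 1) (nat_lit 82) (nat_lit 1) (nat_lit 201) (nat_lit 274) (nat_lit 245)) (XT.lf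 (nat_lit 336) (nat_lit 1716756826) (nat_lit 0) (nat_lit 4707818909) (nat_lit 252) (nat_lit 4707818909) (nat_lit 79) (nat_lit 1) (nat_lit 75) (nat_lit 1) (nat_lit 78) (nat_lit 1) (nat_lit 202) (nat_lit 274) (nat_lit 244)))) (XT.nd (nat_lit 188) (nat_lit 252) (nat_lit 0) (XT.nd (nat_lit 94) (nat_lit 0) (nat_lit 0) (XT.lf (nat_lit 336) (nat_lit 10332177641) (nat_lit 0) (nat_lit 295042394) (nat_lit 252) (nat_lit 295042394) (nat_lit 75) (nat_lit 1) (nat_lit 71) (nat_lit 1) (nat_lit 74) (nat_lit 1) (nat_lit 203) (nat_lit 274) (nat_lit 243)) (XT.lf (nat_lit 84) (nat_lit 3908366906) (nat_lit 0) (nat_lit 2896060633) (nat_lit 336) (nat_lit 3908366906) (nat_lit 72) (nat_lit 1) (nat_lit 71) (nat_lit 1) (nat_lit 75) (nat_lit 1) (nat_lit 204) (nat_lit 274) (nat_lit 242))) (XT.nd (nat_lit 94) (nat_lit 0) (nat_lit 0) (XT.lf (nat_lit 336) (nat_lit 5374362369) (nat_lit 0) (nat_lit 2568357221)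 (nat_lit 252) (nat_lit 2568357221) (nat_lit 72) (nat_lit 1) (nat_lit 68) (nat_lit 1) (nat_lit 71) (nat_lit 1) (nat_lit 205) (nat_lit 274) (nat_lit 241)) (XT.lf (nat_lit 84) (nat_lit 1480095013) (nat_lit 0) (nat_lit 7354579310) (nat_lit 336) (nat_lit 1480095013) (nat_lit 69) (nat_lit 1) (nat_lit 68) (nat_lit 1) (nat_lit 72) (nat_lit 1) (nat_lit 206) (nat_lit 274) (nat_lit 240))))) (XT.nd (nat_lit 282) (nat_lit 588) (nat_lit 0) (XT.nd (nat_lit 94) (nat_lit 336) (nat_lit 0) (XT.lf (nat_lit 252) (nat_lit 542356025) (nat_lit 0) (nat_lit 4789902566) (nat_lit 168) (nat_lit 4789902566) (nat_lit 69) (nat_lit 1) (nat_lit 66) (nat_lit 1) (nat_lit 68) (nat_lit 1) (nat_lit 207) (nat_lit 274) (nat_lit 239)) (XT.nd (nat_lit 94) (nat_lit 0) (nat_lit 0) (XT.lf (nat_lit 336) (nat_lit 8194817679) (nat_lit 0) (nat_lit 870349036) (nat_lit 252) (nat_lit 870349036) (nat_lit 66) (nat_lit 1) (nat_lit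 62) (nat_lit 1) (nat_lit 65) (nat_lit 1) (nat_lit 208) (nat_lit 274) (nat_lit 238)) (XT.lf (nat_lit 84) (nat_lit 2862255294) (nat_lit 0) (nat_lit 4026447207) (nat_lit 336) (nat_lit 2862255294) (nat_lit 63) (nat_lit 1) (nat_lit 62) (nat_lit 1) (nat_lit 66) (nat_lit 1) (nat_lit 209) (nat_lit 274) (nat_lit 237)))) (XT.nd (nat_lit 188) (nat_lit 420) (nat_lit 0) (XT.nd (nat_lit 94) (nat_lit 0) (nat_lit 0) (XT.lf (nat_lit 252) (nat_lit 3306894470) (nat_lit 0) (nat_lit 3132600666) (nat_lit 168) (nat_lit 3132600666) (nat_lit 63) (nat_lit 1) (nat_lit 60) (nat_lit 1) (nat_lit 62) (nat_lit 1) (nat_lit 210) (nat_lit 274) (nat_lit 236)) (XT.lf (nat_lit 84) (nat_lit 475095772) (nat_lit 0) (nat_lit 8448978009) (nat_lit 252) (nat_lit 475095772) (nat_lit 61) (nat_lit 1) (nat_lit 60) (nat_lit 1) (nat_lit 63) (nat_lit 1) (nat_lit 211) (nat_lit 274) (nat_lit 235))) (XT.nd (nat_lit 94) (nat_lit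 168) (nat_lit 0) (XT.lf (nat_lit 84) (nat_lit 3921048764) (nat_lit 0) (nat_lit 1384774375) (nat_lit 252) (nat_lit 3921048764) (nat_lit 58) (nat_lit 1) (nat_lit 57) (nat_lit 1) (nat_lit 60) (nat_lit 1) (nat_lit 212) (nat_lit 274) (nat_lit 234)) (XT.lf (nat_lit 252) (nat_lit 5445063432) (nat_lit 0) (nat_lit 1807613531) (nat_lit 168) (nat_lit 1807613531) (nat_lit 58) (nat_lit 1) (nat_lit 55) (nat_lit 1) (nat_lit 57) (nat_lit 1) (nat_lit 213) (nat_lit 274) (nat_lit 233))))))) (XT.nd (nat_lit 1222) (nat_lit 1428) (nat_lit 0) (XT.nd (nat_lit 564) (nat_lit 756) (nat_lit 0) (XT.nd (nat_lit 282) (nat_lit 168) (nat_lit 0) (XT.nd (nat_lit 94) (nat_lit 420) (nat_lit 0) (XT.lf (nat_lit 84) (nat_lit 1536455240) (nat_lit 0) (nat_lit 5824480416) (nat_lit 252) (nat_lit 1536455240) (nat_lit 56) (nat_lit 1) (nat_lit 55) (nat_lit 1) (nat_lit 58) (nat_lit 1) (nat_lit 214) (nat_lit 274) (nat_lit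 232)) (XT.nd (nat_lit 94) (nat_lit 252) (nat_lit 0) (XT.lf (nat_lit 252) (nat_lit 719773962) (nat_lit 0) (nat_lit 4009000487) (nat_lit 168) (nat_lit 4009000487) (nat_lit 56) (nat_lit 1) (nat_lit 53) (nat_lit 1) (nat_lit 55) (nat_lit 1) (nat_lit 215) (nat_lit 274) (nat_lit 231)) (XT.lf (nat_lit 252) (nat_lit 7074403512) (nat_lit 0) (nat_lit 754190230) (nat_lit 168) (nat_lit 754190230) (nat_lit 53) (nat_lit 1) (nat_lit 50) (nat_lit 1) (nat_lit 52) (nat_lit 1) (nat_lit 216) (nat_lit 274) (nat_lit 230)))) (XT.nd (nat_lit 94) (nat_lit 168) (nat_lit 0) (XT.lf (nat_lit 84) (nat_lit 2355086265) (nat_lit 0) (nat_lit 3718943308) (nat_lit 252) (nat_lit 2355086265) (nat_lit 51) (nat_lit 1) (nat_lit 50) (nat_lit 1) (nat_lit 53) (nat_lit 1) (nat_lit 217) (nat_lit 274) (nat_lit 229)) (XT.nd (nat_lit 94) (nat_lit 0) (nat_lit 0) (XT.lf (nat_lit 252) (nat_lit 2398541020) (nat_lit 0) (nat_lit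 2940683941) (nat_lit 168) (nat_lit 2940683941) (nat_lit 51) (nat_lit 1) (nat_lit 48) (nat_lit 1) (nat_lit 50) (nat_lit 1) (nat_lit 218) (nat_lit 274) (nat_lit 228)) (XT.lf (nat_lit 84) (nat_lit 78833428) (nat_lit 0) (nat_lit 7978267807) (nat_lit 252) (nat_lit 78833428) (nat_lit 49) (nat_lit 1) (nat_lit 48) (nat_lit 1) (nat_lit 51) (nat_lit 1) (nat_lit 219) (nat_lit 274) (nat_lit 227))))) (XT.nd (nat_lit 282) (nat_lit 420) (nat_lit 0) (XT.nd (nat_lit 94) (nat_lit 168) (nat_lit 0) (XT.lf (nat_lit 84) (nat_lit 2976621714) (nat_lit 0) (nat_lit 2037801821) (nat_lit 168) (nat_lit 2976621714) (nat_lit 47) (nat_lit 1) (nat_lit 46) (nat_lit 1) (nat_lit 48) (nat_lit 1) (nat_lit 220) (nat_lit 274) (nat_lit 226)) (XT.nd (nat_lit 94) (nat_lit 0) (nat_lit 0) (XT.lf (nat_lit 252) (nat_lit 3693648681) (nat_lit 0) (nat_lit 2078802546) (nat_lit 168) (nat_lit 2078802546) (nat_lit 47) (nat_lit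 1) (nat_lit 44) (nat_lit 1) (nat_lit 46) (nat_lit 1) (nat_lit 221) (nat_lit 274) (nat_lit 225)) (XT.lf (nat_lit 84) (nat_lit 740551032) (nat_lit 0) (nat_lit 6234133559) (nat_lit 252) (nat_lit 740551032) (nat_lit 45) (nat_lit 1) (nat_lit 44) (nat_lit 1) (nat_lit 47) (nat_lit 1) (nat_lit 222) (nat_lit 274) (nat_lit 224)))) (XT.nd (nat_lit 188) (nat_lit 84) (nat_lit 0) (XT.nd (nat_lit 94) (nat_lit 168) (nat_lit 0) (XT.lf (nat_lit 84) (nat_lit 3438480160) (nat_lit 0) (nat_lit 703378847) (nat_lit 168) (nat_lit 3438480160) (nat_lit 43) (nat_lit 1) (nat_lit 42) (nat_lit 1) (nat_lit 44) (nat_lit 1) (nat_lit 223) (nat_lit 274) (nat_lit 223)) (XT.lf (nat_lit 252) (nat_lit 4677214908) (nat_lit 0) (nat_lit 1385945133) (nat_lit 168) (nat_lit 1385945133) (nat_lit 43) (nat_lit 1) (nat_lit 40) (nat_lit 1) (nat_lit 42) (nat_lit 1) (nat_lit 224) (nat_lit 274) (nat_lit 222))) (XT.nd (nat_lit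 94) (nat_lit 84) (nat_lit 0) (XT.lf (nat_lit 84) (nat_lit 1252771811) (nat_lit 0) (nat_lit 4814925573) (nat_lit 252) (nat_lit 1252771811) (nat_lit 41) (nat_lit 1) (nat_lit 40) (nat_lit 1) (nat_lit 43) (nat_lit 1) (nat_lit 225) (nat_lit 274) (nat_lit 221)) (XT.lf (nat_lit 168) (nat_lit 359625165) (nat_lit 0) (nat_lit 3417317738) (nat_lit 84) (nat_lit 3417317738) (nat_lit 41) (nat_lit 1) (nat_lit 39) (nat_lit 1) (nat_lit 40) (nat_lit 1) (nat_lit 226) (nat_lit 274) (nat_lit 220)))))) (XT.nd (nat_lit 658) (nat_lit 504) (nat_lit 0) (XT.nd (nat_lit 282) (nat_lit 588) (nat_lit 0) (XT.nd (nat_lit 94) (nat_lit 84) (nat_lit 0) (XT.lf (nat_lit 252) (nat_lit 5408376278) (nat_lit 0) (nat_lit 831372046) (nat_lit 168) (nat_lit 831372046) (nat_lit 39) (nat_lit 1) (nat_lit 36) (nat_lit 1) (nat_lit 38) (nat_lit 1) (nat_lit 227) (nat_lit 274) (nat_lit 219)) (XT.nd (nat_lit 94) (nat_lit 84)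 (nat_lit 0) (XT.lf (nat_lit 84) (nat_lit 1643533368) (nat_lit 0) (nat_lit 3662287820) (nat_lit 252) (nat_lit 1643533368) (nat_lit 37) (nat_lit 1) (nat_lit 36) (nat_lit 1) (nat_lit 39) (nat_lit 1) (nat_lit 228) (nat_lit 274) (nat_lit 218)) (XT.lf (nat_lit 168) (nat_lit 1207702778) (nat_lit 0) (nat_lit 2811435760) (nat_lit 84) (nat_lit 2811435760) (nat_lit 37) (nat_lit 1) (nat_lit 35) (nat_lit 1) (nat_lit 36) (nat_lit 1) (nat_lit 229) (nat_lit 274) (nat_lit 217)))) (XT.nd (nat_lit 188) (nat_lit 336) (nat_lit 0) (XT.nd (nat_lit 94) (nat_lit 0) (nat_lit 0) (XT.lf (nat_lit 252) (nat_lit 5935598832) (nat_lit 0) (nat_lit 389830464) (nat_lit 168) (nat_lit 389830464) (nat_lit 35) (nat_lit 1) (nat_lit 32) (nat_lit 1) (nat_lit 34) (nat_lit 1) (nat_lit 230) (nat_lit 274) (nat_lit 216)) (XT.lf (nat_lit 84) (nat_lit 1935829350) (nat_lit 0) (nat_lit 2728246238) (nat_lit 252) (nat_lit 1935829350)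 (nat_lit 33) (nat_lit 1) (nat_lit 32) (nat_lit 1) (nat_lit 35) (nat_lit 1) (nat_lit 231) (nat_lit 274) (nat_lit 215))) (XT.nd (nat_lit 94) (nat_lit 252) (nat_lit 0) (XT.lf (nat_lit 168) (nat_lit 1861997459) (nat_lit 0) (nat_lit 2312975157) (nat_lit 84) (nat_lit 2312975157) (nat_lit 33) (nat_lit 1) (nat_lit 31) (nat_lit 1) (nat_lit 32) (nat_lit 1) (nat_lit 232) (nat_lit 274) (nat_lit 214)) (XT.lf (nat_lit 252) (nat_lit 6298578785) (nat_lit 0) (nat_lit 40579844) (nat_lit 168) (nat_lit 40579844) (nat_lit 31) (nat_lit 1) (nat_lit 28) (nat_lit 1) (nat_lit 30) (nat_lit 1) (nat_lit 233) (nat_lit 274) (nat_lit 213))))) (XT.nd (nat_lit 282) (nat_lit 420) (nat_lit 0) (XT.nd (nat_lit 94) (nat_lit 84) (nat_lit 0) (XT.lf (nat_lit 84) (nat_lit 2148507197) (nat_lit 0) (nat_lit 1973366346) (nat_lit 252) (nat_lit 2148507197) (nat_lit 29) (nat_lit 1) (nat_lit 28) (nat_lit 1) (nat_lit 31)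 (nat_lit 1) (nat_lit 234) (nat_lit 274) (nat_lit 212)) (XT.nd (nat_lit 94) (nat_lit 0) (nat_lit 0) (XT.lf (nat_lit 168) (nat_lit 2358934103) (nat_lit 0) (nat_lit 1902890386) (nat_lit 84) (nat_lit 1902890386) (nat_lit 29) (nat_lit 1) (nat_lit 27) (nat_lit 1) (nat_lit 28) (nat_lit 1) (nat_lit 235) (nat_lit 274) (nat_lit 211)) (XT.lf (nat_lit 0) (nat_lit 237236149) (nat_lit 0) (nat_lit 5587766941) (nat_lit 168) (nat_lit 237236149) (nat_lit 27) (nat_lit 3) (nat_lit 27) (nat_lit 1) (nat_lit 29) (nat_lit 1) (nat_lit 236) (nat_lit 274) (nat_lit 210)))) (XT.nd (nat_lit 188) (nat_lit 168) (nat_lit 0) (XT.nd (nat_lit 94) (nat_lit 84) (nat_lit 0) (XT.lf (nat_lit 84) (nat_lit 2297006569) (nat_lit 0) (nat_lit 1365237581) (nat_lit 168) (nat_lit 2297006569) (nat_lit 26) (nat_lit 1) (nat_lit 25) (nat_lit 1) (nat_lit 27) (nat_lit 1) (nat_lit 237) (nat_lit 274) (nat_lit 209)) (XT.lf (nat_lit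 168) (nat_lit 2728381101) (nat_lit 0) (nat_lit 1565512630) (nat_lit 84) (nat_lit 1565512630) (nat_lit 26) (nat_lit 1) (nat_lit 24) (nat_lit 1) (nat_lit 25) (nat_lit 1) (nat_lit 238) (nat_lit 274) (nat_lit 208))) (XT.nd (nat_lit 94) (nat_lit 168) (nat_lit 0) (XT.lf (nat_lit 0) (nat_lit 453430563) (nat_lit 0) (nat_lit 4855325487) (nat_lit 168) (nat_lit 453430563) (nat_lit 24) (nat_lit 3) (nat_lit 24) (nat_lit 1) (nat_lit 26) (nat_lit 1) (nat_lit 239) (nat_lit 274) (nat_lit 207)) (XT.lf (nat_lit 84) (nat_lit 2393966685) (nat_lit 0) (nat_lit 877226436) (nat_lit 168) (nat_lit 2393966685) (nat_lit 23) (nat_lit 1) (nat_lit 22) (nat_lit 1) (nat_lit 24) (nat_lit 1) (nat_lit 240) (nat_lit 274) (nat_lit 206))))))))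
noncomputable def ec101 : XT := (XT.nd (nat_lit 2538) (nat_lit 0) (nat_lit 0) (XT.nd (nat_lit 1222) (nat_lit 756) (nat_lit 0) (XT.nd (nat_lit 564) (nat_lit 588) (nat_lit 0) (XT.nd (nat_lit 282) (nat_lit 252) (nat_lit 0) (XT.nd (nat_lit 94) (nat_lit 168) (nat_lit 0) (XT.lf (nat_lit 168) (nat_lit 2994817481) (nat_lit 0) (nat_lit 1287951115) (nat_lit 84) (nat_lit 1287951115) (nat_lit 23) (nat_lit 1) (nat_lit 21) (nat_lit 1) (nat_lit 22) (nat_lit 1) (nat_lit 241) (nat_lit 274) (nat_lit 205)) (XT.nd (nat_lit 94) (nat_lit 168) (nat_lit 0) (XT.lf (nat_lit 0) (nat_lit 618996347) (nat_lit 0) (nat_lit 4240446194) (nat_lit 168) (nat_lit 618996347) (nat_lit 21) (nat_lit 3) (nat_lit 21) (nat_lit 1) (nat_lit 23) (nat_lit 1) (nat_lit 242) (nat_lit 274) (nat_lit 204)) (XT.lf (nat_lit 84) (nat_lit 2449725836) (nat_lit 0) (nat_lit 487450740) (nat_lit 168) (nat_lit 2449725836) (nat_lit 20)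 (nat_lit 1) (nat_lit 19) (nat_lit 1) (nat_lit 21) (nat_lit 1) (nat_lit 243) (nat_lit 274) (nat_lit 203)))) (XT.nd (nat_lit 94) (nat_lit 168) (nat_lit 0) (XT.lf (nat_lit 168) (nat_lit 3178292893) (nat_lit 0) (nat_lit 1059600569) (nat_lit 84) (nat_lit 1059600569) (nat_lit 20) (nat_lit 1) (nat_lit 18) (nat_lit 1) (nat_lit 19) (nat_lit 1) (nat_lit 244) (nat_lit 274) (nat_lit 202)) (XT.nd (nat_lit 94) (nat_lit 168) (nat_lit 0) (XT.lf (nat_lit 0) (nat_lit 743495446) (nat_lit 0) (nat_lit 3722871198) (nat_lit 168) (nat_lit 743495446) (nat_lit 18) (nat_lit 3) (nat_lit 18) (nat_lit 1) (nat_lit 20) (nat_lit 1) (nat_lit 245) (nat_lit 274) (nat_lit 201)) (XT.lf (nat_lit 84) (nat_lit 2472732194) (nat_lit 0) (nat_lit 177935864) (nat_lit 168) (nat_lit 2472732194) (nat_lit 17) (nat_lit 1) (nat_lit 16) (nat_lit 1) (nat_lit 18) (nat_lit 1) (nat_lit 246) (nat_lit 274) (nat_lit 200))))) (XT.nd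 (nat_lit 282) (nat_lit 420) (nat_lit 0) (XT.nd (nat_lit 94) (nat_lit 84) (nat_lit 0) (XT.lf (nat_lit 168) (nat_lit 3295217181) (nat_lit 0) (nat_lit 871736011) (nat_lit 84) (nat_lit 871736011) (nat_lit 17) (nat_lit 1) (nat_lit 15) (nat_lit 1) (nat_lit 16) (nat_lit 1) (nat_lit 247) (nat_lit 274) (nat_lit 199)) (XT.nd (nat_lit 94) (nat_lit 84) (nat_lit 0) (XT.lf (nat_lit 0) (nat_lit 834766609) (nat_lit 0) (nat_lit 3285906414) (nat_lit 168) (nat_lit 834766609) (nat_lit 15) (nat_lit 3) (nat_lit 15) (nat_lit 1) (nat_lit 17) (nat_lit 1) (nat_lit 248) (nat_lit 274) (nat_lit 198)) (XT.lf (nat_lit 84) (nat_lit 68264289) (nat_lit 0) (nat_lit 2402683151) (nat_lit 84) (nat_lit 2402683151) (nat_lit 15) (nat_lit 3) (nat_lit 14) (nat_lit 1) (nat_lit 15) (nat_lit 1) (nat_lit 249) (nat_lit 274) (nat_lit 197)))) (XT.nd (nat_lit 188) (nat_lit 252) (nat_lit 0) (XT.nd (nat_lit 94) (nat_lit 0)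 (nat_lit 0) (XT.lf (nat_lit 168) (nat_lit 3359009760) (nat_lit 0) (nat_lit 717179373) (nat_lit 84) (nat_lit 717179373) (nat_lit 14) (nat_lit 1) (nat_lit 12) (nat_lit 1) (nat_lit 13) (nat_lit 1) (nat_lit 250) (nat_lit 274) (nat_lit 196)) (XT.lf (nat_lit 0) (nat_lit 899232238) (nat_lit 0) (nat_lit 2915791021) (nat_lit 168) (nat_lit 899232238) (nat_lit 12) (nat_lit 3) (nat_lit 12) (nat_lit 1) (nat_lit 14) (nat_lit 1) (nat_lit 251) (nat_lit 274) (nat_lit 195))) (XT.nd (nat_lit 94) (nat_lit 168) (nat_lit 0) (XT.lf (nat_lit 84) (nat_lit 265201984) (nat_lit 0) (nat_lit 2185734158) (nat_lit 84) (nat_lit 2185734158) (nat_lit 12) (nat_lit 3) (nat_lit 11) (nat_lit 1) (nat_lit 12) (nat_lit 1) (nat_lit 252) (nat_lit 274) (nat_lit 194)) (XT.lf (nat_lit 168) (nat_lit 3380633672) (nat_lit 0) (nat_lit 590025245) (nat_lit 84) (nat_lit 590025245) (nat_lit 11) (nat_lit 1) (nat_lit 9) (nat_lit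 1) (nat_lit 10) (nat_lit 1) (nat_lit 253) (nat_lit 274) (nat_lit 193)))))) (XT.nd (nat_lit 658) (nat_lit 252) (nat_lit 0) (XT.nd (nat_lit 282) (nat_lit 252) (nat_lit 0) (XT.nd (nat_lit 94) (nat_lit 252) (nat_lit 0) (XT.lf (nat_lit 0) (nat_lit 942150761) (nat_lit 0) (nat_lit 2601178662) (nat_lit 168) (nat_lit 942150761) (nat_lit 9) (nat_lit 3) (nat_lit 9) (nat_lit 1) (nat_lit 11) (nat_lit 1) (nat_lit 254) (nat_lit 274) (nat_lit 192)) (XT.nd (nat_lit 94) (nat_lit 168) (nat_lit 0) (XT.lf (nat_lit 84) (nat_lit 417268789) (nat_lit 0) (nat_lit 1997295362) (nat_lit 84) (nat_lit 1997295362) (nat_lit 9) (nat_lit 3) (nat_lit 8) (nat_lit 1) (nat_lit 9) (nat_lit 1) (nat_lit 255) (nat_lit 274) (nat_lit 191)) (XT.lf (nat_lit 168) (nat_lit 3369034763) (nat_lit 0) (nat_lit 485415229) (nat_lit 84) (nat_lit 485415229) (nat_lit 8) (nat_lit 1) (nat_lit 6) (nat_lit 1) (nat_lit 7) (nat_lit 1)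 (nat_lit 256) (nat_lit 274) (nat_lit 190)))) (XT.nd (nat_lit 188) (nat_lit 168) (nat_lit 0) (XT.nd (nat_lit 94) (nat_lit 84) (nat_lit 0) (XT.lf (nat_lit 0) (nat_lit 967824213) (nat_lit 0) (nat_lit 2332710574) (nat_lit 168) (nat_lit 967824213) (nat_lit 6) (nat_lit 3) (nat_lit 6) (nat_lit 1) (nat_lit 8) (nat_lit 1) (nat_lit 257) (nat_lit 274) (nat_lit 189)) (XT.lf (nat_lit 84) (nat_lit 532894219) (nat_lit 0) (nat_lit 1832785991) (nat_lit 84) (nat_lit 1832785991) (nat_lit 6) (nat_lit 3) (nat_lit 5) (nat_lit 1) (nat_lit 6) (nat_lit 1) (nat_lit 258) (nat_lit 274) (nat_lit 188))) (XT.nd (nat_lit 94) (nat_lit 0) (nat_lit 0) (XT.lf (nat_lit 168) (nat_lit 3331502833) (nat_lit 0) (nat_lit 399352310) (nat_lit 84) (nat_lit 399352310) (nat_lit 5) (nat_lit 1) (nat_lit 3) (nat_lit 1) (nat_lit 4) (nat_lit 1) (nat_lit 259) (nat_lit 274) (nat_lit 187)) (XT.lf (nat_lit 0) (nat_lit 979768948)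 (nat_lit 0) (nat_lit 2102664334) (nat_lit 168) (nat_lit 979768948) (nat_lit 3) (nat_lit 3) (nat_lit 3) (nat_lit 1) (nat_lit 5) (nat_lit 1) (nat_lit 260) (nat_lit 274) (nat_lit 186))))) (XT.nd (nat_lit 282) (nat_lit 0) (nat_lit 0) (XT.nd (nat_lit 94) (nat_lit 168) (nat_lit 0) (XT.lf (nat_lit 84) (nat_lit 618990682) (nat_lit 0) (nat_lit 1688414859) (nat_lit 84) (nat_lit 1688414859) (nat_lit 3) (nat_lit 3) (nat_lit 2) (nat_lit 1) (nat_lit 3) (nat_lit 1) (nat_lit 261) (nat_lit 274) (nat_lit 185)) (XT.nd (nat_lit 94) (nat_lit 0) (nat_lit 0) (XT.lf (nat_lit 0) (nat_lit 5710610778) (nat_lit 0) (nat_lit 0) (nat_lit 0) (nat_lit 0) (nat_lit 0) (nat_lit 0) (nat_lit 1) (nat_lit 0) (nat_lit 1) (nat_lit 0) (nat_lit 262) (nat_lit 274) (nat_lit 184)) (XT.lf (nat_lit 0) (nat_lit 5707283571) (nat_lit 0) (nat_lit 0) (nat_lit 0) (nat_lit 0) (nat_lit 0) (nat_lit 0) (nat_lit 1) (nat_lit 0) (nat_lit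 1) (nat_lit 0) (nat_lit 263) (nat_lit 274) (nat_lit 183)))) (XT.nd (nat_lit 188) (nat_lit 0) (nat_lit 0) (XT.nd (nat_lit 94) (nat_lit 0) (nat_lit 0) (XT.lf (nat_lit 0) (nat_lit 5704114802) (nat_lit 0) (nat_lit 0) (nat_lit 0) (nat_lit 0) (nat_lit 0) (nat_lit 0) (nat_lit 1) (nat_lit 0) (nat_lit 1) (nat_lit 0) (nat_lit 264) (nat_lit 274) (nat_lit 182)) (XT.lf (nat_lit 0) (nat_lit 5701096927) (nat_lit 0) (nat_lit 0) (nat_lit 0) (nat_lit 0) (nat_lit 0) (nat_lit 0) (nat_lit 1) (nat_lit 0) (nat_lit 1) (nat_lit 0) (nat_lit 265) (nat_lit 274) (nat_lit 181))) (XT.nd (nat_lit 94) (nat_lit 0) (nat_lit 0) (XT.lf (nat_lit 0) (nat_lit 5698222761) (nat_lit 0) (nat_lit 0) (nat_lit 0) (nat_lit 0) (nat_lit 0) (nat_lit 0) (nat_lit 1) (nat_lit 0) (nat_lit 1) (nat_lit 0) (nat_lit 266) (nat_lit 274) (nat_lit 180)) (XT.lf (nat_lit 0) (nat_lit 5695485459) (nat_lit 0) (nat_lit 0) (nat_lit 0) (nat_lit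 0) (nat_lit 0) (nat_lit 0) (nat_lit 1) (nat_lit 0) (nat_lit 1) (nat_lit 0) (nat_lit 267) (nat_lit 274) (nat_lit 179))))))) (XT.nd (nat_lit 1316) (nat_lit 0) (nat_lit 0) (XT.nd (nat_lit 658) (nat_lit 0) (nat_lit 0) (XT.nd (nat_lit 282) (nat_lit 0) (nat_lit 0) (XT.nd (nat_lit 94) (nat_lit 0) (nat_lit 0) (XT.lf (nat_lit 0) (nat_lit 5692878506) (nat_lit 0) (nat_lit 0) (nat_lit 0) (nat_lit 0) (nat_lit 0) (nat_lit 0) (nat_lit 1) (nat_lit 0) (nat_lit 1) (nat_lit 0) (nat_lit 268) (nat_lit 274) (nat_lit 178)) (XT.nd (nat_lit 94) (nat_lit 0) (nat_lit 0) (XT.lf (nat_lit 0) (nat_lit 5690395692) (nat_lit 0) (nat_lit 0) (nat_lit 0) (nat_lit 0) (nat_lit 0) (nat_lit 0) (nat_lit 1) (nat_lit 0) (nat_lit 1) (nat_lit 0) (nat_lit 269) (nat_lit 274) (nat_lit 177)) (XT.lf (nat_lit 0) (nat_lit 5688031109) (nat_lit 0) (nat_lit 0) (nat_lit 0) (nat_lit 0) (nat_lit 0) (nat_lit 0) (nat_lit 1) (nat_lit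 0) (nat_lit 1) (nat_lit 0) (nat_lit 270) (nat_lit 274) (nat_lit 176)))) (XT.nd (nat_lit 188) (nat_lit 0) (nat_lit 0) (XT.nd (nat_lit 94) (nat_lit 0) (nat_lit 0) (XT.lf (nat_lit 0) (nat_lit 5685779124) (nat_lit 0) (nat_lit 0) (nat_lit 0) (nat_lit 0) (nat_lit 0) (nat_lit 0) (nat_lit 1) (nat_lit 0) (nat_lit 1) (nat_lit 0) (nat_lit 271) (nat_lit 274) (nat_lit 175)) (XT.lf (nat_lit 0) (nat_lit 5683634377) (nat_lit 0) (nat_lit 0) (nat_lit 0) (nat_lit 0) (nat_lit 0) (nat_lit 0) (nat_lit 1) (nat_lit 0) (nat_lit 1) (nat_lit 0) (nat_lit 272) (nat_lit 274) (nat_lit 174))) (XT.nd (nat_lit 94) (nat_lit 0) (nat_lit 0) (XT.lf (nat_lit 0) (nat_lit 5681591760) (nat_lit 0) (nat_lit 0) (nat_lit 0) (nat_lit 0) (nat_lit 0) (nat_lit 0) (nat_lit 1) (nat_lit 0) (nat_lit 1) (nat_lit 0) (nat_lit 273) (nat_lit 274) (nat_lit 173)) (XT.lf (nat_lit 0) (nat_lit 5679646411) (nat_lit 0) (nat_lit 0) (nat_lit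 0) (nat_lit 0) (nat_lit 0) (nat_lit 0) (nat_lit 1) (nat_lit 0) (nat_lit 1) (nat_lit 0) (nat_lit 274) (nat_lit 274) (nat_lit 172))))) (XT.nd (nat_lit 282) (nat_lit 0) (nat_lit 0) (XT.nd (nat_lit 94) (nat_lit 0) (nat_lit 0) (XT.lf (nat_lit 0) (nat_lit 5677793698) (nat_lit 0) (nat_lit 0) (nat_lit 0) (nat_lit 0) (nat_lit 0) (nat_lit 0) (nat_lit 1) (nat_lit 0) (nat_lit 1) (nat_lit 0) (nat_lit 275) (nat_lit 274) (nat_lit 171)) (XT.nd (nat_lit 94) (nat_lit 0) (nat_lit 0) (XT.lf (nat_lit 0) (nat_lit 5676029209) (nat_lit 0) (nat_lit 0) (nat_lit 0) (nat_lit 0) (nat_lit 0) (nat_lit 0) (nat_lit 1) (nat_lit 0) (nat_lit 1) (nat_lit 0) (nat_lit 276) (nat_lit 274) (nat_lit 170)) (XT.lf (nat_lit 0) (nat_lit 5674348743) (nat_lit 0) (nat_lit 0) (nat_lit 0) (nat_lit 0) (nat_lit 0) (nat_lit 0) (nat_lit 1) (nat_lit 0) (nat_lit 1) (nat_lit 0) (nat_lit 277) (nat_lit 274) (nat_lit 169)))) (XT.nd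 (nat_lit 188) (nat_lit 0) (nat_lit 0) (XT.nd (nat_lit 94) (nat_lit 0) (nat_lit 0) (XT.lf (nat_lit 0) (nat_lit 5672748300) (nat_lit 0) (nat_lit 0) (nat_lit 0) (nat_lit 0) (nat_lit 0) (nat_lit 0) (nat_lit 1) (nat_lit 0) (nat_lit 1) (nat_lit 0) (nat_lit 278) (nat_lit 274) (nat_lit 168)) (XT.lf (nat_lit 0) (nat_lit 5671224068) (nat_lit 0) (nat_lit 0) (nat_lit 0) (nat_lit 0) (nat_lit 0) (nat_lit 0) (nat_lit 1) (nat_lit 0) (nat_lit 1) (nat_lit 0) (nat_lit 279) (nat_lit 274) (nat_lit 167))) (XT.nd (nat_lit 94) (nat_lit 0) (nat_lit 0) (XT.lf (nat_lit 0) (nat_lit 5669772418) (nat_lit 0) (nat_lit 0) (nat_lit 0) (nat_lit 0) (nat_lit 0) (nat_lit 0) (nat_lit 1) (nat_lit 0) (nat_lit 1) (nat_lit 0) (nat_lit 280) (nat_lit 274) (nat_lit 166)) (XT.lf (nat_lit 0) (nat_lit 5668389895) (nat_lit 0) (nat_lit 0) (nat_lit 0) (nat_lit 0) (nat_lit 0) (nat_lit 0) (nat_lit 1) (nat_lit 0) (nat_lit 1)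 (nat_lit 0) (nat_lit 281) (nat_lit 274) (nat_lit 165)))))) (XT.nd (nat_lit 658) (nat_lit 0) (nat_lit 0) (XT.nd (nat_lit 282) (nat_lit 0) (nat_lit 0) (XT.nd (nat_lit 94) (nat_lit 0) (nat_lit 0) (XT.lf (nat_lit 0) (nat_lit 5667073206) (nat_lit 0) (nat_lit 0) (nat_lit 0) (nat_lit 0) (nat_lit 0) (nat_lit 0) (nat_lit 1) (nat_lit 0) (nat_lit 1) (nat_lit 0) (nat_lit 282) (nat_lit 274) (nat_lit 164)) (XT.nd (nat_lit 94) (nat_lit 0) (nat_lit 0) (XT.lf (nat_lit 0) (nat_lit 5665819217) (nat_lit 0) (nat_lit 0) (nat_lit 0) (nat_lit 0) (nat_lit 0) (nat_lit 0) (nat_lit 1) (nat_lit 0) (nat_lit 1) (nat_lit 0) (nat_lit 283) (nat_lit 274) (nat_lit 163)) (XT.lf (nat_lit 0) (nat_lit 5664624941) (nat_lit 0) (nat_lit 0) (nat_lit 0) (nat_lit 0) (nat_lit 0) (nat_lit 0) (nat_lit 1) (nat_lit 0) (nat_lit 1) (nat_lit 0) (nat_lit 284) (nat_lit 274) (nat_lit 162)))) (XT.nd (nat_lit 188) (nat_lit 0) (nat_lit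 0) (XT.nd (nat_lit 94) (nat_lit 0) (nat_lit 0) (XT.lf (nat_lit 0) (nat_lit 5663487536) (nat_lit 0) (nat_lit 0) (nat_lit 0) (nat_lit 0) (nat_lit 0) (nat_lit 0) (nat_lit 1) (nat_lit 0) (nat_lit 1) (nat_lit 0) (nat_lit 285) (nat_lit 274) (nat_lit 161)) (XT.lf (nat_lit 0) (nat_lit 5662404293) (nat_lit 0) (nat_lit 0) (nat_lit 0) (nat_lit 0) (nat_lit 0) (nat_lit 0) (nat_lit 1) (nat_lit 0) (nat_lit 1) (nat_lit 0) (nat_lit 286) (nat_lit 274) (nat_lit 160))) (XT.nd (nat_lit 94) (nat_lit 0) (nat_lit 0) (XT.lf (nat_lit 0) (nat_lit 5661372633) (nat_lit 0) (nat_lit 0) (nat_lit 0) (nat_lit 0) (nat_lit 0) (nat_lit 0) (nat_lit 1) (nat_lit 0) (nat_lit 1) (nat_lit 0) (nat_lit 287) (nat_lit 274) (nat_lit 159)) (XT.lf (nat_lit 0) (nat_lit 5660390099) (nat_lit 0) (nat_lit 0) (nat_lit 0) (nat_lit 0) (nat_lit 0) (nat_lit 0) (nat_lit 1) (nat_lit 0) (nat_lit 1) (nat_lit 0) (nat_lit 288) (nat_lit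 274) (nat_lit 158))))) (XT.nd (nat_lit 282) (nat_lit 0) (nat_lit 0) (XT.nd (nat_lit 94) (nat_lit 0) (nat_lit 0) (XT.lf (nat_lit 0) (nat_lit 5659454353) (nat_lit 0) (nat_lit 0) (nat_lit 0) (nat_lit 0) (nat_lit 0) (nat_lit 0) (nat_lit 1) (nat_lit 0) (nat_lit 1) (nat_lit 0) (nat_lit 289) (nat_lit 274) (nat_lit 157)) (XT.nd (nat_lit 94) (nat_lit 0) (nat_lit 0) (XT.lf (nat_lit 0) (nat_lit 5658563166) (nat_lit 0) (nat_lit 0) (nat_lit 0) (nat_lit 0) (nat_lit 0) (nat_lit 0) (nat_lit 1) (nat_lit 0) (nat_lit 1) (nat_lit 0) (nat_lit 290) (nat_lit 274) (nat_lit 156)) (XT.lf (nat_lit 0) (nat_lit 5657714417) (nat_lit 0) (nat_lit 0) (nat_lit 0) (nat_lit 0) (nat_lit 0) (nat_lit 0) (nat_lit 1) (nat_lit 0) (nat_lit 1) (nat_lit 0) (nat_lit 291) (nat_lit 274) (nat_lit 155)))) (XT.nd (nat_lit 188) (nat_lit 0) (nat_lit 0) (XT.nd (nat_lit 94) (nat_lit 0) (nat_lit 0) (XT.lf (nat_lit 0) (nat_lit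 5656906084) (nat_lit 0) (nat_lit 0) (nat_lit 0) (nat_lit 0) (nat_lit 0) (nat_lit 0) (nat_lit 1) (nat_lit 0) (nat_lit 1) (nat_lit 0) (nat_lit 292) (nat_lit 274) (nat_lit 154)) (XT.lf (nat_lit 0) (nat_lit 5656136243) (nat_lit 0) (nat_lit 0) (nat_lit 0) (nat_lit 0) (nat_lit 0) (nat_lit 0) (nat_lit 1) (nat_lit 0) (nat_lit 1) (nat_lit 0) (nat_lit 293) (nat_lit 274) (nat_lit 153))) (XT.nd (nat_lit 94) (nat_lit 0) (nat_lit 0) (XT.lf (nat_lit 0) (nat_lit 5655403062) (nat_lit 0) (nat_lit 0) (nat_lit 0) (nat_lit 0) (nat_lit 0) (nat_lit 0) (nat_lit 1) (nat_lit 0) (nat_lit 1) (nat_lit 0) (nat_lit 294) (nat_lit 274) (nat_lit 152)) (XT.lf (nat_lit 0) (nat_lit 5654704794) (nat_lit 0) (nat_lit 0) (nat_lit 0) (nat_lit 0) (nat_lit 0) (nat_lit 0) (nat_lit 1) (nat_lit 0) (nat_lit 1) (nat_lit 0) (nat_lit 295) (nat_lit 274) (nat_lit 151))))))))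
noncomputable def ec102 : XT := (XT.nd (nat_lit 34028) (nat_lit 0) (nat_lit 5712) (XT.nd (nat_lit 1222) (nat_lit 0) (nat_lit 0) (XT.nd (nat_lit 564) (nat_lit 0) (nat_lit 0) (XT.nd (nat_lit 282) (nat_lit 0) (nat_lit 0) (XT.nd (nat_lit 94) (nat_lit 0) (nat_lit 0) (XT.lf (nat_lit 0) (nat_lit 5654039776) (nat_lit 0) (nat_lit 0) (nat_lit 0) (nat_lit 0) (nat_lit 0) (nat_lit 0) (nat_lit 1) (nat_lit 0) (nat_lit 1) (nat_lit 0) (nat_lit 296) (nat_lit 274) (nat_lit 150)) (XT.nd (nat_lit 94) (nat_lit 0) (nat_lit 0) (XT.lf (nat_lit 0) (nat_lit 5653406427) (nat_lit 0) (nat_lit 0) (nat_lit 0) (nat_lit 0) (nat_lit 0) (nat_lit 0) (nat_lit 1) (nat_lit 0) (nat_lit 1) (nat_lit 0) (nat_lit 297) (nat_lit 274) (nat_lit 149)) (XT.lf (nat_lit 0) (nat_lit 5652803236) (nat_lit 0) (nat_lit 0) (nat_lit 0) (nat_lit 0) (nat_lit 0) (nat_lit 0) (nat_lit 1) (nat_lit 0) (nat_lit 1) (nat_lit 0) (nat_lit 298)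 (nat_lit 274) (nat_lit 148)))) (XT.nd (nat_lit 94) (nat_lit 0) (nat_lit 0) (XT.lf (nat_lit 0) (nat_lit 5652228769) (nat_lit 0) (nat_lit 0) (nat_lit 0) (nat_lit 0) (nat_lit 0) (nat_lit 0) (nat_lit 1) (nat_lit 0) (nat_lit 1) (nat_lit 0) (nat_lit 299) (nat_lit 274) (nat_lit 147)) (XT.nd (nat_lit 94) (nat_lit 0) (nat_lit 0) (XT.lf (nat_lit 0) (nat_lit 5651681658) (nat_lit 0) (nat_lit 0) (nat_lit 0) (nat_lit 0) (nat_lit 0) (nat_lit 0) (nat_lit 1) (nat_lit 0) (nat_lit 1) (nat_lit 0) (nat_lit 300) (nat_lit 274) (nat_lit 146)) (XT.lf (nat_lit 0) (nat_lit 5651160599) (nat_lit 0) (nat_lit 0) (nat_lit 0) (nat_lit 0) (nat_lit 0) (nat_lit 0) (nat_lit 1) (nat_lit 0) (nat_lit 1) (nat_lit 0) (nat_lit 301) (nat_lit 274) (nat_lit 145))))) (XT.nd (nat_lit 282) (nat_lit 0) (nat_lit 0) (XT.nd (nat_lit 94) (nat_lit 0) (nat_lit 0) (XT.lf (nat_lit 0) (nat_lit 5650664353) (nat_lit 0) (nat_lit 0)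 (nat_lit 0) (nat_lit 0) (nat_lit 0) (nat_lit 0) (nat_lit 1) (nat_lit 0) (nat_lit 1) (nat_lit 0) (nat_lit 302) (nat_lit 274) (nat_lit 144)) (XT.nd (nat_lit 94) (nat_lit 0) (nat_lit 0) (XT.lf (nat_lit 0) (nat_lit 5650191738) (nat_lit 0) (nat_lit 0) (nat_lit 0) (nat_lit 0) (nat_lit 0) (nat_lit 0) (nat_lit 1) (nat_lit 0) (nat_lit 1) (nat_lit 0) (nat_lit 303) (nat_lit 274) (nat_lit 143)) (XT.lf (nat_lit 0) (nat_lit 5649741628) (nat_lit 0) (nat_lit 0) (nat_lit 0) (nat_lit 0) (nat_lit 0) (nat_lit 0) (nat_lit 1) (nat_lit 0) (nat_lit 1) (nat_lit 0) (nat_lit 304) (nat_lit 274) (nat_lit 142)))) (XT.nd (nat_lit 188) (nat_lit 0) (nat_lit 0) (XT.nd (nat_lit 94) (nat_lit 0) (nat_lit 0) (XT.lf (nat_lit 0) (nat_lit 5649312952) (nat_lit 0) (nat_lit 0) (nat_lit 0) (nat_lit 0) (nat_lit 0) (nat_lit 0) (nat_lit 1) (nat_lit 0) (nat_lit 1) (nat_lit 0) (nat_lit 305) (nat_lit 274) (nat_lit 141))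 (XT.lf (nat_lit 0) (nat_lit 5648904689) (nat_lit 0) (nat_lit 0) (nat_lit 0) (nat_lit 0) (nat_lit 0) (nat_lit 0) (nat_lit 1) (nat_lit 0) (nat_lit 1) (nat_lit 0) (nat_lit 306) (nat_lit 274) (nat_lit 140))) (XT.nd (nat_lit 94) (nat_lit 0) (nat_lit 0) (XT.lf (nat_lit 0) (nat_lit 5648515867) (nat_lit 0) (nat_lit 0) (nat_lit 0) (nat_lit 0) (nat_lit 0) (nat_lit 0) (nat_lit 1) (nat_lit 0) (nat_lit 1) (nat_lit 0) (nat_lit 307) (nat_lit 274) (nat_lit 139)) (XT.lf (nat_lit 0) (nat_lit 5648145561) (nat_lit 0) (nat_lit 0) (nat_lit 0) (nat_lit 0) (nat_lit 0) (nat_lit 0) (nat_lit 1) (nat_lit 0) (nat_lit 1) (nat_lit 0) (nat_lit 308) (nat_lit 274) (nat_lit 138)))))) (XT.nd (nat_lit 32148) (nat_lit 0) (nat_lit 10752) (XT.nd (nat_lit 282) (nat_lit 0) (nat_lit 0) (XT.nd (nat_lit 94) (nat_lit 0) (nat_lit 0) (XT.lf (nat_lit 0) (nat_lit 5647792888) (nat_lit 0) (nat_lit 0) (nat_lit 0) (nat_lit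 0) (nat_lit 0) (nat_lit 0) (nat_lit 1) (nat_lit 0) (nat_lit 1) (nat_lit 0) (nat_lit 309) (nat_lit 274) (nat_lit 137)) (XT.nd (nat_lit 94) (nat_lit 0) (nat_lit 0) (XT.lf (nat_lit 0) (nat_lit 5647457009) (nat_lit 0) (nat_lit 0) (nat_lit 0) (nat_lit 0) (nat_lit 0) (nat_lit 0) (nat_lit 1) (nat_lit 0) (nat_lit 1) (nat_lit 0) (nat_lit 310) (nat_lit 274) (nat_lit 136)) (XT.lf (nat_lit 0) (nat_lit 5647137124) (nat_lit 0) (nat_lit 0) (nat_lit 0) (nat_lit 0) (nat_lit 0) (nat_lit 0) (nat_lit 1) (nat_lit 0) (nat_lit 1) (nat_lit 0) (nat_lit 311) (nat_lit 274) (nat_lit 135)))) (XT.nd (nat_lit 188) (nat_lit 0) (nat_lit 0) (XT.nd (nat_lit 94) (nat_lit 0) (nat_lit 0) (XT.lf (nat_lit 0) (nat_lit 5646832472) (nat_lit 0) (nat_lit 0) (nat_lit 0) (nat_lit 0) (nat_lit 0) (nat_lit 0) (nat_lit 1) (nat_lit 0) (nat_lit 1) (nat_lit 0) (nat_lit 312) (nat_lit 274) (nat_lit 134)) (XT.lf (nat_lit 0) (nat_lit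 5646542327) (nat_lit 0) (nat_lit 0) (nat_lit 0) (nat_lit 0) (nat_lit 0) (nat_lit 0) (nat_lit 1) (nat_lit 0) (nat_lit 1) (nat_lit 0) (nat_lit 313) (nat_lit 274) (nat_lit 133))) (XT.nd (nat_lit 94) (nat_lit 0) (nat_lit 0) (XT.lf (nat_lit 0) (nat_lit 5646265999) (nat_lit 0) (nat_lit 0) (nat_lit 0) (nat_lit 0) (nat_lit 0) (nat_lit 0) (nat_lit 1) (nat_lit 0) (nat_lit 1) (nat_lit 0) (nat_lit 314) (nat_lit 274) (nat_lit 132)) (XT.lf (nat_lit 0) (nat_lit 5646002829) (nat_lit 0) (nat_lit 0) (nat_lit 0) (nat_lit 0) (nat_lit 0) (nat_lit 0) (nat_lit 1) (nat_lit 0) (nat_lit 1) (nat_lit 0) (nat_lit 315) (nat_lit 274) (nat_lit 131))))) (XT.nd (nat_lit 282) (nat_lit 0) (nat_lit 84) (XT.nd (nat_lit 94) (nat_lit 0) (nat_lit 0) (XT.lf (nat_lit 924) (nat_lit 2963979164) (nat_lit 0) (nat_lit 5262538193) (nat_lit 924) (nat_lit 2963979164) (nat_lit 139) (nat_lit 1) (nat_lit 128) (nat_lit 0) (nat_lit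 139) (nat_lit 0) (nat_lit 170) (nat_lit 275) (nat_lit 275)) (XT.nd (nat_lit 94) (nat_lit 0) (nat_lit 84) (XT.lf (nat_lit 924) (nat_lit 11488753279) (nat_lit 84) (nat_lit 5177658545) (nat_lit 0) (nat_lit 5177658545) (nat_lit 139) (nat_lit 1) (nat_lit 129) (nat_lit 1) (nat_lit 128) (nat_lit 0) (nat_lit 171) (nat_lit 275) (nat_lit 274)) (XT.lf (nat_lit 924) (nat_lit 5475366827) (nat_lit 0) (nat_lit 10373013206) (nat_lit 840) (nat_lit 5475366827) (nat_lit 140) (nat_lit 1) (nat_lit 129) (nat_lit 1) (nat_lit 139) (nat_lit 1) (nat_lit 172) (nat_lit 275) (nat_lit 273)))) (XT.nd (nat_lit 188) (nat_lit 0) (nat_lit 84) (XT.nd (nat_lit 94) (nat_lit 0) (nat_lit 84) (XT.lf (nat_lit 924) (nat_lit 10271027346) (nat_lit 84) (nat_lit 5274603164) (nat_lit 0) (nat_lit 5274603164) (nat_lit 140) (nat_lit 1) (nat_lit 130) (nat_lit 1) (nat_lit 129) (nat_lit 1) (nat_lit 173) (nat_lit 275) (nat_lit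 272)) (XT.lf (nat_lit 924) (nat_lit 4727655253) (nat_lit 0) (nat_lit 10877368826) (nat_lit 840) (nat_lit 4727655253) (nat_lit 141) (nat_lit 1) (nat_lit 130) (nat_lit 1) (nat_lit 140) (nat_lit 1) (nat_lit 174) (nat_lit 275) (nat_lit 271))) (XT.nd (nat_lit 94) (nat_lit 0) (nat_lit 84) (XT.lf (nat_lit 924) (nat_lit 8502995895) (nat_lit 84) (nat_lit 5678495807) (nat_lit 0) (nat_lit 5678495807) (nat_lit 141) (nat_lit 1) (nat_lit 131) (nat_lit 1) (nat_lit 130) (nat_lit 1) (nat_lit 175) (nat_lit 275) (nat_lit 270)) (XT.lf (nat_lit 924) (nat_lit 3728318111) (nat_lit 0) (nat_lit 11946530820) (nat_lit 840) (nat_lit 3728318111) (nat_lit 142) (nat_lit 1) (nat_lit 131) (nat_lit 1) (nat_lit 141) (nat_lit 1) (nat_lit 176) (nat_lit 275) (nat_lit 269))))))) (XT.nd (nat_lit 1222) (nat_lit 2856) (nat_lit 0) (XT.nd (nat_lit 564) (nat_lit 1176) (nat_lit 0) (XT.nd (nat_lit 282) (nat_lit 1260)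 (nat_lit 0) (XT.nd (nat_lit 94) (nat_lit 0) (nat_lit 84) (XT.lf (nat_lit 924) (nat_lit 6267417220) (nat_lit 84) (nat_lit 6345753594) (nat_lit 0) (nat_lit 6345753594) (nat_lit 142) (nat_lit 1) (nat_lit 132) (nat_lit 1) (nat_lit 131) (nat_lit 1) (nat_lit 177) (nat_lit 275) (nat_lit 268)) (XT.nd (nat_lit 94) (nat_lit 0) (nat_lit 0) (XT.lf (nat_lit 924) (nat_lit 2516041574) (nat_lit 0) (nat_lit 13498860437) (nat_lit 840) (nat_lit 2516041574) (nat_lit 143) (nat_lit 1) (nat_lit 132) (nat_lit 1) (nat_lit 142) (nat_lit 1) (nat_lit 178) (nat_lit 275) (nat_lit 267)) (XT.lf (nat_lit 924) (nat_lit 3637850955) (nat_lit 84) (nat_lit 7237562030) (nat_lit 0) (nat_lit 7237562030) (nat_lit 143) (nat_lit 1) (nat_lit 133) (nat_lit 1) (nat_lit 132) (nat_lit 1) (nat_lit 179) (nat_lit 275) (nat_lit 266)))) (XT.nd (nat_lit 94) (nat_lit 1428) (nat_lit 0) (XT.lf (nat_lit 84) (nat_lit 1125186934)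 (nat_lit 0) (nat_lit 15461695989) (nat_lit 840) (nat_lit 1125186934) (nat_lit 134) (nat_lit 1) (nat_lit 133) (nat_lit 1) (nat_lit 143) (nat_lit 1) (nat_lit 180) (nat_lit 275) (nat_lit 265)) (XT.nd (nat_lit 94) (nat_lit 588) (nat_lit 0) (XT.lf (nat_lit 924) (nat_lit 679584927) (nat_lit 0) (nat_lit 8319397576) (nat_lit 840) (nat_lit 8319397576) (nat_lit 134) (nat_lit 1) (nat_lit 123) (nat_lit 1) (nat_lit 133) (nat_lit 1) (nat_lit 181) (nat_lit 275) (nat_lit 264)) (XT.lf (nat_lit 588) (nat_lit 16127406179) (nat_lit 0) (nat_lit 407098886) (nat_lit 504) (nat_lit 407098886) (nat_lit 123) (nat_lit 1) (nat_lit 116) (nat_lit 1) (nat_lit 122) (nat_lit 1) (nat_lit 182) (nat_lit 275) (nat_lit 263))))) (XT.nd (nat_lit 282) (nat_lit 756) (nat_lit 0) (XT.nd (nat_lit 94) (nat_lit 420) (nat_lit 0) (XT.lf (nat_lit 84) (nat_lit 7050873912) (nat_lit 0) (nat_lit 2467926769) (nat_lit 588) (nat_lit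 7050873912) (nat_lit 117) (nat_lit 1) (nat_lit 116) (nat_lit 1) (nat_lit 123) (nat_lit 1) (nat_lit 183) (nat_lit 275) (nat_lit 262)) (XT.nd (nat_lit 94) (nat_lit 0) (nat_lit 0) (XT.lf (nat_lit 504) (nat_lit 12132744123) (nat_lit 0) (nat_lit 2040408274) (nat_lit 420) (nat_lit 2040408274) (nat_lit 117) (nat_lit 1) (nat_lit 111) (nat_lit 1) (nat_lit 116) (nat_lit 1) (nat_lit 184) (nat_lit 275) (nat_lit 261)) (XT.lf (nat_lit 84) (nat_lit 5029302528) (nat_lit 0) (nat_lit 5806328189) (nat_lit 504) (nat_lit 5029302528) (nat_lit 112) (nat_lit 1) (nat_lit 111) (nat_lit 1) (nat_lit 117) (nat_lit 1) (nat_lit 185) (nat_lit 275) (nat_lit 260)))) (XT.nd (nat_lit 188) (nat_lit 336) (nat_lit 0) (XT.nd (nat_lit 94) (nat_lit 0) (nat_lit 0) (XT.lf (nat_lit 504) (nat_lit 7989584063) (nat_lit 0) (nat_lit 3769431759) (nat_lit 420) (nat_lit 3769431759) (nat_lit 112) (nat_lit 1) (nat_lit 106) (nat_lit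 1) (nat_lit 111) (nat_lit 1) (nat_lit 186) (nat_lit 275) (nat_lit 259)) (XT.lf (nat_lit 84) (nat_lit 2944055545) (nat_lit 0) (nat_lit 9313636962) (nat_lit 504) (nat_lit 2944055545) (nat_lit 107) (nat_lit 1) (nat_lit 106) (nat_lit 1) (nat_lit 112) (nat_lit 1) (nat_lit 187) (nat_lit 275) (nat_lit 258))) (XT.nd (nat_lit 94) (nat_lit 0) (nat_lit 0) (XT.lf (nat_lit 420) (nat_lit 3736488308) (nat_lit 0) (nat_lit 5573482003) (nat_lit 336) (nat_lit 5573482003) (nat_lit 107) (nat_lit 1) (nat_lit 102) (nat_lit 1) (nat_lit 106) (nat_lit 1) (nat_lit 188) (nat_lit 275) (nat_lit 257)) (XT.lf (nat_lit 84) (nat_lit 813034923) (nat_lit 0) (nat_lit 12951326816) (nat_lit 420) (nat_lit 813034923) (nat_lit 103) (nat_lit 1) (nat_lit 102) (nat_lit 1) (nat_lit 107) (nat_lit 1) (nat_lit 189) (nat_lit 275) (nat_lit 256)))))) (XT.nd (nat_lit 658) (nat_lit 1092) (nat_lit 0) (XT.nd (nat_lit 282) (nat_lit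 1008) (nat_lit 0) (XT.nd (nat_lit 94) (nat_lit 336) (nat_lit 0) (XT.lf (nat_lit 84) (nat_lit 6850865894) (nat_lit 0) (nat_lit 573773326) (nat_lit 420) (nat_lit 6850865894) (nat_lit 98) (nat_lit 1) (nat_lit 97) (nat_lit 1) (nat_lit 102) (nat_lit 1) (nat_lit 190) (nat_lit 275) (nat_lit 255)) (XT.nd (nat_lit 94) (nat_lit 0) (nat_lit 0) (XT.lf (nat_lit 420) (nat_lit 11332412582) (nat_lit 0) (nat_lit 1326348877) (nat_lit 336) (nat_lit 1326348877) (nat_lit 98) (nat_lit 1) (nat_lit 93) (nat_lit 1) (nat_lit 97) (nat_lit 1) (nat_lit 191) (nat_lit 275) (nat_lit 254)) (XT.lf (nat_lit 84) (nat_lit 4445070422) (nat_lit 0) (nat_lit 4809556501) (nat_lit 420) (nat_lit 4445070422) (nat_lit 94) (nat_lit 1) (nat_lit 93) (nat_lit 1) (nat_lit 98) (nat_lit 1) (nat_lit 192) (nat_lit 275) (nat_lit 253)))) (XT.nd (nat_lit 188) (nat_lit 672) (nat_lit 0) (XT.nd (nat_lit 94) (nat_lit 0) (nat_lit 0)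 (XT.lf (nat_lit 420) (nat_lit 6486594268) (nat_lit 0) (nat_lit 3468793602) (nat_lit 336) (nat_lit 3468793602) (nat_lit 94) (nat_lit 1) (nat_lit 89) (nat_lit 1) (nat_lit 93) (nat_lit 1) (nat_lit 193) (nat_lit 275) (nat_lit 252)) (XT.lf (nat_lit 84) (nat_lit 2045582340) (nat_lit 0) (nat_lit 9065557028) (nat_lit 420) (nat_lit 2045582340) (nat_lit 90) (nat_lit 1) (nat_lit 89) (nat_lit 1) (nat_lit 94) (nat_lit 1) (nat_lit 194) (nat_lit 275) (nat_lit 251))) (XT.nd (nat_lit 94) (nat_lit 420) (nat_lit 0) (XT.lf (nat_lit 336) (nat_lit 1663584506) (nat_lit 0) (nat_lit 5615725411) (nat_lit 252) (nat_lit 5615725411) (nat_lit 90) (nat_lit 1) (nat_lit 86) (nat_lit 1) (nat_lit 89) (nat_lit 1) (nat_lit 195) (nat_lit 275) (nat_lit 250)) (XT.lf (nat_lit 420) (nat_lit 11978677096) (nat_lit 0) (nat_lit 332385304) (nat_lit 336) (nat_lit 332385304) (nat_lit 86) (nat_lit 1) (nat_lit 81) (nat_lit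 1) (nat_lit 85) (nat_lit 1) (nat_lit 196) (nat_lit 275) (nat_lit 249))))) (XT.nd (nat_lit 282) (nat_lit 840) (nat_lit 0) (XT.nd (nat_lit 94) (nat_lit 252) (nat_lit 0) (XT.lf (nat_lit 84) (nat_lit 4687344904) (nat_lit 0) (nat_lit 3018562779) (nat_lit 420) (nat_lit 4687344904) (nat_lit 82) (nat_lit 1) (nat_lit 81) (nat_lit 1) (nat_lit 86) (nat_lit 1) (nat_lit 197) (nat_lit 275) (nat_lit 248)) (XT.nd (nat_lit 94) (nat_lit 0) (nat_lit 0) (XT.lf (nat_lit 336) (nat_lit 6846015420) (nat_lit 0) (nat_lit 2653318850) (nat_lit 252) (nat_lit 2653318850) (nat_lit 82) (nat_lit 1) (nat_lit 78) (nat_lit 1) (nat_lit 81) (nat_lit 1) (nat_lit 198) (nat_lit 275) (nat_lit 247)) (XT.lf (nat_lit 84) (nat_lit 2162762168) (nat_lit 0) (nat_lit 7592642158) (nat_lit 336) (nat_lit 2162762168) (nat_lit 79) (nat_lit 1) (nat_lit 78) (nat_lit 1) (nat_lit 82) (nat_lit 1) (nat_lit 199) (nat_lit 275) (nat_lit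 246)))) (XT.nd (nat_lit 188) (nat_lit 252) (nat_lit 0) (XT.nd (nat_lit 94) (nat_lit 336) (nat_lit 0) (XT.lf (nat_lit 336) (nat_lit 1802594667) (nat_lit 0) (nat_lit 4943209855) (nat_lit 252) (nat_lit 4943209855) (nat_lit 79) (nat_lit 1) (nat_lit 75) (nat_lit 1) (nat_lit 78) (nat_lit 1) (nat_lit 200) (nat_lit 275) (nat_lit 245)) (XT.lf (nat_lit 336) (nat_lit 10848786523) (nat_lit 0) (nat_lit 309794514) (nat_lit 252) (nat_lit 309794514) (nat_lit 75) (nat_lit 1) (nat_lit 71) (nat_lit 1) (nat_lit 74) (nat_lit 1) (nat_lit 201) (nat_lit 275) (nat_lit 244))) (XT.nd (nat_lit 94) (nat_lit 252) (nat_lit 0) (XT.lf (nat_lit 84) (nat_lit 4103785252) (nat_lit 0) (nat_lit 3040863665) (nat_lit 336) (nat_lit 4103785252) (nat_lit 72) (nat_lit 1) (nat_lit 71) (nat_lit 1) (nat_lit 75) (nat_lit 1) (nat_lit 202) (nat_lit 275) (nat_lit 243)) (XT.lf (nat_lit 336) (nat_lit 5643080488) (nat_lit 0)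 (nat_lit 2696775082) (nat_lit 252) (nat_lit 2696775082) (nat_lit 72) (nat_lit 1) (nat_lit 68) (nat_lit 1) (nat_lit 71) (nat_lit 1) (nat_lit 203) (nat_lit 275) (nat_lit 242))))))))
noncomputable def ec103 : XT := (XT.nd (nat_lit 2538) (nat_lit 2352) (nat_lit 0) (XT.nd (nat_lit 1222) (nat_lit 1428) (nat_lit 0) (XT.nd (nat_lit 564) (nat_lit 1008) (nat_lit 0) (XT.nd (nat_lit 282) (nat_lit 168) (nat_lit 0) (XT.nd (nat_lit 94) (nat_lit 504) (nat_lit 0) (XT.lf (nat_lit 84) (nat_lit 1554099764) (nat_lit 0) (nat_lit 7722308276) (nat_lit 336) (nat_lit 1554099764) (nat_lit 69) (nat_lit 1) (nat_lit 68) (nat_lit 1) (nat_lit 72) (nat_lit 1) (nat_lit 204) (nat_lit 275) (nat_lit 241)) (XT.nd (nat_lit 94) (nat_lit 336) (nat_lit 0) (XT.lf (nat_lit 252) (nat_lit 569473826) (nat_lit 0) (nat_lit 5029397695) (nat_lit 168) (nat_lit 5029397695) (nat_lit 69) (nat_lit 1) (nat_lit 66) (nat_lit 1)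 (nat_lit 68) (nat_lit 1) (nat_lit 205) (nat_lit 275) (nat_lit 240)) (XT.lf (nat_lit 336) (nat_lit 8604558563) (nat_lit 0) (nat_lit 913866488) (nat_lit 252) (nat_lit 913866488) (nat_lit 66) (nat_lit 1) (nat_lit 62) (nat_lit 1) (nat_lit 65) (nat_lit 1) (nat_lit 206) (nat_lit 275) (nat_lit 239)))) (XT.nd (nat_lit 94) (nat_lit 168) (nat_lit 0) (XT.lf (nat_lit 84) (nat_lit 3005368058) (nat_lit 0) (nat_lit 4227769567) (nat_lit 336) (nat_lit 3005368058) (nat_lit 63) (nat_lit 1) (nat_lit 62) (nat_lit 1) (nat_lit 66) (nat_lit 1) (nat_lit 207) (nat_lit 275) (nat_lit 238)) (XT.nd (nat_lit 94) (nat_lit 0) (nat_lit 0) (XT.lf (nat_lit 252) (nat_lit 3472239194) (nat_lit 0) (nat_lit 3289230699) (nat_lit 168) (nat_lit 3289230699) (nat_lit 63) (nat_lit 1) (nat_lit 60) (nat_lit 1) (nat_lit 62) (nat_lit 1) (nat_lit 208) (nat_lit 275) (nat_lit 237)) (XT.lf (nat_lit 84) (nat_lit 498850561) (nat_lit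 0) (nat_lit 8871426909) (nat_lit 252) (nat_lit 498850561) (nat_lit 61) (nat_lit 1) (nat_lit 60) (nat_lit 1) (nat_lit 63) (nat_lit 1) (nat_lit 209) (nat_lit 275) (nat_lit 236))))) (XT.nd (nat_lit 282) (nat_lit 588) (nat_lit 0) (XT.nd (nat_lit 94) (nat_lit 168) (nat_lit 0) (XT.lf (nat_lit 84) (nat_lit 4117101203) (nat_lit 0) (nat_lit 1454013094) (nat_lit 252) (nat_lit 4117101203) (nat_lit 58) (nat_lit 1) (nat_lit 57) (nat_lit 1) (nat_lit 60) (nat_lit 1) (nat_lit 210) (nat_lit 275) (nat_lit 235)) (XT.nd (nat_lit 94) (nat_lit 0) (nat_lit 0) (XT.lf (nat_lit 252) (nat_lit 5717316604) (nat_lit 0) (nat_lit 1897994207) (nat_lit 168) (nat_lit 1897994207) (nat_lit 58) (nat_lit 1) (nat_lit 55) (nat_lit 1) (nat_lit 57) (nat_lit 1) (nat_lit 211) (nat_lit 275) (nat_lit 234)) (XT.lf (nat_lit 84) (nat_lit 1613278003) (nat_lit 0) (nat_lit 6115704436) (nat_lit 252) (nat_lit 1613278003) (nat_lit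 56) (nat_lit 1) (nat_lit 55) (nat_lit 1) (nat_lit 58) (nat_lit 1) (nat_lit 212) (nat_lit 275) (nat_lit 233)))) (XT.nd (nat_lit 188) (nat_lit 168) (nat_lit 0) (XT.nd (nat_lit 94) (nat_lit 252) (nat_lit 0) (XT.lf (nat_lit 252) (nat_lit 755762660) (nat_lit 0) (nat_lit 4209450511) (nat_lit 168) (nat_lit 4209450511) (nat_lit 56) (nat_lit 1) (nat_lit 53) (nat_lit 1) (nat_lit 55) (nat_lit 1) (nat_lit 213) (nat_lit 275) (nat_lit 232)) (XT.lf (nat_lit 252) (nat_lit 7428123687) (nat_lit 0) (nat_lit 791899741) (nat_lit 168) (nat_lit 791899741) (nat_lit 53) (nat_lit 1) (nat_lit 50) (nat_lit 1) (nat_lit 52) (nat_lit 1) (nat_lit 214) (nat_lit 275) (nat_lit 231))) (XT.nd (nat_lit 94) (nat_lit 168) (nat_lit 0) (XT.lf (nat_lit 84) (nat_lit 2472840578) (nat_lit 0) (nat_lit 3904890473) (nat_lit 252) (nat_lit 2472840578) (nat_lit 51) (nat_lit 1) (nat_lit 50) (nat_lit 1) (nat_lit 53) (nat_lit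 1) (nat_lit 215) (nat_lit 275) (nat_lit 230)) (XT.lf (nat_lit 252) (nat_lit 2518468071) (nat_lit 0) (nat_lit 3087718139) (nat_lit 168) (nat_lit 3087718139) (nat_lit 51) (nat_lit 1) (nat_lit 48) (nat_lit 1) (nat_lit 50) (nat_lit 1) (nat_lit 216) (nat_lit 275) (nat_lit 229)))))) (XT.nd (nat_lit 658) (nat_lit 756) (nat_lit 0) (XT.nd (nat_lit 282) (nat_lit 336) (nat_lit 0) (XT.nd (nat_lit 94) (nat_lit 336) (nat_lit 0) (XT.lf (nat_lit 84) (nat_lit 82775099) (nat_lit 0) (nat_lit 8377181198) (nat_lit 252) (nat_lit 82775099) (nat_lit 49) (nat_lit 1) (nat_lit 48) (nat_lit 1) (nat_lit 51) (nat_lit 1) (nat_lit 217) (nat_lit 275) (nat_lit 228)) (XT.nd (nat_lit 94) (nat_lit 168) (nat_lit 0) (XT.lf (nat_lit 84) (nat_lit 3125452800) (nat_lit 0) (nat_lit 2139691912) (nat_lit 168) (nat_lit 3125452800) (nat_lit 47) (nat_lit 1) (nat_lit 46) (nat_lit 1) (nat_lit 48) (nat_lit 1) (nat_lit 218)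 (nat_lit 275) (nat_lit 227)) (XT.lf (nat_lit 252) (nat_lit 3878331115) (nat_lit 0) (nat_lit 2182742673) (nat_lit 168) (nat_lit 2182742673) (nat_lit 47) (nat_lit 1) (nat_lit 44) (nat_lit 1) (nat_lit 46) (nat_lit 1) (nat_lit 219) (nat_lit 275) (nat_lit 226)))) (XT.nd (nat_lit 188) (nat_lit 168) (nat_lit 0) (XT.nd (nat_lit 94) (nat_lit 168) (nat_lit 0) (XT.lf (nat_lit 84) (nat_lit 777578584) (nat_lit 0) (nat_lit 6545840237) (nat_lit 252) (nat_lit 777578584) (nat_lit 45) (nat_lit 1) (nat_lit 44) (nat_lit 1) (nat_lit 47) (nat_lit 1) (nat_lit 220) (nat_lit 275) (nat_lit 225)) (XT.lf (nat_lit 84) (nat_lit 3610404168) (nat_lit 0) (nat_lit 738547789) (nat_lit 168) (nat_lit 3610404168) (nat_lit 43) (nat_lit 1) (nat_lit 42) (nat_lit 1) (nat_lit 44) (nat_lit 1) (nat_lit 221) (nat_lit 275) (nat_lit 224))) (XT.nd (nat_lit 94) (nat_lit 0) (nat_lit 0) (XT.lf (nat_lit 252) (nat_lit 4911075654)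 (nat_lit 0) (nat_lit 1455242389) (nat_lit 168) (nat_lit 1455242389) (nat_lit 43) (nat_lit 1) (nat_lit 40) (nat_lit 1) (nat_lit 42) (nat_lit 1) (nat_lit 222) (nat_lit 275) (nat_lit 223)) (XT.lf (nat_lit 84) (nat_lit 1315410402) (nat_lit 0) (nat_lit 5055671852) (nat_lit 252) (nat_lit 1315410402) (nat_lit 41) (nat_lit 1) (nat_lit 40) (nat_lit 1) (nat_lit 43) (nat_lit 1) (nat_lit 223) (nat_lit 275) (nat_lit 222))))) (XT.nd (nat_lit 282) (nat_lit 420) (nat_lit 0) (XT.nd (nat_lit 94) (nat_lit 252) (nat_lit 0) (XT.lf (nat_lit 168) (nat_lit 377606424) (nat_lit 0) (nat_lit 3588183625) (nat_lit 84) (nat_lit 3588183625) (nat_lit 41) (nat_lit 1) (nat_lit 39) (nat_lit 1) (nat_lit 40) (nat_lit 1) (nat_lit 224) (nat_lit 275) (nat_lit 221)) (XT.nd (nat_lit 94) (nat_lit 0) (nat_lit 0) (XT.lf (nat_lit 252) (nat_lit 5678795092) (nat_lit 0) (nat_lit 872940648) (nat_lit 168) (nat_lit 872940648)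 (nat_lit 39) (nat_lit 1) (nat_lit 36) (nat_lit 1) (nat_lit 38) (nat_lit 1) (nat_lit 225) (nat_lit 275) (nat_lit 220)) (XT.lf (nat_lit 84) (nat_lit 1725710037) (nat_lit 0) (nat_lit 3845402211) (nat_lit 252) (nat_lit 1725710037) (nat_lit 37) (nat_lit 1) (nat_lit 36) (nat_lit 1) (nat_lit 39) (nat_lit 1) (nat_lit 226) (nat_lit 275) (nat_lit 219)))) (XT.nd (nat_lit 188) (nat_lit 84) (nat_lit 0) (XT.nd (nat_lit 94) (nat_lit 252) (nat_lit 0) (XT.lf (nat_lit 168) (nat_lit 1268087917) (nat_lit 0) (nat_lit 2952007548) (nat_lit 84) (nat_lit 2952007548) (nat_lit 37) (nat_lit 1) (nat_lit 35) (nat_lit 1) (nat_lit 36) (nat_lit 1) (nat_lit 227) (nat_lit 275) (nat_lit 218)) (XT.lf (nat_lit 252) (nat_lit 6232378774) (nat_lit 0) (nat_lit 409321987) (nat_lit 168) (nat_lit 409321987) (nat_lit 35) (nat_lit 1) (nat_lit 32) (nat_lit 1) (nat_lit 34) (nat_lit 1) (nat_lit 228) (nat_lit 275) (nat_lit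 217))) (XT.nd (nat_lit 94) (nat_lit 84) (nat_lit 0) (XT.lf (nat_lit 84) (nat_lit 2032620817) (nat_lit 0) (nat_lit 2864658550) (nat_lit 252) (nat_lit 2032620817) (nat_lit 33) (nat_lit 1) (nat_lit 32) (nat_lit 1) (nat_lit 35) (nat_lit 1) (nat_lit 229) (nat_lit 275) (nat_lit 216)) (XT.lf (nat_lit 168) (nat_lit 1955097332) (nat_lit 0) (nat_lit 2428623915) (nat_lit 84) (nat_lit 2428623915) (nat_lit 33) (nat_lit 1) (nat_lit 31) (nat_lit 1) (nat_lit 32) (nat_lit 1) (nat_lit 230) (nat_lit 275) (nat_lit 215))))))) (XT.nd (nat_lit 1316) (nat_lit 1092) (nat_lit 0) (XT.nd (nat_lit 658) (nat_lit 672) (nat_lit 0) (XT.nd (nat_lit 282) (nat_lit 252) (nat_lit 0) (XT.nd (nat_lit 94) (nat_lit 84) (nat_lit 0) (XT.lf (nat_lit 252) (nat_lit 6613507724) (nat_lit 0) (nat_lit 42608836) (nat_lit 168) (nat_lit 42608836) (nat_lit 31) (nat_lit 1) (nat_lit 28) (nat_lit 1) (nat_lit 30) (nat_lit 1) (nat_lit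 231) (nat_lit 275) (nat_lit 214)) (XT.nd (nat_lit 94) (nat_lit 84) (nat_lit 0) (XT.lf (nat_lit 84) (nat_lit 2255932556) (nat_lit 0) (nat_lit 2072034664) (nat_lit 252) (nat_lit 2255932556) (nat_lit 29) (nat_lit 1) (nat_lit 28) (nat_lit 1) (nat_lit 31) (nat_lit 1) (nat_lit 232) (nat_lit 275) (nat_lit 213)) (XT.lf (nat_lit 168) (nat_lit 2476880808) (nat_lit 0) (nat_lit 1998034905) (nat_lit 84) (nat_lit 1998034905) (nat_lit 29) (nat_lit 1) (nat_lit 27) (nat_lit 1) (nat_lit 28) (nat_lit 1) (nat_lit 233) (nat_lit 275) (nat_lit 212)))) (XT.nd (nat_lit 188) (nat_lit 84) (nat_lit 0) (XT.nd (nat_lit 94) (nat_lit 168) (nat_lit 0) (XT.lf (nat_lit 0) (nat_lit 249097957) (nat_lit 0) (nat_lit 5867155288) (nat_lit 168) (nat_lit 249097957) (nat_lit 27) (nat_lit 3) (nat_lit 27) (nat_lit 1) (nat_lit 29) (nat_lit 1) (nat_lit 234) (nat_lit 275) (nat_lit 211)) (XT.lf (nat_lit 84) (nat_lit 2411856897)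 (nat_lit 0) (nat_lit 1433499460) (nat_lit 168) (nat_lit 2411856897) (nat_lit 26) (nat_lit 1) (nat_lit 25) (nat_lit 1) (nat_lit 27) (nat_lit 1) (nat_lit 235) (nat_lit 275) (nat_lit 210))) (XT.nd (nat_lit 94) (nat_lit 0) (nat_lit 0) (XT.lf (nat_lit 168) (nat_lit 2864800156) (nat_lit 0) (nat_lit 1643788261) (nat_lit 84) (nat_lit 1643788261) (nat_lit 26) (nat_lit 1) (nat_lit 24) (nat_lit 1) (nat_lit 25) (nat_lit 1) (nat_lit 236) (nat_lit 275) (nat_lit 209)) (XT.lf (nat_lit 0) (nat_lit 476102091) (nat_lit 0) (nat_lit 5098091761) (nat_lit 168) (nat_lit 476102091) (nat_lit 24) (nat_lit 3) (nat_lit 24) (nat_lit 1) (nat_lit 26) (nat_lit 1) (nat_lit 237) (nat_lit 275) (nat_lit 208))))) (XT.nd (nat_lit 282) (nat_lit 420) (nat_lit 0) (XT.nd (nat_lit 94) (nat_lit 84) (nat_lit 0) (XT.lf (nat_lit 84) (nat_lit 2513665019) (nat_lit 0) (nat_lit 921087758) (nat_lit 168) (nat_lit 2513665019)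 (nat_lit 23) (nat_lit 1) (nat_lit 22) (nat_lit 1) (nat_lit 24) (nat_lit 1) (nat_lit 238) (nat_lit 275) (nat_lit 207)) (XT.nd (nat_lit 94) (nat_lit 0) (nat_lit 0) (XT.lf (nat_lit 168) (nat_lit 3144558355) (nat_lit 0) (nat_lit 1352348670) (nat_lit 84) (nat_lit 1352348670) (nat_lit 23) (nat_lit 1) (nat_lit 21) (nat_lit 1) (nat_lit 22) (nat_lit 1) (nat_lit 239) (nat_lit 275) (nat_lit 206)) (XT.lf (nat_lit 0) (nat_lit 649946164) (nat_lit 0) (nat_lit 4452468504) (nat_lit 168) (nat_lit 649946164) (nat_lit 21) (nat_lit 3) (nat_lit 21) (nat_lit 1) (nat_lit 23) (nat_lit 1) (nat_lit 240) (nat_lit 275) (nat_lit 205)))) (XT.nd (nat_lit 188) (nat_lit 168) (nat_lit 0) (XT.nd (nat_lit 94) (nat_lit 84) (nat_lit 0) (XT.lf (nat_lit 84) (nat_lit 2572212128) (nat_lit 0) (nat_lit 511823277) (nat_lit 168) (nat_lit 2572212128) (nat_lit 20) (nat_lit 1) (nat_lit 19) (nat_lit 1) (nat_lit 21) (nat_lit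 1) (nat_lit 241) (nat_lit 275) (nat_lit 204)) (XT.lf (nat_lit 168) (nat_lit 3337207537) (nat_lit 0) (nat_lit 1112580598) (nat_lit 84) (nat_lit 1112580598) (nat_lit 20) (nat_lit 1) (nat_lit 18) (nat_lit 1) (nat_lit 19) (nat_lit 1) (nat_lit 242) (nat_lit 275) (nat_lit 203))) (XT.nd (nat_lit 94) (nat_lit 168) (nat_lit 0) (XT.lf (nat_lit 0) (nat_lit 780670218) (nat_lit 0) (nat_lit 3909014758) (nat_lit 168) (nat_lit 780670218) (nat_lit 18) (nat_lit 3) (nat_lit 18) (nat_lit 1) (nat_lit 20) (nat_lit 1) (nat_lit 243) (nat_lit 275) (nat_lit 202)) (XT.lf (nat_lit 84) (nat_lit 2596368804) (nat_lit 0) (nat_lit 186832657) (nat_lit 168) (nat_lit 2596368804) (nat_lit 17) (nat_lit 1) (nat_lit 16) (nat_lit 1) (nat_lit 18) (nat_lit 1) (nat_lit 244) (nat_lit 275) (nat_lit 201)))))) (XT.nd (nat_lit 658) (nat_lit 504) (nat_lit 0) (XT.nd (nat_lit 282) (nat_lit 420) (nat_lit 0) (XT.nd (nat_lit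 94) (nat_lit 84) (nat_lit 0) (XT.lf (nat_lit 168) (nat_lit 3459978040) (nat_lit 0) (nat_lit 915322811) (nat_lit 84) (nat_lit 915322811) (nat_lit 17) (nat_lit 1) (nat_lit 15) (nat_lit 1) (nat_lit 16) (nat_lit 1) (nat_lit 245) (nat_lit 275) (nat_lit 200)) (XT.nd (nat_lit 94) (nat_lit 84) (nat_lit 0) (XT.lf (nat_lit 0) (nat_lit 876504940) (nat_lit 0) (nat_lit 3450201735) (nat_lit 168) (nat_lit 876504940) (nat_lit 15) (nat_lit 3) (nat_lit 15) (nat_lit 1) (nat_lit 17) (nat_lit 1) (nat_lit 246) (nat_lit 275) (nat_lit 199)) (XT.lf (nat_lit 84) (nat_lit 71677504) (nat_lit 0) (nat_lit 2522817308) (nat_lit 84) (nat_lit 2522817308) (nat_lit 15) (nat_lit 3) (nat_lit 14) (nat_lit 1) (nat_lit 15) (nat_lit 1) (nat_lit 247) (nat_lit 275) (nat_lit 198)))) (XT.nd (nat_lit 188) (nat_lit 252) (nat_lit 0) (XT.nd (nat_lit 94) (nat_lit 0) (nat_lit 0) (XT.lf (nat_lit 168) (nat_lit 3526960248) (nat_lit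 0) (nat_lit 753038342) (nat_lit 84) (nat_lit 753038342) (nat_lit 14) (nat_lit 1) (nat_lit 12) (nat_lit 1) (nat_lit 13) (nat_lit 1) (nat_lit 248) (nat_lit 275) (nat_lit 197)) (XT.lf (nat_lit 0) (nat_lit 944193849) (nat_lit 0) (nat_lit 3061580572) (nat_lit 168) (nat_lit 944193849) (nat_lit 12) (nat_lit 3) (nat_lit 12) (nat_lit 1) (nat_lit 14) (nat_lit 1) (nat_lit 249) (nat_lit 275) (nat_lit 196))) (XT.nd (nat_lit 94) (nat_lit 168) (nat_lit 0) (XT.lf (nat_lit 84) (nat_lit 278462083) (nat_lit 0) (nat_lit 2295020866) (nat_lit 84) (nat_lit 2295020866) (nat_lit 12) (nat_lit 3) (nat_lit 11) (nat_lit 1) (nat_lit 12) (nat_lit 1) (nat_lit 250) (nat_lit 275) (nat_lit 195)) (XT.lf (nat_lit 168) (nat_lit 3549665355) (nat_lit 0) (nat_lit 619526507) (nat_lit 84) (nat_lit 619526507) (nat_lit 11) (nat_lit 1) (nat_lit 9) (nat_lit 1) (nat_lit 10) (nat_lit 1) (nat_lit 251) (nat_lit 275) (nat_lit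 194))))) (XT.nd (nat_lit 282) (nat_lit 252) (nat_lit 0) (XT.nd (nat_lit 94) (nat_lit 252) (nat_lit 0) (XT.lf (nat_lit 0) (nat_lit 989258299) (nat_lit 0) (nat_lit 2731237595) (nat_lit 168) (nat_lit 989258299) (nat_lit 9) (nat_lit 3) (nat_lit 9) (nat_lit 1) (nat_lit 11) (nat_lit 1) (nat_lit 252) (nat_lit 275) (nat_lit 193)) (XT.nd (nat_lit 94) (nat_lit 168) (nat_lit 0) (XT.lf (nat_lit 84) (nat_lit 438132229) (nat_lit 0) (nat_lit 2097160130) (nat_lit 84) (nat_lit 2097160130) (nat_lit 9) (nat_lit 3) (nat_lit 8) (nat_lit 1) (nat_lit 9) (nat_lit 1) (nat_lit 253) (nat_lit 275) (nat_lit 192)) (XT.lf (nat_lit 168) (nat_lit 3537486502) (nat_lit 0) (nat_lit 509685991) (nat_lit 84) (nat_lit 509685991) (nat_lit 8) (nat_lit 1) (nat_lit 6) (nat_lit 1) (nat_lit 7) (nat_lit 1) (nat_lit 254) (nat_lit 275) (nat_lit 191)))) (XT.nd (nat_lit 188) (nat_lit 168) (nat_lit 0) (XT.nd (nat_lit 94)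 (nat_lit 84) (nat_lit 0) (XT.lf (nat_lit 0) (nat_lit 1016215424) (nat_lit 0) (nat_lit 2449346102) (nat_lit 168) (nat_lit 1016215424) (nat_lit 6) (nat_lit 3) (nat_lit 6) (nat_lit 1) (nat_lit 8) (nat_lit 1) (nat_lit 255) (nat_lit 275) (nat_lit 190)) (XT.lf (nat_lit 84) (nat_lit 559538930) (nat_lit 0) (nat_lit 1924425290) (nat_lit 84) (nat_lit 1924425290) (nat_lit 6) (nat_lit 3) (nat_lit 5) (nat_lit 1) (nat_lit 6) (nat_lit 1) (nat_lit 256) (nat_lit 275) (nat_lit 189))) (XT.nd (nat_lit 94) (nat_lit 0) (nat_lit 0) (XT.lf (nat_lit 168) (nat_lit 3498077975) (nat_lit 0) (nat_lit 419319926) (nat_lit 84) (nat_lit 419319926) (nat_lit 5) (nat_lit 1) (nat_lit 3) (nat_lit 1) (nat_lit 4) (nat_lit 1) (nat_lit 257) (nat_lit 275) (nat_lit 188)) (XT.lf (nat_lit 0) (nat_lit 1028757395) (nat_lit 0) (nat_lit 2207797551) (nat_lit 168) (nat_lit 1028757395) (nat_lit 3) (nat_lit 3) (nat_lit 3) (nat_lit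 1) (nat_lit 5) (nat_lit 1) (nat_lit 258) (nat_lit 275) (nat_lit 187))))))))
noncomputable def ec104 : XT := (XT.nd (nat_lit 2538) (nat_lit 0) (nat_lit 0) (XT.nd (nat_lit 1222) (nat_lit 0) (nat_lit 0) (XT.nd (nat_lit 564) (nat_lit 0) (nat_lit 0) (XT.nd (nat_lit 282) (nat_lit 0) (nat_lit 0) (XT.nd (nat_lit 94) (nat_lit 168) (nat_lit 0) (XT.lf (nat_lit 84) (nat_lit 649940216) (nat_lit 0) (nat_lit 1772835602) (nat_lit 84) (nat_lit 1772835602) (nat_lit 3) (nat_lit 3) (nat_lit 2) (nat_lit 1) (nat_lit 3) (nat_lit 1) (nat_lit 259) (nat_lit 275) (nat_lit 186)) (XT.nd (nat_lit 94) (nat_lit 0) (nat_lit 0) (XT.lf (nat_lit 0) (nat_lit 5996141317) (nat_lit 0) (nat_lit 0) (nat_lit 0) (nat_lit 0) (nat_lit 0) (nat_lit 0) (nat_lit 1) (nat_lit 0) (nat_lit 1) (nat_lit 0) (nat_lit 260) (nat_lit 275) (nat_lit 185)) (XT.lf (nat_lit 0) (nat_lit 5992647749) (nat_lit 0) (nat_lit 0) (nat_lit 0) (nat_lit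 0) (nat_lit 0) (nat_lit 0) (nat_lit 1) (nat_lit 0) (nat_lit 1) (nat_lit 0) (nat_lit 261) (nat_lit 275) (nat_lit 184)))) (XT.nd (nat_lit 94) (nat_lit 0) (nat_lit 0) (XT.lf (nat_lit 0) (nat_lit 5989320542) (nat_lit 0) (nat_lit 0) (nat_lit 0) (nat_lit 0) (nat_lit 0) (nat_lit 0) (nat_lit 1) (nat_lit 0) (nat_lit 1) (nat_lit 0) (nat_lit 262) (nat_lit 275) (nat_lit 183)) (XT.nd (nat_lit 94) (nat_lit 0) (nat_lit 0) (XT.lf (nat_lit 0) (nat_lit 5986151774) (nat_lit 0) (nat_lit 0) (nat_lit 0) (nat_lit 0) (nat_lit 0) (nat_lit 0) (nat_lit 1) (nat_lit 0) (nat_lit 1) (nat_lit 0) (nat_lit 263) (nat_lit 275) (nat_lit 182)) (XT.lf (nat_lit 0) (nat_lit 5983133899) (nat_lit 0) (nat_lit 0) (nat_lit 0) (nat_lit 0) (nat_lit 0) (nat_lit 0) (nat_lit 1) (nat_lit 0) (nat_lit 1) (nat_lit 0) (nat_lit 264) (nat_lit 275) (nat_lit 181))))) (XT.nd (nat_lit 282) (nat_lit 0) (nat_lit 0) (XT.nd (nat_lit 94)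 (nat_lit 0) (nat_lit 0) (XT.lf (nat_lit 0) (nat_lit 5980259732) (nat_lit 0) (nat_lit 0) (nat_lit 0) (nat_lit 0) (nat_lit 0) (nat_lit 0) (nat_lit 1) (nat_lit 0) (nat_lit 1) (nat_lit 0) (nat_lit 265) (nat_lit 275) (nat_lit 180)) (XT.nd (nat_lit 94) (nat_lit 0) (nat_lit 0) (XT.lf (nat_lit 0) (nat_lit 5977522431) (nat_lit 0) (nat_lit 0) (nat_lit 0) (nat_lit 0) (nat_lit 0) (nat_lit 0) (nat_lit 1) (nat_lit 0) (nat_lit 1) (nat_lit 0) (nat_lit 266) (nat_lit 275) (nat_lit 179)) (XT.lf (nat_lit 0) (nat_lit 5974915477) (nat_lit 0) (nat_lit 0) (nat_lit 0) (nat_lit 0) (nat_lit 0) (nat_lit 0) (nat_lit 1) (nat_lit 0) (nat_lit 1) (nat_lit 0) (nat_lit 267) (nat_lit 275) (nat_lit 178)))) (XT.nd (nat_lit 188) (nat_lit 0) (nat_lit 0) (XT.nd (nat_lit 94) (nat_lit 0) (nat_lit 0) (XT.lf (nat_lit 0) (nat_lit 5972432664) (nat_lit 0) (nat_lit 0) (nat_lit 0) (nat_lit 0) (nat_lit 0) (nat_lit 0) (nat_lit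 1) (nat_lit 0) (nat_lit 1) (nat_lit 0) (nat_lit 268) (nat_lit 275) (nat_lit 177)) (XT.lf (nat_lit 0) (nat_lit 5970068080) (nat_lit 0) (nat_lit 0) (nat_lit 0) (nat_lit 0) (nat_lit 0) (nat_lit 0) (nat_lit 1) (nat_lit 0) (nat_lit 1) (nat_lit 0) (nat_lit 269) (nat_lit 275) (nat_lit 176))) (XT.nd (nat_lit 94) (nat_lit 0) (nat_lit 0) (XT.lf (nat_lit 0) (nat_lit 5967816095) (nat_lit 0) (nat_lit 0) (nat_lit 0) (nat_lit 0) (nat_lit 0) (nat_lit 0) (nat_lit 1) (nat_lit 0) (nat_lit 1) (nat_lit 0) (nat_lit 270) (nat_lit 275) (nat_lit 175)) (XT.lf (nat_lit 0) (nat_lit 5965671348) (nat_lit 0) (nat_lit 0) (nat_lit 0) (nat_lit 0) (nat_lit 0) (nat_lit 0) (nat_lit 1) (nat_lit 0) (nat_lit 1) (nat_lit 0) (nat_lit 271) (nat_lit 275) (nat_lit 174)))))) (XT.nd (nat_lit 658) (nat_lit 0) (nat_lit 0) (XT.nd (nat_lit 282) (nat_lit 0) (nat_lit 0) (XT.nd (nat_lit 94) (nat_lit 0) (nat_lit 0) (XT.lf (nat_lit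 0) (nat_lit 5963628732) (nat_lit 0) (nat_lit 0) (nat_lit 0) (nat_lit 0) (nat_lit 0) (nat_lit 0) (nat_lit 1) (nat_lit 0) (nat_lit 1) (nat_lit 0) (nat_lit 272) (nat_lit 275) (nat_lit 173)) (XT.nd (nat_lit 94) (nat_lit 0) (nat_lit 0) (XT.lf (nat_lit 0) (nat_lit 5961683382) (nat_lit 0) (nat_lit 0) (nat_lit 0) (nat_lit 0) (nat_lit 0) (nat_lit 0) (nat_lit 1) (nat_lit 0) (nat_lit 1) (nat_lit 0) (nat_lit 273) (nat_lit 275) (nat_lit 172)) (XT.lf (nat_lit 0) (nat_lit 5959830669) (nat_lit 0) (nat_lit 0) (nat_lit 0) (nat_lit 0) (nat_lit 0) (nat_lit 0) (nat_lit 1) (nat_lit 0) (nat_lit 1) (nat_lit 0) (nat_lit 274) (nat_lit 275) (nat_lit 171)))) (XT.nd (nat_lit 188) (nat_lit 0) (nat_lit 0) (XT.nd (nat_lit 94) (nat_lit 0) (nat_lit 0) (XT.lf (nat_lit 0) (nat_lit 5958066180) (nat_lit 0) (nat_lit 0) (nat_lit 0) (nat_lit 0) (nat_lit 0) (nat_lit 0) (nat_lit 1) (nat_lit 0) (nat_lit 1) (nat_lit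 0) (nat_lit 275) (nat_lit 275) (nat_lit 170)) (XT.lf (nat_lit 0) (nat_lit 5956385715) (nat_lit 0) (nat_lit 0) (nat_lit 0) (nat_lit 0) (nat_lit 0) (nat_lit 0) (nat_lit 1) (nat_lit 0) (nat_lit 1) (nat_lit 0) (nat_lit 276) (nat_lit 275) (nat_lit 169))) (XT.nd (nat_lit 94) (nat_lit 0) (nat_lit 0) (XT.lf (nat_lit 0) (nat_lit 5954785271) (nat_lit 0) (nat_lit 0) (nat_lit 0) (nat_lit 0) (nat_lit 0) (nat_lit 0) (nat_lit 1) (nat_lit 0) (nat_lit 1) (nat_lit 0) (nat_lit 277) (nat_lit 275) (nat_lit 168)) (XT.lf (nat_lit 0) (nat_lit 5953261039) (nat_lit 0) (nat_lit 0) (nat_lit 0) (nat_lit 0) (nat_lit 0) (nat_lit 0) (nat_lit 1) (nat_lit 0) (nat_lit 1) (nat_lit 0) (nat_lit 278) (nat_lit 275) (nat_lit 167))))) (XT.nd (nat_lit 282) (nat_lit 0) (nat_lit 0) (XT.nd (nat_lit 94) (nat_lit 0) (nat_lit 0) (XT.lf (nat_lit 0) (nat_lit 5951809390) (nat_lit 0) (nat_lit 0) (nat_lit 0) (nat_lit 0) (nat_lit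 0) (nat_lit 0) (nat_lit 1) (nat_lit 0) (nat_lit 1) (nat_lit 0) (nat_lit 279) (nat_lit 275) (nat_lit 166)) (XT.nd (nat_lit 94) (nat_lit 0) (nat_lit 0) (XT.lf (nat_lit 0) (nat_lit 5950426866) (nat_lit 0) (nat_lit 0) (nat_lit 0) (nat_lit 0) (nat_lit 0) (nat_lit 0) (nat_lit 1) (nat_lit 0) (nat_lit 1) (nat_lit 0) (nat_lit 280) (nat_lit 275) (nat_lit 165)) (XT.lf (nat_lit 0) (nat_lit 5949110178) (nat_lit 0) (nat_lit 0) (nat_lit 0) (nat_lit 0) (nat_lit 0) (nat_lit 0) (nat_lit 1) (nat_lit 0) (nat_lit 1) (nat_lit 0) (nat_lit 281) (nat_lit 275) (nat_lit 164)))) (XT.nd (nat_lit 188) (nat_lit 0) (nat_lit 0) (XT.nd (nat_lit 94) (nat_lit 0) (nat_lit 0) (XT.lf (nat_lit 0) (nat_lit 5947856188) (nat_lit 0) (nat_lit 0) (nat_lit 0) (nat_lit 0) (nat_lit 0) (nat_lit 0) (nat_lit 1) (nat_lit 0) (nat_lit 1) (nat_lit 0) (nat_lit 282) (nat_lit 275) (nat_lit 163)) (XT.lf (nat_lit 0) (nat_lit 5946661913)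 (nat_lit 0) (nat_lit 0) (nat_lit 0) (nat_lit 0) (nat_lit 0) (nat_lit 0) (nat_lit 1) (nat_lit 0) (nat_lit 1) (nat_lit 0) (nat_lit 283) (nat_lit 275) (nat_lit 162))) (XT.nd (nat_lit 94) (nat_lit 0) (nat_lit 0) (XT.lf (nat_lit 0) (nat_lit 5945524507) (nat_lit 0) (nat_lit 0) (nat_lit 0) (nat_lit 0) (nat_lit 0) (nat_lit 0) (nat_lit 1) (nat_lit 0) (nat_lit 1) (nat_lit 0) (nat_lit 284) (nat_lit 275) (nat_lit 161)) (XT.lf (nat_lit 0) (nat_lit 5944441264) (nat_lit 0) (nat_lit 0) (nat_lit 0) (nat_lit 0) (nat_lit 0) (nat_lit 0) (nat_lit 1) (nat_lit 0) (nat_lit 1) (nat_lit 0) (nat_lit 285) (nat_lit 275) (nat_lit 160))))))) (XT.nd (nat_lit 1222) (nat_lit 0) (nat_lit 0) (XT.nd (nat_lit 564) (nat_lit 0) (nat_lit 0) (XT.nd (nat_lit 282) (nat_lit 0) (nat_lit 0) (XT.nd (nat_lit 94) (nat_lit 0) (nat_lit 0) (XT.lf (nat_lit 0) (nat_lit 5943409604) (nat_lit 0) (nat_lit 0) (nat_lit 0) (nat_lit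 0) (nat_lit 0) (nat_lit 0) (nat_lit 1) (nat_lit 0) (nat_lit 1) (nat_lit 0) (nat_lit 286) (nat_lit 275) (nat_lit 159)) (XT.nd (nat_lit 94) (nat_lit 0) (nat_lit 0) (XT.lf (nat_lit 0) (nat_lit 5942427071) (nat_lit 0) (nat_lit 0) (nat_lit 0) (nat_lit 0) (nat_lit 0) (nat_lit 0) (nat_lit 1) (nat_lit 0) (nat_lit 1) (nat_lit 0) (nat_lit 287) (nat_lit 275) (nat_lit 158)) (XT.lf (nat_lit 0) (nat_lit 5941491325) (nat_lit 0) (nat_lit 0) (nat_lit 0) (nat_lit 0) (nat_lit 0) (nat_lit 0) (nat_lit 1) (nat_lit 0) (nat_lit 1) (nat_lit 0) (nat_lit 288) (nat_lit 275) (nat_lit 157)))) (XT.nd (nat_lit 94) (nat_lit 0) (nat_lit 0) (XT.lf (nat_lit 0) (nat_lit 5940600138) (nat_lit 0) (nat_lit 0) (nat_lit 0) (nat_lit 0) (nat_lit 0) (nat_lit 0) (nat_lit 1) (nat_lit 0) (nat_lit 1) (nat_lit 0) (nat_lit 289) (nat_lit 275) (nat_lit 156)) (XT.nd (nat_lit 94) (nat_lit 0) (nat_lit 0) (XT.lf (nat_lit 0) (nat_lit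 5939751388) (nat_lit 0) (nat_lit 0) (nat_lit 0) (nat_lit 0) (nat_lit 0) (nat_lit 0) (nat_lit 1) (nat_lit 0) (nat_lit 1) (nat_lit 0) (nat_lit 290) (nat_lit 275) (nat_lit 155)) (XT.lf (nat_lit 0) (nat_lit 5938943056) (nat_lit 0) (nat_lit 0) (nat_lit 0) (nat_lit 0) (nat_lit 0) (nat_lit 0) (nat_lit 1) (nat_lit 0) (nat_lit 1) (nat_lit 0) (nat_lit 291) (nat_lit 275) (nat_lit 154))))) (XT.nd (nat_lit 282) (nat_lit 0) (nat_lit 0) (XT.nd (nat_lit 94) (nat_lit 0) (nat_lit 0) (XT.lf (nat_lit 0) (nat_lit 5938173215) (nat_lit 0) (nat_lit 0) (nat_lit 0) (nat_lit 0) (nat_lit 0) (nat_lit 0) (nat_lit 1) (nat_lit 0) (nat_lit 1) (nat_lit 0) (nat_lit 292) (nat_lit 275) (nat_lit 153)) (XT.nd (nat_lit 94) (nat_lit 0) (nat_lit 0) (XT.lf (nat_lit 0) (nat_lit 5937440033) (nat_lit 0) (nat_lit 0) (nat_lit 0) (nat_lit 0) (nat_lit 0) (nat_lit 0) (nat_lit 1) (nat_lit 0) (nat_lit 1) (nat_lit 0) (nat_lit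 293) (nat_lit 275) (nat_lit 152)) (XT.lf (nat_lit 0) (nat_lit 5936741765) (nat_lit 0) (nat_lit 0) (nat_lit 0) (nat_lit 0) (nat_lit 0) (nat_lit 0) (nat_lit 1) (nat_lit 0) (nat_lit 1) (nat_lit 0) (nat_lit 294) (nat_lit 275) (nat_lit 151)))) (XT.nd (nat_lit 188) (nat_lit 0) (nat_lit 0) (XT.nd (nat_lit 94) (nat_lit 0) (nat_lit 0) (XT.lf (nat_lit 0) (nat_lit 5936076748) (nat_lit 0) (nat_lit 0) (nat_lit 0) (nat_lit 0) (nat_lit 0) (nat_lit 0) (nat_lit 1) (nat_lit 0) (nat_lit 1) (nat_lit 0) (nat_lit 295) (nat_lit 275) (nat_lit 150)) (XT.lf (nat_lit 0) (nat_lit 5935443398) (nat_lit 0) (nat_lit 0) (nat_lit 0) (nat_lit 0) (nat_lit 0) (nat_lit 0) (nat_lit 1) (nat_lit 0) (nat_lit 1) (nat_lit 0) (nat_lit 296) (nat_lit 275) (nat_lit 149))) (XT.nd (nat_lit 94) (nat_lit 0) (nat_lit 0) (XT.lf (nat_lit 0) (nat_lit 5934840208) (nat_lit 0) (nat_lit 0) (nat_lit 0) (nat_lit 0) (nat_lit 0) (nat_lit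 0) (nat_lit 1) (nat_lit 0) (nat_lit 1) (nat_lit 0) (nat_lit 297) (nat_lit 275) (nat_lit 148)) (XT.lf (nat_lit 0) (nat_lit 5934265741) (nat_lit 0) (nat_lit 0) (nat_lit 0) (nat_lit 0) (nat_lit 0) (nat_lit 0) (nat_lit 1) (nat_lit 0) (nat_lit 1) (nat_lit 0) (nat_lit 298) (nat_lit 275) (nat_lit 147)))))) (XT.nd (nat_lit 658) (nat_lit 0) (nat_lit 0) (XT.nd (nat_lit 282) (nat_lit 0) (nat_lit 0) (XT.nd (nat_lit 94) (nat_lit 0) (nat_lit 0) (XT.lf (nat_lit 0) (nat_lit 5933718629) (nat_lit 0) (nat_lit 0) (nat_lit 0) (nat_lit 0) (nat_lit 0) (nat_lit 0) (nat_lit 1) (nat_lit 0) (nat_lit 1) (nat_lit 0) (nat_lit 299) (nat_lit 275) (nat_lit 146)) (XT.nd (nat_lit 94) (nat_lit 0) (nat_lit 0) (XT.lf (nat_lit 0) (nat_lit 5933197571) (nat_lit 0) (nat_lit 0) (nat_lit 0) (nat_lit 0) (nat_lit 0) (nat_lit 0) (nat_lit 1) (nat_lit 0) (nat_lit 1) (nat_lit 0) (nat_lit 300) (nat_lit 275) (nat_lit 145))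 (XT.lf (nat_lit 0) (nat_lit 5932701325) (nat_lit 0) (nat_lit 0) (nat_lit 0) (nat_lit 0) (nat_lit 0) (nat_lit 0) (nat_lit 1) (nat_lit 0) (nat_lit 1) (nat_lit 0) (nat_lit 301) (nat_lit 275) (nat_lit 144)))) (XT.nd (nat_lit 188) (nat_lit 0) (nat_lit 0) (XT.nd (nat_lit 94) (nat_lit 0) (nat_lit 0) (XT.lf (nat_lit 0) (nat_lit 5932228709) (nat_lit 0) (nat_lit 0) (nat_lit 0) (nat_lit 0) (nat_lit 0) (nat_lit 0) (nat_lit 1) (nat_lit 0) (nat_lit 1) (nat_lit 0) (nat_lit 302) (nat_lit 275) (nat_lit 143)) (XT.lf (nat_lit 0) (nat_lit 5931778599) (nat_lit 0) (nat_lit 0) (nat_lit 0) (nat_lit 0) (nat_lit 0) (nat_lit 0) (nat_lit 1) (nat_lit 0) (nat_lit 1) (nat_lit 0) (nat_lit 303) (nat_lit 275) (nat_lit 142))) (XT.nd (nat_lit 94) (nat_lit 0) (nat_lit 0) (XT.lf (nat_lit 0) (nat_lit 5931349923) (nat_lit 0) (nat_lit 0) (nat_lit 0) (nat_lit 0) (nat_lit 0) (nat_lit 0) (nat_lit 1) (nat_lit 0) (nat_lit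 1) (nat_lit 0) (nat_lit 304) (nat_lit 275) (nat_lit 141)) (XT.lf (nat_lit 0) (nat_lit 5930941660) (nat_lit 0) (nat_lit 0) (nat_lit 0) (nat_lit 0) (nat_lit 0) (nat_lit 0) (nat_lit 1) (nat_lit 0) (nat_lit 1) (nat_lit 0) (nat_lit 305) (nat_lit 275) (nat_lit 140))))) (XT.nd (nat_lit 282) (nat_lit 0) (nat_lit 0) (XT.nd (nat_lit 94) (nat_lit 0) (nat_lit 0) (XT.lf (nat_lit 0) (nat_lit 5930552839) (nat_lit 0) (nat_lit 0) (nat_lit 0) (nat_lit 0) (nat_lit 0) (nat_lit 0) (nat_lit 1) (nat_lit 0) (nat_lit 1) (nat_lit 0) (nat_lit 306) (nat_lit 275) (nat_lit 139)) (XT.nd (nat_lit 94) (nat_lit 0) (nat_lit 0) (XT.lf (nat_lit 0) (nat_lit 5930182532) (nat_lit 0) (nat_lit 0) (nat_lit 0) (nat_lit 0) (nat_lit 0) (nat_lit 0) (nat_lit 1) (nat_lit 0) (nat_lit 1) (nat_lit 0) (nat_lit 307) (nat_lit 275) (nat_lit 138)) (XT.lf (nat_lit 0) (nat_lit 5929829859) (nat_lit 0) (nat_lit 0) (nat_lit 0) (nat_lit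 0) (nat_lit 0) (nat_lit 0) (nat_lit 1) (nat_lit 0) (nat_lit 1) (nat_lit 0) (nat_lit 308) (nat_lit 275) (nat_lit 137)))) (XT.nd (nat_lit 188) (nat_lit 0) (nat_lit 0) (XT.nd (nat_lit 94) (nat_lit 0) (nat_lit 0) (XT.lf (nat_lit 0) (nat_lit 5929493980) (nat_lit 0) (nat_lit 0) (nat_lit 0) (nat_lit 0) (nat_lit 0) (nat_lit 0) (nat_lit 1) (nat_lit 0) (nat_lit 1) (nat_lit 0) (nat_lit 309) (nat_lit 275) (nat_lit 136)) (XT.lf (nat_lit 0) (nat_lit 5929174096) (nat_lit 0) (nat_lit 0) (nat_lit 0) (nat_lit 0) (nat_lit 0) (nat_lit 0) (nat_lit 1) (nat_lit 0) (nat_lit 1) (nat_lit 0) (nat_lit 310) (nat_lit 275) (nat_lit 135))) (XT.nd (nat_lit 94) (nat_lit 0) (nat_lit 0) (XT.lf (nat_lit 0) (nat_lit 5928869443) (nat_lit 0) (nat_lit 0) (nat_lit 0) (nat_lit 0) (nat_lit 0) (nat_lit 0) (nat_lit 1) (nat_lit 0) (nat_lit 1) (nat_lit 0) (nat_lit 311) (nat_lit 275) (nat_lit 134)) (XT.lf (nat_lit 0) (nat_lit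 5928579299) (nat_lit 0) (nat_lit 0) (nat_lit 0) (nat_lit 0) (nat_lit 0) (nat_lit 0) (nat_lit 1) (nat_lit 0) (nat_lit 1) (nat_lit 0) (nat_lit 312) (nat_lit 275) (nat_lit 133))))))))
noncomputable def ec105 : XT := (XT.nd (nat_lit 33934) (nat_lit 0) (nat_lit 3528) (XT.nd (nat_lit 32618) (nat_lit 0) (nat_lit 7476) (XT.nd (nat_lit 31960) (nat_lit 0) (nat_lit 10920) (XT.nd (nat_lit 31678) (nat_lit 0) (nat_lit 10752) (XT.nd (nat_lit 94) (nat_lit 0) (nat_lit 0) (XT.lf (nat_lit 0) (nat_lit 5928302970) (nat_lit 0) (nat_lit 0) (nat_lit 0) (nat_lit 0) (nat_lit 0) (nat_lit 0) (nat_lit 1) (nat_lit 0) (nat_lit 1) (nat_lit 0) (nat_lit 313) (nat_lit 275) (nat_lit 132)) (XT.nd (nat_lit 31490) (nat_lit 0) (nat_lit 10752) (XT.lf (nat_lit 0) (nat_lit 5928039800) (nat_lit 0) (nat_lit 0) (nat_lit 0) (nat_lit 0) (nat_lit 0) (nat_lit 0) (nat_lit 1) (nat_lit 0) (nat_lit 1) (nat_lit 0) (nat_lit 314)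 (nat_lit 275) (nat_lit 131)) (XT.lf (nat_lit 924) (nat_lit 3112178122) (nat_lit 0) (nat_lit 5525665103) (nat_lit 924) (nat_lit 3112178122) (nat_lit 139) (nat_lit 1) (nat_lit 128) (nat_lit 0) (nat_lit 139) (nat_lit 0) (nat_lit 168) (nat_lit 276) (nat_lit 276)))) (XT.nd (nat_lit 94) (nat_lit 0) (nat_lit 84) (XT.lf (nat_lit 924) (nat_lit 12063190943) (nat_lit 84) (nat_lit 5436541472) (nat_lit 0) (nat_lit 5436541472) (nat_lit 139) (nat_lit 1) (nat_lit 129) (nat_lit 1) (nat_lit 128) (nat_lit 0) (nat_lit 169) (nat_lit 276) (nat_lit 275)) (XT.nd (nat_lit 94) (nat_lit 0) (nat_lit 0) (XT.lf (nat_lit 924) (nat_lit 5749135168) (nat_lit 0) (nat_lit 10891663866) (nat_lit 840) (nat_lit 5749135168) (nat_lit 140) (nat_lit 1) (nat_lit 129) (nat_lit 1) (nat_lit 139) (nat_lit 1) (nat_lit 170) (nat_lit 276) (nat_lit 274)) (XT.lf (nat_lit 924) (nat_lit 10784578713) (nat_lit 84) (nat_lit 5538333323)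 (nat_lit 0) (nat_lit 5538333323) (nat_lit 140) (nat_lit 1) (nat_lit 130) (nat_lit 1) (nat_lit 129) (nat_lit 1) (nat_lit 171) (nat_lit 276) (nat_lit 273))))) (XT.nd (nat_lit 282) (nat_lit 0) (nat_lit 84) (XT.nd (nat_lit 94) (nat_lit 0) (nat_lit 0) (XT.lf (nat_lit 924) (nat_lit 4964038016) (nat_lit 0) (nat_lit 11421237267) (nat_lit 840) (nat_lit 4964038016) (nat_lit 141) (nat_lit 1) (nat_lit 130) (nat_lit 1) (nat_lit 140) (nat_lit 1) (nat_lit 172) (nat_lit 276) (nat_lit 272)) (XT.nd (nat_lit 94) (nat_lit 0) (nat_lit 84) (XT.lf (nat_lit 924) (nat_lit 8928145690) (nat_lit 84) (nat_lit 5962420598) (nat_lit 0) (nat_lit 5962420598) (nat_lit 141) (nat_lit 1) (nat_lit 131) (nat_lit 1) (nat_lit 130) (nat_lit 1) (nat_lit 173) (nat_lit 276) (nat_lit 271)) (XT.lf (nat_lit 924) (nat_lit 3914734017) (nat_lit 0) (nat_lit 12543857361) (nat_lit 840) (nat_lit 3914734017) (nat_lit 142) (nat_lit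 1) (nat_lit 131) (nat_lit 1) (nat_lit 141) (nat_lit 1) (nat_lit 174) (nat_lit 276) (nat_lit 270)))) (XT.nd (nat_lit 188) (nat_lit 0) (nat_lit 84) (XT.nd (nat_lit 94) (nat_lit 0) (nat_lit 84) (XT.lf (nat_lit 924) (nat_lit 6580788081) (nat_lit 84) (nat_lit 6663041273) (nat_lit 0) (nat_lit 6663041273) (nat_lit 142) (nat_lit 1) (nat_lit 132) (nat_lit 1) (nat_lit 131) (nat_lit 1) (nat_lit 175) (nat_lit 276) (nat_lit 269)) (XT.lf (nat_lit 924) (nat_lit 2641843653) (nat_lit 0) (nat_lit 14173803459) (nat_lit 840) (nat_lit 2641843653) (nat_lit 143) (nat_lit 1) (nat_lit 132) (nat_lit 1) (nat_lit 142) (nat_lit 1) (nat_lit 176) (nat_lit 276) (nat_lit 268))) (XT.nd (nat_lit 94) (nat_lit 0) (nat_lit 84) (XT.lf (nat_lit 924) (nat_lit 3819743503) (nat_lit 84) (nat_lit 7599440132) (nat_lit 0) (nat_lit 7599440132) (nat_lit 143) (nat_lit 1) (nat_lit 133) (nat_lit 1) (nat_lit 132) (nat_lit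 1) (nat_lit 177) (nat_lit 276) (nat_lit 267)) (XT.lf (nat_lit 84) (nat_lit 1181446281) (nat_lit 0) (nat_lit 16234780789) (nat_lit 840) (nat_lit 1181446281) (nat_lit 134) (nat_lit 1) (nat_lit 133) (nat_lit 1) (nat_lit 143) (nat_lit 1) (nat_lit 178) (nat_lit 276) (nat_lit 266)))))) (XT.nd (nat_lit 658) (nat_lit 1428) (nat_lit 0) (XT.nd (nat_lit 282) (nat_lit 840) (nat_lit 0) (XT.nd (nat_lit 94) (nat_lit 588) (nat_lit 0) (XT.lf (nat_lit 924) (nat_lit 713564174) (nat_lit 0) (nat_lit 8735367455) (nat_lit 840) (nat_lit 8735367455) (nat_lit 134) (nat_lit 1) (nat_lit 123) (nat_lit 1) (nat_lit 133) (nat_lit 1) (nat_lit 179) (nat_lit 276) (nat_lit 265)) (XT.nd (nat_lit 94) (nat_lit 0) (nat_lit 0) (XT.lf (nat_lit 588) (nat_lit 16933776488) (nat_lit 0) (nat_lit 427453830) (nat_lit 504) (nat_lit 427453830) (nat_lit 123) (nat_lit 1) (nat_lit 116) (nat_lit 1) (nat_lit 122) (nat_lit 1)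 (nat_lit 180) (nat_lit 276) (nat_lit 264)) (XT.lf (nat_lit 84) (nat_lit 7403417608) (nat_lit 0) (nat_lit 2591323108) (nat_lit 588) (nat_lit 7403417608) (nat_lit 117) (nat_lit 1) (nat_lit 116) (nat_lit 1) (nat_lit 123) (nat_lit 1) (nat_lit 181) (nat_lit 276) (nat_lit 263)))) (XT.nd (nat_lit 188) (nat_lit 420) (nat_lit 0) (XT.nd (nat_lit 94) (nat_lit 0) (nat_lit 0) (XT.lf (nat_lit 504) (nat_lit 12739381329) (nat_lit 0) (nat_lit 2142428687) (nat_lit 420) (nat_lit 2142428687) (nat_lit 117) (nat_lit 1) (nat_lit 111) (nat_lit 1) (nat_lit 116) (nat_lit 1) (nat_lit 182) (nat_lit 276) (nat_lit 262)) (XT.lf (nat_lit 84) (nat_lit 5280767655) (nat_lit 0) (nat_lit 6096644598) (nat_lit 504) (nat_lit 5280767655) (nat_lit 112) (nat_lit 1) (nat_lit 111) (nat_lit 1) (nat_lit 117) (nat_lit 1) (nat_lit 183) (nat_lit 276) (nat_lit 261))) (XT.nd (nat_lit 94) (nat_lit 0) (nat_lit 0) (XT.lf (nat_lit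 504) (nat_lit 8389063266) (nat_lit 0) (nat_lit 3957903347) (nat_lit 420) (nat_lit 3957903347) (nat_lit 112) (nat_lit 1) (nat_lit 106) (nat_lit 1) (nat_lit 111) (nat_lit 1) (nat_lit 184) (nat_lit 276) (nat_lit 260)) (XT.lf (nat_lit 84) (nat_lit 3091258322) (nat_lit 0) (nat_lit 9779318811) (nat_lit 504) (nat_lit 3091258322) (nat_lit 107) (nat_lit 1) (nat_lit 106) (nat_lit 1) (nat_lit 112) (nat_lit 1) (nat_lit 185) (nat_lit 276) (nat_lit 259))))) (XT.nd (nat_lit 282) (nat_lit 672) (nat_lit 0) (XT.nd (nat_lit 94) (nat_lit 420) (nat_lit 0) (XT.lf (nat_lit 420) (nat_lit 3923312724) (nat_lit 0) (nat_lit 5852156103) (nat_lit 336) (nat_lit 5852156103) (nat_lit 107) (nat_lit 1) (nat_lit 102) (nat_lit 1) (nat_lit 106) (nat_lit 1) (nat_lit 186) (nat_lit 276) (nat_lit 258)) (XT.nd (nat_lit 94) (nat_lit 420) (nat_lit 0) (XT.lf (nat_lit 84) (nat_lit 853686670) (nat_lit 0) (nat_lit 13598893157)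 (nat_lit 420) (nat_lit 853686670) (nat_lit 103) (nat_lit 1) (nat_lit 102) (nat_lit 1) (nat_lit 107) (nat_lit 1) (nat_lit 187) (nat_lit 276) (nat_lit 257)) (XT.lf (nat_lit 84) (nat_lit 7193409189) (nat_lit 0) (nat_lit 602461992) (nat_lit 420) (nat_lit 7193409189) (nat_lit 98) (nat_lit 1) (nat_lit 97) (nat_lit 1) (nat_lit 102) (nat_lit 1) (nat_lit 188) (nat_lit 276) (nat_lit 256)))) (XT.nd (nat_lit 188) (nat_lit 336) (nat_lit 0) (XT.nd (nat_lit 94) (nat_lit 0) (nat_lit 0) (XT.lf (nat_lit 420) (nat_lit 11899033211) (nat_lit 0) (nat_lit 1392666321) (nat_lit 336) (nat_lit 1392666321) (nat_lit 98) (nat_lit 1) (nat_lit 93) (nat_lit 1) (nat_lit 97) (nat_lit 1) (nat_lit 189) (nat_lit 276) (nat_lit 255)) (XT.lf (nat_lit 84) (nat_lit 4667323943) (nat_lit 0) (nat_lit 5050034326) (nat_lit 420) (nat_lit 4667323943) (nat_lit 94) (nat_lit 1) (nat_lit 93) (nat_lit 1) (nat_lit 98) (nat_lit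 1) (nat_lit 190) (nat_lit 276) (nat_lit 254))) (XT.nd (nat_lit 94) (nat_lit 0) (nat_lit 0) (XT.lf (nat_lit 420) (nat_lit 6810923982) (nat_lit 0) (nat_lit 3642233282) (nat_lit 336) (nat_lit 3642233282) (nat_lit 94) (nat_lit 1) (nat_lit 89) (nat_lit 1) (nat_lit 93) (nat_lit 1) (nat_lit 191) (nat_lit 276) (nat_lit 253)) (XT.lf (nat_lit 84) (nat_lit 2147861457) (nat_lit 0) (nat_lit 9518834879) (nat_lit 420) (nat_lit 2147861457) (nat_lit 90) (nat_lit 1) (nat_lit 89) (nat_lit 1) (nat_lit 94) (nat_lit 1) (nat_lit 192) (nat_lit 276) (nat_lit 252))))))) (XT.nd (nat_lit 1222) (nat_lit 1680) (nat_lit 0) (XT.nd (nat_lit 564) (nat_lit 1092) (nat_lit 0) (XT.nd (nat_lit 282) (nat_lit 504) (nat_lit 0) (XT.nd (nat_lit 94) (nat_lit 420) (nat_lit 0) (XT.lf (nat_lit 336) (nat_lit 1746763732) (nat_lit 0) (nat_lit 5896511682) (nat_lit 252) (nat_lit 5896511682) (nat_lit 90) (nat_lit 1) (nat_lit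 86) (nat_lit 1) (nat_lit 89) (nat_lit 1) (nat_lit 193) (nat_lit 276) (nat_lit 251)) (XT.nd (nat_lit 94) (nat_lit 0) (nat_lit 0) (XT.lf (nat_lit 420) (nat_lit 12577610950) (nat_lit 0) (nat_lit 349004570) (nat_lit 336) (nat_lit 349004570) (nat_lit 86) (nat_lit 1) (nat_lit 81) (nat_lit 1) (nat_lit 85) (nat_lit 1) (nat_lit 194) (nat_lit 276) (nat_lit 250)) (XT.lf (nat_lit 84) (nat_lit 4921712149) (nat_lit 0) (nat_lit 3169490918) (nat_lit 420) (nat_lit 4921712149) (nat_lit 82) (nat_lit 1) (nat_lit 81) (nat_lit 1) (nat_lit 86) (nat_lit 1) (nat_lit 195) (nat_lit 276) (nat_lit 249)))) (XT.nd (nat_lit 94) (nat_lit 252) (nat_lit 0) (XT.lf (nat_lit 336) (nat_lit 7188316191) (nat_lit 0) (nat_lit 2785984792) (nat_lit 252) (nat_lit 2785984792) (nat_lit 82) (nat_lit 1) (nat_lit 78) (nat_lit 1) (nat_lit 81) (nat_lit 1) (nat_lit 196) (nat_lit 276) (nat_lit 248)) (XT.nd (nat_lit 94) (nat_lit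 252) (nat_lit 0) (XT.lf (nat_lit 84) (nat_lit 2270900276) (nat_lit 0) (nat_lit 7972274266) (nat_lit 336) (nat_lit 2270900276) (nat_lit 79) (nat_lit 1) (nat_lit 78) (nat_lit 1) (nat_lit 82) (nat_lit 1) (nat_lit 197) (nat_lit 276) (nat_lit 247)) (XT.lf (nat_lit 336) (nat_lit 1892724400) (nat_lit 0) (nat_lit 5190370347) (nat_lit 252) (nat_lit 5190370347) (nat_lit 79) (nat_lit 1) (nat_lit 75) (nat_lit 1) (nat_lit 78) (nat_lit 1) (nat_lit 198) (nat_lit 276) (nat_lit 246))))) (XT.nd (nat_lit 282) (nat_lit 504) (nat_lit 0) (XT.nd (nat_lit 94) (nat_lit 252) (nat_lit 0) (XT.lf (nat_lit 336) (nat_lit 11391225849) (nat_lit 0) (nat_lit 325284239) (nat_lit 252) (nat_lit 325284239) (nat_lit 75) (nat_lit 1) (nat_lit 71) (nat_lit 1) (nat_lit 74) (nat_lit 1) (nat_lit 199) (nat_lit 276) (nat_lit 245)) (XT.nd (nat_lit 94) (nat_lit 252) (nat_lit 0) (XT.lf (nat_lit 84) (nat_lit 4308974514) (nat_lit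 0) (nat_lit 3192906848) (nat_lit 336) (nat_lit 4308974514) (nat_lit 72) (nat_lit 1) (nat_lit 71) (nat_lit 1) (nat_lit 75) (nat_lit 1) (nat_lit 200) (nat_lit 276) (nat_lit 244)) (XT.lf (nat_lit 336) (nat_lit 5925234512) (nat_lit 0) (nat_lit 2831613836) (nat_lit 252) (nat_lit 2831613836) (nat_lit 72) (nat_lit 1) (nat_lit 68) (nat_lit 1) (nat_lit 71) (nat_lit 1) (nat_lit 201) (nat_lit 276) (nat_lit 243)))) (XT.nd (nat_lit 188) (nat_lit 336) (nat_lit 0) (XT.nd (nat_lit 94) (nat_lit 168) (nat_lit 0) (XT.lf (nat_lit 84) (nat_lit 1631804752) (nat_lit 0) (nat_lit 8108423689) (nat_lit 336) (nat_lit 1631804752) (nat_lit 69) (nat_lit 1) (nat_lit 68) (nat_lit 1) (nat_lit 72) (nat_lit 1) (nat_lit 202) (nat_lit 276) (nat_lit 242)) (XT.lf (nat_lit 252) (nat_lit 597947517) (nat_lit 0) (nat_lit 5280867579) (nat_lit 168) (nat_lit 5280867579) (nat_lit 69) (nat_lit 1) (nat_lit 66) (nat_lit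 1) (nat_lit 68) (nat_lit 1) (nat_lit 203) (nat_lit 276) (nat_lit 241))) (XT.nd (nat_lit 94) (nat_lit 0) (nat_lit 0) (XT.lf (nat_lit 336) (nat_lit 9034786491) (nat_lit 0) (nat_lit 959559812) (nat_lit 252) (nat_lit 959559812) (nat_lit 66) (nat_lit 1) (nat_lit 62) (nat_lit 1) (nat_lit 65) (nat_lit 1) (nat_lit 204) (nat_lit 276) (nat_lit 240)) (XT.lf (nat_lit 84) (nat_lit 3155636461) (nat_lit 0) (nat_lit 4439158046) (nat_lit 336) (nat_lit 3155636461) (nat_lit 63) (nat_lit 1) (nat_lit 62) (nat_lit 1) (nat_lit 66) (nat_lit 1) (nat_lit 205) (nat_lit 276) (nat_lit 239)))))) (XT.nd (nat_lit 658) (nat_lit 672) (nat_lit 0) (XT.nd (nat_lit 282) (nat_lit 588) (nat_lit 0) (XT.nd (nat_lit 94) (nat_lit 252) (nat_lit 0) (XT.lf (nat_lit 252) (nat_lit 3645851153) (nat_lit 0) (nat_lit 3453692234) (nat_lit 168) (nat_lit 3453692234) (nat_lit 63) (nat_lit 1) (nat_lit 60) (nat_lit 1) (nat_lit 62)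 (nat_lit 1) (nat_lit 206) (nat_lit 276) (nat_lit 238)) (XT.nd (nat_lit 94) (nat_lit 252) (nat_lit 0) (XT.lf (nat_lit 84) (nat_lit 523793089) (nat_lit 0) (nat_lit 9314998255) (nat_lit 252) (nat_lit 523793089) (nat_lit 61) (nat_lit 1) (nat_lit 60) (nat_lit 1) (nat_lit 63) (nat_lit 1) (nat_lit 207) (nat_lit 276) (nat_lit 237)) (XT.lf (nat_lit 84) (nat_lit 4322956263) (nat_lit 0) (nat_lit 1526713748) (nat_lit 252) (nat_lit 4322956263) (nat_lit 58) (nat_lit 1) (nat_lit 57) (nat_lit 1) (nat_lit 60) (nat_lit 1) (nat_lit 208) (nat_lit 276) (nat_lit 236)))) (XT.nd (nat_lit 188) (nat_lit 420) (nat_lit 0) (XT.nd (nat_lit 94) (nat_lit 0) (nat_lit 0) (XT.lf (nat_lit 252) (nat_lit 6003182434) (nat_lit 0) (nat_lit 1992893918) (nat_lit 168) (nat_lit 1992893918) (nat_lit 58) (nat_lit 1) (nat_lit 55) (nat_lit 1) (nat_lit 57) (nat_lit 1) (nat_lit 209) (nat_lit 276) (nat_lit 235)) (XT.lf (nat_lit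 84) (nat_lit 1693941903) (nat_lit 0) (nat_lit 6421489658) (nat_lit 252) (nat_lit 1693941903) (nat_lit 56) (nat_lit 1) (nat_lit 55) (nat_lit 1) (nat_lit 58) (nat_lit 1) (nat_lit 210) (nat_lit 276) (nat_lit 234))) (XT.nd (nat_lit 94) (nat_lit 252) (nat_lit 0) (XT.lf (nat_lit 252) (nat_lit 793550794) (nat_lit 0) (nat_lit 4419923037) (nat_lit 168) (nat_lit 4419923037) (nat_lit 56) (nat_lit 1) (nat_lit 53) (nat_lit 1) (nat_lit 55) (nat_lit 1) (nat_lit 211) (nat_lit 276) (nat_lit 233)) (XT.lf (nat_lit 252) (nat_lit 7799529872) (nat_lit 0) (nat_lit 831494729) (nat_lit 168) (nat_lit 831494729) (nat_lit 53) (nat_lit 1) (nat_lit 50) (nat_lit 1) (nat_lit 52) (nat_lit 1) (nat_lit 212) (nat_lit 276) (nat_lit 232))))) (XT.nd (nat_lit 282) (nat_lit 504) (nat_lit 0) (XT.nd (nat_lit 94) (nat_lit 168) (nat_lit 0) (XT.lf (nat_lit 84) (nat_lit 2596482607) (nat_lit 0) (nat_lit 4100134997) (nat_lit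 252) (nat_lit 2596482607) (nat_lit 51) (nat_lit 1) (nat_lit 50) (nat_lit 1) (nat_lit 53) (nat_lit 1) (nat_lit 213) (nat_lit 276) (nat_lit 231)) (XT.nd (nat_lit 94) (nat_lit 0) (nat_lit 0) (XT.lf (nat_lit 252) (nat_lit 2644391475) (nat_lit 0) (nat_lit 3242104045) (nat_lit 168) (nat_lit 3242104045) (nat_lit 51) (nat_lit 1) (nat_lit 48) (nat_lit 1) (nat_lit 50) (nat_lit 1) (nat_lit 214) (nat_lit 276) (nat_lit 230)) (XT.lf (nat_lit 84) (nat_lit 86913854) (nat_lit 0) (nat_lit 8796040257) (nat_lit 252) (nat_lit 86913854) (nat_lit 49) (nat_lit 1) (nat_lit 48) (nat_lit 1) (nat_lit 51) (nat_lit 1) (nat_lit 215) (nat_lit 276) (nat_lit 229)))) (XT.nd (nat_lit 188) (nat_lit 168) (nat_lit 0) (XT.nd (nat_lit 94) (nat_lit 168) (nat_lit 0) (XT.lf (nat_lit 84) (nat_lit 3281725440) (nat_lit 0) (nat_lit 2246676508) (nat_lit 168) (nat_lit 3281725440) (nat_lit 47) (nat_lit 1) (nat_lit 46) (nat_lit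 1) (nat_lit 48) (nat_lit 1) (nat_lit 216) (nat_lit 276) (nat_lit 228)) (XT.lf (nat_lit 252) (nat_lit 4072247670) (nat_lit 0) (nat_lit 2291879807) (nat_lit 168) (nat_lit 2291879807) (nat_lit 47) (nat_lit 1) (nat_lit 44) (nat_lit 1) (nat_lit 46) (nat_lit 1) (nat_lit 217) (nat_lit 276) (nat_lit 227))) (XT.nd (nat_lit 94) (nat_lit 168) (nat_lit 0) (XT.lf (nat_lit 84) (nat_lit 816457513) (nat_lit 0) (nat_lit 6873132249) (nat_lit 252) (nat_lit 816457513) (nat_lit 45) (nat_lit 1) (nat_lit 44) (nat_lit 1) (nat_lit 47) (nat_lit 1) (nat_lit 218) (nat_lit 276) (nat_lit 226)) (XT.lf (nat_lit 84) (nat_lit 3790924377) (nat_lit 0) (nat_lit 775475178) (nat_lit 168) (nat_lit 3790924377) (nat_lit 43) (nat_lit 1) (nat_lit 42) (nat_lit 1) (nat_lit 44) (nat_lit 1) (nat_lit 219) (nat_lit 276) (nat_lit 225))))))))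
noncomputable def ec106 : XT := (XT.nd (nat_lit 2538) (nat_lit 1008) (nat_lit 0) (XT.nd (nat_lit 1222) (nat_lit 1260) (nat_lit 0) (XT.nd (nat_lit 564) (nat_lit 672) (nat_lit 0) (XT.nd (nat_lit 282) (nat_lit 336) (nat_lit 0) (XT.nd (nat_lit 94) (nat_lit 84) (nat_lit 0) (XT.lf (nat_lit 252) (nat_lit 5156629436) (nat_lit 0) (nat_lit 1528004509) (nat_lit 168) (nat_lit 1528004509) (nat_lit 43) (nat_lit 1) (nat_lit 40) (nat_lit 1) (nat_lit 42) (nat_lit 1) (nat_lit 220) (nat_lit 276) (nat_lit 224)) (XT.nd (nat_lit 94) (nat_lit 84) (nat_lit 0) (XT.lf (nat_lit 84) (nat_lit 1381180922) (nat_lit 0) (nat_lit 5308455445) (nat_lit 252) (nat_lit 1381180922) (nat_lit 41) (nat_lit 1) (nat_lit 40) (nat_lit 1) (nat_lit 43) (nat_lit 1) (nat_lit 221) (nat_lit 276) (nat_lit 223)) (XT.lf (nat_lit 168) (nat_lit 396486745) (nat_lit 0) (nat_lit 3767592806) (nat_lit 84) (nat_lit 3767592806) (nat_lit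 41) (nat_lit 1) (nat_lit 39) (nat_lit 1) (nat_lit 40) (nat_lit 1) (nat_lit 222) (nat_lit 276) (nat_lit 222)))) (XT.nd (nat_lit 94) (nat_lit 84) (nat_lit 0) (XT.lf (nat_lit 252) (nat_lit 5962734846) (nat_lit 0) (nat_lit 916587681) (nat_lit 168) (nat_lit 916587681) (nat_lit 39) (nat_lit 1) (nat_lit 36) (nat_lit 1) (nat_lit 38) (nat_lit 1) (nat_lit 223) (nat_lit 276) (nat_lit 221)) (XT.nd (nat_lit 94) (nat_lit 84) (nat_lit 0) (XT.lf (nat_lit 84) (nat_lit 1811995539) (nat_lit 0) (nat_lit 4037672321) (nat_lit 252) (nat_lit 1811995539) (nat_lit 37) (nat_lit 1) (nat_lit 36) (nat_lit 1) (nat_lit 39) (nat_lit 1) (nat_lit 224) (nat_lit 276) (nat_lit 220)) (XT.lf (nat_lit 168) (nat_lit 1331492313) (nat_lit 0) (nat_lit 3099607925) (nat_lit 84) (nat_lit 3099607925) (nat_lit 37) (nat_lit 1) (nat_lit 35) (nat_lit 1) (nat_lit 36) (nat_lit 1) (nat_lit 225) (nat_lit 276) (nat_lit 219)))))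 (XT.nd (nat_lit 282) (nat_lit 336) (nat_lit 0) (XT.nd (nat_lit 94) (nat_lit 84) (nat_lit 0) (XT.lf (nat_lit 252) (nat_lit 6543997712) (nat_lit 0) (nat_lit 429788087) (nat_lit 168) (nat_lit 429788087) (nat_lit 35) (nat_lit 1) (nat_lit 32) (nat_lit 1) (nat_lit 34) (nat_lit 1) (nat_lit 226) (nat_lit 276) (nat_lit 218)) (XT.nd (nat_lit 94) (nat_lit 84) (nat_lit 0) (XT.lf (nat_lit 84) (nat_lit 2134251858) (nat_lit 0) (nat_lit 3007891477) (nat_lit 252) (nat_lit 2134251858) (nat_lit 33) (nat_lit 1) (nat_lit 32) (nat_lit 1) (nat_lit 35) (nat_lit 1) (nat_lit 227) (nat_lit 276) (nat_lit 217)) (XT.lf (nat_lit 168) (nat_lit 2052852199) (nat_lit 0) (nat_lit 2550055111) (nat_lit 84) (nat_lit 2550055111) (nat_lit 33) (nat_lit 1) (nat_lit 31) (nat_lit 1) (nat_lit 32) (nat_lit 1) (nat_lit 228) (nat_lit 276) (nat_lit 216)))) (XT.nd (nat_lit 188) (nat_lit 84) (nat_lit 0) (XT.nd (nat_lit 94)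 (nat_lit 0) (nat_lit 0) (XT.lf (nat_lit 252) (nat_lit 6944183111) (nat_lit 0) (nat_lit 44739278) (nat_lit 168) (nat_lit 44739278) (nat_lit 31) (nat_lit 1) (nat_lit 28) (nat_lit 1) (nat_lit 30) (nat_lit 1) (nat_lit 229) (nat_lit 276) (nat_lit 215)) (XT.lf (nat_lit 84) (nat_lit 2368729184) (nat_lit 0) (nat_lit 2175636397) (nat_lit 252) (nat_lit 2368729184) (nat_lit 29) (nat_lit 1) (nat_lit 28) (nat_lit 1) (nat_lit 31) (nat_lit 1) (nat_lit 230) (nat_lit 276) (nat_lit 214))) (XT.nd (nat_lit 94) (nat_lit 0) (nat_lit 0) (XT.lf (nat_lit 168) (nat_lit 2600724849) (nat_lit 0) (nat_lit 2097936651) (nat_lit 84) (nat_lit 2097936651) (nat_lit 29) (nat_lit 1) (nat_lit 27) (nat_lit 1) (nat_lit 28) (nat_lit 1) (nat_lit 231) (nat_lit 276) (nat_lit 213)) (XT.lf (nat_lit 0) (nat_lit 261552855) (nat_lit 0) (nat_lit 6160513053) (nat_lit 168) (nat_lit 261552855) (nat_lit 27) (nat_lit 3) (nat_lit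 27) (nat_lit 1) (nat_lit 29) (nat_lit 1) (nat_lit 232) (nat_lit 276) (nat_lit 212)))))) (XT.nd (nat_lit 658) (nat_lit 588) (nat_lit 0) (XT.nd (nat_lit 282) (nat_lit 420) (nat_lit 0) (XT.nd (nat_lit 94) (nat_lit 84) (nat_lit 0) (XT.lf (nat_lit 84) (nat_lit 2532449742) (nat_lit 0) (nat_lit 1505174433) (nat_lit 168) (nat_lit 2532449742) (nat_lit 26) (nat_lit 1) (nat_lit 25) (nat_lit 1) (nat_lit 27) (nat_lit 1) (nat_lit 233) (nat_lit 276) (nat_lit 211)) (XT.nd (nat_lit 94) (nat_lit 0) (nat_lit 0) (XT.lf (nat_lit 168) (nat_lit 3008040164) (nat_lit 0) (nat_lit 1725977674) (nat_lit 84) (nat_lit 1725977674) (nat_lit 26) (nat_lit 1) (nat_lit 24) (nat_lit 1) (nat_lit 25) (nat_lit 1) (nat_lit 234) (nat_lit 276) (nat_lit 210)) (XT.lf (nat_lit 0) (nat_lit 499907195) (nat_lit 0) (nat_lit 5352996349) (nat_lit 168) (nat_lit 499907195) (nat_lit 24) (nat_lit 3) (nat_lit 24) (nat_lit 1) (nat_lit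 26) (nat_lit 1) (nat_lit 235) (nat_lit 276) (nat_lit 209)))) (XT.nd (nat_lit 188) (nat_lit 168) (nat_lit 0) (XT.nd (nat_lit 94) (nat_lit 84) (nat_lit 0) (XT.lf (nat_lit 84) (nat_lit 2639348270) (nat_lit 0) (nat_lit 967142146) (nat_lit 168) (nat_lit 2639348270) (nat_lit 23) (nat_lit 1) (nat_lit 22) (nat_lit 1) (nat_lit 24) (nat_lit 1) (nat_lit 236) (nat_lit 276) (nat_lit 208)) (XT.lf (nat_lit 168) (nat_lit 3301786273) (nat_lit 0) (nat_lit 1419966104) (nat_lit 84) (nat_lit 1419966104) (nat_lit 23) (nat_lit 1) (nat_lit 21) (nat_lit 1) (nat_lit 22) (nat_lit 1) (nat_lit 237) (nat_lit 276) (nat_lit 207))) (XT.nd (nat_lit 94) (nat_lit 168) (nat_lit 0) (XT.lf (nat_lit 0) (nat_lit 682443472) (nat_lit 0) (nat_lit 4675091929) (nat_lit 168) (nat_lit 682443472) (nat_lit 21) (nat_lit 3) (nat_lit 21) (nat_lit 1) (nat_lit 23) (nat_lit 1) (nat_lit 238) (nat_lit 276) (nat_lit 206)) (XT.lf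 (nat_lit 84) (nat_lit 2700822735) (nat_lit 0) (nat_lit 537414441) (nat_lit 168) (nat_lit 2700822735) (nat_lit 20) (nat_lit 1) (nat_lit 19) (nat_lit 1) (nat_lit 21) (nat_lit 1) (nat_lit 239) (nat_lit 276) (nat_lit 205))))) (XT.nd (nat_lit 282) (nat_lit 336) (nat_lit 0) (XT.nd (nat_lit 94) (nat_lit 168) (nat_lit 0) (XT.lf (nat_lit 168) (nat_lit 3504067914) (nat_lit 0) (nat_lit 1168209628) (nat_lit 84) (nat_lit 1168209628) (nat_lit 20) (nat_lit 1) (nat_lit 18) (nat_lit 1) (nat_lit 19) (nat_lit 1) (nat_lit 240) (nat_lit 276) (nat_lit 204)) (XT.nd (nat_lit 94) (nat_lit 168) (nat_lit 0) (XT.lf (nat_lit 0) (nat_lit 819703729) (nat_lit 0) (nat_lit 4104465496) (nat_lit 168) (nat_lit 819703729) (nat_lit 18) (nat_lit 3) (nat_lit 18) (nat_lit 1) (nat_lit 20) (nat_lit 1) (nat_lit 241) (nat_lit 276) (nat_lit 203)) (XT.lf (nat_lit 84) (nat_lit 2726187244) (nat_lit 0) (nat_lit 196174290)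 (nat_lit 168) (nat_lit 2726187244) (nat_lit 17) (nat_lit 1) (nat_lit 16) (nat_lit 1) (nat_lit 18) (nat_lit 1) (nat_lit 242) (nat_lit 276) (nat_lit 202)))) (XT.nd (nat_lit 188) (nat_lit 252) (nat_lit 0) (XT.nd (nat_lit 94) (nat_lit 0) (nat_lit 0) (XT.lf (nat_lit 168) (nat_lit 3632976942) (nat_lit 0) (nat_lit 961088952) (nat_lit 84) (nat_lit 961088952) (nat_lit 17) (nat_lit 1) (nat_lit 15) (nat_lit 1) (nat_lit 16) (nat_lit 1) (nat_lit 243) (nat_lit 276) (nat_lit 201)) (XT.lf (nat_lit 0) (nat_lit 920330187) (nat_lit 0) (nat_lit 3622711821) (nat_lit 168) (nat_lit 920330187) (nat_lit 15) (nat_lit 3) (nat_lit 15) (nat_lit 1) (nat_lit 17) (nat_lit 1) (nat_lit 244) (nat_lit 276) (nat_lit 200))) (XT.nd (nat_lit 94) (nat_lit 168) (nat_lit 0) (XT.lf (nat_lit 84) (nat_lit 75261379) (nat_lit 0) (nat_lit 2648958174) (nat_lit 84) (nat_lit 2648958174) (nat_lit 15) (nat_lit 3) (nat_lit 14)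 (nat_lit 1) (nat_lit 15) (nat_lit 1) (nat_lit 245) (nat_lit 276) (nat_lit 199)) (XT.lf (nat_lit 168) (nat_lit 3703308260) (nat_lit 0) (nat_lit 790690259) (nat_lit 84) (nat_lit 790690259) (nat_lit 14) (nat_lit 1) (nat_lit 12) (nat_lit 1) (nat_lit 13) (nat_lit 1) (nat_lit 246) (nat_lit 276) (nat_lit 198))))))) (XT.nd (nat_lit 1222) (nat_lit 0) (nat_lit 0) (XT.nd (nat_lit 564) (nat_lit 504) (nat_lit 0) (XT.nd (nat_lit 282) (nat_lit 252) (nat_lit 0) (XT.nd (nat_lit 94) (nat_lit 252) (nat_lit 0) (XT.lf (nat_lit 0) (nat_lit 991403542) (nat_lit 0) (nat_lit 3214659600) (nat_lit 168) (nat_lit 991403542) (nat_lit 12) (nat_lit 3) (nat_lit 12) (nat_lit 1) (nat_lit 14) (nat_lit 1) (nat_lit 247) (nat_lit 276) (nat_lit 197)) (XT.nd (nat_lit 94) (nat_lit 168) (nat_lit 0) (XT.lf (nat_lit 84) (nat_lit 292385187) (nat_lit 0) (nat_lit 2409771910) (nat_lit 84) (nat_lit 2409771910) (nat_lit 12)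 (nat_lit 3) (nat_lit 11) (nat_lit 1) (nat_lit 12) (nat_lit 1) (nat_lit 248) (nat_lit 276) (nat_lit 196)) (XT.lf (nat_lit 168) (nat_lit 3727148623) (nat_lit 0) (nat_lit 650502833) (nat_lit 84) (nat_lit 650502833) (nat_lit 11) (nat_lit 1) (nat_lit 9) (nat_lit 1) (nat_lit 10) (nat_lit 1) (nat_lit 249) (nat_lit 276) (nat_lit 195)))) (XT.nd (nat_lit 94) (nat_lit 252) (nat_lit 0) (XT.lf (nat_lit 0) (nat_lit 1038721214) (nat_lit 0) (nat_lit 2867799475) (nat_lit 168) (nat_lit 1038721214) (nat_lit 9) (nat_lit 3) (nat_lit 9) (nat_lit 1) (nat_lit 11) (nat_lit 1) (nat_lit 250) (nat_lit 276) (nat_lit 194)) (XT.nd (nat_lit 94) (nat_lit 168) (nat_lit 0) (XT.lf (nat_lit 84) (nat_lit 460038840) (nat_lit 0) (nat_lit 2202018137) (nat_lit 84) (nat_lit 2202018137) (nat_lit 9) (nat_lit 3) (nat_lit 8) (nat_lit 1) (nat_lit 9) (nat_lit 1) (nat_lit 251) (nat_lit 276) (nat_lit 193)) (XT.lf (nat_lit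 168) (nat_lit 3714360827) (nat_lit 0) (nat_lit 535170290) (nat_lit 84) (nat_lit 535170290) (nat_lit 8) (nat_lit 1) (nat_lit 6) (nat_lit 1) (nat_lit 7) (nat_lit 1) (nat_lit 252) (nat_lit 276) (nat_lit 192))))) (XT.nd (nat_lit 282) (nat_lit 252) (nat_lit 0) (XT.nd (nat_lit 94) (nat_lit 252) (nat_lit 0) (XT.lf (nat_lit 0) (nat_lit 1067026195) (nat_lit 0) (nat_lit 2571813408) (nat_lit 168) (nat_lit 1067026195) (nat_lit 6) (nat_lit 3) (nat_lit 6) (nat_lit 1) (nat_lit 8) (nat_lit 1) (nat_lit 253) (nat_lit 276) (nat_lit 191)) (XT.nd (nat_lit 94) (nat_lit 168) (nat_lit 0) (XT.lf (nat_lit 84) (nat_lit 587515876) (nat_lit 0) (nat_lit 2020646555) (nat_lit 84) (nat_lit 2020646555) (nat_lit 6) (nat_lit 3) (nat_lit 5) (nat_lit 1) (nat_lit 6) (nat_lit 1) (nat_lit 254) (nat_lit 276) (nat_lit 190)) (XT.lf (nat_lit 168) (nat_lit 3672981874) (nat_lit 0) (nat_lit 440285922) (nat_lit 84) (nat_lit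 440285922) (nat_lit 5) (nat_lit 1) (nat_lit 3) (nat_lit 1) (nat_lit 4) (nat_lit 1) (nat_lit 255) (nat_lit 276) (nat_lit 189)))) (XT.nd (nat_lit 188) (nat_lit 168) (nat_lit 0) (XT.nd (nat_lit 94) (nat_lit 84) (nat_lit 0) (XT.lf (nat_lit 0) (nat_lit 1080195265) (nat_lit 0) (nat_lit 2318187428) (nat_lit 168) (nat_lit 1080195265) (nat_lit 3) (nat_lit 3) (nat_lit 3) (nat_lit 1) (nat_lit 5) (nat_lit 1) (nat_lit 256) (nat_lit 276) (nat_lit 188)) (XT.lf (nat_lit 84) (nat_lit 682437227) (nat_lit 0) (nat_lit 1861477382) (nat_lit 84) (nat_lit 1861477382) (nat_lit 3) (nat_lit 3) (nat_lit 2) (nat_lit 1) (nat_lit 3) (nat_lit 1) (nat_lit 257) (nat_lit 276) (nat_lit 187))) (XT.nd (nat_lit 94) (nat_lit 0) (nat_lit 0) (XT.lf (nat_lit 0) (nat_lit 6295948383) (nat_lit 0) (nat_lit 0) (nat_lit 0) (nat_lit 0) (nat_lit 0) (nat_lit 0) (nat_lit 1) (nat_lit 0) (nat_lit 1) (nat_lit 0) (nat_lit 258)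 (nat_lit 276) (nat_lit 186)) (XT.lf (nat_lit 0) (nat_lit 6292280137) (nat_lit 0) (nat_lit 0) (nat_lit 0) (nat_lit 0) (nat_lit 0) (nat_lit 0) (nat_lit 1) (nat_lit 0) (nat_lit 1) (nat_lit 0) (nat_lit 259) (nat_lit 276) (nat_lit 185)))))) (XT.nd (nat_lit 658) (nat_lit 0) (nat_lit 0) (XT.nd (nat_lit 282) (nat_lit 0) (nat_lit 0) (XT.nd (nat_lit 94) (nat_lit 0) (nat_lit 0) (XT.lf (nat_lit 0) (nat_lit 6288786570) (nat_lit 0) (nat_lit 0) (nat_lit 0) (nat_lit 0) (nat_lit 0) (nat_lit 0) (nat_lit 1) (nat_lit 0) (nat_lit 1) (nat_lit 0) (nat_lit 260) (nat_lit 276) (nat_lit 184)) (XT.nd (nat_lit 94) (nat_lit 0) (nat_lit 0) (XT.lf (nat_lit 0) (nat_lit 6285459363) (nat_lit 0) (nat_lit 0) (nat_lit 0) (nat_lit 0) (nat_lit 0) (nat_lit 0) (nat_lit 1) (nat_lit 0) (nat_lit 1) (nat_lit 0) (nat_lit 261) (nat_lit 276) (nat_lit 183)) (XT.lf (nat_lit 0) (nat_lit 6282290594) (nat_lit 0) (nat_lit 0)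 (nat_lit 0) (nat_lit 0) (nat_lit 0) (nat_lit 0) (nat_lit 1) (nat_lit 0) (nat_lit 1) (nat_lit 0) (nat_lit 262) (nat_lit 276) (nat_lit 182)))) (XT.nd (nat_lit 188) (nat_lit 0) (nat_lit 0) (XT.nd (nat_lit 94) (nat_lit 0) (nat_lit 0) (XT.lf (nat_lit 0) (nat_lit 6279272719) (nat_lit 0) (nat_lit 0) (nat_lit 0) (nat_lit 0) (nat_lit 0) (nat_lit 0) (nat_lit 1) (nat_lit 0) (nat_lit 1) (nat_lit 0) (nat_lit 263) (nat_lit 276) (nat_lit 181)) (XT.lf (nat_lit 0) (nat_lit 6276398552) (nat_lit 0) (nat_lit 0) (nat_lit 0) (nat_lit 0) (nat_lit 0) (nat_lit 0) (nat_lit 1) (nat_lit 0) (nat_lit 1) (nat_lit 0) (nat_lit 264) (nat_lit 276) (nat_lit 180))) (XT.nd (nat_lit 94) (nat_lit 0) (nat_lit 0) (XT.lf (nat_lit 0) (nat_lit 6273661251) (nat_lit 0) (nat_lit 0) (nat_lit 0) (nat_lit 0) (nat_lit 0) (nat_lit 0) (nat_lit 1) (nat_lit 0) (nat_lit 1) (nat_lit 0) (nat_lit 265) (nat_lit 276) (nat_lit 179))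 (XT.lf (nat_lit 0) (nat_lit 6271054297) (nat_lit 0) (nat_lit 0) (nat_lit 0) (nat_lit 0) (nat_lit 0) (nat_lit 0) (nat_lit 1) (nat_lit 0) (nat_lit 1) (nat_lit 0) (nat_lit 266) (nat_lit 276) (nat_lit 178))))) (XT.nd (nat_lit 282) (nat_lit 0) (nat_lit 0) (XT.nd (nat_lit 94) (nat_lit 0) (nat_lit 0) (XT.lf (nat_lit 0) (nat_lit 6268571484) (nat_lit 0) (nat_lit 0) (nat_lit 0) (nat_lit 0) (nat_lit 0) (nat_lit 0) (nat_lit 1) (nat_lit 0) (nat_lit 1) (nat_lit 0) (nat_lit 267) (nat_lit 276) (nat_lit 177)) (XT.nd (nat_lit 94) (nat_lit 0) (nat_lit 0) (XT.lf (nat_lit 0) (nat_lit 6266206900) (nat_lit 0) (nat_lit 0) (nat_lit 0) (nat_lit 0) (nat_lit 0) (nat_lit 0) (nat_lit 1) (nat_lit 0) (nat_lit 1) (nat_lit 0) (nat_lit 268) (nat_lit 276) (nat_lit 176)) (XT.lf (nat_lit 0) (nat_lit 6263954915) (nat_lit 0) (nat_lit 0) (nat_lit 0) (nat_lit 0) (nat_lit 0) (nat_lit 0) (nat_lit 1) (nat_lit 0) (nat_lit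 1) (nat_lit 0) (nat_lit 269) (nat_lit 276) (nat_lit 175)))) (XT.nd (nat_lit 188) (nat_lit 0) (nat_lit 0) (XT.nd (nat_lit 94) (nat_lit 0) (nat_lit 0) (XT.lf (nat_lit 0) (nat_lit 6261810168) (nat_lit 0) (nat_lit 0) (nat_lit 0) (nat_lit 0) (nat_lit 0) (nat_lit 0) (nat_lit 1) (nat_lit 0) (nat_lit 1) (nat_lit 0) (nat_lit 270) (nat_lit 276) (nat_lit 174)) (XT.lf (nat_lit 0) (nat_lit 6259767552) (nat_lit 0) (nat_lit 0) (nat_lit 0) (nat_lit 0) (nat_lit 0) (nat_lit 0) (nat_lit 1) (nat_lit 0) (nat_lit 1) (nat_lit 0) (nat_lit 271) (nat_lit 276) (nat_lit 173))) (XT.nd (nat_lit 94) (nat_lit 0) (nat_lit 0) (XT.lf (nat_lit 0) (nat_lit 6257822203) (nat_lit 0) (nat_lit 0) (nat_lit 0) (nat_lit 0) (nat_lit 0) (nat_lit 0) (nat_lit 1) (nat_lit 0) (nat_lit 1) (nat_lit 0) (nat_lit 272) (nat_lit 276) (nat_lit 172)) (XT.lf (nat_lit 0) (nat_lit 6255969489) (nat_lit 0) (nat_lit 0) (nat_lit 0) (nat_lit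 0) (nat_lit 0) (nat_lit 0) (nat_lit 1) (nat_lit 0) (nat_lit 1) (nat_lit 0) (nat_lit 273) (nat_lit 276) (nat_lit 171))))))))
noncomputable def ec107 : XT := (XT.nd (nat_lit 2538) (nat_lit 0) (nat_lit 0) (XT.nd (nat_lit 1222) (nat_lit 0) (nat_lit 0) (XT.nd (nat_lit 564) (nat_lit 0) (nat_lit 0) (XT.nd (nat_lit 282) (nat_lit 0) (nat_lit 0) (XT.nd (nat_lit 94) (nat_lit 0) (nat_lit 0) (XT.lf (nat_lit 0) (nat_lit 6254205000) (nat_lit 0) (nat_lit 0) (nat_lit 0) (nat_lit 0) (nat_lit 0) (nat_lit 0) (nat_lit 1) (nat_lit 0) (nat_lit 1) (nat_lit 0) (nat_lit 274) (nat_lit 276) (nat_lit 170)) (XT.nd (nat_lit 94) (nat_lit 0) (nat_lit 0) (XT.lf (nat_lit 0) (nat_lit 6252524535) (nat_lit 0) (nat_lit 0) (nat_lit 0) (nat_lit 0) (nat_lit 0) (nat_lit 0) (nat_lit 1) (nat_lit 0) (nat_lit 1) (nat_lit 0) (nat_lit 275) (nat_lit 276) (nat_lit 169)) (XT.lf (nat_lit 0) (nat_lit 6250924091) (nat_lit 0)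 (nat_lit 0) (nat_lit 0) (nat_lit 0) (nat_lit 0) (nat_lit 0) (nat_lit 1) (nat_lit 0) (nat_lit 1) (nat_lit 0) (nat_lit 276) (nat_lit 276) (nat_lit 168)))) (XT.nd (nat_lit 94) (nat_lit 0) (nat_lit 0) (XT.lf (nat_lit 0) (nat_lit 6249399859) (nat_lit 0) (nat_lit 0) (nat_lit 0) (nat_lit 0) (nat_lit 0) (nat_lit 0) (nat_lit 1) (nat_lit 0) (nat_lit 1) (nat_lit 0) (nat_lit 277) (nat_lit 276) (nat_lit 167)) (XT.nd (nat_lit 94) (nat_lit 0) (nat_lit 0) (XT.lf (nat_lit 0) (nat_lit 6247948210) (nat_lit 0) (nat_lit 0) (nat_lit 0) (nat_lit 0) (nat_lit 0) (nat_lit 0) (nat_lit 1) (nat_lit 0) (nat_lit 1) (nat_lit 0) (nat_lit 278) (nat_lit 276) (nat_lit 166)) (XT.lf (nat_lit 0) (nat_lit 6246565687) (nat_lit 0) (nat_lit 0) (nat_lit 0) (nat_lit 0) (nat_lit 0) (nat_lit 0) (nat_lit 1) (nat_lit 0) (nat_lit 1) (nat_lit 0) (nat_lit 279) (nat_lit 276) (nat_lit 165))))) (XT.nd (nat_lit 282) (nat_lit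 0) (nat_lit 0) (XT.nd (nat_lit 94) (nat_lit 0) (nat_lit 0) (XT.lf (nat_lit 0) (nat_lit 6245248998) (nat_lit 0) (nat_lit 0) (nat_lit 0) (nat_lit 0) (nat_lit 0) (nat_lit 0) (nat_lit 1) (nat_lit 0) (nat_lit 1) (nat_lit 0) (nat_lit 280) (nat_lit 276) (nat_lit 164)) (XT.nd (nat_lit 94) (nat_lit 0) (nat_lit 0) (XT.lf (nat_lit 0) (nat_lit 6243995008) (nat_lit 0) (nat_lit 0) (nat_lit 0) (nat_lit 0) (nat_lit 0) (nat_lit 0) (nat_lit 1) (nat_lit 0) (nat_lit 1) (nat_lit 0) (nat_lit 281) (nat_lit 276) (nat_lit 163)) (XT.lf (nat_lit 0) (nat_lit 6242800733) (nat_lit 0) (nat_lit 0) (nat_lit 0) (nat_lit 0) (nat_lit 0) (nat_lit 0) (nat_lit 1) (nat_lit 0) (nat_lit 1) (nat_lit 0) (nat_lit 282) (nat_lit 276) (nat_lit 162)))) (XT.nd (nat_lit 188) (nat_lit 0) (nat_lit 0) (XT.nd (nat_lit 94) (nat_lit 0) (nat_lit 0) (XT.lf (nat_lit 0) (nat_lit 6241663328) (nat_lit 0) (nat_lit 0) (nat_lit 0) (nat_lit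 0) (nat_lit 0) (nat_lit 0) (nat_lit 1) (nat_lit 0) (nat_lit 1) (nat_lit 0) (nat_lit 283) (nat_lit 276) (nat_lit 161)) (XT.lf (nat_lit 0) (nat_lit 6240580084) (nat_lit 0) (nat_lit 0) (nat_lit 0) (nat_lit 0) (nat_lit 0) (nat_lit 0) (nat_lit 1) (nat_lit 0) (nat_lit 1) (nat_lit 0) (nat_lit 284) (nat_lit 276) (nat_lit 160))) (XT.nd (nat_lit 94) (nat_lit 0) (nat_lit 0) (XT.lf (nat_lit 0) (nat_lit 6239548424) (nat_lit 0) (nat_lit 0) (nat_lit 0) (nat_lit 0) (nat_lit 0) (nat_lit 0) (nat_lit 1) (nat_lit 0) (nat_lit 1) (nat_lit 0) (nat_lit 285) (nat_lit 276) (nat_lit 159)) (XT.lf (nat_lit 0) (nat_lit 6238565891) (nat_lit 0) (nat_lit 0) (nat_lit 0) (nat_lit 0) (nat_lit 0) (nat_lit 0) (nat_lit 1) (nat_lit 0) (nat_lit 1) (nat_lit 0) (nat_lit 286) (nat_lit 276) (nat_lit 158)))))) (XT.nd (nat_lit 658) (nat_lit 0) (nat_lit 0) (XT.nd (nat_lit 282) (nat_lit 0) (nat_lit 0) (XT.nd (nat_lit 94)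 (nat_lit 0) (nat_lit 0) (XT.lf (nat_lit 0) (nat_lit 6237630145) (nat_lit 0) (nat_lit 0) (nat_lit 0) (nat_lit 0) (nat_lit 0) (nat_lit 0) (nat_lit 1) (nat_lit 0) (nat_lit 1) (nat_lit 0) (nat_lit 287) (nat_lit 276) (nat_lit 157)) (XT.nd (nat_lit 94) (nat_lit 0) (nat_lit 0) (XT.lf (nat_lit 0) (nat_lit 6236738958) (nat_lit 0) (nat_lit 0) (nat_lit 0) (nat_lit 0) (nat_lit 0) (nat_lit 0) (nat_lit 1) (nat_lit 0) (nat_lit 1) (nat_lit 0) (nat_lit 288) (nat_lit 276) (nat_lit 156)) (XT.lf (nat_lit 0) (nat_lit 6235890208) (nat_lit 0) (nat_lit 0) (nat_lit 0) (nat_lit 0) (nat_lit 0) (nat_lit 0) (nat_lit 1) (nat_lit 0) (nat_lit 1) (nat_lit 0) (nat_lit 289) (nat_lit 276) (nat_lit 155)))) (XT.nd (nat_lit 188) (nat_lit 0) (nat_lit 0) (XT.nd (nat_lit 94) (nat_lit 0) (nat_lit 0) (XT.lf (nat_lit 0) (nat_lit 6235081876) (nat_lit 0) (nat_lit 0) (nat_lit 0) (nat_lit 0) (nat_lit 0) (nat_lit 0) (nat_lit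 1) (nat_lit 0) (nat_lit 1) (nat_lit 0) (nat_lit 290) (nat_lit 276) (nat_lit 154)) (XT.lf (nat_lit 0) (nat_lit 6234312035) (nat_lit 0) (nat_lit 0) (nat_lit 0) (nat_lit 0) (nat_lit 0) (nat_lit 0) (nat_lit 1) (nat_lit 0) (nat_lit 1) (nat_lit 0) (nat_lit 291) (nat_lit 276) (nat_lit 153))) (XT.nd (nat_lit 94) (nat_lit 0) (nat_lit 0) (XT.lf (nat_lit 0) (nat_lit 6233578854) (nat_lit 0) (nat_lit 0) (nat_lit 0) (nat_lit 0) (nat_lit 0) (nat_lit 0) (nat_lit 1) (nat_lit 0) (nat_lit 1) (nat_lit 0) (nat_lit 292) (nat_lit 276) (nat_lit 152)) (XT.lf (nat_lit 0) (nat_lit 6232880585) (nat_lit 0) (nat_lit 0) (nat_lit 0) (nat_lit 0) (nat_lit 0) (nat_lit 0) (nat_lit 1) (nat_lit 0) (nat_lit 1) (nat_lit 0) (nat_lit 293) (nat_lit 276) (nat_lit 151))))) (XT.nd (nat_lit 282) (nat_lit 0) (nat_lit 0) (XT.nd (nat_lit 94) (nat_lit 0) (nat_lit 0) (XT.lf (nat_lit 0) (nat_lit 6232215568) (nat_lit 0) (nat_lit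 0) (nat_lit 0) (nat_lit 0) (nat_lit 0) (nat_lit 0) (nat_lit 1) (nat_lit 0) (nat_lit 1) (nat_lit 0) (nat_lit 294) (nat_lit 276) (nat_lit 150)) (XT.nd (nat_lit 94) (nat_lit 0) (nat_lit 0) (XT.lf (nat_lit 0) (nat_lit 6231582218) (nat_lit 0) (nat_lit 0) (nat_lit 0) (nat_lit 0) (nat_lit 0) (nat_lit 0) (nat_lit 1) (nat_lit 0) (nat_lit 1) (nat_lit 0) (nat_lit 295) (nat_lit 276) (nat_lit 149)) (XT.lf (nat_lit 0) (nat_lit 6230979028) (nat_lit 0) (nat_lit 0) (nat_lit 0) (nat_lit 0) (nat_lit 0) (nat_lit 0) (nat_lit 1) (nat_lit 0) (nat_lit 1) (nat_lit 0) (nat_lit 296) (nat_lit 276) (nat_lit 148)))) (XT.nd (nat_lit 188) (nat_lit 0) (nat_lit 0) (XT.nd (nat_lit 94) (nat_lit 0) (nat_lit 0) (XT.lf (nat_lit 0) (nat_lit 6230404561) (nat_lit 0) (nat_lit 0) (nat_lit 0) (nat_lit 0) (nat_lit 0) (nat_lit 0) (nat_lit 1) (nat_lit 0) (nat_lit 1) (nat_lit 0) (nat_lit 297) (nat_lit 276) (nat_lit 147))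 (XT.lf (nat_lit 0) (nat_lit 6229857449) (nat_lit 0) (nat_lit 0) (nat_lit 0) (nat_lit 0) (nat_lit 0) (nat_lit 0) (nat_lit 1) (nat_lit 0) (nat_lit 1) (nat_lit 0) (nat_lit 298) (nat_lit 276) (nat_lit 146))) (XT.nd (nat_lit 94) (nat_lit 0) (nat_lit 0) (XT.lf (nat_lit 0) (nat_lit 6229336391) (nat_lit 0) (nat_lit 0) (nat_lit 0) (nat_lit 0) (nat_lit 0) (nat_lit 0) (nat_lit 1) (nat_lit 0) (nat_lit 1) (nat_lit 0) (nat_lit 299) (nat_lit 276) (nat_lit 145)) (XT.lf (nat_lit 0) (nat_lit 6228840145) (nat_lit 0) (nat_lit 0) (nat_lit 0) (nat_lit 0) (nat_lit 0) (nat_lit 0) (nat_lit 1) (nat_lit 0) (nat_lit 1) (nat_lit 0) (nat_lit 300) (nat_lit 276) (nat_lit 144))))))) (XT.nd (nat_lit 32524) (nat_lit 0) (nat_lit 9744) (XT.nd (nat_lit 658) (nat_lit 0) (nat_lit 0) (XT.nd (nat_lit 282) (nat_lit 0) (nat_lit 0) (XT.nd (nat_lit 94) (nat_lit 0) (nat_lit 0) (XT.lf (nat_lit 0) (nat_lit 6228367529)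 (nat_lit 0) (nat_lit 0) (nat_lit 0) (nat_lit 0) (nat_lit 0) (nat_lit 0) (nat_lit 1) (nat_lit 0) (nat_lit 1) (nat_lit 0) (nat_lit 301) (nat_lit 276) (nat_lit 143)) (XT.nd (nat_lit 94) (nat_lit 0) (nat_lit 0) (XT.lf (nat_lit 0) (nat_lit 6227917420) (nat_lit 0) (nat_lit 0) (nat_lit 0) (nat_lit 0) (nat_lit 0) (nat_lit 0) (nat_lit 1) (nat_lit 0) (nat_lit 1) (nat_lit 0) (nat_lit 302) (nat_lit 276) (nat_lit 142)) (XT.lf (nat_lit 0) (nat_lit 6227488743) (nat_lit 0) (nat_lit 0) (nat_lit 0) (nat_lit 0) (nat_lit 0) (nat_lit 0) (nat_lit 1) (nat_lit 0) (nat_lit 1) (nat_lit 0) (nat_lit 303) (nat_lit 276) (nat_lit 141)))) (XT.nd (nat_lit 188) (nat_lit 0) (nat_lit 0) (XT.nd (nat_lit 94) (nat_lit 0) (nat_lit 0) (XT.lf (nat_lit 0) (nat_lit 6227080481) (nat_lit 0) (nat_lit 0) (nat_lit 0) (nat_lit 0) (nat_lit 0) (nat_lit 0) (nat_lit 1) (nat_lit 0) (nat_lit 1) (nat_lit 0) (nat_lit 304) (nat_lit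 276) (nat_lit 140)) (XT.lf (nat_lit 0) (nat_lit 6226691659) (nat_lit 0) (nat_lit 0) (nat_lit 0) (nat_lit 0) (nat_lit 0) (nat_lit 0) (nat_lit 1) (nat_lit 0) (nat_lit 1) (nat_lit 0) (nat_lit 305) (nat_lit 276) (nat_lit 139))) (XT.nd (nat_lit 94) (nat_lit 0) (nat_lit 0) (XT.lf (nat_lit 0) (nat_lit 6226321352) (nat_lit 0) (nat_lit 0) (nat_lit 0) (nat_lit 0) (nat_lit 0) (nat_lit 0) (nat_lit 1) (nat_lit 0) (nat_lit 1) (nat_lit 0) (nat_lit 306) (nat_lit 276) (nat_lit 138)) (XT.lf (nat_lit 0) (nat_lit 6225968679) (nat_lit 0) (nat_lit 0) (nat_lit 0) (nat_lit 0) (nat_lit 0) (nat_lit 0) (nat_lit 1) (nat_lit 0) (nat_lit 1) (nat_lit 0) (nat_lit 307) (nat_lit 276) (nat_lit 137))))) (XT.nd (nat_lit 282) (nat_lit 0) (nat_lit 0) (XT.nd (nat_lit 94) (nat_lit 0) (nat_lit 0) (XT.lf (nat_lit 0) (nat_lit 6225632800) (nat_lit 0) (nat_lit 0) (nat_lit 0) (nat_lit 0) (nat_lit 0) (nat_lit 0) (nat_lit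 1) (nat_lit 0) (nat_lit 1) (nat_lit 0) (nat_lit 308) (nat_lit 276) (nat_lit 136)) (XT.nd (nat_lit 94) (nat_lit 0) (nat_lit 0) (XT.lf (nat_lit 0) (nat_lit 6225312916) (nat_lit 0) (nat_lit 0) (nat_lit 0) (nat_lit 0) (nat_lit 0) (nat_lit 0) (nat_lit 1) (nat_lit 0) (nat_lit 1) (nat_lit 0) (nat_lit 309) (nat_lit 276) (nat_lit 135)) (XT.lf (nat_lit 0) (nat_lit 6225008264) (nat_lit 0) (nat_lit 0) (nat_lit 0) (nat_lit 0) (nat_lit 0) (nat_lit 0) (nat_lit 1) (nat_lit 0) (nat_lit 1) (nat_lit 0) (nat_lit 310) (nat_lit 276) (nat_lit 134)))) (XT.nd (nat_lit 188) (nat_lit 0) (nat_lit 0) (XT.nd (nat_lit 94) (nat_lit 0) (nat_lit 0) (XT.lf (nat_lit 0) (nat_lit 6224718119) (nat_lit 0) (nat_lit 0) (nat_lit 0) (nat_lit 0) (nat_lit 0) (nat_lit 0) (nat_lit 1) (nat_lit 0) (nat_lit 1) (nat_lit 0) (nat_lit 311) (nat_lit 276) (nat_lit 133)) (XT.lf (nat_lit 0) (nat_lit 6224441790) (nat_lit 0) (nat_lit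 0) (nat_lit 0) (nat_lit 0) (nat_lit 0) (nat_lit 0) (nat_lit 1) (nat_lit 0) (nat_lit 1) (nat_lit 0) (nat_lit 312) (nat_lit 276) (nat_lit 132))) (XT.nd (nat_lit 94) (nat_lit 0) (nat_lit 0) (XT.lf (nat_lit 0) (nat_lit 6224178620) (nat_lit 0) (nat_lit 0) (nat_lit 0) (nat_lit 0) (nat_lit 0) (nat_lit 0) (nat_lit 1) (nat_lit 0) (nat_lit 1) (nat_lit 0) (nat_lit 313) (nat_lit 276) (nat_lit 131)) (XT.lf (nat_lit 0) (nat_lit 6223927982) (nat_lit 0) (nat_lit 0) (nat_lit 0) (nat_lit 0) (nat_lit 0) (nat_lit 0) (nat_lit 1) (nat_lit 0) (nat_lit 1) (nat_lit 0) (nat_lit 314) (nat_lit 276) (nat_lit 130)))))) (XT.nd (nat_lit 658) (nat_lit 1008) (nat_lit 0) (XT.nd (nat_lit 282) (nat_lit 0) (nat_lit 84) (XT.nd (nat_lit 94) (nat_lit 0) (nat_lit 0) (XT.lf (nat_lit 924) (nat_lit 3267787028) (nat_lit 0) (nat_lit 5801948358) (nat_lit 924) (nat_lit 3267787028) (nat_lit 139) (nat_lit 1) (nat_lit 128)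 (nat_lit 0) (nat_lit 139) (nat_lit 0) (nat_lit 166) (nat_lit 277) (nat_lit 277)) (XT.nd (nat_lit 94) (nat_lit 0) (nat_lit 84) (XT.lf (nat_lit 924) (nat_lit 12666350491) (nat_lit 84) (nat_lit 5708368546) (nat_lit 0) (nat_lit 5708368546) (nat_lit 139) (nat_lit 1) (nat_lit 129) (nat_lit 1) (nat_lit 128) (nat_lit 0) (nat_lit 167) (nat_lit 277) (nat_lit 276)) (XT.lf (nat_lit 924) (nat_lit 6036591926) (nat_lit 0) (nat_lit 11436247059) (nat_lit 840) (nat_lit 6036591926) (nat_lit 140) (nat_lit 1) (nat_lit 129) (nat_lit 1) (nat_lit 139) (nat_lit 1) (nat_lit 168) (nat_lit 277) (nat_lit 275)))) (XT.nd (nat_lit 188) (nat_lit 0) (nat_lit 84) (XT.nd (nat_lit 94) (nat_lit 0) (nat_lit 84) (XT.lf (nat_lit 924) (nat_lit 11323807649) (nat_lit 84) (nat_lit 5815249989) (nat_lit 0) (nat_lit 5815249989) (nat_lit 140) (nat_lit 1) (nat_lit 130) (nat_lit 1) (nat_lit 129) (nat_lit 1) (nat_lit 169)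 (nat_lit 277) (nat_lit 274)) (XT.lf (nat_lit 924) (nat_lit 5212239917) (nat_lit 0) (nat_lit 11992299131) (nat_lit 840) (nat_lit 5212239917) (nat_lit 141) (nat_lit 1) (nat_lit 130) (nat_lit 1) (nat_lit 140) (nat_lit 1) (nat_lit 170) (nat_lit 277) (nat_lit 273))) (XT.nd (nat_lit 94) (nat_lit 0) (nat_lit 84) (XT.lf (nat_lit 924) (nat_lit 9374552975) (nat_lit 84) (nat_lit 6260541628) (nat_lit 0) (nat_lit 6260541628) (nat_lit 141) (nat_lit 1) (nat_lit 131) (nat_lit 1) (nat_lit 130) (nat_lit 1) (nat_lit 171) (nat_lit 277) (nat_lit 272)) (XT.lf (nat_lit 924) (nat_lit 4110470718) (nat_lit 0) (nat_lit 13171050229) (nat_lit 840) (nat_lit 4110470718) (nat_lit 142) (nat_lit 1) (nat_lit 131) (nat_lit 1) (nat_lit 141) (nat_lit 1) (nat_lit 172) (nat_lit 277) (nat_lit 271))))) (XT.nd (nat_lit 282) (nat_lit 1260) (nat_lit 0) (XT.nd (nat_lit 94) (nat_lit 0) (nat_lit 84) (XT.lf (nat_lit 924)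 (nat_lit 6909827485) (nat_lit 84) (nat_lit 6996193337) (nat_lit 0) (nat_lit 6996193337) (nat_lit 142) (nat_lit 1) (nat_lit 132) (nat_lit 1) (nat_lit 131) (nat_lit 1) (nat_lit 173) (nat_lit 277) (nat_lit 270)) (XT.nd (nat_lit 94) (nat_lit 0) (nat_lit 0) (XT.lf (nat_lit 924) (nat_lit 2773935836) (nat_lit 0) (nat_lit 14882493632) (nat_lit 840) (nat_lit 2773935836) (nat_lit 143) (nat_lit 1) (nat_lit 132) (nat_lit 1) (nat_lit 142) (nat_lit 1) (nat_lit 174) (nat_lit 277) (nat_lit 269)) (XT.lf (nat_lit 924) (nat_lit 4010730678) (nat_lit 84) (nat_lit 7979412138) (nat_lit 0) (nat_lit 7979412138) (nat_lit 143) (nat_lit 1) (nat_lit 133) (nat_lit 1) (nat_lit 132) (nat_lit 1) (nat_lit 175) (nat_lit 277) (nat_lit 268)))) (XT.nd (nat_lit 188) (nat_lit 588) (nat_lit 0) (XT.nd (nat_lit 94) (nat_lit 840) (nat_lit 0) (XT.lf (nat_lit 84) (nat_lit 1240518595) (nat_lit 0) (nat_lit 17046519828)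 (nat_lit 840) (nat_lit 1240518595) (nat_lit 134) (nat_lit 1) (nat_lit 133) (nat_lit 1) (nat_lit 143) (nat_lit 1) (nat_lit 176) (nat_lit 277) (nat_lit 267)) (XT.lf (nat_lit 924) (nat_lit 749242382) (nat_lit 0) (nat_lit 9172135828) (nat_lit 840) (nat_lit 9172135828) (nat_lit 134) (nat_lit 1) (nat_lit 123) (nat_lit 1) (nat_lit 133) (nat_lit 1) (nat_lit 177) (nat_lit 277) (nat_lit 266))) (XT.nd (nat_lit 94) (nat_lit 0) (nat_lit 0) (XT.lf (nat_lit 588) (nat_lit 17780465313) (nat_lit 0) (nat_lit 448826522) (nat_lit 504) (nat_lit 448826522) (nat_lit 123) (nat_lit 1) (nat_lit 116) (nat_lit 1) (nat_lit 122) (nat_lit 1) (nat_lit 178) (nat_lit 277) (nat_lit 265)) (XT.lf (nat_lit 84) (nat_lit 7773588489) (nat_lit 0) (nat_lit 2720889263) (nat_lit 588) (nat_lit 7773588489) (nat_lit 117) (nat_lit 1) (nat_lit 116) (nat_lit 1) (nat_lit 123) (nat_lit 1) (nat_lit 179) (nat_lit 277) (nat_lit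 264))))))))
noncomputable def ec108 : XT := (XT.nd (nat_lit 2538) (nat_lit 2772) (nat_lit 0) (XT.nd (nat_lit 1222) (nat_lit 2016) (nat_lit 0) (XT.nd (nat_lit 564) (nat_lit 1764) (nat_lit 0) (XT.nd (nat_lit 282) (nat_lit 336) (nat_lit 0) (XT.nd (nat_lit 94) (nat_lit 420) (nat_lit 0) (XT.lf (nat_lit 504) (nat_lit 13376350396) (nat_lit 0) (nat_lit 2249550122) (nat_lit 420) (nat_lit 2249550122) (nat_lit 117) (nat_lit 1) (nat_lit 111) (nat_lit 1) (nat_lit 116) (nat_lit 1) (nat_lit 180) (nat_lit 277) (nat_lit 263)) (XT.nd (nat_lit 94) (nat_lit 420) (nat_lit 0) (XT.lf (nat_lit 84) (nat_lit 5544806037) (nat_lit 0) (nat_lit 6401476828) (nat_lit 504) (nat_lit 5544806037) (nat_lit 112) (nat_lit 1) (nat_lit 111) (nat_lit 1) (nat_lit 117) (nat_lit 1) (nat_lit 181) (nat_lit 277) (nat_lit 262)) (XT.lf (nat_lit 504) (nat_lit 8808516429) (nat_lit 0) (nat_lit 4155798514) (nat_lit 420) (nat_lit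 4155798514) (nat_lit 112) (nat_lit 1) (nat_lit 106) (nat_lit 1) (nat_lit 111) (nat_lit 1) (nat_lit 182) (nat_lit 277) (nat_lit 261)))) (XT.nd (nat_lit 94) (nat_lit 336) (nat_lit 0) (XT.lf (nat_lit 84) (nat_lit 3245821238) (nat_lit 0) (nat_lit 10268284751) (nat_lit 504) (nat_lit 3245821238) (nat_lit 107) (nat_lit 1) (nat_lit 106) (nat_lit 1) (nat_lit 112) (nat_lit 1) (nat_lit 183) (nat_lit 277) (nat_lit 260)) (XT.nd (nat_lit 94) (nat_lit 0) (nat_lit 0) (XT.lf (nat_lit 420) (nat_lit 4119478360) (nat_lit 0) (nat_lit 6144763908) (nat_lit 336) (nat_lit 6144763908) (nat_lit 107) (nat_lit 1) (nat_lit 102) (nat_lit 1) (nat_lit 106) (nat_lit 1) (nat_lit 184) (nat_lit 277) (nat_lit 259)) (XT.lf (nat_lit 84) (nat_lit 896371003) (nat_lit 0) (nat_lit 14278837815) (nat_lit 420) (nat_lit 896371003) (nat_lit 103) (nat_lit 1) (nat_lit 102) (nat_lit 1) (nat_lit 107) (nat_lit 1) (nat_lit 185)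 (nat_lit 277) (nat_lit 258))))) (XT.nd (nat_lit 282) (nat_lit 1008) (nat_lit 0) (XT.nd (nat_lit 94) (nat_lit 336) (nat_lit 0) (XT.lf (nat_lit 84) (nat_lit 7553079648) (nat_lit 0) (nat_lit 632585092) (nat_lit 420) (nat_lit 7553079648) (nat_lit 98) (nat_lit 1) (nat_lit 97) (nat_lit 1) (nat_lit 102) (nat_lit 1) (nat_lit 186) (nat_lit 277) (nat_lit 257)) (XT.nd (nat_lit 94) (nat_lit 0) (nat_lit 0) (XT.lf (nat_lit 420) (nat_lit 12493984872) (nat_lit 0) (nat_lit 1462299637) (nat_lit 336) (nat_lit 1462299637) (nat_lit 98) (nat_lit 1) (nat_lit 93) (nat_lit 1) (nat_lit 97) (nat_lit 1) (nat_lit 187) (nat_lit 277) (nat_lit 256)) (XT.lf (nat_lit 84) (nat_lit 4900690140) (nat_lit 0) (nat_lit 5302536042) (nat_lit 420) (nat_lit 4900690140) (nat_lit 94) (nat_lit 1) (nat_lit 93) (nat_lit 1) (nat_lit 98) (nat_lit 1) (nat_lit 188) (nat_lit 277) (nat_lit 255)))) (XT.nd (nat_lit 188) (nat_lit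 672) (nat_lit 0) (XT.nd (nat_lit 94) (nat_lit 0) (nat_lit 0) (XT.lf (nat_lit 420) (nat_lit 7151470181) (nat_lit 0) (nat_lit 3824344946) (nat_lit 336) (nat_lit 3824344946) (nat_lit 94) (nat_lit 1) (nat_lit 89) (nat_lit 1) (nat_lit 93) (nat_lit 1) (nat_lit 189) (nat_lit 277) (nat_lit 254)) (XT.lf (nat_lit 84) (nat_lit 2255254530) (nat_lit 0) (nat_lit 9994776623) (nat_lit 420) (nat_lit 2255254530) (nat_lit 90) (nat_lit 1) (nat_lit 89) (nat_lit 1) (nat_lit 94) (nat_lit 1) (nat_lit 190) (nat_lit 277) (nat_lit 253))) (XT.nd (nat_lit 94) (nat_lit 420) (nat_lit 0) (XT.lf (nat_lit 336) (nat_lit 1834101918) (nat_lit 0) (nat_lit 6191337266) (nat_lit 252) (nat_lit 6191337266) (nat_lit 90) (nat_lit 1) (nat_lit 86) (nat_lit 1) (nat_lit 89) (nat_lit 1) (nat_lit 191) (nat_lit 277) (nat_lit 252)) (XT.lf (nat_lit 420) (nat_lit 13206491498) (nat_lit 0) (nat_lit 366454798) (nat_lit 336) (nat_lit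 366454798) (nat_lit 86) (nat_lit 1) (nat_lit 81) (nat_lit 1) (nat_lit 85) (nat_lit 1) (nat_lit 192) (nat_lit 277) (nat_lit 251)))))) (XT.nd (nat_lit 658) (nat_lit 924) (nat_lit 0) (XT.nd (nat_lit 282) (nat_lit 840) (nat_lit 0) (XT.nd (nat_lit 94) (nat_lit 252) (nat_lit 0) (XT.lf (nat_lit 84) (nat_lit 5167797757) (nat_lit 0) (nat_lit 3327965464) (nat_lit 420) (nat_lit 5167797757) (nat_lit 82) (nat_lit 1) (nat_lit 81) (nat_lit 1) (nat_lit 86) (nat_lit 1) (nat_lit 193) (nat_lit 277) (nat_lit 250)) (XT.nd (nat_lit 94) (nat_lit 0) (nat_lit 0) (XT.lf (nat_lit 336) (nat_lit 7547732000) (nat_lit 0) (nat_lit 2925284032) (nat_lit 252) (nat_lit 2925284032) (nat_lit 82) (nat_lit 1) (nat_lit 78) (nat_lit 1) (nat_lit 81) (nat_lit 1) (nat_lit 194) (nat_lit 277) (nat_lit 249)) (XT.lf (nat_lit 84) (nat_lit 2384445290) (nat_lit 0) (nat_lit 8370887980) (nat_lit 336) (nat_lit 2384445290) (nat_lit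 79) (nat_lit 1) (nat_lit 78) (nat_lit 1) (nat_lit 82) (nat_lit 1) (nat_lit 195) (nat_lit 277) (nat_lit 248)))) (XT.nd (nat_lit 188) (nat_lit 252) (nat_lit 0) (XT.nd (nat_lit 94) (nat_lit 336) (nat_lit 0) (XT.lf (nat_lit 336) (nat_lit 1987360621) (nat_lit 0) (nat_lit 5449888865) (nat_lit 252) (nat_lit 5449888865) (nat_lit 79) (nat_lit 1) (nat_lit 75) (nat_lit 1) (nat_lit 78) (nat_lit 1) (nat_lit 196) (nat_lit 277) (nat_lit 247)) (XT.lf (nat_lit 336) (nat_lit 11960787142) (nat_lit 0) (nat_lit 341548451) (nat_lit 252) (nat_lit 341548451) (nat_lit 75) (nat_lit 1) (nat_lit 71) (nat_lit 1) (nat_lit 74) (nat_lit 1) (nat_lit 197) (nat_lit 277) (nat_lit 246))) (XT.nd (nat_lit 94) (nat_lit 252) (nat_lit 0) (XT.lf (nat_lit 84) (nat_lit 4524423240) (nat_lit 0) (nat_lit 3352552191) (nat_lit 336) (nat_lit 4524423240) (nat_lit 72) (nat_lit 1) (nat_lit 71) (nat_lit 1) (nat_lit 75) (nat_lit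 1) (nat_lit 198) (nat_lit 277) (nat_lit 245)) (XT.lf (nat_lit 336) (nat_lit 6221496238) (nat_lit 0) (nat_lit 2973194528) (nat_lit 252) (nat_lit 2973194528) (nat_lit 72) (nat_lit 1) (nat_lit 68) (nat_lit 1) (nat_lit 71) (nat_lit 1) (nat_lit 199) (nat_lit 277) (nat_lit 244))))) (XT.nd (nat_lit 282) (nat_lit 420) (nat_lit 0) (XT.nd (nat_lit 94) (nat_lit 504) (nat_lit 0) (XT.lf (nat_lit 84) (nat_lit 1713394990) (nat_lit 0) (nat_lit 8513844874) (nat_lit 336) (nat_lit 1713394990) (nat_lit 69) (nat_lit 1) (nat_lit 68) (nat_lit 1) (nat_lit 72) (nat_lit 1) (nat_lit 200) (nat_lit 277) (nat_lit 243)) (XT.nd (nat_lit 94) (nat_lit 336) (nat_lit 0) (XT.lf (nat_lit 252) (nat_lit 627844893) (nat_lit 0) (nat_lit 5544910958) (nat_lit 168) (nat_lit 5544910958) (nat_lit 69) (nat_lit 1) (nat_lit 66) (nat_lit 1) (nat_lit 68) (nat_lit 1) (nat_lit 201) (nat_lit 277) (nat_lit 242)) (XT.lf (nat_lit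 336) (nat_lit 9486525816) (nat_lit 0) (nat_lit 1007537803) (nat_lit 252) (nat_lit 1007537803) (nat_lit 66) (nat_lit 1) (nat_lit 62) (nat_lit 1) (nat_lit 65) (nat_lit 1) (nat_lit 202) (nat_lit 277) (nat_lit 241)))) (XT.nd (nat_lit 188) (nat_lit 252) (nat_lit 0) (XT.nd (nat_lit 94) (nat_lit 168) (nat_lit 0) (XT.lf (nat_lit 84) (nat_lit 3313418284) (nat_lit 0) (nat_lit 4661115948) (nat_lit 336) (nat_lit 3313418284) (nat_lit 63) (nat_lit 1) (nat_lit 62) (nat_lit 1) (nat_lit 66) (nat_lit 1) (nat_lit 203) (nat_lit 277) (nat_lit 240)) (XT.lf (nat_lit 252) (nat_lit 3828143711) (nat_lit 0) (nat_lit 3626376846) (nat_lit 168) (nat_lit 3626376846) (nat_lit 63) (nat_lit 1) (nat_lit 60) (nat_lit 1) (nat_lit 62) (nat_lit 1) (nat_lit 204) (nat_lit 277) (nat_lit 239))) (XT.nd (nat_lit 94) (nat_lit 252) (nat_lit 0) (XT.lf (nat_lit 84) (nat_lit 549982743) (nat_lit 0) (nat_lit 9780748167) (nat_lit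 252) (nat_lit 549982743) (nat_lit 61) (nat_lit 1) (nat_lit 60) (nat_lit 1) (nat_lit 63) (nat_lit 1) (nat_lit 205) (nat_lit 277) (nat_lit 238)) (XT.lf (nat_lit 84) (nat_lit 4539104076) (nat_lit 0) (nat_lit 1603049436) (nat_lit 252) (nat_lit 4539104076) (nat_lit 58) (nat_lit 1) (nat_lit 57) (nat_lit 1) (nat_lit 60) (nat_lit 1) (nat_lit 206) (nat_lit 277) (nat_lit 237))))))) (XT.nd (nat_lit 1222) (nat_lit 1344) (nat_lit 0) (XT.nd (nat_lit 564) (nat_lit 672) (nat_lit 0) (XT.nd (nat_lit 282) (nat_lit 420) (nat_lit 0) (XT.nd (nat_lit 94) (nat_lit 168) (nat_lit 0) (XT.lf (nat_lit 252) (nat_lit 6303341556) (nat_lit 0) (nat_lit 2092538613) (nat_lit 168) (nat_lit 2092538613) (nat_lit 58) (nat_lit 1) (nat_lit 55) (nat_lit 1) (nat_lit 57) (nat_lit 1) (nat_lit 207) (nat_lit 277) (nat_lit 236)) (XT.nd (nat_lit 94) (nat_lit 168) (nat_lit 0) (XT.lf (nat_lit 84) (nat_lit 1778638998) (nat_lit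 0) (nat_lit 6742564141) (nat_lit 252) (nat_lit 1778638998) (nat_lit 56) (nat_lit 1) (nat_lit 55) (nat_lit 1) (nat_lit 58) (nat_lit 1) (nat_lit 208) (nat_lit 277) (nat_lit 235)) (XT.lf (nat_lit 252) (nat_lit 833228333) (nat_lit 0) (nat_lit 4640919189) (nat_lit 168) (nat_lit 4640919189) (nat_lit 56) (nat_lit 1) (nat_lit 53) (nat_lit 1) (nat_lit 55) (nat_lit 1) (nat_lit 209) (nat_lit 277) (nat_lit 234)))) (XT.nd (nat_lit 94) (nat_lit 168) (nat_lit 0) (XT.lf (nat_lit 252) (nat_lit 8189506365) (nat_lit 0) (nat_lit 873069465) (nat_lit 168) (nat_lit 873069465) (nat_lit 53) (nat_lit 1) (nat_lit 50) (nat_lit 1) (nat_lit 52) (nat_lit 1) (nat_lit 210) (nat_lit 277) (nat_lit 233)) (XT.nd (nat_lit 94) (nat_lit 168) (nat_lit 0) (XT.lf (nat_lit 84) (nat_lit 2726306737) (nat_lit 0) (nat_lit 4305141747) (nat_lit 252) (nat_lit 2726306737) (nat_lit 51) (nat_lit 1) (nat_lit 50) (nat_lit 1)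 (nat_lit 53) (nat_lit 1) (nat_lit 211) (nat_lit 277) (nat_lit 232)) (XT.lf (nat_lit 252) (nat_lit 2776611048) (nat_lit 0) (nat_lit 3404209248) (nat_lit 168) (nat_lit 3404209248) (nat_lit 51) (nat_lit 1) (nat_lit 48) (nat_lit 1) (nat_lit 50) (nat_lit 1) (nat_lit 212) (nat_lit 277) (nat_lit 231))))) (XT.nd (nat_lit 282) (nat_lit 336) (nat_lit 0) (XT.nd (nat_lit 94) (nat_lit 336) (nat_lit 0) (XT.lf (nat_lit 84) (nat_lit 91259547) (nat_lit 0) (nat_lit 9235842270) (nat_lit 252) (nat_lit 91259547) (nat_lit 49) (nat_lit 1) (nat_lit 48) (nat_lit 1) (nat_lit 51) (nat_lit 1) (nat_lit 213) (nat_lit 277) (nat_lit 230)) (XT.nd (nat_lit 94) (nat_lit 168) (nat_lit 0) (XT.lf (nat_lit 84) (nat_lit 3445811712) (nat_lit 0) (nat_lit 2359010333) (nat_lit 168) (nat_lit 3445811712) (nat_lit 47) (nat_lit 1) (nat_lit 46) (nat_lit 1) (nat_lit 48) (nat_lit 1) (nat_lit 214) (nat_lit 277) (nat_lit 229))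 (XT.lf (nat_lit 252) (nat_lit 4275860054) (nat_lit 0) (nat_lit 2406473798) (nat_lit 168) (nat_lit 2406473798) (nat_lit 47) (nat_lit 1) (nat_lit 44) (nat_lit 1) (nat_lit 46) (nat_lit 1) (nat_lit 215) (nat_lit 277) (nat_lit 228)))) (XT.nd (nat_lit 188) (nat_lit 168) (nat_lit 0) (XT.nd (nat_lit 94) (nat_lit 168) (nat_lit 0) (XT.lf (nat_lit 84) (nat_lit 857280389) (nat_lit 0) (nat_lit 7216788861) (nat_lit 252) (nat_lit 857280389) (nat_lit 45) (nat_lit 1) (nat_lit 44) (nat_lit 1) (nat_lit 47) (nat_lit 1) (nat_lit 216) (nat_lit 277) (nat_lit 227)) (XT.lf (nat_lit 84) (nat_lit 3980470596) (nat_lit 0) (nat_lit 814248937) (nat_lit 168) (nat_lit 3980470596) (nat_lit 43) (nat_lit 1) (nat_lit 42) (nat_lit 1) (nat_lit 44) (nat_lit 1) (nat_lit 217) (nat_lit 277) (nat_lit 226))) (XT.nd (nat_lit 94) (nat_lit 0) (nat_lit 0) (XT.lf (nat_lit 252) (nat_lit 5414460908) (nat_lit 0) (nat_lit 1604404734)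 (nat_lit 168) (nat_lit 1604404734) (nat_lit 43) (nat_lit 1) (nat_lit 40) (nat_lit 1) (nat_lit 42) (nat_lit 1) (nat_lit 218) (nat_lit 277) (nat_lit 225)) (XT.lf (nat_lit 84) (nat_lit 1450239968) (nat_lit 0) (nat_lit 5573878217) (nat_lit 252) (nat_lit 1450239968) (nat_lit 41) (nat_lit 1) (nat_lit 40) (nat_lit 1) (nat_lit 43) (nat_lit 1) (nat_lit 219) (nat_lit 277) (nat_lit 224)))))) (XT.nd (nat_lit 658) (nat_lit 588) (nat_lit 0) (XT.nd (nat_lit 282) (nat_lit 420) (nat_lit 0) (XT.nd (nat_lit 94) (nat_lit 252) (nat_lit 0) (XT.lf (nat_lit 168) (nat_lit 416311082) (nat_lit 0) (nat_lit 3955972446) (nat_lit 84) (nat_lit 3955972446) (nat_lit 41) (nat_lit 1) (nat_lit 39) (nat_lit 1) (nat_lit 40) (nat_lit 1) (nat_lit 220) (nat_lit 277) (nat_lit 223)) (XT.nd (nat_lit 94) (nat_lit 0) (nat_lit 0) (XT.lf (nat_lit 252) (nat_lit 6260871589) (nat_lit 0) (nat_lit 962417065) (nat_lit 168) (nat_lit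 962417065) (nat_lit 39) (nat_lit 1) (nat_lit 36) (nat_lit 1) (nat_lit 38) (nat_lit 1) (nat_lit 221) (nat_lit 277) (nat_lit 222)) (XT.lf (nat_lit 84) (nat_lit 1902595316) (nat_lit 0) (nat_lit 4239555937) (nat_lit 252) (nat_lit 1902595316) (nat_lit 37) (nat_lit 1) (nat_lit 36) (nat_lit 1) (nat_lit 39) (nat_lit 1) (nat_lit 222) (nat_lit 277) (nat_lit 221)))) (XT.nd (nat_lit 188) (nat_lit 84) (nat_lit 0) (XT.nd (nat_lit 94) (nat_lit 252) (nat_lit 0) (XT.lf (nat_lit 168) (nat_lit 1398066928) (nat_lit 0) (nat_lit 3254588322) (nat_lit 84) (nat_lit 3254588322) (nat_lit 37) (nat_lit 1) (nat_lit 35) (nat_lit 1) (nat_lit 36) (nat_lit 1) (nat_lit 223) (nat_lit 277) (nat_lit 220)) (XT.lf (nat_lit 252) (nat_lit 6871197598) (nat_lit 0) (nat_lit 451277491) (nat_lit 168) (nat_lit 451277491) (nat_lit 35) (nat_lit 1) (nat_lit 32) (nat_lit 1) (nat_lit 34) (nat_lit 1) (nat_lit 224) (nat_lit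 277) (nat_lit 219))) (XT.nd (nat_lit 94) (nat_lit 84) (nat_lit 0) (XT.lf (nat_lit 84) (nat_lit 2240964451) (nat_lit 0) (nat_lit 3158286051) (nat_lit 252) (nat_lit 2240964451) (nat_lit 33) (nat_lit 1) (nat_lit 32) (nat_lit 1) (nat_lit 35) (nat_lit 1) (nat_lit 225) (nat_lit 277) (nat_lit 218)) (XT.lf (nat_lit 168) (nat_lit 2155494808) (nat_lit 0) (nat_lit 2677557867) (nat_lit 84) (nat_lit 2677557867) (nat_lit 33) (nat_lit 1) (nat_lit 31) (nat_lit 1) (nat_lit 32) (nat_lit 1) (nat_lit 226) (nat_lit 277) (nat_lit 217))))) (XT.nd (nat_lit 282) (nat_lit 252) (nat_lit 0) (XT.nd (nat_lit 94) (nat_lit 84) (nat_lit 0) (XT.lf (nat_lit 252) (nat_lit 7291392266) (nat_lit 0) (nat_lit 46976242) (nat_lit 168) (nat_lit 46976242) (nat_lit 31) (nat_lit 1) (nat_lit 28) (nat_lit 1) (nat_lit 30) (nat_lit 1) (nat_lit 227) (nat_lit 277) (nat_lit 216)) (XT.nd (nat_lit 94) (nat_lit 84) (nat_lit 0)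 (XT.lf (nat_lit 84) (nat_lit 2487165644) (nat_lit 0) (nat_lit 2284418217) (nat_lit 252) (nat_lit 2487165644) (nat_lit 29) (nat_lit 1) (nat_lit 28) (nat_lit 1) (nat_lit 31) (nat_lit 1) (nat_lit 228) (nat_lit 277) (nat_lit 215)) (XT.lf (nat_lit 168) (nat_lit 2730761091) (nat_lit 0) (nat_lit 2202833483) (nat_lit 84) (nat_lit 2202833483) (nat_lit 29) (nat_lit 1) (nat_lit 27) (nat_lit 1) (nat_lit 28) (nat_lit 1) (nat_lit 229) (nat_lit 277) (nat_lit 214)))) (XT.nd (nat_lit 188) (nat_lit 84) (nat_lit 0) (XT.nd (nat_lit 94) (nat_lit 168) (nat_lit 0) (XT.lf (nat_lit 0) (nat_lit 274630497) (nat_lit 0) (nat_lit 6468538705) (nat_lit 168) (nat_lit 274630497) (nat_lit 27) (nat_lit 3) (nat_lit 27) (nat_lit 1) (nat_lit 29) (nat_lit 1) (nat_lit 230) (nat_lit 277) (nat_lit 213)) (XT.lf (nat_lit 84) (nat_lit 2659072229) (nat_lit 0) (nat_lit 1580433155) (nat_lit 168) (nat_lit 2659072229) (nat_lit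 26) (nat_lit 1) (nat_lit 25) (nat_lit 1) (nat_lit 27) (nat_lit 1) (nat_lit 231) (nat_lit 277) (nat_lit 212))) (XT.nd (nat_lit 94) (nat_lit 0) (nat_lit 0) (XT.lf (nat_lit 168) (nat_lit 3158442172) (nat_lit 0) (nat_lit 1812276558) (nat_lit 84) (nat_lit 1812276558) (nat_lit 26) (nat_lit 1) (nat_lit 24) (nat_lit 1) (nat_lit 25) (nat_lit 1) (nat_lit 232) (nat_lit 277) (nat_lit 211)) (XT.lf (nat_lit 0) (nat_lit 524902555) (nat_lit 0) (nat_lit 5620646166) (nat_lit 168) (nat_lit 524902555) (nat_lit 24) (nat_lit 3) (nat_lit 24) (nat_lit 1) (nat_lit 26) (nat_lit 1) (nat_lit 233) (nat_lit 277) (nat_lit 210))))))))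
noncomputable def ec109 : XT := (XT.nd (nat_lit 2538) (nat_lit 0) (nat_lit 0) (XT.nd (nat_lit 1222) (nat_lit 924) (nat_lit 0) (XT.nd (nat_lit 564) (nat_lit 588) (nat_lit 0) (XT.nd (nat_lit 282) (nat_lit 252) (nat_lit 0) (XT.nd (nat_lit 94) (nat_lit 84) (nat_lit 0) (XT.lf (nat_lit 84) (nat_lit 2771315684) (nat_lit 0) (nat_lit 1015499253) (nat_lit 168) (nat_lit 2771315684) (nat_lit 23) (nat_lit 1) (nat_lit 22) (nat_lit 1) (nat_lit 24) (nat_lit 1) (nat_lit 234) (nat_lit 277) (nat_lit 209)) (XT.nd (nat_lit 94) (nat_lit 0) (nat_lit 0) (XT.lf (nat_lit 168) (nat_lit 3466875586) (nat_lit 0) (nat_lit 1490964409) (nat_lit 84) (nat_lit 1490964409) (nat_lit 23) (nat_lit 1) (nat_lit 21) (nat_lit 1) (nat_lit 22) (nat_lit 1) (nat_lit 235) (nat_lit 277) (nat_lit 208)) (XT.lf (nat_lit 0) (nat_lit 716565646) (nat_lit 0) (nat_lit 4908846526) (nat_lit 168) (nat_lit 716565646) (nat_lit 21) (nat_lit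 3) (nat_lit 21) (nat_lit 1) (nat_lit 23) (nat_lit 1) (nat_lit 236) (nat_lit 277) (nat_lit 207)))) (XT.nd (nat_lit 94) (nat_lit 84) (nat_lit 0) (XT.lf (nat_lit 84) (nat_lit 2835863871) (nat_lit 0) (nat_lit 564285163) (nat_lit 168) (nat_lit 2835863871) (nat_lit 20) (nat_lit 1) (nat_lit 19) (nat_lit 1) (nat_lit 21) (nat_lit 1) (nat_lit 237) (nat_lit 277) (nat_lit 206)) (XT.nd (nat_lit 94) (nat_lit 0) (nat_lit 0) (XT.lf (nat_lit 168) (nat_lit 3679271310) (nat_lit 0) (nat_lit 1226620109) (nat_lit 84) (nat_lit 1226620109) (nat_lit 20) (nat_lit 1) (nat_lit 18) (nat_lit 1) (nat_lit 19) (nat_lit 1) (nat_lit 238) (nat_lit 277) (nat_lit 205)) (XT.lf (nat_lit 0) (nat_lit 860688915) (nat_lit 0) (nat_lit 4309688770) (nat_lit 168) (nat_lit 860688915) (nat_lit 18) (nat_lit 3) (nat_lit 18) (nat_lit 1) (nat_lit 20) (nat_lit 1) (nat_lit 239) (nat_lit 277) (nat_lit 204))))) (XT.nd (nat_lit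 282) (nat_lit 336) (nat_lit 0) (XT.nd (nat_lit 94) (nat_lit 84) (nat_lit 0) (XT.lf (nat_lit 84) (nat_lit 2862496606) (nat_lit 0) (nat_lit 205983004) (nat_lit 168) (nat_lit 2862496606) (nat_lit 17) (nat_lit 1) (nat_lit 16) (nat_lit 1) (nat_lit 18) (nat_lit 1) (nat_lit 240) (nat_lit 277) (nat_lit 203)) (XT.nd (nat_lit 94) (nat_lit 0) (nat_lit 0) (XT.lf (nat_lit 168) (nat_lit 3814625789) (nat_lit 0) (nat_lit 1009143399) (nat_lit 84) (nat_lit 1009143399) (nat_lit 17) (nat_lit 1) (nat_lit 15) (nat_lit 1) (nat_lit 16) (nat_lit 1) (nat_lit 241) (nat_lit 277) (nat_lit 202)) (XT.lf (nat_lit 0) (nat_lit 966346696) (nat_lit 0) (nat_lit 3803847412) (nat_lit 168) (nat_lit 966346696) (nat_lit 15) (nat_lit 3) (nat_lit 15) (nat_lit 1) (nat_lit 17) (nat_lit 1) (nat_lit 242) (nat_lit 277) (nat_lit 201)))) (XT.nd (nat_lit 188) (nat_lit 84) (nat_lit 0) (XT.nd (nat_lit 94) (nat_lit 168) (nat_lit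 0) (XT.lf (nat_lit 84) (nat_lit 79024448) (nat_lit 0) (nat_lit 2781406083) (nat_lit 84) (nat_lit 2781406083) (nat_lit 15) (nat_lit 3) (nat_lit 14) (nat_lit 1) (nat_lit 15) (nat_lit 1) (nat_lit 243) (nat_lit 277) (nat_lit 200)) (XT.lf (nat_lit 168) (nat_lit 3888473674) (nat_lit 0) (nat_lit 830224772) (nat_lit 84) (nat_lit 830224772) (nat_lit 14) (nat_lit 1) (nat_lit 12) (nat_lit 1) (nat_lit 13) (nat_lit 1) (nat_lit 244) (nat_lit 277) (nat_lit 199))) (XT.nd (nat_lit 94) (nat_lit 84) (nat_lit 0) (XT.lf (nat_lit 0) (nat_lit 1040973719) (nat_lit 0) (nat_lit 3375392581) (nat_lit 168) (nat_lit 1040973719) (nat_lit 12) (nat_lit 3) (nat_lit 12) (nat_lit 1) (nat_lit 14) (nat_lit 1) (nat_lit 245) (nat_lit 277) (nat_lit 198)) (XT.lf (nat_lit 84) (nat_lit 307004447) (nat_lit 0) (nat_lit 2530260505) (nat_lit 84) (nat_lit 2530260505) (nat_lit 12) (nat_lit 3) (nat_lit 11) (nat_lit 1) (nat_lit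 12) (nat_lit 1) (nat_lit 246) (nat_lit 277) (nat_lit 197)))))) (XT.nd (nat_lit 658) (nat_lit 252) (nat_lit 0) (XT.nd (nat_lit 282) (nat_lit 420) (nat_lit 0) (XT.nd (nat_lit 94) (nat_lit 84) (nat_lit 0) (XT.lf (nat_lit 168) (nat_lit 3913506054) (nat_lit 0) (nat_lit 683027974) (nat_lit 84) (nat_lit 683027974) (nat_lit 11) (nat_lit 1) (nat_lit 9) (nat_lit 1) (nat_lit 10) (nat_lit 1) (nat_lit 247) (nat_lit 277) (nat_lit 196)) (XT.nd (nat_lit 94) (nat_lit 84) (nat_lit 0) (XT.lf (nat_lit 0) (nat_lit 1090657274) (nat_lit 0) (nat_lit 3011189449) (nat_lit 168) (nat_lit 1090657274) (nat_lit 9) (nat_lit 3) (nat_lit 9) (nat_lit 1) (nat_lit 11) (nat_lit 1) (nat_lit 248) (nat_lit 277) (nat_lit 195)) (XT.lf (nat_lit 84) (nat_lit 483040782) (nat_lit 0) (nat_lit 2312119044) (nat_lit 84) (nat_lit 2312119044) (nat_lit 9) (nat_lit 3) (nat_lit 8) (nat_lit 1) (nat_lit 9) (nat_lit 1) (nat_lit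 249) (nat_lit 277) (nat_lit 194)))) (XT.nd (nat_lit 188) (nat_lit 252) (nat_lit 0) (XT.nd (nat_lit 94) (nat_lit 0) (nat_lit 0) (XT.lf (nat_lit 168) (nat_lit 3900078868) (nat_lit 0) (nat_lit 561928805) (nat_lit 84) (nat_lit 561928805) (nat_lit 8) (nat_lit 1) (nat_lit 6) (nat_lit 1) (nat_lit 7) (nat_lit 1) (nat_lit 250) (nat_lit 277) (nat_lit 193)) (XT.lf (nat_lit 0) (nat_lit 1120377505) (nat_lit 0) (nat_lit 2700404078) (nat_lit 168) (nat_lit 1120377505) (nat_lit 6) (nat_lit 3) (nat_lit 6) (nat_lit 1) (nat_lit 8) (nat_lit 1) (nat_lit 251) (nat_lit 277) (nat_lit 192))) (XT.nd (nat_lit 94) (nat_lit 168) (nat_lit 0) (XT.lf (nat_lit 84) (nat_lit 616891670) (nat_lit 0) (nat_lit 2121678883) (nat_lit 84) (nat_lit 2121678883) (nat_lit 6) (nat_lit 3) (nat_lit 5) (nat_lit 1) (nat_lit 6) (nat_lit 1) (nat_lit 252) (nat_lit 277) (nat_lit 191)) (XT.lf (nat_lit 168) (nat_lit 3856630967)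 (nat_lit 0) (nat_lit 462300218) (nat_lit 84) (nat_lit 462300218) (nat_lit 5) (nat_lit 1) (nat_lit 3) (nat_lit 1) (nat_lit 4) (nat_lit 1) (nat_lit 253) (nat_lit 277) (nat_lit 190))))) (XT.nd (nat_lit 282) (nat_lit 0) (nat_lit 0) (XT.nd (nat_lit 94) (nat_lit 252) (nat_lit 0) (XT.lf (nat_lit 0) (nat_lit 1134205028) (nat_lit 0) (nat_lit 2434096800) (nat_lit 168) (nat_lit 1134205028) (nat_lit 3) (nat_lit 3) (nat_lit 3) (nat_lit 1) (nat_lit 5) (nat_lit 1) (nat_lit 254) (nat_lit 277) (nat_lit 189)) (XT.nd (nat_lit 94) (nat_lit 168) (nat_lit 0) (XT.lf (nat_lit 84) (nat_lit 716559088) (nat_lit 0) (nat_lit 1954551251) (nat_lit 84) (nat_lit 1954551251) (nat_lit 3) (nat_lit 3) (nat_lit 2) (nat_lit 1) (nat_lit 3) (nat_lit 1) (nat_lit 255) (nat_lit 277) (nat_lit 188)) (XT.lf (nat_lit 0) (nat_lit 6610745802) (nat_lit 0) (nat_lit 0) (nat_lit 0) (nat_lit 0) (nat_lit 0) (nat_lit 0) (nat_lit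 1) (nat_lit 0) (nat_lit 1) (nat_lit 0) (nat_lit 256) (nat_lit 277) (nat_lit 187)))) (XT.nd (nat_lit 188) (nat_lit 0) (nat_lit 0) (XT.nd (nat_lit 94) (nat_lit 0) (nat_lit 0) (XT.lf (nat_lit 0) (nat_lit 6606894144) (nat_lit 0) (nat_lit 0) (nat_lit 0) (nat_lit 0) (nat_lit 0) (nat_lit 0) (nat_lit 1) (nat_lit 0) (nat_lit 1) (nat_lit 0) (nat_lit 257) (nat_lit 277) (nat_lit 186)) (XT.lf (nat_lit 0) (nat_lit 6603225898) (nat_lit 0) (nat_lit 0) (nat_lit 0) (nat_lit 0) (nat_lit 0) (nat_lit 0) (nat_lit 1) (nat_lit 0) (nat_lit 1) (nat_lit 0) (nat_lit 258) (nat_lit 277) (nat_lit 185))) (XT.nd (nat_lit 94) (nat_lit 0) (nat_lit 0) (XT.lf (nat_lit 0) (nat_lit 6599732331) (nat_lit 0) (nat_lit 0) (nat_lit 0) (nat_lit 0) (nat_lit 0) (nat_lit 0) (nat_lit 1) (nat_lit 0) (nat_lit 1) (nat_lit 0) (nat_lit 259) (nat_lit 277) (nat_lit 184)) (XT.lf (nat_lit 0) (nat_lit 6596405124) (nat_lit 0) (nat_lit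 0) (nat_lit 0) (nat_lit 0) (nat_lit 0) (nat_lit 0) (nat_lit 1) (nat_lit 0) (nat_lit 1) (nat_lit 0) (nat_lit 260) (nat_lit 277) (nat_lit 183))))))) (XT.nd (nat_lit 1316) (nat_lit 0) (nat_lit 0) (XT.nd (nat_lit 658) (nat_lit 0) (nat_lit 0) (XT.nd (nat_lit 282) (nat_lit 0) (nat_lit 0) (XT.nd (nat_lit 94) (nat_lit 0) (nat_lit 0) (XT.lf (nat_lit 0) (nat_lit 6593236355) (nat_lit 0) (nat_lit 0) (nat_lit 0) (nat_lit 0) (nat_lit 0) (nat_lit 0) (nat_lit 1) (nat_lit 0) (nat_lit 1) (nat_lit 0) (nat_lit 261) (nat_lit 277) (nat_lit 182)) (XT.nd (nat_lit 94) (nat_lit 0) (nat_lit 0) (XT.lf (nat_lit 0) (nat_lit 6590218480) (nat_lit 0) (nat_lit 0) (nat_lit 0) (nat_lit 0) (nat_lit 0) (nat_lit 0) (nat_lit 1) (nat_lit 0) (nat_lit 1) (nat_lit 0) (nat_lit 262) (nat_lit 277) (nat_lit 181)) (XT.lf (nat_lit 0) (nat_lit 6587344314) (nat_lit 0) (nat_lit 0) (nat_lit 0) (nat_lit 0) (nat_lit 0) (nat_lit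 0) (nat_lit 1) (nat_lit 0) (nat_lit 1) (nat_lit 0) (nat_lit 263) (nat_lit 277) (nat_lit 180)))) (XT.nd (nat_lit 188) (nat_lit 0) (nat_lit 0) (XT.nd (nat_lit 94) (nat_lit 0) (nat_lit 0) (XT.lf (nat_lit 0) (nat_lit 6584607012) (nat_lit 0) (nat_lit 0) (nat_lit 0) (nat_lit 0) (nat_lit 0) (nat_lit 0) (nat_lit 1) (nat_lit 0) (nat_lit 1) (nat_lit 0) (nat_lit 264) (nat_lit 277) (nat_lit 179)) (XT.lf (nat_lit 0) (nat_lit 6582000058) (nat_lit 0) (nat_lit 0) (nat_lit 0) (nat_lit 0) (nat_lit 0) (nat_lit 0) (nat_lit 1) (nat_lit 0) (nat_lit 1) (nat_lit 0) (nat_lit 265) (nat_lit 277) (nat_lit 178))) (XT.nd (nat_lit 94) (nat_lit 0) (nat_lit 0) (XT.lf (nat_lit 0) (nat_lit 6579517245) (nat_lit 0) (nat_lit 0) (nat_lit 0) (nat_lit 0) (nat_lit 0) (nat_lit 0) (nat_lit 1) (nat_lit 0) (nat_lit 1) (nat_lit 0) (nat_lit 266) (nat_lit 277) (nat_lit 177)) (XT.lf (nat_lit 0) (nat_lit 6577152661) (nat_lit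 0) (nat_lit 0) (nat_lit 0) (nat_lit 0) (nat_lit 0) (nat_lit 0) (nat_lit 1) (nat_lit 0) (nat_lit 1) (nat_lit 0) (nat_lit 267) (nat_lit 277) (nat_lit 176))))) (XT.nd (nat_lit 282) (nat_lit 0) (nat_lit 0) (XT.nd (nat_lit 94) (nat_lit 0) (nat_lit 0) (XT.lf (nat_lit 0) (nat_lit 6574900677) (nat_lit 0) (nat_lit 0) (nat_lit 0) (nat_lit 0) (nat_lit 0) (nat_lit 0) (nat_lit 1) (nat_lit 0) (nat_lit 1) (nat_lit 0) (nat_lit 268) (nat_lit 277) (nat_lit 175)) (XT.nd (nat_lit 94) (nat_lit 0) (nat_lit 0) (XT.lf (nat_lit 0) (nat_lit 6572755929) (nat_lit 0) (nat_lit 0) (nat_lit 0) (nat_lit 0) (nat_lit 0) (nat_lit 0) (nat_lit 1) (nat_lit 0) (nat_lit 1) (nat_lit 0) (nat_lit 269) (nat_lit 277) (nat_lit 174)) (XT.lf (nat_lit 0) (nat_lit 6570713313) (nat_lit 0) (nat_lit 0) (nat_lit 0) (nat_lit 0) (nat_lit 0) (nat_lit 0) (nat_lit 1) (nat_lit 0) (nat_lit 1) (nat_lit 0) (nat_lit 270) (nat_lit 277)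 (nat_lit 173)))) (XT.nd (nat_lit 188) (nat_lit 0) (nat_lit 0) (XT.nd (nat_lit 94) (nat_lit 0) (nat_lit 0) (XT.lf (nat_lit 0) (nat_lit 6568767964) (nat_lit 0) (nat_lit 0) (nat_lit 0) (nat_lit 0) (nat_lit 0) (nat_lit 0) (nat_lit 1) (nat_lit 0) (nat_lit 1) (nat_lit 0) (nat_lit 271) (nat_lit 277) (nat_lit 172)) (XT.lf (nat_lit 0) (nat_lit 6566915250) (nat_lit 0) (nat_lit 0) (nat_lit 0) (nat_lit 0) (nat_lit 0) (nat_lit 0) (nat_lit 1) (nat_lit 0) (nat_lit 1) (nat_lit 0) (nat_lit 272) (nat_lit 277) (nat_lit 171))) (XT.nd (nat_lit 94) (nat_lit 0) (nat_lit 0) (XT.lf (nat_lit 0) (nat_lit 6565150761) (nat_lit 0) (nat_lit 0) (nat_lit 0) (nat_lit 0) (nat_lit 0) (nat_lit 0) (nat_lit 1) (nat_lit 0) (nat_lit 1) (nat_lit 0) (nat_lit 273) (nat_lit 277) (nat_lit 170)) (XT.lf (nat_lit 0) (nat_lit 6563470296) (nat_lit 0) (nat_lit 0) (nat_lit 0) (nat_lit 0) (nat_lit 0) (nat_lit 0) (nat_lit 1)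 (nat_lit 0) (nat_lit 1) (nat_lit 0) (nat_lit 274) (nat_lit 277) (nat_lit 169)))))) (XT.nd (nat_lit 658) (nat_lit 0) (nat_lit 0) (XT.nd (nat_lit 282) (nat_lit 0) (nat_lit 0) (XT.nd (nat_lit 94) (nat_lit 0) (nat_lit 0) (XT.lf (nat_lit 0) (nat_lit 6561869852) (nat_lit 0) (nat_lit 0) (nat_lit 0) (nat_lit 0) (nat_lit 0) (nat_lit 0) (nat_lit 1) (nat_lit 0) (nat_lit 1) (nat_lit 0) (nat_lit 275) (nat_lit 277) (nat_lit 168)) (XT.nd (nat_lit 94) (nat_lit 0) (nat_lit 0) (XT.lf (nat_lit 0) (nat_lit 6560345620) (nat_lit 0) (nat_lit 0) (nat_lit 0) (nat_lit 0) (nat_lit 0) (nat_lit 0) (nat_lit 1) (nat_lit 0) (nat_lit 1) (nat_lit 0) (nat_lit 276) (nat_lit 277) (nat_lit 167)) (XT.lf (nat_lit 0) (nat_lit 6558893971) (nat_lit 0) (nat_lit 0) (nat_lit 0) (nat_lit 0) (nat_lit 0) (nat_lit 0) (nat_lit 1) (nat_lit 0) (nat_lit 1) (nat_lit 0) (nat_lit 277) (nat_lit 277) (nat_lit 166)))) (XT.nd (nat_lit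 188) (nat_lit 0) (nat_lit 0) (XT.nd (nat_lit 94) (nat_lit 0) (nat_lit 0) (XT.lf (nat_lit 0) (nat_lit 6557511448) (nat_lit 0) (nat_lit 0) (nat_lit 0) (nat_lit 0) (nat_lit 0) (nat_lit 0) (nat_lit 1) (nat_lit 0) (nat_lit 1) (nat_lit 0) (nat_lit 278) (nat_lit 277) (nat_lit 165)) (XT.lf (nat_lit 0) (nat_lit 6556194759) (nat_lit 0) (nat_lit 0) (nat_lit 0) (nat_lit 0) (nat_lit 0) (nat_lit 0) (nat_lit 1) (nat_lit 0) (nat_lit 1) (nat_lit 0) (nat_lit 279) (nat_lit 277) (nat_lit 164))) (XT.nd (nat_lit 94) (nat_lit 0) (nat_lit 0) (XT.lf (nat_lit 0) (nat_lit 6554940770) (nat_lit 0) (nat_lit 0) (nat_lit 0) (nat_lit 0) (nat_lit 0) (nat_lit 0) (nat_lit 1) (nat_lit 0) (nat_lit 1) (nat_lit 0) (nat_lit 280) (nat_lit 277) (nat_lit 163)) (XT.lf (nat_lit 0) (nat_lit 6553746494) (nat_lit 0) (nat_lit 0) (nat_lit 0) (nat_lit 0) (nat_lit 0) (nat_lit 0) (nat_lit 1) (nat_lit 0) (nat_lit 1) (nat_lit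 0) (nat_lit 281) (nat_lit 277) (nat_lit 162))))) (XT.nd (nat_lit 282) (nat_lit 0) (nat_lit 0) (XT.nd (nat_lit 94) (nat_lit 0) (nat_lit 0) (XT.lf (nat_lit 0) (nat_lit 6552609089) (nat_lit 0) (nat_lit 0) (nat_lit 0) (nat_lit 0) (nat_lit 0) (nat_lit 0) (nat_lit 1) (nat_lit 0) (nat_lit 1) (nat_lit 0) (nat_lit 282) (nat_lit 277) (nat_lit 161)) (XT.nd (nat_lit 94) (nat_lit 0) (nat_lit 0) (XT.lf (nat_lit 0) (nat_lit 6551525846) (nat_lit 0) (nat_lit 0) (nat_lit 0) (nat_lit 0) (nat_lit 0) (nat_lit 0) (nat_lit 1) (nat_lit 0) (nat_lit 1) (nat_lit 0) (nat_lit 283) (nat_lit 277) (nat_lit 160)) (XT.lf (nat_lit 0) (nat_lit 6550494185) (nat_lit 0) (nat_lit 0) (nat_lit 0) (nat_lit 0) (nat_lit 0) (nat_lit 0) (nat_lit 1) (nat_lit 0) (nat_lit 1) (nat_lit 0) (nat_lit 284) (nat_lit 277) (nat_lit 159)))) (XT.nd (nat_lit 188) (nat_lit 0) (nat_lit 0) (XT.nd (nat_lit 94) (nat_lit 0) (nat_lit 0) (XT.lf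 (nat_lit 0) (nat_lit 6549511652) (nat_lit 0) (nat_lit 0) (nat_lit 0) (nat_lit 0) (nat_lit 0) (nat_lit 0) (nat_lit 1) (nat_lit 0) (nat_lit 1) (nat_lit 0) (nat_lit 285) (nat_lit 277) (nat_lit 158)) (XT.lf (nat_lit 0) (nat_lit 6548575906) (nat_lit 0) (nat_lit 0) (nat_lit 0) (nat_lit 0) (nat_lit 0) (nat_lit 0) (nat_lit 1) (nat_lit 0) (nat_lit 1) (nat_lit 0) (nat_lit 286) (nat_lit 277) (nat_lit 157))) (XT.nd (nat_lit 94) (nat_lit 0) (nat_lit 0) (XT.lf (nat_lit 0) (nat_lit 6547684719) (nat_lit 0) (nat_lit 0) (nat_lit 0) (nat_lit 0) (nat_lit 0) (nat_lit 0) (nat_lit 1) (nat_lit 0) (nat_lit 1) (nat_lit 0) (nat_lit 287) (nat_lit 277) (nat_lit 156)) (XT.lf (nat_lit 0) (nat_lit 6546835970) (nat_lit 0) (nat_lit 0) (nat_lit 0) (nat_lit 0) (nat_lit 0) (nat_lit 0) (nat_lit 1) (nat_lit 0) (nat_lit 1) (nat_lit 0) (nat_lit 288) (nat_lit 277) (nat_lit 155))))))))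
noncomputable def ec110 : XT := (XT.nd (nat_lit 33558) (nat_lit 0) (nat_lit 6804) (XT.nd (nat_lit 1222) (nat_lit 0) (nat_lit 0) (XT.nd (nat_lit 564) (nat_lit 0) (nat_lit 0) (XT.nd (nat_lit 282) (nat_lit 0) (nat_lit 0) (XT.nd (nat_lit 94) (nat_lit 0) (nat_lit 0) (XT.lf (nat_lit 0) (nat_lit 6546027637) (nat_lit 0) (nat_lit 0) (nat_lit 0) (nat_lit 0) (nat_lit 0) (nat_lit 0) (nat_lit 1) (nat_lit 0) (nat_lit 1) (nat_lit 0) (nat_lit 289) (nat_lit 277) (nat_lit 154)) (XT.nd (nat_lit 94) (nat_lit 0) (nat_lit 0) (XT.lf (nat_lit 0) (nat_lit 6545257796) (nat_lit 0) (nat_lit 0) (nat_lit 0) (nat_lit 0) (nat_lit 0) (nat_lit 0) (nat_lit 1) (nat_lit 0) (nat_lit 1) (nat_lit 0) (nat_lit 290) (nat_lit 277) (nat_lit 153)) (XT.lf (nat_lit 0) (nat_lit 6544524615) (nat_lit 0) (nat_lit 0) (nat_lit 0) (nat_lit 0) (nat_lit 0) (nat_lit 0) (nat_lit 1) (nat_lit 0) (nat_lit 1) (nat_lit 0) (nat_lit 291)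 (nat_lit 277) (nat_lit 152)))) (XT.nd (nat_lit 94) (nat_lit 0) (nat_lit 0) (XT.lf (nat_lit 0) (nat_lit 6543826346) (nat_lit 0) (nat_lit 0) (nat_lit 0) (nat_lit 0) (nat_lit 0) (nat_lit 0) (nat_lit 1) (nat_lit 0) (nat_lit 1) (nat_lit 0) (nat_lit 292) (nat_lit 277) (nat_lit 151)) (XT.nd (nat_lit 94) (nat_lit 0) (nat_lit 0) (XT.lf (nat_lit 0) (nat_lit 6543161329) (nat_lit 0) (nat_lit 0) (nat_lit 0) (nat_lit 0) (nat_lit 0) (nat_lit 0) (nat_lit 1) (nat_lit 0) (nat_lit 1) (nat_lit 0) (nat_lit 293) (nat_lit 277) (nat_lit 150)) (XT.lf (nat_lit 0) (nat_lit 6542527979) (nat_lit 0) (nat_lit 0) (nat_lit 0) (nat_lit 0) (nat_lit 0) (nat_lit 0) (nat_lit 1) (nat_lit 0) (nat_lit 1) (nat_lit 0) (nat_lit 294) (nat_lit 277) (nat_lit 149))))) (XT.nd (nat_lit 282) (nat_lit 0) (nat_lit 0) (XT.nd (nat_lit 94) (nat_lit 0) (nat_lit 0) (XT.lf (nat_lit 0) (nat_lit 6541924789) (nat_lit 0) (nat_lit 0)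 (nat_lit 0) (nat_lit 0) (nat_lit 0) (nat_lit 0) (nat_lit 1) (nat_lit 0) (nat_lit 1) (nat_lit 0) (nat_lit 295) (nat_lit 277) (nat_lit 148)) (XT.nd (nat_lit 94) (nat_lit 0) (nat_lit 0) (XT.lf (nat_lit 0) (nat_lit 6541350322) (nat_lit 0) (nat_lit 0) (nat_lit 0) (nat_lit 0) (nat_lit 0) (nat_lit 0) (nat_lit 1) (nat_lit 0) (nat_lit 1) (nat_lit 0) (nat_lit 296) (nat_lit 277) (nat_lit 147)) (XT.lf (nat_lit 0) (nat_lit 6540803211) (nat_lit 0) (nat_lit 0) (nat_lit 0) (nat_lit 0) (nat_lit 0) (nat_lit 0) (nat_lit 1) (nat_lit 0) (nat_lit 1) (nat_lit 0) (nat_lit 297) (nat_lit 277) (nat_lit 146)))) (XT.nd (nat_lit 188) (nat_lit 0) (nat_lit 0) (XT.nd (nat_lit 94) (nat_lit 0) (nat_lit 0) (XT.lf (nat_lit 0) (nat_lit 6540282152) (nat_lit 0) (nat_lit 0) (nat_lit 0) (nat_lit 0) (nat_lit 0) (nat_lit 0) (nat_lit 1) (nat_lit 0) (nat_lit 1) (nat_lit 0) (nat_lit 298) (nat_lit 277) (nat_lit 145))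 (XT.lf (nat_lit 0) (nat_lit 6539785906) (nat_lit 0) (nat_lit 0) (nat_lit 0) (nat_lit 0) (nat_lit 0) (nat_lit 0) (nat_lit 1) (nat_lit 0) (nat_lit 1) (nat_lit 0) (nat_lit 299) (nat_lit 277) (nat_lit 144))) (XT.nd (nat_lit 94) (nat_lit 0) (nat_lit 0) (XT.lf (nat_lit 0) (nat_lit 6539313291) (nat_lit 0) (nat_lit 0) (nat_lit 0) (nat_lit 0) (nat_lit 0) (nat_lit 0) (nat_lit 1) (nat_lit 0) (nat_lit 1) (nat_lit 0) (nat_lit 300) (nat_lit 277) (nat_lit 143)) (XT.lf (nat_lit 0) (nat_lit 6538863181) (nat_lit 0) (nat_lit 0) (nat_lit 0) (nat_lit 0) (nat_lit 0) (nat_lit 0) (nat_lit 1) (nat_lit 0) (nat_lit 1) (nat_lit 0) (nat_lit 301) (nat_lit 277) (nat_lit 142)))))) (XT.nd (nat_lit 658) (nat_lit 0) (nat_lit 0) (XT.nd (nat_lit 282) (nat_lit 0) (nat_lit 0) (XT.nd (nat_lit 94) (nat_lit 0) (nat_lit 0) (XT.lf (nat_lit 0) (nat_lit 6538434505) (nat_lit 0) (nat_lit 0) (nat_lit 0) (nat_lit 0) (nat_lit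 0) (nat_lit 0) (nat_lit 1) (nat_lit 0) (nat_lit 1) (nat_lit 0) (nat_lit 302) (nat_lit 277) (nat_lit 141)) (XT.nd (nat_lit 94) (nat_lit 0) (nat_lit 0) (XT.lf (nat_lit 0) (nat_lit 6538026242) (nat_lit 0) (nat_lit 0) (nat_lit 0) (nat_lit 0) (nat_lit 0) (nat_lit 0) (nat_lit 1) (nat_lit 0) (nat_lit 1) (nat_lit 0) (nat_lit 303) (nat_lit 277) (nat_lit 140)) (XT.lf (nat_lit 0) (nat_lit 6537637420) (nat_lit 0) (nat_lit 0) (nat_lit 0) (nat_lit 0) (nat_lit 0) (nat_lit 0) (nat_lit 1) (nat_lit 0) (nat_lit 1) (nat_lit 0) (nat_lit 304) (nat_lit 277) (nat_lit 139)))) (XT.nd (nat_lit 188) (nat_lit 0) (nat_lit 0) (XT.nd (nat_lit 94) (nat_lit 0) (nat_lit 0) (XT.lf (nat_lit 0) (nat_lit 6537267113) (nat_lit 0) (nat_lit 0) (nat_lit 0) (nat_lit 0) (nat_lit 0) (nat_lit 0) (nat_lit 1) (nat_lit 0) (nat_lit 1) (nat_lit 0) (nat_lit 305) (nat_lit 277) (nat_lit 138)) (XT.lf (nat_lit 0) (nat_lit 6536914440)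 (nat_lit 0) (nat_lit 0) (nat_lit 0) (nat_lit 0) (nat_lit 0) (nat_lit 0) (nat_lit 1) (nat_lit 0) (nat_lit 1) (nat_lit 0) (nat_lit 306) (nat_lit 277) (nat_lit 137))) (XT.nd (nat_lit 94) (nat_lit 0) (nat_lit 0) (XT.lf (nat_lit 0) (nat_lit 6536578561) (nat_lit 0) (nat_lit 0) (nat_lit 0) (nat_lit 0) (nat_lit 0) (nat_lit 0) (nat_lit 1) (nat_lit 0) (nat_lit 1) (nat_lit 0) (nat_lit 307) (nat_lit 277) (nat_lit 136)) (XT.lf (nat_lit 0) (nat_lit 6536258677) (nat_lit 0) (nat_lit 0) (nat_lit 0) (nat_lit 0) (nat_lit 0) (nat_lit 0) (nat_lit 1) (nat_lit 0) (nat_lit 1) (nat_lit 0) (nat_lit 308) (nat_lit 277) (nat_lit 135))))) (XT.nd (nat_lit 282) (nat_lit 0) (nat_lit 0) (XT.nd (nat_lit 94) (nat_lit 0) (nat_lit 0) (XT.lf (nat_lit 0) (nat_lit 6535954025) (nat_lit 0) (nat_lit 0) (nat_lit 0) (nat_lit 0) (nat_lit 0) (nat_lit 0) (nat_lit 1) (nat_lit 0) (nat_lit 1) (nat_lit 0) (nat_lit 309) (nat_lit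 277) (nat_lit 134)) (XT.nd (nat_lit 94) (nat_lit 0) (nat_lit 0) (XT.lf (nat_lit 0) (nat_lit 6535663880) (nat_lit 0) (nat_lit 0) (nat_lit 0) (nat_lit 0) (nat_lit 0) (nat_lit 0) (nat_lit 1) (nat_lit 0) (nat_lit 1) (nat_lit 0) (nat_lit 310) (nat_lit 277) (nat_lit 133)) (XT.lf (nat_lit 0) (nat_lit 6535387551) (nat_lit 0) (nat_lit 0) (nat_lit 0) (nat_lit 0) (nat_lit 0) (nat_lit 0) (nat_lit 1) (nat_lit 0) (nat_lit 1) (nat_lit 0) (nat_lit 311) (nat_lit 277) (nat_lit 132)))) (XT.nd (nat_lit 188) (nat_lit 0) (nat_lit 0) (XT.nd (nat_lit 94) (nat_lit 0) (nat_lit 0) (XT.lf (nat_lit 0) (nat_lit 6535124381) (nat_lit 0) (nat_lit 0) (nat_lit 0) (nat_lit 0) (nat_lit 0) (nat_lit 0) (nat_lit 1) (nat_lit 0) (nat_lit 1) (nat_lit 0) (nat_lit 312) (nat_lit 277) (nat_lit 131)) (XT.lf (nat_lit 0) (nat_lit 6534873743) (nat_lit 0) (nat_lit 0) (nat_lit 0) (nat_lit 0) (nat_lit 0) (nat_lit 0) (nat_lit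 1) (nat_lit 0) (nat_lit 1) (nat_lit 0) (nat_lit 313) (nat_lit 277) (nat_lit 130))) (XT.nd (nat_lit 31114) (nat_lit 0) (nat_lit 10752) (XT.lf (nat_lit 0) (nat_lit 6534635040) (nat_lit 0) (nat_lit 0) (nat_lit 0) (nat_lit 0) (nat_lit 0) (nat_lit 0) (nat_lit 1) (nat_lit 0) (nat_lit 1) (nat_lit 0) (nat_lit 314) (nat_lit 277) (nat_lit 129)) (XT.lf (nat_lit 924) (nat_lit 3431176380) (nat_lit 0) (nat_lit 6092045776) (nat_lit 924) (nat_lit 3431176380) (nat_lit 139) (nat_lit 1) (nat_lit 128) (nat_lit 0) (nat_lit 139) (nat_lit 0) (nat_lit 164) (nat_lit 278) (nat_lit 278))))))) (XT.nd (nat_lit 1222) (nat_lit 2940) (nat_lit 0) (XT.nd (nat_lit 564) (nat_lit 1008) (nat_lit 0) (XT.nd (nat_lit 282) (nat_lit 0) (nat_lit 168) (XT.nd (nat_lit 94) (nat_lit 0) (nat_lit 84) (XT.lf (nat_lit 924) (nat_lit 13299668015) (nat_lit 84) (nat_lit 5993786973) (nat_lit 0) (nat_lit 5993786973) (nat_lit 139)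 (nat_lit 1) (nat_lit 129) (nat_lit 1) (nat_lit 128) (nat_lit 0) (nat_lit 165) (nat_lit 278) (nat_lit 277)) (XT.nd (nat_lit 94) (nat_lit 0) (nat_lit 0) (XT.lf (nat_lit 924) (nat_lit 6338421523) (nat_lit 0) (nat_lit 12008059412) (nat_lit 840) (nat_lit 6338421523) (nat_lit 140) (nat_lit 1) (nat_lit 129) (nat_lit 1) (nat_lit 139) (nat_lit 1) (nat_lit 166) (nat_lit 278) (nat_lit 276)) (XT.lf (nat_lit 924) (nat_lit 11889998031) (nat_lit 84) (nat_lit 6106012488) (nat_lit 0) (nat_lit 6106012488) (nat_lit 140) (nat_lit 1) (nat_lit 130) (nat_lit 1) (nat_lit 129) (nat_lit 1) (nat_lit 167) (nat_lit 278) (nat_lit 275)))) (XT.nd (nat_lit 94) (nat_lit 0) (nat_lit 0) (XT.lf (nat_lit 924) (nat_lit 5472851913) (nat_lit 0) (nat_lit 12591914087) (nat_lit 840) (nat_lit 5472851913) (nat_lit 141) (nat_lit 1) (nat_lit 130) (nat_lit 1) (nat_lit 140) (nat_lit 1) (nat_lit 168) (nat_lit 278) (nat_lit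 274)) (XT.nd (nat_lit 94) (nat_lit 0) (nat_lit 84) (XT.lf (nat_lit 924) (nat_lit 9843280623) (nat_lit 84) (nat_lit 6573568709) (nat_lit 0) (nat_lit 6573568709) (nat_lit 141) (nat_lit 1) (nat_lit 131) (nat_lit 1) (nat_lit 130) (nat_lit 1) (nat_lit 169) (nat_lit 278) (nat_lit 273)) (XT.lf (nat_lit 924) (nat_lit 4315994253) (nat_lit 0) (nat_lit 13829602741) (nat_lit 840) (nat_lit 4315994253) (nat_lit 142) (nat_lit 1) (nat_lit 131) (nat_lit 1) (nat_lit 141) (nat_lit 1) (nat_lit 170) (nat_lit 278) (nat_lit 272))))) (XT.nd (nat_lit 282) (nat_lit 1260) (nat_lit 0) (XT.nd (nat_lit 94) (nat_lit 0) (nat_lit 84) (XT.lf (nat_lit 924) (nat_lit 7255318860) (nat_lit 84) (nat_lit 7346003004) (nat_lit 0) (nat_lit 7346003004) (nat_lit 142) (nat_lit 1) (nat_lit 132) (nat_lit 1) (nat_lit 131) (nat_lit 1) (nat_lit 171) (nat_lit 278) (nat_lit 271)) (XT.nd (nat_lit 94) (nat_lit 0) (nat_lit 0)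 (XT.lf (nat_lit 924) (nat_lit 2912632628) (nat_lit 0) (nat_lit 15626618314) (nat_lit 840) (nat_lit 2912632628) (nat_lit 143) (nat_lit 1) (nat_lit 132) (nat_lit 1) (nat_lit 142) (nat_lit 1) (nat_lit 172) (nat_lit 278) (nat_lit 270)) (XT.lf (nat_lit 924) (nat_lit 4211267212) (nat_lit 84) (nat_lit 8378382745) (nat_lit 0) (nat_lit 8378382745) (nat_lit 143) (nat_lit 1) (nat_lit 133) (nat_lit 1) (nat_lit 132) (nat_lit 1) (nat_lit 173) (nat_lit 278) (nat_lit 269)))) (XT.nd (nat_lit 188) (nat_lit 588) (nat_lit 0) (XT.nd (nat_lit 94) (nat_lit 840) (nat_lit 0) (XT.lf (nat_lit 84) (nat_lit 1302544525) (nat_lit 0) (nat_lit 17898845819) (nat_lit 840) (nat_lit 1302544525) (nat_lit 134) (nat_lit 1) (nat_lit 133) (nat_lit 1) (nat_lit 143) (nat_lit 1) (nat_lit 174) (nat_lit 278) (nat_lit 268)) (XT.lf (nat_lit 924) (nat_lit 786704501) (nat_lit 0) (nat_lit 9630742619) (nat_lit 840) (nat_lit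 9630742619) (nat_lit 134) (nat_lit 1) (nat_lit 123) (nat_lit 1) (nat_lit 133) (nat_lit 1) (nat_lit 175) (nat_lit 278) (nat_lit 267))) (XT.nd (nat_lit 94) (nat_lit 0) (nat_lit 0) (XT.lf (nat_lit 588) (nat_lit 18669488578) (nat_lit 0) (nat_lit 471267848) (nat_lit 504) (nat_lit 471267848) (nat_lit 123) (nat_lit 1) (nat_lit 116) (nat_lit 1) (nat_lit 122) (nat_lit 1) (nat_lit 176) (nat_lit 278) (nat_lit 266)) (XT.lf (nat_lit 84) (nat_lit 8162267913) (nat_lit 0) (nat_lit 2856933726) (nat_lit 588) (nat_lit 8162267913) (nat_lit 117) (nat_lit 1) (nat_lit 116) (nat_lit 1) (nat_lit 123) (nat_lit 1) (nat_lit 177) (nat_lit 278) (nat_lit 265)))))) (XT.nd (nat_lit 658) (nat_lit 1344) (nat_lit 0) (XT.nd (nat_lit 282) (nat_lit 756) (nat_lit 0) (XT.nd (nat_lit 94) (nat_lit 420) (nat_lit 0) (XT.lf (nat_lit 504) (nat_lit 14045167915) (nat_lit 0) (nat_lit 2362027628) (nat_lit 420) (nat_lit 2362027628)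 (nat_lit 117) (nat_lit 1) (nat_lit 111) (nat_lit 1) (nat_lit 116) (nat_lit 1) (nat_lit 178) (nat_lit 278) (nat_lit 264)) (XT.nd (nat_lit 94) (nat_lit 420) (nat_lit 0) (XT.lf (nat_lit 84) (nat_lit 5822046339) (nat_lit 0) (nat_lit 6721550669) (nat_lit 504) (nat_lit 5822046339) (nat_lit 112) (nat_lit 1) (nat_lit 111) (nat_lit 1) (nat_lit 117) (nat_lit 1) (nat_lit 179) (nat_lit 278) (nat_lit 263)) (XT.lf (nat_lit 504) (nat_lit 9248942251) (nat_lit 0) (nat_lit 4363588440) (nat_lit 420) (nat_lit 4363588440) (nat_lit 112) (nat_lit 1) (nat_lit 106) (nat_lit 1) (nat_lit 111) (nat_lit 1) (nat_lit 180) (nat_lit 278) (nat_lit 262)))) (XT.nd (nat_lit 188) (nat_lit 420) (nat_lit 0) (XT.nd (nat_lit 94) (nat_lit 336) (nat_lit 0) (XT.lf (nat_lit 84) (nat_lit 3408112300) (nat_lit 0) (nat_lit 10781698989) (nat_lit 504) (nat_lit 3408112300) (nat_lit 107) (nat_lit 1) (nat_lit 106) (nat_lit 1)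 (nat_lit 112) (nat_lit 1) (nat_lit 181) (nat_lit 278) (nat_lit 261)) (XT.lf (nat_lit 420) (nat_lit 4325452278) (nat_lit 0) (nat_lit 6452002104) (nat_lit 336) (nat_lit 6452002104) (nat_lit 107) (nat_lit 1) (nat_lit 102) (nat_lit 1) (nat_lit 106) (nat_lit 1) (nat_lit 182) (nat_lit 278) (nat_lit 260))) (XT.nd (nat_lit 94) (nat_lit 420) (nat_lit 0) (XT.lf (nat_lit 84) (nat_lit 941189553) (nat_lit 0) (nat_lit 14992779705) (nat_lit 420) (nat_lit 941189553) (nat_lit 103) (nat_lit 1) (nat_lit 102) (nat_lit 1) (nat_lit 107) (nat_lit 1) (nat_lit 183) (nat_lit 278) (nat_lit 259)) (XT.lf (nat_lit 84) (nat_lit 7930733631) (nat_lit 0) (nat_lit 664214347) (nat_lit 420) (nat_lit 7930733631) (nat_lit 98) (nat_lit 1) (nat_lit 97) (nat_lit 1) (nat_lit 102) (nat_lit 1) (nat_lit 184) (nat_lit 278) (nat_lit 258))))) (XT.nd (nat_lit 282) (nat_lit 672) (nat_lit 0) (XT.nd (nat_lit 94) (nat_lit 336)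 (nat_lit 0) (XT.lf (nat_lit 420) (nat_lit 13118684115) (nat_lit 0) (nat_lit 1535414619) (nat_lit 336) (nat_lit 1535414619) (nat_lit 98) (nat_lit 1) (nat_lit 93) (nat_lit 1) (nat_lit 97) (nat_lit 1) (nat_lit 185) (nat_lit 278) (nat_lit 257)) (XT.nd (nat_lit 94) (nat_lit 336) (nat_lit 0) (XT.lf (nat_lit 84) (nat_lit 5145724647) (nat_lit 0) (nat_lit 5567662845) (nat_lit 420) (nat_lit 5145724647) (nat_lit 94) (nat_lit 1) (nat_lit 93) (nat_lit 1) (nat_lit 98) (nat_lit 1) (nat_lit 186) (nat_lit 278) (nat_lit 256)) (XT.lf (nat_lit 420) (nat_lit 7509043690) (nat_lit 0) (nat_lit 4015562194) (nat_lit 336) (nat_lit 4015562194) (nat_lit 94) (nat_lit 1) (nat_lit 89) (nat_lit 1) (nat_lit 93) (nat_lit 1) (nat_lit 187) (nat_lit 278) (nat_lit 255)))) (XT.nd (nat_lit 188) (nat_lit 420) (nat_lit 0) (XT.nd (nat_lit 94) (nat_lit 252) (nat_lit 0) (XT.lf (nat_lit 84) (nat_lit 2368017256) (nat_lit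 0) (nat_lit 10494515454) (nat_lit 420) (nat_lit 2368017256) (nat_lit 90) (nat_lit 1) (nat_lit 89) (nat_lit 1) (nat_lit 94) (nat_lit 1) (nat_lit 188) (nat_lit 278) (nat_lit 254)) (XT.lf (nat_lit 336) (nat_lit 1925807014) (nat_lit 0) (nat_lit 6500904129) (nat_lit 252) (nat_lit 6500904129) (nat_lit 90) (nat_lit 1) (nat_lit 86) (nat_lit 1) (nat_lit 89) (nat_lit 1) (nat_lit 189) (nat_lit 278) (nat_lit 253))) (XT.nd (nat_lit 94) (nat_lit 0) (nat_lit 0) (XT.lf (nat_lit 420) (nat_lit 13866816073) (nat_lit 0) (nat_lit 384777538) (nat_lit 336) (nat_lit 384777538) (nat_lit 86) (nat_lit 1) (nat_lit 81) (nat_lit 1) (nat_lit 85) (nat_lit 1) (nat_lit 190) (nat_lit 278) (nat_lit 252)) (XT.lf (nat_lit 84) (nat_lit 5426187645) (nat_lit 0) (nat_lit 3494363737) (nat_lit 420) (nat_lit 5426187645) (nat_lit 82) (nat_lit 1) (nat_lit 81) (nat_lit 1) (nat_lit 86) (nat_lit 1) (nat_lit 191) (nat_lit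 278) (nat_lit 251))))))))
noncomputable def ec111 : XT := (XT.nd (nat_lit 2538) (nat_lit 2520) (nat_lit 0) (XT.nd (nat_lit 1222) (nat_lit 1512) (nat_lit 0) (XT.nd (nat_lit 564) (nat_lit 924) (nat_lit 0) (XT.nd (nat_lit 282) (nat_lit 588) (nat_lit 0) (XT.nd (nat_lit 94) (nat_lit 252) (nat_lit 0) (XT.lf (nat_lit 336) (nat_lit 7925118600) (nat_lit 0) (nat_lit 3071548233) (nat_lit 252) (nat_lit 3071548233) (nat_lit 82) (nat_lit 1) (nat_lit 78) (nat_lit 1) (nat_lit 81) (nat_lit 1) (nat_lit 192) (nat_lit 278) (nat_lit 250)) (XT.nd (nat_lit 94) (nat_lit 252) (nat_lit 0) (XT.lf (nat_lit 84) (nat_lit 2503667555) (nat_lit 0) (nat_lit 8789432379) (nat_lit 336) (nat_lit 2503667555) (nat_lit 79) (nat_lit 1) (nat_lit 78) (nat_lit 1) (nat_lit 82) (nat_lit 1) (nat_lit 193) (nat_lit 278) (nat_lit 249)) (XT.lf (nat_lit 336) (nat_lit 2086728652) (nat_lit 0) (nat_lit 5722383308) (nat_lit 252)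 (nat_lit 5722383308) (nat_lit 79) (nat_lit 1) (nat_lit 75) (nat_lit 1) (nat_lit 78) (nat_lit 1) (nat_lit 194) (nat_lit 278) (nat_lit 248)))) (XT.nd (nat_lit 94) (nat_lit 252) (nat_lit 0) (XT.lf (nat_lit 336) (nat_lit 12558826499) (nat_lit 0) (nat_lit 358625874) (nat_lit 252) (nat_lit 358625874) (nat_lit 75) (nat_lit 1) (nat_lit 71) (nat_lit 1) (nat_lit 74) (nat_lit 1) (nat_lit 195) (nat_lit 278) (nat_lit 247)) (XT.nd (nat_lit 94) (nat_lit 252) (nat_lit 0) (XT.lf (nat_lit 84) (nat_lit 4750644402) (nat_lit 0) (nat_lit 3520179800) (nat_lit 336) (nat_lit 4750644402) (nat_lit 72) (nat_lit 1) (nat_lit 71) (nat_lit 1) (nat_lit 75) (nat_lit 1) (nat_lit 196) (nat_lit 278) (nat_lit 246)) (XT.lf (nat_lit 336) (nat_lit 6532571050) (nat_lit 0) (nat_lit 3121854255) (nat_lit 252) (nat_lit 3121854255) (nat_lit 72) (nat_lit 1) (nat_lit 68) (nat_lit 1) (nat_lit 71) (nat_lit 1) (nat_lit 197)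 (nat_lit 278) (nat_lit 245))))) (XT.nd (nat_lit 282) (nat_lit 420) (nat_lit 0) (XT.nd (nat_lit 94) (nat_lit 504) (nat_lit 0) (XT.lf (nat_lit 84) (nat_lit 1799064739) (nat_lit 0) (nat_lit 8939537118) (nat_lit 336) (nat_lit 1799064739) (nat_lit 69) (nat_lit 1) (nat_lit 68) (nat_lit 1) (nat_lit 72) (nat_lit 1) (nat_lit 198) (nat_lit 278) (nat_lit 244)) (XT.nd (nat_lit 94) (nat_lit 336) (nat_lit 0) (XT.lf (nat_lit 252) (nat_lit 659237138) (nat_lit 0) (nat_lit 5822156506) (nat_lit 168) (nat_lit 5822156506) (nat_lit 69) (nat_lit 1) (nat_lit 66) (nat_lit 1) (nat_lit 68) (nat_lit 1) (nat_lit 199) (nat_lit 278) (nat_lit 243)) (XT.lf (nat_lit 336) (nat_lit 9960852107) (nat_lit 0) (nat_lit 1057914693) (nat_lit 252) (nat_lit 1057914693) (nat_lit 66) (nat_lit 1) (nat_lit 62) (nat_lit 1) (nat_lit 65) (nat_lit 1) (nat_lit 200) (nat_lit 278) (nat_lit 242)))) (XT.nd (nat_lit 188) (nat_lit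 252) (nat_lit 0) (XT.nd (nat_lit 94) (nat_lit 168) (nat_lit 0) (XT.lf (nat_lit 84) (nat_lit 3479089198) (nat_lit 0) (nat_lit 4894171746) (nat_lit 336) (nat_lit 3479089198) (nat_lit 63) (nat_lit 1) (nat_lit 62) (nat_lit 1) (nat_lit 66) (nat_lit 1) (nat_lit 201) (nat_lit 278) (nat_lit 241)) (XT.lf (nat_lit 252) (nat_lit 4019550897) (nat_lit 0) (nat_lit 3807695688) (nat_lit 168) (nat_lit 3807695688) (nat_lit 63) (nat_lit 1) (nat_lit 60) (nat_lit 1) (nat_lit 62) (nat_lit 1) (nat_lit 202) (nat_lit 278) (nat_lit 240))) (XT.nd (nat_lit 94) (nat_lit 252) (nat_lit 0) (XT.lf (nat_lit 84) (nat_lit 577481880) (nat_lit 0) (nat_lit 10269785576) (nat_lit 252) (nat_lit 577481880) (nat_lit 61) (nat_lit 1) (nat_lit 60) (nat_lit 1) (nat_lit 63) (nat_lit 1) (nat_lit 203) (nat_lit 278) (nat_lit 239)) (XT.lf (nat_lit 84) (nat_lit 4766059280) (nat_lit 0) (nat_lit 1683201908) (nat_lit 252) (nat_lit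 4766059280) (nat_lit 58) (nat_lit 1) (nat_lit 57) (nat_lit 1) (nat_lit 60) (nat_lit 1) (nat_lit 204) (nat_lit 278) (nat_lit 238)))))) (XT.nd (nat_lit 658) (nat_lit 756) (nat_lit 0) (XT.nd (nat_lit 282) (nat_lit 420) (nat_lit 0) (XT.nd (nat_lit 94) (nat_lit 168) (nat_lit 0) (XT.lf (nat_lit 252) (nat_lit 6618508634) (nat_lit 0) (nat_lit 2197165544) (nat_lit 168) (nat_lit 2197165544) (nat_lit 58) (nat_lit 1) (nat_lit 55) (nat_lit 1) (nat_lit 57) (nat_lit 1) (nat_lit 205) (nat_lit 278) (nat_lit 237)) (XT.nd (nat_lit 94) (nat_lit 168) (nat_lit 0) (XT.lf (nat_lit 84) (nat_lit 1867570948) (nat_lit 0) (nat_lit 7079692348) (nat_lit 252) (nat_lit 1867570948) (nat_lit 56) (nat_lit 1) (nat_lit 55) (nat_lit 1) (nat_lit 58) (nat_lit 1) (nat_lit 206) (nat_lit 278) (nat_lit 236)) (XT.lf (nat_lit 252) (nat_lit 874889750) (nat_lit 0) (nat_lit 4872965148) (nat_lit 168) (nat_lit 4872965148)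 (nat_lit 56) (nat_lit 1) (nat_lit 53) (nat_lit 1) (nat_lit 55) (nat_lit 1) (nat_lit 207) (nat_lit 278) (nat_lit 235)))) (XT.nd (nat_lit 188) (nat_lit 168) (nat_lit 0) (XT.nd (nat_lit 94) (nat_lit 0) (nat_lit 0) (XT.lf (nat_lit 252) (nat_lit 8598981683) (nat_lit 0) (nat_lit 916722938) (nat_lit 168) (nat_lit 916722938) (nat_lit 53) (nat_lit 1) (nat_lit 50) (nat_lit 1) (nat_lit 52) (nat_lit 1) (nat_lit 208) (nat_lit 278) (nat_lit 234)) (XT.lf (nat_lit 84) (nat_lit 2862622074) (nat_lit 0) (nat_lit 4520398834) (nat_lit 252) (nat_lit 2862622074) (nat_lit 51) (nat_lit 1) (nat_lit 50) (nat_lit 1) (nat_lit 53) (nat_lit 1) (nat_lit 209) (nat_lit 278) (nat_lit 233))) (XT.nd (nat_lit 94) (nat_lit 0) (nat_lit 0) (XT.lf (nat_lit 252) (nat_lit 2915441601) (nat_lit 0) (nat_lit 3574419710) (nat_lit 168) (nat_lit 3574419710) (nat_lit 51) (nat_lit 1) (nat_lit 48) (nat_lit 1) (nat_lit 50) (nat_lit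 1) (nat_lit 210) (nat_lit 278) (nat_lit 232)) (XT.lf (nat_lit 84) (nat_lit 95822524) (nat_lit 0) (nat_lit 9697634384) (nat_lit 252) (nat_lit 95822524) (nat_lit 49) (nat_lit 1) (nat_lit 48) (nat_lit 1) (nat_lit 51) (nat_lit 1) (nat_lit 211) (nat_lit 278) (nat_lit 231))))) (XT.nd (nat_lit 282) (nat_lit 420) (nat_lit 0) (XT.nd (nat_lit 94) (nat_lit 168) (nat_lit 0) (XT.lf (nat_lit 84) (nat_lit 3618102297) (nat_lit 0) (nat_lit 2476960850) (nat_lit 168) (nat_lit 3618102297) (nat_lit 47) (nat_lit 1) (nat_lit 46) (nat_lit 1) (nat_lit 48) (nat_lit 1) (nat_lit 212) (nat_lit 278) (nat_lit 230)) (XT.nd (nat_lit 94) (nat_lit 0) (nat_lit 0) (XT.lf (nat_lit 252) (nat_lit 4489653057) (nat_lit 0) (nat_lit 2526797487) (nat_lit 168) (nat_lit 2526797487) (nat_lit 47) (nat_lit 1) (nat_lit 44) (nat_lit 1) (nat_lit 46) (nat_lit 1) (nat_lit 213) (nat_lit 278) (nat_lit 229)) (XT.lf (nat_lit 84)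 (nat_lit 900144408) (nat_lit 0) (nat_lit 7577628304) (nat_lit 252) (nat_lit 900144408) (nat_lit 45) (nat_lit 1) (nat_lit 44) (nat_lit 1) (nat_lit 47) (nat_lit 1) (nat_lit 214) (nat_lit 278) (nat_lit 228)))) (XT.nd (nat_lit 188) (nat_lit 84) (nat_lit 0) (XT.nd (nat_lit 94) (nat_lit 168) (nat_lit 0) (XT.lf (nat_lit 84) (nat_lit 4179494126) (nat_lit 0) (nat_lit 854961384) (nat_lit 168) (nat_lit 4179494126) (nat_lit 43) (nat_lit 1) (nat_lit 42) (nat_lit 1) (nat_lit 44) (nat_lit 1) (nat_lit 215) (nat_lit 278) (nat_lit 227)) (XT.lf (nat_lit 252) (nat_lit 5685183954) (nat_lit 0) (nat_lit 1684624971) (nat_lit 168) (nat_lit 1684624971) (nat_lit 43) (nat_lit 1) (nat_lit 40) (nat_lit 1) (nat_lit 42) (nat_lit 1) (nat_lit 216) (nat_lit 278) (nat_lit 226))) (XT.nd (nat_lit 94) (nat_lit 84) (nat_lit 0) (XT.lf (nat_lit 84) (nat_lit 1522751966) (nat_lit 0) (nat_lit 5852572128) (nat_lit 252)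 (nat_lit 1522751966) (nat_lit 41) (nat_lit 1) (nat_lit 40) (nat_lit 1) (nat_lit 43) (nat_lit 1) (nat_lit 217) (nat_lit 278) (nat_lit 225)) (XT.lf (nat_lit 168) (nat_lit 437126636) (nat_lit 0) (nat_lit 4153771069) (nat_lit 84) (nat_lit 4153771069) (nat_lit 41) (nat_lit 1) (nat_lit 39) (nat_lit 1) (nat_lit 40) (nat_lit 1) (nat_lit 218) (nat_lit 278) (nat_lit 224))))))) (XT.nd (nat_lit 1316) (nat_lit 1092) (nat_lit 0) (XT.nd (nat_lit 658) (nat_lit 504) (nat_lit 0) (XT.nd (nat_lit 282) (nat_lit 588) (nat_lit 0) (XT.nd (nat_lit 94) (nat_lit 84) (nat_lit 0) (XT.lf (nat_lit 252) (nat_lit 6573915168) (nat_lit 0) (nat_lit 1010537918) (nat_lit 168) (nat_lit 1010537918) (nat_lit 39) (nat_lit 1) (nat_lit 36) (nat_lit 1) (nat_lit 38) (nat_lit 1) (nat_lit 219) (nat_lit 278) (nat_lit 223)) (XT.nd (nat_lit 94) (nat_lit 84) (nat_lit 0) (XT.lf (nat_lit 84) (nat_lit 1997725081) (nat_lit 0)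 (nat_lit 4451533734) (nat_lit 252) (nat_lit 1997725081) (nat_lit 37) (nat_lit 1) (nat_lit 36) (nat_lit 1) (nat_lit 39) (nat_lit 1) (nat_lit 220) (nat_lit 278) (nat_lit 222)) (XT.lf (nat_lit 168) (nat_lit 1467970275) (nat_lit 0) (nat_lit 3417317738) (nat_lit 84) (nat_lit 3417317738) (nat_lit 37) (nat_lit 1) (nat_lit 35) (nat_lit 1) (nat_lit 36) (nat_lit 1) (nat_lit 221) (nat_lit 278) (nat_lit 221)))) (XT.nd (nat_lit 188) (nat_lit 336) (nat_lit 0) (XT.nd (nat_lit 94) (nat_lit 0) (nat_lit 0) (XT.lf (nat_lit 252) (nat_lit 7214757478) (nat_lit 0) (nat_lit 473841365) (nat_lit 168) (nat_lit 473841365) (nat_lit 35) (nat_lit 1) (nat_lit 32) (nat_lit 1) (nat_lit 34) (nat_lit 1) (nat_lit 222) (nat_lit 278) (nat_lit 220)) (XT.lf (nat_lit 84) (nat_lit 2353012673) (nat_lit 0) (nat_lit 3316200354) (nat_lit 252) (nat_lit 2353012673) (nat_lit 33) (nat_lit 1) (nat_lit 32) (nat_lit 1) (nat_lit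 35) (nat_lit 1) (nat_lit 223) (nat_lit 278) (nat_lit 219))) (XT.nd (nat_lit 94) (nat_lit 252) (nat_lit 0) (XT.lf (nat_lit 168) (nat_lit 2263269549) (nat_lit 0) (nat_lit 2811435760) (nat_lit 84) (nat_lit 2811435760) (nat_lit 33) (nat_lit 1) (nat_lit 31) (nat_lit 1) (nat_lit 32) (nat_lit 1) (nat_lit 224) (nat_lit 278) (nat_lit 218)) (XT.lf (nat_lit 252) (nat_lit 7655961880) (nat_lit 0) (nat_lit 49325054) (nat_lit 168) (nat_lit 49325054) (nat_lit 31) (nat_lit 1) (nat_lit 28) (nat_lit 1) (nat_lit 30) (nat_lit 1) (nat_lit 225) (nat_lit 278) (nat_lit 217))))) (XT.nd (nat_lit 282) (nat_lit 420) (nat_lit 0) (XT.nd (nat_lit 94) (nat_lit 84) (nat_lit 0) (XT.lf (nat_lit 84) (nat_lit 2611523926) (nat_lit 0) (nat_lit 2398639128) (nat_lit 252) (nat_lit 2611523926) (nat_lit 29) (nat_lit 1) (nat_lit 28) (nat_lit 1) (nat_lit 31) (nat_lit 1) (nat_lit 226) (nat_lit 278) (nat_lit 216)) (XT.nd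 (nat_lit 94) (nat_lit 0) (nat_lit 0) (XT.lf (nat_lit 168) (nat_lit 2867299146) (nat_lit 0) (nat_lit 2312975157) (nat_lit 84) (nat_lit 2312975157) (nat_lit 29) (nat_lit 1) (nat_lit 27) (nat_lit 1) (nat_lit 28) (nat_lit 1) (nat_lit 227) (nat_lit 278) (nat_lit 215)) (XT.lf (nat_lit 0) (nat_lit 288362022) (nat_lit 0) (nat_lit 6791965641) (nat_lit 168) (nat_lit 288362022) (nat_lit 27) (nat_lit 3) (nat_lit 27) (nat_lit 1) (nat_lit 29) (nat_lit 1) (nat_lit 228) (nat_lit 278) (nat_lit 214)))) (XT.nd (nat_lit 188) (nat_lit 168) (nat_lit 0) (XT.nd (nat_lit 94) (nat_lit 84) (nat_lit 0) (XT.lf (nat_lit 84) (nat_lit 2792025841) (nat_lit 0) (nat_lit 1659454813) (nat_lit 168) (nat_lit 2792025841) (nat_lit 26) (nat_lit 1) (nat_lit 25) (nat_lit 1) (nat_lit 27) (nat_lit 1) (nat_lit 229) (nat_lit 278) (nat_lit 213)) (XT.lf (nat_lit 168) (nat_lit 3316364281) (nat_lit 0) (nat_lit 1902890386)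 (nat_lit 84) (nat_lit 1902890386) (nat_lit 26) (nat_lit 1) (nat_lit 24) (nat_lit 1) (nat_lit 25) (nat_lit 1) (nat_lit 230) (nat_lit 278) (nat_lit 212))) (XT.nd (nat_lit 94) (nat_lit 168) (nat_lit 0) (XT.lf (nat_lit 0) (nat_lit 551147683) (nat_lit 0) (nat_lit 5901678475) (nat_lit 168) (nat_lit 551147683) (nat_lit 24) (nat_lit 3) (nat_lit 24) (nat_lit 1) (nat_lit 26) (nat_lit 1) (nat_lit 231) (nat_lit 278) (nat_lit 211)) (XT.lf (nat_lit 84) (nat_lit 2909881468) (nat_lit 0) (nat_lit 1066274216) (nat_lit 168) (nat_lit 2909881468) (nat_lit 23) (nat_lit 1) (nat_lit 22) (nat_lit 1) (nat_lit 24) (nat_lit 1) (nat_lit 232) (nat_lit 278) (nat_lit 210)))))) (XT.nd (nat_lit 658) (nat_lit 504) (nat_lit 0) (XT.nd (nat_lit 282) (nat_lit 336) (nat_lit 0) (XT.nd (nat_lit 94) (nat_lit 168) (nat_lit 0) (XT.lf (nat_lit 168) (nat_lit 3640219365) (nat_lit 0) (nat_lit 1565512630) (nat_lit 84) (nat_lit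 1565512630) (nat_lit 23) (nat_lit 1) (nat_lit 21) (nat_lit 1) (nat_lit 22) (nat_lit 1) (nat_lit 233) (nat_lit 278) (nat_lit 209)) (XT.nd (nat_lit 94) (nat_lit 168) (nat_lit 0) (XT.lf (nat_lit 0) (nat_lit 752393928) (nat_lit 0) (nat_lit 5154288852) (nat_lit 168) (nat_lit 752393928) (nat_lit 21) (nat_lit 3) (nat_lit 21) (nat_lit 1) (nat_lit 23) (nat_lit 1) (nat_lit 234) (nat_lit 278) (nat_lit 208)) (XT.lf (nat_lit 84) (nat_lit 2977657065) (nat_lit 0) (nat_lit 592499421) (nat_lit 168) (nat_lit 2977657065) (nat_lit 20) (nat_lit 1) (nat_lit 19) (nat_lit 1) (nat_lit 21) (nat_lit 1) (nat_lit 235) (nat_lit 278) (nat_lit 207)))) (XT.nd (nat_lit 188) (nat_lit 252) (nat_lit 0) (XT.nd (nat_lit 94) (nat_lit 0) (nat_lit 0) (XT.lf (nat_lit 168) (nat_lit 3863234875) (nat_lit 0) (nat_lit 1287951115) (nat_lit 84) (nat_lit 1287951115) (nat_lit 20) (nat_lit 1) (nat_lit 18) (nat_lit 1) (nat_lit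 19) (nat_lit 1) (nat_lit 236) (nat_lit 278) (nat_lit 206)) (XT.lf (nat_lit 0) (nat_lit 903723361) (nat_lit 0) (nat_lit 4525173209) (nat_lit 168) (nat_lit 903723361) (nat_lit 18) (nat_lit 3) (nat_lit 18) (nat_lit 1) (nat_lit 20) (nat_lit 1) (nat_lit 237) (nat_lit 278) (nat_lit 205))) (XT.nd (nat_lit 94) (nat_lit 84) (nat_lit 0) (XT.lf (nat_lit 84) (nat_lit 3005621436) (nat_lit 0) (nat_lit 216282155) (nat_lit 168) (nat_lit 3005621436) (nat_lit 17) (nat_lit 1) (nat_lit 16) (nat_lit 1) (nat_lit 18) (nat_lit 1) (nat_lit 238) (nat_lit 278) (nat_lit 204)) (XT.lf (nat_lit 168) (nat_lit 4005357078) (nat_lit 0) (nat_lit 1059600569) (nat_lit 84) (nat_lit 1059600569) (nat_lit 17) (nat_lit 1) (nat_lit 15) (nat_lit 1) (nat_lit 16) (nat_lit 1) (nat_lit 239) (nat_lit 278) (nat_lit 203))))) (XT.nd (nat_lit 282) (nat_lit 252) (nat_lit 0) (XT.nd (nat_lit 94) (nat_lit 252) (nat_lit 0) (XT.lf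 (nat_lit 0) (nat_lit 1014664031) (nat_lit 0) (nat_lit 3994039783) (nat_lit 168) (nat_lit 1014664031) (nat_lit 15) (nat_lit 3) (nat_lit 15) (nat_lit 1) (nat_lit 17) (nat_lit 1) (nat_lit 240) (nat_lit 278) (nat_lit 202)) (XT.nd (nat_lit 94) (nat_lit 168) (nat_lit 0) (XT.lf (nat_lit 84) (nat_lit 82975671) (nat_lit 0) (nat_lit 2920476387) (nat_lit 84) (nat_lit 2920476387) (nat_lit 15) (nat_lit 3) (nat_lit 14) (nat_lit 1) (nat_lit 15) (nat_lit 1) (nat_lit 241) (nat_lit 278) (nat_lit 201)) (XT.lf (nat_lit 168) (nat_lit 4082897357) (nat_lit 0) (nat_lit 871736011) (nat_lit 84) (nat_lit 871736011) (nat_lit 14) (nat_lit 1) (nat_lit 12) (nat_lit 1) (nat_lit 13) (nat_lit 1) (nat_lit 242) (nat_lit 278) (nat_lit 200)))) (XT.nd (nat_lit 188) (nat_lit 168) (nat_lit 0) (XT.nd (nat_lit 94) (nat_lit 84) (nat_lit 0) (XT.lf (nat_lit 0) (nat_lit 1093022405) (nat_lit 0) (nat_lit 3544162210) (nat_lit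 168) (nat_lit 1093022405) (nat_lit 12) (nat_lit 3) (nat_lit 12) (nat_lit 1) (nat_lit 14) (nat_lit 1) (nat_lit 243) (nat_lit 278) (nat_lit 199)) (XT.lf (nat_lit 84) (nat_lit 322354669) (nat_lit 0) (nat_lit 2656773530) (nat_lit 84) (nat_lit 2656773530) (nat_lit 12) (nat_lit 3) (nat_lit 11) (nat_lit 1) (nat_lit 12) (nat_lit 1) (nat_lit 244) (nat_lit 278) (nat_lit 198))) (XT.nd (nat_lit 94) (nat_lit 0) (nat_lit 0) (XT.lf (nat_lit 168) (nat_lit 4109181357) (nat_lit 0) (nat_lit 717179373) (nat_lit 84) (nat_lit 717179373) (nat_lit 11) (nat_lit 1) (nat_lit 9) (nat_lit 1) (nat_lit 10) (nat_lit 1) (nat_lit 245) (nat_lit 278) (nat_lit 197)) (XT.lf (nat_lit 0) (nat_lit 1145190138) (nat_lit 0) (nat_lit 3161748921) (nat_lit 168) (nat_lit 1145190138) (nat_lit 9) (nat_lit 3) (nat_lit 9) (nat_lit 1) (nat_lit 11) (nat_lit 1) (nat_lit 246) (nat_lit 278) (nat_lit 196))))))))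
noncomputable def ec112 : XT := (XT.nd (nat_lit 2538) (nat_lit 0) (nat_lit 0) (XT.nd (nat_lit 1222) (nat_lit 0) (nat_lit 0) (XT.nd (nat_lit 564) (nat_lit 252) (nat_lit 0) (XT.nd (nat_lit 282) (nat_lit 252) (nat_lit 0) (XT.nd (nat_lit 94) (nat_lit 168) (nat_lit 0) (XT.lf (nat_lit 84) (nat_lit 507192822) (nat_lit 0) (nat_lit 2427724996) (nat_lit 84) (nat_lit 2427724996) (nat_lit 9) (nat_lit 3) (nat_lit 8) (nat_lit 1) (nat_lit 9) (nat_lit 1) (nat_lit 247) (nat_lit 278) (nat_lit 195)) (XT.nd (nat_lit 94) (nat_lit 0) (nat_lit 0) (XT.lf (nat_lit 168) (nat_lit 4095082811) (nat_lit 0) (nat_lit 590025245) (nat_lit 84) (nat_lit 590025245) (nat_lit 8) (nat_lit 1) (nat_lit 6) (nat_lit 1) (nat_lit 7) (nat_lit 1) (nat_lit 248) (nat_lit 278) (nat_lit 194)) (XT.lf (nat_lit 0) (nat_lit 1176396380) (nat_lit 0) (nat_lit 2835424282) (nat_lit 168) (nat_lit 1176396380) (nat_lit 6) (nat_lit 3)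 (nat_lit 6) (nat_lit 1) (nat_lit 8) (nat_lit 1) (nat_lit 249) (nat_lit 278) (nat_lit 193)))) (XT.nd (nat_lit 94) (nat_lit 168) (nat_lit 0) (XT.lf (nat_lit 84) (nat_lit 647736254) (nat_lit 0) (nat_lit 2227762827) (nat_lit 84) (nat_lit 2227762827) (nat_lit 6) (nat_lit 3) (nat_lit 5) (nat_lit 1) (nat_lit 6) (nat_lit 1) (nat_lit 250) (nat_lit 278) (nat_lit 192)) (XT.nd (nat_lit 94) (nat_lit 0) (nat_lit 0) (XT.lf (nat_lit 168) (nat_lit 4049462516) (nat_lit 0) (nat_lit 485415229) (nat_lit 84) (nat_lit 485415229) (nat_lit 5) (nat_lit 1) (nat_lit 3) (nat_lit 1) (nat_lit 4) (nat_lit 1) (nat_lit 251) (nat_lit 278) (nat_lit 191)) (XT.lf (nat_lit 0) (nat_lit 1190915280) (nat_lit 0) (nat_lit 2555801640) (nat_lit 168) (nat_lit 1190915280) (nat_lit 3) (nat_lit 3) (nat_lit 3) (nat_lit 1) (nat_lit 5) (nat_lit 1) (nat_lit 252) (nat_lit 278) (nat_lit 190))))) (XT.nd (nat_lit 282) (nat_lit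 0) (nat_lit 0) (XT.nd (nat_lit 94) (nat_lit 168) (nat_lit 0) (XT.lf (nat_lit 84) (nat_lit 752387042) (nat_lit 0) (nat_lit 2052278814) (nat_lit 84) (nat_lit 2052278814) (nat_lit 3) (nat_lit 3) (nat_lit 2) (nat_lit 1) (nat_lit 3) (nat_lit 1) (nat_lit 253) (nat_lit 278) (nat_lit 189)) (XT.nd (nat_lit 94) (nat_lit 0) (nat_lit 0) (XT.lf (nat_lit 0) (nat_lit 6941283092) (nat_lit 0) (nat_lit 0) (nat_lit 0) (nat_lit 0) (nat_lit 0) (nat_lit 0) (nat_lit 1) (nat_lit 0) (nat_lit 1) (nat_lit 0) (nat_lit 254) (nat_lit 278) (nat_lit 188)) (XT.lf (nat_lit 0) (nat_lit 6937238851) (nat_lit 0) (nat_lit 0) (nat_lit 0) (nat_lit 0) (nat_lit 0) (nat_lit 0) (nat_lit 1) (nat_lit 0) (nat_lit 1) (nat_lit 0) (nat_lit 255) (nat_lit 278) (nat_lit 187)))) (XT.nd (nat_lit 188) (nat_lit 0) (nat_lit 0) (XT.nd (nat_lit 94) (nat_lit 0) (nat_lit 0) (XT.lf (nat_lit 0) (nat_lit 6933387193) (nat_lit 0) (nat_lit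 0) (nat_lit 0) (nat_lit 0) (nat_lit 0) (nat_lit 0) (nat_lit 1) (nat_lit 0) (nat_lit 1) (nat_lit 0) (nat_lit 256) (nat_lit 278) (nat_lit 186)) (XT.lf (nat_lit 0) (nat_lit 6929718947) (nat_lit 0) (nat_lit 0) (nat_lit 0) (nat_lit 0) (nat_lit 0) (nat_lit 0) (nat_lit 1) (nat_lit 0) (nat_lit 1) (nat_lit 0) (nat_lit 257) (nat_lit 278) (nat_lit 185))) (XT.nd (nat_lit 94) (nat_lit 0) (nat_lit 0) (XT.lf (nat_lit 0) (nat_lit 6926225380) (nat_lit 0) (nat_lit 0) (nat_lit 0) (nat_lit 0) (nat_lit 0) (nat_lit 0) (nat_lit 1) (nat_lit 0) (nat_lit 1) (nat_lit 0) (nat_lit 258) (nat_lit 278) (nat_lit 184)) (XT.lf (nat_lit 0) (nat_lit 6922898173) (nat_lit 0) (nat_lit 0) (nat_lit 0) (nat_lit 0) (nat_lit 0) (nat_lit 0) (nat_lit 1) (nat_lit 0) (nat_lit 1) (nat_lit 0) (nat_lit 259) (nat_lit 278) (nat_lit 183)))))) (XT.nd (nat_lit 658) (nat_lit 0) (nat_lit 0) (XT.nd (nat_lit 282) (nat_lit 0) (nat_lit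 0) (XT.nd (nat_lit 94) (nat_lit 0) (nat_lit 0) (XT.lf (nat_lit 0) (nat_lit 6919729404) (nat_lit 0) (nat_lit 0) (nat_lit 0) (nat_lit 0) (nat_lit 0) (nat_lit 0) (nat_lit 1) (nat_lit 0) (nat_lit 1) (nat_lit 0) (nat_lit 260) (nat_lit 278) (nat_lit 182)) (XT.nd (nat_lit 94) (nat_lit 0) (nat_lit 0) (XT.lf (nat_lit 0) (nat_lit 6916711529) (nat_lit 0) (nat_lit 0) (nat_lit 0) (nat_lit 0) (nat_lit 0) (nat_lit 0) (nat_lit 1) (nat_lit 0) (nat_lit 1) (nat_lit 0) (nat_lit 261) (nat_lit 278) (nat_lit 181)) (XT.lf (nat_lit 0) (nat_lit 6913837363) (nat_lit 0) (nat_lit 0) (nat_lit 0) (nat_lit 0) (nat_lit 0) (nat_lit 0) (nat_lit 1) (nat_lit 0) (nat_lit 1) (nat_lit 0) (nat_lit 262) (nat_lit 278) (nat_lit 180)))) (XT.nd (nat_lit 188) (nat_lit 0) (nat_lit 0) (XT.nd (nat_lit 94) (nat_lit 0) (nat_lit 0) (XT.lf (nat_lit 0) (nat_lit 6911100061) (nat_lit 0) (nat_lit 0) (nat_lit 0) (nat_lit 0) (nat_lit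 0) (nat_lit 0) (nat_lit 1) (nat_lit 0) (nat_lit 1) (nat_lit 0) (nat_lit 263) (nat_lit 278) (nat_lit 179)) (XT.lf (nat_lit 0) (nat_lit 6908493107) (nat_lit 0) (nat_lit 0) (nat_lit 0) (nat_lit 0) (nat_lit 0) (nat_lit 0) (nat_lit 1) (nat_lit 0) (nat_lit 1) (nat_lit 0) (nat_lit 264) (nat_lit 278) (nat_lit 178))) (XT.nd (nat_lit 94) (nat_lit 0) (nat_lit 0) (XT.lf (nat_lit 0) (nat_lit 6906010294) (nat_lit 0) (nat_lit 0) (nat_lit 0) (nat_lit 0) (nat_lit 0) (nat_lit 0) (nat_lit 1) (nat_lit 0) (nat_lit 1) (nat_lit 0) (nat_lit 265) (nat_lit 278) (nat_lit 177)) (XT.lf (nat_lit 0) (nat_lit 6903645710) (nat_lit 0) (nat_lit 0) (nat_lit 0) (nat_lit 0) (nat_lit 0) (nat_lit 0) (nat_lit 1) (nat_lit 0) (nat_lit 1) (nat_lit 0) (nat_lit 266) (nat_lit 278) (nat_lit 176))))) (XT.nd (nat_lit 282) (nat_lit 0) (nat_lit 0) (XT.nd (nat_lit 94) (nat_lit 0) (nat_lit 0) (XT.lf (nat_lit 0) (nat_lit 6901393726)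 (nat_lit 0) (nat_lit 0) (nat_lit 0) (nat_lit 0) (nat_lit 0) (nat_lit 0) (nat_lit 1) (nat_lit 0) (nat_lit 1) (nat_lit 0) (nat_lit 267) (nat_lit 278) (nat_lit 175)) (XT.nd (nat_lit 94) (nat_lit 0) (nat_lit 0) (XT.lf (nat_lit 0) (nat_lit 6899248978) (nat_lit 0) (nat_lit 0) (nat_lit 0) (nat_lit 0) (nat_lit 0) (nat_lit 0) (nat_lit 1) (nat_lit 0) (nat_lit 1) (nat_lit 0) (nat_lit 268) (nat_lit 278) (nat_lit 174)) (XT.lf (nat_lit 0) (nat_lit 6897206362) (nat_lit 0) (nat_lit 0) (nat_lit 0) (nat_lit 0) (nat_lit 0) (nat_lit 0) (nat_lit 1) (nat_lit 0) (nat_lit 1) (nat_lit 0) (nat_lit 269) (nat_lit 278) (nat_lit 173)))) (XT.nd (nat_lit 188) (nat_lit 0) (nat_lit 0) (XT.nd (nat_lit 94) (nat_lit 0) (nat_lit 0) (XT.lf (nat_lit 0) (nat_lit 6895261013) (nat_lit 0) (nat_lit 0) (nat_lit 0) (nat_lit 0) (nat_lit 0) (nat_lit 0) (nat_lit 1) (nat_lit 0) (nat_lit 1) (nat_lit 0) (nat_lit 270) (nat_lit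 278) (nat_lit 172)) (XT.lf (nat_lit 0) (nat_lit 6893408299) (nat_lit 0) (nat_lit 0) (nat_lit 0) (nat_lit 0) (nat_lit 0) (nat_lit 0) (nat_lit 1) (nat_lit 0) (nat_lit 1) (nat_lit 0) (nat_lit 271) (nat_lit 278) (nat_lit 171))) (XT.nd (nat_lit 94) (nat_lit 0) (nat_lit 0) (XT.lf (nat_lit 0) (nat_lit 6891643811) (nat_lit 0) (nat_lit 0) (nat_lit 0) (nat_lit 0) (nat_lit 0) (nat_lit 0) (nat_lit 1) (nat_lit 0) (nat_lit 1) (nat_lit 0) (nat_lit 272) (nat_lit 278) (nat_lit 170)) (XT.lf (nat_lit 0) (nat_lit 6889963345) (nat_lit 0) (nat_lit 0) (nat_lit 0) (nat_lit 0) (nat_lit 0) (nat_lit 0) (nat_lit 1) (nat_lit 0) (nat_lit 1) (nat_lit 0) (nat_lit 273) (nat_lit 278) (nat_lit 169))))))) (XT.nd (nat_lit 1222) (nat_lit 0) (nat_lit 0) (XT.nd (nat_lit 564) (nat_lit 0) (nat_lit 0) (XT.nd (nat_lit 282) (nat_lit 0) (nat_lit 0) (XT.nd (nat_lit 94) (nat_lit 0) (nat_lit 0) (XT.lf (nat_lit 0) (nat_lit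 6888362901) (nat_lit 0) (nat_lit 0) (nat_lit 0) (nat_lit 0) (nat_lit 0) (nat_lit 0) (nat_lit 1) (nat_lit 0) (nat_lit 1) (nat_lit 0) (nat_lit 274) (nat_lit 278) (nat_lit 168)) (XT.nd (nat_lit 94) (nat_lit 0) (nat_lit 0) (XT.lf (nat_lit 0) (nat_lit 6886838669) (nat_lit 0) (nat_lit 0) (nat_lit 0) (nat_lit 0) (nat_lit 0) (nat_lit 0) (nat_lit 1) (nat_lit 0) (nat_lit 1) (nat_lit 0) (nat_lit 275) (nat_lit 278) (nat_lit 167)) (XT.lf (nat_lit 0) (nat_lit 6885387020) (nat_lit 0) (nat_lit 0) (nat_lit 0) (nat_lit 0) (nat_lit 0) (nat_lit 0) (nat_lit 1) (nat_lit 0) (nat_lit 1) (nat_lit 0) (nat_lit 276) (nat_lit 278) (nat_lit 166)))) (XT.nd (nat_lit 94) (nat_lit 0) (nat_lit 0) (XT.lf (nat_lit 0) (nat_lit 6884004497) (nat_lit 0) (nat_lit 0) (nat_lit 0) (nat_lit 0) (nat_lit 0) (nat_lit 0) (nat_lit 1) (nat_lit 0) (nat_lit 1) (nat_lit 0) (nat_lit 277) (nat_lit 278) (nat_lit 165)) (XT.nd (nat_lit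 94) (nat_lit 0) (nat_lit 0) (XT.lf (nat_lit 0) (nat_lit 6882687808) (nat_lit 0) (nat_lit 0) (nat_lit 0) (nat_lit 0) (nat_lit 0) (nat_lit 0) (nat_lit 1) (nat_lit 0) (nat_lit 1) (nat_lit 0) (nat_lit 278) (nat_lit 278) (nat_lit 164)) (XT.lf (nat_lit 0) (nat_lit 6881433819) (nat_lit 0) (nat_lit 0) (nat_lit 0) (nat_lit 0) (nat_lit 0) (nat_lit 0) (nat_lit 1) (nat_lit 0) (nat_lit 1) (nat_lit 0) (nat_lit 279) (nat_lit 278) (nat_lit 163))))) (XT.nd (nat_lit 282) (nat_lit 0) (nat_lit 0) (XT.nd (nat_lit 94) (nat_lit 0) (nat_lit 0) (XT.lf (nat_lit 0) (nat_lit 6880239543) (nat_lit 0) (nat_lit 0) (nat_lit 0) (nat_lit 0) (nat_lit 0) (nat_lit 0) (nat_lit 1) (nat_lit 0) (nat_lit 1) (nat_lit 0) (nat_lit 280) (nat_lit 278) (nat_lit 162)) (XT.nd (nat_lit 94) (nat_lit 0) (nat_lit 0) (XT.lf (nat_lit 0) (nat_lit 6879102138) (nat_lit 0) (nat_lit 0) (nat_lit 0) (nat_lit 0) (nat_lit 0) (nat_lit 0)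 (nat_lit 1) (nat_lit 0) (nat_lit 1) (nat_lit 0) (nat_lit 281) (nat_lit 278) (nat_lit 161)) (XT.lf (nat_lit 0) (nat_lit 6878018895) (nat_lit 0) (nat_lit 0) (nat_lit 0) (nat_lit 0) (nat_lit 0) (nat_lit 0) (nat_lit 1) (nat_lit 0) (nat_lit 1) (nat_lit 0) (nat_lit 282) (nat_lit 278) (nat_lit 160)))) (XT.nd (nat_lit 188) (nat_lit 0) (nat_lit 0) (XT.nd (nat_lit 94) (nat_lit 0) (nat_lit 0) (XT.lf (nat_lit 0) (nat_lit 6876987235) (nat_lit 0) (nat_lit 0) (nat_lit 0) (nat_lit 0) (nat_lit 0) (nat_lit 0) (nat_lit 1) (nat_lit 0) (nat_lit 1) (nat_lit 0) (nat_lit 283) (nat_lit 278) (nat_lit 159)) (XT.lf (nat_lit 0) (nat_lit 6876004701) (nat_lit 0) (nat_lit 0) (nat_lit 0) (nat_lit 0) (nat_lit 0) (nat_lit 0) (nat_lit 1) (nat_lit 0) (nat_lit 1) (nat_lit 0) (nat_lit 284) (nat_lit 278) (nat_lit 158))) (XT.nd (nat_lit 94) (nat_lit 0) (nat_lit 0) (XT.lf (nat_lit 0) (nat_lit 6875068955) (nat_lit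 0) (nat_lit 0) (nat_lit 0) (nat_lit 0) (nat_lit 0) (nat_lit 0) (nat_lit 1) (nat_lit 0) (nat_lit 1) (nat_lit 0) (nat_lit 285) (nat_lit 278) (nat_lit 157)) (XT.lf (nat_lit 0) (nat_lit 6874177768) (nat_lit 0) (nat_lit 0) (nat_lit 0) (nat_lit 0) (nat_lit 0) (nat_lit 0) (nat_lit 1) (nat_lit 0) (nat_lit 1) (nat_lit 0) (nat_lit 286) (nat_lit 278) (nat_lit 156)))))) (XT.nd (nat_lit 658) (nat_lit 0) (nat_lit 0) (XT.nd (nat_lit 282) (nat_lit 0) (nat_lit 0) (XT.nd (nat_lit 94) (nat_lit 0) (nat_lit 0) (XT.lf (nat_lit 0) (nat_lit 6873329019) (nat_lit 0) (nat_lit 0) (nat_lit 0) (nat_lit 0) (nat_lit 0) (nat_lit 0) (nat_lit 1) (nat_lit 0) (nat_lit 1) (nat_lit 0) (nat_lit 287) (nat_lit 278) (nat_lit 155)) (XT.nd (nat_lit 94) (nat_lit 0) (nat_lit 0) (XT.lf (nat_lit 0) (nat_lit 6872520686) (nat_lit 0) (nat_lit 0) (nat_lit 0) (nat_lit 0) (nat_lit 0) (nat_lit 0) (nat_lit 1) (nat_lit 0) (nat_lit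 1) (nat_lit 0) (nat_lit 288) (nat_lit 278) (nat_lit 154)) (XT.lf (nat_lit 0) (nat_lit 6871750845) (nat_lit 0) (nat_lit 0) (nat_lit 0) (nat_lit 0) (nat_lit 0) (nat_lit 0) (nat_lit 1) (nat_lit 0) (nat_lit 1) (nat_lit 0) (nat_lit 289) (nat_lit 278) (nat_lit 153)))) (XT.nd (nat_lit 188) (nat_lit 0) (nat_lit 0) (XT.nd (nat_lit 94) (nat_lit 0) (nat_lit 0) (XT.lf (nat_lit 0) (nat_lit 6871017664) (nat_lit 0) (nat_lit 0) (nat_lit 0) (nat_lit 0) (nat_lit 0) (nat_lit 0) (nat_lit 1) (nat_lit 0) (nat_lit 1) (nat_lit 0) (nat_lit 290) (nat_lit 278) (nat_lit 152)) (XT.lf (nat_lit 0) (nat_lit 6870319396) (nat_lit 0) (nat_lit 0) (nat_lit 0) (nat_lit 0) (nat_lit 0) (nat_lit 0) (nat_lit 1) (nat_lit 0) (nat_lit 1) (nat_lit 0) (nat_lit 291) (nat_lit 278) (nat_lit 151))) (XT.nd (nat_lit 94) (nat_lit 0) (nat_lit 0) (XT.lf (nat_lit 0) (nat_lit 6869654378) (nat_lit 0) (nat_lit 0) (nat_lit 0) (nat_lit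 0) (nat_lit 0) (nat_lit 0) (nat_lit 1) (nat_lit 0) (nat_lit 1) (nat_lit 0) (nat_lit 292) (nat_lit 278) (nat_lit 150)) (XT.lf (nat_lit 0) (nat_lit 6869021028) (nat_lit 0) (nat_lit 0) (nat_lit 0) (nat_lit 0) (nat_lit 0) (nat_lit 0) (nat_lit 1) (nat_lit 0) (nat_lit 1) (nat_lit 0) (nat_lit 293) (nat_lit 278) (nat_lit 149))))) (XT.nd (nat_lit 282) (nat_lit 0) (nat_lit 0) (XT.nd (nat_lit 94) (nat_lit 0) (nat_lit 0) (XT.lf (nat_lit 0) (nat_lit 6868417838) (nat_lit 0) (nat_lit 0) (nat_lit 0) (nat_lit 0) (nat_lit 0) (nat_lit 0) (nat_lit 1) (nat_lit 0) (nat_lit 1) (nat_lit 0) (nat_lit 294) (nat_lit 278) (nat_lit 148)) (XT.nd (nat_lit 94) (nat_lit 0) (nat_lit 0) (XT.lf (nat_lit 0) (nat_lit 6867843371) (nat_lit 0) (nat_lit 0) (nat_lit 0) (nat_lit 0) (nat_lit 0) (nat_lit 0) (nat_lit 1) (nat_lit 0) (nat_lit 1) (nat_lit 0) (nat_lit 295) (nat_lit 278) (nat_lit 147)) (XT.lf (nat_lit 0) (nat_lit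 6867296260) (nat_lit 0) (nat_lit 0) (nat_lit 0) (nat_lit 0) (nat_lit 0) (nat_lit 0) (nat_lit 1) (nat_lit 0) (nat_lit 1) (nat_lit 0) (nat_lit 296) (nat_lit 278) (nat_lit 146)))) (XT.nd (nat_lit 188) (nat_lit 0) (nat_lit 0) (XT.nd (nat_lit 94) (nat_lit 0) (nat_lit 0) (XT.lf (nat_lit 0) (nat_lit 6866775201) (nat_lit 0) (nat_lit 0) (nat_lit 0) (nat_lit 0) (nat_lit 0) (nat_lit 0) (nat_lit 1) (nat_lit 0) (nat_lit 1) (nat_lit 0) (nat_lit 297) (nat_lit 278) (nat_lit 145)) (XT.lf (nat_lit 0) (nat_lit 6866278955) (nat_lit 0) (nat_lit 0) (nat_lit 0) (nat_lit 0) (nat_lit 0) (nat_lit 0) (nat_lit 1) (nat_lit 0) (nat_lit 1) (nat_lit 0) (nat_lit 298) (nat_lit 278) (nat_lit 144))) (XT.nd (nat_lit 94) (nat_lit 0) (nat_lit 0) (XT.lf (nat_lit 0) (nat_lit 6865806340) (nat_lit 0) (nat_lit 0) (nat_lit 0) (nat_lit 0) (nat_lit 0) (nat_lit 0) (nat_lit 1) (nat_lit 0) (nat_lit 1) (nat_lit 0) (nat_lit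 299) (nat_lit 278) (nat_lit 143)) (XT.lf (nat_lit 0) (nat_lit 6865356230) (nat_lit 0) (nat_lit 0) (nat_lit 0) (nat_lit 0) (nat_lit 0) (nat_lit 0) (nat_lit 1) (nat_lit 0) (nat_lit 1) (nat_lit 0) (nat_lit 300) (nat_lit 278) (nat_lit 142))))))))
noncomputable def ec113 : XT := (XT.nd (nat_lit 33464) (nat_lit 0) (nat_lit 4788) (XT.nd (nat_lit 32148) (nat_lit 0) (nat_lit 9744) (XT.nd (nat_lit 564) (nat_lit 0) (nat_lit 0) (XT.nd (nat_lit 282) (nat_lit 0) (nat_lit 0) (XT.nd (nat_lit 94) (nat_lit 0) (nat_lit 0) (XT.lf (nat_lit 0) (nat_lit 6864927554) (nat_lit 0) (nat_lit 0) (nat_lit 0) (nat_lit 0) (nat_lit 0) (nat_lit 0) (nat_lit 1) (nat_lit 0) (nat_lit 1) (nat_lit 0) (nat_lit 301) (nat_lit 278) (nat_lit 141)) (XT.nd (nat_lit 94) (nat_lit 0) (nat_lit 0) (XT.lf (nat_lit 0) (nat_lit 6864519291) (nat_lit 0) (nat_lit 0) (nat_lit 0) (nat_lit 0) (nat_lit 0) (nat_lit 0) (nat_lit 1) (nat_lit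 0) (nat_lit 1) (nat_lit 0) (nat_lit 302) (nat_lit 278) (nat_lit 140)) (XT.lf (nat_lit 0) (nat_lit 6864130469) (nat_lit 0) (nat_lit 0) (nat_lit 0) (nat_lit 0) (nat_lit 0) (nat_lit 0) (nat_lit 1) (nat_lit 0) (nat_lit 1) (nat_lit 0) (nat_lit 303) (nat_lit 278) (nat_lit 139)))) (XT.nd (nat_lit 94) (nat_lit 0) (nat_lit 0) (XT.lf (nat_lit 0) (nat_lit 6863760162) (nat_lit 0) (nat_lit 0) (nat_lit 0) (nat_lit 0) (nat_lit 0) (nat_lit 0) (nat_lit 1) (nat_lit 0) (nat_lit 1) (nat_lit 0) (nat_lit 304) (nat_lit 278) (nat_lit 138)) (XT.nd (nat_lit 94) (nat_lit 0) (nat_lit 0) (XT.lf (nat_lit 0) (nat_lit 6863407490) (nat_lit 0) (nat_lit 0) (nat_lit 0) (nat_lit 0) (nat_lit 0) (nat_lit 0) (nat_lit 1) (nat_lit 0) (nat_lit 1) (nat_lit 0) (nat_lit 305) (nat_lit 278) (nat_lit 137)) (XT.lf (nat_lit 0) (nat_lit 6863071611) (nat_lit 0) (nat_lit 0) (nat_lit 0) (nat_lit 0) (nat_lit 0) (nat_lit 0) (nat_lit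 1) (nat_lit 0) (nat_lit 1) (nat_lit 0) (nat_lit 306) (nat_lit 278) (nat_lit 136))))) (XT.nd (nat_lit 282) (nat_lit 0) (nat_lit 0) (XT.nd (nat_lit 94) (nat_lit 0) (nat_lit 0) (XT.lf (nat_lit 0) (nat_lit 6862751726) (nat_lit 0) (nat_lit 0) (nat_lit 0) (nat_lit 0) (nat_lit 0) (nat_lit 0) (nat_lit 1) (nat_lit 0) (nat_lit 1) (nat_lit 0) (nat_lit 307) (nat_lit 278) (nat_lit 135)) (XT.nd (nat_lit 94) (nat_lit 0) (nat_lit 0) (XT.lf (nat_lit 0) (nat_lit 6862447074) (nat_lit 0) (nat_lit 0) (nat_lit 0) (nat_lit 0) (nat_lit 0) (nat_lit 0) (nat_lit 1) (nat_lit 0) (nat_lit 1) (nat_lit 0) (nat_lit 308) (nat_lit 278) (nat_lit 134)) (XT.lf (nat_lit 0) (nat_lit 6862156929) (nat_lit 0) (nat_lit 0) (nat_lit 0) (nat_lit 0) (nat_lit 0) (nat_lit 0) (nat_lit 1) (nat_lit 0) (nat_lit 1) (nat_lit 0) (nat_lit 309) (nat_lit 278) (nat_lit 133)))) (XT.nd (nat_lit 188) (nat_lit 0) (nat_lit 0) (XT.nd (nat_lit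 94) (nat_lit 0) (nat_lit 0) (XT.lf (nat_lit 0) (nat_lit 6861880600) (nat_lit 0) (nat_lit 0) (nat_lit 0) (nat_lit 0) (nat_lit 0) (nat_lit 0) (nat_lit 1) (nat_lit 0) (nat_lit 1) (nat_lit 0) (nat_lit 310) (nat_lit 278) (nat_lit 132)) (XT.lf (nat_lit 0) (nat_lit 6861617431) (nat_lit 0) (nat_lit 0) (nat_lit 0) (nat_lit 0) (nat_lit 0) (nat_lit 0) (nat_lit 1) (nat_lit 0) (nat_lit 1) (nat_lit 0) (nat_lit 311) (nat_lit 278) (nat_lit 131))) (XT.nd (nat_lit 94) (nat_lit 0) (nat_lit 0) (XT.lf (nat_lit 0) (nat_lit 6861366793) (nat_lit 0) (nat_lit 0) (nat_lit 0) (nat_lit 0) (nat_lit 0) (nat_lit 0) (nat_lit 1) (nat_lit 0) (nat_lit 1) (nat_lit 0) (nat_lit 312) (nat_lit 278) (nat_lit 130)) (XT.lf (nat_lit 0) (nat_lit 6861128090) (nat_lit 0) (nat_lit 0) (nat_lit 0) (nat_lit 0) (nat_lit 0) (nat_lit 0) (nat_lit 1) (nat_lit 0) (nat_lit 1) (nat_lit 0) (nat_lit 313) (nat_lit 278) (nat_lit 129))))))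 (XT.nd (nat_lit 658) (nat_lit 1008) (nat_lit 0) (XT.nd (nat_lit 282) (nat_lit 0) (nat_lit 84) (XT.nd (nat_lit 94) (nat_lit 0) (nat_lit 0) (XT.lf (nat_lit 924) (nat_lit 3602735199) (nat_lit 0) (nat_lit 6396648065) (nat_lit 924) (nat_lit 3602735199) (nat_lit 139) (nat_lit 1) (nat_lit 128) (nat_lit 0) (nat_lit 139) (nat_lit 0) (nat_lit 162) (nat_lit 279) (nat_lit 279)) (XT.nd (nat_lit 94) (nat_lit 0) (nat_lit 84) (XT.lf (nat_lit 924) (nat_lit 13964651416) (nat_lit 84) (nat_lit 6293476322) (nat_lit 0) (nat_lit 6293476322) (nat_lit 139) (nat_lit 1) (nat_lit 129) (nat_lit 1) (nat_lit 128) (nat_lit 0) (nat_lit 163) (nat_lit 279) (nat_lit 278)) (XT.lf (nat_lit 924) (nat_lit 6655342599) (nat_lit 0) (nat_lit 12608462383) (nat_lit 840) (nat_lit 6655342599) (nat_lit 140) (nat_lit 1) (nat_lit 129) (nat_lit 1) (nat_lit 139) (nat_lit 1) (nat_lit 164) (nat_lit 279) (nat_lit 277)))) (XT.nd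 (nat_lit 188) (nat_lit 0) (nat_lit 84) (XT.nd (nat_lit 94) (nat_lit 0) (nat_lit 84) (XT.lf (nat_lit 924) (nat_lit 12484497933) (nat_lit 84) (nat_lit 6411313113) (nat_lit 0) (nat_lit 6411313113) (nat_lit 140) (nat_lit 1) (nat_lit 130) (nat_lit 1) (nat_lit 129) (nat_lit 1) (nat_lit 165) (nat_lit 279) (nat_lit 276)) (XT.lf (nat_lit 924) (nat_lit 5746494509) (nat_lit 0) (nat_lit 13221509791) (nat_lit 840) (nat_lit 5746494509) (nat_lit 141) (nat_lit 1) (nat_lit 130) (nat_lit 1) (nat_lit 140) (nat_lit 1) (nat_lit 166) (nat_lit 279) (nat_lit 275))) (XT.nd (nat_lit 94) (nat_lit 0) (nat_lit 84) (XT.lf (nat_lit 924) (nat_lit 10335444655) (nat_lit 84) (nat_lit 6902247145) (nat_lit 0) (nat_lit 6902247145) (nat_lit 141) (nat_lit 1) (nat_lit 131) (nat_lit 1) (nat_lit 130) (nat_lit 1) (nat_lit 167) (nat_lit 279) (nat_lit 274)) (XT.lf (nat_lit 924) (nat_lit 4531793966) (nat_lit 0) (nat_lit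 14521082878) (nat_lit 840) (nat_lit 4531793966) (nat_lit 142) (nat_lit 1) (nat_lit 131) (nat_lit 1) (nat_lit 141) (nat_lit 1) (nat_lit 168) (nat_lit 279) (nat_lit 273))))) (XT.nd (nat_lit 282) (nat_lit 1260) (nat_lit 0) (XT.nd (nat_lit 94) (nat_lit 0) (nat_lit 84) (XT.lf (nat_lit 924) (nat_lit 7618084803) (nat_lit 84) (nat_lit 7713303154) (nat_lit 0) (nat_lit 7713303154) (nat_lit 142) (nat_lit 1) (nat_lit 132) (nat_lit 1) (nat_lit 131) (nat_lit 1) (nat_lit 169) (nat_lit 279) (nat_lit 272)) (XT.nd (nat_lit 94) (nat_lit 0) (nat_lit 0) (XT.lf (nat_lit 924) (nat_lit 3058264259) (nat_lit 0) (nat_lit 16407949229) (nat_lit 840) (nat_lit 3058264259) (nat_lit 143) (nat_lit 1) (nat_lit 132) (nat_lit 1) (nat_lit 142) (nat_lit 1) (nat_lit 170) (nat_lit 279) (nat_lit 271)) (XT.lf (nat_lit 924) (nat_lit 4421830572) (nat_lit 84) (nat_lit 8797301883) (nat_lit 0) (nat_lit 8797301883) (nat_lit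 143) (nat_lit 1) (nat_lit 133) (nat_lit 1) (nat_lit 132) (nat_lit 1) (nat_lit 171) (nat_lit 279) (nat_lit 270)))) (XT.nd (nat_lit 188) (nat_lit 588) (nat_lit 0) (XT.nd (nat_lit 94) (nat_lit 840) (nat_lit 0) (XT.lf (nat_lit 84) (nat_lit 1367671751) (nat_lit 0) (nat_lit 18793788110) (nat_lit 840) (nat_lit 1367671751) (nat_lit 134) (nat_lit 1) (nat_lit 133) (nat_lit 1) (nat_lit 143) (nat_lit 1) (nat_lit 172) (nat_lit 279) (nat_lit 269)) (XT.lf (nat_lit 924) (nat_lit 826039726) (nat_lit 0) (nat_lit 10112279750) (nat_lit 840) (nat_lit 10112279750) (nat_lit 134) (nat_lit 1) (nat_lit 123) (nat_lit 1) (nat_lit 133) (nat_lit 1) (nat_lit 173) (nat_lit 279) (nat_lit 268))) (XT.nd (nat_lit 94) (nat_lit 0) (nat_lit 0) (XT.lf (nat_lit 588) (nat_lit 19602963007) (nat_lit 0) (nat_lit 494831240) (nat_lit 504) (nat_lit 494831240) (nat_lit 123) (nat_lit 1) (nat_lit 116) (nat_lit 1) (nat_lit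 122) (nat_lit 1) (nat_lit 174) (nat_lit 279) (nat_lit 267)) (XT.lf (nat_lit 84) (nat_lit 8570381309) (nat_lit 0) (nat_lit 2999780413) (nat_lit 588) (nat_lit 8570381309) (nat_lit 117) (nat_lit 1) (nat_lit 116) (nat_lit 1) (nat_lit 123) (nat_lit 1) (nat_lit 175) (nat_lit 279) (nat_lit 266))))))) (XT.nd (nat_lit 1222) (nat_lit 2016) (nat_lit 0) (XT.nd (nat_lit 564) (nat_lit 1764) (nat_lit 0) (XT.nd (nat_lit 282) (nat_lit 336) (nat_lit 0) (XT.nd (nat_lit 94) (nat_lit 420) (nat_lit 0) (XT.lf (nat_lit 504) (nat_lit 14747426311) (nat_lit 0) (nat_lit 2480129009) (nat_lit 420) (nat_lit 2480129009) (nat_lit 117) (nat_lit 1) (nat_lit 111) (nat_lit 1) (nat_lit 116) (nat_lit 1) (nat_lit 176) (nat_lit 279) (nat_lit 265)) (XT.nd (nat_lit 94) (nat_lit 420) (nat_lit 0) (XT.lf (nat_lit 84) (nat_lit 6113148656) (nat_lit 0) (nat_lit 7057628203) (nat_lit 504) (nat_lit 6113148656) (nat_lit 112)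 (nat_lit 1) (nat_lit 111) (nat_lit 1) (nat_lit 117) (nat_lit 1) (nat_lit 177) (nat_lit 279) (nat_lit 264)) (XT.lf (nat_lit 504) (nat_lit 9711389363) (nat_lit 0) (nat_lit 4581767862) (nat_lit 420) (nat_lit 4581767862) (nat_lit 112) (nat_lit 1) (nat_lit 106) (nat_lit 1) (nat_lit 111) (nat_lit 1) (nat_lit 178) (nat_lit 279) (nat_lit 263)))) (XT.nd (nat_lit 94) (nat_lit 336) (nat_lit 0) (XT.lf (nat_lit 84) (nat_lit 3578517915) (nat_lit 0) (nat_lit 11320783938) (nat_lit 504) (nat_lit 3578517915) (nat_lit 107) (nat_lit 1) (nat_lit 106) (nat_lit 1) (nat_lit 112) (nat_lit 1) (nat_lit 179) (nat_lit 279) (nat_lit 262)) (XT.nd (nat_lit 94) (nat_lit 0) (nat_lit 0) (XT.lf (nat_lit 420) (nat_lit 4541724892) (nat_lit 0) (nat_lit 6774602209) (nat_lit 336) (nat_lit 6774602209) (nat_lit 107) (nat_lit 1) (nat_lit 102) (nat_lit 1) (nat_lit 106) (nat_lit 1) (nat_lit 180) (nat_lit 279) (nat_lit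 261)) (XT.lf (nat_lit 84) (nat_lit 988249031) (nat_lit 0) (nat_lit 15742418691) (nat_lit 420) (nat_lit 988249031) (nat_lit 103) (nat_lit 1) (nat_lit 102) (nat_lit 1) (nat_lit 107) (nat_lit 1) (nat_lit 181) (nat_lit 279) (nat_lit 260))))) (XT.nd (nat_lit 282) (nat_lit 1008) (nat_lit 0) (XT.nd (nat_lit 94) (nat_lit 336) (nat_lit 0) (XT.lf (nat_lit 84) (nat_lit 8327270312) (nat_lit 0) (nat_lit 697425064) (nat_lit 420) (nat_lit 8327270312) (nat_lit 98) (nat_lit 1) (nat_lit 97) (nat_lit 1) (nat_lit 102) (nat_lit 1) (nat_lit 182) (nat_lit 279) (nat_lit 259)) (XT.nd (nat_lit 94) (nat_lit 0) (nat_lit 0) (XT.lf (nat_lit 420) (nat_lit 13774618321) (nat_lit 0) (nat_lit 1612185350) (nat_lit 336) (nat_lit 1612185350) (nat_lit 98) (nat_lit 1) (nat_lit 93) (nat_lit 1) (nat_lit 97) (nat_lit 1) (nat_lit 183) (nat_lit 279) (nat_lit 258)) (XT.lf (nat_lit 84) (nat_lit 5403010879) (nat_lit 0)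 (nat_lit 5846045987) (nat_lit 420) (nat_lit 5403010879) (nat_lit 94) (nat_lit 1) (nat_lit 93) (nat_lit 1) (nat_lit 98) (nat_lit 1) (nat_lit 184) (nat_lit 279) (nat_lit 257)))) (XT.nd (nat_lit 188) (nat_lit 672) (nat_lit 0) (XT.nd (nat_lit 94) (nat_lit 0) (nat_lit 0) (XT.lf (nat_lit 420) (nat_lit 7884495874) (nat_lit 0) (nat_lit 4216340303) (nat_lit 336) (nat_lit 4216340303) (nat_lit 94) (nat_lit 1) (nat_lit 89) (nat_lit 1) (nat_lit 93) (nat_lit 1) (nat_lit 185) (nat_lit 279) (nat_lit 256)) (XT.lf (nat_lit 84) (nat_lit 2486418119) (nat_lit 0) (nat_lit 11019241227) (nat_lit 420) (nat_lit 2486418119) (nat_lit 90) (nat_lit 1) (nat_lit 89) (nat_lit 1) (nat_lit 94) (nat_lit 1) (nat_lit 186) (nat_lit 279) (nat_lit 255))) (XT.nd (nat_lit 94) (nat_lit 420) (nat_lit 0) (XT.lf (nat_lit 336) (nat_lit 2022097365) (nat_lit 0) (nat_lit 6825949336) (nat_lit 252) (nat_lit 6825949336) (nat_lit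 90) (nat_lit 1) (nat_lit 86) (nat_lit 1) (nat_lit 89) (nat_lit 1) (nat_lit 187) (nat_lit 279) (nat_lit 254)) (XT.lf (nat_lit 420) (nat_lit 14560156877) (nat_lit 0) (nat_lit 404016415) (nat_lit 336) (nat_lit 404016415) (nat_lit 86) (nat_lit 1) (nat_lit 81) (nat_lit 1) (nat_lit 85) (nat_lit 1) (nat_lit 188) (nat_lit 279) (nat_lit 253)))))) (XT.nd (nat_lit 658) (nat_lit 924) (nat_lit 0) (XT.nd (nat_lit 282) (nat_lit 840) (nat_lit 0) (XT.nd (nat_lit 94) (nat_lit 252) (nat_lit 0) (XT.lf (nat_lit 84) (nat_lit 5697497027) (nat_lit 0) (nat_lit 3669081924) (nat_lit 420) (nat_lit 5697497027) (nat_lit 82) (nat_lit 1) (nat_lit 81) (nat_lit 1) (nat_lit 86) (nat_lit 1) (nat_lit 189) (nat_lit 279) (nat_lit 252)) (XT.nd (nat_lit 94) (nat_lit 0) (nat_lit 0) (XT.lf (nat_lit 336) (nat_lit 8321374531) (nat_lit 0) (nat_lit 3225125645) (nat_lit 252) (nat_lit 3225125645) (nat_lit 82) (nat_lit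 1) (nat_lit 78) (nat_lit 1) (nat_lit 81) (nat_lit 1) (nat_lit 190) (nat_lit 279) (nat_lit 251)) (XT.lf (nat_lit 84) (nat_lit 2628850932) (nat_lit 0) (nat_lit 9228903998) (nat_lit 336) (nat_lit 2628850932) (nat_lit 79) (nat_lit 1) (nat_lit 78) (nat_lit 1) (nat_lit 82) (nat_lit 1) (nat_lit 191) (nat_lit 279) (nat_lit 250)))) (XT.nd (nat_lit 188) (nat_lit 252) (nat_lit 0) (XT.nd (nat_lit 94) (nat_lit 336) (nat_lit 0) (XT.lf (nat_lit 336) (nat_lit 2191065084) (nat_lit 0) (nat_lit 6008502473) (nat_lit 252) (nat_lit 6008502473) (nat_lit 79) (nat_lit 1) (nat_lit 75) (nat_lit 1) (nat_lit 78) (nat_lit 1) (nat_lit 192) (nat_lit 279) (nat_lit 249)) (XT.lf (nat_lit 336) (nat_lit 13186767824) (nat_lit 0) (nat_lit 376557168) (nat_lit 252) (nat_lit 376557168) (nat_lit 75) (nat_lit 1) (nat_lit 71) (nat_lit 1) (nat_lit 74) (nat_lit 1) (nat_lit 193) (nat_lit 279) (nat_lit 248))) (XT.nd (nat_lit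 94) (nat_lit 252) (nat_lit 0) (XT.lf (nat_lit 84) (nat_lit 4988176622) (nat_lit 0) (nat_lit 3696188790) (nat_lit 336) (nat_lit 4988176622) (nat_lit 72) (nat_lit 1) (nat_lit 71) (nat_lit 1) (nat_lit 75) (nat_lit 1) (nat_lit 194) (nat_lit 279) (nat_lit 247)) (XT.lf (nat_lit 336) (nat_lit 6859199603) (nat_lit 0) (nat_lit 3277946967) (nat_lit 252) (nat_lit 3277946967) (nat_lit 72) (nat_lit 1) (nat_lit 68) (nat_lit 1) (nat_lit 71) (nat_lit 1) (nat_lit 195) (nat_lit 279) (nat_lit 246))))) (XT.nd (nat_lit 282) (nat_lit 420) (nat_lit 0) (XT.nd (nat_lit 94) (nat_lit 504) (nat_lit 0) (XT.lf (nat_lit 84) (nat_lit 1889017976) (nat_lit 0) (nat_lit 9386513973) (nat_lit 336) (nat_lit 1889017976) (nat_lit 69) (nat_lit 1) (nat_lit 68) (nat_lit 1) (nat_lit 72) (nat_lit 1) (nat_lit 196) (nat_lit 279) (nat_lit 245)) (XT.nd (nat_lit 94) (nat_lit 336) (nat_lit 0) (XT.lf (nat_lit 252) (nat_lit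 692198995) (nat_lit 0) (nat_lit 6113264332) (nat_lit 168) (nat_lit 6113264332) (nat_lit 69) (nat_lit 1) (nat_lit 66) (nat_lit 1) (nat_lit 68) (nat_lit 1) (nat_lit 197) (nat_lit 279) (nat_lit 244)) (XT.lf (nat_lit 336) (nat_lit 10458894712) (nat_lit 0) (nat_lit 1110810428) (nat_lit 252) (nat_lit 1110810428) (nat_lit 66) (nat_lit 1) (nat_lit 62) (nat_lit 1) (nat_lit 65) (nat_lit 1) (nat_lit 198) (nat_lit 279) (nat_lit 243)))) (XT.nd (nat_lit 188) (nat_lit 252) (nat_lit 0) (XT.nd (nat_lit 94) (nat_lit 168) (nat_lit 0) (XT.lf (nat_lit 84) (nat_lit 3653043658) (nat_lit 0) (nat_lit 5138880333) (nat_lit 336) (nat_lit 3653043658) (nat_lit 63) (nat_lit 1) (nat_lit 62) (nat_lit 1) (nat_lit 66) (nat_lit 1) (nat_lit 199) (nat_lit 279) (nat_lit 242)) (XT.lf (nat_lit 252) (nat_lit 4220528441) (nat_lit 0) (nat_lit 3998080473) (nat_lit 168) (nat_lit 3998080473) (nat_lit 63) (nat_lit 1)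 (nat_lit 60) (nat_lit 1) (nat_lit 62) (nat_lit 1) (nat_lit 200) (nat_lit 279) (nat_lit 241))) (XT.nd (nat_lit 94) (nat_lit 252) (nat_lit 0) (XT.lf (nat_lit 84) (nat_lit 606355975) (nat_lit 0) (nat_lit 10783274855) (nat_lit 252) (nat_lit 606355975) (nat_lit 61) (nat_lit 1) (nat_lit 60) (nat_lit 1) (nat_lit 63) (nat_lit 1) (nat_lit 201) (nat_lit 279) (nat_lit 240)) (XT.lf (nat_lit 84) (nat_lit 5004362244) (nat_lit 0) (nat_lit 1767362003) (nat_lit 252) (nat_lit 5004362244) (nat_lit 58) (nat_lit 1) (nat_lit 57) (nat_lit 1) (nat_lit 60) (nat_lit 1) (nat_lit 202) (nat_lit 279) (nat_lit 239))))))))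
noncomputable def ec114 : XT := (XT.nd (nat_lit 2538) (nat_lit 2016) (nat_lit 0) (XT.nd (nat_lit 1222) (nat_lit 1344) (nat_lit 0) (XT.nd (nat_lit 564) (nat_lit 672) (nat_lit 0) (XT.nd (nat_lit 282) (nat_lit 420) (nat_lit 0) (XT.nd (nat_lit 94) (nat_lit 168) (nat_lit 0) (XT.lf (nat_lit 252) (nat_lit 6949434065) (nat_lit 0) (nat_lit 2307023821) (nat_lit 168) (nat_lit 2307023821) (nat_lit 58) (nat_lit 1) (nat_lit 55) (nat_lit 1) (nat_lit 57) (nat_lit 1) (nat_lit 203) (nat_lit 279) (nat_lit 238)) (XT.nd (nat_lit 94) (nat_lit 168) (nat_lit 0) (XT.lf (nat_lit 84) (nat_lit 1960949495) (nat_lit 0) (nat_lit 7433676966) (nat_lit 252) (nat_lit 1960949495) (nat_lit 56) (nat_lit 1) (nat_lit 55) (nat_lit 1) (nat_lit 58) (nat_lit 1) (nat_lit 204) (nat_lit 279) (nat_lit 237)) (XT.lf (nat_lit 252) (nat_lit 918634237) (nat_lit 0) (nat_lit 5116613406) (nat_lit 168) (nat_lit 5116613406) (nat_lit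 56) (nat_lit 1) (nat_lit 53) (nat_lit 1) (nat_lit 55) (nat_lit 1) (nat_lit 205) (nat_lit 279) (nat_lit 236)))) (XT.nd (nat_lit 94) (nat_lit 168) (nat_lit 0) (XT.lf (nat_lit 252) (nat_lit 9028930768) (nat_lit 0) (nat_lit 962559085) (nat_lit 168) (nat_lit 962559085) (nat_lit 53) (nat_lit 1) (nat_lit 50) (nat_lit 1) (nat_lit 52) (nat_lit 1) (nat_lit 206) (nat_lit 279) (nat_lit 235)) (XT.nd (nat_lit 94) (nat_lit 168) (nat_lit 0) (XT.lf (nat_lit 84) (nat_lit 3005753178) (nat_lit 0) (nat_lit 4746418776) (nat_lit 252) (nat_lit 3005753178) (nat_lit 51) (nat_lit 1) (nat_lit 50) (nat_lit 1) (nat_lit 53) (nat_lit 1) (nat_lit 207) (nat_lit 279) (nat_lit 234)) (XT.lf (nat_lit 252) (nat_lit 3061213681) (nat_lit 0) (nat_lit 3753140696) (nat_lit 168) (nat_lit 3753140696) (nat_lit 51) (nat_lit 1) (nat_lit 48) (nat_lit 1) (nat_lit 50) (nat_lit 1) (nat_lit 208) (nat_lit 279) (nat_lit 233)))))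 (XT.nd (nat_lit 282) (nat_lit 336) (nat_lit 0) (XT.nd (nat_lit 94) (nat_lit 336) (nat_lit 0) (XT.lf (nat_lit 84) (nat_lit 100613651) (nat_lit 0) (nat_lit 10182516103) (nat_lit 252) (nat_lit 100613651) (nat_lit 49) (nat_lit 1) (nat_lit 48) (nat_lit 1) (nat_lit 51) (nat_lit 1) (nat_lit 209) (nat_lit 279) (nat_lit 232)) (XT.nd (nat_lit 94) (nat_lit 168) (nat_lit 0) (XT.lf (nat_lit 84) (nat_lit 3799007412) (nat_lit 0) (nat_lit 2600808892) (nat_lit 168) (nat_lit 3799007412) (nat_lit 47) (nat_lit 1) (nat_lit 46) (nat_lit 1) (nat_lit 48) (nat_lit 1) (nat_lit 210) (nat_lit 279) (nat_lit 231)) (XT.lf (nat_lit 252) (nat_lit 4714135710) (nat_lit 0) (nat_lit 2653137362) (nat_lit 168) (nat_lit 2653137362) (nat_lit 47) (nat_lit 1) (nat_lit 44) (nat_lit 1) (nat_lit 46) (nat_lit 1) (nat_lit 211) (nat_lit 279) (nat_lit 230)))) (XT.nd (nat_lit 188) (nat_lit 168) (nat_lit 0) (XT.nd (nat_lit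 94) (nat_lit 168) (nat_lit 0) (XT.lf (nat_lit 84) (nat_lit 945151629) (nat_lit 0) (nat_lit 7956509720) (nat_lit 252) (nat_lit 945151629) (nat_lit 45) (nat_lit 1) (nat_lit 44) (nat_lit 1) (nat_lit 47) (nat_lit 1) (nat_lit 212) (nat_lit 279) (nat_lit 229)) (XT.lf (nat_lit 84) (nat_lit 4388468832) (nat_lit 0) (nat_lit 897709454) (nat_lit 168) (nat_lit 4388468832) (nat_lit 43) (nat_lit 1) (nat_lit 42) (nat_lit 1) (nat_lit 44) (nat_lit 1) (nat_lit 213) (nat_lit 279) (nat_lit 228))) (XT.nd (nat_lit 94) (nat_lit 0) (nat_lit 0) (XT.lf (nat_lit 252) (nat_lit 5969443151) (nat_lit 0) (nat_lit 1768856219) (nat_lit 168) (nat_lit 1768856219) (nat_lit 43) (nat_lit 1) (nat_lit 40) (nat_lit 1) (nat_lit 42) (nat_lit 1) (nat_lit 214) (nat_lit 279) (nat_lit 227)) (XT.lf (nat_lit 84) (nat_lit 1598889565) (nat_lit 0) (nat_lit 6145200734) (nat_lit 252) (nat_lit 1598889565) (nat_lit 41) (nat_lit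 1) (nat_lit 40) (nat_lit 1) (nat_lit 43) (nat_lit 1) (nat_lit 215) (nat_lit 279) (nat_lit 226)))))) (XT.nd (nat_lit 658) (nat_lit 588) (nat_lit 0) (XT.nd (nat_lit 282) (nat_lit 420) (nat_lit 0) (XT.nd (nat_lit 94) (nat_lit 252) (nat_lit 0) (XT.lf (nat_lit 168) (nat_lit 458982968) (nat_lit 0) (nat_lit 4361459622) (nat_lit 84) (nat_lit 4361459622) (nat_lit 41) (nat_lit 1) (nat_lit 39) (nat_lit 1) (nat_lit 40) (nat_lit 1) (nat_lit 216) (nat_lit 279) (nat_lit 225)) (XT.nd (nat_lit 94) (nat_lit 0) (nat_lit 0) (XT.lf (nat_lit 252) (nat_lit 6902610927) (nat_lit 0) (nat_lit 1061064814) (nat_lit 168) (nat_lit 1061064814) (nat_lit 39) (nat_lit 1) (nat_lit 36) (nat_lit 1) (nat_lit 38) (nat_lit 1) (nat_lit 217) (nat_lit 279) (nat_lit 224)) (XT.lf (nat_lit 84) (nat_lit 2097611335) (nat_lit 0) (nat_lit 4674110421) (nat_lit 252) (nat_lit 2097611335) (nat_lit 37) (nat_lit 1) (nat_lit 36)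 (nat_lit 1) (nat_lit 39) (nat_lit 1) (nat_lit 218) (nat_lit 279) (nat_lit 223)))) (XT.nd (nat_lit 188) (nat_lit 84) (nat_lit 0) (XT.nd (nat_lit 94) (nat_lit 252) (nat_lit 0) (XT.lf (nat_lit 168) (nat_lit 1541368789) (nat_lit 0) (nat_lit 3588183625) (nat_lit 84) (nat_lit 3588183625) (nat_lit 37) (nat_lit 1) (nat_lit 35) (nat_lit 1) (nat_lit 36) (nat_lit 1) (nat_lit 219) (nat_lit 279) (nat_lit 222)) (XT.lf (nat_lit 252) (nat_lit 7575495352) (nat_lit 0) (nat_lit 497533434) (nat_lit 168) (nat_lit 497533434) (nat_lit 35) (nat_lit 1) (nat_lit 32) (nat_lit 1) (nat_lit 34) (nat_lit 1) (nat_lit 220) (nat_lit 279) (nat_lit 221))) (XT.nd (nat_lit 94) (nat_lit 84) (nat_lit 0) (XT.lf (nat_lit 84) (nat_lit 2470663307) (nat_lit 0) (nat_lit 3482010372) (nat_lit 252) (nat_lit 2470663307) (nat_lit 33) (nat_lit 1) (nat_lit 32) (nat_lit 1) (nat_lit 35) (nat_lit 1) (nat_lit 221) (nat_lit 279)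 (nat_lit 220)) (XT.lf (nat_lit 168) (nat_lit 2376433026) (nat_lit 0) (nat_lit 2952007548) (nat_lit 84) (nat_lit 2952007548) (nat_lit 33) (nat_lit 1) (nat_lit 31) (nat_lit 1) (nat_lit 32) (nat_lit 1) (nat_lit 222) (nat_lit 279) (nat_lit 219))))) (XT.nd (nat_lit 282) (nat_lit 252) (nat_lit 0) (XT.nd (nat_lit 94) (nat_lit 84) (nat_lit 0) (XT.lf (nat_lit 252) (nat_lit 8038759974) (nat_lit 0) (nat_lit 51791307) (nat_lit 168) (nat_lit 51791307) (nat_lit 31) (nat_lit 1) (nat_lit 28) (nat_lit 1) (nat_lit 30) (nat_lit 1) (nat_lit 223) (nat_lit 279) (nat_lit 218)) (XT.nd (nat_lit 94) (nat_lit 84) (nat_lit 0) (XT.lf (nat_lit 84) (nat_lit 2742100122) (nat_lit 0) (nat_lit 2518571084) (nat_lit 252) (nat_lit 2742100122) (nat_lit 29) (nat_lit 1) (nat_lit 28) (nat_lit 1) (nat_lit 31) (nat_lit 1) (nat_lit 224) (nat_lit 279) (nat_lit 217)) (XT.lf (nat_lit 168) (nat_lit 3010664103) (nat_lit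 0) (nat_lit 2428623915) (nat_lit 84) (nat_lit 2428623915) (nat_lit 29) (nat_lit 1) (nat_lit 27) (nat_lit 1) (nat_lit 28) (nat_lit 1) (nat_lit 225) (nat_lit 279) (nat_lit 216)))) (XT.nd (nat_lit 188) (nat_lit 84) (nat_lit 0) (XT.nd (nat_lit 94) (nat_lit 168) (nat_lit 0) (XT.lf (nat_lit 0) (nat_lit 302780123) (nat_lit 0) (nat_lit 7131563923) (nat_lit 168) (nat_lit 302780123) (nat_lit 27) (nat_lit 3) (nat_lit 27) (nat_lit 1) (nat_lit 29) (nat_lit 1) (nat_lit 226) (nat_lit 279) (nat_lit 215)) (XT.lf (nat_lit 84) (nat_lit 2931627133) (nat_lit 0) (nat_lit 1742427553) (nat_lit 168) (nat_lit 2931627133) (nat_lit 26) (nat_lit 1) (nat_lit 25) (nat_lit 1) (nat_lit 27) (nat_lit 1) (nat_lit 227) (nat_lit 279) (nat_lit 214))) (XT.nd (nat_lit 94) (nat_lit 0) (nat_lit 0) (XT.lf (nat_lit 168) (nat_lit 3482182495) (nat_lit 0) (nat_lit 1998034905) (nat_lit 84) (nat_lit 1998034905) (nat_lit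 26) (nat_lit 1) (nat_lit 24) (nat_lit 1) (nat_lit 25) (nat_lit 1) (nat_lit 228) (nat_lit 279) (nat_lit 213)) (XT.lf (nat_lit 0) (nat_lit 578705067) (nat_lit 0) (nat_lit 6196762399) (nat_lit 168) (nat_lit 578705067) (nat_lit 24) (nat_lit 3) (nat_lit 24) (nat_lit 1) (nat_lit 26) (nat_lit 1) (nat_lit 229) (nat_lit 279) (nat_lit 212))))))) (XT.nd (nat_lit 1222) (nat_lit 924) (nat_lit 0) (XT.nd (nat_lit 564) (nat_lit 588) (nat_lit 0) (XT.nd (nat_lit 282) (nat_lit 252) (nat_lit 0) (XT.nd (nat_lit 94) (nat_lit 84) (nat_lit 0) (XT.lf (nat_lit 84) (nat_lit 3055375541) (nat_lit 0) (nat_lit 1119587926) (nat_lit 168) (nat_lit 3055375541) (nat_lit 23) (nat_lit 1) (nat_lit 22) (nat_lit 1) (nat_lit 24) (nat_lit 1) (nat_lit 230) (nat_lit 279) (nat_lit 211)) (XT.nd (nat_lit 94) (nat_lit 0) (nat_lit 0) (XT.lf (nat_lit 168) (nat_lit 3822230334) (nat_lit 0) (nat_lit 1643788261) (nat_lit 84)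 (nat_lit 1643788261) (nat_lit 23) (nat_lit 1) (nat_lit 21) (nat_lit 1) (nat_lit 22) (nat_lit 1) (nat_lit 231) (nat_lit 279) (nat_lit 210)) (XT.lf (nat_lit 0) (nat_lit 790013624) (nat_lit 0) (nat_lit 5412003295) (nat_lit 168) (nat_lit 790013624) (nat_lit 21) (nat_lit 3) (nat_lit 21) (nat_lit 1) (nat_lit 23) (nat_lit 1) (nat_lit 232) (nat_lit 279) (nat_lit 209)))) (XT.nd (nat_lit 94) (nat_lit 84) (nat_lit 0) (XT.lf (nat_lit 84) (nat_lit 3126539918) (nat_lit 0) (nat_lit 622124392) (nat_lit 168) (nat_lit 3126539918) (nat_lit 20) (nat_lit 1) (nat_lit 19) (nat_lit 1) (nat_lit 21) (nat_lit 1) (nat_lit 233) (nat_lit 279) (nat_lit 208)) (XT.nd (nat_lit 94) (nat_lit 0) (nat_lit 0) (XT.lf (nat_lit 168) (nat_lit 4056396619) (nat_lit 0) (nat_lit 1352348670) (nat_lit 84) (nat_lit 1352348670) (nat_lit 20) (nat_lit 1) (nat_lit 18) (nat_lit 1) (nat_lit 19) (nat_lit 1) (nat_lit 234) (nat_lit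 279) (nat_lit 207)) (XT.lf (nat_lit 0) (nat_lit 948909529) (nat_lit 0) (nat_lit 4751431869) (nat_lit 168) (nat_lit 948909529) (nat_lit 18) (nat_lit 3) (nat_lit 18) (nat_lit 1) (nat_lit 20) (nat_lit 1) (nat_lit 235) (nat_lit 279) (nat_lit 206))))) (XT.nd (nat_lit 282) (nat_lit 336) (nat_lit 0) (XT.nd (nat_lit 94) (nat_lit 84) (nat_lit 0) (XT.lf (nat_lit 84) (nat_lit 3155902508) (nat_lit 0) (nat_lit 227096262) (nat_lit 168) (nat_lit 3155902508) (nat_lit 17) (nat_lit 1) (nat_lit 16) (nat_lit 1) (nat_lit 18) (nat_lit 1) (nat_lit 236) (nat_lit 279) (nat_lit 205)) (XT.nd (nat_lit 94) (nat_lit 0) (nat_lit 0) (XT.lf (nat_lit 168) (nat_lit 4205624932) (nat_lit 0) (nat_lit 1112580598) (nat_lit 84) (nat_lit 1112580598) (nat_lit 17) (nat_lit 1) (nat_lit 15) (nat_lit 1) (nat_lit 16) (nat_lit 1) (nat_lit 237) (nat_lit 279) (nat_lit 204)) (XT.lf (nat_lit 0) (nat_lit 1065397233) (nat_lit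 0) (nat_lit 4193741772) (nat_lit 168) (nat_lit 1065397233) (nat_lit 15) (nat_lit 3) (nat_lit 15) (nat_lit 1) (nat_lit 17) (nat_lit 1) (nat_lit 238) (nat_lit 279) (nat_lit 203)))) (XT.nd (nat_lit 188) (nat_lit 84) (nat_lit 0) (XT.nd (nat_lit 94) (nat_lit 168) (nat_lit 0) (XT.lf (nat_lit 84) (nat_lit 87124454) (nat_lit 0) (nat_lit 3066500206) (nat_lit 84) (nat_lit 3066500206) (nat_lit 15) (nat_lit 3) (nat_lit 14) (nat_lit 1) (nat_lit 15) (nat_lit 1) (nat_lit 239) (nat_lit 279) (nat_lit 202)) (XT.lf (nat_lit 168) (nat_lit 4287042225) (nat_lit 0) (nat_lit 915322811) (nat_lit 84) (nat_lit 915322811) (nat_lit 14) (nat_lit 1) (nat_lit 12) (nat_lit 1) (nat_lit 13) (nat_lit 1) (nat_lit 240) (nat_lit 279) (nat_lit 201))) (XT.nd (nat_lit 94) (nat_lit 84) (nat_lit 0) (XT.lf (nat_lit 0) (nat_lit 1147673525) (nat_lit 0) (nat_lit 3721370320) (nat_lit 168) (nat_lit 1147673525) (nat_lit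 12) (nat_lit 3) (nat_lit 12) (nat_lit 1) (nat_lit 14) (nat_lit 1) (nat_lit 241) (nat_lit 279) (nat_lit 200)) (XT.lf (nat_lit 84) (nat_lit 338472402) (nat_lit 0) (nat_lit 2789612207) (nat_lit 84) (nat_lit 2789612207) (nat_lit 12) (nat_lit 3) (nat_lit 11) (nat_lit 1) (nat_lit 12) (nat_lit 1) (nat_lit 242) (nat_lit 279) (nat_lit 199)))))) (XT.nd (nat_lit 658) (nat_lit 252) (nat_lit 0) (XT.nd (nat_lit 282) (nat_lit 420) (nat_lit 0) (XT.nd (nat_lit 94) (nat_lit 84) (nat_lit 0) (XT.lf (nat_lit 168) (nat_lit 4314640425) (nat_lit 0) (nat_lit 753038342) (nat_lit 84) (nat_lit 753038342) (nat_lit 11) (nat_lit 1) (nat_lit 9) (nat_lit 1) (nat_lit 10) (nat_lit 1) (nat_lit 243) (nat_lit 279) (nat_lit 198)) (XT.nd (nat_lit 94) (nat_lit 84) (nat_lit 0) (XT.lf (nat_lit 0) (nat_lit 1202449645) (nat_lit 0) (nat_lit 3319836367) (nat_lit 168) (nat_lit 1202449645) (nat_lit 9) (nat_lit 3) (nat_lit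 9) (nat_lit 1) (nat_lit 11) (nat_lit 1) (nat_lit 244) (nat_lit 279) (nat_lit 197)) (XT.lf (nat_lit 84) (nat_lit 532552463) (nat_lit 0) (nat_lit 2549111246) (nat_lit 84) (nat_lit 2549111246) (nat_lit 9) (nat_lit 3) (nat_lit 8) (nat_lit 1) (nat_lit 9) (nat_lit 1) (nat_lit 245) (nat_lit 279) (nat_lit 196)))) (XT.nd (nat_lit 188) (nat_lit 252) (nat_lit 0) (XT.nd (nat_lit 94) (nat_lit 0) (nat_lit 0) (XT.lf (nat_lit 168) (nat_lit 4299836952) (nat_lit 0) (nat_lit 619526507) (nat_lit 84) (nat_lit 619526507) (nat_lit 8) (nat_lit 1) (nat_lit 6) (nat_lit 1) (nat_lit 7) (nat_lit 1) (nat_lit 246) (nat_lit 279) (nat_lit 195)) (XT.lf (nat_lit 0) (nat_lit 1235216199) (nat_lit 0) (nat_lit 2977195496) (nat_lit 168) (nat_lit 1235216199) (nat_lit 6) (nat_lit 3) (nat_lit 6) (nat_lit 1) (nat_lit 8) (nat_lit 1) (nat_lit 247) (nat_lit 279) (nat_lit 194))) (XT.nd (nat_lit 94) (nat_lit 168) (nat_lit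 0) (XT.lf (nat_lit 84) (nat_lit 680123067) (nat_lit 0) (nat_lit 2339150968) (nat_lit 84) (nat_lit 2339150968) (nat_lit 6) (nat_lit 3) (nat_lit 5) (nat_lit 1) (nat_lit 6) (nat_lit 1) (nat_lit 248) (nat_lit 279) (nat_lit 193)) (XT.lf (nat_lit 168) (nat_lit 4251935641) (nat_lit 0) (nat_lit 509685991) (nat_lit 84) (nat_lit 509685991) (nat_lit 5) (nat_lit 1) (nat_lit 3) (nat_lit 1) (nat_lit 4) (nat_lit 1) (nat_lit 249) (nat_lit 279) (nat_lit 192))))) (XT.nd (nat_lit 282) (nat_lit 0) (nat_lit 0) (XT.nd (nat_lit 94) (nat_lit 252) (nat_lit 0) (XT.lf (nat_lit 0) (nat_lit 1250461044) (nat_lit 0) (nat_lit 2683591722) (nat_lit 168) (nat_lit 1250461044) (nat_lit 3) (nat_lit 3) (nat_lit 3) (nat_lit 1) (nat_lit 5) (nat_lit 1) (nat_lit 250) (nat_lit 279) (nat_lit 191)) (XT.nd (nat_lit 94) (nat_lit 168) (nat_lit 0) (XT.lf (nat_lit 84) (nat_lit 790006394) (nat_lit 0) (nat_lit 2154892755)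 (nat_lit 84) (nat_lit 2154892755) (nat_lit 3) (nat_lit 3) (nat_lit 2) (nat_lit 1) (nat_lit 3) (nat_lit 1) (nat_lit 251) (nat_lit 279) (nat_lit 190)) (XT.lf (nat_lit 0) (nat_lit 7288347247) (nat_lit 0) (nat_lit 0) (nat_lit 0) (nat_lit 0) (nat_lit 0) (nat_lit 0) (nat_lit 1) (nat_lit 0) (nat_lit 1) (nat_lit 0) (nat_lit 252) (nat_lit 279) (nat_lit 189)))) (XT.nd (nat_lit 188) (nat_lit 0) (nat_lit 0) (XT.nd (nat_lit 94) (nat_lit 0) (nat_lit 0) (XT.lf (nat_lit 0) (nat_lit 7284100794) (nat_lit 0) (nat_lit 0) (nat_lit 0) (nat_lit 0) (nat_lit 0) (nat_lit 0) (nat_lit 1) (nat_lit 0) (nat_lit 1) (nat_lit 0) (nat_lit 253) (nat_lit 279) (nat_lit 188)) (XT.lf (nat_lit 0) (nat_lit 7280056553) (nat_lit 0) (nat_lit 0) (nat_lit 0) (nat_lit 0) (nat_lit 0) (nat_lit 0) (nat_lit 1) (nat_lit 0) (nat_lit 1) (nat_lit 0) (nat_lit 254) (nat_lit 279) (nat_lit 187))) (XT.nd (nat_lit 94) (nat_lit 0) (nat_lit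 0) (XT.lf (nat_lit 0) (nat_lit 7276204895) (nat_lit 0) (nat_lit 0) (nat_lit 0) (nat_lit 0) (nat_lit 0) (nat_lit 0) (nat_lit 1) (nat_lit 0) (nat_lit 1) (nat_lit 0) (nat_lit 255) (nat_lit 279) (nat_lit 186)) (XT.lf (nat_lit 0) (nat_lit 7272536649) (nat_lit 0) (nat_lit 0) (nat_lit 0) (nat_lit 0) (nat_lit 0) (nat_lit 0) (nat_lit 1) (nat_lit 0) (nat_lit 1) (nat_lit 0) (nat_lit 256) (nat_lit 279) (nat_lit 185))))))))
noncomputable def ec115 : XT := (XT.nd (nat_lit 2538) (nat_lit 0) (nat_lit 0) (XT.nd (nat_lit 1222) (nat_lit 0) (nat_lit 0) (XT.nd (nat_lit 564) (nat_lit 0) (nat_lit 0) (XT.nd (nat_lit 282) (nat_lit 0) (nat_lit 0) (XT.nd (nat_lit 94) (nat_lit 0) (nat_lit 0) (XT.lf (nat_lit 0) (nat_lit 7269043081) (nat_lit 0) (nat_lit 0) (nat_lit 0) (nat_lit 0) (nat_lit 0) (nat_lit 0) (nat_lit 1) (nat_lit 0) (nat_lit 1) (nat_lit 0) (nat_lit 257) (nat_lit 279) (nat_lit 184)) (XT.nd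 (nat_lit 94) (nat_lit 0) (nat_lit 0) (XT.lf (nat_lit 0) (nat_lit 7265715874) (nat_lit 0) (nat_lit 0) (nat_lit 0) (nat_lit 0) (nat_lit 0) (nat_lit 0) (nat_lit 1) (nat_lit 0) (nat_lit 1) (nat_lit 0) (nat_lit 258) (nat_lit 279) (nat_lit 183)) (XT.lf (nat_lit 0) (nat_lit 7262547106) (nat_lit 0) (nat_lit 0) (nat_lit 0) (nat_lit 0) (nat_lit 0) (nat_lit 0) (nat_lit 1) (nat_lit 0) (nat_lit 1) (nat_lit 0) (nat_lit 259) (nat_lit 279) (nat_lit 182)))) (XT.nd (nat_lit 94) (nat_lit 0) (nat_lit 0) (XT.lf (nat_lit 0) (nat_lit 7259529231) (nat_lit 0) (nat_lit 0) (nat_lit 0) (nat_lit 0) (nat_lit 0) (nat_lit 0) (nat_lit 1) (nat_lit 0) (nat_lit 1) (nat_lit 0) (nat_lit 260) (nat_lit 279) (nat_lit 181)) (XT.nd (nat_lit 94) (nat_lit 0) (nat_lit 0) (XT.lf (nat_lit 0) (nat_lit 7256655064) (nat_lit 0) (nat_lit 0) (nat_lit 0) (nat_lit 0) (nat_lit 0) (nat_lit 0) (nat_lit 1) (nat_lit 0) (nat_lit 1)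 (nat_lit 0) (nat_lit 261) (nat_lit 279) (nat_lit 180)) (XT.lf (nat_lit 0) (nat_lit 7253917763) (nat_lit 0) (nat_lit 0) (nat_lit 0) (nat_lit 0) (nat_lit 0) (nat_lit 0) (nat_lit 1) (nat_lit 0) (nat_lit 1) (nat_lit 0) (nat_lit 262) (nat_lit 279) (nat_lit 179))))) (XT.nd (nat_lit 282) (nat_lit 0) (nat_lit 0) (XT.nd (nat_lit 94) (nat_lit 0) (nat_lit 0) (XT.lf (nat_lit 0) (nat_lit 7251310809) (nat_lit 0) (nat_lit 0) (nat_lit 0) (nat_lit 0) (nat_lit 0) (nat_lit 0) (nat_lit 1) (nat_lit 0) (nat_lit 1) (nat_lit 0) (nat_lit 263) (nat_lit 279) (nat_lit 178)) (XT.nd (nat_lit 94) (nat_lit 0) (nat_lit 0) (XT.lf (nat_lit 0) (nat_lit 7248827996) (nat_lit 0) (nat_lit 0) (nat_lit 0) (nat_lit 0) (nat_lit 0) (nat_lit 0) (nat_lit 1) (nat_lit 0) (nat_lit 1) (nat_lit 0) (nat_lit 264) (nat_lit 279) (nat_lit 177)) (XT.lf (nat_lit 0) (nat_lit 7246463412) (nat_lit 0) (nat_lit 0) (nat_lit 0) (nat_lit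 0) (nat_lit 0) (nat_lit 0) (nat_lit 1) (nat_lit 0) (nat_lit 1) (nat_lit 0) (nat_lit 265) (nat_lit 279) (nat_lit 176)))) (XT.nd (nat_lit 188) (nat_lit 0) (nat_lit 0) (XT.nd (nat_lit 94) (nat_lit 0) (nat_lit 0) (XT.lf (nat_lit 0) (nat_lit 7244211427) (nat_lit 0) (nat_lit 0) (nat_lit 0) (nat_lit 0) (nat_lit 0) (nat_lit 0) (nat_lit 1) (nat_lit 0) (nat_lit 1) (nat_lit 0) (nat_lit 266) (nat_lit 279) (nat_lit 175)) (XT.lf (nat_lit 0) (nat_lit 7242066680) (nat_lit 0) (nat_lit 0) (nat_lit 0) (nat_lit 0) (nat_lit 0) (nat_lit 0) (nat_lit 1) (nat_lit 0) (nat_lit 1) (nat_lit 0) (nat_lit 267) (nat_lit 279) (nat_lit 174))) (XT.nd (nat_lit 94) (nat_lit 0) (nat_lit 0) (XT.lf (nat_lit 0) (nat_lit 7240024063) (nat_lit 0) (nat_lit 0) (nat_lit 0) (nat_lit 0) (nat_lit 0) (nat_lit 0) (nat_lit 1) (nat_lit 0) (nat_lit 1) (nat_lit 0) (nat_lit 268) (nat_lit 279) (nat_lit 173)) (XT.lf (nat_lit 0) (nat_lit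 7238078714) (nat_lit 0) (nat_lit 0) (nat_lit 0) (nat_lit 0) (nat_lit 0) (nat_lit 0) (nat_lit 1) (nat_lit 0) (nat_lit 1) (nat_lit 0) (nat_lit 269) (nat_lit 279) (nat_lit 172)))))) (XT.nd (nat_lit 658) (nat_lit 0) (nat_lit 0) (XT.nd (nat_lit 282) (nat_lit 0) (nat_lit 0) (XT.nd (nat_lit 94) (nat_lit 0) (nat_lit 0) (XT.lf (nat_lit 0) (nat_lit 7236226001) (nat_lit 0) (nat_lit 0) (nat_lit 0) (nat_lit 0) (nat_lit 0) (nat_lit 0) (nat_lit 1) (nat_lit 0) (nat_lit 1) (nat_lit 0) (nat_lit 270) (nat_lit 279) (nat_lit 171)) (XT.nd (nat_lit 94) (nat_lit 0) (nat_lit 0) (XT.lf (nat_lit 0) (nat_lit 7234461512) (nat_lit 0) (nat_lit 0) (nat_lit 0) (nat_lit 0) (nat_lit 0) (nat_lit 0) (nat_lit 1) (nat_lit 0) (nat_lit 1) (nat_lit 0) (nat_lit 271) (nat_lit 279) (nat_lit 170)) (XT.lf (nat_lit 0) (nat_lit 7232781046) (nat_lit 0) (nat_lit 0) (nat_lit 0) (nat_lit 0) (nat_lit 0) (nat_lit 0) (nat_lit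 1) (nat_lit 0) (nat_lit 1) (nat_lit 0) (nat_lit 272) (nat_lit 279) (nat_lit 169)))) (XT.nd (nat_lit 188) (nat_lit 0) (nat_lit 0) (XT.nd (nat_lit 94) (nat_lit 0) (nat_lit 0) (XT.lf (nat_lit 0) (nat_lit 7231180603) (nat_lit 0) (nat_lit 0) (nat_lit 0) (nat_lit 0) (nat_lit 0) (nat_lit 0) (nat_lit 1) (nat_lit 0) (nat_lit 1) (nat_lit 0) (nat_lit 273) (nat_lit 279) (nat_lit 168)) (XT.lf (nat_lit 0) (nat_lit 7229656371) (nat_lit 0) (nat_lit 0) (nat_lit 0) (nat_lit 0) (nat_lit 0) (nat_lit 0) (nat_lit 1) (nat_lit 0) (nat_lit 1) (nat_lit 0) (nat_lit 274) (nat_lit 279) (nat_lit 167))) (XT.nd (nat_lit 94) (nat_lit 0) (nat_lit 0) (XT.lf (nat_lit 0) (nat_lit 7228204722) (nat_lit 0) (nat_lit 0) (nat_lit 0) (nat_lit 0) (nat_lit 0) (nat_lit 0) (nat_lit 1) (nat_lit 0) (nat_lit 1) (nat_lit 0) (nat_lit 275) (nat_lit 279) (nat_lit 166)) (XT.lf (nat_lit 0) (nat_lit 7226822198) (nat_lit 0) (nat_lit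 0) (nat_lit 0) (nat_lit 0) (nat_lit 0) (nat_lit 0) (nat_lit 1) (nat_lit 0) (nat_lit 1) (nat_lit 0) (nat_lit 276) (nat_lit 279) (nat_lit 165))))) (XT.nd (nat_lit 282) (nat_lit 0) (nat_lit 0) (XT.nd (nat_lit 94) (nat_lit 0) (nat_lit 0) (XT.lf (nat_lit 0) (nat_lit 7225505510) (nat_lit 0) (nat_lit 0) (nat_lit 0) (nat_lit 0) (nat_lit 0) (nat_lit 0) (nat_lit 1) (nat_lit 0) (nat_lit 1) (nat_lit 0) (nat_lit 277) (nat_lit 279) (nat_lit 164)) (XT.nd (nat_lit 94) (nat_lit 0) (nat_lit 0) (XT.lf (nat_lit 0) (nat_lit 7224251520) (nat_lit 0) (nat_lit 0) (nat_lit 0) (nat_lit 0) (nat_lit 0) (nat_lit 0) (nat_lit 1) (nat_lit 0) (nat_lit 1) (nat_lit 0) (nat_lit 278) (nat_lit 279) (nat_lit 163)) (XT.lf (nat_lit 0) (nat_lit 7223057245) (nat_lit 0) (nat_lit 0) (nat_lit 0) (nat_lit 0) (nat_lit 0) (nat_lit 0) (nat_lit 1) (nat_lit 0) (nat_lit 1) (nat_lit 0) (nat_lit 279) (nat_lit 279) (nat_lit 162))))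 (XT.nd (nat_lit 188) (nat_lit 0) (nat_lit 0) (XT.nd (nat_lit 94) (nat_lit 0) (nat_lit 0) (XT.lf (nat_lit 0) (nat_lit 7221919839) (nat_lit 0) (nat_lit 0) (nat_lit 0) (nat_lit 0) (nat_lit 0) (nat_lit 0) (nat_lit 1) (nat_lit 0) (nat_lit 1) (nat_lit 0) (nat_lit 280) (nat_lit 279) (nat_lit 161)) (XT.lf (nat_lit 0) (nat_lit 7220836596) (nat_lit 0) (nat_lit 0) (nat_lit 0) (nat_lit 0) (nat_lit 0) (nat_lit 0) (nat_lit 1) (nat_lit 0) (nat_lit 1) (nat_lit 0) (nat_lit 281) (nat_lit 279) (nat_lit 160))) (XT.nd (nat_lit 94) (nat_lit 0) (nat_lit 0) (XT.lf (nat_lit 0) (nat_lit 7219804936) (nat_lit 0) (nat_lit 0) (nat_lit 0) (nat_lit 0) (nat_lit 0) (nat_lit 0) (nat_lit 1) (nat_lit 0) (nat_lit 1) (nat_lit 0) (nat_lit 282) (nat_lit 279) (nat_lit 159)) (XT.lf (nat_lit 0) (nat_lit 7218822403) (nat_lit 0) (nat_lit 0) (nat_lit 0) (nat_lit 0) (nat_lit 0) (nat_lit 0) (nat_lit 1) (nat_lit 0) (nat_lit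 1) (nat_lit 0) (nat_lit 283) (nat_lit 279) (nat_lit 158))))))) (XT.nd (nat_lit 1316) (nat_lit 0) (nat_lit 0) (XT.nd (nat_lit 658) (nat_lit 0) (nat_lit 0) (XT.nd (nat_lit 282) (nat_lit 0) (nat_lit 0) (XT.nd (nat_lit 94) (nat_lit 0) (nat_lit 0) (XT.lf (nat_lit 0) (nat_lit 7217886657) (nat_lit 0) (nat_lit 0) (nat_lit 0) (nat_lit 0) (nat_lit 0) (nat_lit 0) (nat_lit 1) (nat_lit 0) (nat_lit 1) (nat_lit 0) (nat_lit 284) (nat_lit 279) (nat_lit 157)) (XT.nd (nat_lit 94) (nat_lit 0) (nat_lit 0) (XT.lf (nat_lit 0) (nat_lit 7216995470) (nat_lit 0) (nat_lit 0) (nat_lit 0) (nat_lit 0) (nat_lit 0) (nat_lit 0) (nat_lit 1) (nat_lit 0) (nat_lit 1) (nat_lit 0) (nat_lit 285) (nat_lit 279) (nat_lit 156)) (XT.lf (nat_lit 0) (nat_lit 7216146720) (nat_lit 0) (nat_lit 0) (nat_lit 0) (nat_lit 0) (nat_lit 0) (nat_lit 0) (nat_lit 1) (nat_lit 0) (nat_lit 1) (nat_lit 0) (nat_lit 286) (nat_lit 279) (nat_lit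 155)))) (XT.nd (nat_lit 188) (nat_lit 0) (nat_lit 0) (XT.nd (nat_lit 94) (nat_lit 0) (nat_lit 0) (XT.lf (nat_lit 0) (nat_lit 7215338388) (nat_lit 0) (nat_lit 0) (nat_lit 0) (nat_lit 0) (nat_lit 0) (nat_lit 0) (nat_lit 1) (nat_lit 0) (nat_lit 1) (nat_lit 0) (nat_lit 287) (nat_lit 279) (nat_lit 154)) (XT.lf (nat_lit 0) (nat_lit 7214568547) (nat_lit 0) (nat_lit 0) (nat_lit 0) (nat_lit 0) (nat_lit 0) (nat_lit 0) (nat_lit 1) (nat_lit 0) (nat_lit 1) (nat_lit 0) (nat_lit 288) (nat_lit 279) (nat_lit 153))) (XT.nd (nat_lit 94) (nat_lit 0) (nat_lit 0) (XT.lf (nat_lit 0) (nat_lit 7213835365) (nat_lit 0) (nat_lit 0) (nat_lit 0) (nat_lit 0) (nat_lit 0) (nat_lit 0) (nat_lit 1) (nat_lit 0) (nat_lit 1) (nat_lit 0) (nat_lit 289) (nat_lit 279) (nat_lit 152)) (XT.lf (nat_lit 0) (nat_lit 7213137097) (nat_lit 0) (nat_lit 0) (nat_lit 0) (nat_lit 0) (nat_lit 0) (nat_lit 0) (nat_lit 1) (nat_lit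 0) (nat_lit 1) (nat_lit 0) (nat_lit 290) (nat_lit 279) (nat_lit 151))))) (XT.nd (nat_lit 282) (nat_lit 0) (nat_lit 0) (XT.nd (nat_lit 94) (nat_lit 0) (nat_lit 0) (XT.lf (nat_lit 0) (nat_lit 7212472080) (nat_lit 0) (nat_lit 0) (nat_lit 0) (nat_lit 0) (nat_lit 0) (nat_lit 0) (nat_lit 1) (nat_lit 0) (nat_lit 1) (nat_lit 0) (nat_lit 291) (nat_lit 279) (nat_lit 150)) (XT.nd (nat_lit 94) (nat_lit 0) (nat_lit 0) (XT.lf (nat_lit 0) (nat_lit 7211838730) (nat_lit 0) (nat_lit 0) (nat_lit 0) (nat_lit 0) (nat_lit 0) (nat_lit 0) (nat_lit 1) (nat_lit 0) (nat_lit 1) (nat_lit 0) (nat_lit 292) (nat_lit 279) (nat_lit 149)) (XT.lf (nat_lit 0) (nat_lit 7211235540) (nat_lit 0) (nat_lit 0) (nat_lit 0) (nat_lit 0) (nat_lit 0) (nat_lit 0) (nat_lit 1) (nat_lit 0) (nat_lit 1) (nat_lit 0) (nat_lit 293) (nat_lit 279) (nat_lit 148)))) (XT.nd (nat_lit 188) (nat_lit 0) (nat_lit 0) (XT.nd (nat_lit 94) (nat_lit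 0) (nat_lit 0) (XT.lf (nat_lit 0) (nat_lit 7210661073) (nat_lit 0) (nat_lit 0) (nat_lit 0) (nat_lit 0) (nat_lit 0) (nat_lit 0) (nat_lit 1) (nat_lit 0) (nat_lit 1) (nat_lit 0) (nat_lit 294) (nat_lit 279) (nat_lit 147)) (XT.lf (nat_lit 0) (nat_lit 7210113961) (nat_lit 0) (nat_lit 0) (nat_lit 0) (nat_lit 0) (nat_lit 0) (nat_lit 0) (nat_lit 1) (nat_lit 0) (nat_lit 1) (nat_lit 0) (nat_lit 295) (nat_lit 279) (nat_lit 146))) (XT.nd (nat_lit 94) (nat_lit 0) (nat_lit 0) (XT.lf (nat_lit 0) (nat_lit 7209592903) (nat_lit 0) (nat_lit 0) (nat_lit 0) (nat_lit 0) (nat_lit 0) (nat_lit 0) (nat_lit 1) (nat_lit 0) (nat_lit 1) (nat_lit 0) (nat_lit 296) (nat_lit 279) (nat_lit 145)) (XT.lf (nat_lit 0) (nat_lit 7209096657) (nat_lit 0) (nat_lit 0) (nat_lit 0) (nat_lit 0) (nat_lit 0) (nat_lit 0) (nat_lit 1) (nat_lit 0) (nat_lit 1) (nat_lit 0) (nat_lit 297) (nat_lit 279) (nat_lit 144)))))) (XT.nd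 (nat_lit 658) (nat_lit 0) (nat_lit 0) (XT.nd (nat_lit 282) (nat_lit 0) (nat_lit 0) (XT.nd (nat_lit 94) (nat_lit 0) (nat_lit 0) (XT.lf (nat_lit 0) (nat_lit 7208624041) (nat_lit 0) (nat_lit 0) (nat_lit 0) (nat_lit 0) (nat_lit 0) (nat_lit 0) (nat_lit 1) (nat_lit 0) (nat_lit 1) (nat_lit 0) (nat_lit 298) (nat_lit 279) (nat_lit 143)) (XT.nd (nat_lit 94) (nat_lit 0) (nat_lit 0) (XT.lf (nat_lit 0) (nat_lit 7208173931) (nat_lit 0) (nat_lit 0) (nat_lit 0) (nat_lit 0) (nat_lit 0) (nat_lit 0) (nat_lit 1) (nat_lit 0) (nat_lit 1) (nat_lit 0) (nat_lit 299) (nat_lit 279) (nat_lit 142)) (XT.lf (nat_lit 0) (nat_lit 7207745255) (nat_lit 0) (nat_lit 0) (nat_lit 0) (nat_lit 0) (nat_lit 0) (nat_lit 0) (nat_lit 1) (nat_lit 0) (nat_lit 1) (nat_lit 0) (nat_lit 300) (nat_lit 279) (nat_lit 141)))) (XT.nd (nat_lit 188) (nat_lit 0) (nat_lit 0) (XT.nd (nat_lit 94) (nat_lit 0) (nat_lit 0) (XT.lf (nat_lit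 0) (nat_lit 7207336992) (nat_lit 0) (nat_lit 0) (nat_lit 0) (nat_lit 0) (nat_lit 0) (nat_lit 0) (nat_lit 1) (nat_lit 0) (nat_lit 1) (nat_lit 0) (nat_lit 301) (nat_lit 279) (nat_lit 140)) (XT.lf (nat_lit 0) (nat_lit 7206948171) (nat_lit 0) (nat_lit 0) (nat_lit 0) (nat_lit 0) (nat_lit 0) (nat_lit 0) (nat_lit 1) (nat_lit 0) (nat_lit 1) (nat_lit 0) (nat_lit 302) (nat_lit 279) (nat_lit 139))) (XT.nd (nat_lit 94) (nat_lit 0) (nat_lit 0) (XT.lf (nat_lit 0) (nat_lit 7206577864) (nat_lit 0) (nat_lit 0) (nat_lit 0) (nat_lit 0) (nat_lit 0) (nat_lit 0) (nat_lit 1) (nat_lit 0) (nat_lit 1) (nat_lit 0) (nat_lit 303) (nat_lit 279) (nat_lit 138)) (XT.lf (nat_lit 0) (nat_lit 7206225191) (nat_lit 0) (nat_lit 0) (nat_lit 0) (nat_lit 0) (nat_lit 0) (nat_lit 0) (nat_lit 1) (nat_lit 0) (nat_lit 1) (nat_lit 0) (nat_lit 304) (nat_lit 279) (nat_lit 137))))) (XT.nd (nat_lit 282) (nat_lit 0) (nat_lit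 0) (XT.nd (nat_lit 94) (nat_lit 0) (nat_lit 0) (XT.lf (nat_lit 0) (nat_lit 7205889312) (nat_lit 0) (nat_lit 0) (nat_lit 0) (nat_lit 0) (nat_lit 0) (nat_lit 0) (nat_lit 1) (nat_lit 0) (nat_lit 1) (nat_lit 0) (nat_lit 305) (nat_lit 279) (nat_lit 136)) (XT.nd (nat_lit 94) (nat_lit 0) (nat_lit 0) (XT.lf (nat_lit 0) (nat_lit 7205569427) (nat_lit 0) (nat_lit 0) (nat_lit 0) (nat_lit 0) (nat_lit 0) (nat_lit 0) (nat_lit 1) (nat_lit 0) (nat_lit 1) (nat_lit 0) (nat_lit 306) (nat_lit 279) (nat_lit 135)) (XT.lf (nat_lit 0) (nat_lit 7205264775) (nat_lit 0) (nat_lit 0) (nat_lit 0) (nat_lit 0) (nat_lit 0) (nat_lit 0) (nat_lit 1) (nat_lit 0) (nat_lit 1) (nat_lit 0) (nat_lit 307) (nat_lit 279) (nat_lit 134)))) (XT.nd (nat_lit 188) (nat_lit 0) (nat_lit 0) (XT.nd (nat_lit 94) (nat_lit 0) (nat_lit 0) (XT.lf (nat_lit 0) (nat_lit 7204974631) (nat_lit 0) (nat_lit 0) (nat_lit 0) (nat_lit 0) (nat_lit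 0) (nat_lit 0) (nat_lit 1) (nat_lit 0) (nat_lit 1) (nat_lit 0) (nat_lit 308) (nat_lit 279) (nat_lit 133)) (XT.lf (nat_lit 0) (nat_lit 7204698302) (nat_lit 0) (nat_lit 0) (nat_lit 0) (nat_lit 0) (nat_lit 0) (nat_lit 0) (nat_lit 1) (nat_lit 0) (nat_lit 1) (nat_lit 0) (nat_lit 309) (nat_lit 279) (nat_lit 132))) (XT.nd (nat_lit 94) (nat_lit 0) (nat_lit 0) (XT.lf (nat_lit 0) (nat_lit 7204435132) (nat_lit 0) (nat_lit 0) (nat_lit 0) (nat_lit 0) (nat_lit 0) (nat_lit 0) (nat_lit 1) (nat_lit 0) (nat_lit 1) (nat_lit 0) (nat_lit 310) (nat_lit 279) (nat_lit 131)) (XT.lf (nat_lit 0) (nat_lit 7204184494) (nat_lit 0) (nat_lit 0) (nat_lit 0) (nat_lit 0) (nat_lit 0) (nat_lit 0) (nat_lit 1) (nat_lit 0) (nat_lit 1) (nat_lit 0) (nat_lit 311) (nat_lit 279) (nat_lit 130))))))))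
noncomputable def ec116 : XT := (XT.nd (nat_lit 33276) (nat_lit 0) (nat_lit 3528) (XT.nd (nat_lit 31960) (nat_lit 0) (nat_lit 7476) (XT.nd (nat_lit 31302) (nat_lit 0) (nat_lit 10920) (XT.nd (nat_lit 31020) (nat_lit 0) (nat_lit 10752) (XT.nd (nat_lit 94) (nat_lit 0) (nat_lit 0) (XT.lf (nat_lit 0) (nat_lit 7203945791) (nat_lit 0) (nat_lit 0) (nat_lit 0) (nat_lit 0) (nat_lit 0) (nat_lit 0) (nat_lit 1) (nat_lit 0) (nat_lit 1) (nat_lit 0) (nat_lit 312) (nat_lit 279) (nat_lit 129)) (XT.nd (nat_lit 30832) (nat_lit 0) (nat_lit 10752) (XT.lf (nat_lit 0) (nat_lit 7203718455) (nat_lit 0) (nat_lit 0) (nat_lit 0) (nat_lit 0) (nat_lit 0) (nat_lit 0) (nat_lit 1) (nat_lit 0) (nat_lit 1) (nat_lit 0) (nat_lit 313) (nat_lit 279) (nat_lit 128)) (XT.lf (nat_lit 924) (nat_lit 3782871959) (nat_lit 0) (nat_lit 6716480468) (nat_lit 924) (nat_lit 3782871959) (nat_lit 139) (nat_lit 1) (nat_lit 128)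 (nat_lit 0) (nat_lit 139) (nat_lit 0) (nat_lit 160) (nat_lit 280) (nat_lit 280)))) (XT.nd (nat_lit 94) (nat_lit 0) (nat_lit 84) (XT.lf (nat_lit 924) (nat_lit 14662883987) (nat_lit 84) (nat_lit 6608150138) (nat_lit 0) (nat_lit 6608150138) (nat_lit 139) (nat_lit 1) (nat_lit 129) (nat_lit 1) (nat_lit 128) (nat_lit 0) (nat_lit 161) (nat_lit 280) (nat_lit 279)) (XT.nd (nat_lit 94) (nat_lit 0) (nat_lit 0) (XT.lf (nat_lit 924) (nat_lit 6988109729) (nat_lit 0) (nat_lit 13238885502) (nat_lit 840) (nat_lit 6988109729) (nat_lit 140) (nat_lit 1) (nat_lit 129) (nat_lit 1) (nat_lit 139) (nat_lit 1) (nat_lit 162) (nat_lit 280) (nat_lit 278)) (XT.lf (nat_lit 924) (nat_lit 13108722830) (nat_lit 84) (nat_lit 6731878768) (nat_lit 0) (nat_lit 6731878768) (nat_lit 140) (nat_lit 1) (nat_lit 130) (nat_lit 1) (nat_lit 129) (nat_lit 1) (nat_lit 163) (nat_lit 280) (nat_lit 277))))) (XT.nd (nat_lit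 282) (nat_lit 0) (nat_lit 84) (XT.nd (nat_lit 94) (nat_lit 0) (nat_lit 0) (XT.lf (nat_lit 924) (nat_lit 6033819234) (nat_lit 0) (nat_lit 13882585281) (nat_lit 840) (nat_lit 6033819234) (nat_lit 141) (nat_lit 1) (nat_lit 130) (nat_lit 1) (nat_lit 140) (nat_lit 1) (nat_lit 164) (nat_lit 280) (nat_lit 276)) (XT.nd (nat_lit 94) (nat_lit 0) (nat_lit 84) (XT.lf (nat_lit 924) (nat_lit 10852216887) (nat_lit 84) (nat_lit 7247359502) (nat_lit 0) (nat_lit 7247359502) (nat_lit 141) (nat_lit 1) (nat_lit 131) (nat_lit 1) (nat_lit 130) (nat_lit 1) (nat_lit 165) (nat_lit 280) (nat_lit 275)) (XT.lf (nat_lit 924) (nat_lit 4758383664) (nat_lit 0) (nat_lit 15247137022) (nat_lit 840) (nat_lit 4758383664) (nat_lit 142) (nat_lit 1) (nat_lit 131) (nat_lit 1) (nat_lit 141) (nat_lit 1) (nat_lit 166) (nat_lit 280) (nat_lit 274)))) (XT.nd (nat_lit 188) (nat_lit 0) (nat_lit 84) (XT.nd (nat_lit 94) (nat_lit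 0) (nat_lit 84) (XT.lf (nat_lit 924) (nat_lit 7998989043) (nat_lit 84) (nat_lit 8098968312) (nat_lit 0) (nat_lit 8098968312) (nat_lit 142) (nat_lit 1) (nat_lit 132) (nat_lit 1) (nat_lit 131) (nat_lit 1) (nat_lit 167) (nat_lit 280) (nat_lit 273)) (XT.lf (nat_lit 924) (nat_lit 3211177472) (nat_lit 0) (nat_lit 17228346691) (nat_lit 840) (nat_lit 3211177472) (nat_lit 143) (nat_lit 1) (nat_lit 132) (nat_lit 1) (nat_lit 142) (nat_lit 1) (nat_lit 168) (nat_lit 280) (nat_lit 272))) (XT.nd (nat_lit 94) (nat_lit 0) (nat_lit 84) (XT.lf (nat_lit 924) (nat_lit 4642922101) (nat_lit 84) (nat_lit 9237166977) (nat_lit 0) (nat_lit 9237166977) (nat_lit 143) (nat_lit 1) (nat_lit 133) (nat_lit 1) (nat_lit 132) (nat_lit 1) (nat_lit 169) (nat_lit 280) (nat_lit 271)) (XT.lf (nat_lit 84) (nat_lit 1436055339) (nat_lit 0) (nat_lit 19733477516) (nat_lit 840) (nat_lit 1436055339) (nat_lit 134) (nat_lit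 1) (nat_lit 133) (nat_lit 1) (nat_lit 143) (nat_lit 1) (nat_lit 170) (nat_lit 280) (nat_lit 270)))))) (XT.nd (nat_lit 658) (nat_lit 1428) (nat_lit 0) (XT.nd (nat_lit 282) (nat_lit 840) (nat_lit 0) (XT.nd (nat_lit 94) (nat_lit 588) (nat_lit 0) (XT.lf (nat_lit 924) (nat_lit 867341713) (nat_lit 0) (nat_lit 10617893738) (nat_lit 840) (nat_lit 10617893738) (nat_lit 134) (nat_lit 1) (nat_lit 123) (nat_lit 1) (nat_lit 133) (nat_lit 1) (nat_lit 171) (nat_lit 280) (nat_lit 269)) (XT.nd (nat_lit 94) (nat_lit 0) (nat_lit 0) (XT.lf (nat_lit 588) (nat_lit 20583111158) (nat_lit 0) (nat_lit 519572802) (nat_lit 504) (nat_lit 519572802) (nat_lit 123) (nat_lit 1) (nat_lit 116) (nat_lit 1) (nat_lit 122) (nat_lit 1) (nat_lit 172) (nat_lit 280) (nat_lit 268)) (XT.lf (nat_lit 84) (nat_lit 8998900374) (nat_lit 0) (nat_lit 3149769433) (nat_lit 588) (nat_lit 8998900374) (nat_lit 117) (nat_lit 1)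 (nat_lit 116) (nat_lit 1) (nat_lit 123) (nat_lit 1) (nat_lit 173) (nat_lit 280) (nat_lit 267)))) (XT.nd (nat_lit 188) (nat_lit 420) (nat_lit 0) (XT.nd (nat_lit 94) (nat_lit 0) (nat_lit 0) (XT.lf (nat_lit 504) (nat_lit 15484797627) (nat_lit 0) (nat_lit 2604135460) (nat_lit 420) (nat_lit 2604135460) (nat_lit 117) (nat_lit 1) (nat_lit 111) (nat_lit 1) (nat_lit 116) (nat_lit 1) (nat_lit 174) (nat_lit 280) (nat_lit 266)) (XT.lf (nat_lit 84) (nat_lit 6418806089) (nat_lit 0) (nat_lit 7410509613) (nat_lit 504) (nat_lit 6418806089) (nat_lit 112) (nat_lit 1) (nat_lit 111) (nat_lit 1) (nat_lit 117) (nat_lit 1) (nat_lit 175) (nat_lit 280) (nat_lit 265))) (XT.nd (nat_lit 94) (nat_lit 0) (nat_lit 0) (XT.lf (nat_lit 504) (nat_lit 10196958832) (nat_lit 0) (nat_lit 4810856255) (nat_lit 420) (nat_lit 4810856255) (nat_lit 112) (nat_lit 1) (nat_lit 106) (nat_lit 1) (nat_lit 111) (nat_lit 1)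 (nat_lit 176) (nat_lit 280) (nat_lit 264)) (XT.lf (nat_lit 84) (nat_lit 3757443811) (nat_lit 0) (nat_lit 11886823135) (nat_lit 504) (nat_lit 3757443811) (nat_lit 107) (nat_lit 1) (nat_lit 106) (nat_lit 1) (nat_lit 112) (nat_lit 1) (nat_lit 177) (nat_lit 280) (nat_lit 263))))) (XT.nd (nat_lit 282) (nat_lit 672) (nat_lit 0) (XT.nd (nat_lit 94) (nat_lit 420) (nat_lit 0) (XT.lf (nat_lit 420) (nat_lit 4768811137) (nat_lit 0) (nat_lit 7113332319) (nat_lit 336) (nat_lit 7113332319) (nat_lit 107) (nat_lit 1) (nat_lit 102) (nat_lit 1) (nat_lit 106) (nat_lit 1) (nat_lit 178) (nat_lit 280) (nat_lit 262)) (XT.nd (nat_lit 94) (nat_lit 420) (nat_lit 0) (XT.lf (nat_lit 84) (nat_lit 1037661483) (nat_lit 0) (nat_lit 16529539625) (nat_lit 420) (nat_lit 1037661483) (nat_lit 103) (nat_lit 1) (nat_lit 102) (nat_lit 1) (nat_lit 107) (nat_lit 1) (nat_lit 179) (nat_lit 280) (nat_lit 261)) (XT.lf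 (nat_lit 84) (nat_lit 8743633828) (nat_lit 0) (nat_lit 732296317) (nat_lit 420) (nat_lit 8743633828) (nat_lit 98) (nat_lit 1) (nat_lit 97) (nat_lit 1) (nat_lit 102) (nat_lit 1) (nat_lit 180) (nat_lit 280) (nat_lit 260)))) (XT.nd (nat_lit 188) (nat_lit 336) (nat_lit 0) (XT.nd (nat_lit 94) (nat_lit 0) (nat_lit 0) (XT.lf (nat_lit 420) (nat_lit 14463349237) (nat_lit 0) (nat_lit 1692794617) (nat_lit 336) (nat_lit 1692794617) (nat_lit 98) (nat_lit 1) (nat_lit 93) (nat_lit 1) (nat_lit 97) (nat_lit 1) (nat_lit 181) (nat_lit 280) (nat_lit 259)) (XT.lf (nat_lit 84) (nat_lit 5673161423) (nat_lit 0) (nat_lit 6138348286) (nat_lit 420) (nat_lit 5673161423) (nat_lit 94) (nat_lit 1) (nat_lit 93) (nat_lit 1) (nat_lit 98) (nat_lit 1) (nat_lit 182) (nat_lit 280) (nat_lit 258))) (XT.nd (nat_lit 94) (nat_lit 0) (nat_lit 0) (XT.lf (nat_lit 420) (nat_lit 8278720668) (nat_lit 0) (nat_lit 4427157318)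 (nat_lit 336) (nat_lit 4427157318) (nat_lit 94) (nat_lit 1) (nat_lit 89) (nat_lit 1) (nat_lit 93) (nat_lit 1) (nat_lit 183) (nat_lit 280) (nat_lit 257)) (XT.lf (nat_lit 84) (nat_lit 2610739025) (nat_lit 0) (nat_lit 11570203288) (nat_lit 420) (nat_lit 2610739025) (nat_lit 90) (nat_lit 1) (nat_lit 89) (nat_lit 1) (nat_lit 94) (nat_lit 1) (nat_lit 184) (nat_lit 280) (nat_lit 256))))))) (XT.nd (nat_lit 1222) (nat_lit 1680) (nat_lit 0) (XT.nd (nat_lit 564) (nat_lit 1092) (nat_lit 0) (XT.nd (nat_lit 282) (nat_lit 504) (nat_lit 0) (XT.nd (nat_lit 94) (nat_lit 420) (nat_lit 0) (XT.lf (nat_lit 336) (nat_lit 2123202233) (nat_lit 0) (nat_lit 7167246802) (nat_lit 252) (nat_lit 7167246802) (nat_lit 90) (nat_lit 1) (nat_lit 86) (nat_lit 1) (nat_lit 89) (nat_lit 1) (nat_lit 185) (nat_lit 280) (nat_lit 255)) (XT.nd (nat_lit 94) (nat_lit 0) (nat_lit 0) (XT.lf (nat_lit 420) (nat_lit 15288164720)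 (nat_lit 0) (nat_lit 424217236) (nat_lit 336) (nat_lit 424217236) (nat_lit 86) (nat_lit 1) (nat_lit 81) (nat_lit 1) (nat_lit 85) (nat_lit 1) (nat_lit 186) (nat_lit 280) (nat_lit 254)) (XT.lf (nat_lit 84) (nat_lit 5982371878) (nat_lit 0) (nat_lit 3852536021) (nat_lit 420) (nat_lit 5982371878) (nat_lit 82) (nat_lit 1) (nat_lit 81) (nat_lit 1) (nat_lit 86) (nat_lit 1) (nat_lit 187) (nat_lit 280) (nat_lit 253)))) (XT.nd (nat_lit 94) (nat_lit 252) (nat_lit 0) (XT.lf (nat_lit 336) (nat_lit 8737443257) (nat_lit 0) (nat_lit 3386381927) (nat_lit 252) (nat_lit 3386381927) (nat_lit 82) (nat_lit 1) (nat_lit 78) (nat_lit 1) (nat_lit 81) (nat_lit 1) (nat_lit 188) (nat_lit 280) (nat_lit 252)) (XT.nd (nat_lit 94) (nat_lit 252) (nat_lit 0) (XT.lf (nat_lit 84) (nat_lit 2760293479) (nat_lit 0) (nat_lit 9690349198) (nat_lit 336) (nat_lit 2760293479) (nat_lit 79) (nat_lit 1) (nat_lit 78) (nat_lit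 1) (nat_lit 82) (nat_lit 1) (nat_lit 189) (nat_lit 280) (nat_lit 251)) (XT.lf (nat_lit 336) (nat_lit 2300618338) (nat_lit 0) (nat_lit 6308927597) (nat_lit 252) (nat_lit 6308927597) (nat_lit 79) (nat_lit 1) (nat_lit 75) (nat_lit 1) (nat_lit 78) (nat_lit 1) (nat_lit 190) (nat_lit 280) (nat_lit 250))))) (XT.nd (nat_lit 282) (nat_lit 504) (nat_lit 0) (XT.nd (nat_lit 94) (nat_lit 252) (nat_lit 0) (XT.lf (nat_lit 336) (nat_lit 13846106215) (nat_lit 0) (nat_lit 395385026) (nat_lit 252) (nat_lit 395385026) (nat_lit 75) (nat_lit 1) (nat_lit 71) (nat_lit 1) (nat_lit 74) (nat_lit 1) (nat_lit 191) (nat_lit 280) (nat_lit 249)) (XT.nd (nat_lit 94) (nat_lit 252) (nat_lit 0) (XT.lf (nat_lit 84) (nat_lit 5237585453) (nat_lit 0) (nat_lit 3880998230) (nat_lit 336) (nat_lit 5237585453) (nat_lit 72) (nat_lit 1) (nat_lit 71) (nat_lit 1) (nat_lit 75) (nat_lit 1) (nat_lit 192) (nat_lit 280) (nat_lit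 248)) (XT.lf (nat_lit 336) (nat_lit 7202159583) (nat_lit 0) (nat_lit 3441844316) (nat_lit 252) (nat_lit 3441844316) (nat_lit 72) (nat_lit 1) (nat_lit 68) (nat_lit 1) (nat_lit 71) (nat_lit 1) (nat_lit 193) (nat_lit 280) (nat_lit 247)))) (XT.nd (nat_lit 188) (nat_lit 336) (nat_lit 0) (XT.nd (nat_lit 94) (nat_lit 168) (nat_lit 0) (XT.lf (nat_lit 84) (nat_lit 1983468875) (nat_lit 0) (nat_lit 9855839672) (nat_lit 336) (nat_lit 1983468875) (nat_lit 69) (nat_lit 1) (nat_lit 68) (nat_lit 1) (nat_lit 72) (nat_lit 1) (nat_lit 194) (nat_lit 280) (nat_lit 246)) (XT.lf (nat_lit 252) (nat_lit 726808944) (nat_lit 0) (nat_lit 6418927548) (nat_lit 168) (nat_lit 6418927548) (nat_lit 69) (nat_lit 1) (nat_lit 66) (nat_lit 1) (nat_lit 68) (nat_lit 1) (nat_lit 195) (nat_lit 280) (nat_lit 245))) (XT.nd (nat_lit 94) (nat_lit 0) (nat_lit 0) (XT.lf (nat_lit 336) (nat_lit 10981839448) (nat_lit 0)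 (nat_lit 1166350949) (nat_lit 252) (nat_lit 1166350949) (nat_lit 66) (nat_lit 1) (nat_lit 62) (nat_lit 1) (nat_lit 65) (nat_lit 1) (nat_lit 196) (nat_lit 280) (nat_lit 244)) (XT.lf (nat_lit 84) (nat_lit 3835695841) (nat_lit 0) (nat_lit 5395824350) (nat_lit 336) (nat_lit 3835695841) (nat_lit 63) (nat_lit 1) (nat_lit 62) (nat_lit 1) (nat_lit 66) (nat_lit 1) (nat_lit 197) (nat_lit 280) (nat_lit 243)))))) (XT.nd (nat_lit 658) (nat_lit 672) (nat_lit 0) (XT.nd (nat_lit 282) (nat_lit 588) (nat_lit 0) (XT.nd (nat_lit 94) (nat_lit 252) (nat_lit 0) (XT.lf (nat_lit 252) (nat_lit 4431554863) (nat_lit 0) (nat_lit 4197984496) (nat_lit 168) (nat_lit 4197984496) (nat_lit 63) (nat_lit 1) (nat_lit 60) (nat_lit 1) (nat_lit 62) (nat_lit 1) (nat_lit 198) (nat_lit 280) (nat_lit 242)) (XT.nd (nat_lit 94) (nat_lit 252) (nat_lit 0) (XT.lf (nat_lit 84) (nat_lit 636673773) (nat_lit 0) (nat_lit 11322438597)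 (nat_lit 252) (nat_lit 636673773) (nat_lit 61) (nat_lit 1) (nat_lit 60) (nat_lit 1) (nat_lit 63) (nat_lit 1) (nat_lit 199) (nat_lit 280) (nat_lit 241)) (XT.lf (nat_lit 84) (nat_lit 5254580356) (nat_lit 0) (nat_lit 1855730103) (nat_lit 252) (nat_lit 5254580356) (nat_lit 58) (nat_lit 1) (nat_lit 57) (nat_lit 1) (nat_lit 60) (nat_lit 1) (nat_lit 200) (nat_lit 280) (nat_lit 240)))) (XT.nd (nat_lit 188) (nat_lit 420) (nat_lit 0) (XT.nd (nat_lit 94) (nat_lit 0) (nat_lit 0) (XT.lf (nat_lit 252) (nat_lit 7296905769) (nat_lit 0) (nat_lit 2422375012) (nat_lit 168) (nat_lit 2422375012) (nat_lit 58) (nat_lit 1) (nat_lit 55) (nat_lit 1) (nat_lit 57) (nat_lit 1) (nat_lit 201) (nat_lit 280) (nat_lit 239)) (XT.lf (nat_lit 84) (nat_lit 2058996970) (nat_lit 0) (nat_lit 7805360814) (nat_lit 252) (nat_lit 2058996970) (nat_lit 56) (nat_lit 1) (nat_lit 55) (nat_lit 1) (nat_lit 58) (nat_lit 1)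 (nat_lit 202) (nat_lit 280) (nat_lit 238))) (XT.nd (nat_lit 94) (nat_lit 252) (nat_lit 0) (XT.lf (nat_lit 252) (nat_lit 964565949) (nat_lit 0) (nat_lit 5372444076) (nat_lit 168) (nat_lit 5372444076) (nat_lit 56) (nat_lit 1) (nat_lit 53) (nat_lit 1) (nat_lit 55) (nat_lit 1) (nat_lit 203) (nat_lit 280) (nat_lit 237)) (XT.lf (nat_lit 252) (nat_lit 9480377306) (nat_lit 0) (nat_lit 1010687040) (nat_lit 168) (nat_lit 1010687040) (nat_lit 53) (nat_lit 1) (nat_lit 50) (nat_lit 1) (nat_lit 52) (nat_lit 1) (nat_lit 204) (nat_lit 280) (nat_lit 236))))) (XT.nd (nat_lit 282) (nat_lit 504) (nat_lit 0) (XT.nd (nat_lit 94) (nat_lit 168) (nat_lit 0) (XT.lf (nat_lit 84) (nat_lit 3156040837) (nat_lit 0) (nat_lit 4983739715) (nat_lit 252) (nat_lit 3156040837) (nat_lit 51) (nat_lit 1) (nat_lit 50) (nat_lit 1) (nat_lit 53) (nat_lit 1) (nat_lit 205) (nat_lit 280) (nat_lit 235)) (XT.nd (nat_lit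 94) (nat_lit 0) (nat_lit 0) (XT.lf (nat_lit 252) (nat_lit 3214274365) (nat_lit 0) (nat_lit 3940797731) (nat_lit 168) (nat_lit 3940797731) (nat_lit 51) (nat_lit 1) (nat_lit 48) (nat_lit 1) (nat_lit 50) (nat_lit 1) (nat_lit 206) (nat_lit 280) (nat_lit 234)) (XT.lf (nat_lit 84) (nat_lit 105644333) (nat_lit 0) (nat_lit 10691641908) (nat_lit 252) (nat_lit 105644333) (nat_lit 49) (nat_lit 1) (nat_lit 48) (nat_lit 1) (nat_lit 51) (nat_lit 1) (nat_lit 207) (nat_lit 280) (nat_lit 233)))) (XT.nd (nat_lit 188) (nat_lit 168) (nat_lit 0) (XT.nd (nat_lit 94) (nat_lit 168) (nat_lit 0) (XT.lf (nat_lit 84) (nat_lit 3988957783) (nat_lit 0) (nat_lit 2730849337) (nat_lit 168) (nat_lit 3988957783) (nat_lit 47) (nat_lit 1) (nat_lit 46) (nat_lit 1) (nat_lit 48) (nat_lit 1) (nat_lit 208) (nat_lit 280) (nat_lit 232)) (XT.lf (nat_lit 252) (nat_lit 4949842495) (nat_lit 0) (nat_lit 2785794230) (nat_lit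 168) (nat_lit 2785794230) (nat_lit 47) (nat_lit 1) (nat_lit 44) (nat_lit 1) (nat_lit 46) (nat_lit 1) (nat_lit 209) (nat_lit 280) (nat_lit 231))) (XT.nd (nat_lit 94) (nat_lit 168) (nat_lit 0) (XT.lf (nat_lit 84) (nat_lit 992409210) (nat_lit 0) (nat_lit 8354335206) (nat_lit 252) (nat_lit 992409210) (nat_lit 45) (nat_lit 1) (nat_lit 44) (nat_lit 1) (nat_lit 47) (nat_lit 1) (nat_lit 210) (nat_lit 280) (nat_lit 230)) (XT.lf (nat_lit 84) (nat_lit 4607892273) (nat_lit 0) (nat_lit 942594926) (nat_lit 168) (nat_lit 4607892273) (nat_lit 43) (nat_lit 1) (nat_lit 42) (nat_lit 1) (nat_lit 44) (nat_lit 1) (nat_lit 211) (nat_lit 280) (nat_lit 229))))))))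
noncomputable def ec117 : XT := (XT.nd (nat_lit 2538) (nat_lit 1008) (nat_lit 0) (XT.nd (nat_lit 1222) (nat_lit 1260) (nat_lit 0) (XT.nd (nat_lit 564) (nat_lit 672) (nat_lit 0) (XT.nd (nat_lit 282) (nat_lit 336) (nat_lit 0) (XT.nd (nat_lit 94) (nat_lit 84) (nat_lit 0) (XT.lf (nat_lit 252) (nat_lit 6267915309) (nat_lit 0) (nat_lit 1857299030) (nat_lit 168) (nat_lit 1857299030) (nat_lit 43) (nat_lit 1) (nat_lit 40) (nat_lit 1) (nat_lit 42) (nat_lit 1) (nat_lit 212) (nat_lit 280) (nat_lit 228)) (XT.nd (nat_lit 94) (nat_lit 84) (nat_lit 0) (XT.lf (nat_lit 84) (nat_lit 1678834043) (nat_lit 0) (nat_lit 6452460771) (nat_lit 252) (nat_lit 1678834043) (nat_lit 41) (nat_lit 1) (nat_lit 40) (nat_lit 1) (nat_lit 43) (nat_lit 1) (nat_lit 213) (nat_lit 280) (nat_lit 227)) (XT.lf (nat_lit 168) (nat_lit 481932116) (nat_lit 0) (nat_lit 4579532603) (nat_lit 84) (nat_lit 4579532603) (nat_lit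 41) (nat_lit 1) (nat_lit 39) (nat_lit 1) (nat_lit 40) (nat_lit 1) (nat_lit 214) (nat_lit 280) (nat_lit 226)))) (XT.nd (nat_lit 94) (nat_lit 84) (nat_lit 0) (XT.lf (nat_lit 252) (nat_lit 7247741473) (nat_lit 0) (nat_lit 1114118055) (nat_lit 168) (nat_lit 1114118055) (nat_lit 39) (nat_lit 1) (nat_lit 36) (nat_lit 1) (nat_lit 38) (nat_lit 1) (nat_lit 215) (nat_lit 280) (nat_lit 225)) (XT.nd (nat_lit 94) (nat_lit 84) (nat_lit 0) (XT.lf (nat_lit 84) (nat_lit 2202491902) (nat_lit 0) (nat_lit 4907815942) (nat_lit 252) (nat_lit 2202491902) (nat_lit 37) (nat_lit 1) (nat_lit 36) (nat_lit 1) (nat_lit 39) (nat_lit 1) (nat_lit 216) (nat_lit 280) (nat_lit 224)) (XT.lf (nat_lit 168) (nat_lit 1618437228) (nat_lit 0) (nat_lit 3767592806) (nat_lit 84) (nat_lit 3767592806) (nat_lit 37) (nat_lit 1) (nat_lit 35) (nat_lit 1) (nat_lit 36) (nat_lit 1) (nat_lit 217) (nat_lit 280) (nat_lit 223)))))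 (XT.nd (nat_lit 282) (nat_lit 336) (nat_lit 0) (XT.nd (nat_lit 94) (nat_lit 84) (nat_lit 0) (XT.lf (nat_lit 252) (nat_lit 7954270119) (nat_lit 0) (nat_lit 522410105) (nat_lit 168) (nat_lit 522410105) (nat_lit 35) (nat_lit 1) (nat_lit 32) (nat_lit 1) (nat_lit 34) (nat_lit 1) (nat_lit 218) (nat_lit 280) (nat_lit 222)) (XT.nd (nat_lit 94) (nat_lit 84) (nat_lit 0) (XT.lf (nat_lit 84) (nat_lit 2594196472) (nat_lit 0) (nat_lit 3656110890) (nat_lit 252) (nat_lit 2594196472) (nat_lit 33) (nat_lit 1) (nat_lit 32) (nat_lit 1) (nat_lit 35) (nat_lit 1) (nat_lit 219) (nat_lit 280) (nat_lit 221)) (XT.lf (nat_lit 168) (nat_lit 2495254678) (nat_lit 0) (nat_lit 3099607925) (nat_lit 84) (nat_lit 3099607925) (nat_lit 33) (nat_lit 1) (nat_lit 31) (nat_lit 1) (nat_lit 32) (nat_lit 1) (nat_lit 220) (nat_lit 280) (nat_lit 220)))) (XT.nd (nat_lit 188) (nat_lit 84) (nat_lit 0) (XT.nd (nat_lit 94)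 (nat_lit 0) (nat_lit 0) (XT.lf (nat_lit 252) (nat_lit 8440697972) (nat_lit 0) (nat_lit 54380872) (nat_lit 168) (nat_lit 54380872) (nat_lit 31) (nat_lit 1) (nat_lit 28) (nat_lit 1) (nat_lit 30) (nat_lit 1) (nat_lit 221) (nat_lit 280) (nat_lit 219)) (XT.lf (nat_lit 84) (nat_lit 2879205128) (nat_lit 0) (nat_lit 2644499638) (nat_lit 252) (nat_lit 2879205128) (nat_lit 29) (nat_lit 1) (nat_lit 28) (nat_lit 1) (nat_lit 31) (nat_lit 1) (nat_lit 222) (nat_lit 280) (nat_lit 218))) (XT.nd (nat_lit 94) (nat_lit 0) (nat_lit 0) (XT.lf (nat_lit 168) (nat_lit 3161197308) (nat_lit 0) (nat_lit 2550055111) (nat_lit 84) (nat_lit 2550055111) (nat_lit 29) (nat_lit 1) (nat_lit 27) (nat_lit 1) (nat_lit 28) (nat_lit 1) (nat_lit 223) (nat_lit 280) (nat_lit 217)) (XT.lf (nat_lit 0) (nat_lit 317919130) (nat_lit 0) (nat_lit 7488142119) (nat_lit 168) (nat_lit 317919130) (nat_lit 27) (nat_lit 3) (nat_lit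 27) (nat_lit 1) (nat_lit 29) (nat_lit 1) (nat_lit 224) (nat_lit 280) (nat_lit 216)))))) (XT.nd (nat_lit 658) (nat_lit 588) (nat_lit 0) (XT.nd (nat_lit 282) (nat_lit 420) (nat_lit 0) (XT.nd (nat_lit 94) (nat_lit 84) (nat_lit 0) (XT.lf (nat_lit 84) (nat_lit 3078208489) (nat_lit 0) (nat_lit 1829548931) (nat_lit 168) (nat_lit 3078208489) (nat_lit 26) (nat_lit 1) (nat_lit 25) (nat_lit 1) (nat_lit 27) (nat_lit 1) (nat_lit 225) (nat_lit 280) (nat_lit 215)) (XT.nd (nat_lit 94) (nat_lit 0) (nat_lit 0) (XT.lf (nat_lit 168) (nat_lit 3656291620) (nat_lit 0) (nat_lit 2097936651) (nat_lit 84) (nat_lit 2097936651) (nat_lit 26) (nat_lit 1) (nat_lit 24) (nat_lit 1) (nat_lit 25) (nat_lit 1) (nat_lit 226) (nat_lit 280) (nat_lit 214)) (XT.lf (nat_lit 0) (nat_lit 607640320) (nat_lit 0) (nat_lit 6506600518) (nat_lit 168) (nat_lit 607640320) (nat_lit 24) (nat_lit 3) (nat_lit 24) (nat_lit 1) (nat_lit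 26) (nat_lit 1) (nat_lit 227) (nat_lit 280) (nat_lit 213)))) (XT.nd (nat_lit 188) (nat_lit 168) (nat_lit 0) (XT.nd (nat_lit 94) (nat_lit 84) (nat_lit 0) (XT.lf (nat_lit 84) (nat_lit 3208144318) (nat_lit 0) (nat_lit 1175567323) (nat_lit 168) (nat_lit 3208144318) (nat_lit 23) (nat_lit 1) (nat_lit 22) (nat_lit 1) (nat_lit 24) (nat_lit 1) (nat_lit 228) (nat_lit 280) (nat_lit 212)) (XT.lf (nat_lit 168) (nat_lit 4013341851) (nat_lit 0) (nat_lit 1725977674) (nat_lit 84) (nat_lit 1725977674) (nat_lit 23) (nat_lit 1) (nat_lit 21) (nat_lit 1) (nat_lit 22) (nat_lit 1) (nat_lit 229) (nat_lit 280) (nat_lit 211))) (XT.nd (nat_lit 94) (nat_lit 168) (nat_lit 0) (XT.lf (nat_lit 0) (nat_lit 829514306) (nat_lit 0) (nat_lit 5682603459) (nat_lit 168) (nat_lit 829514306) (nat_lit 21) (nat_lit 3) (nat_lit 21) (nat_lit 1) (nat_lit 23) (nat_lit 1) (nat_lit 230) (nat_lit 280) (nat_lit 210)) (XT.lf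 (nat_lit 84) (nat_lit 3282866914) (nat_lit 0) (nat_lit 653230612) (nat_lit 168) (nat_lit 3282866914) (nat_lit 20) (nat_lit 1) (nat_lit 19) (nat_lit 1) (nat_lit 21) (nat_lit 1) (nat_lit 231) (nat_lit 280) (nat_lit 209))))) (XT.nd (nat_lit 282) (nat_lit 336) (nat_lit 0) (XT.nd (nat_lit 94) (nat_lit 168) (nat_lit 0) (XT.lf (nat_lit 168) (nat_lit 4259216450) (nat_lit 0) (nat_lit 1419966104) (nat_lit 84) (nat_lit 1419966104) (nat_lit 20) (nat_lit 1) (nat_lit 18) (nat_lit 1) (nat_lit 19) (nat_lit 1) (nat_lit 232) (nat_lit 280) (nat_lit 208)) (XT.nd (nat_lit 94) (nat_lit 168) (nat_lit 0) (XT.lf (nat_lit 0) (nat_lit 996355006) (nat_lit 0) (nat_lit 4989003463) (nat_lit 168) (nat_lit 996355006) (nat_lit 18) (nat_lit 3) (nat_lit 18) (nat_lit 1) (nat_lit 20) (nat_lit 1) (nat_lit 233) (nat_lit 280) (nat_lit 207)) (XT.lf (nat_lit 84) (nat_lit 3313697634) (nat_lit 0) (nat_lit 238451076)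 (nat_lit 168) (nat_lit 3313697634) (nat_lit 17) (nat_lit 1) (nat_lit 16) (nat_lit 1) (nat_lit 18) (nat_lit 1) (nat_lit 234) (nat_lit 280) (nat_lit 206)))) (XT.nd (nat_lit 188) (nat_lit 252) (nat_lit 0) (XT.nd (nat_lit 94) (nat_lit 0) (nat_lit 0) (XT.lf (nat_lit 168) (nat_lit 4415906179) (nat_lit 0) (nat_lit 1168209628) (nat_lit 84) (nat_lit 1168209628) (nat_lit 17) (nat_lit 1) (nat_lit 15) (nat_lit 1) (nat_lit 16) (nat_lit 1) (nat_lit 235) (nat_lit 280) (nat_lit 205)) (XT.lf (nat_lit 0) (nat_lit 1118667094) (nat_lit 0) (nat_lit 4403428861) (nat_lit 168) (nat_lit 1118667094) (nat_lit 15) (nat_lit 3) (nat_lit 15) (nat_lit 1) (nat_lit 17) (nat_lit 1) (nat_lit 236) (nat_lit 280) (nat_lit 204))) (XT.nd (nat_lit 94) (nat_lit 168) (nat_lit 0) (XT.lf (nat_lit 84) (nat_lit 91480677) (nat_lit 0) (nat_lit 3219825216) (nat_lit 84) (nat_lit 3219825216) (nat_lit 15) (nat_lit 3) (nat_lit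 14) (nat_lit 1) (nat_lit 15) (nat_lit 1) (nat_lit 237) (nat_lit 280) (nat_lit 203)) (XT.lf (nat_lit 168) (nat_lit 4501394336) (nat_lit 0) (nat_lit 961088952) (nat_lit 84) (nat_lit 961088952) (nat_lit 14) (nat_lit 1) (nat_lit 12) (nat_lit 1) (nat_lit 13) (nat_lit 1) (nat_lit 238) (nat_lit 280) (nat_lit 202))))))) (XT.nd (nat_lit 1316) (nat_lit 0) (nat_lit 0) (XT.nd (nat_lit 658) (nat_lit 504) (nat_lit 0) (XT.nd (nat_lit 282) (nat_lit 252) (nat_lit 0) (XT.nd (nat_lit 94) (nat_lit 252) (nat_lit 0) (XT.lf (nat_lit 0) (nat_lit 1205057202) (nat_lit 0) (nat_lit 3907438836) (nat_lit 168) (nat_lit 1205057202) (nat_lit 12) (nat_lit 3) (nat_lit 12) (nat_lit 1) (nat_lit 14) (nat_lit 1) (nat_lit 239) (nat_lit 280) (nat_lit 201)) (XT.nd (nat_lit 94) (nat_lit 168) (nat_lit 0) (XT.lf (nat_lit 84) (nat_lit 355396023) (nat_lit 0) (nat_lit 2929092817) (nat_lit 84) (nat_lit 2929092817) (nat_lit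 12) (nat_lit 3) (nat_lit 11) (nat_lit 1) (nat_lit 12) (nat_lit 1) (nat_lit 240) (nat_lit 280) (nat_lit 200)) (XT.lf (nat_lit 168) (nat_lit 4530372446) (nat_lit 0) (nat_lit 790690259) (nat_lit 84) (nat_lit 790690259) (nat_lit 11) (nat_lit 1) (nat_lit 9) (nat_lit 1) (nat_lit 10) (nat_lit 1) (nat_lit 241) (nat_lit 280) (nat_lit 199)))) (XT.nd (nat_lit 188) (nat_lit 168) (nat_lit 0) (XT.nd (nat_lit 94) (nat_lit 84) (nat_lit 0) (XT.lf (nat_lit 0) (nat_lit 1262572127) (nat_lit 0) (nat_lit 3485828186) (nat_lit 168) (nat_lit 1262572127) (nat_lit 9) (nat_lit 3) (nat_lit 9) (nat_lit 1) (nat_lit 11) (nat_lit 1) (nat_lit 242) (nat_lit 280) (nat_lit 198)) (XT.lf (nat_lit 84) (nat_lit 559180086) (nat_lit 0) (nat_lit 2676566808) (nat_lit 84) (nat_lit 2676566808) (nat_lit 9) (nat_lit 3) (nat_lit 8) (nat_lit 1) (nat_lit 9) (nat_lit 1) (nat_lit 243) (nat_lit 280) (nat_lit 197))) (XT.nd (nat_lit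 94) (nat_lit 0) (nat_lit 0) (XT.lf (nat_lit 168) (nat_lit 4514828800) (nat_lit 0) (nat_lit 650502833) (nat_lit 84) (nat_lit 650502833) (nat_lit 8) (nat_lit 1) (nat_lit 6) (nat_lit 1) (nat_lit 7) (nat_lit 1) (nat_lit 244) (nat_lit 280) (nat_lit 196)) (XT.lf (nat_lit 0) (nat_lit 1296977009) (nat_lit 0) (nat_lit 3126055271) (nat_lit 168) (nat_lit 1296977009) (nat_lit 6) (nat_lit 3) (nat_lit 6) (nat_lit 1) (nat_lit 8) (nat_lit 1) (nat_lit 245) (nat_lit 280) (nat_lit 195))))) (XT.nd (nat_lit 282) (nat_lit 252) (nat_lit 0) (XT.nd (nat_lit 94) (nat_lit 168) (nat_lit 0) (XT.lf (nat_lit 84) (nat_lit 714129220) (nat_lit 0) (nat_lit 2456108517) (nat_lit 84) (nat_lit 2456108517) (nat_lit 6) (nat_lit 3) (nat_lit 5) (nat_lit 1) (nat_lit 6) (nat_lit 1) (nat_lit 246) (nat_lit 280) (nat_lit 194)) (XT.nd (nat_lit 94) (nat_lit 0) (nat_lit 0) (XT.lf (nat_lit 168) (nat_lit 4464532423) (nat_lit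 0) (nat_lit 535170290) (nat_lit 84) (nat_lit 535170290) (nat_lit 5) (nat_lit 1) (nat_lit 3) (nat_lit 1) (nat_lit 4) (nat_lit 1) (nat_lit 247) (nat_lit 280) (nat_lit 193)) (XT.lf (nat_lit 0) (nat_lit 1312984096) (nat_lit 0) (nat_lit 2817771308) (nat_lit 168) (nat_lit 1312984096) (nat_lit 3) (nat_lit 3) (nat_lit 3) (nat_lit 1) (nat_lit 5) (nat_lit 1) (nat_lit 248) (nat_lit 280) (nat_lit 192)))) (XT.nd (nat_lit 188) (nat_lit 0) (nat_lit 0) (XT.nd (nat_lit 94) (nat_lit 168) (nat_lit 0) (XT.lf (nat_lit 84) (nat_lit 829506714) (nat_lit 0) (nat_lit 2262637393) (nat_lit 84) (nat_lit 2262637393) (nat_lit 3) (nat_lit 3) (nat_lit 2) (nat_lit 1) (nat_lit 3) (nat_lit 1) (nat_lit 249) (nat_lit 280) (nat_lit 191)) (XT.lf (nat_lit 0) (nat_lit 7652764609) (nat_lit 0) (nat_lit 0) (nat_lit 0) (nat_lit 0) (nat_lit 0) (nat_lit 0) (nat_lit 1) (nat_lit 0) (nat_lit 1) (nat_lit 0) (nat_lit 250)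 (nat_lit 280) (nat_lit 190))) (XT.nd (nat_lit 94) (nat_lit 0) (nat_lit 0) (XT.lf (nat_lit 0) (nat_lit 7648305833) (nat_lit 0) (nat_lit 0) (nat_lit 0) (nat_lit 0) (nat_lit 0) (nat_lit 0) (nat_lit 1) (nat_lit 0) (nat_lit 1) (nat_lit 0) (nat_lit 251) (nat_lit 280) (nat_lit 189)) (XT.lf (nat_lit 0) (nat_lit 7644059380) (nat_lit 0) (nat_lit 0) (nat_lit 0) (nat_lit 0) (nat_lit 0) (nat_lit 0) (nat_lit 1) (nat_lit 0) (nat_lit 1) (nat_lit 0) (nat_lit 252) (nat_lit 280) (nat_lit 188)))))) (XT.nd (nat_lit 658) (nat_lit 0) (nat_lit 0) (XT.nd (nat_lit 282) (nat_lit 0) (nat_lit 0) (XT.nd (nat_lit 94) (nat_lit 0) (nat_lit 0) (XT.lf (nat_lit 0) (nat_lit 7640015139) (nat_lit 0) (nat_lit 0) (nat_lit 0) (nat_lit 0) (nat_lit 0) (nat_lit 0) (nat_lit 1) (nat_lit 0) (nat_lit 1) (nat_lit 0) (nat_lit 253) (nat_lit 280) (nat_lit 187)) (XT.nd (nat_lit 94) (nat_lit 0) (nat_lit 0) (XT.lf (nat_lit 0)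 (nat_lit 7636163481) (nat_lit 0) (nat_lit 0) (nat_lit 0) (nat_lit 0) (nat_lit 0) (nat_lit 0) (nat_lit 1) (nat_lit 0) (nat_lit 1) (nat_lit 0) (nat_lit 254) (nat_lit 280) (nat_lit 186)) (XT.lf (nat_lit 0) (nat_lit 7632495236) (nat_lit 0) (nat_lit 0) (nat_lit 0) (nat_lit 0) (nat_lit 0) (nat_lit 0) (nat_lit 1) (nat_lit 0) (nat_lit 1) (nat_lit 0) (nat_lit 255) (nat_lit 280) (nat_lit 185)))) (XT.nd (nat_lit 188) (nat_lit 0) (nat_lit 0) (XT.nd (nat_lit 94) (nat_lit 0) (nat_lit 0) (XT.lf (nat_lit 0) (nat_lit 7629001668) (nat_lit 0) (nat_lit 0) (nat_lit 0) (nat_lit 0) (nat_lit 0) (nat_lit 0) (nat_lit 1) (nat_lit 0) (nat_lit 1) (nat_lit 0) (nat_lit 256) (nat_lit 280) (nat_lit 184)) (XT.lf (nat_lit 0) (nat_lit 7625674461) (nat_lit 0) (nat_lit 0) (nat_lit 0) (nat_lit 0) (nat_lit 0) (nat_lit 0) (nat_lit 1) (nat_lit 0) (nat_lit 1) (nat_lit 0) (nat_lit 257) (nat_lit 280) (nat_lit 183)))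 (XT.nd (nat_lit 94) (nat_lit 0) (nat_lit 0) (XT.lf (nat_lit 0) (nat_lit 7622505692) (nat_lit 0) (nat_lit 0) (nat_lit 0) (nat_lit 0) (nat_lit 0) (nat_lit 0) (nat_lit 1) (nat_lit 0) (nat_lit 1) (nat_lit 0) (nat_lit 258) (nat_lit 280) (nat_lit 182)) (XT.lf (nat_lit 0) (nat_lit 7619487818) (nat_lit 0) (nat_lit 0) (nat_lit 0) (nat_lit 0) (nat_lit 0) (nat_lit 0) (nat_lit 1) (nat_lit 0) (nat_lit 1) (nat_lit 0) (nat_lit 259) (nat_lit 280) (nat_lit 181))))) (XT.nd (nat_lit 282) (nat_lit 0) (nat_lit 0) (XT.nd (nat_lit 94) (nat_lit 0) (nat_lit 0) (XT.lf (nat_lit 0) (nat_lit 7616613651) (nat_lit 0) (nat_lit 0) (nat_lit 0) (nat_lit 0) (nat_lit 0) (nat_lit 0) (nat_lit 1) (nat_lit 0) (nat_lit 1) (nat_lit 0) (nat_lit 260) (nat_lit 280) (nat_lit 180)) (XT.nd (nat_lit 94) (nat_lit 0) (nat_lit 0) (XT.lf (nat_lit 0) (nat_lit 7613876350) (nat_lit 0) (nat_lit 0) (nat_lit 0) (nat_lit 0) (nat_lit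 0) (nat_lit 0) (nat_lit 1) (nat_lit 0) (nat_lit 1) (nat_lit 0) (nat_lit 261) (nat_lit 280) (nat_lit 179)) (XT.lf (nat_lit 0) (nat_lit 7611269396) (nat_lit 0) (nat_lit 0) (nat_lit 0) (nat_lit 0) (nat_lit 0) (nat_lit 0) (nat_lit 1) (nat_lit 0) (nat_lit 1) (nat_lit 0) (nat_lit 262) (nat_lit 280) (nat_lit 178)))) (XT.nd (nat_lit 188) (nat_lit 0) (nat_lit 0) (XT.nd (nat_lit 94) (nat_lit 0) (nat_lit 0) (XT.lf (nat_lit 0) (nat_lit 7608786583) (nat_lit 0) (nat_lit 0) (nat_lit 0) (nat_lit 0) (nat_lit 0) (nat_lit 0) (nat_lit 1) (nat_lit 0) (nat_lit 1) (nat_lit 0) (nat_lit 263) (nat_lit 280) (nat_lit 177)) (XT.lf (nat_lit 0) (nat_lit 7606421999) (nat_lit 0) (nat_lit 0) (nat_lit 0) (nat_lit 0) (nat_lit 0) (nat_lit 0) (nat_lit 1) (nat_lit 0) (nat_lit 1) (nat_lit 0) (nat_lit 264) (nat_lit 280) (nat_lit 176))) (XT.nd (nat_lit 94) (nat_lit 0) (nat_lit 0) (XT.lf (nat_lit 0) (nat_lit 7604170014)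 (nat_lit 0) (nat_lit 0) (nat_lit 0) (nat_lit 0) (nat_lit 0) (nat_lit 0) (nat_lit 1) (nat_lit 0) (nat_lit 1) (nat_lit 0) (nat_lit 265) (nat_lit 280) (nat_lit 175)) (XT.lf (nat_lit 0) (nat_lit 7602025267) (nat_lit 0) (nat_lit 0) (nat_lit 0) (nat_lit 0) (nat_lit 0) (nat_lit 0) (nat_lit 1) (nat_lit 0) (nat_lit 1) (nat_lit 0) (nat_lit 266) (nat_lit 280) (nat_lit 174))))))))
noncomputable def ec118 : XT := (XT.nd (nat_lit 2538) (nat_lit 0) (nat_lit 0) (XT.nd (nat_lit 1222) (nat_lit 0) (nat_lit 0) (XT.nd (nat_lit 564) (nat_lit 0) (nat_lit 0) (XT.nd (nat_lit 282) (nat_lit 0) (nat_lit 0) (XT.nd (nat_lit 94) (nat_lit 0) (nat_lit 0) (XT.lf (nat_lit 0) (nat_lit 7599982650) (nat_lit 0) (nat_lit 0) (nat_lit 0) (nat_lit 0) (nat_lit 0) (nat_lit 0) (nat_lit 1) (nat_lit 0) (nat_lit 1) (nat_lit 0) (nat_lit 267) (nat_lit 280) (nat_lit 173)) (XT.nd (nat_lit 94) (nat_lit 0) (nat_lit 0) (XT.lf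 (nat_lit 0) (nat_lit 7598037301) (nat_lit 0) (nat_lit 0) (nat_lit 0) (nat_lit 0) (nat_lit 0) (nat_lit 0) (nat_lit 1) (nat_lit 0) (nat_lit 1) (nat_lit 0) (nat_lit 268) (nat_lit 280) (nat_lit 172)) (XT.lf (nat_lit 0) (nat_lit 7596184588) (nat_lit 0) (nat_lit 0) (nat_lit 0) (nat_lit 0) (nat_lit 0) (nat_lit 0) (nat_lit 1) (nat_lit 0) (nat_lit 1) (nat_lit 0) (nat_lit 269) (nat_lit 280) (nat_lit 171)))) (XT.nd (nat_lit 94) (nat_lit 0) (nat_lit 0) (XT.lf (nat_lit 0) (nat_lit 7594420099) (nat_lit 0) (nat_lit 0) (nat_lit 0) (nat_lit 0) (nat_lit 0) (nat_lit 0) (nat_lit 1) (nat_lit 0) (nat_lit 1) (nat_lit 0) (nat_lit 270) (nat_lit 280) (nat_lit 170)) (XT.nd (nat_lit 94) (nat_lit 0) (nat_lit 0) (XT.lf (nat_lit 0) (nat_lit 7592739633) (nat_lit 0) (nat_lit 0) (nat_lit 0) (nat_lit 0) (nat_lit 0) (nat_lit 0) (nat_lit 1) (nat_lit 0) (nat_lit 1) (nat_lit 0) (nat_lit 271) (nat_lit 280) (nat_lit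 169)) (XT.lf (nat_lit 0) (nat_lit 7591139190) (nat_lit 0) (nat_lit 0) (nat_lit 0) (nat_lit 0) (nat_lit 0) (nat_lit 0) (nat_lit 1) (nat_lit 0) (nat_lit 1) (nat_lit 0) (nat_lit 272) (nat_lit 280) (nat_lit 168))))) (XT.nd (nat_lit 282) (nat_lit 0) (nat_lit 0) (XT.nd (nat_lit 94) (nat_lit 0) (nat_lit 0) (XT.lf (nat_lit 0) (nat_lit 7589614958) (nat_lit 0) (nat_lit 0) (nat_lit 0) (nat_lit 0) (nat_lit 0) (nat_lit 0) (nat_lit 1) (nat_lit 0) (nat_lit 1) (nat_lit 0) (nat_lit 273) (nat_lit 280) (nat_lit 167)) (XT.nd (nat_lit 94) (nat_lit 0) (nat_lit 0) (XT.lf (nat_lit 0) (nat_lit 7588163308) (nat_lit 0) (nat_lit 0) (nat_lit 0) (nat_lit 0) (nat_lit 0) (nat_lit 0) (nat_lit 1) (nat_lit 0) (nat_lit 1) (nat_lit 0) (nat_lit 274) (nat_lit 280) (nat_lit 166)) (XT.lf (nat_lit 0) (nat_lit 7586780785) (nat_lit 0) (nat_lit 0) (nat_lit 0) (nat_lit 0) (nat_lit 0) (nat_lit 0) (nat_lit 1) (nat_lit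 0) (nat_lit 1) (nat_lit 0) (nat_lit 275) (nat_lit 280) (nat_lit 165)))) (XT.nd (nat_lit 188) (nat_lit 0) (nat_lit 0) (XT.nd (nat_lit 94) (nat_lit 0) (nat_lit 0) (XT.lf (nat_lit 0) (nat_lit 7585464096) (nat_lit 0) (nat_lit 0) (nat_lit 0) (nat_lit 0) (nat_lit 0) (nat_lit 0) (nat_lit 1) (nat_lit 0) (nat_lit 1) (nat_lit 0) (nat_lit 276) (nat_lit 280) (nat_lit 164)) (XT.lf (nat_lit 0) (nat_lit 7584210107) (nat_lit 0) (nat_lit 0) (nat_lit 0) (nat_lit 0) (nat_lit 0) (nat_lit 0) (nat_lit 1) (nat_lit 0) (nat_lit 1) (nat_lit 0) (nat_lit 277) (nat_lit 280) (nat_lit 163))) (XT.nd (nat_lit 94) (nat_lit 0) (nat_lit 0) (XT.lf (nat_lit 0) (nat_lit 7583015831) (nat_lit 0) (nat_lit 0) (nat_lit 0) (nat_lit 0) (nat_lit 0) (nat_lit 0) (nat_lit 1) (nat_lit 0) (nat_lit 1) (nat_lit 0) (nat_lit 278) (nat_lit 280) (nat_lit 162)) (XT.lf (nat_lit 0) (nat_lit 7581878426) (nat_lit 0) (nat_lit 0) (nat_lit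 0) (nat_lit 0) (nat_lit 0) (nat_lit 0) (nat_lit 1) (nat_lit 0) (nat_lit 1) (nat_lit 0) (nat_lit 279) (nat_lit 280) (nat_lit 161)))))) (XT.nd (nat_lit 658) (nat_lit 0) (nat_lit 0) (XT.nd (nat_lit 282) (nat_lit 0) (nat_lit 0) (XT.nd (nat_lit 94) (nat_lit 0) (nat_lit 0) (XT.lf (nat_lit 0) (nat_lit 7580795183) (nat_lit 0) (nat_lit 0) (nat_lit 0) (nat_lit 0) (nat_lit 0) (nat_lit 0) (nat_lit 1) (nat_lit 0) (nat_lit 1) (nat_lit 0) (nat_lit 280) (nat_lit 280) (nat_lit 160)) (XT.nd (nat_lit 94) (nat_lit 0) (nat_lit 0) (XT.lf (nat_lit 0) (nat_lit 7579763523) (nat_lit 0) (nat_lit 0) (nat_lit 0) (nat_lit 0) (nat_lit 0) (nat_lit 0) (nat_lit 1) (nat_lit 0) (nat_lit 1) (nat_lit 0) (nat_lit 281) (nat_lit 280) (nat_lit 159)) (XT.lf (nat_lit 0) (nat_lit 7578780989) (nat_lit 0) (nat_lit 0) (nat_lit 0) (nat_lit 0) (nat_lit 0) (nat_lit 0) (nat_lit 1) (nat_lit 0) (nat_lit 1) (nat_lit 0) (nat_lit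 282) (nat_lit 280) (nat_lit 158)))) (XT.nd (nat_lit 188) (nat_lit 0) (nat_lit 0) (XT.nd (nat_lit 94) (nat_lit 0) (nat_lit 0) (XT.lf (nat_lit 0) (nat_lit 7577845243) (nat_lit 0) (nat_lit 0) (nat_lit 0) (nat_lit 0) (nat_lit 0) (nat_lit 0) (nat_lit 1) (nat_lit 0) (nat_lit 1) (nat_lit 0) (nat_lit 283) (nat_lit 280) (nat_lit 157)) (XT.lf (nat_lit 0) (nat_lit 7576954056) (nat_lit 0) (nat_lit 0) (nat_lit 0) (nat_lit 0) (nat_lit 0) (nat_lit 0) (nat_lit 1) (nat_lit 0) (nat_lit 1) (nat_lit 0) (nat_lit 284) (nat_lit 280) (nat_lit 156))) (XT.nd (nat_lit 94) (nat_lit 0) (nat_lit 0) (XT.lf (nat_lit 0) (nat_lit 7576105307) (nat_lit 0) (nat_lit 0) (nat_lit 0) (nat_lit 0) (nat_lit 0) (nat_lit 0) (nat_lit 1) (nat_lit 0) (nat_lit 1) (nat_lit 0) (nat_lit 285) (nat_lit 280) (nat_lit 155)) (XT.lf (nat_lit 0) (nat_lit 7575296974) (nat_lit 0) (nat_lit 0) (nat_lit 0) (nat_lit 0) (nat_lit 0) (nat_lit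 0) (nat_lit 1) (nat_lit 0) (nat_lit 1) (nat_lit 0) (nat_lit 286) (nat_lit 280) (nat_lit 154))))) (XT.nd (nat_lit 282) (nat_lit 0) (nat_lit 0) (XT.nd (nat_lit 94) (nat_lit 0) (nat_lit 0) (XT.lf (nat_lit 0) (nat_lit 7574527134) (nat_lit 0) (nat_lit 0) (nat_lit 0) (nat_lit 0) (nat_lit 0) (nat_lit 0) (nat_lit 1) (nat_lit 0) (nat_lit 1) (nat_lit 0) (nat_lit 287) (nat_lit 280) (nat_lit 153)) (XT.nd (nat_lit 94) (nat_lit 0) (nat_lit 0) (XT.lf (nat_lit 0) (nat_lit 7573793952) (nat_lit 0) (nat_lit 0) (nat_lit 0) (nat_lit 0) (nat_lit 0) (nat_lit 0) (nat_lit 1) (nat_lit 0) (nat_lit 1) (nat_lit 0) (nat_lit 288) (nat_lit 280) (nat_lit 152)) (XT.lf (nat_lit 0) (nat_lit 7573095684) (nat_lit 0) (nat_lit 0) (nat_lit 0) (nat_lit 0) (nat_lit 0) (nat_lit 0) (nat_lit 1) (nat_lit 0) (nat_lit 1) (nat_lit 0) (nat_lit 289) (nat_lit 280) (nat_lit 151)))) (XT.nd (nat_lit 188) (nat_lit 0) (nat_lit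 0) (XT.nd (nat_lit 94) (nat_lit 0) (nat_lit 0) (XT.lf (nat_lit 0) (nat_lit 7572430667) (nat_lit 0) (nat_lit 0) (nat_lit 0) (nat_lit 0) (nat_lit 0) (nat_lit 0) (nat_lit 1) (nat_lit 0) (nat_lit 1) (nat_lit 0) (nat_lit 290) (nat_lit 280) (nat_lit 150)) (XT.lf (nat_lit 0) (nat_lit 7571797317) (nat_lit 0) (nat_lit 0) (nat_lit 0) (nat_lit 0) (nat_lit 0) (nat_lit 0) (nat_lit 1) (nat_lit 0) (nat_lit 1) (nat_lit 0) (nat_lit 291) (nat_lit 280) (nat_lit 149))) (XT.nd (nat_lit 94) (nat_lit 0) (nat_lit 0) (XT.lf (nat_lit 0) (nat_lit 7571194126) (nat_lit 0) (nat_lit 0) (nat_lit 0) (nat_lit 0) (nat_lit 0) (nat_lit 0) (nat_lit 1) (nat_lit 0) (nat_lit 1) (nat_lit 0) (nat_lit 292) (nat_lit 280) (nat_lit 148)) (XT.lf (nat_lit 0) (nat_lit 7570619659) (nat_lit 0) (nat_lit 0) (nat_lit 0) (nat_lit 0) (nat_lit 0) (nat_lit 0) (nat_lit 1) (nat_lit 0) (nat_lit 1) (nat_lit 0) (nat_lit 293) (nat_lit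 280) (nat_lit 147))))))) (XT.nd (nat_lit 1222) (nat_lit 0) (nat_lit 0) (XT.nd (nat_lit 564) (nat_lit 0) (nat_lit 0) (XT.nd (nat_lit 282) (nat_lit 0) (nat_lit 0) (XT.nd (nat_lit 94) (nat_lit 0) (nat_lit 0) (XT.lf (nat_lit 0) (nat_lit 7570072548) (nat_lit 0) (nat_lit 0) (nat_lit 0) (nat_lit 0) (nat_lit 0) (nat_lit 0) (nat_lit 1) (nat_lit 0) (nat_lit 1) (nat_lit 0) (nat_lit 294) (nat_lit 280) (nat_lit 146)) (XT.nd (nat_lit 94) (nat_lit 0) (nat_lit 0) (XT.lf (nat_lit 0) (nat_lit 7569551490) (nat_lit 0) (nat_lit 0) (nat_lit 0) (nat_lit 0) (nat_lit 0) (nat_lit 0) (nat_lit 1) (nat_lit 0) (nat_lit 1) (nat_lit 0) (nat_lit 295) (nat_lit 280) (nat_lit 145)) (XT.lf (nat_lit 0) (nat_lit 7569055243) (nat_lit 0) (nat_lit 0) (nat_lit 0) (nat_lit 0) (nat_lit 0) (nat_lit 0) (nat_lit 1) (nat_lit 0) (nat_lit 1) (nat_lit 0) (nat_lit 296) (nat_lit 280) (nat_lit 144)))) (XT.nd (nat_lit 94) (nat_lit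 0) (nat_lit 0) (XT.lf (nat_lit 0) (nat_lit 7568582628) (nat_lit 0) (nat_lit 0) (nat_lit 0) (nat_lit 0) (nat_lit 0) (nat_lit 0) (nat_lit 1) (nat_lit 0) (nat_lit 1) (nat_lit 0) (nat_lit 297) (nat_lit 280) (nat_lit 143)) (XT.nd (nat_lit 94) (nat_lit 0) (nat_lit 0) (XT.lf (nat_lit 0) (nat_lit 7568132518) (nat_lit 0) (nat_lit 0) (nat_lit 0) (nat_lit 0) (nat_lit 0) (nat_lit 0) (nat_lit 1) (nat_lit 0) (nat_lit 1) (nat_lit 0) (nat_lit 298) (nat_lit 280) (nat_lit 142)) (XT.lf (nat_lit 0) (nat_lit 7567703842) (nat_lit 0) (nat_lit 0) (nat_lit 0) (nat_lit 0) (nat_lit 0) (nat_lit 0) (nat_lit 1) (nat_lit 0) (nat_lit 1) (nat_lit 0) (nat_lit 299) (nat_lit 280) (nat_lit 141))))) (XT.nd (nat_lit 282) (nat_lit 0) (nat_lit 0) (XT.nd (nat_lit 94) (nat_lit 0) (nat_lit 0) (XT.lf (nat_lit 0) (nat_lit 7567295579) (nat_lit 0) (nat_lit 0) (nat_lit 0) (nat_lit 0) (nat_lit 0) (nat_lit 0) (nat_lit 1)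 (nat_lit 0) (nat_lit 1) (nat_lit 0) (nat_lit 300) (nat_lit 280) (nat_lit 140)) (XT.nd (nat_lit 94) (nat_lit 0) (nat_lit 0) (XT.lf (nat_lit 0) (nat_lit 7566906757) (nat_lit 0) (nat_lit 0) (nat_lit 0) (nat_lit 0) (nat_lit 0) (nat_lit 0) (nat_lit 1) (nat_lit 0) (nat_lit 1) (nat_lit 0) (nat_lit 301) (nat_lit 280) (nat_lit 139)) (XT.lf (nat_lit 0) (nat_lit 7566536451) (nat_lit 0) (nat_lit 0) (nat_lit 0) (nat_lit 0) (nat_lit 0) (nat_lit 0) (nat_lit 1) (nat_lit 0) (nat_lit 1) (nat_lit 0) (nat_lit 302) (nat_lit 280) (nat_lit 138)))) (XT.nd (nat_lit 188) (nat_lit 0) (nat_lit 0) (XT.nd (nat_lit 94) (nat_lit 0) (nat_lit 0) (XT.lf (nat_lit 0) (nat_lit 7566183778) (nat_lit 0) (nat_lit 0) (nat_lit 0) (nat_lit 0) (nat_lit 0) (nat_lit 0) (nat_lit 1) (nat_lit 0) (nat_lit 1) (nat_lit 0) (nat_lit 303) (nat_lit 280) (nat_lit 137)) (XT.lf (nat_lit 0) (nat_lit 7565847899) (nat_lit 0) (nat_lit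 0) (nat_lit 0) (nat_lit 0) (nat_lit 0) (nat_lit 0) (nat_lit 1) (nat_lit 0) (nat_lit 1) (nat_lit 0) (nat_lit 304) (nat_lit 280) (nat_lit 136))) (XT.nd (nat_lit 94) (nat_lit 0) (nat_lit 0) (XT.lf (nat_lit 0) (nat_lit 7565528014) (nat_lit 0) (nat_lit 0) (nat_lit 0) (nat_lit 0) (nat_lit 0) (nat_lit 0) (nat_lit 1) (nat_lit 0) (nat_lit 1) (nat_lit 0) (nat_lit 305) (nat_lit 280) (nat_lit 135)) (XT.lf (nat_lit 0) (nat_lit 7565223362) (nat_lit 0) (nat_lit 0) (nat_lit 0) (nat_lit 0) (nat_lit 0) (nat_lit 0) (nat_lit 1) (nat_lit 0) (nat_lit 1) (nat_lit 0) (nat_lit 306) (nat_lit 280) (nat_lit 134)))))) (XT.nd (nat_lit 31208) (nat_lit 0) (nat_lit 10752) (XT.nd (nat_lit 282) (nat_lit 0) (nat_lit 0) (XT.nd (nat_lit 94) (nat_lit 0) (nat_lit 0) (XT.lf (nat_lit 0) (nat_lit 7564933217) (nat_lit 0) (nat_lit 0) (nat_lit 0) (nat_lit 0) (nat_lit 0) (nat_lit 0) (nat_lit 1) (nat_lit 0) (nat_lit 1)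 (nat_lit 0) (nat_lit 307) (nat_lit 280) (nat_lit 133)) (XT.nd (nat_lit 94) (nat_lit 0) (nat_lit 0) (XT.lf (nat_lit 0) (nat_lit 7564656889) (nat_lit 0) (nat_lit 0) (nat_lit 0) (nat_lit 0) (nat_lit 0) (nat_lit 0) (nat_lit 1) (nat_lit 0) (nat_lit 1) (nat_lit 0) (nat_lit 308) (nat_lit 280) (nat_lit 132)) (XT.lf (nat_lit 0) (nat_lit 7564393719) (nat_lit 0) (nat_lit 0) (nat_lit 0) (nat_lit 0) (nat_lit 0) (nat_lit 0) (nat_lit 1) (nat_lit 0) (nat_lit 1) (nat_lit 0) (nat_lit 309) (nat_lit 280) (nat_lit 131)))) (XT.nd (nat_lit 188) (nat_lit 0) (nat_lit 0) (XT.nd (nat_lit 94) (nat_lit 0) (nat_lit 0) (XT.lf (nat_lit 0) (nat_lit 7564143081) (nat_lit 0) (nat_lit 0) (nat_lit 0) (nat_lit 0) (nat_lit 0) (nat_lit 0) (nat_lit 1) (nat_lit 0) (nat_lit 1) (nat_lit 0) (nat_lit 310) (nat_lit 280) (nat_lit 130)) (XT.lf (nat_lit 0) (nat_lit 7563904378) (nat_lit 0) (nat_lit 0) (nat_lit 0) (nat_lit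 0) (nat_lit 0) (nat_lit 0) (nat_lit 1) (nat_lit 0) (nat_lit 1) (nat_lit 0) (nat_lit 311) (nat_lit 280) (nat_lit 129))) (XT.nd (nat_lit 94) (nat_lit 0) (nat_lit 0) (XT.lf (nat_lit 0) (nat_lit 7563677042) (nat_lit 0) (nat_lit 0) (nat_lit 0) (nat_lit 0) (nat_lit 0) (nat_lit 0) (nat_lit 1) (nat_lit 0) (nat_lit 1) (nat_lit 0) (nat_lit 312) (nat_lit 280) (nat_lit 128)) (XT.lf (nat_lit 0) (nat_lit 7563460531) (nat_lit 0) (nat_lit 0) (nat_lit 0) (nat_lit 0) (nat_lit 0) (nat_lit 0) (nat_lit 1) (nat_lit 0) (nat_lit 1) (nat_lit 0) (nat_lit 313) (nat_lit 280) (nat_lit 127))))) (XT.nd (nat_lit 282) (nat_lit 0) (nat_lit 84) (XT.nd (nat_lit 94) (nat_lit 0) (nat_lit 0) (XT.lf (nat_lit 924) (nat_lit 3972015557) (nat_lit 0) (nat_lit 7052304491) (nat_lit 924) (nat_lit 3972015557) (nat_lit 139) (nat_lit 1) (nat_lit 128) (nat_lit 0) (nat_lit 139) (nat_lit 0) (nat_lit 158) (nat_lit 281) (nat_lit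 281)) (XT.nd (nat_lit 94) (nat_lit 0) (nat_lit 84) (XT.lf (nat_lit 924) (nat_lit 15396028186) (nat_lit 84) (nat_lit 6938557645) (nat_lit 0) (nat_lit 6938557645) (nat_lit 139) (nat_lit 1) (nat_lit 129) (nat_lit 1) (nat_lit 128) (nat_lit 0) (nat_lit 159) (nat_lit 281) (nat_lit 280)) (XT.lf (nat_lit 924) (nat_lit 7337515215) (nat_lit 0) (nat_lit 13900829777) (nat_lit 840) (nat_lit 7337515215) (nat_lit 140) (nat_lit 1) (nat_lit 129) (nat_lit 1) (nat_lit 139) (nat_lit 1) (nat_lit 160) (nat_lit 281) (nat_lit 279)))) (XT.nd (nat_lit 188) (nat_lit 0) (nat_lit 84) (XT.nd (nat_lit 94) (nat_lit 0) (nat_lit 84) (XT.lf (nat_lit 924) (nat_lit 13764158971) (nat_lit 84) (nat_lit 7068472707) (nat_lit 0) (nat_lit 7068472707) (nat_lit 140) (nat_lit 1) (nat_lit 130) (nat_lit 1) (nat_lit 129) (nat_lit 1) (nat_lit 161) (nat_lit 281) (nat_lit 278)) (XT.lf (nat_lit 924) (nat_lit 6335510196) (nat_lit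 0) (nat_lit 14576714545) (nat_lit 840) (nat_lit 6335510196) (nat_lit 141) (nat_lit 1) (nat_lit 130) (nat_lit 1) (nat_lit 140) (nat_lit 1) (nat_lit 162) (nat_lit 281) (nat_lit 277))) (XT.nd (nat_lit 94) (nat_lit 0) (nat_lit 84) (XT.lf (nat_lit 924) (nat_lit 11394827732) (nat_lit 84) (nat_lit 7609727477) (nat_lit 0) (nat_lit 7609727477) (nat_lit 141) (nat_lit 1) (nat_lit 131) (nat_lit 1) (nat_lit 130) (nat_lit 1) (nat_lit 163) (nat_lit 281) (nat_lit 276)) (XT.lf (nat_lit 924) (nat_lit 4996302848) (nat_lit 0) (nat_lit 16009493873) (nat_lit 840) (nat_lit 4996302848) (nat_lit 142) (nat_lit 1) (nat_lit 131) (nat_lit 1) (nat_lit 141) (nat_lit 1) (nat_lit 164) (nat_lit 281) (nat_lit 275))))))))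
noncomputable def ec119 : XT := (XT.nd (nat_lit 2538) (nat_lit 3360) (nat_lit 0) (XT.nd (nat_lit 1222) (nat_lit 2856) (nat_lit 0) (XT.nd (nat_lit 564) (nat_lit 1176) (nat_lit 0) (XT.nd (nat_lit 282) (nat_lit 1260) (nat_lit 0) (XT.nd (nat_lit 94) (nat_lit 0) (nat_lit 84) (XT.lf (nat_lit 924) (nat_lit 8398938495) (nat_lit 84) (nat_lit 8503916727) (nat_lit 0) (nat_lit 8503916727) (nat_lit 142) (nat_lit 1) (nat_lit 132) (nat_lit 1) (nat_lit 131) (nat_lit 1) (nat_lit 165) (nat_lit 281) (nat_lit 274)) (XT.nd (nat_lit 94) (nat_lit 0) (nat_lit 0) (XT.lf (nat_lit 924) (nat_lit 3371736346) (nat_lit 0) (nat_lit 18089764025) (nat_lit 840) (nat_lit 3371736346) (nat_lit 143) (nat_lit 1) (nat_lit 132) (nat_lit 1) (nat_lit 142) (nat_lit 1) (nat_lit 166) (nat_lit 281) (nat_lit 273)) (XT.lf (nat_lit 924) (nat_lit 4875068206) (nat_lit 84) (nat_lit 9699025326) (nat_lit 0) (nat_lit 9699025326)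 (nat_lit 143) (nat_lit 1) (nat_lit 133) (nat_lit 1) (nat_lit 132) (nat_lit 1) (nat_lit 167) (nat_lit 281) (nat_lit 272)))) (XT.nd (nat_lit 94) (nat_lit 1428) (nat_lit 0) (XT.lf (nat_lit 84) (nat_lit 1507858106) (nat_lit 0) (nat_lit 20720151392) (nat_lit 840) (nat_lit 1507858106) (nat_lit 134) (nat_lit 1) (nat_lit 133) (nat_lit 1) (nat_lit 143) (nat_lit 1) (nat_lit 168) (nat_lit 281) (nat_lit 271)) (XT.nd (nat_lit 94) (nat_lit 588) (nat_lit 0) (XT.lf (nat_lit 924) (nat_lit 910708798) (nat_lit 0) (nat_lit 11148788424) (nat_lit 840) (nat_lit 11148788424) (nat_lit 134) (nat_lit 1) (nat_lit 123) (nat_lit 1) (nat_lit 133) (nat_lit 1) (nat_lit 169) (nat_lit 281) (nat_lit 270)) (XT.lf (nat_lit 588) (nat_lit 21612266715) (nat_lit 0) (nat_lit 545551443) (nat_lit 504) (nat_lit 545551443) (nat_lit 123) (nat_lit 1) (nat_lit 116) (nat_lit 1) (nat_lit 122) (nat_lit 1) (nat_lit 170) (nat_lit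 281) (nat_lit 269))))) (XT.nd (nat_lit 282) (nat_lit 756) (nat_lit 0) (XT.nd (nat_lit 94) (nat_lit 420) (nat_lit 0) (XT.lf (nat_lit 84) (nat_lit 9448845393) (nat_lit 0) (nat_lit 3307257905) (nat_lit 588) (nat_lit 9448845393) (nat_lit 117) (nat_lit 1) (nat_lit 116) (nat_lit 1) (nat_lit 123) (nat_lit 1) (nat_lit 171) (nat_lit 281) (nat_lit 268)) (XT.nd (nat_lit 94) (nat_lit 0) (nat_lit 0) (XT.lf (nat_lit 504) (nat_lit 16259037508) (nat_lit 0) (nat_lit 2734342233) (nat_lit 420) (nat_lit 2734342233) (nat_lit 117) (nat_lit 1) (nat_lit 111) (nat_lit 1) (nat_lit 116) (nat_lit 1) (nat_lit 172) (nat_lit 281) (nat_lit 267)) (XT.lf (nat_lit 84) (nat_lit 6739746393) (nat_lit 0) (nat_lit 7781035094) (nat_lit 504) (nat_lit 6739746393) (nat_lit 112) (nat_lit 1) (nat_lit 111) (nat_lit 1) (nat_lit 117) (nat_lit 1) (nat_lit 173) (nat_lit 281) (nat_lit 266)))) (XT.nd (nat_lit 188) (nat_lit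 336) (nat_lit 0) (XT.nd (nat_lit 94) (nat_lit 0) (nat_lit 0) (XT.lf (nat_lit 504) (nat_lit 10706806773) (nat_lit 0) (nat_lit 5051399067) (nat_lit 420) (nat_lit 5051399067) (nat_lit 112) (nat_lit 1) (nat_lit 106) (nat_lit 1) (nat_lit 111) (nat_lit 1) (nat_lit 174) (nat_lit 281) (nat_lit 265)) (XT.lf (nat_lit 84) (nat_lit 3945316002) (nat_lit 0) (nat_lit 12481164292) (nat_lit 504) (nat_lit 3945316002) (nat_lit 107) (nat_lit 1) (nat_lit 106) (nat_lit 1) (nat_lit 112) (nat_lit 1) (nat_lit 175) (nat_lit 281) (nat_lit 264))) (XT.nd (nat_lit 94) (nat_lit 0) (nat_lit 0) (XT.lf (nat_lit 420) (nat_lit 5007251693) (nat_lit 0) (nat_lit 7468998935) (nat_lit 336) (nat_lit 7468998935) (nat_lit 107) (nat_lit 1) (nat_lit 102) (nat_lit 1) (nat_lit 106) (nat_lit 1) (nat_lit 176) (nat_lit 281) (nat_lit 263)) (XT.lf (nat_lit 84) (nat_lit 1089544557) (nat_lit 0) (nat_lit 17356016607) (nat_lit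 420) (nat_lit 1089544557) (nat_lit 103) (nat_lit 1) (nat_lit 102) (nat_lit 1) (nat_lit 107) (nat_lit 1) (nat_lit 177) (nat_lit 281) (nat_lit 262)))))) (XT.nd (nat_lit 658) (nat_lit 1092) (nat_lit 0) (XT.nd (nat_lit 282) (nat_lit 1008) (nat_lit 0) (XT.nd (nat_lit 94) (nat_lit 336) (nat_lit 0) (XT.lf (nat_lit 84) (nat_lit 9180815519) (nat_lit 0) (nat_lit 768911133) (nat_lit 420) (nat_lit 9180815519) (nat_lit 98) (nat_lit 1) (nat_lit 97) (nat_lit 1) (nat_lit 102) (nat_lit 1) (nat_lit 178) (nat_lit 281) (nat_lit 261)) (XT.nd (nat_lit 94) (nat_lit 0) (nat_lit 0) (XT.lf (nat_lit 420) (nat_lit 15186516699) (nat_lit 0) (nat_lit 1777434348) (nat_lit 336) (nat_lit 1777434348) (nat_lit 98) (nat_lit 1) (nat_lit 93) (nat_lit 1) (nat_lit 97) (nat_lit 1) (nat_lit 179) (nat_lit 281) (nat_lit 260)) (XT.lf (nat_lit 84) (nat_lit 5956819495) (nat_lit 0) (nat_lit 6445265701) (nat_lit 420) (nat_lit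 5956819495) (nat_lit 94) (nat_lit 1) (nat_lit 93) (nat_lit 1) (nat_lit 98) (nat_lit 1) (nat_lit 180) (nat_lit 281) (nat_lit 259)))) (XT.nd (nat_lit 188) (nat_lit 672) (nat_lit 0) (XT.nd (nat_lit 94) (nat_lit 0) (nat_lit 0) (XT.lf (nat_lit 420) (nat_lit 8692656702) (nat_lit 0) (nat_lit 4648515184) (nat_lit 336) (nat_lit 4648515184) (nat_lit 94) (nat_lit 1) (nat_lit 89) (nat_lit 1) (nat_lit 93) (nat_lit 1) (nat_lit 181) (nat_lit 281) (nat_lit 258)) (XT.lf (nat_lit 84) (nat_lit 2741275976) (nat_lit 0) (nat_lit 12148713453) (nat_lit 420) (nat_lit 2741275976) (nat_lit 90) (nat_lit 1) (nat_lit 89) (nat_lit 1) (nat_lit 94) (nat_lit 1) (nat_lit 182) (nat_lit 281) (nat_lit 257))) (XT.nd (nat_lit 94) (nat_lit 420) (nat_lit 0) (XT.lf (nat_lit 336) (nat_lit 2229362345) (nat_lit 0) (nat_lit 7525609143) (nat_lit 252) (nat_lit 7525609143) (nat_lit 90) (nat_lit 1) (nat_lit 86) (nat_lit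 1) (nat_lit 89) (nat_lit 1) (nat_lit 183) (nat_lit 281) (nat_lit 256)) (XT.lf (nat_lit 420) (nat_lit 16052572957) (nat_lit 0) (nat_lit 445428098) (nat_lit 336) (nat_lit 445428098) (nat_lit 86) (nat_lit 1) (nat_lit 81) (nat_lit 1) (nat_lit 85) (nat_lit 1) (nat_lit 184) (nat_lit 281) (nat_lit 255))))) (XT.nd (nat_lit 282) (nat_lit 840) (nat_lit 0) (XT.nd (nat_lit 94) (nat_lit 252) (nat_lit 0) (XT.lf (nat_lit 84) (nat_lit 6281490472) (nat_lit 0) (nat_lit 4045162822) (nat_lit 420) (nat_lit 6281490472) (nat_lit 82) (nat_lit 1) (nat_lit 81) (nat_lit 1) (nat_lit 86) (nat_lit 1) (nat_lit 185) (nat_lit 281) (nat_lit 254)) (XT.nd (nat_lit 94) (nat_lit 0) (nat_lit 0) (XT.lf (nat_lit 336) (nat_lit 9174315420) (nat_lit 0) (nat_lit 3555701024) (nat_lit 252) (nat_lit 3555701024) (nat_lit 82) (nat_lit 1) (nat_lit 78) (nat_lit 1) (nat_lit 81) (nat_lit 1) (nat_lit 186) (nat_lit 281) (nat_lit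 253)) (XT.lf (nat_lit 84) (nat_lit 2898308153) (nat_lit 0) (nat_lit 10174866658) (nat_lit 336) (nat_lit 2898308153) (nat_lit 79) (nat_lit 1) (nat_lit 78) (nat_lit 1) (nat_lit 82) (nat_lit 1) (nat_lit 187) (nat_lit 281) (nat_lit 252)))) (XT.nd (nat_lit 188) (nat_lit 252) (nat_lit 0) (XT.nd (nat_lit 94) (nat_lit 336) (nat_lit 0) (XT.lf (nat_lit 336) (nat_lit 2415649255) (nat_lit 0) (nat_lit 6624373977) (nat_lit 252) (nat_lit 6624373977) (nat_lit 79) (nat_lit 1) (nat_lit 75) (nat_lit 1) (nat_lit 78) (nat_lit 1) (nat_lit 188) (nat_lit 281) (nat_lit 251)) (XT.lf (nat_lit 336) (nat_lit 14538411526) (nat_lit 0) (nat_lit 415154278) (nat_lit 252) (nat_lit 415154278) (nat_lit 75) (nat_lit 1) (nat_lit 71) (nat_lit 1) (nat_lit 74) (nat_lit 1) (nat_lit 189) (nat_lit 281) (nat_lit 250))) (XT.nd (nat_lit 94) (nat_lit 252) (nat_lit 0) (XT.lf (nat_lit 84) (nat_lit 5499464726) (nat_lit 0)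 (nat_lit 4075048141) (nat_lit 336) (nat_lit 5499464726) (nat_lit 72) (nat_lit 1) (nat_lit 71) (nat_lit 1) (nat_lit 75) (nat_lit 1) (nat_lit 190) (nat_lit 281) (nat_lit 249)) (XT.lf (nat_lit 336) (nat_lit 7562267562) (nat_lit 0) (nat_lit 3613936532) (nat_lit 252) (nat_lit 3613936532) (nat_lit 72) (nat_lit 1) (nat_lit 68) (nat_lit 1) (nat_lit 71) (nat_lit 1) (nat_lit 191) (nat_lit 281) (nat_lit 248))))))) (XT.nd (nat_lit 1316) (nat_lit 1680) (nat_lit 0) (XT.nd (nat_lit 658) (nat_lit 756) (nat_lit 0) (XT.nd (nat_lit 282) (nat_lit 420) (nat_lit 0) (XT.nd (nat_lit 94) (nat_lit 504) (nat_lit 0) (XT.lf (nat_lit 84) (nat_lit 2082642319) (nat_lit 0) (nat_lit 10348631656) (nat_lit 336) (nat_lit 2082642319) (nat_lit 69) (nat_lit 1) (nat_lit 68) (nat_lit 1) (nat_lit 72) (nat_lit 1) (nat_lit 192) (nat_lit 281) (nat_lit 247)) (XT.nd (nat_lit 94) (nat_lit 336) (nat_lit 0) (XT.lf (nat_lit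 252) (nat_lit 763149392) (nat_lit 0) (nat_lit 6739873926) (nat_lit 168) (nat_lit 6739873926) (nat_lit 69) (nat_lit 1) (nat_lit 66) (nat_lit 1) (nat_lit 68) (nat_lit 1) (nat_lit 193) (nat_lit 281) (nat_lit 246)) (XT.lf (nat_lit 336) (nat_lit 11530931420) (nat_lit 0) (nat_lit 1224668496) (nat_lit 252) (nat_lit 1224668496) (nat_lit 66) (nat_lit 1) (nat_lit 62) (nat_lit 1) (nat_lit 65) (nat_lit 1) (nat_lit 194) (nat_lit 281) (nat_lit 245)))) (XT.nd (nat_lit 188) (nat_lit 252) (nat_lit 0) (XT.nd (nat_lit 94) (nat_lit 168) (nat_lit 0) (XT.lf (nat_lit 84) (nat_lit 4027480633) (nat_lit 0) (nat_lit 5665615567) (nat_lit 336) (nat_lit 4027480633) (nat_lit 63) (nat_lit 1) (nat_lit 62) (nat_lit 1) (nat_lit 66) (nat_lit 1) (nat_lit 195) (nat_lit 281) (nat_lit 244)) (XT.lf (nat_lit 252) (nat_lit 4653132607) (nat_lit 0) (nat_lit 4407883721) (nat_lit 168) (nat_lit 4407883721) (nat_lit 63)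 (nat_lit 1) (nat_lit 60) (nat_lit 1) (nat_lit 62) (nat_lit 1) (nat_lit 196) (nat_lit 281) (nat_lit 243))) (XT.nd (nat_lit 94) (nat_lit 252) (nat_lit 0) (XT.lf (nat_lit 84) (nat_lit 668507462) (nat_lit 0) (nat_lit 11888560527) (nat_lit 252) (nat_lit 668507462) (nat_lit 61) (nat_lit 1) (nat_lit 60) (nat_lit 1) (nat_lit 63) (nat_lit 1) (nat_lit 197) (nat_lit 281) (nat_lit 242)) (XT.lf (nat_lit 84) (nat_lit 5517309374) (nat_lit 0) (nat_lit 1948516608) (nat_lit 252) (nat_lit 5517309374) (nat_lit 58) (nat_lit 1) (nat_lit 57) (nat_lit 1) (nat_lit 60) (nat_lit 1) (nat_lit 198) (nat_lit 281) (nat_lit 241))))) (XT.nd (nat_lit 282) (nat_lit 420) (nat_lit 0) (XT.nd (nat_lit 94) (nat_lit 168) (nat_lit 0) (XT.lf (nat_lit 252) (nat_lit 7661751057) (nat_lit 0) (nat_lit 2543493763) (nat_lit 168) (nat_lit 2543493763) (nat_lit 58) (nat_lit 1) (nat_lit 55) (nat_lit 1) (nat_lit 57) (nat_lit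 1) (nat_lit 199) (nat_lit 281) (nat_lit 240)) (XT.nd (nat_lit 94) (nat_lit 168) (nat_lit 0) (XT.lf (nat_lit 84) (nat_lit 2161946818) (nat_lit 0) (nat_lit 8195628855) (nat_lit 252) (nat_lit 2161946818) (nat_lit 56) (nat_lit 1) (nat_lit 55) (nat_lit 1) (nat_lit 58) (nat_lit 1) (nat_lit 200) (nat_lit 281) (nat_lit 239)) (XT.lf (nat_lit 252) (nat_lit 1012794247) (nat_lit 0) (nat_lit 5641066280) (nat_lit 168) (nat_lit 5641066280) (nat_lit 56) (nat_lit 1) (nat_lit 53) (nat_lit 1) (nat_lit 55) (nat_lit 1) (nat_lit 201) (nat_lit 281) (nat_lit 238)))) (XT.nd (nat_lit 188) (nat_lit 168) (nat_lit 0) (XT.nd (nat_lit 94) (nat_lit 0) (nat_lit 0) (XT.lf (nat_lit 252) (nat_lit 9954396171) (nat_lit 0) (nat_lit 1061221392) (nat_lit 168) (nat_lit 1061221392) (nat_lit 53) (nat_lit 1) (nat_lit 50) (nat_lit 1) (nat_lit 52) (nat_lit 1) (nat_lit 202) (nat_lit 281) (nat_lit 237)) (XT.lf (nat_lit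 84) (nat_lit 3313842879) (nat_lit 0) (nat_lit 5232926701) (nat_lit 252) (nat_lit 3313842879) (nat_lit 51) (nat_lit 1) (nat_lit 50) (nat_lit 1) (nat_lit 53) (nat_lit 1) (nat_lit 203) (nat_lit 281) (nat_lit 236))) (XT.nd (nat_lit 94) (nat_lit 0) (nat_lit 0) (XT.lf (nat_lit 252) (nat_lit 3374988083) (nat_lit 0) (nat_lit 4137837617) (nat_lit 168) (nat_lit 4137837617) (nat_lit 51) (nat_lit 1) (nat_lit 48) (nat_lit 1) (nat_lit 50) (nat_lit 1) (nat_lit 204) (nat_lit 281) (nat_lit 235)) (XT.lf (nat_lit 84) (nat_lit 110926550) (nat_lit 0) (nat_lit 11226224004) (nat_lit 252) (nat_lit 110926550) (nat_lit 49) (nat_lit 1) (nat_lit 48) (nat_lit 1) (nat_lit 51) (nat_lit 1) (nat_lit 205) (nat_lit 281) (nat_lit 234)))))) (XT.nd (nat_lit 658) (nat_lit 924) (nat_lit 0) (XT.nd (nat_lit 282) (nat_lit 420) (nat_lit 0) (XT.nd (nat_lit 94) (nat_lit 168) (nat_lit 0) (XT.lf (nat_lit 84) (nat_lit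 4188405672) (nat_lit 0) (nat_lit 2867391804) (nat_lit 168) (nat_lit 4188405672) (nat_lit 47) (nat_lit 1) (nat_lit 46) (nat_lit 1) (nat_lit 48) (nat_lit 1) (nat_lit 206) (nat_lit 281) (nat_lit 233)) (XT.nd (nat_lit 94) (nat_lit 0) (nat_lit 0) (XT.lf (nat_lit 252) (nat_lit 5197334620) (nat_lit 0) (nat_lit 2925083941) (nat_lit 168) (nat_lit 2925083941) (nat_lit 47) (nat_lit 1) (nat_lit 44) (nat_lit 1) (nat_lit 46) (nat_lit 1) (nat_lit 207) (nat_lit 281) (nat_lit 232)) (XT.lf (nat_lit 84) (nat_lit 1042029671) (nat_lit 0) (nat_lit 8772051966) (nat_lit 252) (nat_lit 1042029671) (nat_lit 45) (nat_lit 1) (nat_lit 44) (nat_lit 1) (nat_lit 47) (nat_lit 1) (nat_lit 208) (nat_lit 281) (nat_lit 231)))) (XT.nd (nat_lit 188) (nat_lit 84) (nat_lit 0) (XT.nd (nat_lit 94) (nat_lit 168) (nat_lit 0) (XT.lf (nat_lit 84) (nat_lit 4838286887) (nat_lit 0) (nat_lit 989724673) (nat_lit 168) (nat_lit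 4838286887) (nat_lit 43) (nat_lit 1) (nat_lit 42) (nat_lit 1) (nat_lit 44) (nat_lit 1) (nat_lit 209) (nat_lit 281) (nat_lit 230)) (XT.lf (nat_lit 252) (nat_lit 6581311074) (nat_lit 0) (nat_lit 1950163982) (nat_lit 168) (nat_lit 1950163982) (nat_lit 43) (nat_lit 1) (nat_lit 40) (nat_lit 1) (nat_lit 42) (nat_lit 1) (nat_lit 210) (nat_lit 281) (nat_lit 229))) (XT.nd (nat_lit 94) (nat_lit 84) (nat_lit 0) (XT.lf (nat_lit 84) (nat_lit 1762775745) (nat_lit 0) (nat_lit 6775083810) (nat_lit 252) (nat_lit 1762775745) (nat_lit 41) (nat_lit 1) (nat_lit 40) (nat_lit 1) (nat_lit 43) (nat_lit 1) (nat_lit 211) (nat_lit 281) (nat_lit 228)) (XT.lf (nat_lit 168) (nat_lit 506028722) (nat_lit 0) (nat_lit 4808509233) (nat_lit 84) (nat_lit 4808509233) (nat_lit 41) (nat_lit 1) (nat_lit 39) (nat_lit 1) (nat_lit 40) (nat_lit 1) (nat_lit 212) (nat_lit 281) (nat_lit 227))))) (XT.nd (nat_lit 282) (nat_lit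 588) (nat_lit 0) (XT.nd (nat_lit 94) (nat_lit 84) (nat_lit 0) (XT.lf (nat_lit 252) (nat_lit 7610128547) (nat_lit 0) (nat_lit 1169823957) (nat_lit 168) (nat_lit 1169823957) (nat_lit 39) (nat_lit 1) (nat_lit 36) (nat_lit 1) (nat_lit 38) (nat_lit 1) (nat_lit 213) (nat_lit 281) (nat_lit 226)) (XT.nd (nat_lit 94) (nat_lit 84) (nat_lit 0) (XT.lf (nat_lit 84) (nat_lit 2312616497) (nat_lit 0) (nat_lit 5153206739) (nat_lit 252) (nat_lit 2312616497) (nat_lit 37) (nat_lit 1) (nat_lit 36) (nat_lit 1) (nat_lit 39) (nat_lit 1) (nat_lit 214) (nat_lit 281) (nat_lit 225)) (XT.lf (nat_lit 168) (nat_lit 1699359089) (nat_lit 0) (nat_lit 3955972446) (nat_lit 84) (nat_lit 3955972446) (nat_lit 37) (nat_lit 1) (nat_lit 35) (nat_lit 1) (nat_lit 36) (nat_lit 1) (nat_lit 215) (nat_lit 281) (nat_lit 224)))) (XT.nd (nat_lit 188) (nat_lit 336) (nat_lit 0) (XT.nd (nat_lit 94) (nat_lit 0) (nat_lit 0) (XT.lf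 (nat_lit 252) (nat_lit 8351983625) (nat_lit 0) (nat_lit 548530611) (nat_lit 168) (nat_lit 548530611) (nat_lit 35) (nat_lit 1) (nat_lit 32) (nat_lit 1) (nat_lit 34) (nat_lit 1) (nat_lit 216) (nat_lit 281) (nat_lit 223)) (XT.lf (nat_lit 84) (nat_lit 2723906296) (nat_lit 0) (nat_lit 3838916435) (nat_lit 252) (nat_lit 2723906296) (nat_lit 33) (nat_lit 1) (nat_lit 32) (nat_lit 1) (nat_lit 35) (nat_lit 1) (nat_lit 217) (nat_lit 281) (nat_lit 222))) (XT.nd (nat_lit 94) (nat_lit 252) (nat_lit 0) (XT.lf (nat_lit 168) (nat_lit 2620017412) (nat_lit 0) (nat_lit 3254588322) (nat_lit 84) (nat_lit 3254588322) (nat_lit 33) (nat_lit 1) (nat_lit 31) (nat_lit 1) (nat_lit 32) (nat_lit 1) (nat_lit 218) (nat_lit 281) (nat_lit 221)) (XT.lf (nat_lit 252) (nat_lit 8862732871) (nat_lit 0) (nat_lit 57099916) (nat_lit 168) (nat_lit 57099916) (nat_lit 31) (nat_lit 1) (nat_lit 28) (nat_lit 1) (nat_lit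 30) (nat_lit 1) (nat_lit 219) (nat_lit 281) (nat_lit 220))))))))
noncomputable def ec120 : XT := (XT.nd (nat_lit 2538) (nat_lit 252) (nat_lit 0) (XT.nd (nat_lit 1222) (nat_lit 1092) (nat_lit 0) (XT.nd (nat_lit 564) (nat_lit 672) (nat_lit 0) (XT.nd (nat_lit 282) (nat_lit 252) (nat_lit 0) (XT.nd (nat_lit 94) (nat_lit 84) (nat_lit 0) (XT.lf (nat_lit 84) (nat_lit 3023165385) (nat_lit 0) (nat_lit 2776724620) (nat_lit 252) (nat_lit 3023165385) (nat_lit 29) (nat_lit 1) (nat_lit 28) (nat_lit 1) (nat_lit 31) (nat_lit 1) (nat_lit 220) (nat_lit 281) (nat_lit 219)) (XT.nd (nat_lit 94) (nat_lit 0) (nat_lit 0) (XT.lf (nat_lit 168) (nat_lit 3319257173) (nat_lit 0) (nat_lit 2677557867) (nat_lit 84) (nat_lit 2677557867) (nat_lit 29) (nat_lit 1) (nat_lit 27) (nat_lit 1) (nat_lit 28) (nat_lit 1) (nat_lit 221) (nat_lit 281) (nat_lit 218)) (XT.lf (nat_lit 0) (nat_lit 333815086) (nat_lit 0) (nat_lit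 7862549225) (nat_lit 168) (nat_lit 333815086) (nat_lit 27) (nat_lit 3) (nat_lit 27) (nat_lit 1) (nat_lit 29) (nat_lit 1) (nat_lit 222) (nat_lit 281) (nat_lit 217)))) (XT.nd (nat_lit 94) (nat_lit 84) (nat_lit 0) (XT.lf (nat_lit 84) (nat_lit 3232118914) (nat_lit 0) (nat_lit 1921026377) (nat_lit 168) (nat_lit 3232118914) (nat_lit 26) (nat_lit 1) (nat_lit 25) (nat_lit 1) (nat_lit 27) (nat_lit 1) (nat_lit 223) (nat_lit 281) (nat_lit 216)) (XT.nd (nat_lit 94) (nat_lit 0) (nat_lit 0) (XT.lf (nat_lit 168) (nat_lit 3839106201) (nat_lit 0) (nat_lit 2202833483) (nat_lit 84) (nat_lit 2202833483) (nat_lit 26) (nat_lit 1) (nat_lit 24) (nat_lit 1) (nat_lit 25) (nat_lit 1) (nat_lit 224) (nat_lit 281) (nat_lit 215)) (XT.lf (nat_lit 0) (nat_lit 638022336) (nat_lit 0) (nat_lit 6831930544) (nat_lit 168) (nat_lit 638022336) (nat_lit 24) (nat_lit 3) (nat_lit 24) (nat_lit 1) (nat_lit 26) (nat_lit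 1) (nat_lit 225) (nat_lit 281) (nat_lit 214))))) (XT.nd (nat_lit 282) (nat_lit 420) (nat_lit 0) (XT.nd (nat_lit 94) (nat_lit 84) (nat_lit 0) (XT.lf (nat_lit 84) (nat_lit 3368551534) (nat_lit 0) (nat_lit 1234345689) (nat_lit 168) (nat_lit 3368551534) (nat_lit 23) (nat_lit 1) (nat_lit 22) (nat_lit 1) (nat_lit 24) (nat_lit 1) (nat_lit 226) (nat_lit 281) (nat_lit 213)) (XT.nd (nat_lit 94) (nat_lit 0) (nat_lit 0) (XT.lf (nat_lit 168) (nat_lit 4214008943) (nat_lit 0) (nat_lit 1812276558) (nat_lit 84) (nat_lit 1812276558) (nat_lit 23) (nat_lit 1) (nat_lit 21) (nat_lit 1) (nat_lit 22) (nat_lit 1) (nat_lit 227) (nat_lit 281) (nat_lit 212)) (XT.lf (nat_lit 0) (nat_lit 870990021) (nat_lit 0) (nat_lit 5966733632) (nat_lit 168) (nat_lit 870990021) (nat_lit 21) (nat_lit 3) (nat_lit 21) (nat_lit 1) (nat_lit 23) (nat_lit 1) (nat_lit 228) (nat_lit 281) (nat_lit 211)))) (XT.nd (nat_lit 188)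 (nat_lit 168) (nat_lit 0) (XT.nd (nat_lit 94) (nat_lit 84) (nat_lit 0) (XT.lf (nat_lit 84) (nat_lit 3447010260) (nat_lit 0) (nat_lit 685892143) (nat_lit 168) (nat_lit 3447010260) (nat_lit 20) (nat_lit 1) (nat_lit 19) (nat_lit 1) (nat_lit 21) (nat_lit 1) (nat_lit 229) (nat_lit 281) (nat_lit 210)) (XT.lf (nat_lit 168) (nat_lit 4472177273) (nat_lit 0) (nat_lit 1490964409) (nat_lit 84) (nat_lit 1490964409) (nat_lit 20) (nat_lit 1) (nat_lit 18) (nat_lit 1) (nat_lit 19) (nat_lit 1) (nat_lit 230) (nat_lit 281) (nat_lit 209))) (XT.nd (nat_lit 94) (nat_lit 168) (nat_lit 0) (XT.lf (nat_lit 0) (nat_lit 1046172756) (nat_lit 0) (nat_lit 5238453636) (nat_lit 168) (nat_lit 1046172756) (nat_lit 18) (nat_lit 3) (nat_lit 18) (nat_lit 1) (nat_lit 20) (nat_lit 1) (nat_lit 231) (nat_lit 281) (nat_lit 208)) (XT.lf (nat_lit 84) (nat_lit 3479382515) (nat_lit 0) (nat_lit 250373629) (nat_lit 168)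 (nat_lit 3479382515) (nat_lit 17) (nat_lit 1) (nat_lit 16) (nat_lit 1) (nat_lit 18) (nat_lit 1) (nat_lit 232) (nat_lit 281) (nat_lit 207)))))) (XT.nd (nat_lit 658) (nat_lit 504) (nat_lit 0) (XT.nd (nat_lit 282) (nat_lit 420) (nat_lit 0) (XT.nd (nat_lit 94) (nat_lit 84) (nat_lit 0) (XT.lf (nat_lit 168) (nat_lit 4636701488) (nat_lit 0) (nat_lit 1226620109) (nat_lit 84) (nat_lit 1226620109) (nat_lit 17) (nat_lit 1) (nat_lit 15) (nat_lit 1) (nat_lit 16) (nat_lit 1) (nat_lit 233) (nat_lit 281) (nat_lit 206)) (XT.nd (nat_lit 94) (nat_lit 84) (nat_lit 0) (XT.lf (nat_lit 0) (nat_lit 1174600449) (nat_lit 0) (nat_lit 4623600304) (nat_lit 168) (nat_lit 1174600449) (nat_lit 15) (nat_lit 3) (nat_lit 15) (nat_lit 1) (nat_lit 17) (nat_lit 1) (nat_lit 234) (nat_lit 281) (nat_lit 205)) (XT.lf (nat_lit 84) (nat_lit 96054711) (nat_lit 0) (nat_lit 3380816477) (nat_lit 84) (nat_lit 3380816477)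 (nat_lit 15) (nat_lit 3) (nat_lit 14) (nat_lit 1) (nat_lit 15) (nat_lit 1) (nat_lit 235) (nat_lit 281) (nat_lit 204)))) (XT.nd (nat_lit 188) (nat_lit 252) (nat_lit 0) (XT.nd (nat_lit 94) (nat_lit 0) (nat_lit 0) (XT.lf (nat_lit 168) (nat_lit 4726464053) (nat_lit 0) (nat_lit 1009143399) (nat_lit 84) (nat_lit 1009143399) (nat_lit 14) (nat_lit 1) (nat_lit 12) (nat_lit 1) (nat_lit 13) (nat_lit 1) (nat_lit 236) (nat_lit 281) (nat_lit 203)) (XT.lf (nat_lit 0) (nat_lit 1265310062) (nat_lit 0) (nat_lit 4102810778) (nat_lit 168) (nat_lit 1265310062) (nat_lit 12) (nat_lit 3) (nat_lit 12) (nat_lit 1) (nat_lit 14) (nat_lit 1) (nat_lit 237) (nat_lit 281) (nat_lit 202))) (XT.nd (nat_lit 94) (nat_lit 168) (nat_lit 0) (XT.lf (nat_lit 84) (nat_lit 373165824) (nat_lit 0) (nat_lit 3075547458) (nat_lit 84) (nat_lit 3075547458) (nat_lit 12) (nat_lit 3) (nat_lit 11) (nat_lit 1) (nat_lit 12) (nat_lit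 1) (nat_lit 238) (nat_lit 281) (nat_lit 201)) (XT.lf (nat_lit 168) (nat_lit 4756891068) (nat_lit 0) (nat_lit 830224772) (nat_lit 84) (nat_lit 830224772) (nat_lit 11) (nat_lit 1) (nat_lit 9) (nat_lit 1) (nat_lit 10) (nat_lit 1) (nat_lit 239) (nat_lit 281) (nat_lit 200))))) (XT.nd (nat_lit 282) (nat_lit 252) (nat_lit 0) (XT.nd (nat_lit 94) (nat_lit 252) (nat_lit 0) (XT.lf (nat_lit 0) (nat_lit 1325700734) (nat_lit 0) (nat_lit 3660119595) (nat_lit 168) (nat_lit 1325700734) (nat_lit 9) (nat_lit 3) (nat_lit 9) (nat_lit 1) (nat_lit 11) (nat_lit 1) (nat_lit 240) (nat_lit 281) (nat_lit 199)) (XT.nd (nat_lit 94) (nat_lit 168) (nat_lit 0) (XT.lf (nat_lit 84) (nat_lit 587139090) (nat_lit 0) (nat_lit 2810395149) (nat_lit 84) (nat_lit 2810395149) (nat_lit 9) (nat_lit 3) (nat_lit 8) (nat_lit 1) (nat_lit 9) (nat_lit 1) (nat_lit 241) (nat_lit 281) (nat_lit 198)) (XT.lf (nat_lit 168) (nat_lit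 4740570240) (nat_lit 0) (nat_lit 683027974) (nat_lit 84) (nat_lit 683027974) (nat_lit 8) (nat_lit 1) (nat_lit 6) (nat_lit 1) (nat_lit 7) (nat_lit 1) (nat_lit 242) (nat_lit 281) (nat_lit 197)))) (XT.nd (nat_lit 188) (nat_lit 168) (nat_lit 0) (XT.nd (nat_lit 94) (nat_lit 84) (nat_lit 0) (XT.lf (nat_lit 0) (nat_lit 1361825860) (nat_lit 0) (nat_lit 3282358034) (nat_lit 168) (nat_lit 1361825860) (nat_lit 6) (nat_lit 3) (nat_lit 6) (nat_lit 1) (nat_lit 8) (nat_lit 1) (nat_lit 243) (nat_lit 281) (nat_lit 196)) (XT.lf (nat_lit 84) (nat_lit 749835681) (nat_lit 0) (nat_lit 2578913942) (nat_lit 84) (nat_lit 2578913942) (nat_lit 6) (nat_lit 3) (nat_lit 5) (nat_lit 1) (nat_lit 6) (nat_lit 1) (nat_lit 244) (nat_lit 281) (nat_lit 195))) (XT.nd (nat_lit 94) (nat_lit 0) (nat_lit 0) (XT.lf (nat_lit 168) (nat_lit 4687759045) (nat_lit 0) (nat_lit 561928805) (nat_lit 84) (nat_lit 561928805)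 (nat_lit 5) (nat_lit 1) (nat_lit 3) (nat_lit 1) (nat_lit 4) (nat_lit 1) (nat_lit 245) (nat_lit 281) (nat_lit 194)) (XT.lf (nat_lit 0) (nat_lit 1378633301) (nat_lit 0) (nat_lit 2958659874) (nat_lit 168) (nat_lit 1378633301) (nat_lit 3) (nat_lit 3) (nat_lit 3) (nat_lit 1) (nat_lit 5) (nat_lit 1) (nat_lit 246) (nat_lit 281) (nat_lit 193))))))) (XT.nd (nat_lit 1222) (nat_lit 0) (nat_lit 0) (XT.nd (nat_lit 564) (nat_lit 0) (nat_lit 0) (XT.nd (nat_lit 282) (nat_lit 0) (nat_lit 0) (XT.nd (nat_lit 94) (nat_lit 168) (nat_lit 0) (XT.lf (nat_lit 84) (nat_lit 870982050) (nat_lit 0) (nat_lit 2375769262) (nat_lit 84) (nat_lit 2375769262) (nat_lit 3) (nat_lit 3) (nat_lit 2) (nat_lit 1) (nat_lit 3) (nat_lit 1) (nat_lit 247) (nat_lit 281) (nat_lit 192)) (XT.nd (nat_lit 94) (nat_lit 0) (nat_lit 0) (XT.lf (nat_lit 0) (nat_lit 8035402839) (nat_lit 0) (nat_lit 0) (nat_lit 0) (nat_lit 0) (nat_lit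 0) (nat_lit 0) (nat_lit 1) (nat_lit 0) (nat_lit 1) (nat_lit 0) (nat_lit 248) (nat_lit 281) (nat_lit 191)) (XT.lf (nat_lit 0) (nat_lit 8030721125) (nat_lit 0) (nat_lit 0) (nat_lit 0) (nat_lit 0) (nat_lit 0) (nat_lit 0) (nat_lit 1) (nat_lit 0) (nat_lit 1) (nat_lit 0) (nat_lit 249) (nat_lit 281) (nat_lit 190)))) (XT.nd (nat_lit 94) (nat_lit 0) (nat_lit 0) (XT.lf (nat_lit 0) (nat_lit 8026262349) (nat_lit 0) (nat_lit 0) (nat_lit 0) (nat_lit 0) (nat_lit 0) (nat_lit 0) (nat_lit 1) (nat_lit 0) (nat_lit 1) (nat_lit 0) (nat_lit 250) (nat_lit 281) (nat_lit 189)) (XT.nd (nat_lit 94) (nat_lit 0) (nat_lit 0) (XT.lf (nat_lit 0) (nat_lit 8022015896) (nat_lit 0) (nat_lit 0) (nat_lit 0) (nat_lit 0) (nat_lit 0) (nat_lit 0) (nat_lit 1) (nat_lit 0) (nat_lit 1) (nat_lit 0) (nat_lit 251) (nat_lit 281) (nat_lit 188)) (XT.lf (nat_lit 0) (nat_lit 8017971655) (nat_lit 0) (nat_lit 0) (nat_lit 0) (nat_lit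 0) (nat_lit 0) (nat_lit 0) (nat_lit 1) (nat_lit 0) (nat_lit 1) (nat_lit 0) (nat_lit 252) (nat_lit 281) (nat_lit 187))))) (XT.nd (nat_lit 282) (nat_lit 0) (nat_lit 0) (XT.nd (nat_lit 94) (nat_lit 0) (nat_lit 0) (XT.lf (nat_lit 0) (nat_lit 8014119997) (nat_lit 0) (nat_lit 0) (nat_lit 0) (nat_lit 0) (nat_lit 0) (nat_lit 0) (nat_lit 1) (nat_lit 0) (nat_lit 1) (nat_lit 0) (nat_lit 253) (nat_lit 281) (nat_lit 186)) (XT.nd (nat_lit 94) (nat_lit 0) (nat_lit 0) (XT.lf (nat_lit 0) (nat_lit 8010451752) (nat_lit 0) (nat_lit 0) (nat_lit 0) (nat_lit 0) (nat_lit 0) (nat_lit 0) (nat_lit 1) (nat_lit 0) (nat_lit 1) (nat_lit 0) (nat_lit 254) (nat_lit 281) (nat_lit 185)) (XT.lf (nat_lit 0) (nat_lit 8006958184) (nat_lit 0) (nat_lit 0) (nat_lit 0) (nat_lit 0) (nat_lit 0) (nat_lit 0) (nat_lit 1) (nat_lit 0) (nat_lit 1) (nat_lit 0) (nat_lit 255) (nat_lit 281) (nat_lit 184)))) (XT.nd (nat_lit 188)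 (nat_lit 0) (nat_lit 0) (XT.nd (nat_lit 94) (nat_lit 0) (nat_lit 0) (XT.lf (nat_lit 0) (nat_lit 8003630977) (nat_lit 0) (nat_lit 0) (nat_lit 0) (nat_lit 0) (nat_lit 0) (nat_lit 0) (nat_lit 1) (nat_lit 0) (nat_lit 1) (nat_lit 0) (nat_lit 256) (nat_lit 281) (nat_lit 183)) (XT.lf (nat_lit 0) (nat_lit 8000462208) (nat_lit 0) (nat_lit 0) (nat_lit 0) (nat_lit 0) (nat_lit 0) (nat_lit 0) (nat_lit 1) (nat_lit 0) (nat_lit 1) (nat_lit 0) (nat_lit 257) (nat_lit 281) (nat_lit 182))) (XT.nd (nat_lit 94) (nat_lit 0) (nat_lit 0) (XT.lf (nat_lit 0) (nat_lit 7997444334) (nat_lit 0) (nat_lit 0) (nat_lit 0) (nat_lit 0) (nat_lit 0) (nat_lit 0) (nat_lit 1) (nat_lit 0) (nat_lit 1) (nat_lit 0) (nat_lit 258) (nat_lit 281) (nat_lit 181)) (XT.lf (nat_lit 0) (nat_lit 7994570167) (nat_lit 0) (nat_lit 0) (nat_lit 0) (nat_lit 0) (nat_lit 0) (nat_lit 0) (nat_lit 1) (nat_lit 0) (nat_lit 1) (nat_lit 0) (nat_lit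 259) (nat_lit 281) (nat_lit 180)))))) (XT.nd (nat_lit 658) (nat_lit 0) (nat_lit 0) (XT.nd (nat_lit 282) (nat_lit 0) (nat_lit 0) (XT.nd (nat_lit 94) (nat_lit 0) (nat_lit 0) (XT.lf (nat_lit 0) (nat_lit 7991832866) (nat_lit 0) (nat_lit 0) (nat_lit 0) (nat_lit 0) (nat_lit 0) (nat_lit 0) (nat_lit 1) (nat_lit 0) (nat_lit 1) (nat_lit 0) (nat_lit 260) (nat_lit 281) (nat_lit 179)) (XT.nd (nat_lit 94) (nat_lit 0) (nat_lit 0) (XT.lf (nat_lit 0) (nat_lit 7989225912) (nat_lit 0) (nat_lit 0) (nat_lit 0) (nat_lit 0) (nat_lit 0) (nat_lit 0) (nat_lit 1) (nat_lit 0) (nat_lit 1) (nat_lit 0) (nat_lit 261) (nat_lit 281) (nat_lit 178)) (XT.lf (nat_lit 0) (nat_lit 7986743099) (nat_lit 0) (nat_lit 0) (nat_lit 0) (nat_lit 0) (nat_lit 0) (nat_lit 0) (nat_lit 1) (nat_lit 0) (nat_lit 1) (nat_lit 0) (nat_lit 262) (nat_lit 281) (nat_lit 177)))) (XT.nd (nat_lit 188) (nat_lit 0) (nat_lit 0) (XT.nd (nat_lit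 94) (nat_lit 0) (nat_lit 0) (XT.lf (nat_lit 0) (nat_lit 7984378515) (nat_lit 0) (nat_lit 0) (nat_lit 0) (nat_lit 0) (nat_lit 0) (nat_lit 0) (nat_lit 1) (nat_lit 0) (nat_lit 1) (nat_lit 0) (nat_lit 263) (nat_lit 281) (nat_lit 176)) (XT.lf (nat_lit 0) (nat_lit 7982126530) (nat_lit 0) (nat_lit 0) (nat_lit 0) (nat_lit 0) (nat_lit 0) (nat_lit 0) (nat_lit 1) (nat_lit 0) (nat_lit 1) (nat_lit 0) (nat_lit 264) (nat_lit 281) (nat_lit 175))) (XT.nd (nat_lit 94) (nat_lit 0) (nat_lit 0) (XT.lf (nat_lit 0) (nat_lit 7979981783) (nat_lit 0) (nat_lit 0) (nat_lit 0) (nat_lit 0) (nat_lit 0) (nat_lit 0) (nat_lit 1) (nat_lit 0) (nat_lit 1) (nat_lit 0) (nat_lit 265) (nat_lit 281) (nat_lit 174)) (XT.lf (nat_lit 0) (nat_lit 7977939166) (nat_lit 0) (nat_lit 0) (nat_lit 0) (nat_lit 0) (nat_lit 0) (nat_lit 0) (nat_lit 1) (nat_lit 0) (nat_lit 1) (nat_lit 0) (nat_lit 266) (nat_lit 281) (nat_lit 173)))))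 (XT.nd (nat_lit 282) (nat_lit 0) (nat_lit 0) (XT.nd (nat_lit 94) (nat_lit 0) (nat_lit 0) (XT.lf (nat_lit 0) (nat_lit 7975993817) (nat_lit 0) (nat_lit 0) (nat_lit 0) (nat_lit 0) (nat_lit 0) (nat_lit 0) (nat_lit 1) (nat_lit 0) (nat_lit 1) (nat_lit 0) (nat_lit 267) (nat_lit 281) (nat_lit 172)) (XT.nd (nat_lit 94) (nat_lit 0) (nat_lit 0) (XT.lf (nat_lit 0) (nat_lit 7974141104) (nat_lit 0) (nat_lit 0) (nat_lit 0) (nat_lit 0) (nat_lit 0) (nat_lit 0) (nat_lit 1) (nat_lit 0) (nat_lit 1) (nat_lit 0) (nat_lit 268) (nat_lit 281) (nat_lit 171)) (XT.lf (nat_lit 0) (nat_lit 7972376615) (nat_lit 0) (nat_lit 0) (nat_lit 0) (nat_lit 0) (nat_lit 0) (nat_lit 0) (nat_lit 1) (nat_lit 0) (nat_lit 1) (nat_lit 0) (nat_lit 269) (nat_lit 281) (nat_lit 170)))) (XT.nd (nat_lit 188) (nat_lit 0) (nat_lit 0) (XT.nd (nat_lit 94) (nat_lit 0) (nat_lit 0) (XT.lf (nat_lit 0) (nat_lit 7970696149) (nat_lit 0)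 (nat_lit 0) (nat_lit 0) (nat_lit 0) (nat_lit 0) (nat_lit 0) (nat_lit 1) (nat_lit 0) (nat_lit 1) (nat_lit 0) (nat_lit 270) (nat_lit 281) (nat_lit 169)) (XT.lf (nat_lit 0) (nat_lit 7969095706) (nat_lit 0) (nat_lit 0) (nat_lit 0) (nat_lit 0) (nat_lit 0) (nat_lit 0) (nat_lit 1) (nat_lit 0) (nat_lit 1) (nat_lit 0) (nat_lit 271) (nat_lit 281) (nat_lit 168))) (XT.nd (nat_lit 94) (nat_lit 0) (nat_lit 0) (XT.lf (nat_lit 0) (nat_lit 7967571474) (nat_lit 0) (nat_lit 0) (nat_lit 0) (nat_lit 0) (nat_lit 0) (nat_lit 0) (nat_lit 1) (nat_lit 0) (nat_lit 1) (nat_lit 0) (nat_lit 272) (nat_lit 281) (nat_lit 167)) (XT.lf (nat_lit 0) (nat_lit 7966119824) (nat_lit 0) (nat_lit 0) (nat_lit 0) (nat_lit 0) (nat_lit 0) (nat_lit 0) (nat_lit 1) (nat_lit 0) (nat_lit 1) (nat_lit 0) (nat_lit 273) (nat_lit 281) (nat_lit 166))))))))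
noncomputable def ec121 : XT := (XT.nd (nat_lit 2538) (nat_lit 0) (nat_lit 0) (XT.nd (nat_lit 1222) (nat_lit 0) (nat_lit 0) (XT.nd (nat_lit 564) (nat_lit 0) (nat_lit 0) (XT.nd (nat_lit 282) (nat_lit 0) (nat_lit 0) (XT.nd (nat_lit 94) (nat_lit 0) (nat_lit 0) (XT.lf (nat_lit 0) (nat_lit 7964737301) (nat_lit 0) (nat_lit 0) (nat_lit 0) (nat_lit 0) (nat_lit 0) (nat_lit 0) (nat_lit 1) (nat_lit 0) (nat_lit 1) (nat_lit 0) (nat_lit 274) (nat_lit 281) (nat_lit 165)) (XT.nd (nat_lit 94) (nat_lit 0) (nat_lit 0) (XT.lf (nat_lit 0) (nat_lit 7963420612) (nat_lit 0) (nat_lit 0) (nat_lit 0) (nat_lit 0) (nat_lit 0) (nat_lit 0) (nat_lit 1) (nat_lit 0) (nat_lit 1) (nat_lit 0) (nat_lit 275) (nat_lit 281) (nat_lit 164)) (XT.lf (nat_lit 0) (nat_lit 7962166623) (nat_lit 0) (nat_lit 0) (nat_lit 0) (nat_lit 0) (nat_lit 0) (nat_lit 0) (nat_lit 1) (nat_lit 0) (nat_lit 1) (nat_lit 0) (nat_lit 276) (nat_lit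 281) (nat_lit 163)))) (XT.nd (nat_lit 94) (nat_lit 0) (nat_lit 0) (XT.lf (nat_lit 0) (nat_lit 7960972347) (nat_lit 0) (nat_lit 0) (nat_lit 0) (nat_lit 0) (nat_lit 0) (nat_lit 0) (nat_lit 1) (nat_lit 0) (nat_lit 1) (nat_lit 0) (nat_lit 277) (nat_lit 281) (nat_lit 162)) (XT.nd (nat_lit 94) (nat_lit 0) (nat_lit 0) (XT.lf (nat_lit 0) (nat_lit 7959834942) (nat_lit 0) (nat_lit 0) (nat_lit 0) (nat_lit 0) (nat_lit 0) (nat_lit 0) (nat_lit 1) (nat_lit 0) (nat_lit 1) (nat_lit 0) (nat_lit 278) (nat_lit 281) (nat_lit 161)) (XT.lf (nat_lit 0) (nat_lit 7958751699) (nat_lit 0) (nat_lit 0) (nat_lit 0) (nat_lit 0) (nat_lit 0) (nat_lit 0) (nat_lit 1) (nat_lit 0) (nat_lit 1) (nat_lit 0) (nat_lit 279) (nat_lit 281) (nat_lit 160))))) (XT.nd (nat_lit 282) (nat_lit 0) (nat_lit 0) (XT.nd (nat_lit 94) (nat_lit 0) (nat_lit 0) (XT.lf (nat_lit 0) (nat_lit 7957720039) (nat_lit 0) (nat_lit 0) (nat_lit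 0) (nat_lit 0) (nat_lit 0) (nat_lit 0) (nat_lit 1) (nat_lit 0) (nat_lit 1) (nat_lit 0) (nat_lit 280) (nat_lit 281) (nat_lit 159)) (XT.nd (nat_lit 94) (nat_lit 0) (nat_lit 0) (XT.lf (nat_lit 0) (nat_lit 7956737505) (nat_lit 0) (nat_lit 0) (nat_lit 0) (nat_lit 0) (nat_lit 0) (nat_lit 0) (nat_lit 1) (nat_lit 0) (nat_lit 1) (nat_lit 0) (nat_lit 281) (nat_lit 281) (nat_lit 158)) (XT.lf (nat_lit 0) (nat_lit 7955801759) (nat_lit 0) (nat_lit 0) (nat_lit 0) (nat_lit 0) (nat_lit 0) (nat_lit 0) (nat_lit 1) (nat_lit 0) (nat_lit 1) (nat_lit 0) (nat_lit 282) (nat_lit 281) (nat_lit 157)))) (XT.nd (nat_lit 188) (nat_lit 0) (nat_lit 0) (XT.nd (nat_lit 94) (nat_lit 0) (nat_lit 0) (XT.lf (nat_lit 0) (nat_lit 7954910572) (nat_lit 0) (nat_lit 0) (nat_lit 0) (nat_lit 0) (nat_lit 0) (nat_lit 0) (nat_lit 1) (nat_lit 0) (nat_lit 1) (nat_lit 0) (nat_lit 283) (nat_lit 281) (nat_lit 156)) (XT.lf (nat_lit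 0) (nat_lit 7954061823) (nat_lit 0) (nat_lit 0) (nat_lit 0) (nat_lit 0) (nat_lit 0) (nat_lit 0) (nat_lit 1) (nat_lit 0) (nat_lit 1) (nat_lit 0) (nat_lit 284) (nat_lit 281) (nat_lit 155))) (XT.nd (nat_lit 94) (nat_lit 0) (nat_lit 0) (XT.lf (nat_lit 0) (nat_lit 7953253490) (nat_lit 0) (nat_lit 0) (nat_lit 0) (nat_lit 0) (nat_lit 0) (nat_lit 0) (nat_lit 1) (nat_lit 0) (nat_lit 1) (nat_lit 0) (nat_lit 285) (nat_lit 281) (nat_lit 154)) (XT.lf (nat_lit 0) (nat_lit 7952483650) (nat_lit 0) (nat_lit 0) (nat_lit 0) (nat_lit 0) (nat_lit 0) (nat_lit 0) (nat_lit 1) (nat_lit 0) (nat_lit 1) (nat_lit 0) (nat_lit 286) (nat_lit 281) (nat_lit 153)))))) (XT.nd (nat_lit 658) (nat_lit 0) (nat_lit 0) (XT.nd (nat_lit 282) (nat_lit 0) (nat_lit 0) (XT.nd (nat_lit 94) (nat_lit 0) (nat_lit 0) (XT.lf (nat_lit 0) (nat_lit 7951750468) (nat_lit 0) (nat_lit 0) (nat_lit 0) (nat_lit 0) (nat_lit 0) (nat_lit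 0) (nat_lit 1) (nat_lit 0) (nat_lit 1) (nat_lit 0) (nat_lit 287) (nat_lit 281) (nat_lit 152)) (XT.nd (nat_lit 94) (nat_lit 0) (nat_lit 0) (XT.lf (nat_lit 0) (nat_lit 7951052200) (nat_lit 0) (nat_lit 0) (nat_lit 0) (nat_lit 0) (nat_lit 0) (nat_lit 0) (nat_lit 1) (nat_lit 0) (nat_lit 1) (nat_lit 0) (nat_lit 288) (nat_lit 281) (nat_lit 151)) (XT.lf (nat_lit 0) (nat_lit 7950387183) (nat_lit 0) (nat_lit 0) (nat_lit 0) (nat_lit 0) (nat_lit 0) (nat_lit 0) (nat_lit 1) (nat_lit 0) (nat_lit 1) (nat_lit 0) (nat_lit 289) (nat_lit 281) (nat_lit 150)))) (XT.nd (nat_lit 188) (nat_lit 0) (nat_lit 0) (XT.nd (nat_lit 94) (nat_lit 0) (nat_lit 0) (XT.lf (nat_lit 0) (nat_lit 7949753833) (nat_lit 0) (nat_lit 0) (nat_lit 0) (nat_lit 0) (nat_lit 0) (nat_lit 0) (nat_lit 1) (nat_lit 0) (nat_lit 1) (nat_lit 0) (nat_lit 290) (nat_lit 281) (nat_lit 149)) (XT.lf (nat_lit 0) (nat_lit 7949150642) (nat_lit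 0) (nat_lit 0) (nat_lit 0) (nat_lit 0) (nat_lit 0) (nat_lit 0) (nat_lit 1) (nat_lit 0) (nat_lit 1) (nat_lit 0) (nat_lit 291) (nat_lit 281) (nat_lit 148))) (XT.nd (nat_lit 94) (nat_lit 0) (nat_lit 0) (XT.lf (nat_lit 0) (nat_lit 7948576175) (nat_lit 0) (nat_lit 0) (nat_lit 0) (nat_lit 0) (nat_lit 0) (nat_lit 0) (nat_lit 1) (nat_lit 0) (nat_lit 1) (nat_lit 0) (nat_lit 292) (nat_lit 281) (nat_lit 147)) (XT.lf (nat_lit 0) (nat_lit 7948029064) (nat_lit 0) (nat_lit 0) (nat_lit 0) (nat_lit 0) (nat_lit 0) (nat_lit 0) (nat_lit 1) (nat_lit 0) (nat_lit 1) (nat_lit 0) (nat_lit 293) (nat_lit 281) (nat_lit 146))))) (XT.nd (nat_lit 282) (nat_lit 0) (nat_lit 0) (XT.nd (nat_lit 94) (nat_lit 0) (nat_lit 0) (XT.lf (nat_lit 0) (nat_lit 7947508006) (nat_lit 0) (nat_lit 0) (nat_lit 0) (nat_lit 0) (nat_lit 0) (nat_lit 0) (nat_lit 1) (nat_lit 0) (nat_lit 1) (nat_lit 0) (nat_lit 294) (nat_lit 281)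 (nat_lit 145)) (XT.nd (nat_lit 94) (nat_lit 0) (nat_lit 0) (XT.lf (nat_lit 0) (nat_lit 7947011759) (nat_lit 0) (nat_lit 0) (nat_lit 0) (nat_lit 0) (nat_lit 0) (nat_lit 0) (nat_lit 1) (nat_lit 0) (nat_lit 1) (nat_lit 0) (nat_lit 295) (nat_lit 281) (nat_lit 144)) (XT.lf (nat_lit 0) (nat_lit 7946539144) (nat_lit 0) (nat_lit 0) (nat_lit 0) (nat_lit 0) (nat_lit 0) (nat_lit 0) (nat_lit 1) (nat_lit 0) (nat_lit 1) (nat_lit 0) (nat_lit 296) (nat_lit 281) (nat_lit 143)))) (XT.nd (nat_lit 188) (nat_lit 0) (nat_lit 0) (XT.nd (nat_lit 94) (nat_lit 0) (nat_lit 0) (XT.lf (nat_lit 0) (nat_lit 7946089034) (nat_lit 0) (nat_lit 0) (nat_lit 0) (nat_lit 0) (nat_lit 0) (nat_lit 0) (nat_lit 1) (nat_lit 0) (nat_lit 1) (nat_lit 0) (nat_lit 297) (nat_lit 281) (nat_lit 142)) (XT.lf (nat_lit 0) (nat_lit 7945660358) (nat_lit 0) (nat_lit 0) (nat_lit 0) (nat_lit 0) (nat_lit 0) (nat_lit 0) (nat_lit 1)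 (nat_lit 0) (nat_lit 1) (nat_lit 0) (nat_lit 298) (nat_lit 281) (nat_lit 141))) (XT.nd (nat_lit 94) (nat_lit 0) (nat_lit 0) (XT.lf (nat_lit 0) (nat_lit 7945252095) (nat_lit 0) (nat_lit 0) (nat_lit 0) (nat_lit 0) (nat_lit 0) (nat_lit 0) (nat_lit 1) (nat_lit 0) (nat_lit 1) (nat_lit 0) (nat_lit 299) (nat_lit 281) (nat_lit 140)) (XT.lf (nat_lit 0) (nat_lit 7944863273) (nat_lit 0) (nat_lit 0) (nat_lit 0) (nat_lit 0) (nat_lit 0) (nat_lit 0) (nat_lit 1) (nat_lit 0) (nat_lit 1) (nat_lit 0) (nat_lit 300) (nat_lit 281) (nat_lit 139))))))) (XT.nd (nat_lit 31772) (nat_lit 0) (nat_lit 9324) (XT.nd (nat_lit 658) (nat_lit 0) (nat_lit 0) (XT.nd (nat_lit 282) (nat_lit 0) (nat_lit 0) (XT.nd (nat_lit 94) (nat_lit 0) (nat_lit 0) (XT.lf (nat_lit 0) (nat_lit 7944492967) (nat_lit 0) (nat_lit 0) (nat_lit 0) (nat_lit 0) (nat_lit 0) (nat_lit 0) (nat_lit 1) (nat_lit 0) (nat_lit 1) (nat_lit 0) (nat_lit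 301) (nat_lit 281) (nat_lit 138)) (XT.nd (nat_lit 94) (nat_lit 0) (nat_lit 0) (XT.lf (nat_lit 0) (nat_lit 7944140294) (nat_lit 0) (nat_lit 0) (nat_lit 0) (nat_lit 0) (nat_lit 0) (nat_lit 0) (nat_lit 1) (nat_lit 0) (nat_lit 1) (nat_lit 0) (nat_lit 302) (nat_lit 281) (nat_lit 137)) (XT.lf (nat_lit 0) (nat_lit 7943804415) (nat_lit 0) (nat_lit 0) (nat_lit 0) (nat_lit 0) (nat_lit 0) (nat_lit 0) (nat_lit 1) (nat_lit 0) (nat_lit 1) (nat_lit 0) (nat_lit 303) (nat_lit 281) (nat_lit 136)))) (XT.nd (nat_lit 188) (nat_lit 0) (nat_lit 0) (XT.nd (nat_lit 94) (nat_lit 0) (nat_lit 0) (XT.lf (nat_lit 0) (nat_lit 7943484530) (nat_lit 0) (nat_lit 0) (nat_lit 0) (nat_lit 0) (nat_lit 0) (nat_lit 0) (nat_lit 1) (nat_lit 0) (nat_lit 1) (nat_lit 0) (nat_lit 304) (nat_lit 281) (nat_lit 135)) (XT.lf (nat_lit 0) (nat_lit 7943179878) (nat_lit 0) (nat_lit 0) (nat_lit 0) (nat_lit 0) (nat_lit 0) (nat_lit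 0) (nat_lit 1) (nat_lit 0) (nat_lit 1) (nat_lit 0) (nat_lit 305) (nat_lit 281) (nat_lit 134))) (XT.nd (nat_lit 94) (nat_lit 0) (nat_lit 0) (XT.lf (nat_lit 0) (nat_lit 7942889733) (nat_lit 0) (nat_lit 0) (nat_lit 0) (nat_lit 0) (nat_lit 0) (nat_lit 0) (nat_lit 1) (nat_lit 0) (nat_lit 1) (nat_lit 0) (nat_lit 306) (nat_lit 281) (nat_lit 133)) (XT.lf (nat_lit 0) (nat_lit 7942613405) (nat_lit 0) (nat_lit 0) (nat_lit 0) (nat_lit 0) (nat_lit 0) (nat_lit 0) (nat_lit 1) (nat_lit 0) (nat_lit 1) (nat_lit 0) (nat_lit 307) (nat_lit 281) (nat_lit 132))))) (XT.nd (nat_lit 282) (nat_lit 0) (nat_lit 0) (XT.nd (nat_lit 94) (nat_lit 0) (nat_lit 0) (XT.lf (nat_lit 0) (nat_lit 7942350235) (nat_lit 0) (nat_lit 0) (nat_lit 0) (nat_lit 0) (nat_lit 0) (nat_lit 0) (nat_lit 1) (nat_lit 0) (nat_lit 1) (nat_lit 0) (nat_lit 308) (nat_lit 281) (nat_lit 131)) (XT.nd (nat_lit 94) (nat_lit 0) (nat_lit 0)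 (XT.lf (nat_lit 0) (nat_lit 7942099597) (nat_lit 0) (nat_lit 0) (nat_lit 0) (nat_lit 0) (nat_lit 0) (nat_lit 0) (nat_lit 1) (nat_lit 0) (nat_lit 1) (nat_lit 0) (nat_lit 309) (nat_lit 281) (nat_lit 130)) (XT.lf (nat_lit 0) (nat_lit 7941860894) (nat_lit 0) (nat_lit 0) (nat_lit 0) (nat_lit 0) (nat_lit 0) (nat_lit 0) (nat_lit 1) (nat_lit 0) (nat_lit 1) (nat_lit 0) (nat_lit 310) (nat_lit 281) (nat_lit 129)))) (XT.nd (nat_lit 30644) (nat_lit 0) (nat_lit 10752) (XT.nd (nat_lit 94) (nat_lit 0) (nat_lit 0) (XT.lf (nat_lit 0) (nat_lit 7941633558) (nat_lit 0) (nat_lit 0) (nat_lit 0) (nat_lit 0) (nat_lit 0) (nat_lit 0) (nat_lit 1) (nat_lit 0) (nat_lit 1) (nat_lit 0) (nat_lit 311) (nat_lit 281) (nat_lit 128)) (XT.lf (nat_lit 0) (nat_lit 7941417047) (nat_lit 0) (nat_lit 0) (nat_lit 0) (nat_lit 0) (nat_lit 0) (nat_lit 0) (nat_lit 1) (nat_lit 0) (nat_lit 1) (nat_lit 0) (nat_lit 312) (nat_lit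 281) (nat_lit 127))) (XT.nd (nat_lit 94) (nat_lit 0) (nat_lit 0) (XT.lf (nat_lit 924) (nat_lit 4170616335) (nat_lit 0) (nat_lit 7404919716) (nat_lit 924) (nat_lit 4170616335) (nat_lit 139) (nat_lit 1) (nat_lit 128) (nat_lit 0) (nat_lit 139) (nat_lit 0) (nat_lit 156) (nat_lit 282) (nat_lit 282)) (XT.lf (nat_lit 924) (nat_lit 16165829595) (nat_lit 84) (nat_lit 7285485527) (nat_lit 0) (nat_lit 7285485527) (nat_lit 139) (nat_lit 1) (nat_lit 129) (nat_lit 1) (nat_lit 128) (nat_lit 0) (nat_lit 157) (nat_lit 282) (nat_lit 281)))))) (XT.nd (nat_lit 658) (nat_lit 1512) (nat_lit 0) (XT.nd (nat_lit 282) (nat_lit 0) (nat_lit 84) (XT.nd (nat_lit 94) (nat_lit 0) (nat_lit 0) (XT.lf (nat_lit 924) (nat_lit 7704390976) (nat_lit 0) (nat_lit 14595871266) (nat_lit 840) (nat_lit 7704390976) (nat_lit 140) (nat_lit 1) (nat_lit 129) (nat_lit 1) (nat_lit 139) (nat_lit 1) (nat_lit 158) (nat_lit 282)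 (nat_lit 280)) (XT.nd (nat_lit 94) (nat_lit 0) (nat_lit 84) (XT.lf (nat_lit 924) (nat_lit 14452366920) (nat_lit 84) (nat_lit 7421896342) (nat_lit 0) (nat_lit 7421896342) (nat_lit 140) (nat_lit 1) (nat_lit 130) (nat_lit 1) (nat_lit 129) (nat_lit 1) (nat_lit 159) (nat_lit 282) (nat_lit 279)) (XT.lf (nat_lit 924) (nat_lit 6652285706) (nat_lit 0) (nat_lit 15305550272) (nat_lit 840) (nat_lit 6652285706) (nat_lit 141) (nat_lit 1) (nat_lit 130) (nat_lit 1) (nat_lit 140) (nat_lit 1) (nat_lit 160) (nat_lit 282) (nat_lit 278)))) (XT.nd (nat_lit 188) (nat_lit 0) (nat_lit 84) (XT.nd (nat_lit 94) (nat_lit 0) (nat_lit 84) (XT.lf (nat_lit 924) (nat_lit 11964569118) (nat_lit 84) (nat_lit 7990213851) (nat_lit 0) (nat_lit 7990213851) (nat_lit 141) (nat_lit 1) (nat_lit 131) (nat_lit 1) (nat_lit 130) (nat_lit 1) (nat_lit 161) (nat_lit 282) (nat_lit 277)) (XT.lf (nat_lit 924) (nat_lit 5246117990)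 (nat_lit 0) (nat_lit 16809968567) (nat_lit 840) (nat_lit 5246117990) (nat_lit 142) (nat_lit 1) (nat_lit 131) (nat_lit 1) (nat_lit 141) (nat_lit 1) (nat_lit 162) (nat_lit 282) (nat_lit 276))) (XT.nd (nat_lit 94) (nat_lit 0) (nat_lit 84) (XT.lf (nat_lit 924) (nat_lit 8818885420) (nat_lit 84) (nat_lit 8929112564) (nat_lit 0) (nat_lit 8929112564) (nat_lit 142) (nat_lit 1) (nat_lit 132) (nat_lit 1) (nat_lit 131) (nat_lit 1) (nat_lit 163) (nat_lit 282) (nat_lit 275)) (XT.lf (nat_lit 924) (nat_lit 3540323163) (nat_lit 0) (nat_lit 18994252227) (nat_lit 840) (nat_lit 3540323163) (nat_lit 143) (nat_lit 1) (nat_lit 132) (nat_lit 1) (nat_lit 142) (nat_lit 1) (nat_lit 164) (nat_lit 282) (nat_lit 274))))) (XT.nd (nat_lit 282) (nat_lit 1008) (nat_lit 0) (XT.nd (nat_lit 94) (nat_lit 756) (nat_lit 0) (XT.lf (nat_lit 924) (nat_lit 5118821617) (nat_lit 84) (nat_lit 10183976592) (nat_lit 0)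 (nat_lit 10183976592) (nat_lit 143) (nat_lit 1) (nat_lit 133) (nat_lit 1) (nat_lit 132) (nat_lit 1) (nat_lit 165) (nat_lit 282) (nat_lit 273)) (XT.nd (nat_lit 94) (nat_lit 840) (nat_lit 0) (XT.lf (nat_lit 84) (nat_lit 1583251011) (nat_lit 0) (nat_lit 21756158961) (nat_lit 840) (nat_lit 1583251011) (nat_lit 134) (nat_lit 1) (nat_lit 133) (nat_lit 1) (nat_lit 143) (nat_lit 1) (nat_lit 166) (nat_lit 282) (nat_lit 272)) (XT.lf (nat_lit 924) (nat_lit 956244238) (nat_lit 0) (nat_lit 11706227846) (nat_lit 840) (nat_lit 11706227846) (nat_lit 134) (nat_lit 1) (nat_lit 123) (nat_lit 1) (nat_lit 133) (nat_lit 1) (nat_lit 167) (nat_lit 282) (nat_lit 271)))) (XT.nd (nat_lit 188) (nat_lit 420) (nat_lit 0) (XT.nd (nat_lit 94) (nat_lit 0) (nat_lit 0) (XT.lf (nat_lit 588) (nat_lit 22692880051) (nat_lit 0) (nat_lit 572829015) (nat_lit 504) (nat_lit 572829015) (nat_lit 123) (nat_lit 1) (nat_lit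 116) (nat_lit 1) (nat_lit 122) (nat_lit 1) (nat_lit 168) (nat_lit 282) (nat_lit 270)) (XT.lf (nat_lit 84) (nat_lit 9921287663) (nat_lit 0) (nat_lit 3472620800) (nat_lit 588) (nat_lit 9921287663) (nat_lit 117) (nat_lit 1) (nat_lit 116) (nat_lit 1) (nat_lit 123) (nat_lit 1) (nat_lit 169) (nat_lit 282) (nat_lit 269))) (XT.nd (nat_lit 94) (nat_lit 0) (nat_lit 0) (XT.lf (nat_lit 504) (nat_lit 17071989383) (nat_lit 0) (nat_lit 2871059344) (nat_lit 420) (nat_lit 2871059344) (nat_lit 117) (nat_lit 1) (nat_lit 111) (nat_lit 1) (nat_lit 116) (nat_lit 1) (nat_lit 170) (nat_lit 282) (nat_lit 268)) (XT.lf (nat_lit 84) (nat_lit 7076733713) (nat_lit 0) (nat_lit 8170086848) (nat_lit 504) (nat_lit 7076733713) (nat_lit 112) (nat_lit 1) (nat_lit 111) (nat_lit 1) (nat_lit 117) (nat_lit 1) (nat_lit 171) (nat_lit 282) (nat_lit 267))))))))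
noncomputable def ec122 : XT := (XT.nd (nat_lit 2538) (nat_lit 2856) (nat_lit 0) (XT.nd (nat_lit 1222) (nat_lit 1932) (nat_lit 0) (XT.nd (nat_lit 564) (nat_lit 1260) (nat_lit 0) (XT.nd (nat_lit 282) (nat_lit 756) (nat_lit 0) (XT.nd (nat_lit 94) (nat_lit 336) (nat_lit 0) (XT.lf (nat_lit 504) (nat_lit 11242147112) (nat_lit 0) (nat_lit 5303969021) (nat_lit 420) (nat_lit 5303969021) (nat_lit 112) (nat_lit 1) (nat_lit 106) (nat_lit 1) (nat_lit 111) (nat_lit 1) (nat_lit 172) (nat_lit 282) (nat_lit 266)) (XT.nd (nat_lit 94) (nat_lit 336) (nat_lit 0) (XT.lf (nat_lit 84) (nat_lit 4142581802) (nat_lit 0) (nat_lit 13105222507) (nat_lit 504) (nat_lit 4142581802) (nat_lit 107) (nat_lit 1) (nat_lit 106) (nat_lit 1) (nat_lit 112) (nat_lit 1) (nat_lit 173) (nat_lit 282) (nat_lit 265)) (XT.lf (nat_lit 420) (nat_lit 5257614278) (nat_lit 0) (nat_lit 7842448882) (nat_lit 336) (nat_lit 7842448882)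 (nat_lit 107) (nat_lit 1) (nat_lit 102) (nat_lit 1) (nat_lit 106) (nat_lit 1) (nat_lit 174) (nat_lit 282) (nat_lit 264)))) (XT.nd (nat_lit 94) (nat_lit 756) (nat_lit 0) (XT.lf (nat_lit 84) (nat_lit 1144021785) (nat_lit 0) (nat_lit 18223817437) (nat_lit 420) (nat_lit 1144021785) (nat_lit 103) (nat_lit 1) (nat_lit 102) (nat_lit 1) (nat_lit 107) (nat_lit 1) (nat_lit 175) (nat_lit 282) (nat_lit 263)) (XT.nd (nat_lit 94) (nat_lit 336) (nat_lit 0) (XT.lf (nat_lit 84) (nat_lit 9639856295) (nat_lit 0) (nat_lit 807356690) (nat_lit 420) (nat_lit 9639856295) (nat_lit 98) (nat_lit 1) (nat_lit 97) (nat_lit 1) (nat_lit 102) (nat_lit 1) (nat_lit 176) (nat_lit 282) (nat_lit 262)) (XT.lf (nat_lit 420) (nat_lit 15945842534) (nat_lit 0) (nat_lit 1866306066) (nat_lit 336) (nat_lit 1866306066) (nat_lit 98) (nat_lit 1) (nat_lit 93) (nat_lit 1) (nat_lit 97) (nat_lit 1) (nat_lit 177) (nat_lit 282)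 (nat_lit 261))))) (XT.nd (nat_lit 282) (nat_lit 924) (nat_lit 0) (XT.nd (nat_lit 94) (nat_lit 336) (nat_lit 0) (XT.lf (nat_lit 84) (nat_lit 6254660469) (nat_lit 0) (nat_lit 6767528986) (nat_lit 420) (nat_lit 6254660469) (nat_lit 94) (nat_lit 1) (nat_lit 93) (nat_lit 1) (nat_lit 98) (nat_lit 1) (nat_lit 178) (nat_lit 282) (nat_lit 260)) (XT.nd (nat_lit 94) (nat_lit 0) (nat_lit 0) (XT.lf (nat_lit 420) (nat_lit 9127289537) (nat_lit 0) (nat_lit 4880940944) (nat_lit 336) (nat_lit 4880940944) (nat_lit 94) (nat_lit 1) (nat_lit 89) (nat_lit 1) (nat_lit 93) (nat_lit 1) (nat_lit 179) (nat_lit 282) (nat_lit 259)) (XT.lf (nat_lit 84) (nat_lit 2878339775) (nat_lit 0) (nat_lit 12756149125) (nat_lit 420) (nat_lit 2878339775) (nat_lit 90) (nat_lit 1) (nat_lit 89) (nat_lit 1) (nat_lit 94) (nat_lit 1) (nat_lit 180) (nat_lit 282) (nat_lit 258)))) (XT.nd (nat_lit 188) (nat_lit 252) (nat_lit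 0) (XT.nd (nat_lit 94) (nat_lit 420) (nat_lit 0) (XT.lf (nat_lit 336) (nat_lit 2340830462) (nat_lit 0) (nat_lit 7901889600) (nat_lit 252) (nat_lit 7901889600) (nat_lit 90) (nat_lit 1) (nat_lit 86) (nat_lit 1) (nat_lit 89) (nat_lit 1) (nat_lit 181) (nat_lit 282) (nat_lit 257)) (XT.lf (nat_lit 420) (nat_lit 16855201604) (nat_lit 0) (nat_lit 467699502) (nat_lit 336) (nat_lit 467699502) (nat_lit 86) (nat_lit 1) (nat_lit 81) (nat_lit 1) (nat_lit 85) (nat_lit 1) (nat_lit 182) (nat_lit 282) (nat_lit 256))) (XT.nd (nat_lit 94) (nat_lit 252) (nat_lit 0) (XT.lf (nat_lit 84) (nat_lit 6595564996) (nat_lit 0) (nat_lit 4247420963) (nat_lit 420) (nat_lit 6595564996) (nat_lit 82) (nat_lit 1) (nat_lit 81) (nat_lit 1) (nat_lit 86) (nat_lit 1) (nat_lit 183) (nat_lit 282) (nat_lit 255)) (XT.lf (nat_lit 336) (nat_lit 9633031191) (nat_lit 0) (nat_lit 3733486075) (nat_lit 252) (nat_lit 3733486075)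 (nat_lit 82) (nat_lit 1) (nat_lit 78) (nat_lit 1) (nat_lit 81) (nat_lit 1) (nat_lit 184) (nat_lit 282) (nat_lit 254)))))) (XT.nd (nat_lit 658) (nat_lit 924) (nat_lit 0) (XT.nd (nat_lit 282) (nat_lit 420) (nat_lit 0) (XT.nd (nat_lit 94) (nat_lit 588) (nat_lit 0) (XT.lf (nat_lit 84) (nat_lit 3043223561) (nat_lit 0) (nat_lit 10683609990) (nat_lit 336) (nat_lit 3043223561) (nat_lit 79) (nat_lit 1) (nat_lit 78) (nat_lit 1) (nat_lit 82) (nat_lit 1) (nat_lit 185) (nat_lit 282) (nat_lit 253)) (XT.nd (nat_lit 94) (nat_lit 336) (nat_lit 0) (XT.lf (nat_lit 336) (nat_lit 2536431718) (nat_lit 0) (nat_lit 6955592676) (nat_lit 252) (nat_lit 6955592676) (nat_lit 79) (nat_lit 1) (nat_lit 75) (nat_lit 1) (nat_lit 78) (nat_lit 1) (nat_lit 186) (nat_lit 282) (nat_lit 252)) (XT.lf (nat_lit 336) (nat_lit 15265332102) (nat_lit 0) (nat_lit 435911991) (nat_lit 252) (nat_lit 435911991) (nat_lit 75)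 (nat_lit 1) (nat_lit 71) (nat_lit 1) (nat_lit 74) (nat_lit 1) (nat_lit 187) (nat_lit 282) (nat_lit 251)))) (XT.nd (nat_lit 188) (nat_lit 168) (nat_lit 0) (XT.nd (nat_lit 94) (nat_lit 252) (nat_lit 0) (XT.lf (nat_lit 84) (nat_lit 5774437962) (nat_lit 0) (nat_lit 4278800548) (nat_lit 336) (nat_lit 5774437962) (nat_lit 72) (nat_lit 1) (nat_lit 71) (nat_lit 1) (nat_lit 75) (nat_lit 1) (nat_lit 188) (nat_lit 282) (nat_lit 250)) (XT.lf (nat_lit 336) (nat_lit 7940380940) (nat_lit 0) (nat_lit 3794633358) (nat_lit 252) (nat_lit 3794633358) (nat_lit 72) (nat_lit 1) (nat_lit 68) (nat_lit 1) (nat_lit 71) (nat_lit 1) (nat_lit 189) (nat_lit 282) (nat_lit 249))) (XT.nd (nat_lit 94) (nat_lit 168) (nat_lit 0) (XT.lf (nat_lit 84) (nat_lit 2186774435) (nat_lit 0) (nat_lit 10866063239) (nat_lit 336) (nat_lit 2186774435) (nat_lit 69) (nat_lit 1) (nat_lit 68) (nat_lit 1) (nat_lit 72) (nat_lit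 1) (nat_lit 190) (nat_lit 282) (nat_lit 248)) (XT.lf (nat_lit 252) (nat_lit 801306861) (nat_lit 0) (nat_lit 7076867622) (nat_lit 168) (nat_lit 7076867622) (nat_lit 69) (nat_lit 1) (nat_lit 66) (nat_lit 1) (nat_lit 68) (nat_lit 1) (nat_lit 191) (nat_lit 282) (nat_lit 247))))) (XT.nd (nat_lit 282) (nat_lit 420) (nat_lit 0) (XT.nd (nat_lit 94) (nat_lit 168) (nat_lit 0) (XT.lf (nat_lit 336) (nat_lit 12107477991) (nat_lit 0) (nat_lit 1285901921) (nat_lit 252) (nat_lit 1285901921) (nat_lit 66) (nat_lit 1) (nat_lit 62) (nat_lit 1) (nat_lit 65) (nat_lit 1) (nat_lit 192) (nat_lit 282) (nat_lit 246)) (XT.nd (nat_lit 94) (nat_lit 168) (nat_lit 0) (XT.lf (nat_lit 84) (nat_lit 4228854665) (nat_lit 0) (nat_lit 5948896345) (nat_lit 336) (nat_lit 4228854665) (nat_lit 63) (nat_lit 1) (nat_lit 62) (nat_lit 1) (nat_lit 66) (nat_lit 1) (nat_lit 193) (nat_lit 282) (nat_lit 245)) (XT.lf (nat_lit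 252) (nat_lit 4885789237) (nat_lit 0) (nat_lit 4628277907) (nat_lit 168) (nat_lit 4628277907) (nat_lit 63) (nat_lit 1) (nat_lit 60) (nat_lit 1) (nat_lit 62) (nat_lit 1) (nat_lit 194) (nat_lit 282) (nat_lit 244)))) (XT.nd (nat_lit 188) (nat_lit 168) (nat_lit 0) (XT.nd (nat_lit 94) (nat_lit 252) (nat_lit 0) (XT.lf (nat_lit 84) (nat_lit 701932835) (nat_lit 0) (nat_lit 12482988554) (nat_lit 252) (nat_lit 701932835) (nat_lit 61) (nat_lit 1) (nat_lit 60) (nat_lit 1) (nat_lit 63) (nat_lit 1) (nat_lit 195) (nat_lit 282) (nat_lit 243)) (XT.lf (nat_lit 84) (nat_lit 5793174842) (nat_lit 0) (nat_lit 2045942439) (nat_lit 252) (nat_lit 5793174842) (nat_lit 58) (nat_lit 1) (nat_lit 57) (nat_lit 1) (nat_lit 60) (nat_lit 1) (nat_lit 196) (nat_lit 282) (nat_lit 242))) (XT.nd (nat_lit 94) (nat_lit 0) (nat_lit 0) (XT.lf (nat_lit 252) (nat_lit 8044838610) (nat_lit 0) (nat_lit 2670668451) (nat_lit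 168) (nat_lit 2670668451) (nat_lit 58) (nat_lit 1) (nat_lit 55) (nat_lit 1) (nat_lit 57) (nat_lit 1) (nat_lit 197) (nat_lit 282) (nat_lit 241)) (XT.lf (nat_lit 84) (nat_lit 2270044159) (nat_lit 0) (nat_lit 8605410298) (nat_lit 252) (nat_lit 2270044159) (nat_lit 56) (nat_lit 1) (nat_lit 55) (nat_lit 1) (nat_lit 58) (nat_lit 1) (nat_lit 198) (nat_lit 282) (nat_lit 240))))))) (XT.nd (nat_lit 1222) (nat_lit 1260) (nat_lit 0) (XT.nd (nat_lit 564) (nat_lit 840) (nat_lit 0) (XT.nd (nat_lit 282) (nat_lit 336) (nat_lit 0) (XT.nd (nat_lit 94) (nat_lit 252) (nat_lit 0) (XT.lf (nat_lit 252) (nat_lit 1063433959) (nat_lit 0) (nat_lit 5923119594) (nat_lit 168) (nat_lit 5923119594) (nat_lit 56) (nat_lit 1) (nat_lit 53) (nat_lit 1) (nat_lit 55) (nat_lit 1) (nat_lit 199) (nat_lit 282) (nat_lit 239)) (XT.nd (nat_lit 94) (nat_lit 0) (nat_lit 0) (XT.lf (nat_lit 252) (nat_lit 10452115980) (nat_lit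 0) (nat_lit 1114282461) (nat_lit 168) (nat_lit 1114282461) (nat_lit 53) (nat_lit 1) (nat_lit 50) (nat_lit 1) (nat_lit 52) (nat_lit 1) (nat_lit 200) (nat_lit 282) (nat_lit 238)) (XT.lf (nat_lit 84) (nat_lit 3479535023) (nat_lit 0) (nat_lit 5494573036) (nat_lit 252) (nat_lit 3479535023) (nat_lit 51) (nat_lit 1) (nat_lit 50) (nat_lit 1) (nat_lit 53) (nat_lit 1) (nat_lit 201) (nat_lit 282) (nat_lit 237)))) (XT.nd (nat_lit 94) (nat_lit 168) (nat_lit 0) (XT.lf (nat_lit 252) (nat_lit 3543737487) (nat_lit 0) (nat_lit 4344729498) (nat_lit 168) (nat_lit 4344729498) (nat_lit 51) (nat_lit 1) (nat_lit 48) (nat_lit 1) (nat_lit 50) (nat_lit 1) (nat_lit 202) (nat_lit 282) (nat_lit 236)) (XT.nd (nat_lit 94) (nat_lit 168) (nat_lit 0) (XT.lf (nat_lit 84) (nat_lit 116472877) (nat_lit 0) (nat_lit 11787535204) (nat_lit 252) (nat_lit 116472877) (nat_lit 49) (nat_lit 1) (nat_lit 48) (nat_lit 1)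 (nat_lit 51) (nat_lit 1) (nat_lit 203) (nat_lit 282) (nat_lit 235)) (XT.lf (nat_lit 84) (nat_lit 4397825955) (nat_lit 0) (nat_lit 3010761394) (nat_lit 168) (nat_lit 4397825955) (nat_lit 47) (nat_lit 1) (nat_lit 46) (nat_lit 1) (nat_lit 48) (nat_lit 1) (nat_lit 204) (nat_lit 282) (nat_lit 234))))) (XT.nd (nat_lit 282) (nat_lit 504) (nat_lit 0) (XT.nd (nat_lit 94) (nat_lit 168) (nat_lit 0) (XT.lf (nat_lit 252) (nat_lit 5457201351) (nat_lit 0) (nat_lit 3071338139) (nat_lit 168) (nat_lit 3071338139) (nat_lit 47) (nat_lit 1) (nat_lit 44) (nat_lit 1) (nat_lit 46) (nat_lit 1) (nat_lit 205) (nat_lit 282) (nat_lit 233)) (XT.nd (nat_lit 94) (nat_lit 168) (nat_lit 0) (XT.lf (nat_lit 84) (nat_lit 1094131154) (nat_lit 0) (nat_lit 9210654564) (nat_lit 252) (nat_lit 1094131154) (nat_lit 45) (nat_lit 1) (nat_lit 44) (nat_lit 1) (nat_lit 47) (nat_lit 1) (nat_lit 206) (nat_lit 282) (nat_lit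 232)) (XT.lf (nat_lit 84) (nat_lit 5080201232) (nat_lit 0) (nat_lit 1039210906) (nat_lit 168) (nat_lit 5080201232) (nat_lit 43) (nat_lit 1) (nat_lit 42) (nat_lit 1) (nat_lit 44) (nat_lit 1) (nat_lit 207) (nat_lit 282) (nat_lit 231)))) (XT.nd (nat_lit 188) (nat_lit 336) (nat_lit 0) (XT.nd (nat_lit 94) (nat_lit 0) (nat_lit 0) (XT.lf (nat_lit 252) (nat_lit 6910376628) (nat_lit 0) (nat_lit 2047672181) (nat_lit 168) (nat_lit 2047672181) (nat_lit 43) (nat_lit 1) (nat_lit 40) (nat_lit 1) (nat_lit 42) (nat_lit 1) (nat_lit 208) (nat_lit 282) (nat_lit 230)) (XT.lf (nat_lit 84) (nat_lit 1850914532) (nat_lit 0) (nat_lit 7113838000) (nat_lit 252) (nat_lit 1850914532) (nat_lit 41) (nat_lit 1) (nat_lit 40) (nat_lit 1) (nat_lit 43) (nat_lit 1) (nat_lit 209) (nat_lit 282) (nat_lit 229))) (XT.nd (nat_lit 94) (nat_lit 252) (nat_lit 0) (XT.lf (nat_lit 168) (nat_lit 531330158) (nat_lit 0) (nat_lit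 5048934695) (nat_lit 84) (nat_lit 5048934695) (nat_lit 41) (nat_lit 1) (nat_lit 39) (nat_lit 1) (nat_lit 40) (nat_lit 1) (nat_lit 210) (nat_lit 282) (nat_lit 228)) (XT.lf (nat_lit 252) (nat_lit 7990634974) (nat_lit 0) (nat_lit 1228315155) (nat_lit 168) (nat_lit 1228315155) (nat_lit 39) (nat_lit 1) (nat_lit 36) (nat_lit 1) (nat_lit 38) (nat_lit 1) (nat_lit 211) (nat_lit 282) (nat_lit 227)))))) (XT.nd (nat_lit 658) (nat_lit 588) (nat_lit 0) (XT.nd (nat_lit 282) (nat_lit 336) (nat_lit 0) (XT.nd (nat_lit 94) (nat_lit 336) (nat_lit 0) (XT.lf (nat_lit 84) (nat_lit 2428247322) (nat_lit 0) (nat_lit 5410867076) (nat_lit 252) (nat_lit 2428247322) (nat_lit 37) (nat_lit 1) (nat_lit 36) (nat_lit 1) (nat_lit 39) (nat_lit 1) (nat_lit 212) (nat_lit 282) (nat_lit 226)) (XT.nd (nat_lit 94) (nat_lit 252) (nat_lit 0) (XT.lf (nat_lit 168) (nat_lit 1784327044) (nat_lit 0) (nat_lit 4153771069)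 (nat_lit 84) (nat_lit 4153771069) (nat_lit 37) (nat_lit 1) (nat_lit 35) (nat_lit 1) (nat_lit 36) (nat_lit 1) (nat_lit 213) (nat_lit 282) (nat_lit 225)) (XT.lf (nat_lit 252) (nat_lit 8769582807) (nat_lit 0) (nat_lit 575957141) (nat_lit 168) (nat_lit 575957141) (nat_lit 35) (nat_lit 1) (nat_lit 32) (nat_lit 1) (nat_lit 34) (nat_lit 1) (nat_lit 214) (nat_lit 282) (nat_lit 224)))) (XT.nd (nat_lit 188) (nat_lit 252) (nat_lit 0) (XT.nd (nat_lit 94) (nat_lit 84) (nat_lit 0) (XT.lf (nat_lit 84) (nat_lit 2860101611) (nat_lit 0) (nat_lit 4030862256) (nat_lit 252) (nat_lit 2860101611) (nat_lit 33) (nat_lit 1) (nat_lit 32) (nat_lit 1) (nat_lit 35) (nat_lit 1) (nat_lit 215) (nat_lit 282) (nat_lit 223)) (XT.lf (nat_lit 168) (nat_lit 2751018282) (nat_lit 0) (nat_lit 3417317738) (nat_lit 84) (nat_lit 3417317738) (nat_lit 33) (nat_lit 1) (nat_lit 31) (nat_lit 1) (nat_lit 32) (nat_lit 1)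 (nat_lit 216) (nat_lit 282) (nat_lit 222))) (XT.nd (nat_lit 94) (nat_lit 0) (nat_lit 0) (XT.lf (nat_lit 252) (nat_lit 9305869515) (nat_lit 0) (nat_lit 59954911) (nat_lit 168) (nat_lit 59954911) (nat_lit 31) (nat_lit 1) (nat_lit 28) (nat_lit 1) (nat_lit 30) (nat_lit 1) (nat_lit 217) (nat_lit 282) (nat_lit 221)) (XT.lf (nat_lit 84) (nat_lit 3174323654) (nat_lit 0) (nat_lit 2915560851) (nat_lit 252) (nat_lit 3174323654) (nat_lit 29) (nat_lit 1) (nat_lit 28) (nat_lit 1) (nat_lit 31) (nat_lit 1) (nat_lit 218) (nat_lit 282) (nat_lit 220))))) (XT.nd (nat_lit 282) (nat_lit 336) (nat_lit 0) (XT.nd (nat_lit 94) (nat_lit 168) (nat_lit 0) (XT.lf (nat_lit 168) (nat_lit 3485220032) (nat_lit 0) (nat_lit 2811435760) (nat_lit 84) (nat_lit 2811435760) (nat_lit 29) (nat_lit 1) (nat_lit 27) (nat_lit 1) (nat_lit 28) (nat_lit 1) (nat_lit 219) (nat_lit 282) (nat_lit 219)) (XT.nd (nat_lit 94) (nat_lit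 168) (nat_lit 0) (XT.lf (nat_lit 0) (nat_lit 350505840) (nat_lit 0) (nat_lit 8255676686) (nat_lit 168) (nat_lit 350505840) (nat_lit 27) (nat_lit 3) (nat_lit 27) (nat_lit 1) (nat_lit 29) (nat_lit 1) (nat_lit 220) (nat_lit 282) (nat_lit 218)) (XT.lf (nat_lit 84) (nat_lit 3393724860) (nat_lit 0) (nat_lit 2017077696) (nat_lit 168) (nat_lit 3393724860) (nat_lit 26) (nat_lit 1) (nat_lit 25) (nat_lit 1) (nat_lit 27) (nat_lit 1) (nat_lit 221) (nat_lit 282) (nat_lit 217)))) (XT.nd (nat_lit 188) (nat_lit 252) (nat_lit 0) (XT.nd (nat_lit 94) (nat_lit 0) (nat_lit 0) (XT.lf (nat_lit 168) (nat_lit 4031061511) (nat_lit 0) (nat_lit 2312975157) (nat_lit 84) (nat_lit 2312975157) (nat_lit 26) (nat_lit 1) (nat_lit 24) (nat_lit 1) (nat_lit 25) (nat_lit 1) (nat_lit 222) (nat_lit 282) (nat_lit 216)) (XT.lf (nat_lit 0) (nat_lit 669923453) (nat_lit 0) (nat_lit 7173527072) (nat_lit 168) (nat_lit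 669923453) (nat_lit 24) (nat_lit 3) (nat_lit 24) (nat_lit 1) (nat_lit 26) (nat_lit 1) (nat_lit 223) (nat_lit 282) (nat_lit 215))) (XT.nd (nat_lit 94) (nat_lit 84) (nat_lit 0) (XT.lf (nat_lit 84) (nat_lit 3536979111) (nat_lit 0) (nat_lit 1296062973) (nat_lit 168) (nat_lit 3536979111) (nat_lit 23) (nat_lit 1) (nat_lit 22) (nat_lit 1) (nat_lit 24) (nat_lit 1) (nat_lit 224) (nat_lit 282) (nat_lit 214)) (XT.lf (nat_lit 168) (nat_lit 4424709390) (nat_lit 0) (nat_lit 1902890386) (nat_lit 84) (nat_lit 1902890386) (nat_lit 23) (nat_lit 1) (nat_lit 21) (nat_lit 1) (nat_lit 22) (nat_lit 1) (nat_lit 225) (nat_lit 282) (nat_lit 213))))))))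
noncomputable def ec123 : XT := (XT.nd (nat_lit 2538) (nat_lit 0) (nat_lit 0) (XT.nd (nat_lit 1222) (nat_lit 756) (nat_lit 0) (XT.nd (nat_lit 564) (nat_lit 504) (nat_lit 0) (XT.nd (nat_lit 282) (nat_lit 252) (nat_lit 0) (XT.nd (nat_lit 94) (nat_lit 252) (nat_lit 0) (XT.lf (nat_lit 0) (nat_lit 914539522) (nat_lit 0) (nat_lit 6265070314) (nat_lit 168) (nat_lit 914539522) (nat_lit 21) (nat_lit 3) (nat_lit 21) (nat_lit 1) (nat_lit 23) (nat_lit 1) (nat_lit 226) (nat_lit 282) (nat_lit 212)) (XT.nd (nat_lit 94) (nat_lit 84) (nat_lit 0) (XT.lf (nat_lit 84) (nat_lit 3619360773) (nat_lit 0) (nat_lit 720186750) (nat_lit 168) (nat_lit 3619360773) (nat_lit 20) (nat_lit 1) (nat_lit 19) (nat_lit 1) (nat_lit 21) (nat_lit 1) (nat_lit 227) (nat_lit 282) (nat_lit 211)) (XT.lf (nat_lit 168) (nat_lit 4695786136) (nat_lit 0) (nat_lit 1565512630) (nat_lit 84) (nat_lit 1565512630) (nat_lit 20)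 (nat_lit 1) (nat_lit 18) (nat_lit 1) (nat_lit 19) (nat_lit 1) (nat_lit 228) (nat_lit 282) (nat_lit 210)))) (XT.nd (nat_lit 94) (nat_lit 252) (nat_lit 0) (XT.lf (nat_lit 0) (nat_lit 1098481394) (nat_lit 0) (nat_lit 5500376318) (nat_lit 168) (nat_lit 1098481394) (nat_lit 18) (nat_lit 3) (nat_lit 18) (nat_lit 1) (nat_lit 20) (nat_lit 1) (nat_lit 229) (nat_lit 282) (nat_lit 209)) (XT.nd (nat_lit 94) (nat_lit 84) (nat_lit 0) (XT.lf (nat_lit 84) (nat_lit 3653351641) (nat_lit 0) (nat_lit 262892311) (nat_lit 168) (nat_lit 3653351641) (nat_lit 17) (nat_lit 1) (nat_lit 16) (nat_lit 1) (nat_lit 18) (nat_lit 1) (nat_lit 230) (nat_lit 282) (nat_lit 208)) (XT.lf (nat_lit 168) (nat_lit 4868536562) (nat_lit 0) (nat_lit 1287951115) (nat_lit 84) (nat_lit 1287951115) (nat_lit 17) (nat_lit 1) (nat_lit 15) (nat_lit 1) (nat_lit 16) (nat_lit 1) (nat_lit 231) (nat_lit 282) (nat_lit 207))))) (XT.nd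 (nat_lit 282) (nat_lit 252) (nat_lit 0) (XT.nd (nat_lit 94) (nat_lit 252) (nat_lit 0) (XT.lf (nat_lit 0) (nat_lit 1233330472) (nat_lit 0) (nat_lit 4854780319) (nat_lit 168) (nat_lit 1233330472) (nat_lit 15) (nat_lit 3) (nat_lit 15) (nat_lit 1) (nat_lit 17) (nat_lit 1) (nat_lit 232) (nat_lit 282) (nat_lit 206)) (XT.nd (nat_lit 94) (nat_lit 168) (nat_lit 0) (XT.lf (nat_lit 84) (nat_lit 100857446) (nat_lit 0) (nat_lit 3549857301) (nat_lit 84) (nat_lit 3549857301) (nat_lit 15) (nat_lit 3) (nat_lit 14) (nat_lit 1) (nat_lit 15) (nat_lit 1) (nat_lit 233) (nat_lit 282) (nat_lit 205)) (XT.lf (nat_lit 168) (nat_lit 4962787256) (nat_lit 0) (nat_lit 1059600569) (nat_lit 84) (nat_lit 1059600569) (nat_lit 14) (nat_lit 1) (nat_lit 12) (nat_lit 1) (nat_lit 13) (nat_lit 1) (nat_lit 234) (nat_lit 282) (nat_lit 204)))) (XT.nd (nat_lit 188) (nat_lit 168) (nat_lit 0) (XT.nd (nat_lit 94) (nat_lit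 84) (nat_lit 0) (XT.lf (nat_lit 0) (nat_lit 1328575565) (nat_lit 0) (nat_lit 4307951317) (nat_lit 168) (nat_lit 1328575565) (nat_lit 12) (nat_lit 3) (nat_lit 12) (nat_lit 1) (nat_lit 14) (nat_lit 1) (nat_lit 235) (nat_lit 282) (nat_lit 203)) (XT.lf (nat_lit 84) (nat_lit 391824115) (nat_lit 0) (nat_lit 3229324831) (nat_lit 84) (nat_lit 3229324831) (nat_lit 12) (nat_lit 3) (nat_lit 11) (nat_lit 1) (nat_lit 12) (nat_lit 1) (nat_lit 236) (nat_lit 282) (nat_lit 202))) (XT.nd (nat_lit 94) (nat_lit 0) (nat_lit 0) (XT.lf (nat_lit 168) (nat_lit 4994735622) (nat_lit 0) (nat_lit 871736011) (nat_lit 84) (nat_lit 871736011) (nat_lit 11) (nat_lit 1) (nat_lit 9) (nat_lit 1) (nat_lit 10) (nat_lit 1) (nat_lit 237) (nat_lit 282) (nat_lit 201)) (XT.lf (nat_lit 0) (nat_lit 1391985770) (nat_lit 0) (nat_lit 3843125575) (nat_lit 168) (nat_lit 1391985770) (nat_lit 9) (nat_lit 3) (nat_lit 9) (nat_lit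 1) (nat_lit 11) (nat_lit 1) (nat_lit 238) (nat_lit 282) (nat_lit 200)))))) (XT.nd (nat_lit 658) (nat_lit 168) (nat_lit 0) (XT.nd (nat_lit 282) (nat_lit 336) (nat_lit 0) (XT.nd (nat_lit 94) (nat_lit 168) (nat_lit 0) (XT.lf (nat_lit 84) (nat_lit 616496045) (nat_lit 0) (nat_lit 2950914906) (nat_lit 84) (nat_lit 2950914906) (nat_lit 9) (nat_lit 3) (nat_lit 8) (nat_lit 1) (nat_lit 9) (nat_lit 1) (nat_lit 239) (nat_lit 282) (nat_lit 199)) (XT.nd (nat_lit 94) (nat_lit 0) (nat_lit 0) (XT.lf (nat_lit 168) (nat_lit 4977598752) (nat_lit 0) (nat_lit 717179373) (nat_lit 84) (nat_lit 717179373) (nat_lit 8) (nat_lit 1) (nat_lit 6) (nat_lit 1) (nat_lit 7) (nat_lit 1) (nat_lit 240) (nat_lit 282) (nat_lit 198)) (XT.lf (nat_lit 0) (nat_lit 1429917153) (nat_lit 0) (nat_lit 3446475936) (nat_lit 168) (nat_lit 1429917153) (nat_lit 6) (nat_lit 3) (nat_lit 6) (nat_lit 1) (nat_lit 8) (nat_lit 1)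 (nat_lit 241) (nat_lit 282) (nat_lit 197)))) (XT.nd (nat_lit 188) (nat_lit 84) (nat_lit 0) (XT.nd (nat_lit 94) (nat_lit 168) (nat_lit 0) (XT.lf (nat_lit 84) (nat_lit 787327465) (nat_lit 0) (nat_lit 2707859640) (nat_lit 84) (nat_lit 2707859640) (nat_lit 6) (nat_lit 3) (nat_lit 5) (nat_lit 1) (nat_lit 6) (nat_lit 1) (nat_lit 242) (nat_lit 282) (nat_lit 196)) (XT.lf (nat_lit 168) (nat_lit 4922146997) (nat_lit 0) (nat_lit 590025245) (nat_lit 84) (nat_lit 590025245) (nat_lit 5) (nat_lit 1) (nat_lit 3) (nat_lit 1) (nat_lit 4) (nat_lit 1) (nat_lit 243) (nat_lit 282) (nat_lit 195))) (XT.nd (nat_lit 94) (nat_lit 84) (nat_lit 0) (XT.lf (nat_lit 0) (nat_lit 1447564966) (nat_lit 0) (nat_lit 3106592867) (nat_lit 168) (nat_lit 1447564966) (nat_lit 3) (nat_lit 3) (nat_lit 3) (nat_lit 1) (nat_lit 5) (nat_lit 1) (nat_lit 244) (nat_lit 282) (nat_lit 194)) (XT.lf (nat_lit 84) (nat_lit 914531152)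 (nat_lit 0) (nat_lit 2494557725) (nat_lit 84) (nat_lit 2494557725) (nat_lit 3) (nat_lit 3) (nat_lit 2) (nat_lit 1) (nat_lit 3) (nat_lit 1) (nat_lit 245) (nat_lit 282) (nat_lit 193))))) (XT.nd (nat_lit 282) (nat_lit 0) (nat_lit 0) (XT.nd (nat_lit 94) (nat_lit 0) (nat_lit 0) (XT.lf (nat_lit 0) (nat_lit 8437172981) (nat_lit 0) (nat_lit 0) (nat_lit 0) (nat_lit 0) (nat_lit 0) (nat_lit 0) (nat_lit 1) (nat_lit 0) (nat_lit 1) (nat_lit 0) (nat_lit 246) (nat_lit 282) (nat_lit 192)) (XT.nd (nat_lit 94) (nat_lit 0) (nat_lit 0) (XT.lf (nat_lit 0) (nat_lit 8432257181) (nat_lit 0) (nat_lit 0) (nat_lit 0) (nat_lit 0) (nat_lit 0) (nat_lit 0) (nat_lit 1) (nat_lit 0) (nat_lit 1) (nat_lit 0) (nat_lit 247) (nat_lit 282) (nat_lit 191)) (XT.lf (nat_lit 0) (nat_lit 8427575467) (nat_lit 0) (nat_lit 0) (nat_lit 0) (nat_lit 0) (nat_lit 0) (nat_lit 0) (nat_lit 1) (nat_lit 0) (nat_lit 1) (nat_lit 0)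 (nat_lit 248) (nat_lit 282) (nat_lit 190)))) (XT.nd (nat_lit 188) (nat_lit 0) (nat_lit 0) (XT.nd (nat_lit 94) (nat_lit 0) (nat_lit 0) (XT.lf (nat_lit 0) (nat_lit 8423116691) (nat_lit 0) (nat_lit 0) (nat_lit 0) (nat_lit 0) (nat_lit 0) (nat_lit 0) (nat_lit 1) (nat_lit 0) (nat_lit 1) (nat_lit 0) (nat_lit 249) (nat_lit 282) (nat_lit 189)) (XT.lf (nat_lit 0) (nat_lit 8418870238) (nat_lit 0) (nat_lit 0) (nat_lit 0) (nat_lit 0) (nat_lit 0) (nat_lit 0) (nat_lit 1) (nat_lit 0) (nat_lit 1) (nat_lit 0) (nat_lit 250) (nat_lit 282) (nat_lit 188))) (XT.nd (nat_lit 94) (nat_lit 0) (nat_lit 0) (XT.lf (nat_lit 0) (nat_lit 8414825997) (nat_lit 0) (nat_lit 0) (nat_lit 0) (nat_lit 0) (nat_lit 0) (nat_lit 0) (nat_lit 1) (nat_lit 0) (nat_lit 1) (nat_lit 0) (nat_lit 251) (nat_lit 282) (nat_lit 187)) (XT.lf (nat_lit 0) (nat_lit 8410974339) (nat_lit 0) (nat_lit 0) (nat_lit 0) (nat_lit 0) (nat_lit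 0) (nat_lit 0) (nat_lit 1) (nat_lit 0) (nat_lit 1) (nat_lit 0) (nat_lit 252) (nat_lit 282) (nat_lit 186))))))) (XT.nd (nat_lit 1316) (nat_lit 0) (nat_lit 0) (XT.nd (nat_lit 658) (nat_lit 0) (nat_lit 0) (XT.nd (nat_lit 282) (nat_lit 0) (nat_lit 0) (XT.nd (nat_lit 94) (nat_lit 0) (nat_lit 0) (XT.lf (nat_lit 0) (nat_lit 8407306093) (nat_lit 0) (nat_lit 0) (nat_lit 0) (nat_lit 0) (nat_lit 0) (nat_lit 0) (nat_lit 1) (nat_lit 0) (nat_lit 1) (nat_lit 0) (nat_lit 253) (nat_lit 282) (nat_lit 185)) (XT.nd (nat_lit 94) (nat_lit 0) (nat_lit 0) (XT.lf (nat_lit 0) (nat_lit 8403812526) (nat_lit 0) (nat_lit 0) (nat_lit 0) (nat_lit 0) (nat_lit 0) (nat_lit 0) (nat_lit 1) (nat_lit 0) (nat_lit 1) (nat_lit 0) (nat_lit 254) (nat_lit 282) (nat_lit 184)) (XT.lf (nat_lit 0) (nat_lit 8400485319) (nat_lit 0) (nat_lit 0) (nat_lit 0) (nat_lit 0) (nat_lit 0) (nat_lit 0) (nat_lit 1) (nat_lit 0) (nat_lit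 1) (nat_lit 0) (nat_lit 255) (nat_lit 282) (nat_lit 183)))) (XT.nd (nat_lit 188) (nat_lit 0) (nat_lit 0) (XT.nd (nat_lit 94) (nat_lit 0) (nat_lit 0) (XT.lf (nat_lit 0) (nat_lit 8397316550) (nat_lit 0) (nat_lit 0) (nat_lit 0) (nat_lit 0) (nat_lit 0) (nat_lit 0) (nat_lit 1) (nat_lit 0) (nat_lit 1) (nat_lit 0) (nat_lit 256) (nat_lit 282) (nat_lit 182)) (XT.lf (nat_lit 0) (nat_lit 8394298675) (nat_lit 0) (nat_lit 0) (nat_lit 0) (nat_lit 0) (nat_lit 0) (nat_lit 0) (nat_lit 1) (nat_lit 0) (nat_lit 1) (nat_lit 0) (nat_lit 257) (nat_lit 282) (nat_lit 181))) (XT.nd (nat_lit 94) (nat_lit 0) (nat_lit 0) (XT.lf (nat_lit 0) (nat_lit 8391424509) (nat_lit 0) (nat_lit 0) (nat_lit 0) (nat_lit 0) (nat_lit 0) (nat_lit 0) (nat_lit 1) (nat_lit 0) (nat_lit 1) (nat_lit 0) (nat_lit 258) (nat_lit 282) (nat_lit 180)) (XT.lf (nat_lit 0) (nat_lit 8388687207) (nat_lit 0) (nat_lit 0) (nat_lit 0) (nat_lit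 0) (nat_lit 0) (nat_lit 0) (nat_lit 1) (nat_lit 0) (nat_lit 1) (nat_lit 0) (nat_lit 259) (nat_lit 282) (nat_lit 179))))) (XT.nd (nat_lit 282) (nat_lit 0) (nat_lit 0) (XT.nd (nat_lit 94) (nat_lit 0) (nat_lit 0) (XT.lf (nat_lit 0) (nat_lit 8386080254) (nat_lit 0) (nat_lit 0) (nat_lit 0) (nat_lit 0) (nat_lit 0) (nat_lit 0) (nat_lit 1) (nat_lit 0) (nat_lit 1) (nat_lit 0) (nat_lit 260) (nat_lit 282) (nat_lit 178)) (XT.nd (nat_lit 94) (nat_lit 0) (nat_lit 0) (XT.lf (nat_lit 0) (nat_lit 8383597441) (nat_lit 0) (nat_lit 0) (nat_lit 0) (nat_lit 0) (nat_lit 0) (nat_lit 0) (nat_lit 1) (nat_lit 0) (nat_lit 1) (nat_lit 0) (nat_lit 261) (nat_lit 282) (nat_lit 177)) (XT.lf (nat_lit 0) (nat_lit 8381232857) (nat_lit 0) (nat_lit 0) (nat_lit 0) (nat_lit 0) (nat_lit 0) (nat_lit 0) (nat_lit 1) (nat_lit 0) (nat_lit 1) (nat_lit 0) (nat_lit 262) (nat_lit 282) (nat_lit 176)))) (XT.nd (nat_lit 188)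 (nat_lit 0) (nat_lit 0) (XT.nd (nat_lit 94) (nat_lit 0) (nat_lit 0) (XT.lf (nat_lit 0) (nat_lit 8378980872) (nat_lit 0) (nat_lit 0) (nat_lit 0) (nat_lit 0) (nat_lit 0) (nat_lit 0) (nat_lit 1) (nat_lit 0) (nat_lit 1) (nat_lit 0) (nat_lit 263) (nat_lit 282) (nat_lit 175)) (XT.lf (nat_lit 0) (nat_lit 8376836125) (nat_lit 0) (nat_lit 0) (nat_lit 0) (nat_lit 0) (nat_lit 0) (nat_lit 0) (nat_lit 1) (nat_lit 0) (nat_lit 1) (nat_lit 0) (nat_lit 264) (nat_lit 282) (nat_lit 174))) (XT.nd (nat_lit 94) (nat_lit 0) (nat_lit 0) (XT.lf (nat_lit 0) (nat_lit 8374793508) (nat_lit 0) (nat_lit 0) (nat_lit 0) (nat_lit 0) (nat_lit 0) (nat_lit 0) (nat_lit 1) (nat_lit 0) (nat_lit 1) (nat_lit 0) (nat_lit 265) (nat_lit 282) (nat_lit 173)) (XT.lf (nat_lit 0) (nat_lit 8372848159) (nat_lit 0) (nat_lit 0) (nat_lit 0) (nat_lit 0) (nat_lit 0) (nat_lit 0) (nat_lit 1) (nat_lit 0) (nat_lit 1) (nat_lit 0) (nat_lit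 266) (nat_lit 282) (nat_lit 172)))))) (XT.nd (nat_lit 658) (nat_lit 0) (nat_lit 0) (XT.nd (nat_lit 282) (nat_lit 0) (nat_lit 0) (XT.nd (nat_lit 94) (nat_lit 0) (nat_lit 0) (XT.lf (nat_lit 0) (nat_lit 8370995446) (nat_lit 0) (nat_lit 0) (nat_lit 0) (nat_lit 0) (nat_lit 0) (nat_lit 0) (nat_lit 1) (nat_lit 0) (nat_lit 1) (nat_lit 0) (nat_lit 267) (nat_lit 282) (nat_lit 171)) (XT.nd (nat_lit 94) (nat_lit 0) (nat_lit 0) (XT.lf (nat_lit 0) (nat_lit 8369230957) (nat_lit 0) (nat_lit 0) (nat_lit 0) (nat_lit 0) (nat_lit 0) (nat_lit 0) (nat_lit 1) (nat_lit 0) (nat_lit 1) (nat_lit 0) (nat_lit 268) (nat_lit 282) (nat_lit 170)) (XT.lf (nat_lit 0) (nat_lit 8367550491) (nat_lit 0) (nat_lit 0) (nat_lit 0) (nat_lit 0) (nat_lit 0) (nat_lit 0) (nat_lit 1) (nat_lit 0) (nat_lit 1) (nat_lit 0) (nat_lit 269) (nat_lit 282) (nat_lit 169)))) (XT.nd (nat_lit 188) (nat_lit 0) (nat_lit 0) (XT.nd (nat_lit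 94) (nat_lit 0) (nat_lit 0) (XT.lf (nat_lit 0) (nat_lit 8365950048) (nat_lit 0) (nat_lit 0) (nat_lit 0) (nat_lit 0) (nat_lit 0) (nat_lit 0) (nat_lit 1) (nat_lit 0) (nat_lit 1) (nat_lit 0) (nat_lit 270) (nat_lit 282) (nat_lit 168)) (XT.lf (nat_lit 0) (nat_lit 8364425816) (nat_lit 0) (nat_lit 0) (nat_lit 0) (nat_lit 0) (nat_lit 0) (nat_lit 0) (nat_lit 1) (nat_lit 0) (nat_lit 1) (nat_lit 0) (nat_lit 271) (nat_lit 282) (nat_lit 167))) (XT.nd (nat_lit 94) (nat_lit 0) (nat_lit 0) (XT.lf (nat_lit 0) (nat_lit 8362974166) (nat_lit 0) (nat_lit 0) (nat_lit 0) (nat_lit 0) (nat_lit 0) (nat_lit 0) (nat_lit 1) (nat_lit 0) (nat_lit 1) (nat_lit 0) (nat_lit 272) (nat_lit 282) (nat_lit 166)) (XT.lf (nat_lit 0) (nat_lit 8361591643) (nat_lit 0) (nat_lit 0) (nat_lit 0) (nat_lit 0) (nat_lit 0) (nat_lit 0) (nat_lit 1) (nat_lit 0) (nat_lit 1) (nat_lit 0) (nat_lit 273) (nat_lit 282) (nat_lit 165)))))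 (XT.nd (nat_lit 282) (nat_lit 0) (nat_lit 0) (XT.nd (nat_lit 94) (nat_lit 0) (nat_lit 0) (XT.lf (nat_lit 0) (nat_lit 8360274954) (nat_lit 0) (nat_lit 0) (nat_lit 0) (nat_lit 0) (nat_lit 0) (nat_lit 0) (nat_lit 1) (nat_lit 0) (nat_lit 1) (nat_lit 0) (nat_lit 274) (nat_lit 282) (nat_lit 164)) (XT.nd (nat_lit 94) (nat_lit 0) (nat_lit 0) (XT.lf (nat_lit 0) (nat_lit 8359020965) (nat_lit 0) (nat_lit 0) (nat_lit 0) (nat_lit 0) (nat_lit 0) (nat_lit 0) (nat_lit 1) (nat_lit 0) (nat_lit 1) (nat_lit 0) (nat_lit 275) (nat_lit 282) (nat_lit 163)) (XT.lf (nat_lit 0) (nat_lit 8357826689) (nat_lit 0) (nat_lit 0) (nat_lit 0) (nat_lit 0) (nat_lit 0) (nat_lit 0) (nat_lit 1) (nat_lit 0) (nat_lit 1) (nat_lit 0) (nat_lit 276) (nat_lit 282) (nat_lit 162)))) (XT.nd (nat_lit 188) (nat_lit 0) (nat_lit 0) (XT.nd (nat_lit 94) (nat_lit 0) (nat_lit 0) (XT.lf (nat_lit 0) (nat_lit 8356689284) (nat_lit 0)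 (nat_lit 0) (nat_lit 0) (nat_lit 0) (nat_lit 0) (nat_lit 0) (nat_lit 1) (nat_lit 0) (nat_lit 1) (nat_lit 0) (nat_lit 277) (nat_lit 282) (nat_lit 161)) (XT.lf (nat_lit 0) (nat_lit 8355606041) (nat_lit 0) (nat_lit 0) (nat_lit 0) (nat_lit 0) (nat_lit 0) (nat_lit 0) (nat_lit 1) (nat_lit 0) (nat_lit 1) (nat_lit 0) (nat_lit 278) (nat_lit 282) (nat_lit 160))) (XT.nd (nat_lit 94) (nat_lit 0) (nat_lit 0) (XT.lf (nat_lit 0) (nat_lit 8354574381) (nat_lit 0) (nat_lit 0) (nat_lit 0) (nat_lit 0) (nat_lit 0) (nat_lit 0) (nat_lit 1) (nat_lit 0) (nat_lit 1) (nat_lit 0) (nat_lit 279) (nat_lit 282) (nat_lit 159)) (XT.lf (nat_lit 0) (nat_lit 8353591847) (nat_lit 0) (nat_lit 0) (nat_lit 0) (nat_lit 0) (nat_lit 0) (nat_lit 0) (nat_lit 1) (nat_lit 0) (nat_lit 1) (nat_lit 0) (nat_lit 280) (nat_lit 282) (nat_lit 158))))))))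
noncomputable def ec124 : XT := (XT.nd (nat_lit 2538) (nat_lit 0) (nat_lit 0) (XT.nd (nat_lit 1222) (nat_lit 0) (nat_lit 0) (XT.nd (nat_lit 564) (nat_lit 0) (nat_lit 0) (XT.nd (nat_lit 282) (nat_lit 0) (nat_lit 0) (XT.nd (nat_lit 94) (nat_lit 0) (nat_lit 0) (XT.lf (nat_lit 0) (nat_lit 8352656101) (nat_lit 0) (nat_lit 0) (nat_lit 0) (nat_lit 0) (nat_lit 0) (nat_lit 0) (nat_lit 1) (nat_lit 0) (nat_lit 1) (nat_lit 0) (nat_lit 281) (nat_lit 282) (nat_lit 157)) (XT.nd (nat_lit 94) (nat_lit 0) (nat_lit 0) (XT.lf (nat_lit 0) (nat_lit 8351764914) (nat_lit 0) (nat_lit 0) (nat_lit 0) (nat_lit 0) (nat_lit 0) (nat_lit 0) (nat_lit 1) (nat_lit 0) (nat_lit 1) (nat_lit 0) (nat_lit 282) (nat_lit 282) (nat_lit 156)) (XT.lf (nat_lit 0) (nat_lit 8350916165) (nat_lit 0) (nat_lit 0) (nat_lit 0) (nat_lit 0) (nat_lit 0) (nat_lit 0) (nat_lit 1) (nat_lit 0) (nat_lit 1) (nat_lit 0) (nat_lit 283) (nat_lit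 282) (nat_lit 155)))) (XT.nd (nat_lit 94) (nat_lit 0) (nat_lit 0) (XT.lf (nat_lit 0) (nat_lit 8350107832) (nat_lit 0) (nat_lit 0) (nat_lit 0) (nat_lit 0) (nat_lit 0) (nat_lit 0) (nat_lit 1) (nat_lit 0) (nat_lit 1) (nat_lit 0) (nat_lit 284) (nat_lit 282) (nat_lit 154)) (XT.nd (nat_lit 94) (nat_lit 0) (nat_lit 0) (XT.lf (nat_lit 0) (nat_lit 8349337992) (nat_lit 0) (nat_lit 0) (nat_lit 0) (nat_lit 0) (nat_lit 0) (nat_lit 0) (nat_lit 1) (nat_lit 0) (nat_lit 1) (nat_lit 0) (nat_lit 285) (nat_lit 282) (nat_lit 153)) (XT.lf (nat_lit 0) (nat_lit 8348604810) (nat_lit 0) (nat_lit 0) (nat_lit 0) (nat_lit 0) (nat_lit 0) (nat_lit 0) (nat_lit 1) (nat_lit 0) (nat_lit 1) (nat_lit 0) (nat_lit 286) (nat_lit 282) (nat_lit 152))))) (XT.nd (nat_lit 282) (nat_lit 0) (nat_lit 0) (XT.nd (nat_lit 94) (nat_lit 0) (nat_lit 0) (XT.lf (nat_lit 0) (nat_lit 8347906542) (nat_lit 0) (nat_lit 0) (nat_lit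 0) (nat_lit 0) (nat_lit 0) (nat_lit 0) (nat_lit 1) (nat_lit 0) (nat_lit 1) (nat_lit 0) (nat_lit 287) (nat_lit 282) (nat_lit 151)) (XT.nd (nat_lit 94) (nat_lit 0) (nat_lit 0) (XT.lf (nat_lit 0) (nat_lit 8347241524) (nat_lit 0) (nat_lit 0) (nat_lit 0) (nat_lit 0) (nat_lit 0) (nat_lit 0) (nat_lit 1) (nat_lit 0) (nat_lit 1) (nat_lit 0) (nat_lit 288) (nat_lit 282) (nat_lit 150)) (XT.lf (nat_lit 0) (nat_lit 8346608175) (nat_lit 0) (nat_lit 0) (nat_lit 0) (nat_lit 0) (nat_lit 0) (nat_lit 0) (nat_lit 1) (nat_lit 0) (nat_lit 1) (nat_lit 0) (nat_lit 289) (nat_lit 282) (nat_lit 149)))) (XT.nd (nat_lit 188) (nat_lit 0) (nat_lit 0) (XT.nd (nat_lit 94) (nat_lit 0) (nat_lit 0) (XT.lf (nat_lit 0) (nat_lit 8346004984) (nat_lit 0) (nat_lit 0) (nat_lit 0) (nat_lit 0) (nat_lit 0) (nat_lit 0) (nat_lit 1) (nat_lit 0) (nat_lit 1) (nat_lit 0) (nat_lit 290) (nat_lit 282) (nat_lit 148)) (XT.lf (nat_lit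 0) (nat_lit 8345430517) (nat_lit 0) (nat_lit 0) (nat_lit 0) (nat_lit 0) (nat_lit 0) (nat_lit 0) (nat_lit 1) (nat_lit 0) (nat_lit 1) (nat_lit 0) (nat_lit 291) (nat_lit 282) (nat_lit 147))) (XT.nd (nat_lit 94) (nat_lit 0) (nat_lit 0) (XT.lf (nat_lit 0) (nat_lit 8344883406) (nat_lit 0) (nat_lit 0) (nat_lit 0) (nat_lit 0) (nat_lit 0) (nat_lit 0) (nat_lit 1) (nat_lit 0) (nat_lit 1) (nat_lit 0) (nat_lit 292) (nat_lit 282) (nat_lit 146)) (XT.lf (nat_lit 0) (nat_lit 8344362347) (nat_lit 0) (nat_lit 0) (nat_lit 0) (nat_lit 0) (nat_lit 0) (nat_lit 0) (nat_lit 1) (nat_lit 0) (nat_lit 1) (nat_lit 0) (nat_lit 293) (nat_lit 282) (nat_lit 145)))))) (XT.nd (nat_lit 658) (nat_lit 0) (nat_lit 0) (XT.nd (nat_lit 282) (nat_lit 0) (nat_lit 0) (XT.nd (nat_lit 94) (nat_lit 0) (nat_lit 0) (XT.lf (nat_lit 0) (nat_lit 8343866101) (nat_lit 0) (nat_lit 0) (nat_lit 0) (nat_lit 0) (nat_lit 0) (nat_lit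 0) (nat_lit 1) (nat_lit 0) (nat_lit 1) (nat_lit 0) (nat_lit 294) (nat_lit 282) (nat_lit 144)) (XT.nd (nat_lit 94) (nat_lit 0) (nat_lit 0) (XT.lf (nat_lit 0) (nat_lit 8343393486) (nat_lit 0) (nat_lit 0) (nat_lit 0) (nat_lit 0) (nat_lit 0) (nat_lit 0) (nat_lit 1) (nat_lit 0) (nat_lit 1) (nat_lit 0) (nat_lit 295) (nat_lit 282) (nat_lit 143)) (XT.lf (nat_lit 0) (nat_lit 8342943376) (nat_lit 0) (nat_lit 0) (nat_lit 0) (nat_lit 0) (nat_lit 0) (nat_lit 0) (nat_lit 1) (nat_lit 0) (nat_lit 1) (nat_lit 0) (nat_lit 296) (nat_lit 282) (nat_lit 142)))) (XT.nd (nat_lit 188) (nat_lit 0) (nat_lit 0) (XT.nd (nat_lit 94) (nat_lit 0) (nat_lit 0) (XT.lf (nat_lit 0) (nat_lit 8342514700) (nat_lit 0) (nat_lit 0) (nat_lit 0) (nat_lit 0) (nat_lit 0) (nat_lit 0) (nat_lit 1) (nat_lit 0) (nat_lit 1) (nat_lit 0) (nat_lit 297) (nat_lit 282) (nat_lit 141)) (XT.lf (nat_lit 0) (nat_lit 8342106437) (nat_lit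 0) (nat_lit 0) (nat_lit 0) (nat_lit 0) (nat_lit 0) (nat_lit 0) (nat_lit 1) (nat_lit 0) (nat_lit 1) (nat_lit 0) (nat_lit 298) (nat_lit 282) (nat_lit 140))) (XT.nd (nat_lit 94) (nat_lit 0) (nat_lit 0) (XT.lf (nat_lit 0) (nat_lit 8341717615) (nat_lit 0) (nat_lit 0) (nat_lit 0) (nat_lit 0) (nat_lit 0) (nat_lit 0) (nat_lit 1) (nat_lit 0) (nat_lit 1) (nat_lit 0) (nat_lit 299) (nat_lit 282) (nat_lit 139)) (XT.lf (nat_lit 0) (nat_lit 8341347309) (nat_lit 0) (nat_lit 0) (nat_lit 0) (nat_lit 0) (nat_lit 0) (nat_lit 0) (nat_lit 1) (nat_lit 0) (nat_lit 1) (nat_lit 0) (nat_lit 300) (nat_lit 282) (nat_lit 138))))) (XT.nd (nat_lit 282) (nat_lit 0) (nat_lit 0) (XT.nd (nat_lit 94) (nat_lit 0) (nat_lit 0) (XT.lf (nat_lit 0) (nat_lit 8340994636) (nat_lit 0) (nat_lit 0) (nat_lit 0) (nat_lit 0) (nat_lit 0) (nat_lit 0) (nat_lit 1) (nat_lit 0) (nat_lit 1) (nat_lit 0) (nat_lit 301) (nat_lit 282)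 (nat_lit 137)) (XT.nd (nat_lit 94) (nat_lit 0) (nat_lit 0) (XT.lf (nat_lit 0) (nat_lit 8340658757) (nat_lit 0) (nat_lit 0) (nat_lit 0) (nat_lit 0) (nat_lit 0) (nat_lit 0) (nat_lit 1) (nat_lit 0) (nat_lit 1) (nat_lit 0) (nat_lit 302) (nat_lit 282) (nat_lit 136)) (XT.lf (nat_lit 0) (nat_lit 8340338872) (nat_lit 0) (nat_lit 0) (nat_lit 0) (nat_lit 0) (nat_lit 0) (nat_lit 0) (nat_lit 1) (nat_lit 0) (nat_lit 1) (nat_lit 0) (nat_lit 303) (nat_lit 282) (nat_lit 135)))) (XT.nd (nat_lit 188) (nat_lit 0) (nat_lit 0) (XT.nd (nat_lit 94) (nat_lit 0) (nat_lit 0) (XT.lf (nat_lit 0) (nat_lit 8340034220) (nat_lit 0) (nat_lit 0) (nat_lit 0) (nat_lit 0) (nat_lit 0) (nat_lit 0) (nat_lit 1) (nat_lit 0) (nat_lit 1) (nat_lit 0) (nat_lit 304) (nat_lit 282) (nat_lit 134)) (XT.lf (nat_lit 0) (nat_lit 8339744075) (nat_lit 0) (nat_lit 0) (nat_lit 0) (nat_lit 0) (nat_lit 0) (nat_lit 0) (nat_lit 1)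 (nat_lit 0) (nat_lit 1) (nat_lit 0) (nat_lit 305) (nat_lit 282) (nat_lit 133))) (XT.nd (nat_lit 94) (nat_lit 0) (nat_lit 0) (XT.lf (nat_lit 0) (nat_lit 8339467747) (nat_lit 0) (nat_lit 0) (nat_lit 0) (nat_lit 0) (nat_lit 0) (nat_lit 0) (nat_lit 1) (nat_lit 0) (nat_lit 1) (nat_lit 0) (nat_lit 306) (nat_lit 282) (nat_lit 132)) (XT.lf (nat_lit 0) (nat_lit 8339204577) (nat_lit 0) (nat_lit 0) (nat_lit 0) (nat_lit 0) (nat_lit 0) (nat_lit 0) (nat_lit 1) (nat_lit 0) (nat_lit 1) (nat_lit 0) (nat_lit 307) (nat_lit 282) (nat_lit 131))))))) (XT.nd (nat_lit 31490) (nat_lit 0) (nat_lit 7812) (XT.nd (nat_lit 30832) (nat_lit 0) (nat_lit 10752) (XT.nd (nat_lit 282) (nat_lit 0) (nat_lit 0) (XT.nd (nat_lit 94) (nat_lit 0) (nat_lit 0) (XT.lf (nat_lit 0) (nat_lit 8338953939) (nat_lit 0) (nat_lit 0) (nat_lit 0) (nat_lit 0) (nat_lit 0) (nat_lit 0) (nat_lit 1) (nat_lit 0) (nat_lit 1) (nat_lit 0)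 (nat_lit 308) (nat_lit 282) (nat_lit 130)) (XT.nd (nat_lit 94) (nat_lit 0) (nat_lit 0) (XT.lf (nat_lit 0) (nat_lit 8338715236) (nat_lit 0) (nat_lit 0) (nat_lit 0) (nat_lit 0) (nat_lit 0) (nat_lit 0) (nat_lit 1) (nat_lit 0) (nat_lit 1) (nat_lit 0) (nat_lit 309) (nat_lit 282) (nat_lit 129)) (XT.lf (nat_lit 0) (nat_lit 8338487900) (nat_lit 0) (nat_lit 0) (nat_lit 0) (nat_lit 0) (nat_lit 0) (nat_lit 0) (nat_lit 1) (nat_lit 0) (nat_lit 1) (nat_lit 0) (nat_lit 310) (nat_lit 282) (nat_lit 128)))) (XT.nd (nat_lit 94) (nat_lit 0) (nat_lit 0) (XT.lf (nat_lit 0) (nat_lit 8338271389) (nat_lit 0) (nat_lit 0) (nat_lit 0) (nat_lit 0) (nat_lit 0) (nat_lit 0) (nat_lit 1) (nat_lit 0) (nat_lit 1) (nat_lit 0) (nat_lit 311) (nat_lit 282) (nat_lit 127)) (XT.nd (nat_lit 30362) (nat_lit 0) (nat_lit 10752) (XT.lf (nat_lit 0) (nat_lit 8338065189) (nat_lit 0) (nat_lit 0) (nat_lit 0) (nat_lit 0) (nat_lit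 0) (nat_lit 0) (nat_lit 1) (nat_lit 0) (nat_lit 1) (nat_lit 0) (nat_lit 312) (nat_lit 282) (nat_lit 126)) (XT.lf (nat_lit 924) (nat_lit 4379147151) (nat_lit 0) (nat_lit 7775165702) (nat_lit 924) (nat_lit 4379147151) (nat_lit 139) (nat_lit 1) (nat_lit 128) (nat_lit 0) (nat_lit 139) (nat_lit 0) (nat_lit 154) (nat_lit 283) (nat_lit 283))))) (XT.nd (nat_lit 282) (nat_lit 0) (nat_lit 168) (XT.nd (nat_lit 94) (nat_lit 0) (nat_lit 84) (XT.lf (nat_lit 924) (nat_lit 16974121075) (nat_lit 84) (nat_lit 7649759803) (nat_lit 0) (nat_lit 7649759803) (nat_lit 139) (nat_lit 1) (nat_lit 129) (nat_lit 1) (nat_lit 128) (nat_lit 0) (nat_lit 155) (nat_lit 283) (nat_lit 282)) (XT.nd (nat_lit 94) (nat_lit 0) (nat_lit 0) (XT.lf (nat_lit 924) (nat_lit 8089610525) (nat_lit 0) (nat_lit 15325664829) (nat_lit 840) (nat_lit 8089610525) (nat_lit 140) (nat_lit 1) (nat_lit 129) (nat_lit 1) (nat_lit 139)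 (nat_lit 1) (nat_lit 156) (nat_lit 283) (nat_lit 281)) (XT.lf (nat_lit 924) (nat_lit 15174985266) (nat_lit 84) (nat_lit 7792991159) (nat_lit 0) (nat_lit 7792991159) (nat_lit 140) (nat_lit 1) (nat_lit 130) (nat_lit 1) (nat_lit 129) (nat_lit 1) (nat_lit 157) (nat_lit 283) (nat_lit 280)))) (XT.nd (nat_lit 188) (nat_lit 0) (nat_lit 84) (XT.nd (nat_lit 94) (nat_lit 0) (nat_lit 0) (XT.lf (nat_lit 924) (nat_lit 6984899991) (nat_lit 0) (nat_lit 16070827786) (nat_lit 840) (nat_lit 6984899991) (nat_lit 141) (nat_lit 1) (nat_lit 130) (nat_lit 1) (nat_lit 140) (nat_lit 1) (nat_lit 158) (nat_lit 283) (nat_lit 279)) (XT.lf (nat_lit 924) (nat_lit 12562797574) (nat_lit 84) (nat_lit 8389724544) (nat_lit 0) (nat_lit 8389724544) (nat_lit 141) (nat_lit 1) (nat_lit 131) (nat_lit 1) (nat_lit 130) (nat_lit 1) (nat_lit 159) (nat_lit 283) (nat_lit 278))) (XT.nd (nat_lit 94) (nat_lit 0) (nat_lit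 0) (XT.lf (nat_lit 924) (nat_lit 5508423890) (nat_lit 0) (nat_lit 17650466995) (nat_lit 840) (nat_lit 5508423890) (nat_lit 142) (nat_lit 1) (nat_lit 131) (nat_lit 1) (nat_lit 141) (nat_lit 1) (nat_lit 160) (nat_lit 283) (nat_lit 277)) (XT.lf (nat_lit 924) (nat_lit 9259829691) (nat_lit 84) (nat_lit 9375568192) (nat_lit 0) (nat_lit 9375568192) (nat_lit 142) (nat_lit 1) (nat_lit 132) (nat_lit 1) (nat_lit 131) (nat_lit 1) (nat_lit 161) (nat_lit 283) (nat_lit 276)))))) (XT.nd (nat_lit 658) (nat_lit 1512) (nat_lit 0) (XT.nd (nat_lit 282) (nat_lit 1764) (nat_lit 0) (XT.nd (nat_lit 94) (nat_lit 0) (nat_lit 0) (XT.lf (nat_lit 924) (nat_lit 3717339321) (nat_lit 0) (nat_lit 19943964838) (nat_lit 840) (nat_lit 3717339321) (nat_lit 143) (nat_lit 1) (nat_lit 132) (nat_lit 1) (nat_lit 142) (nat_lit 1) (nat_lit 162) (nat_lit 283) (nat_lit 275)) (XT.nd (nat_lit 94) (nat_lit 0) (nat_lit 84)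 (XT.lf (nat_lit 924) (nat_lit 5374762697) (nat_lit 84) (nat_lit 10693175421) (nat_lit 0) (nat_lit 10693175421) (nat_lit 143) (nat_lit 1) (nat_lit 133) (nat_lit 1) (nat_lit 132) (nat_lit 1) (nat_lit 163) (nat_lit 283) (nat_lit 274)) (XT.lf (nat_lit 84) (nat_lit 1662413562) (nat_lit 0) (nat_lit 22843966909) (nat_lit 840) (nat_lit 1662413562) (nat_lit 134) (nat_lit 1) (nat_lit 133) (nat_lit 1) (nat_lit 143) (nat_lit 1) (nat_lit 164) (nat_lit 283) (nat_lit 273)))) (XT.nd (nat_lit 188) (nat_lit 420) (nat_lit 0) (XT.nd (nat_lit 94) (nat_lit 588) (nat_lit 0) (XT.lf (nat_lit 924) (nat_lit 1004056450) (nat_lit 0) (nat_lit 12291539238) (nat_lit 840) (nat_lit 12291539238) (nat_lit 134) (nat_lit 1) (nat_lit 123) (nat_lit 1) (nat_lit 133) (nat_lit 1) (nat_lit 165) (nat_lit 283) (nat_lit 272)) (XT.lf (nat_lit 588) (nat_lit 23827524054) (nat_lit 0) (nat_lit 601470465) (nat_lit 504) (nat_lit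 601470465) (nat_lit 123) (nat_lit 1) (nat_lit 116) (nat_lit 1) (nat_lit 122) (nat_lit 1) (nat_lit 166) (nat_lit 283) (nat_lit 271))) (XT.nd (nat_lit 94) (nat_lit 420) (nat_lit 0) (XT.lf (nat_lit 84) (nat_lit 10417352046) (nat_lit 0) (nat_lit 3646251840) (nat_lit 588) (nat_lit 10417352046) (nat_lit 117) (nat_lit 1) (nat_lit 116) (nat_lit 1) (nat_lit 123) (nat_lit 1) (nat_lit 167) (nat_lit 283) (nat_lit 270)) (XT.lf (nat_lit 504) (nat_lit 17925588853) (nat_lit 0) (nat_lit 3014612312) (nat_lit 420) (nat_lit 3014612312) (nat_lit 117) (nat_lit 1) (nat_lit 111) (nat_lit 1) (nat_lit 116) (nat_lit 1) (nat_lit 168) (nat_lit 283) (nat_lit 269))))) (XT.nd (nat_lit 282) (nat_lit 1092) (nat_lit 0) (XT.nd (nat_lit 94) (nat_lit 420) (nat_lit 0) (XT.lf (nat_lit 84) (nat_lit 7430570399) (nat_lit 0) (nat_lit 8578591191) (nat_lit 504) (nat_lit 7430570399) (nat_lit 112) (nat_lit 1) (nat_lit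 111) (nat_lit 1) (nat_lit 117) (nat_lit 1) (nat_lit 169) (nat_lit 283) (nat_lit 268)) (XT.nd (nat_lit 94) (nat_lit 0) (nat_lit 0) (XT.lf (nat_lit 504) (nat_lit 11804254468) (nat_lit 0) (nat_lit 5569167472) (nat_lit 420) (nat_lit 5569167472) (nat_lit 112) (nat_lit 1) (nat_lit 106) (nat_lit 1) (nat_lit 111) (nat_lit 1) (nat_lit 170) (nat_lit 283) (nat_lit 267)) (XT.lf (nat_lit 84) (nat_lit 4349710892) (nat_lit 0) (nat_lit 13760483632) (nat_lit 504) (nat_lit 4349710892) (nat_lit 107) (nat_lit 1) (nat_lit 106) (nat_lit 1) (nat_lit 112) (nat_lit 1) (nat_lit 171) (nat_lit 283) (nat_lit 266)))) (XT.nd (nat_lit 188) (nat_lit 756) (nat_lit 0) (XT.nd (nat_lit 94) (nat_lit 0) (nat_lit 0) (XT.lf (nat_lit 420) (nat_lit 5520494992) (nat_lit 0) (nat_lit 8234571326) (nat_lit 336) (nat_lit 8234571326) (nat_lit 107) (nat_lit 1) (nat_lit 102) (nat_lit 1) (nat_lit 106) (nat_lit 1) (nat_lit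 172) (nat_lit 283) (nat_lit 265)) (XT.lf (nat_lit 84) (nat_lit 1201222874) (nat_lit 0) (nat_lit 19135008309) (nat_lit 420) (nat_lit 1201222874) (nat_lit 103) (nat_lit 1) (nat_lit 102) (nat_lit 1) (nat_lit 107) (nat_lit 1) (nat_lit 173) (nat_lit 283) (nat_lit 264))) (XT.nd (nat_lit 94) (nat_lit 336) (nat_lit 0) (XT.lf (nat_lit 84) (nat_lit 10121849110) (nat_lit 0) (nat_lit 847724524) (nat_lit 420) (nat_lit 10121849110) (nat_lit 98) (nat_lit 1) (nat_lit 97) (nat_lit 1) (nat_lit 102) (nat_lit 1) (nat_lit 174) (nat_lit 283) (nat_lit 263)) (XT.lf (nat_lit 420) (nat_lit 16743134661) (nat_lit 0) (nat_lit 1959621369) (nat_lit 336) (nat_lit 1959621369) (nat_lit 98) (nat_lit 1) (nat_lit 93) (nat_lit 1) (nat_lit 97) (nat_lit 1) (nat_lit 175) (nat_lit 283) (nat_lit 262))))))))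
noncomputable def ec125 : XT := (XT.nd (nat_lit 2538) (nat_lit 2604) (nat_lit 0) (XT.nd (nat_lit 1222) (nat_lit 1848) (nat_lit 0) (XT.nd (nat_lit 564) (nat_lit 1092) (nat_lit 0) (XT.nd (nat_lit 282) (nat_lit 672) (nat_lit 0) (XT.nd (nat_lit 94) (nat_lit 336) (nat_lit 0) (XT.lf (nat_lit 84) (nat_lit 6567393493) (nat_lit 0) (nat_lit 7105905435) (nat_lit 420) (nat_lit 6567393493) (nat_lit 94) (nat_lit 1) (nat_lit 93) (nat_lit 1) (nat_lit 98) (nat_lit 1) (nat_lit 176) (nat_lit 283) (nat_lit 261)) (XT.nd (nat_lit 94) (nat_lit 0) (nat_lit 0) (XT.lf (nat_lit 420) (nat_lit 9583654013) (nat_lit 0) (nat_lit 5124987991) (nat_lit 336) (nat_lit 5124987991) (nat_lit 94) (nat_lit 1) (nat_lit 89) (nat_lit 1) (nat_lit 93) (nat_lit 1) (nat_lit 177) (nat_lit 283) (nat_lit 260)) (XT.lf (nat_lit 84) (nat_lit 3022256764) (nat_lit 0) (nat_lit 13393956582) (nat_lit 420) (nat_lit 3022256764) (nat_lit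 90) (nat_lit 1) (nat_lit 89) (nat_lit 1) (nat_lit 94) (nat_lit 1) (nat_lit 178) (nat_lit 283) (nat_lit 259)))) (XT.nd (nat_lit 94) (nat_lit 420) (nat_lit 0) (XT.lf (nat_lit 336) (nat_lit 2457871985) (nat_lit 0) (nat_lit 8296984080) (nat_lit 252) (nat_lit 8296984080) (nat_lit 90) (nat_lit 1) (nat_lit 86) (nat_lit 1) (nat_lit 89) (nat_lit 1) (nat_lit 179) (nat_lit 283) (nat_lit 258)) (XT.nd (nat_lit 94) (nat_lit 0) (nat_lit 0) (XT.lf (nat_lit 420) (nat_lit 17697961685) (nat_lit 0) (nat_lit 491084478) (nat_lit 336) (nat_lit 491084478) (nat_lit 86) (nat_lit 1) (nat_lit 81) (nat_lit 1) (nat_lit 85) (nat_lit 1) (nat_lit 180) (nat_lit 283) (nat_lit 257)) (XT.lf (nat_lit 84) (nat_lit 6925343246) (nat_lit 0) (nat_lit 4459792011) (nat_lit 420) (nat_lit 6925343246) (nat_lit 82) (nat_lit 1) (nat_lit 81) (nat_lit 1) (nat_lit 86) (nat_lit 1) (nat_lit 181) (nat_lit 283) (nat_lit 256)))))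 (XT.nd (nat_lit 282) (nat_lit 588) (nat_lit 0) (XT.nd (nat_lit 94) (nat_lit 252) (nat_lit 0) (XT.lf (nat_lit 336) (nat_lit 10114682751) (nat_lit 0) (nat_lit 3920160379) (nat_lit 252) (nat_lit 3920160379) (nat_lit 82) (nat_lit 1) (nat_lit 78) (nat_lit 1) (nat_lit 81) (nat_lit 1) (nat_lit 182) (nat_lit 283) (nat_lit 255)) (XT.nd (nat_lit 94) (nat_lit 252) (nat_lit 0) (XT.lf (nat_lit 84) (nat_lit 3195384739) (nat_lit 0) (nat_lit 11217790490) (nat_lit 336) (nat_lit 3195384739) (nat_lit 79) (nat_lit 1) (nat_lit 78) (nat_lit 1) (nat_lit 82) (nat_lit 1) (nat_lit 183) (nat_lit 283) (nat_lit 254)) (XT.lf (nat_lit 336) (nat_lit 2663253304) (nat_lit 0) (nat_lit 7303372310) (nat_lit 252) (nat_lit 7303372310) (nat_lit 79) (nat_lit 1) (nat_lit 75) (nat_lit 1) (nat_lit 78) (nat_lit 1) (nat_lit 184) (nat_lit 283) (nat_lit 253)))) (XT.nd (nat_lit 188) (nat_lit 252) (nat_lit 0) (XT.nd (nat_lit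 94) (nat_lit 0) (nat_lit 0) (XT.lf (nat_lit 336) (nat_lit 16028598707) (nat_lit 0) (nat_lit 457707591) (nat_lit 252) (nat_lit 457707591) (nat_lit 75) (nat_lit 1) (nat_lit 71) (nat_lit 1) (nat_lit 74) (nat_lit 1) (nat_lit 185) (nat_lit 283) (nat_lit 252)) (XT.lf (nat_lit 84) (nat_lit 6063159861) (nat_lit 0) (nat_lit 4492740576) (nat_lit 336) (nat_lit 6063159861) (nat_lit 72) (nat_lit 1) (nat_lit 71) (nat_lit 1) (nat_lit 75) (nat_lit 1) (nat_lit 186) (nat_lit 283) (nat_lit 251))) (XT.nd (nat_lit 94) (nat_lit 0) (nat_lit 0) (XT.lf (nat_lit 336) (nat_lit 8337399987) (nat_lit 0) (nat_lit 3984365026) (nat_lit 252) (nat_lit 3984365026) (nat_lit 72) (nat_lit 1) (nat_lit 68) (nat_lit 1) (nat_lit 71) (nat_lit 1) (nat_lit 187) (nat_lit 283) (nat_lit 250)) (XT.lf (nat_lit 84) (nat_lit 2296113156) (nat_lit 0) (nat_lit 11409366401) (nat_lit 336) (nat_lit 2296113156) (nat_lit 69) (nat_lit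 1) (nat_lit 68) (nat_lit 1) (nat_lit 72) (nat_lit 1) (nat_lit 188) (nat_lit 283) (nat_lit 249)))))) (XT.nd (nat_lit 658) (nat_lit 756) (nat_lit 0) (XT.nd (nat_lit 282) (nat_lit 588) (nat_lit 0) (XT.nd (nat_lit 94) (nat_lit 336) (nat_lit 0) (XT.lf (nat_lit 252) (nat_lit 841372204) (nat_lit 0) (nat_lit 7430711003) (nat_lit 168) (nat_lit 7430711003) (nat_lit 69) (nat_lit 1) (nat_lit 66) (nat_lit 1) (nat_lit 68) (nat_lit 1) (nat_lit 189) (nat_lit 283) (nat_lit 248)) (XT.nd (nat_lit 94) (nat_lit 0) (nat_lit 0) (XT.lf (nat_lit 336) (nat_lit 12712851891) (nat_lit 0) (nat_lit 1350197017) (nat_lit 252) (nat_lit 1350197017) (nat_lit 66) (nat_lit 1) (nat_lit 62) (nat_lit 1) (nat_lit 65) (nat_lit 1) (nat_lit 190) (nat_lit 283) (nat_lit 247)) (XT.lf (nat_lit 84) (nat_lit 4440297398) (nat_lit 0) (nat_lit 6246341163) (nat_lit 336) (nat_lit 4440297398) (nat_lit 63) (nat_lit 1) (nat_lit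 62) (nat_lit 1) (nat_lit 66) (nat_lit 1) (nat_lit 191) (nat_lit 283) (nat_lit 246)))) (XT.nd (nat_lit 188) (nat_lit 420) (nat_lit 0) (XT.nd (nat_lit 94) (nat_lit 0) (nat_lit 0) (XT.lf (nat_lit 252) (nat_lit 5130078699) (nat_lit 0) (nat_lit 4859691803) (nat_lit 168) (nat_lit 4859691803) (nat_lit 63) (nat_lit 1) (nat_lit 60) (nat_lit 1) (nat_lit 62) (nat_lit 1) (nat_lit 192) (nat_lit 283) (nat_lit 245)) (XT.lf (nat_lit 84) (nat_lit 737029477) (nat_lit 0) (nat_lit 13107137981) (nat_lit 252) (nat_lit 737029477) (nat_lit 61) (nat_lit 1) (nat_lit 60) (nat_lit 1) (nat_lit 63) (nat_lit 1) (nat_lit 193) (nat_lit 283) (nat_lit 244))) (XT.nd (nat_lit 94) (nat_lit 168) (nat_lit 0) (XT.lf (nat_lit 84) (nat_lit 6082833585) (nat_lit 0) (nat_lit 2148239561) (nat_lit 252) (nat_lit 6082833585) (nat_lit 58) (nat_lit 1) (nat_lit 57) (nat_lit 1) (nat_lit 60) (nat_lit 1) (nat_lit 194) (nat_lit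 283) (nat_lit 243)) (XT.lf (nat_lit 252) (nat_lit 8447080541) (nat_lit 0) (nat_lit 2804201874) (nat_lit 168) (nat_lit 2804201874) (nat_lit 58) (nat_lit 1) (nat_lit 55) (nat_lit 1) (nat_lit 57) (nat_lit 1) (nat_lit 195) (nat_lit 283) (nat_lit 242))))) (XT.nd (nat_lit 282) (nat_lit 336) (nat_lit 0) (XT.nd (nat_lit 94) (nat_lit 420) (nat_lit 0) (XT.lf (nat_lit 84) (nat_lit 2383546367) (nat_lit 0) (nat_lit 9035680813) (nat_lit 252) (nat_lit 2383546367) (nat_lit 56) (nat_lit 1) (nat_lit 55) (nat_lit 1) (nat_lit 58) (nat_lit 1) (nat_lit 196) (nat_lit 283) (nat_lit 241)) (XT.nd (nat_lit 94) (nat_lit 252) (nat_lit 0) (XT.lf (nat_lit 252) (nat_lit 1116605657) (nat_lit 0) (nat_lit 6219275573) (nat_lit 168) (nat_lit 6219275573) (nat_lit 56) (nat_lit 1) (nat_lit 53) (nat_lit 1) (nat_lit 55) (nat_lit 1) (nat_lit 197) (nat_lit 283) (nat_lit 240)) (XT.lf (nat_lit 252) (nat_lit 10974721779)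 (nat_lit 0) (nat_lit 1169996584) (nat_lit 168) (nat_lit 1169996584) (nat_lit 53) (nat_lit 1) (nat_lit 50) (nat_lit 1) (nat_lit 52) (nat_lit 1) (nat_lit 198) (nat_lit 283) (nat_lit 239)))) (XT.nd (nat_lit 188) (nat_lit 168) (nat_lit 0) (XT.nd (nat_lit 94) (nat_lit 168) (nat_lit 0) (XT.lf (nat_lit 84) (nat_lit 3653511774) (nat_lit 0) (nat_lit 5769301688) (nat_lit 252) (nat_lit 3653511774) (nat_lit 51) (nat_lit 1) (nat_lit 50) (nat_lit 1) (nat_lit 53) (nat_lit 1) (nat_lit 199) (nat_lit 283) (nat_lit 238)) (XT.lf (nat_lit 252) (nat_lit 3720924362) (nat_lit 0) (nat_lit 4561965973) (nat_lit 168) (nat_lit 4561965973) (nat_lit 51) (nat_lit 1) (nat_lit 48) (nat_lit 1) (nat_lit 50) (nat_lit 1) (nat_lit 200) (nat_lit 283) (nat_lit 237))) (XT.nd (nat_lit 94) (nat_lit 168) (nat_lit 0) (XT.lf (nat_lit 84) (nat_lit 122296521) (nat_lit 0) (nat_lit 12376911964) (nat_lit 252) (nat_lit 122296521)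 (nat_lit 49) (nat_lit 1) (nat_lit 48) (nat_lit 1) (nat_lit 51) (nat_lit 1) (nat_lit 201) (nat_lit 283) (nat_lit 236)) (XT.lf (nat_lit 84) (nat_lit 4617717253) (nat_lit 0) (nat_lit 3161299464) (nat_lit 168) (nat_lit 4617717253) (nat_lit 47) (nat_lit 1) (nat_lit 46) (nat_lit 1) (nat_lit 48) (nat_lit 1) (nat_lit 202) (nat_lit 283) (nat_lit 235))))))) (XT.nd (nat_lit 1316) (nat_lit 1092) (nat_lit 0) (XT.nd (nat_lit 658) (nat_lit 672) (nat_lit 0) (XT.nd (nat_lit 282) (nat_lit 504) (nat_lit 0) (XT.nd (nat_lit 94) (nat_lit 168) (nat_lit 0) (XT.lf (nat_lit 252) (nat_lit 5730061418) (nat_lit 0) (nat_lit 3224905046) (nat_lit 168) (nat_lit 3224905046) (nat_lit 47) (nat_lit 1) (nat_lit 44) (nat_lit 1) (nat_lit 46) (nat_lit 1) (nat_lit 203) (nat_lit 283) (nat_lit 234)) (XT.nd (nat_lit 94) (nat_lit 168) (nat_lit 0) (XT.lf (nat_lit 84) (nat_lit 1148837712) (nat_lit 0) (nat_lit 9671187293)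 (nat_lit 252) (nat_lit 1148837712) (nat_lit 45) (nat_lit 1) (nat_lit 44) (nat_lit 1) (nat_lit 47) (nat_lit 1) (nat_lit 204) (nat_lit 283) (nat_lit 233)) (XT.lf (nat_lit 84) (nat_lit 5334211293) (nat_lit 0) (nat_lit 1091171452) (nat_lit 168) (nat_lit 5334211293) (nat_lit 43) (nat_lit 1) (nat_lit 42) (nat_lit 1) (nat_lit 44) (nat_lit 1) (nat_lit 205) (nat_lit 283) (nat_lit 232)))) (XT.nd (nat_lit 188) (nat_lit 336) (nat_lit 0) (XT.nd (nat_lit 94) (nat_lit 0) (nat_lit 0) (XT.lf (nat_lit 252) (nat_lit 7255895460) (nat_lit 0) (nat_lit 2150055790) (nat_lit 168) (nat_lit 2150055790) (nat_lit 43) (nat_lit 1) (nat_lit 40) (nat_lit 1) (nat_lit 42) (nat_lit 1) (nat_lit 206) (nat_lit 283) (nat_lit 231)) (XT.lf (nat_lit 84) (nat_lit 1943460259) (nat_lit 0) (nat_lit 7469529900) (nat_lit 252) (nat_lit 1943460259) (nat_lit 41) (nat_lit 1) (nat_lit 40) (nat_lit 1) (nat_lit 43) (nat_lit 1)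 (nat_lit 207) (nat_lit 283) (nat_lit 230))) (XT.nd (nat_lit 94) (nat_lit 252) (nat_lit 0) (XT.lf (nat_lit 168) (nat_lit 557896666) (nat_lit 0) (nat_lit 5301381430) (nat_lit 84) (nat_lit 5301381430) (nat_lit 41) (nat_lit 1) (nat_lit 39) (nat_lit 1) (nat_lit 40) (nat_lit 1) (nat_lit 208) (nat_lit 283) (nat_lit 229)) (XT.lf (nat_lit 252) (nat_lit 8390166723) (nat_lit 0) (nat_lit 1289730913) (nat_lit 168) (nat_lit 1289730913) (nat_lit 39) (nat_lit 1) (nat_lit 36) (nat_lit 1) (nat_lit 38) (nat_lit 1) (nat_lit 209) (nat_lit 283) (nat_lit 228))))) (XT.nd (nat_lit 282) (nat_lit 336) (nat_lit 0) (XT.nd (nat_lit 94) (nat_lit 336) (nat_lit 0) (XT.lf (nat_lit 84) (nat_lit 2549659688) (nat_lit 0) (nat_lit 5681410430) (nat_lit 252) (nat_lit 2549659688) (nat_lit 37) (nat_lit 1) (nat_lit 36) (nat_lit 1) (nat_lit 39) (nat_lit 1) (nat_lit 210) (nat_lit 283) (nat_lit 227)) (XT.nd (nat_lit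 94) (nat_lit 252) (nat_lit 0) (XT.lf (nat_lit 168) (nat_lit 1873543396) (nat_lit 0) (nat_lit 4361459622) (nat_lit 84) (nat_lit 4361459622) (nat_lit 37) (nat_lit 1) (nat_lit 35) (nat_lit 1) (nat_lit 36) (nat_lit 1) (nat_lit 211) (nat_lit 283) (nat_lit 226)) (XT.lf (nat_lit 252) (nat_lit 9208061947) (nat_lit 0) (nat_lit 604754998) (nat_lit 168) (nat_lit 604754998) (nat_lit 35) (nat_lit 1) (nat_lit 32) (nat_lit 1) (nat_lit 34) (nat_lit 1) (nat_lit 212) (nat_lit 283) (nat_lit 225)))) (XT.nd (nat_lit 188) (nat_lit 252) (nat_lit 0) (XT.nd (nat_lit 94) (nat_lit 84) (nat_lit 0) (XT.lf (nat_lit 84) (nat_lit 3003106691) (nat_lit 0) (nat_lit 4232405369) (nat_lit 252) (nat_lit 3003106691) (nat_lit 33) (nat_lit 1) (nat_lit 32) (nat_lit 1) (nat_lit 35) (nat_lit 1) (nat_lit 213) (nat_lit 283) (nat_lit 224)) (XT.lf (nat_lit 168) (nat_lit 2888569196) (nat_lit 0) (nat_lit 3588183625) (nat_lit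 84) (nat_lit 3588183625) (nat_lit 33) (nat_lit 1) (nat_lit 31) (nat_lit 1) (nat_lit 32) (nat_lit 1) (nat_lit 214) (nat_lit 283) (nat_lit 223))) (XT.nd (nat_lit 94) (nat_lit 0) (nat_lit 0) (XT.lf (nat_lit 252) (nat_lit 9771162990) (nat_lit 0) (nat_lit 62952657) (nat_lit 168) (nat_lit 62952657) (nat_lit 31) (nat_lit 1) (nat_lit 28) (nat_lit 1) (nat_lit 30) (nat_lit 1) (nat_lit 215) (nat_lit 283) (nat_lit 222)) (XT.lf (nat_lit 84) (nat_lit 3333039837) (nat_lit 0) (nat_lit 3061338894) (nat_lit 252) (nat_lit 3333039837) (nat_lit 29) (nat_lit 1) (nat_lit 28) (nat_lit 1) (nat_lit 31) (nat_lit 1) (nat_lit 216) (nat_lit 283) (nat_lit 221)))))) (XT.nd (nat_lit 658) (nat_lit 504) (nat_lit 0) (XT.nd (nat_lit 282) (nat_lit 336) (nat_lit 0) (XT.nd (nat_lit 94) (nat_lit 168) (nat_lit 0) (XT.lf (nat_lit 168) (nat_lit 3659481034) (nat_lit 0) (nat_lit 2952007548) (nat_lit 84) (nat_lit 2952007548)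 (nat_lit 29) (nat_lit 1) (nat_lit 27) (nat_lit 1) (nat_lit 28) (nat_lit 1) (nat_lit 217) (nat_lit 283) (nat_lit 220)) (XT.nd (nat_lit 94) (nat_lit 168) (nat_lit 0) (XT.lf (nat_lit 0) (nat_lit 368031132) (nat_lit 0) (nat_lit 8668460520) (nat_lit 168) (nat_lit 368031132) (nat_lit 27) (nat_lit 3) (nat_lit 27) (nat_lit 1) (nat_lit 29) (nat_lit 1) (nat_lit 218) (nat_lit 283) (nat_lit 219)) (XT.lf (nat_lit 84) (nat_lit 3563411103) (nat_lit 0) (nat_lit 2117931581) (nat_lit 168) (nat_lit 3563411103) (nat_lit 26) (nat_lit 1) (nat_lit 25) (nat_lit 1) (nat_lit 27) (nat_lit 1) (nat_lit 219) (nat_lit 283) (nat_lit 218)))) (XT.nd (nat_lit 188) (nat_lit 252) (nat_lit 0) (XT.nd (nat_lit 94) (nat_lit 0) (nat_lit 0) (XT.lf (nat_lit 168) (nat_lit 4232614586) (nat_lit 0) (nat_lit 2428623915) (nat_lit 84) (nat_lit 2428623915) (nat_lit 26) (nat_lit 1) (nat_lit 24) (nat_lit 1) (nat_lit 25) (nat_lit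 1) (nat_lit 220) (nat_lit 283) (nat_lit 217)) (XT.lf (nat_lit 0) (nat_lit 703419626) (nat_lit 0) (nat_lit 7532203425) (nat_lit 168) (nat_lit 703419626) (nat_lit 24) (nat_lit 3) (nat_lit 24) (nat_lit 1) (nat_lit 26) (nat_lit 1) (nat_lit 221) (nat_lit 283) (nat_lit 216))) (XT.nd (nat_lit 94) (nat_lit 84) (nat_lit 0) (XT.lf (nat_lit 84) (nat_lit 3713828067) (nat_lit 0) (nat_lit 1360866122) (nat_lit 168) (nat_lit 3713828067) (nat_lit 23) (nat_lit 1) (nat_lit 22) (nat_lit 1) (nat_lit 24) (nat_lit 1) (nat_lit 222) (nat_lit 283) (nat_lit 215)) (XT.lf (nat_lit 168) (nat_lit 4645944860) (nat_lit 0) (nat_lit 1998034905) (nat_lit 84) (nat_lit 1998034905) (nat_lit 23) (nat_lit 1) (nat_lit 21) (nat_lit 1) (nat_lit 22) (nat_lit 1) (nat_lit 223) (nat_lit 283) (nat_lit 214))))) (XT.nd (nat_lit 282) (nat_lit 252) (nat_lit 0) (XT.nd (nat_lit 94) (nat_lit 252) (nat_lit 0) (XT.lf (nat_lit 0)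 (nat_lit 960266498) (nat_lit 0) (nat_lit 6578323830) (nat_lit 168) (nat_lit 960266498) (nat_lit 21) (nat_lit 3) (nat_lit 21) (nat_lit 1) (nat_lit 23) (nat_lit 1) (nat_lit 224) (nat_lit 283) (nat_lit 213)) (XT.nd (nat_lit 94) (nat_lit 84) (nat_lit 0) (XT.lf (nat_lit 84) (nat_lit 3800328812) (nat_lit 0) (nat_lit 756196087) (nat_lit 168) (nat_lit 3800328812) (nat_lit 20) (nat_lit 1) (nat_lit 19) (nat_lit 1) (nat_lit 21) (nat_lit 1) (nat_lit 225) (nat_lit 283) (nat_lit 212)) (XT.lf (nat_lit 168) (nat_lit 4930575443) (nat_lit 0) (nat_lit 1643788261) (nat_lit 84) (nat_lit 1643788261) (nat_lit 20) (nat_lit 1) (nat_lit 18) (nat_lit 1) (nat_lit 19) (nat_lit 1) (nat_lit 226) (nat_lit 283) (nat_lit 211)))) (XT.nd (nat_lit 188) (nat_lit 84) (nat_lit 0) (XT.nd (nat_lit 94) (nat_lit 168) (nat_lit 0) (XT.lf (nat_lit 0) (nat_lit 1153405464) (nat_lit 0) (nat_lit 5775395134) (nat_lit 168)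 (nat_lit 1153405464) (nat_lit 18) (nat_lit 3) (nat_lit 18) (nat_lit 1) (nat_lit 20) (nat_lit 1) (nat_lit 227) (nat_lit 283) (nat_lit 210)) (XT.lf (nat_lit 84) (nat_lit 3836019223) (nat_lit 0) (nat_lit 276036926) (nat_lit 168) (nat_lit 3836019223) (nat_lit 17) (nat_lit 1) (nat_lit 16) (nat_lit 1) (nat_lit 18) (nat_lit 1) (nat_lit 228) (nat_lit 283) (nat_lit 209))) (XT.nd (nat_lit 94) (nat_lit 0) (nat_lit 0) (XT.lf (nat_lit 168) (nat_lit 5111963390) (nat_lit 0) (nat_lit 1352348670) (nat_lit 84) (nat_lit 1352348670) (nat_lit 17) (nat_lit 1) (nat_lit 15) (nat_lit 1) (nat_lit 16) (nat_lit 1) (nat_lit 229) (nat_lit 283) (nat_lit 208)) (XT.lf (nat_lit 0) (nat_lit 1294996995) (nat_lit 0) (nat_lit 5097519335) (nat_lit 168) (nat_lit 1294996995) (nat_lit 15) (nat_lit 3) (nat_lit 15) (nat_lit 1) (nat_lit 17) (nat_lit 1) (nat_lit 230) (nat_lit 283) (nat_lit 207))))))))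
noncomputable def ec126 : XT := (XT.nd (nat_lit 2538) (nat_lit 0) (nat_lit 0) (XT.nd (nat_lit 1222) (nat_lit 168) (nat_lit 0) (XT.nd (nat_lit 564) (nat_lit 588) (nat_lit 0) (XT.nd (nat_lit 282) (nat_lit 252) (nat_lit 0) (XT.nd (nat_lit 94) (nat_lit 168) (nat_lit 0) (XT.lf (nat_lit 84) (nat_lit 105900319) (nat_lit 0) (nat_lit 3727350166) (nat_lit 84) (nat_lit 3727350166) (nat_lit 15) (nat_lit 3) (nat_lit 14) (nat_lit 1) (nat_lit 15) (nat_lit 1) (nat_lit 231) (nat_lit 283) (nat_lit 206)) (XT.nd (nat_lit 94) (nat_lit 0) (nat_lit 0) (XT.lf (nat_lit 168) (nat_lit 5210926619) (nat_lit 0) (nat_lit 1112580598) (nat_lit 84) (nat_lit 1112580598) (nat_lit 14) (nat_lit 1) (nat_lit 12) (nat_lit 1) (nat_lit 13) (nat_lit 1) (nat_lit 232) (nat_lit 283) (nat_lit 205)) (XT.lf (nat_lit 0) (nat_lit 1395004343) (nat_lit 0) (nat_lit 4523348883) (nat_lit 168) (nat_lit 1395004343) (nat_lit 12)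 (nat_lit 3) (nat_lit 12) (nat_lit 1) (nat_lit 14) (nat_lit 1) (nat_lit 233) (nat_lit 283) (nat_lit 204)))) (XT.nd (nat_lit 94) (nat_lit 168) (nat_lit 0) (XT.lf (nat_lit 84) (nat_lit 411415321) (nat_lit 0) (nat_lit 3390791073) (nat_lit 84) (nat_lit 3390791073) (nat_lit 12) (nat_lit 3) (nat_lit 11) (nat_lit 1) (nat_lit 12) (nat_lit 1) (nat_lit 234) (nat_lit 283) (nat_lit 203)) (XT.nd (nat_lit 94) (nat_lit 0) (nat_lit 0) (XT.lf (nat_lit 168) (nat_lit 5244472403) (nat_lit 0) (nat_lit 915322811) (nat_lit 84) (nat_lit 915322811) (nat_lit 11) (nat_lit 1) (nat_lit 9) (nat_lit 1) (nat_lit 10) (nat_lit 1) (nat_lit 235) (nat_lit 283) (nat_lit 202)) (XT.lf (nat_lit 0) (nat_lit 1461585059) (nat_lit 0) (nat_lit 4035281854) (nat_lit 168) (nat_lit 1461585059) (nat_lit 9) (nat_lit 3) (nat_lit 9) (nat_lit 1) (nat_lit 11) (nat_lit 1) (nat_lit 236) (nat_lit 283) (nat_lit 201))))) (XT.nd (nat_lit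 282) (nat_lit 336) (nat_lit 0) (XT.nd (nat_lit 94) (nat_lit 168) (nat_lit 0) (XT.lf (nat_lit 84) (nat_lit 647320847) (nat_lit 0) (nat_lit 3098460651) (nat_lit 84) (nat_lit 3098460651) (nat_lit 9) (nat_lit 3) (nat_lit 8) (nat_lit 1) (nat_lit 9) (nat_lit 1) (nat_lit 237) (nat_lit 283) (nat_lit 200)) (XT.nd (nat_lit 94) (nat_lit 0) (nat_lit 0) (XT.lf (nat_lit 168) (nat_lit 5226478689) (nat_lit 0) (nat_lit 753038342) (nat_lit 84) (nat_lit 753038342) (nat_lit 8) (nat_lit 1) (nat_lit 6) (nat_lit 1) (nat_lit 7) (nat_lit 1) (nat_lit 238) (nat_lit 283) (nat_lit 199)) (XT.lf (nat_lit 0) (nat_lit 1501413010) (nat_lit 0) (nat_lit 3618799733) (nat_lit 168) (nat_lit 1501413010) (nat_lit 6) (nat_lit 3) (nat_lit 6) (nat_lit 1) (nat_lit 8) (nat_lit 1) (nat_lit 239) (nat_lit 283) (nat_lit 198)))) (XT.nd (nat_lit 188) (nat_lit 84) (nat_lit 0) (XT.nd (nat_lit 94) (nat_lit 168) (nat_lit 0) (XT.lf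 (nat_lit 84) (nat_lit 826693838) (nat_lit 0) (nat_lit 2843252622) (nat_lit 84) (nat_lit 2843252622) (nat_lit 6) (nat_lit 3) (nat_lit 5) (nat_lit 1) (nat_lit 6) (nat_lit 1) (nat_lit 240) (nat_lit 283) (nat_lit 197)) (XT.lf (nat_lit 168) (nat_lit 5168254347) (nat_lit 0) (nat_lit 619526507) (nat_lit 84) (nat_lit 619526507) (nat_lit 5) (nat_lit 1) (nat_lit 3) (nat_lit 1) (nat_lit 4) (nat_lit 1) (nat_lit 241) (nat_lit 283) (nat_lit 196))) (XT.nd (nat_lit 94) (nat_lit 84) (nat_lit 0) (XT.lf (nat_lit 0) (nat_lit 1519943214) (nat_lit 0) (nat_lit 3261922511) (nat_lit 168) (nat_lit 1519943214) (nat_lit 3) (nat_lit 3) (nat_lit 3) (nat_lit 1) (nat_lit 5) (nat_lit 1) (nat_lit 242) (nat_lit 283) (nat_lit 195)) (XT.lf (nat_lit 84) (nat_lit 960257710) (nat_lit 0) (nat_lit 2619285612) (nat_lit 84) (nat_lit 2619285612) (nat_lit 3) (nat_lit 3) (nat_lit 2) (nat_lit 1) (nat_lit 3) (nat_lit 1)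 (nat_lit 243) (nat_lit 283) (nat_lit 194)))))) (XT.nd (nat_lit 658) (nat_lit 0) (nat_lit 0) (XT.nd (nat_lit 282) (nat_lit 0) (nat_lit 0) (XT.nd (nat_lit 94) (nat_lit 0) (nat_lit 0) (XT.lf (nat_lit 0) (nat_lit 8859031631) (nat_lit 0) (nat_lit 0) (nat_lit 0) (nat_lit 0) (nat_lit 0) (nat_lit 0) (nat_lit 1) (nat_lit 0) (nat_lit 1) (nat_lit 0) (nat_lit 244) (nat_lit 283) (nat_lit 193)) (XT.nd (nat_lit 94) (nat_lit 0) (nat_lit 0) (XT.lf (nat_lit 0) (nat_lit 8853870040) (nat_lit 0) (nat_lit 0) (nat_lit 0) (nat_lit 0) (nat_lit 0) (nat_lit 0) (nat_lit 1) (nat_lit 0) (nat_lit 1) (nat_lit 0) (nat_lit 245) (nat_lit 283) (nat_lit 192)) (XT.lf (nat_lit 0) (nat_lit 8848954240) (nat_lit 0) (nat_lit 0) (nat_lit 0) (nat_lit 0) (nat_lit 0) (nat_lit 0) (nat_lit 1) (nat_lit 0) (nat_lit 1) (nat_lit 0) (nat_lit 246) (nat_lit 283) (nat_lit 191)))) (XT.nd (nat_lit 188) (nat_lit 0) (nat_lit 0) (XT.nd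 (nat_lit 94) (nat_lit 0) (nat_lit 0) (XT.lf (nat_lit 0) (nat_lit 8844272526) (nat_lit 0) (nat_lit 0) (nat_lit 0) (nat_lit 0) (nat_lit 0) (nat_lit 0) (nat_lit 1) (nat_lit 0) (nat_lit 1) (nat_lit 0) (nat_lit 247) (nat_lit 283) (nat_lit 190)) (XT.lf (nat_lit 0) (nat_lit 8839813750) (nat_lit 0) (nat_lit 0) (nat_lit 0) (nat_lit 0) (nat_lit 0) (nat_lit 0) (nat_lit 1) (nat_lit 0) (nat_lit 1) (nat_lit 0) (nat_lit 248) (nat_lit 283) (nat_lit 189))) (XT.nd (nat_lit 94) (nat_lit 0) (nat_lit 0) (XT.lf (nat_lit 0) (nat_lit 8835567297) (nat_lit 0) (nat_lit 0) (nat_lit 0) (nat_lit 0) (nat_lit 0) (nat_lit 0) (nat_lit 1) (nat_lit 0) (nat_lit 1) (nat_lit 0) (nat_lit 249) (nat_lit 283) (nat_lit 188)) (XT.lf (nat_lit 0) (nat_lit 8831523056) (nat_lit 0) (nat_lit 0) (nat_lit 0) (nat_lit 0) (nat_lit 0) (nat_lit 0) (nat_lit 1) (nat_lit 0) (nat_lit 1) (nat_lit 0) (nat_lit 250) (nat_lit 283) (nat_lit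 187))))) (XT.nd (nat_lit 282) (nat_lit 0) (nat_lit 0) (XT.nd (nat_lit 94) (nat_lit 0) (nat_lit 0) (XT.lf (nat_lit 0) (nat_lit 8827671398) (nat_lit 0) (nat_lit 0) (nat_lit 0) (nat_lit 0) (nat_lit 0) (nat_lit 0) (nat_lit 1) (nat_lit 0) (nat_lit 1) (nat_lit 0) (nat_lit 251) (nat_lit 283) (nat_lit 186)) (XT.nd (nat_lit 94) (nat_lit 0) (nat_lit 0) (XT.lf (nat_lit 0) (nat_lit 8824003152) (nat_lit 0) (nat_lit 0) (nat_lit 0) (nat_lit 0) (nat_lit 0) (nat_lit 0) (nat_lit 1) (nat_lit 0) (nat_lit 1) (nat_lit 0) (nat_lit 252) (nat_lit 283) (nat_lit 185)) (XT.lf (nat_lit 0) (nat_lit 8820509585) (nat_lit 0) (nat_lit 0) (nat_lit 0) (nat_lit 0) (nat_lit 0) (nat_lit 0) (nat_lit 1) (nat_lit 0) (nat_lit 1) (nat_lit 0) (nat_lit 253) (nat_lit 283) (nat_lit 184)))) (XT.nd (nat_lit 188) (nat_lit 0) (nat_lit 0) (XT.nd (nat_lit 94) (nat_lit 0) (nat_lit 0) (XT.lf (nat_lit 0) (nat_lit 8817182378) (nat_lit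 0) (nat_lit 0) (nat_lit 0) (nat_lit 0) (nat_lit 0) (nat_lit 0) (nat_lit 1) (nat_lit 0) (nat_lit 1) (nat_lit 0) (nat_lit 254) (nat_lit 283) (nat_lit 183)) (XT.lf (nat_lit 0) (nat_lit 8814013609) (nat_lit 0) (nat_lit 0) (nat_lit 0) (nat_lit 0) (nat_lit 0) (nat_lit 0) (nat_lit 1) (nat_lit 0) (nat_lit 1) (nat_lit 0) (nat_lit 255) (nat_lit 283) (nat_lit 182))) (XT.nd (nat_lit 94) (nat_lit 0) (nat_lit 0) (XT.lf (nat_lit 0) (nat_lit 8810995734) (nat_lit 0) (nat_lit 0) (nat_lit 0) (nat_lit 0) (nat_lit 0) (nat_lit 0) (nat_lit 1) (nat_lit 0) (nat_lit 1) (nat_lit 0) (nat_lit 256) (nat_lit 283) (nat_lit 181)) (XT.lf (nat_lit 0) (nat_lit 8808121568) (nat_lit 0) (nat_lit 0) (nat_lit 0) (nat_lit 0) (nat_lit 0) (nat_lit 0) (nat_lit 1) (nat_lit 0) (nat_lit 1) (nat_lit 0) (nat_lit 257) (nat_lit 283) (nat_lit 180))))))) (XT.nd (nat_lit 1222) (nat_lit 0) (nat_lit 0) (XT.nd (nat_lit 564) (nat_lit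 0) (nat_lit 0) (XT.nd (nat_lit 282) (nat_lit 0) (nat_lit 0) (XT.nd (nat_lit 94) (nat_lit 0) (nat_lit 0) (XT.lf (nat_lit 0) (nat_lit 8805384266) (nat_lit 0) (nat_lit 0) (nat_lit 0) (nat_lit 0) (nat_lit 0) (nat_lit 0) (nat_lit 1) (nat_lit 0) (nat_lit 1) (nat_lit 0) (nat_lit 258) (nat_lit 283) (nat_lit 179)) (XT.nd (nat_lit 94) (nat_lit 0) (nat_lit 0) (XT.lf (nat_lit 0) (nat_lit 8802777313) (nat_lit 0) (nat_lit 0) (nat_lit 0) (nat_lit 0) (nat_lit 0) (nat_lit 0) (nat_lit 1) (nat_lit 0) (nat_lit 1) (nat_lit 0) (nat_lit 259) (nat_lit 283) (nat_lit 178)) (XT.lf (nat_lit 0) (nat_lit 8800294499) (nat_lit 0) (nat_lit 0) (nat_lit 0) (nat_lit 0) (nat_lit 0) (nat_lit 0) (nat_lit 1) (nat_lit 0) (nat_lit 1) (nat_lit 0) (nat_lit 260) (nat_lit 283) (nat_lit 177)))) (XT.nd (nat_lit 94) (nat_lit 0) (nat_lit 0) (XT.lf (nat_lit 0) (nat_lit 8797929916) (nat_lit 0) (nat_lit 0) (nat_lit 0) (nat_lit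 0) (nat_lit 0) (nat_lit 0) (nat_lit 1) (nat_lit 0) (nat_lit 1) (nat_lit 0) (nat_lit 261) (nat_lit 283) (nat_lit 176)) (XT.nd (nat_lit 94) (nat_lit 0) (nat_lit 0) (XT.lf (nat_lit 0) (nat_lit 8795677931) (nat_lit 0) (nat_lit 0) (nat_lit 0) (nat_lit 0) (nat_lit 0) (nat_lit 0) (nat_lit 1) (nat_lit 0) (nat_lit 1) (nat_lit 0) (nat_lit 262) (nat_lit 283) (nat_lit 175)) (XT.lf (nat_lit 0) (nat_lit 8793533183) (nat_lit 0) (nat_lit 0) (nat_lit 0) (nat_lit 0) (nat_lit 0) (nat_lit 0) (nat_lit 1) (nat_lit 0) (nat_lit 1) (nat_lit 0) (nat_lit 263) (nat_lit 283) (nat_lit 174))))) (XT.nd (nat_lit 282) (nat_lit 0) (nat_lit 0) (XT.nd (nat_lit 94) (nat_lit 0) (nat_lit 0) (XT.lf (nat_lit 0) (nat_lit 8791490567) (nat_lit 0) (nat_lit 0) (nat_lit 0) (nat_lit 0) (nat_lit 0) (nat_lit 0) (nat_lit 1) (nat_lit 0) (nat_lit 1) (nat_lit 0) (nat_lit 264) (nat_lit 283) (nat_lit 173)) (XT.nd (nat_lit 94)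 (nat_lit 0) (nat_lit 0) (XT.lf (nat_lit 0) (nat_lit 8789545218) (nat_lit 0) (nat_lit 0) (nat_lit 0) (nat_lit 0) (nat_lit 0) (nat_lit 0) (nat_lit 1) (nat_lit 0) (nat_lit 1) (nat_lit 0) (nat_lit 265) (nat_lit 283) (nat_lit 172)) (XT.lf (nat_lit 0) (nat_lit 8787692505) (nat_lit 0) (nat_lit 0) (nat_lit 0) (nat_lit 0) (nat_lit 0) (nat_lit 0) (nat_lit 1) (nat_lit 0) (nat_lit 1) (nat_lit 0) (nat_lit 266) (nat_lit 283) (nat_lit 171)))) (XT.nd (nat_lit 188) (nat_lit 0) (nat_lit 0) (XT.nd (nat_lit 94) (nat_lit 0) (nat_lit 0) (XT.lf (nat_lit 0) (nat_lit 8785928016) (nat_lit 0) (nat_lit 0) (nat_lit 0) (nat_lit 0) (nat_lit 0) (nat_lit 0) (nat_lit 1) (nat_lit 0) (nat_lit 1) (nat_lit 0) (nat_lit 267) (nat_lit 283) (nat_lit 170)) (XT.lf (nat_lit 0) (nat_lit 8784247550) (nat_lit 0) (nat_lit 0) (nat_lit 0) (nat_lit 0) (nat_lit 0) (nat_lit 0) (nat_lit 1) (nat_lit 0) (nat_lit 1) (nat_lit 0)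 (nat_lit 268) (nat_lit 283) (nat_lit 169))) (XT.nd (nat_lit 94) (nat_lit 0) (nat_lit 0) (XT.lf (nat_lit 0) (nat_lit 8782647106) (nat_lit 0) (nat_lit 0) (nat_lit 0) (nat_lit 0) (nat_lit 0) (nat_lit 0) (nat_lit 1) (nat_lit 0) (nat_lit 1) (nat_lit 0) (nat_lit 269) (nat_lit 283) (nat_lit 168)) (XT.lf (nat_lit 0) (nat_lit 8781122875) (nat_lit 0) (nat_lit 0) (nat_lit 0) (nat_lit 0) (nat_lit 0) (nat_lit 0) (nat_lit 1) (nat_lit 0) (nat_lit 1) (nat_lit 0) (nat_lit 270) (nat_lit 283) (nat_lit 167)))))) (XT.nd (nat_lit 658) (nat_lit 0) (nat_lit 0) (XT.nd (nat_lit 282) (nat_lit 0) (nat_lit 0) (XT.nd (nat_lit 94) (nat_lit 0) (nat_lit 0) (XT.lf (nat_lit 0) (nat_lit 8779671225) (nat_lit 0) (nat_lit 0) (nat_lit 0) (nat_lit 0) (nat_lit 0) (nat_lit 0) (nat_lit 1) (nat_lit 0) (nat_lit 1) (nat_lit 0) (nat_lit 271) (nat_lit 283) (nat_lit 166)) (XT.nd (nat_lit 94) (nat_lit 0) (nat_lit 0) (XT.lf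 (nat_lit 0) (nat_lit 8778288702) (nat_lit 0) (nat_lit 0) (nat_lit 0) (nat_lit 0) (nat_lit 0) (nat_lit 0) (nat_lit 1) (nat_lit 0) (nat_lit 1) (nat_lit 0) (nat_lit 272) (nat_lit 283) (nat_lit 165)) (XT.lf (nat_lit 0) (nat_lit 8776972013) (nat_lit 0) (nat_lit 0) (nat_lit 0) (nat_lit 0) (nat_lit 0) (nat_lit 0) (nat_lit 1) (nat_lit 0) (nat_lit 1) (nat_lit 0) (nat_lit 273) (nat_lit 283) (nat_lit 164)))) (XT.nd (nat_lit 188) (nat_lit 0) (nat_lit 0) (XT.nd (nat_lit 94) (nat_lit 0) (nat_lit 0) (XT.lf (nat_lit 0) (nat_lit 8775718024) (nat_lit 0) (nat_lit 0) (nat_lit 0) (nat_lit 0) (nat_lit 0) (nat_lit 0) (nat_lit 1) (nat_lit 0) (nat_lit 1) (nat_lit 0) (nat_lit 274) (nat_lit 283) (nat_lit 163)) (XT.lf (nat_lit 0) (nat_lit 8774523748) (nat_lit 0) (nat_lit 0) (nat_lit 0) (nat_lit 0) (nat_lit 0) (nat_lit 0) (nat_lit 1) (nat_lit 0) (nat_lit 1) (nat_lit 0) (nat_lit 275) (nat_lit 283) (nat_lit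 162))) (XT.nd (nat_lit 94) (nat_lit 0) (nat_lit 0) (XT.lf (nat_lit 0) (nat_lit 8773386343) (nat_lit 0) (nat_lit 0) (nat_lit 0) (nat_lit 0) (nat_lit 0) (nat_lit 0) (nat_lit 1) (nat_lit 0) (nat_lit 1) (nat_lit 0) (nat_lit 276) (nat_lit 283) (nat_lit 161)) (XT.lf (nat_lit 0) (nat_lit 8772303100) (nat_lit 0) (nat_lit 0) (nat_lit 0) (nat_lit 0) (nat_lit 0) (nat_lit 0) (nat_lit 1) (nat_lit 0) (nat_lit 1) (nat_lit 0) (nat_lit 277) (nat_lit 283) (nat_lit 160))))) (XT.nd (nat_lit 282) (nat_lit 0) (nat_lit 0) (XT.nd (nat_lit 94) (nat_lit 0) (nat_lit 0) (XT.lf (nat_lit 0) (nat_lit 8771271440) (nat_lit 0) (nat_lit 0) (nat_lit 0) (nat_lit 0) (nat_lit 0) (nat_lit 0) (nat_lit 1) (nat_lit 0) (nat_lit 1) (nat_lit 0) (nat_lit 278) (nat_lit 283) (nat_lit 159)) (XT.nd (nat_lit 94) (nat_lit 0) (nat_lit 0) (XT.lf (nat_lit 0) (nat_lit 8770288906) (nat_lit 0) (nat_lit 0) (nat_lit 0) (nat_lit 0)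 (nat_lit 0) (nat_lit 0) (nat_lit 1) (nat_lit 0) (nat_lit 1) (nat_lit 0) (nat_lit 279) (nat_lit 283) (nat_lit 158)) (XT.lf (nat_lit 0) (nat_lit 8769353160) (nat_lit 0) (nat_lit 0) (nat_lit 0) (nat_lit 0) (nat_lit 0) (nat_lit 0) (nat_lit 1) (nat_lit 0) (nat_lit 1) (nat_lit 0) (nat_lit 280) (nat_lit 283) (nat_lit 157)))) (XT.nd (nat_lit 188) (nat_lit 0) (nat_lit 0) (XT.nd (nat_lit 94) (nat_lit 0) (nat_lit 0) (XT.lf (nat_lit 0) (nat_lit 8768461973) (nat_lit 0) (nat_lit 0) (nat_lit 0) (nat_lit 0) (nat_lit 0) (nat_lit 0) (nat_lit 1) (nat_lit 0) (nat_lit 1) (nat_lit 0) (nat_lit 281) (nat_lit 283) (nat_lit 156)) (XT.lf (nat_lit 0) (nat_lit 8767613224) (nat_lit 0) (nat_lit 0) (nat_lit 0) (nat_lit 0) (nat_lit 0) (nat_lit 0) (nat_lit 1) (nat_lit 0) (nat_lit 1) (nat_lit 0) (nat_lit 282) (nat_lit 283) (nat_lit 155))) (XT.nd (nat_lit 94) (nat_lit 0) (nat_lit 0) (XT.lf (nat_lit 0) (nat_lit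 8766804891) (nat_lit 0) (nat_lit 0) (nat_lit 0) (nat_lit 0) (nat_lit 0) (nat_lit 0) (nat_lit 1) (nat_lit 0) (nat_lit 1) (nat_lit 0) (nat_lit 283) (nat_lit 283) (nat_lit 154)) (XT.lf (nat_lit 0) (nat_lit 8766035050) (nat_lit 0) (nat_lit 0) (nat_lit 0) (nat_lit 0) (nat_lit 0) (nat_lit 0) (nat_lit 1) (nat_lit 0) (nat_lit 1) (nat_lit 0) (nat_lit 284) (nat_lit 283) (nat_lit 153))))))))
noncomputable def ec127 : XT := (XT.nd (nat_lit 2538) (nat_lit 0) (nat_lit 0) (XT.nd (nat_lit 1222) (nat_lit 0) (nat_lit 0) (XT.nd (nat_lit 564) (nat_lit 0) (nat_lit 0) (XT.nd (nat_lit 282) (nat_lit 0) (nat_lit 0) (XT.nd (nat_lit 94) (nat_lit 0) (nat_lit 0) (XT.lf (nat_lit 0) (nat_lit 8765301869) (nat_lit 0) (nat_lit 0) (nat_lit 0) (nat_lit 0) (nat_lit 0) (nat_lit 0) (nat_lit 1) (nat_lit 0) (nat_lit 1) (nat_lit 0) (nat_lit 285) (nat_lit 283) (nat_lit 152)) (XT.nd (nat_lit 94) (nat_lit 0) (nat_lit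 0) (XT.lf (nat_lit 0) (nat_lit 8764603601) (nat_lit 0) (nat_lit 0) (nat_lit 0) (nat_lit 0) (nat_lit 0) (nat_lit 0) (nat_lit 1) (nat_lit 0) (nat_lit 1) (nat_lit 0) (nat_lit 286) (nat_lit 283) (nat_lit 151)) (XT.lf (nat_lit 0) (nat_lit 8763938583) (nat_lit 0) (nat_lit 0) (nat_lit 0) (nat_lit 0) (nat_lit 0) (nat_lit 0) (nat_lit 1) (nat_lit 0) (nat_lit 1) (nat_lit 0) (nat_lit 287) (nat_lit 283) (nat_lit 150)))) (XT.nd (nat_lit 94) (nat_lit 0) (nat_lit 0) (XT.lf (nat_lit 0) (nat_lit 8763305234) (nat_lit 0) (nat_lit 0) (nat_lit 0) (nat_lit 0) (nat_lit 0) (nat_lit 0) (nat_lit 1) (nat_lit 0) (nat_lit 1) (nat_lit 0) (nat_lit 288) (nat_lit 283) (nat_lit 149)) (XT.nd (nat_lit 94) (nat_lit 0) (nat_lit 0) (XT.lf (nat_lit 0) (nat_lit 8762702043) (nat_lit 0) (nat_lit 0) (nat_lit 0) (nat_lit 0) (nat_lit 0) (nat_lit 0) (nat_lit 1) (nat_lit 0) (nat_lit 1) (nat_lit 0) (nat_lit 289) (nat_lit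 283) (nat_lit 148)) (XT.lf (nat_lit 0) (nat_lit 8762127576) (nat_lit 0) (nat_lit 0) (nat_lit 0) (nat_lit 0) (nat_lit 0) (nat_lit 0) (nat_lit 1) (nat_lit 0) (nat_lit 1) (nat_lit 0) (nat_lit 290) (nat_lit 283) (nat_lit 147))))) (XT.nd (nat_lit 282) (nat_lit 0) (nat_lit 0) (XT.nd (nat_lit 94) (nat_lit 0) (nat_lit 0) (XT.lf (nat_lit 0) (nat_lit 8761580465) (nat_lit 0) (nat_lit 0) (nat_lit 0) (nat_lit 0) (nat_lit 0) (nat_lit 0) (nat_lit 1) (nat_lit 0) (nat_lit 1) (nat_lit 0) (nat_lit 291) (nat_lit 283) (nat_lit 146)) (XT.nd (nat_lit 94) (nat_lit 0) (nat_lit 0) (XT.lf (nat_lit 0) (nat_lit 8761059406) (nat_lit 0) (nat_lit 0) (nat_lit 0) (nat_lit 0) (nat_lit 0) (nat_lit 0) (nat_lit 1) (nat_lit 0) (nat_lit 1) (nat_lit 0) (nat_lit 292) (nat_lit 283) (nat_lit 145)) (XT.lf (nat_lit 0) (nat_lit 8760563160) (nat_lit 0) (nat_lit 0) (nat_lit 0) (nat_lit 0) (nat_lit 0) (nat_lit 0) (nat_lit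 1) (nat_lit 0) (nat_lit 1) (nat_lit 0) (nat_lit 293) (nat_lit 283) (nat_lit 144)))) (XT.nd (nat_lit 188) (nat_lit 0) (nat_lit 0) (XT.nd (nat_lit 94) (nat_lit 0) (nat_lit 0) (XT.lf (nat_lit 0) (nat_lit 8760090545) (nat_lit 0) (nat_lit 0) (nat_lit 0) (nat_lit 0) (nat_lit 0) (nat_lit 0) (nat_lit 1) (nat_lit 0) (nat_lit 1) (nat_lit 0) (nat_lit 294) (nat_lit 283) (nat_lit 143)) (XT.lf (nat_lit 0) (nat_lit 8759640435) (nat_lit 0) (nat_lit 0) (nat_lit 0) (nat_lit 0) (nat_lit 0) (nat_lit 0) (nat_lit 1) (nat_lit 0) (nat_lit 1) (nat_lit 0) (nat_lit 295) (nat_lit 283) (nat_lit 142))) (XT.nd (nat_lit 94) (nat_lit 0) (nat_lit 0) (XT.lf (nat_lit 0) (nat_lit 8759211759) (nat_lit 0) (nat_lit 0) (nat_lit 0) (nat_lit 0) (nat_lit 0) (nat_lit 0) (nat_lit 1) (nat_lit 0) (nat_lit 1) (nat_lit 0) (nat_lit 296) (nat_lit 283) (nat_lit 141)) (XT.lf (nat_lit 0) (nat_lit 8758803496) (nat_lit 0) (nat_lit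 0) (nat_lit 0) (nat_lit 0) (nat_lit 0) (nat_lit 0) (nat_lit 1) (nat_lit 0) (nat_lit 1) (nat_lit 0) (nat_lit 297) (nat_lit 283) (nat_lit 140)))))) (XT.nd (nat_lit 658) (nat_lit 0) (nat_lit 0) (XT.nd (nat_lit 282) (nat_lit 0) (nat_lit 0) (XT.nd (nat_lit 94) (nat_lit 0) (nat_lit 0) (XT.lf (nat_lit 0) (nat_lit 8758414674) (nat_lit 0) (nat_lit 0) (nat_lit 0) (nat_lit 0) (nat_lit 0) (nat_lit 0) (nat_lit 1) (nat_lit 0) (nat_lit 1) (nat_lit 0) (nat_lit 298) (nat_lit 283) (nat_lit 139)) (XT.nd (nat_lit 94) (nat_lit 0) (nat_lit 0) (XT.lf (nat_lit 0) (nat_lit 8758044367) (nat_lit 0) (nat_lit 0) (nat_lit 0) (nat_lit 0) (nat_lit 0) (nat_lit 0) (nat_lit 1) (nat_lit 0) (nat_lit 1) (nat_lit 0) (nat_lit 299) (nat_lit 283) (nat_lit 138)) (XT.lf (nat_lit 0) (nat_lit 8757691695) (nat_lit 0) (nat_lit 0) (nat_lit 0) (nat_lit 0) (nat_lit 0) (nat_lit 0) (nat_lit 1) (nat_lit 0) (nat_lit 1) (nat_lit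 0) (nat_lit 300) (nat_lit 283) (nat_lit 137)))) (XT.nd (nat_lit 188) (nat_lit 0) (nat_lit 0) (XT.nd (nat_lit 94) (nat_lit 0) (nat_lit 0) (XT.lf (nat_lit 0) (nat_lit 8757355816) (nat_lit 0) (nat_lit 0) (nat_lit 0) (nat_lit 0) (nat_lit 0) (nat_lit 0) (nat_lit 1) (nat_lit 0) (nat_lit 1) (nat_lit 0) (nat_lit 301) (nat_lit 283) (nat_lit 136)) (XT.lf (nat_lit 0) (nat_lit 8757035931) (nat_lit 0) (nat_lit 0) (nat_lit 0) (nat_lit 0) (nat_lit 0) (nat_lit 0) (nat_lit 1) (nat_lit 0) (nat_lit 1) (nat_lit 0) (nat_lit 302) (nat_lit 283) (nat_lit 135))) (XT.nd (nat_lit 94) (nat_lit 0) (nat_lit 0) (XT.lf (nat_lit 0) (nat_lit 8756731279) (nat_lit 0) (nat_lit 0) (nat_lit 0) (nat_lit 0) (nat_lit 0) (nat_lit 0) (nat_lit 1) (nat_lit 0) (nat_lit 1) (nat_lit 0) (nat_lit 303) (nat_lit 283) (nat_lit 134)) (XT.lf (nat_lit 0) (nat_lit 8756441134) (nat_lit 0) (nat_lit 0) (nat_lit 0) (nat_lit 0) (nat_lit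 0) (nat_lit 0) (nat_lit 1) (nat_lit 0) (nat_lit 1) (nat_lit 0) (nat_lit 304) (nat_lit 283) (nat_lit 133))))) (XT.nd (nat_lit 282) (nat_lit 0) (nat_lit 0) (XT.nd (nat_lit 94) (nat_lit 0) (nat_lit 0) (XT.lf (nat_lit 0) (nat_lit 8756164806) (nat_lit 0) (nat_lit 0) (nat_lit 0) (nat_lit 0) (nat_lit 0) (nat_lit 0) (nat_lit 1) (nat_lit 0) (nat_lit 1) (nat_lit 0) (nat_lit 305) (nat_lit 283) (nat_lit 132)) (XT.nd (nat_lit 94) (nat_lit 0) (nat_lit 0) (XT.lf (nat_lit 0) (nat_lit 8755901636) (nat_lit 0) (nat_lit 0) (nat_lit 0) (nat_lit 0) (nat_lit 0) (nat_lit 0) (nat_lit 1) (nat_lit 0) (nat_lit 1) (nat_lit 0) (nat_lit 306) (nat_lit 283) (nat_lit 131)) (XT.lf (nat_lit 0) (nat_lit 8755650998) (nat_lit 0) (nat_lit 0) (nat_lit 0) (nat_lit 0) (nat_lit 0) (nat_lit 0) (nat_lit 1) (nat_lit 0) (nat_lit 1) (nat_lit 0) (nat_lit 307) (nat_lit 283) (nat_lit 130)))) (XT.nd (nat_lit 188) (nat_lit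 0) (nat_lit 0) (XT.nd (nat_lit 94) (nat_lit 0) (nat_lit 0) (XT.lf (nat_lit 0) (nat_lit 8755412295) (nat_lit 0) (nat_lit 0) (nat_lit 0) (nat_lit 0) (nat_lit 0) (nat_lit 0) (nat_lit 1) (nat_lit 0) (nat_lit 1) (nat_lit 0) (nat_lit 308) (nat_lit 283) (nat_lit 129)) (XT.lf (nat_lit 0) (nat_lit 8755184959) (nat_lit 0) (nat_lit 0) (nat_lit 0) (nat_lit 0) (nat_lit 0) (nat_lit 0) (nat_lit 1) (nat_lit 0) (nat_lit 1) (nat_lit 0) (nat_lit 309) (nat_lit 283) (nat_lit 128))) (XT.nd (nat_lit 94) (nat_lit 0) (nat_lit 0) (XT.lf (nat_lit 0) (nat_lit 8754968448) (nat_lit 0) (nat_lit 0) (nat_lit 0) (nat_lit 0) (nat_lit 0) (nat_lit 0) (nat_lit 1) (nat_lit 0) (nat_lit 1) (nat_lit 0) (nat_lit 310) (nat_lit 283) (nat_lit 127)) (XT.lf (nat_lit 0) (nat_lit 8754762248) (nat_lit 0) (nat_lit 0) (nat_lit 0) (nat_lit 0) (nat_lit 0) (nat_lit 0) (nat_lit 1) (nat_lit 0) (nat_lit 1) (nat_lit 0) (nat_lit 311)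 (nat_lit 283) (nat_lit 126))))))) (XT.nd (nat_lit 31396) (nat_lit 0) (nat_lit 6804) (XT.nd (nat_lit 30738) (nat_lit 0) (nat_lit 9744) (XT.nd (nat_lit 30362) (nat_lit 0) (nat_lit 10836) (XT.nd (nat_lit 30174) (nat_lit 0) (nat_lit 10752) (XT.lf (nat_lit 0) (nat_lit 8754565866) (nat_lit 0) (nat_lit 0) (nat_lit 0) (nat_lit 0) (nat_lit 0) (nat_lit 0) (nat_lit 1) (nat_lit 0) (nat_lit 1) (nat_lit 0) (nat_lit 312) (nat_lit 283) (nat_lit 125)) (XT.nd (nat_lit 94) (nat_lit 0) (nat_lit 0) (XT.lf (nat_lit 924) (nat_lit 4598104509) (nat_lit 0) (nat_lit 8163923987) (nat_lit 924) (nat_lit 4598104509) (nat_lit 139) (nat_lit 1) (nat_lit 128) (nat_lit 0) (nat_lit 139) (nat_lit 0) (nat_lit 152) (nat_lit 284) (nat_lit 284)) (XT.lf (nat_lit 924) (nat_lit 17822827129) (nat_lit 84) (nat_lit 8032247794) (nat_lit 0) (nat_lit 8032247794) (nat_lit 139) (nat_lit 1) (nat_lit 129) (nat_lit 1) (nat_lit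 128) (nat_lit 0) (nat_lit 153) (nat_lit 284) (nat_lit 283)))) (XT.nd (nat_lit 188) (nat_lit 0) (nat_lit 84) (XT.nd (nat_lit 94) (nat_lit 0) (nat_lit 0) (XT.lf (nat_lit 924) (nat_lit 8494091051) (nat_lit 0) (nat_lit 16091948071) (nat_lit 840) (nat_lit 8494091051) (nat_lit 140) (nat_lit 1) (nat_lit 129) (nat_lit 1) (nat_lit 139) (nat_lit 1) (nat_lit 154) (nat_lit 284) (nat_lit 282)) (XT.lf (nat_lit 924) (nat_lit 15933734529) (nat_lit 84) (nat_lit 8182640717) (nat_lit 0) (nat_lit 8182640717) (nat_lit 140) (nat_lit 1) (nat_lit 130) (nat_lit 1) (nat_lit 129) (nat_lit 1) (nat_lit 155) (nat_lit 284) (nat_lit 281))) (XT.nd (nat_lit 94) (nat_lit 0) (nat_lit 0) (XT.lf (nat_lit 924) (nat_lit 7334144990) (nat_lit 0) (nat_lit 16874369175) (nat_lit 840) (nat_lit 7334144990) (nat_lit 141) (nat_lit 1) (nat_lit 130) (nat_lit 1) (nat_lit 140) (nat_lit 1) (nat_lit 156) (nat_lit 284) (nat_lit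 280)) (XT.lf (nat_lit 924) (nat_lit 13190937453) (nat_lit 84) (nat_lit 8809210771) (nat_lit 0) (nat_lit 8809210771) (nat_lit 141) (nat_lit 1) (nat_lit 131) (nat_lit 1) (nat_lit 130) (nat_lit 1) (nat_lit 157) (nat_lit 284) (nat_lit 279))))) (XT.nd (nat_lit 282) (nat_lit 1260) (nat_lit 0) (XT.nd (nat_lit 94) (nat_lit 0) (nat_lit 0) (XT.lf (nat_lit 924) (nat_lit 5783845084) (nat_lit 0) (nat_lit 18532990345) (nat_lit 840) (nat_lit 5783845084) (nat_lit 142) (nat_lit 1) (nat_lit 131) (nat_lit 1) (nat_lit 141) (nat_lit 1) (nat_lit 158) (nat_lit 284) (nat_lit 278)) (XT.nd (nat_lit 94) (nat_lit 0) (nat_lit 84) (XT.lf (nat_lit 924) (nat_lit 9722821175) (nat_lit 84) (nat_lit 9844346602) (nat_lit 0) (nat_lit 9844346602) (nat_lit 142) (nat_lit 1) (nat_lit 132) (nat_lit 1) (nat_lit 131) (nat_lit 1) (nat_lit 159) (nat_lit 284) (nat_lit 277)) (XT.lf (nat_lit 924) (nat_lit 3903206287) (nat_lit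 0) (nat_lit 20941163080) (nat_lit 840) (nat_lit 3903206287) (nat_lit 143) (nat_lit 1) (nat_lit 132) (nat_lit 1) (nat_lit 142) (nat_lit 1) (nat_lit 160) (nat_lit 284) (nat_lit 276)))) (XT.nd (nat_lit 188) (nat_lit 1344) (nat_lit 0) (XT.nd (nat_lit 94) (nat_lit 0) (nat_lit 84) (XT.lf (nat_lit 924) (nat_lit 5643500832) (nat_lit 84) (nat_lit 11227834193) (nat_lit 0) (nat_lit 11227834193) (nat_lit 143) (nat_lit 1) (nat_lit 133) (nat_lit 1) (nat_lit 132) (nat_lit 1) (nat_lit 161) (nat_lit 284) (nat_lit 275)) (XT.lf (nat_lit 84) (nat_lit 1745534240) (nat_lit 0) (nat_lit 23986165255) (nat_lit 840) (nat_lit 1745534240) (nat_lit 134) (nat_lit 1) (nat_lit 133) (nat_lit 1) (nat_lit 143) (nat_lit 1) (nat_lit 162) (nat_lit 284) (nat_lit 274))) (XT.nd (nat_lit 94) (nat_lit 588) (nat_lit 0) (XT.lf (nat_lit 924) (nat_lit 1054259273) (nat_lit 0) (nat_lit 12906116200) (nat_lit 840) (nat_lit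 12906116200) (nat_lit 134) (nat_lit 1) (nat_lit 123) (nat_lit 1) (nat_lit 133) (nat_lit 1) (nat_lit 163) (nat_lit 284) (nat_lit 273)) (XT.lf (nat_lit 588) (nat_lit 25018900257) (nat_lit 0) (nat_lit 631543989) (nat_lit 504) (nat_lit 631543989) (nat_lit 123) (nat_lit 1) (nat_lit 116) (nat_lit 1) (nat_lit 122) (nat_lit 1) (nat_lit 164) (nat_lit 284) (nat_lit 272)))))) (XT.nd (nat_lit 658) (nat_lit 1764) (nat_lit 0) (XT.nd (nat_lit 282) (nat_lit 756) (nat_lit 0) (XT.nd (nat_lit 94) (nat_lit 420) (nat_lit 0) (XT.lf (nat_lit 84) (nat_lit 10938219648) (nat_lit 0) (nat_lit 3828564432) (nat_lit 588) (nat_lit 10938219648) (nat_lit 117) (nat_lit 1) (nat_lit 116) (nat_lit 1) (nat_lit 123) (nat_lit 1) (nat_lit 165) (nat_lit 284) (nat_lit 271)) (XT.nd (nat_lit 94) (nat_lit 0) (nat_lit 0) (XT.lf (nat_lit 504) (nat_lit 18821868295) (nat_lit 0) (nat_lit 3165342927) (nat_lit 420) (nat_lit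 3165342927) (nat_lit 117) (nat_lit 1) (nat_lit 111) (nat_lit 1) (nat_lit 116) (nat_lit 1) (nat_lit 166) (nat_lit 284) (nat_lit 270)) (XT.lf (nat_lit 84) (nat_lit 7802098919) (nat_lit 0) (nat_lit 9007520750) (nat_lit 504) (nat_lit 7802098919) (nat_lit 112) (nat_lit 1) (nat_lit 111) (nat_lit 1) (nat_lit 117) (nat_lit 1) (nat_lit 167) (nat_lit 284) (nat_lit 269)))) (XT.nd (nat_lit 188) (nat_lit 336) (nat_lit 0) (XT.nd (nat_lit 94) (nat_lit 0) (nat_lit 0) (XT.lf (nat_lit 504) (nat_lit 12394467191) (nat_lit 0) (nat_lit 5847625846) (nat_lit 420) (nat_lit 5847625846) (nat_lit 112) (nat_lit 1) (nat_lit 106) (nat_lit 1) (nat_lit 111) (nat_lit 1) (nat_lit 168) (nat_lit 284) (nat_lit 268)) (XT.lf (nat_lit 84) (nat_lit 4567196437) (nat_lit 0) (nat_lit 14448507814) (nat_lit 504) (nat_lit 4567196437) (nat_lit 107) (nat_lit 1) (nat_lit 106) (nat_lit 1) (nat_lit 112) (nat_lit 1) (nat_lit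 169) (nat_lit 284) (nat_lit 267))) (XT.nd (nat_lit 94) (nat_lit 0) (nat_lit 0) (XT.lf (nat_lit 420) (nat_lit 5796519742) (nat_lit 0) (nat_lit 8646299893) (nat_lit 336) (nat_lit 8646299893) (nat_lit 107) (nat_lit 1) (nat_lit 102) (nat_lit 1) (nat_lit 106) (nat_lit 1) (nat_lit 170) (nat_lit 284) (nat_lit 266)) (XT.lf (nat_lit 84) (nat_lit 1261284018) (nat_lit 0) (nat_lit 20091758724) (nat_lit 420) (nat_lit 1261284018) (nat_lit 103) (nat_lit 1) (nat_lit 102) (nat_lit 1) (nat_lit 107) (nat_lit 1) (nat_lit 171) (nat_lit 284) (nat_lit 265))))) (XT.nd (nat_lit 282) (nat_lit 1008) (nat_lit 0) (XT.nd (nat_lit 94) (nat_lit 336) (nat_lit 0) (XT.lf (nat_lit 84) (nat_lit 10627941566) (nat_lit 0) (nat_lit 890110751) (nat_lit 420) (nat_lit 10627941566) (nat_lit 98) (nat_lit 1) (nat_lit 97) (nat_lit 1) (nat_lit 102) (nat_lit 1) (nat_lit 172) (nat_lit 284) (nat_lit 264)) (XT.nd (nat_lit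 94) (nat_lit 0) (nat_lit 0) (XT.lf (nat_lit 420) (nat_lit 17580291394) (nat_lit 0) (nat_lit 2057602437) (nat_lit 336) (nat_lit 2057602437) (nat_lit 98) (nat_lit 1) (nat_lit 93) (nat_lit 1) (nat_lit 97) (nat_lit 1) (nat_lit 173) (nat_lit 284) (nat_lit 263)) (XT.lf (nat_lit 84) (nat_lit 6895763168) (nat_lit 0) (nat_lit 7461200707) (nat_lit 420) (nat_lit 6895763168) (nat_lit 94) (nat_lit 1) (nat_lit 93) (nat_lit 1) (nat_lit 98) (nat_lit 1) (nat_lit 174) (nat_lit 284) (nat_lit 262)))) (XT.nd (nat_lit 188) (nat_lit 672) (nat_lit 0) (XT.nd (nat_lit 94) (nat_lit 0) (nat_lit 0) (XT.lf (nat_lit 420) (nat_lit 10062836714) (nat_lit 0) (nat_lit 5381237390) (nat_lit 336) (nat_lit 5381237390) (nat_lit 94) (nat_lit 1) (nat_lit 89) (nat_lit 1) (nat_lit 93) (nat_lit 1) (nat_lit 175) (nat_lit 284) (nat_lit 261)) (XT.lf (nat_lit 84) (nat_lit 3173369602) (nat_lit 0) (nat_lit 14063654411) (nat_lit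 420) (nat_lit 3173369602) (nat_lit 90) (nat_lit 1) (nat_lit 89) (nat_lit 1) (nat_lit 94) (nat_lit 1) (nat_lit 176) (nat_lit 284) (nat_lit 260))) (XT.nd (nat_lit 94) (nat_lit 420) (nat_lit 0) (XT.lf (nat_lit 336) (nat_lit 2580765585) (nat_lit 0) (nat_lit 8711833284) (nat_lit 252) (nat_lit 8711833284) (nat_lit 90) (nat_lit 1) (nat_lit 86) (nat_lit 1) (nat_lit 89) (nat_lit 1) (nat_lit 177) (nat_lit 284) (nat_lit 259)) (XT.lf (nat_lit 420) (nat_lit 18582859769) (nat_lit 0) (nat_lit 515638701) (nat_lit 336) (nat_lit 515638701) (nat_lit 86) (nat_lit 1) (nat_lit 81) (nat_lit 1) (nat_lit 85) (nat_lit 1) (nat_lit 178) (nat_lit 284) (nat_lit 258))))))))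
noncomputable def ec128 : XT := (XT.nd (nat_lit 2538) (nat_lit 2436) (nat_lit 0) (XT.nd (nat_lit 1222) (nat_lit 1680) (nat_lit 0) (XT.nd (nat_lit 564) (nat_lit 924) (nat_lit 0) (XT.nd (nat_lit 282) (nat_lit 588) (nat_lit 0) (XT.nd (nat_lit 94) (nat_lit 252) (nat_lit 0) (XT.lf (nat_lit 84) (nat_lit 7271610408) (nat_lit 0) (nat_lit 4682781612) (nat_lit 420) (nat_lit 7271610408) (nat_lit 82) (nat_lit 1) (nat_lit 81) (nat_lit 1) (nat_lit 86) (nat_lit 1) (nat_lit 179) (nat_lit 284) (nat_lit 257)) (XT.nd (nat_lit 94) (nat_lit 0) (nat_lit 0) (XT.lf (nat_lit 336) (nat_lit 10620416888) (nat_lit 0) (nat_lit 4116168398) (nat_lit 252) (nat_lit 4116168398) (nat_lit 82) (nat_lit 1) (nat_lit 78) (nat_lit 1) (nat_lit 81) (nat_lit 1) (nat_lit 180) (nat_lit 284) (nat_lit 256)) (XT.lf (nat_lit 84) (nat_lit 3355153976) (nat_lit 0) (nat_lit 11778680015) (nat_lit 336) (nat_lit 3355153976) (nat_lit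 79) (nat_lit 1) (nat_lit 78) (nat_lit 1) (nat_lit 82) (nat_lit 1) (nat_lit 181) (nat_lit 284) (nat_lit 255)))) (XT.nd (nat_lit 94) (nat_lit 336) (nat_lit 0) (XT.lf (nat_lit 336) (nat_lit 2796415969) (nat_lit 0) (nat_lit 7668540925) (nat_lit 252) (nat_lit 7668540925) (nat_lit 79) (nat_lit 1) (nat_lit 75) (nat_lit 1) (nat_lit 78) (nat_lit 1) (nat_lit 182) (nat_lit 284) (nat_lit 254)) (XT.nd (nat_lit 94) (nat_lit 0) (nat_lit 0) (XT.lf (nat_lit 336) (nat_lit 16830028643) (nat_lit 0) (nat_lit 480592971) (nat_lit 252) (nat_lit 480592971) (nat_lit 75) (nat_lit 1) (nat_lit 71) (nat_lit 1) (nat_lit 74) (nat_lit 1) (nat_lit 183) (nat_lit 284) (nat_lit 253)) (XT.lf (nat_lit 84) (nat_lit 6366317854) (nat_lit 0) (nat_lit 4717377604) (nat_lit 336) (nat_lit 6366317854) (nat_lit 72) (nat_lit 1) (nat_lit 71) (nat_lit 1) (nat_lit 75) (nat_lit 1) (nat_lit 184) (nat_lit 284) (nat_lit 252)))))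 (XT.nd (nat_lit 282) (nat_lit 504) (nat_lit 0) (XT.nd (nat_lit 94) (nat_lit 168) (nat_lit 0) (XT.lf (nat_lit 336) (nat_lit 8754269986) (nat_lit 0) (nat_lit 4183583277) (nat_lit 252) (nat_lit 4183583277) (nat_lit 72) (nat_lit 1) (nat_lit 68) (nat_lit 1) (nat_lit 71) (nat_lit 1) (nat_lit 185) (nat_lit 284) (nat_lit 251)) (XT.nd (nat_lit 94) (nat_lit 168) (nat_lit 0) (XT.lf (nat_lit 84) (nat_lit 2410918814) (nat_lit 0) (nat_lit 11979834721) (nat_lit 336) (nat_lit 2410918814) (nat_lit 69) (nat_lit 1) (nat_lit 68) (nat_lit 1) (nat_lit 72) (nat_lit 1) (nat_lit 186) (nat_lit 284) (nat_lit 250)) (XT.lf (nat_lit 252) (nat_lit 883440815) (nat_lit 0) (nat_lit 7802246553) (nat_lit 168) (nat_lit 7802246553) (nat_lit 69) (nat_lit 1) (nat_lit 66) (nat_lit 1) (nat_lit 68) (nat_lit 1) (nat_lit 187) (nat_lit 284) (nat_lit 249)))) (XT.nd (nat_lit 188) (nat_lit 168) (nat_lit 0) (XT.nd (nat_lit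 94) (nat_lit 0) (nat_lit 0) (XT.lf (nat_lit 336) (nat_lit 13348494485) (nat_lit 0) (nat_lit 1417706868) (nat_lit 252) (nat_lit 1417706868) (nat_lit 66) (nat_lit 1) (nat_lit 62) (nat_lit 1) (nat_lit 65) (nat_lit 1) (nat_lit 188) (nat_lit 284) (nat_lit 248)) (XT.lf (nat_lit 84) (nat_lit 4662312268) (nat_lit 0) (nat_lit 6558658221) (nat_lit 336) (nat_lit 4662312268) (nat_lit 63) (nat_lit 1) (nat_lit 62) (nat_lit 1) (nat_lit 66) (nat_lit 1) (nat_lit 189) (nat_lit 284) (nat_lit 247))) (XT.nd (nat_lit 94) (nat_lit 0) (nat_lit 0) (XT.lf (nat_lit 252) (nat_lit 5386582634) (nat_lit 0) (nat_lit 5102676393) (nat_lit 168) (nat_lit 5102676393) (nat_lit 63) (nat_lit 1) (nat_lit 60) (nat_lit 1) (nat_lit 62) (nat_lit 1) (nat_lit 190) (nat_lit 284) (nat_lit 246)) (XT.lf (nat_lit 84) (nat_lit 773880951) (nat_lit 0) (nat_lit 13762494881) (nat_lit 252) (nat_lit 773880951) (nat_lit 61) (nat_lit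 1) (nat_lit 60) (nat_lit 1) (nat_lit 63) (nat_lit 1) (nat_lit 191) (nat_lit 284) (nat_lit 245)))))) (XT.nd (nat_lit 658) (nat_lit 672) (nat_lit 0) (XT.nd (nat_lit 282) (nat_lit 588) (nat_lit 0) (XT.nd (nat_lit 94) (nat_lit 168) (nat_lit 0) (XT.lf (nat_lit 84) (nat_lit 6386975264) (nat_lit 0) (nat_lit 2255651539) (nat_lit 252) (nat_lit 6386975264) (nat_lit 58) (nat_lit 1) (nat_lit 57) (nat_lit 1) (nat_lit 60) (nat_lit 1) (nat_lit 192) (nat_lit 284) (nat_lit 244)) (XT.nd (nat_lit 94) (nat_lit 0) (nat_lit 0) (XT.lf (nat_lit 252) (nat_lit 8869434568) (nat_lit 0) (nat_lit 2944411968) (nat_lit 168) (nat_lit 2944411968) (nat_lit 58) (nat_lit 1) (nat_lit 55) (nat_lit 1) (nat_lit 57) (nat_lit 1) (nat_lit 193) (nat_lit 284) (nat_lit 243)) (XT.lf (nat_lit 84) (nat_lit 2502723686) (nat_lit 0) (nat_lit 9487464853) (nat_lit 252) (nat_lit 2502723686) (nat_lit 56) (nat_lit 1) (nat_lit 55)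 (nat_lit 1) (nat_lit 58) (nat_lit 1) (nat_lit 194) (nat_lit 284) (nat_lit 242)))) (XT.nd (nat_lit 188) (nat_lit 168) (nat_lit 0) (XT.nd (nat_lit 94) (nat_lit 252) (nat_lit 0) (XT.lf (nat_lit 252) (nat_lit 1172435940) (nat_lit 0) (nat_lit 6530239352) (nat_lit 168) (nat_lit 6530239352) (nat_lit 56) (nat_lit 1) (nat_lit 53) (nat_lit 1) (nat_lit 55) (nat_lit 1) (nat_lit 195) (nat_lit 284) (nat_lit 241)) (XT.lf (nat_lit 252) (nat_lit 11523457868) (nat_lit 0) (nat_lit 1228496413) (nat_lit 168) (nat_lit 1228496413) (nat_lit 53) (nat_lit 1) (nat_lit 50) (nat_lit 1) (nat_lit 52) (nat_lit 1) (nat_lit 196) (nat_lit 284) (nat_lit 240))) (XT.nd (nat_lit 94) (nat_lit 168) (nat_lit 0) (XT.lf (nat_lit 84) (nat_lit 3836187363) (nat_lit 0) (nat_lit 6057766772) (nat_lit 252) (nat_lit 3836187363) (nat_lit 51) (nat_lit 1) (nat_lit 50) (nat_lit 1) (nat_lit 53) (nat_lit 1) (nat_lit 197) (nat_lit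 284) (nat_lit 239)) (XT.lf (nat_lit 252) (nat_lit 3906970580) (nat_lit 0) (nat_lit 4790064272) (nat_lit 168) (nat_lit 4790064272) (nat_lit 51) (nat_lit 1) (nat_lit 48) (nat_lit 1) (nat_lit 50) (nat_lit 1) (nat_lit 198) (nat_lit 284) (nat_lit 238))))) (XT.nd (nat_lit 282) (nat_lit 336) (nat_lit 0) (XT.nd (nat_lit 94) (nat_lit 336) (nat_lit 0) (XT.lf (nat_lit 84) (nat_lit 128411347) (nat_lit 0) (nat_lit 12995757562) (nat_lit 252) (nat_lit 128411347) (nat_lit 49) (nat_lit 1) (nat_lit 48) (nat_lit 1) (nat_lit 51) (nat_lit 1) (nat_lit 199) (nat_lit 284) (nat_lit 237)) (XT.nd (nat_lit 94) (nat_lit 168) (nat_lit 0) (XT.lf (nat_lit 84) (nat_lit 4848603116) (nat_lit 0) (nat_lit 3319364437) (nat_lit 168) (nat_lit 4848603116) (nat_lit 47) (nat_lit 1) (nat_lit 46) (nat_lit 1) (nat_lit 48) (nat_lit 1) (nat_lit 200) (nat_lit 284) (nat_lit 236)) (XT.lf (nat_lit 252) (nat_lit 6016564489)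 (nat_lit 0) (nat_lit 3386150298) (nat_lit 168) (nat_lit 3386150298) (nat_lit 47) (nat_lit 1) (nat_lit 44) (nat_lit 1) (nat_lit 46) (nat_lit 1) (nat_lit 201) (nat_lit 284) (nat_lit 235)))) (XT.nd (nat_lit 188) (nat_lit 168) (nat_lit 0) (XT.nd (nat_lit 94) (nat_lit 168) (nat_lit 0) (XT.lf (nat_lit 84) (nat_lit 1206279598) (nat_lit 0) (nat_lit 10154746657) (nat_lit 252) (nat_lit 1206279598) (nat_lit 45) (nat_lit 1) (nat_lit 44) (nat_lit 1) (nat_lit 47) (nat_lit 1) (nat_lit 202) (nat_lit 284) (nat_lit 234)) (XT.lf (nat_lit 84) (nat_lit 5600921858) (nat_lit 0) (nat_lit 1145730024) (nat_lit 168) (nat_lit 5600921858) (nat_lit 43) (nat_lit 1) (nat_lit 42) (nat_lit 1) (nat_lit 44) (nat_lit 1) (nat_lit 203) (nat_lit 284) (nat_lit 233))) (XT.nd (nat_lit 94) (nat_lit 0) (nat_lit 0) (XT.lf (nat_lit 252) (nat_lit 7618690233) (nat_lit 0) (nat_lit 2257558580) (nat_lit 168) (nat_lit 2257558580)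 (nat_lit 43) (nat_lit 1) (nat_lit 40) (nat_lit 1) (nat_lit 42) (nat_lit 1) (nat_lit 204) (nat_lit 284) (nat_lit 232)) (XT.lf (nat_lit 84) (nat_lit 2040633272) (nat_lit 0) (nat_lit 7843006395) (nat_lit 252) (nat_lit 2040633272) (nat_lit 41) (nat_lit 1) (nat_lit 40) (nat_lit 1) (nat_lit 43) (nat_lit 1) (nat_lit 205) (nat_lit 284) (nat_lit 231))))))) (XT.nd (nat_lit 1222) (nat_lit 1092) (nat_lit 0) (XT.nd (nat_lit 564) (nat_lit 672) (nat_lit 0) (XT.nd (nat_lit 282) (nat_lit 336) (nat_lit 0) (XT.nd (nat_lit 94) (nat_lit 252) (nat_lit 0) (XT.lf (nat_lit 168) (nat_lit 585791500) (nat_lit 0) (nat_lit 5566450501) (nat_lit 84) (nat_lit 5566450501) (nat_lit 41) (nat_lit 1) (nat_lit 39) (nat_lit 1) (nat_lit 40) (nat_lit 1) (nat_lit 206) (nat_lit 284) (nat_lit 230)) (XT.nd (nat_lit 94) (nat_lit 0) (nat_lit 0) (XT.lf (nat_lit 252) (nat_lit 8809675059) (nat_lit 0) (nat_lit 1354217459)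 (nat_lit 168) (nat_lit 1354217459) (nat_lit 39) (nat_lit 1) (nat_lit 36) (nat_lit 1) (nat_lit 38) (nat_lit 1) (nat_lit 207) (nat_lit 284) (nat_lit 229)) (XT.lf (nat_lit 84) (nat_lit 2677142673) (nat_lit 0) (nat_lit 5965480952) (nat_lit 252) (nat_lit 2677142673) (nat_lit 37) (nat_lit 1) (nat_lit 36) (nat_lit 1) (nat_lit 39) (nat_lit 1) (nat_lit 208) (nat_lit 284) (nat_lit 228)))) (XT.nd (nat_lit 94) (nat_lit 252) (nat_lit 0) (XT.lf (nat_lit 168) (nat_lit 1967220566) (nat_lit 0) (nat_lit 4579532603) (nat_lit 84) (nat_lit 4579532603) (nat_lit 37) (nat_lit 1) (nat_lit 35) (nat_lit 1) (nat_lit 36) (nat_lit 1) (nat_lit 209) (nat_lit 284) (nat_lit 227)) (XT.nd (nat_lit 94) (nat_lit 0) (nat_lit 0) (XT.lf (nat_lit 252) (nat_lit 9668465044) (nat_lit 0) (nat_lit 634992748) (nat_lit 168) (nat_lit 634992748) (nat_lit 35) (nat_lit 1) (nat_lit 32) (nat_lit 1) (nat_lit 34) (nat_lit 1) (nat_lit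 210) (nat_lit 284) (nat_lit 226)) (XT.lf (nat_lit 84) (nat_lit 3153262026) (nat_lit 0) (nat_lit 4444025638) (nat_lit 252) (nat_lit 3153262026) (nat_lit 33) (nat_lit 1) (nat_lit 32) (nat_lit 1) (nat_lit 35) (nat_lit 1) (nat_lit 211) (nat_lit 284) (nat_lit 225))))) (XT.nd (nat_lit 282) (nat_lit 336) (nat_lit 0) (XT.nd (nat_lit 94) (nat_lit 252) (nat_lit 0) (XT.lf (nat_lit 168) (nat_lit 3032997656) (nat_lit 0) (nat_lit 3767592806) (nat_lit 84) (nat_lit 3767592806) (nat_lit 33) (nat_lit 1) (nat_lit 31) (nat_lit 1) (nat_lit 32) (nat_lit 1) (nat_lit 212) (nat_lit 284) (nat_lit 224)) (XT.nd (nat_lit 94) (nat_lit 0) (nat_lit 0) (XT.lf (nat_lit 252) (nat_lit 10259721140) (nat_lit 0) (nat_lit 66100290) (nat_lit 168) (nat_lit 66100290) (nat_lit 31) (nat_lit 1) (nat_lit 28) (nat_lit 1) (nat_lit 30) (nat_lit 1) (nat_lit 213) (nat_lit 284) (nat_lit 223)) (XT.lf (nat_lit 84) (nat_lit 3499691829)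 (nat_lit 0) (nat_lit 3214405838) (nat_lit 252) (nat_lit 3499691829) (nat_lit 29) (nat_lit 1) (nat_lit 28) (nat_lit 1) (nat_lit 31) (nat_lit 1) (nat_lit 214) (nat_lit 284) (nat_lit 222)))) (XT.nd (nat_lit 188) (nat_lit 252) (nat_lit 0) (XT.nd (nat_lit 94) (nat_lit 0) (nat_lit 0) (XT.lf (nat_lit 168) (nat_lit 3842455086) (nat_lit 0) (nat_lit 3099607925) (nat_lit 84) (nat_lit 3099607925) (nat_lit 29) (nat_lit 1) (nat_lit 27) (nat_lit 1) (nat_lit 28) (nat_lit 1) (nat_lit 215) (nat_lit 284) (nat_lit 221)) (XT.lf (nat_lit 0) (nat_lit 386432689) (nat_lit 0) (nat_lit 9101883546) (nat_lit 168) (nat_lit 386432689) (nat_lit 27) (nat_lit 3) (nat_lit 27) (nat_lit 1) (nat_lit 29) (nat_lit 1) (nat_lit 216) (nat_lit 284) (nat_lit 220))) (XT.nd (nat_lit 94) (nat_lit 84) (nat_lit 0) (XT.lf (nat_lit 84) (nat_lit 3741581658) (nat_lit 0) (nat_lit 2223828160) (nat_lit 168) (nat_lit 3741581658)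 (nat_lit 26) (nat_lit 1) (nat_lit 25) (nat_lit 1) (nat_lit 27) (nat_lit 1) (nat_lit 217) (nat_lit 284) (nat_lit 219)) (XT.lf (nat_lit 168) (nat_lit 4444245315) (nat_lit 0) (nat_lit 2550055111) (nat_lit 84) (nat_lit 2550055111) (nat_lit 26) (nat_lit 1) (nat_lit 24) (nat_lit 1) (nat_lit 25) (nat_lit 1) (nat_lit 218) (nat_lit 284) (nat_lit 218)))))) (XT.nd (nat_lit 658) (nat_lit 588) (nat_lit 0) (XT.nd (nat_lit 282) (nat_lit 252) (nat_lit 0) (XT.nd (nat_lit 94) (nat_lit 252) (nat_lit 0) (XT.lf (nat_lit 0) (nat_lit 738590607) (nat_lit 0) (nat_lit 7908813597) (nat_lit 168) (nat_lit 738590607) (nat_lit 24) (nat_lit 3) (nat_lit 24) (nat_lit 1) (nat_lit 26) (nat_lit 1) (nat_lit 219) (nat_lit 284) (nat_lit 217)) (XT.nd (nat_lit 94) (nat_lit 84) (nat_lit 0) (XT.lf (nat_lit 84) (nat_lit 3899519470) (nat_lit 0) (nat_lit 1428909428) (nat_lit 168) (nat_lit 3899519470) (nat_lit 23) (nat_lit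 1) (nat_lit 22) (nat_lit 1) (nat_lit 24) (nat_lit 1) (nat_lit 220) (nat_lit 284) (nat_lit 216)) (XT.lf (nat_lit 168) (nat_lit 4878242103) (nat_lit 0) (nat_lit 2097936651) (nat_lit 84) (nat_lit 2097936651) (nat_lit 23) (nat_lit 1) (nat_lit 21) (nat_lit 1) (nat_lit 22) (nat_lit 1) (nat_lit 221) (nat_lit 284) (nat_lit 215)))) (XT.nd (nat_lit 188) (nat_lit 84) (nat_lit 0) (XT.nd (nat_lit 94) (nat_lit 168) (nat_lit 0) (XT.lf (nat_lit 0) (nat_lit 1008279823) (nat_lit 0) (nat_lit 6907240021) (nat_lit 168) (nat_lit 1008279823) (nat_lit 21) (nat_lit 3) (nat_lit 21) (nat_lit 1) (nat_lit 23) (nat_lit 1) (nat_lit 222) (nat_lit 284) (nat_lit 214)) (XT.lf (nat_lit 84) (nat_lit 3990345252) (nat_lit 0) (nat_lit 794005892) (nat_lit 168) (nat_lit 3990345252) (nat_lit 20) (nat_lit 1) (nat_lit 19) (nat_lit 1) (nat_lit 21) (nat_lit 1) (nat_lit 223) (nat_lit 284) (nat_lit 213))) (XT.nd (nat_lit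 94) (nat_lit 0) (nat_lit 0) (XT.lf (nat_lit 168) (nat_lit 5177104216) (nat_lit 0) (nat_lit 1725977674) (nat_lit 84) (nat_lit 1725977674) (nat_lit 20) (nat_lit 1) (nat_lit 18) (nat_lit 1) (nat_lit 19) (nat_lit 1) (nat_lit 224) (nat_lit 284) (nat_lit 212)) (XT.lf (nat_lit 0) (nat_lit 1211075737) (nat_lit 0) (nat_lit 6064164890) (nat_lit 168) (nat_lit 1211075737) (nat_lit 18) (nat_lit 3) (nat_lit 18) (nat_lit 1) (nat_lit 20) (nat_lit 1) (nat_lit 225) (nat_lit 284) (nat_lit 211))))) (XT.nd (nat_lit 282) (nat_lit 336) (nat_lit 0) (XT.nd (nat_lit 94) (nat_lit 84) (nat_lit 0) (XT.lf (nat_lit 84) (nat_lit 4027820185) (nat_lit 0) (nat_lit 289838773) (nat_lit 168) (nat_lit 4027820185) (nat_lit 17) (nat_lit 1) (nat_lit 16) (nat_lit 1) (nat_lit 18) (nat_lit 1) (nat_lit 226) (nat_lit 284) (nat_lit 210)) (XT.nd (nat_lit 94) (nat_lit 0) (nat_lit 0) (XT.lf (nat_lit 168) (nat_lit 5367561560)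 (nat_lit 0) (nat_lit 1419966104) (nat_lit 84) (nat_lit 1419966104) (nat_lit 17) (nat_lit 1) (nat_lit 15) (nat_lit 1) (nat_lit 16) (nat_lit 1) (nat_lit 227) (nat_lit 284) (nat_lit 209)) (XT.lf (nat_lit 0) (nat_lit 1359746845) (nat_lit 0) (nat_lit 5352395302) (nat_lit 168) (nat_lit 1359746845) (nat_lit 15) (nat_lit 3) (nat_lit 15) (nat_lit 1) (nat_lit 17) (nat_lit 1) (nat_lit 228) (nat_lit 284) (nat_lit 208)))) (XT.nd (nat_lit 188) (nat_lit 84) (nat_lit 0) (XT.nd (nat_lit 94) (nat_lit 168) (nat_lit 0) (XT.lf (nat_lit 84) (nat_lit 111195335) (nat_lit 0) (nat_lit 3913717675) (nat_lit 84) (nat_lit 3913717675) (nat_lit 15) (nat_lit 3) (nat_lit 14) (nat_lit 1) (nat_lit 15) (nat_lit 1) (nat_lit 229) (nat_lit 284) (nat_lit 207)) (XT.lf (nat_lit 168) (nat_lit 5471472950) (nat_lit 0) (nat_lit 1168209628) (nat_lit 84) (nat_lit 1168209628) (nat_lit 14) (nat_lit 1) (nat_lit 12) (nat_lit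 1) (nat_lit 13) (nat_lit 1) (nat_lit 230) (nat_lit 284) (nat_lit 206))) (XT.nd (nat_lit 94) (nat_lit 84) (nat_lit 0) (XT.lf (nat_lit 0) (nat_lit 1464754560) (nat_lit 0) (nat_lit 4749516327) (nat_lit 168) (nat_lit 1464754560) (nat_lit 12) (nat_lit 3) (nat_lit 12) (nat_lit 1) (nat_lit 14) (nat_lit 1) (nat_lit 231) (nat_lit 284) (nat_lit 205)) (XT.lf (nat_lit 84) (nat_lit 431986087) (nat_lit 0) (nat_lit 3560330626) (nat_lit 84) (nat_lit 3560330626) (nat_lit 12) (nat_lit 3) (nat_lit 11) (nat_lit 1) (nat_lit 12) (nat_lit 1) (nat_lit 232) (nat_lit 284) (nat_lit 204))))))))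
noncomputable def ec129 : XT := (XT.nd (nat_lit 2538) (nat_lit 0) (nat_lit 0) (XT.nd (nat_lit 1222) (nat_lit 0) (nat_lit 0) (XT.nd (nat_lit 564) (nat_lit 420) (nat_lit 0) (XT.nd (nat_lit 282) (nat_lit 252) (nat_lit 0) (XT.nd (nat_lit 94) (nat_lit 84) (nat_lit 0) (XT.lf (nat_lit 168) (nat_lit 5506696023) (nat_lit 0) (nat_lit 961088952) (nat_lit 84) (nat_lit 961088952) (nat_lit 11) (nat_lit 1) (nat_lit 9) (nat_lit 1) (nat_lit 10) (nat_lit 1) (nat_lit 233) (nat_lit 284) (nat_lit 203)) (XT.nd (nat_lit 94) (nat_lit 84) (nat_lit 0) (XT.lf (nat_lit 0) (nat_lit 1534664312) (nat_lit 0) (nat_lit 4237045946) (nat_lit 168) (nat_lit 1534664312) (nat_lit 9) (nat_lit 3) (nat_lit 9) (nat_lit 1) (nat_lit 11) (nat_lit 1) (nat_lit 234) (nat_lit 284) (nat_lit 202)) (XT.lf (nat_lit 84) (nat_lit 679686889) (nat_lit 0) (nat_lit 3253383684) (nat_lit 84) (nat_lit 3253383684) (nat_lit 9) (nat_lit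 3) (nat_lit 8) (nat_lit 1) (nat_lit 9) (nat_lit 1) (nat_lit 235) (nat_lit 284) (nat_lit 201)))) (XT.nd (nat_lit 94) (nat_lit 84) (nat_lit 0) (XT.lf (nat_lit 168) (nat_lit 5487802624) (nat_lit 0) (nat_lit 790690259) (nat_lit 84) (nat_lit 790690259) (nat_lit 8) (nat_lit 1) (nat_lit 6) (nat_lit 1) (nat_lit 7) (nat_lit 1) (nat_lit 236) (nat_lit 284) (nat_lit 200)) (XT.nd (nat_lit 94) (nat_lit 84) (nat_lit 0) (XT.lf (nat_lit 0) (nat_lit 1576483661) (nat_lit 0) (nat_lit 3799739720) (nat_lit 168) (nat_lit 1576483661) (nat_lit 6) (nat_lit 3) (nat_lit 6) (nat_lit 1) (nat_lit 8) (nat_lit 1) (nat_lit 237) (nat_lit 284) (nat_lit 199)) (XT.lf (nat_lit 84) (nat_lit 868028530) (nat_lit 0) (nat_lit 2985415253) (nat_lit 84) (nat_lit 2985415253) (nat_lit 6) (nat_lit 3) (nat_lit 5) (nat_lit 1) (nat_lit 6) (nat_lit 1) (nat_lit 238) (nat_lit 284) (nat_lit 198))))) (XT.nd (nat_lit 282) (nat_lit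 168) (nat_lit 0) (XT.nd (nat_lit 94) (nat_lit 84) (nat_lit 0) (XT.lf (nat_lit 168) (nat_lit 5426667064) (nat_lit 0) (nat_lit 650502833) (nat_lit 84) (nat_lit 650502833) (nat_lit 5) (nat_lit 1) (nat_lit 3) (nat_lit 1) (nat_lit 4) (nat_lit 1) (nat_lit 239) (nat_lit 284) (nat_lit 197)) (XT.nd (nat_lit 94) (nat_lit 84) (nat_lit 0) (XT.lf (nat_lit 0) (nat_lit 1595940375) (nat_lit 0) (nat_lit 3425018636) (nat_lit 168) (nat_lit 1595940375) (nat_lit 3) (nat_lit 3) (nat_lit 3) (nat_lit 1) (nat_lit 5) (nat_lit 1) (nat_lit 240) (nat_lit 284) (nat_lit 196)) (XT.lf (nat_lit 84) (nat_lit 1008270596) (nat_lit 0) (nat_lit 2750249892) (nat_lit 84) (nat_lit 2750249892) (nat_lit 3) (nat_lit 3) (nat_lit 2) (nat_lit 1) (nat_lit 3) (nat_lit 1) (nat_lit 241) (nat_lit 284) (nat_lit 195)))) (XT.nd (nat_lit 188) (nat_lit 0) (nat_lit 0) (XT.nd (nat_lit 94) (nat_lit 0) (nat_lit 0) (XT.lf (nat_lit 0)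 (nat_lit 9301983212) (nat_lit 0) (nat_lit 0) (nat_lit 0) (nat_lit 0) (nat_lit 0) (nat_lit 0) (nat_lit 1) (nat_lit 0) (nat_lit 1) (nat_lit 0) (nat_lit 242) (nat_lit 284) (nat_lit 194)) (XT.lf (nat_lit 0) (nat_lit 9296563542) (nat_lit 0) (nat_lit 0) (nat_lit 0) (nat_lit 0) (nat_lit 0) (nat_lit 0) (nat_lit 1) (nat_lit 0) (nat_lit 1) (nat_lit 0) (nat_lit 243) (nat_lit 284) (nat_lit 193))) (XT.nd (nat_lit 94) (nat_lit 0) (nat_lit 0) (XT.lf (nat_lit 0) (nat_lit 9291401952) (nat_lit 0) (nat_lit 0) (nat_lit 0) (nat_lit 0) (nat_lit 0) (nat_lit 0) (nat_lit 1) (nat_lit 0) (nat_lit 1) (nat_lit 0) (nat_lit 244) (nat_lit 284) (nat_lit 192)) (XT.lf (nat_lit 0) (nat_lit 9286486152) (nat_lit 0) (nat_lit 0) (nat_lit 0) (nat_lit 0) (nat_lit 0) (nat_lit 0) (nat_lit 1) (nat_lit 0) (nat_lit 1) (nat_lit 0) (nat_lit 245) (nat_lit 284) (nat_lit 191)))))) (XT.nd (nat_lit 658) (nat_lit 0) (nat_lit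 0) (XT.nd (nat_lit 282) (nat_lit 0) (nat_lit 0) (XT.nd (nat_lit 94) (nat_lit 0) (nat_lit 0) (XT.lf (nat_lit 0) (nat_lit 9281804438) (nat_lit 0) (nat_lit 0) (nat_lit 0) (nat_lit 0) (nat_lit 0) (nat_lit 0) (nat_lit 1) (nat_lit 0) (nat_lit 1) (nat_lit 0) (nat_lit 246) (nat_lit 284) (nat_lit 190)) (XT.nd (nat_lit 94) (nat_lit 0) (nat_lit 0) (XT.lf (nat_lit 0) (nat_lit 9277345662) (nat_lit 0) (nat_lit 0) (nat_lit 0) (nat_lit 0) (nat_lit 0) (nat_lit 0) (nat_lit 1) (nat_lit 0) (nat_lit 1) (nat_lit 0) (nat_lit 247) (nat_lit 284) (nat_lit 189)) (XT.lf (nat_lit 0) (nat_lit 9273099209) (nat_lit 0) (nat_lit 0) (nat_lit 0) (nat_lit 0) (nat_lit 0) (nat_lit 0) (nat_lit 1) (nat_lit 0) (nat_lit 1) (nat_lit 0) (nat_lit 248) (nat_lit 284) (nat_lit 188)))) (XT.nd (nat_lit 188) (nat_lit 0) (nat_lit 0) (XT.nd (nat_lit 94) (nat_lit 0) (nat_lit 0) (XT.lf (nat_lit 0) (nat_lit 9269054968) (nat_lit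 0) (nat_lit 0) (nat_lit 0) (nat_lit 0) (nat_lit 0) (nat_lit 0) (nat_lit 1) (nat_lit 0) (nat_lit 1) (nat_lit 0) (nat_lit 249) (nat_lit 284) (nat_lit 187)) (XT.lf (nat_lit 0) (nat_lit 9265203310) (nat_lit 0) (nat_lit 0) (nat_lit 0) (nat_lit 0) (nat_lit 0) (nat_lit 0) (nat_lit 1) (nat_lit 0) (nat_lit 1) (nat_lit 0) (nat_lit 250) (nat_lit 284) (nat_lit 186))) (XT.nd (nat_lit 94) (nat_lit 0) (nat_lit 0) (XT.lf (nat_lit 0) (nat_lit 9261535064) (nat_lit 0) (nat_lit 0) (nat_lit 0) (nat_lit 0) (nat_lit 0) (nat_lit 0) (nat_lit 1) (nat_lit 0) (nat_lit 1) (nat_lit 0) (nat_lit 251) (nat_lit 284) (nat_lit 185)) (XT.lf (nat_lit 0) (nat_lit 9258041497) (nat_lit 0) (nat_lit 0) (nat_lit 0) (nat_lit 0) (nat_lit 0) (nat_lit 0) (nat_lit 1) (nat_lit 0) (nat_lit 1) (nat_lit 0) (nat_lit 252) (nat_lit 284) (nat_lit 184))))) (XT.nd (nat_lit 282) (nat_lit 0) (nat_lit 0) (XT.nd (nat_lit 94) (nat_lit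 0) (nat_lit 0) (XT.lf (nat_lit 0) (nat_lit 9254714290) (nat_lit 0) (nat_lit 0) (nat_lit 0) (nat_lit 0) (nat_lit 0) (nat_lit 0) (nat_lit 1) (nat_lit 0) (nat_lit 1) (nat_lit 0) (nat_lit 253) (nat_lit 284) (nat_lit 183)) (XT.nd (nat_lit 94) (nat_lit 0) (nat_lit 0) (XT.lf (nat_lit 0) (nat_lit 9251545521) (nat_lit 0) (nat_lit 0) (nat_lit 0) (nat_lit 0) (nat_lit 0) (nat_lit 0) (nat_lit 1) (nat_lit 0) (nat_lit 1) (nat_lit 0) (nat_lit 254) (nat_lit 284) (nat_lit 182)) (XT.lf (nat_lit 0) (nat_lit 9248527646) (nat_lit 0) (nat_lit 0) (nat_lit 0) (nat_lit 0) (nat_lit 0) (nat_lit 0) (nat_lit 1) (nat_lit 0) (nat_lit 1) (nat_lit 0) (nat_lit 255) (nat_lit 284) (nat_lit 181)))) (XT.nd (nat_lit 188) (nat_lit 0) (nat_lit 0) (XT.nd (nat_lit 94) (nat_lit 0) (nat_lit 0) (XT.lf (nat_lit 0) (nat_lit 9245653480) (nat_lit 0) (nat_lit 0) (nat_lit 0) (nat_lit 0) (nat_lit 0) (nat_lit 0) (nat_lit 1)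 (nat_lit 0) (nat_lit 1) (nat_lit 0) (nat_lit 256) (nat_lit 284) (nat_lit 180)) (XT.lf (nat_lit 0) (nat_lit 9242916178) (nat_lit 0) (nat_lit 0) (nat_lit 0) (nat_lit 0) (nat_lit 0) (nat_lit 0) (nat_lit 1) (nat_lit 0) (nat_lit 1) (nat_lit 0) (nat_lit 257) (nat_lit 284) (nat_lit 179))) (XT.nd (nat_lit 94) (nat_lit 0) (nat_lit 0) (XT.lf (nat_lit 0) (nat_lit 9240309224) (nat_lit 0) (nat_lit 0) (nat_lit 0) (nat_lit 0) (nat_lit 0) (nat_lit 0) (nat_lit 1) (nat_lit 0) (nat_lit 1) (nat_lit 0) (nat_lit 258) (nat_lit 284) (nat_lit 178)) (XT.lf (nat_lit 0) (nat_lit 9237826411) (nat_lit 0) (nat_lit 0) (nat_lit 0) (nat_lit 0) (nat_lit 0) (nat_lit 0) (nat_lit 1) (nat_lit 0) (nat_lit 1) (nat_lit 0) (nat_lit 259) (nat_lit 284) (nat_lit 177))))))) (XT.nd (nat_lit 1222) (nat_lit 0) (nat_lit 0) (XT.nd (nat_lit 564) (nat_lit 0) (nat_lit 0) (XT.nd (nat_lit 282) (nat_lit 0) (nat_lit 0) (XT.nd (nat_lit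 94) (nat_lit 0) (nat_lit 0) (XT.lf (nat_lit 0) (nat_lit 9235461827) (nat_lit 0) (nat_lit 0) (nat_lit 0) (nat_lit 0) (nat_lit 0) (nat_lit 0) (nat_lit 1) (nat_lit 0) (nat_lit 1) (nat_lit 0) (nat_lit 260) (nat_lit 284) (nat_lit 176)) (XT.nd (nat_lit 94) (nat_lit 0) (nat_lit 0) (XT.lf (nat_lit 0) (nat_lit 9233209843) (nat_lit 0) (nat_lit 0) (nat_lit 0) (nat_lit 0) (nat_lit 0) (nat_lit 0) (nat_lit 1) (nat_lit 0) (nat_lit 1) (nat_lit 0) (nat_lit 261) (nat_lit 284) (nat_lit 175)) (XT.lf (nat_lit 0) (nat_lit 9231065095) (nat_lit 0) (nat_lit 0) (nat_lit 0) (nat_lit 0) (nat_lit 0) (nat_lit 0) (nat_lit 1) (nat_lit 0) (nat_lit 1) (nat_lit 0) (nat_lit 262) (nat_lit 284) (nat_lit 174)))) (XT.nd (nat_lit 94) (nat_lit 0) (nat_lit 0) (XT.lf (nat_lit 0) (nat_lit 9229022479) (nat_lit 0) (nat_lit 0) (nat_lit 0) (nat_lit 0) (nat_lit 0) (nat_lit 0) (nat_lit 1) (nat_lit 0) (nat_lit 1) (nat_lit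 0) (nat_lit 263) (nat_lit 284) (nat_lit 173)) (XT.nd (nat_lit 94) (nat_lit 0) (nat_lit 0) (XT.lf (nat_lit 0) (nat_lit 9227077130) (nat_lit 0) (nat_lit 0) (nat_lit 0) (nat_lit 0) (nat_lit 0) (nat_lit 0) (nat_lit 1) (nat_lit 0) (nat_lit 1) (nat_lit 0) (nat_lit 264) (nat_lit 284) (nat_lit 172)) (XT.lf (nat_lit 0) (nat_lit 9225224416) (nat_lit 0) (nat_lit 0) (nat_lit 0) (nat_lit 0) (nat_lit 0) (nat_lit 0) (nat_lit 1) (nat_lit 0) (nat_lit 1) (nat_lit 0) (nat_lit 265) (nat_lit 284) (nat_lit 171))))) (XT.nd (nat_lit 282) (nat_lit 0) (nat_lit 0) (XT.nd (nat_lit 94) (nat_lit 0) (nat_lit 0) (XT.lf (nat_lit 0) (nat_lit 9223459927) (nat_lit 0) (nat_lit 0) (nat_lit 0) (nat_lit 0) (nat_lit 0) (nat_lit 0) (nat_lit 1) (nat_lit 0) (nat_lit 1) (nat_lit 0) (nat_lit 266) (nat_lit 284) (nat_lit 170)) (XT.nd (nat_lit 94) (nat_lit 0) (nat_lit 0) (XT.lf (nat_lit 0) (nat_lit 9221779462) (nat_lit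 0) (nat_lit 0) (nat_lit 0) (nat_lit 0) (nat_lit 0) (nat_lit 0) (nat_lit 1) (nat_lit 0) (nat_lit 1) (nat_lit 0) (nat_lit 267) (nat_lit 284) (nat_lit 169)) (XT.lf (nat_lit 0) (nat_lit 9220179018) (nat_lit 0) (nat_lit 0) (nat_lit 0) (nat_lit 0) (nat_lit 0) (nat_lit 0) (nat_lit 1) (nat_lit 0) (nat_lit 1) (nat_lit 0) (nat_lit 268) (nat_lit 284) (nat_lit 168)))) (XT.nd (nat_lit 188) (nat_lit 0) (nat_lit 0) (XT.nd (nat_lit 94) (nat_lit 0) (nat_lit 0) (XT.lf (nat_lit 0) (nat_lit 9218654786) (nat_lit 0) (nat_lit 0) (nat_lit 0) (nat_lit 0) (nat_lit 0) (nat_lit 0) (nat_lit 1) (nat_lit 0) (nat_lit 1) (nat_lit 0) (nat_lit 269) (nat_lit 284) (nat_lit 167)) (XT.lf (nat_lit 0) (nat_lit 9217203137) (nat_lit 0) (nat_lit 0) (nat_lit 0) (nat_lit 0) (nat_lit 0) (nat_lit 0) (nat_lit 1) (nat_lit 0) (nat_lit 1) (nat_lit 0) (nat_lit 270) (nat_lit 284) (nat_lit 166))) (XT.nd (nat_lit 94) (nat_lit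 0) (nat_lit 0) (XT.lf (nat_lit 0) (nat_lit 9215820614) (nat_lit 0) (nat_lit 0) (nat_lit 0) (nat_lit 0) (nat_lit 0) (nat_lit 0) (nat_lit 1) (nat_lit 0) (nat_lit 1) (nat_lit 0) (nat_lit 271) (nat_lit 284) (nat_lit 165)) (XT.lf (nat_lit 0) (nat_lit 9214503925) (nat_lit 0) (nat_lit 0) (nat_lit 0) (nat_lit 0) (nat_lit 0) (nat_lit 0) (nat_lit 1) (nat_lit 0) (nat_lit 1) (nat_lit 0) (nat_lit 272) (nat_lit 284) (nat_lit 164)))))) (XT.nd (nat_lit 658) (nat_lit 0) (nat_lit 0) (XT.nd (nat_lit 282) (nat_lit 0) (nat_lit 0) (XT.nd (nat_lit 94) (nat_lit 0) (nat_lit 0) (XT.lf (nat_lit 0) (nat_lit 9213249936) (nat_lit 0) (nat_lit 0) (nat_lit 0) (nat_lit 0) (nat_lit 0) (nat_lit 0) (nat_lit 1) (nat_lit 0) (nat_lit 1) (nat_lit 0) (nat_lit 273) (nat_lit 284) (nat_lit 163)) (XT.nd (nat_lit 94) (nat_lit 0) (nat_lit 0) (XT.lf (nat_lit 0) (nat_lit 9212055660) (nat_lit 0) (nat_lit 0) (nat_lit 0) (nat_lit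 0) (nat_lit 0) (nat_lit 0) (nat_lit 1) (nat_lit 0) (nat_lit 1) (nat_lit 0) (nat_lit 274) (nat_lit 284) (nat_lit 162)) (XT.lf (nat_lit 0) (nat_lit 9210918255) (nat_lit 0) (nat_lit 0) (nat_lit 0) (nat_lit 0) (nat_lit 0) (nat_lit 0) (nat_lit 1) (nat_lit 0) (nat_lit 1) (nat_lit 0) (nat_lit 275) (nat_lit 284) (nat_lit 161)))) (XT.nd (nat_lit 188) (nat_lit 0) (nat_lit 0) (XT.nd (nat_lit 94) (nat_lit 0) (nat_lit 0) (XT.lf (nat_lit 0) (nat_lit 9209835012) (nat_lit 0) (nat_lit 0) (nat_lit 0) (nat_lit 0) (nat_lit 0) (nat_lit 0) (nat_lit 1) (nat_lit 0) (nat_lit 1) (nat_lit 0) (nat_lit 276) (nat_lit 284) (nat_lit 160)) (XT.lf (nat_lit 0) (nat_lit 9208803352) (nat_lit 0) (nat_lit 0) (nat_lit 0) (nat_lit 0) (nat_lit 0) (nat_lit 0) (nat_lit 1) (nat_lit 0) (nat_lit 1) (nat_lit 0) (nat_lit 277) (nat_lit 284) (nat_lit 159))) (XT.nd (nat_lit 94) (nat_lit 0) (nat_lit 0) (XT.lf (nat_lit 0) (nat_lit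 9207820818) (nat_lit 0) (nat_lit 0) (nat_lit 0) (nat_lit 0) (nat_lit 0) (nat_lit 0) (nat_lit 1) (nat_lit 0) (nat_lit 1) (nat_lit 0) (nat_lit 278) (nat_lit 284) (nat_lit 158)) (XT.lf (nat_lit 0) (nat_lit 9206885072) (nat_lit 0) (nat_lit 0) (nat_lit 0) (nat_lit 0) (nat_lit 0) (nat_lit 0) (nat_lit 1) (nat_lit 0) (nat_lit 1) (nat_lit 0) (nat_lit 279) (nat_lit 284) (nat_lit 157))))) (XT.nd (nat_lit 282) (nat_lit 0) (nat_lit 0) (XT.nd (nat_lit 94) (nat_lit 0) (nat_lit 0) (XT.lf (nat_lit 0) (nat_lit 9205993885) (nat_lit 0) (nat_lit 0) (nat_lit 0) (nat_lit 0) (nat_lit 0) (nat_lit 0) (nat_lit 1) (nat_lit 0) (nat_lit 1) (nat_lit 0) (nat_lit 280) (nat_lit 284) (nat_lit 156)) (XT.nd (nat_lit 94) (nat_lit 0) (nat_lit 0) (XT.lf (nat_lit 0) (nat_lit 9205145136) (nat_lit 0) (nat_lit 0) (nat_lit 0) (nat_lit 0) (nat_lit 0) (nat_lit 0) (nat_lit 1) (nat_lit 0) (nat_lit 1) (nat_lit 0) (nat_lit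 281) (nat_lit 284) (nat_lit 155)) (XT.lf (nat_lit 0) (nat_lit 9204336803) (nat_lit 0) (nat_lit 0) (nat_lit 0) (nat_lit 0) (nat_lit 0) (nat_lit 0) (nat_lit 1) (nat_lit 0) (nat_lit 1) (nat_lit 0) (nat_lit 282) (nat_lit 284) (nat_lit 154)))) (XT.nd (nat_lit 188) (nat_lit 0) (nat_lit 0) (XT.nd (nat_lit 94) (nat_lit 0) (nat_lit 0) (XT.lf (nat_lit 0) (nat_lit 9203566962) (nat_lit 0) (nat_lit 0) (nat_lit 0) (nat_lit 0) (nat_lit 0) (nat_lit 0) (nat_lit 1) (nat_lit 0) (nat_lit 1) (nat_lit 0) (nat_lit 283) (nat_lit 284) (nat_lit 153)) (XT.lf (nat_lit 0) (nat_lit 9202833781) (nat_lit 0) (nat_lit 0) (nat_lit 0) (nat_lit 0) (nat_lit 0) (nat_lit 0) (nat_lit 1) (nat_lit 0) (nat_lit 1) (nat_lit 0) (nat_lit 284) (nat_lit 284) (nat_lit 152))) (XT.nd (nat_lit 94) (nat_lit 0) (nat_lit 0) (XT.lf (nat_lit 0) (nat_lit 9202135513) (nat_lit 0) (nat_lit 0) (nat_lit 0) (nat_lit 0) (nat_lit 0) (nat_lit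 0) (nat_lit 1) (nat_lit 0) (nat_lit 1) (nat_lit 0) (nat_lit 285) (nat_lit 284) (nat_lit 151)) (XT.lf (nat_lit 0) (nat_lit 9201470495) (nat_lit 0) (nat_lit 0) (nat_lit 0) (nat_lit 0) (nat_lit 0) (nat_lit 0) (nat_lit 1) (nat_lit 0) (nat_lit 1) (nat_lit 0) (nat_lit 286) (nat_lit 284) (nat_lit 150))))))))
noncomputable def ec130 : XT := (XT.nd (nat_lit 32430) (nat_lit 0) (nat_lit 6804) (XT.nd (nat_lit 1222) (nat_lit 0) (nat_lit 0) (XT.nd (nat_lit 564) (nat_lit 0) (nat_lit 0) (XT.nd (nat_lit 282) (nat_lit 0) (nat_lit 0) (XT.nd (nat_lit 94) (nat_lit 0) (nat_lit 0) (XT.lf (nat_lit 0) (nat_lit 9200837145) (nat_lit 0) (nat_lit 0) (nat_lit 0) (nat_lit 0) (nat_lit 0) (nat_lit 0) (nat_lit 1) (nat_lit 0) (nat_lit 1) (nat_lit 0) (nat_lit 287) (nat_lit 284) (nat_lit 149)) (XT.nd (nat_lit 94) (nat_lit 0) (nat_lit 0) (XT.lf (nat_lit 0) (nat_lit 9200233955) (nat_lit 0) (nat_lit 0) (nat_lit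 0) (nat_lit 0) (nat_lit 0) (nat_lit 0) (nat_lit 1) (nat_lit 0) (nat_lit 1) (nat_lit 0) (nat_lit 288) (nat_lit 284) (nat_lit 148)) (XT.lf (nat_lit 0) (nat_lit 9199659488) (nat_lit 0) (nat_lit 0) (nat_lit 0) (nat_lit 0) (nat_lit 0) (nat_lit 0) (nat_lit 1) (nat_lit 0) (nat_lit 1) (nat_lit 0) (nat_lit 289) (nat_lit 284) (nat_lit 147)))) (XT.nd (nat_lit 94) (nat_lit 0) (nat_lit 0) (XT.lf (nat_lit 0) (nat_lit 9199112377) (nat_lit 0) (nat_lit 0) (nat_lit 0) (nat_lit 0) (nat_lit 0) (nat_lit 0) (nat_lit 1) (nat_lit 0) (nat_lit 1) (nat_lit 0) (nat_lit 290) (nat_lit 284) (nat_lit 146)) (XT.nd (nat_lit 94) (nat_lit 0) (nat_lit 0) (XT.lf (nat_lit 0) (nat_lit 9198591318) (nat_lit 0) (nat_lit 0) (nat_lit 0) (nat_lit 0) (nat_lit 0) (nat_lit 0) (nat_lit 1) (nat_lit 0) (nat_lit 1) (nat_lit 0) (nat_lit 291) (nat_lit 284) (nat_lit 145)) (XT.lf (nat_lit 0) (nat_lit 9198095072) (nat_lit 0) (nat_lit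 0) (nat_lit 0) (nat_lit 0) (nat_lit 0) (nat_lit 0) (nat_lit 1) (nat_lit 0) (nat_lit 1) (nat_lit 0) (nat_lit 292) (nat_lit 284) (nat_lit 144))))) (XT.nd (nat_lit 282) (nat_lit 0) (nat_lit 0) (XT.nd (nat_lit 94) (nat_lit 0) (nat_lit 0) (XT.lf (nat_lit 0) (nat_lit 9197622457) (nat_lit 0) (nat_lit 0) (nat_lit 0) (nat_lit 0) (nat_lit 0) (nat_lit 0) (nat_lit 1) (nat_lit 0) (nat_lit 1) (nat_lit 0) (nat_lit 293) (nat_lit 284) (nat_lit 143)) (XT.nd (nat_lit 94) (nat_lit 0) (nat_lit 0) (XT.lf (nat_lit 0) (nat_lit 9197172347) (nat_lit 0) (nat_lit 0) (nat_lit 0) (nat_lit 0) (nat_lit 0) (nat_lit 0) (nat_lit 1) (nat_lit 0) (nat_lit 1) (nat_lit 0) (nat_lit 294) (nat_lit 284) (nat_lit 142)) (XT.lf (nat_lit 0) (nat_lit 9196743671) (nat_lit 0) (nat_lit 0) (nat_lit 0) (nat_lit 0) (nat_lit 0) (nat_lit 0) (nat_lit 1) (nat_lit 0) (nat_lit 1) (nat_lit 0) (nat_lit 295) (nat_lit 284) (nat_lit 141))))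 (XT.nd (nat_lit 188) (nat_lit 0) (nat_lit 0) (XT.nd (nat_lit 94) (nat_lit 0) (nat_lit 0) (XT.lf (nat_lit 0) (nat_lit 9196335408) (nat_lit 0) (nat_lit 0) (nat_lit 0) (nat_lit 0) (nat_lit 0) (nat_lit 0) (nat_lit 1) (nat_lit 0) (nat_lit 1) (nat_lit 0) (nat_lit 296) (nat_lit 284) (nat_lit 140)) (XT.lf (nat_lit 0) (nat_lit 9195946586) (nat_lit 0) (nat_lit 0) (nat_lit 0) (nat_lit 0) (nat_lit 0) (nat_lit 0) (nat_lit 1) (nat_lit 0) (nat_lit 1) (nat_lit 0) (nat_lit 297) (nat_lit 284) (nat_lit 139))) (XT.nd (nat_lit 94) (nat_lit 0) (nat_lit 0) (XT.lf (nat_lit 0) (nat_lit 9195576279) (nat_lit 0) (nat_lit 0) (nat_lit 0) (nat_lit 0) (nat_lit 0) (nat_lit 0) (nat_lit 1) (nat_lit 0) (nat_lit 1) (nat_lit 0) (nat_lit 298) (nat_lit 284) (nat_lit 138)) (XT.lf (nat_lit 0) (nat_lit 9195223606) (nat_lit 0) (nat_lit 0) (nat_lit 0) (nat_lit 0) (nat_lit 0) (nat_lit 0) (nat_lit 1) (nat_lit 0) (nat_lit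 1) (nat_lit 0) (nat_lit 299) (nat_lit 284) (nat_lit 137)))))) (XT.nd (nat_lit 658) (nat_lit 0) (nat_lit 0) (XT.nd (nat_lit 282) (nat_lit 0) (nat_lit 0) (XT.nd (nat_lit 94) (nat_lit 0) (nat_lit 0) (XT.lf (nat_lit 0) (nat_lit 9194887728) (nat_lit 0) (nat_lit 0) (nat_lit 0) (nat_lit 0) (nat_lit 0) (nat_lit 0) (nat_lit 1) (nat_lit 0) (nat_lit 1) (nat_lit 0) (nat_lit 300) (nat_lit 284) (nat_lit 136)) (XT.nd (nat_lit 94) (nat_lit 0) (nat_lit 0) (XT.lf (nat_lit 0) (nat_lit 9194567843) (nat_lit 0) (nat_lit 0) (nat_lit 0) (nat_lit 0) (nat_lit 0) (nat_lit 0) (nat_lit 1) (nat_lit 0) (nat_lit 1) (nat_lit 0) (nat_lit 301) (nat_lit 284) (nat_lit 135)) (XT.lf (nat_lit 0) (nat_lit 9194263191) (nat_lit 0) (nat_lit 0) (nat_lit 0) (nat_lit 0) (nat_lit 0) (nat_lit 0) (nat_lit 1) (nat_lit 0) (nat_lit 1) (nat_lit 0) (nat_lit 302) (nat_lit 284) (nat_lit 134)))) (XT.nd (nat_lit 188) (nat_lit 0)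 (nat_lit 0) (XT.nd (nat_lit 94) (nat_lit 0) (nat_lit 0) (XT.lf (nat_lit 0) (nat_lit 9193973046) (nat_lit 0) (nat_lit 0) (nat_lit 0) (nat_lit 0) (nat_lit 0) (nat_lit 0) (nat_lit 1) (nat_lit 0) (nat_lit 1) (nat_lit 0) (nat_lit 303) (nat_lit 284) (nat_lit 133)) (XT.lf (nat_lit 0) (nat_lit 9193696717) (nat_lit 0) (nat_lit 0) (nat_lit 0) (nat_lit 0) (nat_lit 0) (nat_lit 0) (nat_lit 1) (nat_lit 0) (nat_lit 1) (nat_lit 0) (nat_lit 304) (nat_lit 284) (nat_lit 132))) (XT.nd (nat_lit 94) (nat_lit 0) (nat_lit 0) (XT.lf (nat_lit 0) (nat_lit 9193433548) (nat_lit 0) (nat_lit 0) (nat_lit 0) (nat_lit 0) (nat_lit 0) (nat_lit 0) (nat_lit 1) (nat_lit 0) (nat_lit 1) (nat_lit 0) (nat_lit 305) (nat_lit 284) (nat_lit 131)) (XT.lf (nat_lit 0) (nat_lit 9193182909) (nat_lit 0) (nat_lit 0) (nat_lit 0) (nat_lit 0) (nat_lit 0) (nat_lit 0) (nat_lit 1) (nat_lit 0) (nat_lit 1) (nat_lit 0) (nat_lit 306)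 (nat_lit 284) (nat_lit 130))))) (XT.nd (nat_lit 282) (nat_lit 0) (nat_lit 0) (XT.nd (nat_lit 94) (nat_lit 0) (nat_lit 0) (XT.lf (nat_lit 0) (nat_lit 9192944207) (nat_lit 0) (nat_lit 0) (nat_lit 0) (nat_lit 0) (nat_lit 0) (nat_lit 0) (nat_lit 1) (nat_lit 0) (nat_lit 1) (nat_lit 0) (nat_lit 307) (nat_lit 284) (nat_lit 129)) (XT.nd (nat_lit 94) (nat_lit 0) (nat_lit 0) (XT.lf (nat_lit 0) (nat_lit 9192716870) (nat_lit 0) (nat_lit 0) (nat_lit 0) (nat_lit 0) (nat_lit 0) (nat_lit 0) (nat_lit 1) (nat_lit 0) (nat_lit 1) (nat_lit 0) (nat_lit 308) (nat_lit 284) (nat_lit 128)) (XT.lf (nat_lit 0) (nat_lit 9192500360) (nat_lit 0) (nat_lit 0) (nat_lit 0) (nat_lit 0) (nat_lit 0) (nat_lit 0) (nat_lit 1) (nat_lit 0) (nat_lit 1) (nat_lit 0) (nat_lit 309) (nat_lit 284) (nat_lit 127)))) (XT.nd (nat_lit 188) (nat_lit 0) (nat_lit 0) (XT.nd (nat_lit 94) (nat_lit 0) (nat_lit 0) (XT.lf (nat_lit 0)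 (nat_lit 9192294159) (nat_lit 0) (nat_lit 0) (nat_lit 0) (nat_lit 0) (nat_lit 0) (nat_lit 0) (nat_lit 1) (nat_lit 0) (nat_lit 1) (nat_lit 0) (nat_lit 310) (nat_lit 284) (nat_lit 126)) (XT.lf (nat_lit 0) (nat_lit 9192097778) (nat_lit 0) (nat_lit 0) (nat_lit 0) (nat_lit 0) (nat_lit 0) (nat_lit 0) (nat_lit 1) (nat_lit 0) (nat_lit 1) (nat_lit 0) (nat_lit 311) (nat_lit 284) (nat_lit 125))) (XT.nd (nat_lit 29986) (nat_lit 0) (nat_lit 10752) (XT.lf (nat_lit 0) (nat_lit 9191910748) (nat_lit 0) (nat_lit 0) (nat_lit 0) (nat_lit 0) (nat_lit 0) (nat_lit 0) (nat_lit 1) (nat_lit 0) (nat_lit 1) (nat_lit 0) (nat_lit 312) (nat_lit 284) (nat_lit 124)) (XT.lf (nat_lit 924) (nat_lit 4828009734) (nat_lit 0) (nat_lit 8572120186) (nat_lit 924) (nat_lit 4828009734) (nat_lit 139) (nat_lit 1) (nat_lit 128) (nat_lit 0) (nat_lit 139) (nat_lit 0) (nat_lit 150) (nat_lit 285) (nat_lit 285))))))) (XT.nd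 (nat_lit 1222) (nat_lit 2940) (nat_lit 0) (XT.nd (nat_lit 564) (nat_lit 1008) (nat_lit 0) (XT.nd (nat_lit 282) (nat_lit 0) (nat_lit 168) (XT.nd (nat_lit 94) (nat_lit 0) (nat_lit 84) (XT.lf (nat_lit 924) (nat_lit 18713968485) (nat_lit 84) (nat_lit 8433860183) (nat_lit 0) (nat_lit 8433860183) (nat_lit 139) (nat_lit 1) (nat_lit 129) (nat_lit 1) (nat_lit 128) (nat_lit 0) (nat_lit 151) (nat_lit 285) (nat_lit 284)) (XT.nd (nat_lit 94) (nat_lit 0) (nat_lit 0) (XT.lf (nat_lit 924) (nat_lit 8918795604) (nat_lit 0) (nat_lit 16896545474) (nat_lit 840) (nat_lit 8918795604) (nat_lit 140) (nat_lit 1) (nat_lit 129) (nat_lit 1) (nat_lit 139) (nat_lit 1) (nat_lit 152) (nat_lit 285) (nat_lit 283)) (XT.lf (nat_lit 924) (nat_lit 16730421255) (nat_lit 84) (nat_lit 8591772753) (nat_lit 0) (nat_lit 8591772753) (nat_lit 140) (nat_lit 1) (nat_lit 130) (nat_lit 1) (nat_lit 129) (nat_lit 1) (nat_lit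 153) (nat_lit 285) (nat_lit 282)))) (XT.nd (nat_lit 94) (nat_lit 0) (nat_lit 0) (XT.lf (nat_lit 924) (nat_lit 7700852240) (nat_lit 0) (nat_lit 17718087634) (nat_lit 840) (nat_lit 7700852240) (nat_lit 141) (nat_lit 1) (nat_lit 130) (nat_lit 1) (nat_lit 140) (nat_lit 1) (nat_lit 154) (nat_lit 285) (nat_lit 281)) (XT.nd (nat_lit 94) (nat_lit 0) (nat_lit 84) (XT.lf (nat_lit 924) (nat_lit 13850484326) (nat_lit 84) (nat_lit 9249671309) (nat_lit 0) (nat_lit 9249671309) (nat_lit 141) (nat_lit 1) (nat_lit 131) (nat_lit 1) (nat_lit 130) (nat_lit 1) (nat_lit 155) (nat_lit 285) (nat_lit 280)) (XT.lf (nat_lit 924) (nat_lit 6073037338) (nat_lit 0) (nat_lit 19459639862) (nat_lit 840) (nat_lit 6073037338) (nat_lit 142) (nat_lit 1) (nat_lit 131) (nat_lit 1) (nat_lit 141) (nat_lit 1) (nat_lit 156) (nat_lit 285) (nat_lit 279))))) (XT.nd (nat_lit 282) (nat_lit 1260) (nat_lit 0) (XT.nd (nat_lit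 94) (nat_lit 0) (nat_lit 84) (XT.lf (nat_lit 924) (nat_lit 10208962234) (nat_lit 84) (nat_lit 10336563932) (nat_lit 0) (nat_lit 10336563932) (nat_lit 142) (nat_lit 1) (nat_lit 132) (nat_lit 1) (nat_lit 131) (nat_lit 1) (nat_lit 157) (nat_lit 285) (nat_lit 278)) (XT.nd (nat_lit 94) (nat_lit 0) (nat_lit 0) (XT.lf (nat_lit 924) (nat_lit 4098366602) (nat_lit 0) (nat_lit 21988221234) (nat_lit 840) (nat_lit 4098366602) (nat_lit 143) (nat_lit 1) (nat_lit 132) (nat_lit 1) (nat_lit 142) (nat_lit 1) (nat_lit 158) (nat_lit 285) (nat_lit 277)) (XT.lf (nat_lit 924) (nat_lit 5925675874) (nat_lit 84) (nat_lit 11789225902) (nat_lit 0) (nat_lit 11789225902) (nat_lit 143) (nat_lit 1) (nat_lit 133) (nat_lit 1) (nat_lit 132) (nat_lit 1) (nat_lit 159) (nat_lit 285) (nat_lit 276)))) (XT.nd (nat_lit 188) (nat_lit 588) (nat_lit 0) (XT.nd (nat_lit 94) (nat_lit 840) (nat_lit 0) (XT.lf (nat_lit 84)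 (nat_lit 1832810952) (nat_lit 0) (nat_lit 25185473518) (nat_lit 840) (nat_lit 1832810952) (nat_lit 134) (nat_lit 1) (nat_lit 133) (nat_lit 1) (nat_lit 143) (nat_lit 1) (nat_lit 160) (nat_lit 285) (nat_lit 275)) (XT.lf (nat_lit 924) (nat_lit 1106972237) (nat_lit 0) (nat_lit 13551422010) (nat_lit 840) (nat_lit 13551422010) (nat_lit 134) (nat_lit 1) (nat_lit 123) (nat_lit 1) (nat_lit 133) (nat_lit 1) (nat_lit 161) (nat_lit 285) (nat_lit 274))) (XT.nd (nat_lit 94) (nat_lit 0) (nat_lit 0) (XT.lf (nat_lit 588) (nat_lit 26269845269) (nat_lit 0) (nat_lit 663121188) (nat_lit 504) (nat_lit 663121188) (nat_lit 123) (nat_lit 1) (nat_lit 116) (nat_lit 1) (nat_lit 122) (nat_lit 1) (nat_lit 162) (nat_lit 285) (nat_lit 273)) (XT.lf (nat_lit 84) (nat_lit 11485130630) (nat_lit 0) (nat_lit 4019992654) (nat_lit 588) (nat_lit 11485130630) (nat_lit 117) (nat_lit 1) (nat_lit 116) (nat_lit 1) (nat_lit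 123) (nat_lit 1) (nat_lit 163) (nat_lit 285) (nat_lit 272)))))) (XT.nd (nat_lit 658) (nat_lit 1344) (nat_lit 0) (XT.nd (nat_lit 282) (nat_lit 756) (nat_lit 0) (XT.nd (nat_lit 94) (nat_lit 420) (nat_lit 0) (XT.lf (nat_lit 504) (nat_lit 19762961710) (nat_lit 0) (nat_lit 3323610073) (nat_lit 420) (nat_lit 3323610073) (nat_lit 117) (nat_lit 1) (nat_lit 111) (nat_lit 1) (nat_lit 116) (nat_lit 1) (nat_lit 164) (nat_lit 285) (nat_lit 271)) (XT.nd (nat_lit 94) (nat_lit 420) (nat_lit 0) (XT.lf (nat_lit 84) (nat_lit 8192203865) (nat_lit 0) (nat_lit 9457896788) (nat_lit 504) (nat_lit 8192203865) (nat_lit 112) (nat_lit 1) (nat_lit 111) (nat_lit 1) (nat_lit 117) (nat_lit 1) (nat_lit 165) (nat_lit 285) (nat_lit 270)) (XT.lf (nat_lit 504) (nat_lit 13014190551) (nat_lit 0) (nat_lit 6140007138) (nat_lit 420) (nat_lit 6140007138) (nat_lit 112) (nat_lit 1) (nat_lit 106) (nat_lit 1) (nat_lit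 111) (nat_lit 1) (nat_lit 166) (nat_lit 285) (nat_lit 269)))) (XT.nd (nat_lit 188) (nat_lit 420) (nat_lit 0) (XT.nd (nat_lit 94) (nat_lit 336) (nat_lit 0) (XT.lf (nat_lit 84) (nat_lit 4795556258) (nat_lit 0) (nat_lit 15170933204) (nat_lit 504) (nat_lit 4795556258) (nat_lit 107) (nat_lit 1) (nat_lit 106) (nat_lit 1) (nat_lit 112) (nat_lit 1) (nat_lit 167) (nat_lit 285) (nat_lit 268)) (XT.lf (nat_lit 420) (nat_lit 6086345729) (nat_lit 0) (nat_lit 9078614887) (nat_lit 336) (nat_lit 9078614887) (nat_lit 107) (nat_lit 1) (nat_lit 102) (nat_lit 1) (nat_lit 106) (nat_lit 1) (nat_lit 168) (nat_lit 285) (nat_lit 267))) (XT.nd (nat_lit 94) (nat_lit 420) (nat_lit 0) (XT.lf (nat_lit 84) (nat_lit 1324348218) (nat_lit 0) (nat_lit 21096346661) (nat_lit 420) (nat_lit 1324348218) (nat_lit 103) (nat_lit 1) (nat_lit 102) (nat_lit 1) (nat_lit 107) (nat_lit 1) (nat_lit 169) (nat_lit 285) (nat_lit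 266)) (XT.lf (nat_lit 84) (nat_lit 11159338644) (nat_lit 0) (nat_lit 934616288) (nat_lit 420) (nat_lit 11159338644) (nat_lit 98) (nat_lit 1) (nat_lit 97) (nat_lit 1) (nat_lit 102) (nat_lit 1) (nat_lit 170) (nat_lit 285) (nat_lit 265))))) (XT.nd (nat_lit 282) (nat_lit 672) (nat_lit 0) (XT.nd (nat_lit 94) (nat_lit 336) (nat_lit 0) (XT.lf (nat_lit 420) (nat_lit 18459305964) (nat_lit 0) (nat_lit 2160482559) (nat_lit 336) (nat_lit 2160482559) (nat_lit 98) (nat_lit 1) (nat_lit 93) (nat_lit 1) (nat_lit 97) (nat_lit 1) (nat_lit 171) (nat_lit 285) (nat_lit 264)) (XT.nd (nat_lit 94) (nat_lit 336) (nat_lit 0) (XT.lf (nat_lit 84) (nat_lit 7240551326) (nat_lit 0) (nat_lit 7834260742) (nat_lit 420) (nat_lit 7240551326) (nat_lit 94) (nat_lit 1) (nat_lit 93) (nat_lit 1) (nat_lit 98) (nat_lit 1) (nat_lit 172) (nat_lit 285) (nat_lit 263)) (XT.lf (nat_lit 420) (nat_lit 10565978550) (nat_lit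 0) (nat_lit 5650299260) (nat_lit 336) (nat_lit 5650299260) (nat_lit 94) (nat_lit 1) (nat_lit 89) (nat_lit 1) (nat_lit 93) (nat_lit 1) (nat_lit 173) (nat_lit 285) (nat_lit 262)))) (XT.nd (nat_lit 188) (nat_lit 420) (nat_lit 0) (XT.nd (nat_lit 94) (nat_lit 252) (nat_lit 0) (XT.lf (nat_lit 84) (nat_lit 3332038082) (nat_lit 0) (nat_lit 14766837131) (nat_lit 420) (nat_lit 3332038082) (nat_lit 90) (nat_lit 1) (nat_lit 89) (nat_lit 1) (nat_lit 94) (nat_lit 1) (nat_lit 174) (nat_lit 285) (nat_lit 261)) (XT.lf (nat_lit 336) (nat_lit 2709803864) (nat_lit 0) (nat_lit 9147424948) (nat_lit 252) (nat_lit 9147424948) (nat_lit 90) (nat_lit 1) (nat_lit 86) (nat_lit 1) (nat_lit 89) (nat_lit 1) (nat_lit 175) (nat_lit 285) (nat_lit 260))) (XT.nd (nat_lit 94) (nat_lit 0) (nat_lit 0) (XT.lf (nat_lit 420) (nat_lit 19512002757) (nat_lit 0) (nat_lit 541420637) (nat_lit 336) (nat_lit 541420637) (nat_lit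 86) (nat_lit 1) (nat_lit 81) (nat_lit 1) (nat_lit 85) (nat_lit 1) (nat_lit 176) (nat_lit 285) (nat_lit 259)) (XT.lf (nat_lit 84) (nat_lit 7635190928) (nat_lit 0) (nat_lit 4916920692) (nat_lit 420) (nat_lit 7635190928) (nat_lit 82) (nat_lit 1) (nat_lit 81) (nat_lit 1) (nat_lit 86) (nat_lit 1) (nat_lit 177) (nat_lit 285) (nat_lit 258))))))))
noncomputable def ec131 : XT := (XT.nd (nat_lit 2538) (nat_lit 2520) (nat_lit 0) (XT.nd (nat_lit 1222) (nat_lit 1512) (nat_lit 0) (XT.nd (nat_lit 564) (nat_lit 924) (nat_lit 0) (XT.nd (nat_lit 282) (nat_lit 588) (nat_lit 0) (XT.nd (nat_lit 94) (nat_lit 252) (nat_lit 0) (XT.lf (nat_lit 336) (nat_lit 11151437733) (nat_lit 0) (nat_lit 4321976818) (nat_lit 252) (nat_lit 4321976818) (nat_lit 82) (nat_lit 1) (nat_lit 78) (nat_lit 1) (nat_lit 81) (nat_lit 1) (nat_lit 178) (nat_lit 285) (nat_lit 257)) (XT.nd (nat_lit 94) (nat_lit 252) (nat_lit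 0) (XT.lf (nat_lit 84) (nat_lit 3522911674) (nat_lit 0) (nat_lit 12367614015) (nat_lit 336) (nat_lit 3522911674) (nat_lit 79) (nat_lit 1) (nat_lit 78) (nat_lit 1) (nat_lit 82) (nat_lit 1) (nat_lit 179) (nat_lit 285) (nat_lit 256)) (XT.lf (nat_lit 336) (nat_lit 2936236768) (nat_lit 0) (nat_lit 8051967972) (nat_lit 252) (nat_lit 8051967972) (nat_lit 79) (nat_lit 1) (nat_lit 75) (nat_lit 1) (nat_lit 78) (nat_lit 1) (nat_lit 180) (nat_lit 285) (nat_lit 255)))) (XT.nd (nat_lit 94) (nat_lit 252) (nat_lit 0) (XT.lf (nat_lit 336) (nat_lit 17671530075) (nat_lit 0) (nat_lit 504622619) (nat_lit 252) (nat_lit 504622619) (nat_lit 75) (nat_lit 1) (nat_lit 71) (nat_lit 1) (nat_lit 74) (nat_lit 1) (nat_lit 181) (nat_lit 285) (nat_lit 254)) (XT.nd (nat_lit 94) (nat_lit 252) (nat_lit 0) (XT.lf (nat_lit 84) (nat_lit 6684633746) (nat_lit 0) (nat_lit 4953246485) (nat_lit 336) (nat_lit 6684633746)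 (nat_lit 72) (nat_lit 1) (nat_lit 71) (nat_lit 1) (nat_lit 75) (nat_lit 1) (nat_lit 182) (nat_lit 285) (nat_lit 253)) (XT.lf (nat_lit 336) (nat_lit 9191983486) (nat_lit 0) (nat_lit 4392762441) (nat_lit 252) (nat_lit 4392762441) (nat_lit 72) (nat_lit 1) (nat_lit 68) (nat_lit 1) (nat_lit 71) (nat_lit 1) (nat_lit 183) (nat_lit 285) (nat_lit 252))))) (XT.nd (nat_lit 282) (nat_lit 420) (nat_lit 0) (XT.nd (nat_lit 94) (nat_lit 504) (nat_lit 0) (XT.lf (nat_lit 84) (nat_lit 2531464755) (nat_lit 0) (nat_lit 12578826457) (nat_lit 336) (nat_lit 2531464755) (nat_lit 69) (nat_lit 1) (nat_lit 68) (nat_lit 1) (nat_lit 72) (nat_lit 1) (nat_lit 184) (nat_lit 285) (nat_lit 251)) (XT.nd (nat_lit 94) (nat_lit 336) (nat_lit 0) (XT.lf (nat_lit 252) (nat_lit 927612855) (nat_lit 0) (nat_lit 8192358881) (nat_lit 168) (nat_lit 8192358881) (nat_lit 69) (nat_lit 1) (nat_lit 66) (nat_lit 1) (nat_lit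 68) (nat_lit 1) (nat_lit 185) (nat_lit 285) (nat_lit 250)) (XT.lf (nat_lit 336) (nat_lit 14015919210) (nat_lit 0) (nat_lit 1488592212) (nat_lit 252) (nat_lit 1488592212) (nat_lit 66) (nat_lit 1) (nat_lit 62) (nat_lit 1) (nat_lit 65) (nat_lit 1) (nat_lit 186) (nat_lit 285) (nat_lit 249)))) (XT.nd (nat_lit 188) (nat_lit 252) (nat_lit 0) (XT.nd (nat_lit 94) (nat_lit 168) (nat_lit 0) (XT.lf (nat_lit 84) (nat_lit 4895427882) (nat_lit 0) (nat_lit 6886591132) (nat_lit 336) (nat_lit 4895427882) (nat_lit 63) (nat_lit 1) (nat_lit 62) (nat_lit 1) (nat_lit 66) (nat_lit 1) (nat_lit 187) (nat_lit 285) (nat_lit 248)) (XT.lf (nat_lit 252) (nat_lit 5655911766) (nat_lit 0) (nat_lit 5357810213) (nat_lit 168) (nat_lit 5357810213) (nat_lit 63) (nat_lit 1) (nat_lit 60) (nat_lit 1) (nat_lit 62) (nat_lit 1) (nat_lit 188) (nat_lit 285) (nat_lit 247))) (XT.nd (nat_lit 94) (nat_lit 252) (nat_lit 0)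 (XT.lf (nat_lit 84) (nat_lit 812574998) (nat_lit 0) (nat_lit 14450619625) (nat_lit 252) (nat_lit 812574998) (nat_lit 61) (nat_lit 1) (nat_lit 60) (nat_lit 1) (nat_lit 63) (nat_lit 1) (nat_lit 189) (nat_lit 285) (nat_lit 246)) (XT.lf (nat_lit 84) (nat_lit 6706324027) (nat_lit 0) (nat_lit 2368434116) (nat_lit 252) (nat_lit 6706324027) (nat_lit 58) (nat_lit 1) (nat_lit 57) (nat_lit 1) (nat_lit 60) (nat_lit 1) (nat_lit 190) (nat_lit 285) (nat_lit 245)))))) (XT.nd (nat_lit 658) (nat_lit 756) (nat_lit 0) (XT.nd (nat_lit 282) (nat_lit 420) (nat_lit 0) (XT.nd (nat_lit 94) (nat_lit 168) (nat_lit 0) (XT.lf (nat_lit 252) (nat_lit 9312906296) (nat_lit 0) (nat_lit 3091632566) (nat_lit 168) (nat_lit 3091632566) (nat_lit 58) (nat_lit 1) (nat_lit 55) (nat_lit 1) (nat_lit 57) (nat_lit 1) (nat_lit 191) (nat_lit 285) (nat_lit 244)) (XT.nd (nat_lit 94) (nat_lit 168) (nat_lit 0) (XT.lf (nat_lit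 84) (nat_lit 2627859870) (nat_lit 0) (nat_lit 9961838096) (nat_lit 252) (nat_lit 2627859870) (nat_lit 56) (nat_lit 1) (nat_lit 55) (nat_lit 1) (nat_lit 58) (nat_lit 1) (nat_lit 192) (nat_lit 285) (nat_lit 243)) (XT.lf (nat_lit 252) (nat_lit 1231057737) (nat_lit 0) (nat_lit 6856751320) (nat_lit 168) (nat_lit 6856751320) (nat_lit 56) (nat_lit 1) (nat_lit 53) (nat_lit 1) (nat_lit 55) (nat_lit 1) (nat_lit 193) (nat_lit 285) (nat_lit 242)))) (XT.nd (nat_lit 188) (nat_lit 168) (nat_lit 0) (XT.nd (nat_lit 94) (nat_lit 0) (nat_lit 0) (XT.lf (nat_lit 252) (nat_lit 12099630761) (nat_lit 0) (nat_lit 1289921234) (nat_lit 168) (nat_lit 1289921234) (nat_lit 53) (nat_lit 1) (nat_lit 50) (nat_lit 1) (nat_lit 52) (nat_lit 1) (nat_lit 194) (nat_lit 285) (nat_lit 241)) (XT.lf (nat_lit 84) (nat_lit 4027996731) (nat_lit 0) (nat_lit 6360655111) (nat_lit 252) (nat_lit 4027996731) (nat_lit 51)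 (nat_lit 1) (nat_lit 50) (nat_lit 1) (nat_lit 53) (nat_lit 1) (nat_lit 195) (nat_lit 285) (nat_lit 240))) (XT.nd (nat_lit 94) (nat_lit 0) (nat_lit 0) (XT.lf (nat_lit 252) (nat_lit 4102319109) (nat_lit 0) (nat_lit 5029567485) (nat_lit 168) (nat_lit 5029567485) (nat_lit 51) (nat_lit 1) (nat_lit 48) (nat_lit 1) (nat_lit 50) (nat_lit 1) (nat_lit 196) (nat_lit 285) (nat_lit 239)) (XT.lf (nat_lit 84) (nat_lit 134831915) (nat_lit 0) (nat_lit 13645545441) (nat_lit 252) (nat_lit 134831915) (nat_lit 49) (nat_lit 1) (nat_lit 48) (nat_lit 1) (nat_lit 51) (nat_lit 1) (nat_lit 197) (nat_lit 285) (nat_lit 238))))) (XT.nd (nat_lit 282) (nat_lit 420) (nat_lit 0) (XT.nd (nat_lit 94) (nat_lit 168) (nat_lit 0) (XT.lf (nat_lit 84) (nat_lit 5091033272) (nat_lit 0) (nat_lit 3485332659) (nat_lit 168) (nat_lit 5091033272) (nat_lit 47) (nat_lit 1) (nat_lit 46) (nat_lit 1) (nat_lit 48) (nat_lit 1)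 (nat_lit 198) (nat_lit 285) (nat_lit 237)) (XT.nd (nat_lit 94) (nat_lit 0) (nat_lit 0) (XT.lf (nat_lit 252) (nat_lit 6317392714) (nat_lit 0) (nat_lit 3555457813) (nat_lit 168) (nat_lit 3555457813) (nat_lit 47) (nat_lit 1) (nat_lit 44) (nat_lit 1) (nat_lit 46) (nat_lit 1) (nat_lit 199) (nat_lit 285) (nat_lit 236)) (XT.lf (nat_lit 84) (nat_lit 1266593578) (nat_lit 0) (nat_lit 10662483990) (nat_lit 252) (nat_lit 1266593578) (nat_lit 45) (nat_lit 1) (nat_lit 44) (nat_lit 1) (nat_lit 47) (nat_lit 1) (nat_lit 200) (nat_lit 285) (nat_lit 235)))) (XT.nd (nat_lit 188) (nat_lit 84) (nat_lit 0) (XT.nd (nat_lit 94) (nat_lit 168) (nat_lit 0) (XT.lf (nat_lit 84) (nat_lit 5880967951) (nat_lit 0) (nat_lit 1203016525) (nat_lit 168) (nat_lit 5880967951) (nat_lit 43) (nat_lit 1) (nat_lit 42) (nat_lit 1) (nat_lit 44) (nat_lit 1) (nat_lit 201) (nat_lit 285) (nat_lit 234)) (XT.lf (nat_lit 252)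 (nat_lit 7999624744) (nat_lit 0) (nat_lit 2370436509) (nat_lit 168) (nat_lit 2370436509) (nat_lit 43) (nat_lit 1) (nat_lit 40) (nat_lit 1) (nat_lit 42) (nat_lit 1) (nat_lit 202) (nat_lit 285) (nat_lit 233))) (XT.nd (nat_lit 94) (nat_lit 84) (nat_lit 0) (XT.lf (nat_lit 84) (nat_lit 2142664935) (nat_lit 0) (nat_lit 8235156715) (nat_lit 252) (nat_lit 2142664935) (nat_lit 41) (nat_lit 1) (nat_lit 40) (nat_lit 1) (nat_lit 43) (nat_lit 1) (nat_lit 203) (nat_lit 285) (nat_lit 232)) (XT.lf (nat_lit 168) (nat_lit 615081075) (nat_lit 0) (nat_lit 5844773026) (nat_lit 84) (nat_lit 5844773026) (nat_lit 41) (nat_lit 1) (nat_lit 39) (nat_lit 1) (nat_lit 40) (nat_lit 1) (nat_lit 204) (nat_lit 285) (nat_lit 231))))))) (XT.nd (nat_lit 1316) (nat_lit 1092) (nat_lit 0) (XT.nd (nat_lit 658) (nat_lit 504) (nat_lit 0) (XT.nd (nat_lit 282) (nat_lit 588) (nat_lit 0) (XT.nd (nat_lit 94) (nat_lit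 84) (nat_lit 0) (XT.lf (nat_lit 252) (nat_lit 9250158812) (nat_lit 0) (nat_lit 1421928332) (nat_lit 168) (nat_lit 1421928332) (nat_lit 39) (nat_lit 1) (nat_lit 36) (nat_lit 1) (nat_lit 38) (nat_lit 1) (nat_lit 205) (nat_lit 285) (nat_lit 230)) (XT.nd (nat_lit 94) (nat_lit 84) (nat_lit 0) (XT.lf (nat_lit 84) (nat_lit 2810999807) (nat_lit 0) (nat_lit 6263754999) (nat_lit 252) (nat_lit 2810999807) (nat_lit 37) (nat_lit 1) (nat_lit 36) (nat_lit 1) (nat_lit 39) (nat_lit 1) (nat_lit 206) (nat_lit 285) (nat_lit 229)) (XT.lf (nat_lit 168) (nat_lit 2065581594) (nat_lit 0) (nat_lit 4808509233) (nat_lit 84) (nat_lit 4808509233) (nat_lit 37) (nat_lit 1) (nat_lit 35) (nat_lit 1) (nat_lit 36) (nat_lit 1) (nat_lit 207) (nat_lit 285) (nat_lit 228)))) (XT.nd (nat_lit 188) (nat_lit 336) (nat_lit 0) (XT.nd (nat_lit 94) (nat_lit 0) (nat_lit 0) (XT.lf (nat_lit 252) (nat_lit 10151888297) (nat_lit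 0) (nat_lit 666742386) (nat_lit 168) (nat_lit 666742386) (nat_lit 35) (nat_lit 1) (nat_lit 32) (nat_lit 1) (nat_lit 34) (nat_lit 1) (nat_lit 208) (nat_lit 285) (nat_lit 227)) (XT.lf (nat_lit 84) (nat_lit 3310925127) (nat_lit 0) (nat_lit 4666226920) (nat_lit 252) (nat_lit 3310925127) (nat_lit 33) (nat_lit 1) (nat_lit 32) (nat_lit 1) (nat_lit 35) (nat_lit 1) (nat_lit 209) (nat_lit 285) (nat_lit 226))) (XT.nd (nat_lit 94) (nat_lit 252) (nat_lit 0) (XT.lf (nat_lit 168) (nat_lit 3184647539) (nat_lit 0) (nat_lit 3955972446) (nat_lit 84) (nat_lit 3955972446) (nat_lit 33) (nat_lit 1) (nat_lit 31) (nat_lit 1) (nat_lit 32) (nat_lit 1) (nat_lit 210) (nat_lit 285) (nat_lit 225)) (XT.lf (nat_lit 252) (nat_lit 10772707197) (nat_lit 0) (nat_lit 69405304) (nat_lit 168) (nat_lit 69405304) (nat_lit 31) (nat_lit 1) (nat_lit 28) (nat_lit 1) (nat_lit 30) (nat_lit 1) (nat_lit 211) (nat_lit 285)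 (nat_lit 224))))) (XT.nd (nat_lit 282) (nat_lit 420) (nat_lit 0) (XT.nd (nat_lit 94) (nat_lit 84) (nat_lit 0) (XT.lf (nat_lit 84) (nat_lit 3674676420) (nat_lit 0) (nat_lit 3375126130) (nat_lit 252) (nat_lit 3674676420) (nat_lit 29) (nat_lit 1) (nat_lit 28) (nat_lit 1) (nat_lit 31) (nat_lit 1) (nat_lit 212) (nat_lit 285) (nat_lit 223)) (XT.nd (nat_lit 94) (nat_lit 0) (nat_lit 0) (XT.lf (nat_lit 168) (nat_lit 4034577840) (nat_lit 0) (nat_lit 3254588322) (nat_lit 84) (nat_lit 3254588322) (nat_lit 29) (nat_lit 1) (nat_lit 27) (nat_lit 1) (nat_lit 28) (nat_lit 1) (nat_lit 213) (nat_lit 285) (nat_lit 222)) (XT.lf (nat_lit 0) (nat_lit 405754323) (nat_lit 0) (nat_lit 9556977724) (nat_lit 168) (nat_lit 405754323) (nat_lit 27) (nat_lit 3) (nat_lit 27) (nat_lit 1) (nat_lit 29) (nat_lit 1) (nat_lit 214) (nat_lit 285) (nat_lit 221)))) (XT.nd (nat_lit 188) (nat_lit 168) (nat_lit 0) (XT.nd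 (nat_lit 94) (nat_lit 84) (nat_lit 0) (XT.lf (nat_lit 84) (nat_lit 3928660741) (nat_lit 0) (nat_lit 2335019568) (nat_lit 168) (nat_lit 3928660741) (nat_lit 26) (nat_lit 1) (nat_lit 25) (nat_lit 1) (nat_lit 27) (nat_lit 1) (nat_lit 215) (nat_lit 285) (nat_lit 220)) (XT.lf (nat_lit 168) (nat_lit 4666457581) (nat_lit 0) (nat_lit 2677557867) (nat_lit 84) (nat_lit 2677557867) (nat_lit 26) (nat_lit 1) (nat_lit 24) (nat_lit 1) (nat_lit 25) (nat_lit 1) (nat_lit 216) (nat_lit 285) (nat_lit 219))) (XT.nd (nat_lit 94) (nat_lit 168) (nat_lit 0) (XT.lf (nat_lit 0) (nat_lit 775520138) (nat_lit 0) (nat_lit 8304254276) (nat_lit 168) (nat_lit 775520138) (nat_lit 24) (nat_lit 3) (nat_lit 24) (nat_lit 1) (nat_lit 26) (nat_lit 1) (nat_lit 217) (nat_lit 285) (nat_lit 218)) (XT.lf (nat_lit 84) (nat_lit 4094495444) (nat_lit 0) (nat_lit 1500354900) (nat_lit 168) (nat_lit 4094495444) (nat_lit 23)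 (nat_lit 1) (nat_lit 22) (nat_lit 1) (nat_lit 24) (nat_lit 1) (nat_lit 218) (nat_lit 285) (nat_lit 217)))))) (XT.nd (nat_lit 658) (nat_lit 504) (nat_lit 0) (XT.nd (nat_lit 282) (nat_lit 336) (nat_lit 0) (XT.nd (nat_lit 94) (nat_lit 168) (nat_lit 0) (XT.lf (nat_lit 168) (nat_lit 5122154208) (nat_lit 0) (nat_lit 2202833483) (nat_lit 84) (nat_lit 2202833483) (nat_lit 23) (nat_lit 1) (nat_lit 21) (nat_lit 1) (nat_lit 22) (nat_lit 1) (nat_lit 219) (nat_lit 285) (nat_lit 216)) (XT.nd (nat_lit 94) (nat_lit 168) (nat_lit 0) (XT.lf (nat_lit 0) (nat_lit 1058693814) (nat_lit 0) (nat_lit 7252602022) (nat_lit 168) (nat_lit 1058693814) (nat_lit 21) (nat_lit 3) (nat_lit 21) (nat_lit 1) (nat_lit 23) (nat_lit 1) (nat_lit 220) (nat_lit 285) (nat_lit 215)) (XT.lf (nat_lit 84) (nat_lit 4189862515) (nat_lit 0) (nat_lit 833706186) (nat_lit 168) (nat_lit 4189862515) (nat_lit 20) (nat_lit 1) (nat_lit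 19) (nat_lit 1) (nat_lit 21) (nat_lit 1) (nat_lit 221) (nat_lit 285) (nat_lit 214)))) (XT.nd (nat_lit 188) (nat_lit 252) (nat_lit 0) (XT.nd (nat_lit 94) (nat_lit 0) (nat_lit 0) (XT.lf (nat_lit 168) (nat_lit 5435959426) (nat_lit 0) (nat_lit 1812276558) (nat_lit 84) (nat_lit 1812276558) (nat_lit 20) (nat_lit 1) (nat_lit 18) (nat_lit 1) (nat_lit 19) (nat_lit 1) (nat_lit 222) (nat_lit 285) (nat_lit 213)) (XT.lf (nat_lit 0) (nat_lit 1271629524) (nat_lit 0) (nat_lit 6367373135) (nat_lit 168) (nat_lit 1271629524) (nat_lit 18) (nat_lit 3) (nat_lit 18) (nat_lit 1) (nat_lit 20) (nat_lit 1) (nat_lit 223) (nat_lit 285) (nat_lit 212))) (XT.nd (nat_lit 94) (nat_lit 84) (nat_lit 0) (XT.lf (nat_lit 84) (nat_lit 4229211194) (nat_lit 0) (nat_lit 304330711) (nat_lit 168) (nat_lit 4229211194) (nat_lit 17) (nat_lit 1) (nat_lit 16) (nat_lit 1) (nat_lit 18) (nat_lit 1) (nat_lit 224) (nat_lit 285)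 (nat_lit 211)) (XT.lf (nat_lit 168) (nat_lit 5635939638) (nat_lit 0) (nat_lit 1490964409) (nat_lit 84) (nat_lit 1490964409) (nat_lit 17) (nat_lit 1) (nat_lit 15) (nat_lit 1) (nat_lit 16) (nat_lit 1) (nat_lit 225) (nat_lit 285) (nat_lit 210))))) (XT.nd (nat_lit 282) (nat_lit 252) (nat_lit 0) (XT.nd (nat_lit 94) (nat_lit 252) (nat_lit 0) (XT.lf (nat_lit 0) (nat_lit 1427734187) (nat_lit 0) (nat_lit 5620015067) (nat_lit 168) (nat_lit 1427734187) (nat_lit 15) (nat_lit 3) (nat_lit 15) (nat_lit 1) (nat_lit 17) (nat_lit 1) (nat_lit 226) (nat_lit 285) (nat_lit 209)) (XT.nd (nat_lit 94) (nat_lit 168) (nat_lit 0) (XT.lf (nat_lit 84) (nat_lit 116755101) (nat_lit 0) (nat_lit 4109403558) (nat_lit 84) (nat_lit 4109403558) (nat_lit 15) (nat_lit 3) (nat_lit 14) (nat_lit 1) (nat_lit 15) (nat_lit 1) (nat_lit 227) (nat_lit 285) (nat_lit 208)) (XT.lf (nat_lit 168) (nat_lit 5745046597) (nat_lit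 0) (nat_lit 1226620109) (nat_lit 84) (nat_lit 1226620109) (nat_lit 14) (nat_lit 1) (nat_lit 12) (nat_lit 1) (nat_lit 13) (nat_lit 1) (nat_lit 228) (nat_lit 285) (nat_lit 207)))) (XT.nd (nat_lit 188) (nat_lit 168) (nat_lit 0) (XT.nd (nat_lit 94) (nat_lit 84) (nat_lit 0) (XT.lf (nat_lit 0) (nat_lit 1537992288) (nat_lit 0) (nat_lit 4986992143) (nat_lit 168) (nat_lit 1537992288) (nat_lit 12) (nat_lit 3) (nat_lit 12) (nat_lit 1) (nat_lit 14) (nat_lit 1) (nat_lit 229) (nat_lit 285) (nat_lit 206)) (XT.lf (nat_lit 84) (nat_lit 453585391) (nat_lit 0) (nat_lit 3738347158) (nat_lit 84) (nat_lit 3738347158) (nat_lit 12) (nat_lit 3) (nat_lit 11) (nat_lit 1) (nat_lit 12) (nat_lit 1) (nat_lit 230) (nat_lit 285) (nat_lit 205))) (XT.nd (nat_lit 94) (nat_lit 0) (nat_lit 0) (XT.lf (nat_lit 168) (nat_lit 5782030824) (nat_lit 0) (nat_lit 1009143399) (nat_lit 84) (nat_lit 1009143399) (nat_lit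 11) (nat_lit 1) (nat_lit 9) (nat_lit 1) (nat_lit 10) (nat_lit 1) (nat_lit 231) (nat_lit 285) (nat_lit 204)) (XT.lf (nat_lit 0) (nat_lit 1611397528) (nat_lit 0) (nat_lit 4448898244) (nat_lit 168) (nat_lit 1611397528) (nat_lit 9) (nat_lit 3) (nat_lit 9) (nat_lit 1) (nat_lit 11) (nat_lit 1) (nat_lit 232) (nat_lit 285) (nat_lit 203))))))))
noncomputable def ec132 : XT := (XT.nd (nat_lit 2538) (nat_lit 0) (nat_lit 0) (XT.nd (nat_lit 1222) (nat_lit 0) (nat_lit 0) (XT.nd (nat_lit 564) (nat_lit 252) (nat_lit 0) (XT.nd (nat_lit 282) (nat_lit 252) (nat_lit 0) (XT.nd (nat_lit 94) (nat_lit 168) (nat_lit 0) (XT.lf (nat_lit 84) (nat_lit 713671234) (nat_lit 0) (nat_lit 3416052868) (nat_lit 84) (nat_lit 3416052868) (nat_lit 9) (nat_lit 3) (nat_lit 8) (nat_lit 1) (nat_lit 9) (nat_lit 1) (nat_lit 233) (nat_lit 285) (nat_lit 202)) (XT.nd (nat_lit 94) (nat_lit 0) (nat_lit 0) (XT.lf (nat_lit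 168) (nat_lit 5762192755) (nat_lit 0) (nat_lit 830224772) (nat_lit 84) (nat_lit 830224772) (nat_lit 8) (nat_lit 1) (nat_lit 6) (nat_lit 1) (nat_lit 7) (nat_lit 1) (nat_lit 234) (nat_lit 285) (nat_lit 201)) (XT.lf (nat_lit 0) (nat_lit 1655307844) (nat_lit 0) (nat_lit 3989726706) (nat_lit 168) (nat_lit 1655307844) (nat_lit 6) (nat_lit 3) (nat_lit 6) (nat_lit 1) (nat_lit 8) (nat_lit 1) (nat_lit 235) (nat_lit 285) (nat_lit 200)))) (XT.nd (nat_lit 94) (nat_lit 168) (nat_lit 0) (XT.lf (nat_lit 84) (nat_lit 911429957) (nat_lit 0) (nat_lit 3134686015) (nat_lit 84) (nat_lit 3134686015) (nat_lit 6) (nat_lit 3) (nat_lit 5) (nat_lit 1) (nat_lit 6) (nat_lit 1) (nat_lit 236) (nat_lit 285) (nat_lit 199)) (XT.nd (nat_lit 94) (nat_lit 0) (nat_lit 0) (XT.lf (nat_lit 168) (nat_lit 5698000417) (nat_lit 0) (nat_lit 683027974) (nat_lit 84) (nat_lit 683027974) (nat_lit 5) (nat_lit 1) (nat_lit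 3) (nat_lit 1) (nat_lit 4) (nat_lit 1) (nat_lit 237) (nat_lit 285) (nat_lit 198)) (XT.lf (nat_lit 0) (nat_lit 1675737393) (nat_lit 0) (nat_lit 3596269568) (nat_lit 168) (nat_lit 1675737393) (nat_lit 3) (nat_lit 3) (nat_lit 3) (nat_lit 1) (nat_lit 5) (nat_lit 1) (nat_lit 238) (nat_lit 285) (nat_lit 197))))) (XT.nd (nat_lit 282) (nat_lit 0) (nat_lit 0) (XT.nd (nat_lit 94) (nat_lit 168) (nat_lit 0) (XT.lf (nat_lit 84) (nat_lit 1058684125) (nat_lit 0) (nat_lit 2887762387) (nat_lit 84) (nat_lit 2887762387) (nat_lit 3) (nat_lit 3) (nat_lit 2) (nat_lit 1) (nat_lit 3) (nat_lit 1) (nat_lit 239) (nat_lit 285) (nat_lit 196)) (XT.nd (nat_lit 94) (nat_lit 0) (nat_lit 0) (XT.lf (nat_lit 0) (nat_lit 9767082373) (nat_lit 0) (nat_lit 0) (nat_lit 0) (nat_lit 0) (nat_lit 0) (nat_lit 0) (nat_lit 1) (nat_lit 0) (nat_lit 1) (nat_lit 0) (nat_lit 240) (nat_lit 285) (nat_lit 195)) (XT.lf (nat_lit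 0) (nat_lit 9761391720) (nat_lit 0) (nat_lit 0) (nat_lit 0) (nat_lit 0) (nat_lit 0) (nat_lit 0) (nat_lit 1) (nat_lit 0) (nat_lit 1) (nat_lit 0) (nat_lit 241) (nat_lit 285) (nat_lit 194)))) (XT.nd (nat_lit 188) (nat_lit 0) (nat_lit 0) (XT.nd (nat_lit 94) (nat_lit 0) (nat_lit 0) (XT.lf (nat_lit 0) (nat_lit 9755972050) (nat_lit 0) (nat_lit 0) (nat_lit 0) (nat_lit 0) (nat_lit 0) (nat_lit 0) (nat_lit 1) (nat_lit 0) (nat_lit 1) (nat_lit 0) (nat_lit 242) (nat_lit 285) (nat_lit 193)) (XT.lf (nat_lit 0) (nat_lit 9750810460) (nat_lit 0) (nat_lit 0) (nat_lit 0) (nat_lit 0) (nat_lit 0) (nat_lit 0) (nat_lit 1) (nat_lit 0) (nat_lit 1) (nat_lit 0) (nat_lit 243) (nat_lit 285) (nat_lit 192))) (XT.nd (nat_lit 94) (nat_lit 0) (nat_lit 0) (XT.lf (nat_lit 0) (nat_lit 9745894660) (nat_lit 0) (nat_lit 0) (nat_lit 0) (nat_lit 0) (nat_lit 0) (nat_lit 0) (nat_lit 1) (nat_lit 0) (nat_lit 1) (nat_lit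 0) (nat_lit 244) (nat_lit 285) (nat_lit 191)) (XT.lf (nat_lit 0) (nat_lit 9741212945) (nat_lit 0) (nat_lit 0) (nat_lit 0) (nat_lit 0) (nat_lit 0) (nat_lit 0) (nat_lit 1) (nat_lit 0) (nat_lit 1) (nat_lit 0) (nat_lit 245) (nat_lit 285) (nat_lit 190)))))) (XT.nd (nat_lit 658) (nat_lit 0) (nat_lit 0) (XT.nd (nat_lit 282) (nat_lit 0) (nat_lit 0) (XT.nd (nat_lit 94) (nat_lit 0) (nat_lit 0) (XT.lf (nat_lit 0) (nat_lit 9736754169) (nat_lit 0) (nat_lit 0) (nat_lit 0) (nat_lit 0) (nat_lit 0) (nat_lit 0) (nat_lit 1) (nat_lit 0) (nat_lit 1) (nat_lit 0) (nat_lit 246) (nat_lit 285) (nat_lit 189)) (XT.nd (nat_lit 94) (nat_lit 0) (nat_lit 0) (XT.lf (nat_lit 0) (nat_lit 9732507716) (nat_lit 0) (nat_lit 0) (nat_lit 0) (nat_lit 0) (nat_lit 0) (nat_lit 0) (nat_lit 1) (nat_lit 0) (nat_lit 1) (nat_lit 0) (nat_lit 247) (nat_lit 285) (nat_lit 188)) (XT.lf (nat_lit 0) (nat_lit 9728463475) (nat_lit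 0) (nat_lit 0) (nat_lit 0) (nat_lit 0) (nat_lit 0) (nat_lit 0) (nat_lit 1) (nat_lit 0) (nat_lit 1) (nat_lit 0) (nat_lit 248) (nat_lit 285) (nat_lit 187)))) (XT.nd (nat_lit 188) (nat_lit 0) (nat_lit 0) (XT.nd (nat_lit 94) (nat_lit 0) (nat_lit 0) (XT.lf (nat_lit 0) (nat_lit 9724611817) (nat_lit 0) (nat_lit 0) (nat_lit 0) (nat_lit 0) (nat_lit 0) (nat_lit 0) (nat_lit 1) (nat_lit 0) (nat_lit 1) (nat_lit 0) (nat_lit 249) (nat_lit 285) (nat_lit 186)) (XT.lf (nat_lit 0) (nat_lit 9720943572) (nat_lit 0) (nat_lit 0) (nat_lit 0) (nat_lit 0) (nat_lit 0) (nat_lit 0) (nat_lit 1) (nat_lit 0) (nat_lit 1) (nat_lit 0) (nat_lit 250) (nat_lit 285) (nat_lit 185))) (XT.nd (nat_lit 94) (nat_lit 0) (nat_lit 0) (XT.lf (nat_lit 0) (nat_lit 9717450004) (nat_lit 0) (nat_lit 0) (nat_lit 0) (nat_lit 0) (nat_lit 0) (nat_lit 0) (nat_lit 1) (nat_lit 0) (nat_lit 1) (nat_lit 0) (nat_lit 251) (nat_lit 285)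 (nat_lit 184)) (XT.lf (nat_lit 0) (nat_lit 9714122797) (nat_lit 0) (nat_lit 0) (nat_lit 0) (nat_lit 0) (nat_lit 0) (nat_lit 0) (nat_lit 1) (nat_lit 0) (nat_lit 1) (nat_lit 0) (nat_lit 252) (nat_lit 285) (nat_lit 183))))) (XT.nd (nat_lit 282) (nat_lit 0) (nat_lit 0) (XT.nd (nat_lit 94) (nat_lit 0) (nat_lit 0) (XT.lf (nat_lit 0) (nat_lit 9710954029) (nat_lit 0) (nat_lit 0) (nat_lit 0) (nat_lit 0) (nat_lit 0) (nat_lit 0) (nat_lit 1) (nat_lit 0) (nat_lit 1) (nat_lit 0) (nat_lit 253) (nat_lit 285) (nat_lit 182)) (XT.nd (nat_lit 94) (nat_lit 0) (nat_lit 0) (XT.lf (nat_lit 0) (nat_lit 9707936154) (nat_lit 0) (nat_lit 0) (nat_lit 0) (nat_lit 0) (nat_lit 0) (nat_lit 0) (nat_lit 1) (nat_lit 0) (nat_lit 1) (nat_lit 0) (nat_lit 254) (nat_lit 285) (nat_lit 181)) (XT.lf (nat_lit 0) (nat_lit 9705061987) (nat_lit 0) (nat_lit 0) (nat_lit 0) (nat_lit 0) (nat_lit 0) (nat_lit 0) (nat_lit 1)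 (nat_lit 0) (nat_lit 1) (nat_lit 0) (nat_lit 255) (nat_lit 285) (nat_lit 180)))) (XT.nd (nat_lit 188) (nat_lit 0) (nat_lit 0) (XT.nd (nat_lit 94) (nat_lit 0) (nat_lit 0) (XT.lf (nat_lit 0) (nat_lit 9702324686) (nat_lit 0) (nat_lit 0) (nat_lit 0) (nat_lit 0) (nat_lit 0) (nat_lit 0) (nat_lit 1) (nat_lit 0) (nat_lit 1) (nat_lit 0) (nat_lit 256) (nat_lit 285) (nat_lit 179)) (XT.lf (nat_lit 0) (nat_lit 9699717732) (nat_lit 0) (nat_lit 0) (nat_lit 0) (nat_lit 0) (nat_lit 0) (nat_lit 0) (nat_lit 1) (nat_lit 0) (nat_lit 1) (nat_lit 0) (nat_lit 257) (nat_lit 285) (nat_lit 178))) (XT.nd (nat_lit 94) (nat_lit 0) (nat_lit 0) (XT.lf (nat_lit 0) (nat_lit 9697234919) (nat_lit 0) (nat_lit 0) (nat_lit 0) (nat_lit 0) (nat_lit 0) (nat_lit 0) (nat_lit 1) (nat_lit 0) (nat_lit 1) (nat_lit 0) (nat_lit 258) (nat_lit 285) (nat_lit 177)) (XT.lf (nat_lit 0) (nat_lit 9694870335) (nat_lit 0) (nat_lit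 0) (nat_lit 0) (nat_lit 0) (nat_lit 0) (nat_lit 0) (nat_lit 1) (nat_lit 0) (nat_lit 1) (nat_lit 0) (nat_lit 259) (nat_lit 285) (nat_lit 176))))))) (XT.nd (nat_lit 1222) (nat_lit 0) (nat_lit 0) (XT.nd (nat_lit 564) (nat_lit 0) (nat_lit 0) (XT.nd (nat_lit 282) (nat_lit 0) (nat_lit 0) (XT.nd (nat_lit 94) (nat_lit 0) (nat_lit 0) (XT.lf (nat_lit 0) (nat_lit 9692618350) (nat_lit 0) (nat_lit 0) (nat_lit 0) (nat_lit 0) (nat_lit 0) (nat_lit 0) (nat_lit 1) (nat_lit 0) (nat_lit 1) (nat_lit 0) (nat_lit 260) (nat_lit 285) (nat_lit 175)) (XT.nd (nat_lit 94) (nat_lit 0) (nat_lit 0) (XT.lf (nat_lit 0) (nat_lit 9690473603) (nat_lit 0) (nat_lit 0) (nat_lit 0) (nat_lit 0) (nat_lit 0) (nat_lit 0) (nat_lit 1) (nat_lit 0) (nat_lit 1) (nat_lit 0) (nat_lit 261) (nat_lit 285) (nat_lit 174)) (XT.lf (nat_lit 0) (nat_lit 9688430986) (nat_lit 0) (nat_lit 0) (nat_lit 0) (nat_lit 0) (nat_lit 0) (nat_lit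 0) (nat_lit 1) (nat_lit 0) (nat_lit 1) (nat_lit 0) (nat_lit 262) (nat_lit 285) (nat_lit 173)))) (XT.nd (nat_lit 94) (nat_lit 0) (nat_lit 0) (XT.lf (nat_lit 0) (nat_lit 9686485637) (nat_lit 0) (nat_lit 0) (nat_lit 0) (nat_lit 0) (nat_lit 0) (nat_lit 0) (nat_lit 1) (nat_lit 0) (nat_lit 1) (nat_lit 0) (nat_lit 263) (nat_lit 285) (nat_lit 172)) (XT.nd (nat_lit 94) (nat_lit 0) (nat_lit 0) (XT.lf (nat_lit 0) (nat_lit 9684632924) (nat_lit 0) (nat_lit 0) (nat_lit 0) (nat_lit 0) (nat_lit 0) (nat_lit 0) (nat_lit 1) (nat_lit 0) (nat_lit 1) (nat_lit 0) (nat_lit 264) (nat_lit 285) (nat_lit 171)) (XT.lf (nat_lit 0) (nat_lit 9682868435) (nat_lit 0) (nat_lit 0) (nat_lit 0) (nat_lit 0) (nat_lit 0) (nat_lit 0) (nat_lit 1) (nat_lit 0) (nat_lit 1) (nat_lit 0) (nat_lit 265) (nat_lit 285) (nat_lit 170))))) (XT.nd (nat_lit 282) (nat_lit 0) (nat_lit 0) (XT.nd (nat_lit 94) (nat_lit 0) (nat_lit 0)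 (XT.lf (nat_lit 0) (nat_lit 9681187969) (nat_lit 0) (nat_lit 0) (nat_lit 0) (nat_lit 0) (nat_lit 0) (nat_lit 0) (nat_lit 1) (nat_lit 0) (nat_lit 1) (nat_lit 0) (nat_lit 266) (nat_lit 285) (nat_lit 169)) (XT.nd (nat_lit 94) (nat_lit 0) (nat_lit 0) (XT.lf (nat_lit 0) (nat_lit 9679587526) (nat_lit 0) (nat_lit 0) (nat_lit 0) (nat_lit 0) (nat_lit 0) (nat_lit 0) (nat_lit 1) (nat_lit 0) (nat_lit 1) (nat_lit 0) (nat_lit 267) (nat_lit 285) (nat_lit 168)) (XT.lf (nat_lit 0) (nat_lit 9678063294) (nat_lit 0) (nat_lit 0) (nat_lit 0) (nat_lit 0) (nat_lit 0) (nat_lit 0) (nat_lit 1) (nat_lit 0) (nat_lit 1) (nat_lit 0) (nat_lit 268) (nat_lit 285) (nat_lit 167)))) (XT.nd (nat_lit 188) (nat_lit 0) (nat_lit 0) (XT.nd (nat_lit 94) (nat_lit 0) (nat_lit 0) (XT.lf (nat_lit 0) (nat_lit 9676611645) (nat_lit 0) (nat_lit 0) (nat_lit 0) (nat_lit 0) (nat_lit 0) (nat_lit 0) (nat_lit 1) (nat_lit 0) (nat_lit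 1) (nat_lit 0) (nat_lit 269) (nat_lit 285) (nat_lit 166)) (XT.lf (nat_lit 0) (nat_lit 9675229121) (nat_lit 0) (nat_lit 0) (nat_lit 0) (nat_lit 0) (nat_lit 0) (nat_lit 0) (nat_lit 1) (nat_lit 0) (nat_lit 1) (nat_lit 0) (nat_lit 270) (nat_lit 285) (nat_lit 165))) (XT.nd (nat_lit 94) (nat_lit 0) (nat_lit 0) (XT.lf (nat_lit 0) (nat_lit 9673912432) (nat_lit 0) (nat_lit 0) (nat_lit 0) (nat_lit 0) (nat_lit 0) (nat_lit 0) (nat_lit 1) (nat_lit 0) (nat_lit 1) (nat_lit 0) (nat_lit 271) (nat_lit 285) (nat_lit 164)) (XT.lf (nat_lit 0) (nat_lit 9672658443) (nat_lit 0) (nat_lit 0) (nat_lit 0) (nat_lit 0) (nat_lit 0) (nat_lit 0) (nat_lit 1) (nat_lit 0) (nat_lit 1) (nat_lit 0) (nat_lit 272) (nat_lit 285) (nat_lit 163)))))) (XT.nd (nat_lit 658) (nat_lit 0) (nat_lit 0) (XT.nd (nat_lit 282) (nat_lit 0) (nat_lit 0) (XT.nd (nat_lit 94) (nat_lit 0) (nat_lit 0) (XT.lf (nat_lit 0) (nat_lit 9671464168)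 (nat_lit 0) (nat_lit 0) (nat_lit 0) (nat_lit 0) (nat_lit 0) (nat_lit 0) (nat_lit 1) (nat_lit 0) (nat_lit 1) (nat_lit 0) (nat_lit 273) (nat_lit 285) (nat_lit 162)) (XT.nd (nat_lit 94) (nat_lit 0) (nat_lit 0) (XT.lf (nat_lit 0) (nat_lit 9670326762) (nat_lit 0) (nat_lit 0) (nat_lit 0) (nat_lit 0) (nat_lit 0) (nat_lit 0) (nat_lit 1) (nat_lit 0) (nat_lit 1) (nat_lit 0) (nat_lit 274) (nat_lit 285) (nat_lit 161)) (XT.lf (nat_lit 0) (nat_lit 9669243519) (nat_lit 0) (nat_lit 0) (nat_lit 0) (nat_lit 0) (nat_lit 0) (nat_lit 0) (nat_lit 1) (nat_lit 0) (nat_lit 1) (nat_lit 0) (nat_lit 275) (nat_lit 285) (nat_lit 160)))) (XT.nd (nat_lit 188) (nat_lit 0) (nat_lit 0) (XT.nd (nat_lit 94) (nat_lit 0) (nat_lit 0) (XT.lf (nat_lit 0) (nat_lit 9668211859) (nat_lit 0) (nat_lit 0) (nat_lit 0) (nat_lit 0) (nat_lit 0) (nat_lit 0) (nat_lit 1) (nat_lit 0) (nat_lit 1) (nat_lit 0) (nat_lit 276) (nat_lit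 285) (nat_lit 159)) (XT.lf (nat_lit 0) (nat_lit 9667229326) (nat_lit 0) (nat_lit 0) (nat_lit 0) (nat_lit 0) (nat_lit 0) (nat_lit 0) (nat_lit 1) (nat_lit 0) (nat_lit 1) (nat_lit 0) (nat_lit 277) (nat_lit 285) (nat_lit 158))) (XT.nd (nat_lit 94) (nat_lit 0) (nat_lit 0) (XT.lf (nat_lit 0) (nat_lit 9666293579) (nat_lit 0) (nat_lit 0) (nat_lit 0) (nat_lit 0) (nat_lit 0) (nat_lit 0) (nat_lit 1) (nat_lit 0) (nat_lit 1) (nat_lit 0) (nat_lit 278) (nat_lit 285) (nat_lit 157)) (XT.lf (nat_lit 0) (nat_lit 9665402393) (nat_lit 0) (nat_lit 0) (nat_lit 0) (nat_lit 0) (nat_lit 0) (nat_lit 0) (nat_lit 1) (nat_lit 0) (nat_lit 1) (nat_lit 0) (nat_lit 279) (nat_lit 285) (nat_lit 156))))) (XT.nd (nat_lit 282) (nat_lit 0) (nat_lit 0) (XT.nd (nat_lit 94) (nat_lit 0) (nat_lit 0) (XT.lf (nat_lit 0) (nat_lit 9664553643) (nat_lit 0) (nat_lit 0) (nat_lit 0) (nat_lit 0) (nat_lit 0) (nat_lit 0) (nat_lit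 1) (nat_lit 0) (nat_lit 1) (nat_lit 0) (nat_lit 280) (nat_lit 285) (nat_lit 155)) (XT.nd (nat_lit 94) (nat_lit 0) (nat_lit 0) (XT.lf (nat_lit 0) (nat_lit 9663745310) (nat_lit 0) (nat_lit 0) (nat_lit 0) (nat_lit 0) (nat_lit 0) (nat_lit 0) (nat_lit 1) (nat_lit 0) (nat_lit 1) (nat_lit 0) (nat_lit 281) (nat_lit 285) (nat_lit 154)) (XT.lf (nat_lit 0) (nat_lit 9662975470) (nat_lit 0) (nat_lit 0) (nat_lit 0) (nat_lit 0) (nat_lit 0) (nat_lit 0) (nat_lit 1) (nat_lit 0) (nat_lit 1) (nat_lit 0) (nat_lit 282) (nat_lit 285) (nat_lit 153)))) (XT.nd (nat_lit 188) (nat_lit 0) (nat_lit 0) (XT.nd (nat_lit 94) (nat_lit 0) (nat_lit 0) (XT.lf (nat_lit 0) (nat_lit 9662242288) (nat_lit 0) (nat_lit 0) (nat_lit 0) (nat_lit 0) (nat_lit 0) (nat_lit 0) (nat_lit 1) (nat_lit 0) (nat_lit 1) (nat_lit 0) (nat_lit 283) (nat_lit 285) (nat_lit 152)) (XT.lf (nat_lit 0) (nat_lit 9661544020) (nat_lit 0) (nat_lit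 0) (nat_lit 0) (nat_lit 0) (nat_lit 0) (nat_lit 0) (nat_lit 1) (nat_lit 0) (nat_lit 1) (nat_lit 0) (nat_lit 284) (nat_lit 285) (nat_lit 151))) (XT.nd (nat_lit 94) (nat_lit 0) (nat_lit 0) (XT.lf (nat_lit 0) (nat_lit 9660879003) (nat_lit 0) (nat_lit 0) (nat_lit 0) (nat_lit 0) (nat_lit 0) (nat_lit 0) (nat_lit 1) (nat_lit 0) (nat_lit 1) (nat_lit 0) (nat_lit 285) (nat_lit 285) (nat_lit 150)) (XT.lf (nat_lit 0) (nat_lit 9660245653) (nat_lit 0) (nat_lit 0) (nat_lit 0) (nat_lit 0) (nat_lit 0) (nat_lit 0) (nat_lit 1) (nat_lit 0) (nat_lit 1) (nat_lit 0) (nat_lit 286) (nat_lit 285) (nat_lit 149))))))))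
noncomputable def ec133 : XT := (XT.nd (nat_lit 32336) (nat_lit 0) (nat_lit 6552) (XT.nd (nat_lit 1222) (nat_lit 0) (nat_lit 0) (XT.nd (nat_lit 564) (nat_lit 0) (nat_lit 0) (XT.nd (nat_lit 282) (nat_lit 0) (nat_lit 0) (XT.nd (nat_lit 94) (nat_lit 0) (nat_lit 0) (XT.lf (nat_lit 0) (nat_lit 9659642463) (nat_lit 0) (nat_lit 0) (nat_lit 0) (nat_lit 0) (nat_lit 0) (nat_lit 0) (nat_lit 1) (nat_lit 0) (nat_lit 1) (nat_lit 0) (nat_lit 287) (nat_lit 285) (nat_lit 148)) (XT.nd (nat_lit 94) (nat_lit 0) (nat_lit 0) (XT.lf (nat_lit 0) (nat_lit 9659067996) (nat_lit 0) (nat_lit 0) (nat_lit 0) (nat_lit 0) (nat_lit 0) (nat_lit 0) (nat_lit 1) (nat_lit 0) (nat_lit 1) (nat_lit 0) (nat_lit 288) (nat_lit 285) (nat_lit 147)) (XT.lf (nat_lit 0) (nat_lit 9658520884) (nat_lit 0) (nat_lit 0) (nat_lit 0) (nat_lit 0) (nat_lit 0) (nat_lit 0) (nat_lit 1) (nat_lit 0) (nat_lit 1) (nat_lit 0) (nat_lit 289)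 (nat_lit 285) (nat_lit 146)))) (XT.nd (nat_lit 94) (nat_lit 0) (nat_lit 0) (XT.lf (nat_lit 0) (nat_lit 9657999826) (nat_lit 0) (nat_lit 0) (nat_lit 0) (nat_lit 0) (nat_lit 0) (nat_lit 0) (nat_lit 1) (nat_lit 0) (nat_lit 1) (nat_lit 0) (nat_lit 290) (nat_lit 285) (nat_lit 145)) (XT.nd (nat_lit 94) (nat_lit 0) (nat_lit 0) (XT.lf (nat_lit 0) (nat_lit 9657503580) (nat_lit 0) (nat_lit 0) (nat_lit 0) (nat_lit 0) (nat_lit 0) (nat_lit 0) (nat_lit 1) (nat_lit 0) (nat_lit 1) (nat_lit 0) (nat_lit 291) (nat_lit 285) (nat_lit 144)) (XT.lf (nat_lit 0) (nat_lit 9657030964) (nat_lit 0) (nat_lit 0) (nat_lit 0) (nat_lit 0) (nat_lit 0) (nat_lit 0) (nat_lit 1) (nat_lit 0) (nat_lit 1) (nat_lit 0) (nat_lit 292) (nat_lit 285) (nat_lit 143))))) (XT.nd (nat_lit 282) (nat_lit 0) (nat_lit 0) (XT.nd (nat_lit 94) (nat_lit 0) (nat_lit 0) (XT.lf (nat_lit 0) (nat_lit 9656580854) (nat_lit 0) (nat_lit 0)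 (nat_lit 0) (nat_lit 0) (nat_lit 0) (nat_lit 0) (nat_lit 1) (nat_lit 0) (nat_lit 1) (nat_lit 0) (nat_lit 293) (nat_lit 285) (nat_lit 142)) (XT.nd (nat_lit 94) (nat_lit 0) (nat_lit 0) (XT.lf (nat_lit 0) (nat_lit 9656152178) (nat_lit 0) (nat_lit 0) (nat_lit 0) (nat_lit 0) (nat_lit 0) (nat_lit 0) (nat_lit 1) (nat_lit 0) (nat_lit 1) (nat_lit 0) (nat_lit 294) (nat_lit 285) (nat_lit 141)) (XT.lf (nat_lit 0) (nat_lit 9655743915) (nat_lit 0) (nat_lit 0) (nat_lit 0) (nat_lit 0) (nat_lit 0) (nat_lit 0) (nat_lit 1) (nat_lit 0) (nat_lit 1) (nat_lit 0) (nat_lit 295) (nat_lit 285) (nat_lit 140)))) (XT.nd (nat_lit 188) (nat_lit 0) (nat_lit 0) (XT.nd (nat_lit 94) (nat_lit 0) (nat_lit 0) (XT.lf (nat_lit 0) (nat_lit 9655355093) (nat_lit 0) (nat_lit 0) (nat_lit 0) (nat_lit 0) (nat_lit 0) (nat_lit 0) (nat_lit 1) (nat_lit 0) (nat_lit 1) (nat_lit 0) (nat_lit 296) (nat_lit 285) (nat_lit 139))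 (XT.lf (nat_lit 0) (nat_lit 9654984787) (nat_lit 0) (nat_lit 0) (nat_lit 0) (nat_lit 0) (nat_lit 0) (nat_lit 0) (nat_lit 1) (nat_lit 0) (nat_lit 1) (nat_lit 0) (nat_lit 297) (nat_lit 285) (nat_lit 138))) (XT.nd (nat_lit 94) (nat_lit 0) (nat_lit 0) (XT.lf (nat_lit 0) (nat_lit 9654632114) (nat_lit 0) (nat_lit 0) (nat_lit 0) (nat_lit 0) (nat_lit 0) (nat_lit 0) (nat_lit 1) (nat_lit 0) (nat_lit 1) (nat_lit 0) (nat_lit 298) (nat_lit 285) (nat_lit 137)) (XT.lf (nat_lit 0) (nat_lit 9654296235) (nat_lit 0) (nat_lit 0) (nat_lit 0) (nat_lit 0) (nat_lit 0) (nat_lit 0) (nat_lit 1) (nat_lit 0) (nat_lit 1) (nat_lit 0) (nat_lit 299) (nat_lit 285) (nat_lit 136)))))) (XT.nd (nat_lit 658) (nat_lit 0) (nat_lit 0) (XT.nd (nat_lit 282) (nat_lit 0) (nat_lit 0) (XT.nd (nat_lit 94) (nat_lit 0) (nat_lit 0) (XT.lf (nat_lit 0) (nat_lit 9653976350) (nat_lit 0) (nat_lit 0) (nat_lit 0) (nat_lit 0) (nat_lit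 0) (nat_lit 0) (nat_lit 1) (nat_lit 0) (nat_lit 1) (nat_lit 0) (nat_lit 300) (nat_lit 285) (nat_lit 135)) (XT.nd (nat_lit 94) (nat_lit 0) (nat_lit 0) (XT.lf (nat_lit 0) (nat_lit 9653671698) (nat_lit 0) (nat_lit 0) (nat_lit 0) (nat_lit 0) (nat_lit 0) (nat_lit 0) (nat_lit 1) (nat_lit 0) (nat_lit 1) (nat_lit 0) (nat_lit 301) (nat_lit 285) (nat_lit 134)) (XT.lf (nat_lit 0) (nat_lit 9653381553) (nat_lit 0) (nat_lit 0) (nat_lit 0) (nat_lit 0) (nat_lit 0) (nat_lit 0) (nat_lit 1) (nat_lit 0) (nat_lit 1) (nat_lit 0) (nat_lit 302) (nat_lit 285) (nat_lit 133)))) (XT.nd (nat_lit 188) (nat_lit 0) (nat_lit 0) (XT.nd (nat_lit 94) (nat_lit 0) (nat_lit 0) (XT.lf (nat_lit 0) (nat_lit 9653105225) (nat_lit 0) (nat_lit 0) (nat_lit 0) (nat_lit 0) (nat_lit 0) (nat_lit 0) (nat_lit 1) (nat_lit 0) (nat_lit 1) (nat_lit 0) (nat_lit 303) (nat_lit 285) (nat_lit 132)) (XT.lf (nat_lit 0) (nat_lit 9652842055)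 (nat_lit 0) (nat_lit 0) (nat_lit 0) (nat_lit 0) (nat_lit 0) (nat_lit 0) (nat_lit 1) (nat_lit 0) (nat_lit 1) (nat_lit 0) (nat_lit 304) (nat_lit 285) (nat_lit 131))) (XT.nd (nat_lit 94) (nat_lit 0) (nat_lit 0) (XT.lf (nat_lit 0) (nat_lit 9652591417) (nat_lit 0) (nat_lit 0) (nat_lit 0) (nat_lit 0) (nat_lit 0) (nat_lit 0) (nat_lit 1) (nat_lit 0) (nat_lit 1) (nat_lit 0) (nat_lit 305) (nat_lit 285) (nat_lit 130)) (XT.lf (nat_lit 0) (nat_lit 9652352714) (nat_lit 0) (nat_lit 0) (nat_lit 0) (nat_lit 0) (nat_lit 0) (nat_lit 0) (nat_lit 1) (nat_lit 0) (nat_lit 1) (nat_lit 0) (nat_lit 306) (nat_lit 285) (nat_lit 129))))) (XT.nd (nat_lit 282) (nat_lit 0) (nat_lit 0) (XT.nd (nat_lit 94) (nat_lit 0) (nat_lit 0) (XT.lf (nat_lit 0) (nat_lit 9652125378) (nat_lit 0) (nat_lit 0) (nat_lit 0) (nat_lit 0) (nat_lit 0) (nat_lit 0) (nat_lit 1) (nat_lit 0) (nat_lit 1) (nat_lit 0) (nat_lit 307) (nat_lit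 285) (nat_lit 128)) (XT.nd (nat_lit 94) (nat_lit 0) (nat_lit 0) (XT.lf (nat_lit 0) (nat_lit 9651908867) (nat_lit 0) (nat_lit 0) (nat_lit 0) (nat_lit 0) (nat_lit 0) (nat_lit 0) (nat_lit 1) (nat_lit 0) (nat_lit 1) (nat_lit 0) (nat_lit 308) (nat_lit 285) (nat_lit 127)) (XT.lf (nat_lit 0) (nat_lit 9651702667) (nat_lit 0) (nat_lit 0) (nat_lit 0) (nat_lit 0) (nat_lit 0) (nat_lit 0) (nat_lit 1) (nat_lit 0) (nat_lit 1) (nat_lit 0) (nat_lit 309) (nat_lit 285) (nat_lit 126)))) (XT.nd (nat_lit 29986) (nat_lit 0) (nat_lit 10752) (XT.nd (nat_lit 94) (nat_lit 0) (nat_lit 0) (XT.lf (nat_lit 0) (nat_lit 9651506285) (nat_lit 0) (nat_lit 0) (nat_lit 0) (nat_lit 0) (nat_lit 0) (nat_lit 0) (nat_lit 1) (nat_lit 0) (nat_lit 1) (nat_lit 0) (nat_lit 310) (nat_lit 285) (nat_lit 125)) (XT.lf (nat_lit 0) (nat_lit 9651319255) (nat_lit 0) (nat_lit 0) (nat_lit 0) (nat_lit 0) (nat_lit 0) (nat_lit 0) (nat_lit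 1) (nat_lit 0) (nat_lit 1) (nat_lit 0) (nat_lit 311) (nat_lit 285) (nat_lit 124))) (XT.nd (nat_lit 94) (nat_lit 0) (nat_lit 0) (XT.lf (nat_lit 924) (nat_lit 5069410221) (nat_lit 0) (nat_lit 9000726196) (nat_lit 924) (nat_lit 5069410221) (nat_lit 139) (nat_lit 1) (nat_lit 128) (nat_lit 0) (nat_lit 139) (nat_lit 0) (nat_lit 148) (nat_lit 286) (nat_lit 286)) (XT.lf (nat_lit 924) (nat_lit 19649666910) (nat_lit 84) (nat_lit 8855553193) (nat_lit 0) (nat_lit 8855553193) (nat_lit 139) (nat_lit 1) (nat_lit 129) (nat_lit 1) (nat_lit 128) (nat_lit 0) (nat_lit 149) (nat_lit 286) (nat_lit 285))))))) (XT.nd (nat_lit 1316) (nat_lit 2772) (nat_lit 0) (XT.nd (nat_lit 658) (nat_lit 1512) (nat_lit 0) (XT.nd (nat_lit 282) (nat_lit 0) (nat_lit 84) (XT.nd (nat_lit 94) (nat_lit 0) (nat_lit 0) (XT.lf (nat_lit 924) (nat_lit 9364735384) (nat_lit 0) (nat_lit 17741372748) (nat_lit 840) (nat_lit 9364735384)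 (nat_lit 140) (nat_lit 1) (nat_lit 129) (nat_lit 1) (nat_lit 139) (nat_lit 1) (nat_lit 150) (nat_lit 286) (nat_lit 284)) (XT.nd (nat_lit 94) (nat_lit 0) (nat_lit 84) (XT.lf (nat_lit 924) (nat_lit 17566942318) (nat_lit 84) (nat_lit 9021361391) (nat_lit 0) (nat_lit 9021361391) (nat_lit 140) (nat_lit 1) (nat_lit 130) (nat_lit 1) (nat_lit 129) (nat_lit 1) (nat_lit 151) (nat_lit 286) (nat_lit 283)) (XT.lf (nat_lit 924) (nat_lit 8085894852) (nat_lit 0) (nat_lit 18603992016) (nat_lit 840) (nat_lit 8085894852) (nat_lit 141) (nat_lit 1) (nat_lit 130) (nat_lit 1) (nat_lit 140) (nat_lit 1) (nat_lit 152) (nat_lit 286) (nat_lit 282)))) (XT.nd (nat_lit 188) (nat_lit 0) (nat_lit 84) (XT.nd (nat_lit 94) (nat_lit 0) (nat_lit 84) (XT.lf (nat_lit 924) (nat_lit 14543008542) (nat_lit 84) (nat_lit 9712154875) (nat_lit 0) (nat_lit 9712154875) (nat_lit 141) (nat_lit 1) (nat_lit 131) (nat_lit 1)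 (nat_lit 130) (nat_lit 1) (nat_lit 153) (nat_lit 286) (nat_lit 281)) (XT.lf (nat_lit 924) (nat_lit 6376689205) (nat_lit 0) (nat_lit 20432621855) (nat_lit 840) (nat_lit 6376689205) (nat_lit 142) (nat_lit 1) (nat_lit 131) (nat_lit 1) (nat_lit 141) (nat_lit 1) (nat_lit 154) (nat_lit 286) (nat_lit 280))) (XT.nd (nat_lit 94) (nat_lit 0) (nat_lit 84) (XT.lf (nat_lit 924) (nat_lit 10719410346) (nat_lit 84) (nat_lit 10853392128) (nat_lit 0) (nat_lit 10853392128) (nat_lit 142) (nat_lit 1) (nat_lit 132) (nat_lit 1) (nat_lit 131) (nat_lit 1) (nat_lit 155) (nat_lit 286) (nat_lit 279)) (XT.lf (nat_lit 924) (nat_lit 4303284932) (nat_lit 0) (nat_lit 23087632296) (nat_lit 840) (nat_lit 4303284932) (nat_lit 143) (nat_lit 1) (nat_lit 132) (nat_lit 1) (nat_lit 142) (nat_lit 1) (nat_lit 156) (nat_lit 286) (nat_lit 278))))) (XT.nd (nat_lit 282) (nat_lit 1008) (nat_lit 0) (XT.nd (nat_lit 94)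 (nat_lit 756) (nat_lit 0) (XT.lf (nat_lit 924) (nat_lit 6221959668) (nat_lit 84) (nat_lit 12378687197) (nat_lit 0) (nat_lit 12378687197) (nat_lit 143) (nat_lit 1) (nat_lit 133) (nat_lit 1) (nat_lit 132) (nat_lit 1) (nat_lit 157) (nat_lit 286) (nat_lit 277)) (XT.nd (nat_lit 94) (nat_lit 840) (nat_lit 0) (XT.lf (nat_lit 84) (nat_lit 1924451499) (nat_lit 0) (nat_lit 26444747194) (nat_lit 840) (nat_lit 1924451499) (nat_lit 134) (nat_lit 1) (nat_lit 133) (nat_lit 1) (nat_lit 143) (nat_lit 1) (nat_lit 158) (nat_lit 286) (nat_lit 276)) (XT.lf (nat_lit 924) (nat_lit 1162320848) (nat_lit 0) (nat_lit 14228993110) (nat_lit 840) (nat_lit 14228993110) (nat_lit 134) (nat_lit 1) (nat_lit 123) (nat_lit 1) (nat_lit 133) (nat_lit 1) (nat_lit 159) (nat_lit 286) (nat_lit 275)))) (XT.nd (nat_lit 188) (nat_lit 420) (nat_lit 0) (XT.nd (nat_lit 94) (nat_lit 0) (nat_lit 0) (XT.lf (nat_lit 588) (nat_lit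 27583337533) (nat_lit 0) (nat_lit 696277248) (nat_lit 504) (nat_lit 696277248) (nat_lit 123) (nat_lit 1) (nat_lit 116) (nat_lit 1) (nat_lit 122) (nat_lit 1) (nat_lit 160) (nat_lit 286) (nat_lit 274)) (XT.lf (nat_lit 84) (nat_lit 12059387162) (nat_lit 0) (nat_lit 4220992287) (nat_lit 588) (nat_lit 12059387162) (nat_lit 117) (nat_lit 1) (nat_lit 116) (nat_lit 1) (nat_lit 123) (nat_lit 1) (nat_lit 161) (nat_lit 286) (nat_lit 273))) (XT.nd (nat_lit 94) (nat_lit 0) (nat_lit 0) (XT.lf (nat_lit 504) (nat_lit 20751109796) (nat_lit 0) (nat_lit 3489790577) (nat_lit 420) (nat_lit 3489790577) (nat_lit 117) (nat_lit 1) (nat_lit 111) (nat_lit 1) (nat_lit 116) (nat_lit 1) (nat_lit 162) (nat_lit 286) (nat_lit 272)) (XT.lf (nat_lit 84) (nat_lit 8601814058) (nat_lit 0) (nat_lit 9930791627) (nat_lit 504) (nat_lit 8601814058) (nat_lit 112) (nat_lit 1) (nat_lit 111) (nat_lit 1) (nat_lit 117)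 (nat_lit 1) (nat_lit 163) (nat_lit 286) (nat_lit 271)))))) (XT.nd (nat_lit 658) (nat_lit 1260) (nat_lit 0) (XT.nd (nat_lit 282) (nat_lit 756) (nat_lit 0) (XT.nd (nat_lit 94) (nat_lit 336) (nat_lit 0) (XT.lf (nat_lit 504) (nat_lit 13664900078) (nat_lit 0) (nat_lit 6447007495) (nat_lit 420) (nat_lit 6447007495) (nat_lit 112) (nat_lit 1) (nat_lit 106) (nat_lit 1) (nat_lit 111) (nat_lit 1) (nat_lit 164) (nat_lit 286) (nat_lit 270)) (XT.nd (nat_lit 94) (nat_lit 336) (nat_lit 0) (XT.lf (nat_lit 84) (nat_lit 5035334071) (nat_lit 0) (nat_lit 15929479865) (nat_lit 504) (nat_lit 5035334071) (nat_lit 107) (nat_lit 1) (nat_lit 106) (nat_lit 1) (nat_lit 112) (nat_lit 1) (nat_lit 165) (nat_lit 286) (nat_lit 269)) (XT.lf (nat_lit 420) (nat_lit 6390663015) (nat_lit 0) (nat_lit 9532545632) (nat_lit 336) (nat_lit 9532545632) (nat_lit 107) (nat_lit 1) (nat_lit 102) (nat_lit 1) (nat_lit 106)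 (nat_lit 1) (nat_lit 166) (nat_lit 286) (nat_lit 268)))) (XT.nd (nat_lit 188) (nat_lit 336) (nat_lit 0) (XT.nd (nat_lit 94) (nat_lit 420) (nat_lit 0) (XT.lf (nat_lit 84) (nat_lit 1390565629) (nat_lit 0) (nat_lit 22151163994) (nat_lit 420) (nat_lit 1390565629) (nat_lit 103) (nat_lit 1) (nat_lit 102) (nat_lit 1) (nat_lit 107) (nat_lit 1) (nat_lit 167) (nat_lit 286) (nat_lit 267)) (XT.lf (nat_lit 84) (nat_lit 11717305576) (nat_lit 0) (nat_lit 981347103) (nat_lit 420) (nat_lit 11717305576) (nat_lit 98) (nat_lit 1) (nat_lit 97) (nat_lit 1) (nat_lit 102) (nat_lit 1) (nat_lit 168) (nat_lit 286) (nat_lit 266))) (XT.nd (nat_lit 94) (nat_lit 0) (nat_lit 0) (XT.lf (nat_lit 420) (nat_lit 19382271262) (nat_lit 0) (nat_lit 2268506687) (nat_lit 336) (nat_lit 2268506687) (nat_lit 98) (nat_lit 1) (nat_lit 93) (nat_lit 1) (nat_lit 97) (nat_lit 1) (nat_lit 169) (nat_lit 286) (nat_lit 265))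 (XT.lf (nat_lit 84) (nat_lit 7602578892) (nat_lit 0) (nat_lit 8225973779) (nat_lit 420) (nat_lit 7602578892) (nat_lit 94) (nat_lit 1) (nat_lit 93) (nat_lit 1) (nat_lit 98) (nat_lit 1) (nat_lit 170) (nat_lit 286) (nat_lit 264))))) (XT.nd (nat_lit 282) (nat_lit 672) (nat_lit 0) (XT.nd (nat_lit 94) (nat_lit 252) (nat_lit 0) (XT.lf (nat_lit 420) (nat_lit 11094277477) (nat_lit 0) (nat_lit 5932814223) (nat_lit 336) (nat_lit 5932814223) (nat_lit 94) (nat_lit 1) (nat_lit 89) (nat_lit 1) (nat_lit 93) (nat_lit 1) (nat_lit 171) (nat_lit 286) (nat_lit 263)) (XT.nd (nat_lit 94) (nat_lit 252) (nat_lit 0) (XT.lf (nat_lit 84) (nat_lit 3498639987) (nat_lit 0) (nat_lit 15505178988) (nat_lit 420) (nat_lit 3498639987) (nat_lit 90) (nat_lit 1) (nat_lit 89) (nat_lit 1) (nat_lit 94) (nat_lit 1) (nat_lit 172) (nat_lit 286) (nat_lit 262)) (XT.lf (nat_lit 336) (nat_lit 2845294057) (nat_lit 0) (nat_lit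 9604796195) (nat_lit 252) (nat_lit 9604796195) (nat_lit 90) (nat_lit 1) (nat_lit 86) (nat_lit 1) (nat_lit 89) (nat_lit 1) (nat_lit 173) (nat_lit 286) (nat_lit 261)))) (XT.nd (nat_lit 188) (nat_lit 252) (nat_lit 0) (XT.nd (nat_lit 94) (nat_lit 0) (nat_lit 0) (XT.lf (nat_lit 420) (nat_lit 20487602895) (nat_lit 0) (nat_lit 568491668) (nat_lit 336) (nat_lit 568491668) (nat_lit 86) (nat_lit 1) (nat_lit 81) (nat_lit 1) (nat_lit 85) (nat_lit 1) (nat_lit 174) (nat_lit 286) (nat_lit 260)) (XT.lf (nat_lit 84) (nat_lit 8016950475) (nat_lit 0) (nat_lit 5162766727) (nat_lit 420) (nat_lit 8016950475) (nat_lit 82) (nat_lit 1) (nat_lit 81) (nat_lit 1) (nat_lit 86) (nat_lit 1) (nat_lit 175) (nat_lit 286) (nat_lit 259))) (XT.nd (nat_lit 94) (nat_lit 0) (nat_lit 0) (XT.lf (nat_lit 336) (nat_lit 11709009619) (nat_lit 0) (nat_lit 4538075659) (nat_lit 252) (nat_lit 4538075659) (nat_lit 82) (nat_lit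 1) (nat_lit 78) (nat_lit 1) (nat_lit 81) (nat_lit 1) (nat_lit 176) (nat_lit 286) (nat_lit 258)) (XT.lf (nat_lit 84) (nat_lit 3699057258) (nat_lit 0) (nat_lit 12985994716) (nat_lit 336) (nat_lit 3699057258) (nat_lit 79) (nat_lit 1) (nat_lit 78) (nat_lit 1) (nat_lit 82) (nat_lit 1) (nat_lit 177) (nat_lit 286) (nat_lit 257))))))))
noncomputable def ec134 : XT := (XT.nd (nat_lit 2538) (nat_lit 2352) (nat_lit 0) (XT.nd (nat_lit 1222) (nat_lit 1596) (nat_lit 0) (XT.nd (nat_lit 564) (nat_lit 924) (nat_lit 0) (XT.nd (nat_lit 282) (nat_lit 420) (nat_lit 0) (XT.nd (nat_lit 94) (nat_lit 336) (nat_lit 0) (XT.lf (nat_lit 336) (nat_lit 3083048606) (nat_lit 0) (nat_lit 8454566370) (nat_lit 252) (nat_lit 8454566370) (nat_lit 79) (nat_lit 1) (nat_lit 75) (nat_lit 1) (nat_lit 78) (nat_lit 1) (nat_lit 178) (nat_lit 286) (nat_lit 256)) (XT.nd (nat_lit 94) (nat_lit 0) (nat_lit 0) (XT.lf (nat_lit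 336) (nat_lit 18555106579) (nat_lit 0) (nat_lit 529853750) (nat_lit 252) (nat_lit 529853750) (nat_lit 75) (nat_lit 1) (nat_lit 71) (nat_lit 1) (nat_lit 74) (nat_lit 1) (nat_lit 179) (nat_lit 286) (nat_lit 255)) (XT.lf (nat_lit 84) (nat_lit 7018865434) (nat_lit 0) (nat_lit 5200908809) (nat_lit 336) (nat_lit 7018865434) (nat_lit 72) (nat_lit 1) (nat_lit 71) (nat_lit 1) (nat_lit 75) (nat_lit 1) (nat_lit 180) (nat_lit 286) (nat_lit 254)))) (XT.nd (nat_lit 94) (nat_lit 168) (nat_lit 0) (XT.lf (nat_lit 336) (nat_lit 9651582660) (nat_lit 0) (nat_lit 4612400563) (nat_lit 252) (nat_lit 4612400563) (nat_lit 72) (nat_lit 1) (nat_lit 68) (nat_lit 1) (nat_lit 71) (nat_lit 1) (nat_lit 181) (nat_lit 286) (nat_lit 253)) (XT.nd (nat_lit 94) (nat_lit 168) (nat_lit 0) (XT.lf (nat_lit 84) (nat_lit 2658037993) (nat_lit 0) (nat_lit 13207767779) (nat_lit 336) (nat_lit 2658037993) (nat_lit 69)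 (nat_lit 1) (nat_lit 68) (nat_lit 1) (nat_lit 72) (nat_lit 1) (nat_lit 182) (nat_lit 286) (nat_lit 252)) (XT.lf (nat_lit 252) (nat_lit 973993498) (nat_lit 0) (nat_lit 8601976825) (nat_lit 168) (nat_lit 8601976825) (nat_lit 69) (nat_lit 1) (nat_lit 66) (nat_lit 1) (nat_lit 68) (nat_lit 1) (nat_lit 183) (nat_lit 286) (nat_lit 251))))) (XT.nd (nat_lit 282) (nat_lit 420) (nat_lit 0) (XT.nd (nat_lit 94) (nat_lit 168) (nat_lit 0) (XT.lf (nat_lit 336) (nat_lit 14716715170) (nat_lit 0) (nat_lit 1563021822) (nat_lit 252) (nat_lit 1563021822) (nat_lit 66) (nat_lit 1) (nat_lit 62) (nat_lit 1) (nat_lit 65) (nat_lit 1) (nat_lit 184) (nat_lit 286) (nat_lit 250)) (XT.nd (nat_lit 94) (nat_lit 168) (nat_lit 0) (XT.lf (nat_lit 84) (nat_lit 5140199276) (nat_lit 0) (nat_lit 7230920689) (nat_lit 336) (nat_lit 5140199276) (nat_lit 63) (nat_lit 1) (nat_lit 62) (nat_lit 1) (nat_lit 66) (nat_lit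 1) (nat_lit 185) (nat_lit 286) (nat_lit 249)) (XT.lf (nat_lit 252) (nat_lit 5938707354) (nat_lit 0) (nat_lit 5625700723) (nat_lit 168) (nat_lit 5625700723) (nat_lit 63) (nat_lit 1) (nat_lit 60) (nat_lit 1) (nat_lit 62) (nat_lit 1) (nat_lit 186) (nat_lit 286) (nat_lit 248)))) (XT.nd (nat_lit 188) (nat_lit 168) (nat_lit 0) (XT.nd (nat_lit 94) (nat_lit 252) (nat_lit 0) (XT.lf (nat_lit 84) (nat_lit 853203748) (nat_lit 0) (nat_lit 15173150606) (nat_lit 252) (nat_lit 853203748) (nat_lit 61) (nat_lit 1) (nat_lit 60) (nat_lit 1) (nat_lit 63) (nat_lit 1) (nat_lit 187) (nat_lit 286) (nat_lit 247)) (XT.lf (nat_lit 84) (nat_lit 7041640228) (nat_lit 0) (nat_lit 2486855822) (nat_lit 252) (nat_lit 7041640228) (nat_lit 58) (nat_lit 1) (nat_lit 57) (nat_lit 1) (nat_lit 60) (nat_lit 1) (nat_lit 188) (nat_lit 286) (nat_lit 246))) (XT.nd (nat_lit 94) (nat_lit 0) (nat_lit 0) (XT.lf (nat_lit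 252) (nat_lit 9778551611) (nat_lit 0) (nat_lit 3246214194) (nat_lit 168) (nat_lit 3246214194) (nat_lit 58) (nat_lit 1) (nat_lit 55) (nat_lit 1) (nat_lit 57) (nat_lit 1) (nat_lit 189) (nat_lit 286) (nat_lit 245)) (XT.lf (nat_lit 84) (nat_lit 2759252864) (nat_lit 0) (nat_lit 10459930001) (nat_lit 252) (nat_lit 2759252864) (nat_lit 56) (nat_lit 1) (nat_lit 55) (nat_lit 1) (nat_lit 58) (nat_lit 1) (nat_lit 190) (nat_lit 286) (nat_lit 244)))))) (XT.nd (nat_lit 658) (nat_lit 672) (nat_lit 0) (XT.nd (nat_lit 282) (nat_lit 504) (nat_lit 0) (XT.nd (nat_lit 94) (nat_lit 252) (nat_lit 0) (XT.lf (nat_lit 252) (nat_lit 1292610624) (nat_lit 0) (nat_lit 7199588886) (nat_lit 168) (nat_lit 7199588886) (nat_lit 56) (nat_lit 1) (nat_lit 53) (nat_lit 1) (nat_lit 55) (nat_lit 1) (nat_lit 191) (nat_lit 286) (nat_lit 243)) (XT.nd (nat_lit 94) (nat_lit 0) (nat_lit 0) (XT.lf (nat_lit 252) (nat_lit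 12704612300) (nat_lit 0) (nat_lit 1354417296) (nat_lit 168) (nat_lit 1354417296) (nat_lit 53) (nat_lit 1) (nat_lit 50) (nat_lit 1) (nat_lit 52) (nat_lit 1) (nat_lit 192) (nat_lit 286) (nat_lit 242)) (XT.lf (nat_lit 84) (nat_lit 4229396568) (nat_lit 0) (nat_lit 6678687866) (nat_lit 252) (nat_lit 4229396568) (nat_lit 51) (nat_lit 1) (nat_lit 50) (nat_lit 1) (nat_lit 53) (nat_lit 1) (nat_lit 193) (nat_lit 286) (nat_lit 241)))) (XT.nd (nat_lit 188) (nat_lit 336) (nat_lit 0) (XT.nd (nat_lit 94) (nat_lit 0) (nat_lit 0) (XT.lf (nat_lit 252) (nat_lit 4307435064) (nat_lit 0) (nat_lit 5281045859) (nat_lit 168) (nat_lit 5281045859) (nat_lit 51) (nat_lit 1) (nat_lit 48) (nat_lit 1) (nat_lit 50) (nat_lit 1) (nat_lit 194) (nat_lit 286) (nat_lit 240)) (XT.lf (nat_lit 84) (nat_lit 141573510) (nat_lit 0) (nat_lit 14327822713) (nat_lit 252) (nat_lit 141573510) (nat_lit 49) (nat_lit 1) (nat_lit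 48) (nat_lit 1) (nat_lit 51) (nat_lit 1) (nat_lit 195) (nat_lit 286) (nat_lit 239))) (XT.nd (nat_lit 94) (nat_lit 168) (nat_lit 0) (XT.lf (nat_lit 84) (nat_lit 5345584935) (nat_lit 0) (nat_lit 3659599292) (nat_lit 168) (nat_lit 5345584935) (nat_lit 47) (nat_lit 1) (nat_lit 46) (nat_lit 1) (nat_lit 48) (nat_lit 1) (nat_lit 196) (nat_lit 286) (nat_lit 238)) (XT.lf (nat_lit 252) (nat_lit 6633262350) (nat_lit 0) (nat_lit 3733230703) (nat_lit 168) (nat_lit 3733230703) (nat_lit 47) (nat_lit 1) (nat_lit 44) (nat_lit 1) (nat_lit 46) (nat_lit 1) (nat_lit 197) (nat_lit 286) (nat_lit 237))))) (XT.nd (nat_lit 282) (nat_lit 336) (nat_lit 0) (XT.nd (nat_lit 94) (nat_lit 336) (nat_lit 0) (XT.lf (nat_lit 84) (nat_lit 1329923257) (nat_lit 0) (nat_lit 11195608190) (nat_lit 252) (nat_lit 1329923257) (nat_lit 45) (nat_lit 1) (nat_lit 44) (nat_lit 1) (nat_lit 47) (nat_lit 1) (nat_lit 198) (nat_lit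 286) (nat_lit 236)) (XT.nd (nat_lit 94) (nat_lit 168) (nat_lit 0) (XT.lf (nat_lit 84) (nat_lit 6175016348) (nat_lit 0) (nat_lit 1263167352) (nat_lit 168) (nat_lit 6175016348) (nat_lit 43) (nat_lit 1) (nat_lit 42) (nat_lit 1) (nat_lit 44) (nat_lit 1) (nat_lit 199) (nat_lit 286) (nat_lit 235)) (XT.lf (nat_lit 252) (nat_lit 8399605981) (nat_lit 0) (nat_lit 2488958334) (nat_lit 168) (nat_lit 2488958334) (nat_lit 43) (nat_lit 1) (nat_lit 40) (nat_lit 1) (nat_lit 42) (nat_lit 1) (nat_lit 200) (nat_lit 286) (nat_lit 234)))) (XT.nd (nat_lit 188) (nat_lit 252) (nat_lit 0) (XT.nd (nat_lit 94) (nat_lit 84) (nat_lit 0) (XT.lf (nat_lit 84) (nat_lit 2249798182) (nat_lit 0) (nat_lit 8646914551) (nat_lit 252) (nat_lit 2249798182) (nat_lit 41) (nat_lit 1) (nat_lit 40) (nat_lit 1) (nat_lit 43) (nat_lit 1) (nat_lit 201) (nat_lit 286) (nat_lit 233)) (XT.lf (nat_lit 168) (nat_lit 645835128)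 (nat_lit 0) (nat_lit 6137011678) (nat_lit 84) (nat_lit 6137011678) (nat_lit 41) (nat_lit 1) (nat_lit 39) (nat_lit 1) (nat_lit 40) (nat_lit 1) (nat_lit 202) (nat_lit 286) (nat_lit 232))) (XT.nd (nat_lit 94) (nat_lit 0) (nat_lit 0) (XT.lf (nat_lit 252) (nat_lit 9712666753) (nat_lit 0) (nat_lit 1493024748) (nat_lit 168) (nat_lit 1493024748) (nat_lit 39) (nat_lit 1) (nat_lit 36) (nat_lit 1) (nat_lit 38) (nat_lit 1) (nat_lit 203) (nat_lit 286) (nat_lit 231)) (XT.lf (nat_lit 84) (nat_lit 2951549797) (nat_lit 0) (nat_lit 6576942749) (nat_lit 252) (nat_lit 2951549797) (nat_lit 37) (nat_lit 1) (nat_lit 36) (nat_lit 1) (nat_lit 39) (nat_lit 1) (nat_lit 204) (nat_lit 286) (nat_lit 230))))))) (XT.nd (nat_lit 1222) (nat_lit 1092) (nat_lit 0) (XT.nd (nat_lit 564) (nat_lit 588) (nat_lit 0) (XT.nd (nat_lit 282) (nat_lit 336) (nat_lit 0) (XT.nd (nat_lit 94) (nat_lit 252) (nat_lit 0) (XT.lf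 (nat_lit 168) (nat_lit 2168860674) (nat_lit 0) (nat_lit 5048934695) (nat_lit 84) (nat_lit 5048934695) (nat_lit 37) (nat_lit 1) (nat_lit 35) (nat_lit 1) (nat_lit 36) (nat_lit 1) (nat_lit 205) (nat_lit 286) (nat_lit 229)) (XT.nd (nat_lit 94) (nat_lit 0) (nat_lit 0) (XT.lf (nat_lit 252) (nat_lit 10659482712) (nat_lit 0) (nat_lit 700079505) (nat_lit 168) (nat_lit 700079505) (nat_lit 35) (nat_lit 1) (nat_lit 32) (nat_lit 1) (nat_lit 34) (nat_lit 1) (nat_lit 206) (nat_lit 286) (nat_lit 228)) (XT.lf (nat_lit 84) (nat_lit 3476471384) (nat_lit 0) (nat_lit 4899538266) (nat_lit 252) (nat_lit 3476471384) (nat_lit 33) (nat_lit 1) (nat_lit 32) (nat_lit 1) (nat_lit 35) (nat_lit 1) (nat_lit 207) (nat_lit 286) (nat_lit 227)))) (XT.nd (nat_lit 94) (nat_lit 252) (nat_lit 0) (XT.lf (nat_lit 168) (nat_lit 3343879916) (nat_lit 0) (nat_lit 4153771069) (nat_lit 84) (nat_lit 4153771069) (nat_lit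 33) (nat_lit 1) (nat_lit 31) (nat_lit 1) (nat_lit 32) (nat_lit 1) (nat_lit 208) (nat_lit 286) (nat_lit 226)) (XT.nd (nat_lit 94) (nat_lit 0) (nat_lit 0) (XT.lf (nat_lit 252) (nat_lit 11311342557) (nat_lit 0) (nat_lit 72875570) (nat_lit 168) (nat_lit 72875570) (nat_lit 31) (nat_lit 1) (nat_lit 28) (nat_lit 1) (nat_lit 30) (nat_lit 1) (nat_lit 209) (nat_lit 286) (nat_lit 225)) (XT.lf (nat_lit 84) (nat_lit 3858410241) (nat_lit 0) (nat_lit 3543882437) (nat_lit 252) (nat_lit 3858410241) (nat_lit 29) (nat_lit 1) (nat_lit 28) (nat_lit 1) (nat_lit 31) (nat_lit 1) (nat_lit 210) (nat_lit 286) (nat_lit 224))))) (XT.nd (nat_lit 282) (nat_lit 336) (nat_lit 0) (XT.nd (nat_lit 94) (nat_lit 168) (nat_lit 0) (XT.lf (nat_lit 168) (nat_lit 4236306732) (nat_lit 0) (nat_lit 3417317738) (nat_lit 84) (nat_lit 3417317738) (nat_lit 29) (nat_lit 1) (nat_lit 27) (nat_lit 1) (nat_lit 28) (nat_lit 1)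 (nat_lit 211) (nat_lit 286) (nat_lit 223)) (XT.nd (nat_lit 94) (nat_lit 168) (nat_lit 0) (XT.lf (nat_lit 0) (nat_lit 426042040) (nat_lit 0) (nat_lit 10034826610) (nat_lit 168) (nat_lit 426042040) (nat_lit 27) (nat_lit 3) (nat_lit 27) (nat_lit 1) (nat_lit 29) (nat_lit 1) (nat_lit 212) (nat_lit 286) (nat_lit 222)) (XT.lf (nat_lit 84) (nat_lit 4125093778) (nat_lit 0) (nat_lit 2451770547) (nat_lit 168) (nat_lit 4125093778) (nat_lit 26) (nat_lit 1) (nat_lit 25) (nat_lit 1) (nat_lit 27) (nat_lit 1) (nat_lit 213) (nat_lit 286) (nat_lit 221)))) (XT.nd (nat_lit 188) (nat_lit 252) (nat_lit 0) (XT.nd (nat_lit 94) (nat_lit 0) (nat_lit 0) (XT.lf (nat_lit 168) (nat_lit 4899780460) (nat_lit 0) (nat_lit 2811435760) (nat_lit 84) (nat_lit 2811435760) (nat_lit 26) (nat_lit 1) (nat_lit 24) (nat_lit 1) (nat_lit 25) (nat_lit 1) (nat_lit 214) (nat_lit 286) (nat_lit 220)) (XT.lf (nat_lit 0) (nat_lit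 814296145) (nat_lit 0) (nat_lit 8719466990) (nat_lit 168) (nat_lit 814296145) (nat_lit 24) (nat_lit 3) (nat_lit 24) (nat_lit 1) (nat_lit 26) (nat_lit 1) (nat_lit 215) (nat_lit 286) (nat_lit 219))) (XT.nd (nat_lit 94) (nat_lit 84) (nat_lit 0) (XT.lf (nat_lit 84) (nat_lit 4299220216) (nat_lit 0) (nat_lit 1575372645) (nat_lit 168) (nat_lit 4299220216) (nat_lit 23) (nat_lit 1) (nat_lit 22) (nat_lit 1) (nat_lit 24) (nat_lit 1) (nat_lit 216) (nat_lit 286) (nat_lit 218)) (XT.lf (nat_lit 168) (nat_lit 5378261918) (nat_lit 0) (nat_lit 2312975157) (nat_lit 84) (nat_lit 2312975157) (nat_lit 23) (nat_lit 1) (nat_lit 21) (nat_lit 1) (nat_lit 22) (nat_lit 1) (nat_lit 217) (nat_lit 286) (nat_lit 217)))))) (XT.nd (nat_lit 658) (nat_lit 588) (nat_lit 0) (XT.nd (nat_lit 282) (nat_lit 252) (nat_lit 0) (XT.nd (nat_lit 94) (nat_lit 252) (nat_lit 0) (XT.lf (nat_lit 0) (nat_lit 1111628505) (nat_lit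 0) (nat_lit 7615232123) (nat_lit 168) (nat_lit 1111628505) (nat_lit 21) (nat_lit 3) (nat_lit 21) (nat_lit 1) (nat_lit 23) (nat_lit 1) (nat_lit 218) (nat_lit 286) (nat_lit 216)) (XT.nd (nat_lit 94) (nat_lit 84) (nat_lit 0) (XT.lf (nat_lit 84) (nat_lit 4399355641) (nat_lit 0) (nat_lit 875391496) (nat_lit 168) (nat_lit 4399355641) (nat_lit 20) (nat_lit 1) (nat_lit 19) (nat_lit 1) (nat_lit 21) (nat_lit 1) (nat_lit 219) (nat_lit 286) (nat_lit 215)) (XT.lf (nat_lit 168) (nat_lit 5707757398) (nat_lit 0) (nat_lit 1902890386) (nat_lit 84) (nat_lit 1902890386) (nat_lit 20) (nat_lit 1) (nat_lit 18) (nat_lit 1) (nat_lit 19) (nat_lit 1) (nat_lit 220) (nat_lit 286) (nat_lit 214)))) (XT.nd (nat_lit 188) (nat_lit 84) (nat_lit 0) (XT.nd (nat_lit 94) (nat_lit 168) (nat_lit 0) (XT.lf (nat_lit 0) (nat_lit 1335211000) (nat_lit 0) (nat_lit 6685741792) (nat_lit 168) (nat_lit 1335211000) (nat_lit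 18) (nat_lit 3) (nat_lit 18) (nat_lit 1) (nat_lit 20) (nat_lit 1) (nat_lit 221) (nat_lit 286) (nat_lit 213)) (XT.lf (nat_lit 84) (nat_lit 4440671753) (nat_lit 0) (nat_lit 319547247) (nat_lit 168) (nat_lit 4440671753) (nat_lit 17) (nat_lit 1) (nat_lit 16) (nat_lit 1) (nat_lit 18) (nat_lit 1) (nat_lit 222) (nat_lit 286) (nat_lit 212))) (XT.nd (nat_lit 94) (nat_lit 0) (nat_lit 0) (XT.lf (nat_lit 168) (nat_lit 5917736620) (nat_lit 0) (nat_lit 1565512630) (nat_lit 84) (nat_lit 1565512630) (nat_lit 17) (nat_lit 1) (nat_lit 15) (nat_lit 1) (nat_lit 16) (nat_lit 1) (nat_lit 223) (nat_lit 286) (nat_lit 211)) (XT.lf (nat_lit 0) (nat_lit 1499120897) (nat_lit 0) (nat_lit 5901015821) (nat_lit 168) (nat_lit 1499120897) (nat_lit 15) (nat_lit 3) (nat_lit 15) (nat_lit 1) (nat_lit 17) (nat_lit 1) (nat_lit 224) (nat_lit 286) (nat_lit 210))))) (XT.nd (nat_lit 282) (nat_lit 336) (nat_lit 0)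 (XT.nd (nat_lit 94) (nat_lit 168) (nat_lit 0) (XT.lf (nat_lit 84) (nat_lit 122592856) (nat_lit 0) (nat_lit 4314873736) (nat_lit 84) (nat_lit 4314873736) (nat_lit 15) (nat_lit 3) (nat_lit 14) (nat_lit 1) (nat_lit 15) (nat_lit 1) (nat_lit 225) (nat_lit 286) (nat_lit 209)) (XT.nd (nat_lit 94) (nat_lit 0) (nat_lit 0) (XT.lf (nat_lit 168) (nat_lit 6032298927) (nat_lit 0) (nat_lit 1287951115) (nat_lit 84) (nat_lit 1287951115) (nat_lit 14) (nat_lit 1) (nat_lit 12) (nat_lit 1) (nat_lit 13) (nat_lit 1) (nat_lit 226) (nat_lit 286) (nat_lit 208)) (XT.lf (nat_lit 0) (nat_lit 1614891903) (nat_lit 0) (nat_lit 5236341750) (nat_lit 168) (nat_lit 1614891903) (nat_lit 12) (nat_lit 3) (nat_lit 12) (nat_lit 1) (nat_lit 14) (nat_lit 1) (nat_lit 227) (nat_lit 286) (nat_lit 207)))) (XT.nd (nat_lit 188) (nat_lit 84) (nat_lit 0) (XT.nd (nat_lit 94) (nat_lit 168) (nat_lit 0) (XT.lf (nat_lit 84) (nat_lit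 476264661) (nat_lit 0) (nat_lit 3925264516) (nat_lit 84) (nat_lit 3925264516) (nat_lit 12) (nat_lit 3) (nat_lit 11) (nat_lit 1) (nat_lit 12) (nat_lit 1) (nat_lit 228) (nat_lit 286) (nat_lit 206)) (XT.lf (nat_lit 168) (nat_lit 6071132365) (nat_lit 0) (nat_lit 1059600569) (nat_lit 84) (nat_lit 1059600569) (nat_lit 11) (nat_lit 1) (nat_lit 9) (nat_lit 1) (nat_lit 10) (nat_lit 1) (nat_lit 229) (nat_lit 286) (nat_lit 205))) (XT.nd (nat_lit 94) (nat_lit 84) (nat_lit 0) (XT.lf (nat_lit 0) (nat_lit 1691967404) (nat_lit 0) (nat_lit 4671343156) (nat_lit 168) (nat_lit 1691967404) (nat_lit 9) (nat_lit 3) (nat_lit 9) (nat_lit 1) (nat_lit 11) (nat_lit 1) (nat_lit 230) (nat_lit 286) (nat_lit 204)) (XT.lf (nat_lit 84) (nat_lit 749354795) (nat_lit 0) (nat_lit 3586855512) (nat_lit 84) (nat_lit 3586855512) (nat_lit 9) (nat_lit 3) (nat_lit 8) (nat_lit 1) (nat_lit 9) (nat_lit 1) (nat_lit 231)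 (nat_lit 286) (nat_lit 203))))))))
noncomputable def ec135 : XT := (XT.nd (nat_lit 2538) (nat_lit 0) (nat_lit 0) (XT.nd (nat_lit 1222) (nat_lit 0) (nat_lit 0) (XT.nd (nat_lit 564) (nat_lit 168) (nat_lit 0) (XT.nd (nat_lit 282) (nat_lit 252) (nat_lit 0) (XT.nd (nat_lit 94) (nat_lit 84) (nat_lit 0) (XT.lf (nat_lit 168) (nat_lit 6050302393) (nat_lit 0) (nat_lit 871736011) (nat_lit 84) (nat_lit 871736011) (nat_lit 8) (nat_lit 1) (nat_lit 6) (nat_lit 1) (nat_lit 7) (nat_lit 1) (nat_lit 232) (nat_lit 286) (nat_lit 202)) (XT.nd (nat_lit 94) (nat_lit 84) (nat_lit 0) (XT.lf (nat_lit 0) (nat_lit 1738073236) (nat_lit 0) (nat_lit 4189213041) (nat_lit 168) (nat_lit 1738073236) (nat_lit 6) (nat_lit 3) (nat_lit 6) (nat_lit 1) (nat_lit 8) (nat_lit 1) (nat_lit 233) (nat_lit 286) (nat_lit 201)) (XT.lf (nat_lit 84) (nat_lit 957001455) (nat_lit 0) (nat_lit 3291420316) (nat_lit 84) (nat_lit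 3291420316) (nat_lit 6) (nat_lit 3) (nat_lit 5) (nat_lit 1) (nat_lit 6) (nat_lit 1) (nat_lit 234) (nat_lit 286) (nat_lit 200)))) (XT.nd (nat_lit 94) (nat_lit 84) (nat_lit 0) (XT.lf (nat_lit 168) (nat_lit 5982900438) (nat_lit 0) (nat_lit 717179373) (nat_lit 84) (nat_lit 717179373) (nat_lit 5) (nat_lit 1) (nat_lit 3) (nat_lit 1) (nat_lit 4) (nat_lit 1) (nat_lit 235) (nat_lit 286) (nat_lit 199)) (XT.nd (nat_lit 94) (nat_lit 84) (nat_lit 0) (XT.lf (nat_lit 0) (nat_lit 1759524263) (nat_lit 0) (nat_lit 3776083046) (nat_lit 168) (nat_lit 1759524263) (nat_lit 3) (nat_lit 3) (nat_lit 3) (nat_lit 1) (nat_lit 5) (nat_lit 1) (nat_lit 236) (nat_lit 286) (nat_lit 198)) (XT.lf (nat_lit 84) (nat_lit 1111618332) (nat_lit 0) (nat_lit 3032150506) (nat_lit 84) (nat_lit 3032150506) (nat_lit 3) (nat_lit 3) (nat_lit 2) (nat_lit 1) (nat_lit 3) (nat_lit 1) (nat_lit 237) (nat_lit 286) (nat_lit 197)))))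 (XT.nd (nat_lit 282) (nat_lit 0) (nat_lit 0) (XT.nd (nat_lit 94) (nat_lit 0) (nat_lit 0) (XT.lf (nat_lit 0) (nat_lit 10255436491) (nat_lit 0) (nat_lit 0) (nat_lit 0) (nat_lit 0) (nat_lit 0) (nat_lit 0) (nat_lit 1) (nat_lit 0) (nat_lit 1) (nat_lit 0) (nat_lit 238) (nat_lit 286) (nat_lit 196)) (XT.nd (nat_lit 94) (nat_lit 0) (nat_lit 0) (XT.lf (nat_lit 0) (nat_lit 10249461306) (nat_lit 0) (nat_lit 0) (nat_lit 0) (nat_lit 0) (nat_lit 0) (nat_lit 0) (nat_lit 1) (nat_lit 0) (nat_lit 1) (nat_lit 0) (nat_lit 239) (nat_lit 286) (nat_lit 195)) (XT.lf (nat_lit 0) (nat_lit 10243770652) (nat_lit 0) (nat_lit 0) (nat_lit 0) (nat_lit 0) (nat_lit 0) (nat_lit 0) (nat_lit 1) (nat_lit 0) (nat_lit 1) (nat_lit 0) (nat_lit 240) (nat_lit 286) (nat_lit 194)))) (XT.nd (nat_lit 188) (nat_lit 0) (nat_lit 0) (XT.nd (nat_lit 94) (nat_lit 0) (nat_lit 0) (XT.lf (nat_lit 0) (nat_lit 10238350983) (nat_lit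 0) (nat_lit 0) (nat_lit 0) (nat_lit 0) (nat_lit 0) (nat_lit 0) (nat_lit 1) (nat_lit 0) (nat_lit 1) (nat_lit 0) (nat_lit 241) (nat_lit 286) (nat_lit 193)) (XT.lf (nat_lit 0) (nat_lit 10233189393) (nat_lit 0) (nat_lit 0) (nat_lit 0) (nat_lit 0) (nat_lit 0) (nat_lit 0) (nat_lit 1) (nat_lit 0) (nat_lit 1) (nat_lit 0) (nat_lit 242) (nat_lit 286) (nat_lit 192))) (XT.nd (nat_lit 94) (nat_lit 0) (nat_lit 0) (XT.lf (nat_lit 0) (nat_lit 10228273592) (nat_lit 0) (nat_lit 0) (nat_lit 0) (nat_lit 0) (nat_lit 0) (nat_lit 0) (nat_lit 1) (nat_lit 0) (nat_lit 1) (nat_lit 0) (nat_lit 243) (nat_lit 286) (nat_lit 191)) (XT.lf (nat_lit 0) (nat_lit 10223591878) (nat_lit 0) (nat_lit 0) (nat_lit 0) (nat_lit 0) (nat_lit 0) (nat_lit 0) (nat_lit 1) (nat_lit 0) (nat_lit 1) (nat_lit 0) (nat_lit 244) (nat_lit 286) (nat_lit 190)))))) (XT.nd (nat_lit 658) (nat_lit 0) (nat_lit 0) (XT.nd (nat_lit 282) (nat_lit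 0) (nat_lit 0) (XT.nd (nat_lit 94) (nat_lit 0) (nat_lit 0) (XT.lf (nat_lit 0) (nat_lit 10219133102) (nat_lit 0) (nat_lit 0) (nat_lit 0) (nat_lit 0) (nat_lit 0) (nat_lit 0) (nat_lit 1) (nat_lit 0) (nat_lit 1) (nat_lit 0) (nat_lit 245) (nat_lit 286) (nat_lit 189)) (XT.nd (nat_lit 94) (nat_lit 0) (nat_lit 0) (XT.lf (nat_lit 0) (nat_lit 10214886649) (nat_lit 0) (nat_lit 0) (nat_lit 0) (nat_lit 0) (nat_lit 0) (nat_lit 0) (nat_lit 1) (nat_lit 0) (nat_lit 1) (nat_lit 0) (nat_lit 246) (nat_lit 286) (nat_lit 188)) (XT.lf (nat_lit 0) (nat_lit 10210842408) (nat_lit 0) (nat_lit 0) (nat_lit 0) (nat_lit 0) (nat_lit 0) (nat_lit 0) (nat_lit 1) (nat_lit 0) (nat_lit 1) (nat_lit 0) (nat_lit 247) (nat_lit 286) (nat_lit 187)))) (XT.nd (nat_lit 188) (nat_lit 0) (nat_lit 0) (XT.nd (nat_lit 94) (nat_lit 0) (nat_lit 0) (XT.lf (nat_lit 0) (nat_lit 10206990750) (nat_lit 0) (nat_lit 0) (nat_lit 0)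 (nat_lit 0) (nat_lit 0) (nat_lit 0) (nat_lit 1) (nat_lit 0) (nat_lit 1) (nat_lit 0) (nat_lit 248) (nat_lit 286) (nat_lit 186)) (XT.lf (nat_lit 0) (nat_lit 10203322504) (nat_lit 0) (nat_lit 0) (nat_lit 0) (nat_lit 0) (nat_lit 0) (nat_lit 0) (nat_lit 1) (nat_lit 0) (nat_lit 1) (nat_lit 0) (nat_lit 249) (nat_lit 286) (nat_lit 185))) (XT.nd (nat_lit 94) (nat_lit 0) (nat_lit 0) (XT.lf (nat_lit 0) (nat_lit 10199828937) (nat_lit 0) (nat_lit 0) (nat_lit 0) (nat_lit 0) (nat_lit 0) (nat_lit 0) (nat_lit 1) (nat_lit 0) (nat_lit 1) (nat_lit 0) (nat_lit 250) (nat_lit 286) (nat_lit 184)) (XT.lf (nat_lit 0) (nat_lit 10196501730) (nat_lit 0) (nat_lit 0) (nat_lit 0) (nat_lit 0) (nat_lit 0) (nat_lit 0) (nat_lit 1) (nat_lit 0) (nat_lit 1) (nat_lit 0) (nat_lit 251) (nat_lit 286) (nat_lit 183))))) (XT.nd (nat_lit 282) (nat_lit 0) (nat_lit 0) (XT.nd (nat_lit 94) (nat_lit 0) (nat_lit 0) (XT.lf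 (nat_lit 0) (nat_lit 10193332961) (nat_lit 0) (nat_lit 0) (nat_lit 0) (nat_lit 0) (nat_lit 0) (nat_lit 0) (nat_lit 1) (nat_lit 0) (nat_lit 1) (nat_lit 0) (nat_lit 252) (nat_lit 286) (nat_lit 182)) (XT.nd (nat_lit 94) (nat_lit 0) (nat_lit 0) (XT.lf (nat_lit 0) (nat_lit 10190315087) (nat_lit 0) (nat_lit 0) (nat_lit 0) (nat_lit 0) (nat_lit 0) (nat_lit 0) (nat_lit 1) (nat_lit 0) (nat_lit 1) (nat_lit 0) (nat_lit 253) (nat_lit 286) (nat_lit 181)) (XT.lf (nat_lit 0) (nat_lit 10187440920) (nat_lit 0) (nat_lit 0) (nat_lit 0) (nat_lit 0) (nat_lit 0) (nat_lit 0) (nat_lit 1) (nat_lit 0) (nat_lit 1) (nat_lit 0) (nat_lit 254) (nat_lit 286) (nat_lit 180)))) (XT.nd (nat_lit 188) (nat_lit 0) (nat_lit 0) (XT.nd (nat_lit 94) (nat_lit 0) (nat_lit 0) (XT.lf (nat_lit 0) (nat_lit 10184703619) (nat_lit 0) (nat_lit 0) (nat_lit 0) (nat_lit 0) (nat_lit 0) (nat_lit 0) (nat_lit 1) (nat_lit 0) (nat_lit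 1) (nat_lit 0) (nat_lit 255) (nat_lit 286) (nat_lit 179)) (XT.lf (nat_lit 0) (nat_lit 10182096665) (nat_lit 0) (nat_lit 0) (nat_lit 0) (nat_lit 0) (nat_lit 0) (nat_lit 0) (nat_lit 1) (nat_lit 0) (nat_lit 1) (nat_lit 0) (nat_lit 256) (nat_lit 286) (nat_lit 178))) (XT.nd (nat_lit 94) (nat_lit 0) (nat_lit 0) (XT.lf (nat_lit 0) (nat_lit 10179613852) (nat_lit 0) (nat_lit 0) (nat_lit 0) (nat_lit 0) (nat_lit 0) (nat_lit 0) (nat_lit 1) (nat_lit 0) (nat_lit 1) (nat_lit 0) (nat_lit 257) (nat_lit 286) (nat_lit 177)) (XT.lf (nat_lit 0) (nat_lit 10177249268) (nat_lit 0) (nat_lit 0) (nat_lit 0) (nat_lit 0) (nat_lit 0) (nat_lit 0) (nat_lit 1) (nat_lit 0) (nat_lit 1) (nat_lit 0) (nat_lit 258) (nat_lit 286) (nat_lit 176))))))) (XT.nd (nat_lit 1316) (nat_lit 0) (nat_lit 0) (XT.nd (nat_lit 658) (nat_lit 0) (nat_lit 0) (XT.nd (nat_lit 282) (nat_lit 0) (nat_lit 0) (XT.nd (nat_lit 94) (nat_lit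 0) (nat_lit 0) (XT.lf (nat_lit 0) (nat_lit 10174997283) (nat_lit 0) (nat_lit 0) (nat_lit 0) (nat_lit 0) (nat_lit 0) (nat_lit 0) (nat_lit 1) (nat_lit 0) (nat_lit 1) (nat_lit 0) (nat_lit 259) (nat_lit 286) (nat_lit 175)) (XT.nd (nat_lit 94) (nat_lit 0) (nat_lit 0) (XT.lf (nat_lit 0) (nat_lit 10172852536) (nat_lit 0) (nat_lit 0) (nat_lit 0) (nat_lit 0) (nat_lit 0) (nat_lit 0) (nat_lit 1) (nat_lit 0) (nat_lit 1) (nat_lit 0) (nat_lit 260) (nat_lit 286) (nat_lit 174)) (XT.lf (nat_lit 0) (nat_lit 10170809919) (nat_lit 0) (nat_lit 0) (nat_lit 0) (nat_lit 0) (nat_lit 0) (nat_lit 0) (nat_lit 1) (nat_lit 0) (nat_lit 1) (nat_lit 0) (nat_lit 261) (nat_lit 286) (nat_lit 173)))) (XT.nd (nat_lit 188) (nat_lit 0) (nat_lit 0) (XT.nd (nat_lit 94) (nat_lit 0) (nat_lit 0) (XT.lf (nat_lit 0) (nat_lit 10168864570) (nat_lit 0) (nat_lit 0) (nat_lit 0) (nat_lit 0) (nat_lit 0) (nat_lit 0) (nat_lit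 1) (nat_lit 0) (nat_lit 1) (nat_lit 0) (nat_lit 262) (nat_lit 286) (nat_lit 172)) (XT.lf (nat_lit 0) (nat_lit 10167011857) (nat_lit 0) (nat_lit 0) (nat_lit 0) (nat_lit 0) (nat_lit 0) (nat_lit 0) (nat_lit 1) (nat_lit 0) (nat_lit 1) (nat_lit 0) (nat_lit 263) (nat_lit 286) (nat_lit 171))) (XT.nd (nat_lit 94) (nat_lit 0) (nat_lit 0) (XT.lf (nat_lit 0) (nat_lit 10165247368) (nat_lit 0) (nat_lit 0) (nat_lit 0) (nat_lit 0) (nat_lit 0) (nat_lit 0) (nat_lit 1) (nat_lit 0) (nat_lit 1) (nat_lit 0) (nat_lit 264) (nat_lit 286) (nat_lit 170)) (XT.lf (nat_lit 0) (nat_lit 10163566902) (nat_lit 0) (nat_lit 0) (nat_lit 0) (nat_lit 0) (nat_lit 0) (nat_lit 0) (nat_lit 1) (nat_lit 0) (nat_lit 1) (nat_lit 0) (nat_lit 265) (nat_lit 286) (nat_lit 169))))) (XT.nd (nat_lit 282) (nat_lit 0) (nat_lit 0) (XT.nd (nat_lit 94) (nat_lit 0) (nat_lit 0) (XT.lf (nat_lit 0) (nat_lit 10161966459) (nat_lit 0)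 (nat_lit 0) (nat_lit 0) (nat_lit 0) (nat_lit 0) (nat_lit 0) (nat_lit 1) (nat_lit 0) (nat_lit 1) (nat_lit 0) (nat_lit 266) (nat_lit 286) (nat_lit 168)) (XT.nd (nat_lit 94) (nat_lit 0) (nat_lit 0) (XT.lf (nat_lit 0) (nat_lit 10160442227) (nat_lit 0) (nat_lit 0) (nat_lit 0) (nat_lit 0) (nat_lit 0) (nat_lit 0) (nat_lit 1) (nat_lit 0) (nat_lit 1) (nat_lit 0) (nat_lit 267) (nat_lit 286) (nat_lit 167)) (XT.lf (nat_lit 0) (nat_lit 10158990577) (nat_lit 0) (nat_lit 0) (nat_lit 0) (nat_lit 0) (nat_lit 0) (nat_lit 0) (nat_lit 1) (nat_lit 0) (nat_lit 1) (nat_lit 0) (nat_lit 268) (nat_lit 286) (nat_lit 166)))) (XT.nd (nat_lit 188) (nat_lit 0) (nat_lit 0) (XT.nd (nat_lit 94) (nat_lit 0) (nat_lit 0) (XT.lf (nat_lit 0) (nat_lit 10157608054) (nat_lit 0) (nat_lit 0) (nat_lit 0) (nat_lit 0) (nat_lit 0) (nat_lit 0) (nat_lit 1) (nat_lit 0) (nat_lit 1) (nat_lit 0) (nat_lit 269) (nat_lit 286)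 (nat_lit 165)) (XT.lf (nat_lit 0) (nat_lit 10156291365) (nat_lit 0) (nat_lit 0) (nat_lit 0) (nat_lit 0) (nat_lit 0) (nat_lit 0) (nat_lit 1) (nat_lit 0) (nat_lit 1) (nat_lit 0) (nat_lit 270) (nat_lit 286) (nat_lit 164))) (XT.nd (nat_lit 94) (nat_lit 0) (nat_lit 0) (XT.lf (nat_lit 0) (nat_lit 10155037376) (nat_lit 0) (nat_lit 0) (nat_lit 0) (nat_lit 0) (nat_lit 0) (nat_lit 0) (nat_lit 1) (nat_lit 0) (nat_lit 1) (nat_lit 0) (nat_lit 271) (nat_lit 286) (nat_lit 163)) (XT.lf (nat_lit 0) (nat_lit 10153843100) (nat_lit 0) (nat_lit 0) (nat_lit 0) (nat_lit 0) (nat_lit 0) (nat_lit 0) (nat_lit 1) (nat_lit 0) (nat_lit 1) (nat_lit 0) (nat_lit 272) (nat_lit 286) (nat_lit 162)))))) (XT.nd (nat_lit 658) (nat_lit 0) (nat_lit 0) (XT.nd (nat_lit 282) (nat_lit 0) (nat_lit 0) (XT.nd (nat_lit 94) (nat_lit 0) (nat_lit 0) (XT.lf (nat_lit 0) (nat_lit 10152705695) (nat_lit 0) (nat_lit 0) (nat_lit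 0) (nat_lit 0) (nat_lit 0) (nat_lit 0) (nat_lit 1) (nat_lit 0) (nat_lit 1) (nat_lit 0) (nat_lit 273) (nat_lit 286) (nat_lit 161)) (XT.nd (nat_lit 94) (nat_lit 0) (nat_lit 0) (XT.lf (nat_lit 0) (nat_lit 10151622452) (nat_lit 0) (nat_lit 0) (nat_lit 0) (nat_lit 0) (nat_lit 0) (nat_lit 0) (nat_lit 1) (nat_lit 0) (nat_lit 1) (nat_lit 0) (nat_lit 274) (nat_lit 286) (nat_lit 160)) (XT.lf (nat_lit 0) (nat_lit 10150590792) (nat_lit 0) (nat_lit 0) (nat_lit 0) (nat_lit 0) (nat_lit 0) (nat_lit 0) (nat_lit 1) (nat_lit 0) (nat_lit 1) (nat_lit 0) (nat_lit 275) (nat_lit 286) (nat_lit 159)))) (XT.nd (nat_lit 188) (nat_lit 0) (nat_lit 0) (XT.nd (nat_lit 94) (nat_lit 0) (nat_lit 0) (XT.lf (nat_lit 0) (nat_lit 10149608258) (nat_lit 0) (nat_lit 0) (nat_lit 0) (nat_lit 0) (nat_lit 0) (nat_lit 0) (nat_lit 1) (nat_lit 0) (nat_lit 1) (nat_lit 0) (nat_lit 276) (nat_lit 286) (nat_lit 158)) (XT.lf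 (nat_lit 0) (nat_lit 10148672512) (nat_lit 0) (nat_lit 0) (nat_lit 0) (nat_lit 0) (nat_lit 0) (nat_lit 0) (nat_lit 1) (nat_lit 0) (nat_lit 1) (nat_lit 0) (nat_lit 277) (nat_lit 286) (nat_lit 157))) (XT.nd (nat_lit 94) (nat_lit 0) (nat_lit 0) (XT.lf (nat_lit 0) (nat_lit 10147781325) (nat_lit 0) (nat_lit 0) (nat_lit 0) (nat_lit 0) (nat_lit 0) (nat_lit 0) (nat_lit 1) (nat_lit 0) (nat_lit 1) (nat_lit 0) (nat_lit 278) (nat_lit 286) (nat_lit 156)) (XT.lf (nat_lit 0) (nat_lit 10146932576) (nat_lit 0) (nat_lit 0) (nat_lit 0) (nat_lit 0) (nat_lit 0) (nat_lit 0) (nat_lit 1) (nat_lit 0) (nat_lit 1) (nat_lit 0) (nat_lit 279) (nat_lit 286) (nat_lit 155))))) (XT.nd (nat_lit 282) (nat_lit 0) (nat_lit 0) (XT.nd (nat_lit 94) (nat_lit 0) (nat_lit 0) (XT.lf (nat_lit 0) (nat_lit 10146124243) (nat_lit 0) (nat_lit 0) (nat_lit 0) (nat_lit 0) (nat_lit 0) (nat_lit 0) (nat_lit 1) (nat_lit 0) (nat_lit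 1) (nat_lit 0) (nat_lit 280) (nat_lit 286) (nat_lit 154)) (XT.nd (nat_lit 94) (nat_lit 0) (nat_lit 0) (XT.lf (nat_lit 0) (nat_lit 10145354403) (nat_lit 0) (nat_lit 0) (nat_lit 0) (nat_lit 0) (nat_lit 0) (nat_lit 0) (nat_lit 1) (nat_lit 0) (nat_lit 1) (nat_lit 0) (nat_lit 281) (nat_lit 286) (nat_lit 153)) (XT.lf (nat_lit 0) (nat_lit 10144621221) (nat_lit 0) (nat_lit 0) (nat_lit 0) (nat_lit 0) (nat_lit 0) (nat_lit 0) (nat_lit 1) (nat_lit 0) (nat_lit 1) (nat_lit 0) (nat_lit 282) (nat_lit 286) (nat_lit 152)))) (XT.nd (nat_lit 188) (nat_lit 0) (nat_lit 0) (XT.nd (nat_lit 94) (nat_lit 0) (nat_lit 0) (XT.lf (nat_lit 0) (nat_lit 10143922953) (nat_lit 0) (nat_lit 0) (nat_lit 0) (nat_lit 0) (nat_lit 0) (nat_lit 0) (nat_lit 1) (nat_lit 0) (nat_lit 1) (nat_lit 0) (nat_lit 283) (nat_lit 286) (nat_lit 151)) (XT.lf (nat_lit 0) (nat_lit 10143257936) (nat_lit 0) (nat_lit 0) (nat_lit 0) (nat_lit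 0) (nat_lit 0) (nat_lit 0) (nat_lit 1) (nat_lit 0) (nat_lit 1) (nat_lit 0) (nat_lit 284) (nat_lit 286) (nat_lit 150))) (XT.nd (nat_lit 94) (nat_lit 0) (nat_lit 0) (XT.lf (nat_lit 0) (nat_lit 10142624586) (nat_lit 0) (nat_lit 0) (nat_lit 0) (nat_lit 0) (nat_lit 0) (nat_lit 0) (nat_lit 1) (nat_lit 0) (nat_lit 1) (nat_lit 0) (nat_lit 285) (nat_lit 286) (nat_lit 149)) (XT.lf (nat_lit 0) (nat_lit 10142021395) (nat_lit 0) (nat_lit 0) (nat_lit 0) (nat_lit 0) (nat_lit 0) (nat_lit 0) (nat_lit 1) (nat_lit 0) (nat_lit 1) (nat_lit 0) (nat_lit 286) (nat_lit 286) (nat_lit 148))))))))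
noncomputable def ec136 : XT := (XT.nd (nat_lit 32148) (nat_lit 0) (nat_lit 6552) (XT.nd (nat_lit 1222) (nat_lit 0) (nat_lit 0) (XT.nd (nat_lit 564) (nat_lit 0) (nat_lit 0) (XT.nd (nat_lit 282) (nat_lit 0) (nat_lit 0) (XT.nd (nat_lit 94) (nat_lit 0) (nat_lit 0) (XT.lf (nat_lit 0) (nat_lit 10141446928) (nat_lit 0) (nat_lit 0) (nat_lit 0) (nat_lit 0) (nat_lit 0) (nat_lit 0) (nat_lit 1) (nat_lit 0) (nat_lit 1) (nat_lit 0) (nat_lit 287) (nat_lit 286) (nat_lit 147)) (XT.nd (nat_lit 94) (nat_lit 0) (nat_lit 0) (XT.lf (nat_lit 0) (nat_lit 10140899817) (nat_lit 0) (nat_lit 0) (nat_lit 0) (nat_lit 0) (nat_lit 0) (nat_lit 0) (nat_lit 1) (nat_lit 0) (nat_lit 1) (nat_lit 0) (nat_lit 288) (nat_lit 286) (nat_lit 146)) (XT.lf (nat_lit 0) (nat_lit 10140378759) (nat_lit 0) (nat_lit 0) (nat_lit 0) (nat_lit 0) (nat_lit 0) (nat_lit 0) (nat_lit 1) (nat_lit 0) (nat_lit 1) (nat_lit 0) (nat_lit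 289) (nat_lit 286) (nat_lit 145)))) (XT.nd (nat_lit 94) (nat_lit 0) (nat_lit 0) (XT.lf (nat_lit 0) (nat_lit 10139882512) (nat_lit 0) (nat_lit 0) (nat_lit 0) (nat_lit 0) (nat_lit 0) (nat_lit 0) (nat_lit 1) (nat_lit 0) (nat_lit 1) (nat_lit 0) (nat_lit 290) (nat_lit 286) (nat_lit 144)) (XT.nd (nat_lit 94) (nat_lit 0) (nat_lit 0) (XT.lf (nat_lit 0) (nat_lit 10139409897) (nat_lit 0) (nat_lit 0) (nat_lit 0) (nat_lit 0) (nat_lit 0) (nat_lit 0) (nat_lit 1) (nat_lit 0) (nat_lit 1) (nat_lit 0) (nat_lit 291) (nat_lit 286) (nat_lit 143)) (XT.lf (nat_lit 0) (nat_lit 10138959787) (nat_lit 0) (nat_lit 0) (nat_lit 0) (nat_lit 0) (nat_lit 0) (nat_lit 0) (nat_lit 1) (nat_lit 0) (nat_lit 1) (nat_lit 0) (nat_lit 292) (nat_lit 286) (nat_lit 142))))) (XT.nd (nat_lit 282) (nat_lit 0) (nat_lit 0) (XT.nd (nat_lit 94) (nat_lit 0) (nat_lit 0) (XT.lf (nat_lit 0) (nat_lit 10138531111) (nat_lit 0) (nat_lit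 0) (nat_lit 0) (nat_lit 0) (nat_lit 0) (nat_lit 0) (nat_lit 1) (nat_lit 0) (nat_lit 1) (nat_lit 0) (nat_lit 293) (nat_lit 286) (nat_lit 141)) (XT.nd (nat_lit 94) (nat_lit 0) (nat_lit 0) (XT.lf (nat_lit 0) (nat_lit 10138122848) (nat_lit 0) (nat_lit 0) (nat_lit 0) (nat_lit 0) (nat_lit 0) (nat_lit 0) (nat_lit 1) (nat_lit 0) (nat_lit 1) (nat_lit 0) (nat_lit 294) (nat_lit 286) (nat_lit 140)) (XT.lf (nat_lit 0) (nat_lit 10137734026) (nat_lit 0) (nat_lit 0) (nat_lit 0) (nat_lit 0) (nat_lit 0) (nat_lit 0) (nat_lit 1) (nat_lit 0) (nat_lit 1) (nat_lit 0) (nat_lit 295) (nat_lit 286) (nat_lit 139)))) (XT.nd (nat_lit 188) (nat_lit 0) (nat_lit 0) (XT.nd (nat_lit 94) (nat_lit 0) (nat_lit 0) (XT.lf (nat_lit 0) (nat_lit 10137363720) (nat_lit 0) (nat_lit 0) (nat_lit 0) (nat_lit 0) (nat_lit 0) (nat_lit 0) (nat_lit 1) (nat_lit 0) (nat_lit 1) (nat_lit 0) (nat_lit 296) (nat_lit 286) (nat_lit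 138)) (XT.lf (nat_lit 0) (nat_lit 10137011047) (nat_lit 0) (nat_lit 0) (nat_lit 0) (nat_lit 0) (nat_lit 0) (nat_lit 0) (nat_lit 1) (nat_lit 0) (nat_lit 1) (nat_lit 0) (nat_lit 297) (nat_lit 286) (nat_lit 137))) (XT.nd (nat_lit 94) (nat_lit 0) (nat_lit 0) (XT.lf (nat_lit 0) (nat_lit 10136675168) (nat_lit 0) (nat_lit 0) (nat_lit 0) (nat_lit 0) (nat_lit 0) (nat_lit 0) (nat_lit 1) (nat_lit 0) (nat_lit 1) (nat_lit 0) (nat_lit 298) (nat_lit 286) (nat_lit 136)) (XT.lf (nat_lit 0) (nat_lit 10136355283) (nat_lit 0) (nat_lit 0) (nat_lit 0) (nat_lit 0) (nat_lit 0) (nat_lit 0) (nat_lit 1) (nat_lit 0) (nat_lit 1) (nat_lit 0) (nat_lit 299) (nat_lit 286) (nat_lit 135)))))) (XT.nd (nat_lit 658) (nat_lit 0) (nat_lit 0) (XT.nd (nat_lit 282) (nat_lit 0) (nat_lit 0) (XT.nd (nat_lit 94) (nat_lit 0) (nat_lit 0) (XT.lf (nat_lit 0) (nat_lit 10136050631) (nat_lit 0) (nat_lit 0) (nat_lit 0) (nat_lit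 0) (nat_lit 0) (nat_lit 0) (nat_lit 1) (nat_lit 0) (nat_lit 1) (nat_lit 0) (nat_lit 300) (nat_lit 286) (nat_lit 134)) (XT.nd (nat_lit 94) (nat_lit 0) (nat_lit 0) (XT.lf (nat_lit 0) (nat_lit 10135760486) (nat_lit 0) (nat_lit 0) (nat_lit 0) (nat_lit 0) (nat_lit 0) (nat_lit 0) (nat_lit 1) (nat_lit 0) (nat_lit 1) (nat_lit 0) (nat_lit 301) (nat_lit 286) (nat_lit 133)) (XT.lf (nat_lit 0) (nat_lit 10135484158) (nat_lit 0) (nat_lit 0) (nat_lit 0) (nat_lit 0) (nat_lit 0) (nat_lit 0) (nat_lit 1) (nat_lit 0) (nat_lit 1) (nat_lit 0) (nat_lit 302) (nat_lit 286) (nat_lit 132)))) (XT.nd (nat_lit 188) (nat_lit 0) (nat_lit 0) (XT.nd (nat_lit 94) (nat_lit 0) (nat_lit 0) (XT.lf (nat_lit 0) (nat_lit 10135220988) (nat_lit 0) (nat_lit 0) (nat_lit 0) (nat_lit 0) (nat_lit 0) (nat_lit 0) (nat_lit 1) (nat_lit 0) (nat_lit 1) (nat_lit 0) (nat_lit 303) (nat_lit 286) (nat_lit 131)) (XT.lf (nat_lit 0)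 (nat_lit 10134970350) (nat_lit 0) (nat_lit 0) (nat_lit 0) (nat_lit 0) (nat_lit 0) (nat_lit 0) (nat_lit 1) (nat_lit 0) (nat_lit 1) (nat_lit 0) (nat_lit 304) (nat_lit 286) (nat_lit 130))) (XT.nd (nat_lit 94) (nat_lit 0) (nat_lit 0) (XT.lf (nat_lit 0) (nat_lit 10134731647) (nat_lit 0) (nat_lit 0) (nat_lit 0) (nat_lit 0) (nat_lit 0) (nat_lit 0) (nat_lit 1) (nat_lit 0) (nat_lit 1) (nat_lit 0) (nat_lit 305) (nat_lit 286) (nat_lit 129)) (XT.lf (nat_lit 0) (nat_lit 10134504311) (nat_lit 0) (nat_lit 0) (nat_lit 0) (nat_lit 0) (nat_lit 0) (nat_lit 0) (nat_lit 1) (nat_lit 0) (nat_lit 1) (nat_lit 0) (nat_lit 306) (nat_lit 286) (nat_lit 128))))) (XT.nd (nat_lit 282) (nat_lit 0) (nat_lit 0) (XT.nd (nat_lit 94) (nat_lit 0) (nat_lit 0) (XT.lf (nat_lit 0) (nat_lit 10134287800) (nat_lit 0) (nat_lit 0) (nat_lit 0) (nat_lit 0) (nat_lit 0) (nat_lit 0) (nat_lit 1) (nat_lit 0) (nat_lit 1) (nat_lit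 0) (nat_lit 307) (nat_lit 286) (nat_lit 127)) (XT.nd (nat_lit 94) (nat_lit 0) (nat_lit 0) (XT.lf (nat_lit 0) (nat_lit 10134081600) (nat_lit 0) (nat_lit 0) (nat_lit 0) (nat_lit 0) (nat_lit 0) (nat_lit 0) (nat_lit 1) (nat_lit 0) (nat_lit 1) (nat_lit 0) (nat_lit 308) (nat_lit 286) (nat_lit 126)) (XT.lf (nat_lit 0) (nat_lit 10133885218) (nat_lit 0) (nat_lit 0) (nat_lit 0) (nat_lit 0) (nat_lit 0) (nat_lit 0) (nat_lit 1) (nat_lit 0) (nat_lit 1) (nat_lit 0) (nat_lit 309) (nat_lit 286) (nat_lit 125)))) (XT.nd (nat_lit 29798) (nat_lit 0) (nat_lit 10752) (XT.nd (nat_lit 94) (nat_lit 0) (nat_lit 0) (XT.lf (nat_lit 0) (nat_lit 10133698188) (nat_lit 0) (nat_lit 0) (nat_lit 0) (nat_lit 0) (nat_lit 0) (nat_lit 0) (nat_lit 1) (nat_lit 0) (nat_lit 1) (nat_lit 0) (nat_lit 310) (nat_lit 286) (nat_lit 124)) (XT.lf (nat_lit 0) (nat_lit 10133520065) (nat_lit 0) (nat_lit 0) (nat_lit 0) (nat_lit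 0) (nat_lit 0) (nat_lit 0) (nat_lit 1) (nat_lit 0) (nat_lit 1) (nat_lit 0) (nat_lit 311) (nat_lit 286) (nat_lit 123))) (XT.nd (nat_lit 94) (nat_lit 0) (nat_lit 0) (XT.lf (nat_lit 924) (nat_lit 5322880732) (nat_lit 0) (nat_lit 9450762505) (nat_lit 924) (nat_lit 5322880732) (nat_lit 139) (nat_lit 1) (nat_lit 128) (nat_lit 0) (nat_lit 139) (nat_lit 0) (nat_lit 146) (nat_lit 287) (nat_lit 287)) (XT.lf (nat_lit 924) (nat_lit 20632150255) (nat_lit 84) (nat_lit 9298330852) (nat_lit 0) (nat_lit 9298330852) (nat_lit 139) (nat_lit 1) (nat_lit 129) (nat_lit 1) (nat_lit 128) (nat_lit 0) (nat_lit 147) (nat_lit 287) (nat_lit 286))))))) (XT.nd (nat_lit 1222) (nat_lit 2772) (nat_lit 0) (XT.nd (nat_lit 564) (nat_lit 1512) (nat_lit 0) (XT.nd (nat_lit 282) (nat_lit 0) (nat_lit 84) (XT.nd (nat_lit 94) (nat_lit 0) (nat_lit 0) (XT.lf (nat_lit 924) (nat_lit 9832972153) (nat_lit 0) (nat_lit 18628441386)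 (nat_lit 840) (nat_lit 9832972153) (nat_lit 140) (nat_lit 1) (nat_lit 129) (nat_lit 1) (nat_lit 139) (nat_lit 1) (nat_lit 148) (nat_lit 287) (nat_lit 285)) (XT.nd (nat_lit 94) (nat_lit 0) (nat_lit 84) (XT.lf (nat_lit 924) (nat_lit 18445289434) (nat_lit 84) (nat_lit 9472429461) (nat_lit 0) (nat_lit 9472429461) (nat_lit 140) (nat_lit 1) (nat_lit 130) (nat_lit 1) (nat_lit 129) (nat_lit 1) (nat_lit 149) (nat_lit 287) (nat_lit 284)) (XT.lf (nat_lit 924) (nat_lit 8490189595) (nat_lit 0) (nat_lit 19534191617) (nat_lit 840) (nat_lit 8490189595) (nat_lit 141) (nat_lit 1) (nat_lit 130) (nat_lit 1) (nat_lit 140) (nat_lit 1) (nat_lit 150) (nat_lit 287) (nat_lit 283)))) (XT.nd (nat_lit 94) (nat_lit 0) (nat_lit 84) (XT.lf (nat_lit 924) (nat_lit 15270158969) (nat_lit 84) (nat_lit 10197762619) (nat_lit 0) (nat_lit 10197762619) (nat_lit 141) (nat_lit 1) (nat_lit 131) (nat_lit 1) (nat_lit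 130) (nat_lit 1) (nat_lit 151) (nat_lit 287) (nat_lit 282)) (XT.nd (nat_lit 94) (nat_lit 0) (nat_lit 0) (XT.lf (nat_lit 924) (nat_lit 6695523666) (nat_lit 0) (nat_lit 21454252948) (nat_lit 840) (nat_lit 6695523666) (nat_lit 142) (nat_lit 1) (nat_lit 131) (nat_lit 1) (nat_lit 141) (nat_lit 1) (nat_lit 152) (nat_lit 287) (nat_lit 281)) (XT.lf (nat_lit 924) (nat_lit 11255380863) (nat_lit 84) (nat_lit 11396061735) (nat_lit 0) (nat_lit 11396061735) (nat_lit 142) (nat_lit 1) (nat_lit 132) (nat_lit 1) (nat_lit 131) (nat_lit 1) (nat_lit 153) (nat_lit 287) (nat_lit 280))))) (XT.nd (nat_lit 282) (nat_lit 1764) (nat_lit 0) (XT.nd (nat_lit 94) (nat_lit 0) (nat_lit 0) (XT.lf (nat_lit 924) (nat_lit 4518449178) (nat_lit 0) (nat_lit 24242013910) (nat_lit 840) (nat_lit 4518449178) (nat_lit 143) (nat_lit 1) (nat_lit 132) (nat_lit 1) (nat_lit 142) (nat_lit 1) (nat_lit 154) (nat_lit 287) (nat_lit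 279)) (XT.nd (nat_lit 94) (nat_lit 0) (nat_lit 84) (XT.lf (nat_lit 924) (nat_lit 6533057651) (nat_lit 84) (nat_lit 12997621557) (nat_lit 0) (nat_lit 12997621557) (nat_lit 143) (nat_lit 1) (nat_lit 133) (nat_lit 1) (nat_lit 132) (nat_lit 1) (nat_lit 155) (nat_lit 287) (nat_lit 278)) (XT.lf (nat_lit 84) (nat_lit 2020674074) (nat_lit 0) (nat_lit 27766984553) (nat_lit 840) (nat_lit 2020674074) (nat_lit 134) (nat_lit 1) (nat_lit 133) (nat_lit 1) (nat_lit 143) (nat_lit 1) (nat_lit 156) (nat_lit 287) (nat_lit 277)))) (XT.nd (nat_lit 188) (nat_lit 420) (nat_lit 0) (XT.nd (nat_lit 94) (nat_lit 588) (nat_lit 0) (XT.lf (nat_lit 924) (nat_lit 1220436891) (nat_lit 0) (nat_lit 14940442766) (nat_lit 840) (nat_lit 14940442766) (nat_lit 134) (nat_lit 1) (nat_lit 123) (nat_lit 1) (nat_lit 133) (nat_lit 1) (nat_lit 157) (nat_lit 287) (nat_lit 276)) (XT.lf (nat_lit 588) (nat_lit 28962504410)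 (nat_lit 0) (nat_lit 731091110) (nat_lit 504) (nat_lit 731091110) (nat_lit 123) (nat_lit 1) (nat_lit 116) (nat_lit 1) (nat_lit 122) (nat_lit 1) (nat_lit 158) (nat_lit 287) (nat_lit 275))) (XT.nd (nat_lit 94) (nat_lit 420) (nat_lit 0) (XT.lf (nat_lit 84) (nat_lit 12662356520) (nat_lit 0) (nat_lit 4432041901) (nat_lit 588) (nat_lit 12662356520) (nat_lit 117) (nat_lit 1) (nat_lit 116) (nat_lit 1) (nat_lit 123) (nat_lit 1) (nat_lit 159) (nat_lit 287) (nat_lit 274)) (XT.lf (nat_lit 504) (nat_lit 21788665285) (nat_lit 0) (nat_lit 3664280106) (nat_lit 420) (nat_lit 3664280106) (nat_lit 117) (nat_lit 1) (nat_lit 111) (nat_lit 1) (nat_lit 116) (nat_lit 1) (nat_lit 160) (nat_lit 287) (nat_lit 273)))))) (XT.nd (nat_lit 658) (nat_lit 1260) (nat_lit 0) (XT.nd (nat_lit 282) (nat_lit 1092) (nat_lit 0) (XT.nd (nat_lit 94) (nat_lit 420) (nat_lit 0) (XT.lf (nat_lit 84) (nat_lit 9031904761)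 (nat_lit 0) (nat_lit 10427331209) (nat_lit 504) (nat_lit 9031904761) (nat_lit 112) (nat_lit 1) (nat_lit 111) (nat_lit 1) (nat_lit 117) (nat_lit 1) (nat_lit 161) (nat_lit 287) (nat_lit 272)) (XT.nd (nat_lit 94) (nat_lit 0) (nat_lit 0) (XT.lf (nat_lit 504) (nat_lit 14348145082) (nat_lit 0) (nat_lit 6769357870) (nat_lit 420) (nat_lit 6769357870) (nat_lit 112) (nat_lit 1) (nat_lit 106) (nat_lit 1) (nat_lit 111) (nat_lit 1) (nat_lit 162) (nat_lit 287) (nat_lit 271)) (XT.lf (nat_lit 84) (nat_lit 5287100775) (nat_lit 0) (nat_lit 16725953858) (nat_lit 504) (nat_lit 5287100775) (nat_lit 107) (nat_lit 1) (nat_lit 106) (nat_lit 1) (nat_lit 112) (nat_lit 1) (nat_lit 163) (nat_lit 287) (nat_lit 270)))) (XT.nd (nat_lit 188) (nat_lit 756) (nat_lit 0) (XT.nd (nat_lit 94) (nat_lit 0) (nat_lit 0) (XT.lf (nat_lit 420) (nat_lit 6710196166) (nat_lit 0) (nat_lit 10009172913) (nat_lit 336) (nat_lit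 10009172913) (nat_lit 107) (nat_lit 1) (nat_lit 102) (nat_lit 1) (nat_lit 106) (nat_lit 1) (nat_lit 164) (nat_lit 287) (nat_lit 269)) (XT.lf (nat_lit 84) (nat_lit 1460093911) (nat_lit 0) (nat_lit 23258722193) (nat_lit 420) (nat_lit 1460093911) (nat_lit 103) (nat_lit 1) (nat_lit 102) (nat_lit 1) (nat_lit 107) (nat_lit 1) (nat_lit 165) (nat_lit 287) (nat_lit 268))) (XT.nd (nat_lit 94) (nat_lit 336) (nat_lit 0) (XT.lf (nat_lit 84) (nat_lit 12303170855) (nat_lit 0) (nat_lit 1030414458) (nat_lit 420) (nat_lit 12303170855) (nat_lit 98) (nat_lit 1) (nat_lit 97) (nat_lit 1) (nat_lit 102) (nat_lit 1) (nat_lit 166) (nat_lit 287) (nat_lit 267)) (XT.lf (nat_lit 420) (nat_lit 20351384825) (nat_lit 0) (nat_lit 2381932022) (nat_lit 336) (nat_lit 2381932022) (nat_lit 98) (nat_lit 1) (nat_lit 93) (nat_lit 1) (nat_lit 97) (nat_lit 1) (nat_lit 167) (nat_lit 287) (nat_lit 266))))) (XT.nd (nat_lit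 282) (nat_lit 924) (nat_lit 0) (XT.nd (nat_lit 94) (nat_lit 336) (nat_lit 0) (XT.lf (nat_lit 84) (nat_lit 7982707837) (nat_lit 0) (nat_lit 8637272468) (nat_lit 420) (nat_lit 7982707837) (nat_lit 94) (nat_lit 1) (nat_lit 93) (nat_lit 1) (nat_lit 98) (nat_lit 1) (nat_lit 168) (nat_lit 287) (nat_lit 265)) (XT.nd (nat_lit 94) (nat_lit 0) (nat_lit 0) (XT.lf (nat_lit 420) (nat_lit 11648991351) (nat_lit 0) (nat_lit 6229454934) (nat_lit 336) (nat_lit 6229454934) (nat_lit 94) (nat_lit 1) (nat_lit 89) (nat_lit 1) (nat_lit 93) (nat_lit 1) (nat_lit 169) (nat_lit 287) (nat_lit 264)) (XT.lf (nat_lit 84) (nat_lit 3673571986) (nat_lit 0) (nat_lit 16280437937) (nat_lit 420) (nat_lit 3673571986) (nat_lit 90) (nat_lit 1) (nat_lit 89) (nat_lit 1) (nat_lit 94) (nat_lit 1) (nat_lit 170) (nat_lit 287) (nat_lit 263)))) (XT.nd (nat_lit 188) (nat_lit 252) (nat_lit 0) (XT.nd (nat_lit 94) (nat_lit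 420) (nat_lit 0) (XT.lf (nat_lit 336) (nat_lit 2987558760) (nat_lit 0) (nat_lit 10085036005) (nat_lit 252) (nat_lit 10085036005) (nat_lit 90) (nat_lit 1) (nat_lit 86) (nat_lit 1) (nat_lit 89) (nat_lit 1) (nat_lit 171) (nat_lit 287) (nat_lit 262)) (XT.lf (nat_lit 420) (nat_lit 21511983040) (nat_lit 0) (nat_lit 596916252) (nat_lit 336) (nat_lit 596916252) (nat_lit 86) (nat_lit 1) (nat_lit 81) (nat_lit 1) (nat_lit 85) (nat_lit 1) (nat_lit 172) (nat_lit 287) (nat_lit 261))) (XT.nd (nat_lit 94) (nat_lit 252) (nat_lit 0) (XT.lf (nat_lit 84) (nat_lit 8417797999) (nat_lit 0) (nat_lit 5420905063) (nat_lit 420) (nat_lit 8417797999) (nat_lit 82) (nat_lit 1) (nat_lit 81) (nat_lit 1) (nat_lit 86) (nat_lit 1) (nat_lit 173) (nat_lit 287) (nat_lit 260)) (XT.lf (nat_lit 336) (nat_lit 12294460100) (nat_lit 0) (nat_lit 4764979442) (nat_lit 252) (nat_lit 4764979442) (nat_lit 82) (nat_lit 1)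 (nat_lit 78) (nat_lit 1) (nat_lit 81) (nat_lit 1) (nat_lit 174) (nat_lit 287) (nat_lit 259))))))))
noncomputable def ec137 : XT := (XT.nd (nat_lit 2538) (nat_lit 2268) (nat_lit 0) (XT.nd (nat_lit 1222) (nat_lit 1596) (nat_lit 0) (XT.nd (nat_lit 564) (nat_lit 1092) (nat_lit 0) (XT.nd (nat_lit 282) (nat_lit 252) (nat_lit 0) (XT.nd (nat_lit 94) (nat_lit 588) (nat_lit 0) (XT.lf (nat_lit 84) (nat_lit 3884010121) (nat_lit 0) (nat_lit 13635294452) (nat_lit 336) (nat_lit 3884010121) (nat_lit 79) (nat_lit 1) (nat_lit 78) (nat_lit 1) (nat_lit 82) (nat_lit 1) (nat_lit 175) (nat_lit 287) (nat_lit 258)) (XT.nd (nat_lit 94) (nat_lit 336) (nat_lit 0) (XT.lf (nat_lit 336) (nat_lit 3237201037) (nat_lit 0) (nat_lit 8877294689) (nat_lit 252) (nat_lit 8877294689) (nat_lit 79) (nat_lit 1) (nat_lit 75) (nat_lit 1) (nat_lit 78) (nat_lit 1) (nat_lit 176) (nat_lit 287) (nat_lit 257)) (XT.lf (nat_lit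 336) (nat_lit 19482861908) (nat_lit 0) (nat_lit 556346438) (nat_lit 252) (nat_lit 556346438) (nat_lit 75) (nat_lit 1) (nat_lit 71) (nat_lit 1) (nat_lit 74) (nat_lit 1) (nat_lit 177) (nat_lit 287) (nat_lit 256)))) (XT.nd (nat_lit 94) (nat_lit 252) (nat_lit 0) (XT.lf (nat_lit 84) (nat_lit 7369808705) (nat_lit 0) (nat_lit 5460954249) (nat_lit 336) (nat_lit 7369808705) (nat_lit 72) (nat_lit 1) (nat_lit 71) (nat_lit 1) (nat_lit 75) (nat_lit 1) (nat_lit 178) (nat_lit 287) (nat_lit 255)) (XT.nd (nat_lit 94) (nat_lit 0) (nat_lit 0) (XT.lf (nat_lit 336) (nat_lit 10134161793) (nat_lit 0) (nat_lit 4843020592) (nat_lit 252) (nat_lit 4843020592) (nat_lit 72) (nat_lit 1) (nat_lit 68) (nat_lit 1) (nat_lit 71) (nat_lit 1) (nat_lit 179) (nat_lit 287) (nat_lit 254)) (XT.lf (nat_lit 84) (nat_lit 2790939892) (nat_lit 0) (nat_lit 13868156168) (nat_lit 336) (nat_lit 2790939892) (nat_lit 69) (nat_lit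 1) (nat_lit 68) (nat_lit 1) (nat_lit 72) (nat_lit 1) (nat_lit 180) (nat_lit 287) (nat_lit 253))))) (XT.nd (nat_lit 282) (nat_lit 588) (nat_lit 0) (XT.nd (nat_lit 94) (nat_lit 336) (nat_lit 0) (XT.lf (nat_lit 252) (nat_lit 1022693173) (nat_lit 0) (nat_lit 9032075666) (nat_lit 168) (nat_lit 9032075666) (nat_lit 69) (nat_lit 1) (nat_lit 66) (nat_lit 1) (nat_lit 68) (nat_lit 1) (nat_lit 181) (nat_lit 287) (nat_lit 252)) (XT.nd (nat_lit 94) (nat_lit 0) (nat_lit 0) (XT.lf (nat_lit 336) (nat_lit 15452550929) (nat_lit 0) (nat_lit 1641172914) (nat_lit 252) (nat_lit 1641172914) (nat_lit 66) (nat_lit 1) (nat_lit 62) (nat_lit 1) (nat_lit 65) (nat_lit 1) (nat_lit 182) (nat_lit 287) (nat_lit 251)) (XT.lf (nat_lit 84) (nat_lit 5397209240) (nat_lit 0) (nat_lit 7592466723) (nat_lit 336) (nat_lit 5397209240) (nat_lit 63) (nat_lit 1) (nat_lit 62) (nat_lit 1) (nat_lit 66) (nat_lit 1) (nat_lit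 183) (nat_lit 287) (nat_lit 250)))) (XT.nd (nat_lit 188) (nat_lit 420) (nat_lit 0) (XT.nd (nat_lit 94) (nat_lit 0) (nat_lit 0) (XT.lf (nat_lit 252) (nat_lit 6235642722) (nat_lit 0) (nat_lit 5906985759) (nat_lit 168) (nat_lit 5906985759) (nat_lit 63) (nat_lit 1) (nat_lit 60) (nat_lit 1) (nat_lit 62) (nat_lit 1) (nat_lit 184) (nat_lit 287) (nat_lit 249)) (XT.lf (nat_lit 84) (nat_lit 895863936) (nat_lit 0) (nat_lit 15931808136) (nat_lit 252) (nat_lit 895863936) (nat_lit 61) (nat_lit 1) (nat_lit 60) (nat_lit 1) (nat_lit 63) (nat_lit 1) (nat_lit 185) (nat_lit 287) (nat_lit 248))) (XT.nd (nat_lit 94) (nat_lit 168) (nat_lit 0) (XT.lf (nat_lit 84) (nat_lit 7393722240) (nat_lit 0) (nat_lit 2611198613) (nat_lit 252) (nat_lit 7393722240) (nat_lit 58) (nat_lit 1) (nat_lit 57) (nat_lit 1) (nat_lit 60) (nat_lit 1) (nat_lit 186) (nat_lit 287) (nat_lit 247)) (XT.lf (nat_lit 252) (nat_lit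 10267479191) (nat_lit 0) (nat_lit 3408524904) (nat_lit 168) (nat_lit 3408524904) (nat_lit 58) (nat_lit 1) (nat_lit 55) (nat_lit 1) (nat_lit 57) (nat_lit 1) (nat_lit 187) (nat_lit 287) (nat_lit 246)))))) (XT.nd (nat_lit 658) (nat_lit 840) (nat_lit 0) (XT.nd (nat_lit 282) (nat_lit 336) (nat_lit 0) (XT.nd (nat_lit 94) (nat_lit 420) (nat_lit 0) (XT.lf (nat_lit 84) (nat_lit 2897215507) (nat_lit 0) (nat_lit 10982926501) (nat_lit 252) (nat_lit 2897215507) (nat_lit 56) (nat_lit 1) (nat_lit 55) (nat_lit 1) (nat_lit 58) (nat_lit 1) (nat_lit 188) (nat_lit 287) (nat_lit 245)) (XT.nd (nat_lit 94) (nat_lit 252) (nat_lit 0) (XT.lf (nat_lit 252) (nat_lit 1357241155) (nat_lit 0) (nat_lit 7559568330) (nat_lit 168) (nat_lit 7559568330) (nat_lit 56) (nat_lit 1) (nat_lit 53) (nat_lit 1) (nat_lit 55) (nat_lit 1) (nat_lit 189) (nat_lit 287) (nat_lit 244)) (XT.lf (nat_lit 252) (nat_lit 13339842915)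 (nat_lit 0) (nat_lit 1422138161) (nat_lit 168) (nat_lit 1422138161) (nat_lit 53) (nat_lit 1) (nat_lit 50) (nat_lit 1) (nat_lit 52) (nat_lit 1) (nat_lit 190) (nat_lit 287) (nat_lit 243)))) (XT.nd (nat_lit 188) (nat_lit 168) (nat_lit 0) (XT.nd (nat_lit 94) (nat_lit 168) (nat_lit 0) (XT.lf (nat_lit 84) (nat_lit 4440866396) (nat_lit 0) (nat_lit 7012622260) (nat_lit 252) (nat_lit 4440866396) (nat_lit 51) (nat_lit 1) (nat_lit 50) (nat_lit 1) (nat_lit 53) (nat_lit 1) (nat_lit 191) (nat_lit 287) (nat_lit 242)) (XT.lf (nat_lit 252) (nat_lit 4522806818) (nat_lit 0) (nat_lit 5545098152) (nat_lit 168) (nat_lit 5545098152) (nat_lit 51) (nat_lit 1) (nat_lit 48) (nat_lit 1) (nat_lit 50) (nat_lit 1) (nat_lit 192) (nat_lit 287) (nat_lit 241))) (XT.nd (nat_lit 94) (nat_lit 168) (nat_lit 0) (XT.lf (nat_lit 84) (nat_lit 148652186) (nat_lit 0) (nat_lit 15044213848) (nat_lit 252) (nat_lit 148652186)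 (nat_lit 49) (nat_lit 1) (nat_lit 48) (nat_lit 1) (nat_lit 51) (nat_lit 1) (nat_lit 193) (nat_lit 287) (nat_lit 240)) (XT.lf (nat_lit 84) (nat_lit 5612864182) (nat_lit 0) (nat_lit 3842579256) (nat_lit 168) (nat_lit 5612864182) (nat_lit 47) (nat_lit 1) (nat_lit 46) (nat_lit 1) (nat_lit 48) (nat_lit 1) (nat_lit 194) (nat_lit 287) (nat_lit 239))))) (XT.nd (nat_lit 282) (nat_lit 504) (nat_lit 0) (XT.nd (nat_lit 94) (nat_lit 168) (nat_lit 0) (XT.lf (nat_lit 252) (nat_lit 6964925467) (nat_lit 0) (nat_lit 3919892239) (nat_lit 168) (nat_lit 3919892239) (nat_lit 47) (nat_lit 1) (nat_lit 44) (nat_lit 1) (nat_lit 46) (nat_lit 1) (nat_lit 195) (nat_lit 287) (nat_lit 238)) (XT.nd (nat_lit 94) (nat_lit 168) (nat_lit 0) (XT.lf (nat_lit 84) (nat_lit 1396419419) (nat_lit 0) (nat_lit 11755388599) (nat_lit 252) (nat_lit 1396419419) (nat_lit 45) (nat_lit 1) (nat_lit 44) (nat_lit 1) (nat_lit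 47) (nat_lit 1) (nat_lit 196) (nat_lit 287) (nat_lit 237)) (XT.lf (nat_lit 84) (nat_lit 6483767166) (nat_lit 0) (nat_lit 1326325719) (nat_lit 168) (nat_lit 6483767166) (nat_lit 43) (nat_lit 1) (nat_lit 42) (nat_lit 1) (nat_lit 44) (nat_lit 1) (nat_lit 197) (nat_lit 287) (nat_lit 236)))) (XT.nd (nat_lit 188) (nat_lit 336) (nat_lit 0) (XT.nd (nat_lit 94) (nat_lit 0) (nat_lit 0) (XT.lf (nat_lit 252) (nat_lit 8819586281) (nat_lit 0) (nat_lit 2613406251) (nat_lit 168) (nat_lit 2613406251) (nat_lit 43) (nat_lit 1) (nat_lit 40) (nat_lit 1) (nat_lit 42) (nat_lit 1) (nat_lit 198) (nat_lit 287) (nat_lit 235)) (XT.lf (nat_lit 84) (nat_lit 2362288091) (nat_lit 0) (nat_lit 9079260278) (nat_lit 252) (nat_lit 2362288091) (nat_lit 41) (nat_lit 1) (nat_lit 40) (nat_lit 1) (nat_lit 43) (nat_lit 1) (nat_lit 199) (nat_lit 287) (nat_lit 234))) (XT.nd (nat_lit 94) (nat_lit 252) (nat_lit 0) (XT.lf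 (nat_lit 168) (nat_lit 678126885) (nat_lit 0) (nat_lit 6443862262) (nat_lit 84) (nat_lit 6443862262) (nat_lit 41) (nat_lit 1) (nat_lit 39) (nat_lit 1) (nat_lit 40) (nat_lit 1) (nat_lit 200) (nat_lit 287) (nat_lit 233)) (XT.lf (nat_lit 252) (nat_lit 10198300090) (nat_lit 0) (nat_lit 1567675986) (nat_lit 168) (nat_lit 1567675986) (nat_lit 39) (nat_lit 1) (nat_lit 36) (nat_lit 1) (nat_lit 38) (nat_lit 1) (nat_lit 201) (nat_lit 287) (nat_lit 232))))))) (XT.nd (nat_lit 1222) (nat_lit 1092) (nat_lit 0) (XT.nd (nat_lit 564) (nat_lit 504) (nat_lit 0) (XT.nd (nat_lit 282) (nat_lit 336) (nat_lit 0) (XT.nd (nat_lit 94) (nat_lit 336) (nat_lit 0) (XT.lf (nat_lit 84) (nat_lit 3099127287) (nat_lit 0) (nat_lit 6905789887) (nat_lit 252) (nat_lit 3099127287) (nat_lit 37) (nat_lit 1) (nat_lit 36) (nat_lit 1) (nat_lit 39) (nat_lit 1) (nat_lit 202) (nat_lit 287) (nat_lit 231)) (XT.nd (nat_lit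 94) (nat_lit 252) (nat_lit 0) (XT.lf (nat_lit 168) (nat_lit 2277303708) (nat_lit 0) (nat_lit 5301381430) (nat_lit 84) (nat_lit 5301381430) (nat_lit 37) (nat_lit 1) (nat_lit 35) (nat_lit 1) (nat_lit 36) (nat_lit 1) (nat_lit 203) (nat_lit 287) (nat_lit 230)) (XT.lf (nat_lit 252) (nat_lit 11192456847) (nat_lit 0) (nat_lit 735083480) (nat_lit 168) (nat_lit 735083480) (nat_lit 35) (nat_lit 1) (nat_lit 32) (nat_lit 1) (nat_lit 34) (nat_lit 1) (nat_lit 204) (nat_lit 287) (nat_lit 229)))) (XT.nd (nat_lit 94) (nat_lit 336) (nat_lit 0) (XT.lf (nat_lit 84) (nat_lit 3650294953) (nat_lit 0) (nat_lit 5144515179) (nat_lit 252) (nat_lit 3650294953) (nat_lit 33) (nat_lit 1) (nat_lit 32) (nat_lit 1) (nat_lit 35) (nat_lit 1) (nat_lit 205) (nat_lit 287) (nat_lit 228)) (XT.nd (nat_lit 94) (nat_lit 252) (nat_lit 0) (XT.lf (nat_lit 168) (nat_lit 3511073912) (nat_lit 0) (nat_lit 4361459622) (nat_lit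 84) (nat_lit 4361459622) (nat_lit 33) (nat_lit 1) (nat_lit 31) (nat_lit 1) (nat_lit 32) (nat_lit 1) (nat_lit 206) (nat_lit 287) (nat_lit 227)) (XT.lf (nat_lit 252) (nat_lit 11876909685) (nat_lit 0) (nat_lit 76519348) (nat_lit 168) (nat_lit 76519348) (nat_lit 31) (nat_lit 1) (nat_lit 28) (nat_lit 1) (nat_lit 30) (nat_lit 1) (nat_lit 207) (nat_lit 287) (nat_lit 226))))) (XT.nd (nat_lit 282) (nat_lit 420) (nat_lit 0) (XT.nd (nat_lit 94) (nat_lit 84) (nat_lit 0) (XT.lf (nat_lit 84) (nat_lit 4051330753) (nat_lit 0) (nat_lit 3721076559) (nat_lit 252) (nat_lit 4051330753) (nat_lit 29) (nat_lit 1) (nat_lit 28) (nat_lit 1) (nat_lit 31) (nat_lit 1) (nat_lit 208) (nat_lit 287) (nat_lit 225)) (XT.nd (nat_lit 94) (nat_lit 0) (nat_lit 0) (XT.lf (nat_lit 168) (nat_lit 4448122068) (nat_lit 0) (nat_lit 3588183625) (nat_lit 84) (nat_lit 3588183625) (nat_lit 29) (nat_lit 1) (nat_lit 27) (nat_lit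 1) (nat_lit 28) (nat_lit 1) (nat_lit 209) (nat_lit 287) (nat_lit 224)) (XT.lf (nat_lit 0) (nat_lit 447344142) (nat_lit 0) (nat_lit 10536567940) (nat_lit 168) (nat_lit 447344142) (nat_lit 27) (nat_lit 3) (nat_lit 27) (nat_lit 1) (nat_lit 29) (nat_lit 1) (nat_lit 210) (nat_lit 287) (nat_lit 223)))) (XT.nd (nat_lit 188) (nat_lit 168) (nat_lit 0) (XT.nd (nat_lit 94) (nat_lit 84) (nat_lit 0) (XT.lf (nat_lit 84) (nat_lit 4331348467) (nat_lit 0) (nat_lit 2574359074) (nat_lit 168) (nat_lit 4331348467) (nat_lit 26) (nat_lit 1) (nat_lit 25) (nat_lit 1) (nat_lit 27) (nat_lit 1) (nat_lit 211) (nat_lit 287) (nat_lit 222)) (XT.lf (nat_lit 168) (nat_lit 5144769483) (nat_lit 0) (nat_lit 2952007548) (nat_lit 84) (nat_lit 2952007548) (nat_lit 26) (nat_lit 1) (nat_lit 24) (nat_lit 1) (nat_lit 25) (nat_lit 1) (nat_lit 212) (nat_lit 287) (nat_lit 221))) (XT.nd (nat_lit 94) (nat_lit 168) (nat_lit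 0) (XT.lf (nat_lit 0) (nat_lit 855010952) (nat_lit 0) (nat_lit 9155440340) (nat_lit 168) (nat_lit 855010952) (nat_lit 24) (nat_lit 3) (nat_lit 24) (nat_lit 1) (nat_lit 26) (nat_lit 1) (nat_lit 213) (nat_lit 287) (nat_lit 220)) (XT.lf (nat_lit 84) (nat_lit 4514181227) (nat_lit 0) (nat_lit 1654141277) (nat_lit 168) (nat_lit 4514181227) (nat_lit 23) (nat_lit 1) (nat_lit 22) (nat_lit 1) (nat_lit 24) (nat_lit 1) (nat_lit 214) (nat_lit 287) (nat_lit 219)))))) (XT.nd (nat_lit 658) (nat_lit 504) (nat_lit 0) (XT.nd (nat_lit 282) (nat_lit 336) (nat_lit 0) (XT.nd (nat_lit 94) (nat_lit 168) (nat_lit 0) (XT.lf (nat_lit 168) (nat_lit 5647175014) (nat_lit 0) (nat_lit 2428623915) (nat_lit 84) (nat_lit 2428623915) (nat_lit 23) (nat_lit 1) (nat_lit 21) (nat_lit 1) (nat_lit 22) (nat_lit 1) (nat_lit 215) (nat_lit 287) (nat_lit 218)) (XT.nd (nat_lit 94) (nat_lit 168) (nat_lit 0) (XT.lf (nat_lit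 0) (nat_lit 1167209930) (nat_lit 0) (nat_lit 7995993730) (nat_lit 168) (nat_lit 1167209930) (nat_lit 21) (nat_lit 3) (nat_lit 21) (nat_lit 1) (nat_lit 23) (nat_lit 1) (nat_lit 216) (nat_lit 287) (nat_lit 217)) (XT.lf (nat_lit 84) (nat_lit 4619323423) (nat_lit 0) (nat_lit 919161070) (nat_lit 168) (nat_lit 4619323423) (nat_lit 20) (nat_lit 1) (nat_lit 19) (nat_lit 1) (nat_lit 21) (nat_lit 1) (nat_lit 217) (nat_lit 287) (nat_lit 216)))) (XT.nd (nat_lit 188) (nat_lit 252) (nat_lit 0) (XT.nd (nat_lit 94) (nat_lit 0) (nat_lit 0) (XT.lf (nat_lit 168) (nat_lit 5993145268) (nat_lit 0) (nat_lit 1998034905) (nat_lit 84) (nat_lit 1998034905) (nat_lit 20) (nat_lit 1) (nat_lit 18) (nat_lit 1) (nat_lit 19) (nat_lit 1) (nat_lit 218) (nat_lit 287) (nat_lit 215)) (XT.lf (nat_lit 0) (nat_lit 1401971550) (nat_lit 0) (nat_lit 7020028881) (nat_lit 168) (nat_lit 1401971550) (nat_lit 18) (nat_lit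 3) (nat_lit 18) (nat_lit 1) (nat_lit 20) (nat_lit 1) (nat_lit 219) (nat_lit 287) (nat_lit 214))) (XT.nd (nat_lit 94) (nat_lit 84) (nat_lit 0) (XT.lf (nat_lit 84) (nat_lit 4662705341) (nat_lit 0) (nat_lit 335524609) (nat_lit 168) (nat_lit 4662705341) (nat_lit 17) (nat_lit 1) (nat_lit 16) (nat_lit 1) (nat_lit 18) (nat_lit 1) (nat_lit 220) (nat_lit 287) (nat_lit 213)) (XT.lf (nat_lit 168) (nat_lit 6213623451) (nat_lit 0) (nat_lit 1643788261) (nat_lit 84) (nat_lit 1643788261) (nat_lit 17) (nat_lit 1) (nat_lit 15) (nat_lit 1) (nat_lit 16) (nat_lit 1) (nat_lit 221) (nat_lit 287) (nat_lit 212))))) (XT.nd (nat_lit 282) (nat_lit 252) (nat_lit 0) (XT.nd (nat_lit 94) (nat_lit 252) (nat_lit 0) (XT.lf (nat_lit 0) (nat_lit 1574076941) (nat_lit 0) (nat_lit 6196066612) (nat_lit 168) (nat_lit 1574076941) (nat_lit 15) (nat_lit 3) (nat_lit 15) (nat_lit 1) (nat_lit 17) (nat_lit 1) (nat_lit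 222) (nat_lit 287) (nat_lit 211)) (XT.nd (nat_lit 94) (nat_lit 168) (nat_lit 0) (XT.lf (nat_lit 84) (nat_lit 128722499) (nat_lit 0) (nat_lit 4530617423) (nat_lit 84) (nat_lit 4530617423) (nat_lit 15) (nat_lit 3) (nat_lit 14) (nat_lit 1) (nat_lit 15) (nat_lit 1) (nat_lit 223) (nat_lit 287) (nat_lit 210)) (XT.lf (nat_lit 168) (nat_lit 6333913874) (nat_lit 0) (nat_lit 1352348670) (nat_lit 84) (nat_lit 1352348670) (nat_lit 14) (nat_lit 1) (nat_lit 12) (nat_lit 1) (nat_lit 13) (nat_lit 1) (nat_lit 224) (nat_lit 287) (nat_lit 209)))) (XT.nd (nat_lit 188) (nat_lit 168) (nat_lit 0) (XT.nd (nat_lit 94) (nat_lit 84) (nat_lit 0) (XT.lf (nat_lit 0) (nat_lit 1695636498) (nat_lit 0) (nat_lit 5498158838) (nat_lit 168) (nat_lit 1695636498) (nat_lit 12) (nat_lit 3) (nat_lit 12) (nat_lit 1) (nat_lit 14) (nat_lit 1) (nat_lit 225) (nat_lit 287) (nat_lit 208)) (XT.lf (nat_lit 84) (nat_lit 500077894)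 (nat_lit 0) (nat_lit 4121527742) (nat_lit 84) (nat_lit 4121527742) (nat_lit 12) (nat_lit 3) (nat_lit 11) (nat_lit 1) (nat_lit 12) (nat_lit 1) (nat_lit 226) (nat_lit 287) (nat_lit 207))) (XT.nd (nat_lit 94) (nat_lit 0) (nat_lit 0) (XT.lf (nat_lit 168) (nat_lit 6374688984) (nat_lit 0) (nat_lit 1112580598) (nat_lit 84) (nat_lit 1112580598) (nat_lit 11) (nat_lit 1) (nat_lit 9) (nat_lit 1) (nat_lit 10) (nat_lit 1) (nat_lit 227) (nat_lit 287) (nat_lit 206)) (XT.lf (nat_lit 0) (nat_lit 1776565774) (nat_lit 0) (nat_lit 4904910314) (nat_lit 168) (nat_lit 1776565774) (nat_lit 9) (nat_lit 3) (nat_lit 9) (nat_lit 1) (nat_lit 11) (nat_lit 1) (nat_lit 228) (nat_lit 287) (nat_lit 205))))))))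
noncomputable def ec138 : XT := (XT.nd (nat_lit 2538) (nat_lit 0) (nat_lit 0) (XT.nd (nat_lit 1222) (nat_lit 0) (nat_lit 0) (XT.nd (nat_lit 564) (nat_lit 252) (nat_lit 0) (XT.nd (nat_lit 282) (nat_lit 252) (nat_lit 0) (XT.nd (nat_lit 94) (nat_lit 168) (nat_lit 0) (XT.lf (nat_lit 84) (nat_lit 786822535) (nat_lit 0) (nat_lit 3766198287) (nat_lit 84) (nat_lit 3766198287) (nat_lit 9) (nat_lit 3) (nat_lit 8) (nat_lit 1) (nat_lit 9) (nat_lit 1) (nat_lit 229) (nat_lit 287) (nat_lit 204)) (XT.nd (nat_lit 94) (nat_lit 0) (nat_lit 0) (XT.lf (nat_lit 168) (nat_lit 6352817512) (nat_lit 0) (nat_lit 915322811) (nat_lit 84) (nat_lit 915322811) (nat_lit 8) (nat_lit 1) (nat_lit 6) (nat_lit 1) (nat_lit 7) (nat_lit 1) (nat_lit 230) (nat_lit 287) (nat_lit 203)) (XT.lf (nat_lit 0) (nat_lit 1824976898) (nat_lit 0) (nat_lit 4398673693) (nat_lit 168) (nat_lit 1824976898) (nat_lit 6) (nat_lit 3)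 (nat_lit 6) (nat_lit 1) (nat_lit 8) (nat_lit 1) (nat_lit 231) (nat_lit 287) (nat_lit 202)))) (XT.nd (nat_lit 94) (nat_lit 168) (nat_lit 0) (XT.lf (nat_lit 84) (nat_lit 1004851527) (nat_lit 0) (nat_lit 3455991332) (nat_lit 84) (nat_lit 3455991332) (nat_lit 6) (nat_lit 3) (nat_lit 5) (nat_lit 1) (nat_lit 6) (nat_lit 1) (nat_lit 232) (nat_lit 287) (nat_lit 201)) (XT.nd (nat_lit 94) (nat_lit 0) (nat_lit 0) (XT.lf (nat_lit 168) (nat_lit 6282045460) (nat_lit 0) (nat_lit 753038342) (nat_lit 84) (nat_lit 753038342) (nat_lit 5) (nat_lit 1) (nat_lit 3) (nat_lit 1) (nat_lit 4) (nat_lit 1) (nat_lit 233) (nat_lit 287) (nat_lit 200)) (XT.lf (nat_lit 0) (nat_lit 1847500476) (nat_lit 0) (nat_lit 3964887199) (nat_lit 168) (nat_lit 1847500476) (nat_lit 3) (nat_lit 3) (nat_lit 3) (nat_lit 1) (nat_lit 5) (nat_lit 1) (nat_lit 234) (nat_lit 287) (nat_lit 199))))) (XT.nd (nat_lit 282) (nat_lit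 0) (nat_lit 0) (XT.nd (nat_lit 94) (nat_lit 168) (nat_lit 0) (XT.lf (nat_lit 84) (nat_lit 1167199248) (nat_lit 0) (nat_lit 3183758032) (nat_lit 84) (nat_lit 3183758032) (nat_lit 3) (nat_lit 3) (nat_lit 2) (nat_lit 1) (nat_lit 3) (nat_lit 1) (nat_lit 235) (nat_lit 287) (nat_lit 198)) (XT.nd (nat_lit 94) (nat_lit 0) (nat_lit 0) (XT.lf (nat_lit 0) (nat_lit 10768208316) (nat_lit 0) (nat_lit 0) (nat_lit 0) (nat_lit 0) (nat_lit 0) (nat_lit 0) (nat_lit 1) (nat_lit 0) (nat_lit 1) (nat_lit 0) (nat_lit 236) (nat_lit 287) (nat_lit 197)) (XT.lf (nat_lit 0) (nat_lit 10761934371) (nat_lit 0) (nat_lit 0) (nat_lit 0) (nat_lit 0) (nat_lit 0) (nat_lit 0) (nat_lit 1) (nat_lit 0) (nat_lit 1) (nat_lit 0) (nat_lit 237) (nat_lit 287) (nat_lit 196)))) (XT.nd (nat_lit 188) (nat_lit 0) (nat_lit 0) (XT.nd (nat_lit 94) (nat_lit 0) (nat_lit 0) (XT.lf (nat_lit 0) (nat_lit 10755959185) (nat_lit 0) (nat_lit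 0) (nat_lit 0) (nat_lit 0) (nat_lit 0) (nat_lit 0) (nat_lit 1) (nat_lit 0) (nat_lit 1) (nat_lit 0) (nat_lit 238) (nat_lit 287) (nat_lit 195)) (XT.lf (nat_lit 0) (nat_lit 10750268532) (nat_lit 0) (nat_lit 0) (nat_lit 0) (nat_lit 0) (nat_lit 0) (nat_lit 0) (nat_lit 1) (nat_lit 0) (nat_lit 1) (nat_lit 0) (nat_lit 239) (nat_lit 287) (nat_lit 194))) (XT.nd (nat_lit 94) (nat_lit 0) (nat_lit 0) (XT.lf (nat_lit 0) (nat_lit 10744848862) (nat_lit 0) (nat_lit 0) (nat_lit 0) (nat_lit 0) (nat_lit 0) (nat_lit 0) (nat_lit 1) (nat_lit 0) (nat_lit 1) (nat_lit 0) (nat_lit 240) (nat_lit 287) (nat_lit 193)) (XT.lf (nat_lit 0) (nat_lit 10739687272) (nat_lit 0) (nat_lit 0) (nat_lit 0) (nat_lit 0) (nat_lit 0) (nat_lit 0) (nat_lit 1) (nat_lit 0) (nat_lit 1) (nat_lit 0) (nat_lit 241) (nat_lit 287) (nat_lit 192)))))) (XT.nd (nat_lit 658) (nat_lit 0) (nat_lit 0) (XT.nd (nat_lit 282) (nat_lit 0) (nat_lit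 0) (XT.nd (nat_lit 94) (nat_lit 0) (nat_lit 0) (XT.lf (nat_lit 0) (nat_lit 10734771472) (nat_lit 0) (nat_lit 0) (nat_lit 0) (nat_lit 0) (nat_lit 0) (nat_lit 0) (nat_lit 1) (nat_lit 0) (nat_lit 1) (nat_lit 0) (nat_lit 242) (nat_lit 287) (nat_lit 191)) (XT.nd (nat_lit 94) (nat_lit 0) (nat_lit 0) (XT.lf (nat_lit 0) (nat_lit 10730089757) (nat_lit 0) (nat_lit 0) (nat_lit 0) (nat_lit 0) (nat_lit 0) (nat_lit 0) (nat_lit 1) (nat_lit 0) (nat_lit 1) (nat_lit 0) (nat_lit 243) (nat_lit 287) (nat_lit 190)) (XT.lf (nat_lit 0) (nat_lit 10725630982) (nat_lit 0) (nat_lit 0) (nat_lit 0) (nat_lit 0) (nat_lit 0) (nat_lit 0) (nat_lit 1) (nat_lit 0) (nat_lit 1) (nat_lit 0) (nat_lit 244) (nat_lit 287) (nat_lit 189)))) (XT.nd (nat_lit 188) (nat_lit 0) (nat_lit 0) (XT.nd (nat_lit 94) (nat_lit 0) (nat_lit 0) (XT.lf (nat_lit 0) (nat_lit 10721384529) (nat_lit 0) (nat_lit 0) (nat_lit 0) (nat_lit 0)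 (nat_lit 0) (nat_lit 0) (nat_lit 1) (nat_lit 0) (nat_lit 1) (nat_lit 0) (nat_lit 245) (nat_lit 287) (nat_lit 188)) (XT.lf (nat_lit 0) (nat_lit 10717340288) (nat_lit 0) (nat_lit 0) (nat_lit 0) (nat_lit 0) (nat_lit 0) (nat_lit 0) (nat_lit 1) (nat_lit 0) (nat_lit 1) (nat_lit 0) (nat_lit 246) (nat_lit 287) (nat_lit 187))) (XT.nd (nat_lit 94) (nat_lit 0) (nat_lit 0) (XT.lf (nat_lit 0) (nat_lit 10713488630) (nat_lit 0) (nat_lit 0) (nat_lit 0) (nat_lit 0) (nat_lit 0) (nat_lit 0) (nat_lit 1) (nat_lit 0) (nat_lit 1) (nat_lit 0) (nat_lit 247) (nat_lit 287) (nat_lit 186)) (XT.lf (nat_lit 0) (nat_lit 10709820384) (nat_lit 0) (nat_lit 0) (nat_lit 0) (nat_lit 0) (nat_lit 0) (nat_lit 0) (nat_lit 1) (nat_lit 0) (nat_lit 1) (nat_lit 0) (nat_lit 248) (nat_lit 287) (nat_lit 185))))) (XT.nd (nat_lit 282) (nat_lit 0) (nat_lit 0) (XT.nd (nat_lit 94) (nat_lit 0) (nat_lit 0) (XT.lf (nat_lit 0)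 (nat_lit 10706326817) (nat_lit 0) (nat_lit 0) (nat_lit 0) (nat_lit 0) (nat_lit 0) (nat_lit 0) (nat_lit 1) (nat_lit 0) (nat_lit 1) (nat_lit 0) (nat_lit 249) (nat_lit 287) (nat_lit 184)) (XT.nd (nat_lit 94) (nat_lit 0) (nat_lit 0) (XT.lf (nat_lit 0) (nat_lit 10702999610) (nat_lit 0) (nat_lit 0) (nat_lit 0) (nat_lit 0) (nat_lit 0) (nat_lit 0) (nat_lit 1) (nat_lit 0) (nat_lit 1) (nat_lit 0) (nat_lit 250) (nat_lit 287) (nat_lit 183)) (XT.lf (nat_lit 0) (nat_lit 10699830841) (nat_lit 0) (nat_lit 0) (nat_lit 0) (nat_lit 0) (nat_lit 0) (nat_lit 0) (nat_lit 1) (nat_lit 0) (nat_lit 1) (nat_lit 0) (nat_lit 251) (nat_lit 287) (nat_lit 182)))) (XT.nd (nat_lit 188) (nat_lit 0) (nat_lit 0) (XT.nd (nat_lit 94) (nat_lit 0) (nat_lit 0) (XT.lf (nat_lit 0) (nat_lit 10696812966) (nat_lit 0) (nat_lit 0) (nat_lit 0) (nat_lit 0) (nat_lit 0) (nat_lit 0) (nat_lit 1) (nat_lit 0) (nat_lit 1) (nat_lit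 0) (nat_lit 252) (nat_lit 287) (nat_lit 181)) (XT.lf (nat_lit 0) (nat_lit 10693938799) (nat_lit 0) (nat_lit 0) (nat_lit 0) (nat_lit 0) (nat_lit 0) (nat_lit 0) (nat_lit 1) (nat_lit 0) (nat_lit 1) (nat_lit 0) (nat_lit 253) (nat_lit 287) (nat_lit 180))) (XT.nd (nat_lit 94) (nat_lit 0) (nat_lit 0) (XT.lf (nat_lit 0) (nat_lit 10691201498) (nat_lit 0) (nat_lit 0) (nat_lit 0) (nat_lit 0) (nat_lit 0) (nat_lit 0) (nat_lit 1) (nat_lit 0) (nat_lit 1) (nat_lit 0) (nat_lit 254) (nat_lit 287) (nat_lit 179)) (XT.lf (nat_lit 0) (nat_lit 10688594544) (nat_lit 0) (nat_lit 0) (nat_lit 0) (nat_lit 0) (nat_lit 0) (nat_lit 0) (nat_lit 1) (nat_lit 0) (nat_lit 1) (nat_lit 0) (nat_lit 255) (nat_lit 287) (nat_lit 178))))))) (XT.nd (nat_lit 1222) (nat_lit 0) (nat_lit 0) (XT.nd (nat_lit 564) (nat_lit 0) (nat_lit 0) (XT.nd (nat_lit 282) (nat_lit 0) (nat_lit 0) (XT.nd (nat_lit 94) (nat_lit 0) (nat_lit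 0) (XT.lf (nat_lit 0) (nat_lit 10686111731) (nat_lit 0) (nat_lit 0) (nat_lit 0) (nat_lit 0) (nat_lit 0) (nat_lit 0) (nat_lit 1) (nat_lit 0) (nat_lit 1) (nat_lit 0) (nat_lit 256) (nat_lit 287) (nat_lit 177)) (XT.nd (nat_lit 94) (nat_lit 0) (nat_lit 0) (XT.lf (nat_lit 0) (nat_lit 10683747147) (nat_lit 0) (nat_lit 0) (nat_lit 0) (nat_lit 0) (nat_lit 0) (nat_lit 0) (nat_lit 1) (nat_lit 0) (nat_lit 1) (nat_lit 0) (nat_lit 257) (nat_lit 287) (nat_lit 176)) (XT.lf (nat_lit 0) (nat_lit 10681495162) (nat_lit 0) (nat_lit 0) (nat_lit 0) (nat_lit 0) (nat_lit 0) (nat_lit 0) (nat_lit 1) (nat_lit 0) (nat_lit 1) (nat_lit 0) (nat_lit 258) (nat_lit 287) (nat_lit 175)))) (XT.nd (nat_lit 94) (nat_lit 0) (nat_lit 0) (XT.lf (nat_lit 0) (nat_lit 10679350415) (nat_lit 0) (nat_lit 0) (nat_lit 0) (nat_lit 0) (nat_lit 0) (nat_lit 0) (nat_lit 1) (nat_lit 0) (nat_lit 1) (nat_lit 0) (nat_lit 259) (nat_lit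 287) (nat_lit 174)) (XT.nd (nat_lit 94) (nat_lit 0) (nat_lit 0) (XT.lf (nat_lit 0) (nat_lit 10677307799) (nat_lit 0) (nat_lit 0) (nat_lit 0) (nat_lit 0) (nat_lit 0) (nat_lit 0) (nat_lit 1) (nat_lit 0) (nat_lit 1) (nat_lit 0) (nat_lit 260) (nat_lit 287) (nat_lit 173)) (XT.lf (nat_lit 0) (nat_lit 10675362450) (nat_lit 0) (nat_lit 0) (nat_lit 0) (nat_lit 0) (nat_lit 0) (nat_lit 0) (nat_lit 1) (nat_lit 0) (nat_lit 1) (nat_lit 0) (nat_lit 261) (nat_lit 287) (nat_lit 172))))) (XT.nd (nat_lit 282) (nat_lit 0) (nat_lit 0) (XT.nd (nat_lit 94) (nat_lit 0) (nat_lit 0) (XT.lf (nat_lit 0) (nat_lit 10673509736) (nat_lit 0) (nat_lit 0) (nat_lit 0) (nat_lit 0) (nat_lit 0) (nat_lit 0) (nat_lit 1) (nat_lit 0) (nat_lit 1) (nat_lit 0) (nat_lit 262) (nat_lit 287) (nat_lit 171)) (XT.nd (nat_lit 94) (nat_lit 0) (nat_lit 0) (XT.lf (nat_lit 0) (nat_lit 10671745247) (nat_lit 0) (nat_lit 0) (nat_lit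 0) (nat_lit 0) (nat_lit 0) (nat_lit 0) (nat_lit 1) (nat_lit 0) (nat_lit 1) (nat_lit 0) (nat_lit 263) (nat_lit 287) (nat_lit 170)) (XT.lf (nat_lit 0) (nat_lit 10670064782) (nat_lit 0) (nat_lit 0) (nat_lit 0) (nat_lit 0) (nat_lit 0) (nat_lit 0) (nat_lit 1) (nat_lit 0) (nat_lit 1) (nat_lit 0) (nat_lit 264) (nat_lit 287) (nat_lit 169)))) (XT.nd (nat_lit 188) (nat_lit 0) (nat_lit 0) (XT.nd (nat_lit 94) (nat_lit 0) (nat_lit 0) (XT.lf (nat_lit 0) (nat_lit 10668464338) (nat_lit 0) (nat_lit 0) (nat_lit 0) (nat_lit 0) (nat_lit 0) (nat_lit 0) (nat_lit 1) (nat_lit 0) (nat_lit 1) (nat_lit 0) (nat_lit 265) (nat_lit 287) (nat_lit 168)) (XT.lf (nat_lit 0) (nat_lit 10666940106) (nat_lit 0) (nat_lit 0) (nat_lit 0) (nat_lit 0) (nat_lit 0) (nat_lit 0) (nat_lit 1) (nat_lit 0) (nat_lit 1) (nat_lit 0) (nat_lit 266) (nat_lit 287) (nat_lit 167))) (XT.nd (nat_lit 94) (nat_lit 0) (nat_lit 0) (XT.lf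 (nat_lit 0) (nat_lit 10665488457) (nat_lit 0) (nat_lit 0) (nat_lit 0) (nat_lit 0) (nat_lit 0) (nat_lit 0) (nat_lit 1) (nat_lit 0) (nat_lit 1) (nat_lit 0) (nat_lit 267) (nat_lit 287) (nat_lit 166)) (XT.lf (nat_lit 0) (nat_lit 10664105934) (nat_lit 0) (nat_lit 0) (nat_lit 0) (nat_lit 0) (nat_lit 0) (nat_lit 0) (nat_lit 1) (nat_lit 0) (nat_lit 1) (nat_lit 0) (nat_lit 268) (nat_lit 287) (nat_lit 165)))))) (XT.nd (nat_lit 658) (nat_lit 0) (nat_lit 0) (XT.nd (nat_lit 282) (nat_lit 0) (nat_lit 0) (XT.nd (nat_lit 94) (nat_lit 0) (nat_lit 0) (XT.lf (nat_lit 0) (nat_lit 10662789245) (nat_lit 0) (nat_lit 0) (nat_lit 0) (nat_lit 0) (nat_lit 0) (nat_lit 0) (nat_lit 1) (nat_lit 0) (nat_lit 1) (nat_lit 0) (nat_lit 269) (nat_lit 287) (nat_lit 164)) (XT.nd (nat_lit 94) (nat_lit 0) (nat_lit 0) (XT.lf (nat_lit 0) (nat_lit 10661535255) (nat_lit 0) (nat_lit 0) (nat_lit 0) (nat_lit 0) (nat_lit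 0) (nat_lit 0) (nat_lit 1) (nat_lit 0) (nat_lit 1) (nat_lit 0) (nat_lit 270) (nat_lit 287) (nat_lit 163)) (XT.lf (nat_lit 0) (nat_lit 10660340980) (nat_lit 0) (nat_lit 0) (nat_lit 0) (nat_lit 0) (nat_lit 0) (nat_lit 0) (nat_lit 1) (nat_lit 0) (nat_lit 1) (nat_lit 0) (nat_lit 271) (nat_lit 287) (nat_lit 162)))) (XT.nd (nat_lit 188) (nat_lit 0) (nat_lit 0) (XT.nd (nat_lit 94) (nat_lit 0) (nat_lit 0) (XT.lf (nat_lit 0) (nat_lit 10659203575) (nat_lit 0) (nat_lit 0) (nat_lit 0) (nat_lit 0) (nat_lit 0) (nat_lit 0) (nat_lit 1) (nat_lit 0) (nat_lit 1) (nat_lit 0) (nat_lit 272) (nat_lit 287) (nat_lit 161)) (XT.lf (nat_lit 0) (nat_lit 10658120331) (nat_lit 0) (nat_lit 0) (nat_lit 0) (nat_lit 0) (nat_lit 0) (nat_lit 0) (nat_lit 1) (nat_lit 0) (nat_lit 1) (nat_lit 0) (nat_lit 273) (nat_lit 287) (nat_lit 160))) (XT.nd (nat_lit 94) (nat_lit 0) (nat_lit 0) (XT.lf (nat_lit 0) (nat_lit 10657088671)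 (nat_lit 0) (nat_lit 0) (nat_lit 0) (nat_lit 0) (nat_lit 0) (nat_lit 0) (nat_lit 1) (nat_lit 0) (nat_lit 1) (nat_lit 0) (nat_lit 274) (nat_lit 287) (nat_lit 159)) (XT.lf (nat_lit 0) (nat_lit 10656106138) (nat_lit 0) (nat_lit 0) (nat_lit 0) (nat_lit 0) (nat_lit 0) (nat_lit 0) (nat_lit 1) (nat_lit 0) (nat_lit 1) (nat_lit 0) (nat_lit 275) (nat_lit 287) (nat_lit 158))))) (XT.nd (nat_lit 282) (nat_lit 0) (nat_lit 0) (XT.nd (nat_lit 94) (nat_lit 0) (nat_lit 0) (XT.lf (nat_lit 0) (nat_lit 10655170392) (nat_lit 0) (nat_lit 0) (nat_lit 0) (nat_lit 0) (nat_lit 0) (nat_lit 0) (nat_lit 1) (nat_lit 0) (nat_lit 1) (nat_lit 0) (nat_lit 276) (nat_lit 287) (nat_lit 157)) (XT.nd (nat_lit 94) (nat_lit 0) (nat_lit 0) (XT.lf (nat_lit 0) (nat_lit 10654279205) (nat_lit 0) (nat_lit 0) (nat_lit 0) (nat_lit 0) (nat_lit 0) (nat_lit 0) (nat_lit 1) (nat_lit 0) (nat_lit 1) (nat_lit 0) (nat_lit 277) (nat_lit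 287) (nat_lit 156)) (XT.lf (nat_lit 0) (nat_lit 10653430456) (nat_lit 0) (nat_lit 0) (nat_lit 0) (nat_lit 0) (nat_lit 0) (nat_lit 0) (nat_lit 1) (nat_lit 0) (nat_lit 1) (nat_lit 0) (nat_lit 278) (nat_lit 287) (nat_lit 155)))) (XT.nd (nat_lit 188) (nat_lit 0) (nat_lit 0) (XT.nd (nat_lit 94) (nat_lit 0) (nat_lit 0) (XT.lf (nat_lit 0) (nat_lit 10652622123) (nat_lit 0) (nat_lit 0) (nat_lit 0) (nat_lit 0) (nat_lit 0) (nat_lit 0) (nat_lit 1) (nat_lit 0) (nat_lit 1) (nat_lit 0) (nat_lit 279) (nat_lit 287) (nat_lit 154)) (XT.lf (nat_lit 0) (nat_lit 10651852282) (nat_lit 0) (nat_lit 0) (nat_lit 0) (nat_lit 0) (nat_lit 0) (nat_lit 0) (nat_lit 1) (nat_lit 0) (nat_lit 1) (nat_lit 0) (nat_lit 280) (nat_lit 287) (nat_lit 153))) (XT.nd (nat_lit 94) (nat_lit 0) (nat_lit 0) (XT.lf (nat_lit 0) (nat_lit 10651119101) (nat_lit 0) (nat_lit 0) (nat_lit 0) (nat_lit 0) (nat_lit 0) (nat_lit 0) (nat_lit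 1) (nat_lit 0) (nat_lit 1) (nat_lit 0) (nat_lit 281) (nat_lit 287) (nat_lit 152)) (XT.lf (nat_lit 0) (nat_lit 10650420832) (nat_lit 0) (nat_lit 0) (nat_lit 0) (nat_lit 0) (nat_lit 0) (nat_lit 0) (nat_lit 1) (nat_lit 0) (nat_lit 1) (nat_lit 0) (nat_lit 282) (nat_lit 287) (nat_lit 151))))))))
noncomputable def ec139 : XT := (XT.nd (nat_lit 2538) (nat_lit 0) (nat_lit 0) (XT.nd (nat_lit 1222) (nat_lit 0) (nat_lit 0) (XT.nd (nat_lit 564) (nat_lit 0) (nat_lit 0) (XT.nd (nat_lit 282) (nat_lit 0) (nat_lit 0) (XT.nd (nat_lit 94) (nat_lit 0) (nat_lit 0) (XT.lf (nat_lit 0) (nat_lit 10649755815) (nat_lit 0) (nat_lit 0) (nat_lit 0) (nat_lit 0) (nat_lit 0) (nat_lit 0) (nat_lit 1) (nat_lit 0) (nat_lit 1) (nat_lit 0) (nat_lit 283) (nat_lit 287) (nat_lit 150)) (XT.nd (nat_lit 94) (nat_lit 0) (nat_lit 0) (XT.lf (nat_lit 0) (nat_lit 10649122465) (nat_lit 0) (nat_lit 0) (nat_lit 0) (nat_lit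 0) (nat_lit 0) (nat_lit 0) (nat_lit 1) (nat_lit 0) (nat_lit 1) (nat_lit 0) (nat_lit 284) (nat_lit 287) (nat_lit 149)) (XT.lf (nat_lit 0) (nat_lit 10648519275) (nat_lit 0) (nat_lit 0) (nat_lit 0) (nat_lit 0) (nat_lit 0) (nat_lit 0) (nat_lit 1) (nat_lit 0) (nat_lit 1) (nat_lit 0) (nat_lit 285) (nat_lit 287) (nat_lit 148)))) (XT.nd (nat_lit 94) (nat_lit 0) (nat_lit 0) (XT.lf (nat_lit 0) (nat_lit 10647944808) (nat_lit 0) (nat_lit 0) (nat_lit 0) (nat_lit 0) (nat_lit 0) (nat_lit 0) (nat_lit 1) (nat_lit 0) (nat_lit 1) (nat_lit 0) (nat_lit 286) (nat_lit 287) (nat_lit 147)) (XT.nd (nat_lit 94) (nat_lit 0) (nat_lit 0) (XT.lf (nat_lit 0) (nat_lit 10647397696) (nat_lit 0) (nat_lit 0) (nat_lit 0) (nat_lit 0) (nat_lit 0) (nat_lit 0) (nat_lit 1) (nat_lit 0) (nat_lit 1) (nat_lit 0) (nat_lit 287) (nat_lit 287) (nat_lit 146)) (XT.lf (nat_lit 0) (nat_lit 10646876638) (nat_lit 0) (nat_lit 0)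 (nat_lit 0) (nat_lit 0) (nat_lit 0) (nat_lit 0) (nat_lit 1) (nat_lit 0) (nat_lit 1) (nat_lit 0) (nat_lit 288) (nat_lit 287) (nat_lit 145))))) (XT.nd (nat_lit 282) (nat_lit 0) (nat_lit 0) (XT.nd (nat_lit 94) (nat_lit 0) (nat_lit 0) (XT.lf (nat_lit 0) (nat_lit 10646380392) (nat_lit 0) (nat_lit 0) (nat_lit 0) (nat_lit 0) (nat_lit 0) (nat_lit 0) (nat_lit 1) (nat_lit 0) (nat_lit 1) (nat_lit 0) (nat_lit 289) (nat_lit 287) (nat_lit 144)) (XT.nd (nat_lit 94) (nat_lit 0) (nat_lit 0) (XT.lf (nat_lit 0) (nat_lit 10645907776) (nat_lit 0) (nat_lit 0) (nat_lit 0) (nat_lit 0) (nat_lit 0) (nat_lit 0) (nat_lit 1) (nat_lit 0) (nat_lit 1) (nat_lit 0) (nat_lit 290) (nat_lit 287) (nat_lit 143)) (XT.lf (nat_lit 0) (nat_lit 10645457667) (nat_lit 0) (nat_lit 0) (nat_lit 0) (nat_lit 0) (nat_lit 0) (nat_lit 0) (nat_lit 1) (nat_lit 0) (nat_lit 1) (nat_lit 0) (nat_lit 291) (nat_lit 287) (nat_lit 142))))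 (XT.nd (nat_lit 188) (nat_lit 0) (nat_lit 0) (XT.nd (nat_lit 94) (nat_lit 0) (nat_lit 0) (XT.lf (nat_lit 0) (nat_lit 10645028990) (nat_lit 0) (nat_lit 0) (nat_lit 0) (nat_lit 0) (nat_lit 0) (nat_lit 0) (nat_lit 1) (nat_lit 0) (nat_lit 1) (nat_lit 0) (nat_lit 292) (nat_lit 287) (nat_lit 141)) (XT.lf (nat_lit 0) (nat_lit 10644620728) (nat_lit 0) (nat_lit 0) (nat_lit 0) (nat_lit 0) (nat_lit 0) (nat_lit 0) (nat_lit 1) (nat_lit 0) (nat_lit 1) (nat_lit 0) (nat_lit 293) (nat_lit 287) (nat_lit 140))) (XT.nd (nat_lit 94) (nat_lit 0) (nat_lit 0) (XT.lf (nat_lit 0) (nat_lit 10644231906) (nat_lit 0) (nat_lit 0) (nat_lit 0) (nat_lit 0) (nat_lit 0) (nat_lit 0) (nat_lit 1) (nat_lit 0) (nat_lit 1) (nat_lit 0) (nat_lit 294) (nat_lit 287) (nat_lit 139)) (XT.lf (nat_lit 0) (nat_lit 10643861599) (nat_lit 0) (nat_lit 0) (nat_lit 0) (nat_lit 0) (nat_lit 0) (nat_lit 0) (nat_lit 1) (nat_lit 0)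 (nat_lit 1) (nat_lit 0) (nat_lit 295) (nat_lit 287) (nat_lit 138)))))) (XT.nd (nat_lit 658) (nat_lit 0) (nat_lit 0) (XT.nd (nat_lit 282) (nat_lit 0) (nat_lit 0) (XT.nd (nat_lit 94) (nat_lit 0) (nat_lit 0) (XT.lf (nat_lit 0) (nat_lit 10643508926) (nat_lit 0) (nat_lit 0) (nat_lit 0) (nat_lit 0) (nat_lit 0) (nat_lit 0) (nat_lit 1) (nat_lit 0) (nat_lit 1) (nat_lit 0) (nat_lit 296) (nat_lit 287) (nat_lit 137)) (XT.nd (nat_lit 94) (nat_lit 0) (nat_lit 0) (XT.lf (nat_lit 0) (nat_lit 10643173047) (nat_lit 0) (nat_lit 0) (nat_lit 0) (nat_lit 0) (nat_lit 0) (nat_lit 0) (nat_lit 1) (nat_lit 0) (nat_lit 1) (nat_lit 0) (nat_lit 297) (nat_lit 287) (nat_lit 136)) (XT.lf (nat_lit 0) (nat_lit 10642853163) (nat_lit 0) (nat_lit 0) (nat_lit 0) (nat_lit 0) (nat_lit 0) (nat_lit 0) (nat_lit 1) (nat_lit 0) (nat_lit 1) (nat_lit 0) (nat_lit 298) (nat_lit 287) (nat_lit 135)))) (XT.nd (nat_lit 188)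 (nat_lit 0) (nat_lit 0) (XT.nd (nat_lit 94) (nat_lit 0) (nat_lit 0) (XT.lf (nat_lit 0) (nat_lit 10642548511) (nat_lit 0) (nat_lit 0) (nat_lit 0) (nat_lit 0) (nat_lit 0) (nat_lit 0) (nat_lit 1) (nat_lit 0) (nat_lit 1) (nat_lit 0) (nat_lit 299) (nat_lit 287) (nat_lit 134)) (XT.lf (nat_lit 0) (nat_lit 10642258366) (nat_lit 0) (nat_lit 0) (nat_lit 0) (nat_lit 0) (nat_lit 0) (nat_lit 0) (nat_lit 1) (nat_lit 0) (nat_lit 1) (nat_lit 0) (nat_lit 300) (nat_lit 287) (nat_lit 133))) (XT.nd (nat_lit 94) (nat_lit 0) (nat_lit 0) (XT.lf (nat_lit 0) (nat_lit 10641982037) (nat_lit 0) (nat_lit 0) (nat_lit 0) (nat_lit 0) (nat_lit 0) (nat_lit 0) (nat_lit 1) (nat_lit 0) (nat_lit 1) (nat_lit 0) (nat_lit 301) (nat_lit 287) (nat_lit 132)) (XT.lf (nat_lit 0) (nat_lit 10641718867) (nat_lit 0) (nat_lit 0) (nat_lit 0) (nat_lit 0) (nat_lit 0) (nat_lit 0) (nat_lit 1) (nat_lit 0) (nat_lit 1) (nat_lit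 0) (nat_lit 302) (nat_lit 287) (nat_lit 131))))) (XT.nd (nat_lit 282) (nat_lit 0) (nat_lit 0) (XT.nd (nat_lit 94) (nat_lit 0) (nat_lit 0) (XT.lf (nat_lit 0) (nat_lit 10641468229) (nat_lit 0) (nat_lit 0) (nat_lit 0) (nat_lit 0) (nat_lit 0) (nat_lit 0) (nat_lit 1) (nat_lit 0) (nat_lit 1) (nat_lit 0) (nat_lit 303) (nat_lit 287) (nat_lit 130)) (XT.nd (nat_lit 94) (nat_lit 0) (nat_lit 0) (XT.lf (nat_lit 0) (nat_lit 10641229526) (nat_lit 0) (nat_lit 0) (nat_lit 0) (nat_lit 0) (nat_lit 0) (nat_lit 0) (nat_lit 1) (nat_lit 0) (nat_lit 1) (nat_lit 0) (nat_lit 304) (nat_lit 287) (nat_lit 129)) (XT.lf (nat_lit 0) (nat_lit 10641002190) (nat_lit 0) (nat_lit 0) (nat_lit 0) (nat_lit 0) (nat_lit 0) (nat_lit 0) (nat_lit 1) (nat_lit 0) (nat_lit 1) (nat_lit 0) (nat_lit 305) (nat_lit 287) (nat_lit 128)))) (XT.nd (nat_lit 188) (nat_lit 0) (nat_lit 0) (XT.nd (nat_lit 94) (nat_lit 0) (nat_lit 0)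 (XT.lf (nat_lit 0) (nat_lit 10640785680) (nat_lit 0) (nat_lit 0) (nat_lit 0) (nat_lit 0) (nat_lit 0) (nat_lit 0) (nat_lit 1) (nat_lit 0) (nat_lit 1) (nat_lit 0) (nat_lit 306) (nat_lit 287) (nat_lit 127)) (XT.lf (nat_lit 0) (nat_lit 10640579479) (nat_lit 0) (nat_lit 0) (nat_lit 0) (nat_lit 0) (nat_lit 0) (nat_lit 0) (nat_lit 1) (nat_lit 0) (nat_lit 1) (nat_lit 0) (nat_lit 307) (nat_lit 287) (nat_lit 126))) (XT.nd (nat_lit 94) (nat_lit 0) (nat_lit 0) (XT.lf (nat_lit 0) (nat_lit 10640383098) (nat_lit 0) (nat_lit 0) (nat_lit 0) (nat_lit 0) (nat_lit 0) (nat_lit 0) (nat_lit 1) (nat_lit 0) (nat_lit 1) (nat_lit 0) (nat_lit 308) (nat_lit 287) (nat_lit 125)) (XT.lf (nat_lit 0) (nat_lit 10640196068) (nat_lit 0) (nat_lit 0) (nat_lit 0) (nat_lit 0) (nat_lit 0) (nat_lit 0) (nat_lit 1) (nat_lit 0) (nat_lit 1) (nat_lit 0) (nat_lit 309) (nat_lit 287) (nat_lit 124))))))) (XT.nd (nat_lit 30738)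 (nat_lit 0) (nat_lit 7224) (XT.nd (nat_lit 30080) (nat_lit 0) (nat_lit 10332) (XT.nd (nat_lit 29704) (nat_lit 0) (nat_lit 10752) (XT.nd (nat_lit 94) (nat_lit 0) (nat_lit 0) (XT.lf (nat_lit 0) (nat_lit 10640017944) (nat_lit 0) (nat_lit 0) (nat_lit 0) (nat_lit 0) (nat_lit 0) (nat_lit 0) (nat_lit 1) (nat_lit 0) (nat_lit 1) (nat_lit 0) (nat_lit 310) (nat_lit 287) (nat_lit 123)) (XT.nd (nat_lit 29516) (nat_lit 0) (nat_lit 10752) (XT.lf (nat_lit 0) (nat_lit 10639848302) (nat_lit 0) (nat_lit 0) (nat_lit 0) (nat_lit 0) (nat_lit 0) (nat_lit 0) (nat_lit 1) (nat_lit 0) (nat_lit 1) (nat_lit 0) (nat_lit 311) (nat_lit 287) (nat_lit 122)) (XT.lf (nat_lit 924) (nat_lit 5589024769) (nat_lit 0) (nat_lit 9923300631) (nat_lit 924) (nat_lit 5589024769) (nat_lit 139) (nat_lit 1) (nat_lit 128) (nat_lit 0) (nat_lit 139) (nat_lit 0) (nat_lit 144) (nat_lit 288) (nat_lit 288)))) (XT.nd (nat_lit 188)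 (nat_lit 0) (nat_lit 84) (XT.nd (nat_lit 94) (nat_lit 0) (nat_lit 84) (XT.lf (nat_lit 924) (nat_lit 21663757768) (nat_lit 84) (nat_lit 9763247395) (nat_lit 0) (nat_lit 9763247395) (nat_lit 139) (nat_lit 1) (nat_lit 129) (nat_lit 1) (nat_lit 128) (nat_lit 0) (nat_lit 145) (nat_lit 288) (nat_lit 287)) (XT.lf (nat_lit 924) (nat_lit 10324620761) (nat_lit 0) (nat_lit 19559863455) (nat_lit 840) (nat_lit 10324620761) (nat_lit 140) (nat_lit 1) (nat_lit 129) (nat_lit 1) (nat_lit 139) (nat_lit 1) (nat_lit 146) (nat_lit 288) (nat_lit 286))) (XT.nd (nat_lit 94) (nat_lit 0) (nat_lit 84) (XT.lf (nat_lit 924) (nat_lit 19367553906) (nat_lit 84) (nat_lit 9946050934) (nat_lit 0) (nat_lit 9946050934) (nat_lit 140) (nat_lit 1) (nat_lit 130) (nat_lit 1) (nat_lit 129) (nat_lit 1) (nat_lit 147) (nat_lit 288) (nat_lit 285)) (XT.lf (nat_lit 924) (nat_lit 8914699074) (nat_lit 0) (nat_lit 20510901198)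 (nat_lit 840) (nat_lit 8914699074) (nat_lit 141) (nat_lit 1) (nat_lit 130) (nat_lit 1) (nat_lit 140) (nat_lit 1) (nat_lit 148) (nat_lit 288) (nat_lit 284))))) (XT.nd (nat_lit 282) (nat_lit 588) (nat_lit 0) (XT.nd (nat_lit 94) (nat_lit 0) (nat_lit 84) (XT.lf (nat_lit 924) (nat_lit 16033666918) (nat_lit 84) (nat_lit 10707650750) (nat_lit 0) (nat_lit 10707650750) (nat_lit 141) (nat_lit 1) (nat_lit 131) (nat_lit 1) (nat_lit 130) (nat_lit 1) (nat_lit 149) (nat_lit 288) (nat_lit 283)) (XT.nd (nat_lit 94) (nat_lit 0) (nat_lit 0) (XT.lf (nat_lit 924) (nat_lit 7030299849) (nat_lit 0) (nat_lit 22526965595) (nat_lit 840) (nat_lit 7030299849) (nat_lit 142) (nat_lit 1) (nat_lit 131) (nat_lit 1) (nat_lit 141) (nat_lit 1) (nat_lit 150) (nat_lit 288) (nat_lit 282)) (XT.lf (nat_lit 924) (nat_lit 11818149906) (nat_lit 84) (nat_lit 11965864822) (nat_lit 0) (nat_lit 11965864822) (nat_lit 142)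 (nat_lit 1) (nat_lit 132) (nat_lit 1) (nat_lit 131) (nat_lit 1) (nat_lit 151) (nat_lit 288) (nat_lit 281)))) (XT.nd (nat_lit 188) (nat_lit 756) (nat_lit 0) (XT.nd (nat_lit 94) (nat_lit 0) (nat_lit 0) (XT.lf (nat_lit 924) (nat_lit 4744371637) (nat_lit 0) (nat_lit 25454114606) (nat_lit 840) (nat_lit 4744371637) (nat_lit 143) (nat_lit 1) (nat_lit 132) (nat_lit 1) (nat_lit 142) (nat_lit 1) (nat_lit 152) (nat_lit 288) (nat_lit 280)) (XT.lf (nat_lit 924) (nat_lit 6859710534) (nat_lit 84) (nat_lit 13647502635) (nat_lit 0) (nat_lit 13647502635) (nat_lit 143) (nat_lit 1) (nat_lit 133) (nat_lit 1) (nat_lit 132) (nat_lit 1) (nat_lit 153) (nat_lit 288) (nat_lit 279))) (XT.nd (nat_lit 94) (nat_lit 840) (nat_lit 0) (XT.lf (nat_lit 84) (nat_lit 2121707778) (nat_lit 0) (nat_lit 29155333781) (nat_lit 840) (nat_lit 2121707778) (nat_lit 134) (nat_lit 1) (nat_lit 133) (nat_lit 1) (nat_lit 143)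 (nat_lit 1) (nat_lit 154) (nat_lit 288) (nat_lit 278)) (XT.lf (nat_lit 924) (nat_lit 1281458735) (nat_lit 0) (nat_lit 15687464904) (nat_lit 840) (nat_lit 15687464904) (nat_lit 134) (nat_lit 1) (nat_lit 123) (nat_lit 1) (nat_lit 133) (nat_lit 1) (nat_lit 155) (nat_lit 288) (nat_lit 277)))))) (XT.nd (nat_lit 658) (nat_lit 1344) (nat_lit 0) (XT.nd (nat_lit 282) (nat_lit 756) (nat_lit 0) (XT.nd (nat_lit 94) (nat_lit 420) (nat_lit 0) (XT.lf (nat_lit 588) (nat_lit 30410629630) (nat_lit 0) (nat_lit 767645666) (nat_lit 504) (nat_lit 767645666) (nat_lit 123) (nat_lit 1) (nat_lit 116) (nat_lit 1) (nat_lit 122) (nat_lit 1) (nat_lit 156) (nat_lit 288) (nat_lit 276)) (XT.nd (nat_lit 94) (nat_lit 420) (nat_lit 0) (XT.lf (nat_lit 84) (nat_lit 13295474346) (nat_lit 0) (nat_lit 4653643996) (nat_lit 588) (nat_lit 13295474346) (nat_lit 117) (nat_lit 1) (nat_lit 116) (nat_lit 1) (nat_lit 123)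 (nat_lit 1) (nat_lit 157) (nat_lit 288) (nat_lit 275)) (XT.lf (nat_lit 504) (nat_lit 22878098550) (nat_lit 0) (nat_lit 3847494111) (nat_lit 420) (nat_lit 3847494111) (nat_lit 117) (nat_lit 1) (nat_lit 111) (nat_lit 1) (nat_lit 116) (nat_lit 1) (nat_lit 158) (nat_lit 288) (nat_lit 274)))) (XT.nd (nat_lit 188) (nat_lit 336) (nat_lit 0) (XT.nd (nat_lit 94) (nat_lit 420) (nat_lit 0) (XT.lf (nat_lit 84) (nat_lit 9483499999) (nat_lit 0) (nat_lit 10948697769) (nat_lit 504) (nat_lit 9483499999) (nat_lit 112) (nat_lit 1) (nat_lit 111) (nat_lit 1) (nat_lit 117) (nat_lit 1) (nat_lit 159) (nat_lit 288) (nat_lit 273)) (XT.lf (nat_lit 504) (nat_lit 15065552336) (nat_lit 0) (nat_lit 7107825763) (nat_lit 420) (nat_lit 7107825763) (nat_lit 112) (nat_lit 1) (nat_lit 106) (nat_lit 1) (nat_lit 111) (nat_lit 1) (nat_lit 160) (nat_lit 288) (nat_lit 272))) (XT.nd (nat_lit 94) (nat_lit 336) (nat_lit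 0) (XT.lf (nat_lit 84) (nat_lit 5551455814) (nat_lit 0) (nat_lit 17562251551) (nat_lit 504) (nat_lit 5551455814) (nat_lit 107) (nat_lit 1) (nat_lit 106) (nat_lit 1) (nat_lit 112) (nat_lit 1) (nat_lit 161) (nat_lit 288) (nat_lit 271)) (XT.lf (nat_lit 420) (nat_lit 7045705974) (nat_lit 0) (nat_lit 10509631559) (nat_lit 336) (nat_lit 10509631559) (nat_lit 107) (nat_lit 1) (nat_lit 102) (nat_lit 1) (nat_lit 106) (nat_lit 1) (nat_lit 162) (nat_lit 288) (nat_lit 270))))) (XT.nd (nat_lit 282) (nat_lit 588) (nat_lit 0) (XT.nd (nat_lit 94) (nat_lit 756) (nat_lit 0) (XT.lf (nat_lit 84) (nat_lit 1533098606) (nat_lit 0) (nat_lit 24421658303) (nat_lit 420) (nat_lit 1533098606) (nat_lit 103) (nat_lit 1) (nat_lit 102) (nat_lit 1) (nat_lit 107) (nat_lit 1) (nat_lit 163) (nat_lit 288) (nat_lit 269)) (XT.nd (nat_lit 94) (nat_lit 336) (nat_lit 0) (XT.lf (nat_lit 84) (nat_lit 12918329398) (nat_lit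 0) (nat_lit 1081935181) (nat_lit 420) (nat_lit 12918329398) (nat_lit 98) (nat_lit 1) (nat_lit 97) (nat_lit 1) (nat_lit 102) (nat_lit 1) (nat_lit 164) (nat_lit 288) (nat_lit 268)) (XT.lf (nat_lit 420) (nat_lit 21368954066) (nat_lit 0) (nat_lit 2501028623) (nat_lit 336) (nat_lit 2501028623) (nat_lit 98) (nat_lit 1) (nat_lit 93) (nat_lit 1) (nat_lit 97) (nat_lit 1) (nat_lit 165) (nat_lit 288) (nat_lit 267)))) (XT.nd (nat_lit 188) (nat_lit 252) (nat_lit 0) (XT.nd (nat_lit 94) (nat_lit 336) (nat_lit 0) (XT.lf (nat_lit 84) (nat_lit 8381843229) (nat_lit 0) (nat_lit 9069136092) (nat_lit 420) (nat_lit 8381843229) (nat_lit 94) (nat_lit 1) (nat_lit 93) (nat_lit 1) (nat_lit 98) (nat_lit 1) (nat_lit 166) (nat_lit 288) (nat_lit 266)) (XT.lf (nat_lit 420) (nat_lit 12231440919) (nat_lit 0) (nat_lit 6540927681) (nat_lit 336) (nat_lit 6540927681) (nat_lit 94) (nat_lit 1) (nat_lit 89) (nat_lit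 1) (nat_lit 93) (nat_lit 1) (nat_lit 167) (nat_lit 288) (nat_lit 265))) (XT.nd (nat_lit 94) (nat_lit 252) (nat_lit 0) (XT.lf (nat_lit 84) (nat_lit 3857250585) (nat_lit 0) (nat_lit 17094459834) (nat_lit 420) (nat_lit 3857250585) (nat_lit 90) (nat_lit 1) (nat_lit 89) (nat_lit 1) (nat_lit 94) (nat_lit 1) (nat_lit 168) (nat_lit 288) (nat_lit 264)) (XT.lf (nat_lit 336) (nat_lit 3136936698) (nat_lit 0) (nat_lit 10589287805) (nat_lit 252) (nat_lit 10589287805) (nat_lit 90) (nat_lit 1) (nat_lit 86) (nat_lit 1) (nat_lit 89) (nat_lit 1) (nat_lit 169) (nat_lit 288) (nat_lit 263))))))))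
noncomputable def ec140 : XT := (XT.nd (nat_lit 2538) (nat_lit 2352) (nat_lit 0) (XT.nd (nat_lit 1222) (nat_lit 1680) (nat_lit 0) (XT.nd (nat_lit 564) (nat_lit 924) (nat_lit 0) (XT.nd (nat_lit 282) (nat_lit 588) (nat_lit 0) (XT.nd (nat_lit 94) (nat_lit 252) (nat_lit 0) (XT.lf (nat_lit 420) (nat_lit 22587582192) (nat_lit 0) (nat_lit 626762064) (nat_lit 336) (nat_lit 626762064) (nat_lit 86) (nat_lit 1) (nat_lit 81) (nat_lit 1) (nat_lit 85) (nat_lit 1) (nat_lit 170) (nat_lit 288) (nat_lit 262)) (XT.nd (nat_lit 94) (nat_lit 252) (nat_lit 0) (XT.lf (nat_lit 84) (nat_lit 8838687899) (nat_lit 0) (nat_lit 5691950316) (nat_lit 420) (nat_lit 8838687899) (nat_lit 82) (nat_lit 1) (nat_lit 81) (nat_lit 1) (nat_lit 86) (nat_lit 1) (nat_lit 171) (nat_lit 288) (nat_lit 261)) (XT.lf (nat_lit 336) (nat_lit 12909183105) (nat_lit 0) (nat_lit 5003228414) (nat_lit 252) (nat_lit 5003228414) (nat_lit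 82) (nat_lit 1) (nat_lit 78) (nat_lit 1) (nat_lit 81) (nat_lit 1) (nat_lit 172) (nat_lit 288) (nat_lit 260)))) (XT.nd (nat_lit 94) (nat_lit 588) (nat_lit 0) (XT.lf (nat_lit 84) (nat_lit 4078210627) (nat_lit 0) (nat_lit 14317059174) (nat_lit 336) (nat_lit 4078210627) (nat_lit 79) (nat_lit 1) (nat_lit 78) (nat_lit 1) (nat_lit 82) (nat_lit 1) (nat_lit 173) (nat_lit 288) (nat_lit 259)) (XT.nd (nat_lit 94) (nat_lit 336) (nat_lit 0) (XT.lf (nat_lit 336) (nat_lit 3399061088) (nat_lit 0) (nat_lit 9321159423) (nat_lit 252) (nat_lit 9321159423) (nat_lit 79) (nat_lit 1) (nat_lit 75) (nat_lit 1) (nat_lit 78) (nat_lit 1) (nat_lit 174) (nat_lit 288) (nat_lit 258)) (XT.lf (nat_lit 336) (nat_lit 20457005003) (nat_lit 0) (nat_lit 584163760) (nat_lit 252) (nat_lit 584163760) (nat_lit 75) (nat_lit 1) (nat_lit 71) (nat_lit 1) (nat_lit 74) (nat_lit 1) (nat_lit 175) (nat_lit 288) (nat_lit 257)))))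 (XT.nd (nat_lit 282) (nat_lit 672) (nat_lit 0) (XT.nd (nat_lit 94) (nat_lit 252) (nat_lit 0) (XT.lf (nat_lit 84) (nat_lit 7738299141) (nat_lit 0) (nat_lit 5734001962) (nat_lit 336) (nat_lit 7738299141) (nat_lit 72) (nat_lit 1) (nat_lit 71) (nat_lit 1) (nat_lit 75) (nat_lit 1) (nat_lit 176) (nat_lit 288) (nat_lit 256)) (XT.nd (nat_lit 94) (nat_lit 0) (nat_lit 0) (XT.lf (nat_lit 336) (nat_lit 10640869883) (nat_lit 0) (nat_lit 5085171621) (nat_lit 252) (nat_lit 5085171621) (nat_lit 72) (nat_lit 1) (nat_lit 68) (nat_lit 1) (nat_lit 71) (nat_lit 1) (nat_lit 177) (nat_lit 288) (nat_lit 255)) (XT.lf (nat_lit 84) (nat_lit 2930486887) (nat_lit 0) (nat_lit 14561563977) (nat_lit 336) (nat_lit 2930486887) (nat_lit 69) (nat_lit 1) (nat_lit 68) (nat_lit 1) (nat_lit 72) (nat_lit 1) (nat_lit 178) (nat_lit 288) (nat_lit 254)))) (XT.nd (nat_lit 188) (nat_lit 168) (nat_lit 0) (XT.nd (nat_lit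 94) (nat_lit 336) (nat_lit 0) (XT.lf (nat_lit 252) (nat_lit 1073827832) (nat_lit 0) (nat_lit 9483679450) (nat_lit 168) (nat_lit 9483679450) (nat_lit 69) (nat_lit 1) (nat_lit 66) (nat_lit 1) (nat_lit 68) (nat_lit 1) (nat_lit 179) (nat_lit 288) (nat_lit 253)) (XT.lf (nat_lit 336) (nat_lit 16225178475) (nat_lit 0) (nat_lit 1723231559) (nat_lit 252) (nat_lit 1723231559) (nat_lit 66) (nat_lit 1) (nat_lit 62) (nat_lit 1) (nat_lit 65) (nat_lit 1) (nat_lit 180) (nat_lit 288) (nat_lit 252))) (XT.nd (nat_lit 94) (nat_lit 168) (nat_lit 0) (XT.lf (nat_lit 84) (nat_lit 5667069702) (nat_lit 0) (nat_lit 7972090059) (nat_lit 336) (nat_lit 5667069702) (nat_lit 63) (nat_lit 1) (nat_lit 62) (nat_lit 1) (nat_lit 66) (nat_lit 1) (nat_lit 181) (nat_lit 288) (nat_lit 251)) (XT.lf (nat_lit 252) (nat_lit 6547424858) (nat_lit 0) (nat_lit 6202335047) (nat_lit 168) (nat_lit 6202335047) (nat_lit 63)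 (nat_lit 1) (nat_lit 60) (nat_lit 1) (nat_lit 62) (nat_lit 1) (nat_lit 182) (nat_lit 288) (nat_lit 250)))))) (XT.nd (nat_lit 658) (nat_lit 840) (nat_lit 0) (XT.nd (nat_lit 282) (nat_lit 420) (nat_lit 0) (XT.nd (nat_lit 94) (nat_lit 420) (nat_lit 0) (XT.lf (nat_lit 84) (nat_lit 940657133) (nat_lit 0) (nat_lit 16728398543) (nat_lit 252) (nat_lit 940657133) (nat_lit 61) (nat_lit 1) (nat_lit 60) (nat_lit 1) (nat_lit 63) (nat_lit 1) (nat_lit 183) (nat_lit 288) (nat_lit 249)) (XT.nd (nat_lit 94) (nat_lit 168) (nat_lit 0) (XT.lf (nat_lit 84) (nat_lit 7763408352) (nat_lit 0) (nat_lit 2741758543) (nat_lit 252) (nat_lit 7763408352) (nat_lit 58) (nat_lit 1) (nat_lit 57) (nat_lit 1) (nat_lit 60) (nat_lit 1) (nat_lit 184) (nat_lit 288) (nat_lit 248)) (XT.lf (nat_lit 252) (nat_lit 10780853151) (nat_lit 0) (nat_lit 3578951149) (nat_lit 168) (nat_lit 3578951149) (nat_lit 58) (nat_lit 1)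 (nat_lit 55) (nat_lit 1) (nat_lit 57) (nat_lit 1) (nat_lit 185) (nat_lit 288) (nat_lit 247)))) (XT.nd (nat_lit 188) (nat_lit 252) (nat_lit 0) (XT.nd (nat_lit 94) (nat_lit 168) (nat_lit 0) (XT.lf (nat_lit 84) (nat_lit 3042076282) (nat_lit 0) (nat_lit 11532072826) (nat_lit 252) (nat_lit 3042076282) (nat_lit 56) (nat_lit 1) (nat_lit 55) (nat_lit 1) (nat_lit 58) (nat_lit 1) (nat_lit 186) (nat_lit 288) (nat_lit 246)) (XT.lf (nat_lit 252) (nat_lit 1425103213) (nat_lit 0) (nat_lit 7937546747) (nat_lit 168) (nat_lit 7937546747) (nat_lit 56) (nat_lit 1) (nat_lit 53) (nat_lit 1) (nat_lit 55) (nat_lit 1) (nat_lit 187) (nat_lit 288) (nat_lit 245))) (XT.nd (nat_lit 94) (nat_lit 0) (nat_lit 0) (XT.lf (nat_lit 252) (nat_lit 14006835060) (nat_lit 0) (nat_lit 1493245069) (nat_lit 168) (nat_lit 1493245069) (nat_lit 53) (nat_lit 1) (nat_lit 50) (nat_lit 1) (nat_lit 52) (nat_lit 1) (nat_lit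 188) (nat_lit 288) (nat_lit 244)) (XT.lf (nat_lit 84) (nat_lit 4662909716) (nat_lit 0) (nat_lit 7363253373) (nat_lit 252) (nat_lit 4662909716) (nat_lit 51) (nat_lit 1) (nat_lit 50) (nat_lit 1) (nat_lit 53) (nat_lit 1) (nat_lit 189) (nat_lit 288) (nat_lit 243))))) (XT.nd (nat_lit 282) (nat_lit 504) (nat_lit 0) (XT.nd (nat_lit 94) (nat_lit 168) (nat_lit 0) (XT.lf (nat_lit 252) (nat_lit 4748947159) (nat_lit 0) (nat_lit 5822353060) (nat_lit 168) (nat_lit 5822353060) (nat_lit 51) (nat_lit 1) (nat_lit 48) (nat_lit 1) (nat_lit 50) (nat_lit 1) (nat_lit 190) (nat_lit 288) (nat_lit 242)) (XT.nd (nat_lit 94) (nat_lit 168) (nat_lit 0) (XT.lf (nat_lit 84) (nat_lit 156084795) (nat_lit 0) (nat_lit 15796424541) (nat_lit 252) (nat_lit 156084795) (nat_lit 49) (nat_lit 1) (nat_lit 48) (nat_lit 1) (nat_lit 51) (nat_lit 1) (nat_lit 191) (nat_lit 288) (nat_lit 241)) (XT.lf (nat_lit 84) (nat_lit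 5893507391) (nat_lit 0) (nat_lit 4034708219) (nat_lit 168) (nat_lit 5893507391) (nat_lit 47) (nat_lit 1) (nat_lit 46) (nat_lit 1) (nat_lit 48) (nat_lit 1) (nat_lit 192) (nat_lit 288) (nat_lit 240)))) (XT.nd (nat_lit 188) (nat_lit 336) (nat_lit 0) (XT.nd (nat_lit 94) (nat_lit 0) (nat_lit 0) (XT.lf (nat_lit 252) (nat_lit 7313171740) (nat_lit 0) (nat_lit 4115886851) (nat_lit 168) (nat_lit 4115886851) (nat_lit 47) (nat_lit 1) (nat_lit 44) (nat_lit 1) (nat_lit 46) (nat_lit 1) (nat_lit 193) (nat_lit 288) (nat_lit 239)) (XT.lf (nat_lit 84) (nat_lit 1466240390) (nat_lit 0) (nat_lit 12343158029) (nat_lit 252) (nat_lit 1466240390) (nat_lit 45) (nat_lit 1) (nat_lit 44) (nat_lit 1) (nat_lit 47) (nat_lit 1) (nat_lit 194) (nat_lit 288) (nat_lit 238))) (XT.nd (nat_lit 94) (nat_lit 168) (nat_lit 0) (XT.lf (nat_lit 84) (nat_lit 6807955524) (nat_lit 0) (nat_lit 1392642005) (nat_lit 168) (nat_lit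 6807955524) (nat_lit 43) (nat_lit 1) (nat_lit 42) (nat_lit 1) (nat_lit 44) (nat_lit 1) (nat_lit 195) (nat_lit 288) (nat_lit 237)) (XT.lf (nat_lit 252) (nat_lit 9260565595) (nat_lit 0) (nat_lit 2744076564) (nat_lit 168) (nat_lit 2744076564) (nat_lit 43) (nat_lit 1) (nat_lit 40) (nat_lit 1) (nat_lit 42) (nat_lit 1) (nat_lit 196) (nat_lit 288) (nat_lit 236))))))) (XT.nd (nat_lit 1222) (nat_lit 1092) (nat_lit 0) (XT.nd (nat_lit 564) (nat_lit 588) (nat_lit 0) (XT.nd (nat_lit 282) (nat_lit 336) (nat_lit 0) (XT.nd (nat_lit 94) (nat_lit 336) (nat_lit 0) (XT.lf (nat_lit 84) (nat_lit 2480402496) (nat_lit 0) (nat_lit 9533223292) (nat_lit 252) (nat_lit 2480402496) (nat_lit 41) (nat_lit 1) (nat_lit 40) (nat_lit 1) (nat_lit 43) (nat_lit 1) (nat_lit 197) (nat_lit 288) (nat_lit 235)) (XT.nd (nat_lit 94) (nat_lit 252) (nat_lit 0) (XT.lf (nat_lit 168) (nat_lit 712033229) (nat_lit 0) (nat_lit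 6766055375) (nat_lit 84) (nat_lit 6766055375) (nat_lit 41) (nat_lit 1) (nat_lit 39) (nat_lit 1) (nat_lit 40) (nat_lit 1) (nat_lit 198) (nat_lit 288) (nat_lit 234)) (XT.lf (nat_lit 252) (nat_lit 10708215095) (nat_lit 0) (nat_lit 1646059785) (nat_lit 168) (nat_lit 1646059785) (nat_lit 39) (nat_lit 1) (nat_lit 36) (nat_lit 1) (nat_lit 38) (nat_lit 1) (nat_lit 199) (nat_lit 288) (nat_lit 233)))) (XT.nd (nat_lit 94) (nat_lit 336) (nat_lit 0) (XT.lf (nat_lit 84) (nat_lit 3254083651) (nat_lit 0) (nat_lit 7251079381) (nat_lit 252) (nat_lit 3254083651) (nat_lit 37) (nat_lit 1) (nat_lit 36) (nat_lit 1) (nat_lit 39) (nat_lit 1) (nat_lit 200) (nat_lit 288) (nat_lit 232)) (XT.nd (nat_lit 94) (nat_lit 252) (nat_lit 0) (XT.lf (nat_lit 168) (nat_lit 2391168893) (nat_lit 0) (nat_lit 5566450501) (nat_lit 84) (nat_lit 5566450501) (nat_lit 37) (nat_lit 1) (nat_lit 35) (nat_lit 1) (nat_lit 36)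 (nat_lit 1) (nat_lit 201) (nat_lit 288) (nat_lit 231)) (XT.lf (nat_lit 252) (nat_lit 11752079690) (nat_lit 0) (nat_lit 771837654) (nat_lit 168) (nat_lit 771837654) (nat_lit 35) (nat_lit 1) (nat_lit 32) (nat_lit 1) (nat_lit 34) (nat_lit 1) (nat_lit 202) (nat_lit 288) (nat_lit 230))))) (XT.nd (nat_lit 282) (nat_lit 252) (nat_lit 0) (XT.nd (nat_lit 94) (nat_lit 336) (nat_lit 0) (XT.lf (nat_lit 84) (nat_lit 3832809701) (nat_lit 0) (nat_lit 5401740938) (nat_lit 252) (nat_lit 3832809701) (nat_lit 33) (nat_lit 1) (nat_lit 32) (nat_lit 1) (nat_lit 35) (nat_lit 1) (nat_lit 203) (nat_lit 288) (nat_lit 229)) (XT.nd (nat_lit 94) (nat_lit 252) (nat_lit 0) (XT.lf (nat_lit 168) (nat_lit 3686627607) (nat_lit 0) (nat_lit 4579532603) (nat_lit 84) (nat_lit 4579532603) (nat_lit 33) (nat_lit 1) (nat_lit 31) (nat_lit 1) (nat_lit 32) (nat_lit 1) (nat_lit 204) (nat_lit 288) (nat_lit 228)) (XT.lf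 (nat_lit 252) (nat_lit 12470755169) (nat_lit 0) (nat_lit 80345316) (nat_lit 168) (nat_lit 80345316) (nat_lit 31) (nat_lit 1) (nat_lit 28) (nat_lit 1) (nat_lit 30) (nat_lit 1) (nat_lit 205) (nat_lit 288) (nat_lit 227)))) (XT.nd (nat_lit 188) (nat_lit 168) (nat_lit 0) (XT.nd (nat_lit 94) (nat_lit 84) (nat_lit 0) (XT.lf (nat_lit 84) (nat_lit 4253897291) (nat_lit 0) (nat_lit 3907130387) (nat_lit 252) (nat_lit 4253897291) (nat_lit 29) (nat_lit 1) (nat_lit 28) (nat_lit 1) (nat_lit 31) (nat_lit 1) (nat_lit 206) (nat_lit 288) (nat_lit 226)) (XT.lf (nat_lit 168) (nat_lit 4670528172) (nat_lit 0) (nat_lit 3767592806) (nat_lit 84) (nat_lit 3767592806) (nat_lit 29) (nat_lit 1) (nat_lit 27) (nat_lit 1) (nat_lit 28) (nat_lit 1) (nat_lit 207) (nat_lit 288) (nat_lit 225))) (XT.nd (nat_lit 94) (nat_lit 168) (nat_lit 0) (XT.lf (nat_lit 0) (nat_lit 469711349) (nat_lit 0) (nat_lit 11063396337)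 (nat_lit 168) (nat_lit 469711349) (nat_lit 27) (nat_lit 3) (nat_lit 27) (nat_lit 1) (nat_lit 29) (nat_lit 1) (nat_lit 208) (nat_lit 288) (nat_lit 224)) (XT.lf (nat_lit 84) (nat_lit 4547915890) (nat_lit 0) (nat_lit 2703077028) (nat_lit 168) (nat_lit 4547915890) (nat_lit 26) (nat_lit 1) (nat_lit 25) (nat_lit 1) (nat_lit 27) (nat_lit 1) (nat_lit 209) (nat_lit 288) (nat_lit 223)))))) (XT.nd (nat_lit 658) (nat_lit 504) (nat_lit 0) (XT.nd (nat_lit 282) (nat_lit 336) (nat_lit 0) (XT.nd (nat_lit 94) (nat_lit 168) (nat_lit 0) (XT.lf (nat_lit 168) (nat_lit 5402007958) (nat_lit 0) (nat_lit 3099607925) (nat_lit 84) (nat_lit 3099607925) (nat_lit 26) (nat_lit 1) (nat_lit 24) (nat_lit 1) (nat_lit 25) (nat_lit 1) (nat_lit 210) (nat_lit 288) (nat_lit 222)) (XT.nd (nat_lit 94) (nat_lit 168) (nat_lit 0) (XT.lf (nat_lit 0) (nat_lit 897761500) (nat_lit 0) (nat_lit 9613212357) (nat_lit 168) (nat_lit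 897761500) (nat_lit 24) (nat_lit 3) (nat_lit 24) (nat_lit 1) (nat_lit 26) (nat_lit 1) (nat_lit 211) (nat_lit 288) (nat_lit 221)) (XT.lf (nat_lit 84) (nat_lit 4739890288) (nat_lit 0) (nat_lit 1736848341) (nat_lit 168) (nat_lit 4739890288) (nat_lit 23) (nat_lit 1) (nat_lit 22) (nat_lit 1) (nat_lit 24) (nat_lit 1) (nat_lit 212) (nat_lit 288) (nat_lit 220)))) (XT.nd (nat_lit 188) (nat_lit 252) (nat_lit 0) (XT.nd (nat_lit 94) (nat_lit 0) (nat_lit 0) (XT.lf (nat_lit 168) (nat_lit 5929533765) (nat_lit 0) (nat_lit 2550055111) (nat_lit 84) (nat_lit 2550055111) (nat_lit 23) (nat_lit 1) (nat_lit 21) (nat_lit 1) (nat_lit 22) (nat_lit 1) (nat_lit 213) (nat_lit 288) (nat_lit 219)) (XT.lf (nat_lit 0) (nat_lit 1225570427) (nat_lit 0) (nat_lit 8395793416) (nat_lit 168) (nat_lit 1225570427) (nat_lit 21) (nat_lit 3) (nat_lit 21) (nat_lit 1) (nat_lit 23) (nat_lit 1) (nat_lit 214) (nat_lit 288)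 (nat_lit 218))) (XT.nd (nat_lit 94) (nat_lit 84) (nat_lit 0) (XT.lf (nat_lit 84) (nat_lit 4850289594) (nat_lit 0) (nat_lit 965119124) (nat_lit 168) (nat_lit 4850289594) (nat_lit 20) (nat_lit 1) (nat_lit 19) (nat_lit 1) (nat_lit 21) (nat_lit 1) (nat_lit 215) (nat_lit 288) (nat_lit 217)) (XT.lf (nat_lit 168) (nat_lit 6292802531) (nat_lit 0) (nat_lit 2097936651) (nat_lit 84) (nat_lit 2097936651) (nat_lit 20) (nat_lit 1) (nat_lit 18) (nat_lit 1) (nat_lit 19) (nat_lit 1) (nat_lit 216) (nat_lit 288) (nat_lit 216))))) (XT.nd (nat_lit 282) (nat_lit 252) (nat_lit 0) (XT.nd (nat_lit 94) (nat_lit 252) (nat_lit 0) (XT.lf (nat_lit 0) (nat_lit 1472070127) (nat_lit 0) (nat_lit 7371030326) (nat_lit 168) (nat_lit 1472070127) (nat_lit 18) (nat_lit 3) (nat_lit 18) (nat_lit 1) (nat_lit 20) (nat_lit 1) (nat_lit 217) (nat_lit 288) (nat_lit 215)) (XT.nd (nat_lit 94) (nat_lit 84) (nat_lit 0) (XT.lf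 (nat_lit 84) (nat_lit 4895840608) (nat_lit 0) (nat_lit 352300840) (nat_lit 168) (nat_lit 4895840608) (nat_lit 17) (nat_lit 1) (nat_lit 16) (nat_lit 1) (nat_lit 18) (nat_lit 1) (nat_lit 218) (nat_lit 288) (nat_lit 214)) (XT.lf (nat_lit 168) (nat_lit 6524304623) (nat_lit 0) (nat_lit 1725977674) (nat_lit 84) (nat_lit 1725977674) (nat_lit 17) (nat_lit 1) (nat_lit 15) (nat_lit 1) (nat_lit 16) (nat_lit 1) (nat_lit 219) (nat_lit 288) (nat_lit 213)))) (XT.nd (nat_lit 188) (nat_lit 168) (nat_lit 0) (XT.nd (nat_lit 94) (nat_lit 84) (nat_lit 0) (XT.lf (nat_lit 0) (nat_lit 1652780789) (nat_lit 0) (nat_lit 6505869942) (nat_lit 168) (nat_lit 1652780789) (nat_lit 15) (nat_lit 3) (nat_lit 15) (nat_lit 1) (nat_lit 17) (nat_lit 1) (nat_lit 220) (nat_lit 288) (nat_lit 212)) (XT.lf (nat_lit 84) (nat_lit 135158624) (nat_lit 0) (nat_lit 4757148294) (nat_lit 84) (nat_lit 4757148294) (nat_lit 15)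 (nat_lit 3) (nat_lit 14) (nat_lit 1) (nat_lit 15) (nat_lit 1) (nat_lit 221) (nat_lit 288) (nat_lit 211))) (XT.nd (nat_lit 94) (nat_lit 0) (nat_lit 0) (XT.lf (nat_lit 168) (nat_lit 6650609567) (nat_lit 0) (nat_lit 1419966104) (nat_lit 84) (nat_lit 1419966104) (nat_lit 14) (nat_lit 1) (nat_lit 12) (nat_lit 1) (nat_lit 13) (nat_lit 1) (nat_lit 222) (nat_lit 288) (nat_lit 210)) (XT.lf (nat_lit 0) (nat_lit 1780418323) (nat_lit 0) (nat_lit 5773066780) (nat_lit 168) (nat_lit 1780418323) (nat_lit 12) (nat_lit 3) (nat_lit 12) (nat_lit 1) (nat_lit 14) (nat_lit 1) (nat_lit 223) (nat_lit 288) (nat_lit 209))))))))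
noncomputable def ec141 : XT := (XT.nd (nat_lit 2538) (nat_lit 0) (nat_lit 0) (XT.nd (nat_lit 1222) (nat_lit 0) (nat_lit 0) (XT.nd (nat_lit 564) (nat_lit 504) (nat_lit 0) (XT.nd (nat_lit 282) (nat_lit 252) (nat_lit 0) (XT.nd (nat_lit 94) (nat_lit 168) (nat_lit 0) (XT.lf (nat_lit 84) (nat_lit 525081789) (nat_lit 0) (nat_lit 4327604129) (nat_lit 84) (nat_lit 4327604129) (nat_lit 12) (nat_lit 3) (nat_lit 11) (nat_lit 1) (nat_lit 12) (nat_lit 1) (nat_lit 224) (nat_lit 288) (nat_lit 208)) (XT.nd (nat_lit 94) (nat_lit 0) (nat_lit 0) (XT.lf (nat_lit 168) (nat_lit 6693423433) (nat_lit 0) (nat_lit 1168209628) (nat_lit 84) (nat_lit 1168209628) (nat_lit 11) (nat_lit 1) (nat_lit 9) (nat_lit 1) (nat_lit 10) (nat_lit 1) (nat_lit 225) (nat_lit 288) (nat_lit 207)) (XT.lf (nat_lit 0) (nat_lit 1865394063) (nat_lit 0) (nat_lit 5150155830) (nat_lit 168) (nat_lit 1865394063) (nat_lit 9) (nat_lit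 3) (nat_lit 9) (nat_lit 1) (nat_lit 11) (nat_lit 1) (nat_lit 226) (nat_lit 288) (nat_lit 206)))) (XT.nd (nat_lit 94) (nat_lit 168) (nat_lit 0) (XT.lf (nat_lit 84) (nat_lit 826163662) (nat_lit 0) (nat_lit 3954508202) (nat_lit 84) (nat_lit 3954508202) (nat_lit 9) (nat_lit 3) (nat_lit 8) (nat_lit 1) (nat_lit 9) (nat_lit 1) (nat_lit 227) (nat_lit 288) (nat_lit 205)) (XT.nd (nat_lit 94) (nat_lit 0) (nat_lit 0) (XT.lf (nat_lit 168) (nat_lit 6670458388) (nat_lit 0) (nat_lit 961088952) (nat_lit 84) (nat_lit 961088952) (nat_lit 8) (nat_lit 1) (nat_lit 6) (nat_lit 1) (nat_lit 7) (nat_lit 1) (nat_lit 228) (nat_lit 288) (nat_lit 204)) (XT.lf (nat_lit 0) (nat_lit 1916225743) (nat_lit 0) (nat_lit 4618607378) (nat_lit 168) (nat_lit 1916225743) (nat_lit 6) (nat_lit 3) (nat_lit 6) (nat_lit 1) (nat_lit 8) (nat_lit 1) (nat_lit 229) (nat_lit 288) (nat_lit 203))))) (XT.nd (nat_lit 282) (nat_lit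 252) (nat_lit 0) (XT.nd (nat_lit 94) (nat_lit 168) (nat_lit 0) (XT.lf (nat_lit 84) (nat_lit 1055094104) (nat_lit 0) (nat_lit 3628790899) (nat_lit 84) (nat_lit 3628790899) (nat_lit 6) (nat_lit 3) (nat_lit 5) (nat_lit 1) (nat_lit 6) (nat_lit 1) (nat_lit 230) (nat_lit 288) (nat_lit 202)) (XT.nd (nat_lit 94) (nat_lit 0) (nat_lit 0) (XT.lf (nat_lit 168) (nat_lit 6596147733) (nat_lit 0) (nat_lit 790690259) (nat_lit 84) (nat_lit 790690259) (nat_lit 5) (nat_lit 1) (nat_lit 3) (nat_lit 1) (nat_lit 4) (nat_lit 1) (nat_lit 231) (nat_lit 288) (nat_lit 201)) (XT.lf (nat_lit 0) (nat_lit 1939875500) (nat_lit 0) (nat_lit 4163131559) (nat_lit 168) (nat_lit 1939875500) (nat_lit 3) (nat_lit 3) (nat_lit 3) (nat_lit 1) (nat_lit 5) (nat_lit 1) (nat_lit 232) (nat_lit 288) (nat_lit 200)))) (XT.nd (nat_lit 188) (nat_lit 0) (nat_lit 0) (XT.nd (nat_lit 94) (nat_lit 168) (nat_lit 0) (XT.lf (nat_lit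 84) (nat_lit 1225559211) (nat_lit 0) (nat_lit 3342945933) (nat_lit 84) (nat_lit 3342945933) (nat_lit 3) (nat_lit 3) (nat_lit 2) (nat_lit 1) (nat_lit 3) (nat_lit 1) (nat_lit 233) (nat_lit 288) (nat_lit 199)) (XT.lf (nat_lit 0) (nat_lit 11306618732) (nat_lit 0) (nat_lit 0) (nat_lit 0) (nat_lit 0) (nat_lit 0) (nat_lit 0) (nat_lit 1) (nat_lit 0) (nat_lit 1) (nat_lit 0) (nat_lit 234) (nat_lit 288) (nat_lit 198))) (XT.nd (nat_lit 94) (nat_lit 0) (nat_lit 0) (XT.lf (nat_lit 0) (nat_lit 11300031089) (nat_lit 0) (nat_lit 0) (nat_lit 0) (nat_lit 0) (nat_lit 0) (nat_lit 0) (nat_lit 1) (nat_lit 0) (nat_lit 1) (nat_lit 0) (nat_lit 235) (nat_lit 288) (nat_lit 197)) (XT.lf (nat_lit 0) (nat_lit 11293757144) (nat_lit 0) (nat_lit 0) (nat_lit 0) (nat_lit 0) (nat_lit 0) (nat_lit 0) (nat_lit 1) (nat_lit 0) (nat_lit 1) (nat_lit 0) (nat_lit 236) (nat_lit 288) (nat_lit 196)))))) (XT.nd (nat_lit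 658) (nat_lit 0) (nat_lit 0) (XT.nd (nat_lit 282) (nat_lit 0) (nat_lit 0) (XT.nd (nat_lit 94) (nat_lit 0) (nat_lit 0) (XT.lf (nat_lit 0) (nat_lit 11287781958) (nat_lit 0) (nat_lit 0) (nat_lit 0) (nat_lit 0) (nat_lit 0) (nat_lit 0) (nat_lit 1) (nat_lit 0) (nat_lit 1) (nat_lit 0) (nat_lit 237) (nat_lit 288) (nat_lit 195)) (XT.nd (nat_lit 94) (nat_lit 0) (nat_lit 0) (XT.lf (nat_lit 0) (nat_lit 11282091305) (nat_lit 0) (nat_lit 0) (nat_lit 0) (nat_lit 0) (nat_lit 0) (nat_lit 0) (nat_lit 1) (nat_lit 0) (nat_lit 1) (nat_lit 0) (nat_lit 238) (nat_lit 288) (nat_lit 194)) (XT.lf (nat_lit 0) (nat_lit 11276671636) (nat_lit 0) (nat_lit 0) (nat_lit 0) (nat_lit 0) (nat_lit 0) (nat_lit 0) (nat_lit 1) (nat_lit 0) (nat_lit 1) (nat_lit 0) (nat_lit 239) (nat_lit 288) (nat_lit 193)))) (XT.nd (nat_lit 188) (nat_lit 0) (nat_lit 0) (XT.nd (nat_lit 94) (nat_lit 0) (nat_lit 0) (XT.lf (nat_lit 0)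 (nat_lit 11271510045) (nat_lit 0) (nat_lit 0) (nat_lit 0) (nat_lit 0) (nat_lit 0) (nat_lit 0) (nat_lit 1) (nat_lit 0) (nat_lit 1) (nat_lit 0) (nat_lit 240) (nat_lit 288) (nat_lit 192)) (XT.lf (nat_lit 0) (nat_lit 11266594245) (nat_lit 0) (nat_lit 0) (nat_lit 0) (nat_lit 0) (nat_lit 0) (nat_lit 0) (nat_lit 1) (nat_lit 0) (nat_lit 1) (nat_lit 0) (nat_lit 241) (nat_lit 288) (nat_lit 191))) (XT.nd (nat_lit 94) (nat_lit 0) (nat_lit 0) (XT.lf (nat_lit 0) (nat_lit 11261912531) (nat_lit 0) (nat_lit 0) (nat_lit 0) (nat_lit 0) (nat_lit 0) (nat_lit 0) (nat_lit 1) (nat_lit 0) (nat_lit 1) (nat_lit 0) (nat_lit 242) (nat_lit 288) (nat_lit 190)) (XT.lf (nat_lit 0) (nat_lit 11257453755) (nat_lit 0) (nat_lit 0) (nat_lit 0) (nat_lit 0) (nat_lit 0) (nat_lit 0) (nat_lit 1) (nat_lit 0) (nat_lit 1) (nat_lit 0) (nat_lit 243) (nat_lit 288) (nat_lit 189))))) (XT.nd (nat_lit 282) (nat_lit 0) (nat_lit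 0) (XT.nd (nat_lit 94) (nat_lit 0) (nat_lit 0) (XT.lf (nat_lit 0) (nat_lit 11253207302) (nat_lit 0) (nat_lit 0) (nat_lit 0) (nat_lit 0) (nat_lit 0) (nat_lit 0) (nat_lit 1) (nat_lit 0) (nat_lit 1) (nat_lit 0) (nat_lit 244) (nat_lit 288) (nat_lit 188)) (XT.nd (nat_lit 94) (nat_lit 0) (nat_lit 0) (XT.lf (nat_lit 0) (nat_lit 11249163061) (nat_lit 0) (nat_lit 0) (nat_lit 0) (nat_lit 0) (nat_lit 0) (nat_lit 0) (nat_lit 1) (nat_lit 0) (nat_lit 1) (nat_lit 0) (nat_lit 245) (nat_lit 288) (nat_lit 187)) (XT.lf (nat_lit 0) (nat_lit 11245311403) (nat_lit 0) (nat_lit 0) (nat_lit 0) (nat_lit 0) (nat_lit 0) (nat_lit 0) (nat_lit 1) (nat_lit 0) (nat_lit 1) (nat_lit 0) (nat_lit 246) (nat_lit 288) (nat_lit 186)))) (XT.nd (nat_lit 188) (nat_lit 0) (nat_lit 0) (XT.nd (nat_lit 94) (nat_lit 0) (nat_lit 0) (XT.lf (nat_lit 0) (nat_lit 11241643157) (nat_lit 0) (nat_lit 0) (nat_lit 0) (nat_lit 0)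 (nat_lit 0) (nat_lit 0) (nat_lit 1) (nat_lit 0) (nat_lit 1) (nat_lit 0) (nat_lit 247) (nat_lit 288) (nat_lit 185)) (XT.lf (nat_lit 0) (nat_lit 11238149590) (nat_lit 0) (nat_lit 0) (nat_lit 0) (nat_lit 0) (nat_lit 0) (nat_lit 0) (nat_lit 1) (nat_lit 0) (nat_lit 1) (nat_lit 0) (nat_lit 248) (nat_lit 288) (nat_lit 184))) (XT.nd (nat_lit 94) (nat_lit 0) (nat_lit 0) (XT.lf (nat_lit 0) (nat_lit 11234822383) (nat_lit 0) (nat_lit 0) (nat_lit 0) (nat_lit 0) (nat_lit 0) (nat_lit 0) (nat_lit 1) (nat_lit 0) (nat_lit 1) (nat_lit 0) (nat_lit 249) (nat_lit 288) (nat_lit 183)) (XT.lf (nat_lit 0) (nat_lit 11231653614) (nat_lit 0) (nat_lit 0) (nat_lit 0) (nat_lit 0) (nat_lit 0) (nat_lit 0) (nat_lit 1) (nat_lit 0) (nat_lit 1) (nat_lit 0) (nat_lit 250) (nat_lit 288) (nat_lit 182))))))) (XT.nd (nat_lit 1316) (nat_lit 0) (nat_lit 0) (XT.nd (nat_lit 658) (nat_lit 0) (nat_lit 0) (XT.nd (nat_lit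 282) (nat_lit 0) (nat_lit 0) (XT.nd (nat_lit 94) (nat_lit 0) (nat_lit 0) (XT.lf (nat_lit 0) (nat_lit 11228635739) (nat_lit 0) (nat_lit 0) (nat_lit 0) (nat_lit 0) (nat_lit 0) (nat_lit 0) (nat_lit 1) (nat_lit 0) (nat_lit 1) (nat_lit 0) (nat_lit 251) (nat_lit 288) (nat_lit 181)) (XT.nd (nat_lit 94) (nat_lit 0) (nat_lit 0) (XT.lf (nat_lit 0) (nat_lit 11225761573) (nat_lit 0) (nat_lit 0) (nat_lit 0) (nat_lit 0) (nat_lit 0) (nat_lit 0) (nat_lit 1) (nat_lit 0) (nat_lit 1) (nat_lit 0) (nat_lit 252) (nat_lit 288) (nat_lit 180)) (XT.lf (nat_lit 0) (nat_lit 11223024271) (nat_lit 0) (nat_lit 0) (nat_lit 0) (nat_lit 0) (nat_lit 0) (nat_lit 0) (nat_lit 1) (nat_lit 0) (nat_lit 1) (nat_lit 0) (nat_lit 253) (nat_lit 288) (nat_lit 179)))) (XT.nd (nat_lit 188) (nat_lit 0) (nat_lit 0) (XT.nd (nat_lit 94) (nat_lit 0) (nat_lit 0) (XT.lf (nat_lit 0) (nat_lit 11220417318) (nat_lit 0) (nat_lit 0)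 (nat_lit 0) (nat_lit 0) (nat_lit 0) (nat_lit 0) (nat_lit 1) (nat_lit 0) (nat_lit 1) (nat_lit 0) (nat_lit 254) (nat_lit 288) (nat_lit 178)) (XT.lf (nat_lit 0) (nat_lit 11217934505) (nat_lit 0) (nat_lit 0) (nat_lit 0) (nat_lit 0) (nat_lit 0) (nat_lit 0) (nat_lit 1) (nat_lit 0) (nat_lit 1) (nat_lit 0) (nat_lit 255) (nat_lit 288) (nat_lit 177))) (XT.nd (nat_lit 94) (nat_lit 0) (nat_lit 0) (XT.lf (nat_lit 0) (nat_lit 11215569921) (nat_lit 0) (nat_lit 0) (nat_lit 0) (nat_lit 0) (nat_lit 0) (nat_lit 0) (nat_lit 1) (nat_lit 0) (nat_lit 1) (nat_lit 0) (nat_lit 256) (nat_lit 288) (nat_lit 176)) (XT.lf (nat_lit 0) (nat_lit 11213317936) (nat_lit 0) (nat_lit 0) (nat_lit 0) (nat_lit 0) (nat_lit 0) (nat_lit 0) (nat_lit 1) (nat_lit 0) (nat_lit 1) (nat_lit 0) (nat_lit 257) (nat_lit 288) (nat_lit 175))))) (XT.nd (nat_lit 282) (nat_lit 0) (nat_lit 0) (XT.nd (nat_lit 94) (nat_lit 0) (nat_lit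 0) (XT.lf (nat_lit 0) (nat_lit 11211173189) (nat_lit 0) (nat_lit 0) (nat_lit 0) (nat_lit 0) (nat_lit 0) (nat_lit 0) (nat_lit 1) (nat_lit 0) (nat_lit 1) (nat_lit 0) (nat_lit 258) (nat_lit 288) (nat_lit 174)) (XT.nd (nat_lit 94) (nat_lit 0) (nat_lit 0) (XT.lf (nat_lit 0) (nat_lit 11209130572) (nat_lit 0) (nat_lit 0) (nat_lit 0) (nat_lit 0) (nat_lit 0) (nat_lit 0) (nat_lit 1) (nat_lit 0) (nat_lit 1) (nat_lit 0) (nat_lit 259) (nat_lit 288) (nat_lit 173)) (XT.lf (nat_lit 0) (nat_lit 11207185223) (nat_lit 0) (nat_lit 0) (nat_lit 0) (nat_lit 0) (nat_lit 0) (nat_lit 0) (nat_lit 1) (nat_lit 0) (nat_lit 1) (nat_lit 0) (nat_lit 260) (nat_lit 288) (nat_lit 172)))) (XT.nd (nat_lit 188) (nat_lit 0) (nat_lit 0) (XT.nd (nat_lit 94) (nat_lit 0) (nat_lit 0) (XT.lf (nat_lit 0) (nat_lit 11205332510) (nat_lit 0) (nat_lit 0) (nat_lit 0) (nat_lit 0) (nat_lit 0) (nat_lit 0) (nat_lit 1) (nat_lit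 0) (nat_lit 1) (nat_lit 0) (nat_lit 261) (nat_lit 288) (nat_lit 171)) (XT.lf (nat_lit 0) (nat_lit 11203568021) (nat_lit 0) (nat_lit 0) (nat_lit 0) (nat_lit 0) (nat_lit 0) (nat_lit 0) (nat_lit 1) (nat_lit 0) (nat_lit 1) (nat_lit 0) (nat_lit 262) (nat_lit 288) (nat_lit 170))) (XT.nd (nat_lit 94) (nat_lit 0) (nat_lit 0) (XT.lf (nat_lit 0) (nat_lit 11201887555) (nat_lit 0) (nat_lit 0) (nat_lit 0) (nat_lit 0) (nat_lit 0) (nat_lit 0) (nat_lit 1) (nat_lit 0) (nat_lit 1) (nat_lit 0) (nat_lit 263) (nat_lit 288) (nat_lit 169)) (XT.lf (nat_lit 0) (nat_lit 11200287112) (nat_lit 0) (nat_lit 0) (nat_lit 0) (nat_lit 0) (nat_lit 0) (nat_lit 0) (nat_lit 1) (nat_lit 0) (nat_lit 1) (nat_lit 0) (nat_lit 264) (nat_lit 288) (nat_lit 168)))))) (XT.nd (nat_lit 658) (nat_lit 0) (nat_lit 0) (XT.nd (nat_lit 282) (nat_lit 0) (nat_lit 0) (XT.nd (nat_lit 94) (nat_lit 0) (nat_lit 0) (XT.lf (nat_lit 0)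 (nat_lit 11198762880) (nat_lit 0) (nat_lit 0) (nat_lit 0) (nat_lit 0) (nat_lit 0) (nat_lit 0) (nat_lit 1) (nat_lit 0) (nat_lit 1) (nat_lit 0) (nat_lit 265) (nat_lit 288) (nat_lit 167)) (XT.nd (nat_lit 94) (nat_lit 0) (nat_lit 0) (XT.lf (nat_lit 0) (nat_lit 11197311230) (nat_lit 0) (nat_lit 0) (nat_lit 0) (nat_lit 0) (nat_lit 0) (nat_lit 0) (nat_lit 1) (nat_lit 0) (nat_lit 1) (nat_lit 0) (nat_lit 266) (nat_lit 288) (nat_lit 166)) (XT.lf (nat_lit 0) (nat_lit 11195928707) (nat_lit 0) (nat_lit 0) (nat_lit 0) (nat_lit 0) (nat_lit 0) (nat_lit 0) (nat_lit 1) (nat_lit 0) (nat_lit 1) (nat_lit 0) (nat_lit 267) (nat_lit 288) (nat_lit 165)))) (XT.nd (nat_lit 188) (nat_lit 0) (nat_lit 0) (XT.nd (nat_lit 94) (nat_lit 0) (nat_lit 0) (XT.lf (nat_lit 0) (nat_lit 11194612018) (nat_lit 0) (nat_lit 0) (nat_lit 0) (nat_lit 0) (nat_lit 0) (nat_lit 0) (nat_lit 1) (nat_lit 0) (nat_lit 1) (nat_lit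 0) (nat_lit 268) (nat_lit 288) (nat_lit 164)) (XT.lf (nat_lit 0) (nat_lit 11193358029) (nat_lit 0) (nat_lit 0) (nat_lit 0) (nat_lit 0) (nat_lit 0) (nat_lit 0) (nat_lit 1) (nat_lit 0) (nat_lit 1) (nat_lit 0) (nat_lit 269) (nat_lit 288) (nat_lit 163))) (XT.nd (nat_lit 94) (nat_lit 0) (nat_lit 0) (XT.lf (nat_lit 0) (nat_lit 11192163753) (nat_lit 0) (nat_lit 0) (nat_lit 0) (nat_lit 0) (nat_lit 0) (nat_lit 0) (nat_lit 1) (nat_lit 0) (nat_lit 1) (nat_lit 0) (nat_lit 270) (nat_lit 288) (nat_lit 162)) (XT.lf (nat_lit 0) (nat_lit 11191026348) (nat_lit 0) (nat_lit 0) (nat_lit 0) (nat_lit 0) (nat_lit 0) (nat_lit 0) (nat_lit 1) (nat_lit 0) (nat_lit 1) (nat_lit 0) (nat_lit 271) (nat_lit 288) (nat_lit 161))))) (XT.nd (nat_lit 282) (nat_lit 0) (nat_lit 0) (XT.nd (nat_lit 94) (nat_lit 0) (nat_lit 0) (XT.lf (nat_lit 0) (nat_lit 11189943105) (nat_lit 0) (nat_lit 0) (nat_lit 0) (nat_lit 0)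 (nat_lit 0) (nat_lit 0) (nat_lit 1) (nat_lit 0) (nat_lit 1) (nat_lit 0) (nat_lit 272) (nat_lit 288) (nat_lit 160)) (XT.nd (nat_lit 94) (nat_lit 0) (nat_lit 0) (XT.lf (nat_lit 0) (nat_lit 11188911445) (nat_lit 0) (nat_lit 0) (nat_lit 0) (nat_lit 0) (nat_lit 0) (nat_lit 0) (nat_lit 1) (nat_lit 0) (nat_lit 1) (nat_lit 0) (nat_lit 273) (nat_lit 288) (nat_lit 159)) (XT.lf (nat_lit 0) (nat_lit 11187928911) (nat_lit 0) (nat_lit 0) (nat_lit 0) (nat_lit 0) (nat_lit 0) (nat_lit 0) (nat_lit 1) (nat_lit 0) (nat_lit 1) (nat_lit 0) (nat_lit 274) (nat_lit 288) (nat_lit 158)))) (XT.nd (nat_lit 188) (nat_lit 0) (nat_lit 0) (XT.nd (nat_lit 94) (nat_lit 0) (nat_lit 0) (XT.lf (nat_lit 0) (nat_lit 11186993165) (nat_lit 0) (nat_lit 0) (nat_lit 0) (nat_lit 0) (nat_lit 0) (nat_lit 0) (nat_lit 1) (nat_lit 0) (nat_lit 1) (nat_lit 0) (nat_lit 275) (nat_lit 288) (nat_lit 157)) (XT.lf (nat_lit 0) (nat_lit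 11186101978) (nat_lit 0) (nat_lit 0) (nat_lit 0) (nat_lit 0) (nat_lit 0) (nat_lit 0) (nat_lit 1) (nat_lit 0) (nat_lit 1) (nat_lit 0) (nat_lit 276) (nat_lit 288) (nat_lit 156))) (XT.nd (nat_lit 94) (nat_lit 0) (nat_lit 0) (XT.lf (nat_lit 0) (nat_lit 11185253229) (nat_lit 0) (nat_lit 0) (nat_lit 0) (nat_lit 0) (nat_lit 0) (nat_lit 0) (nat_lit 1) (nat_lit 0) (nat_lit 1) (nat_lit 0) (nat_lit 277) (nat_lit 288) (nat_lit 155)) (XT.lf (nat_lit 0) (nat_lit 11184444896) (nat_lit 0) (nat_lit 0) (nat_lit 0) (nat_lit 0) (nat_lit 0) (nat_lit 0) (nat_lit 1) (nat_lit 0) (nat_lit 1) (nat_lit 0) (nat_lit 278) (nat_lit 288) (nat_lit 154))))))))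
noncomputable def ec142 : XT := (XT.nd (nat_lit 2538) (nat_lit 0) (nat_lit 0) (XT.nd (nat_lit 1222) (nat_lit 0) (nat_lit 0) (XT.nd (nat_lit 564) (nat_lit 0) (nat_lit 0) (XT.nd (nat_lit 282) (nat_lit 0) (nat_lit 0) (XT.nd (nat_lit 94) (nat_lit 0) (nat_lit 0) (XT.lf (nat_lit 0) (nat_lit 11183675056) (nat_lit 0) (nat_lit 0) (nat_lit 0) (nat_lit 0) (nat_lit 0) (nat_lit 0) (nat_lit 1) (nat_lit 0) (nat_lit 1) (nat_lit 0) (nat_lit 279) (nat_lit 288) (nat_lit 153)) (XT.nd (nat_lit 94) (nat_lit 0) (nat_lit 0) (XT.lf (nat_lit 0) (nat_lit 11182941874) (nat_lit 0) (nat_lit 0) (nat_lit 0) (nat_lit 0) (nat_lit 0) (nat_lit 0) (nat_lit 1) (nat_lit 0) (nat_lit 1) (nat_lit 0) (nat_lit 280) (nat_lit 288) (nat_lit 152)) (XT.lf (nat_lit 0) (nat_lit 11182243606) (nat_lit 0) (nat_lit 0) (nat_lit 0) (nat_lit 0) (nat_lit 0) (nat_lit 0) (nat_lit 1) (nat_lit 0) (nat_lit 1) (nat_lit 0) (nat_lit 281)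 (nat_lit 288) (nat_lit 151)))) (XT.nd (nat_lit 94) (nat_lit 0) (nat_lit 0) (XT.lf (nat_lit 0) (nat_lit 11181578588) (nat_lit 0) (nat_lit 0) (nat_lit 0) (nat_lit 0) (nat_lit 0) (nat_lit 0) (nat_lit 1) (nat_lit 0) (nat_lit 1) (nat_lit 0) (nat_lit 282) (nat_lit 288) (nat_lit 150)) (XT.nd (nat_lit 94) (nat_lit 0) (nat_lit 0) (XT.lf (nat_lit 0) (nat_lit 11180945239) (nat_lit 0) (nat_lit 0) (nat_lit 0) (nat_lit 0) (nat_lit 0) (nat_lit 0) (nat_lit 1) (nat_lit 0) (nat_lit 1) (nat_lit 0) (nat_lit 283) (nat_lit 288) (nat_lit 149)) (XT.lf (nat_lit 0) (nat_lit 11180342048) (nat_lit 0) (nat_lit 0) (nat_lit 0) (nat_lit 0) (nat_lit 0) (nat_lit 0) (nat_lit 1) (nat_lit 0) (nat_lit 1) (nat_lit 0) (nat_lit 284) (nat_lit 288) (nat_lit 148))))) (XT.nd (nat_lit 282) (nat_lit 0) (nat_lit 0) (XT.nd (nat_lit 94) (nat_lit 0) (nat_lit 0) (XT.lf (nat_lit 0) (nat_lit 11179767581) (nat_lit 0) (nat_lit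 0) (nat_lit 0) (nat_lit 0) (nat_lit 0) (nat_lit 0) (nat_lit 1) (nat_lit 0) (nat_lit 1) (nat_lit 0) (nat_lit 285) (nat_lit 288) (nat_lit 147)) (XT.nd (nat_lit 94) (nat_lit 0) (nat_lit 0) (XT.lf (nat_lit 0) (nat_lit 11179220470) (nat_lit 0) (nat_lit 0) (nat_lit 0) (nat_lit 0) (nat_lit 0) (nat_lit 0) (nat_lit 1) (nat_lit 0) (nat_lit 1) (nat_lit 0) (nat_lit 286) (nat_lit 288) (nat_lit 146)) (XT.lf (nat_lit 0) (nat_lit 11178699411) (nat_lit 0) (nat_lit 0) (nat_lit 0) (nat_lit 0) (nat_lit 0) (nat_lit 0) (nat_lit 1) (nat_lit 0) (nat_lit 1) (nat_lit 0) (nat_lit 287) (nat_lit 288) (nat_lit 145)))) (XT.nd (nat_lit 188) (nat_lit 0) (nat_lit 0) (XT.nd (nat_lit 94) (nat_lit 0) (nat_lit 0) (XT.lf (nat_lit 0) (nat_lit 11178203165) (nat_lit 0) (nat_lit 0) (nat_lit 0) (nat_lit 0) (nat_lit 0) (nat_lit 0) (nat_lit 1) (nat_lit 0) (nat_lit 1) (nat_lit 0) (nat_lit 288) (nat_lit 288) (nat_lit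 144)) (XT.lf (nat_lit 0) (nat_lit 11177730550) (nat_lit 0) (nat_lit 0) (nat_lit 0) (nat_lit 0) (nat_lit 0) (nat_lit 0) (nat_lit 1) (nat_lit 0) (nat_lit 1) (nat_lit 0) (nat_lit 289) (nat_lit 288) (nat_lit 143))) (XT.nd (nat_lit 94) (nat_lit 0) (nat_lit 0) (XT.lf (nat_lit 0) (nat_lit 11177280440) (nat_lit 0) (nat_lit 0) (nat_lit 0) (nat_lit 0) (nat_lit 0) (nat_lit 0) (nat_lit 1) (nat_lit 0) (nat_lit 1) (nat_lit 0) (nat_lit 290) (nat_lit 288) (nat_lit 142)) (XT.lf (nat_lit 0) (nat_lit 11176851764) (nat_lit 0) (nat_lit 0) (nat_lit 0) (nat_lit 0) (nat_lit 0) (nat_lit 0) (nat_lit 1) (nat_lit 0) (nat_lit 1) (nat_lit 0) (nat_lit 291) (nat_lit 288) (nat_lit 141)))))) (XT.nd (nat_lit 658) (nat_lit 0) (nat_lit 0) (XT.nd (nat_lit 282) (nat_lit 0) (nat_lit 0) (XT.nd (nat_lit 94) (nat_lit 0) (nat_lit 0) (XT.lf (nat_lit 0) (nat_lit 11176443501) (nat_lit 0) (nat_lit 0) (nat_lit 0) (nat_lit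 0) (nat_lit 0) (nat_lit 0) (nat_lit 1) (nat_lit 0) (nat_lit 1) (nat_lit 0) (nat_lit 292) (nat_lit 288) (nat_lit 140)) (XT.nd (nat_lit 94) (nat_lit 0) (nat_lit 0) (XT.lf (nat_lit 0) (nat_lit 11176054679) (nat_lit 0) (nat_lit 0) (nat_lit 0) (nat_lit 0) (nat_lit 0) (nat_lit 0) (nat_lit 1) (nat_lit 0) (nat_lit 1) (nat_lit 0) (nat_lit 293) (nat_lit 288) (nat_lit 139)) (XT.lf (nat_lit 0) (nat_lit 11175684373) (nat_lit 0) (nat_lit 0) (nat_lit 0) (nat_lit 0) (nat_lit 0) (nat_lit 0) (nat_lit 1) (nat_lit 0) (nat_lit 1) (nat_lit 0) (nat_lit 294) (nat_lit 288) (nat_lit 138)))) (XT.nd (nat_lit 188) (nat_lit 0) (nat_lit 0) (XT.nd (nat_lit 94) (nat_lit 0) (nat_lit 0) (XT.lf (nat_lit 0) (nat_lit 11175331700) (nat_lit 0) (nat_lit 0) (nat_lit 0) (nat_lit 0) (nat_lit 0) (nat_lit 0) (nat_lit 1) (nat_lit 0) (nat_lit 1) (nat_lit 0) (nat_lit 295) (nat_lit 288) (nat_lit 137)) (XT.lf (nat_lit 0)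 (nat_lit 11174995821) (nat_lit 0) (nat_lit 0) (nat_lit 0) (nat_lit 0) (nat_lit 0) (nat_lit 0) (nat_lit 1) (nat_lit 0) (nat_lit 1) (nat_lit 0) (nat_lit 296) (nat_lit 288) (nat_lit 136))) (XT.nd (nat_lit 94) (nat_lit 0) (nat_lit 0) (XT.lf (nat_lit 0) (nat_lit 11174675936) (nat_lit 0) (nat_lit 0) (nat_lit 0) (nat_lit 0) (nat_lit 0) (nat_lit 0) (nat_lit 1) (nat_lit 0) (nat_lit 1) (nat_lit 0) (nat_lit 297) (nat_lit 288) (nat_lit 135)) (XT.lf (nat_lit 0) (nat_lit 11174371284) (nat_lit 0) (nat_lit 0) (nat_lit 0) (nat_lit 0) (nat_lit 0) (nat_lit 0) (nat_lit 1) (nat_lit 0) (nat_lit 1) (nat_lit 0) (nat_lit 298) (nat_lit 288) (nat_lit 134))))) (XT.nd (nat_lit 282) (nat_lit 0) (nat_lit 0) (XT.nd (nat_lit 94) (nat_lit 0) (nat_lit 0) (XT.lf (nat_lit 0) (nat_lit 11174081139) (nat_lit 0) (nat_lit 0) (nat_lit 0) (nat_lit 0) (nat_lit 0) (nat_lit 0) (nat_lit 1) (nat_lit 0) (nat_lit 1) (nat_lit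 0) (nat_lit 299) (nat_lit 288) (nat_lit 133)) (XT.nd (nat_lit 94) (nat_lit 0) (nat_lit 0) (XT.lf (nat_lit 0) (nat_lit 11173804811) (nat_lit 0) (nat_lit 0) (nat_lit 0) (nat_lit 0) (nat_lit 0) (nat_lit 0) (nat_lit 1) (nat_lit 0) (nat_lit 1) (nat_lit 0) (nat_lit 300) (nat_lit 288) (nat_lit 132)) (XT.lf (nat_lit 0) (nat_lit 11173541641) (nat_lit 0) (nat_lit 0) (nat_lit 0) (nat_lit 0) (nat_lit 0) (nat_lit 0) (nat_lit 1) (nat_lit 0) (nat_lit 1) (nat_lit 0) (nat_lit 301) (nat_lit 288) (nat_lit 131)))) (XT.nd (nat_lit 188) (nat_lit 0) (nat_lit 0) (XT.nd (nat_lit 94) (nat_lit 0) (nat_lit 0) (XT.lf (nat_lit 0) (nat_lit 11173291003) (nat_lit 0) (nat_lit 0) (nat_lit 0) (nat_lit 0) (nat_lit 0) (nat_lit 0) (nat_lit 1) (nat_lit 0) (nat_lit 1) (nat_lit 0) (nat_lit 302) (nat_lit 288) (nat_lit 130)) (XT.lf (nat_lit 0) (nat_lit 11173052300) (nat_lit 0) (nat_lit 0) (nat_lit 0) (nat_lit 0) (nat_lit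 0) (nat_lit 0) (nat_lit 1) (nat_lit 0) (nat_lit 1) (nat_lit 0) (nat_lit 303) (nat_lit 288) (nat_lit 129))) (XT.nd (nat_lit 94) (nat_lit 0) (nat_lit 0) (XT.lf (nat_lit 0) (nat_lit 11172824964) (nat_lit 0) (nat_lit 0) (nat_lit 0) (nat_lit 0) (nat_lit 0) (nat_lit 0) (nat_lit 1) (nat_lit 0) (nat_lit 1) (nat_lit 0) (nat_lit 304) (nat_lit 288) (nat_lit 128)) (XT.lf (nat_lit 0) (nat_lit 11172608453) (nat_lit 0) (nat_lit 0) (nat_lit 0) (nat_lit 0) (nat_lit 0) (nat_lit 0) (nat_lit 1) (nat_lit 0) (nat_lit 1) (nat_lit 0) (nat_lit 305) (nat_lit 288) (nat_lit 127))))))) (XT.nd (nat_lit 30456) (nat_lit 0) (nat_lit 8148) (XT.nd (nat_lit 29798) (nat_lit 0) (nat_lit 10752) (XT.nd (nat_lit 282) (nat_lit 0) (nat_lit 0) (XT.nd (nat_lit 94) (nat_lit 0) (nat_lit 0) (XT.lf (nat_lit 0) (nat_lit 11172402253) (nat_lit 0) (nat_lit 0) (nat_lit 0) (nat_lit 0) (nat_lit 0) (nat_lit 0) (nat_lit 1) (nat_lit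 0) (nat_lit 1) (nat_lit 0) (nat_lit 306) (nat_lit 288) (nat_lit 126)) (XT.nd (nat_lit 94) (nat_lit 0) (nat_lit 0) (XT.lf (nat_lit 0) (nat_lit 11172205871) (nat_lit 0) (nat_lit 0) (nat_lit 0) (nat_lit 0) (nat_lit 0) (nat_lit 0) (nat_lit 1) (nat_lit 0) (nat_lit 1) (nat_lit 0) (nat_lit 307) (nat_lit 288) (nat_lit 125)) (XT.lf (nat_lit 0) (nat_lit 11172018841) (nat_lit 0) (nat_lit 0) (nat_lit 0) (nat_lit 0) (nat_lit 0) (nat_lit 0) (nat_lit 1) (nat_lit 0) (nat_lit 1) (nat_lit 0) (nat_lit 308) (nat_lit 288) (nat_lit 124)))) (XT.nd (nat_lit 94) (nat_lit 0) (nat_lit 0) (XT.lf (nat_lit 0) (nat_lit 11171840717) (nat_lit 0) (nat_lit 0) (nat_lit 0) (nat_lit 0) (nat_lit 0) (nat_lit 0) (nat_lit 1) (nat_lit 0) (nat_lit 1) (nat_lit 0) (nat_lit 309) (nat_lit 288) (nat_lit 123)) (XT.nd (nat_lit 94) (nat_lit 0) (nat_lit 0) (XT.lf (nat_lit 0) (nat_lit 11171671076) (nat_lit 0) (nat_lit 0) (nat_lit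 0) (nat_lit 0) (nat_lit 0) (nat_lit 0) (nat_lit 1) (nat_lit 0) (nat_lit 1) (nat_lit 0) (nat_lit 310) (nat_lit 288) (nat_lit 122)) (XT.lf (nat_lit 0) (nat_lit 11171509512) (nat_lit 0) (nat_lit 0) (nat_lit 0) (nat_lit 0) (nat_lit 0) (nat_lit 0) (nat_lit 1) (nat_lit 0) (nat_lit 1) (nat_lit 0) (nat_lit 311) (nat_lit 288) (nat_lit 121))))) (XT.nd (nat_lit 282) (nat_lit 0) (nat_lit 84) (XT.nd (nat_lit 94) (nat_lit 0) (nat_lit 0) (XT.lf (nat_lit 924) (nat_lit 5868476007) (nat_lit 0) (nat_lit 10419465662) (nat_lit 924) (nat_lit 5868476007) (nat_lit 139) (nat_lit 1) (nat_lit 128) (nat_lit 0) (nat_lit 139) (nat_lit 0) (nat_lit 142) (nat_lit 289) (nat_lit 289)) (XT.nd (nat_lit 94) (nat_lit 0) (nat_lit 84) (XT.lf (nat_lit 924) (nat_lit 22746945656) (nat_lit 84) (nat_lit 10251409765) (nat_lit 0) (nat_lit 10251409765) (nat_lit 139) (nat_lit 1) (nat_lit 129) (nat_lit 1) (nat_lit 128) (nat_lit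 0) (nat_lit 143) (nat_lit 289) (nat_lit 288)) (XT.lf (nat_lit 924) (nat_lit 10840851799) (nat_lit 0) (nat_lit 20537856628) (nat_lit 840) (nat_lit 10840851799) (nat_lit 140) (nat_lit 1) (nat_lit 129) (nat_lit 1) (nat_lit 139) (nat_lit 1) (nat_lit 144) (nat_lit 289) (nat_lit 287)))) (XT.nd (nat_lit 188) (nat_lit 0) (nat_lit 84) (XT.nd (nat_lit 94) (nat_lit 0) (nat_lit 84) (XT.lf (nat_lit 924) (nat_lit 20335931601) (nat_lit 84) (nat_lit 10443353480) (nat_lit 0) (nat_lit 10443353480) (nat_lit 140) (nat_lit 1) (nat_lit 130) (nat_lit 1) (nat_lit 129) (nat_lit 1) (nat_lit 145) (nat_lit 289) (nat_lit 286)) (XT.lf (nat_lit 924) (nat_lit 9360434028) (nat_lit 0) (nat_lit 21536446257) (nat_lit 840) (nat_lit 9360434028) (nat_lit 141) (nat_lit 1) (nat_lit 130) (nat_lit 1) (nat_lit 140) (nat_lit 1) (nat_lit 146) (nat_lit 289) (nat_lit 285))) (XT.nd (nat_lit 94) (nat_lit 0) (nat_lit 84)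 (XT.lf (nat_lit 924) (nat_lit 16835350263) (nat_lit 84) (nat_lit 11243033287) (nat_lit 0) (nat_lit 11243033287) (nat_lit 141) (nat_lit 1) (nat_lit 131) (nat_lit 1) (nat_lit 130) (nat_lit 1) (nat_lit 147) (nat_lit 289) (nat_lit 284)) (XT.lf (nat_lit 924) (nat_lit 7381814841) (nat_lit 0) (nat_lit 23653313875) (nat_lit 840) (nat_lit 7381814841) (nat_lit 142) (nat_lit 1) (nat_lit 131) (nat_lit 1) (nat_lit 141) (nat_lit 1) (nat_lit 148) (nat_lit 289) (nat_lit 283)))))) (XT.nd (nat_lit 658) (nat_lit 1596) (nat_lit 0) (XT.nd (nat_lit 282) (nat_lit 1260) (nat_lit 0) (XT.nd (nat_lit 94) (nat_lit 0) (nat_lit 84) (XT.lf (nat_lit 924) (nat_lit 12409057402) (nat_lit 84) (nat_lit 12564158063) (nat_lit 0) (nat_lit 12564158063) (nat_lit 142) (nat_lit 1) (nat_lit 132) (nat_lit 1) (nat_lit 131) (nat_lit 1) (nat_lit 149) (nat_lit 289) (nat_lit 282)) (XT.nd (nat_lit 94) (nat_lit 0) (nat_lit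 0) (XT.lf (nat_lit 924) (nat_lit 4981590219) (nat_lit 0) (nat_lit 26726820336) (nat_lit 840) (nat_lit 4981590219) (nat_lit 143) (nat_lit 1) (nat_lit 132) (nat_lit 1) (nat_lit 142) (nat_lit 1) (nat_lit 150) (nat_lit 289) (nat_lit 281)) (XT.lf (nat_lit 924) (nat_lit 7202696060) (nat_lit 84) (nat_lit 14329877767) (nat_lit 0) (nat_lit 14329877767) (nat_lit 143) (nat_lit 1) (nat_lit 133) (nat_lit 1) (nat_lit 132) (nat_lit 1) (nat_lit 151) (nat_lit 289) (nat_lit 280)))) (XT.nd (nat_lit 188) (nat_lit 588) (nat_lit 0) (XT.nd (nat_lit 94) (nat_lit 840) (nat_lit 0) (XT.lf (nat_lit 84) (nat_lit 2227793167) (nat_lit 0) (nat_lit 30613100470) (nat_lit 840) (nat_lit 2227793167) (nat_lit 134) (nat_lit 1) (nat_lit 133) (nat_lit 1) (nat_lit 143) (nat_lit 1) (nat_lit 152) (nat_lit 289) (nat_lit 279)) (XT.lf (nat_lit 924) (nat_lit 1345531672) (nat_lit 0) (nat_lit 16471838150) (nat_lit 840)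 (nat_lit 16471838150) (nat_lit 134) (nat_lit 1) (nat_lit 123) (nat_lit 1) (nat_lit 133) (nat_lit 1) (nat_lit 153) (nat_lit 289) (nat_lit 278))) (XT.nd (nat_lit 94) (nat_lit 0) (nat_lit 0) (XT.lf (nat_lit 588) (nat_lit 31931161112) (nat_lit 0) (nat_lit 806027949) (nat_lit 504) (nat_lit 806027949) (nat_lit 123) (nat_lit 1) (nat_lit 116) (nat_lit 1) (nat_lit 122) (nat_lit 1) (nat_lit 154) (nat_lit 289) (nat_lit 277)) (XT.lf (nat_lit 84) (nat_lit 13960248063) (nat_lit 0) (nat_lit 4886326196) (nat_lit 588) (nat_lit 13960248063) (nat_lit 117) (nat_lit 1) (nat_lit 116) (nat_lit 1) (nat_lit 123) (nat_lit 1) (nat_lit 155) (nat_lit 289) (nat_lit 276))))) (XT.nd (nat_lit 282) (nat_lit 756) (nat_lit 0) (XT.nd (nat_lit 94) (nat_lit 420) (nat_lit 0) (XT.lf (nat_lit 504) (nat_lit 24022003477) (nat_lit 0) (nat_lit 4039868817) (nat_lit 420) (nat_lit 4039868817) (nat_lit 117) (nat_lit 1)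 (nat_lit 111) (nat_lit 1) (nat_lit 116) (nat_lit 1) (nat_lit 156) (nat_lit 289) (nat_lit 275)) (XT.nd (nat_lit 94) (nat_lit 420) (nat_lit 0) (XT.lf (nat_lit 84) (nat_lit 9957674999) (nat_lit 0) (nat_lit 11496132658) (nat_lit 504) (nat_lit 9957674999) (nat_lit 112) (nat_lit 1) (nat_lit 111) (nat_lit 1) (nat_lit 117) (nat_lit 1) (nat_lit 157) (nat_lit 289) (nat_lit 274)) (XT.lf (nat_lit 504) (nat_lit 15818829953) (nat_lit 0) (nat_lit 7463217051) (nat_lit 420) (nat_lit 7463217051) (nat_lit 112) (nat_lit 1) (nat_lit 106) (nat_lit 1) (nat_lit 111) (nat_lit 1) (nat_lit 158) (nat_lit 289) (nat_lit 273)))) (XT.nd (nat_lit 188) (nat_lit 420) (nat_lit 0) (XT.nd (nat_lit 94) (nat_lit 336) (nat_lit 0) (XT.lf (nat_lit 84) (nat_lit 5829028604) (nat_lit 0) (nat_lit 18440364128) (nat_lit 504) (nat_lit 5829028604) (nat_lit 107) (nat_lit 1) (nat_lit 106) (nat_lit 1) (nat_lit 112) (nat_lit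 1) (nat_lit 159) (nat_lit 289) (nat_lit 272)) (XT.lf (nat_lit 420) (nat_lit 7397991273) (nat_lit 0) (nat_lit 11035113137) (nat_lit 336) (nat_lit 11035113137) (nat_lit 107) (nat_lit 1) (nat_lit 102) (nat_lit 1) (nat_lit 106) (nat_lit 1) (nat_lit 160) (nat_lit 289) (nat_lit 271))) (XT.nd (nat_lit 94) (nat_lit 420) (nat_lit 0) (XT.lf (nat_lit 84) (nat_lit 1609753537) (nat_lit 0) (nat_lit 25642741218) (nat_lit 420) (nat_lit 1609753537) (nat_lit 103) (nat_lit 1) (nat_lit 102) (nat_lit 1) (nat_lit 107) (nat_lit 1) (nat_lit 161) (nat_lit 289) (nat_lit 270)) (XT.lf (nat_lit 84) (nat_lit 13564245868) (nat_lit 0) (nat_lit 1136031940) (nat_lit 420) (nat_lit 13564245868) (nat_lit 98) (nat_lit 1) (nat_lit 97) (nat_lit 1) (nat_lit 102) (nat_lit 1) (nat_lit 162) (nat_lit 289) (nat_lit 269))))))))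
noncomputable def ec143 : XT := (XT.nd (nat_lit 2538) (nat_lit 2772) (nat_lit 0) (XT.nd (nat_lit 1222) (nat_lit 1680) (nat_lit 0) (XT.nd (nat_lit 564) (nat_lit 1092) (nat_lit 0) (XT.nd (nat_lit 282) (nat_lit 672) (nat_lit 0) (XT.nd (nat_lit 94) (nat_lit 336) (nat_lit 0) (XT.lf (nat_lit 420) (nat_lit 22437401770) (nat_lit 0) (nat_lit 2626080054) (nat_lit 336) (nat_lit 2626080054) (nat_lit 98) (nat_lit 1) (nat_lit 93) (nat_lit 1) (nat_lit 97) (nat_lit 1) (nat_lit 163) (nat_lit 289) (nat_lit 268)) (XT.nd (nat_lit 94) (nat_lit 336) (nat_lit 0) (XT.lf (nat_lit 84) (nat_lit 8800935390) (nat_lit 0) (nat_lit 9522592896) (nat_lit 420) (nat_lit 8800935390) (nat_lit 94) (nat_lit 1) (nat_lit 93) (nat_lit 1) (nat_lit 98) (nat_lit 1) (nat_lit 164) (nat_lit 289) (nat_lit 267)) (XT.lf (nat_lit 420) (nat_lit 12843012965) (nat_lit 0) (nat_lit 6867974065) (nat_lit 336) (nat_lit 6867974065)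 (nat_lit 94) (nat_lit 1) (nat_lit 89) (nat_lit 1) (nat_lit 93) (nat_lit 1) (nat_lit 165) (nat_lit 289) (nat_lit 266)))) (XT.nd (nat_lit 94) (nat_lit 672) (nat_lit 0) (XT.lf (nat_lit 84) (nat_lit 4050113115) (nat_lit 0) (nat_lit 17949182826) (nat_lit 420) (nat_lit 4050113115) (nat_lit 90) (nat_lit 1) (nat_lit 89) (nat_lit 1) (nat_lit 94) (nat_lit 1) (nat_lit 166) (nat_lit 289) (nat_lit 265)) (XT.nd (nat_lit 94) (nat_lit 420) (nat_lit 0) (XT.lf (nat_lit 336) (nat_lit 3293783533) (nat_lit 0) (nat_lit 11118752196) (nat_lit 252) (nat_lit 11118752196) (nat_lit 90) (nat_lit 1) (nat_lit 86) (nat_lit 1) (nat_lit 89) (nat_lit 1) (nat_lit 167) (nat_lit 289) (nat_lit 264)) (XT.lf (nat_lit 420) (nat_lit 23716961302) (nat_lit 0) (nat_lit 658100168) (nat_lit 336) (nat_lit 658100168) (nat_lit 86) (nat_lit 1) (nat_lit 81) (nat_lit 1) (nat_lit 85) (nat_lit 1) (nat_lit 168) (nat_lit 289) (nat_lit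 263))))) (XT.nd (nat_lit 282) (nat_lit 840) (nat_lit 0) (XT.nd (nat_lit 94) (nat_lit 252) (nat_lit 0) (XT.lf (nat_lit 84) (nat_lit 9280622294) (nat_lit 0) (nat_lit 5976547832) (nat_lit 420) (nat_lit 9280622294) (nat_lit 82) (nat_lit 1) (nat_lit 81) (nat_lit 1) (nat_lit 86) (nat_lit 1) (nat_lit 169) (nat_lit 289) (nat_lit 262)) (XT.nd (nat_lit 94) (nat_lit 0) (nat_lit 0) (XT.lf (nat_lit 336) (nat_lit 13554642260) (nat_lit 0) (nat_lit 5253389834) (nat_lit 252) (nat_lit 5253389834) (nat_lit 82) (nat_lit 1) (nat_lit 78) (nat_lit 1) (nat_lit 81) (nat_lit 1) (nat_lit 170) (nat_lit 289) (nat_lit 261)) (XT.lf (nat_lit 84) (nat_lit 4282121159) (nat_lit 0) (nat_lit 15032912133) (nat_lit 336) (nat_lit 4282121159) (nat_lit 79) (nat_lit 1) (nat_lit 78) (nat_lit 1) (nat_lit 82) (nat_lit 1) (nat_lit 171) (nat_lit 289) (nat_lit 260)))) (XT.nd (nat_lit 188) (nat_lit 252) (nat_lit 0) (XT.nd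 (nat_lit 94) (nat_lit 336) (nat_lit 0) (XT.lf (nat_lit 336) (nat_lit 3569014143) (nat_lit 0) (nat_lit 9787217394) (nat_lit 252) (nat_lit 9787217394) (nat_lit 79) (nat_lit 1) (nat_lit 75) (nat_lit 1) (nat_lit 78) (nat_lit 1) (nat_lit 172) (nat_lit 289) (nat_lit 259)) (XT.lf (nat_lit 336) (nat_lit 21479855253) (nat_lit 0) (nat_lit 613371948) (nat_lit 252) (nat_lit 613371948) (nat_lit 75) (nat_lit 1) (nat_lit 71) (nat_lit 1) (nat_lit 74) (nat_lit 1) (nat_lit 173) (nat_lit 289) (nat_lit 258))) (XT.nd (nat_lit 94) (nat_lit 252) (nat_lit 0) (XT.lf (nat_lit 84) (nat_lit 8125214098) (nat_lit 0) (nat_lit 6020702060) (nat_lit 336) (nat_lit 8125214098) (nat_lit 72) (nat_lit 1) (nat_lit 71) (nat_lit 1) (nat_lit 75) (nat_lit 1) (nat_lit 174) (nat_lit 289) (nat_lit 257)) (XT.lf (nat_lit 336) (nat_lit 11172913377) (nat_lit 0) (nat_lit 5339430202) (nat_lit 252) (nat_lit 5339430202) (nat_lit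 72) (nat_lit 1) (nat_lit 68) (nat_lit 1) (nat_lit 71) (nat_lit 1) (nat_lit 175) (nat_lit 289) (nat_lit 256)))))) (XT.nd (nat_lit 658) (nat_lit 756) (nat_lit 0) (XT.nd (nat_lit 282) (nat_lit 420) (nat_lit 0) (XT.nd (nat_lit 94) (nat_lit 504) (nat_lit 0) (XT.lf (nat_lit 84) (nat_lit 3077011231) (nat_lit 0) (nat_lit 15289642176) (nat_lit 336) (nat_lit 3077011231) (nat_lit 69) (nat_lit 1) (nat_lit 68) (nat_lit 1) (nat_lit 72) (nat_lit 1) (nat_lit 176) (nat_lit 289) (nat_lit 255)) (XT.nd (nat_lit 94) (nat_lit 336) (nat_lit 0) (XT.lf (nat_lit 252) (nat_lit 1127519223) (nat_lit 0) (nat_lit 9957863422) (nat_lit 168) (nat_lit 9957863422) (nat_lit 69) (nat_lit 1) (nat_lit 66) (nat_lit 1) (nat_lit 68) (nat_lit 1) (nat_lit 177) (nat_lit 289) (nat_lit 254)) (XT.lf (nat_lit 336) (nat_lit 17036437399) (nat_lit 0) (nat_lit 1809393137) (nat_lit 252) (nat_lit 1809393137) (nat_lit 66) (nat_lit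 1) (nat_lit 62) (nat_lit 1) (nat_lit 65) (nat_lit 1) (nat_lit 178) (nat_lit 289) (nat_lit 253)))) (XT.nd (nat_lit 188) (nat_lit 252) (nat_lit 0) (XT.nd (nat_lit 94) (nat_lit 168) (nat_lit 0) (XT.lf (nat_lit 84) (nat_lit 5950423187) (nat_lit 0) (nat_lit 8370694562) (nat_lit 336) (nat_lit 5950423187) (nat_lit 63) (nat_lit 1) (nat_lit 62) (nat_lit 1) (nat_lit 66) (nat_lit 1) (nat_lit 179) (nat_lit 289) (nat_lit 252)) (XT.lf (nat_lit 252) (nat_lit 6874796101) (nat_lit 0) (nat_lit 6512451800) (nat_lit 168) (nat_lit 6512451800) (nat_lit 63) (nat_lit 1) (nat_lit 60) (nat_lit 1) (nat_lit 62) (nat_lit 1) (nat_lit 180) (nat_lit 289) (nat_lit 251))) (XT.nd (nat_lit 94) (nat_lit 252) (nat_lit 0) (XT.lf (nat_lit 84) (nat_lit 987689989) (nat_lit 0) (nat_lit 17564818470) (nat_lit 252) (nat_lit 987689989) (nat_lit 61) (nat_lit 1) (nat_lit 60) (nat_lit 1) (nat_lit 63) (nat_lit 1) (nat_lit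 181) (nat_lit 289) (nat_lit 250)) (XT.lf (nat_lit 84) (nat_lit 8151578769) (nat_lit 0) (nat_lit 2878846471) (nat_lit 252) (nat_lit 8151578769) (nat_lit 58) (nat_lit 1) (nat_lit 57) (nat_lit 1) (nat_lit 60) (nat_lit 1) (nat_lit 182) (nat_lit 289) (nat_lit 249))))) (XT.nd (nat_lit 282) (nat_lit 420) (nat_lit 0) (XT.nd (nat_lit 94) (nat_lit 168) (nat_lit 0) (XT.lf (nat_lit 252) (nat_lit 11319895809) (nat_lit 0) (nat_lit 3757898707) (nat_lit 168) (nat_lit 3757898707) (nat_lit 58) (nat_lit 1) (nat_lit 55) (nat_lit 1) (nat_lit 57) (nat_lit 1) (nat_lit 183) (nat_lit 289) (nat_lit 248)) (XT.nd (nat_lit 94) (nat_lit 168) (nat_lit 0) (XT.lf (nat_lit 84) (nat_lit 3194180096) (nat_lit 0) (nat_lit 12108676467) (nat_lit 252) (nat_lit 3194180096) (nat_lit 56) (nat_lit 1) (nat_lit 55) (nat_lit 1) (nat_lit 58) (nat_lit 1) (nat_lit 184) (nat_lit 289) (nat_lit 247)) (XT.lf (nat_lit 252) (nat_lit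 1496358374) (nat_lit 0) (nat_lit 8334424084) (nat_lit 168) (nat_lit 8334424084) (nat_lit 56) (nat_lit 1) (nat_lit 53) (nat_lit 1) (nat_lit 55) (nat_lit 1) (nat_lit 185) (nat_lit 289) (nat_lit 246)))) (XT.nd (nat_lit 188) (nat_lit 168) (nat_lit 0) (XT.nd (nat_lit 94) (nat_lit 0) (nat_lit 0) (XT.lf (nat_lit 252) (nat_lit 14707176813) (nat_lit 0) (nat_lit 1567907322) (nat_lit 168) (nat_lit 1567907322) (nat_lit 53) (nat_lit 1) (nat_lit 50) (nat_lit 1) (nat_lit 52) (nat_lit 1) (nat_lit 186) (nat_lit 289) (nat_lit 245)) (XT.lf (nat_lit 84) (nat_lit 4896055202) (nat_lit 0) (nat_lit 7731416041) (nat_lit 252) (nat_lit 4896055202) (nat_lit 51) (nat_lit 1) (nat_lit 50) (nat_lit 1) (nat_lit 53) (nat_lit 1) (nat_lit 187) (nat_lit 289) (nat_lit 244))) (XT.nd (nat_lit 94) (nat_lit 0) (nat_lit 0) (XT.lf (nat_lit 252) (nat_lit 4986394517) (nat_lit 0) (nat_lit 6113470713) (nat_lit 168) (nat_lit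 6113470713) (nat_lit 51) (nat_lit 1) (nat_lit 48) (nat_lit 1) (nat_lit 50) (nat_lit 1) (nat_lit 188) (nat_lit 289) (nat_lit 243)) (XT.lf (nat_lit 84) (nat_lit 163889035) (nat_lit 0) (nat_lit 16586245768) (nat_lit 252) (nat_lit 163889035) (nat_lit 49) (nat_lit 1) (nat_lit 48) (nat_lit 1) (nat_lit 51) (nat_lit 1) (nat_lit 189) (nat_lit 289) (nat_lit 242))))))) (XT.nd (nat_lit 1316) (nat_lit 1092) (nat_lit 0) (XT.nd (nat_lit 658) (nat_lit 924) (nat_lit 0) (XT.nd (nat_lit 282) (nat_lit 420) (nat_lit 0) (XT.nd (nat_lit 94) (nat_lit 168) (nat_lit 0) (XT.lf (nat_lit 84) (nat_lit 6188182761) (nat_lit 0) (nat_lit 4236443630) (nat_lit 168) (nat_lit 6188182761) (nat_lit 47) (nat_lit 1) (nat_lit 46) (nat_lit 1) (nat_lit 48) (nat_lit 1) (nat_lit 190) (nat_lit 289) (nat_lit 241)) (XT.nd (nat_lit 94) (nat_lit 0) (nat_lit 0) (XT.lf (nat_lit 252) (nat_lit 7678830328) (nat_lit 0) (nat_lit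 4321681193) (nat_lit 168) (nat_lit 4321681193) (nat_lit 47) (nat_lit 1) (nat_lit 44) (nat_lit 1) (nat_lit 46) (nat_lit 1) (nat_lit 191) (nat_lit 289) (nat_lit 240)) (XT.lf (nat_lit 84) (nat_lit 1539552410) (nat_lit 0) (nat_lit 12960315931) (nat_lit 252) (nat_lit 1539552410) (nat_lit 45) (nat_lit 1) (nat_lit 44) (nat_lit 1) (nat_lit 47) (nat_lit 1) (nat_lit 192) (nat_lit 289) (nat_lit 239)))) (XT.nd (nat_lit 188) (nat_lit 84) (nat_lit 0) (XT.nd (nat_lit 94) (nat_lit 168) (nat_lit 0) (XT.lf (nat_lit 84) (nat_lit 7148353300) (nat_lit 0) (nat_lit 1462274106) (nat_lit 168) (nat_lit 7148353300) (nat_lit 43) (nat_lit 1) (nat_lit 42) (nat_lit 1) (nat_lit 44) (nat_lit 1) (nat_lit 193) (nat_lit 289) (nat_lit 238)) (XT.lf (nat_lit 252) (nat_lit 9723593874) (nat_lit 0) (nat_lit 2881280392) (nat_lit 168) (nat_lit 2881280392) (nat_lit 43) (nat_lit 1) (nat_lit 40) (nat_lit 1) (nat_lit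 42) (nat_lit 1) (nat_lit 194) (nat_lit 289) (nat_lit 237))) (XT.nd (nat_lit 94) (nat_lit 84) (nat_lit 0) (XT.lf (nat_lit 84) (nat_lit 2604422621) (nat_lit 0) (nat_lit 10009884457) (nat_lit 252) (nat_lit 2604422621) (nat_lit 41) (nat_lit 1) (nat_lit 40) (nat_lit 1) (nat_lit 43) (nat_lit 1) (nat_lit 195) (nat_lit 289) (nat_lit 236)) (XT.lf (nat_lit 168) (nat_lit 747634891) (nat_lit 0) (nat_lit 7104358144) (nat_lit 84) (nat_lit 7104358144) (nat_lit 41) (nat_lit 1) (nat_lit 39) (nat_lit 1) (nat_lit 40) (nat_lit 1) (nat_lit 196) (nat_lit 289) (nat_lit 235))))) (XT.nd (nat_lit 282) (nat_lit 588) (nat_lit 0) (XT.nd (nat_lit 94) (nat_lit 84) (nat_lit 0) (XT.lf (nat_lit 252) (nat_lit 11243625850) (nat_lit 0) (nat_lit 1728362774) (nat_lit 168) (nat_lit 1728362774) (nat_lit 39) (nat_lit 1) (nat_lit 36) (nat_lit 1) (nat_lit 38) (nat_lit 1) (nat_lit 197) (nat_lit 289) (nat_lit 234))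 (XT.nd (nat_lit 94) (nat_lit 84) (nat_lit 0) (XT.lf (nat_lit 84) (nat_lit 3416787834) (nat_lit 0) (nat_lit 7613633350) (nat_lit 252) (nat_lit 3416787834) (nat_lit 37) (nat_lit 1) (nat_lit 36) (nat_lit 1) (nat_lit 39) (nat_lit 1) (nat_lit 198) (nat_lit 289) (nat_lit 233)) (XT.lf (nat_lit 168) (nat_lit 2510727338) (nat_lit 0) (nat_lit 5844773026) (nat_lit 84) (nat_lit 5844773026) (nat_lit 37) (nat_lit 1) (nat_lit 35) (nat_lit 1) (nat_lit 36) (nat_lit 1) (nat_lit 199) (nat_lit 289) (nat_lit 232)))) (XT.nd (nat_lit 188) (nat_lit 336) (nat_lit 0) (XT.nd (nat_lit 94) (nat_lit 0) (nat_lit 0) (XT.lf (nat_lit 252) (nat_lit 12339683674) (nat_lit 0) (nat_lit 810429537) (nat_lit 168) (nat_lit 810429537) (nat_lit 35) (nat_lit 1) (nat_lit 32) (nat_lit 1) (nat_lit 34) (nat_lit 1) (nat_lit 200) (nat_lit 289) (nat_lit 231)) (XT.lf (nat_lit 84) (nat_lit 4024450186) (nat_lit 0) (nat_lit 5671827985)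 (nat_lit 252) (nat_lit 4024450186) (nat_lit 33) (nat_lit 1) (nat_lit 32) (nat_lit 1) (nat_lit 35) (nat_lit 1) (nat_lit 201) (nat_lit 289) (nat_lit 230))) (XT.nd (nat_lit 94) (nat_lit 252) (nat_lit 0) (XT.lf (nat_lit 168) (nat_lit 3870958988) (nat_lit 0) (nat_lit 4808509233) (nat_lit 84) (nat_lit 4808509233) (nat_lit 33) (nat_lit 1) (nat_lit 31) (nat_lit 1) (nat_lit 32) (nat_lit 1) (nat_lit 202) (nat_lit 289) (nat_lit 229)) (XT.lf (nat_lit 252) (nat_lit 13094292927) (nat_lit 0) (nat_lit 84362581) (nat_lit 168) (nat_lit 84362581) (nat_lit 31) (nat_lit 1) (nat_lit 28) (nat_lit 1) (nat_lit 30) (nat_lit 1) (nat_lit 203) (nat_lit 289) (nat_lit 228)))))) (XT.nd (nat_lit 658) (nat_lit 588) (nat_lit 0) (XT.nd (nat_lit 282) (nat_lit 420) (nat_lit 0) (XT.nd (nat_lit 94) (nat_lit 84) (nat_lit 0) (XT.lf (nat_lit 84) (nat_lit 4466592155) (nat_lit 0) (nat_lit 4102486906) (nat_lit 252)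 (nat_lit 4466592155) (nat_lit 29) (nat_lit 1) (nat_lit 28) (nat_lit 1) (nat_lit 31) (nat_lit 1) (nat_lit 204) (nat_lit 289) (nat_lit 227)) (XT.nd (nat_lit 94) (nat_lit 0) (nat_lit 0) (XT.lf (nat_lit 168) (nat_lit 4904054581) (nat_lit 0) (nat_lit 3955972446) (nat_lit 84) (nat_lit 3955972446) (nat_lit 29) (nat_lit 1) (nat_lit 27) (nat_lit 1) (nat_lit 28) (nat_lit 1) (nat_lit 205) (nat_lit 289) (nat_lit 226)) (XT.lf (nat_lit 0) (nat_lit 493196916) (nat_lit 0) (nat_lit 11616566154) (nat_lit 168) (nat_lit 493196916) (nat_lit 27) (nat_lit 3) (nat_lit 27) (nat_lit 1) (nat_lit 29) (nat_lit 1) (nat_lit 206) (nat_lit 289) (nat_lit 225)))) (XT.nd (nat_lit 188) (nat_lit 168) (nat_lit 0) (XT.nd (nat_lit 94) (nat_lit 84) (nat_lit 0) (XT.lf (nat_lit 84) (nat_lit 4775311685) (nat_lit 0) (nat_lit 2838230879) (nat_lit 168) (nat_lit 4775311685) (nat_lit 26) (nat_lit 1) (nat_lit 25) (nat_lit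 1) (nat_lit 27) (nat_lit 1) (nat_lit 207) (nat_lit 289) (nat_lit 224)) (XT.lf (nat_lit 168) (nat_lit 5672108355) (nat_lit 0) (nat_lit 3254588322) (nat_lit 84) (nat_lit 3254588322) (nat_lit 26) (nat_lit 1) (nat_lit 24) (nat_lit 1) (nat_lit 25) (nat_lit 1) (nat_lit 208) (nat_lit 289) (nat_lit 223))) (XT.nd (nat_lit 94) (nat_lit 168) (nat_lit 0) (XT.lf (nat_lit 0) (nat_lit 942649575) (nat_lit 0) (nat_lit 10093872975) (nat_lit 168) (nat_lit 942649575) (nat_lit 24) (nat_lit 3) (nat_lit 24) (nat_lit 1) (nat_lit 26) (nat_lit 1) (nat_lit 209) (nat_lit 289) (nat_lit 222)) (XT.lf (nat_lit 84) (nat_lit 4976884802) (nat_lit 0) (nat_lit 1823690758) (nat_lit 168) (nat_lit 4976884802) (nat_lit 23) (nat_lit 1) (nat_lit 22) (nat_lit 1) (nat_lit 24) (nat_lit 1) (nat_lit 210) (nat_lit 289) (nat_lit 221))))) (XT.nd (nat_lit 282) (nat_lit 336) (nat_lit 0) (XT.nd (nat_lit 94) (nat_lit 168) (nat_lit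 0) (XT.lf (nat_lit 168) (nat_lit 6226010453) (nat_lit 0) (nat_lit 2677557867) (nat_lit 84) (nat_lit 2677557867) (nat_lit 23) (nat_lit 1) (nat_lit 21) (nat_lit 1) (nat_lit 22) (nat_lit 1) (nat_lit 211) (nat_lit 289) (nat_lit 220)) (XT.nd (nat_lit 94) (nat_lit 168) (nat_lit 0) (XT.lf (nat_lit 0) (nat_lit 1286848948) (nat_lit 0) (nat_lit 8815583087) (nat_lit 168) (nat_lit 1286848948) (nat_lit 21) (nat_lit 3) (nat_lit 21) (nat_lit 1) (nat_lit 23) (nat_lit 1) (nat_lit 212) (nat_lit 289) (nat_lit 219)) (XT.lf (nat_lit 84) (nat_lit 5092804074) (nat_lit 0) (nat_lit 1013375080) (nat_lit 168) (nat_lit 5092804074) (nat_lit 20) (nat_lit 1) (nat_lit 19) (nat_lit 1) (nat_lit 21) (nat_lit 1) (nat_lit 213) (nat_lit 289) (nat_lit 218)))) (XT.nd (nat_lit 188) (nat_lit 252) (nat_lit 0) (XT.nd (nat_lit 94) (nat_lit 0) (nat_lit 0) (XT.lf (nat_lit 168) (nat_lit 6607442658) (nat_lit 0) (nat_lit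 2202833483) (nat_lit 84) (nat_lit 2202833483) (nat_lit 20) (nat_lit 1) (nat_lit 18) (nat_lit 1) (nat_lit 19) (nat_lit 1) (nat_lit 214) (nat_lit 289) (nat_lit 217)) (XT.lf (nat_lit 0) (nat_lit 1545673634) (nat_lit 0) (nat_lit 7739581842) (nat_lit 168) (nat_lit 1545673634) (nat_lit 18) (nat_lit 3) (nat_lit 18) (nat_lit 1) (nat_lit 20) (nat_lit 1) (nat_lit 215) (nat_lit 289) (nat_lit 216))) (XT.nd (nat_lit 94) (nat_lit 84) (nat_lit 0) (XT.lf (nat_lit 84) (nat_lit 5140632639) (nat_lit 0) (nat_lit 369915882) (nat_lit 168) (nat_lit 5140632639) (nat_lit 17) (nat_lit 1) (nat_lit 16) (nat_lit 1) (nat_lit 18) (nat_lit 1) (nat_lit 216) (nat_lit 289) (nat_lit 215)) (XT.lf (nat_lit 168) (nat_lit 6850519854) (nat_lit 0) (nat_lit 1812276558) (nat_lit 84) (nat_lit 1812276558) (nat_lit 17) (nat_lit 1) (nat_lit 15) (nat_lit 1) (nat_lit 16) (nat_lit 1) (nat_lit 217) (nat_lit 289) (nat_lit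 214))))))))
noncomputable def ec144 : XT := (XT.nd (nat_lit 2538) (nat_lit 0) (nat_lit 0) (XT.nd (nat_lit 1222) (nat_lit 252) (nat_lit 0) (XT.nd (nat_lit 564) (nat_lit 504) (nat_lit 0) (XT.nd (nat_lit 282) (nat_lit 252) (nat_lit 0) (XT.nd (nat_lit 94) (nat_lit 252) (nat_lit 0) (XT.lf (nat_lit 0) (nat_lit 1735419828) (nat_lit 0) (nat_lit 6831163439) (nat_lit 168) (nat_lit 1735419828) (nat_lit 15) (nat_lit 3) (nat_lit 15) (nat_lit 1) (nat_lit 17) (nat_lit 1) (nat_lit 218) (nat_lit 289) (nat_lit 213)) (XT.nd (nat_lit 94) (nat_lit 168) (nat_lit 0) (XT.lf (nat_lit 84) (nat_lit 141916555) (nat_lit 0) (nat_lit 4995005709) (nat_lit 84) (nat_lit 4995005709) (nat_lit 15) (nat_lit 3) (nat_lit 14) (nat_lit 1) (nat_lit 15) (nat_lit 1) (nat_lit 219) (nat_lit 289) (nat_lit 212)) (XT.lf (nat_lit 168) (nat_lit 6983140046) (nat_lit 0) (nat_lit 1490964409) (nat_lit 84) (nat_lit 1490964409)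 (nat_lit 14) (nat_lit 1) (nat_lit 12) (nat_lit 1) (nat_lit 13) (nat_lit 1) (nat_lit 220) (nat_lit 289) (nat_lit 211)))) (XT.nd (nat_lit 94) (nat_lit 252) (nat_lit 0) (XT.lf (nat_lit 0) (nat_lit 1869439239) (nat_lit 0) (nat_lit 6061720119) (nat_lit 168) (nat_lit 1869439239) (nat_lit 12) (nat_lit 3) (nat_lit 12) (nat_lit 1) (nat_lit 14) (nat_lit 1) (nat_lit 221) (nat_lit 289) (nat_lit 210)) (XT.nd (nat_lit 94) (nat_lit 168) (nat_lit 0) (XT.lf (nat_lit 84) (nat_lit 551335878) (nat_lit 0) (nat_lit 4543984335) (nat_lit 84) (nat_lit 4543984335) (nat_lit 12) (nat_lit 3) (nat_lit 11) (nat_lit 1) (nat_lit 12) (nat_lit 1) (nat_lit 222) (nat_lit 289) (nat_lit 209)) (XT.lf (nat_lit 168) (nat_lit 7028094605) (nat_lit 0) (nat_lit 1226620109) (nat_lit 84) (nat_lit 1226620109) (nat_lit 11) (nat_lit 1) (nat_lit 9) (nat_lit 1) (nat_lit 10) (nat_lit 1) (nat_lit 223) (nat_lit 289) (nat_lit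 208))))) (XT.nd (nat_lit 282) (nat_lit 252) (nat_lit 0) (XT.nd (nat_lit 94) (nat_lit 252) (nat_lit 0) (XT.lf (nat_lit 0) (nat_lit 1958663766) (nat_lit 0) (nat_lit 5407663621) (nat_lit 168) (nat_lit 1958663766) (nat_lit 9) (nat_lit 3) (nat_lit 9) (nat_lit 1) (nat_lit 11) (nat_lit 1) (nat_lit 224) (nat_lit 289) (nat_lit 207)) (XT.nd (nat_lit 94) (nat_lit 168) (nat_lit 0) (XT.lf (nat_lit 84) (nat_lit 867471845) (nat_lit 0) (nat_lit 4152233612) (nat_lit 84) (nat_lit 4152233612) (nat_lit 9) (nat_lit 3) (nat_lit 8) (nat_lit 1) (nat_lit 9) (nat_lit 1) (nat_lit 225) (nat_lit 289) (nat_lit 206)) (XT.lf (nat_lit 168) (nat_lit 7003981308) (nat_lit 0) (nat_lit 1009143399) (nat_lit 84) (nat_lit 1009143399) (nat_lit 8) (nat_lit 1) (nat_lit 6) (nat_lit 1) (nat_lit 7) (nat_lit 1) (nat_lit 226) (nat_lit 289) (nat_lit 205)))) (XT.nd (nat_lit 188) (nat_lit 168) (nat_lit 0) (XT.nd (nat_lit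 94) (nat_lit 84) (nat_lit 0) (XT.lf (nat_lit 0) (nat_lit 2012037030) (nat_lit 0) (nat_lit 4849537747) (nat_lit 168) (nat_lit 2012037030) (nat_lit 6) (nat_lit 3) (nat_lit 6) (nat_lit 1) (nat_lit 8) (nat_lit 1) (nat_lit 227) (nat_lit 289) (nat_lit 204)) (XT.lf (nat_lit 84) (nat_lit 1107848809) (nat_lit 0) (nat_lit 3810230443) (nat_lit 84) (nat_lit 3810230443) (nat_lit 6) (nat_lit 3) (nat_lit 5) (nat_lit 1) (nat_lit 6) (nat_lit 1) (nat_lit 228) (nat_lit 289) (nat_lit 203))) (XT.nd (nat_lit 94) (nat_lit 0) (nat_lit 0) (XT.lf (nat_lit 168) (nat_lit 6925955120) (nat_lit 0) (nat_lit 830224772) (nat_lit 84) (nat_lit 830224772) (nat_lit 5) (nat_lit 1) (nat_lit 3) (nat_lit 1) (nat_lit 4) (nat_lit 1) (nat_lit 229) (nat_lit 289) (nat_lit 202)) (XT.lf (nat_lit 0) (nat_lit 2036869275) (nat_lit 0) (nat_lit 4371288137) (nat_lit 168) (nat_lit 2036869275) (nat_lit 3) (nat_lit 3) (nat_lit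 3) (nat_lit 1) (nat_lit 5) (nat_lit 1) (nat_lit 230) (nat_lit 289) (nat_lit 201)))))) (XT.nd (nat_lit 658) (nat_lit 0) (nat_lit 0) (XT.nd (nat_lit 282) (nat_lit 0) (nat_lit 0) (XT.nd (nat_lit 94) (nat_lit 168) (nat_lit 0) (XT.lf (nat_lit 84) (nat_lit 1286837171) (nat_lit 0) (nat_lit 3510093230) (nat_lit 84) (nat_lit 3510093230) (nat_lit 3) (nat_lit 3) (nat_lit 2) (nat_lit 1) (nat_lit 3) (nat_lit 1) (nat_lit 231) (nat_lit 289) (nat_lit 200)) (XT.nd (nat_lit 94) (nat_lit 0) (nat_lit 0) (XT.lf (nat_lit 0) (nat_lit 11871949668) (nat_lit 0) (nat_lit 0) (nat_lit 0) (nat_lit 0) (nat_lit 0) (nat_lit 0) (nat_lit 1) (nat_lit 0) (nat_lit 1) (nat_lit 0) (nat_lit 232) (nat_lit 289) (nat_lit 199)) (XT.lf (nat_lit 0) (nat_lit 11865032644) (nat_lit 0) (nat_lit 0) (nat_lit 0) (nat_lit 0) (nat_lit 0) (nat_lit 0) (nat_lit 1) (nat_lit 0) (nat_lit 1) (nat_lit 0) (nat_lit 233) (nat_lit 289) (nat_lit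 198)))) (XT.nd (nat_lit 188) (nat_lit 0) (nat_lit 0) (XT.nd (nat_lit 94) (nat_lit 0) (nat_lit 0) (XT.lf (nat_lit 0) (nat_lit 11858445002) (nat_lit 0) (nat_lit 0) (nat_lit 0) (nat_lit 0) (nat_lit 0) (nat_lit 0) (nat_lit 1) (nat_lit 0) (nat_lit 1) (nat_lit 0) (nat_lit 234) (nat_lit 289) (nat_lit 197)) (XT.lf (nat_lit 0) (nat_lit 11852171056) (nat_lit 0) (nat_lit 0) (nat_lit 0) (nat_lit 0) (nat_lit 0) (nat_lit 0) (nat_lit 1) (nat_lit 0) (nat_lit 1) (nat_lit 0) (nat_lit 235) (nat_lit 289) (nat_lit 196))) (XT.nd (nat_lit 94) (nat_lit 0) (nat_lit 0) (XT.lf (nat_lit 0) (nat_lit 11846195871) (nat_lit 0) (nat_lit 0) (nat_lit 0) (nat_lit 0) (nat_lit 0) (nat_lit 0) (nat_lit 1) (nat_lit 0) (nat_lit 1) (nat_lit 0) (nat_lit 236) (nat_lit 289) (nat_lit 195)) (XT.lf (nat_lit 0) (nat_lit 11840505217) (nat_lit 0) (nat_lit 0) (nat_lit 0) (nat_lit 0) (nat_lit 0) (nat_lit 0) (nat_lit 1) (nat_lit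 0) (nat_lit 1) (nat_lit 0) (nat_lit 237) (nat_lit 289) (nat_lit 194))))) (XT.nd (nat_lit 282) (nat_lit 0) (nat_lit 0) (XT.nd (nat_lit 94) (nat_lit 0) (nat_lit 0) (XT.lf (nat_lit 0) (nat_lit 11835085548) (nat_lit 0) (nat_lit 0) (nat_lit 0) (nat_lit 0) (nat_lit 0) (nat_lit 0) (nat_lit 1) (nat_lit 0) (nat_lit 1) (nat_lit 0) (nat_lit 238) (nat_lit 289) (nat_lit 193)) (XT.nd (nat_lit 94) (nat_lit 0) (nat_lit 0) (XT.lf (nat_lit 0) (nat_lit 11829923958) (nat_lit 0) (nat_lit 0) (nat_lit 0) (nat_lit 0) (nat_lit 0) (nat_lit 0) (nat_lit 1) (nat_lit 0) (nat_lit 1) (nat_lit 0) (nat_lit 239) (nat_lit 289) (nat_lit 192)) (XT.lf (nat_lit 0) (nat_lit 11825008157) (nat_lit 0) (nat_lit 0) (nat_lit 0) (nat_lit 0) (nat_lit 0) (nat_lit 0) (nat_lit 1) (nat_lit 0) (nat_lit 1) (nat_lit 0) (nat_lit 240) (nat_lit 289) (nat_lit 191)))) (XT.nd (nat_lit 188) (nat_lit 0) (nat_lit 0) (XT.nd (nat_lit 94)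 (nat_lit 0) (nat_lit 0) (XT.lf (nat_lit 0) (nat_lit 11820326443) (nat_lit 0) (nat_lit 0) (nat_lit 0) (nat_lit 0) (nat_lit 0) (nat_lit 0) (nat_lit 1) (nat_lit 0) (nat_lit 1) (nat_lit 0) (nat_lit 241) (nat_lit 289) (nat_lit 190)) (XT.lf (nat_lit 0) (nat_lit 11815867667) (nat_lit 0) (nat_lit 0) (nat_lit 0) (nat_lit 0) (nat_lit 0) (nat_lit 0) (nat_lit 1) (nat_lit 0) (nat_lit 1) (nat_lit 0) (nat_lit 242) (nat_lit 289) (nat_lit 189))) (XT.nd (nat_lit 94) (nat_lit 0) (nat_lit 0) (XT.lf (nat_lit 0) (nat_lit 11811621214) (nat_lit 0) (nat_lit 0) (nat_lit 0) (nat_lit 0) (nat_lit 0) (nat_lit 0) (nat_lit 1) (nat_lit 0) (nat_lit 1) (nat_lit 0) (nat_lit 243) (nat_lit 289) (nat_lit 188)) (XT.lf (nat_lit 0) (nat_lit 11807576973) (nat_lit 0) (nat_lit 0) (nat_lit 0) (nat_lit 0) (nat_lit 0) (nat_lit 0) (nat_lit 1) (nat_lit 0) (nat_lit 1) (nat_lit 0) (nat_lit 244) (nat_lit 289) (nat_lit 187)))))))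 (XT.nd (nat_lit 1222) (nat_lit 0) (nat_lit 0) (XT.nd (nat_lit 564) (nat_lit 0) (nat_lit 0) (XT.nd (nat_lit 282) (nat_lit 0) (nat_lit 0) (XT.nd (nat_lit 94) (nat_lit 0) (nat_lit 0) (XT.lf (nat_lit 0) (nat_lit 11803725315) (nat_lit 0) (nat_lit 0) (nat_lit 0) (nat_lit 0) (nat_lit 0) (nat_lit 0) (nat_lit 1) (nat_lit 0) (nat_lit 1) (nat_lit 0) (nat_lit 245) (nat_lit 289) (nat_lit 186)) (XT.nd (nat_lit 94) (nat_lit 0) (nat_lit 0) (XT.lf (nat_lit 0) (nat_lit 11800057070) (nat_lit 0) (nat_lit 0) (nat_lit 0) (nat_lit 0) (nat_lit 0) (nat_lit 0) (nat_lit 1) (nat_lit 0) (nat_lit 1) (nat_lit 0) (nat_lit 246) (nat_lit 289) (nat_lit 185)) (XT.lf (nat_lit 0) (nat_lit 11796563502) (nat_lit 0) (nat_lit 0) (nat_lit 0) (nat_lit 0) (nat_lit 0) (nat_lit 0) (nat_lit 1) (nat_lit 0) (nat_lit 1) (nat_lit 0) (nat_lit 247) (nat_lit 289) (nat_lit 184)))) (XT.nd (nat_lit 94) (nat_lit 0) (nat_lit 0) (XT.lf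 (nat_lit 0) (nat_lit 11793236295) (nat_lit 0) (nat_lit 0) (nat_lit 0) (nat_lit 0) (nat_lit 0) (nat_lit 0) (nat_lit 1) (nat_lit 0) (nat_lit 1) (nat_lit 0) (nat_lit 248) (nat_lit 289) (nat_lit 183)) (XT.nd (nat_lit 94) (nat_lit 0) (nat_lit 0) (XT.lf (nat_lit 0) (nat_lit 11790067526) (nat_lit 0) (nat_lit 0) (nat_lit 0) (nat_lit 0) (nat_lit 0) (nat_lit 0) (nat_lit 1) (nat_lit 0) (nat_lit 1) (nat_lit 0) (nat_lit 249) (nat_lit 289) (nat_lit 182)) (XT.lf (nat_lit 0) (nat_lit 11787049652) (nat_lit 0) (nat_lit 0) (nat_lit 0) (nat_lit 0) (nat_lit 0) (nat_lit 0) (nat_lit 1) (nat_lit 0) (nat_lit 1) (nat_lit 0) (nat_lit 250) (nat_lit 289) (nat_lit 181))))) (XT.nd (nat_lit 282) (nat_lit 0) (nat_lit 0) (XT.nd (nat_lit 94) (nat_lit 0) (nat_lit 0) (XT.lf (nat_lit 0) (nat_lit 11784175485) (nat_lit 0) (nat_lit 0) (nat_lit 0) (nat_lit 0) (nat_lit 0) (nat_lit 0) (nat_lit 1) (nat_lit 0) (nat_lit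 1) (nat_lit 0) (nat_lit 251) (nat_lit 289) (nat_lit 180)) (XT.nd (nat_lit 94) (nat_lit 0) (nat_lit 0) (XT.lf (nat_lit 0) (nat_lit 11781438184) (nat_lit 0) (nat_lit 0) (nat_lit 0) (nat_lit 0) (nat_lit 0) (nat_lit 0) (nat_lit 1) (nat_lit 0) (nat_lit 1) (nat_lit 0) (nat_lit 252) (nat_lit 289) (nat_lit 179)) (XT.lf (nat_lit 0) (nat_lit 11778831230) (nat_lit 0) (nat_lit 0) (nat_lit 0) (nat_lit 0) (nat_lit 0) (nat_lit 0) (nat_lit 1) (nat_lit 0) (nat_lit 1) (nat_lit 0) (nat_lit 253) (nat_lit 289) (nat_lit 178)))) (XT.nd (nat_lit 188) (nat_lit 0) (nat_lit 0) (XT.nd (nat_lit 94) (nat_lit 0) (nat_lit 0) (XT.lf (nat_lit 0) (nat_lit 11776348417) (nat_lit 0) (nat_lit 0) (nat_lit 0) (nat_lit 0) (nat_lit 0) (nat_lit 0) (nat_lit 1) (nat_lit 0) (nat_lit 1) (nat_lit 0) (nat_lit 254) (nat_lit 289) (nat_lit 177)) (XT.lf (nat_lit 0) (nat_lit 11773983833) (nat_lit 0) (nat_lit 0) (nat_lit 0) (nat_lit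 0) (nat_lit 0) (nat_lit 0) (nat_lit 1) (nat_lit 0) (nat_lit 1) (nat_lit 0) (nat_lit 255) (nat_lit 289) (nat_lit 176))) (XT.nd (nat_lit 94) (nat_lit 0) (nat_lit 0) (XT.lf (nat_lit 0) (nat_lit 11771731848) (nat_lit 0) (nat_lit 0) (nat_lit 0) (nat_lit 0) (nat_lit 0) (nat_lit 0) (nat_lit 1) (nat_lit 0) (nat_lit 1) (nat_lit 0) (nat_lit 256) (nat_lit 289) (nat_lit 175)) (XT.lf (nat_lit 0) (nat_lit 11769587101) (nat_lit 0) (nat_lit 0) (nat_lit 0) (nat_lit 0) (nat_lit 0) (nat_lit 0) (nat_lit 1) (nat_lit 0) (nat_lit 1) (nat_lit 0) (nat_lit 257) (nat_lit 289) (nat_lit 174)))))) (XT.nd (nat_lit 658) (nat_lit 0) (nat_lit 0) (XT.nd (nat_lit 282) (nat_lit 0) (nat_lit 0) (XT.nd (nat_lit 94) (nat_lit 0) (nat_lit 0) (XT.lf (nat_lit 0) (nat_lit 11767544484) (nat_lit 0) (nat_lit 0) (nat_lit 0) (nat_lit 0) (nat_lit 0) (nat_lit 0) (nat_lit 1) (nat_lit 0) (nat_lit 1) (nat_lit 0) (nat_lit 258)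 (nat_lit 289) (nat_lit 173)) (XT.nd (nat_lit 94) (nat_lit 0) (nat_lit 0) (XT.lf (nat_lit 0) (nat_lit 11765599135) (nat_lit 0) (nat_lit 0) (nat_lit 0) (nat_lit 0) (nat_lit 0) (nat_lit 0) (nat_lit 1) (nat_lit 0) (nat_lit 1) (nat_lit 0) (nat_lit 259) (nat_lit 289) (nat_lit 172)) (XT.lf (nat_lit 0) (nat_lit 11763746422) (nat_lit 0) (nat_lit 0) (nat_lit 0) (nat_lit 0) (nat_lit 0) (nat_lit 0) (nat_lit 1) (nat_lit 0) (nat_lit 1) (nat_lit 0) (nat_lit 260) (nat_lit 289) (nat_lit 171)))) (XT.nd (nat_lit 188) (nat_lit 0) (nat_lit 0) (XT.nd (nat_lit 94) (nat_lit 0) (nat_lit 0) (XT.lf (nat_lit 0) (nat_lit 11761981933) (nat_lit 0) (nat_lit 0) (nat_lit 0) (nat_lit 0) (nat_lit 0) (nat_lit 0) (nat_lit 1) (nat_lit 0) (nat_lit 1) (nat_lit 0) (nat_lit 261) (nat_lit 289) (nat_lit 170)) (XT.lf (nat_lit 0) (nat_lit 11760301467) (nat_lit 0) (nat_lit 0) (nat_lit 0) (nat_lit 0) (nat_lit 0) (nat_lit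 0) (nat_lit 1) (nat_lit 0) (nat_lit 1) (nat_lit 0) (nat_lit 262) (nat_lit 289) (nat_lit 169))) (XT.nd (nat_lit 94) (nat_lit 0) (nat_lit 0) (XT.lf (nat_lit 0) (nat_lit 11758701024) (nat_lit 0) (nat_lit 0) (nat_lit 0) (nat_lit 0) (nat_lit 0) (nat_lit 0) (nat_lit 1) (nat_lit 0) (nat_lit 1) (nat_lit 0) (nat_lit 263) (nat_lit 289) (nat_lit 168)) (XT.lf (nat_lit 0) (nat_lit 11757176792) (nat_lit 0) (nat_lit 0) (nat_lit 0) (nat_lit 0) (nat_lit 0) (nat_lit 0) (nat_lit 1) (nat_lit 0) (nat_lit 1) (nat_lit 0) (nat_lit 264) (nat_lit 289) (nat_lit 167))))) (XT.nd (nat_lit 282) (nat_lit 0) (nat_lit 0) (XT.nd (nat_lit 94) (nat_lit 0) (nat_lit 0) (XT.lf (nat_lit 0) (nat_lit 11755725142) (nat_lit 0) (nat_lit 0) (nat_lit 0) (nat_lit 0) (nat_lit 0) (nat_lit 0) (nat_lit 1) (nat_lit 0) (nat_lit 1) (nat_lit 0) (nat_lit 265) (nat_lit 289) (nat_lit 166)) (XT.nd (nat_lit 94) (nat_lit 0) (nat_lit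 0) (XT.lf (nat_lit 0) (nat_lit 11754342619) (nat_lit 0) (nat_lit 0) (nat_lit 0) (nat_lit 0) (nat_lit 0) (nat_lit 0) (nat_lit 1) (nat_lit 0) (nat_lit 1) (nat_lit 0) (nat_lit 266) (nat_lit 289) (nat_lit 165)) (XT.lf (nat_lit 0) (nat_lit 11753025930) (nat_lit 0) (nat_lit 0) (nat_lit 0) (nat_lit 0) (nat_lit 0) (nat_lit 0) (nat_lit 1) (nat_lit 0) (nat_lit 1) (nat_lit 0) (nat_lit 267) (nat_lit 289) (nat_lit 164)))) (XT.nd (nat_lit 188) (nat_lit 0) (nat_lit 0) (XT.nd (nat_lit 94) (nat_lit 0) (nat_lit 0) (XT.lf (nat_lit 0) (nat_lit 11751771941) (nat_lit 0) (nat_lit 0) (nat_lit 0) (nat_lit 0) (nat_lit 0) (nat_lit 0) (nat_lit 1) (nat_lit 0) (nat_lit 1) (nat_lit 0) (nat_lit 268) (nat_lit 289) (nat_lit 163)) (XT.lf (nat_lit 0) (nat_lit 11750577665) (nat_lit 0) (nat_lit 0) (nat_lit 0) (nat_lit 0) (nat_lit 0) (nat_lit 0) (nat_lit 1) (nat_lit 0) (nat_lit 1) (nat_lit 0) (nat_lit 269) (nat_lit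 289) (nat_lit 162))) (XT.nd (nat_lit 94) (nat_lit 0) (nat_lit 0) (XT.lf (nat_lit 0) (nat_lit 11749440260) (nat_lit 0) (nat_lit 0) (nat_lit 0) (nat_lit 0) (nat_lit 0) (nat_lit 0) (nat_lit 1) (nat_lit 0) (nat_lit 1) (nat_lit 0) (nat_lit 270) (nat_lit 289) (nat_lit 161)) (XT.lf (nat_lit 0) (nat_lit 11748357017) (nat_lit 0) (nat_lit 0) (nat_lit 0) (nat_lit 0) (nat_lit 0) (nat_lit 0) (nat_lit 1) (nat_lit 0) (nat_lit 1) (nat_lit 0) (nat_lit 271) (nat_lit 289) (nat_lit 160))))))))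
noncomputable def ec145 : XT := (XT.nd (nat_lit 2538) (nat_lit 0) (nat_lit 0) (XT.nd (nat_lit 1222) (nat_lit 0) (nat_lit 0) (XT.nd (nat_lit 564) (nat_lit 0) (nat_lit 0) (XT.nd (nat_lit 282) (nat_lit 0) (nat_lit 0) (XT.nd (nat_lit 94) (nat_lit 0) (nat_lit 0) (XT.lf (nat_lit 0) (nat_lit 11747325357) (nat_lit 0) (nat_lit 0) (nat_lit 0) (nat_lit 0) (nat_lit 0) (nat_lit 0) (nat_lit 1) (nat_lit 0) (nat_lit 1) (nat_lit 0) (nat_lit 272) (nat_lit 289) (nat_lit 159)) (XT.nd (nat_lit 94) (nat_lit 0) (nat_lit 0) (XT.lf (nat_lit 0) (nat_lit 11746342823) (nat_lit 0) (nat_lit 0) (nat_lit 0) (nat_lit 0) (nat_lit 0) (nat_lit 0) (nat_lit 1) (nat_lit 0) (nat_lit 1) (nat_lit 0) (nat_lit 273) (nat_lit 289) (nat_lit 158)) (XT.lf (nat_lit 0) (nat_lit 11745407077) (nat_lit 0) (nat_lit 0) (nat_lit 0) (nat_lit 0) (nat_lit 0) (nat_lit 0) (nat_lit 1) (nat_lit 0) (nat_lit 1) (nat_lit 0) (nat_lit 274)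 (nat_lit 289) (nat_lit 157)))) (XT.nd (nat_lit 94) (nat_lit 0) (nat_lit 0) (XT.lf (nat_lit 0) (nat_lit 11744515890) (nat_lit 0) (nat_lit 0) (nat_lit 0) (nat_lit 0) (nat_lit 0) (nat_lit 0) (nat_lit 1) (nat_lit 0) (nat_lit 1) (nat_lit 0) (nat_lit 275) (nat_lit 289) (nat_lit 156)) (XT.nd (nat_lit 94) (nat_lit 0) (nat_lit 0) (XT.lf (nat_lit 0) (nat_lit 11743667141) (nat_lit 0) (nat_lit 0) (nat_lit 0) (nat_lit 0) (nat_lit 0) (nat_lit 0) (nat_lit 1) (nat_lit 0) (nat_lit 1) (nat_lit 0) (nat_lit 276) (nat_lit 289) (nat_lit 155)) (XT.lf (nat_lit 0) (nat_lit 11742858808) (nat_lit 0) (nat_lit 0) (nat_lit 0) (nat_lit 0) (nat_lit 0) (nat_lit 0) (nat_lit 1) (nat_lit 0) (nat_lit 1) (nat_lit 0) (nat_lit 277) (nat_lit 289) (nat_lit 154))))) (XT.nd (nat_lit 282) (nat_lit 0) (nat_lit 0) (XT.nd (nat_lit 94) (nat_lit 0) (nat_lit 0) (XT.lf (nat_lit 0) (nat_lit 11742088968) (nat_lit 0) (nat_lit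 0) (nat_lit 0) (nat_lit 0) (nat_lit 0) (nat_lit 0) (nat_lit 1) (nat_lit 0) (nat_lit 1) (nat_lit 0) (nat_lit 278) (nat_lit 289) (nat_lit 153)) (XT.nd (nat_lit 94) (nat_lit 0) (nat_lit 0) (XT.lf (nat_lit 0) (nat_lit 11741355786) (nat_lit 0) (nat_lit 0) (nat_lit 0) (nat_lit 0) (nat_lit 0) (nat_lit 0) (nat_lit 1) (nat_lit 0) (nat_lit 1) (nat_lit 0) (nat_lit 279) (nat_lit 289) (nat_lit 152)) (XT.lf (nat_lit 0) (nat_lit 11740657518) (nat_lit 0) (nat_lit 0) (nat_lit 0) (nat_lit 0) (nat_lit 0) (nat_lit 0) (nat_lit 1) (nat_lit 0) (nat_lit 1) (nat_lit 0) (nat_lit 280) (nat_lit 289) (nat_lit 151)))) (XT.nd (nat_lit 188) (nat_lit 0) (nat_lit 0) (XT.nd (nat_lit 94) (nat_lit 0) (nat_lit 0) (XT.lf (nat_lit 0) (nat_lit 11739992501) (nat_lit 0) (nat_lit 0) (nat_lit 0) (nat_lit 0) (nat_lit 0) (nat_lit 0) (nat_lit 1) (nat_lit 0) (nat_lit 1) (nat_lit 0) (nat_lit 281) (nat_lit 289) (nat_lit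 150)) (XT.lf (nat_lit 0) (nat_lit 11739359151) (nat_lit 0) (nat_lit 0) (nat_lit 0) (nat_lit 0) (nat_lit 0) (nat_lit 0) (nat_lit 1) (nat_lit 0) (nat_lit 1) (nat_lit 0) (nat_lit 282) (nat_lit 289) (nat_lit 149))) (XT.nd (nat_lit 94) (nat_lit 0) (nat_lit 0) (XT.lf (nat_lit 0) (nat_lit 11738755960) (nat_lit 0) (nat_lit 0) (nat_lit 0) (nat_lit 0) (nat_lit 0) (nat_lit 0) (nat_lit 1) (nat_lit 0) (nat_lit 1) (nat_lit 0) (nat_lit 283) (nat_lit 289) (nat_lit 148)) (XT.lf (nat_lit 0) (nat_lit 11738181493) (nat_lit 0) (nat_lit 0) (nat_lit 0) (nat_lit 0) (nat_lit 0) (nat_lit 0) (nat_lit 1) (nat_lit 0) (nat_lit 1) (nat_lit 0) (nat_lit 284) (nat_lit 289) (nat_lit 147)))))) (XT.nd (nat_lit 658) (nat_lit 0) (nat_lit 0) (XT.nd (nat_lit 282) (nat_lit 0) (nat_lit 0) (XT.nd (nat_lit 94) (nat_lit 0) (nat_lit 0) (XT.lf (nat_lit 0) (nat_lit 11737634382) (nat_lit 0) (nat_lit 0) (nat_lit 0) (nat_lit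 0) (nat_lit 0) (nat_lit 0) (nat_lit 1) (nat_lit 0) (nat_lit 1) (nat_lit 0) (nat_lit 285) (nat_lit 289) (nat_lit 146)) (XT.nd (nat_lit 94) (nat_lit 0) (nat_lit 0) (XT.lf (nat_lit 0) (nat_lit 11737113324) (nat_lit 0) (nat_lit 0) (nat_lit 0) (nat_lit 0) (nat_lit 0) (nat_lit 0) (nat_lit 1) (nat_lit 0) (nat_lit 1) (nat_lit 0) (nat_lit 286) (nat_lit 289) (nat_lit 145)) (XT.lf (nat_lit 0) (nat_lit 11736617077) (nat_lit 0) (nat_lit 0) (nat_lit 0) (nat_lit 0) (nat_lit 0) (nat_lit 0) (nat_lit 1) (nat_lit 0) (nat_lit 1) (nat_lit 0) (nat_lit 287) (nat_lit 289) (nat_lit 144)))) (XT.nd (nat_lit 188) (nat_lit 0) (nat_lit 0) (XT.nd (nat_lit 94) (nat_lit 0) (nat_lit 0) (XT.lf (nat_lit 0) (nat_lit 11736144462) (nat_lit 0) (nat_lit 0) (nat_lit 0) (nat_lit 0) (nat_lit 0) (nat_lit 0) (nat_lit 1) (nat_lit 0) (nat_lit 1) (nat_lit 0) (nat_lit 288) (nat_lit 289) (nat_lit 143)) (XT.lf (nat_lit 0)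 (nat_lit 11735694352) (nat_lit 0) (nat_lit 0) (nat_lit 0) (nat_lit 0) (nat_lit 0) (nat_lit 0) (nat_lit 1) (nat_lit 0) (nat_lit 1) (nat_lit 0) (nat_lit 289) (nat_lit 289) (nat_lit 142))) (XT.nd (nat_lit 94) (nat_lit 0) (nat_lit 0) (XT.lf (nat_lit 0) (nat_lit 11735265676) (nat_lit 0) (nat_lit 0) (nat_lit 0) (nat_lit 0) (nat_lit 0) (nat_lit 0) (nat_lit 1) (nat_lit 0) (nat_lit 1) (nat_lit 0) (nat_lit 290) (nat_lit 289) (nat_lit 141)) (XT.lf (nat_lit 0) (nat_lit 11734857413) (nat_lit 0) (nat_lit 0) (nat_lit 0) (nat_lit 0) (nat_lit 0) (nat_lit 0) (nat_lit 1) (nat_lit 0) (nat_lit 1) (nat_lit 0) (nat_lit 291) (nat_lit 289) (nat_lit 140))))) (XT.nd (nat_lit 282) (nat_lit 0) (nat_lit 0) (XT.nd (nat_lit 94) (nat_lit 0) (nat_lit 0) (XT.lf (nat_lit 0) (nat_lit 11734468591) (nat_lit 0) (nat_lit 0) (nat_lit 0) (nat_lit 0) (nat_lit 0) (nat_lit 0) (nat_lit 1) (nat_lit 0) (nat_lit 1) (nat_lit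 0) (nat_lit 292) (nat_lit 289) (nat_lit 139)) (XT.nd (nat_lit 94) (nat_lit 0) (nat_lit 0) (XT.lf (nat_lit 0) (nat_lit 11734098285) (nat_lit 0) (nat_lit 0) (nat_lit 0) (nat_lit 0) (nat_lit 0) (nat_lit 0) (nat_lit 1) (nat_lit 0) (nat_lit 1) (nat_lit 0) (nat_lit 293) (nat_lit 289) (nat_lit 138)) (XT.lf (nat_lit 0) (nat_lit 11733745612) (nat_lit 0) (nat_lit 0) (nat_lit 0) (nat_lit 0) (nat_lit 0) (nat_lit 0) (nat_lit 1) (nat_lit 0) (nat_lit 1) (nat_lit 0) (nat_lit 294) (nat_lit 289) (nat_lit 137)))) (XT.nd (nat_lit 188) (nat_lit 0) (nat_lit 0) (XT.nd (nat_lit 94) (nat_lit 0) (nat_lit 0) (XT.lf (nat_lit 0) (nat_lit 11733409733) (nat_lit 0) (nat_lit 0) (nat_lit 0) (nat_lit 0) (nat_lit 0) (nat_lit 0) (nat_lit 1) (nat_lit 0) (nat_lit 1) (nat_lit 0) (nat_lit 295) (nat_lit 289) (nat_lit 136)) (XT.lf (nat_lit 0) (nat_lit 11733089848) (nat_lit 0) (nat_lit 0) (nat_lit 0) (nat_lit 0) (nat_lit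 0) (nat_lit 0) (nat_lit 1) (nat_lit 0) (nat_lit 1) (nat_lit 0) (nat_lit 296) (nat_lit 289) (nat_lit 135))) (XT.nd (nat_lit 94) (nat_lit 0) (nat_lit 0) (XT.lf (nat_lit 0) (nat_lit 11732785196) (nat_lit 0) (nat_lit 0) (nat_lit 0) (nat_lit 0) (nat_lit 0) (nat_lit 0) (nat_lit 1) (nat_lit 0) (nat_lit 1) (nat_lit 0) (nat_lit 297) (nat_lit 289) (nat_lit 134)) (XT.lf (nat_lit 0) (nat_lit 11732495051) (nat_lit 0) (nat_lit 0) (nat_lit 0) (nat_lit 0) (nat_lit 0) (nat_lit 0) (nat_lit 1) (nat_lit 0) (nat_lit 1) (nat_lit 0) (nat_lit 298) (nat_lit 289) (nat_lit 133))))))) (XT.nd (nat_lit 30268) (nat_lit 0) (nat_lit 9744) (XT.nd (nat_lit 564) (nat_lit 0) (nat_lit 0) (XT.nd (nat_lit 282) (nat_lit 0) (nat_lit 0) (XT.nd (nat_lit 94) (nat_lit 0) (nat_lit 0) (XT.lf (nat_lit 0) (nat_lit 11732218723) (nat_lit 0) (nat_lit 0) (nat_lit 0) (nat_lit 0) (nat_lit 0) (nat_lit 0) (nat_lit 1) (nat_lit 0)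 (nat_lit 1) (nat_lit 0) (nat_lit 299) (nat_lit 289) (nat_lit 132)) (XT.nd (nat_lit 94) (nat_lit 0) (nat_lit 0) (XT.lf (nat_lit 0) (nat_lit 11731955553) (nat_lit 0) (nat_lit 0) (nat_lit 0) (nat_lit 0) (nat_lit 0) (nat_lit 0) (nat_lit 1) (nat_lit 0) (nat_lit 1) (nat_lit 0) (nat_lit 300) (nat_lit 289) (nat_lit 131)) (XT.lf (nat_lit 0) (nat_lit 11731704915) (nat_lit 0) (nat_lit 0) (nat_lit 0) (nat_lit 0) (nat_lit 0) (nat_lit 0) (nat_lit 1) (nat_lit 0) (nat_lit 1) (nat_lit 0) (nat_lit 301) (nat_lit 289) (nat_lit 130)))) (XT.nd (nat_lit 94) (nat_lit 0) (nat_lit 0) (XT.lf (nat_lit 0) (nat_lit 11731466212) (nat_lit 0) (nat_lit 0) (nat_lit 0) (nat_lit 0) (nat_lit 0) (nat_lit 0) (nat_lit 1) (nat_lit 0) (nat_lit 1) (nat_lit 0) (nat_lit 302) (nat_lit 289) (nat_lit 129)) (XT.nd (nat_lit 94) (nat_lit 0) (nat_lit 0) (XT.lf (nat_lit 0) (nat_lit 11731238876) (nat_lit 0) (nat_lit 0) (nat_lit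 0) (nat_lit 0) (nat_lit 0) (nat_lit 0) (nat_lit 1) (nat_lit 0) (nat_lit 1) (nat_lit 0) (nat_lit 303) (nat_lit 289) (nat_lit 128)) (XT.lf (nat_lit 0) (nat_lit 11731022365) (nat_lit 0) (nat_lit 0) (nat_lit 0) (nat_lit 0) (nat_lit 0) (nat_lit 0) (nat_lit 1) (nat_lit 0) (nat_lit 1) (nat_lit 0) (nat_lit 304) (nat_lit 289) (nat_lit 127))))) (XT.nd (nat_lit 282) (nat_lit 0) (nat_lit 0) (XT.nd (nat_lit 94) (nat_lit 0) (nat_lit 0) (XT.lf (nat_lit 0) (nat_lit 11730816165) (nat_lit 0) (nat_lit 0) (nat_lit 0) (nat_lit 0) (nat_lit 0) (nat_lit 0) (nat_lit 1) (nat_lit 0) (nat_lit 1) (nat_lit 0) (nat_lit 305) (nat_lit 289) (nat_lit 126)) (XT.nd (nat_lit 94) (nat_lit 0) (nat_lit 0) (XT.lf (nat_lit 0) (nat_lit 11730619783) (nat_lit 0) (nat_lit 0) (nat_lit 0) (nat_lit 0) (nat_lit 0) (nat_lit 0) (nat_lit 1) (nat_lit 0) (nat_lit 1) (nat_lit 0) (nat_lit 306) (nat_lit 289) (nat_lit 125)) (XT.lf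 (nat_lit 0) (nat_lit 11730432753) (nat_lit 0) (nat_lit 0) (nat_lit 0) (nat_lit 0) (nat_lit 0) (nat_lit 0) (nat_lit 1) (nat_lit 0) (nat_lit 1) (nat_lit 0) (nat_lit 307) (nat_lit 289) (nat_lit 124)))) (XT.nd (nat_lit 188) (nat_lit 0) (nat_lit 0) (XT.nd (nat_lit 94) (nat_lit 0) (nat_lit 0) (XT.lf (nat_lit 0) (nat_lit 11730254630) (nat_lit 0) (nat_lit 0) (nat_lit 0) (nat_lit 0) (nat_lit 0) (nat_lit 0) (nat_lit 1) (nat_lit 0) (nat_lit 1) (nat_lit 0) (nat_lit 308) (nat_lit 289) (nat_lit 123)) (XT.lf (nat_lit 0) (nat_lit 11730084988) (nat_lit 0) (nat_lit 0) (nat_lit 0) (nat_lit 0) (nat_lit 0) (nat_lit 0) (nat_lit 1) (nat_lit 0) (nat_lit 1) (nat_lit 0) (nat_lit 309) (nat_lit 289) (nat_lit 122))) (XT.nd (nat_lit 94) (nat_lit 0) (nat_lit 0) (XT.lf (nat_lit 0) (nat_lit 11729923424) (nat_lit 0) (nat_lit 0) (nat_lit 0) (nat_lit 0) (nat_lit 0) (nat_lit 0) (nat_lit 1) (nat_lit 0) (nat_lit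 1) (nat_lit 0) (nat_lit 310) (nat_lit 289) (nat_lit 121)) (XT.lf (nat_lit 0) (nat_lit 11729769554) (nat_lit 0) (nat_lit 0) (nat_lit 0) (nat_lit 0) (nat_lit 0) (nat_lit 0) (nat_lit 1) (nat_lit 0) (nat_lit 1) (nat_lit 0) (nat_lit 311) (nat_lit 289) (nat_lit 120)))))) (XT.nd (nat_lit 658) (nat_lit 1008) (nat_lit 0) (XT.nd (nat_lit 282) (nat_lit 0) (nat_lit 84) (XT.nd (nat_lit 94) (nat_lit 0) (nat_lit 0) (XT.lf (nat_lit 924) (nat_lit 6161899808) (nat_lit 0) (nat_lit 10940438945) (nat_lit 924) (nat_lit 6161899808) (nat_lit 139) (nat_lit 1) (nat_lit 128) (nat_lit 0) (nat_lit 139) (nat_lit 0) (nat_lit 140) (nat_lit 290) (nat_lit 290)) (XT.nd (nat_lit 94) (nat_lit 0) (nat_lit 84) (XT.lf (nat_lit 924) (nat_lit 23884292939) (nat_lit 84) (nat_lit 10763980253) (nat_lit 0) (nat_lit 10763980253) (nat_lit 139) (nat_lit 1) (nat_lit 129) (nat_lit 1) (nat_lit 128) (nat_lit 0) (nat_lit 141)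 (nat_lit 290) (nat_lit 289)) (XT.lf (nat_lit 924) (nat_lit 11382894389) (nat_lit 0) (nat_lit 21564749459) (nat_lit 840) (nat_lit 11382894389) (nat_lit 140) (nat_lit 1) (nat_lit 129) (nat_lit 1) (nat_lit 139) (nat_lit 1) (nat_lit 142) (nat_lit 290) (nat_lit 288)))) (XT.nd (nat_lit 188) (nat_lit 0) (nat_lit 84) (XT.nd (nat_lit 94) (nat_lit 0) (nat_lit 84) (XT.lf (nat_lit 924) (nat_lit 21352728181) (nat_lit 84) (nat_lit 10965521154) (nat_lit 0) (nat_lit 10965521154) (nat_lit 140) (nat_lit 1) (nat_lit 130) (nat_lit 1) (nat_lit 129) (nat_lit 1) (nat_lit 143) (nat_lit 290) (nat_lit 287)) (XT.lf (nat_lit 924) (nat_lit 9828455729) (nat_lit 0) (nat_lit 22613268570) (nat_lit 840) (nat_lit 9828455729) (nat_lit 141) (nat_lit 1) (nat_lit 130) (nat_lit 1) (nat_lit 140) (nat_lit 1) (nat_lit 144) (nat_lit 290) (nat_lit 286))) (XT.nd (nat_lit 94) (nat_lit 0) (nat_lit 84) (XT.lf (nat_lit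 924) (nat_lit 17677117777) (nat_lit 84) (nat_lit 11805184951) (nat_lit 0) (nat_lit 11805184951) (nat_lit 141) (nat_lit 1) (nat_lit 131) (nat_lit 1) (nat_lit 130) (nat_lit 1) (nat_lit 145) (nat_lit 290) (nat_lit 285)) (XT.lf (nat_lit 924) (nat_lit 7750905583) (nat_lit 0) (nat_lit 24835979569) (nat_lit 840) (nat_lit 7750905583) (nat_lit 142) (nat_lit 1) (nat_lit 131) (nat_lit 1) (nat_lit 141) (nat_lit 1) (nat_lit 146) (nat_lit 290) (nat_lit 284))))) (XT.nd (nat_lit 282) (nat_lit 1260) (nat_lit 0) (XT.nd (nat_lit 94) (nat_lit 0) (nat_lit 84) (XT.lf (nat_lit 924) (nat_lit 13029510272) (nat_lit 84) (nat_lit 13192365966) (nat_lit 0) (nat_lit 13192365966) (nat_lit 142) (nat_lit 1) (nat_lit 132) (nat_lit 1) (nat_lit 131) (nat_lit 1) (nat_lit 147) (nat_lit 290) (nat_lit 283)) (XT.nd (nat_lit 94) (nat_lit 0) (nat_lit 0) (XT.lf (nat_lit 924) (nat_lit 5230669730) (nat_lit 0) (nat_lit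 28063161353) (nat_lit 840) (nat_lit 5230669730) (nat_lit 143) (nat_lit 1) (nat_lit 132) (nat_lit 1) (nat_lit 142) (nat_lit 1) (nat_lit 148) (nat_lit 290) (nat_lit 282)) (XT.lf (nat_lit 924) (nat_lit 7562830863) (nat_lit 84) (nat_lit 15046371655) (nat_lit 0) (nat_lit 15046371655) (nat_lit 143) (nat_lit 1) (nat_lit 133) (nat_lit 1) (nat_lit 132) (nat_lit 1) (nat_lit 149) (nat_lit 290) (nat_lit 281)))) (XT.nd (nat_lit 188) (nat_lit 588) (nat_lit 0) (XT.nd (nat_lit 94) (nat_lit 840) (nat_lit 0) (XT.lf (nat_lit 84) (nat_lit 2339182825) (nat_lit 0) (nat_lit 32143755494) (nat_lit 840) (nat_lit 2339182825) (nat_lit 134) (nat_lit 1) (nat_lit 133) (nat_lit 1) (nat_lit 143) (nat_lit 1) (nat_lit 150) (nat_lit 290) (nat_lit 280)) (XT.lf (nat_lit 924) (nat_lit 1412808256) (nat_lit 0) (nat_lit 17295430057) (nat_lit 840) (nat_lit 17295430057) (nat_lit 134) (nat_lit 1) (nat_lit 123) (nat_lit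 1) (nat_lit 133) (nat_lit 1) (nat_lit 151) (nat_lit 290) (nat_lit 279))) (XT.nd (nat_lit 94) (nat_lit 0) (nat_lit 0) (XT.lf (nat_lit 588) (nat_lit 33527719167) (nat_lit 0) (nat_lit 846329346) (nat_lit 504) (nat_lit 846329346) (nat_lit 123) (nat_lit 1) (nat_lit 116) (nat_lit 1) (nat_lit 122) (nat_lit 1) (nat_lit 152) (nat_lit 290) (nat_lit 278)) (XT.lf (nat_lit 84) (nat_lit 14658260467) (nat_lit 0) (nat_lit 5130642506) (nat_lit 588) (nat_lit 14658260467) (nat_lit 117) (nat_lit 1) (nat_lit 116) (nat_lit 1) (nat_lit 123) (nat_lit 1) (nat_lit 153) (nat_lit 290) (nat_lit 277))))))))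
noncomputable def ec146 : XT := (XT.nd (nat_lit 2538) (nat_lit 2772) (nat_lit 0) (XT.nd (nat_lit 1222) (nat_lit 2016) (nat_lit 0) (XT.nd (nat_lit 564) (nat_lit 1764) (nat_lit 0) (XT.nd (nat_lit 282) (nat_lit 336) (nat_lit 0) (XT.nd (nat_lit 94) (nat_lit 420) (nat_lit 0) (XT.lf (nat_lit 504) (nat_lit 25223103651) (nat_lit 0) (nat_lit 4241862258) (nat_lit 420) (nat_lit 4241862258) (nat_lit 117) (nat_lit 1) (nat_lit 111) (nat_lit 1) (nat_lit 116) (nat_lit 1) (nat_lit 154) (nat_lit 290) (nat_lit 276)) (XT.nd (nat_lit 94) (nat_lit 420) (nat_lit 0) (XT.lf (nat_lit 84) (nat_lit 10455558749) (nat_lit 0) (nat_lit 12070939291) (nat_lit 504) (nat_lit 10455558749) (nat_lit 112) (nat_lit 1) (nat_lit 111) (nat_lit 1) (nat_lit 117) (nat_lit 1) (nat_lit 155) (nat_lit 290) (nat_lit 275)) (XT.lf (nat_lit 504) (nat_lit 16609771451) (nat_lit 0) (nat_lit 7836377904) (nat_lit 420) (nat_lit 7836377904)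 (nat_lit 112) (nat_lit 1) (nat_lit 106) (nat_lit 1) (nat_lit 111) (nat_lit 1) (nat_lit 156) (nat_lit 290) (nat_lit 274)))) (XT.nd (nat_lit 94) (nat_lit 336) (nat_lit 0) (XT.lf (nat_lit 84) (nat_lit 6120480035) (nat_lit 0) (nat_lit 19362382335) (nat_lit 504) (nat_lit 6120480035) (nat_lit 107) (nat_lit 1) (nat_lit 106) (nat_lit 1) (nat_lit 112) (nat_lit 1) (nat_lit 157) (nat_lit 290) (nat_lit 273)) (XT.nd (nat_lit 94) (nat_lit 0) (nat_lit 0) (XT.lf (nat_lit 420) (nat_lit 7767890837) (nat_lit 0) (nat_lit 11586868794) (nat_lit 336) (nat_lit 11586868794) (nat_lit 107) (nat_lit 1) (nat_lit 102) (nat_lit 1) (nat_lit 106) (nat_lit 1) (nat_lit 158) (nat_lit 290) (nat_lit 272)) (XT.lf (nat_lit 84) (nat_lit 1690241214) (nat_lit 0) (nat_lit 26924878279) (nat_lit 420) (nat_lit 1690241214) (nat_lit 103) (nat_lit 1) (nat_lit 102) (nat_lit 1) (nat_lit 107) (nat_lit 1) (nat_lit 159) (nat_lit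 290) (nat_lit 271))))) (XT.nd (nat_lit 282) (nat_lit 1008) (nat_lit 0) (XT.nd (nat_lit 94) (nat_lit 336) (nat_lit 0) (XT.lf (nat_lit 84) (nat_lit 14242458161) (nat_lit 0) (nat_lit 1192833537) (nat_lit 420) (nat_lit 14242458161) (nat_lit 98) (nat_lit 1) (nat_lit 97) (nat_lit 1) (nat_lit 102) (nat_lit 1) (nat_lit 160) (nat_lit 290) (nat_lit 270)) (XT.nd (nat_lit 94) (nat_lit 0) (nat_lit 0) (XT.lf (nat_lit 420) (nat_lit 23559271858) (nat_lit 0) (nat_lit 2757384057) (nat_lit 336) (nat_lit 2757384057) (nat_lit 98) (nat_lit 1) (nat_lit 93) (nat_lit 1) (nat_lit 97) (nat_lit 1) (nat_lit 161) (nat_lit 290) (nat_lit 269)) (XT.lf (nat_lit 84) (nat_lit 9240982160) (nat_lit 0) (nat_lit 9998722541) (nat_lit 420) (nat_lit 9240982160) (nat_lit 94) (nat_lit 1) (nat_lit 93) (nat_lit 1) (nat_lit 98) (nat_lit 1) (nat_lit 162) (nat_lit 290) (nat_lit 268)))) (XT.nd (nat_lit 188) (nat_lit 672)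 (nat_lit 0) (XT.nd (nat_lit 94) (nat_lit 0) (nat_lit 0) (XT.lf (nat_lit 420) (nat_lit 13485163613) (nat_lit 0) (nat_lit 7211372768) (nat_lit 336) (nat_lit 7211372768) (nat_lit 94) (nat_lit 1) (nat_lit 89) (nat_lit 1) (nat_lit 93) (nat_lit 1) (nat_lit 163) (nat_lit 290) (nat_lit 267)) (XT.lf (nat_lit 84) (nat_lit 4252618770) (nat_lit 0) (nat_lit 18846641967) (nat_lit 420) (nat_lit 4252618770) (nat_lit 90) (nat_lit 1) (nat_lit 89) (nat_lit 1) (nat_lit 94) (nat_lit 1) (nat_lit 164) (nat_lit 290) (nat_lit 266))) (XT.nd (nat_lit 94) (nat_lit 420) (nat_lit 0) (XT.lf (nat_lit 336) (nat_lit 3458472709) (nat_lit 0) (nat_lit 11674689806) (nat_lit 252) (nat_lit 11674689806) (nat_lit 90) (nat_lit 1) (nat_lit 86) (nat_lit 1) (nat_lit 89) (nat_lit 1) (nat_lit 165) (nat_lit 290) (nat_lit 265)) (XT.lf (nat_lit 420) (nat_lit 24902809367) (nat_lit 0) (nat_lit 691005176) (nat_lit 336) (nat_lit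 691005176) (nat_lit 86) (nat_lit 1) (nat_lit 81) (nat_lit 1) (nat_lit 85) (nat_lit 1) (nat_lit 166) (nat_lit 290) (nat_lit 264)))))) (XT.nd (nat_lit 658) (nat_lit 924) (nat_lit 0) (XT.nd (nat_lit 282) (nat_lit 840) (nat_lit 0) (XT.nd (nat_lit 94) (nat_lit 252) (nat_lit 0) (XT.lf (nat_lit 84) (nat_lit 9744653408) (nat_lit 0) (nat_lit 6275375224) (nat_lit 420) (nat_lit 9744653408) (nat_lit 82) (nat_lit 1) (nat_lit 81) (nat_lit 1) (nat_lit 86) (nat_lit 1) (nat_lit 167) (nat_lit 290) (nat_lit 263)) (XT.nd (nat_lit 94) (nat_lit 0) (nat_lit 0) (XT.lf (nat_lit 336) (nat_lit 14232374374) (nat_lit 0) (nat_lit 5516059326) (nat_lit 252) (nat_lit 5516059326) (nat_lit 82) (nat_lit 1) (nat_lit 78) (nat_lit 1) (nat_lit 81) (nat_lit 1) (nat_lit 168) (nat_lit 290) (nat_lit 262)) (XT.lf (nat_lit 84) (nat_lit 4496227217) (nat_lit 0) (nat_lit 15784557740) (nat_lit 336) (nat_lit 4496227217)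 (nat_lit 79) (nat_lit 1) (nat_lit 78) (nat_lit 1) (nat_lit 82) (nat_lit 1) (nat_lit 169) (nat_lit 290) (nat_lit 261)))) (XT.nd (nat_lit 188) (nat_lit 252) (nat_lit 0) (XT.nd (nat_lit 94) (nat_lit 336) (nat_lit 0) (XT.lf (nat_lit 336) (nat_lit 3747464850) (nat_lit 0) (nat_lit 10276578264) (nat_lit 252) (nat_lit 10276578264) (nat_lit 79) (nat_lit 1) (nat_lit 75) (nat_lit 1) (nat_lit 78) (nat_lit 1) (nat_lit 170) (nat_lit 290) (nat_lit 260)) (XT.lf (nat_lit 336) (nat_lit 22553848016) (nat_lit 0) (nat_lit 644040545) (nat_lit 252) (nat_lit 644040545) (nat_lit 75) (nat_lit 1) (nat_lit 71) (nat_lit 1) (nat_lit 74) (nat_lit 1) (nat_lit 171) (nat_lit 290) (nat_lit 259))) (XT.nd (nat_lit 94) (nat_lit 252) (nat_lit 0) (XT.lf (nat_lit 84) (nat_lit 8531474803) (nat_lit 0) (nat_lit 6321737163) (nat_lit 336) (nat_lit 8531474803) (nat_lit 72) (nat_lit 1) (nat_lit 71) (nat_lit 1) (nat_lit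 75) (nat_lit 1) (nat_lit 172) (nat_lit 290) (nat_lit 258)) (XT.lf (nat_lit 336) (nat_lit 11731559046) (nat_lit 0) (nat_lit 5606401712) (nat_lit 252) (nat_lit 5606401712) (nat_lit 72) (nat_lit 1) (nat_lit 68) (nat_lit 1) (nat_lit 71) (nat_lit 1) (nat_lit 173) (nat_lit 290) (nat_lit 257))))) (XT.nd (nat_lit 282) (nat_lit 420) (nat_lit 0) (XT.nd (nat_lit 94) (nat_lit 504) (nat_lit 0) (XT.lf (nat_lit 84) (nat_lit 3230861793) (nat_lit 0) (nat_lit 16054124285) (nat_lit 336) (nat_lit 3230861793) (nat_lit 69) (nat_lit 1) (nat_lit 68) (nat_lit 1) (nat_lit 72) (nat_lit 1) (nat_lit 174) (nat_lit 290) (nat_lit 256)) (XT.nd (nat_lit 94) (nat_lit 336) (nat_lit 0) (XT.lf (nat_lit 252) (nat_lit 1183895185) (nat_lit 0) (nat_lit 10455756593) (nat_lit 168) (nat_lit 10455756593) (nat_lit 69) (nat_lit 1) (nat_lit 66) (nat_lit 1) (nat_lit 68) (nat_lit 1) (nat_lit 175) (nat_lit 290) (nat_lit 255))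 (XT.lf (nat_lit 336) (nat_lit 17888259269) (nat_lit 0) (nat_lit 1899862794) (nat_lit 252) (nat_lit 1899862794) (nat_lit 66) (nat_lit 1) (nat_lit 62) (nat_lit 1) (nat_lit 65) (nat_lit 1) (nat_lit 176) (nat_lit 290) (nat_lit 254)))) (XT.nd (nat_lit 188) (nat_lit 252) (nat_lit 0) (XT.nd (nat_lit 94) (nat_lit 168) (nat_lit 0) (XT.lf (nat_lit 84) (nat_lit 6247944346) (nat_lit 0) (nat_lit 8789229290) (nat_lit 336) (nat_lit 6247944346) (nat_lit 63) (nat_lit 1) (nat_lit 62) (nat_lit 1) (nat_lit 66) (nat_lit 1) (nat_lit 177) (nat_lit 290) (nat_lit 253)) (XT.lf (nat_lit 252) (nat_lit 7218535906) (nat_lit 0) (nat_lit 6838074390) (nat_lit 168) (nat_lit 6838074390) (nat_lit 63) (nat_lit 1) (nat_lit 60) (nat_lit 1) (nat_lit 62) (nat_lit 1) (nat_lit 178) (nat_lit 290) (nat_lit 252))) (XT.nd (nat_lit 94) (nat_lit 252) (nat_lit 0) (XT.lf (nat_lit 84) (nat_lit 1037074489) (nat_lit 0) (nat_lit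 18443059394) (nat_lit 252) (nat_lit 1037074489) (nat_lit 61) (nat_lit 1) (nat_lit 60) (nat_lit 1) (nat_lit 63) (nat_lit 1) (nat_lit 179) (nat_lit 290) (nat_lit 251)) (XT.lf (nat_lit 84) (nat_lit 8559157708) (nat_lit 0) (nat_lit 3022788794) (nat_lit 252) (nat_lit 8559157708) (nat_lit 58) (nat_lit 1) (nat_lit 57) (nat_lit 1) (nat_lit 60) (nat_lit 1) (nat_lit 180) (nat_lit 290) (nat_lit 250))))))) (XT.nd (nat_lit 1222) (nat_lit 1344) (nat_lit 0) (XT.nd (nat_lit 564) (nat_lit 672) (nat_lit 0) (XT.nd (nat_lit 282) (nat_lit 420) (nat_lit 0) (XT.nd (nat_lit 94) (nat_lit 168) (nat_lit 0) (XT.lf (nat_lit 252) (nat_lit 11885890599) (nat_lit 0) (nat_lit 3945793642) (nat_lit 168) (nat_lit 3945793642) (nat_lit 58) (nat_lit 1) (nat_lit 55) (nat_lit 1) (nat_lit 57) (nat_lit 1) (nat_lit 181) (nat_lit 290) (nat_lit 249)) (XT.nd (nat_lit 94) (nat_lit 168) (nat_lit 0) (XT.lf (nat_lit 84) (nat_lit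 3353889101) (nat_lit 0) (nat_lit 12714110291) (nat_lit 252) (nat_lit 3353889101) (nat_lit 56) (nat_lit 1) (nat_lit 55) (nat_lit 1) (nat_lit 58) (nat_lit 1) (nat_lit 182) (nat_lit 290) (nat_lit 248)) (XT.lf (nat_lit 252) (nat_lit 1571176292) (nat_lit 0) (nat_lit 8751145288) (nat_lit 168) (nat_lit 8751145288) (nat_lit 56) (nat_lit 1) (nat_lit 53) (nat_lit 1) (nat_lit 55) (nat_lit 1) (nat_lit 183) (nat_lit 290) (nat_lit 247)))) (XT.nd (nat_lit 94) (nat_lit 168) (nat_lit 0) (XT.lf (nat_lit 252) (nat_lit 15442535654) (nat_lit 0) (nat_lit 1646302688) (nat_lit 168) (nat_lit 1646302688) (nat_lit 53) (nat_lit 1) (nat_lit 50) (nat_lit 1) (nat_lit 52) (nat_lit 1) (nat_lit 184) (nat_lit 290) (nat_lit 246)) (XT.nd (nat_lit 94) (nat_lit 168) (nat_lit 0) (XT.lf (nat_lit 84) (nat_lit 5140857962) (nat_lit 0) (nat_lit 8117986843) (nat_lit 252) (nat_lit 5140857962) (nat_lit 51) (nat_lit 1)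 (nat_lit 50) (nat_lit 1) (nat_lit 53) (nat_lit 1) (nat_lit 185) (nat_lit 290) (nat_lit 245)) (XT.lf (nat_lit 252) (nat_lit 5235714242) (nat_lit 0) (nat_lit 6419144249) (nat_lit 168) (nat_lit 6419144249) (nat_lit 51) (nat_lit 1) (nat_lit 48) (nat_lit 1) (nat_lit 50) (nat_lit 1) (nat_lit 186) (nat_lit 290) (nat_lit 244))))) (XT.nd (nat_lit 282) (nat_lit 336) (nat_lit 0) (XT.nd (nat_lit 94) (nat_lit 336) (nat_lit 0) (XT.lf (nat_lit 84) (nat_lit 172083487) (nat_lit 0) (nat_lit 17415558056) (nat_lit 252) (nat_lit 172083487) (nat_lit 49) (nat_lit 1) (nat_lit 48) (nat_lit 1) (nat_lit 51) (nat_lit 1) (nat_lit 187) (nat_lit 290) (nat_lit 243)) (XT.nd (nat_lit 94) (nat_lit 168) (nat_lit 0) (XT.lf (nat_lit 84) (nat_lit 6497591899) (nat_lit 0) (nat_lit 4448265811) (nat_lit 168) (nat_lit 6497591899) (nat_lit 47) (nat_lit 1) (nat_lit 46) (nat_lit 1) (nat_lit 48) (nat_lit 1) (nat_lit 188)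 (nat_lit 290) (nat_lit 242)) (XT.lf (nat_lit 252) (nat_lit 8062771844) (nat_lit 0) (nat_lit 4537765253) (nat_lit 168) (nat_lit 4537765253) (nat_lit 47) (nat_lit 1) (nat_lit 44) (nat_lit 1) (nat_lit 46) (nat_lit 1) (nat_lit 189) (nat_lit 290) (nat_lit 241)))) (XT.nd (nat_lit 188) (nat_lit 168) (nat_lit 0) (XT.nd (nat_lit 94) (nat_lit 168) (nat_lit 0) (XT.lf (nat_lit 84) (nat_lit 1616530031) (nat_lit 0) (nat_lit 13608331727) (nat_lit 252) (nat_lit 1616530031) (nat_lit 45) (nat_lit 1) (nat_lit 44) (nat_lit 1) (nat_lit 47) (nat_lit 1) (nat_lit 190) (nat_lit 290) (nat_lit 240)) (XT.lf (nat_lit 84) (nat_lit 7505770965) (nat_lit 0) (nat_lit 1535387811) (nat_lit 168) (nat_lit 7505770965) (nat_lit 43) (nat_lit 1) (nat_lit 42) (nat_lit 1) (nat_lit 44) (nat_lit 1) (nat_lit 191) (nat_lit 290) (nat_lit 239))) (XT.nd (nat_lit 94) (nat_lit 0) (nat_lit 0) (XT.lf (nat_lit 252) (nat_lit 10209773568)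 (nat_lit 0) (nat_lit 3025344411) (nat_lit 168) (nat_lit 3025344411) (nat_lit 43) (nat_lit 1) (nat_lit 40) (nat_lit 1) (nat_lit 42) (nat_lit 1) (nat_lit 192) (nat_lit 290) (nat_lit 238)) (XT.lf (nat_lit 84) (nat_lit 2734643752) (nat_lit 0) (nat_lit 10510378680) (nat_lit 252) (nat_lit 2734643752) (nat_lit 41) (nat_lit 1) (nat_lit 40) (nat_lit 1) (nat_lit 43) (nat_lit 1) (nat_lit 193) (nat_lit 290) (nat_lit 237)))))) (XT.nd (nat_lit 658) (nat_lit 588) (nat_lit 0) (XT.nd (nat_lit 282) (nat_lit 420) (nat_lit 0) (XT.nd (nat_lit 94) (nat_lit 252) (nat_lit 0) (XT.lf (nat_lit 168) (nat_lit 785016635) (nat_lit 0) (nat_lit 7459576051) (nat_lit 84) (nat_lit 7459576051) (nat_lit 41) (nat_lit 1) (nat_lit 39) (nat_lit 1) (nat_lit 40) (nat_lit 1) (nat_lit 194) (nat_lit 290) (nat_lit 236)) (XT.nd (nat_lit 94) (nat_lit 0) (nat_lit 0) (XT.lf (nat_lit 252) (nat_lit 11805807142) (nat_lit 0)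 (nat_lit 1814780913) (nat_lit 168) (nat_lit 1814780913) (nat_lit 39) (nat_lit 1) (nat_lit 36) (nat_lit 1) (nat_lit 38) (nat_lit 1) (nat_lit 195) (nat_lit 290) (nat_lit 235)) (XT.lf (nat_lit 84) (nat_lit 3587627225) (nat_lit 0) (nat_lit 7994315018) (nat_lit 252) (nat_lit 3587627225) (nat_lit 37) (nat_lit 1) (nat_lit 36) (nat_lit 1) (nat_lit 39) (nat_lit 1) (nat_lit 196) (nat_lit 290) (nat_lit 234)))) (XT.nd (nat_lit 188) (nat_lit 84) (nat_lit 0) (XT.nd (nat_lit 94) (nat_lit 252) (nat_lit 0) (XT.lf (nat_lit 168) (nat_lit 2636263705) (nat_lit 0) (nat_lit 6137011678) (nat_lit 84) (nat_lit 6137011678) (nat_lit 37) (nat_lit 1) (nat_lit 35) (nat_lit 1) (nat_lit 36) (nat_lit 1) (nat_lit 197) (nat_lit 290) (nat_lit 233)) (XT.lf (nat_lit 252) (nat_lit 12956667858) (nat_lit 0) (nat_lit 850951014) (nat_lit 168) (nat_lit 850951014) (nat_lit 35) (nat_lit 1) (nat_lit 32) (nat_lit 1) (nat_lit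 34) (nat_lit 1) (nat_lit 198) (nat_lit 290) (nat_lit 232))) (XT.nd (nat_lit 94) (nat_lit 84) (nat_lit 0) (XT.lf (nat_lit 84) (nat_lit 4225672695) (nat_lit 0) (nat_lit 5955419384) (nat_lit 252) (nat_lit 4225672695) (nat_lit 33) (nat_lit 1) (nat_lit 32) (nat_lit 1) (nat_lit 35) (nat_lit 1) (nat_lit 199) (nat_lit 290) (nat_lit 231)) (XT.lf (nat_lit 168) (nat_lit 4064506937) (nat_lit 0) (nat_lit 5048934695) (nat_lit 84) (nat_lit 5048934695) (nat_lit 33) (nat_lit 1) (nat_lit 31) (nat_lit 1) (nat_lit 32) (nat_lit 1) (nat_lit 200) (nat_lit 290) (nat_lit 230))))) (XT.nd (nat_lit 282) (nat_lit 252) (nat_lit 0) (XT.nd (nat_lit 94) (nat_lit 84) (nat_lit 0) (XT.lf (nat_lit 252) (nat_lit 13749007574) (nat_lit 0) (nat_lit 88580711) (nat_lit 168) (nat_lit 88580711) (nat_lit 31) (nat_lit 1) (nat_lit 28) (nat_lit 1) (nat_lit 30) (nat_lit 1) (nat_lit 201) (nat_lit 290) (nat_lit 229)) (XT.nd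 (nat_lit 94) (nat_lit 84) (nat_lit 0) (XT.lf (nat_lit 84) (nat_lit 4689921763) (nat_lit 0) (nat_lit 4307611251) (nat_lit 252) (nat_lit 4689921763) (nat_lit 29) (nat_lit 1) (nat_lit 28) (nat_lit 1) (nat_lit 31) (nat_lit 1) (nat_lit 202) (nat_lit 290) (nat_lit 228)) (XT.lf (nat_lit 168) (nat_lit 5149257310) (nat_lit 0) (nat_lit 4153771069) (nat_lit 84) (nat_lit 4153771069) (nat_lit 29) (nat_lit 1) (nat_lit 27) (nat_lit 1) (nat_lit 28) (nat_lit 1) (nat_lit 203) (nat_lit 290) (nat_lit 227)))) (XT.nd (nat_lit 188) (nat_lit 84) (nat_lit 0) (XT.nd (nat_lit 94) (nat_lit 168) (nat_lit 0) (XT.lf (nat_lit 0) (nat_lit 517856762) (nat_lit 0) (nat_lit 12197394462) (nat_lit 168) (nat_lit 517856762) (nat_lit 27) (nat_lit 3) (nat_lit 27) (nat_lit 1) (nat_lit 29) (nat_lit 1) (nat_lit 204) (nat_lit 290) (nat_lit 226)) (XT.lf (nat_lit 84) (nat_lit 5014077269) (nat_lit 0) (nat_lit 2980142423)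 (nat_lit 168) (nat_lit 5014077269) (nat_lit 26) (nat_lit 1) (nat_lit 25) (nat_lit 1) (nat_lit 27) (nat_lit 1) (nat_lit 205) (nat_lit 290) (nat_lit 225))) (XT.nd (nat_lit 94) (nat_lit 0) (nat_lit 0) (XT.lf (nat_lit 168) (nat_lit 5955713773) (nat_lit 0) (nat_lit 3417317738) (nat_lit 84) (nat_lit 3417317738) (nat_lit 26) (nat_lit 1) (nat_lit 24) (nat_lit 1) (nat_lit 25) (nat_lit 1) (nat_lit 206) (nat_lit 290) (nat_lit 224)) (XT.lf (nat_lit 0) (nat_lit 989782053) (nat_lit 0) (nat_lit 10598566623) (nat_lit 168) (nat_lit 989782053) (nat_lit 24) (nat_lit 3) (nat_lit 24) (nat_lit 1) (nat_lit 26) (nat_lit 1) (nat_lit 207) (nat_lit 290) (nat_lit 223))))))))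
noncomputable def ec147 : XT := (XT.nd (nat_lit 2538) (nat_lit 0) (nat_lit 0) (XT.nd (nat_lit 1222) (nat_lit 924) (nat_lit 0) (XT.nd (nat_lit 564) (nat_lit 588) (nat_lit 0) (XT.nd (nat_lit 282) (nat_lit 252) (nat_lit 0) (XT.nd (nat_lit 94) (nat_lit 84) (nat_lit 0) (XT.lf (nat_lit 84) (nat_lit 5225729042) (nat_lit 0) (nat_lit 1914875296) (nat_lit 168) (nat_lit 5225729042) (nat_lit 23) (nat_lit 1) (nat_lit 22) (nat_lit 1) (nat_lit 24) (nat_lit 1) (nat_lit 208) (nat_lit 290) (nat_lit 222)) (XT.nd (nat_lit 94) (nat_lit 0) (nat_lit 0) (XT.lf (nat_lit 168) (nat_lit 6537310976) (nat_lit 0) (nat_lit 2811435760) (nat_lit 84) (nat_lit 2811435760) (nat_lit 23) (nat_lit 1) (nat_lit 21) (nat_lit 1) (nat_lit 22) (nat_lit 1) (nat_lit 209) (nat_lit 290) (nat_lit 221)) (XT.lf (nat_lit 0) (nat_lit 1351191396) (nat_lit 0) (nat_lit 9256362241) (nat_lit 168) (nat_lit 1351191396) (nat_lit 21)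 (nat_lit 3) (nat_lit 21) (nat_lit 1) (nat_lit 23) (nat_lit 1) (nat_lit 210) (nat_lit 290) (nat_lit 220)))) (XT.nd (nat_lit 94) (nat_lit 84) (nat_lit 0) (XT.lf (nat_lit 84) (nat_lit 5347444277) (nat_lit 0) (nat_lit 1064043834) (nat_lit 168) (nat_lit 5347444277) (nat_lit 20) (nat_lit 1) (nat_lit 19) (nat_lit 1) (nat_lit 21) (nat_lit 1) (nat_lit 211) (nat_lit 290) (nat_lit 219)) (XT.nd (nat_lit 94) (nat_lit 0) (nat_lit 0) (XT.lf (nat_lit 168) (nat_lit 6937814790) (nat_lit 0) (nat_lit 2312975157) (nat_lit 84) (nat_lit 2312975157) (nat_lit 20) (nat_lit 1) (nat_lit 18) (nat_lit 1) (nat_lit 19) (nat_lit 1) (nat_lit 212) (nat_lit 290) (nat_lit 218)) (XT.lf (nat_lit 0) (nat_lit 1622957316) (nat_lit 0) (nat_lit 8126560934) (nat_lit 168) (nat_lit 1622957316) (nat_lit 18) (nat_lit 3) (nat_lit 18) (nat_lit 1) (nat_lit 20) (nat_lit 1) (nat_lit 213) (nat_lit 290) (nat_lit 217))))) (XT.nd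 (nat_lit 282) (nat_lit 336) (nat_lit 0) (XT.nd (nat_lit 94) (nat_lit 84) (nat_lit 0) (XT.lf (nat_lit 84) (nat_lit 5397664271) (nat_lit 0) (nat_lit 388411676) (nat_lit 168) (nat_lit 5397664271) (nat_lit 17) (nat_lit 1) (nat_lit 16) (nat_lit 1) (nat_lit 18) (nat_lit 1) (nat_lit 214) (nat_lit 290) (nat_lit 216)) (XT.nd (nat_lit 94) (nat_lit 0) (nat_lit 0) (XT.lf (nat_lit 168) (nat_lit 7193045847) (nat_lit 0) (nat_lit 1902890386) (nat_lit 84) (nat_lit 1902890386) (nat_lit 17) (nat_lit 1) (nat_lit 15) (nat_lit 1) (nat_lit 16) (nat_lit 1) (nat_lit 215) (nat_lit 290) (nat_lit 215)) (XT.lf (nat_lit 0) (nat_lit 1822190819) (nat_lit 0) (nat_lit 7172721611) (nat_lit 168) (nat_lit 1822190819) (nat_lit 15) (nat_lit 3) (nat_lit 15) (nat_lit 1) (nat_lit 17) (nat_lit 1) (nat_lit 216) (nat_lit 290) (nat_lit 214)))) (XT.nd (nat_lit 188) (nat_lit 84) (nat_lit 0) (XT.nd (nat_lit 94) (nat_lit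 168) (nat_lit 0) (XT.lf (nat_lit 84) (nat_lit 149012383) (nat_lit 0) (nat_lit 5244755995) (nat_lit 84) (nat_lit 5244755995) (nat_lit 15) (nat_lit 3) (nat_lit 14) (nat_lit 1) (nat_lit 15) (nat_lit 1) (nat_lit 217) (nat_lit 290) (nat_lit 213)) (XT.lf (nat_lit 168) (nat_lit 7332297048) (nat_lit 0) (nat_lit 1565512630) (nat_lit 84) (nat_lit 1565512630) (nat_lit 14) (nat_lit 1) (nat_lit 12) (nat_lit 1) (nat_lit 13) (nat_lit 1) (nat_lit 218) (nat_lit 290) (nat_lit 212))) (XT.nd (nat_lit 94) (nat_lit 84) (nat_lit 0) (XT.lf (nat_lit 0) (nat_lit 1962911201) (nat_lit 0) (nat_lit 6364806125) (nat_lit 168) (nat_lit 1962911201) (nat_lit 12) (nat_lit 3) (nat_lit 12) (nat_lit 1) (nat_lit 14) (nat_lit 1) (nat_lit 219) (nat_lit 290) (nat_lit 211)) (XT.lf (nat_lit 84) (nat_lit 578902672) (nat_lit 0) (nat_lit 4771183552) (nat_lit 84) (nat_lit 4771183552) (nat_lit 12) (nat_lit 3) (nat_lit 11)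 (nat_lit 1) (nat_lit 12) (nat_lit 1) (nat_lit 220) (nat_lit 290) (nat_lit 210)))))) (XT.nd (nat_lit 658) (nat_lit 252) (nat_lit 0) (XT.nd (nat_lit 282) (nat_lit 420) (nat_lit 0) (XT.nd (nat_lit 94) (nat_lit 84) (nat_lit 0) (XT.lf (nat_lit 168) (nat_lit 7379499335) (nat_lit 0) (nat_lit 1287951115) (nat_lit 84) (nat_lit 1287951115) (nat_lit 11) (nat_lit 1) (nat_lit 9) (nat_lit 1) (nat_lit 10) (nat_lit 1) (nat_lit 221) (nat_lit 290) (nat_lit 209)) (XT.nd (nat_lit 94) (nat_lit 84) (nat_lit 0) (XT.lf (nat_lit 0) (nat_lit 2056596954) (nat_lit 0) (nat_lit 5678046802) (nat_lit 168) (nat_lit 2056596954) (nat_lit 9) (nat_lit 3) (nat_lit 9) (nat_lit 1) (nat_lit 11) (nat_lit 1) (nat_lit 222) (nat_lit 290) (nat_lit 208)) (XT.lf (nat_lit 84) (nat_lit 910845437) (nat_lit 0) (nat_lit 4359845292) (nat_lit 84) (nat_lit 4359845292) (nat_lit 9) (nat_lit 3) (nat_lit 8) (nat_lit 1) (nat_lit 9)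 (nat_lit 1) (nat_lit 223) (nat_lit 290) (nat_lit 207)))) (XT.nd (nat_lit 188) (nat_lit 252) (nat_lit 0) (XT.nd (nat_lit 94) (nat_lit 0) (nat_lit 0) (XT.lf (nat_lit 168) (nat_lit 7354180373) (nat_lit 0) (nat_lit 1059600569) (nat_lit 84) (nat_lit 1059600569) (nat_lit 8) (nat_lit 1) (nat_lit 6) (nat_lit 1) (nat_lit 7) (nat_lit 1) (nat_lit 224) (nat_lit 290) (nat_lit 206)) (XT.lf (nat_lit 0) (nat_lit 2112638882) (nat_lit 0) (nat_lit 5092014634) (nat_lit 168) (nat_lit 2112638882) (nat_lit 6) (nat_lit 3) (nat_lit 6) (nat_lit 1) (nat_lit 8) (nat_lit 1) (nat_lit 225) (nat_lit 290) (nat_lit 205))) (XT.nd (nat_lit 94) (nat_lit 168) (nat_lit 0) (XT.lf (nat_lit 84) (nat_lit 1163241249) (nat_lit 0) (nat_lit 4000741966) (nat_lit 84) (nat_lit 4000741966) (nat_lit 6) (nat_lit 3) (nat_lit 5) (nat_lit 1) (nat_lit 6) (nat_lit 1) (nat_lit 226) (nat_lit 290) (nat_lit 204)) (XT.lf (nat_lit 168)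 (nat_lit 7272252876) (nat_lit 0) (nat_lit 871736011) (nat_lit 84) (nat_lit 871736011) (nat_lit 5) (nat_lit 1) (nat_lit 3) (nat_lit 1) (nat_lit 4) (nat_lit 1) (nat_lit 227) (nat_lit 290) (nat_lit 203))))) (XT.nd (nat_lit 282) (nat_lit 0) (nat_lit 0) (XT.nd (nat_lit 94) (nat_lit 252) (nat_lit 0) (XT.lf (nat_lit 0) (nat_lit 2138712739) (nat_lit 0) (nat_lit 4589852544) (nat_lit 168) (nat_lit 2138712739) (nat_lit 3) (nat_lit 3) (nat_lit 3) (nat_lit 1) (nat_lit 5) (nat_lit 1) (nat_lit 228) (nat_lit 290) (nat_lit 202)) (XT.nd (nat_lit 94) (nat_lit 168) (nat_lit 0) (XT.lf (nat_lit 84) (nat_lit 1351179030) (nat_lit 0) (nat_lit 3685597891) (nat_lit 84) (nat_lit 3685597891) (nat_lit 3) (nat_lit 3) (nat_lit 2) (nat_lit 1) (nat_lit 3) (nat_lit 1) (nat_lit 229) (nat_lit 290) (nat_lit 201)) (XT.lf (nat_lit 0) (nat_lit 12465547152) (nat_lit 0) (nat_lit 0) (nat_lit 0) (nat_lit 0) (nat_lit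 0) (nat_lit 0) (nat_lit 1) (nat_lit 0) (nat_lit 1) (nat_lit 0) (nat_lit 230) (nat_lit 290) (nat_lit 200)))) (XT.nd (nat_lit 188) (nat_lit 0) (nat_lit 0) (XT.nd (nat_lit 94) (nat_lit 0) (nat_lit 0) (XT.lf (nat_lit 0) (nat_lit 12458284276) (nat_lit 0) (nat_lit 0) (nat_lit 0) (nat_lit 0) (nat_lit 0) (nat_lit 0) (nat_lit 1) (nat_lit 0) (nat_lit 1) (nat_lit 0) (nat_lit 231) (nat_lit 290) (nat_lit 199)) (XT.lf (nat_lit 0) (nat_lit 12451367252) (nat_lit 0) (nat_lit 0) (nat_lit 0) (nat_lit 0) (nat_lit 0) (nat_lit 0) (nat_lit 1) (nat_lit 0) (nat_lit 1) (nat_lit 0) (nat_lit 232) (nat_lit 290) (nat_lit 198))) (XT.nd (nat_lit 94) (nat_lit 0) (nat_lit 0) (XT.lf (nat_lit 0) (nat_lit 12444779609) (nat_lit 0) (nat_lit 0) (nat_lit 0) (nat_lit 0) (nat_lit 0) (nat_lit 0) (nat_lit 1) (nat_lit 0) (nat_lit 1) (nat_lit 0) (nat_lit 233) (nat_lit 290) (nat_lit 197)) (XT.lf (nat_lit 0) (nat_lit 12438505664)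 (nat_lit 0) (nat_lit 0) (nat_lit 0) (nat_lit 0) (nat_lit 0) (nat_lit 0) (nat_lit 1) (nat_lit 0) (nat_lit 1) (nat_lit 0) (nat_lit 234) (nat_lit 290) (nat_lit 196))))))) (XT.nd (nat_lit 1316) (nat_lit 0) (nat_lit 0) (XT.nd (nat_lit 658) (nat_lit 0) (nat_lit 0) (XT.nd (nat_lit 282) (nat_lit 0) (nat_lit 0) (XT.nd (nat_lit 94) (nat_lit 0) (nat_lit 0) (XT.lf (nat_lit 0) (nat_lit 12432530478) (nat_lit 0) (nat_lit 0) (nat_lit 0) (nat_lit 0) (nat_lit 0) (nat_lit 0) (nat_lit 1) (nat_lit 0) (nat_lit 1) (nat_lit 0) (nat_lit 235) (nat_lit 290) (nat_lit 195)) (XT.nd (nat_lit 94) (nat_lit 0) (nat_lit 0) (XT.lf (nat_lit 0) (nat_lit 12426839825) (nat_lit 0) (nat_lit 0) (nat_lit 0) (nat_lit 0) (nat_lit 0) (nat_lit 0) (nat_lit 1) (nat_lit 0) (nat_lit 1) (nat_lit 0) (nat_lit 236) (nat_lit 290) (nat_lit 194)) (XT.lf (nat_lit 0) (nat_lit 12421420156) (nat_lit 0) (nat_lit 0) (nat_lit 0) (nat_lit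 0) (nat_lit 0) (nat_lit 0) (nat_lit 1) (nat_lit 0) (nat_lit 1) (nat_lit 0) (nat_lit 237) (nat_lit 290) (nat_lit 193)))) (XT.nd (nat_lit 188) (nat_lit 0) (nat_lit 0) (XT.nd (nat_lit 94) (nat_lit 0) (nat_lit 0) (XT.lf (nat_lit 0) (nat_lit 12416258565) (nat_lit 0) (nat_lit 0) (nat_lit 0) (nat_lit 0) (nat_lit 0) (nat_lit 0) (nat_lit 1) (nat_lit 0) (nat_lit 1) (nat_lit 0) (nat_lit 238) (nat_lit 290) (nat_lit 192)) (XT.lf (nat_lit 0) (nat_lit 12411342765) (nat_lit 0) (nat_lit 0) (nat_lit 0) (nat_lit 0) (nat_lit 0) (nat_lit 0) (nat_lit 1) (nat_lit 0) (nat_lit 1) (nat_lit 0) (nat_lit 239) (nat_lit 290) (nat_lit 191))) (XT.nd (nat_lit 94) (nat_lit 0) (nat_lit 0) (XT.lf (nat_lit 0) (nat_lit 12406661051) (nat_lit 0) (nat_lit 0) (nat_lit 0) (nat_lit 0) (nat_lit 0) (nat_lit 0) (nat_lit 1) (nat_lit 0) (nat_lit 1) (nat_lit 0) (nat_lit 240) (nat_lit 290) (nat_lit 190)) (XT.lf (nat_lit 0)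 (nat_lit 12402202275) (nat_lit 0) (nat_lit 0) (nat_lit 0) (nat_lit 0) (nat_lit 0) (nat_lit 0) (nat_lit 1) (nat_lit 0) (nat_lit 1) (nat_lit 0) (nat_lit 241) (nat_lit 290) (nat_lit 189))))) (XT.nd (nat_lit 282) (nat_lit 0) (nat_lit 0) (XT.nd (nat_lit 94) (nat_lit 0) (nat_lit 0) (XT.lf (nat_lit 0) (nat_lit 12397955822) (nat_lit 0) (nat_lit 0) (nat_lit 0) (nat_lit 0) (nat_lit 0) (nat_lit 0) (nat_lit 1) (nat_lit 0) (nat_lit 1) (nat_lit 0) (nat_lit 242) (nat_lit 290) (nat_lit 188)) (XT.nd (nat_lit 94) (nat_lit 0) (nat_lit 0) (XT.lf (nat_lit 0) (nat_lit 12393911581) (nat_lit 0) (nat_lit 0) (nat_lit 0) (nat_lit 0) (nat_lit 0) (nat_lit 0) (nat_lit 1) (nat_lit 0) (nat_lit 1) (nat_lit 0) (nat_lit 243) (nat_lit 290) (nat_lit 187)) (XT.lf (nat_lit 0) (nat_lit 12390059923) (nat_lit 0) (nat_lit 0) (nat_lit 0) (nat_lit 0) (nat_lit 0) (nat_lit 0) (nat_lit 1) (nat_lit 0) (nat_lit 1) (nat_lit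 0) (nat_lit 244) (nat_lit 290) (nat_lit 186)))) (XT.nd (nat_lit 188) (nat_lit 0) (nat_lit 0) (XT.nd (nat_lit 94) (nat_lit 0) (nat_lit 0) (XT.lf (nat_lit 0) (nat_lit 12386391677) (nat_lit 0) (nat_lit 0) (nat_lit 0) (nat_lit 0) (nat_lit 0) (nat_lit 0) (nat_lit 1) (nat_lit 0) (nat_lit 1) (nat_lit 0) (nat_lit 245) (nat_lit 290) (nat_lit 185)) (XT.lf (nat_lit 0) (nat_lit 12382898110) (nat_lit 0) (nat_lit 0) (nat_lit 0) (nat_lit 0) (nat_lit 0) (nat_lit 0) (nat_lit 1) (nat_lit 0) (nat_lit 1) (nat_lit 0) (nat_lit 246) (nat_lit 290) (nat_lit 184))) (XT.nd (nat_lit 94) (nat_lit 0) (nat_lit 0) (XT.lf (nat_lit 0) (nat_lit 12379570903) (nat_lit 0) (nat_lit 0) (nat_lit 0) (nat_lit 0) (nat_lit 0) (nat_lit 0) (nat_lit 1) (nat_lit 0) (nat_lit 1) (nat_lit 0) (nat_lit 247) (nat_lit 290) (nat_lit 183)) (XT.lf (nat_lit 0) (nat_lit 12376402134) (nat_lit 0) (nat_lit 0) (nat_lit 0) (nat_lit 0)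 (nat_lit 0) (nat_lit 0) (nat_lit 1) (nat_lit 0) (nat_lit 1) (nat_lit 0) (nat_lit 248) (nat_lit 290) (nat_lit 182)))))) (XT.nd (nat_lit 658) (nat_lit 0) (nat_lit 0) (XT.nd (nat_lit 282) (nat_lit 0) (nat_lit 0) (XT.nd (nat_lit 94) (nat_lit 0) (nat_lit 0) (XT.lf (nat_lit 0) (nat_lit 12373384259) (nat_lit 0) (nat_lit 0) (nat_lit 0) (nat_lit 0) (nat_lit 0) (nat_lit 0) (nat_lit 1) (nat_lit 0) (nat_lit 1) (nat_lit 0) (nat_lit 249) (nat_lit 290) (nat_lit 181)) (XT.nd (nat_lit 94) (nat_lit 0) (nat_lit 0) (XT.lf (nat_lit 0) (nat_lit 12370510093) (nat_lit 0) (nat_lit 0) (nat_lit 0) (nat_lit 0) (nat_lit 0) (nat_lit 0) (nat_lit 1) (nat_lit 0) (nat_lit 1) (nat_lit 0) (nat_lit 250) (nat_lit 290) (nat_lit 180)) (XT.lf (nat_lit 0) (nat_lit 12367772791) (nat_lit 0) (nat_lit 0) (nat_lit 0) (nat_lit 0) (nat_lit 0) (nat_lit 0) (nat_lit 1) (nat_lit 0) (nat_lit 1) (nat_lit 0) (nat_lit 251) (nat_lit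 290) (nat_lit 179)))) (XT.nd (nat_lit 188) (nat_lit 0) (nat_lit 0) (XT.nd (nat_lit 94) (nat_lit 0) (nat_lit 0) (XT.lf (nat_lit 0) (nat_lit 12365165838) (nat_lit 0) (nat_lit 0) (nat_lit 0) (nat_lit 0) (nat_lit 0) (nat_lit 0) (nat_lit 1) (nat_lit 0) (nat_lit 1) (nat_lit 0) (nat_lit 252) (nat_lit 290) (nat_lit 178)) (XT.lf (nat_lit 0) (nat_lit 12362683024) (nat_lit 0) (nat_lit 0) (nat_lit 0) (nat_lit 0) (nat_lit 0) (nat_lit 0) (nat_lit 1) (nat_lit 0) (nat_lit 1) (nat_lit 0) (nat_lit 253) (nat_lit 290) (nat_lit 177))) (XT.nd (nat_lit 94) (nat_lit 0) (nat_lit 0) (XT.lf (nat_lit 0) (nat_lit 12360318440) (nat_lit 0) (nat_lit 0) (nat_lit 0) (nat_lit 0) (nat_lit 0) (nat_lit 0) (nat_lit 1) (nat_lit 0) (nat_lit 1) (nat_lit 0) (nat_lit 254) (nat_lit 290) (nat_lit 176)) (XT.lf (nat_lit 0) (nat_lit 12358066456) (nat_lit 0) (nat_lit 0) (nat_lit 0) (nat_lit 0) (nat_lit 0) (nat_lit 0) (nat_lit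 1) (nat_lit 0) (nat_lit 1) (nat_lit 0) (nat_lit 255) (nat_lit 290) (nat_lit 175))))) (XT.nd (nat_lit 282) (nat_lit 0) (nat_lit 0) (XT.nd (nat_lit 94) (nat_lit 0) (nat_lit 0) (XT.lf (nat_lit 0) (nat_lit 12355921708) (nat_lit 0) (nat_lit 0) (nat_lit 0) (nat_lit 0) (nat_lit 0) (nat_lit 0) (nat_lit 1) (nat_lit 0) (nat_lit 1) (nat_lit 0) (nat_lit 256) (nat_lit 290) (nat_lit 174)) (XT.nd (nat_lit 94) (nat_lit 0) (nat_lit 0) (XT.lf (nat_lit 0) (nat_lit 12353879092) (nat_lit 0) (nat_lit 0) (nat_lit 0) (nat_lit 0) (nat_lit 0) (nat_lit 0) (nat_lit 1) (nat_lit 0) (nat_lit 1) (nat_lit 0) (nat_lit 257) (nat_lit 290) (nat_lit 173)) (XT.lf (nat_lit 0) (nat_lit 12351933743) (nat_lit 0) (nat_lit 0) (nat_lit 0) (nat_lit 0) (nat_lit 0) (nat_lit 0) (nat_lit 1) (nat_lit 0) (nat_lit 1) (nat_lit 0) (nat_lit 258) (nat_lit 290) (nat_lit 172)))) (XT.nd (nat_lit 188) (nat_lit 0) (nat_lit 0) (XT.nd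 (nat_lit 94) (nat_lit 0) (nat_lit 0) (XT.lf (nat_lit 0) (nat_lit 12350081030) (nat_lit 0) (nat_lit 0) (nat_lit 0) (nat_lit 0) (nat_lit 0) (nat_lit 0) (nat_lit 1) (nat_lit 0) (nat_lit 1) (nat_lit 0) (nat_lit 259) (nat_lit 290) (nat_lit 171)) (XT.lf (nat_lit 0) (nat_lit 12348316541) (nat_lit 0) (nat_lit 0) (nat_lit 0) (nat_lit 0) (nat_lit 0) (nat_lit 0) (nat_lit 1) (nat_lit 0) (nat_lit 1) (nat_lit 0) (nat_lit 260) (nat_lit 290) (nat_lit 170))) (XT.nd (nat_lit 94) (nat_lit 0) (nat_lit 0) (XT.lf (nat_lit 0) (nat_lit 12346636075) (nat_lit 0) (nat_lit 0) (nat_lit 0) (nat_lit 0) (nat_lit 0) (nat_lit 0) (nat_lit 1) (nat_lit 0) (nat_lit 1) (nat_lit 0) (nat_lit 261) (nat_lit 290) (nat_lit 169)) (XT.lf (nat_lit 0) (nat_lit 12345035631) (nat_lit 0) (nat_lit 0) (nat_lit 0) (nat_lit 0) (nat_lit 0) (nat_lit 0) (nat_lit 1) (nat_lit 0) (nat_lit 1) (nat_lit 0) (nat_lit 262) (nat_lit 290)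 (nat_lit 168))))))))
noncomputable def ec148 : XT := (XT.nd (nat_lit 2538) (nat_lit 0) (nat_lit 0) (XT.nd (nat_lit 1222) (nat_lit 0) (nat_lit 0) (XT.nd (nat_lit 564) (nat_lit 0) (nat_lit 0) (XT.nd (nat_lit 282) (nat_lit 0) (nat_lit 0) (XT.nd (nat_lit 94) (nat_lit 0) (nat_lit 0) (XT.lf (nat_lit 0) (nat_lit 12343511400) (nat_lit 0) (nat_lit 0) (nat_lit 0) (nat_lit 0) (nat_lit 0) (nat_lit 0) (nat_lit 1) (nat_lit 0) (nat_lit 1) (nat_lit 0) (nat_lit 263) (nat_lit 290) (nat_lit 167)) (XT.nd (nat_lit 94) (nat_lit 0) (nat_lit 0) (XT.lf (nat_lit 0) (nat_lit 12342059750) (nat_lit 0) (nat_lit 0) (nat_lit 0) (nat_lit 0) (nat_lit 0) (nat_lit 0) (nat_lit 1) (nat_lit 0) (nat_lit 1) (nat_lit 0) (nat_lit 264) (nat_lit 290) (nat_lit 166)) (XT.lf (nat_lit 0) (nat_lit 12340677227) (nat_lit 0) (nat_lit 0) (nat_lit 0) (nat_lit 0) (nat_lit 0) (nat_lit 0) (nat_lit 1) (nat_lit 0) (nat_lit 1) (nat_lit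 0) (nat_lit 265) (nat_lit 290) (nat_lit 165)))) (XT.nd (nat_lit 94) (nat_lit 0) (nat_lit 0) (XT.lf (nat_lit 0) (nat_lit 12339360538) (nat_lit 0) (nat_lit 0) (nat_lit 0) (nat_lit 0) (nat_lit 0) (nat_lit 0) (nat_lit 1) (nat_lit 0) (nat_lit 1) (nat_lit 0) (nat_lit 266) (nat_lit 290) (nat_lit 164)) (XT.nd (nat_lit 94) (nat_lit 0) (nat_lit 0) (XT.lf (nat_lit 0) (nat_lit 12338106549) (nat_lit 0) (nat_lit 0) (nat_lit 0) (nat_lit 0) (nat_lit 0) (nat_lit 0) (nat_lit 1) (nat_lit 0) (nat_lit 1) (nat_lit 0) (nat_lit 267) (nat_lit 290) (nat_lit 163)) (XT.lf (nat_lit 0) (nat_lit 12336912273) (nat_lit 0) (nat_lit 0) (nat_lit 0) (nat_lit 0) (nat_lit 0) (nat_lit 0) (nat_lit 1) (nat_lit 0) (nat_lit 1) (nat_lit 0) (nat_lit 268) (nat_lit 290) (nat_lit 162))))) (XT.nd (nat_lit 282) (nat_lit 0) (nat_lit 0) (XT.nd (nat_lit 94) (nat_lit 0) (nat_lit 0) (XT.lf (nat_lit 0) (nat_lit 12335774868) (nat_lit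 0) (nat_lit 0) (nat_lit 0) (nat_lit 0) (nat_lit 0) (nat_lit 0) (nat_lit 1) (nat_lit 0) (nat_lit 1) (nat_lit 0) (nat_lit 269) (nat_lit 290) (nat_lit 161)) (XT.nd (nat_lit 94) (nat_lit 0) (nat_lit 0) (XT.lf (nat_lit 0) (nat_lit 12334691625) (nat_lit 0) (nat_lit 0) (nat_lit 0) (nat_lit 0) (nat_lit 0) (nat_lit 0) (nat_lit 1) (nat_lit 0) (nat_lit 1) (nat_lit 0) (nat_lit 270) (nat_lit 290) (nat_lit 160)) (XT.lf (nat_lit 0) (nat_lit 12333659965) (nat_lit 0) (nat_lit 0) (nat_lit 0) (nat_lit 0) (nat_lit 0) (nat_lit 0) (nat_lit 1) (nat_lit 0) (nat_lit 1) (nat_lit 0) (nat_lit 271) (nat_lit 290) (nat_lit 159)))) (XT.nd (nat_lit 188) (nat_lit 0) (nat_lit 0) (XT.nd (nat_lit 94) (nat_lit 0) (nat_lit 0) (XT.lf (nat_lit 0) (nat_lit 12332677431) (nat_lit 0) (nat_lit 0) (nat_lit 0) (nat_lit 0) (nat_lit 0) (nat_lit 0) (nat_lit 1) (nat_lit 0) (nat_lit 1) (nat_lit 0) (nat_lit 272) (nat_lit 290)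 (nat_lit 158)) (XT.lf (nat_lit 0) (nat_lit 12331741685) (nat_lit 0) (nat_lit 0) (nat_lit 0) (nat_lit 0) (nat_lit 0) (nat_lit 0) (nat_lit 1) (nat_lit 0) (nat_lit 1) (nat_lit 0) (nat_lit 273) (nat_lit 290) (nat_lit 157))) (XT.nd (nat_lit 94) (nat_lit 0) (nat_lit 0) (XT.lf (nat_lit 0) (nat_lit 12330850498) (nat_lit 0) (nat_lit 0) (nat_lit 0) (nat_lit 0) (nat_lit 0) (nat_lit 0) (nat_lit 1) (nat_lit 0) (nat_lit 1) (nat_lit 0) (nat_lit 274) (nat_lit 290) (nat_lit 156)) (XT.lf (nat_lit 0) (nat_lit 12330001749) (nat_lit 0) (nat_lit 0) (nat_lit 0) (nat_lit 0) (nat_lit 0) (nat_lit 0) (nat_lit 1) (nat_lit 0) (nat_lit 1) (nat_lit 0) (nat_lit 275) (nat_lit 290) (nat_lit 155)))))) (XT.nd (nat_lit 658) (nat_lit 0) (nat_lit 0) (XT.nd (nat_lit 282) (nat_lit 0) (nat_lit 0) (XT.nd (nat_lit 94) (nat_lit 0) (nat_lit 0) (XT.lf (nat_lit 0) (nat_lit 12329193416) (nat_lit 0) (nat_lit 0) (nat_lit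 0) (nat_lit 0) (nat_lit 0) (nat_lit 0) (nat_lit 1) (nat_lit 0) (nat_lit 1) (nat_lit 0) (nat_lit 276) (nat_lit 290) (nat_lit 154)) (XT.nd (nat_lit 94) (nat_lit 0) (nat_lit 0) (XT.lf (nat_lit 0) (nat_lit 12328423575) (nat_lit 0) (nat_lit 0) (nat_lit 0) (nat_lit 0) (nat_lit 0) (nat_lit 0) (nat_lit 1) (nat_lit 0) (nat_lit 1) (nat_lit 0) (nat_lit 277) (nat_lit 290) (nat_lit 153)) (XT.lf (nat_lit 0) (nat_lit 12327690394) (nat_lit 0) (nat_lit 0) (nat_lit 0) (nat_lit 0) (nat_lit 0) (nat_lit 0) (nat_lit 1) (nat_lit 0) (nat_lit 1) (nat_lit 0) (nat_lit 278) (nat_lit 290) (nat_lit 152)))) (XT.nd (nat_lit 188) (nat_lit 0) (nat_lit 0) (XT.nd (nat_lit 94) (nat_lit 0) (nat_lit 0) (XT.lf (nat_lit 0) (nat_lit 12326992126) (nat_lit 0) (nat_lit 0) (nat_lit 0) (nat_lit 0) (nat_lit 0) (nat_lit 0) (nat_lit 1) (nat_lit 0) (nat_lit 1) (nat_lit 0) (nat_lit 279) (nat_lit 290) (nat_lit 151)) (XT.lf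 (nat_lit 0) (nat_lit 12326327108) (nat_lit 0) (nat_lit 0) (nat_lit 0) (nat_lit 0) (nat_lit 0) (nat_lit 0) (nat_lit 1) (nat_lit 0) (nat_lit 1) (nat_lit 0) (nat_lit 280) (nat_lit 290) (nat_lit 150))) (XT.nd (nat_lit 94) (nat_lit 0) (nat_lit 0) (XT.lf (nat_lit 0) (nat_lit 12325693758) (nat_lit 0) (nat_lit 0) (nat_lit 0) (nat_lit 0) (nat_lit 0) (nat_lit 0) (nat_lit 1) (nat_lit 0) (nat_lit 1) (nat_lit 0) (nat_lit 281) (nat_lit 290) (nat_lit 149)) (XT.lf (nat_lit 0) (nat_lit 12325090568) (nat_lit 0) (nat_lit 0) (nat_lit 0) (nat_lit 0) (nat_lit 0) (nat_lit 0) (nat_lit 1) (nat_lit 0) (nat_lit 1) (nat_lit 0) (nat_lit 282) (nat_lit 290) (nat_lit 148))))) (XT.nd (nat_lit 282) (nat_lit 0) (nat_lit 0) (XT.nd (nat_lit 94) (nat_lit 0) (nat_lit 0) (XT.lf (nat_lit 0) (nat_lit 12324516101) (nat_lit 0) (nat_lit 0) (nat_lit 0) (nat_lit 0) (nat_lit 0) (nat_lit 0) (nat_lit 1) (nat_lit 0) (nat_lit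 1) (nat_lit 0) (nat_lit 283) (nat_lit 290) (nat_lit 147)) (XT.nd (nat_lit 94) (nat_lit 0) (nat_lit 0) (XT.lf (nat_lit 0) (nat_lit 12323968990) (nat_lit 0) (nat_lit 0) (nat_lit 0) (nat_lit 0) (nat_lit 0) (nat_lit 0) (nat_lit 1) (nat_lit 0) (nat_lit 1) (nat_lit 0) (nat_lit 284) (nat_lit 290) (nat_lit 146)) (XT.lf (nat_lit 0) (nat_lit 12323447931) (nat_lit 0) (nat_lit 0) (nat_lit 0) (nat_lit 0) (nat_lit 0) (nat_lit 0) (nat_lit 1) (nat_lit 0) (nat_lit 1) (nat_lit 0) (nat_lit 285) (nat_lit 290) (nat_lit 145)))) (XT.nd (nat_lit 188) (nat_lit 0) (nat_lit 0) (XT.nd (nat_lit 94) (nat_lit 0) (nat_lit 0) (XT.lf (nat_lit 0) (nat_lit 12322951685) (nat_lit 0) (nat_lit 0) (nat_lit 0) (nat_lit 0) (nat_lit 0) (nat_lit 0) (nat_lit 1) (nat_lit 0) (nat_lit 1) (nat_lit 0) (nat_lit 286) (nat_lit 290) (nat_lit 144)) (XT.lf (nat_lit 0) (nat_lit 12322479070) (nat_lit 0) (nat_lit 0) (nat_lit 0) (nat_lit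 0) (nat_lit 0) (nat_lit 0) (nat_lit 1) (nat_lit 0) (nat_lit 1) (nat_lit 0) (nat_lit 287) (nat_lit 290) (nat_lit 143))) (XT.nd (nat_lit 94) (nat_lit 0) (nat_lit 0) (XT.lf (nat_lit 0) (nat_lit 12322028960) (nat_lit 0) (nat_lit 0) (nat_lit 0) (nat_lit 0) (nat_lit 0) (nat_lit 0) (nat_lit 1) (nat_lit 0) (nat_lit 1) (nat_lit 0) (nat_lit 288) (nat_lit 290) (nat_lit 142)) (XT.lf (nat_lit 0) (nat_lit 12321600284) (nat_lit 0) (nat_lit 0) (nat_lit 0) (nat_lit 0) (nat_lit 0) (nat_lit 0) (nat_lit 1) (nat_lit 0) (nat_lit 1) (nat_lit 0) (nat_lit 289) (nat_lit 290) (nat_lit 141))))))) (XT.nd (nat_lit 1222) (nat_lit 0) (nat_lit 0) (XT.nd (nat_lit 564) (nat_lit 0) (nat_lit 0) (XT.nd (nat_lit 282) (nat_lit 0) (nat_lit 0) (XT.nd (nat_lit 94) (nat_lit 0) (nat_lit 0) (XT.lf (nat_lit 0) (nat_lit 12321192021) (nat_lit 0) (nat_lit 0) (nat_lit 0) (nat_lit 0) (nat_lit 0) (nat_lit 0) (nat_lit 1) (nat_lit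 0) (nat_lit 1) (nat_lit 0) (nat_lit 290) (nat_lit 290) (nat_lit 140)) (XT.nd (nat_lit 94) (nat_lit 0) (nat_lit 0) (XT.lf (nat_lit 0) (nat_lit 12320803199) (nat_lit 0) (nat_lit 0) (nat_lit 0) (nat_lit 0) (nat_lit 0) (nat_lit 0) (nat_lit 1) (nat_lit 0) (nat_lit 1) (nat_lit 0) (nat_lit 291) (nat_lit 290) (nat_lit 139)) (XT.lf (nat_lit 0) (nat_lit 12320432892) (nat_lit 0) (nat_lit 0) (nat_lit 0) (nat_lit 0) (nat_lit 0) (nat_lit 0) (nat_lit 1) (nat_lit 0) (nat_lit 1) (nat_lit 0) (nat_lit 292) (nat_lit 290) (nat_lit 138)))) (XT.nd (nat_lit 94) (nat_lit 0) (nat_lit 0) (XT.lf (nat_lit 0) (nat_lit 12320080220) (nat_lit 0) (nat_lit 0) (nat_lit 0) (nat_lit 0) (nat_lit 0) (nat_lit 0) (nat_lit 1) (nat_lit 0) (nat_lit 1) (nat_lit 0) (nat_lit 293) (nat_lit 290) (nat_lit 137)) (XT.nd (nat_lit 94) (nat_lit 0) (nat_lit 0) (XT.lf (nat_lit 0) (nat_lit 12319744341) (nat_lit 0) (nat_lit 0) (nat_lit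 0) (nat_lit 0) (nat_lit 0) (nat_lit 0) (nat_lit 1) (nat_lit 0) (nat_lit 1) (nat_lit 0) (nat_lit 294) (nat_lit 290) (nat_lit 136)) (XT.lf (nat_lit 0) (nat_lit 12319424456) (nat_lit 0) (nat_lit 0) (nat_lit 0) (nat_lit 0) (nat_lit 0) (nat_lit 0) (nat_lit 1) (nat_lit 0) (nat_lit 1) (nat_lit 0) (nat_lit 295) (nat_lit 290) (nat_lit 135))))) (XT.nd (nat_lit 282) (nat_lit 0) (nat_lit 0) (XT.nd (nat_lit 94) (nat_lit 0) (nat_lit 0) (XT.lf (nat_lit 0) (nat_lit 12319119804) (nat_lit 0) (nat_lit 0) (nat_lit 0) (nat_lit 0) (nat_lit 0) (nat_lit 0) (nat_lit 1) (nat_lit 0) (nat_lit 1) (nat_lit 0) (nat_lit 296) (nat_lit 290) (nat_lit 134)) (XT.nd (nat_lit 94) (nat_lit 0) (nat_lit 0) (XT.lf (nat_lit 0) (nat_lit 12318829659) (nat_lit 0) (nat_lit 0) (nat_lit 0) (nat_lit 0) (nat_lit 0) (nat_lit 0) (nat_lit 1) (nat_lit 0) (nat_lit 1) (nat_lit 0) (nat_lit 297) (nat_lit 290) (nat_lit 133)) (XT.lf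 (nat_lit 0) (nat_lit 12318553331) (nat_lit 0) (nat_lit 0) (nat_lit 0) (nat_lit 0) (nat_lit 0) (nat_lit 0) (nat_lit 1) (nat_lit 0) (nat_lit 1) (nat_lit 0) (nat_lit 298) (nat_lit 290) (nat_lit 132)))) (XT.nd (nat_lit 188) (nat_lit 0) (nat_lit 0) (XT.nd (nat_lit 94) (nat_lit 0) (nat_lit 0) (XT.lf (nat_lit 0) (nat_lit 12318290161) (nat_lit 0) (nat_lit 0) (nat_lit 0) (nat_lit 0) (nat_lit 0) (nat_lit 0) (nat_lit 1) (nat_lit 0) (nat_lit 1) (nat_lit 0) (nat_lit 299) (nat_lit 290) (nat_lit 131)) (XT.lf (nat_lit 0) (nat_lit 12318039523) (nat_lit 0) (nat_lit 0) (nat_lit 0) (nat_lit 0) (nat_lit 0) (nat_lit 0) (nat_lit 1) (nat_lit 0) (nat_lit 1) (nat_lit 0) (nat_lit 300) (nat_lit 290) (nat_lit 130))) (XT.nd (nat_lit 94) (nat_lit 0) (nat_lit 0) (XT.lf (nat_lit 0) (nat_lit 12317800820) (nat_lit 0) (nat_lit 0) (nat_lit 0) (nat_lit 0) (nat_lit 0) (nat_lit 0) (nat_lit 1) (nat_lit 0) (nat_lit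 1) (nat_lit 0) (nat_lit 301) (nat_lit 290) (nat_lit 129)) (XT.lf (nat_lit 0) (nat_lit 12317573484) (nat_lit 0) (nat_lit 0) (nat_lit 0) (nat_lit 0) (nat_lit 0) (nat_lit 0) (nat_lit 1) (nat_lit 0) (nat_lit 1) (nat_lit 0) (nat_lit 302) (nat_lit 290) (nat_lit 128)))))) (XT.nd (nat_lit 658) (nat_lit 0) (nat_lit 0) (XT.nd (nat_lit 282) (nat_lit 0) (nat_lit 0) (XT.nd (nat_lit 94) (nat_lit 0) (nat_lit 0) (XT.lf (nat_lit 0) (nat_lit 12317356973) (nat_lit 0) (nat_lit 0) (nat_lit 0) (nat_lit 0) (nat_lit 0) (nat_lit 0) (nat_lit 1) (nat_lit 0) (nat_lit 1) (nat_lit 0) (nat_lit 303) (nat_lit 290) (nat_lit 127)) (XT.nd (nat_lit 94) (nat_lit 0) (nat_lit 0) (XT.lf (nat_lit 0) (nat_lit 12317150772) (nat_lit 0) (nat_lit 0) (nat_lit 0) (nat_lit 0) (nat_lit 0) (nat_lit 0) (nat_lit 1) (nat_lit 0) (nat_lit 1) (nat_lit 0) (nat_lit 304) (nat_lit 290) (nat_lit 126)) (XT.lf (nat_lit 0) (nat_lit 12316954391)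 (nat_lit 0) (nat_lit 0) (nat_lit 0) (nat_lit 0) (nat_lit 0) (nat_lit 0) (nat_lit 1) (nat_lit 0) (nat_lit 1) (nat_lit 0) (nat_lit 305) (nat_lit 290) (nat_lit 125)))) (XT.nd (nat_lit 188) (nat_lit 0) (nat_lit 0) (XT.nd (nat_lit 94) (nat_lit 0) (nat_lit 0) (XT.lf (nat_lit 0) (nat_lit 12316767361) (nat_lit 0) (nat_lit 0) (nat_lit 0) (nat_lit 0) (nat_lit 0) (nat_lit 0) (nat_lit 1) (nat_lit 0) (nat_lit 1) (nat_lit 0) (nat_lit 306) (nat_lit 290) (nat_lit 124)) (XT.lf (nat_lit 0) (nat_lit 12316589237) (nat_lit 0) (nat_lit 0) (nat_lit 0) (nat_lit 0) (nat_lit 0) (nat_lit 0) (nat_lit 1) (nat_lit 0) (nat_lit 1) (nat_lit 0) (nat_lit 307) (nat_lit 290) (nat_lit 123))) (XT.nd (nat_lit 94) (nat_lit 0) (nat_lit 0) (XT.lf (nat_lit 0) (nat_lit 12316419596) (nat_lit 0) (nat_lit 0) (nat_lit 0) (nat_lit 0) (nat_lit 0) (nat_lit 0) (nat_lit 1) (nat_lit 0) (nat_lit 1) (nat_lit 0) (nat_lit 308) (nat_lit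 290) (nat_lit 122)) (XT.lf (nat_lit 0) (nat_lit 12316258032) (nat_lit 0) (nat_lit 0) (nat_lit 0) (nat_lit 0) (nat_lit 0) (nat_lit 0) (nat_lit 1) (nat_lit 0) (nat_lit 1) (nat_lit 0) (nat_lit 309) (nat_lit 290) (nat_lit 121))))) (XT.nd (nat_lit 29234) (nat_lit 0) (nat_lit 10836) (XT.nd (nat_lit 29046) (nat_lit 0) (nat_lit 10752) (XT.lf (nat_lit 0) (nat_lit 12316104162) (nat_lit 0) (nat_lit 0) (nat_lit 0) (nat_lit 0) (nat_lit 0) (nat_lit 0) (nat_lit 1) (nat_lit 0) (nat_lit 1) (nat_lit 0) (nat_lit 310) (nat_lit 290) (nat_lit 120)) (XT.nd (nat_lit 94) (nat_lit 0) (nat_lit 0) (XT.lf (nat_lit 924) (nat_lit 6469994798) (nat_lit 0) (nat_lit 11487460893) (nat_lit 924) (nat_lit 6469994798) (nat_lit 139) (nat_lit 1) (nat_lit 128) (nat_lit 0) (nat_lit 139) (nat_lit 0) (nat_lit 138) (nat_lit 291) (nat_lit 291)) (XT.lf (nat_lit 924) (nat_lit 25078507586) (nat_lit 84) (nat_lit 11302179265)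 (nat_lit 0) (nat_lit 11302179265) (nat_lit 139) (nat_lit 1) (nat_lit 129) (nat_lit 1) (nat_lit 128) (nat_lit 0) (nat_lit 139) (nat_lit 291) (nat_lit 290)))) (XT.nd (nat_lit 188) (nat_lit 0) (nat_lit 84) (XT.nd (nat_lit 94) (nat_lit 0) (nat_lit 0) (XT.lf (nat_lit 924) (nat_lit 11952039109) (nat_lit 0) (nat_lit 22642986932) (nat_lit 840) (nat_lit 11952039109) (nat_lit 140) (nat_lit 1) (nat_lit 129) (nat_lit 1) (nat_lit 139) (nat_lit 1) (nat_lit 140) (nat_lit 291) (nat_lit 289)) (XT.lf (nat_lit 924) (nat_lit 22420364590) (nat_lit 84) (nat_lit 11513797212) (nat_lit 0) (nat_lit 11513797212) (nat_lit 140) (nat_lit 1) (nat_lit 130) (nat_lit 1) (nat_lit 129) (nat_lit 1) (nat_lit 141) (nat_lit 291) (nat_lit 288))) (XT.nd (nat_lit 94) (nat_lit 0) (nat_lit 0) (XT.lf (nat_lit 924) (nat_lit 10319878516) (nat_lit 0) (nat_lit 23743931999) (nat_lit 840) (nat_lit 10319878516) (nat_lit 141)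 (nat_lit 1) (nat_lit 130) (nat_lit 1) (nat_lit 140) (nat_lit 1) (nat_lit 142) (nat_lit 291) (nat_lit 287)) (XT.lf (nat_lit 924) (nat_lit 18560973665) (nat_lit 84) (nat_lit 12395444199) (nat_lit 0) (nat_lit 12395444199) (nat_lit 141) (nat_lit 1) (nat_lit 131) (nat_lit 1) (nat_lit 130) (nat_lit 1) (nat_lit 143) (nat_lit 291) (nat_lit 286))))))))
noncomputable def ec149 : XT := (XT.nd (nat_lit 2538) (nat_lit 3360) (nat_lit 0) (XT.nd (nat_lit 1222) (nat_lit 2604) (nat_lit 0) (XT.nd (nat_lit 564) (nat_lit 1764) (nat_lit 0) (XT.nd (nat_lit 282) (nat_lit 672) (nat_lit 0) (XT.nd (nat_lit 94) (nat_lit 0) (nat_lit 0) (XT.lf (nat_lit 924) (nat_lit 8138450863) (nat_lit 0) (nat_lit 26077778547) (nat_lit 840) (nat_lit 8138450863) (nat_lit 142) (nat_lit 1) (nat_lit 131) (nat_lit 1) (nat_lit 141) (nat_lit 1) (nat_lit 144) (nat_lit 291) (nat_lit 285)) (XT.nd (nat_lit 94) (nat_lit 0) (nat_lit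 84) (XT.lf (nat_lit 924) (nat_lit 13680985785) (nat_lit 84) (nat_lit 13851984264) (nat_lit 0) (nat_lit 13851984264) (nat_lit 142) (nat_lit 1) (nat_lit 132) (nat_lit 1) (nat_lit 131) (nat_lit 1) (nat_lit 145) (nat_lit 291) (nat_lit 284)) (XT.lf (nat_lit 924) (nat_lit 5492203217) (nat_lit 0) (nat_lit 29466319421) (nat_lit 840) (nat_lit 5492203217) (nat_lit 143) (nat_lit 1) (nat_lit 132) (nat_lit 1) (nat_lit 142) (nat_lit 1) (nat_lit 146) (nat_lit 291) (nat_lit 283)))) (XT.nd (nat_lit 94) (nat_lit 756) (nat_lit 0) (XT.lf (nat_lit 924) (nat_lit 7940972407) (nat_lit 84) (nat_lit 15798690238) (nat_lit 0) (nat_lit 15798690238) (nat_lit 143) (nat_lit 1) (nat_lit 133) (nat_lit 1) (nat_lit 132) (nat_lit 1) (nat_lit 147) (nat_lit 291) (nat_lit 282)) (XT.nd (nat_lit 94) (nat_lit 840) (nat_lit 0) (XT.lf (nat_lit 84) (nat_lit 2456141967) (nat_lit 0) (nat_lit 33750943268) (nat_lit 840)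 (nat_lit 2456141967) (nat_lit 134) (nat_lit 1) (nat_lit 133) (nat_lit 1) (nat_lit 143) (nat_lit 1) (nat_lit 148) (nat_lit 291) (nat_lit 281)) (XT.lf (nat_lit 924) (nat_lit 1483448669) (nat_lit 0) (nat_lit 18160201560) (nat_lit 840) (nat_lit 18160201560) (nat_lit 134) (nat_lit 1) (nat_lit 123) (nat_lit 1) (nat_lit 133) (nat_lit 1) (nat_lit 149) (nat_lit 291) (nat_lit 280))))) (XT.nd (nat_lit 282) (nat_lit 756) (nat_lit 0) (XT.nd (nat_lit 94) (nat_lit 420) (nat_lit 0) (XT.lf (nat_lit 588) (nat_lit 35204105126) (nat_lit 0) (nat_lit 888645814) (nat_lit 504) (nat_lit 888645814) (nat_lit 123) (nat_lit 1) (nat_lit 116) (nat_lit 1) (nat_lit 122) (nat_lit 1) (nat_lit 150) (nat_lit 291) (nat_lit 279)) (XT.nd (nat_lit 94) (nat_lit 420) (nat_lit 0) (XT.lf (nat_lit 84) (nat_lit 15391173490) (nat_lit 0) (nat_lit 5387174631) (nat_lit 588) (nat_lit 15391173490) (nat_lit 117) (nat_lit 1)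 (nat_lit 116) (nat_lit 1) (nat_lit 123) (nat_lit 1) (nat_lit 151) (nat_lit 291) (nat_lit 278)) (XT.lf (nat_lit 504) (nat_lit 26484258834) (nat_lit 0) (nat_lit 4453955371) (nat_lit 420) (nat_lit 4453955371) (nat_lit 117) (nat_lit 1) (nat_lit 111) (nat_lit 1) (nat_lit 116) (nat_lit 1) (nat_lit 152) (nat_lit 291) (nat_lit 277)))) (XT.nd (nat_lit 188) (nat_lit 336) (nat_lit 0) (XT.nd (nat_lit 94) (nat_lit 420) (nat_lit 0) (XT.lf (nat_lit 84) (nat_lit 10978336686) (nat_lit 0) (nat_lit 12674486255) (nat_lit 504) (nat_lit 10978336686) (nat_lit 112) (nat_lit 1) (nat_lit 111) (nat_lit 1) (nat_lit 117) (nat_lit 1) (nat_lit 153) (nat_lit 291) (nat_lit 276)) (XT.lf (nat_lit 504) (nat_lit 17440260023) (nat_lit 0) (nat_lit 8228196799) (nat_lit 420) (nat_lit 8228196799) (nat_lit 112) (nat_lit 1) (nat_lit 106) (nat_lit 1) (nat_lit 111) (nat_lit 1) (nat_lit 154) (nat_lit 291) (nat_lit 275)))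 (XT.nd (nat_lit 94) (nat_lit 336) (nat_lit 0) (XT.lf (nat_lit 84) (nat_lit 6426504036) (nat_lit 0) (nat_lit 20330501451) (nat_lit 504) (nat_lit 6426504036) (nat_lit 107) (nat_lit 1) (nat_lit 106) (nat_lit 1) (nat_lit 112) (nat_lit 1) (nat_lit 155) (nat_lit 291) (nat_lit 274)) (XT.lf (nat_lit 420) (nat_lit 8156285379) (nat_lit 0) (nat_lit 12166212233) (nat_lit 336) (nat_lit 12166212233) (nat_lit 107) (nat_lit 1) (nat_lit 102) (nat_lit 1) (nat_lit 106) (nat_lit 1) (nat_lit 156) (nat_lit 291) (nat_lit 273)))))) (XT.nd (nat_lit 658) (nat_lit 1260) (nat_lit 0) (XT.nd (nat_lit 282) (nat_lit 588) (nat_lit 0) (XT.nd (nat_lit 94) (nat_lit 756) (nat_lit 0) (XT.lf (nat_lit 84) (nat_lit 1774753274) (nat_lit 0) (nat_lit 28271122193) (nat_lit 420) (nat_lit 1774753274) (nat_lit 103) (nat_lit 1) (nat_lit 102) (nat_lit 1) (nat_lit 107) (nat_lit 1) (nat_lit 157) (nat_lit 291) (nat_lit 272))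 (XT.nd (nat_lit 94) (nat_lit 336) (nat_lit 0) (XT.lf (nat_lit 84) (nat_lit 14954581069) (nat_lit 0) (nat_lit 1252475214) (nat_lit 420) (nat_lit 14954581069) (nat_lit 98) (nat_lit 1) (nat_lit 97) (nat_lit 1) (nat_lit 102) (nat_lit 1) (nat_lit 158) (nat_lit 291) (nat_lit 271)) (XT.lf (nat_lit 420) (nat_lit 24737235451) (nat_lit 0) (nat_lit 2895253260) (nat_lit 336) (nat_lit 2895253260) (nat_lit 98) (nat_lit 1) (nat_lit 93) (nat_lit 1) (nat_lit 97) (nat_lit 1) (nat_lit 159) (nat_lit 291) (nat_lit 270)))) (XT.nd (nat_lit 188) (nat_lit 252) (nat_lit 0) (XT.nd (nat_lit 94) (nat_lit 336) (nat_lit 0) (XT.lf (nat_lit 84) (nat_lit 9703031268) (nat_lit 0) (nat_lit 10498658668) (nat_lit 420) (nat_lit 9703031268) (nat_lit 94) (nat_lit 1) (nat_lit 93) (nat_lit 1) (nat_lit 98) (nat_lit 1) (nat_lit 160) (nat_lit 291) (nat_lit 269)) (XT.lf (nat_lit 420) (nat_lit 14159421794) (nat_lit 0)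 (nat_lit 7571941407) (nat_lit 336) (nat_lit 7571941407) (nat_lit 94) (nat_lit 1) (nat_lit 89) (nat_lit 1) (nat_lit 93) (nat_lit 1) (nat_lit 161) (nat_lit 291) (nat_lit 268))) (XT.nd (nat_lit 94) (nat_lit 252) (nat_lit 0) (XT.lf (nat_lit 84) (nat_lit 4465249709) (nat_lit 0) (nat_lit 19788974066) (nat_lit 420) (nat_lit 4465249709) (nat_lit 90) (nat_lit 1) (nat_lit 89) (nat_lit 1) (nat_lit 94) (nat_lit 1) (nat_lit 162) (nat_lit 291) (nat_lit 267)) (XT.lf (nat_lit 336) (nat_lit 3631396345) (nat_lit 0) (nat_lit 12258424296) (nat_lit 252) (nat_lit 12258424296) (nat_lit 90) (nat_lit 1) (nat_lit 86) (nat_lit 1) (nat_lit 89) (nat_lit 1) (nat_lit 163) (nat_lit 291) (nat_lit 266))))) (XT.nd (nat_lit 282) (nat_lit 588) (nat_lit 0) (XT.nd (nat_lit 94) (nat_lit 252) (nat_lit 0) (XT.lf (nat_lit 420) (nat_lit 26147949835) (nat_lit 0) (nat_lit 725555435) (nat_lit 336) (nat_lit 725555435)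 (nat_lit 86) (nat_lit 1) (nat_lit 81) (nat_lit 1) (nat_lit 85) (nat_lit 1) (nat_lit 164) (nat_lit 291) (nat_lit 265)) (XT.nd (nat_lit 94) (nat_lit 252) (nat_lit 0) (XT.lf (nat_lit 84) (nat_lit 10231886079) (nat_lit 0) (nat_lit 6589143985) (nat_lit 420) (nat_lit 10231886079) (nat_lit 82) (nat_lit 1) (nat_lit 81) (nat_lit 1) (nat_lit 86) (nat_lit 1) (nat_lit 165) (nat_lit 291) (nat_lit 264)) (XT.lf (nat_lit 336) (nat_lit 14943993092) (nat_lit 0) (nat_lit 5791862292) (nat_lit 252) (nat_lit 5791862292) (nat_lit 82) (nat_lit 1) (nat_lit 78) (nat_lit 1) (nat_lit 81) (nat_lit 1) (nat_lit 166) (nat_lit 291) (nat_lit 263)))) (XT.nd (nat_lit 188) (nat_lit 336) (nat_lit 0) (XT.nd (nat_lit 94) (nat_lit 252) (nat_lit 0) (XT.lf (nat_lit 84) (nat_lit 4721038577) (nat_lit 0) (nat_lit 16573785627) (nat_lit 336) (nat_lit 4721038577) (nat_lit 79) (nat_lit 1) (nat_lit 78) (nat_lit 1) (nat_lit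 82) (nat_lit 1) (nat_lit 167) (nat_lit 291) (nat_lit 262)) (XT.lf (nat_lit 336) (nat_lit 3934838093) (nat_lit 0) (nat_lit 10790407177) (nat_lit 252) (nat_lit 10790407177) (nat_lit 79) (nat_lit 1) (nat_lit 75) (nat_lit 1) (nat_lit 78) (nat_lit 1) (nat_lit 168) (nat_lit 291) (nat_lit 261))) (XT.nd (nat_lit 94) (nat_lit 0) (nat_lit 0) (XT.lf (nat_lit 336) (nat_lit 23681540417) (nat_lit 0) (nat_lit 676242572) (nat_lit 252) (nat_lit 676242572) (nat_lit 75) (nat_lit 1) (nat_lit 71) (nat_lit 1) (nat_lit 74) (nat_lit 1) (nat_lit 169) (nat_lit 291) (nat_lit 260)) (XT.lf (nat_lit 84) (nat_lit 8958048543) (nat_lit 0) (nat_lit 6637824021) (nat_lit 336) (nat_lit 8958048543) (nat_lit 72) (nat_lit 1) (nat_lit 71) (nat_lit 1) (nat_lit 75) (nat_lit 1) (nat_lit 170) (nat_lit 291) (nat_lit 259))))))) (XT.nd (nat_lit 1316) (nat_lit 1428) (nat_lit 0) (XT.nd (nat_lit 658) (nat_lit 1008) (nat_lit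 0) (XT.nd (nat_lit 282) (nat_lit 504) (nat_lit 0) (XT.nd (nat_lit 94) (nat_lit 168) (nat_lit 0) (XT.lf (nat_lit 336) (nat_lit 12318136998) (nat_lit 0) (nat_lit 5886721798) (nat_lit 252) (nat_lit 5886721798) (nat_lit 72) (nat_lit 1) (nat_lit 68) (nat_lit 1) (nat_lit 71) (nat_lit 1) (nat_lit 171) (nat_lit 291) (nat_lit 258)) (XT.nd (nat_lit 94) (nat_lit 168) (nat_lit 0) (XT.lf (nat_lit 84) (nat_lit 3392404883) (nat_lit 0) (nat_lit 16856830499) (nat_lit 336) (nat_lit 3392404883) (nat_lit 69) (nat_lit 1) (nat_lit 68) (nat_lit 1) (nat_lit 72) (nat_lit 1) (nat_lit 172) (nat_lit 291) (nat_lit 257)) (XT.lf (nat_lit 252) (nat_lit 1243089944) (nat_lit 0) (nat_lit 10978544423) (nat_lit 168) (nat_lit 10978544423) (nat_lit 69) (nat_lit 1) (nat_lit 66) (nat_lit 1) (nat_lit 68) (nat_lit 1) (nat_lit 173) (nat_lit 291) (nat_lit 256)))) (XT.nd (nat_lit 188) (nat_lit 168) (nat_lit 0) (XT.nd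 (nat_lit 94) (nat_lit 0) (nat_lit 0) (XT.lf (nat_lit 336) (nat_lit 18782672232) (nat_lit 0) (nat_lit 1994855934) (nat_lit 252) (nat_lit 1994855934) (nat_lit 66) (nat_lit 1) (nat_lit 62) (nat_lit 1) (nat_lit 65) (nat_lit 1) (nat_lit 174) (nat_lit 291) (nat_lit 255)) (XT.lf (nat_lit 84) (nat_lit 6560341564) (nat_lit 0) (nat_lit 9228690755) (nat_lit 336) (nat_lit 6560341564) (nat_lit 63) (nat_lit 1) (nat_lit 62) (nat_lit 1) (nat_lit 66) (nat_lit 1) (nat_lit 175) (nat_lit 291) (nat_lit 254))) (XT.nd (nat_lit 94) (nat_lit 0) (nat_lit 0) (XT.lf (nat_lit 252) (nat_lit 7579462701) (nat_lit 0) (nat_lit 7179978109) (nat_lit 168) (nat_lit 7179978109) (nat_lit 63) (nat_lit 1) (nat_lit 60) (nat_lit 1) (nat_lit 62) (nat_lit 1) (nat_lit 176) (nat_lit 291) (nat_lit 253)) (XT.lf (nat_lit 84) (nat_lit 1088928213) (nat_lit 0) (nat_lit 19365212363) (nat_lit 252) (nat_lit 1088928213) (nat_lit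 61) (nat_lit 1) (nat_lit 60) (nat_lit 1) (nat_lit 63) (nat_lit 1) (nat_lit 177) (nat_lit 291) (nat_lit 252))))) (XT.nd (nat_lit 282) (nat_lit 588) (nat_lit 0) (XT.nd (nat_lit 94) (nat_lit 168) (nat_lit 0) (XT.lf (nat_lit 84) (nat_lit 8987115593) (nat_lit 0) (nat_lit 3173928234) (nat_lit 252) (nat_lit 8987115593) (nat_lit 58) (nat_lit 1) (nat_lit 57) (nat_lit 1) (nat_lit 60) (nat_lit 1) (nat_lit 178) (nat_lit 291) (nat_lit 251)) (XT.nd (nat_lit 94) (nat_lit 0) (nat_lit 0) (XT.lf (nat_lit 252) (nat_lit 12480185129) (nat_lit 0) (nat_lit 4143083324) (nat_lit 168) (nat_lit 4143083324) (nat_lit 58) (nat_lit 1) (nat_lit 55) (nat_lit 1) (nat_lit 57) (nat_lit 1) (nat_lit 179) (nat_lit 291) (nat_lit 250)) (XT.lf (nat_lit 84) (nat_lit 3521583556) (nat_lit 0) (nat_lit 13349815805) (nat_lit 252) (nat_lit 3521583556) (nat_lit 56) (nat_lit 1) (nat_lit 55) (nat_lit 1) (nat_lit 58) (nat_lit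 1) (nat_lit 180) (nat_lit 291) (nat_lit 249)))) (XT.nd (nat_lit 188) (nat_lit 168) (nat_lit 0) (XT.nd (nat_lit 94) (nat_lit 252) (nat_lit 0) (XT.lf (nat_lit 252) (nat_lit 1649735107) (nat_lit 0) (nat_lit 9188702553) (nat_lit 168) (nat_lit 9188702553) (nat_lit 56) (nat_lit 1) (nat_lit 53) (nat_lit 1) (nat_lit 55) (nat_lit 1) (nat_lit 181) (nat_lit 291) (nat_lit 248)) (XT.lf (nat_lit 252) (nat_lit 16214662437) (nat_lit 0) (nat_lit 1728617823) (nat_lit 168) (nat_lit 1728617823) (nat_lit 53) (nat_lit 1) (nat_lit 50) (nat_lit 1) (nat_lit 52) (nat_lit 1) (nat_lit 182) (nat_lit 291) (nat_lit 247))) (XT.nd (nat_lit 94) (nat_lit 168) (nat_lit 0) (XT.lf (nat_lit 84) (nat_lit 5397900860) (nat_lit 0) (nat_lit 8523886185) (nat_lit 252) (nat_lit 5397900860) (nat_lit 51) (nat_lit 1) (nat_lit 50) (nat_lit 1) (nat_lit 53) (nat_lit 1) (nat_lit 183) (nat_lit 291) (nat_lit 246)) (XT.lf (nat_lit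 252) (nat_lit 5497499955) (nat_lit 0) (nat_lit 6740101461) (nat_lit 168) (nat_lit 6740101461) (nat_lit 51) (nat_lit 1) (nat_lit 48) (nat_lit 1) (nat_lit 50) (nat_lit 1) (nat_lit 184) (nat_lit 291) (nat_lit 245)))))) (XT.nd (nat_lit 658) (nat_lit 756) (nat_lit 0) (XT.nd (nat_lit 282) (nat_lit 336) (nat_lit 0) (XT.nd (nat_lit 94) (nat_lit 336) (nat_lit 0) (XT.lf (nat_lit 84) (nat_lit 180687661) (nat_lit 0) (nat_lit 18286335959) (nat_lit 252) (nat_lit 180687661) (nat_lit 49) (nat_lit 1) (nat_lit 48) (nat_lit 1) (nat_lit 51) (nat_lit 1) (nat_lit 185) (nat_lit 291) (nat_lit 244)) (XT.nd (nat_lit 94) (nat_lit 168) (nat_lit 0) (XT.lf (nat_lit 84) (nat_lit 6822471494) (nat_lit 0) (nat_lit 4670679102) (nat_lit 168) (nat_lit 6822471494) (nat_lit 47) (nat_lit 1) (nat_lit 46) (nat_lit 1) (nat_lit 48) (nat_lit 1) (nat_lit 186) (nat_lit 291) (nat_lit 243)) (XT.lf (nat_lit 252) (nat_lit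 8465910436) (nat_lit 0) (nat_lit 4764653515) (nat_lit 168) (nat_lit 4764653515) (nat_lit 47) (nat_lit 1) (nat_lit 44) (nat_lit 1) (nat_lit 46) (nat_lit 1) (nat_lit 187) (nat_lit 291) (nat_lit 242)))) (XT.nd (nat_lit 188) (nat_lit 168) (nat_lit 0) (XT.nd (nat_lit 94) (nat_lit 168) (nat_lit 0) (XT.lf (nat_lit 84) (nat_lit 1697356532) (nat_lit 0) (nat_lit 14288748314) (nat_lit 252) (nat_lit 1697356532) (nat_lit 45) (nat_lit 1) (nat_lit 44) (nat_lit 1) (nat_lit 47) (nat_lit 1) (nat_lit 188) (nat_lit 291) (nat_lit 241)) (XT.lf (nat_lit 84) (nat_lit 7881059514) (nat_lit 0) (nat_lit 1612157201) (nat_lit 168) (nat_lit 7881059514) (nat_lit 43) (nat_lit 1) (nat_lit 42) (nat_lit 1) (nat_lit 44) (nat_lit 1) (nat_lit 189) (nat_lit 291) (nat_lit 240))) (XT.nd (nat_lit 94) (nat_lit 0) (nat_lit 0) (XT.lf (nat_lit 252) (nat_lit 10720262247) (nat_lit 0) (nat_lit 3176611632) (nat_lit 168)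 (nat_lit 3176611632) (nat_lit 43) (nat_lit 1) (nat_lit 40) (nat_lit 1) (nat_lit 42) (nat_lit 1) (nat_lit 190) (nat_lit 291) (nat_lit 239)) (XT.lf (nat_lit 84) (nat_lit 2871375940) (nat_lit 0) (nat_lit 11035897614) (nat_lit 252) (nat_lit 2871375939) (nat_lit 41) (nat_lit 1) (nat_lit 40) (nat_lit 1) (nat_lit 43) (nat_lit 1) (nat_lit 191) (nat_lit 291) (nat_lit 238))))) (XT.nd (nat_lit 282) (nat_lit 420) (nat_lit 0) (XT.nd (nat_lit 94) (nat_lit 252) (nat_lit 0) (XT.lf (nat_lit 168) (nat_lit 824267467) (nat_lit 0) (nat_lit 7832554853) (nat_lit 84) (nat_lit 7832554853) (nat_lit 41) (nat_lit 1) (nat_lit 39) (nat_lit 1) (nat_lit 40) (nat_lit 1) (nat_lit 192) (nat_lit 291) (nat_lit 237)) (XT.nd (nat_lit 94) (nat_lit 0) (nat_lit 0) (XT.lf (nat_lit 252) (nat_lit 12396097499) (nat_lit 0) (nat_lit 1905519959) (nat_lit 168) (nat_lit 1905519959) (nat_lit 39) (nat_lit 1) (nat_lit 36) (nat_lit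 1) (nat_lit 38) (nat_lit 1) (nat_lit 193) (nat_lit 291) (nat_lit 236)) (XT.lf (nat_lit 84) (nat_lit 3767008587) (nat_lit 0) (nat_lit 8394030768) (nat_lit 252) (nat_lit 3767008587) (nat_lit 37) (nat_lit 1) (nat_lit 36) (nat_lit 1) (nat_lit 39) (nat_lit 1) (nat_lit 194) (nat_lit 291) (nat_lit 235)))) (XT.nd (nat_lit 188) (nat_lit 84) (nat_lit 0) (XT.nd (nat_lit 94) (nat_lit 252) (nat_lit 0) (XT.lf (nat_lit 168) (nat_lit 2768076890) (nat_lit 0) (nat_lit 6443862262) (nat_lit 84) (nat_lit 6443862262) (nat_lit 37) (nat_lit 1) (nat_lit 35) (nat_lit 1) (nat_lit 36) (nat_lit 1) (nat_lit 195) (nat_lit 291) (nat_lit 234)) (XT.lf (nat_lit 252) (nat_lit 13604501251) (nat_lit 0) (nat_lit 893498565) (nat_lit 168) (nat_lit 893498565) (nat_lit 35) (nat_lit 1) (nat_lit 32) (nat_lit 1) (nat_lit 34) (nat_lit 1) (nat_lit 196) (nat_lit 291) (nat_lit 233))) (XT.nd (nat_lit 94) (nat_lit 84) (nat_lit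 0) (XT.lf (nat_lit 84) (nat_lit 4436956330) (nat_lit 0) (nat_lit 6253190353) (nat_lit 252) (nat_lit 4436956330) (nat_lit 33) (nat_lit 1) (nat_lit 32) (nat_lit 1) (nat_lit 35) (nat_lit 1) (nat_lit 197) (nat_lit 291) (nat_lit 232)) (XT.lf (nat_lit 168) (nat_lit 4267732284) (nat_lit 0) (nat_lit 5301381430) (nat_lit 84) (nat_lit 5301381430) (nat_lit 33) (nat_lit 1) (nat_lit 31) (nat_lit 1) (nat_lit 32) (nat_lit 1) (nat_lit 198) (nat_lit 291) (nat_lit 231))))))))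
noncomputable def ec150 : XT := (XT.nd (nat_lit 2538) (nat_lit 252) (nat_lit 0) (XT.nd (nat_lit 1222) (nat_lit 1260) (nat_lit 0) (XT.nd (nat_lit 564) (nat_lit 504) (nat_lit 0) (XT.nd (nat_lit 282) (nat_lit 252) (nat_lit 0) (XT.nd (nat_lit 94) (nat_lit 84) (nat_lit 0) (XT.lf (nat_lit 252) (nat_lit 14436457952) (nat_lit 0) (nat_lit 93009746) (nat_lit 168) (nat_lit 93009746) (nat_lit 31) (nat_lit 1) (nat_lit 28) (nat_lit 1) (nat_lit 30) (nat_lit 1) (nat_lit 199) (nat_lit 291) (nat_lit 230)) (XT.nd (nat_lit 94) (nat_lit 84) (nat_lit 0) (XT.lf (nat_lit 84) (nat_lit 4924417851) (nat_lit 0) (nat_lit 4522991814) (nat_lit 252) (nat_lit 4924417851) (nat_lit 29) (nat_lit 1) (nat_lit 28) (nat_lit 1) (nat_lit 31) (nat_lit 1) (nat_lit 200) (nat_lit 291) (nat_lit 229)) (XT.lf (nat_lit 168) (nat_lit 5406720175) (nat_lit 0) (nat_lit 4361459622) (nat_lit 84) (nat_lit 4361459622) (nat_lit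 29) (nat_lit 1) (nat_lit 27) (nat_lit 1) (nat_lit 28) (nat_lit 1) (nat_lit 201) (nat_lit 291) (nat_lit 228)))) (XT.nd (nat_lit 94) (nat_lit 252) (nat_lit 0) (XT.lf (nat_lit 0) (nat_lit 543749600) (nat_lit 0) (nat_lit 12807264185) (nat_lit 168) (nat_lit 543749600) (nat_lit 27) (nat_lit 3) (nat_lit 27) (nat_lit 1) (nat_lit 29) (nat_lit 1) (nat_lit 202) (nat_lit 291) (nat_lit 227)) (XT.nd (nat_lit 94) (nat_lit 84) (nat_lit 0) (XT.lf (nat_lit 84) (nat_lit 5264781132) (nat_lit 0) (nat_lit 3129149544) (nat_lit 168) (nat_lit 5264781132) (nat_lit 26) (nat_lit 1) (nat_lit 25) (nat_lit 1) (nat_lit 27) (nat_lit 1) (nat_lit 203) (nat_lit 291) (nat_lit 226)) (XT.lf (nat_lit 168) (nat_lit 6253499462) (nat_lit 0) (nat_lit 3588183625) (nat_lit 84) (nat_lit 3588183625) (nat_lit 26) (nat_lit 1) (nat_lit 24) (nat_lit 1) (nat_lit 25) (nat_lit 1) (nat_lit 204) (nat_lit 291) (nat_lit 225)))))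 (XT.nd (nat_lit 282) (nat_lit 252) (nat_lit 0) (XT.nd (nat_lit 94) (nat_lit 252) (nat_lit 0) (XT.lf (nat_lit 0) (nat_lit 1039271156) (nat_lit 0) (nat_lit 11128494955) (nat_lit 168) (nat_lit 1039271156) (nat_lit 24) (nat_lit 3) (nat_lit 24) (nat_lit 1) (nat_lit 26) (nat_lit 1) (nat_lit 205) (nat_lit 291) (nat_lit 224)) (XT.nd (nat_lit 94) (nat_lit 84) (nat_lit 0) (XT.lf (nat_lit 84) (nat_lit 5487015495) (nat_lit 0) (nat_lit 2010619061) (nat_lit 168) (nat_lit 5487015495) (nat_lit 23) (nat_lit 1) (nat_lit 22) (nat_lit 1) (nat_lit 24) (nat_lit 1) (nat_lit 206) (nat_lit 291) (nat_lit 223)) (XT.lf (nat_lit 168) (nat_lit 6864176525) (nat_lit 0) (nat_lit 2952007548) (nat_lit 84) (nat_lit 2952007548) (nat_lit 23) (nat_lit 1) (nat_lit 21) (nat_lit 1) (nat_lit 22) (nat_lit 1) (nat_lit 207) (nat_lit 291) (nat_lit 222)))) (XT.nd (nat_lit 188) (nat_lit 84) (nat_lit 0) (XT.nd (nat_lit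 94) (nat_lit 168) (nat_lit 0) (XT.lf (nat_lit 0) (nat_lit 1418750965) (nat_lit 0) (nat_lit 9719180353) (nat_lit 168) (nat_lit 1418750965) (nat_lit 21) (nat_lit 3) (nat_lit 21) (nat_lit 1) (nat_lit 23) (nat_lit 1) (nat_lit 208) (nat_lit 291) (nat_lit 221)) (XT.lf (nat_lit 84) (nat_lit 5614816491) (nat_lit 0) (nat_lit 1117246026) (nat_lit 168) (nat_lit 5614816491) (nat_lit 20) (nat_lit 1) (nat_lit 19) (nat_lit 1) (nat_lit 21) (nat_lit 1) (nat_lit 209) (nat_lit 291) (nat_lit 220))) (XT.nd (nat_lit 94) (nat_lit 0) (nat_lit 0) (XT.lf (nat_lit 168) (nat_lit 7284705530) (nat_lit 0) (nat_lit 2428623915) (nat_lit 84) (nat_lit 2428623915) (nat_lit 20) (nat_lit 1) (nat_lit 18) (nat_lit 1) (nat_lit 19) (nat_lit 1) (nat_lit 210) (nat_lit 291) (nat_lit 219)) (XT.lf (nat_lit 0) (nat_lit 1704105181) (nat_lit 0) (nat_lit 8532888981) (nat_lit 168) (nat_lit 1704105181) (nat_lit 18) (nat_lit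 3) (nat_lit 18) (nat_lit 1) (nat_lit 20) (nat_lit 1) (nat_lit 211) (nat_lit 291) (nat_lit 218)))))) (XT.nd (nat_lit 658) (nat_lit 672) (nat_lit 0) (XT.nd (nat_lit 282) (nat_lit 336) (nat_lit 0) (XT.nd (nat_lit 94) (nat_lit 84) (nat_lit 0) (XT.lf (nat_lit 84) (nat_lit 5667547484) (nat_lit 0) (nat_lit 407832260) (nat_lit 168) (nat_lit 5667547484) (nat_lit 17) (nat_lit 1) (nat_lit 16) (nat_lit 1) (nat_lit 18) (nat_lit 1) (nat_lit 212) (nat_lit 291) (nat_lit 217)) (XT.nd (nat_lit 94) (nat_lit 0) (nat_lit 0) (XT.lf (nat_lit 168) (nat_lit 7552698140) (nat_lit 0) (nat_lit 1998034905) (nat_lit 84) (nat_lit 1998034905) (nat_lit 17) (nat_lit 1) (nat_lit 15) (nat_lit 1) (nat_lit 16) (nat_lit 1) (nat_lit 213) (nat_lit 291) (nat_lit 216)) (XT.lf (nat_lit 0) (nat_lit 1913300360) (nat_lit 0) (nat_lit 7531357692) (nat_lit 168) (nat_lit 1913300360) (nat_lit 15) (nat_lit 3) (nat_lit 15) (nat_lit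 1) (nat_lit 17) (nat_lit 1) (nat_lit 214) (nat_lit 291) (nat_lit 215)))) (XT.nd (nat_lit 188) (nat_lit 84) (nat_lit 0) (XT.nd (nat_lit 94) (nat_lit 168) (nat_lit 0) (XT.lf (nat_lit 84) (nat_lit 156463002) (nat_lit 0) (nat_lit 5506993794) (nat_lit 84) (nat_lit 5506993794) (nat_lit 15) (nat_lit 3) (nat_lit 14) (nat_lit 1) (nat_lit 15) (nat_lit 1) (nat_lit 215) (nat_lit 291) (nat_lit 214)) (XT.lf (nat_lit 168) (nat_lit 7698911900) (nat_lit 0) (nat_lit 1643788261) (nat_lit 84) (nat_lit 1643788261) (nat_lit 14) (nat_lit 1) (nat_lit 12) (nat_lit 1) (nat_lit 13) (nat_lit 1) (nat_lit 216) (nat_lit 291) (nat_lit 213))) (XT.nd (nat_lit 94) (nat_lit 84) (nat_lit 0) (XT.lf (nat_lit 0) (nat_lit 2061056761) (nat_lit 0) (nat_lit 6683046431) (nat_lit 168) (nat_lit 2061056761) (nat_lit 12) (nat_lit 3) (nat_lit 12) (nat_lit 1) (nat_lit 14) (nat_lit 1) (nat_lit 217) (nat_lit 291) (nat_lit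 212)) (XT.lf (nat_lit 84) (nat_lit 607847806) (nat_lit 0) (nat_lit 5009742729) (nat_lit 84) (nat_lit 5009742729) (nat_lit 12) (nat_lit 3) (nat_lit 11) (nat_lit 1) (nat_lit 12) (nat_lit 1) (nat_lit 218) (nat_lit 291) (nat_lit 211))))) (XT.nd (nat_lit 282) (nat_lit 420) (nat_lit 0) (XT.nd (nat_lit 94) (nat_lit 84) (nat_lit 0) (XT.lf (nat_lit 168) (nat_lit 7748474302) (nat_lit 0) (nat_lit 1352348670) (nat_lit 84) (nat_lit 1352348670) (nat_lit 11) (nat_lit 1) (nat_lit 9) (nat_lit 1) (nat_lit 10) (nat_lit 1) (nat_lit 219) (nat_lit 291) (nat_lit 210)) (XT.nd (nat_lit 94) (nat_lit 84) (nat_lit 0) (XT.lf (nat_lit 0) (nat_lit 2159426802) (nat_lit 0) (nat_lit 5961949142) (nat_lit 168) (nat_lit 2159426802) (nat_lit 9) (nat_lit 3) (nat_lit 9) (nat_lit 1) (nat_lit 11) (nat_lit 1) (nat_lit 220) (nat_lit 291) (nat_lit 209)) (XT.lf (nat_lit 84) (nat_lit 956387709) (nat_lit 0) (nat_lit 4577837557)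 (nat_lit 84) (nat_lit 4577837557) (nat_lit 9) (nat_lit 3) (nat_lit 8) (nat_lit 1) (nat_lit 9) (nat_lit 1) (nat_lit 221) (nat_lit 291) (nat_lit 208)))) (XT.nd (nat_lit 188) (nat_lit 252) (nat_lit 0) (XT.nd (nat_lit 94) (nat_lit 0) (nat_lit 0) (XT.lf (nat_lit 168) (nat_lit 7721889392) (nat_lit 0) (nat_lit 1112580598) (nat_lit 84) (nat_lit 1112580598) (nat_lit 8) (nat_lit 1) (nat_lit 6) (nat_lit 1) (nat_lit 7) (nat_lit 1) (nat_lit 222) (nat_lit 291) (nat_lit 207)) (XT.lf (nat_lit 0) (nat_lit 2218270826) (nat_lit 0) (nat_lit 5346615366) (nat_lit 168) (nat_lit 2218270826) (nat_lit 6) (nat_lit 3) (nat_lit 6) (nat_lit 1) (nat_lit 8) (nat_lit 1) (nat_lit 223) (nat_lit 291) (nat_lit 206))) (XT.nd (nat_lit 94) (nat_lit 168) (nat_lit 0) (XT.lf (nat_lit 84) (nat_lit 1221403312) (nat_lit 0) (nat_lit 4200779064) (nat_lit 84) (nat_lit 4200779064) (nat_lit 6) (nat_lit 3) (nat_lit 5) (nat_lit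 1) (nat_lit 6) (nat_lit 1) (nat_lit 224) (nat_lit 291) (nat_lit 205)) (XT.lf (nat_lit 168) (nat_lit 7635865520) (nat_lit 0) (nat_lit 915322811) (nat_lit 84) (nat_lit 915322811) (nat_lit 5) (nat_lit 1) (nat_lit 3) (nat_lit 1) (nat_lit 4) (nat_lit 1) (nat_lit 225) (nat_lit 291) (nat_lit 204))))))) (XT.nd (nat_lit 1222) (nat_lit 0) (nat_lit 0) (XT.nd (nat_lit 564) (nat_lit 0) (nat_lit 0) (XT.nd (nat_lit 282) (nat_lit 0) (nat_lit 0) (XT.nd (nat_lit 94) (nat_lit 252) (nat_lit 0) (XT.lf (nat_lit 0) (nat_lit 2245648376) (nat_lit 0) (nat_lit 4819345171) (nat_lit 168) (nat_lit 2245648376) (nat_lit 3) (nat_lit 3) (nat_lit 3) (nat_lit 1) (nat_lit 5) (nat_lit 1) (nat_lit 226) (nat_lit 291) (nat_lit 203)) (XT.nd (nat_lit 94) (nat_lit 168) (nat_lit 0) (XT.lf (nat_lit 84) (nat_lit 1418737981) (nat_lit 0) (nat_lit 3869877786) (nat_lit 84) (nat_lit 3869877786) (nat_lit 3) (nat_lit 3) (nat_lit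 2) (nat_lit 1) (nat_lit 3) (nat_lit 1) (nat_lit 227) (nat_lit 291) (nat_lit 202)) (XT.lf (nat_lit 0) (nat_lit 13088824509) (nat_lit 0) (nat_lit 0) (nat_lit 0) (nat_lit 0) (nat_lit 0) (nat_lit 0) (nat_lit 1) (nat_lit 0) (nat_lit 1) (nat_lit 0) (nat_lit 228) (nat_lit 291) (nat_lit 201)))) (XT.nd (nat_lit 94) (nat_lit 0) (nat_lit 0) (XT.lf (nat_lit 0) (nat_lit 13081198490) (nat_lit 0) (nat_lit 0) (nat_lit 0) (nat_lit 0) (nat_lit 0) (nat_lit 0) (nat_lit 1) (nat_lit 0) (nat_lit 1) (nat_lit 0) (nat_lit 229) (nat_lit 291) (nat_lit 200)) (XT.nd (nat_lit 94) (nat_lit 0) (nat_lit 0) (XT.lf (nat_lit 0) (nat_lit 13073935614) (nat_lit 0) (nat_lit 0) (nat_lit 0) (nat_lit 0) (nat_lit 0) (nat_lit 0) (nat_lit 1) (nat_lit 0) (nat_lit 1) (nat_lit 0) (nat_lit 230) (nat_lit 291) (nat_lit 199)) (XT.lf (nat_lit 0) (nat_lit 13067018590) (nat_lit 0) (nat_lit 0) (nat_lit 0) (nat_lit 0) (nat_lit 0)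 (nat_lit 0) (nat_lit 1) (nat_lit 0) (nat_lit 1) (nat_lit 0) (nat_lit 231) (nat_lit 291) (nat_lit 198))))) (XT.nd (nat_lit 282) (nat_lit 0) (nat_lit 0) (XT.nd (nat_lit 94) (nat_lit 0) (nat_lit 0) (XT.lf (nat_lit 0) (nat_lit 13060430947) (nat_lit 0) (nat_lit 0) (nat_lit 0) (nat_lit 0) (nat_lit 0) (nat_lit 0) (nat_lit 1) (nat_lit 0) (nat_lit 1) (nat_lit 0) (nat_lit 232) (nat_lit 291) (nat_lit 197)) (XT.nd (nat_lit 94) (nat_lit 0) (nat_lit 0) (XT.lf (nat_lit 0) (nat_lit 13054157002) (nat_lit 0) (nat_lit 0) (nat_lit 0) (nat_lit 0) (nat_lit 0) (nat_lit 0) (nat_lit 1) (nat_lit 0) (nat_lit 1) (nat_lit 0) (nat_lit 233) (nat_lit 291) (nat_lit 196)) (XT.lf (nat_lit 0) (nat_lit 13048181816) (nat_lit 0) (nat_lit 0) (nat_lit 0) (nat_lit 0) (nat_lit 0) (nat_lit 0) (nat_lit 1) (nat_lit 0) (nat_lit 1) (nat_lit 0) (nat_lit 234) (nat_lit 291) (nat_lit 195)))) (XT.nd (nat_lit 188) (nat_lit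 0) (nat_lit 0) (XT.nd (nat_lit 94) (nat_lit 0) (nat_lit 0) (XT.lf (nat_lit 0) (nat_lit 13042491163) (nat_lit 0) (nat_lit 0) (nat_lit 0) (nat_lit 0) (nat_lit 0) (nat_lit 0) (nat_lit 1) (nat_lit 0) (nat_lit 1) (nat_lit 0) (nat_lit 235) (nat_lit 291) (nat_lit 194)) (XT.lf (nat_lit 0) (nat_lit 13037071494) (nat_lit 0) (nat_lit 0) (nat_lit 0) (nat_lit 0) (nat_lit 0) (nat_lit 0) (nat_lit 1) (nat_lit 0) (nat_lit 1) (nat_lit 0) (nat_lit 236) (nat_lit 291) (nat_lit 193))) (XT.nd (nat_lit 94) (nat_lit 0) (nat_lit 0) (XT.lf (nat_lit 0) (nat_lit 13031909903) (nat_lit 0) (nat_lit 0) (nat_lit 0) (nat_lit 0) (nat_lit 0) (nat_lit 0) (nat_lit 1) (nat_lit 0) (nat_lit 1) (nat_lit 0) (nat_lit 237) (nat_lit 291) (nat_lit 192)) (XT.lf (nat_lit 0) (nat_lit 13026994103) (nat_lit 0) (nat_lit 0) (nat_lit 0) (nat_lit 0) (nat_lit 0) (nat_lit 0) (nat_lit 1) (nat_lit 0) (nat_lit 1) (nat_lit 0) (nat_lit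 238) (nat_lit 291) (nat_lit 191)))))) (XT.nd (nat_lit 658) (nat_lit 0) (nat_lit 0) (XT.nd (nat_lit 282) (nat_lit 0) (nat_lit 0) (XT.nd (nat_lit 94) (nat_lit 0) (nat_lit 0) (XT.lf (nat_lit 0) (nat_lit 13022312389) (nat_lit 0) (nat_lit 0) (nat_lit 0) (nat_lit 0) (nat_lit 0) (nat_lit 0) (nat_lit 1) (nat_lit 0) (nat_lit 1) (nat_lit 0) (nat_lit 239) (nat_lit 291) (nat_lit 190)) (XT.nd (nat_lit 94) (nat_lit 0) (nat_lit 0) (XT.lf (nat_lit 0) (nat_lit 13017853613) (nat_lit 0) (nat_lit 0) (nat_lit 0) (nat_lit 0) (nat_lit 0) (nat_lit 0) (nat_lit 1) (nat_lit 0) (nat_lit 1) (nat_lit 0) (nat_lit 240) (nat_lit 291) (nat_lit 189)) (XT.lf (nat_lit 0) (nat_lit 13013607160) (nat_lit 0) (nat_lit 0) (nat_lit 0) (nat_lit 0) (nat_lit 0) (nat_lit 0) (nat_lit 1) (nat_lit 0) (nat_lit 1) (nat_lit 0) (nat_lit 241) (nat_lit 291) (nat_lit 188)))) (XT.nd (nat_lit 188) (nat_lit 0) (nat_lit 0) (XT.nd (nat_lit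 94) (nat_lit 0) (nat_lit 0) (XT.lf (nat_lit 0) (nat_lit 13009562919) (nat_lit 0) (nat_lit 0) (nat_lit 0) (nat_lit 0) (nat_lit 0) (nat_lit 0) (nat_lit 1) (nat_lit 0) (nat_lit 1) (nat_lit 0) (nat_lit 242) (nat_lit 291) (nat_lit 187)) (XT.lf (nat_lit 0) (nat_lit 13005711261) (nat_lit 0) (nat_lit 0) (nat_lit 0) (nat_lit 0) (nat_lit 0) (nat_lit 0) (nat_lit 1) (nat_lit 0) (nat_lit 1) (nat_lit 0) (nat_lit 243) (nat_lit 291) (nat_lit 186))) (XT.nd (nat_lit 94) (nat_lit 0) (nat_lit 0) (XT.lf (nat_lit 0) (nat_lit 13002043015) (nat_lit 0) (nat_lit 0) (nat_lit 0) (nat_lit 0) (nat_lit 0) (nat_lit 0) (nat_lit 1) (nat_lit 0) (nat_lit 1) (nat_lit 0) (nat_lit 244) (nat_lit 291) (nat_lit 185)) (XT.lf (nat_lit 0) (nat_lit 12998549448) (nat_lit 0) (nat_lit 0) (nat_lit 0) (nat_lit 0) (nat_lit 0) (nat_lit 0) (nat_lit 1) (nat_lit 0) (nat_lit 1) (nat_lit 0) (nat_lit 245) (nat_lit 291) (nat_lit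 184))))) (XT.nd (nat_lit 282) (nat_lit 0) (nat_lit 0) (XT.nd (nat_lit 94) (nat_lit 0) (nat_lit 0) (XT.lf (nat_lit 0) (nat_lit 12995222241) (nat_lit 0) (nat_lit 0) (nat_lit 0) (nat_lit 0) (nat_lit 0) (nat_lit 0) (nat_lit 1) (nat_lit 0) (nat_lit 1) (nat_lit 0) (nat_lit 246) (nat_lit 291) (nat_lit 183)) (XT.nd (nat_lit 94) (nat_lit 0) (nat_lit 0) (XT.lf (nat_lit 0) (nat_lit 12992053472) (nat_lit 0) (nat_lit 0) (nat_lit 0) (nat_lit 0) (nat_lit 0) (nat_lit 0) (nat_lit 1) (nat_lit 0) (nat_lit 1) (nat_lit 0) (nat_lit 247) (nat_lit 291) (nat_lit 182)) (XT.lf (nat_lit 0) (nat_lit 12989035597) (nat_lit 0) (nat_lit 0) (nat_lit 0) (nat_lit 0) (nat_lit 0) (nat_lit 0) (nat_lit 1) (nat_lit 0) (nat_lit 1) (nat_lit 0) (nat_lit 248) (nat_lit 291) (nat_lit 181)))) (XT.nd (nat_lit 188) (nat_lit 0) (nat_lit 0) (XT.nd (nat_lit 94) (nat_lit 0) (nat_lit 0) (XT.lf (nat_lit 0) (nat_lit 12986161431)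 (nat_lit 0) (nat_lit 0) (nat_lit 0) (nat_lit 0) (nat_lit 0) (nat_lit 0) (nat_lit 1) (nat_lit 0) (nat_lit 1) (nat_lit 0) (nat_lit 249) (nat_lit 291) (nat_lit 180)) (XT.lf (nat_lit 0) (nat_lit 12983424129) (nat_lit 0) (nat_lit 0) (nat_lit 0) (nat_lit 0) (nat_lit 0) (nat_lit 0) (nat_lit 1) (nat_lit 0) (nat_lit 1) (nat_lit 0) (nat_lit 250) (nat_lit 291) (nat_lit 179))) (XT.nd (nat_lit 94) (nat_lit 0) (nat_lit 0) (XT.lf (nat_lit 0) (nat_lit 12980817176) (nat_lit 0) (nat_lit 0) (nat_lit 0) (nat_lit 0) (nat_lit 0) (nat_lit 0) (nat_lit 1) (nat_lit 0) (nat_lit 1) (nat_lit 0) (nat_lit 251) (nat_lit 291) (nat_lit 178)) (XT.lf (nat_lit 0) (nat_lit 12978334363) (nat_lit 0) (nat_lit 0) (nat_lit 0) (nat_lit 0) (nat_lit 0) (nat_lit 0) (nat_lit 1) (nat_lit 0) (nat_lit 1) (nat_lit 0) (nat_lit 252) (nat_lit 291) (nat_lit 177))))))))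
noncomputable def ec151 : XT := (XT.nd (nat_lit 2538) (nat_lit 0) (nat_lit 0) (XT.nd (nat_lit 1222) (nat_lit 0) (nat_lit 0) (XT.nd (nat_lit 564) (nat_lit 0) (nat_lit 0) (XT.nd (nat_lit 282) (nat_lit 0) (nat_lit 0) (XT.nd (nat_lit 94) (nat_lit 0) (nat_lit 0) (XT.lf (nat_lit 0) (nat_lit 12975969779) (nat_lit 0) (nat_lit 0) (nat_lit 0) (nat_lit 0) (nat_lit 0) (nat_lit 0) (nat_lit 1) (nat_lit 0) (nat_lit 1) (nat_lit 0) (nat_lit 253) (nat_lit 291) (nat_lit 176)) (XT.nd (nat_lit 94) (nat_lit 0) (nat_lit 0) (XT.lf (nat_lit 0) (nat_lit 12973717794) (nat_lit 0) (nat_lit 0) (nat_lit 0) (nat_lit 0) (nat_lit 0) (nat_lit 0) (nat_lit 1) (nat_lit 0) (nat_lit 1) (nat_lit 0) (nat_lit 254) (nat_lit 291) (nat_lit 175)) (XT.lf (nat_lit 0) (nat_lit 12971573047) (nat_lit 0) (nat_lit 0) (nat_lit 0) (nat_lit 0) (nat_lit 0) (nat_lit 0) (nat_lit 1) (nat_lit 0) (nat_lit 1) (nat_lit 0) (nat_lit 255)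 (nat_lit 291) (nat_lit 174)))) (XT.nd (nat_lit 94) (nat_lit 0) (nat_lit 0) (XT.lf (nat_lit 0) (nat_lit 12969530430) (nat_lit 0) (nat_lit 0) (nat_lit 0) (nat_lit 0) (nat_lit 0) (nat_lit 0) (nat_lit 1) (nat_lit 0) (nat_lit 1) (nat_lit 0) (nat_lit 256) (nat_lit 291) (nat_lit 173)) (XT.nd (nat_lit 94) (nat_lit 0) (nat_lit 0) (XT.lf (nat_lit 0) (nat_lit 12967585081) (nat_lit 0) (nat_lit 0) (nat_lit 0) (nat_lit 0) (nat_lit 0) (nat_lit 0) (nat_lit 1) (nat_lit 0) (nat_lit 1) (nat_lit 0) (nat_lit 257) (nat_lit 291) (nat_lit 172)) (XT.lf (nat_lit 0) (nat_lit 12965732368) (nat_lit 0) (nat_lit 0) (nat_lit 0) (nat_lit 0) (nat_lit 0) (nat_lit 0) (nat_lit 1) (nat_lit 0) (nat_lit 1) (nat_lit 0) (nat_lit 258) (nat_lit 291) (nat_lit 171))))) (XT.nd (nat_lit 282) (nat_lit 0) (nat_lit 0) (XT.nd (nat_lit 94) (nat_lit 0) (nat_lit 0) (XT.lf (nat_lit 0) (nat_lit 12963967879) (nat_lit 0) (nat_lit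 0) (nat_lit 0) (nat_lit 0) (nat_lit 0) (nat_lit 0) (nat_lit 1) (nat_lit 0) (nat_lit 1) (nat_lit 0) (nat_lit 259) (nat_lit 291) (nat_lit 170)) (XT.nd (nat_lit 94) (nat_lit 0) (nat_lit 0) (XT.lf (nat_lit 0) (nat_lit 12962287413) (nat_lit 0) (nat_lit 0) (nat_lit 0) (nat_lit 0) (nat_lit 0) (nat_lit 0) (nat_lit 1) (nat_lit 0) (nat_lit 1) (nat_lit 0) (nat_lit 260) (nat_lit 291) (nat_lit 169)) (XT.lf (nat_lit 0) (nat_lit 12960686970) (nat_lit 0) (nat_lit 0) (nat_lit 0) (nat_lit 0) (nat_lit 0) (nat_lit 0) (nat_lit 1) (nat_lit 0) (nat_lit 1) (nat_lit 0) (nat_lit 261) (nat_lit 291) (nat_lit 168)))) (XT.nd (nat_lit 188) (nat_lit 0) (nat_lit 0) (XT.nd (nat_lit 94) (nat_lit 0) (nat_lit 0) (XT.lf (nat_lit 0) (nat_lit 12959162738) (nat_lit 0) (nat_lit 0) (nat_lit 0) (nat_lit 0) (nat_lit 0) (nat_lit 0) (nat_lit 1) (nat_lit 0) (nat_lit 1) (nat_lit 0) (nat_lit 262) (nat_lit 291) (nat_lit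 167)) (XT.lf (nat_lit 0) (nat_lit 12957711088) (nat_lit 0) (nat_lit 0) (nat_lit 0) (nat_lit 0) (nat_lit 0) (nat_lit 0) (nat_lit 1) (nat_lit 0) (nat_lit 1) (nat_lit 0) (nat_lit 263) (nat_lit 291) (nat_lit 166))) (XT.nd (nat_lit 94) (nat_lit 0) (nat_lit 0) (XT.lf (nat_lit 0) (nat_lit 12956328565) (nat_lit 0) (nat_lit 0) (nat_lit 0) (nat_lit 0) (nat_lit 0) (nat_lit 0) (nat_lit 1) (nat_lit 0) (nat_lit 1) (nat_lit 0) (nat_lit 264) (nat_lit 291) (nat_lit 165)) (XT.lf (nat_lit 0) (nat_lit 12955011876) (nat_lit 0) (nat_lit 0) (nat_lit 0) (nat_lit 0) (nat_lit 0) (nat_lit 0) (nat_lit 1) (nat_lit 0) (nat_lit 1) (nat_lit 0) (nat_lit 265) (nat_lit 291) (nat_lit 164)))))) (XT.nd (nat_lit 658) (nat_lit 0) (nat_lit 0) (XT.nd (nat_lit 282) (nat_lit 0) (nat_lit 0) (XT.nd (nat_lit 94) (nat_lit 0) (nat_lit 0) (XT.lf (nat_lit 0) (nat_lit 12953757887) (nat_lit 0) (nat_lit 0) (nat_lit 0) (nat_lit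 0) (nat_lit 0) (nat_lit 0) (nat_lit 1) (nat_lit 0) (nat_lit 1) (nat_lit 0) (nat_lit 266) (nat_lit 291) (nat_lit 163)) (XT.nd (nat_lit 94) (nat_lit 0) (nat_lit 0) (XT.lf (nat_lit 0) (nat_lit 12952563611) (nat_lit 0) (nat_lit 0) (nat_lit 0) (nat_lit 0) (nat_lit 0) (nat_lit 0) (nat_lit 1) (nat_lit 0) (nat_lit 1) (nat_lit 0) (nat_lit 267) (nat_lit 291) (nat_lit 162)) (XT.lf (nat_lit 0) (nat_lit 12951426206) (nat_lit 0) (nat_lit 0) (nat_lit 0) (nat_lit 0) (nat_lit 0) (nat_lit 0) (nat_lit 1) (nat_lit 0) (nat_lit 1) (nat_lit 0) (nat_lit 268) (nat_lit 291) (nat_lit 161)))) (XT.nd (nat_lit 188) (nat_lit 0) (nat_lit 0) (XT.nd (nat_lit 94) (nat_lit 0) (nat_lit 0) (XT.lf (nat_lit 0) (nat_lit 12950342963) (nat_lit 0) (nat_lit 0) (nat_lit 0) (nat_lit 0) (nat_lit 0) (nat_lit 0) (nat_lit 1) (nat_lit 0) (nat_lit 1) (nat_lit 0) (nat_lit 269) (nat_lit 291) (nat_lit 160)) (XT.lf (nat_lit 0)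 (nat_lit 12949311303) (nat_lit 0) (nat_lit 0) (nat_lit 0) (nat_lit 0) (nat_lit 0) (nat_lit 0) (nat_lit 1) (nat_lit 0) (nat_lit 1) (nat_lit 0) (nat_lit 270) (nat_lit 291) (nat_lit 159))) (XT.nd (nat_lit 94) (nat_lit 0) (nat_lit 0) (XT.lf (nat_lit 0) (nat_lit 12948328769) (nat_lit 0) (nat_lit 0) (nat_lit 0) (nat_lit 0) (nat_lit 0) (nat_lit 0) (nat_lit 1) (nat_lit 0) (nat_lit 1) (nat_lit 0) (nat_lit 271) (nat_lit 291) (nat_lit 158)) (XT.lf (nat_lit 0) (nat_lit 12947393023) (nat_lit 0) (nat_lit 0) (nat_lit 0) (nat_lit 0) (nat_lit 0) (nat_lit 0) (nat_lit 1) (nat_lit 0) (nat_lit 1) (nat_lit 0) (nat_lit 272) (nat_lit 291) (nat_lit 157))))) (XT.nd (nat_lit 282) (nat_lit 0) (nat_lit 0) (XT.nd (nat_lit 94) (nat_lit 0) (nat_lit 0) (XT.lf (nat_lit 0) (nat_lit 12946501836) (nat_lit 0) (nat_lit 0) (nat_lit 0) (nat_lit 0) (nat_lit 0) (nat_lit 0) (nat_lit 1) (nat_lit 0) (nat_lit 1) (nat_lit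 0) (nat_lit 273) (nat_lit 291) (nat_lit 156)) (XT.nd (nat_lit 94) (nat_lit 0) (nat_lit 0) (XT.lf (nat_lit 0) (nat_lit 12945653087) (nat_lit 0) (nat_lit 0) (nat_lit 0) (nat_lit 0) (nat_lit 0) (nat_lit 0) (nat_lit 1) (nat_lit 0) (nat_lit 1) (nat_lit 0) (nat_lit 274) (nat_lit 291) (nat_lit 155)) (XT.lf (nat_lit 0) (nat_lit 12944844754) (nat_lit 0) (nat_lit 0) (nat_lit 0) (nat_lit 0) (nat_lit 0) (nat_lit 0) (nat_lit 1) (nat_lit 0) (nat_lit 1) (nat_lit 0) (nat_lit 275) (nat_lit 291) (nat_lit 154)))) (XT.nd (nat_lit 188) (nat_lit 0) (nat_lit 0) (XT.nd (nat_lit 94) (nat_lit 0) (nat_lit 0) (XT.lf (nat_lit 0) (nat_lit 12944074914) (nat_lit 0) (nat_lit 0) (nat_lit 0) (nat_lit 0) (nat_lit 0) (nat_lit 0) (nat_lit 1) (nat_lit 0) (nat_lit 1) (nat_lit 0) (nat_lit 276) (nat_lit 291) (nat_lit 153)) (XT.lf (nat_lit 0) (nat_lit 12943341732) (nat_lit 0) (nat_lit 0) (nat_lit 0) (nat_lit 0) (nat_lit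 0) (nat_lit 0) (nat_lit 1) (nat_lit 0) (nat_lit 1) (nat_lit 0) (nat_lit 277) (nat_lit 291) (nat_lit 152))) (XT.nd (nat_lit 94) (nat_lit 0) (nat_lit 0) (XT.lf (nat_lit 0) (nat_lit 12942643464) (nat_lit 0) (nat_lit 0) (nat_lit 0) (nat_lit 0) (nat_lit 0) (nat_lit 0) (nat_lit 1) (nat_lit 0) (nat_lit 1) (nat_lit 0) (nat_lit 278) (nat_lit 291) (nat_lit 151)) (XT.lf (nat_lit 0) (nat_lit 12941978446) (nat_lit 0) (nat_lit 0) (nat_lit 0) (nat_lit 0) (nat_lit 0) (nat_lit 0) (nat_lit 1) (nat_lit 0) (nat_lit 1) (nat_lit 0) (nat_lit 279) (nat_lit 291) (nat_lit 150))))))) (XT.nd (nat_lit 1316) (nat_lit 0) (nat_lit 0) (XT.nd (nat_lit 658) (nat_lit 0) (nat_lit 0) (XT.nd (nat_lit 282) (nat_lit 0) (nat_lit 0) (XT.nd (nat_lit 94) (nat_lit 0) (nat_lit 0) (XT.lf (nat_lit 0) (nat_lit 12941345097) (nat_lit 0) (nat_lit 0) (nat_lit 0) (nat_lit 0) (nat_lit 0) (nat_lit 0) (nat_lit 1) (nat_lit 0) (nat_lit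 1) (nat_lit 0) (nat_lit 280) (nat_lit 291) (nat_lit 149)) (XT.nd (nat_lit 94) (nat_lit 0) (nat_lit 0) (XT.lf (nat_lit 0) (nat_lit 12940741906) (nat_lit 0) (nat_lit 0) (nat_lit 0) (nat_lit 0) (nat_lit 0) (nat_lit 0) (nat_lit 1) (nat_lit 0) (nat_lit 1) (nat_lit 0) (nat_lit 281) (nat_lit 291) (nat_lit 148)) (XT.lf (nat_lit 0) (nat_lit 12940167439) (nat_lit 0) (nat_lit 0) (nat_lit 0) (nat_lit 0) (nat_lit 0) (nat_lit 0) (nat_lit 1) (nat_lit 0) (nat_lit 1) (nat_lit 0) (nat_lit 282) (nat_lit 291) (nat_lit 147)))) (XT.nd (nat_lit 188) (nat_lit 0) (nat_lit 0) (XT.nd (nat_lit 94) (nat_lit 0) (nat_lit 0) (XT.lf (nat_lit 0) (nat_lit 12939620328) (nat_lit 0) (nat_lit 0) (nat_lit 0) (nat_lit 0) (nat_lit 0) (nat_lit 0) (nat_lit 1) (nat_lit 0) (nat_lit 1) (nat_lit 0) (nat_lit 283) (nat_lit 291) (nat_lit 146)) (XT.lf (nat_lit 0) (nat_lit 12939099269) (nat_lit 0) (nat_lit 0) (nat_lit 0) (nat_lit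 0) (nat_lit 0) (nat_lit 0) (nat_lit 1) (nat_lit 0) (nat_lit 1) (nat_lit 0) (nat_lit 284) (nat_lit 291) (nat_lit 145))) (XT.nd (nat_lit 94) (nat_lit 0) (nat_lit 0) (XT.lf (nat_lit 0) (nat_lit 12938603023) (nat_lit 0) (nat_lit 0) (nat_lit 0) (nat_lit 0) (nat_lit 0) (nat_lit 0) (nat_lit 1) (nat_lit 0) (nat_lit 1) (nat_lit 0) (nat_lit 285) (nat_lit 291) (nat_lit 144)) (XT.lf (nat_lit 0) (nat_lit 12938130408) (nat_lit 0) (nat_lit 0) (nat_lit 0) (nat_lit 0) (nat_lit 0) (nat_lit 0) (nat_lit 1) (nat_lit 0) (nat_lit 1) (nat_lit 0) (nat_lit 286) (nat_lit 291) (nat_lit 143))))) (XT.nd (nat_lit 282) (nat_lit 0) (nat_lit 0) (XT.nd (nat_lit 94) (nat_lit 0) (nat_lit 0) (XT.lf (nat_lit 0) (nat_lit 12937680298) (nat_lit 0) (nat_lit 0) (nat_lit 0) (nat_lit 0) (nat_lit 0) (nat_lit 0) (nat_lit 1) (nat_lit 0) (nat_lit 1) (nat_lit 0) (nat_lit 287) (nat_lit 291) (nat_lit 142)) (XT.nd (nat_lit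 94) (nat_lit 0) (nat_lit 0) (XT.lf (nat_lit 0) (nat_lit 12937251622) (nat_lit 0) (nat_lit 0) (nat_lit 0) (nat_lit 0) (nat_lit 0) (nat_lit 0) (nat_lit 1) (nat_lit 0) (nat_lit 1) (nat_lit 0) (nat_lit 288) (nat_lit 291) (nat_lit 141)) (XT.lf (nat_lit 0) (nat_lit 12936843359) (nat_lit 0) (nat_lit 0) (nat_lit 0) (nat_lit 0) (nat_lit 0) (nat_lit 0) (nat_lit 1) (nat_lit 0) (nat_lit 1) (nat_lit 0) (nat_lit 289) (nat_lit 291) (nat_lit 140)))) (XT.nd (nat_lit 188) (nat_lit 0) (nat_lit 0) (XT.nd (nat_lit 94) (nat_lit 0) (nat_lit 0) (XT.lf (nat_lit 0) (nat_lit 12936454537) (nat_lit 0) (nat_lit 0) (nat_lit 0) (nat_lit 0) (nat_lit 0) (nat_lit 0) (nat_lit 1) (nat_lit 0) (nat_lit 1) (nat_lit 0) (nat_lit 290) (nat_lit 291) (nat_lit 139)) (XT.lf (nat_lit 0) (nat_lit 12936084231) (nat_lit 0) (nat_lit 0) (nat_lit 0) (nat_lit 0) (nat_lit 0) (nat_lit 0) (nat_lit 1) (nat_lit 0) (nat_lit 1) (nat_lit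 0) (nat_lit 291) (nat_lit 291) (nat_lit 138))) (XT.nd (nat_lit 94) (nat_lit 0) (nat_lit 0) (XT.lf (nat_lit 0) (nat_lit 12935731558) (nat_lit 0) (nat_lit 0) (nat_lit 0) (nat_lit 0) (nat_lit 0) (nat_lit 0) (nat_lit 1) (nat_lit 0) (nat_lit 1) (nat_lit 0) (nat_lit 292) (nat_lit 291) (nat_lit 137)) (XT.lf (nat_lit 0) (nat_lit 12935395679) (nat_lit 0) (nat_lit 0) (nat_lit 0) (nat_lit 0) (nat_lit 0) (nat_lit 0) (nat_lit 1) (nat_lit 0) (nat_lit 1) (nat_lit 0) (nat_lit 293) (nat_lit 291) (nat_lit 136)))))) (XT.nd (nat_lit 658) (nat_lit 0) (nat_lit 0) (XT.nd (nat_lit 282) (nat_lit 0) (nat_lit 0) (XT.nd (nat_lit 94) (nat_lit 0) (nat_lit 0) (XT.lf (nat_lit 0) (nat_lit 12935075794) (nat_lit 0) (nat_lit 0) (nat_lit 0) (nat_lit 0) (nat_lit 0) (nat_lit 0) (nat_lit 1) (nat_lit 0) (nat_lit 1) (nat_lit 0) (nat_lit 294) (nat_lit 291) (nat_lit 135)) (XT.nd (nat_lit 94) (nat_lit 0) (nat_lit 0)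 (XT.lf (nat_lit 0) (nat_lit 12934771142) (nat_lit 0) (nat_lit 0) (nat_lit 0) (nat_lit 0) (nat_lit 0) (nat_lit 0) (nat_lit 1) (nat_lit 0) (nat_lit 1) (nat_lit 0) (nat_lit 295) (nat_lit 291) (nat_lit 134)) (XT.lf (nat_lit 0) (nat_lit 12934480997) (nat_lit 0) (nat_lit 0) (nat_lit 0) (nat_lit 0) (nat_lit 0) (nat_lit 0) (nat_lit 1) (nat_lit 0) (nat_lit 1) (nat_lit 0) (nat_lit 296) (nat_lit 291) (nat_lit 133)))) (XT.nd (nat_lit 188) (nat_lit 0) (nat_lit 0) (XT.nd (nat_lit 94) (nat_lit 0) (nat_lit 0) (XT.lf (nat_lit 0) (nat_lit 12934204669) (nat_lit 0) (nat_lit 0) (nat_lit 0) (nat_lit 0) (nat_lit 0) (nat_lit 0) (nat_lit 1) (nat_lit 0) (nat_lit 1) (nat_lit 0) (nat_lit 297) (nat_lit 291) (nat_lit 132)) (XT.lf (nat_lit 0) (nat_lit 12933941499) (nat_lit 0) (nat_lit 0) (nat_lit 0) (nat_lit 0) (nat_lit 0) (nat_lit 0) (nat_lit 1) (nat_lit 0) (nat_lit 1) (nat_lit 0) (nat_lit 298) (nat_lit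 291) (nat_lit 131))) (XT.nd (nat_lit 94) (nat_lit 0) (nat_lit 0) (XT.lf (nat_lit 0) (nat_lit 12933690861) (nat_lit 0) (nat_lit 0) (nat_lit 0) (nat_lit 0) (nat_lit 0) (nat_lit 0) (nat_lit 1) (nat_lit 0) (nat_lit 1) (nat_lit 0) (nat_lit 299) (nat_lit 291) (nat_lit 130)) (XT.lf (nat_lit 0) (nat_lit 12933452158) (nat_lit 0) (nat_lit 0) (nat_lit 0) (nat_lit 0) (nat_lit 0) (nat_lit 0) (nat_lit 1) (nat_lit 0) (nat_lit 1) (nat_lit 0) (nat_lit 300) (nat_lit 291) (nat_lit 129))))) (XT.nd (nat_lit 282) (nat_lit 0) (nat_lit 0) (XT.nd (nat_lit 94) (nat_lit 0) (nat_lit 0) (XT.lf (nat_lit 0) (nat_lit 12933224822) (nat_lit 0) (nat_lit 0) (nat_lit 0) (nat_lit 0) (nat_lit 0) (nat_lit 0) (nat_lit 1) (nat_lit 0) (nat_lit 1) (nat_lit 0) (nat_lit 301) (nat_lit 291) (nat_lit 128)) (XT.nd (nat_lit 94) (nat_lit 0) (nat_lit 0) (XT.lf (nat_lit 0) (nat_lit 12933008311) (nat_lit 0) (nat_lit 0) (nat_lit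 0) (nat_lit 0) (nat_lit 0) (nat_lit 0) (nat_lit 1) (nat_lit 0) (nat_lit 1) (nat_lit 0) (nat_lit 302) (nat_lit 291) (nat_lit 127)) (XT.lf (nat_lit 0) (nat_lit 12932802111) (nat_lit 0) (nat_lit 0) (nat_lit 0) (nat_lit 0) (nat_lit 0) (nat_lit 0) (nat_lit 1) (nat_lit 0) (nat_lit 1) (nat_lit 0) (nat_lit 303) (nat_lit 291) (nat_lit 126)))) (XT.nd (nat_lit 188) (nat_lit 0) (nat_lit 0) (XT.nd (nat_lit 94) (nat_lit 0) (nat_lit 0) (XT.lf (nat_lit 0) (nat_lit 12932605729) (nat_lit 0) (nat_lit 0) (nat_lit 0) (nat_lit 0) (nat_lit 0) (nat_lit 0) (nat_lit 1) (nat_lit 0) (nat_lit 1) (nat_lit 0) (nat_lit 304) (nat_lit 291) (nat_lit 125)) (XT.lf (nat_lit 0) (nat_lit 12932418699) (nat_lit 0) (nat_lit 0) (nat_lit 0) (nat_lit 0) (nat_lit 0) (nat_lit 0) (nat_lit 1) (nat_lit 0) (nat_lit 1) (nat_lit 0) (nat_lit 305) (nat_lit 291) (nat_lit 124))) (XT.nd (nat_lit 94) (nat_lit 0) (nat_lit 0) (XT.lf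 (nat_lit 0) (nat_lit 12932240575) (nat_lit 0) (nat_lit 0) (nat_lit 0) (nat_lit 0) (nat_lit 0) (nat_lit 0) (nat_lit 1) (nat_lit 0) (nat_lit 1) (nat_lit 0) (nat_lit 306) (nat_lit 291) (nat_lit 123)) (XT.lf (nat_lit 0) (nat_lit 12932070934) (nat_lit 0) (nat_lit 0) (nat_lit 0) (nat_lit 0) (nat_lit 0) (nat_lit 0) (nat_lit 1) (nat_lit 0) (nat_lit 1) (nat_lit 0) (nat_lit 307) (nat_lit 291) (nat_lit 122))))))))
noncomputable def ec152 : XT := (XT.nd (nat_lit 31302) (nat_lit 0) (nat_lit 3696) (XT.nd (nat_lit 29986) (nat_lit 0) (nat_lit 7476) (XT.nd (nat_lit 29328) (nat_lit 0) (nat_lit 10836) (XT.nd (nat_lit 29046) (nat_lit 0) (nat_lit 10752) (XT.nd (nat_lit 94) (nat_lit 0) (nat_lit 0) (XT.lf (nat_lit 0) (nat_lit 12931909370) (nat_lit 0) (nat_lit 0) (nat_lit 0) (nat_lit 0) (nat_lit 0) (nat_lit 0) (nat_lit 1) (nat_lit 0) (nat_lit 1) (nat_lit 0) (nat_lit 308) (nat_lit 291) (nat_lit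 121)) (XT.nd (nat_lit 94) (nat_lit 0) (nat_lit 0) (XT.lf (nat_lit 0) (nat_lit 12931755500) (nat_lit 0) (nat_lit 0) (nat_lit 0) (nat_lit 0) (nat_lit 0) (nat_lit 0) (nat_lit 1) (nat_lit 0) (nat_lit 1) (nat_lit 0) (nat_lit 309) (nat_lit 291) (nat_lit 120)) (XT.lf (nat_lit 0) (nat_lit 12931608957) (nat_lit 0) (nat_lit 0) (nat_lit 0) (nat_lit 0) (nat_lit 0) (nat_lit 0) (nat_lit 1) (nat_lit 0) (nat_lit 1) (nat_lit 0) (nat_lit 310) (nat_lit 291) (nat_lit 119)))) (XT.nd (nat_lit 94) (nat_lit 0) (nat_lit 0) (XT.lf (nat_lit 924) (nat_lit 6793494538) (nat_lit 0) (nat_lit 12061833937) (nat_lit 924) (nat_lit 6793494538) (nat_lit 139) (nat_lit 1) (nat_lit 128) (nat_lit 0) (nat_lit 139) (nat_lit 0) (nat_lit 136) (nat_lit 292) (nat_lit 292)) (XT.nd (nat_lit 94) (nat_lit 0) (nat_lit 84) (XT.lf (nat_lit 924) (nat_lit 26332432966) (nat_lit 84) (nat_lit 11867288229) (nat_lit 0) (nat_lit 11867288229)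 (nat_lit 139) (nat_lit 1) (nat_lit 129) (nat_lit 1) (nat_lit 128) (nat_lit 0) (nat_lit 137) (nat_lit 292) (nat_lit 291)) (XT.lf (nat_lit 924) (nat_lit 12549641064) (nat_lit 0) (nat_lit 23775136279) (nat_lit 840) (nat_lit 12549641064) (nat_lit 140) (nat_lit 1) (nat_lit 129) (nat_lit 1) (nat_lit 139) (nat_lit 1) (nat_lit 138) (nat_lit 292) (nat_lit 290))))) (XT.nd (nat_lit 282) (nat_lit 0) (nat_lit 168) (XT.nd (nat_lit 94) (nat_lit 0) (nat_lit 84) (XT.lf (nat_lit 924) (nat_lit 23541382820) (nat_lit 84) (nat_lit 12089487073) (nat_lit 0) (nat_lit 12089487073) (nat_lit 140) (nat_lit 1) (nat_lit 130) (nat_lit 1) (nat_lit 129) (nat_lit 1) (nat_lit 139) (nat_lit 292) (nat_lit 289)) (XT.nd (nat_lit 94) (nat_lit 0) (nat_lit 0) (XT.lf (nat_lit 924) (nat_lit 10835872442) (nat_lit 0) (nat_lit 24931128599) (nat_lit 840) (nat_lit 10835872442) (nat_lit 141) (nat_lit 1) (nat_lit 130) (nat_lit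 1) (nat_lit 140) (nat_lit 1) (nat_lit 140) (nat_lit 292) (nat_lit 288)) (XT.lf (nat_lit 924) (nat_lit 19489022349) (nat_lit 84) (nat_lit 13015216409) (nat_lit 0) (nat_lit 13015216409) (nat_lit 141) (nat_lit 1) (nat_lit 131) (nat_lit 1) (nat_lit 130) (nat_lit 1) (nat_lit 141) (nat_lit 292) (nat_lit 287)))) (XT.nd (nat_lit 188) (nat_lit 0) (nat_lit 84) (XT.nd (nat_lit 94) (nat_lit 0) (nat_lit 0) (XT.lf (nat_lit 924) (nat_lit 8545373406) (nat_lit 0) (nat_lit 27381667475) (nat_lit 840) (nat_lit 8545373406) (nat_lit 142) (nat_lit 1) (nat_lit 131) (nat_lit 1) (nat_lit 141) (nat_lit 1) (nat_lit 142) (nat_lit 292) (nat_lit 286)) (XT.lf (nat_lit 924) (nat_lit 14365035074) (nat_lit 84) (nat_lit 14544583477) (nat_lit 0) (nat_lit 14544583477) (nat_lit 142) (nat_lit 1) (nat_lit 132) (nat_lit 1) (nat_lit 131) (nat_lit 1) (nat_lit 143) (nat_lit 292) (nat_lit 285))) (XT.nd (nat_lit 94)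 (nat_lit 0) (nat_lit 0) (XT.lf (nat_lit 924) (nat_lit 5766813378) (nat_lit 0) (nat_lit 30939635392) (nat_lit 840) (nat_lit 5766813378) (nat_lit 143) (nat_lit 1) (nat_lit 132) (nat_lit 1) (nat_lit 142) (nat_lit 1) (nat_lit 144) (nat_lit 292) (nat_lit 284)) (XT.lf (nat_lit 924) (nat_lit 8338021027) (nat_lit 84) (nat_lit 16588624750) (nat_lit 0) (nat_lit 16588624750) (nat_lit 143) (nat_lit 1) (nat_lit 133) (nat_lit 1) (nat_lit 132) (nat_lit 1) (nat_lit 145) (nat_lit 292) (nat_lit 283)))))) (XT.nd (nat_lit 658) (nat_lit 1428) (nat_lit 0) (XT.nd (nat_lit 282) (nat_lit 840) (nat_lit 0) (XT.nd (nat_lit 94) (nat_lit 1428) (nat_lit 0) (XT.lf (nat_lit 84) (nat_lit 2578949065) (nat_lit 0) (nat_lit 35438490432) (nat_lit 840) (nat_lit 2578949065) (nat_lit 134) (nat_lit 1) (nat_lit 133) (nat_lit 1) (nat_lit 143) (nat_lit 1) (nat_lit 146) (nat_lit 292) (nat_lit 282)) (XT.nd (nat_lit 94)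 (nat_lit 588) (nat_lit 0) (XT.lf (nat_lit 924) (nat_lit 1557621102) (nat_lit 0) (nat_lit 19068211638) (nat_lit 840) (nat_lit 19068211638) (nat_lit 134) (nat_lit 1) (nat_lit 123) (nat_lit 1) (nat_lit 133) (nat_lit 1) (nat_lit 147) (nat_lit 292) (nat_lit 281)) (XT.lf (nat_lit 588) (nat_lit 36964310382) (nat_lit 0) (nat_lit 933078104) (nat_lit 504) (nat_lit 933078104) (nat_lit 123) (nat_lit 1) (nat_lit 116) (nat_lit 1) (nat_lit 122) (nat_lit 1) (nat_lit 148) (nat_lit 292) (nat_lit 280)))) (XT.nd (nat_lit 188) (nat_lit 420) (nat_lit 0) (XT.nd (nat_lit 94) (nat_lit 420) (nat_lit 0) (XT.lf (nat_lit 84) (nat_lit 16160732165) (nat_lit 0) (nat_lit 5656533363) (nat_lit 588) (nat_lit 16160732165) (nat_lit 117) (nat_lit 1) (nat_lit 116) (nat_lit 1) (nat_lit 123) (nat_lit 1) (nat_lit 149) (nat_lit 292) (nat_lit 279)) (XT.lf (nat_lit 504) (nat_lit 27808471775) (nat_lit 0) (nat_lit 4676653139)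 (nat_lit 420) (nat_lit 4676653139) (nat_lit 117) (nat_lit 1) (nat_lit 111) (nat_lit 1) (nat_lit 116) (nat_lit 1) (nat_lit 150) (nat_lit 292) (nat_lit 278))) (XT.nd (nat_lit 94) (nat_lit 420) (nat_lit 0) (XT.lf (nat_lit 84) (nat_lit 11527253521) (nat_lit 0) (nat_lit 13308210568) (nat_lit 504) (nat_lit 11527253521) (nat_lit 112) (nat_lit 1) (nat_lit 111) (nat_lit 1) (nat_lit 117) (nat_lit 1) (nat_lit 151) (nat_lit 292) (nat_lit 277)) (XT.lf (nat_lit 504) (nat_lit 18312273024) (nat_lit 0) (nat_lit 8639606639) (nat_lit 420) (nat_lit 8639606639) (nat_lit 112) (nat_lit 1) (nat_lit 106) (nat_lit 1) (nat_lit 111) (nat_lit 1) (nat_lit 152) (nat_lit 292) (nat_lit 276))))) (XT.nd (nat_lit 282) (nat_lit 1092) (nat_lit 0) (XT.nd (nat_lit 94) (nat_lit 336) (nat_lit 0) (XT.lf (nat_lit 84) (nat_lit 6747829238) (nat_lit 0) (nat_lit 21347026524) (nat_lit 504) (nat_lit 6747829238) (nat_lit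 107) (nat_lit 1) (nat_lit 106) (nat_lit 1) (nat_lit 112) (nat_lit 1) (nat_lit 153) (nat_lit 292) (nat_lit 275)) (XT.nd (nat_lit 94) (nat_lit 0) (nat_lit 0) (XT.lf (nat_lit 420) (nat_lit 8564099648) (nat_lit 0) (nat_lit 12774522845) (nat_lit 336) (nat_lit 12774522845) (nat_lit 107) (nat_lit 1) (nat_lit 102) (nat_lit 1) (nat_lit 106) (nat_lit 1) (nat_lit 154) (nat_lit 292) (nat_lit 274)) (XT.lf (nat_lit 84) (nat_lit 1863490938) (nat_lit 0) (nat_lit 29684678303) (nat_lit 420) (nat_lit 1863490938) (nat_lit 103) (nat_lit 1) (nat_lit 102) (nat_lit 1) (nat_lit 107) (nat_lit 1) (nat_lit 155) (nat_lit 292) (nat_lit 273)))) (XT.nd (nat_lit 188) (nat_lit 336) (nat_lit 0) (XT.nd (nat_lit 94) (nat_lit 336) (nat_lit 0) (XT.lf (nat_lit 84) (nat_lit 15702310123) (nat_lit 0) (nat_lit 1315098974) (nat_lit 420) (nat_lit 15702310123) (nat_lit 98) (nat_lit 1) (nat_lit 97) (nat_lit 1) (nat_lit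 102) (nat_lit 1) (nat_lit 156) (nat_lit 292) (nat_lit 272)) (XT.lf (nat_lit 420) (nat_lit 25974097224) (nat_lit 0) (nat_lit 3040015923) (nat_lit 336) (nat_lit 3040015923) (nat_lit 98) (nat_lit 1) (nat_lit 93) (nat_lit 1) (nat_lit 97) (nat_lit 1) (nat_lit 157) (nat_lit 292) (nat_lit 271))) (XT.nd (nat_lit 94) (nat_lit 336) (nat_lit 0) (XT.lf (nat_lit 84) (nat_lit 10188182831) (nat_lit 0) (nat_lit 11023591602) (nat_lit 420) (nat_lit 10188182831) (nat_lit 94) (nat_lit 1) (nat_lit 93) (nat_lit 1) (nat_lit 98) (nat_lit 1) (nat_lit 158) (nat_lit 292) (nat_lit 270)) (XT.lf (nat_lit 420) (nat_lit 14867392884) (nat_lit 0) (nat_lit 7950538477) (nat_lit 336) (nat_lit 7950538477) (nat_lit 94) (nat_lit 1) (nat_lit 89) (nat_lit 1) (nat_lit 93) (nat_lit 1) (nat_lit 159) (nat_lit 292) (nat_lit 269))))))) (XT.nd (nat_lit 1222) (nat_lit 1512) (nat_lit 0) (XT.nd (nat_lit 564) (nat_lit 1344)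 (nat_lit 0) (XT.nd (nat_lit 282) (nat_lit 252) (nat_lit 0) (XT.nd (nat_lit 94) (nat_lit 672) (nat_lit 0) (XT.lf (nat_lit 84) (nat_lit 4688512194) (nat_lit 0) (nat_lit 20778422769) (nat_lit 420) (nat_lit 4688512194) (nat_lit 90) (nat_lit 1) (nat_lit 89) (nat_lit 1) (nat_lit 94) (nat_lit 1) (nat_lit 160) (nat_lit 292) (nat_lit 268)) (XT.nd (nat_lit 94) (nat_lit 420) (nat_lit 0) (XT.lf (nat_lit 336) (nat_lit 3812966162) (nat_lit 0) (nat_lit 12871345511) (nat_lit 252) (nat_lit 12871345511) (nat_lit 90) (nat_lit 1) (nat_lit 86) (nat_lit 1) (nat_lit 89) (nat_lit 1) (nat_lit 161) (nat_lit 292) (nat_lit 267)) (XT.lf (nat_lit 420) (nat_lit 27455347327) (nat_lit 0) (nat_lit 761833207) (nat_lit 336) (nat_lit 761833207) (nat_lit 86) (nat_lit 1) (nat_lit 81) (nat_lit 1) (nat_lit 85) (nat_lit 1) (nat_lit 162) (nat_lit 292) (nat_lit 266)))) (XT.nd (nat_lit 94) (nat_lit 252) (nat_lit 0)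 (XT.lf (nat_lit 84) (nat_lit 10743480383) (nat_lit 0) (nat_lit 6918601184) (nat_lit 420) (nat_lit 10743480383) (nat_lit 82) (nat_lit 1) (nat_lit 81) (nat_lit 1) (nat_lit 86) (nat_lit 1) (nat_lit 163) (nat_lit 292) (nat_lit 265)) (XT.nd (nat_lit 94) (nat_lit 0) (nat_lit 0) (XT.lf (nat_lit 336) (nat_lit 15691192747) (nat_lit 0) (nat_lit 6081455407) (nat_lit 252) (nat_lit 6081455407) (nat_lit 82) (nat_lit 1) (nat_lit 78) (nat_lit 1) (nat_lit 81) (nat_lit 1) (nat_lit 164) (nat_lit 292) (nat_lit 264)) (XT.lf (nat_lit 84) (nat_lit 4957090506) (nat_lit 0) (nat_lit 17402474908) (nat_lit 336) (nat_lit 4957090506) (nat_lit 79) (nat_lit 1) (nat_lit 78) (nat_lit 1) (nat_lit 82) (nat_lit 1) (nat_lit 165) (nat_lit 292) (nat_lit 263))))) (XT.nd (nat_lit 282) (nat_lit 756) (nat_lit 0) (XT.nd (nat_lit 94) (nat_lit 336) (nat_lit 0) (XT.lf (nat_lit 336) (nat_lit 4131579997) (nat_lit 0) (nat_lit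 11329927536) (nat_lit 252) (nat_lit 11329927536) (nat_lit 79) (nat_lit 1) (nat_lit 75) (nat_lit 1) (nat_lit 78) (nat_lit 1) (nat_lit 166) (nat_lit 292) (nat_lit 262)) (XT.nd (nat_lit 94) (nat_lit 0) (nat_lit 0) (XT.lf (nat_lit 336) (nat_lit 24865617438) (nat_lit 0) (nat_lit 710054701) (nat_lit 252) (nat_lit 710054701) (nat_lit 75) (nat_lit 1) (nat_lit 71) (nat_lit 1) (nat_lit 74) (nat_lit 1) (nat_lit 167) (nat_lit 292) (nat_lit 261)) (XT.lf (nat_lit 84) (nat_lit 9405950970) (nat_lit 0) (nat_lit 6969715222) (nat_lit 336) (nat_lit 9405950970) (nat_lit 72) (nat_lit 1) (nat_lit 71) (nat_lit 1) (nat_lit 75) (nat_lit 1) (nat_lit 168) (nat_lit 292) (nat_lit 260)))) (XT.nd (nat_lit 188) (nat_lit 504) (nat_lit 0) (XT.nd (nat_lit 94) (nat_lit 0) (nat_lit 0) (XT.lf (nat_lit 336) (nat_lit 12934043848) (nat_lit 0) (nat_lit 6181057888) (nat_lit 252) (nat_lit 6181057888) (nat_lit 72) (nat_lit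 1) (nat_lit 68) (nat_lit 1) (nat_lit 71) (nat_lit 1) (nat_lit 169) (nat_lit 292) (nat_lit 259)) (XT.lf (nat_lit 84) (nat_lit 3562025127) (nat_lit 0) (nat_lit 17699672024) (nat_lit 336) (nat_lit 3562025127) (nat_lit 69) (nat_lit 1) (nat_lit 68) (nat_lit 1) (nat_lit 72) (nat_lit 1) (nat_lit 170) (nat_lit 292) (nat_lit 258))) (XT.nd (nat_lit 94) (nat_lit 336) (nat_lit 0) (XT.lf (nat_lit 252) (nat_lit 1305244441) (nat_lit 0) (nat_lit 11527471644) (nat_lit 168) (nat_lit 11527471644) (nat_lit 69) (nat_lit 1) (nat_lit 66) (nat_lit 1) (nat_lit 68) (nat_lit 1) (nat_lit 171) (nat_lit 292) (nat_lit 257)) (XT.lf (nat_lit 336) (nat_lit 19721805844) (nat_lit 0) (nat_lit 2094598731) (nat_lit 252) (nat_lit 2094598731) (nat_lit 66) (nat_lit 1) (nat_lit 62) (nat_lit 1) (nat_lit 65) (nat_lit 1) (nat_lit 172) (nat_lit 292) (nat_lit 256)))))) (XT.nd (nat_lit 658) (nat_lit 756) (nat_lit 0) (XT.nd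 (nat_lit 282) (nat_lit 588) (nat_lit 0) (XT.nd (nat_lit 94) (nat_lit 168) (nat_lit 0) (XT.lf (nat_lit 84) (nat_lit 6888358642) (nat_lit 0) (nat_lit 9690125293) (nat_lit 336) (nat_lit 6888358642) (nat_lit 63) (nat_lit 1) (nat_lit 62) (nat_lit 1) (nat_lit 66) (nat_lit 1) (nat_lit 173) (nat_lit 292) (nat_lit 255)) (XT.nd (nat_lit 94) (nat_lit 0) (nat_lit 0) (XT.lf (nat_lit 252) (nat_lit 7958435836) (nat_lit 0) (nat_lit 7538977015) (nat_lit 168) (nat_lit 7538977015) (nat_lit 63) (nat_lit 1) (nat_lit 60) (nat_lit 1) (nat_lit 62) (nat_lit 1) (nat_lit 174) (nat_lit 292) (nat_lit 254)) (XT.lf (nat_lit 84) (nat_lit 1143374624) (nat_lit 0) (nat_lit 20333472982) (nat_lit 252) (nat_lit 1143374624) (nat_lit 61) (nat_lit 1) (nat_lit 60) (nat_lit 1) (nat_lit 63) (nat_lit 1) (nat_lit 175) (nat_lit 292) (nat_lit 253)))) (XT.nd (nat_lit 188) (nat_lit 168) (nat_lit 0) (XT.nd (nat_lit 94) (nat_lit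 168) (nat_lit 0) (XT.lf (nat_lit 84) (nat_lit 9436471373) (nat_lit 0) (nat_lit 3332624646) (nat_lit 252) (nat_lit 9436471373) (nat_lit 58) (nat_lit 1) (nat_lit 57) (nat_lit 1) (nat_lit 60) (nat_lit 1) (nat_lit 176) (nat_lit 292) (nat_lit 252)) (XT.lf (nat_lit 252) (nat_lit 13104194386) (nat_lit 0) (nat_lit 4350237490) (nat_lit 168) (nat_lit 4350237490) (nat_lit 58) (nat_lit 1) (nat_lit 55) (nat_lit 1) (nat_lit 57) (nat_lit 1) (nat_lit 177) (nat_lit 292) (nat_lit 251))) (XT.nd (nat_lit 94) (nat_lit 168) (nat_lit 0) (XT.lf (nat_lit 84) (nat_lit 3697662734) (nat_lit 0) (nat_lit 14017306595) (nat_lit 252) (nat_lit 3697662734) (nat_lit 56) (nat_lit 1) (nat_lit 55) (nat_lit 1) (nat_lit 58) (nat_lit 1) (nat_lit 178) (nat_lit 292) (nat_lit 250)) (XT.lf (nat_lit 252) (nat_lit 1732221862) (nat_lit 0) (nat_lit 9648137680) (nat_lit 168) (nat_lit 9648137680) (nat_lit 56) (nat_lit 1)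 (nat_lit 53) (nat_lit 1) (nat_lit 55) (nat_lit 1) (nat_lit 179) (nat_lit 292) (nat_lit 249))))) (XT.nd (nat_lit 282) (nat_lit 336) (nat_lit 0) (XT.nd (nat_lit 94) (nat_lit 168) (nat_lit 0) (XT.lf (nat_lit 252) (nat_lit 17025395559) (nat_lit 0) (nat_lit 1815048714) (nat_lit 168) (nat_lit 1815048714) (nat_lit 53) (nat_lit 1) (nat_lit 50) (nat_lit 1) (nat_lit 52) (nat_lit 1) (nat_lit 180) (nat_lit 292) (nat_lit 248)) (XT.nd (nat_lit 94) (nat_lit 168) (nat_lit 0) (XT.lf (nat_lit 84) (nat_lit 5667795903) (nat_lit 0) (nat_lit 8950080495) (nat_lit 252) (nat_lit 5667795903) (nat_lit 51) (nat_lit 1) (nat_lit 50) (nat_lit 1) (nat_lit 53) (nat_lit 1) (nat_lit 181) (nat_lit 292) (nat_lit 247)) (XT.lf (nat_lit 252) (nat_lit 5772374952) (nat_lit 0) (nat_lit 7077106534) (nat_lit 168) (nat_lit 7077106534) (nat_lit 51) (nat_lit 1) (nat_lit 48) (nat_lit 1) (nat_lit 50) (nat_lit 1) (nat_lit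 182) (nat_lit 292) (nat_lit 246)))) (XT.nd (nat_lit 188) (nat_lit 168) (nat_lit 0) (XT.nd (nat_lit 94) (nat_lit 168) (nat_lit 0) (XT.lf (nat_lit 84) (nat_lit 189722044) (nat_lit 0) (nat_lit 19200652757) (nat_lit 252) (nat_lit 189722044) (nat_lit 49) (nat_lit 1) (nat_lit 48) (nat_lit 1) (nat_lit 51) (nat_lit 1) (nat_lit 183) (nat_lit 292) (nat_lit 245)) (XT.lf (nat_lit 84) (nat_lit 7163595069) (nat_lit 0) (nat_lit 4904213057) (nat_lit 168) (nat_lit 7163595069) (nat_lit 47) (nat_lit 1) (nat_lit 46) (nat_lit 1) (nat_lit 48) (nat_lit 1) (nat_lit 184) (nat_lit 292) (nat_lit 244))) (XT.nd (nat_lit 94) (nat_lit 0) (nat_lit 0) (XT.lf (nat_lit 252) (nat_lit 8889205958) (nat_lit 0) (nat_lit 5002886191) (nat_lit 168) (nat_lit 5002886191) (nat_lit 47) (nat_lit 1) (nat_lit 44) (nat_lit 1) (nat_lit 46) (nat_lit 1) (nat_lit 185) (nat_lit 292) (nat_lit 243)) (XT.lf (nat_lit 84) (nat_lit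 1782224359) (nat_lit 0) (nat_lit 15003185729) (nat_lit 252) (nat_lit 1782224359) (nat_lit 45) (nat_lit 1) (nat_lit 44) (nat_lit 1) (nat_lit 47) (nat_lit 1) (nat_lit 186) (nat_lit 292) (nat_lit 242))))))))
noncomputable def ec153 : XT := (XT.nd (nat_lit 2538) (nat_lit 1176) (nat_lit 0) (XT.nd (nat_lit 1222) (nat_lit 1092) (nat_lit 0) (XT.nd (nat_lit 564) (nat_lit 756) (nat_lit 0) (XT.nd (nat_lit 282) (nat_lit 336) (nat_lit 0) (XT.nd (nat_lit 94) (nat_lit 168) (nat_lit 0) (XT.lf (nat_lit 84) (nat_lit 8275112489) (nat_lit 0) (nat_lit 1692765062) (nat_lit 168) (nat_lit 8275112489) (nat_lit 43) (nat_lit 1) (nat_lit 42) (nat_lit 1) (nat_lit 44) (nat_lit 1) (nat_lit 187) (nat_lit 292) (nat_lit 241)) (XT.nd (nat_lit 94) (nat_lit 0) (nat_lit 0) (XT.lf (nat_lit 252) (nat_lit 11256275359) (nat_lit 0) (nat_lit 3335442214) (nat_lit 168) (nat_lit 3335442214) (nat_lit 43) (nat_lit 1) (nat_lit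 40) (nat_lit 1) (nat_lit 42) (nat_lit 1) (nat_lit 188) (nat_lit 292) (nat_lit 240)) (XT.lf (nat_lit 84) (nat_lit 3014944737) (nat_lit 0) (nat_lit 11587692495) (nat_lit 252) (nat_lit 3014944737) (nat_lit 41) (nat_lit 1) (nat_lit 40) (nat_lit 1) (nat_lit 43) (nat_lit 1) (nat_lit 189) (nat_lit 292) (nat_lit 239)))) (XT.nd (nat_lit 94) (nat_lit 252) (nat_lit 0) (XT.lf (nat_lit 168) (nat_lit 865480840) (nat_lit 0) (nat_lit 8224182596) (nat_lit 84) (nat_lit 8224182596) (nat_lit 41) (nat_lit 1) (nat_lit 39) (nat_lit 1) (nat_lit 40) (nat_lit 1) (nat_lit 190) (nat_lit 292) (nat_lit 238)) (XT.nd (nat_lit 94) (nat_lit 0) (nat_lit 0) (XT.lf (nat_lit 252) (nat_lit 13015902374) (nat_lit 0) (nat_lit 2000795957) (nat_lit 168) (nat_lit 2000795957) (nat_lit 39) (nat_lit 1) (nat_lit 36) (nat_lit 1) (nat_lit 38) (nat_lit 1) (nat_lit 191) (nat_lit 292) (nat_lit 237)) (XT.lf (nat_lit 84) (nat_lit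 3955359016) (nat_lit 0) (nat_lit 8813732307) (nat_lit 252) (nat_lit 3955359016) (nat_lit 37) (nat_lit 1) (nat_lit 36) (nat_lit 1) (nat_lit 39) (nat_lit 1) (nat_lit 192) (nat_lit 292) (nat_lit 236))))) (XT.nd (nat_lit 282) (nat_lit 420) (nat_lit 0) (XT.nd (nat_lit 94) (nat_lit 252) (nat_lit 0) (XT.lf (nat_lit 168) (nat_lit 2906480735) (nat_lit 0) (nat_lit 6766055375) (nat_lit 84) (nat_lit 6766055375) (nat_lit 37) (nat_lit 1) (nat_lit 35) (nat_lit 1) (nat_lit 36) (nat_lit 1) (nat_lit 193) (nat_lit 292) (nat_lit 235)) (XT.nd (nat_lit 94) (nat_lit 0) (nat_lit 0) (XT.lf (nat_lit 252) (nat_lit 14284726313) (nat_lit 0) (nat_lit 938173493) (nat_lit 168) (nat_lit 938173493) (nat_lit 35) (nat_lit 1) (nat_lit 32) (nat_lit 1) (nat_lit 34) (nat_lit 1) (nat_lit 194) (nat_lit 292) (nat_lit 234)) (XT.lf (nat_lit 84) (nat_lit 4658804146) (nat_lit 0) (nat_lit 6565849871) (nat_lit 252) (nat_lit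 4658804146) (nat_lit 33) (nat_lit 1) (nat_lit 32) (nat_lit 1) (nat_lit 35) (nat_lit 1) (nat_lit 195) (nat_lit 292) (nat_lit 233)))) (XT.nd (nat_lit 188) (nat_lit 84) (nat_lit 0) (XT.nd (nat_lit 94) (nat_lit 252) (nat_lit 0) (XT.lf (nat_lit 168) (nat_lit 4481118898) (nat_lit 0) (nat_lit 5566450501) (nat_lit 84) (nat_lit 5566450501) (nat_lit 33) (nat_lit 1) (nat_lit 31) (nat_lit 1) (nat_lit 32) (nat_lit 1) (nat_lit 196) (nat_lit 292) (nat_lit 232)) (XT.lf (nat_lit 252) (nat_lit 15158280850) (nat_lit 0) (nat_lit 97660233) (nat_lit 168) (nat_lit 97660233) (nat_lit 31) (nat_lit 1) (nat_lit 28) (nat_lit 1) (nat_lit 30) (nat_lit 1) (nat_lit 197) (nat_lit 292) (nat_lit 231))) (XT.nd (nat_lit 94) (nat_lit 84) (nat_lit 0) (XT.lf (nat_lit 84) (nat_lit 5170638744) (nat_lit 0) (nat_lit 4749141405) (nat_lit 252) (nat_lit 5170638744) (nat_lit 29) (nat_lit 1) (nat_lit 28) (nat_lit 1) (nat_lit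 31) (nat_lit 1) (nat_lit 198) (nat_lit 292) (nat_lit 230)) (XT.lf (nat_lit 168) (nat_lit 5677056184) (nat_lit 0) (nat_lit 4579532603) (nat_lit 84) (nat_lit 4579532603) (nat_lit 29) (nat_lit 1) (nat_lit 27) (nat_lit 1) (nat_lit 28) (nat_lit 1) (nat_lit 199) (nat_lit 292) (nat_lit 229)))))) (XT.nd (nat_lit 658) (nat_lit 588) (nat_lit 0) (XT.nd (nat_lit 282) (nat_lit 252) (nat_lit 0) (XT.nd (nat_lit 94) (nat_lit 252) (nat_lit 0) (XT.lf (nat_lit 0) (nat_lit 570937080) (nat_lit 0) (nat_lit 13447627394) (nat_lit 168) (nat_lit 570937080) (nat_lit 27) (nat_lit 3) (nat_lit 27) (nat_lit 1) (nat_lit 29) (nat_lit 1) (nat_lit 200) (nat_lit 292) (nat_lit 228)) (XT.nd (nat_lit 94) (nat_lit 84) (nat_lit 0) (XT.lf (nat_lit 84) (nat_lit 5528020189) (nat_lit 0) (nat_lit 3285607022) (nat_lit 168) (nat_lit 5528020189) (nat_lit 26) (nat_lit 1) (nat_lit 25) (nat_lit 1) (nat_lit 27) (nat_lit 1)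 (nat_lit 201) (nat_lit 292) (nat_lit 227)) (XT.lf (nat_lit 168) (nat_lit 6566174435) (nat_lit 0) (nat_lit 3767592806) (nat_lit 84) (nat_lit 3767592806) (nat_lit 26) (nat_lit 1) (nat_lit 24) (nat_lit 1) (nat_lit 25) (nat_lit 1) (nat_lit 202) (nat_lit 292) (nat_lit 226)))) (XT.nd (nat_lit 188) (nat_lit 84) (nat_lit 0) (XT.nd (nat_lit 94) (nat_lit 168) (nat_lit 0) (XT.lf (nat_lit 0) (nat_lit 1091234714) (nat_lit 0) (nat_lit 11684919702) (nat_lit 168) (nat_lit 1091234714) (nat_lit 24) (nat_lit 3) (nat_lit 24) (nat_lit 1) (nat_lit 26) (nat_lit 1) (nat_lit 203) (nat_lit 292) (nat_lit 225)) (XT.lf (nat_lit 84) (nat_lit 5761366269) (nat_lit 0) (nat_lit 2111150014) (nat_lit 168) (nat_lit 5761366269) (nat_lit 23) (nat_lit 1) (nat_lit 22) (nat_lit 1) (nat_lit 24) (nat_lit 1) (nat_lit 204) (nat_lit 292) (nat_lit 224))) (XT.nd (nat_lit 94) (nat_lit 0) (nat_lit 0) (XT.lf (nat_lit 168)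 (nat_lit 7207385351) (nat_lit 0) (nat_lit 3099607925) (nat_lit 84) (nat_lit 3099607925) (nat_lit 23) (nat_lit 1) (nat_lit 21) (nat_lit 1) (nat_lit 22) (nat_lit 1) (nat_lit 205) (nat_lit 292) (nat_lit 223)) (XT.lf (nat_lit 0) (nat_lit 1489688514) (nat_lit 0) (nat_lit 10205139371) (nat_lit 168) (nat_lit 1489688514) (nat_lit 21) (nat_lit 3) (nat_lit 21) (nat_lit 1) (nat_lit 23) (nat_lit 1) (nat_lit 206) (nat_lit 292) (nat_lit 222))))) (XT.nd (nat_lit 282) (nat_lit 336) (nat_lit 0) (XT.nd (nat_lit 94) (nat_lit 84) (nat_lit 0) (XT.lf (nat_lit 84) (nat_lit 5895557316) (nat_lit 0) (nat_lit 1173108327) (nat_lit 168) (nat_lit 5895557316) (nat_lit 20) (nat_lit 1) (nat_lit 19) (nat_lit 1) (nat_lit 21) (nat_lit 1) (nat_lit 207) (nat_lit 292) (nat_lit 221)) (XT.nd (nat_lit 94) (nat_lit 0) (nat_lit 0) (XT.lf (nat_lit 168) (nat_lit 7648940807) (nat_lit 0) (nat_lit 2550055111) (nat_lit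 84) (nat_lit 2550055111) (nat_lit 20) (nat_lit 1) (nat_lit 18) (nat_lit 1) (nat_lit 19) (nat_lit 1) (nat_lit 208) (nat_lit 292) (nat_lit 220)) (XT.lf (nat_lit 0) (nat_lit 1789310440) (nat_lit 0) (nat_lit 8959533430) (nat_lit 168) (nat_lit 1789310440) (nat_lit 18) (nat_lit 3) (nat_lit 18) (nat_lit 1) (nat_lit 20) (nat_lit 1) (nat_lit 209) (nat_lit 292) (nat_lit 219)))) (XT.nd (nat_lit 188) (nat_lit 84) (nat_lit 0) (XT.nd (nat_lit 94) (nat_lit 84) (nat_lit 0) (XT.lf (nat_lit 84) (nat_lit 5950924858) (nat_lit 0) (nat_lit 428223873) (nat_lit 168) (nat_lit 5950924858) (nat_lit 17) (nat_lit 1) (nat_lit 16) (nat_lit 1) (nat_lit 18) (nat_lit 1) (nat_lit 210) (nat_lit 292) (nat_lit 218)) (XT.lf (nat_lit 168) (nat_lit 7930333047) (nat_lit 0) (nat_lit 2097936651) (nat_lit 84) (nat_lit 2097936651) (nat_lit 17) (nat_lit 1) (nat_lit 15) (nat_lit 1) (nat_lit 16) (nat_lit 1) (nat_lit 211)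 (nat_lit 292) (nat_lit 217))) (XT.nd (nat_lit 94) (nat_lit 84) (nat_lit 0) (XT.lf (nat_lit 0) (nat_lit 2008965379) (nat_lit 0) (nat_lit 7907925577) (nat_lit 168) (nat_lit 2008965379) (nat_lit 15) (nat_lit 3) (nat_lit 15) (nat_lit 1) (nat_lit 17) (nat_lit 1) (nat_lit 212) (nat_lit 292) (nat_lit 216)) (XT.lf (nat_lit 84) (nat_lit 164286153) (nat_lit 0) (nat_lit 5782343484) (nat_lit 84) (nat_lit 5782343484) (nat_lit 15) (nat_lit 3) (nat_lit 14) (nat_lit 1) (nat_lit 15) (nat_lit 1) (nat_lit 213) (nat_lit 292) (nat_lit 215))))))) (XT.nd (nat_lit 1222) (nat_lit 0) (nat_lit 0) (XT.nd (nat_lit 564) (nat_lit 672) (nat_lit 0) (XT.nd (nat_lit 282) (nat_lit 252) (nat_lit 0) (XT.nd (nat_lit 94) (nat_lit 84) (nat_lit 0) (XT.lf (nat_lit 168) (nat_lit 8083857495) (nat_lit 0) (nat_lit 1725977674) (nat_lit 84) (nat_lit 1725977674) (nat_lit 14) (nat_lit 1) (nat_lit 12) (nat_lit 1) (nat_lit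 13) (nat_lit 1) (nat_lit 214) (nat_lit 292) (nat_lit 214)) (XT.nd (nat_lit 94) (nat_lit 84) (nat_lit 0) (XT.lf (nat_lit 0) (nat_lit 2164109599) (nat_lit 0) (nat_lit 7017198753) (nat_lit 168) (nat_lit 2164109599) (nat_lit 12) (nat_lit 3) (nat_lit 12) (nat_lit 1) (nat_lit 14) (nat_lit 1) (nat_lit 215) (nat_lit 292) (nat_lit 213)) (XT.lf (nat_lit 84) (nat_lit 638240196) (nat_lit 0) (nat_lit 5260229866) (nat_lit 84) (nat_lit 5260229866) (nat_lit 12) (nat_lit 3) (nat_lit 11) (nat_lit 1) (nat_lit 12) (nat_lit 1) (nat_lit 216) (nat_lit 292) (nat_lit 212)))) (XT.nd (nat_lit 94) (nat_lit 84) (nat_lit 0) (XT.lf (nat_lit 168) (nat_lit 8135898017) (nat_lit 0) (nat_lit 1419966104) (nat_lit 84) (nat_lit 1419966104) (nat_lit 11) (nat_lit 1) (nat_lit 9) (nat_lit 1) (nat_lit 10) (nat_lit 1) (nat_lit 217) (nat_lit 292) (nat_lit 211)) (XT.nd (nat_lit 94) (nat_lit 84) (nat_lit 0) (XT.lf (nat_lit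 0) (nat_lit 2267398142) (nat_lit 0) (nat_lit 6260046599) (nat_lit 168) (nat_lit 2267398142) (nat_lit 9) (nat_lit 3) (nat_lit 9) (nat_lit 1) (nat_lit 11) (nat_lit 1) (nat_lit 218) (nat_lit 292) (nat_lit 210)) (XT.lf (nat_lit 84) (nat_lit 1004207095) (nat_lit 0) (nat_lit 4806729435) (nat_lit 84) (nat_lit 4806729435) (nat_lit 9) (nat_lit 3) (nat_lit 8) (nat_lit 1) (nat_lit 9) (nat_lit 1) (nat_lit 219) (nat_lit 292) (nat_lit 209))))) (XT.nd (nat_lit 282) (nat_lit 420) (nat_lit 0) (XT.nd (nat_lit 94) (nat_lit 84) (nat_lit 0) (XT.lf (nat_lit 168) (nat_lit 8107983861) (nat_lit 0) (nat_lit 1168209628) (nat_lit 84) (nat_lit 1168209628) (nat_lit 8) (nat_lit 1) (nat_lit 6) (nat_lit 1) (nat_lit 7) (nat_lit 1) (nat_lit 220) (nat_lit 292) (nat_lit 208)) (XT.nd (nat_lit 94) (nat_lit 84) (nat_lit 0) (XT.lf (nat_lit 0) (nat_lit 2329184367) (nat_lit 0) (nat_lit 5613946134) (nat_lit 168) (nat_lit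 2329184367) (nat_lit 6) (nat_lit 3) (nat_lit 6) (nat_lit 1) (nat_lit 8) (nat_lit 1) (nat_lit 221) (nat_lit 292) (nat_lit 207)) (XT.lf (nat_lit 84) (nat_lit 1282473478) (nat_lit 0) (nat_lit 4410818017) (nat_lit 84) (nat_lit 4410818017) (nat_lit 6) (nat_lit 3) (nat_lit 5) (nat_lit 1) (nat_lit 6) (nat_lit 1) (nat_lit 222) (nat_lit 292) (nat_lit 206)))) (XT.nd (nat_lit 188) (nat_lit 252) (nat_lit 0) (XT.nd (nat_lit 94) (nat_lit 0) (nat_lit 0) (XT.lf (nat_lit 168) (nat_lit 8017658796) (nat_lit 0) (nat_lit 961088952) (nat_lit 84) (nat_lit 961088952) (nat_lit 5) (nat_lit 1) (nat_lit 3) (nat_lit 1) (nat_lit 4) (nat_lit 1) (nat_lit 223) (nat_lit 292) (nat_lit 205)) (XT.lf (nat_lit 0) (nat_lit 2357930795) (nat_lit 0) (nat_lit 5060312429) (nat_lit 168) (nat_lit 2357930795) (nat_lit 3) (nat_lit 3) (nat_lit 3) (nat_lit 1) (nat_lit 5) (nat_lit 1) (nat_lit 224) (nat_lit 292) (nat_lit 204)))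 (XT.nd (nat_lit 94) (nat_lit 168) (nat_lit 0) (XT.lf (nat_lit 84) (nat_lit 1489674880) (nat_lit 0) (nat_lit 4063371675) (nat_lit 84) (nat_lit 4063371675) (nat_lit 3) (nat_lit 3) (nat_lit 2) (nat_lit 1) (nat_lit 3) (nat_lit 1) (nat_lit 225) (nat_lit 292) (nat_lit 203)) (XT.lf (nat_lit 0) (nat_lit 13743265735) (nat_lit 0) (nat_lit 0) (nat_lit 0) (nat_lit 0) (nat_lit 0) (nat_lit 0) (nat_lit 1) (nat_lit 0) (nat_lit 1) (nat_lit 0) (nat_lit 226) (nat_lit 292) (nat_lit 202)))))) (XT.nd (nat_lit 658) (nat_lit 0) (nat_lit 0) (XT.nd (nat_lit 282) (nat_lit 0) (nat_lit 0) (XT.nd (nat_lit 94) (nat_lit 0) (nat_lit 0) (XT.lf (nat_lit 0) (nat_lit 13735258415) (nat_lit 0) (nat_lit 0) (nat_lit 0) (nat_lit 0) (nat_lit 0) (nat_lit 0) (nat_lit 1) (nat_lit 0) (nat_lit 1) (nat_lit 0) (nat_lit 227) (nat_lit 292) (nat_lit 201)) (XT.nd (nat_lit 94) (nat_lit 0) (nat_lit 0) (XT.lf (nat_lit 0) (nat_lit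 13727632395) (nat_lit 0) (nat_lit 0) (nat_lit 0) (nat_lit 0) (nat_lit 0) (nat_lit 0) (nat_lit 1) (nat_lit 0) (nat_lit 1) (nat_lit 0) (nat_lit 228) (nat_lit 292) (nat_lit 200)) (XT.lf (nat_lit 0) (nat_lit 13720369519) (nat_lit 0) (nat_lit 0) (nat_lit 0) (nat_lit 0) (nat_lit 0) (nat_lit 0) (nat_lit 1) (nat_lit 0) (nat_lit 1) (nat_lit 0) (nat_lit 229) (nat_lit 292) (nat_lit 199)))) (XT.nd (nat_lit 188) (nat_lit 0) (nat_lit 0) (XT.nd (nat_lit 94) (nat_lit 0) (nat_lit 0) (XT.lf (nat_lit 0) (nat_lit 13713452495) (nat_lit 0) (nat_lit 0) (nat_lit 0) (nat_lit 0) (nat_lit 0) (nat_lit 0) (nat_lit 1) (nat_lit 0) (nat_lit 1) (nat_lit 0) (nat_lit 230) (nat_lit 292) (nat_lit 198)) (XT.lf (nat_lit 0) (nat_lit 13706864852) (nat_lit 0) (nat_lit 0) (nat_lit 0) (nat_lit 0) (nat_lit 0) (nat_lit 0) (nat_lit 1) (nat_lit 0) (nat_lit 1) (nat_lit 0) (nat_lit 231) (nat_lit 292) (nat_lit 197))) (XT.nd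 (nat_lit 94) (nat_lit 0) (nat_lit 0) (XT.lf (nat_lit 0) (nat_lit 13700590907) (nat_lit 0) (nat_lit 0) (nat_lit 0) (nat_lit 0) (nat_lit 0) (nat_lit 0) (nat_lit 1) (nat_lit 0) (nat_lit 1) (nat_lit 0) (nat_lit 232) (nat_lit 292) (nat_lit 196)) (XT.lf (nat_lit 0) (nat_lit 13694615721) (nat_lit 0) (nat_lit 0) (nat_lit 0) (nat_lit 0) (nat_lit 0) (nat_lit 0) (nat_lit 1) (nat_lit 0) (nat_lit 1) (nat_lit 0) (nat_lit 233) (nat_lit 292) (nat_lit 195))))) (XT.nd (nat_lit 282) (nat_lit 0) (nat_lit 0) (XT.nd (nat_lit 94) (nat_lit 0) (nat_lit 0) (XT.lf (nat_lit 0) (nat_lit 13688925068) (nat_lit 0) (nat_lit 0) (nat_lit 0) (nat_lit 0) (nat_lit 0) (nat_lit 0) (nat_lit 1) (nat_lit 0) (nat_lit 1) (nat_lit 0) (nat_lit 234) (nat_lit 292) (nat_lit 194)) (XT.nd (nat_lit 94) (nat_lit 0) (nat_lit 0) (XT.lf (nat_lit 0) (nat_lit 13683505399) (nat_lit 0) (nat_lit 0) (nat_lit 0) (nat_lit 0) (nat_lit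 0) (nat_lit 0) (nat_lit 1) (nat_lit 0) (nat_lit 1) (nat_lit 0) (nat_lit 235) (nat_lit 292) (nat_lit 193)) (XT.lf (nat_lit 0) (nat_lit 13678343808) (nat_lit 0) (nat_lit 0) (nat_lit 0) (nat_lit 0) (nat_lit 0) (nat_lit 0) (nat_lit 1) (nat_lit 0) (nat_lit 1) (nat_lit 0) (nat_lit 236) (nat_lit 292) (nat_lit 192)))) (XT.nd (nat_lit 188) (nat_lit 0) (nat_lit 0) (XT.nd (nat_lit 94) (nat_lit 0) (nat_lit 0) (XT.lf (nat_lit 0) (nat_lit 13673428008) (nat_lit 0) (nat_lit 0) (nat_lit 0) (nat_lit 0) (nat_lit 0) (nat_lit 0) (nat_lit 1) (nat_lit 0) (nat_lit 1) (nat_lit 0) (nat_lit 237) (nat_lit 292) (nat_lit 191)) (XT.lf (nat_lit 0) (nat_lit 13668746294) (nat_lit 0) (nat_lit 0) (nat_lit 0) (nat_lit 0) (nat_lit 0) (nat_lit 0) (nat_lit 1) (nat_lit 0) (nat_lit 1) (nat_lit 0) (nat_lit 238) (nat_lit 292) (nat_lit 190))) (XT.nd (nat_lit 94) (nat_lit 0) (nat_lit 0) (XT.lf (nat_lit 0) (nat_lit 13664287518)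 (nat_lit 0) (nat_lit 0) (nat_lit 0) (nat_lit 0) (nat_lit 0) (nat_lit 0) (nat_lit 1) (nat_lit 0) (nat_lit 1) (nat_lit 0) (nat_lit 239) (nat_lit 292) (nat_lit 189)) (XT.lf (nat_lit 0) (nat_lit 13660041065) (nat_lit 0) (nat_lit 0) (nat_lit 0) (nat_lit 0) (nat_lit 0) (nat_lit 0) (nat_lit 1) (nat_lit 0) (nat_lit 1) (nat_lit 0) (nat_lit 240) (nat_lit 292) (nat_lit 188))))))))
noncomputable def ec154 : XT := (XT.nd (nat_lit 2538) (nat_lit 0) (nat_lit 0) (XT.nd (nat_lit 1222) (nat_lit 0) (nat_lit 0) (XT.nd (nat_lit 564) (nat_lit 0) (nat_lit 0) (XT.nd (nat_lit 282) (nat_lit 0) (nat_lit 0) (XT.nd (nat_lit 94) (nat_lit 0) (nat_lit 0) (XT.lf (nat_lit 0) (nat_lit 13655996824) (nat_lit 0) (nat_lit 0) (nat_lit 0) (nat_lit 0) (nat_lit 0) (nat_lit 0) (nat_lit 1) (nat_lit 0) (nat_lit 1) (nat_lit 0) (nat_lit 241) (nat_lit 292) (nat_lit 187)) (XT.nd (nat_lit 94) (nat_lit 0) (nat_lit 0) (XT.lf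 (nat_lit 0) (nat_lit 13652145166) (nat_lit 0) (nat_lit 0) (nat_lit 0) (nat_lit 0) (nat_lit 0) (nat_lit 0) (nat_lit 1) (nat_lit 0) (nat_lit 1) (nat_lit 0) (nat_lit 242) (nat_lit 292) (nat_lit 186)) (XT.lf (nat_lit 0) (nat_lit 13648476920) (nat_lit 0) (nat_lit 0) (nat_lit 0) (nat_lit 0) (nat_lit 0) (nat_lit 0) (nat_lit 1) (nat_lit 0) (nat_lit 1) (nat_lit 0) (nat_lit 243) (nat_lit 292) (nat_lit 185)))) (XT.nd (nat_lit 94) (nat_lit 0) (nat_lit 0) (XT.lf (nat_lit 0) (nat_lit 13644983353) (nat_lit 0) (nat_lit 0) (nat_lit 0) (nat_lit 0) (nat_lit 0) (nat_lit 0) (nat_lit 1) (nat_lit 0) (nat_lit 1) (nat_lit 0) (nat_lit 244) (nat_lit 292) (nat_lit 184)) (XT.nd (nat_lit 94) (nat_lit 0) (nat_lit 0) (XT.lf (nat_lit 0) (nat_lit 13641656146) (nat_lit 0) (nat_lit 0) (nat_lit 0) (nat_lit 0) (nat_lit 0) (nat_lit 0) (nat_lit 1) (nat_lit 0) (nat_lit 1) (nat_lit 0) (nat_lit 245) (nat_lit 292)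 (nat_lit 183)) (XT.lf (nat_lit 0) (nat_lit 13638487377) (nat_lit 0) (nat_lit 0) (nat_lit 0) (nat_lit 0) (nat_lit 0) (nat_lit 0) (nat_lit 1) (nat_lit 0) (nat_lit 1) (nat_lit 0) (nat_lit 246) (nat_lit 292) (nat_lit 182))))) (XT.nd (nat_lit 282) (nat_lit 0) (nat_lit 0) (XT.nd (nat_lit 94) (nat_lit 0) (nat_lit 0) (XT.lf (nat_lit 0) (nat_lit 13635469502) (nat_lit 0) (nat_lit 0) (nat_lit 0) (nat_lit 0) (nat_lit 0) (nat_lit 0) (nat_lit 1) (nat_lit 0) (nat_lit 1) (nat_lit 0) (nat_lit 247) (nat_lit 292) (nat_lit 181)) (XT.nd (nat_lit 94) (nat_lit 0) (nat_lit 0) (XT.lf (nat_lit 0) (nat_lit 13632595336) (nat_lit 0) (nat_lit 0) (nat_lit 0) (nat_lit 0) (nat_lit 0) (nat_lit 0) (nat_lit 1) (nat_lit 0) (nat_lit 1) (nat_lit 0) (nat_lit 248) (nat_lit 292) (nat_lit 180)) (XT.lf (nat_lit 0) (nat_lit 13629858034) (nat_lit 0) (nat_lit 0) (nat_lit 0) (nat_lit 0) (nat_lit 0) (nat_lit 0) (nat_lit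 1) (nat_lit 0) (nat_lit 1) (nat_lit 0) (nat_lit 249) (nat_lit 292) (nat_lit 179)))) (XT.nd (nat_lit 188) (nat_lit 0) (nat_lit 0) (XT.nd (nat_lit 94) (nat_lit 0) (nat_lit 0) (XT.lf (nat_lit 0) (nat_lit 13627251081) (nat_lit 0) (nat_lit 0) (nat_lit 0) (nat_lit 0) (nat_lit 0) (nat_lit 0) (nat_lit 1) (nat_lit 0) (nat_lit 1) (nat_lit 0) (nat_lit 250) (nat_lit 292) (nat_lit 178)) (XT.lf (nat_lit 0) (nat_lit 13624768268) (nat_lit 0) (nat_lit 0) (nat_lit 0) (nat_lit 0) (nat_lit 0) (nat_lit 0) (nat_lit 1) (nat_lit 0) (nat_lit 1) (nat_lit 0) (nat_lit 251) (nat_lit 292) (nat_lit 177))) (XT.nd (nat_lit 94) (nat_lit 0) (nat_lit 0) (XT.lf (nat_lit 0) (nat_lit 13622403684) (nat_lit 0) (nat_lit 0) (nat_lit 0) (nat_lit 0) (nat_lit 0) (nat_lit 0) (nat_lit 1) (nat_lit 0) (nat_lit 1) (nat_lit 0) (nat_lit 252) (nat_lit 292) (nat_lit 176)) (XT.lf (nat_lit 0) (nat_lit 13620151699) (nat_lit 0)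 (nat_lit 0) (nat_lit 0) (nat_lit 0) (nat_lit 0) (nat_lit 0) (nat_lit 1) (nat_lit 0) (nat_lit 1) (nat_lit 0) (nat_lit 253) (nat_lit 292) (nat_lit 175)))))) (XT.nd (nat_lit 658) (nat_lit 0) (nat_lit 0) (XT.nd (nat_lit 282) (nat_lit 0) (nat_lit 0) (XT.nd (nat_lit 94) (nat_lit 0) (nat_lit 0) (XT.lf (nat_lit 0) (nat_lit 13618006952) (nat_lit 0) (nat_lit 0) (nat_lit 0) (nat_lit 0) (nat_lit 0) (nat_lit 0) (nat_lit 1) (nat_lit 0) (nat_lit 1) (nat_lit 0) (nat_lit 254) (nat_lit 292) (nat_lit 174)) (XT.nd (nat_lit 94) (nat_lit 0) (nat_lit 0) (XT.lf (nat_lit 0) (nat_lit 13615964335) (nat_lit 0) (nat_lit 0) (nat_lit 0) (nat_lit 0) (nat_lit 0) (nat_lit 0) (nat_lit 1) (nat_lit 0) (nat_lit 1) (nat_lit 0) (nat_lit 255) (nat_lit 292) (nat_lit 173)) (XT.lf (nat_lit 0) (nat_lit 13614018986) (nat_lit 0) (nat_lit 0) (nat_lit 0) (nat_lit 0) (nat_lit 0) (nat_lit 0) (nat_lit 1) (nat_lit 0) (nat_lit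 1) (nat_lit 0) (nat_lit 256) (nat_lit 292) (nat_lit 172)))) (XT.nd (nat_lit 188) (nat_lit 0) (nat_lit 0) (XT.nd (nat_lit 94) (nat_lit 0) (nat_lit 0) (XT.lf (nat_lit 0) (nat_lit 13612166273) (nat_lit 0) (nat_lit 0) (nat_lit 0) (nat_lit 0) (nat_lit 0) (nat_lit 0) (nat_lit 1) (nat_lit 0) (nat_lit 1) (nat_lit 0) (nat_lit 257) (nat_lit 292) (nat_lit 171)) (XT.lf (nat_lit 0) (nat_lit 13610401784) (nat_lit 0) (nat_lit 0) (nat_lit 0) (nat_lit 0) (nat_lit 0) (nat_lit 0) (nat_lit 1) (nat_lit 0) (nat_lit 1) (nat_lit 0) (nat_lit 258) (nat_lit 292) (nat_lit 170))) (XT.nd (nat_lit 94) (nat_lit 0) (nat_lit 0) (XT.lf (nat_lit 0) (nat_lit 13608721318) (nat_lit 0) (nat_lit 0) (nat_lit 0) (nat_lit 0) (nat_lit 0) (nat_lit 0) (nat_lit 1) (nat_lit 0) (nat_lit 1) (nat_lit 0) (nat_lit 259) (nat_lit 292) (nat_lit 169)) (XT.lf (nat_lit 0) (nat_lit 13607120875) (nat_lit 0) (nat_lit 0) (nat_lit 0)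 (nat_lit 0) (nat_lit 0) (nat_lit 0) (nat_lit 1) (nat_lit 0) (nat_lit 1) (nat_lit 0) (nat_lit 260) (nat_lit 292) (nat_lit 168))))) (XT.nd (nat_lit 282) (nat_lit 0) (nat_lit 0) (XT.nd (nat_lit 94) (nat_lit 0) (nat_lit 0) (XT.lf (nat_lit 0) (nat_lit 13605596643) (nat_lit 0) (nat_lit 0) (nat_lit 0) (nat_lit 0) (nat_lit 0) (nat_lit 0) (nat_lit 1) (nat_lit 0) (nat_lit 1) (nat_lit 0) (nat_lit 261) (nat_lit 292) (nat_lit 167)) (XT.nd (nat_lit 94) (nat_lit 0) (nat_lit 0) (XT.lf (nat_lit 0) (nat_lit 13604144993) (nat_lit 0) (nat_lit 0) (nat_lit 0) (nat_lit 0) (nat_lit 0) (nat_lit 0) (nat_lit 1) (nat_lit 0) (nat_lit 1) (nat_lit 0) (nat_lit 262) (nat_lit 292) (nat_lit 166)) (XT.lf (nat_lit 0) (nat_lit 13602762470) (nat_lit 0) (nat_lit 0) (nat_lit 0) (nat_lit 0) (nat_lit 0) (nat_lit 0) (nat_lit 1) (nat_lit 0) (nat_lit 1) (nat_lit 0) (nat_lit 263) (nat_lit 292) (nat_lit 165)))) (XT.nd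 (nat_lit 188) (nat_lit 0) (nat_lit 0) (XT.nd (nat_lit 94) (nat_lit 0) (nat_lit 0) (XT.lf (nat_lit 0) (nat_lit 13601445781) (nat_lit 0) (nat_lit 0) (nat_lit 0) (nat_lit 0) (nat_lit 0) (nat_lit 0) (nat_lit 1) (nat_lit 0) (nat_lit 1) (nat_lit 0) (nat_lit 264) (nat_lit 292) (nat_lit 164)) (XT.lf (nat_lit 0) (nat_lit 13600191792) (nat_lit 0) (nat_lit 0) (nat_lit 0) (nat_lit 0) (nat_lit 0) (nat_lit 0) (nat_lit 1) (nat_lit 0) (nat_lit 1) (nat_lit 0) (nat_lit 265) (nat_lit 292) (nat_lit 163))) (XT.nd (nat_lit 94) (nat_lit 0) (nat_lit 0) (XT.lf (nat_lit 0) (nat_lit 13598997516) (nat_lit 0) (nat_lit 0) (nat_lit 0) (nat_lit 0) (nat_lit 0) (nat_lit 0) (nat_lit 1) (nat_lit 0) (nat_lit 1) (nat_lit 0) (nat_lit 266) (nat_lit 292) (nat_lit 162)) (XT.lf (nat_lit 0) (nat_lit 13597860111) (nat_lit 0) (nat_lit 0) (nat_lit 0) (nat_lit 0) (nat_lit 0) (nat_lit 0) (nat_lit 1) (nat_lit 0) (nat_lit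 1) (nat_lit 0) (nat_lit 267) (nat_lit 292) (nat_lit 161))))))) (XT.nd (nat_lit 1222) (nat_lit 0) (nat_lit 0) (XT.nd (nat_lit 564) (nat_lit 0) (nat_lit 0) (XT.nd (nat_lit 282) (nat_lit 0) (nat_lit 0) (XT.nd (nat_lit 94) (nat_lit 0) (nat_lit 0) (XT.lf (nat_lit 0) (nat_lit 13596776868) (nat_lit 0) (nat_lit 0) (nat_lit 0) (nat_lit 0) (nat_lit 0) (nat_lit 0) (nat_lit 1) (nat_lit 0) (nat_lit 1) (nat_lit 0) (nat_lit 268) (nat_lit 292) (nat_lit 160)) (XT.nd (nat_lit 94) (nat_lit 0) (nat_lit 0) (XT.lf (nat_lit 0) (nat_lit 13595745208) (nat_lit 0) (nat_lit 0) (nat_lit 0) (nat_lit 0) (nat_lit 0) (nat_lit 0) (nat_lit 1) (nat_lit 0) (nat_lit 1) (nat_lit 0) (nat_lit 269) (nat_lit 292) (nat_lit 159)) (XT.lf (nat_lit 0) (nat_lit 13594762674) (nat_lit 0) (nat_lit 0) (nat_lit 0) (nat_lit 0) (nat_lit 0) (nat_lit 0) (nat_lit 1) (nat_lit 0) (nat_lit 1) (nat_lit 0) (nat_lit 270) (nat_lit 292)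 (nat_lit 158)))) (XT.nd (nat_lit 94) (nat_lit 0) (nat_lit 0) (XT.lf (nat_lit 0) (nat_lit 13593826928) (nat_lit 0) (nat_lit 0) (nat_lit 0) (nat_lit 0) (nat_lit 0) (nat_lit 0) (nat_lit 1) (nat_lit 0) (nat_lit 1) (nat_lit 0) (nat_lit 271) (nat_lit 292) (nat_lit 157)) (XT.nd (nat_lit 94) (nat_lit 0) (nat_lit 0) (XT.lf (nat_lit 0) (nat_lit 13592935741) (nat_lit 0) (nat_lit 0) (nat_lit 0) (nat_lit 0) (nat_lit 0) (nat_lit 0) (nat_lit 1) (nat_lit 0) (nat_lit 1) (nat_lit 0) (nat_lit 272) (nat_lit 292) (nat_lit 156)) (XT.lf (nat_lit 0) (nat_lit 13592086992) (nat_lit 0) (nat_lit 0) (nat_lit 0) (nat_lit 0) (nat_lit 0) (nat_lit 0) (nat_lit 1) (nat_lit 0) (nat_lit 1) (nat_lit 0) (nat_lit 273) (nat_lit 292) (nat_lit 155))))) (XT.nd (nat_lit 282) (nat_lit 0) (nat_lit 0) (XT.nd (nat_lit 94) (nat_lit 0) (nat_lit 0) (XT.lf (nat_lit 0) (nat_lit 13591278659) (nat_lit 0) (nat_lit 0) (nat_lit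 0) (nat_lit 0) (nat_lit 0) (nat_lit 0) (nat_lit 1) (nat_lit 0) (nat_lit 1) (nat_lit 0) (nat_lit 274) (nat_lit 292) (nat_lit 154)) (XT.nd (nat_lit 94) (nat_lit 0) (nat_lit 0) (XT.lf (nat_lit 0) (nat_lit 13590508819) (nat_lit 0) (nat_lit 0) (nat_lit 0) (nat_lit 0) (nat_lit 0) (nat_lit 0) (nat_lit 1) (nat_lit 0) (nat_lit 1) (nat_lit 0) (nat_lit 275) (nat_lit 292) (nat_lit 153)) (XT.lf (nat_lit 0) (nat_lit 13589775637) (nat_lit 0) (nat_lit 0) (nat_lit 0) (nat_lit 0) (nat_lit 0) (nat_lit 0) (nat_lit 1) (nat_lit 0) (nat_lit 1) (nat_lit 0) (nat_lit 276) (nat_lit 292) (nat_lit 152)))) (XT.nd (nat_lit 188) (nat_lit 0) (nat_lit 0) (XT.nd (nat_lit 94) (nat_lit 0) (nat_lit 0) (XT.lf (nat_lit 0) (nat_lit 13589077369) (nat_lit 0) (nat_lit 0) (nat_lit 0) (nat_lit 0) (nat_lit 0) (nat_lit 0) (nat_lit 1) (nat_lit 0) (nat_lit 1) (nat_lit 0) (nat_lit 277) (nat_lit 292) (nat_lit 151)) (XT.lf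 (nat_lit 0) (nat_lit 13588412351) (nat_lit 0) (nat_lit 0) (nat_lit 0) (nat_lit 0) (nat_lit 0) (nat_lit 0) (nat_lit 1) (nat_lit 0) (nat_lit 1) (nat_lit 0) (nat_lit 278) (nat_lit 292) (nat_lit 150))) (XT.nd (nat_lit 94) (nat_lit 0) (nat_lit 0) (XT.lf (nat_lit 0) (nat_lit 13587779002) (nat_lit 0) (nat_lit 0) (nat_lit 0) (nat_lit 0) (nat_lit 0) (nat_lit 0) (nat_lit 1) (nat_lit 0) (nat_lit 1) (nat_lit 0) (nat_lit 279) (nat_lit 292) (nat_lit 149)) (XT.lf (nat_lit 0) (nat_lit 13587175811) (nat_lit 0) (nat_lit 0) (nat_lit 0) (nat_lit 0) (nat_lit 0) (nat_lit 0) (nat_lit 1) (nat_lit 0) (nat_lit 1) (nat_lit 0) (nat_lit 280) (nat_lit 292) (nat_lit 148)))))) (XT.nd (nat_lit 658) (nat_lit 0) (nat_lit 0) (XT.nd (nat_lit 282) (nat_lit 0) (nat_lit 0) (XT.nd (nat_lit 94) (nat_lit 0) (nat_lit 0) (XT.lf (nat_lit 0) (nat_lit 13586601344) (nat_lit 0) (nat_lit 0) (nat_lit 0) (nat_lit 0) (nat_lit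 0) (nat_lit 0) (nat_lit 1) (nat_lit 0) (nat_lit 1) (nat_lit 0) (nat_lit 281) (nat_lit 292) (nat_lit 147)) (XT.nd (nat_lit 94) (nat_lit 0) (nat_lit 0) (XT.lf (nat_lit 0) (nat_lit 13586054233) (nat_lit 0) (nat_lit 0) (nat_lit 0) (nat_lit 0) (nat_lit 0) (nat_lit 0) (nat_lit 1) (nat_lit 0) (nat_lit 1) (nat_lit 0) (nat_lit 282) (nat_lit 292) (nat_lit 146)) (XT.lf (nat_lit 0) (nat_lit 13585533174) (nat_lit 0) (nat_lit 0) (nat_lit 0) (nat_lit 0) (nat_lit 0) (nat_lit 0) (nat_lit 1) (nat_lit 0) (nat_lit 1) (nat_lit 0) (nat_lit 283) (nat_lit 292) (nat_lit 145)))) (XT.nd (nat_lit 188) (nat_lit 0) (nat_lit 0) (XT.nd (nat_lit 94) (nat_lit 0) (nat_lit 0) (XT.lf (nat_lit 0) (nat_lit 13585036928) (nat_lit 0) (nat_lit 0) (nat_lit 0) (nat_lit 0) (nat_lit 0) (nat_lit 0) (nat_lit 1) (nat_lit 0) (nat_lit 1) (nat_lit 0) (nat_lit 284) (nat_lit 292) (nat_lit 144)) (XT.lf (nat_lit 0) (nat_lit 13584564313)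 (nat_lit 0) (nat_lit 0) (nat_lit 0) (nat_lit 0) (nat_lit 0) (nat_lit 0) (nat_lit 1) (nat_lit 0) (nat_lit 1) (nat_lit 0) (nat_lit 285) (nat_lit 292) (nat_lit 143))) (XT.nd (nat_lit 94) (nat_lit 0) (nat_lit 0) (XT.lf (nat_lit 0) (nat_lit 13584114203) (nat_lit 0) (nat_lit 0) (nat_lit 0) (nat_lit 0) (nat_lit 0) (nat_lit 0) (nat_lit 1) (nat_lit 0) (nat_lit 1) (nat_lit 0) (nat_lit 286) (nat_lit 292) (nat_lit 142)) (XT.lf (nat_lit 0) (nat_lit 13583685527) (nat_lit 0) (nat_lit 0) (nat_lit 0) (nat_lit 0) (nat_lit 0) (nat_lit 0) (nat_lit 1) (nat_lit 0) (nat_lit 1) (nat_lit 0) (nat_lit 287) (nat_lit 292) (nat_lit 141))))) (XT.nd (nat_lit 282) (nat_lit 0) (nat_lit 0) (XT.nd (nat_lit 94) (nat_lit 0) (nat_lit 0) (XT.lf (nat_lit 0) (nat_lit 13583277264) (nat_lit 0) (nat_lit 0) (nat_lit 0) (nat_lit 0) (nat_lit 0) (nat_lit 0) (nat_lit 1) (nat_lit 0) (nat_lit 1) (nat_lit 0) (nat_lit 288)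 (nat_lit 292) (nat_lit 140)) (XT.nd (nat_lit 94) (nat_lit 0) (nat_lit 0) (XT.lf (nat_lit 0) (nat_lit 13582888442) (nat_lit 0) (nat_lit 0) (nat_lit 0) (nat_lit 0) (nat_lit 0) (nat_lit 0) (nat_lit 1) (nat_lit 0) (nat_lit 1) (nat_lit 0) (nat_lit 289) (nat_lit 292) (nat_lit 139)) (XT.lf (nat_lit 0) (nat_lit 13582518136) (nat_lit 0) (nat_lit 0) (nat_lit 0) (nat_lit 0) (nat_lit 0) (nat_lit 0) (nat_lit 1) (nat_lit 0) (nat_lit 1) (nat_lit 0) (nat_lit 290) (nat_lit 292) (nat_lit 138)))) (XT.nd (nat_lit 188) (nat_lit 0) (nat_lit 0) (XT.nd (nat_lit 94) (nat_lit 0) (nat_lit 0) (XT.lf (nat_lit 0) (nat_lit 13582165463) (nat_lit 0) (nat_lit 0) (nat_lit 0) (nat_lit 0) (nat_lit 0) (nat_lit 0) (nat_lit 1) (nat_lit 0) (nat_lit 1) (nat_lit 0) (nat_lit 291) (nat_lit 292) (nat_lit 137)) (XT.lf (nat_lit 0) (nat_lit 13581829584) (nat_lit 0) (nat_lit 0) (nat_lit 0) (nat_lit 0) (nat_lit 0) (nat_lit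 0) (nat_lit 1) (nat_lit 0) (nat_lit 1) (nat_lit 0) (nat_lit 292) (nat_lit 292) (nat_lit 136))) (XT.nd (nat_lit 94) (nat_lit 0) (nat_lit 0) (XT.lf (nat_lit 0) (nat_lit 13581509699) (nat_lit 0) (nat_lit 0) (nat_lit 0) (nat_lit 0) (nat_lit 0) (nat_lit 0) (nat_lit 1) (nat_lit 0) (nat_lit 1) (nat_lit 0) (nat_lit 293) (nat_lit 292) (nat_lit 135)) (XT.lf (nat_lit 0) (nat_lit 13581205047) (nat_lit 0) (nat_lit 0) (nat_lit 0) (nat_lit 0) (nat_lit 0) (nat_lit 0) (nat_lit 1) (nat_lit 0) (nat_lit 1) (nat_lit 0) (nat_lit 294) (nat_lit 292) (nat_lit 134))))))))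
noncomputable def ec155 : XT := (XT.nd (nat_lit 31114) (nat_lit 0) (nat_lit 5040) (XT.nd (nat_lit 1222) (nat_lit 0) (nat_lit 0) (XT.nd (nat_lit 564) (nat_lit 0) (nat_lit 0) (XT.nd (nat_lit 282) (nat_lit 0) (nat_lit 0) (XT.nd (nat_lit 94) (nat_lit 0) (nat_lit 0) (XT.lf (nat_lit 0) (nat_lit 13580914902) (nat_lit 0) (nat_lit 0) (nat_lit 0) (nat_lit 0) (nat_lit 0) (nat_lit 0) (nat_lit 1) (nat_lit 0) (nat_lit 1) (nat_lit 0) (nat_lit 295) (nat_lit 292) (nat_lit 133)) (XT.nd (nat_lit 94) (nat_lit 0) (nat_lit 0) (XT.lf (nat_lit 0) (nat_lit 13580638574) (nat_lit 0) (nat_lit 0) (nat_lit 0) (nat_lit 0) (nat_lit 0) (nat_lit 0) (nat_lit 1) (nat_lit 0) (nat_lit 1) (nat_lit 0) (nat_lit 296) (nat_lit 292) (nat_lit 132)) (XT.lf (nat_lit 0) (nat_lit 13580375404) (nat_lit 0) (nat_lit 0) (nat_lit 0) (nat_lit 0) (nat_lit 0) (nat_lit 0) (nat_lit 1) (nat_lit 0) (nat_lit 1) (nat_lit 0) (nat_lit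 297) (nat_lit 292) (nat_lit 131)))) (XT.nd (nat_lit 94) (nat_lit 0) (nat_lit 0) (XT.lf (nat_lit 0) (nat_lit 13580124766) (nat_lit 0) (nat_lit 0) (nat_lit 0) (nat_lit 0) (nat_lit 0) (nat_lit 0) (nat_lit 1) (nat_lit 0) (nat_lit 1) (nat_lit 0) (nat_lit 298) (nat_lit 292) (nat_lit 130)) (XT.nd (nat_lit 94) (nat_lit 0) (nat_lit 0) (XT.lf (nat_lit 0) (nat_lit 13579886063) (nat_lit 0) (nat_lit 0) (nat_lit 0) (nat_lit 0) (nat_lit 0) (nat_lit 0) (nat_lit 1) (nat_lit 0) (nat_lit 1) (nat_lit 0) (nat_lit 299) (nat_lit 292) (nat_lit 129)) (XT.lf (nat_lit 0) (nat_lit 13579658727) (nat_lit 0) (nat_lit 0) (nat_lit 0) (nat_lit 0) (nat_lit 0) (nat_lit 0) (nat_lit 1) (nat_lit 0) (nat_lit 1) (nat_lit 0) (nat_lit 300) (nat_lit 292) (nat_lit 128))))) (XT.nd (nat_lit 282) (nat_lit 0) (nat_lit 0) (XT.nd (nat_lit 94) (nat_lit 0) (nat_lit 0) (XT.lf (nat_lit 0) (nat_lit 13579442216) (nat_lit 0) (nat_lit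 0) (nat_lit 0) (nat_lit 0) (nat_lit 0) (nat_lit 0) (nat_lit 1) (nat_lit 0) (nat_lit 1) (nat_lit 0) (nat_lit 301) (nat_lit 292) (nat_lit 127)) (XT.nd (nat_lit 94) (nat_lit 0) (nat_lit 0) (XT.lf (nat_lit 0) (nat_lit 13579236016) (nat_lit 0) (nat_lit 0) (nat_lit 0) (nat_lit 0) (nat_lit 0) (nat_lit 0) (nat_lit 1) (nat_lit 0) (nat_lit 1) (nat_lit 0) (nat_lit 302) (nat_lit 292) (nat_lit 126)) (XT.lf (nat_lit 0) (nat_lit 13579039634) (nat_lit 0) (nat_lit 0) (nat_lit 0) (nat_lit 0) (nat_lit 0) (nat_lit 0) (nat_lit 1) (nat_lit 0) (nat_lit 1) (nat_lit 0) (nat_lit 303) (nat_lit 292) (nat_lit 125)))) (XT.nd (nat_lit 188) (nat_lit 0) (nat_lit 0) (XT.nd (nat_lit 94) (nat_lit 0) (nat_lit 0) (XT.lf (nat_lit 0) (nat_lit 13578852604) (nat_lit 0) (nat_lit 0) (nat_lit 0) (nat_lit 0) (nat_lit 0) (nat_lit 0) (nat_lit 1) (nat_lit 0) (nat_lit 1) (nat_lit 0) (nat_lit 304) (nat_lit 292) (nat_lit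 124)) (XT.lf (nat_lit 0) (nat_lit 13578674480) (nat_lit 0) (nat_lit 0) (nat_lit 0) (nat_lit 0) (nat_lit 0) (nat_lit 0) (nat_lit 1) (nat_lit 0) (nat_lit 1) (nat_lit 0) (nat_lit 305) (nat_lit 292) (nat_lit 123))) (XT.nd (nat_lit 94) (nat_lit 0) (nat_lit 0) (XT.lf (nat_lit 0) (nat_lit 13578504839) (nat_lit 0) (nat_lit 0) (nat_lit 0) (nat_lit 0) (nat_lit 0) (nat_lit 0) (nat_lit 1) (nat_lit 0) (nat_lit 1) (nat_lit 0) (nat_lit 306) (nat_lit 292) (nat_lit 122)) (XT.lf (nat_lit 0) (nat_lit 13578343275) (nat_lit 0) (nat_lit 0) (nat_lit 0) (nat_lit 0) (nat_lit 0) (nat_lit 0) (nat_lit 1) (nat_lit 0) (nat_lit 1) (nat_lit 0) (nat_lit 307) (nat_lit 292) (nat_lit 121)))))) (XT.nd (nat_lit 29234) (nat_lit 0) (nat_lit 10920) (XT.nd (nat_lit 28858) (nat_lit 0) (nat_lit 10752) (XT.nd (nat_lit 94) (nat_lit 0) (nat_lit 0) (XT.lf (nat_lit 0) (nat_lit 13578189405) (nat_lit 0) (nat_lit 0) (nat_lit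 0) (nat_lit 0) (nat_lit 0) (nat_lit 0) (nat_lit 1) (nat_lit 0) (nat_lit 1) (nat_lit 0) (nat_lit 308) (nat_lit 292) (nat_lit 120)) (XT.nd (nat_lit 94) (nat_lit 0) (nat_lit 0) (XT.lf (nat_lit 0) (nat_lit 13578042862) (nat_lit 0) (nat_lit 0) (nat_lit 0) (nat_lit 0) (nat_lit 0) (nat_lit 0) (nat_lit 1) (nat_lit 0) (nat_lit 1) (nat_lit 0) (nat_lit 309) (nat_lit 292) (nat_lit 119)) (XT.lf (nat_lit 0) (nat_lit 13577903298) (nat_lit 0) (nat_lit 0) (nat_lit 0) (nat_lit 0) (nat_lit 0) (nat_lit 0) (nat_lit 1) (nat_lit 0) (nat_lit 1) (nat_lit 0) (nat_lit 310) (nat_lit 292) (nat_lit 118)))) (XT.nd (nat_lit 188) (nat_lit 0) (nat_lit 84) (XT.nd (nat_lit 94) (nat_lit 0) (nat_lit 0) (XT.lf (nat_lit 924) (nat_lit 7133169265) (nat_lit 0) (nat_lit 12664925634) (nat_lit 924) (nat_lit 7133169265) (nat_lit 139) (nat_lit 1) (nat_lit 128) (nat_lit 0) (nat_lit 139) (nat_lit 0) (nat_lit 134) (nat_lit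 293) (nat_lit 293)) (XT.lf (nat_lit 924) (nat_lit 27649054614) (nat_lit 84) (nat_lit 12460652640) (nat_lit 0) (nat_lit 12460652640) (nat_lit 139) (nat_lit 1) (nat_lit 129) (nat_lit 1) (nat_lit 128) (nat_lit 0) (nat_lit 135) (nat_lit 293) (nat_lit 292))) (XT.nd (nat_lit 94) (nat_lit 0) (nat_lit 0) (XT.lf (nat_lit 924) (nat_lit 13177123117) (nat_lit 0) (nat_lit 24963893093) (nat_lit 840) (nat_lit 13177123117) (nat_lit 140) (nat_lit 1) (nat_lit 129) (nat_lit 1) (nat_lit 139) (nat_lit 1) (nat_lit 136) (nat_lit 293) (nat_lit 291)) (XT.lf (nat_lit 924) (nat_lit 24718451961) (nat_lit 84) (nat_lit 12693961426) (nat_lit 0) (nat_lit 12693961426) (nat_lit 140) (nat_lit 1) (nat_lit 130) (nat_lit 1) (nat_lit 129) (nat_lit 1) (nat_lit 137) (nat_lit 293) (nat_lit 290))))) (XT.nd (nat_lit 282) (nat_lit 0) (nat_lit 84) (XT.nd (nat_lit 94) (nat_lit 0) (nat_lit 0) (XT.lf (nat_lit 924) (nat_lit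 11377666064) (nat_lit 0) (nat_lit 26177685029) (nat_lit 840) (nat_lit 11377666064) (nat_lit 141) (nat_lit 1) (nat_lit 130) (nat_lit 1) (nat_lit 140) (nat_lit 1) (nat_lit 138) (nat_lit 293) (nat_lit 289)) (XT.nd (nat_lit 94) (nat_lit 0) (nat_lit 84) (XT.lf (nat_lit 924) (nat_lit 20463473466) (nat_lit 84) (nat_lit 13665977229) (nat_lit 0) (nat_lit 13665977229) (nat_lit 141) (nat_lit 1) (nat_lit 131) (nat_lit 1) (nat_lit 130) (nat_lit 1) (nat_lit 139) (nat_lit 293) (nat_lit 288)) (XT.lf (nat_lit 924) (nat_lit 8972642076) (nat_lit 0) (nat_lit 28750750849) (nat_lit 840) (nat_lit 8972642076) (nat_lit 142) (nat_lit 1) (nat_lit 131) (nat_lit 1) (nat_lit 141) (nat_lit 1) (nat_lit 140) (nat_lit 293) (nat_lit 287)))) (XT.nd (nat_lit 188) (nat_lit 0) (nat_lit 84) (XT.nd (nat_lit 94) (nat_lit 0) (nat_lit 84) (XT.lf (nat_lit 924) (nat_lit 15083286828) (nat_lit 84) (nat_lit 15271812651)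 (nat_lit 0) (nat_lit 15271812651) (nat_lit 142) (nat_lit 1) (nat_lit 132) (nat_lit 1) (nat_lit 131) (nat_lit 1) (nat_lit 141) (nat_lit 293) (nat_lit 286)) (XT.lf (nat_lit 924) (nat_lit 6055154046) (nat_lit 0) (nat_lit 32486617161) (nat_lit 840) (nat_lit 6055154046) (nat_lit 143) (nat_lit 1) (nat_lit 132) (nat_lit 1) (nat_lit 142) (nat_lit 1) (nat_lit 142) (nat_lit 293) (nat_lit 285))) (XT.nd (nat_lit 94) (nat_lit 0) (nat_lit 84) (XT.lf (nat_lit 924) (nat_lit 8754922078) (nat_lit 84) (nat_lit 17418055988) (nat_lit 0) (nat_lit 17418055988) (nat_lit 143) (nat_lit 1) (nat_lit 133) (nat_lit 1) (nat_lit 132) (nat_lit 1) (nat_lit 143) (nat_lit 293) (nat_lit 284)) (XT.lf (nat_lit 84) (nat_lit 2707896518) (nat_lit 0) (nat_lit 37210414953) (nat_lit 840) (nat_lit 2707896518) (nat_lit 134) (nat_lit 1) (nat_lit 133) (nat_lit 1) (nat_lit 143) (nat_lit 1) (nat_lit 144) (nat_lit 293) (nat_lit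 283))))))) (XT.nd (nat_lit 1316) (nat_lit 2436) (nat_lit 0) (XT.nd (nat_lit 658) (nat_lit 1428) (nat_lit 0) (XT.nd (nat_lit 282) (nat_lit 840) (nat_lit 0) (XT.nd (nat_lit 94) (nat_lit 588) (nat_lit 0) (XT.lf (nat_lit 924) (nat_lit 1635502157) (nat_lit 0) (nat_lit 20021622220) (nat_lit 840) (nat_lit 20021622220) (nat_lit 134) (nat_lit 1) (nat_lit 123) (nat_lit 1) (nat_lit 133) (nat_lit 1) (nat_lit 145) (nat_lit 293) (nat_lit 282)) (XT.nd (nat_lit 94) (nat_lit 0) (nat_lit 0) (XT.lf (nat_lit 588) (nat_lit 38812525901) (nat_lit 0) (nat_lit 979732010) (nat_lit 504) (nat_lit 979732010) (nat_lit 123) (nat_lit 1) (nat_lit 116) (nat_lit 1) (nat_lit 122) (nat_lit 1) (nat_lit 146) (nat_lit 293) (nat_lit 281)) (XT.lf (nat_lit 84) (nat_lit 16968768773) (nat_lit 0) (nat_lit 5939360031) (nat_lit 588) (nat_lit 16968768773) (nat_lit 117) (nat_lit 1) (nat_lit 116) (nat_lit 1) (nat_lit 123)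 (nat_lit 1) (nat_lit 147) (nat_lit 293) (nat_lit 280)))) (XT.nd (nat_lit 188) (nat_lit 420) (nat_lit 0) (XT.nd (nat_lit 94) (nat_lit 0) (nat_lit 0) (XT.lf (nat_lit 504) (nat_lit 29198895364) (nat_lit 0) (nat_lit 4910485796) (nat_lit 420) (nat_lit 4910485796) (nat_lit 117) (nat_lit 1) (nat_lit 111) (nat_lit 1) (nat_lit 116) (nat_lit 1) (nat_lit 148) (nat_lit 293) (nat_lit 279)) (XT.lf (nat_lit 84) (nat_lit 12103616197) (nat_lit 0) (nat_lit 13973621096) (nat_lit 504) (nat_lit 12103616197) (nat_lit 112) (nat_lit 1) (nat_lit 111) (nat_lit 1) (nat_lit 117) (nat_lit 1) (nat_lit 149) (nat_lit 293) (nat_lit 278))) (XT.nd (nat_lit 94) (nat_lit 0) (nat_lit 0) (XT.lf (nat_lit 504) (nat_lit 19227886676) (nat_lit 0) (nat_lit 9071586971) (nat_lit 420) (nat_lit 9071586971) (nat_lit 112) (nat_lit 1) (nat_lit 106) (nat_lit 1) (nat_lit 111) (nat_lit 1) (nat_lit 150) (nat_lit 293) (nat_lit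 277)) (XT.lf (nat_lit 84) (nat_lit 7085220700) (nat_lit 0) (nat_lit 22414377850) (nat_lit 504) (nat_lit 7085220700) (nat_lit 107) (nat_lit 1) (nat_lit 106) (nat_lit 1) (nat_lit 112) (nat_lit 1) (nat_lit 151) (nat_lit 293) (nat_lit 276))))) (XT.nd (nat_lit 282) (nat_lit 672) (nat_lit 0) (XT.nd (nat_lit 94) (nat_lit 420) (nat_lit 0) (XT.lf (nat_lit 420) (nat_lit 8992304630) (nat_lit 0) (nat_lit 13413248987) (nat_lit 336) (nat_lit 13413248987) (nat_lit 107) (nat_lit 1) (nat_lit 102) (nat_lit 1) (nat_lit 106) (nat_lit 1) (nat_lit 152) (nat_lit 293) (nat_lit 275)) (XT.nd (nat_lit 94) (nat_lit 420) (nat_lit 0) (XT.lf (nat_lit 84) (nat_lit 1956665485) (nat_lit 0) (nat_lit 31168912218) (nat_lit 420) (nat_lit 1956665485) (nat_lit 103) (nat_lit 1) (nat_lit 102) (nat_lit 1) (nat_lit 107) (nat_lit 1) (nat_lit 153) (nat_lit 293) (nat_lit 274)) (XT.lf (nat_lit 84) (nat_lit 16487425629)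 (nat_lit 0) (nat_lit 1380853923) (nat_lit 420) (nat_lit 16487425629) (nat_lit 98) (nat_lit 1) (nat_lit 97) (nat_lit 1) (nat_lit 102) (nat_lit 1) (nat_lit 154) (nat_lit 293) (nat_lit 273)))) (XT.nd (nat_lit 188) (nat_lit 336) (nat_lit 0) (XT.nd (nat_lit 94) (nat_lit 0) (nat_lit 0) (XT.lf (nat_lit 420) (nat_lit 27272802085) (nat_lit 0) (nat_lit 3192016719) (nat_lit 336) (nat_lit 3192016719) (nat_lit 98) (nat_lit 1) (nat_lit 93) (nat_lit 1) (nat_lit 97) (nat_lit 1) (nat_lit 155) (nat_lit 293) (nat_lit 272)) (XT.lf (nat_lit 84) (nat_lit 10697591973) (nat_lit 0) (nat_lit 11574771182) (nat_lit 420) (nat_lit 10697591973) (nat_lit 94) (nat_lit 1) (nat_lit 93) (nat_lit 1) (nat_lit 98) (nat_lit 1) (nat_lit 156) (nat_lit 293) (nat_lit 271))) (XT.nd (nat_lit 94) (nat_lit 0) (nat_lit 0) (XT.lf (nat_lit 420) (nat_lit 15610762528) (nat_lit 0) (nat_lit 8348065401) (nat_lit 336) (nat_lit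 8348065401) (nat_lit 94) (nat_lit 1) (nat_lit 89) (nat_lit 1) (nat_lit 93) (nat_lit 1) (nat_lit 157) (nat_lit 293) (nat_lit 270)) (XT.lf (nat_lit 84) (nat_lit 4922937804) (nat_lit 0) (nat_lit 21817343907) (nat_lit 420) (nat_lit 4922937804) (nat_lit 90) (nat_lit 1) (nat_lit 89) (nat_lit 1) (nat_lit 94) (nat_lit 1) (nat_lit 158) (nat_lit 293) (nat_lit 269)))))) (XT.nd (nat_lit 658) (nat_lit 924) (nat_lit 0) (XT.nd (nat_lit 282) (nat_lit 840) (nat_lit 0) (XT.nd (nat_lit 94) (nat_lit 420) (nat_lit 0) (XT.lf (nat_lit 336) (nat_lit 4003614470) (nat_lit 0) (nat_lit 13514912786) (nat_lit 252) (nat_lit 13514912786) (nat_lit 90) (nat_lit 1) (nat_lit 86) (nat_lit 1) (nat_lit 89) (nat_lit 1) (nat_lit 159) (nat_lit 293) (nat_lit 268)) (XT.nd (nat_lit 94) (nat_lit 0) (nat_lit 0) (XT.lf (nat_lit 420) (nat_lit 28828114693) (nat_lit 0) (nat_lit 799924867) (nat_lit 336) (nat_lit 799924867)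 (nat_lit 86) (nat_lit 1) (nat_lit 81) (nat_lit 1) (nat_lit 85) (nat_lit 1) (nat_lit 160) (nat_lit 293) (nat_lit 267)) (XT.lf (nat_lit 84) (nat_lit 11280654402) (nat_lit 0) (nat_lit 7264531243) (nat_lit 420) (nat_lit 11280654402) (nat_lit 82) (nat_lit 1) (nat_lit 81) (nat_lit 1) (nat_lit 86) (nat_lit 1) (nat_lit 161) (nat_lit 293) (nat_lit 266)))) (XT.nd (nat_lit 188) (nat_lit 588) (nat_lit 0) (XT.nd (nat_lit 94) (nat_lit 0) (nat_lit 0) (XT.lf (nat_lit 336) (nat_lit 16475752384) (nat_lit 0) (nat_lit 6385528177) (nat_lit 252) (nat_lit 6385528177) (nat_lit 82) (nat_lit 1) (nat_lit 78) (nat_lit 1) (nat_lit 81) (nat_lit 1) (nat_lit 162) (nat_lit 293) (nat_lit 265)) (XT.lf (nat_lit 84) (nat_lit 5204945032) (nat_lit 0) (nat_lit 18272598654) (nat_lit 336) (nat_lit 5204945032) (nat_lit 79) (nat_lit 1) (nat_lit 78) (nat_lit 1) (nat_lit 82) (nat_lit 1) (nat_lit 163) (nat_lit 293) (nat_lit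 264))) (XT.nd (nat_lit 94) (nat_lit 336) (nat_lit 0) (XT.lf (nat_lit 336) (nat_lit 4338158997) (nat_lit 0) (nat_lit 11896423913) (nat_lit 252) (nat_lit 11896423913) (nat_lit 79) (nat_lit 1) (nat_lit 75) (nat_lit 1) (nat_lit 78) (nat_lit 1) (nat_lit 164) (nat_lit 293) (nat_lit 263)) (XT.lf (nat_lit 336) (nat_lit 26108898309) (nat_lit 0) (nat_lit 745557436) (nat_lit 252) (nat_lit 745557436) (nat_lit 75) (nat_lit 1) (nat_lit 71) (nat_lit 1) (nat_lit 74) (nat_lit 1) (nat_lit 165) (nat_lit 293) (nat_lit 262))))) (XT.nd (nat_lit 282) (nat_lit 672) (nat_lit 0) (XT.nd (nat_lit 94) (nat_lit 252) (nat_lit 0) (XT.lf (nat_lit 84) (nat_lit 9876248518) (nat_lit 0) (nat_lit 7318200984) (nat_lit 336) (nat_lit 9876248518) (nat_lit 72) (nat_lit 1) (nat_lit 71) (nat_lit 1) (nat_lit 75) (nat_lit 1) (nat_lit 166) (nat_lit 293) (nat_lit 261)) (XT.nd (nat_lit 94) (nat_lit 0) (nat_lit 0) (XT.lf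 (nat_lit 336) (nat_lit 13580746040) (nat_lit 0) (nat_lit 6490110782) (nat_lit 252) (nat_lit 6490110782) (nat_lit 72) (nat_lit 1) (nat_lit 68) (nat_lit 1) (nat_lit 71) (nat_lit 1) (nat_lit 167) (nat_lit 293) (nat_lit 260)) (XT.lf (nat_lit 84) (nat_lit 3740126383) (nat_lit 0) (nat_lit 18584655625) (nat_lit 336) (nat_lit 3740126383) (nat_lit 69) (nat_lit 1) (nat_lit 68) (nat_lit 1) (nat_lit 72) (nat_lit 1) (nat_lit 168) (nat_lit 293) (nat_lit 259)))) (XT.nd (nat_lit 188) (nat_lit 168) (nat_lit 0) (XT.nd (nat_lit 94) (nat_lit 336) (nat_lit 0) (XT.lf (nat_lit 252) (nat_lit 1370506663) (nat_lit 0) (nat_lit 12103845226) (nat_lit 168) (nat_lit 12103845226) (nat_lit 69) (nat_lit 1) (nat_lit 66) (nat_lit 1) (nat_lit 68) (nat_lit 1) (nat_lit 169) (nat_lit 293) (nat_lit 258)) (XT.lf (nat_lit 336) (nat_lit 20707896136) (nat_lit 0) (nat_lit 2199328667) (nat_lit 252) (nat_lit 2199328667)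 (nat_lit 66) (nat_lit 1) (nat_lit 62) (nat_lit 1) (nat_lit 65) (nat_lit 1) (nat_lit 170) (nat_lit 293) (nat_lit 257))) (XT.nd (nat_lit 94) (nat_lit 168) (nat_lit 0) (XT.lf (nat_lit 84) (nat_lit 7232776574) (nat_lit 0) (nat_lit 10174631557) (nat_lit 336) (nat_lit 7232776574) (nat_lit 63) (nat_lit 1) (nat_lit 62) (nat_lit 1) (nat_lit 66) (nat_lit 1) (nat_lit 171) (nat_lit 293) (nat_lit 256)) (XT.lf (nat_lit 252) (nat_lit 8356357628) (nat_lit 0) (nat_lit 7915925866) (nat_lit 168) (nat_lit 7915925866) (nat_lit 63) (nat_lit 1) (nat_lit 60) (nat_lit 1) (nat_lit 62) (nat_lit 1) (nat_lit 172) (nat_lit 293) (nat_lit 255))))))))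
noncomputable def ec156 : XT := (XT.nd (nat_lit 2538) (nat_lit 2100) (nat_lit 0) (XT.nd (nat_lit 1222) (nat_lit 1428) (nat_lit 0) (XT.nd (nat_lit 564) (nat_lit 672) (nat_lit 0) (XT.nd (nat_lit 282) (nat_lit 420) (nat_lit 0) (XT.nd (nat_lit 94) (nat_lit 420) (nat_lit 0) (XT.lf (nat_lit 84) (nat_lit 1200543355) (nat_lit 0) (nat_lit 21350146631) (nat_lit 252) (nat_lit 1200543355) (nat_lit 61) (nat_lit 1) (nat_lit 60) (nat_lit 1) (nat_lit 63) (nat_lit 1) (nat_lit 173) (nat_lit 293) (nat_lit 254)) (XT.nd (nat_lit 94) (nat_lit 168) (nat_lit 0) (XT.lf (nat_lit 84) (nat_lit 9908294942) (nat_lit 0) (nat_lit 3499255878) (nat_lit 252) (nat_lit 9908294942) (nat_lit 58) (nat_lit 1) (nat_lit 57) (nat_lit 1) (nat_lit 60) (nat_lit 1) (nat_lit 174) (nat_lit 293) (nat_lit 253)) (XT.lf (nat_lit 252) (nat_lit 13759404105) (nat_lit 0) (nat_lit 4567749365) (nat_lit 168) (nat_lit 4567749365) (nat_lit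 58) (nat_lit 1) (nat_lit 55) (nat_lit 1) (nat_lit 57) (nat_lit 1) (nat_lit 175) (nat_lit 293) (nat_lit 252)))) (XT.nd (nat_lit 94) (nat_lit 420) (nat_lit 0) (XT.lf (nat_lit 84) (nat_lit 3882545871) (nat_lit 0) (nat_lit 14718171925) (nat_lit 252) (nat_lit 3882545871) (nat_lit 56) (nat_lit 1) (nat_lit 55) (nat_lit 1) (nat_lit 58) (nat_lit 1) (nat_lit 176) (nat_lit 293) (nat_lit 251)) (XT.nd (nat_lit 94) (nat_lit 252) (nat_lit 0) (XT.lf (nat_lit 252) (nat_lit 1818832955) (nat_lit 0) (nat_lit 10130544564) (nat_lit 168) (nat_lit 10130544564) (nat_lit 56) (nat_lit 1) (nat_lit 53) (nat_lit 1) (nat_lit 55) (nat_lit 1) (nat_lit 177) (nat_lit 293) (nat_lit 250)) (XT.lf (nat_lit 252) (nat_lit 17876665337) (nat_lit 0) (nat_lit 1905801150) (nat_lit 168) (nat_lit 1905801150) (nat_lit 53) (nat_lit 1) (nat_lit 50) (nat_lit 1) (nat_lit 52) (nat_lit 1) (nat_lit 178) (nat_lit 293) (nat_lit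 249))))) (XT.nd (nat_lit 282) (nat_lit 504) (nat_lit 0) (XT.nd (nat_lit 94) (nat_lit 168) (nat_lit 0) (XT.lf (nat_lit 84) (nat_lit 5951185698) (nat_lit 0) (nat_lit 9397584519) (nat_lit 252) (nat_lit 5951185698) (nat_lit 51) (nat_lit 1) (nat_lit 50) (nat_lit 1) (nat_lit 53) (nat_lit 1) (nat_lit 179) (nat_lit 293) (nat_lit 248)) (XT.nd (nat_lit 94) (nat_lit 0) (nat_lit 0) (XT.lf (nat_lit 252) (nat_lit 6060993700) (nat_lit 0) (nat_lit 7430961861) (nat_lit 168) (nat_lit 7430961861) (nat_lit 51) (nat_lit 1) (nat_lit 48) (nat_lit 1) (nat_lit 50) (nat_lit 1) (nat_lit 180) (nat_lit 293) (nat_lit 247)) (XT.lf (nat_lit 84) (nat_lit 199208147) (nat_lit 0) (nat_lit 20160685395) (nat_lit 252) (nat_lit 199208147) (nat_lit 49) (nat_lit 1) (nat_lit 48) (nat_lit 1) (nat_lit 51) (nat_lit 1) (nat_lit 181) (nat_lit 293) (nat_lit 246)))) (XT.nd (nat_lit 188) (nat_lit 168) (nat_lit 0) (XT.nd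 (nat_lit 94) (nat_lit 168) (nat_lit 0) (XT.lf (nat_lit 84) (nat_lit 7521774822) (nat_lit 0) (nat_lit 5149423710) (nat_lit 168) (nat_lit 7521774822) (nat_lit 47) (nat_lit 1) (nat_lit 46) (nat_lit 1) (nat_lit 48) (nat_lit 1) (nat_lit 182) (nat_lit 293) (nat_lit 245)) (XT.lf (nat_lit 252) (nat_lit 9333666256) (nat_lit 0) (nat_lit 5253030501) (nat_lit 168) (nat_lit 5253030501) (nat_lit 47) (nat_lit 1) (nat_lit 44) (nat_lit 1) (nat_lit 46) (nat_lit 1) (nat_lit 183) (nat_lit 293) (nat_lit 244))) (XT.nd (nat_lit 94) (nat_lit 168) (nat_lit 0) (XT.lf (nat_lit 84) (nat_lit 1871335577) (nat_lit 0) (nat_lit 15753345016) (nat_lit 252) (nat_lit 1871335577) (nat_lit 45) (nat_lit 1) (nat_lit 44) (nat_lit 1) (nat_lit 47) (nat_lit 1) (nat_lit 184) (nat_lit 293) (nat_lit 243)) (XT.lf (nat_lit 84) (nat_lit 8688868114) (nat_lit 0) (nat_lit 1777403315) (nat_lit 168) (nat_lit 8688868114) (nat_lit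 43) (nat_lit 1) (nat_lit 42) (nat_lit 1) (nat_lit 44) (nat_lit 1) (nat_lit 185) (nat_lit 293) (nat_lit 242)))))) (XT.nd (nat_lit 658) (nat_lit 588) (nat_lit 0) (XT.nd (nat_lit 282) (nat_lit 588) (nat_lit 0) (XT.nd (nat_lit 94) (nat_lit 84) (nat_lit 0) (XT.lf (nat_lit 252) (nat_lit 11819089127) (nat_lit 0) (nat_lit 3502214324) (nat_lit 168) (nat_lit 3502214324) (nat_lit 43) (nat_lit 1) (nat_lit 40) (nat_lit 1) (nat_lit 42) (nat_lit 1) (nat_lit 186) (nat_lit 293) (nat_lit 241)) (XT.nd (nat_lit 94) (nat_lit 84) (nat_lit 0) (XT.lf (nat_lit 84) (nat_lit 3165691973) (nat_lit 0) (nat_lit 12167077119) (nat_lit 252) (nat_lit 3165691973) (nat_lit 41) (nat_lit 1) (nat_lit 40) (nat_lit 1) (nat_lit 43) (nat_lit 1) (nat_lit 187) (nat_lit 293) (nat_lit 240)) (XT.lf (nat_lit 168) (nat_lit 908754882) (nat_lit 0) (nat_lit 8635391726) (nat_lit 84) (nat_lit 8635391726) (nat_lit 41) (nat_lit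 1) (nat_lit 39) (nat_lit 1) (nat_lit 40) (nat_lit 1) (nat_lit 188) (nat_lit 293) (nat_lit 239)))) (XT.nd (nat_lit 188) (nat_lit 336) (nat_lit 0) (XT.nd (nat_lit 94) (nat_lit 0) (nat_lit 0) (XT.lf (nat_lit 252) (nat_lit 13666697493) (nat_lit 0) (nat_lit 2100835755) (nat_lit 168) (nat_lit 2100835755) (nat_lit 39) (nat_lit 1) (nat_lit 36) (nat_lit 1) (nat_lit 38) (nat_lit 1) (nat_lit 189) (nat_lit 293) (nat_lit 238)) (XT.lf (nat_lit 84) (nat_lit 4153126967) (nat_lit 0) (nat_lit 9254418922) (nat_lit 252) (nat_lit 4153126967) (nat_lit 37) (nat_lit 1) (nat_lit 36) (nat_lit 1) (nat_lit 39) (nat_lit 1) (nat_lit 190) (nat_lit 293) (nat_lit 237))) (XT.nd (nat_lit 94) (nat_lit 252) (nat_lit 0) (XT.lf (nat_lit 168) (nat_lit 3051804771) (nat_lit 0) (nat_lit 7104358144) (nat_lit 84) (nat_lit 7104358144) (nat_lit 37) (nat_lit 1) (nat_lit 35) (nat_lit 1) (nat_lit 36) (nat_lit 1) (nat_lit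 191) (nat_lit 293) (nat_lit 236)) (XT.lf (nat_lit 252) (nat_lit 14998962629) (nat_lit 0) (nat_lit 985082168) (nat_lit 168) (nat_lit 985082168) (nat_lit 35) (nat_lit 1) (nat_lit 32) (nat_lit 1) (nat_lit 34) (nat_lit 1) (nat_lit 192) (nat_lit 293) (nat_lit 235))))) (XT.nd (nat_lit 282) (nat_lit 252) (nat_lit 0) (XT.nd (nat_lit 94) (nat_lit 336) (nat_lit 0) (XT.lf (nat_lit 84) (nat_lit 4891744354) (nat_lit 0) (nat_lit 6894142365) (nat_lit 252) (nat_lit 4891744354) (nat_lit 33) (nat_lit 1) (nat_lit 32) (nat_lit 1) (nat_lit 35) (nat_lit 1) (nat_lit 193) (nat_lit 293) (nat_lit 234)) (XT.nd (nat_lit 94) (nat_lit 252) (nat_lit 0) (XT.lf (nat_lit 168) (nat_lit 4705174843) (nat_lit 0) (nat_lit 5844773026) (nat_lit 84) (nat_lit 5844773026) (nat_lit 33) (nat_lit 1) (nat_lit 31) (nat_lit 1) (nat_lit 32) (nat_lit 1) (nat_lit 194) (nat_lit 293) (nat_lit 233)) (XT.lf (nat_lit 252) (nat_lit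 15916194893) (nat_lit 0) (nat_lit 102543245) (nat_lit 168) (nat_lit 102543245) (nat_lit 31) (nat_lit 1) (nat_lit 28) (nat_lit 1) (nat_lit 30) (nat_lit 1) (nat_lit 195) (nat_lit 293) (nat_lit 232)))) (XT.nd (nat_lit 188) (nat_lit 168) (nat_lit 0) (XT.nd (nat_lit 94) (nat_lit 84) (nat_lit 0) (XT.lf (nat_lit 84) (nat_lit 5429170681) (nat_lit 0) (nat_lit 4986598475) (nat_lit 252) (nat_lit 5429170681) (nat_lit 29) (nat_lit 1) (nat_lit 28) (nat_lit 1) (nat_lit 31) (nat_lit 1) (nat_lit 196) (nat_lit 293) (nat_lit 231)) (XT.lf (nat_lit 168) (nat_lit 5960908993) (nat_lit 0) (nat_lit 4808509233) (nat_lit 84) (nat_lit 4808509233) (nat_lit 29) (nat_lit 1) (nat_lit 27) (nat_lit 1) (nat_lit 28) (nat_lit 1) (nat_lit 197) (nat_lit 293) (nat_lit 230))) (XT.nd (nat_lit 94) (nat_lit 168) (nat_lit 0) (XT.lf (nat_lit 0) (nat_lit 599483934) (nat_lit 0) (nat_lit 14120008764) (nat_lit 168) (nat_lit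 599483934) (nat_lit 27) (nat_lit 3) (nat_lit 27) (nat_lit 1) (nat_lit 29) (nat_lit 1) (nat_lit 198) (nat_lit 293) (nat_lit 229)) (XT.lf (nat_lit 84) (nat_lit 5804421198) (nat_lit 0) (nat_lit 3449887373) (nat_lit 168) (nat_lit 5804421198) (nat_lit 26) (nat_lit 1) (nat_lit 25) (nat_lit 1) (nat_lit 27) (nat_lit 1) (nat_lit 199) (nat_lit 293) (nat_lit 228))))))) (XT.nd (nat_lit 1222) (nat_lit 1008) (nat_lit 0) (XT.nd (nat_lit 564) (nat_lit 588) (nat_lit 0) (XT.nd (nat_lit 282) (nat_lit 252) (nat_lit 0) (XT.nd (nat_lit 94) (nat_lit 168) (nat_lit 0) (XT.lf (nat_lit 168) (nat_lit 6894483157) (nat_lit 0) (nat_lit 3955972446) (nat_lit 84) (nat_lit 3955972446) (nat_lit 26) (nat_lit 1) (nat_lit 24) (nat_lit 1) (nat_lit 25) (nat_lit 1) (nat_lit 200) (nat_lit 293) (nat_lit 227)) (XT.nd (nat_lit 94) (nat_lit 168) (nat_lit 0) (XT.lf (nat_lit 0) (nat_lit 1145796450) (nat_lit 0) (nat_lit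 12269165688) (nat_lit 168) (nat_lit 1145796450) (nat_lit 24) (nat_lit 3) (nat_lit 24) (nat_lit 1) (nat_lit 26) (nat_lit 1) (nat_lit 201) (nat_lit 293) (nat_lit 226)) (XT.lf (nat_lit 84) (nat_lit 6049434583) (nat_lit 0) (nat_lit 2216707514) (nat_lit 168) (nat_lit 6049434583) (nat_lit 23) (nat_lit 1) (nat_lit 22) (nat_lit 1) (nat_lit 24) (nat_lit 1) (nat_lit 202) (nat_lit 293) (nat_lit 225)))) (XT.nd (nat_lit 94) (nat_lit 168) (nat_lit 0) (XT.lf (nat_lit 168) (nat_lit 7567754619) (nat_lit 0) (nat_lit 3254588322) (nat_lit 84) (nat_lit 3254588322) (nat_lit 23) (nat_lit 1) (nat_lit 21) (nat_lit 1) (nat_lit 22) (nat_lit 1) (nat_lit 203) (nat_lit 293) (nat_lit 224)) (XT.nd (nat_lit 94) (nat_lit 168) (nat_lit 0) (XT.lf (nat_lit 0) (nat_lit 1564172940) (nat_lit 0) (nat_lit 10715396340) (nat_lit 168) (nat_lit 1564172940) (nat_lit 21) (nat_lit 3) (nat_lit 21) (nat_lit 1) (nat_lit 23)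 (nat_lit 1) (nat_lit 204) (nat_lit 293) (nat_lit 223)) (XT.lf (nat_lit 84) (nat_lit 6190335182) (nat_lit 0) (nat_lit 1231763744) (nat_lit 168) (nat_lit 6190335182) (nat_lit 20) (nat_lit 1) (nat_lit 19) (nat_lit 1) (nat_lit 21) (nat_lit 1) (nat_lit 205) (nat_lit 293) (nat_lit 222))))) (XT.nd (nat_lit 282) (nat_lit 336) (nat_lit 0) (XT.nd (nat_lit 94) (nat_lit 168) (nat_lit 0) (XT.lf (nat_lit 168) (nat_lit 8031387847) (nat_lit 0) (nat_lit 2677557867) (nat_lit 84) (nat_lit 2677557867) (nat_lit 20) (nat_lit 1) (nat_lit 18) (nat_lit 1) (nat_lit 19) (nat_lit 1) (nat_lit 206) (nat_lit 293) (nat_lit 221)) (XT.nd (nat_lit 94) (nat_lit 168) (nat_lit 0) (XT.lf (nat_lit 0) (nat_lit 1878775963) (nat_lit 0) (nat_lit 9407510101) (nat_lit 168) (nat_lit 1878775963) (nat_lit 18) (nat_lit 3) (nat_lit 18) (nat_lit 1) (nat_lit 20) (nat_lit 1) (nat_lit 207) (nat_lit 293) (nat_lit 220)) (XT.lf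 (nat_lit 84) (nat_lit 6248471101) (nat_lit 0) (nat_lit 449635066) (nat_lit 168) (nat_lit 6248471101) (nat_lit 17) (nat_lit 1) (nat_lit 16) (nat_lit 1) (nat_lit 18) (nat_lit 1) (nat_lit 208) (nat_lit 293) (nat_lit 219)))) (XT.nd (nat_lit 188) (nat_lit 252) (nat_lit 0) (XT.nd (nat_lit 94) (nat_lit 0) (nat_lit 0) (XT.lf (nat_lit 168) (nat_lit 8326849699) (nat_lit 0) (nat_lit 2202833483) (nat_lit 84) (nat_lit 2202833483) (nat_lit 17) (nat_lit 1) (nat_lit 15) (nat_lit 1) (nat_lit 16) (nat_lit 1) (nat_lit 209) (nat_lit 293) (nat_lit 218)) (XT.lf (nat_lit 0) (nat_lit 2109413647) (nat_lit 0) (nat_lit 8303321855) (nat_lit 168) (nat_lit 2109413647) (nat_lit 15) (nat_lit 3) (nat_lit 15) (nat_lit 1) (nat_lit 17) (nat_lit 1) (nat_lit 210) (nat_lit 293) (nat_lit 217))) (XT.nd (nat_lit 94) (nat_lit 168) (nat_lit 0) (XT.lf (nat_lit 84) (nat_lit 172500460) (nat_lit 0) (nat_lit 6071460658)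 (nat_lit 84) (nat_lit 6071460658) (nat_lit 15) (nat_lit 3) (nat_lit 14) (nat_lit 1) (nat_lit 15) (nat_lit 1) (nat_lit 211) (nat_lit 293) (nat_lit 216)) (XT.lf (nat_lit 168) (nat_lit 8488050370) (nat_lit 0) (nat_lit 1812276558) (nat_lit 84) (nat_lit 1812276558) (nat_lit 14) (nat_lit 1) (nat_lit 12) (nat_lit 1) (nat_lit 13) (nat_lit 1) (nat_lit 212) (nat_lit 293) (nat_lit 215)))))) (XT.nd (nat_lit 658) (nat_lit 504) (nat_lit 0) (XT.nd (nat_lit 282) (nat_lit 252) (nat_lit 0) (XT.nd (nat_lit 94) (nat_lit 252) (nat_lit 0) (XT.lf (nat_lit 0) (nat_lit 2272315079) (nat_lit 0) (nat_lit 7368058690) (nat_lit 168) (nat_lit 2272315079) (nat_lit 12) (nat_lit 3) (nat_lit 12) (nat_lit 1) (nat_lit 14) (nat_lit 1) (nat_lit 213) (nat_lit 293) (nat_lit 214)) (XT.nd (nat_lit 94) (nat_lit 168) (nat_lit 0) (XT.lf (nat_lit 84) (nat_lit 670152206) (nat_lit 0) (nat_lit 5523241359) (nat_lit 84) (nat_lit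 5523241359) (nat_lit 12) (nat_lit 3) (nat_lit 11) (nat_lit 1) (nat_lit 12) (nat_lit 1) (nat_lit 214) (nat_lit 293) (nat_lit 213)) (XT.lf (nat_lit 168) (nat_lit 8542692918) (nat_lit 0) (nat_lit 1490964409) (nat_lit 84) (nat_lit 1490964409) (nat_lit 11) (nat_lit 1) (nat_lit 9) (nat_lit 1) (nat_lit 10) (nat_lit 1) (nat_lit 215) (nat_lit 293) (nat_lit 212)))) (XT.nd (nat_lit 188) (nat_lit 168) (nat_lit 0) (XT.nd (nat_lit 94) (nat_lit 84) (nat_lit 0) (XT.lf (nat_lit 0) (nat_lit 2380768049) (nat_lit 0) (nat_lit 6573048929) (nat_lit 168) (nat_lit 2380768049) (nat_lit 9) (nat_lit 3) (nat_lit 9) (nat_lit 1) (nat_lit 11) (nat_lit 1) (nat_lit 216) (nat_lit 293) (nat_lit 211)) (XT.lf (nat_lit 84) (nat_lit 1054417450) (nat_lit 0) (nat_lit 5047065907) (nat_lit 84) (nat_lit 5047065907) (nat_lit 9) (nat_lit 3) (nat_lit 8) (nat_lit 1) (nat_lit 9) (nat_lit 1) (nat_lit 217) (nat_lit 293) (nat_lit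 210))) (XT.nd (nat_lit 94) (nat_lit 0) (nat_lit 0) (XT.lf (nat_lit 168) (nat_lit 8513383054) (nat_lit 0) (nat_lit 1226620109) (nat_lit 84) (nat_lit 1226620109) (nat_lit 8) (nat_lit 1) (nat_lit 6) (nat_lit 1) (nat_lit 7) (nat_lit 1) (nat_lit 218) (nat_lit 293) (nat_lit 209)) (XT.lf (nat_lit 0) (nat_lit 2445643586) (nat_lit 0) (nat_lit 5894643441) (nat_lit 168) (nat_lit 2445643586) (nat_lit 6) (nat_lit 3) (nat_lit 6) (nat_lit 1) (nat_lit 8) (nat_lit 1) (nat_lit 219) (nat_lit 293) (nat_lit 208))))) (XT.nd (nat_lit 282) (nat_lit 252) (nat_lit 0) (XT.nd (nat_lit 94) (nat_lit 168) (nat_lit 0) (XT.lf (nat_lit 84) (nat_lit 1346597151) (nat_lit 0) (nat_lit 4631358918) (nat_lit 84) (nat_lit 4631358918) (nat_lit 6) (nat_lit 3) (nat_lit 5) (nat_lit 1) (nat_lit 6) (nat_lit 1) (nat_lit 220) (nat_lit 293) (nat_lit 207)) (XT.nd (nat_lit 94) (nat_lit 0) (nat_lit 0) (XT.lf (nat_lit 168) (nat_lit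 8418541736) (nat_lit 0) (nat_lit 1009143399) (nat_lit 84) (nat_lit 1009143399) (nat_lit 5) (nat_lit 1) (nat_lit 3) (nat_lit 1) (nat_lit 4) (nat_lit 1) (nat_lit 221) (nat_lit 293) (nat_lit 206)) (XT.lf (nat_lit 0) (nat_lit 2475827335) (nat_lit 0) (nat_lit 5313328051) (nat_lit 168) (nat_lit 2475827335) (nat_lit 3) (nat_lit 3) (nat_lit 3) (nat_lit 1) (nat_lit 5) (nat_lit 1) (nat_lit 222) (nat_lit 293) (nat_lit 205)))) (XT.nd (nat_lit 188) (nat_lit 0) (nat_lit 0) (XT.nd (nat_lit 94) (nat_lit 168) (nat_lit 0) (XT.lf (nat_lit 84) (nat_lit 1564158625) (nat_lit 0) (nat_lit 4266540259) (nat_lit 84) (nat_lit 4266540259) (nat_lit 3) (nat_lit 3) (nat_lit 2) (nat_lit 1) (nat_lit 3) (nat_lit 1) (nat_lit 223) (nat_lit 293) (nat_lit 204)) (XT.lf (nat_lit 0) (nat_lit 14430429022) (nat_lit 0) (nat_lit 0) (nat_lit 0) (nat_lit 0) (nat_lit 0) (nat_lit 0) (nat_lit 1) (nat_lit 0) (nat_lit 1) (nat_lit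 0) (nat_lit 224) (nat_lit 293) (nat_lit 203))) (XT.nd (nat_lit 94) (nat_lit 0) (nat_lit 0) (XT.lf (nat_lit 0) (nat_lit 14422021335) (nat_lit 0) (nat_lit 0) (nat_lit 0) (nat_lit 0) (nat_lit 0) (nat_lit 0) (nat_lit 1) (nat_lit 0) (nat_lit 1) (nat_lit 0) (nat_lit 225) (nat_lit 293) (nat_lit 202)) (XT.lf (nat_lit 0) (nat_lit 14414014015) (nat_lit 0) (nat_lit 0) (nat_lit 0) (nat_lit 0) (nat_lit 0) (nat_lit 0) (nat_lit 1) (nat_lit 0) (nat_lit 1) (nat_lit 0) (nat_lit 226) (nat_lit 293) (nat_lit 201))))))))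
noncomputable def ec157 : XT := (XT.nd (nat_lit 2538) (nat_lit 0) (nat_lit 0) (XT.nd (nat_lit 1222) (nat_lit 0) (nat_lit 0) (XT.nd (nat_lit 564) (nat_lit 0) (nat_lit 0) (XT.nd (nat_lit 282) (nat_lit 0) (nat_lit 0) (XT.nd (nat_lit 94) (nat_lit 0) (nat_lit 0) (XT.lf (nat_lit 0) (nat_lit 14406387995) (nat_lit 0) (nat_lit 0) (nat_lit 0) (nat_lit 0) (nat_lit 0) (nat_lit 0) (nat_lit 1) (nat_lit 0) (nat_lit 1) (nat_lit 0) (nat_lit 227) (nat_lit 293) (nat_lit 200)) (XT.nd (nat_lit 94) (nat_lit 0) (nat_lit 0) (XT.lf (nat_lit 0) (nat_lit 14399125120) (nat_lit 0) (nat_lit 0) (nat_lit 0) (nat_lit 0) (nat_lit 0) (nat_lit 0) (nat_lit 1) (nat_lit 0) (nat_lit 1) (nat_lit 0) (nat_lit 228) (nat_lit 293) (nat_lit 199)) (XT.lf (nat_lit 0) (nat_lit 14392208095) (nat_lit 0) (nat_lit 0) (nat_lit 0) (nat_lit 0) (nat_lit 0) (nat_lit 0) (nat_lit 1) (nat_lit 0) (nat_lit 1) (nat_lit 0) (nat_lit 229)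 (nat_lit 293) (nat_lit 198)))) (XT.nd (nat_lit 94) (nat_lit 0) (nat_lit 0) (XT.lf (nat_lit 0) (nat_lit 14385620453) (nat_lit 0) (nat_lit 0) (nat_lit 0) (nat_lit 0) (nat_lit 0) (nat_lit 0) (nat_lit 1) (nat_lit 0) (nat_lit 1) (nat_lit 0) (nat_lit 230) (nat_lit 293) (nat_lit 197)) (XT.nd (nat_lit 94) (nat_lit 0) (nat_lit 0) (XT.lf (nat_lit 0) (nat_lit 14379346508) (nat_lit 0) (nat_lit 0) (nat_lit 0) (nat_lit 0) (nat_lit 0) (nat_lit 0) (nat_lit 1) (nat_lit 0) (nat_lit 1) (nat_lit 0) (nat_lit 231) (nat_lit 293) (nat_lit 196)) (XT.lf (nat_lit 0) (nat_lit 14373371322) (nat_lit 0) (nat_lit 0) (nat_lit 0) (nat_lit 0) (nat_lit 0) (nat_lit 0) (nat_lit 1) (nat_lit 0) (nat_lit 1) (nat_lit 0) (nat_lit 232) (nat_lit 293) (nat_lit 195))))) (XT.nd (nat_lit 282) (nat_lit 0) (nat_lit 0) (XT.nd (nat_lit 94) (nat_lit 0) (nat_lit 0) (XT.lf (nat_lit 0) (nat_lit 14367680669) (nat_lit 0) (nat_lit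 0) (nat_lit 0) (nat_lit 0) (nat_lit 0) (nat_lit 0) (nat_lit 1) (nat_lit 0) (nat_lit 1) (nat_lit 0) (nat_lit 233) (nat_lit 293) (nat_lit 194)) (XT.nd (nat_lit 94) (nat_lit 0) (nat_lit 0) (XT.lf (nat_lit 0) (nat_lit 14362260999) (nat_lit 0) (nat_lit 0) (nat_lit 0) (nat_lit 0) (nat_lit 0) (nat_lit 0) (nat_lit 1) (nat_lit 0) (nat_lit 1) (nat_lit 0) (nat_lit 234) (nat_lit 293) (nat_lit 193)) (XT.lf (nat_lit 0) (nat_lit 14357099409) (nat_lit 0) (nat_lit 0) (nat_lit 0) (nat_lit 0) (nat_lit 0) (nat_lit 0) (nat_lit 1) (nat_lit 0) (nat_lit 1) (nat_lit 0) (nat_lit 235) (nat_lit 293) (nat_lit 192)))) (XT.nd (nat_lit 188) (nat_lit 0) (nat_lit 0) (XT.nd (nat_lit 94) (nat_lit 0) (nat_lit 0) (XT.lf (nat_lit 0) (nat_lit 14352183609) (nat_lit 0) (nat_lit 0) (nat_lit 0) (nat_lit 0) (nat_lit 0) (nat_lit 0) (nat_lit 1) (nat_lit 0) (nat_lit 1) (nat_lit 0) (nat_lit 236) (nat_lit 293) (nat_lit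 191)) (XT.lf (nat_lit 0) (nat_lit 14347501894) (nat_lit 0) (nat_lit 0) (nat_lit 0) (nat_lit 0) (nat_lit 0) (nat_lit 0) (nat_lit 1) (nat_lit 0) (nat_lit 1) (nat_lit 0) (nat_lit 237) (nat_lit 293) (nat_lit 190))) (XT.nd (nat_lit 94) (nat_lit 0) (nat_lit 0) (XT.lf (nat_lit 0) (nat_lit 14343043118) (nat_lit 0) (nat_lit 0) (nat_lit 0) (nat_lit 0) (nat_lit 0) (nat_lit 0) (nat_lit 1) (nat_lit 0) (nat_lit 1) (nat_lit 0) (nat_lit 238) (nat_lit 293) (nat_lit 189)) (XT.lf (nat_lit 0) (nat_lit 14338796665) (nat_lit 0) (nat_lit 0) (nat_lit 0) (nat_lit 0) (nat_lit 0) (nat_lit 0) (nat_lit 1) (nat_lit 0) (nat_lit 1) (nat_lit 0) (nat_lit 239) (nat_lit 293) (nat_lit 188)))))) (XT.nd (nat_lit 658) (nat_lit 0) (nat_lit 0) (XT.nd (nat_lit 282) (nat_lit 0) (nat_lit 0) (XT.nd (nat_lit 94) (nat_lit 0) (nat_lit 0) (XT.lf (nat_lit 0) (nat_lit 14334752425) (nat_lit 0) (nat_lit 0) (nat_lit 0) (nat_lit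 0) (nat_lit 0) (nat_lit 0) (nat_lit 1) (nat_lit 0) (nat_lit 1) (nat_lit 0) (nat_lit 240) (nat_lit 293) (nat_lit 187)) (XT.nd (nat_lit 94) (nat_lit 0) (nat_lit 0) (XT.lf (nat_lit 0) (nat_lit 14330900766) (nat_lit 0) (nat_lit 0) (nat_lit 0) (nat_lit 0) (nat_lit 0) (nat_lit 0) (nat_lit 1) (nat_lit 0) (nat_lit 1) (nat_lit 0) (nat_lit 241) (nat_lit 293) (nat_lit 186)) (XT.lf (nat_lit 0) (nat_lit 14327232521) (nat_lit 0) (nat_lit 0) (nat_lit 0) (nat_lit 0) (nat_lit 0) (nat_lit 0) (nat_lit 1) (nat_lit 0) (nat_lit 1) (nat_lit 0) (nat_lit 242) (nat_lit 293) (nat_lit 185)))) (XT.nd (nat_lit 188) (nat_lit 0) (nat_lit 0) (XT.nd (nat_lit 94) (nat_lit 0) (nat_lit 0) (XT.lf (nat_lit 0) (nat_lit 14323738953) (nat_lit 0) (nat_lit 0) (nat_lit 0) (nat_lit 0) (nat_lit 0) (nat_lit 0) (nat_lit 1) (nat_lit 0) (nat_lit 1) (nat_lit 0) (nat_lit 243) (nat_lit 293) (nat_lit 184)) (XT.lf (nat_lit 0)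 (nat_lit 14320411746) (nat_lit 0) (nat_lit 0) (nat_lit 0) (nat_lit 0) (nat_lit 0) (nat_lit 0) (nat_lit 1) (nat_lit 0) (nat_lit 1) (nat_lit 0) (nat_lit 244) (nat_lit 293) (nat_lit 183))) (XT.nd (nat_lit 94) (nat_lit 0) (nat_lit 0) (XT.lf (nat_lit 0) (nat_lit 14317242978) (nat_lit 0) (nat_lit 0) (nat_lit 0) (nat_lit 0) (nat_lit 0) (nat_lit 0) (nat_lit 1) (nat_lit 0) (nat_lit 1) (nat_lit 0) (nat_lit 245) (nat_lit 293) (nat_lit 182)) (XT.lf (nat_lit 0) (nat_lit 14314225103) (nat_lit 0) (nat_lit 0) (nat_lit 0) (nat_lit 0) (nat_lit 0) (nat_lit 0) (nat_lit 1) (nat_lit 0) (nat_lit 1) (nat_lit 0) (nat_lit 246) (nat_lit 293) (nat_lit 181))))) (XT.nd (nat_lit 282) (nat_lit 0) (nat_lit 0) (XT.nd (nat_lit 94) (nat_lit 0) (nat_lit 0) (XT.lf (nat_lit 0) (nat_lit 14311350936) (nat_lit 0) (nat_lit 0) (nat_lit 0) (nat_lit 0) (nat_lit 0) (nat_lit 0) (nat_lit 1) (nat_lit 0) (nat_lit 1) (nat_lit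 0) (nat_lit 247) (nat_lit 293) (nat_lit 180)) (XT.nd (nat_lit 94) (nat_lit 0) (nat_lit 0) (XT.lf (nat_lit 0) (nat_lit 14308613635) (nat_lit 0) (nat_lit 0) (nat_lit 0) (nat_lit 0) (nat_lit 0) (nat_lit 0) (nat_lit 1) (nat_lit 0) (nat_lit 1) (nat_lit 0) (nat_lit 248) (nat_lit 293) (nat_lit 179)) (XT.lf (nat_lit 0) (nat_lit 14306006681) (nat_lit 0) (nat_lit 0) (nat_lit 0) (nat_lit 0) (nat_lit 0) (nat_lit 0) (nat_lit 1) (nat_lit 0) (nat_lit 1) (nat_lit 0) (nat_lit 249) (nat_lit 293) (nat_lit 178)))) (XT.nd (nat_lit 188) (nat_lit 0) (nat_lit 0) (XT.nd (nat_lit 94) (nat_lit 0) (nat_lit 0) (XT.lf (nat_lit 0) (nat_lit 14303523868) (nat_lit 0) (nat_lit 0) (nat_lit 0) (nat_lit 0) (nat_lit 0) (nat_lit 0) (nat_lit 1) (nat_lit 0) (nat_lit 1) (nat_lit 0) (nat_lit 250) (nat_lit 293) (nat_lit 177)) (XT.lf (nat_lit 0) (nat_lit 14301159284) (nat_lit 0) (nat_lit 0) (nat_lit 0) (nat_lit 0) (nat_lit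 0) (nat_lit 0) (nat_lit 1) (nat_lit 0) (nat_lit 1) (nat_lit 0) (nat_lit 251) (nat_lit 293) (nat_lit 176))) (XT.nd (nat_lit 94) (nat_lit 0) (nat_lit 0) (XT.lf (nat_lit 0) (nat_lit 14298907299) (nat_lit 0) (nat_lit 0) (nat_lit 0) (nat_lit 0) (nat_lit 0) (nat_lit 0) (nat_lit 1) (nat_lit 0) (nat_lit 1) (nat_lit 0) (nat_lit 252) (nat_lit 293) (nat_lit 175)) (XT.lf (nat_lit 0) (nat_lit 14296762552) (nat_lit 0) (nat_lit 0) (nat_lit 0) (nat_lit 0) (nat_lit 0) (nat_lit 0) (nat_lit 1) (nat_lit 0) (nat_lit 1) (nat_lit 0) (nat_lit 253) (nat_lit 293) (nat_lit 174))))))) (XT.nd (nat_lit 1316) (nat_lit 0) (nat_lit 0) (XT.nd (nat_lit 658) (nat_lit 0) (nat_lit 0) (XT.nd (nat_lit 282) (nat_lit 0) (nat_lit 0) (XT.nd (nat_lit 94) (nat_lit 0) (nat_lit 0) (XT.lf (nat_lit 0) (nat_lit 14294719935) (nat_lit 0) (nat_lit 0) (nat_lit 0) (nat_lit 0) (nat_lit 0) (nat_lit 0) (nat_lit 1) (nat_lit 0) (nat_lit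 1) (nat_lit 0) (nat_lit 254) (nat_lit 293) (nat_lit 173)) (XT.nd (nat_lit 94) (nat_lit 0) (nat_lit 0) (XT.lf (nat_lit 0) (nat_lit 14292774586) (nat_lit 0) (nat_lit 0) (nat_lit 0) (nat_lit 0) (nat_lit 0) (nat_lit 0) (nat_lit 1) (nat_lit 0) (nat_lit 1) (nat_lit 0) (nat_lit 255) (nat_lit 293) (nat_lit 172)) (XT.lf (nat_lit 0) (nat_lit 14290921873) (nat_lit 0) (nat_lit 0) (nat_lit 0) (nat_lit 0) (nat_lit 0) (nat_lit 0) (nat_lit 1) (nat_lit 0) (nat_lit 1) (nat_lit 0) (nat_lit 256) (nat_lit 293) (nat_lit 171)))) (XT.nd (nat_lit 188) (nat_lit 0) (nat_lit 0) (XT.nd (nat_lit 94) (nat_lit 0) (nat_lit 0) (XT.lf (nat_lit 0) (nat_lit 14289157384) (nat_lit 0) (nat_lit 0) (nat_lit 0) (nat_lit 0) (nat_lit 0) (nat_lit 0) (nat_lit 1) (nat_lit 0) (nat_lit 1) (nat_lit 0) (nat_lit 257) (nat_lit 293) (nat_lit 170)) (XT.lf (nat_lit 0) (nat_lit 14287476918) (nat_lit 0) (nat_lit 0) (nat_lit 0) (nat_lit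 0) (nat_lit 0) (nat_lit 0) (nat_lit 1) (nat_lit 0) (nat_lit 1) (nat_lit 0) (nat_lit 258) (nat_lit 293) (nat_lit 169))) (XT.nd (nat_lit 94) (nat_lit 0) (nat_lit 0) (XT.lf (nat_lit 0) (nat_lit 14285876475) (nat_lit 0) (nat_lit 0) (nat_lit 0) (nat_lit 0) (nat_lit 0) (nat_lit 0) (nat_lit 1) (nat_lit 0) (nat_lit 1) (nat_lit 0) (nat_lit 259) (nat_lit 293) (nat_lit 168)) (XT.lf (nat_lit 0) (nat_lit 14284352243) (nat_lit 0) (nat_lit 0) (nat_lit 0) (nat_lit 0) (nat_lit 0) (nat_lit 0) (nat_lit 1) (nat_lit 0) (nat_lit 1) (nat_lit 0) (nat_lit 260) (nat_lit 293) (nat_lit 167))))) (XT.nd (nat_lit 282) (nat_lit 0) (nat_lit 0) (XT.nd (nat_lit 94) (nat_lit 0) (nat_lit 0) (XT.lf (nat_lit 0) (nat_lit 14282900594) (nat_lit 0) (nat_lit 0) (nat_lit 0) (nat_lit 0) (nat_lit 0) (nat_lit 0) (nat_lit 1) (nat_lit 0) (nat_lit 1) (nat_lit 0) (nat_lit 261) (nat_lit 293) (nat_lit 166)) (XT.nd (nat_lit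 94) (nat_lit 0) (nat_lit 0) (XT.lf (nat_lit 0) (nat_lit 14281518070) (nat_lit 0) (nat_lit 0) (nat_lit 0) (nat_lit 0) (nat_lit 0) (nat_lit 0) (nat_lit 1) (nat_lit 0) (nat_lit 1) (nat_lit 0) (nat_lit 262) (nat_lit 293) (nat_lit 165)) (XT.lf (nat_lit 0) (nat_lit 14280201382) (nat_lit 0) (nat_lit 0) (nat_lit 0) (nat_lit 0) (nat_lit 0) (nat_lit 0) (nat_lit 1) (nat_lit 0) (nat_lit 1) (nat_lit 0) (nat_lit 263) (nat_lit 293) (nat_lit 164)))) (XT.nd (nat_lit 188) (nat_lit 0) (nat_lit 0) (XT.nd (nat_lit 94) (nat_lit 0) (nat_lit 0) (XT.lf (nat_lit 0) (nat_lit 14278947392) (nat_lit 0) (nat_lit 0) (nat_lit 0) (nat_lit 0) (nat_lit 0) (nat_lit 0) (nat_lit 1) (nat_lit 0) (nat_lit 1) (nat_lit 0) (nat_lit 264) (nat_lit 293) (nat_lit 163)) (XT.lf (nat_lit 0) (nat_lit 14277753117) (nat_lit 0) (nat_lit 0) (nat_lit 0) (nat_lit 0) (nat_lit 0) (nat_lit 0) (nat_lit 1) (nat_lit 0) (nat_lit 1) (nat_lit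 0) (nat_lit 265) (nat_lit 293) (nat_lit 162))) (XT.nd (nat_lit 94) (nat_lit 0) (nat_lit 0) (XT.lf (nat_lit 0) (nat_lit 14276615711) (nat_lit 0) (nat_lit 0) (nat_lit 0) (nat_lit 0) (nat_lit 0) (nat_lit 0) (nat_lit 1) (nat_lit 0) (nat_lit 1) (nat_lit 0) (nat_lit 266) (nat_lit 293) (nat_lit 161)) (XT.lf (nat_lit 0) (nat_lit 14275532468) (nat_lit 0) (nat_lit 0) (nat_lit 0) (nat_lit 0) (nat_lit 0) (nat_lit 0) (nat_lit 1) (nat_lit 0) (nat_lit 1) (nat_lit 0) (nat_lit 267) (nat_lit 293) (nat_lit 160)))))) (XT.nd (nat_lit 658) (nat_lit 0) (nat_lit 0) (XT.nd (nat_lit 282) (nat_lit 0) (nat_lit 0) (XT.nd (nat_lit 94) (nat_lit 0) (nat_lit 0) (XT.lf (nat_lit 0) (nat_lit 14274500808) (nat_lit 0) (nat_lit 0) (nat_lit 0) (nat_lit 0) (nat_lit 0) (nat_lit 0) (nat_lit 1) (nat_lit 0) (nat_lit 1) (nat_lit 0) (nat_lit 268) (nat_lit 293) (nat_lit 159)) (XT.nd (nat_lit 94) (nat_lit 0) (nat_lit 0)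 (XT.lf (nat_lit 0) (nat_lit 14273518275) (nat_lit 0) (nat_lit 0) (nat_lit 0) (nat_lit 0) (nat_lit 0) (nat_lit 0) (nat_lit 1) (nat_lit 0) (nat_lit 1) (nat_lit 0) (nat_lit 269) (nat_lit 293) (nat_lit 158)) (XT.lf (nat_lit 0) (nat_lit 14272582528) (nat_lit 0) (nat_lit 0) (nat_lit 0) (nat_lit 0) (nat_lit 0) (nat_lit 0) (nat_lit 1) (nat_lit 0) (nat_lit 1) (nat_lit 0) (nat_lit 270) (nat_lit 293) (nat_lit 157)))) (XT.nd (nat_lit 188) (nat_lit 0) (nat_lit 0) (XT.nd (nat_lit 94) (nat_lit 0) (nat_lit 0) (XT.lf (nat_lit 0) (nat_lit 14271691342) (nat_lit 0) (nat_lit 0) (nat_lit 0) (nat_lit 0) (nat_lit 0) (nat_lit 0) (nat_lit 1) (nat_lit 0) (nat_lit 1) (nat_lit 0) (nat_lit 271) (nat_lit 293) (nat_lit 156)) (XT.lf (nat_lit 0) (nat_lit 14270842592) (nat_lit 0) (nat_lit 0) (nat_lit 0) (nat_lit 0) (nat_lit 0) (nat_lit 0) (nat_lit 1) (nat_lit 0) (nat_lit 1) (nat_lit 0) (nat_lit 272) (nat_lit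 293) (nat_lit 155))) (XT.nd (nat_lit 94) (nat_lit 0) (nat_lit 0) (XT.lf (nat_lit 0) (nat_lit 14270034260) (nat_lit 0) (nat_lit 0) (nat_lit 0) (nat_lit 0) (nat_lit 0) (nat_lit 0) (nat_lit 1) (nat_lit 0) (nat_lit 1) (nat_lit 0) (nat_lit 273) (nat_lit 293) (nat_lit 154)) (XT.lf (nat_lit 0) (nat_lit 14269264419) (nat_lit 0) (nat_lit 0) (nat_lit 0) (nat_lit 0) (nat_lit 0) (nat_lit 0) (nat_lit 1) (nat_lit 0) (nat_lit 1) (nat_lit 0) (nat_lit 274) (nat_lit 293) (nat_lit 153))))) (XT.nd (nat_lit 282) (nat_lit 0) (nat_lit 0) (XT.nd (nat_lit 94) (nat_lit 0) (nat_lit 0) (XT.lf (nat_lit 0) (nat_lit 14268531237) (nat_lit 0) (nat_lit 0) (nat_lit 0) (nat_lit 0) (nat_lit 0) (nat_lit 0) (nat_lit 1) (nat_lit 0) (nat_lit 1) (nat_lit 0) (nat_lit 275) (nat_lit 293) (nat_lit 152)) (XT.nd (nat_lit 94) (nat_lit 0) (nat_lit 0) (XT.lf (nat_lit 0) (nat_lit 14267832969) (nat_lit 0) (nat_lit 0) (nat_lit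 0) (nat_lit 0) (nat_lit 0) (nat_lit 0) (nat_lit 1) (nat_lit 0) (nat_lit 1) (nat_lit 0) (nat_lit 276) (nat_lit 293) (nat_lit 151)) (XT.lf (nat_lit 0) (nat_lit 14267167952) (nat_lit 0) (nat_lit 0) (nat_lit 0) (nat_lit 0) (nat_lit 0) (nat_lit 0) (nat_lit 1) (nat_lit 0) (nat_lit 1) (nat_lit 0) (nat_lit 277) (nat_lit 293) (nat_lit 150)))) (XT.nd (nat_lit 188) (nat_lit 0) (nat_lit 0) (XT.nd (nat_lit 94) (nat_lit 0) (nat_lit 0) (XT.lf (nat_lit 0) (nat_lit 14266534602) (nat_lit 0) (nat_lit 0) (nat_lit 0) (nat_lit 0) (nat_lit 0) (nat_lit 0) (nat_lit 1) (nat_lit 0) (nat_lit 1) (nat_lit 0) (nat_lit 278) (nat_lit 293) (nat_lit 149)) (XT.lf (nat_lit 0) (nat_lit 14265931412) (nat_lit 0) (nat_lit 0) (nat_lit 0) (nat_lit 0) (nat_lit 0) (nat_lit 0) (nat_lit 1) (nat_lit 0) (nat_lit 1) (nat_lit 0) (nat_lit 279) (nat_lit 293) (nat_lit 148))) (XT.nd (nat_lit 94) (nat_lit 0) (nat_lit 0) (XT.lf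 (nat_lit 0) (nat_lit 14265356945) (nat_lit 0) (nat_lit 0) (nat_lit 0) (nat_lit 0) (nat_lit 0) (nat_lit 0) (nat_lit 1) (nat_lit 0) (nat_lit 1) (nat_lit 0) (nat_lit 280) (nat_lit 293) (nat_lit 147)) (XT.lf (nat_lit 0) (nat_lit 14264809833) (nat_lit 0) (nat_lit 0) (nat_lit 0) (nat_lit 0) (nat_lit 0) (nat_lit 0) (nat_lit 1) (nat_lit 0) (nat_lit 1) (nat_lit 0) (nat_lit 281) (nat_lit 293) (nat_lit 146))))))))
noncomputable def ec158 : XT := (XT.nd (nat_lit 2538) (nat_lit 0) (nat_lit 0) (XT.nd (nat_lit 1222) (nat_lit 0) (nat_lit 0) (XT.nd (nat_lit 564) (nat_lit 0) (nat_lit 0) (XT.nd (nat_lit 282) (nat_lit 0) (nat_lit 0) (XT.nd (nat_lit 94) (nat_lit 0) (nat_lit 0) (XT.lf (nat_lit 0) (nat_lit 14264288775) (nat_lit 0) (nat_lit 0) (nat_lit 0) (nat_lit 0) (nat_lit 0) (nat_lit 0) (nat_lit 1) (nat_lit 0) (nat_lit 1) (nat_lit 0) (nat_lit 282) (nat_lit 293) (nat_lit 145)) (XT.nd (nat_lit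 94) (nat_lit 0) (nat_lit 0) (XT.lf (nat_lit 0) (nat_lit 14263792529) (nat_lit 0) (nat_lit 0) (nat_lit 0) (nat_lit 0) (nat_lit 0) (nat_lit 0) (nat_lit 1) (nat_lit 0) (nat_lit 1) (nat_lit 0) (nat_lit 283) (nat_lit 293) (nat_lit 144)) (XT.lf (nat_lit 0) (nat_lit 14263319913) (nat_lit 0) (nat_lit 0) (nat_lit 0) (nat_lit 0) (nat_lit 0) (nat_lit 0) (nat_lit 1) (nat_lit 0) (nat_lit 1) (nat_lit 0) (nat_lit 284) (nat_lit 293) (nat_lit 143)))) (XT.nd (nat_lit 94) (nat_lit 0) (nat_lit 0) (XT.lf (nat_lit 0) (nat_lit 14262869803) (nat_lit 0) (nat_lit 0) (nat_lit 0) (nat_lit 0) (nat_lit 0) (nat_lit 0) (nat_lit 1) (nat_lit 0) (nat_lit 1) (nat_lit 0) (nat_lit 285) (nat_lit 293) (nat_lit 142)) (XT.nd (nat_lit 94) (nat_lit 0) (nat_lit 0) (XT.lf (nat_lit 0) (nat_lit 14262441127) (nat_lit 0) (nat_lit 0) (nat_lit 0) (nat_lit 0) (nat_lit 0) (nat_lit 0) (nat_lit 1) (nat_lit 0) (nat_lit 1) (nat_lit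 0) (nat_lit 286) (nat_lit 293) (nat_lit 141)) (XT.lf (nat_lit 0) (nat_lit 14262032864) (nat_lit 0) (nat_lit 0) (nat_lit 0) (nat_lit 0) (nat_lit 0) (nat_lit 0) (nat_lit 1) (nat_lit 0) (nat_lit 1) (nat_lit 0) (nat_lit 287) (nat_lit 293) (nat_lit 140))))) (XT.nd (nat_lit 282) (nat_lit 0) (nat_lit 0) (XT.nd (nat_lit 94) (nat_lit 0) (nat_lit 0) (XT.lf (nat_lit 0) (nat_lit 14261644042) (nat_lit 0) (nat_lit 0) (nat_lit 0) (nat_lit 0) (nat_lit 0) (nat_lit 0) (nat_lit 1) (nat_lit 0) (nat_lit 1) (nat_lit 0) (nat_lit 288) (nat_lit 293) (nat_lit 139)) (XT.nd (nat_lit 94) (nat_lit 0) (nat_lit 0) (XT.lf (nat_lit 0) (nat_lit 14261273736) (nat_lit 0) (nat_lit 0) (nat_lit 0) (nat_lit 0) (nat_lit 0) (nat_lit 0) (nat_lit 1) (nat_lit 0) (nat_lit 1) (nat_lit 0) (nat_lit 289) (nat_lit 293) (nat_lit 138)) (XT.lf (nat_lit 0) (nat_lit 14260921063) (nat_lit 0) (nat_lit 0) (nat_lit 0) (nat_lit 0)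 (nat_lit 0) (nat_lit 0) (nat_lit 1) (nat_lit 0) (nat_lit 1) (nat_lit 0) (nat_lit 290) (nat_lit 293) (nat_lit 137)))) (XT.nd (nat_lit 188) (nat_lit 0) (nat_lit 0) (XT.nd (nat_lit 94) (nat_lit 0) (nat_lit 0) (XT.lf (nat_lit 0) (nat_lit 14260585184) (nat_lit 0) (nat_lit 0) (nat_lit 0) (nat_lit 0) (nat_lit 0) (nat_lit 0) (nat_lit 1) (nat_lit 0) (nat_lit 1) (nat_lit 0) (nat_lit 291) (nat_lit 293) (nat_lit 136)) (XT.lf (nat_lit 0) (nat_lit 14260265299) (nat_lit 0) (nat_lit 0) (nat_lit 0) (nat_lit 0) (nat_lit 0) (nat_lit 0) (nat_lit 1) (nat_lit 0) (nat_lit 1) (nat_lit 0) (nat_lit 292) (nat_lit 293) (nat_lit 135))) (XT.nd (nat_lit 94) (nat_lit 0) (nat_lit 0) (XT.lf (nat_lit 0) (nat_lit 14259960647) (nat_lit 0) (nat_lit 0) (nat_lit 0) (nat_lit 0) (nat_lit 0) (nat_lit 0) (nat_lit 1) (nat_lit 0) (nat_lit 1) (nat_lit 0) (nat_lit 293) (nat_lit 293) (nat_lit 134)) (XT.lf (nat_lit 0) (nat_lit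 14259670502) (nat_lit 0) (nat_lit 0) (nat_lit 0) (nat_lit 0) (nat_lit 0) (nat_lit 0) (nat_lit 1) (nat_lit 0) (nat_lit 1) (nat_lit 0) (nat_lit 294) (nat_lit 293) (nat_lit 133)))))) (XT.nd (nat_lit 658) (nat_lit 0) (nat_lit 0) (XT.nd (nat_lit 282) (nat_lit 0) (nat_lit 0) (XT.nd (nat_lit 94) (nat_lit 0) (nat_lit 0) (XT.lf (nat_lit 0) (nat_lit 14259394174) (nat_lit 0) (nat_lit 0) (nat_lit 0) (nat_lit 0) (nat_lit 0) (nat_lit 0) (nat_lit 1) (nat_lit 0) (nat_lit 1) (nat_lit 0) (nat_lit 295) (nat_lit 293) (nat_lit 132)) (XT.nd (nat_lit 94) (nat_lit 0) (nat_lit 0) (XT.lf (nat_lit 0) (nat_lit 14259131004) (nat_lit 0) (nat_lit 0) (nat_lit 0) (nat_lit 0) (nat_lit 0) (nat_lit 0) (nat_lit 1) (nat_lit 0) (nat_lit 1) (nat_lit 0) (nat_lit 296) (nat_lit 293) (nat_lit 131)) (XT.lf (nat_lit 0) (nat_lit 14258880366) (nat_lit 0) (nat_lit 0) (nat_lit 0) (nat_lit 0) (nat_lit 0) (nat_lit 0) (nat_lit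 1) (nat_lit 0) (nat_lit 1) (nat_lit 0) (nat_lit 297) (nat_lit 293) (nat_lit 130)))) (XT.nd (nat_lit 188) (nat_lit 0) (nat_lit 0) (XT.nd (nat_lit 94) (nat_lit 0) (nat_lit 0) (XT.lf (nat_lit 0) (nat_lit 14258641663) (nat_lit 0) (nat_lit 0) (nat_lit 0) (nat_lit 0) (nat_lit 0) (nat_lit 0) (nat_lit 1) (nat_lit 0) (nat_lit 1) (nat_lit 0) (nat_lit 298) (nat_lit 293) (nat_lit 129)) (XT.lf (nat_lit 0) (nat_lit 14258414327) (nat_lit 0) (nat_lit 0) (nat_lit 0) (nat_lit 0) (nat_lit 0) (nat_lit 0) (nat_lit 1) (nat_lit 0) (nat_lit 1) (nat_lit 0) (nat_lit 299) (nat_lit 293) (nat_lit 128))) (XT.nd (nat_lit 94) (nat_lit 0) (nat_lit 0) (XT.lf (nat_lit 0) (nat_lit 14258197816) (nat_lit 0) (nat_lit 0) (nat_lit 0) (nat_lit 0) (nat_lit 0) (nat_lit 0) (nat_lit 1) (nat_lit 0) (nat_lit 1) (nat_lit 0) (nat_lit 300) (nat_lit 293) (nat_lit 127)) (XT.lf (nat_lit 0) (nat_lit 14257991616) (nat_lit 0)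 (nat_lit 0) (nat_lit 0) (nat_lit 0) (nat_lit 0) (nat_lit 0) (nat_lit 1) (nat_lit 0) (nat_lit 1) (nat_lit 0) (nat_lit 301) (nat_lit 293) (nat_lit 126))))) (XT.nd (nat_lit 282) (nat_lit 0) (nat_lit 0) (XT.nd (nat_lit 94) (nat_lit 0) (nat_lit 0) (XT.lf (nat_lit 0) (nat_lit 14257795234) (nat_lit 0) (nat_lit 0) (nat_lit 0) (nat_lit 0) (nat_lit 0) (nat_lit 0) (nat_lit 1) (nat_lit 0) (nat_lit 1) (nat_lit 0) (nat_lit 302) (nat_lit 293) (nat_lit 125)) (XT.nd (nat_lit 94) (nat_lit 0) (nat_lit 0) (XT.lf (nat_lit 0) (nat_lit 14257608204) (nat_lit 0) (nat_lit 0) (nat_lit 0) (nat_lit 0) (nat_lit 0) (nat_lit 0) (nat_lit 1) (nat_lit 0) (nat_lit 1) (nat_lit 0) (nat_lit 303) (nat_lit 293) (nat_lit 124)) (XT.lf (nat_lit 0) (nat_lit 14257430081) (nat_lit 0) (nat_lit 0) (nat_lit 0) (nat_lit 0) (nat_lit 0) (nat_lit 0) (nat_lit 1) (nat_lit 0) (nat_lit 1) (nat_lit 0) (nat_lit 304) (nat_lit 293)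 (nat_lit 123)))) (XT.nd (nat_lit 188) (nat_lit 0) (nat_lit 0) (XT.nd (nat_lit 94) (nat_lit 0) (nat_lit 0) (XT.lf (nat_lit 0) (nat_lit 14257260439) (nat_lit 0) (nat_lit 0) (nat_lit 0) (nat_lit 0) (nat_lit 0) (nat_lit 0) (nat_lit 1) (nat_lit 0) (nat_lit 1) (nat_lit 0) (nat_lit 305) (nat_lit 293) (nat_lit 122)) (XT.lf (nat_lit 0) (nat_lit 14257098876) (nat_lit 0) (nat_lit 0) (nat_lit 0) (nat_lit 0) (nat_lit 0) (nat_lit 0) (nat_lit 1) (nat_lit 0) (nat_lit 1) (nat_lit 0) (nat_lit 306) (nat_lit 293) (nat_lit 121))) (XT.nd (nat_lit 94) (nat_lit 0) (nat_lit 0) (XT.lf (nat_lit 0) (nat_lit 14256945006) (nat_lit 0) (nat_lit 0) (nat_lit 0) (nat_lit 0) (nat_lit 0) (nat_lit 0) (nat_lit 1) (nat_lit 0) (nat_lit 1) (nat_lit 0) (nat_lit 307) (nat_lit 293) (nat_lit 120)) (XT.lf (nat_lit 0) (nat_lit 14256798463) (nat_lit 0) (nat_lit 0) (nat_lit 0) (nat_lit 0) (nat_lit 0) (nat_lit 0) (nat_lit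 1) (nat_lit 0) (nat_lit 1) (nat_lit 0) (nat_lit 308) (nat_lit 293) (nat_lit 119))))))) (XT.nd (nat_lit 29610) (nat_lit 0) (nat_lit 7476) (XT.nd (nat_lit 28952) (nat_lit 0) (nat_lit 10920) (XT.nd (nat_lit 28670) (nat_lit 0) (nat_lit 10752) (XT.nd (nat_lit 94) (nat_lit 0) (nat_lit 0) (XT.lf (nat_lit 0) (nat_lit 14256658898) (nat_lit 0) (nat_lit 0) (nat_lit 0) (nat_lit 0) (nat_lit 0) (nat_lit 0) (nat_lit 1) (nat_lit 0) (nat_lit 1) (nat_lit 0) (nat_lit 309) (nat_lit 293) (nat_lit 118)) (XT.nd (nat_lit 28482) (nat_lit 0) (nat_lit 10752) (XT.lf (nat_lit 0) (nat_lit 14256525979) (nat_lit 0) (nat_lit 0) (nat_lit 0) (nat_lit 0) (nat_lit 0) (nat_lit 0) (nat_lit 1) (nat_lit 0) (nat_lit 1) (nat_lit 0) (nat_lit 310) (nat_lit 293) (nat_lit 117)) (XT.lf (nat_lit 924) (nat_lit 7489827728) (nat_lit 0) (nat_lit 13298171916) (nat_lit 924) (nat_lit 7489827728) (nat_lit 139) (nat_lit 1) (nat_lit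 128) (nat_lit 0) (nat_lit 139) (nat_lit 0) (nat_lit 132) (nat_lit 294) (nat_lit 294)))) (XT.nd (nat_lit 94) (nat_lit 0) (nat_lit 84) (XT.lf (nat_lit 924) (nat_lit 29031507345) (nat_lit 84) (nat_lit 13083685272) (nat_lit 0) (nat_lit 13083685272) (nat_lit 139) (nat_lit 1) (nat_lit 129) (nat_lit 1) (nat_lit 128) (nat_lit 0) (nat_lit 133) (nat_lit 294) (nat_lit 293)) (XT.nd (nat_lit 94) (nat_lit 0) (nat_lit 0) (XT.lf (nat_lit 924) (nat_lit 13835979273) (nat_lit 0) (nat_lit 26212087747) (nat_lit 840) (nat_lit 13835979273) (nat_lit 140) (nat_lit 1) (nat_lit 129) (nat_lit 1) (nat_lit 139) (nat_lit 1) (nat_lit 134) (nat_lit 294) (nat_lit 292)) (XT.lf (nat_lit 924) (nat_lit 25954374559) (nat_lit 84) (nat_lit 13328659498) (nat_lit 0) (nat_lit 13328659498) (nat_lit 140) (nat_lit 1) (nat_lit 130) (nat_lit 1) (nat_lit 129) (nat_lit 1) (nat_lit 135) (nat_lit 294) (nat_lit 291))))) (XT.nd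 (nat_lit 282) (nat_lit 0) (nat_lit 84) (XT.nd (nat_lit 94) (nat_lit 0) (nat_lit 0) (XT.lf (nat_lit 924) (nat_lit 11946549367) (nat_lit 0) (nat_lit 27486569280) (nat_lit 840) (nat_lit 11946549367) (nat_lit 141) (nat_lit 1) (nat_lit 130) (nat_lit 1) (nat_lit 140) (nat_lit 1) (nat_lit 136) (nat_lit 294) (nat_lit 290)) (XT.nd (nat_lit 94) (nat_lit 0) (nat_lit 84) (XT.lf (nat_lit 924) (nat_lit 21486647140) (nat_lit 84) (nat_lit 14349276091) (nat_lit 0) (nat_lit 14349276091) (nat_lit 141) (nat_lit 1) (nat_lit 131) (nat_lit 1) (nat_lit 130) (nat_lit 1) (nat_lit 137) (nat_lit 294) (nat_lit 289)) (XT.lf (nat_lit 924) (nat_lit 9421274180) (nat_lit 0) (nat_lit 30188288391) (nat_lit 840) (nat_lit 9421274180) (nat_lit 142) (nat_lit 1) (nat_lit 131) (nat_lit 1) (nat_lit 141) (nat_lit 1) (nat_lit 138) (nat_lit 294) (nat_lit 288)))) (XT.nd (nat_lit 188) (nat_lit 0) (nat_lit 84) (XT.nd (nat_lit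 94) (nat_lit 0) (nat_lit 84) (XT.lf (nat_lit 924) (nat_lit 15837451170) (nat_lit 84) (nat_lit 16035403284) (nat_lit 0) (nat_lit 16035403284) (nat_lit 142) (nat_lit 1) (nat_lit 132) (nat_lit 1) (nat_lit 131) (nat_lit 1) (nat_lit 139) (nat_lit 294) (nat_lit 287)) (XT.lf (nat_lit 924) (nat_lit 6357911749) (nat_lit 0) (nat_lit 34110948020) (nat_lit 840) (nat_lit 6357911749) (nat_lit 143) (nat_lit 1) (nat_lit 132) (nat_lit 1) (nat_lit 142) (nat_lit 1) (nat_lit 140) (nat_lit 294) (nat_lit 286))) (XT.nd (nat_lit 94) (nat_lit 0) (nat_lit 84) (XT.lf (nat_lit 924) (nat_lit 9192668182) (nat_lit 84) (nat_lit 18288958787) (nat_lit 0) (nat_lit 18288958787) (nat_lit 143) (nat_lit 1) (nat_lit 133) (nat_lit 1) (nat_lit 132) (nat_lit 1) (nat_lit 141) (nat_lit 294) (nat_lit 285)) (XT.lf (nat_lit 84) (nat_lit 2843291344) (nat_lit 0) (nat_lit 39070935701) (nat_lit 840) (nat_lit 2843291344) (nat_lit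 134) (nat_lit 1) (nat_lit 133) (nat_lit 1) (nat_lit 143) (nat_lit 1) (nat_lit 142) (nat_lit 294) (nat_lit 284)))))) (XT.nd (nat_lit 658) (nat_lit 1428) (nat_lit 0) (XT.nd (nat_lit 282) (nat_lit 840) (nat_lit 0) (XT.nd (nat_lit 94) (nat_lit 588) (nat_lit 0) (XT.lf (nat_lit 924) (nat_lit 1717277265) (nat_lit 0) (nat_lit 21022703331) (nat_lit 840) (nat_lit 21022703331) (nat_lit 134) (nat_lit 1) (nat_lit 123) (nat_lit 1) (nat_lit 133) (nat_lit 1) (nat_lit 143) (nat_lit 294) (nat_lit 283)) (XT.nd (nat_lit 94) (nat_lit 0) (nat_lit 0) (XT.lf (nat_lit 588) (nat_lit 40753152196) (nat_lit 0) (nat_lit 1028718610) (nat_lit 504) (nat_lit 1028718610) (nat_lit 123) (nat_lit 1) (nat_lit 116) (nat_lit 1) (nat_lit 122) (nat_lit 1) (nat_lit 144) (nat_lit 294) (nat_lit 282)) (XT.lf (nat_lit 84) (nat_lit 17817207211) (nat_lit 0) (nat_lit 6236328032) (nat_lit 588) (nat_lit 17817207211) (nat_lit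 117) (nat_lit 1) (nat_lit 116) (nat_lit 1) (nat_lit 123) (nat_lit 1) (nat_lit 145) (nat_lit 294) (nat_lit 281)))) (XT.nd (nat_lit 188) (nat_lit 420) (nat_lit 0) (XT.nd (nat_lit 94) (nat_lit 0) (nat_lit 0) (XT.lf (nat_lit 504) (nat_lit 30658840132) (nat_lit 0) (nat_lit 5156010086) (nat_lit 420) (nat_lit 5156010086) (nat_lit 117) (nat_lit 1) (nat_lit 111) (nat_lit 1) (nat_lit 116) (nat_lit 1) (nat_lit 146) (nat_lit 294) (nat_lit 280)) (XT.lf (nat_lit 84) (nat_lit 12708797007) (nat_lit 0) (nat_lit 14672302151) (nat_lit 504) (nat_lit 12708797007) (nat_lit 112) (nat_lit 1) (nat_lit 111) (nat_lit 1) (nat_lit 117) (nat_lit 1) (nat_lit 147) (nat_lit 294) (nat_lit 279))) (XT.nd (nat_lit 94) (nat_lit 0) (nat_lit 0) (XT.lf (nat_lit 504) (nat_lit 20189281009) (nat_lit 0) (nat_lit 9525166320) (nat_lit 420) (nat_lit 9525166320) (nat_lit 112) (nat_lit 1) (nat_lit 106) (nat_lit 1) (nat_lit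 111) (nat_lit 1) (nat_lit 148) (nat_lit 294) (nat_lit 278)) (XT.lf (nat_lit 84) (nat_lit 7439481735) (nat_lit 0) (nat_lit 23535096743) (nat_lit 504) (nat_lit 7439481735) (nat_lit 107) (nat_lit 1) (nat_lit 106) (nat_lit 1) (nat_lit 112) (nat_lit 1) (nat_lit 149) (nat_lit 294) (nat_lit 277))))) (XT.nd (nat_lit 282) (nat_lit 672) (nat_lit 0) (XT.nd (nat_lit 94) (nat_lit 420) (nat_lit 0) (XT.lf (nat_lit 420) (nat_lit 9441919862) (nat_lit 0) (nat_lit 14083911437) (nat_lit 336) (nat_lit 14083911437) (nat_lit 107) (nat_lit 1) (nat_lit 102) (nat_lit 1) (nat_lit 106) (nat_lit 1) (nat_lit 150) (nat_lit 294) (nat_lit 276)) (XT.nd (nat_lit 94) (nat_lit 420) (nat_lit 0) (XT.lf (nat_lit 84) (nat_lit 2054498759) (nat_lit 0) (nat_lit 32727357829) (nat_lit 420) (nat_lit 2054498759) (nat_lit 103) (nat_lit 1) (nat_lit 102) (nat_lit 1) (nat_lit 107) (nat_lit 1) (nat_lit 151) (nat_lit 294) (nat_lit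 275)) (XT.lf (nat_lit 84) (nat_lit 17311796910) (nat_lit 0) (nat_lit 1449896619) (nat_lit 420) (nat_lit 17311796910) (nat_lit 98) (nat_lit 1) (nat_lit 97) (nat_lit 1) (nat_lit 102) (nat_lit 1) (nat_lit 152) (nat_lit 294) (nat_lit 274)))) (XT.nd (nat_lit 188) (nat_lit 336) (nat_lit 0) (XT.nd (nat_lit 94) (nat_lit 0) (nat_lit 0) (XT.lf (nat_lit 420) (nat_lit 28636442189) (nat_lit 0) (nat_lit 3351617555) (nat_lit 336) (nat_lit 3351617555) (nat_lit 98) (nat_lit 1) (nat_lit 93) (nat_lit 1) (nat_lit 97) (nat_lit 1) (nat_lit 153) (nat_lit 294) (nat_lit 273)) (XT.lf (nat_lit 84) (nat_lit 11232471572) (nat_lit 0) (nat_lit 12153509741) (nat_lit 420) (nat_lit 11232471572) (nat_lit 94) (nat_lit 1) (nat_lit 93) (nat_lit 1) (nat_lit 98) (nat_lit 1) (nat_lit 154) (nat_lit 294) (nat_lit 272))) (XT.nd (nat_lit 94) (nat_lit 0) (nat_lit 0) (XT.lf (nat_lit 420) (nat_lit 16391300654) (nat_lit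 0) (nat_lit 8765468671) (nat_lit 336) (nat_lit 8765468671) (nat_lit 94) (nat_lit 1) (nat_lit 89) (nat_lit 1) (nat_lit 93) (nat_lit 1) (nat_lit 155) (nat_lit 294) (nat_lit 271)) (XT.lf (nat_lit 84) (nat_lit 5169084694) (nat_lit 0) (nat_lit 22908211103) (nat_lit 420) (nat_lit 5169084694) (nat_lit 90) (nat_lit 1) (nat_lit 89) (nat_lit 1) (nat_lit 94) (nat_lit 1) (nat_lit 156) (nat_lit 294) (nat_lit 270))))))))
noncomputable def ec159 : XT := (XT.nd (nat_lit 2538) (nat_lit 2520) (nat_lit 0) (XT.nd (nat_lit 1222) (nat_lit 1680) (nat_lit 0) (XT.nd (nat_lit 564) (nat_lit 1092) (nat_lit 0) (XT.nd (nat_lit 282) (nat_lit 504) (nat_lit 0) (XT.nd (nat_lit 94) (nat_lit 420) (nat_lit 0) (XT.lf (nat_lit 336) (nat_lit 4203795194) (nat_lit 0) (nat_lit 14190658426) (nat_lit 252) (nat_lit 14190658426) (nat_lit 90) (nat_lit 1) (nat_lit 86) (nat_lit 1) (nat_lit 89) (nat_lit 1) (nat_lit 157)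 (nat_lit 294) (nat_lit 269)) (XT.nd (nat_lit 94) (nat_lit 0) (nat_lit 0) (XT.lf (nat_lit 420) (nat_lit 30269520428) (nat_lit 0) (nat_lit 839921111) (nat_lit 336) (nat_lit 839921111) (nat_lit 86) (nat_lit 1) (nat_lit 81) (nat_lit 1) (nat_lit 85) (nat_lit 1) (nat_lit 158) (nat_lit 294) (nat_lit 268)) (XT.lf (nat_lit 84) (nat_lit 11844687122) (nat_lit 0) (nat_lit 7627757806) (nat_lit 420) (nat_lit 11844687122) (nat_lit 82) (nat_lit 1) (nat_lit 81) (nat_lit 1) (nat_lit 86) (nat_lit 1) (nat_lit 159) (nat_lit 294) (nat_lit 267)))) (XT.nd (nat_lit 94) (nat_lit 252) (nat_lit 0) (XT.lf (nat_lit 336) (nat_lit 17299540003) (nat_lit 0) (nat_lit 6704804586) (nat_lit 252) (nat_lit 6704804586) (nat_lit 82) (nat_lit 1) (nat_lit 78) (nat_lit 1) (nat_lit 81) (nat_lit 1) (nat_lit 160) (nat_lit 294) (nat_lit 266)) (XT.nd (nat_lit 94) (nat_lit 252) (nat_lit 0) (XT.lf (nat_lit 84) (nat_lit 5465192283)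 (nat_lit 0) (nat_lit 19186228586) (nat_lit 336) (nat_lit 5465192283) (nat_lit 79) (nat_lit 1) (nat_lit 78) (nat_lit 1) (nat_lit 82) (nat_lit 1) (nat_lit 161) (nat_lit 294) (nat_lit 265)) (XT.lf (nat_lit 336) (nat_lit 4555066947) (nat_lit 0) (nat_lit 12491245109) (nat_lit 252) (nat_lit 12491245109) (nat_lit 79) (nat_lit 1) (nat_lit 75) (nat_lit 1) (nat_lit 78) (nat_lit 1) (nat_lit 162) (nat_lit 294) (nat_lit 264))))) (XT.nd (nat_lit 282) (nat_lit 504) (nat_lit 0) (XT.nd (nat_lit 94) (nat_lit 252) (nat_lit 0) (XT.lf (nat_lit 336) (nat_lit 27414343225) (nat_lit 0) (nat_lit 782835308) (nat_lit 252) (nat_lit 782835308) (nat_lit 75) (nat_lit 1) (nat_lit 71) (nat_lit 1) (nat_lit 74) (nat_lit 1) (nat_lit 163) (nat_lit 294) (nat_lit 263)) (XT.nd (nat_lit 94) (nat_lit 252) (nat_lit 0) (XT.lf (nat_lit 84) (nat_lit 10370060944) (nat_lit 0) (nat_lit 7684111033) (nat_lit 336) (nat_lit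 10370060944) (nat_lit 72) (nat_lit 1) (nat_lit 71) (nat_lit 1) (nat_lit 75) (nat_lit 1) (nat_lit 164) (nat_lit 294) (nat_lit 262)) (XT.lf (nat_lit 336) (nat_lit 14259783342) (nat_lit 0) (nat_lit 6814616322) (nat_lit 252) (nat_lit 6814616322) (nat_lit 72) (nat_lit 1) (nat_lit 68) (nat_lit 1) (nat_lit 71) (nat_lit 1) (nat_lit 165) (nat_lit 294) (nat_lit 261)))) (XT.nd (nat_lit 188) (nat_lit 336) (nat_lit 0) (XT.nd (nat_lit 94) (nat_lit 168) (nat_lit 0) (XT.lf (nat_lit 84) (nat_lit 3927132702) (nat_lit 0) (nat_lit 19513888406) (nat_lit 336) (nat_lit 3927132702) (nat_lit 69) (nat_lit 1) (nat_lit 68) (nat_lit 1) (nat_lit 72) (nat_lit 1) (nat_lit 166) (nat_lit 294) (nat_lit 260)) (XT.lf (nat_lit 252) (nat_lit 1439031996) (nat_lit 0) (nat_lit 12709037488) (nat_lit 168) (nat_lit 12709037488) (nat_lit 69) (nat_lit 1) (nat_lit 66) (nat_lit 1) (nat_lit 68) (nat_lit 1) (nat_lit 167)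 (nat_lit 294) (nat_lit 259))) (XT.nd (nat_lit 94) (nat_lit 0) (nat_lit 0) (XT.lf (nat_lit 336) (nat_lit 21743290943) (nat_lit 0) (nat_lit 2309295100) (nat_lit 252) (nat_lit 2309295100) (nat_lit 66) (nat_lit 1) (nat_lit 62) (nat_lit 1) (nat_lit 65) (nat_lit 1) (nat_lit 168) (nat_lit 294) (nat_lit 258)) (XT.lf (nat_lit 84) (nat_lit 7594415403) (nat_lit 0) (nat_lit 10683363135) (nat_lit 336) (nat_lit 7594415403) (nat_lit 63) (nat_lit 1) (nat_lit 62) (nat_lit 1) (nat_lit 66) (nat_lit 1) (nat_lit 169) (nat_lit 294) (nat_lit 257)))))) (XT.nd (nat_lit 658) (nat_lit 672) (nat_lit 0) (XT.nd (nat_lit 282) (nat_lit 588) (nat_lit 0) (XT.nd (nat_lit 94) (nat_lit 252) (nat_lit 0) (XT.lf (nat_lit 252) (nat_lit 8774175509) (nat_lit 0) (nat_lit 8311722159) (nat_lit 168) (nat_lit 8311722159) (nat_lit 63) (nat_lit 1) (nat_lit 60) (nat_lit 1) (nat_lit 62) (nat_lit 1) (nat_lit 170) (nat_lit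 294) (nat_lit 256)) (XT.nd (nat_lit 94) (nat_lit 252) (nat_lit 0) (XT.lf (nat_lit 84) (nat_lit 1260570523) (nat_lit 0) (nat_lit 22417653962) (nat_lit 252) (nat_lit 1260570523) (nat_lit 61) (nat_lit 1) (nat_lit 60) (nat_lit 1) (nat_lit 63) (nat_lit 1) (nat_lit 171) (nat_lit 294) (nat_lit 255)) (XT.lf (nat_lit 84) (nat_lit 10403709689) (nat_lit 0) (nat_lit 3674218672) (nat_lit 252) (nat_lit 10403709689) (nat_lit 58) (nat_lit 1) (nat_lit 57) (nat_lit 1) (nat_lit 60) (nat_lit 1) (nat_lit 172) (nat_lit 294) (nat_lit 254)))) (XT.nd (nat_lit 188) (nat_lit 420) (nat_lit 0) (XT.nd (nat_lit 94) (nat_lit 0) (nat_lit 0) (XT.lf (nat_lit 252) (nat_lit 14447374310) (nat_lit 0) (nat_lit 4796136833) (nat_lit 168) (nat_lit 4796136833) (nat_lit 58) (nat_lit 1) (nat_lit 55) (nat_lit 1) (nat_lit 57) (nat_lit 1) (nat_lit 173) (nat_lit 294) (nat_lit 253)) (XT.lf (nat_lit 84) (nat_lit 4076673164)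 (nat_lit 0) (nat_lit 15454080521) (nat_lit 252) (nat_lit 4076673164) (nat_lit 56) (nat_lit 1) (nat_lit 55) (nat_lit 1) (nat_lit 58) (nat_lit 1) (nat_lit 174) (nat_lit 294) (nat_lit 252))) (XT.nd (nat_lit 94) (nat_lit 252) (nat_lit 0) (XT.lf (nat_lit 252) (nat_lit 1909774603) (nat_lit 0) (nat_lit 10637071793) (nat_lit 168) (nat_lit 10637071793) (nat_lit 56) (nat_lit 1) (nat_lit 53) (nat_lit 1) (nat_lit 55) (nat_lit 1) (nat_lit 175) (nat_lit 294) (nat_lit 251)) (XT.lf (nat_lit 252) (nat_lit 18770498603) (nat_lit 0) (nat_lit 2001091207) (nat_lit 168) (nat_lit 2001091207) (nat_lit 53) (nat_lit 1) (nat_lit 50) (nat_lit 1) (nat_lit 52) (nat_lit 1) (nat_lit 176) (nat_lit 294) (nat_lit 250))))) (XT.nd (nat_lit 282) (nat_lit 504) (nat_lit 0) (XT.nd (nat_lit 94) (nat_lit 168) (nat_lit 0) (XT.lf (nat_lit 84) (nat_lit 6248744983) (nat_lit 0) (nat_lit 9867463745) (nat_lit 252) (nat_lit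 6248744983) (nat_lit 51) (nat_lit 1) (nat_lit 50) (nat_lit 1) (nat_lit 53) (nat_lit 1) (nat_lit 177) (nat_lit 294) (nat_lit 249)) (XT.nd (nat_lit 94) (nat_lit 0) (nat_lit 0) (XT.lf (nat_lit 252) (nat_lit 6364043385) (nat_lit 0) (nat_lit 7802509954) (nat_lit 168) (nat_lit 7802509954) (nat_lit 51) (nat_lit 1) (nat_lit 48) (nat_lit 1) (nat_lit 50) (nat_lit 1) (nat_lit 178) (nat_lit 294) (nat_lit 248)) (XT.lf (nat_lit 84) (nat_lit 209168554) (nat_lit 0) (nat_lit 21168719665) (nat_lit 252) (nat_lit 209168554) (nat_lit 49) (nat_lit 1) (nat_lit 48) (nat_lit 1) (nat_lit 51) (nat_lit 1) (nat_lit 179) (nat_lit 294) (nat_lit 247)))) (XT.nd (nat_lit 188) (nat_lit 168) (nat_lit 0) (XT.nd (nat_lit 94) (nat_lit 168) (nat_lit 0) (XT.lf (nat_lit 84) (nat_lit 7897863563) (nat_lit 0) (nat_lit 5406894896) (nat_lit 168) (nat_lit 7897863563) (nat_lit 47) (nat_lit 1) (nat_lit 46) (nat_lit 1) (nat_lit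 48) (nat_lit 1) (nat_lit 180) (nat_lit 294) (nat_lit 246)) (XT.lf (nat_lit 252) (nat_lit 9800349569) (nat_lit 0) (nat_lit 5515682026) (nat_lit 168) (nat_lit 5515682026) (nat_lit 47) (nat_lit 1) (nat_lit 44) (nat_lit 1) (nat_lit 46) (nat_lit 1) (nat_lit 181) (nat_lit 294) (nat_lit 245))) (XT.nd (nat_lit 94) (nat_lit 168) (nat_lit 0) (XT.lf (nat_lit 84) (nat_lit 1964902356) (nat_lit 0) (nat_lit 16541012267) (nat_lit 252) (nat_lit 1964902356) (nat_lit 45) (nat_lit 1) (nat_lit 44) (nat_lit 1) (nat_lit 47) (nat_lit 1) (nat_lit 182) (nat_lit 294) (nat_lit 244)) (XT.lf (nat_lit 84) (nat_lit 9123311520) (nat_lit 0) (nat_lit 1866273480) (nat_lit 168) (nat_lit 9123311520) (nat_lit 43) (nat_lit 1) (nat_lit 42) (nat_lit 1) (nat_lit 44) (nat_lit 1) (nat_lit 183) (nat_lit 294) (nat_lit 243))))))) (XT.nd (nat_lit 1316) (nat_lit 1092) (nat_lit 0) (XT.nd (nat_lit 658) (nat_lit 588) (nat_lit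 0) (XT.nd (nat_lit 282) (nat_lit 588) (nat_lit 0) (XT.nd (nat_lit 94) (nat_lit 84) (nat_lit 0) (XT.lf (nat_lit 252) (nat_lit 12410043583) (nat_lit 0) (nat_lit 3677325040) (nat_lit 168) (nat_lit 3677325040) (nat_lit 43) (nat_lit 1) (nat_lit 40) (nat_lit 1) (nat_lit 42) (nat_lit 1) (nat_lit 184) (nat_lit 294) (nat_lit 242)) (XT.nd (nat_lit 94) (nat_lit 84) (nat_lit 0) (XT.lf (nat_lit 84) (nat_lit 3323976572) (nat_lit 0) (nat_lit 12775430975) (nat_lit 252) (nat_lit 3323976572) (nat_lit 41) (nat_lit 1) (nat_lit 40) (nat_lit 1) (nat_lit 43) (nat_lit 1) (nat_lit 185) (nat_lit 294) (nat_lit 241)) (XT.lf (nat_lit 168) (nat_lit 954192627) (nat_lit 0) (nat_lit 9067161312) (nat_lit 84) (nat_lit 9067161312) (nat_lit 41) (nat_lit 1) (nat_lit 39) (nat_lit 1) (nat_lit 40) (nat_lit 1) (nat_lit 186) (nat_lit 294) (nat_lit 240)))) (XT.nd (nat_lit 188) (nat_lit 336) (nat_lit 0) (XT.nd (nat_lit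 94) (nat_lit 0) (nat_lit 0) (XT.lf (nat_lit 252) (nat_lit 14350032368) (nat_lit 0) (nat_lit 2205877542) (nat_lit 168) (nat_lit 2205877542) (nat_lit 39) (nat_lit 1) (nat_lit 36) (nat_lit 1) (nat_lit 38) (nat_lit 1) (nat_lit 187) (nat_lit 294) (nat_lit 239)) (XT.lf (nat_lit 84) (nat_lit 4360783315) (nat_lit 0) (nat_lit 9717139868) (nat_lit 252) (nat_lit 4360783315) (nat_lit 37) (nat_lit 1) (nat_lit 36) (nat_lit 1) (nat_lit 39) (nat_lit 1) (nat_lit 188) (nat_lit 294) (nat_lit 238))) (XT.nd (nat_lit 94) (nat_lit 252) (nat_lit 0) (XT.lf (nat_lit 168) (nat_lit 3204395010) (nat_lit 0) (nat_lit 7459576051) (nat_lit 84) (nat_lit 7459576051) (nat_lit 37) (nat_lit 1) (nat_lit 35) (nat_lit 1) (nat_lit 36) (nat_lit 1) (nat_lit 189) (nat_lit 294) (nat_lit 237)) (XT.lf (nat_lit 252) (nat_lit 15748910760) (nat_lit 0) (nat_lit 1034336276) (nat_lit 168) (nat_lit 1034336276) (nat_lit 35) (nat_lit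 1) (nat_lit 32) (nat_lit 1) (nat_lit 34) (nat_lit 1) (nat_lit 190) (nat_lit 294) (nat_lit 236))))) (XT.nd (nat_lit 282) (nat_lit 252) (nat_lit 0) (XT.nd (nat_lit 94) (nat_lit 336) (nat_lit 0) (XT.lf (nat_lit 84) (nat_lit 5136331571) (nat_lit 0) (nat_lit 7238849483) (nat_lit 252) (nat_lit 5136331571) (nat_lit 33) (nat_lit 1) (nat_lit 32) (nat_lit 1) (nat_lit 35) (nat_lit 1) (nat_lit 191) (nat_lit 294) (nat_lit 235)) (XT.nd (nat_lit 94) (nat_lit 252) (nat_lit 0) (XT.lf (nat_lit 168) (nat_lit 4940433586) (nat_lit 0) (nat_lit 6137011678) (nat_lit 84) (nat_lit 6137011678) (nat_lit 33) (nat_lit 1) (nat_lit 31) (nat_lit 1) (nat_lit 32) (nat_lit 1) (nat_lit 192) (nat_lit 294) (nat_lit 234)) (XT.lf (nat_lit 252) (nat_lit 16712004637) (nat_lit 0) (nat_lit 107670407) (nat_lit 168) (nat_lit 107670407) (nat_lit 31) (nat_lit 1) (nat_lit 28) (nat_lit 1) (nat_lit 30) (nat_lit 1) (nat_lit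 193) (nat_lit 294) (nat_lit 233)))) (XT.nd (nat_lit 188) (nat_lit 168) (nat_lit 0) (XT.nd (nat_lit 94) (nat_lit 84) (nat_lit 0) (XT.lf (nat_lit 84) (nat_lit 5700629215) (nat_lit 0) (nat_lit 5235928399) (nat_lit 252) (nat_lit 5700629215) (nat_lit 29) (nat_lit 1) (nat_lit 28) (nat_lit 1) (nat_lit 31) (nat_lit 1) (nat_lit 194) (nat_lit 294) (nat_lit 232)) (XT.lf (nat_lit 168) (nat_lit 6258954443) (nat_lit 0) (nat_lit 5048934695) (nat_lit 84) (nat_lit 5048934695) (nat_lit 29) (nat_lit 1) (nat_lit 27) (nat_lit 1) (nat_lit 28) (nat_lit 1) (nat_lit 195) (nat_lit 294) (nat_lit 231))) (XT.nd (nat_lit 94) (nat_lit 168) (nat_lit 0) (XT.lf (nat_lit 0) (nat_lit 629458131) (nat_lit 0) (nat_lit 14826009202) (nat_lit 168) (nat_lit 629458131) (nat_lit 27) (nat_lit 3) (nat_lit 27) (nat_lit 1) (nat_lit 29) (nat_lit 1) (nat_lit 196) (nat_lit 294) (nat_lit 230)) (XT.lf (nat_lit 84) (nat_lit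 6094642258) (nat_lit 0) (nat_lit 3622381741) (nat_lit 168) (nat_lit 6094642258) (nat_lit 26) (nat_lit 1) (nat_lit 25) (nat_lit 1) (nat_lit 27) (nat_lit 1) (nat_lit 197) (nat_lit 294) (nat_lit 229)))))) (XT.nd (nat_lit 658) (nat_lit 504) (nat_lit 0) (XT.nd (nat_lit 282) (nat_lit 336) (nat_lit 0) (XT.nd (nat_lit 94) (nat_lit 168) (nat_lit 0) (XT.lf (nat_lit 168) (nat_lit 7239207315) (nat_lit 0) (nat_lit 4153771069) (nat_lit 84) (nat_lit 4153771069) (nat_lit 26) (nat_lit 1) (nat_lit 24) (nat_lit 1) (nat_lit 25) (nat_lit 1) (nat_lit 198) (nat_lit 294) (nat_lit 228)) (XT.nd (nat_lit 94) (nat_lit 168) (nat_lit 0) (XT.lf (nat_lit 0) (nat_lit 1203086272) (nat_lit 0) (nat_lit 12882623972) (nat_lit 168) (nat_lit 1203086272) (nat_lit 24) (nat_lit 3) (nat_lit 24) (nat_lit 1) (nat_lit 26) (nat_lit 1) (nat_lit 199) (nat_lit 294) (nat_lit 227)) (XT.lf (nat_lit 84) (nat_lit 6351906312)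 (nat_lit 0) (nat_lit 2327542890) (nat_lit 168) (nat_lit 6351906312) (nat_lit 23) (nat_lit 1) (nat_lit 22) (nat_lit 1) (nat_lit 24) (nat_lit 1) (nat_lit 200) (nat_lit 294) (nat_lit 226)))) (XT.nd (nat_lit 188) (nat_lit 252) (nat_lit 0) (XT.nd (nat_lit 94) (nat_lit 0) (nat_lit 0) (XT.lf (nat_lit 168) (nat_lit 7946142350) (nat_lit 0) (nat_lit 3417317738) (nat_lit 84) (nat_lit 3417317738) (nat_lit 23) (nat_lit 1) (nat_lit 21) (nat_lit 1) (nat_lit 22) (nat_lit 1) (nat_lit 201) (nat_lit 294) (nat_lit 225)) (XT.lf (nat_lit 0) (nat_lit 1642381587) (nat_lit 0) (nat_lit 11251166157) (nat_lit 168) (nat_lit 1642381587) (nat_lit 21) (nat_lit 3) (nat_lit 21) (nat_lit 1) (nat_lit 23) (nat_lit 1) (nat_lit 202) (nat_lit 294) (nat_lit 224))) (XT.nd (nat_lit 94) (nat_lit 84) (nat_lit 0) (XT.lf (nat_lit 84) (nat_lit 6499851941) (nat_lit 0) (nat_lit 1293351931) (nat_lit 168) (nat_lit 6499851941)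 (nat_lit 20) (nat_lit 1) (nat_lit 19) (nat_lit 1) (nat_lit 21) (nat_lit 1) (nat_lit 203) (nat_lit 294) (nat_lit 223)) (XT.lf (nat_lit 168) (nat_lit 8432957239) (nat_lit 0) (nat_lit 2811435760) (nat_lit 84) (nat_lit 2811435760) (nat_lit 20) (nat_lit 1) (nat_lit 18) (nat_lit 1) (nat_lit 19) (nat_lit 1) (nat_lit 204) (nat_lit 294) (nat_lit 222))))) (XT.nd (nat_lit 282) (nat_lit 252) (nat_lit 0) (XT.nd (nat_lit 94) (nat_lit 252) (nat_lit 0) (XT.lf (nat_lit 0) (nat_lit 1972714761) (nat_lit 0) (nat_lit 9877885606) (nat_lit 168) (nat_lit 1972714761) (nat_lit 18) (nat_lit 3) (nat_lit 18) (nat_lit 1) (nat_lit 20) (nat_lit 1) (nat_lit 205) (nat_lit 294) (nat_lit 221)) (XT.nd (nat_lit 94) (nat_lit 84) (nat_lit 0) (XT.lf (nat_lit 84) (nat_lit 6560894657) (nat_lit 0) (nat_lit 472116820) (nat_lit 168) (nat_lit 6560894657) (nat_lit 17) (nat_lit 1) (nat_lit 16) (nat_lit 1) (nat_lit 18)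 (nat_lit 1) (nat_lit 206) (nat_lit 294) (nat_lit 220)) (XT.lf (nat_lit 168) (nat_lit 8743192184) (nat_lit 0) (nat_lit 2312975157) (nat_lit 84) (nat_lit 2312975157) (nat_lit 17) (nat_lit 1) (nat_lit 15) (nat_lit 1) (nat_lit 16) (nat_lit 1) (nat_lit 207) (nat_lit 294) (nat_lit 219)))) (XT.nd (nat_lit 188) (nat_lit 168) (nat_lit 0) (XT.nd (nat_lit 94) (nat_lit 84) (nat_lit 0) (XT.lf (nat_lit 0) (nat_lit 2214884330) (nat_lit 0) (nat_lit 8718487948) (nat_lit 168) (nat_lit 2214884330) (nat_lit 15) (nat_lit 3) (nat_lit 15) (nat_lit 1) (nat_lit 17) (nat_lit 1) (nat_lit 208) (nat_lit 294) (nat_lit 218)) (XT.lf (nat_lit 84) (nat_lit 181125483) (nat_lit 0) (nat_lit 6375033691) (nat_lit 84) (nat_lit 6375033691) (nat_lit 15) (nat_lit 3) (nat_lit 14) (nat_lit 1) (nat_lit 15) (nat_lit 1) (nat_lit 209) (nat_lit 294) (nat_lit 217))) (XT.nd (nat_lit 94) (nat_lit 0) (nat_lit 0) (XT.lf (nat_lit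 168) (nat_lit 8912452889) (nat_lit 0) (nat_lit 1902890386) (nat_lit 84) (nat_lit 1902890386) (nat_lit 14) (nat_lit 1) (nat_lit 12) (nat_lit 1) (nat_lit 13) (nat_lit 1) (nat_lit 210) (nat_lit 294) (nat_lit 216)) (XT.lf (nat_lit 0) (nat_lit 2385930833) (nat_lit 0) (nat_lit 7736461625) (nat_lit 168) (nat_lit 2385930833) (nat_lit 12) (nat_lit 3) (nat_lit 12) (nat_lit 1) (nat_lit 14) (nat_lit 1) (nat_lit 211) (nat_lit 294) (nat_lit 215))))))))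
noncomputable def ec160 : XT := (XT.nd (nat_lit 2538) (nat_lit 0) (nat_lit 0) (XT.nd (nat_lit 1222) (nat_lit 0) (nat_lit 0) (XT.nd (nat_lit 564) (nat_lit 504) (nat_lit 0) (XT.nd (nat_lit 282) (nat_lit 252) (nat_lit 0) (XT.nd (nat_lit 94) (nat_lit 168) (nat_lit 0) (XT.lf (nat_lit 84) (nat_lit 703659816) (nat_lit 0) (nat_lit 5799403427) (nat_lit 84) (nat_lit 5799403427) (nat_lit 12) (nat_lit 3) (nat_lit 11) (nat_lit 1) (nat_lit 12) (nat_lit 1) (nat_lit 212) (nat_lit 294) (nat_lit 214)) (XT.nd (nat_lit 94) (nat_lit 0) (nat_lit 0) (XT.lf (nat_lit 168) (nat_lit 8969827564) (nat_lit 0) (nat_lit 1565512630) (nat_lit 84) (nat_lit 1565512630) (nat_lit 11) (nat_lit 1) (nat_lit 9) (nat_lit 1) (nat_lit 10) (nat_lit 1) (nat_lit 213) (nat_lit 294) (nat_lit 213)) (XT.lf (nat_lit 0) (nat_lit 2499806452) (nat_lit 0) (nat_lit 6901701376) (nat_lit 168) (nat_lit 2499806452) (nat_lit 9) (nat_lit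 3) (nat_lit 9) (nat_lit 1) (nat_lit 11) (nat_lit 1) (nat_lit 214) (nat_lit 294) (nat_lit 212)))) (XT.nd (nat_lit 94) (nat_lit 168) (nat_lit 0) (XT.lf (nat_lit 84) (nat_lit 1107138322) (nat_lit 0) (nat_lit 5299419202) (nat_lit 84) (nat_lit 5299419202) (nat_lit 9) (nat_lit 3) (nat_lit 8) (nat_lit 1) (nat_lit 9) (nat_lit 1) (nat_lit 215) (nat_lit 294) (nat_lit 211)) (XT.nd (nat_lit 94) (nat_lit 0) (nat_lit 0) (XT.lf (nat_lit 168) (nat_lit 8939052207) (nat_lit 0) (nat_lit 1287951115) (nat_lit 84) (nat_lit 1287951115) (nat_lit 8) (nat_lit 1) (nat_lit 6) (nat_lit 1) (nat_lit 7) (nat_lit 1) (nat_lit 216) (nat_lit 294) (nat_lit 210)) (XT.lf (nat_lit 0) (nat_lit 2567925765) (nat_lit 0) (nat_lit 6189375613) (nat_lit 168) (nat_lit 2567925765) (nat_lit 6) (nat_lit 3) (nat_lit 6) (nat_lit 1) (nat_lit 8) (nat_lit 1) (nat_lit 217) (nat_lit 294) (nat_lit 209))))) (XT.nd (nat_lit 282) (nat_lit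 252) (nat_lit 0) (XT.nd (nat_lit 94) (nat_lit 168) (nat_lit 0) (XT.lf (nat_lit 84) (nat_lit 1413927009) (nat_lit 0) (nat_lit 4862926864) (nat_lit 84) (nat_lit 4862926864) (nat_lit 6) (nat_lit 3) (nat_lit 5) (nat_lit 1) (nat_lit 6) (nat_lit 1) (nat_lit 218) (nat_lit 294) (nat_lit 208)) (XT.nd (nat_lit 94) (nat_lit 0) (nat_lit 0) (XT.lf (nat_lit 168) (nat_lit 8839468822) (nat_lit 0) (nat_lit 1059600569) (nat_lit 84) (nat_lit 1059600569) (nat_lit 5) (nat_lit 1) (nat_lit 3) (nat_lit 1) (nat_lit 4) (nat_lit 1) (nat_lit 219) (nat_lit 294) (nat_lit 207)) (XT.lf (nat_lit 0) (nat_lit 2599618701) (nat_lit 0) (nat_lit 5578994453) (nat_lit 168) (nat_lit 2599618701) (nat_lit 3) (nat_lit 3) (nat_lit 3) (nat_lit 1) (nat_lit 5) (nat_lit 1) (nat_lit 220) (nat_lit 294) (nat_lit 206)))) (XT.nd (nat_lit 188) (nat_lit 0) (nat_lit 0) (XT.nd (nat_lit 94) (nat_lit 168) (nat_lit 0) (XT.lf (nat_lit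 84) (nat_lit 1642366556) (nat_lit 0) (nat_lit 4479867272) (nat_lit 84) (nat_lit 4479867272) (nat_lit 3) (nat_lit 3) (nat_lit 2) (nat_lit 1) (nat_lit 3) (nat_lit 1) (nat_lit 221) (nat_lit 294) (nat_lit 205)) (XT.lf (nat_lit 0) (nat_lit 15151950473) (nat_lit 0) (nat_lit 0) (nat_lit 0) (nat_lit 0) (nat_lit 0) (nat_lit 0) (nat_lit 1) (nat_lit 0) (nat_lit 1) (nat_lit 0) (nat_lit 222) (nat_lit 294) (nat_lit 204))) (XT.nd (nat_lit 94) (nat_lit 0) (nat_lit 0) (XT.lf (nat_lit 0) (nat_lit 15143122402) (nat_lit 0) (nat_lit 0) (nat_lit 0) (nat_lit 0) (nat_lit 0) (nat_lit 0) (nat_lit 1) (nat_lit 0) (nat_lit 1) (nat_lit 0) (nat_lit 223) (nat_lit 294) (nat_lit 203)) (XT.lf (nat_lit 0) (nat_lit 15134714716) (nat_lit 0) (nat_lit 0) (nat_lit 0) (nat_lit 0) (nat_lit 0) (nat_lit 0) (nat_lit 1) (nat_lit 0) (nat_lit 1) (nat_lit 0) (nat_lit 224) (nat_lit 294) (nat_lit 202)))))) (XT.nd (nat_lit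 658) (nat_lit 0) (nat_lit 0) (XT.nd (nat_lit 282) (nat_lit 0) (nat_lit 0) (XT.nd (nat_lit 94) (nat_lit 0) (nat_lit 0) (XT.lf (nat_lit 0) (nat_lit 15126707395) (nat_lit 0) (nat_lit 0) (nat_lit 0) (nat_lit 0) (nat_lit 0) (nat_lit 0) (nat_lit 1) (nat_lit 0) (nat_lit 1) (nat_lit 0) (nat_lit 225) (nat_lit 294) (nat_lit 201)) (XT.nd (nat_lit 94) (nat_lit 0) (nat_lit 0) (XT.lf (nat_lit 0) (nat_lit 15119081376) (nat_lit 0) (nat_lit 0) (nat_lit 0) (nat_lit 0) (nat_lit 0) (nat_lit 0) (nat_lit 1) (nat_lit 0) (nat_lit 1) (nat_lit 0) (nat_lit 226) (nat_lit 294) (nat_lit 200)) (XT.lf (nat_lit 0) (nat_lit 15111818500) (nat_lit 0) (nat_lit 0) (nat_lit 0) (nat_lit 0) (nat_lit 0) (nat_lit 0) (nat_lit 1) (nat_lit 0) (nat_lit 1) (nat_lit 0) (nat_lit 227) (nat_lit 294) (nat_lit 199)))) (XT.nd (nat_lit 188) (nat_lit 0) (nat_lit 0) (XT.nd (nat_lit 94) (nat_lit 0) (nat_lit 0) (XT.lf (nat_lit 0)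 (nat_lit 15104901475) (nat_lit 0) (nat_lit 0) (nat_lit 0) (nat_lit 0) (nat_lit 0) (nat_lit 0) (nat_lit 1) (nat_lit 0) (nat_lit 1) (nat_lit 0) (nat_lit 228) (nat_lit 294) (nat_lit 198)) (XT.lf (nat_lit 0) (nat_lit 15098313833) (nat_lit 0) (nat_lit 0) (nat_lit 0) (nat_lit 0) (nat_lit 0) (nat_lit 0) (nat_lit 1) (nat_lit 0) (nat_lit 1) (nat_lit 0) (nat_lit 229) (nat_lit 294) (nat_lit 197))) (XT.nd (nat_lit 94) (nat_lit 0) (nat_lit 0) (XT.lf (nat_lit 0) (nat_lit 15092039888) (nat_lit 0) (nat_lit 0) (nat_lit 0) (nat_lit 0) (nat_lit 0) (nat_lit 0) (nat_lit 1) (nat_lit 0) (nat_lit 1) (nat_lit 0) (nat_lit 230) (nat_lit 294) (nat_lit 196)) (XT.lf (nat_lit 0) (nat_lit 15086064702) (nat_lit 0) (nat_lit 0) (nat_lit 0) (nat_lit 0) (nat_lit 0) (nat_lit 0) (nat_lit 1) (nat_lit 0) (nat_lit 1) (nat_lit 0) (nat_lit 231) (nat_lit 294) (nat_lit 195))))) (XT.nd (nat_lit 282) (nat_lit 0) (nat_lit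 0) (XT.nd (nat_lit 94) (nat_lit 0) (nat_lit 0) (XT.lf (nat_lit 0) (nat_lit 15080374049) (nat_lit 0) (nat_lit 0) (nat_lit 0) (nat_lit 0) (nat_lit 0) (nat_lit 0) (nat_lit 1) (nat_lit 0) (nat_lit 1) (nat_lit 0) (nat_lit 232) (nat_lit 294) (nat_lit 194)) (XT.nd (nat_lit 94) (nat_lit 0) (nat_lit 0) (XT.lf (nat_lit 0) (nat_lit 15074954379) (nat_lit 0) (nat_lit 0) (nat_lit 0) (nat_lit 0) (nat_lit 0) (nat_lit 0) (nat_lit 1) (nat_lit 0) (nat_lit 1) (nat_lit 0) (nat_lit 233) (nat_lit 294) (nat_lit 193)) (XT.lf (nat_lit 0) (nat_lit 15069792789) (nat_lit 0) (nat_lit 0) (nat_lit 0) (nat_lit 0) (nat_lit 0) (nat_lit 0) (nat_lit 1) (nat_lit 0) (nat_lit 1) (nat_lit 0) (nat_lit 234) (nat_lit 294) (nat_lit 192)))) (XT.nd (nat_lit 188) (nat_lit 0) (nat_lit 0) (XT.nd (nat_lit 94) (nat_lit 0) (nat_lit 0) (XT.lf (nat_lit 0) (nat_lit 15064876989) (nat_lit 0) (nat_lit 0) (nat_lit 0) (nat_lit 0)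 (nat_lit 0) (nat_lit 0) (nat_lit 1) (nat_lit 0) (nat_lit 1) (nat_lit 0) (nat_lit 235) (nat_lit 294) (nat_lit 191)) (XT.lf (nat_lit 0) (nat_lit 15060195274) (nat_lit 0) (nat_lit 0) (nat_lit 0) (nat_lit 0) (nat_lit 0) (nat_lit 0) (nat_lit 1) (nat_lit 0) (nat_lit 1) (nat_lit 0) (nat_lit 236) (nat_lit 294) (nat_lit 190))) (XT.nd (nat_lit 94) (nat_lit 0) (nat_lit 0) (XT.lf (nat_lit 0) (nat_lit 15055736499) (nat_lit 0) (nat_lit 0) (nat_lit 0) (nat_lit 0) (nat_lit 0) (nat_lit 0) (nat_lit 1) (nat_lit 0) (nat_lit 1) (nat_lit 0) (nat_lit 237) (nat_lit 294) (nat_lit 189)) (XT.lf (nat_lit 0) (nat_lit 15051490046) (nat_lit 0) (nat_lit 0) (nat_lit 0) (nat_lit 0) (nat_lit 0) (nat_lit 0) (nat_lit 1) (nat_lit 0) (nat_lit 1) (nat_lit 0) (nat_lit 238) (nat_lit 294) (nat_lit 188))))))) (XT.nd (nat_lit 1222) (nat_lit 0) (nat_lit 0) (XT.nd (nat_lit 564) (nat_lit 0) (nat_lit 0) (XT.nd (nat_lit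 282) (nat_lit 0) (nat_lit 0) (XT.nd (nat_lit 94) (nat_lit 0) (nat_lit 0) (XT.lf (nat_lit 0) (nat_lit 15047445805) (nat_lit 0) (nat_lit 0) (nat_lit 0) (nat_lit 0) (nat_lit 0) (nat_lit 0) (nat_lit 1) (nat_lit 0) (nat_lit 1) (nat_lit 0) (nat_lit 239) (nat_lit 294) (nat_lit 187)) (XT.nd (nat_lit 94) (nat_lit 0) (nat_lit 0) (XT.lf (nat_lit 0) (nat_lit 15043594147) (nat_lit 0) (nat_lit 0) (nat_lit 0) (nat_lit 0) (nat_lit 0) (nat_lit 0) (nat_lit 1) (nat_lit 0) (nat_lit 1) (nat_lit 0) (nat_lit 240) (nat_lit 294) (nat_lit 186)) (XT.lf (nat_lit 0) (nat_lit 15039925901) (nat_lit 0) (nat_lit 0) (nat_lit 0) (nat_lit 0) (nat_lit 0) (nat_lit 0) (nat_lit 1) (nat_lit 0) (nat_lit 1) (nat_lit 0) (nat_lit 241) (nat_lit 294) (nat_lit 185)))) (XT.nd (nat_lit 94) (nat_lit 0) (nat_lit 0) (XT.lf (nat_lit 0) (nat_lit 15036432334) (nat_lit 0) (nat_lit 0) (nat_lit 0) (nat_lit 0) (nat_lit 0) (nat_lit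 0) (nat_lit 1) (nat_lit 0) (nat_lit 1) (nat_lit 0) (nat_lit 242) (nat_lit 294) (nat_lit 184)) (XT.nd (nat_lit 94) (nat_lit 0) (nat_lit 0) (XT.lf (nat_lit 0) (nat_lit 15033105127) (nat_lit 0) (nat_lit 0) (nat_lit 0) (nat_lit 0) (nat_lit 0) (nat_lit 0) (nat_lit 1) (nat_lit 0) (nat_lit 1) (nat_lit 0) (nat_lit 243) (nat_lit 294) (nat_lit 183)) (XT.lf (nat_lit 0) (nat_lit 15029936358) (nat_lit 0) (nat_lit 0) (nat_lit 0) (nat_lit 0) (nat_lit 0) (nat_lit 0) (nat_lit 1) (nat_lit 0) (nat_lit 1) (nat_lit 0) (nat_lit 244) (nat_lit 294) (nat_lit 182))))) (XT.nd (nat_lit 282) (nat_lit 0) (nat_lit 0) (XT.nd (nat_lit 94) (nat_lit 0) (nat_lit 0) (XT.lf (nat_lit 0) (nat_lit 15026918483) (nat_lit 0) (nat_lit 0) (nat_lit 0) (nat_lit 0) (nat_lit 0) (nat_lit 0) (nat_lit 1) (nat_lit 0) (nat_lit 1) (nat_lit 0) (nat_lit 245) (nat_lit 294) (nat_lit 181)) (XT.nd (nat_lit 94) (nat_lit 0) (nat_lit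 0) (XT.lf (nat_lit 0) (nat_lit 15024044316) (nat_lit 0) (nat_lit 0) (nat_lit 0) (nat_lit 0) (nat_lit 0) (nat_lit 0) (nat_lit 1) (nat_lit 0) (nat_lit 1) (nat_lit 0) (nat_lit 246) (nat_lit 294) (nat_lit 180)) (XT.lf (nat_lit 0) (nat_lit 15021307015) (nat_lit 0) (nat_lit 0) (nat_lit 0) (nat_lit 0) (nat_lit 0) (nat_lit 0) (nat_lit 1) (nat_lit 0) (nat_lit 1) (nat_lit 0) (nat_lit 247) (nat_lit 294) (nat_lit 179)))) (XT.nd (nat_lit 188) (nat_lit 0) (nat_lit 0) (XT.nd (nat_lit 94) (nat_lit 0) (nat_lit 0) (XT.lf (nat_lit 0) (nat_lit 15018700061) (nat_lit 0) (nat_lit 0) (nat_lit 0) (nat_lit 0) (nat_lit 0) (nat_lit 0) (nat_lit 1) (nat_lit 0) (nat_lit 1) (nat_lit 0) (nat_lit 248) (nat_lit 294) (nat_lit 178)) (XT.lf (nat_lit 0) (nat_lit 15016217248) (nat_lit 0) (nat_lit 0) (nat_lit 0) (nat_lit 0) (nat_lit 0) (nat_lit 0) (nat_lit 1) (nat_lit 0) (nat_lit 1) (nat_lit 0) (nat_lit 249) (nat_lit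 294) (nat_lit 177))) (XT.nd (nat_lit 94) (nat_lit 0) (nat_lit 0) (XT.lf (nat_lit 0) (nat_lit 15013852664) (nat_lit 0) (nat_lit 0) (nat_lit 0) (nat_lit 0) (nat_lit 0) (nat_lit 0) (nat_lit 1) (nat_lit 0) (nat_lit 1) (nat_lit 0) (nat_lit 250) (nat_lit 294) (nat_lit 176)) (XT.lf (nat_lit 0) (nat_lit 15011600679) (nat_lit 0) (nat_lit 0) (nat_lit 0) (nat_lit 0) (nat_lit 0) (nat_lit 0) (nat_lit 1) (nat_lit 0) (nat_lit 1) (nat_lit 0) (nat_lit 251) (nat_lit 294) (nat_lit 175)))))) (XT.nd (nat_lit 658) (nat_lit 0) (nat_lit 0) (XT.nd (nat_lit 282) (nat_lit 0) (nat_lit 0) (XT.nd (nat_lit 94) (nat_lit 0) (nat_lit 0) (XT.lf (nat_lit 0) (nat_lit 15009455932) (nat_lit 0) (nat_lit 0) (nat_lit 0) (nat_lit 0) (nat_lit 0) (nat_lit 0) (nat_lit 1) (nat_lit 0) (nat_lit 1) (nat_lit 0) (nat_lit 252) (nat_lit 294) (nat_lit 174)) (XT.nd (nat_lit 94) (nat_lit 0) (nat_lit 0) (XT.lf (nat_lit 0) (nat_lit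 15007413316) (nat_lit 0) (nat_lit 0) (nat_lit 0) (nat_lit 0) (nat_lit 0) (nat_lit 0) (nat_lit 1) (nat_lit 0) (nat_lit 1) (nat_lit 0) (nat_lit 253) (nat_lit 294) (nat_lit 173)) (XT.lf (nat_lit 0) (nat_lit 15005467967) (nat_lit 0) (nat_lit 0) (nat_lit 0) (nat_lit 0) (nat_lit 0) (nat_lit 0) (nat_lit 1) (nat_lit 0) (nat_lit 1) (nat_lit 0) (nat_lit 254) (nat_lit 294) (nat_lit 172)))) (XT.nd (nat_lit 188) (nat_lit 0) (nat_lit 0) (XT.nd (nat_lit 94) (nat_lit 0) (nat_lit 0) (XT.lf (nat_lit 0) (nat_lit 15003615253) (nat_lit 0) (nat_lit 0) (nat_lit 0) (nat_lit 0) (nat_lit 0) (nat_lit 0) (nat_lit 1) (nat_lit 0) (nat_lit 1) (nat_lit 0) (nat_lit 255) (nat_lit 294) (nat_lit 171)) (XT.lf (nat_lit 0) (nat_lit 15001850764) (nat_lit 0) (nat_lit 0) (nat_lit 0) (nat_lit 0) (nat_lit 0) (nat_lit 0) (nat_lit 1) (nat_lit 0) (nat_lit 1) (nat_lit 0) (nat_lit 256) (nat_lit 294) (nat_lit 170))) (XT.nd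 (nat_lit 94) (nat_lit 0) (nat_lit 0) (XT.lf (nat_lit 0) (nat_lit 15000170299) (nat_lit 0) (nat_lit 0) (nat_lit 0) (nat_lit 0) (nat_lit 0) (nat_lit 0) (nat_lit 1) (nat_lit 0) (nat_lit 1) (nat_lit 0) (nat_lit 257) (nat_lit 294) (nat_lit 169)) (XT.lf (nat_lit 0) (nat_lit 14998569855) (nat_lit 0) (nat_lit 0) (nat_lit 0) (nat_lit 0) (nat_lit 0) (nat_lit 0) (nat_lit 1) (nat_lit 0) (nat_lit 1) (nat_lit 0) (nat_lit 258) (nat_lit 294) (nat_lit 168))))) (XT.nd (nat_lit 282) (nat_lit 0) (nat_lit 0) (XT.nd (nat_lit 94) (nat_lit 0) (nat_lit 0) (XT.lf (nat_lit 0) (nat_lit 14997045623) (nat_lit 0) (nat_lit 0) (nat_lit 0) (nat_lit 0) (nat_lit 0) (nat_lit 0) (nat_lit 1) (nat_lit 0) (nat_lit 1) (nat_lit 0) (nat_lit 259) (nat_lit 294) (nat_lit 167)) (XT.nd (nat_lit 94) (nat_lit 0) (nat_lit 0) (XT.lf (nat_lit 0) (nat_lit 14995593974) (nat_lit 0) (nat_lit 0) (nat_lit 0) (nat_lit 0) (nat_lit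 0) (nat_lit 0) (nat_lit 1) (nat_lit 0) (nat_lit 1) (nat_lit 0) (nat_lit 260) (nat_lit 294) (nat_lit 166)) (XT.lf (nat_lit 0) (nat_lit 14994211451) (nat_lit 0) (nat_lit 0) (nat_lit 0) (nat_lit 0) (nat_lit 0) (nat_lit 0) (nat_lit 1) (nat_lit 0) (nat_lit 1) (nat_lit 0) (nat_lit 261) (nat_lit 294) (nat_lit 165)))) (XT.nd (nat_lit 188) (nat_lit 0) (nat_lit 0) (XT.nd (nat_lit 94) (nat_lit 0) (nat_lit 0) (XT.lf (nat_lit 0) (nat_lit 14992894762) (nat_lit 0) (nat_lit 0) (nat_lit 0) (nat_lit 0) (nat_lit 0) (nat_lit 0) (nat_lit 1) (nat_lit 0) (nat_lit 1) (nat_lit 0) (nat_lit 262) (nat_lit 294) (nat_lit 164)) (XT.lf (nat_lit 0) (nat_lit 14991640772) (nat_lit 0) (nat_lit 0) (nat_lit 0) (nat_lit 0) (nat_lit 0) (nat_lit 0) (nat_lit 1) (nat_lit 0) (nat_lit 1) (nat_lit 0) (nat_lit 263) (nat_lit 294) (nat_lit 163))) (XT.nd (nat_lit 94) (nat_lit 0) (nat_lit 0) (XT.lf (nat_lit 0) (nat_lit 14990446497)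 (nat_lit 0) (nat_lit 0) (nat_lit 0) (nat_lit 0) (nat_lit 0) (nat_lit 0) (nat_lit 1) (nat_lit 0) (nat_lit 1) (nat_lit 0) (nat_lit 264) (nat_lit 294) (nat_lit 162)) (XT.lf (nat_lit 0) (nat_lit 14989309092) (nat_lit 0) (nat_lit 0) (nat_lit 0) (nat_lit 0) (nat_lit 0) (nat_lit 0) (nat_lit 1) (nat_lit 0) (nat_lit 1) (nat_lit 0) (nat_lit 265) (nat_lit 294) (nat_lit 161))))))))
noncomputable def ec161 : XT := (XT.nd (nat_lit 2538) (nat_lit 0) (nat_lit 0) (XT.nd (nat_lit 1222) (nat_lit 0) (nat_lit 0) (XT.nd (nat_lit 564) (nat_lit 0) (nat_lit 0) (XT.nd (nat_lit 282) (nat_lit 0) (nat_lit 0) (XT.nd (nat_lit 94) (nat_lit 0) (nat_lit 0) (XT.lf (nat_lit 0) (nat_lit 14988225848) (nat_lit 0) (nat_lit 0) (nat_lit 0) (nat_lit 0) (nat_lit 0) (nat_lit 0) (nat_lit 1) (nat_lit 0) (nat_lit 1) (nat_lit 0) (nat_lit 266) (nat_lit 294) (nat_lit 160)) (XT.nd (nat_lit 94) (nat_lit 0) (nat_lit 0) (XT.lf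 (nat_lit 0) (nat_lit 14987194188) (nat_lit 0) (nat_lit 0) (nat_lit 0) (nat_lit 0) (nat_lit 0) (nat_lit 0) (nat_lit 1) (nat_lit 0) (nat_lit 1) (nat_lit 0) (nat_lit 267) (nat_lit 294) (nat_lit 159)) (XT.lf (nat_lit 0) (nat_lit 14986211655) (nat_lit 0) (nat_lit 0) (nat_lit 0) (nat_lit 0) (nat_lit 0) (nat_lit 0) (nat_lit 1) (nat_lit 0) (nat_lit 1) (nat_lit 0) (nat_lit 268) (nat_lit 294) (nat_lit 158)))) (XT.nd (nat_lit 94) (nat_lit 0) (nat_lit 0) (XT.lf (nat_lit 0) (nat_lit 14985275909) (nat_lit 0) (nat_lit 0) (nat_lit 0) (nat_lit 0) (nat_lit 0) (nat_lit 0) (nat_lit 1) (nat_lit 0) (nat_lit 1) (nat_lit 0) (nat_lit 269) (nat_lit 294) (nat_lit 157)) (XT.nd (nat_lit 94) (nat_lit 0) (nat_lit 0) (XT.lf (nat_lit 0) (nat_lit 14984384722) (nat_lit 0) (nat_lit 0) (nat_lit 0) (nat_lit 0) (nat_lit 0) (nat_lit 0) (nat_lit 1) (nat_lit 0) (nat_lit 1) (nat_lit 0) (nat_lit 270) (nat_lit 294)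 (nat_lit 156)) (XT.lf (nat_lit 0) (nat_lit 14983535973) (nat_lit 0) (nat_lit 0) (nat_lit 0) (nat_lit 0) (nat_lit 0) (nat_lit 0) (nat_lit 1) (nat_lit 0) (nat_lit 1) (nat_lit 0) (nat_lit 271) (nat_lit 294) (nat_lit 155))))) (XT.nd (nat_lit 282) (nat_lit 0) (nat_lit 0) (XT.nd (nat_lit 94) (nat_lit 0) (nat_lit 0) (XT.lf (nat_lit 0) (nat_lit 14982727640) (nat_lit 0) (nat_lit 0) (nat_lit 0) (nat_lit 0) (nat_lit 0) (nat_lit 0) (nat_lit 1) (nat_lit 0) (nat_lit 1) (nat_lit 0) (nat_lit 272) (nat_lit 294) (nat_lit 154)) (XT.nd (nat_lit 94) (nat_lit 0) (nat_lit 0) (XT.lf (nat_lit 0) (nat_lit 14981957799) (nat_lit 0) (nat_lit 0) (nat_lit 0) (nat_lit 0) (nat_lit 0) (nat_lit 0) (nat_lit 1) (nat_lit 0) (nat_lit 1) (nat_lit 0) (nat_lit 273) (nat_lit 294) (nat_lit 153)) (XT.lf (nat_lit 0) (nat_lit 14981224618) (nat_lit 0) (nat_lit 0) (nat_lit 0) (nat_lit 0) (nat_lit 0) (nat_lit 0) (nat_lit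 1) (nat_lit 0) (nat_lit 1) (nat_lit 0) (nat_lit 274) (nat_lit 294) (nat_lit 152)))) (XT.nd (nat_lit 188) (nat_lit 0) (nat_lit 0) (XT.nd (nat_lit 94) (nat_lit 0) (nat_lit 0) (XT.lf (nat_lit 0) (nat_lit 14980526349) (nat_lit 0) (nat_lit 0) (nat_lit 0) (nat_lit 0) (nat_lit 0) (nat_lit 0) (nat_lit 1) (nat_lit 0) (nat_lit 1) (nat_lit 0) (nat_lit 275) (nat_lit 294) (nat_lit 151)) (XT.lf (nat_lit 0) (nat_lit 14979861332) (nat_lit 0) (nat_lit 0) (nat_lit 0) (nat_lit 0) (nat_lit 0) (nat_lit 0) (nat_lit 1) (nat_lit 0) (nat_lit 1) (nat_lit 0) (nat_lit 276) (nat_lit 294) (nat_lit 150))) (XT.nd (nat_lit 94) (nat_lit 0) (nat_lit 0) (XT.lf (nat_lit 0) (nat_lit 14979227982) (nat_lit 0) (nat_lit 0) (nat_lit 0) (nat_lit 0) (nat_lit 0) (nat_lit 0) (nat_lit 1) (nat_lit 0) (nat_lit 1) (nat_lit 0) (nat_lit 277) (nat_lit 294) (nat_lit 149)) (XT.lf (nat_lit 0) (nat_lit 14978624792) (nat_lit 0)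 (nat_lit 0) (nat_lit 0) (nat_lit 0) (nat_lit 0) (nat_lit 0) (nat_lit 1) (nat_lit 0) (nat_lit 1) (nat_lit 0) (nat_lit 278) (nat_lit 294) (nat_lit 148)))))) (XT.nd (nat_lit 658) (nat_lit 0) (nat_lit 0) (XT.nd (nat_lit 282) (nat_lit 0) (nat_lit 0) (XT.nd (nat_lit 94) (nat_lit 0) (nat_lit 0) (XT.lf (nat_lit 0) (nat_lit 14978050325) (nat_lit 0) (nat_lit 0) (nat_lit 0) (nat_lit 0) (nat_lit 0) (nat_lit 0) (nat_lit 1) (nat_lit 0) (nat_lit 1) (nat_lit 0) (nat_lit 279) (nat_lit 294) (nat_lit 147)) (XT.nd (nat_lit 94) (nat_lit 0) (nat_lit 0) (XT.lf (nat_lit 0) (nat_lit 14977503214) (nat_lit 0) (nat_lit 0) (nat_lit 0) (nat_lit 0) (nat_lit 0) (nat_lit 0) (nat_lit 1) (nat_lit 0) (nat_lit 1) (nat_lit 0) (nat_lit 280) (nat_lit 294) (nat_lit 146)) (XT.lf (nat_lit 0) (nat_lit 14976982155) (nat_lit 0) (nat_lit 0) (nat_lit 0) (nat_lit 0) (nat_lit 0) (nat_lit 0) (nat_lit 1) (nat_lit 0) (nat_lit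 1) (nat_lit 0) (nat_lit 281) (nat_lit 294) (nat_lit 145)))) (XT.nd (nat_lit 188) (nat_lit 0) (nat_lit 0) (XT.nd (nat_lit 94) (nat_lit 0) (nat_lit 0) (XT.lf (nat_lit 0) (nat_lit 14976485909) (nat_lit 0) (nat_lit 0) (nat_lit 0) (nat_lit 0) (nat_lit 0) (nat_lit 0) (nat_lit 1) (nat_lit 0) (nat_lit 1) (nat_lit 0) (nat_lit 282) (nat_lit 294) (nat_lit 144)) (XT.lf (nat_lit 0) (nat_lit 14976013293) (nat_lit 0) (nat_lit 0) (nat_lit 0) (nat_lit 0) (nat_lit 0) (nat_lit 0) (nat_lit 1) (nat_lit 0) (nat_lit 1) (nat_lit 0) (nat_lit 283) (nat_lit 294) (nat_lit 143))) (XT.nd (nat_lit 94) (nat_lit 0) (nat_lit 0) (XT.lf (nat_lit 0) (nat_lit 14975563184) (nat_lit 0) (nat_lit 0) (nat_lit 0) (nat_lit 0) (nat_lit 0) (nat_lit 0) (nat_lit 1) (nat_lit 0) (nat_lit 1) (nat_lit 0) (nat_lit 284) (nat_lit 294) (nat_lit 142)) (XT.lf (nat_lit 0) (nat_lit 14975134507) (nat_lit 0) (nat_lit 0) (nat_lit 0)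 (nat_lit 0) (nat_lit 0) (nat_lit 0) (nat_lit 1) (nat_lit 0) (nat_lit 1) (nat_lit 0) (nat_lit 285) (nat_lit 294) (nat_lit 141))))) (XT.nd (nat_lit 282) (nat_lit 0) (nat_lit 0) (XT.nd (nat_lit 94) (nat_lit 0) (nat_lit 0) (XT.lf (nat_lit 0) (nat_lit 14974726245) (nat_lit 0) (nat_lit 0) (nat_lit 0) (nat_lit 0) (nat_lit 0) (nat_lit 0) (nat_lit 1) (nat_lit 0) (nat_lit 1) (nat_lit 0) (nat_lit 286) (nat_lit 294) (nat_lit 140)) (XT.nd (nat_lit 94) (nat_lit 0) (nat_lit 0) (XT.lf (nat_lit 0) (nat_lit 14974337423) (nat_lit 0) (nat_lit 0) (nat_lit 0) (nat_lit 0) (nat_lit 0) (nat_lit 0) (nat_lit 1) (nat_lit 0) (nat_lit 1) (nat_lit 0) (nat_lit 287) (nat_lit 294) (nat_lit 139)) (XT.lf (nat_lit 0) (nat_lit 14973967116) (nat_lit 0) (nat_lit 0) (nat_lit 0) (nat_lit 0) (nat_lit 0) (nat_lit 0) (nat_lit 1) (nat_lit 0) (nat_lit 1) (nat_lit 0) (nat_lit 288) (nat_lit 294) (nat_lit 138)))) (XT.nd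 (nat_lit 188) (nat_lit 0) (nat_lit 0) (XT.nd (nat_lit 94) (nat_lit 0) (nat_lit 0) (XT.lf (nat_lit 0) (nat_lit 14973614443) (nat_lit 0) (nat_lit 0) (nat_lit 0) (nat_lit 0) (nat_lit 0) (nat_lit 0) (nat_lit 1) (nat_lit 0) (nat_lit 1) (nat_lit 0) (nat_lit 289) (nat_lit 294) (nat_lit 137)) (XT.lf (nat_lit 0) (nat_lit 14973278564) (nat_lit 0) (nat_lit 0) (nat_lit 0) (nat_lit 0) (nat_lit 0) (nat_lit 0) (nat_lit 1) (nat_lit 0) (nat_lit 1) (nat_lit 0) (nat_lit 290) (nat_lit 294) (nat_lit 136))) (XT.nd (nat_lit 94) (nat_lit 0) (nat_lit 0) (XT.lf (nat_lit 0) (nat_lit 14972958680) (nat_lit 0) (nat_lit 0) (nat_lit 0) (nat_lit 0) (nat_lit 0) (nat_lit 0) (nat_lit 1) (nat_lit 0) (nat_lit 1) (nat_lit 0) (nat_lit 291) (nat_lit 294) (nat_lit 135)) (XT.lf (nat_lit 0) (nat_lit 14972654028) (nat_lit 0) (nat_lit 0) (nat_lit 0) (nat_lit 0) (nat_lit 0) (nat_lit 0) (nat_lit 1) (nat_lit 0) (nat_lit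 1) (nat_lit 0) (nat_lit 292) (nat_lit 294) (nat_lit 134))))))) (XT.nd (nat_lit 1222) (nat_lit 0) (nat_lit 0) (XT.nd (nat_lit 564) (nat_lit 0) (nat_lit 0) (XT.nd (nat_lit 282) (nat_lit 0) (nat_lit 0) (XT.nd (nat_lit 94) (nat_lit 0) (nat_lit 0) (XT.lf (nat_lit 0) (nat_lit 14972363883) (nat_lit 0) (nat_lit 0) (nat_lit 0) (nat_lit 0) (nat_lit 0) (nat_lit 0) (nat_lit 1) (nat_lit 0) (nat_lit 1) (nat_lit 0) (nat_lit 293) (nat_lit 294) (nat_lit 133)) (XT.nd (nat_lit 94) (nat_lit 0) (nat_lit 0) (XT.lf (nat_lit 0) (nat_lit 14972087554) (nat_lit 0) (nat_lit 0) (nat_lit 0) (nat_lit 0) (nat_lit 0) (nat_lit 0) (nat_lit 1) (nat_lit 0) (nat_lit 1) (nat_lit 0) (nat_lit 294) (nat_lit 294) (nat_lit 132)) (XT.lf (nat_lit 0) (nat_lit 14971824384) (nat_lit 0) (nat_lit 0) (nat_lit 0) (nat_lit 0) (nat_lit 0) (nat_lit 0) (nat_lit 1) (nat_lit 0) (nat_lit 1) (nat_lit 0) (nat_lit 295) (nat_lit 294)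 (nat_lit 131)))) (XT.nd (nat_lit 94) (nat_lit 0) (nat_lit 0) (XT.lf (nat_lit 0) (nat_lit 14971573746) (nat_lit 0) (nat_lit 0) (nat_lit 0) (nat_lit 0) (nat_lit 0) (nat_lit 0) (nat_lit 1) (nat_lit 0) (nat_lit 1) (nat_lit 0) (nat_lit 296) (nat_lit 294) (nat_lit 130)) (XT.nd (nat_lit 94) (nat_lit 0) (nat_lit 0) (XT.lf (nat_lit 0) (nat_lit 14971335043) (nat_lit 0) (nat_lit 0) (nat_lit 0) (nat_lit 0) (nat_lit 0) (nat_lit 0) (nat_lit 1) (nat_lit 0) (nat_lit 1) (nat_lit 0) (nat_lit 297) (nat_lit 294) (nat_lit 129)) (XT.lf (nat_lit 0) (nat_lit 14971107707) (nat_lit 0) (nat_lit 0) (nat_lit 0) (nat_lit 0) (nat_lit 0) (nat_lit 0) (nat_lit 1) (nat_lit 0) (nat_lit 1) (nat_lit 0) (nat_lit 298) (nat_lit 294) (nat_lit 128))))) (XT.nd (nat_lit 282) (nat_lit 0) (nat_lit 0) (XT.nd (nat_lit 94) (nat_lit 0) (nat_lit 0) (XT.lf (nat_lit 0) (nat_lit 14970891197) (nat_lit 0) (nat_lit 0) (nat_lit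 0) (nat_lit 0) (nat_lit 0) (nat_lit 0) (nat_lit 1) (nat_lit 0) (nat_lit 1) (nat_lit 0) (nat_lit 299) (nat_lit 294) (nat_lit 127)) (XT.nd (nat_lit 94) (nat_lit 0) (nat_lit 0) (XT.lf (nat_lit 0) (nat_lit 14970684996) (nat_lit 0) (nat_lit 0) (nat_lit 0) (nat_lit 0) (nat_lit 0) (nat_lit 0) (nat_lit 1) (nat_lit 0) (nat_lit 1) (nat_lit 0) (nat_lit 300) (nat_lit 294) (nat_lit 126)) (XT.lf (nat_lit 0) (nat_lit 14970488615) (nat_lit 0) (nat_lit 0) (nat_lit 0) (nat_lit 0) (nat_lit 0) (nat_lit 0) (nat_lit 1) (nat_lit 0) (nat_lit 1) (nat_lit 0) (nat_lit 301) (nat_lit 294) (nat_lit 125)))) (XT.nd (nat_lit 188) (nat_lit 0) (nat_lit 0) (XT.nd (nat_lit 94) (nat_lit 0) (nat_lit 0) (XT.lf (nat_lit 0) (nat_lit 14970301585) (nat_lit 0) (nat_lit 0) (nat_lit 0) (nat_lit 0) (nat_lit 0) (nat_lit 0) (nat_lit 1) (nat_lit 0) (nat_lit 1) (nat_lit 0) (nat_lit 302) (nat_lit 294) (nat_lit 124)) (XT.lf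 (nat_lit 0) (nat_lit 14970123461) (nat_lit 0) (nat_lit 0) (nat_lit 0) (nat_lit 0) (nat_lit 0) (nat_lit 0) (nat_lit 1) (nat_lit 0) (nat_lit 1) (nat_lit 0) (nat_lit 303) (nat_lit 294) (nat_lit 123))) (XT.nd (nat_lit 94) (nat_lit 0) (nat_lit 0) (XT.lf (nat_lit 0) (nat_lit 14969953819) (nat_lit 0) (nat_lit 0) (nat_lit 0) (nat_lit 0) (nat_lit 0) (nat_lit 0) (nat_lit 1) (nat_lit 0) (nat_lit 1) (nat_lit 0) (nat_lit 304) (nat_lit 294) (nat_lit 122)) (XT.lf (nat_lit 0) (nat_lit 14969792256) (nat_lit 0) (nat_lit 0) (nat_lit 0) (nat_lit 0) (nat_lit 0) (nat_lit 0) (nat_lit 1) (nat_lit 0) (nat_lit 1) (nat_lit 0) (nat_lit 305) (nat_lit 294) (nat_lit 121)))))) (XT.nd (nat_lit 28858) (nat_lit 0) (nat_lit 10836) (XT.nd (nat_lit 282) (nat_lit 0) (nat_lit 0) (XT.nd (nat_lit 94) (nat_lit 0) (nat_lit 0) (XT.lf (nat_lit 0) (nat_lit 14969638386) (nat_lit 0) (nat_lit 0) (nat_lit 0) (nat_lit 0)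 (nat_lit 0) (nat_lit 0) (nat_lit 1) (nat_lit 0) (nat_lit 1) (nat_lit 0) (nat_lit 306) (nat_lit 294) (nat_lit 120)) (XT.nd (nat_lit 94) (nat_lit 0) (nat_lit 0) (XT.lf (nat_lit 0) (nat_lit 14969491843) (nat_lit 0) (nat_lit 0) (nat_lit 0) (nat_lit 0) (nat_lit 0) (nat_lit 0) (nat_lit 1) (nat_lit 0) (nat_lit 1) (nat_lit 0) (nat_lit 307) (nat_lit 294) (nat_lit 119)) (XT.lf (nat_lit 0) (nat_lit 14969352278) (nat_lit 0) (nat_lit 0) (nat_lit 0) (nat_lit 0) (nat_lit 0) (nat_lit 0) (nat_lit 1) (nat_lit 0) (nat_lit 1) (nat_lit 0) (nat_lit 308) (nat_lit 294) (nat_lit 118)))) (XT.nd (nat_lit 28388) (nat_lit 0) (nat_lit 10752) (XT.nd (nat_lit 94) (nat_lit 0) (nat_lit 0) (XT.lf (nat_lit 0) (nat_lit 14969219360) (nat_lit 0) (nat_lit 0) (nat_lit 0) (nat_lit 0) (nat_lit 0) (nat_lit 0) (nat_lit 1) (nat_lit 0) (nat_lit 1) (nat_lit 0) (nat_lit 309) (nat_lit 294) (nat_lit 117)) (XT.lf (nat_lit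 0) (nat_lit 14969092770) (nat_lit 0) (nat_lit 0) (nat_lit 0) (nat_lit 0) (nat_lit 0) (nat_lit 0) (nat_lit 1) (nat_lit 0) (nat_lit 1) (nat_lit 0) (nat_lit 310) (nat_lit 294) (nat_lit 116))) (XT.nd (nat_lit 94) (nat_lit 0) (nat_lit 0) (XT.lf (nat_lit 924) (nat_lit 7864319115) (nat_lit 0) (nat_lit 13963080512) (nat_lit 924) (nat_lit 7864319115) (nat_lit 139) (nat_lit 1) (nat_lit 128) (nat_lit 0) (nat_lit 139) (nat_lit 0) (nat_lit 130) (nat_lit 295) (nat_lit 295)) (XT.lf (nat_lit 924) (nat_lit 30483082712) (nat_lit 84) (nat_lit 13737869536) (nat_lit 0) (nat_lit 13737869536) (nat_lit 139) (nat_lit 1) (nat_lit 129) (nat_lit 1) (nat_lit 128) (nat_lit 0) (nat_lit 131) (nat_lit 295) (nat_lit 294))))) (XT.nd (nat_lit 282) (nat_lit 0) (nat_lit 84) (XT.nd (nat_lit 94) (nat_lit 0) (nat_lit 0) (XT.lf (nat_lit 924) (nat_lit 14527778237) (nat_lit 0) (nat_lit 27522692135) (nat_lit 840) (nat_lit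 14527778237) (nat_lit 140) (nat_lit 1) (nat_lit 129) (nat_lit 1) (nat_lit 139) (nat_lit 1) (nat_lit 132) (nat_lit 295) (nat_lit 293)) (XT.nd (nat_lit 94) (nat_lit 0) (nat_lit 84) (XT.lf (nat_lit 924) (nat_lit 27252093287) (nat_lit 84) (nat_lit 13995092473) (nat_lit 0) (nat_lit 13995092473) (nat_lit 140) (nat_lit 1) (nat_lit 130) (nat_lit 1) (nat_lit 129) (nat_lit 1) (nat_lit 133) (nat_lit 295) (nat_lit 292)) (XT.lf (nat_lit 924) (nat_lit 12543876836) (nat_lit 0) (nat_lit 28860897744) (nat_lit 840) (nat_lit 12543876836) (nat_lit 141) (nat_lit 1) (nat_lit 130) (nat_lit 1) (nat_lit 140) (nat_lit 1) (nat_lit 134) (nat_lit 295) (nat_lit 291)))) (XT.nd (nat_lit 188) (nat_lit 0) (nat_lit 84) (XT.nd (nat_lit 94) (nat_lit 0) (nat_lit 84) (XT.lf (nat_lit 924) (nat_lit 22560979497) (nat_lit 84) (nat_lit 15066739896) (nat_lit 0) (nat_lit 15066739896) (nat_lit 141) (nat_lit 1) (nat_lit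 131) (nat_lit 1) (nat_lit 130) (nat_lit 1) (nat_lit 135) (nat_lit 295) (nat_lit 290)) (XT.lf (nat_lit 924) (nat_lit 9892337889) (nat_lit 0) (nat_lit 31697702811) (nat_lit 840) (nat_lit 9892337889) (nat_lit 142) (nat_lit 1) (nat_lit 131) (nat_lit 1) (nat_lit 141) (nat_lit 1) (nat_lit 136) (nat_lit 295) (nat_lit 289))) (XT.nd (nat_lit 94) (nat_lit 0) (nat_lit 84) (XT.lf (nat_lit 924) (nat_lit 16629323728) (nat_lit 84) (nat_lit 16837173448) (nat_lit 0) (nat_lit 16837173448) (nat_lit 142) (nat_lit 1) (nat_lit 132) (nat_lit 1) (nat_lit 131) (nat_lit 1) (nat_lit 137) (nat_lit 295) (nat_lit 288)) (XT.lf (nat_lit 924) (nat_lit 6675807336) (nat_lit 0) (nat_lit 35816495421) (nat_lit 840) (nat_lit 6675807336) (nat_lit 143) (nat_lit 1) (nat_lit 132) (nat_lit 1) (nat_lit 142) (nat_lit 1) (nat_lit 138) (nat_lit 295) (nat_lit 287))))))))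
noncomputable def ec162 : XT := (XT.nd (nat_lit 2538) (nat_lit 3192) (nat_lit 0) (XT.nd (nat_lit 1222) (nat_lit 2268) (nat_lit 0) (XT.nd (nat_lit 564) (nat_lit 1512) (nat_lit 0) (XT.nd (nat_lit 282) (nat_lit 1008) (nat_lit 0) (XT.nd (nat_lit 94) (nat_lit 756) (nat_lit 0) (XT.lf (nat_lit 924) (nat_lit 9652301591) (nat_lit 84) (nat_lit 19203406726) (nat_lit 0) (nat_lit 19203406726) (nat_lit 143) (nat_lit 1) (nat_lit 133) (nat_lit 1) (nat_lit 132) (nat_lit 1) (nat_lit 139) (nat_lit 295) (nat_lit 286)) (XT.nd (nat_lit 94) (nat_lit 840) (nat_lit 0) (XT.lf (nat_lit 84) (nat_lit 2985455911) (nat_lit 0) (nat_lit 41024482486) (nat_lit 840) (nat_lit 2985455911) (nat_lit 134) (nat_lit 1) (nat_lit 133) (nat_lit 1) (nat_lit 143) (nat_lit 1) (nat_lit 140) (nat_lit 295) (nat_lit 285)) (XT.lf (nat_lit 924) (nat_lit 1803141128) (nat_lit 0) (nat_lit 22073838497) (nat_lit 840) (nat_lit 22073838497)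 (nat_lit 134) (nat_lit 1) (nat_lit 123) (nat_lit 1) (nat_lit 133) (nat_lit 1) (nat_lit 141) (nat_lit 295) (nat_lit 284)))) (XT.nd (nat_lit 94) (nat_lit 420) (nat_lit 0) (XT.lf (nat_lit 588) (nat_lit 42790809806) (nat_lit 0) (nat_lit 1080154541) (nat_lit 504) (nat_lit 1080154541) (nat_lit 123) (nat_lit 1) (nat_lit 116) (nat_lit 1) (nat_lit 122) (nat_lit 1) (nat_lit 142) (nat_lit 295) (nat_lit 283)) (XT.nd (nat_lit 94) (nat_lit 420) (nat_lit 0) (XT.lf (nat_lit 84) (nat_lit 18708067572) (nat_lit 0) (nat_lit 6548144434) (nat_lit 588) (nat_lit 18708067572) (nat_lit 117) (nat_lit 1) (nat_lit 116) (nat_lit 1) (nat_lit 123) (nat_lit 1) (nat_lit 143) (nat_lit 295) (nat_lit 282)) (XT.lf (nat_lit 504) (nat_lit 32191782139) (nat_lit 0) (nat_lit 5413810591) (nat_lit 420) (nat_lit 5413810591) (nat_lit 117) (nat_lit 1) (nat_lit 111) (nat_lit 1) (nat_lit 116) (nat_lit 1) (nat_lit 144) (nat_lit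 295) (nat_lit 281))))) (XT.nd (nat_lit 282) (nat_lit 1092) (nat_lit 0) (XT.nd (nat_lit 94) (nat_lit 420) (nat_lit 0) (XT.lf (nat_lit 84) (nat_lit 13344236857) (nat_lit 0) (nat_lit 15405917259) (nat_lit 504) (nat_lit 13344236857) (nat_lit 112) (nat_lit 1) (nat_lit 111) (nat_lit 1) (nat_lit 117) (nat_lit 1) (nat_lit 145) (nat_lit 295) (nat_lit 280)) (XT.nd (nat_lit 94) (nat_lit 0) (nat_lit 0) (XT.lf (nat_lit 504) (nat_lit 21198745060) (nat_lit 0) (nat_lit 10001424636) (nat_lit 420) (nat_lit 10001424636) (nat_lit 112) (nat_lit 1) (nat_lit 106) (nat_lit 1) (nat_lit 111) (nat_lit 1) (nat_lit 146) (nat_lit 295) (nat_lit 279)) (XT.lf (nat_lit 84) (nat_lit 7811455822) (nat_lit 0) (nat_lit 24711851580) (nat_lit 504) (nat_lit 7811455822) (nat_lit 107) (nat_lit 1) (nat_lit 106) (nat_lit 1) (nat_lit 112) (nat_lit 1) (nat_lit 147) (nat_lit 295) (nat_lit 278)))) (XT.nd (nat_lit 188) (nat_lit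 756) (nat_lit 0) (XT.nd (nat_lit 94) (nat_lit 0) (nat_lit 0) (XT.lf (nat_lit 420) (nat_lit 9914015855) (nat_lit 0) (nat_lit 14788107009) (nat_lit 336) (nat_lit 14788107009) (nat_lit 107) (nat_lit 1) (nat_lit 102) (nat_lit 1) (nat_lit 106) (nat_lit 1) (nat_lit 148) (nat_lit 295) (nat_lit 277)) (XT.lf (nat_lit 84) (nat_lit 2157223697) (nat_lit 0) (nat_lit 34363725720) (nat_lit 420) (nat_lit 2157223697) (nat_lit 103) (nat_lit 1) (nat_lit 102) (nat_lit 1) (nat_lit 107) (nat_lit 1) (nat_lit 149) (nat_lit 295) (nat_lit 276))) (XT.nd (nat_lit 94) (nat_lit 336) (nat_lit 0) (XT.lf (nat_lit 84) (nat_lit 18177386756) (nat_lit 0) (nat_lit 1522391450) (nat_lit 420) (nat_lit 18177386756) (nat_lit 98) (nat_lit 1) (nat_lit 97) (nat_lit 1) (nat_lit 102) (nat_lit 1) (nat_lit 150) (nat_lit 295) (nat_lit 275)) (XT.lf (nat_lit 420) (nat_lit 30068264299) (nat_lit 0) (nat_lit 3519198432) (nat_lit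 336) (nat_lit 3519198432) (nat_lit 98) (nat_lit 1) (nat_lit 93) (nat_lit 1) (nat_lit 97) (nat_lit 1) (nat_lit 151) (nat_lit 295) (nat_lit 274)))))) (XT.nd (nat_lit 658) (nat_lit 1008) (nat_lit 0) (XT.nd (nat_lit 282) (nat_lit 924) (nat_lit 0) (XT.nd (nat_lit 94) (nat_lit 336) (nat_lit 0) (XT.lf (nat_lit 84) (nat_lit 11794095150) (nat_lit 0) (nat_lit 12761185228) (nat_lit 420) (nat_lit 11794095150) (nat_lit 94) (nat_lit 1) (nat_lit 93) (nat_lit 1) (nat_lit 98) (nat_lit 1) (nat_lit 152) (nat_lit 295) (nat_lit 273)) (XT.nd (nat_lit 94) (nat_lit 0) (nat_lit 0) (XT.lf (nat_lit 420) (nat_lit 17210865687) (nat_lit 0) (nat_lit 9203742105) (nat_lit 336) (nat_lit 9203742105) (nat_lit 94) (nat_lit 1) (nat_lit 89) (nat_lit 1) (nat_lit 93) (nat_lit 1) (nat_lit 153) (nat_lit 295) (nat_lit 272)) (XT.lf (nat_lit 84) (nat_lit 5427538929) (nat_lit 0) (nat_lit 24053621658) (nat_lit 420) (nat_lit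 5427538929) (nat_lit 90) (nat_lit 1) (nat_lit 89) (nat_lit 1) (nat_lit 94) (nat_lit 1) (nat_lit 154) (nat_lit 295) (nat_lit 271)))) (XT.nd (nat_lit 188) (nat_lit 252) (nat_lit 0) (XT.nd (nat_lit 94) (nat_lit 420) (nat_lit 0) (XT.lf (nat_lit 336) (nat_lit 4413984954) (nat_lit 0) (nat_lit 14900191347) (nat_lit 252) (nat_lit 14900191347) (nat_lit 90) (nat_lit 1) (nat_lit 86) (nat_lit 1) (nat_lit 89) (nat_lit 1) (nat_lit 155) (nat_lit 295) (nat_lit 270)) (XT.lf (nat_lit 420) (nat_lit 31782996449) (nat_lit 0) (nat_lit 881917166) (nat_lit 336) (nat_lit 881917166) (nat_lit 86) (nat_lit 1) (nat_lit 81) (nat_lit 1) (nat_lit 85) (nat_lit 1) (nat_lit 156) (nat_lit 295) (nat_lit 269))) (XT.nd (nat_lit 94) (nat_lit 252) (nat_lit 0) (XT.lf (nat_lit 84) (nat_lit 12436921478) (nat_lit 0) (nat_lit 8009145696) (nat_lit 420) (nat_lit 12436921478) (nat_lit 82) (nat_lit 1) (nat_lit 81) (nat_lit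 1) (nat_lit 86) (nat_lit 1) (nat_lit 157) (nat_lit 295) (nat_lit 268)) (XT.lf (nat_lit 336) (nat_lit 18164517004) (nat_lit 0) (nat_lit 7040044816) (nat_lit 252) (nat_lit 7040044816) (nat_lit 82) (nat_lit 1) (nat_lit 78) (nat_lit 1) (nat_lit 81) (nat_lit 1) (nat_lit 158) (nat_lit 295) (nat_lit 267))))) (XT.nd (nat_lit 282) (nat_lit 420) (nat_lit 0) (XT.nd (nat_lit 94) (nat_lit 588) (nat_lit 0) (XT.lf (nat_lit 84) (nat_lit 5738451897) (nat_lit 0) (nat_lit 20145540016) (nat_lit 336) (nat_lit 5738451897) (nat_lit 79) (nat_lit 1) (nat_lit 78) (nat_lit 1) (nat_lit 82) (nat_lit 1) (nat_lit 159) (nat_lit 295) (nat_lit 266)) (XT.nd (nat_lit 94) (nat_lit 336) (nat_lit 0) (XT.lf (nat_lit 336) (nat_lit 4782820294) (nat_lit 0) (nat_lit 13115807364) (nat_lit 252) (nat_lit 13115807364) (nat_lit 79) (nat_lit 1) (nat_lit 75) (nat_lit 1) (nat_lit 78) (nat_lit 1) (nat_lit 160) (nat_lit 295)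 (nat_lit 265)) (XT.lf (nat_lit 336) (nat_lit 28785060386) (nat_lit 0) (nat_lit 821977073) (nat_lit 252) (nat_lit 821977073) (nat_lit 75) (nat_lit 1) (nat_lit 71) (nat_lit 1) (nat_lit 74) (nat_lit 1) (nat_lit 161) (nat_lit 295) (nat_lit 264)))) (XT.nd (nat_lit 188) (nat_lit 168) (nat_lit 0) (XT.nd (nat_lit 94) (nat_lit 252) (nat_lit 0) (XT.lf (nat_lit 84) (nat_lit 10888563992) (nat_lit 0) (nat_lit 8068316584) (nat_lit 336) (nat_lit 10888563992) (nat_lit 72) (nat_lit 1) (nat_lit 71) (nat_lit 1) (nat_lit 75) (nat_lit 1) (nat_lit 162) (nat_lit 295) (nat_lit 263)) (XT.lf (nat_lit 336) (nat_lit 14972772510) (nat_lit 0) (nat_lit 7155347138) (nat_lit 252) (nat_lit 7155347138) (nat_lit 72) (nat_lit 1) (nat_lit 68) (nat_lit 1) (nat_lit 71) (nat_lit 1) (nat_lit 163) (nat_lit 295) (nat_lit 262))) (XT.nd (nat_lit 94) (nat_lit 168) (nat_lit 0) (XT.lf (nat_lit 84) (nat_lit 4123489338)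 (nat_lit 0) (nat_lit 20489582827) (nat_lit 336) (nat_lit 4123489338) (nat_lit 69) (nat_lit 1) (nat_lit 68) (nat_lit 1) (nat_lit 72) (nat_lit 1) (nat_lit 164) (nat_lit 295) (nat_lit 261)) (XT.lf (nat_lit 252) (nat_lit 1510983596) (nat_lit 0) (nat_lit 13344489362) (nat_lit 168) (nat_lit 13344489362) (nat_lit 69) (nat_lit 1) (nat_lit 66) (nat_lit 1) (nat_lit 68) (nat_lit 1) (nat_lit 165) (nat_lit 295) (nat_lit 260))))))) (XT.nd (nat_lit 1222) (nat_lit 1512) (nat_lit 0) (XT.nd (nat_lit 564) (nat_lit 756) (nat_lit 0) (XT.nd (nat_lit 282) (nat_lit 420) (nat_lit 0) (XT.nd (nat_lit 94) (nat_lit 168) (nat_lit 0) (XT.lf (nat_lit 336) (nat_lit 22830455490) (nat_lit 0) (nat_lit 2424759855) (nat_lit 252) (nat_lit 2424759855) (nat_lit 66) (nat_lit 1) (nat_lit 62) (nat_lit 1) (nat_lit 65) (nat_lit 1) (nat_lit 166) (nat_lit 295) (nat_lit 259)) (XT.nd (nat_lit 94) (nat_lit 168) (nat_lit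 0) (XT.lf (nat_lit 84) (nat_lit 7974136173) (nat_lit 0) (nat_lit 11217531292) (nat_lit 336) (nat_lit 7974136173) (nat_lit 63) (nat_lit 1) (nat_lit 62) (nat_lit 1) (nat_lit 66) (nat_lit 1) (nat_lit 167) (nat_lit 295) (nat_lit 258)) (XT.lf (nat_lit 252) (nat_lit 9212884285) (nat_lit 0) (nat_lit 8727308267) (nat_lit 168) (nat_lit 8727308267) (nat_lit 63) (nat_lit 1) (nat_lit 60) (nat_lit 1) (nat_lit 62) (nat_lit 1) (nat_lit 168) (nat_lit 295) (nat_lit 257)))) (XT.nd (nat_lit 94) (nat_lit 420) (nat_lit 0) (XT.lf (nat_lit 84) (nat_lit 1323599049) (nat_lit 0) (nat_lit 23538536660) (nat_lit 252) (nat_lit 1323599049) (nat_lit 61) (nat_lit 1) (nat_lit 60) (nat_lit 1) (nat_lit 63) (nat_lit 1) (nat_lit 169) (nat_lit 295) (nat_lit 256)) (XT.nd (nat_lit 94) (nat_lit 168) (nat_lit 0) (XT.lf (nat_lit 84) (nat_lit 10923895173) (nat_lit 0) (nat_lit 3857929605) (nat_lit 252) (nat_lit 10923895173)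 (nat_lit 58) (nat_lit 1) (nat_lit 57) (nat_lit 1) (nat_lit 60) (nat_lit 1) (nat_lit 170) (nat_lit 295) (nat_lit 255)) (XT.lf (nat_lit 252) (nat_lit 15169743026) (nat_lit 0) (nat_lit 5035943675) (nat_lit 168) (nat_lit 5035943675) (nat_lit 58) (nat_lit 1) (nat_lit 55) (nat_lit 1) (nat_lit 57) (nat_lit 1) (nat_lit 171) (nat_lit 295) (nat_lit 254))))) (XT.nd (nat_lit 282) (nat_lit 336) (nat_lit 0) (XT.nd (nat_lit 94) (nat_lit 420) (nat_lit 0) (XT.lf (nat_lit 84) (nat_lit 4280506823) (nat_lit 0) (nat_lit 16226784548) (nat_lit 252) (nat_lit 4280506823) (nat_lit 56) (nat_lit 1) (nat_lit 55) (nat_lit 1) (nat_lit 58) (nat_lit 1) (nat_lit 172) (nat_lit 295) (nat_lit 253)) (XT.nd (nat_lit 94) (nat_lit 252) (nat_lit 0) (XT.lf (nat_lit 252) (nat_lit 2005263333) (nat_lit 0) (nat_lit 11168925382) (nat_lit 168) (nat_lit 11168925382) (nat_lit 56) (nat_lit 1) (nat_lit 53) (nat_lit 1) (nat_lit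 55) (nat_lit 1) (nat_lit 173) (nat_lit 295) (nat_lit 252)) (XT.lf (nat_lit 252) (nat_lit 19709023534) (nat_lit 0) (nat_lit 2101145768) (nat_lit 168) (nat_lit 2101145768) (nat_lit 53) (nat_lit 1) (nat_lit 50) (nat_lit 1) (nat_lit 52) (nat_lit 1) (nat_lit 174) (nat_lit 295) (nat_lit 251)))) (XT.nd (nat_lit 188) (nat_lit 168) (nat_lit 0) (XT.nd (nat_lit 94) (nat_lit 168) (nat_lit 0) (XT.lf (nat_lit 84) (nat_lit 6561182232) (nat_lit 0) (nat_lit 10360836933) (nat_lit 252) (nat_lit 6561182232) (nat_lit 51) (nat_lit 1) (nat_lit 50) (nat_lit 1) (nat_lit 53) (nat_lit 1) (nat_lit 175) (nat_lit 295) (nat_lit 250)) (XT.lf (nat_lit 252) (nat_lit 6682245554) (nat_lit 0) (nat_lit 8192635452) (nat_lit 168) (nat_lit 8192635452) (nat_lit 51) (nat_lit 1) (nat_lit 48) (nat_lit 1) (nat_lit 50) (nat_lit 1) (nat_lit 176) (nat_lit 295) (nat_lit 249))) (XT.nd (nat_lit 94) (nat_lit 168) (nat_lit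 0) (XT.lf (nat_lit 84) (nat_lit 219626982) (nat_lit 0) (nat_lit 22227155648) (nat_lit 252) (nat_lit 219626982) (nat_lit 49) (nat_lit 1) (nat_lit 48) (nat_lit 1) (nat_lit 51) (nat_lit 1) (nat_lit 177) (nat_lit 295) (nat_lit 248)) (XT.lf (nat_lit 84) (nat_lit 8292756741) (nat_lit 0) (nat_lit 5677239640) (nat_lit 168) (nat_lit 8292756741) (nat_lit 47) (nat_lit 1) (nat_lit 46) (nat_lit 1) (nat_lit 48) (nat_lit 1) (nat_lit 178) (nat_lit 295) (nat_lit 247)))))) (XT.nd (nat_lit 658) (nat_lit 672) (nat_lit 0) (XT.nd (nat_lit 282) (nat_lit 504) (nat_lit 0) (XT.nd (nat_lit 94) (nat_lit 168) (nat_lit 0) (XT.lf (nat_lit 252) (nat_lit 10290367047) (nat_lit 0) (nat_lit 5791466127) (nat_lit 168) (nat_lit 5791466127) (nat_lit 47) (nat_lit 1) (nat_lit 44) (nat_lit 1) (nat_lit 46) (nat_lit 1) (nat_lit 179) (nat_lit 295) (nat_lit 246)) (XT.nd (nat_lit 94) (nat_lit 168) (nat_lit 0) (XT.lf (nat_lit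 84) (nat_lit 2063147473) (nat_lit 0) (nat_lit 17368062880) (nat_lit 252) (nat_lit 2063147473) (nat_lit 45) (nat_lit 1) (nat_lit 44) (nat_lit 1) (nat_lit 47) (nat_lit 1) (nat_lit 180) (nat_lit 295) (nat_lit 245)) (XT.lf (nat_lit 84) (nat_lit 9579477096) (nat_lit 0) (nat_lit 1959587154) (nat_lit 168) (nat_lit 9579477096) (nat_lit 43) (nat_lit 1) (nat_lit 42) (nat_lit 1) (nat_lit 44) (nat_lit 1) (nat_lit 181) (nat_lit 295) (nat_lit 244)))) (XT.nd (nat_lit 188) (nat_lit 336) (nat_lit 0) (XT.nd (nat_lit 94) (nat_lit 0) (nat_lit 0) (XT.lf (nat_lit 252) (nat_lit 13030545762) (nat_lit 0) (nat_lit 3861191293) (nat_lit 168) (nat_lit 3861191293) (nat_lit 43) (nat_lit 1) (nat_lit 40) (nat_lit 1) (nat_lit 42) (nat_lit 1) (nat_lit 182) (nat_lit 295) (nat_lit 243)) (XT.lf (nat_lit 84) (nat_lit 3490175401) (nat_lit 0) (nat_lit 13414202524) (nat_lit 252) (nat_lit 3490175401) (nat_lit 41)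 (nat_lit 1) (nat_lit 40) (nat_lit 1) (nat_lit 43) (nat_lit 1) (nat_lit 183) (nat_lit 295) (nat_lit 242))) (XT.nd (nat_lit 94) (nat_lit 252) (nat_lit 0) (XT.lf (nat_lit 168) (nat_lit 1001902258) (nat_lit 0) (nat_lit 9520519378) (nat_lit 84) (nat_lit 9520519378) (nat_lit 41) (nat_lit 1) (nat_lit 39) (nat_lit 1) (nat_lit 40) (nat_lit 1) (nat_lit 184) (nat_lit 295) (nat_lit 241)) (XT.lf (nat_lit 252) (nat_lit 15067533986) (nat_lit 0) (nat_lit 2316171420) (nat_lit 168) (nat_lit 2316171420) (nat_lit 39) (nat_lit 1) (nat_lit 36) (nat_lit 1) (nat_lit 38) (nat_lit 1) (nat_lit 185) (nat_lit 295) (nat_lit 240))))) (XT.nd (nat_lit 282) (nat_lit 336) (nat_lit 0) (XT.nd (nat_lit 94) (nat_lit 336) (nat_lit 0) (XT.lf (nat_lit 84) (nat_lit 4578822481) (nat_lit 0) (nat_lit 10202996862) (nat_lit 252) (nat_lit 4578822481) (nat_lit 37) (nat_lit 1) (nat_lit 36) (nat_lit 1) (nat_lit 39) (nat_lit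 1) (nat_lit 186) (nat_lit 295) (nat_lit 239)) (XT.nd (nat_lit 94) (nat_lit 252) (nat_lit 0) (XT.lf (nat_lit 168) (nat_lit 3364614761) (nat_lit 0) (nat_lit 7832554853) (nat_lit 84) (nat_lit 7832554853) (nat_lit 37) (nat_lit 1) (nat_lit 35) (nat_lit 1) (nat_lit 36) (nat_lit 1) (nat_lit 187) (nat_lit 295) (nat_lit 238)) (XT.lf (nat_lit 252) (nat_lit 16536356299) (nat_lit 0) (nat_lit 1086053090) (nat_lit 168) (nat_lit 1086053090) (nat_lit 35) (nat_lit 1) (nat_lit 32) (nat_lit 1) (nat_lit 34) (nat_lit 1) (nat_lit 188) (nat_lit 295) (nat_lit 237)))) (XT.nd (nat_lit 188) (nat_lit 252) (nat_lit 0) (XT.nd (nat_lit 94) (nat_lit 84) (nat_lit 0) (XT.lf (nat_lit 84) (nat_lit 5393148150) (nat_lit 0) (nat_lit 7600791957) (nat_lit 252) (nat_lit 5393148150) (nat_lit 33) (nat_lit 1) (nat_lit 32) (nat_lit 1) (nat_lit 35) (nat_lit 1) (nat_lit 189) (nat_lit 295) (nat_lit 236)) (XT.lf (nat_lit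 168) (nat_lit 5187455265) (nat_lit 0) (nat_lit 6443862262) (nat_lit 84) (nat_lit 6443862262) (nat_lit 33) (nat_lit 1) (nat_lit 31) (nat_lit 1) (nat_lit 32) (nat_lit 1) (nat_lit 190) (nat_lit 295) (nat_lit 235))) (XT.nd (nat_lit 94) (nat_lit 0) (nat_lit 0) (XT.lf (nat_lit 252) (nat_lit 17547604869) (nat_lit 0) (nat_lit 113053928) (nat_lit 168) (nat_lit 113053928) (nat_lit 31) (nat_lit 1) (nat_lit 28) (nat_lit 1) (nat_lit 30) (nat_lit 1) (nat_lit 191) (nat_lit 295) (nat_lit 234)) (XT.lf (nat_lit 84) (nat_lit 5985660676) (nat_lit 0) (nat_lit 5497724819) (nat_lit 252) (nat_lit 5985660676) (nat_lit 29) (nat_lit 1) (nat_lit 28) (nat_lit 1) (nat_lit 31) (nat_lit 1) (nat_lit 192) (nat_lit 295) (nat_lit 233))))))))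
noncomputable def ec163 : XT := (XT.nd (nat_lit 2538) (nat_lit 168) (nat_lit 0) (XT.nd (nat_lit 1222) (nat_lit 1092) (nat_lit 0) (XT.nd (nat_lit 564) (nat_lit 588) (nat_lit 0) (XT.nd (nat_lit 282) (nat_lit 252) (nat_lit 0) (XT.nd (nat_lit 94) (nat_lit 168) (nat_lit 0) (XT.lf (nat_lit 168) (nat_lit 6571902165) (nat_lit 0) (nat_lit 5301381430) (nat_lit 84) (nat_lit 5301381430) (nat_lit 29) (nat_lit 1) (nat_lit 27) (nat_lit 1) (nat_lit 28) (nat_lit 1) (nat_lit 193) (nat_lit 295) (nat_lit 232)) (XT.nd (nat_lit 94) (nat_lit 168) (nat_lit 0) (XT.lf (nat_lit 0) (nat_lit 660931038) (nat_lit 0) (nat_lit 15567309663) (nat_lit 168) (nat_lit 660931038) (nat_lit 27) (nat_lit 3) (nat_lit 27) (nat_lit 1) (nat_lit 29) (nat_lit 1) (nat_lit 194) (nat_lit 295) (nat_lit 231)) (XT.lf (nat_lit 84) (nat_lit 6399374371) (nat_lit 0) (nat_lit 3803500829) (nat_lit 168) (nat_lit 6399374371) (nat_lit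 26) (nat_lit 1) (nat_lit 25) (nat_lit 1) (nat_lit 27) (nat_lit 1) (nat_lit 195) (nat_lit 295) (nat_lit 230)))) (XT.nd (nat_lit 94) (nat_lit 168) (nat_lit 0) (XT.lf (nat_lit 168) (nat_lit 7601167681) (nat_lit 0) (nat_lit 4361459622) (nat_lit 84) (nat_lit 4361459622) (nat_lit 26) (nat_lit 1) (nat_lit 24) (nat_lit 1) (nat_lit 25) (nat_lit 1) (nat_lit 196) (nat_lit 295) (nat_lit 229)) (XT.nd (nat_lit 94) (nat_lit 168) (nat_lit 0) (XT.lf (nat_lit 0) (nat_lit 1263240586) (nat_lit 0) (nat_lit 13526755171) (nat_lit 168) (nat_lit 1263240586) (nat_lit 24) (nat_lit 3) (nat_lit 24) (nat_lit 1) (nat_lit 26) (nat_lit 1) (nat_lit 197) (nat_lit 295) (nat_lit 228)) (XT.lf (nat_lit 84) (nat_lit 6669501628) (nat_lit 0) (nat_lit 2443920035) (nat_lit 168) (nat_lit 6669501628) (nat_lit 23) (nat_lit 1) (nat_lit 22) (nat_lit 1) (nat_lit 24) (nat_lit 1) (nat_lit 198) (nat_lit 295) (nat_lit 227)))))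 (XT.nd (nat_lit 282) (nat_lit 336) (nat_lit 0) (XT.nd (nat_lit 94) (nat_lit 168) (nat_lit 0) (XT.lf (nat_lit 168) (nat_lit 8343449467) (nat_lit 0) (nat_lit 3588183625) (nat_lit 84) (nat_lit 3588183625) (nat_lit 23) (nat_lit 1) (nat_lit 21) (nat_lit 1) (nat_lit 22) (nat_lit 1) (nat_lit 199) (nat_lit 295) (nat_lit 226)) (XT.nd (nat_lit 94) (nat_lit 168) (nat_lit 0) (XT.lf (nat_lit 0) (nat_lit 1724500666) (nat_lit 0) (nat_lit 11813724465) (nat_lit 168) (nat_lit 1724500666) (nat_lit 21) (nat_lit 3) (nat_lit 21) (nat_lit 1) (nat_lit 23) (nat_lit 1) (nat_lit 200) (nat_lit 295) (nat_lit 225)) (XT.lf (nat_lit 84) (nat_lit 6824844538) (nat_lit 0) (nat_lit 1358019527) (nat_lit 168) (nat_lit 6824844538) (nat_lit 20) (nat_lit 1) (nat_lit 19) (nat_lit 1) (nat_lit 21) (nat_lit 1) (nat_lit 201) (nat_lit 295) (nat_lit 224)))) (XT.nd (nat_lit 188) (nat_lit 252) (nat_lit 0) (XT.nd (nat_lit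 94) (nat_lit 0) (nat_lit 0) (XT.lf (nat_lit 168) (nat_lit 8854605101) (nat_lit 0) (nat_lit 2952007548) (nat_lit 84) (nat_lit 2952007548) (nat_lit 20) (nat_lit 1) (nat_lit 18) (nat_lit 1) (nat_lit 19) (nat_lit 1) (nat_lit 202) (nat_lit 295) (nat_lit 223)) (XT.lf (nat_lit 0) (nat_lit 2071350499) (nat_lit 0) (nat_lit 10371779887) (nat_lit 168) (nat_lit 2071350499) (nat_lit 18) (nat_lit 3) (nat_lit 18) (nat_lit 1) (nat_lit 20) (nat_lit 1) (nat_lit 203) (nat_lit 295) (nat_lit 222))) (XT.nd (nat_lit 94) (nat_lit 84) (nat_lit 0) (XT.lf (nat_lit 84) (nat_lit 6888939389) (nat_lit 0) (nat_lit 495722661) (nat_lit 168) (nat_lit 6888939389) (nat_lit 17) (nat_lit 1) (nat_lit 16) (nat_lit 1) (nat_lit 18) (nat_lit 1) (nat_lit 204) (nat_lit 295) (nat_lit 221)) (XT.lf (nat_lit 168) (nat_lit 9180351793) (nat_lit 0) (nat_lit 2428623915) (nat_lit 84) (nat_lit 2428623915) (nat_lit 17) (nat_lit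 1) (nat_lit 15) (nat_lit 1) (nat_lit 16) (nat_lit 1) (nat_lit 205) (nat_lit 295) (nat_lit 220)))))) (XT.nd (nat_lit 658) (nat_lit 588) (nat_lit 0) (XT.nd (nat_lit 282) (nat_lit 252) (nat_lit 0) (XT.nd (nat_lit 94) (nat_lit 252) (nat_lit 0) (XT.lf (nat_lit 0) (nat_lit 2325628546) (nat_lit 0) (nat_lit 9154412346) (nat_lit 168) (nat_lit 2325628546) (nat_lit 15) (nat_lit 3) (nat_lit 15) (nat_lit 1) (nat_lit 17) (nat_lit 1) (nat_lit 206) (nat_lit 295) (nat_lit 219)) (XT.nd (nat_lit 94) (nat_lit 168) (nat_lit 0) (XT.lf (nat_lit 84) (nat_lit 190181757) (nat_lit 0) (nat_lit 6693785376) (nat_lit 84) (nat_lit 6693785376) (nat_lit 15) (nat_lit 3) (nat_lit 14) (nat_lit 1) (nat_lit 15) (nat_lit 1) (nat_lit 207) (nat_lit 295) (nat_lit 218)) (XT.lf (nat_lit 168) (nat_lit 9358075533) (nat_lit 0) (nat_lit 1998034905) (nat_lit 84) (nat_lit 1998034905) (nat_lit 14) (nat_lit 1) (nat_lit 12)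 (nat_lit 1) (nat_lit 13) (nat_lit 1) (nat_lit 208) (nat_lit 295) (nat_lit 217)))) (XT.nd (nat_lit 188) (nat_lit 168) (nat_lit 0) (XT.nd (nat_lit 94) (nat_lit 84) (nat_lit 0) (XT.lf (nat_lit 0) (nat_lit 2505227375) (nat_lit 0) (nat_lit 8123284706) (nat_lit 168) (nat_lit 2505227375) (nat_lit 12) (nat_lit 3) (nat_lit 12) (nat_lit 1) (nat_lit 14) (nat_lit 1) (nat_lit 209) (nat_lit 295) (nat_lit 216)) (XT.lf (nat_lit 84) (nat_lit 738842807) (nat_lit 0) (nat_lit 6089373599) (nat_lit 84) (nat_lit 6089373599) (nat_lit 12) (nat_lit 3) (nat_lit 11) (nat_lit 1) (nat_lit 12) (nat_lit 1) (nat_lit 210) (nat_lit 295) (nat_lit 215))) (XT.nd (nat_lit 94) (nat_lit 0) (nat_lit 0) (XT.lf (nat_lit 168) (nat_lit 9418318942) (nat_lit 0) (nat_lit 1643788261) (nat_lit 84) (nat_lit 1643788261) (nat_lit 11) (nat_lit 1) (nat_lit 9) (nat_lit 1) (nat_lit 10) (nat_lit 1) (nat_lit 211) (nat_lit 295) (nat_lit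 214)) (XT.lf (nat_lit 0) (nat_lit 2624796775) (nat_lit 0) (nat_lit 7246786445) (nat_lit 168) (nat_lit 2624796775) (nat_lit 9) (nat_lit 3) (nat_lit 9) (nat_lit 1) (nat_lit 11) (nat_lit 1) (nat_lit 212) (nat_lit 295) (nat_lit 213))))) (XT.nd (nat_lit 282) (nat_lit 336) (nat_lit 0) (XT.nd (nat_lit 94) (nat_lit 168) (nat_lit 0) (XT.lf (nat_lit 84) (nat_lit 1162495238) (nat_lit 0) (nat_lit 5564390162) (nat_lit 84) (nat_lit 5564390162) (nat_lit 9) (nat_lit 3) (nat_lit 8) (nat_lit 1) (nat_lit 9) (nat_lit 1) (nat_lit 213) (nat_lit 295) (nat_lit 212)) (XT.nd (nat_lit 94) (nat_lit 0) (nat_lit 0) (XT.lf (nat_lit 168) (nat_lit 9386004817) (nat_lit 0) (nat_lit 1352348670) (nat_lit 84) (nat_lit 1352348670) (nat_lit 8) (nat_lit 1) (nat_lit 6) (nat_lit 1) (nat_lit 7) (nat_lit 1) (nat_lit 214) (nat_lit 295) (nat_lit 211)) (XT.lf (nat_lit 0) (nat_lit 2696322053) (nat_lit 0) (nat_lit 6498844393)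 (nat_lit 168) (nat_lit 2696322053) (nat_lit 6) (nat_lit 3) (nat_lit 6) (nat_lit 1) (nat_lit 8) (nat_lit 1) (nat_lit 215) (nat_lit 295) (nat_lit 210)))) (XT.nd (nat_lit 188) (nat_lit 84) (nat_lit 0) (XT.nd (nat_lit 94) (nat_lit 168) (nat_lit 0) (XT.lf (nat_lit 84) (nat_lit 1484623360) (nat_lit 0) (nat_lit 5106073207) (nat_lit 84) (nat_lit 5106073207) (nat_lit 6) (nat_lit 3) (nat_lit 5) (nat_lit 1) (nat_lit 6) (nat_lit 1) (nat_lit 216) (nat_lit 295) (nat_lit 209)) (XT.lf (nat_lit 168) (nat_lit 9281442264) (nat_lit 0) (nat_lit 1112580598) (nat_lit 84) (nat_lit 1112580598) (nat_lit 5) (nat_lit 1) (nat_lit 3) (nat_lit 1) (nat_lit 4) (nat_lit 1) (nat_lit 217) (nat_lit 295) (nat_lit 208))) (XT.nd (nat_lit 94) (nat_lit 84) (nat_lit 0) (XT.lf (nat_lit 0) (nat_lit 2729599636) (nat_lit 0) (nat_lit 5857944176) (nat_lit 168) (nat_lit 2729599636) (nat_lit 3) (nat_lit 3) (nat_lit 3) (nat_lit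 1) (nat_lit 5) (nat_lit 1) (nat_lit 218) (nat_lit 295) (nat_lit 207)) (XT.lf (nat_lit 84) (nat_lit 1724484884) (nat_lit 0) (nat_lit 4703860636) (nat_lit 84) (nat_lit 4703860636) (nat_lit 3) (nat_lit 3) (nat_lit 2) (nat_lit 1) (nat_lit 3) (nat_lit 1) (nat_lit 219) (nat_lit 295) (nat_lit 206))))))) (XT.nd (nat_lit 1316) (nat_lit 0) (nat_lit 0) (XT.nd (nat_lit 658) (nat_lit 0) (nat_lit 0) (XT.nd (nat_lit 282) (nat_lit 0) (nat_lit 0) (XT.nd (nat_lit 94) (nat_lit 0) (nat_lit 0) (XT.lf (nat_lit 0) (nat_lit 15909547997) (nat_lit 0) (nat_lit 0) (nat_lit 0) (nat_lit 0) (nat_lit 0) (nat_lit 0) (nat_lit 1) (nat_lit 0) (nat_lit 1) (nat_lit 0) (nat_lit 220) (nat_lit 295) (nat_lit 205)) (XT.nd (nat_lit 94) (nat_lit 0) (nat_lit 0) (XT.lf (nat_lit 0) (nat_lit 15900278522) (nat_lit 0) (nat_lit 0) (nat_lit 0) (nat_lit 0) (nat_lit 0) (nat_lit 0) (nat_lit 1) (nat_lit 0) (nat_lit 1) (nat_lit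 0) (nat_lit 221) (nat_lit 295) (nat_lit 204)) (XT.lf (nat_lit 0) (nat_lit 15891450451) (nat_lit 0) (nat_lit 0) (nat_lit 0) (nat_lit 0) (nat_lit 0) (nat_lit 0) (nat_lit 1) (nat_lit 0) (nat_lit 1) (nat_lit 0) (nat_lit 222) (nat_lit 295) (nat_lit 203)))) (XT.nd (nat_lit 188) (nat_lit 0) (nat_lit 0) (XT.nd (nat_lit 94) (nat_lit 0) (nat_lit 0) (XT.lf (nat_lit 0) (nat_lit 15883042765) (nat_lit 0) (nat_lit 0) (nat_lit 0) (nat_lit 0) (nat_lit 0) (nat_lit 0) (nat_lit 1) (nat_lit 0) (nat_lit 1) (nat_lit 0) (nat_lit 223) (nat_lit 295) (nat_lit 202)) (XT.lf (nat_lit 0) (nat_lit 15875035444) (nat_lit 0) (nat_lit 0) (nat_lit 0) (nat_lit 0) (nat_lit 0) (nat_lit 0) (nat_lit 1) (nat_lit 0) (nat_lit 1) (nat_lit 0) (nat_lit 224) (nat_lit 295) (nat_lit 201))) (XT.nd (nat_lit 94) (nat_lit 0) (nat_lit 0) (XT.lf (nat_lit 0) (nat_lit 15867409425) (nat_lit 0) (nat_lit 0) (nat_lit 0) (nat_lit 0)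 (nat_lit 0) (nat_lit 0) (nat_lit 1) (nat_lit 0) (nat_lit 1) (nat_lit 0) (nat_lit 225) (nat_lit 295) (nat_lit 200)) (XT.lf (nat_lit 0) (nat_lit 15860146549) (nat_lit 0) (nat_lit 0) (nat_lit 0) (nat_lit 0) (nat_lit 0) (nat_lit 0) (nat_lit 1) (nat_lit 0) (nat_lit 1) (nat_lit 0) (nat_lit 226) (nat_lit 295) (nat_lit 199))))) (XT.nd (nat_lit 282) (nat_lit 0) (nat_lit 0) (XT.nd (nat_lit 94) (nat_lit 0) (nat_lit 0) (XT.lf (nat_lit 0) (nat_lit 15853229525) (nat_lit 0) (nat_lit 0) (nat_lit 0) (nat_lit 0) (nat_lit 0) (nat_lit 0) (nat_lit 1) (nat_lit 0) (nat_lit 1) (nat_lit 0) (nat_lit 227) (nat_lit 295) (nat_lit 198)) (XT.nd (nat_lit 94) (nat_lit 0) (nat_lit 0) (XT.lf (nat_lit 0) (nat_lit 15846641882) (nat_lit 0) (nat_lit 0) (nat_lit 0) (nat_lit 0) (nat_lit 0) (nat_lit 0) (nat_lit 1) (nat_lit 0) (nat_lit 1) (nat_lit 0) (nat_lit 228) (nat_lit 295) (nat_lit 197)) (XT.lf (nat_lit 0) (nat_lit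 15840367937) (nat_lit 0) (nat_lit 0) (nat_lit 0) (nat_lit 0) (nat_lit 0) (nat_lit 0) (nat_lit 1) (nat_lit 0) (nat_lit 1) (nat_lit 0) (nat_lit 229) (nat_lit 295) (nat_lit 196)))) (XT.nd (nat_lit 188) (nat_lit 0) (nat_lit 0) (XT.nd (nat_lit 94) (nat_lit 0) (nat_lit 0) (XT.lf (nat_lit 0) (nat_lit 15834392751) (nat_lit 0) (nat_lit 0) (nat_lit 0) (nat_lit 0) (nat_lit 0) (nat_lit 0) (nat_lit 1) (nat_lit 0) (nat_lit 1) (nat_lit 0) (nat_lit 230) (nat_lit 295) (nat_lit 195)) (XT.lf (nat_lit 0) (nat_lit 15828702098) (nat_lit 0) (nat_lit 0) (nat_lit 0) (nat_lit 0) (nat_lit 0) (nat_lit 0) (nat_lit 1) (nat_lit 0) (nat_lit 1) (nat_lit 0) (nat_lit 231) (nat_lit 295) (nat_lit 194))) (XT.nd (nat_lit 94) (nat_lit 0) (nat_lit 0) (XT.lf (nat_lit 0) (nat_lit 15823282429) (nat_lit 0) (nat_lit 0) (nat_lit 0) (nat_lit 0) (nat_lit 0) (nat_lit 0) (nat_lit 1) (nat_lit 0) (nat_lit 1) (nat_lit 0) (nat_lit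 232) (nat_lit 295) (nat_lit 193)) (XT.lf (nat_lit 0) (nat_lit 15818120838) (nat_lit 0) (nat_lit 0) (nat_lit 0) (nat_lit 0) (nat_lit 0) (nat_lit 0) (nat_lit 1) (nat_lit 0) (nat_lit 1) (nat_lit 0) (nat_lit 233) (nat_lit 295) (nat_lit 192)))))) (XT.nd (nat_lit 658) (nat_lit 0) (nat_lit 0) (XT.nd (nat_lit 282) (nat_lit 0) (nat_lit 0) (XT.nd (nat_lit 94) (nat_lit 0) (nat_lit 0) (XT.lf (nat_lit 0) (nat_lit 15813205038) (nat_lit 0) (nat_lit 0) (nat_lit 0) (nat_lit 0) (nat_lit 0) (nat_lit 0) (nat_lit 1) (nat_lit 0) (nat_lit 1) (nat_lit 0) (nat_lit 234) (nat_lit 295) (nat_lit 191)) (XT.nd (nat_lit 94) (nat_lit 0) (nat_lit 0) (XT.lf (nat_lit 0) (nat_lit 15808523324) (nat_lit 0) (nat_lit 0) (nat_lit 0) (nat_lit 0) (nat_lit 0) (nat_lit 0) (nat_lit 1) (nat_lit 0) (nat_lit 1) (nat_lit 0) (nat_lit 235) (nat_lit 295) (nat_lit 190)) (XT.lf (nat_lit 0) (nat_lit 15804064548) (nat_lit 0) (nat_lit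 0) (nat_lit 0) (nat_lit 0) (nat_lit 0) (nat_lit 0) (nat_lit 1) (nat_lit 0) (nat_lit 1) (nat_lit 0) (nat_lit 236) (nat_lit 295) (nat_lit 189)))) (XT.nd (nat_lit 188) (nat_lit 0) (nat_lit 0) (XT.nd (nat_lit 94) (nat_lit 0) (nat_lit 0) (XT.lf (nat_lit 0) (nat_lit 15799818095) (nat_lit 0) (nat_lit 0) (nat_lit 0) (nat_lit 0) (nat_lit 0) (nat_lit 0) (nat_lit 1) (nat_lit 0) (nat_lit 1) (nat_lit 0) (nat_lit 237) (nat_lit 295) (nat_lit 188)) (XT.lf (nat_lit 0) (nat_lit 15795773854) (nat_lit 0) (nat_lit 0) (nat_lit 0) (nat_lit 0) (nat_lit 0) (nat_lit 0) (nat_lit 1) (nat_lit 0) (nat_lit 1) (nat_lit 0) (nat_lit 238) (nat_lit 295) (nat_lit 187))) (XT.nd (nat_lit 94) (nat_lit 0) (nat_lit 0) (XT.lf (nat_lit 0) (nat_lit 15791922196) (nat_lit 0) (nat_lit 0) (nat_lit 0) (nat_lit 0) (nat_lit 0) (nat_lit 0) (nat_lit 1) (nat_lit 0) (nat_lit 1) (nat_lit 0) (nat_lit 239) (nat_lit 295) (nat_lit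 186)) (XT.lf (nat_lit 0) (nat_lit 15788253950) (nat_lit 0) (nat_lit 0) (nat_lit 0) (nat_lit 0) (nat_lit 0) (nat_lit 0) (nat_lit 1) (nat_lit 0) (nat_lit 1) (nat_lit 0) (nat_lit 240) (nat_lit 295) (nat_lit 185))))) (XT.nd (nat_lit 282) (nat_lit 0) (nat_lit 0) (XT.nd (nat_lit 94) (nat_lit 0) (nat_lit 0) (XT.lf (nat_lit 0) (nat_lit 15784760383) (nat_lit 0) (nat_lit 0) (nat_lit 0) (nat_lit 0) (nat_lit 0) (nat_lit 0) (nat_lit 1) (nat_lit 0) (nat_lit 1) (nat_lit 0) (nat_lit 241) (nat_lit 295) (nat_lit 184)) (XT.nd (nat_lit 94) (nat_lit 0) (nat_lit 0) (XT.lf (nat_lit 0) (nat_lit 15781433176) (nat_lit 0) (nat_lit 0) (nat_lit 0) (nat_lit 0) (nat_lit 0) (nat_lit 0) (nat_lit 1) (nat_lit 0) (nat_lit 1) (nat_lit 0) (nat_lit 242) (nat_lit 295) (nat_lit 183)) (XT.lf (nat_lit 0) (nat_lit 15778264407) (nat_lit 0) (nat_lit 0) (nat_lit 0) (nat_lit 0) (nat_lit 0) (nat_lit 0) (nat_lit 1) (nat_lit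 0) (nat_lit 1) (nat_lit 0) (nat_lit 243) (nat_lit 295) (nat_lit 182)))) (XT.nd (nat_lit 188) (nat_lit 0) (nat_lit 0) (XT.nd (nat_lit 94) (nat_lit 0) (nat_lit 0) (XT.lf (nat_lit 0) (nat_lit 15775246532) (nat_lit 0) (nat_lit 0) (nat_lit 0) (nat_lit 0) (nat_lit 0) (nat_lit 0) (nat_lit 1) (nat_lit 0) (nat_lit 1) (nat_lit 0) (nat_lit 244) (nat_lit 295) (nat_lit 181)) (XT.lf (nat_lit 0) (nat_lit 15772372366) (nat_lit 0) (nat_lit 0) (nat_lit 0) (nat_lit 0) (nat_lit 0) (nat_lit 0) (nat_lit 1) (nat_lit 0) (nat_lit 1) (nat_lit 0) (nat_lit 245) (nat_lit 295) (nat_lit 180))) (XT.nd (nat_lit 94) (nat_lit 0) (nat_lit 0) (XT.lf (nat_lit 0) (nat_lit 15769635064) (nat_lit 0) (nat_lit 0) (nat_lit 0) (nat_lit 0) (nat_lit 0) (nat_lit 0) (nat_lit 1) (nat_lit 0) (nat_lit 1) (nat_lit 0) (nat_lit 246) (nat_lit 295) (nat_lit 179)) (XT.lf (nat_lit 0) (nat_lit 15767028111) (nat_lit 0) (nat_lit 0)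 (nat_lit 0) (nat_lit 0) (nat_lit 0) (nat_lit 0) (nat_lit 1) (nat_lit 0) (nat_lit 1) (nat_lit 0) (nat_lit 247) (nat_lit 295) (nat_lit 178))))))))
noncomputable def ec164 : XT := (XT.nd (nat_lit 2538) (nat_lit 0) (nat_lit 0) (XT.nd (nat_lit 1222) (nat_lit 0) (nat_lit 0) (XT.nd (nat_lit 564) (nat_lit 0) (nat_lit 0) (XT.nd (nat_lit 282) (nat_lit 0) (nat_lit 0) (XT.nd (nat_lit 94) (nat_lit 0) (nat_lit 0) (XT.lf (nat_lit 0) (nat_lit 15764545297) (nat_lit 0) (nat_lit 0) (nat_lit 0) (nat_lit 0) (nat_lit 0) (nat_lit 0) (nat_lit 1) (nat_lit 0) (nat_lit 1) (nat_lit 0) (nat_lit 248) (nat_lit 295) (nat_lit 177)) (XT.nd (nat_lit 94) (nat_lit 0) (nat_lit 0) (XT.lf (nat_lit 0) (nat_lit 15762180713) (nat_lit 0) (nat_lit 0) (nat_lit 0) (nat_lit 0) (nat_lit 0) (nat_lit 0) (nat_lit 1) (nat_lit 0) (nat_lit 1) (nat_lit 0) (nat_lit 249) (nat_lit 295) (nat_lit 176)) (XT.lf (nat_lit 0) (nat_lit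 15759928729) (nat_lit 0) (nat_lit 0) (nat_lit 0) (nat_lit 0) (nat_lit 0) (nat_lit 0) (nat_lit 1) (nat_lit 0) (nat_lit 1) (nat_lit 0) (nat_lit 250) (nat_lit 295) (nat_lit 175)))) (XT.nd (nat_lit 94) (nat_lit 0) (nat_lit 0) (XT.lf (nat_lit 0) (nat_lit 15757783981) (nat_lit 0) (nat_lit 0) (nat_lit 0) (nat_lit 0) (nat_lit 0) (nat_lit 0) (nat_lit 1) (nat_lit 0) (nat_lit 1) (nat_lit 0) (nat_lit 251) (nat_lit 295) (nat_lit 174)) (XT.nd (nat_lit 94) (nat_lit 0) (nat_lit 0) (XT.lf (nat_lit 0) (nat_lit 15755741365) (nat_lit 0) (nat_lit 0) (nat_lit 0) (nat_lit 0) (nat_lit 0) (nat_lit 0) (nat_lit 1) (nat_lit 0) (nat_lit 1) (nat_lit 0) (nat_lit 252) (nat_lit 295) (nat_lit 173)) (XT.lf (nat_lit 0) (nat_lit 15753796016) (nat_lit 0) (nat_lit 0) (nat_lit 0) (nat_lit 0) (nat_lit 0) (nat_lit 0) (nat_lit 1) (nat_lit 0) (nat_lit 1) (nat_lit 0) (nat_lit 253) (nat_lit 295) (nat_lit 172))))) (XT.nd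 (nat_lit 282) (nat_lit 0) (nat_lit 0) (XT.nd (nat_lit 94) (nat_lit 0) (nat_lit 0) (XT.lf (nat_lit 0) (nat_lit 15751943303) (nat_lit 0) (nat_lit 0) (nat_lit 0) (nat_lit 0) (nat_lit 0) (nat_lit 0) (nat_lit 1) (nat_lit 0) (nat_lit 1) (nat_lit 0) (nat_lit 254) (nat_lit 295) (nat_lit 171)) (XT.nd (nat_lit 94) (nat_lit 0) (nat_lit 0) (XT.lf (nat_lit 0) (nat_lit 15750178814) (nat_lit 0) (nat_lit 0) (nat_lit 0) (nat_lit 0) (nat_lit 0) (nat_lit 0) (nat_lit 1) (nat_lit 0) (nat_lit 1) (nat_lit 0) (nat_lit 255) (nat_lit 295) (nat_lit 170)) (XT.lf (nat_lit 0) (nat_lit 15748498348) (nat_lit 0) (nat_lit 0) (nat_lit 0) (nat_lit 0) (nat_lit 0) (nat_lit 0) (nat_lit 1) (nat_lit 0) (nat_lit 1) (nat_lit 0) (nat_lit 256) (nat_lit 295) (nat_lit 169)))) (XT.nd (nat_lit 188) (nat_lit 0) (nat_lit 0) (XT.nd (nat_lit 94) (nat_lit 0) (nat_lit 0) (XT.lf (nat_lit 0) (nat_lit 15746897904) (nat_lit 0) (nat_lit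 0) (nat_lit 0) (nat_lit 0) (nat_lit 0) (nat_lit 0) (nat_lit 1) (nat_lit 0) (nat_lit 1) (nat_lit 0) (nat_lit 257) (nat_lit 295) (nat_lit 168)) (XT.lf (nat_lit 0) (nat_lit 15745373673) (nat_lit 0) (nat_lit 0) (nat_lit 0) (nat_lit 0) (nat_lit 0) (nat_lit 0) (nat_lit 1) (nat_lit 0) (nat_lit 1) (nat_lit 0) (nat_lit 258) (nat_lit 295) (nat_lit 167))) (XT.nd (nat_lit 94) (nat_lit 0) (nat_lit 0) (XT.lf (nat_lit 0) (nat_lit 15743922023) (nat_lit 0) (nat_lit 0) (nat_lit 0) (nat_lit 0) (nat_lit 0) (nat_lit 0) (nat_lit 1) (nat_lit 0) (nat_lit 1) (nat_lit 0) (nat_lit 259) (nat_lit 295) (nat_lit 166)) (XT.lf (nat_lit 0) (nat_lit 15742539500) (nat_lit 0) (nat_lit 0) (nat_lit 0) (nat_lit 0) (nat_lit 0) (nat_lit 0) (nat_lit 1) (nat_lit 0) (nat_lit 1) (nat_lit 0) (nat_lit 260) (nat_lit 295) (nat_lit 165)))))) (XT.nd (nat_lit 658) (nat_lit 0) (nat_lit 0) (XT.nd (nat_lit 282) (nat_lit 0) (nat_lit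 0) (XT.nd (nat_lit 94) (nat_lit 0) (nat_lit 0) (XT.lf (nat_lit 0) (nat_lit 15741222811) (nat_lit 0) (nat_lit 0) (nat_lit 0) (nat_lit 0) (nat_lit 0) (nat_lit 0) (nat_lit 1) (nat_lit 0) (nat_lit 1) (nat_lit 0) (nat_lit 261) (nat_lit 295) (nat_lit 164)) (XT.nd (nat_lit 94) (nat_lit 0) (nat_lit 0) (XT.lf (nat_lit 0) (nat_lit 15739968822) (nat_lit 0) (nat_lit 0) (nat_lit 0) (nat_lit 0) (nat_lit 0) (nat_lit 0) (nat_lit 1) (nat_lit 0) (nat_lit 1) (nat_lit 0) (nat_lit 262) (nat_lit 295) (nat_lit 163)) (XT.lf (nat_lit 0) (nat_lit 15738774546) (nat_lit 0) (nat_lit 0) (nat_lit 0) (nat_lit 0) (nat_lit 0) (nat_lit 0) (nat_lit 1) (nat_lit 0) (nat_lit 1) (nat_lit 0) (nat_lit 263) (nat_lit 295) (nat_lit 162)))) (XT.nd (nat_lit 188) (nat_lit 0) (nat_lit 0) (XT.nd (nat_lit 94) (nat_lit 0) (nat_lit 0) (XT.lf (nat_lit 0) (nat_lit 15737637141) (nat_lit 0) (nat_lit 0) (nat_lit 0) (nat_lit 0)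 (nat_lit 0) (nat_lit 0) (nat_lit 1) (nat_lit 0) (nat_lit 1) (nat_lit 0) (nat_lit 264) (nat_lit 295) (nat_lit 161)) (XT.lf (nat_lit 0) (nat_lit 15736553898) (nat_lit 0) (nat_lit 0) (nat_lit 0) (nat_lit 0) (nat_lit 0) (nat_lit 0) (nat_lit 1) (nat_lit 0) (nat_lit 1) (nat_lit 0) (nat_lit 265) (nat_lit 295) (nat_lit 160))) (XT.nd (nat_lit 94) (nat_lit 0) (nat_lit 0) (XT.lf (nat_lit 0) (nat_lit 15735522238) (nat_lit 0) (nat_lit 0) (nat_lit 0) (nat_lit 0) (nat_lit 0) (nat_lit 0) (nat_lit 1) (nat_lit 0) (nat_lit 1) (nat_lit 0) (nat_lit 266) (nat_lit 295) (nat_lit 159)) (XT.lf (nat_lit 0) (nat_lit 15734539704) (nat_lit 0) (nat_lit 0) (nat_lit 0) (nat_lit 0) (nat_lit 0) (nat_lit 0) (nat_lit 1) (nat_lit 0) (nat_lit 1) (nat_lit 0) (nat_lit 267) (nat_lit 295) (nat_lit 158))))) (XT.nd (nat_lit 282) (nat_lit 0) (nat_lit 0) (XT.nd (nat_lit 94) (nat_lit 0) (nat_lit 0) (XT.lf (nat_lit 0)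 (nat_lit 15733603958) (nat_lit 0) (nat_lit 0) (nat_lit 0) (nat_lit 0) (nat_lit 0) (nat_lit 0) (nat_lit 1) (nat_lit 0) (nat_lit 1) (nat_lit 0) (nat_lit 268) (nat_lit 295) (nat_lit 157)) (XT.nd (nat_lit 94) (nat_lit 0) (nat_lit 0) (XT.lf (nat_lit 0) (nat_lit 15732712771) (nat_lit 0) (nat_lit 0) (nat_lit 0) (nat_lit 0) (nat_lit 0) (nat_lit 0) (nat_lit 1) (nat_lit 0) (nat_lit 1) (nat_lit 0) (nat_lit 269) (nat_lit 295) (nat_lit 156)) (XT.lf (nat_lit 0) (nat_lit 15731864022) (nat_lit 0) (nat_lit 0) (nat_lit 0) (nat_lit 0) (nat_lit 0) (nat_lit 0) (nat_lit 1) (nat_lit 0) (nat_lit 1) (nat_lit 0) (nat_lit 270) (nat_lit 295) (nat_lit 155)))) (XT.nd (nat_lit 188) (nat_lit 0) (nat_lit 0) (XT.nd (nat_lit 94) (nat_lit 0) (nat_lit 0) (XT.lf (nat_lit 0) (nat_lit 15731055689) (nat_lit 0) (nat_lit 0) (nat_lit 0) (nat_lit 0) (nat_lit 0) (nat_lit 0) (nat_lit 1) (nat_lit 0) (nat_lit 1) (nat_lit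 0) (nat_lit 271) (nat_lit 295) (nat_lit 154)) (XT.lf (nat_lit 0) (nat_lit 15730285848) (nat_lit 0) (nat_lit 0) (nat_lit 0) (nat_lit 0) (nat_lit 0) (nat_lit 0) (nat_lit 1) (nat_lit 0) (nat_lit 1) (nat_lit 0) (nat_lit 272) (nat_lit 295) (nat_lit 153))) (XT.nd (nat_lit 94) (nat_lit 0) (nat_lit 0) (XT.lf (nat_lit 0) (nat_lit 15729552667) (nat_lit 0) (nat_lit 0) (nat_lit 0) (nat_lit 0) (nat_lit 0) (nat_lit 0) (nat_lit 1) (nat_lit 0) (nat_lit 1) (nat_lit 0) (nat_lit 273) (nat_lit 295) (nat_lit 152)) (XT.lf (nat_lit 0) (nat_lit 15728854399) (nat_lit 0) (nat_lit 0) (nat_lit 0) (nat_lit 0) (nat_lit 0) (nat_lit 0) (nat_lit 1) (nat_lit 0) (nat_lit 1) (nat_lit 0) (nat_lit 274) (nat_lit 295) (nat_lit 151))))))) (XT.nd (nat_lit 1222) (nat_lit 0) (nat_lit 0) (XT.nd (nat_lit 564) (nat_lit 0) (nat_lit 0) (XT.nd (nat_lit 282) (nat_lit 0) (nat_lit 0) (XT.nd (nat_lit 94) (nat_lit 0) (nat_lit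 0) (XT.lf (nat_lit 0) (nat_lit 15728189381) (nat_lit 0) (nat_lit 0) (nat_lit 0) (nat_lit 0) (nat_lit 0) (nat_lit 0) (nat_lit 1) (nat_lit 0) (nat_lit 1) (nat_lit 0) (nat_lit 275) (nat_lit 295) (nat_lit 150)) (XT.nd (nat_lit 94) (nat_lit 0) (nat_lit 0) (XT.lf (nat_lit 0) (nat_lit 15727556031) (nat_lit 0) (nat_lit 0) (nat_lit 0) (nat_lit 0) (nat_lit 0) (nat_lit 0) (nat_lit 1) (nat_lit 0) (nat_lit 1) (nat_lit 0) (nat_lit 276) (nat_lit 295) (nat_lit 149)) (XT.lf (nat_lit 0) (nat_lit 15726952841) (nat_lit 0) (nat_lit 0) (nat_lit 0) (nat_lit 0) (nat_lit 0) (nat_lit 0) (nat_lit 1) (nat_lit 0) (nat_lit 1) (nat_lit 0) (nat_lit 277) (nat_lit 295) (nat_lit 148)))) (XT.nd (nat_lit 94) (nat_lit 0) (nat_lit 0) (XT.lf (nat_lit 0) (nat_lit 15726378374) (nat_lit 0) (nat_lit 0) (nat_lit 0) (nat_lit 0) (nat_lit 0) (nat_lit 0) (nat_lit 1) (nat_lit 0) (nat_lit 1) (nat_lit 0) (nat_lit 278) (nat_lit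 295) (nat_lit 147)) (XT.nd (nat_lit 94) (nat_lit 0) (nat_lit 0) (XT.lf (nat_lit 0) (nat_lit 15725831263) (nat_lit 0) (nat_lit 0) (nat_lit 0) (nat_lit 0) (nat_lit 0) (nat_lit 0) (nat_lit 1) (nat_lit 0) (nat_lit 1) (nat_lit 0) (nat_lit 279) (nat_lit 295) (nat_lit 146)) (XT.lf (nat_lit 0) (nat_lit 15725310204) (nat_lit 0) (nat_lit 0) (nat_lit 0) (nat_lit 0) (nat_lit 0) (nat_lit 0) (nat_lit 1) (nat_lit 0) (nat_lit 1) (nat_lit 0) (nat_lit 280) (nat_lit 295) (nat_lit 145))))) (XT.nd (nat_lit 282) (nat_lit 0) (nat_lit 0) (XT.nd (nat_lit 94) (nat_lit 0) (nat_lit 0) (XT.lf (nat_lit 0) (nat_lit 15724813958) (nat_lit 0) (nat_lit 0) (nat_lit 0) (nat_lit 0) (nat_lit 0) (nat_lit 0) (nat_lit 1) (nat_lit 0) (nat_lit 1) (nat_lit 0) (nat_lit 281) (nat_lit 295) (nat_lit 144)) (XT.nd (nat_lit 94) (nat_lit 0) (nat_lit 0) (XT.lf (nat_lit 0) (nat_lit 15724341343) (nat_lit 0) (nat_lit 0) (nat_lit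 0) (nat_lit 0) (nat_lit 0) (nat_lit 0) (nat_lit 1) (nat_lit 0) (nat_lit 1) (nat_lit 0) (nat_lit 282) (nat_lit 295) (nat_lit 143)) (XT.lf (nat_lit 0) (nat_lit 15723891233) (nat_lit 0) (nat_lit 0) (nat_lit 0) (nat_lit 0) (nat_lit 0) (nat_lit 0) (nat_lit 1) (nat_lit 0) (nat_lit 1) (nat_lit 0) (nat_lit 283) (nat_lit 295) (nat_lit 142)))) (XT.nd (nat_lit 188) (nat_lit 0) (nat_lit 0) (XT.nd (nat_lit 94) (nat_lit 0) (nat_lit 0) (XT.lf (nat_lit 0) (nat_lit 15723462557) (nat_lit 0) (nat_lit 0) (nat_lit 0) (nat_lit 0) (nat_lit 0) (nat_lit 0) (nat_lit 1) (nat_lit 0) (nat_lit 1) (nat_lit 0) (nat_lit 284) (nat_lit 295) (nat_lit 141)) (XT.lf (nat_lit 0) (nat_lit 15723054294) (nat_lit 0) (nat_lit 0) (nat_lit 0) (nat_lit 0) (nat_lit 0) (nat_lit 0) (nat_lit 1) (nat_lit 0) (nat_lit 1) (nat_lit 0) (nat_lit 285) (nat_lit 295) (nat_lit 140))) (XT.nd (nat_lit 94) (nat_lit 0) (nat_lit 0) (XT.lf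 (nat_lit 0) (nat_lit 15722665472) (nat_lit 0) (nat_lit 0) (nat_lit 0) (nat_lit 0) (nat_lit 0) (nat_lit 0) (nat_lit 1) (nat_lit 0) (nat_lit 1) (nat_lit 0) (nat_lit 286) (nat_lit 295) (nat_lit 139)) (XT.lf (nat_lit 0) (nat_lit 15722295165) (nat_lit 0) (nat_lit 0) (nat_lit 0) (nat_lit 0) (nat_lit 0) (nat_lit 0) (nat_lit 1) (nat_lit 0) (nat_lit 1) (nat_lit 0) (nat_lit 287) (nat_lit 295) (nat_lit 138)))))) (XT.nd (nat_lit 658) (nat_lit 0) (nat_lit 0) (XT.nd (nat_lit 282) (nat_lit 0) (nat_lit 0) (XT.nd (nat_lit 94) (nat_lit 0) (nat_lit 0) (XT.lf (nat_lit 0) (nat_lit 15721942493) (nat_lit 0) (nat_lit 0) (nat_lit 0) (nat_lit 0) (nat_lit 0) (nat_lit 0) (nat_lit 1) (nat_lit 0) (nat_lit 1) (nat_lit 0) (nat_lit 288) (nat_lit 295) (nat_lit 137)) (XT.nd (nat_lit 94) (nat_lit 0) (nat_lit 0) (XT.lf (nat_lit 0) (nat_lit 15721606614) (nat_lit 0) (nat_lit 0) (nat_lit 0) (nat_lit 0) (nat_lit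 0) (nat_lit 0) (nat_lit 1) (nat_lit 0) (nat_lit 1) (nat_lit 0) (nat_lit 289) (nat_lit 295) (nat_lit 136)) (XT.lf (nat_lit 0) (nat_lit 15721286729) (nat_lit 0) (nat_lit 0) (nat_lit 0) (nat_lit 0) (nat_lit 0) (nat_lit 0) (nat_lit 1) (nat_lit 0) (nat_lit 1) (nat_lit 0) (nat_lit 290) (nat_lit 295) (nat_lit 135)))) (XT.nd (nat_lit 188) (nat_lit 0) (nat_lit 0) (XT.nd (nat_lit 94) (nat_lit 0) (nat_lit 0) (XT.lf (nat_lit 0) (nat_lit 15720982077) (nat_lit 0) (nat_lit 0) (nat_lit 0) (nat_lit 0) (nat_lit 0) (nat_lit 0) (nat_lit 1) (nat_lit 0) (nat_lit 1) (nat_lit 0) (nat_lit 291) (nat_lit 295) (nat_lit 134)) (XT.lf (nat_lit 0) (nat_lit 15720691932) (nat_lit 0) (nat_lit 0) (nat_lit 0) (nat_lit 0) (nat_lit 0) (nat_lit 0) (nat_lit 1) (nat_lit 0) (nat_lit 1) (nat_lit 0) (nat_lit 292) (nat_lit 295) (nat_lit 133))) (XT.nd (nat_lit 94) (nat_lit 0) (nat_lit 0) (XT.lf (nat_lit 0) (nat_lit 15720415604)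 (nat_lit 0) (nat_lit 0) (nat_lit 0) (nat_lit 0) (nat_lit 0) (nat_lit 0) (nat_lit 1) (nat_lit 0) (nat_lit 1) (nat_lit 0) (nat_lit 293) (nat_lit 295) (nat_lit 132)) (XT.lf (nat_lit 0) (nat_lit 15720152434) (nat_lit 0) (nat_lit 0) (nat_lit 0) (nat_lit 0) (nat_lit 0) (nat_lit 0) (nat_lit 1) (nat_lit 0) (nat_lit 1) (nat_lit 0) (nat_lit 294) (nat_lit 295) (nat_lit 131))))) (XT.nd (nat_lit 282) (nat_lit 0) (nat_lit 0) (XT.nd (nat_lit 94) (nat_lit 0) (nat_lit 0) (XT.lf (nat_lit 0) (nat_lit 15719901796) (nat_lit 0) (nat_lit 0) (nat_lit 0) (nat_lit 0) (nat_lit 0) (nat_lit 0) (nat_lit 1) (nat_lit 0) (nat_lit 1) (nat_lit 0) (nat_lit 295) (nat_lit 295) (nat_lit 130)) (XT.nd (nat_lit 94) (nat_lit 0) (nat_lit 0) (XT.lf (nat_lit 0) (nat_lit 15719663093) (nat_lit 0) (nat_lit 0) (nat_lit 0) (nat_lit 0) (nat_lit 0) (nat_lit 0) (nat_lit 1) (nat_lit 0) (nat_lit 1) (nat_lit 0) (nat_lit 296) (nat_lit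 295) (nat_lit 129)) (XT.lf (nat_lit 0) (nat_lit 15719435757) (nat_lit 0) (nat_lit 0) (nat_lit 0) (nat_lit 0) (nat_lit 0) (nat_lit 0) (nat_lit 1) (nat_lit 0) (nat_lit 1) (nat_lit 0) (nat_lit 297) (nat_lit 295) (nat_lit 128)))) (XT.nd (nat_lit 188) (nat_lit 0) (nat_lit 0) (XT.nd (nat_lit 94) (nat_lit 0) (nat_lit 0) (XT.lf (nat_lit 0) (nat_lit 15719219246) (nat_lit 0) (nat_lit 0) (nat_lit 0) (nat_lit 0) (nat_lit 0) (nat_lit 0) (nat_lit 1) (nat_lit 0) (nat_lit 1) (nat_lit 0) (nat_lit 298) (nat_lit 295) (nat_lit 127)) (XT.lf (nat_lit 0) (nat_lit 15719013046) (nat_lit 0) (nat_lit 0) (nat_lit 0) (nat_lit 0) (nat_lit 0) (nat_lit 0) (nat_lit 1) (nat_lit 0) (nat_lit 1) (nat_lit 0) (nat_lit 299) (nat_lit 295) (nat_lit 126))) (XT.nd (nat_lit 94) (nat_lit 0) (nat_lit 0) (XT.lf (nat_lit 0) (nat_lit 15718816664) (nat_lit 0) (nat_lit 0) (nat_lit 0) (nat_lit 0) (nat_lit 0) (nat_lit 0) (nat_lit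 1) (nat_lit 0) (nat_lit 1) (nat_lit 0) (nat_lit 300) (nat_lit 295) (nat_lit 125)) (XT.lf (nat_lit 0) (nat_lit 15718629634) (nat_lit 0) (nat_lit 0) (nat_lit 0) (nat_lit 0) (nat_lit 0) (nat_lit 0) (nat_lit 1) (nat_lit 0) (nat_lit 1) (nat_lit 0) (nat_lit 301) (nat_lit 295) (nat_lit 124))))))))
noncomputable def ec165 : XT := (XT.nd (nat_lit 30456) (nat_lit 0) (nat_lit 4200) (XT.nd (nat_lit 29140) (nat_lit 0) (nat_lit 8904) (XT.nd (nat_lit 564) (nat_lit 0) (nat_lit 0) (XT.nd (nat_lit 282) (nat_lit 0) (nat_lit 0) (XT.nd (nat_lit 94) (nat_lit 0) (nat_lit 0) (XT.lf (nat_lit 0) (nat_lit 15718451510) (nat_lit 0) (nat_lit 0) (nat_lit 0) (nat_lit 0) (nat_lit 0) (nat_lit 0) (nat_lit 1) (nat_lit 0) (nat_lit 1) (nat_lit 0) (nat_lit 302) (nat_lit 295) (nat_lit 123)) (XT.nd (nat_lit 94) (nat_lit 0) (nat_lit 0) (XT.lf (nat_lit 0) (nat_lit 15718281869) (nat_lit 0) (nat_lit 0) (nat_lit 0)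 (nat_lit 0) (nat_lit 0) (nat_lit 0) (nat_lit 1) (nat_lit 0) (nat_lit 1) (nat_lit 0) (nat_lit 303) (nat_lit 295) (nat_lit 122)) (XT.lf (nat_lit 0) (nat_lit 15718120305) (nat_lit 0) (nat_lit 0) (nat_lit 0) (nat_lit 0) (nat_lit 0) (nat_lit 0) (nat_lit 1) (nat_lit 0) (nat_lit 1) (nat_lit 0) (nat_lit 304) (nat_lit 295) (nat_lit 121)))) (XT.nd (nat_lit 94) (nat_lit 0) (nat_lit 0) (XT.lf (nat_lit 0) (nat_lit 15717966435) (nat_lit 0) (nat_lit 0) (nat_lit 0) (nat_lit 0) (nat_lit 0) (nat_lit 0) (nat_lit 1) (nat_lit 0) (nat_lit 1) (nat_lit 0) (nat_lit 305) (nat_lit 295) (nat_lit 120)) (XT.nd (nat_lit 94) (nat_lit 0) (nat_lit 0) (XT.lf (nat_lit 0) (nat_lit 15717819892) (nat_lit 0) (nat_lit 0) (nat_lit 0) (nat_lit 0) (nat_lit 0) (nat_lit 0) (nat_lit 1) (nat_lit 0) (nat_lit 1) (nat_lit 0) (nat_lit 306) (nat_lit 295) (nat_lit 119)) (XT.lf (nat_lit 0) (nat_lit 15717680328) (nat_lit 0) (nat_lit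 0) (nat_lit 0) (nat_lit 0) (nat_lit 0) (nat_lit 0) (nat_lit 1) (nat_lit 0) (nat_lit 1) (nat_lit 0) (nat_lit 307) (nat_lit 295) (nat_lit 118))))) (XT.nd (nat_lit 282) (nat_lit 0) (nat_lit 0) (XT.nd (nat_lit 94) (nat_lit 0) (nat_lit 0) (XT.lf (nat_lit 0) (nat_lit 15717547409) (nat_lit 0) (nat_lit 0) (nat_lit 0) (nat_lit 0) (nat_lit 0) (nat_lit 0) (nat_lit 1) (nat_lit 0) (nat_lit 1) (nat_lit 0) (nat_lit 308) (nat_lit 295) (nat_lit 117)) (XT.nd (nat_lit 94) (nat_lit 0) (nat_lit 0) (XT.lf (nat_lit 0) (nat_lit 15717420820) (nat_lit 0) (nat_lit 0) (nat_lit 0) (nat_lit 0) (nat_lit 0) (nat_lit 0) (nat_lit 1) (nat_lit 0) (nat_lit 1) (nat_lit 0) (nat_lit 309) (nat_lit 295) (nat_lit 116)) (XT.lf (nat_lit 0) (nat_lit 15717300258) (nat_lit 0) (nat_lit 0) (nat_lit 0) (nat_lit 0) (nat_lit 0) (nat_lit 0) (nat_lit 1) (nat_lit 0) (nat_lit 1) (nat_lit 0) (nat_lit 310) (nat_lit 295) (nat_lit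 115)))) (XT.nd (nat_lit 28106) (nat_lit 0) (nat_lit 10752) (XT.nd (nat_lit 28012) (nat_lit 0) (nat_lit 10752) (XT.lf (nat_lit 0) (nat_lit 15717185438) (nat_lit 0) (nat_lit 0) (nat_lit 0) (nat_lit 0) (nat_lit 0) (nat_lit 0) (nat_lit 1) (nat_lit 0) (nat_lit 1) (nat_lit 0) (nat_lit 311) (nat_lit 295) (nat_lit 114)) (XT.lf (nat_lit 924) (nat_lit 8257535071) (nat_lit 0) (nat_lit 14661234538) (nat_lit 924) (nat_lit 8257535071) (nat_lit 139) (nat_lit 1) (nat_lit 128) (nat_lit 0) (nat_lit 139) (nat_lit 0) (nat_lit 128) (nat_lit 296) (nat_lit 296))) (XT.nd (nat_lit 94) (nat_lit 0) (nat_lit 84) (XT.lf (nat_lit 924) (nat_lit 32007236848) (nat_lit 84) (nat_lit 14424763013) (nat_lit 0) (nat_lit 14424763013) (nat_lit 139) (nat_lit 1) (nat_lit 129) (nat_lit 1) (nat_lit 128) (nat_lit 0) (nat_lit 129) (nat_lit 296) (nat_lit 295)) (XT.lf (nat_lit 924) (nat_lit 15254167149) (nat_lit 0) (nat_lit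 28898826741) (nat_lit 840) (nat_lit 15254167149) (nat_lit 140) (nat_lit 1) (nat_lit 129) (nat_lit 1) (nat_lit 139) (nat_lit 1) (nat_lit 130) (nat_lit 296) (nat_lit 294)))))) (XT.nd (nat_lit 658) (nat_lit 1932) (nat_lit 0) (XT.nd (nat_lit 282) (nat_lit 0) (nat_lit 168) (XT.nd (nat_lit 94) (nat_lit 0) (nat_lit 84) (XT.lf (nat_lit 924) (nat_lit 28614697951) (nat_lit 84) (nat_lit 14694847096) (nat_lit 0) (nat_lit 14694847096) (nat_lit 140) (nat_lit 1) (nat_lit 130) (nat_lit 1) (nat_lit 129) (nat_lit 1) (nat_lit 131) (nat_lit 296) (nat_lit 293)) (XT.nd (nat_lit 94) (nat_lit 0) (nat_lit 0) (XT.lf (nat_lit 924) (nat_lit 13171070677) (nat_lit 0) (nat_lit 30303942632) (nat_lit 840) (nat_lit 13171070677) (nat_lit 141) (nat_lit 1) (nat_lit 130) (nat_lit 1) (nat_lit 140) (nat_lit 1) (nat_lit 132) (nat_lit 296) (nat_lit 292)) (XT.lf (nat_lit 924) (nat_lit 23689028471) (nat_lit 84) (nat_lit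 15820076890) (nat_lit 0) (nat_lit 15820076890) (nat_lit 141) (nat_lit 1) (nat_lit 131) (nat_lit 1) (nat_lit 130) (nat_lit 1) (nat_lit 133) (nat_lit 296) (nat_lit 291)))) (XT.nd (nat_lit 188) (nat_lit 0) (nat_lit 84) (XT.nd (nat_lit 94) (nat_lit 0) (nat_lit 0) (XT.lf (nat_lit 924) (nat_lit 10386954783) (nat_lit 0) (nat_lit 33282587951) (nat_lit 840) (nat_lit 10386954783) (nat_lit 142) (nat_lit 1) (nat_lit 131) (nat_lit 1) (nat_lit 141) (nat_lit 1) (nat_lit 134) (nat_lit 296) (nat_lit 290)) (XT.lf (nat_lit 924) (nat_lit 17460789915) (nat_lit 84) (nat_lit 17679032120) (nat_lit 0) (nat_lit 17679032120) (nat_lit 142) (nat_lit 1) (nat_lit 132) (nat_lit 1) (nat_lit 131) (nat_lit 1) (nat_lit 135) (nat_lit 296) (nat_lit 289))) (XT.nd (nat_lit 94) (nat_lit 0) (nat_lit 0) (XT.lf (nat_lit 924) (nat_lit 7009597703) (nat_lit 0) (nat_lit 37607320192) (nat_lit 840) (nat_lit 7009597703)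 (nat_lit 143) (nat_lit 1) (nat_lit 132) (nat_lit 1) (nat_lit 142) (nat_lit 1) (nat_lit 136) (nat_lit 296) (nat_lit 288)) (XT.lf (nat_lit 924) (nat_lit 10134916671) (nat_lit 84) (nat_lit 20163577063) (nat_lit 0) (nat_lit 20163577063) (nat_lit 143) (nat_lit 1) (nat_lit 133) (nat_lit 1) (nat_lit 132) (nat_lit 1) (nat_lit 137) (nat_lit 296) (nat_lit 287))))) (XT.nd (nat_lit 282) (nat_lit 840) (nat_lit 0) (XT.nd (nat_lit 94) (nat_lit 1428) (nat_lit 0) (XT.lf (nat_lit 84) (nat_lit 3134728707) (nat_lit 0) (nat_lit 43075706611) (nat_lit 840) (nat_lit 3134728707) (nat_lit 134) (nat_lit 1) (nat_lit 133) (nat_lit 1) (nat_lit 143) (nat_lit 1) (nat_lit 138) (nat_lit 296) (nat_lit 286)) (XT.nd (nat_lit 94) (nat_lit 588) (nat_lit 0) (XT.lf (nat_lit 924) (nat_lit 1893298185) (nat_lit 0) (nat_lit 23177530422) (nat_lit 840) (nat_lit 23177530422) (nat_lit 134) (nat_lit 1) (nat_lit 123) (nat_lit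 1) (nat_lit 133) (nat_lit 1) (nat_lit 139) (nat_lit 296) (nat_lit 285)) (XT.lf (nat_lit 588) (nat_lit 44930350296) (nat_lit 0) (nat_lit 1134162268) (nat_lit 504) (nat_lit 1134162268) (nat_lit 123) (nat_lit 1) (nat_lit 116) (nat_lit 1) (nat_lit 122) (nat_lit 1) (nat_lit 140) (nat_lit 296) (nat_lit 284)))) (XT.nd (nat_lit 188) (nat_lit 420) (nat_lit 0) (XT.nd (nat_lit 94) (nat_lit 420) (nat_lit 0) (XT.lf (nat_lit 84) (nat_lit 19643470951) (nat_lit 0) (nat_lit 6875551656) (nat_lit 588) (nat_lit 19643470951) (nat_lit 117) (nat_lit 1) (nat_lit 116) (nat_lit 1) (nat_lit 123) (nat_lit 1) (nat_lit 141) (nat_lit 296) (nat_lit 283)) (XT.lf (nat_lit 504) (nat_lit 33801371246) (nat_lit 0) (nat_lit 5684501120) (nat_lit 420) (nat_lit 5684501120) (nat_lit 117) (nat_lit 1) (nat_lit 111) (nat_lit 1) (nat_lit 116) (nat_lit 1) (nat_lit 142) (nat_lit 296) (nat_lit 282))) (XT.nd (nat_lit 94)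 (nat_lit 420) (nat_lit 0) (XT.lf (nat_lit 84) (nat_lit 14011448700) (nat_lit 0) (nat_lit 16176213122) (nat_lit 504) (nat_lit 14011448700) (nat_lit 112) (nat_lit 1) (nat_lit 111) (nat_lit 1) (nat_lit 117) (nat_lit 1) (nat_lit 143) (nat_lit 296) (nat_lit 281)) (XT.lf (nat_lit 504) (nat_lit 22258682313) (nat_lit 0) (nat_lit 10501495867) (nat_lit 420) (nat_lit 10501495867) (nat_lit 112) (nat_lit 1) (nat_lit 106) (nat_lit 1) (nat_lit 111) (nat_lit 1) (nat_lit 144) (nat_lit 296) (nat_lit 280))))))) (XT.nd (nat_lit 1316) (nat_lit 2100) (nat_lit 0) (XT.nd (nat_lit 658) (nat_lit 1176) (nat_lit 0) (XT.nd (nat_lit 282) (nat_lit 1092) (nat_lit 0) (XT.nd (nat_lit 94) (nat_lit 336) (nat_lit 0) (XT.lf (nat_lit 84) (nat_lit 8202028613) (nat_lit 0) (nat_lit 25947444159) (nat_lit 504) (nat_lit 8202028613) (nat_lit 107) (nat_lit 1) (nat_lit 106) (nat_lit 1) (nat_lit 112) (nat_lit 1) (nat_lit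 145) (nat_lit 296) (nat_lit 279)) (XT.nd (nat_lit 94) (nat_lit 0) (nat_lit 0) (XT.lf (nat_lit 420) (nat_lit 10409716647) (nat_lit 0) (nat_lit 15527512359) (nat_lit 336) (nat_lit 15527512359) (nat_lit 107) (nat_lit 1) (nat_lit 102) (nat_lit 1) (nat_lit 106) (nat_lit 1) (nat_lit 146) (nat_lit 296) (nat_lit 278)) (XT.lf (nat_lit 84) (nat_lit 2265084882) (nat_lit 0) (nat_lit 36081912006) (nat_lit 420) (nat_lit 2265084882) (nat_lit 103) (nat_lit 1) (nat_lit 102) (nat_lit 1) (nat_lit 107) (nat_lit 1) (nat_lit 147) (nat_lit 296) (nat_lit 277)))) (XT.nd (nat_lit 188) (nat_lit 336) (nat_lit 0) (XT.nd (nat_lit 94) (nat_lit 336) (nat_lit 0) (XT.lf (nat_lit 84) (nat_lit 19086256094) (nat_lit 0) (nat_lit 1598511023) (nat_lit 420) (nat_lit 19086256094) (nat_lit 98) (nat_lit 1) (nat_lit 97) (nat_lit 1) (nat_lit 102) (nat_lit 1) (nat_lit 148) (nat_lit 296) (nat_lit 276)) (XT.lf (nat_lit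 420) (nat_lit 31571677514) (nat_lit 0) (nat_lit 3695158354) (nat_lit 336) (nat_lit 3695158354) (nat_lit 98) (nat_lit 1) (nat_lit 93) (nat_lit 1) (nat_lit 97) (nat_lit 1) (nat_lit 149) (nat_lit 296) (nat_lit 275))) (XT.nd (nat_lit 94) (nat_lit 336) (nat_lit 0) (XT.lf (nat_lit 84) (nat_lit 12383799908) (nat_lit 0) (nat_lit 13399244489) (nat_lit 420) (nat_lit 12383799908) (nat_lit 94) (nat_lit 1) (nat_lit 93) (nat_lit 1) (nat_lit 98) (nat_lit 1) (nat_lit 150) (nat_lit 296) (nat_lit 274)) (XT.lf (nat_lit 420) (nat_lit 18071408971) (nat_lit 0) (nat_lit 9663929210) (nat_lit 336) (nat_lit 9663929210) (nat_lit 94) (nat_lit 1) (nat_lit 89) (nat_lit 1) (nat_lit 93) (nat_lit 1) (nat_lit 151) (nat_lit 296) (nat_lit 273))))) (XT.nd (nat_lit 282) (nat_lit 504) (nat_lit 0) (XT.nd (nat_lit 94) (nat_lit 672) (nat_lit 0) (XT.lf (nat_lit 84) (nat_lit 5698915875) (nat_lit 0) (nat_lit 25256302741)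 (nat_lit 420) (nat_lit 5698915875) (nat_lit 90) (nat_lit 1) (nat_lit 89) (nat_lit 1) (nat_lit 94) (nat_lit 1) (nat_lit 152) (nat_lit 296) (nat_lit 272)) (XT.nd (nat_lit 94) (nat_lit 420) (nat_lit 0) (XT.lf (nat_lit 336) (nat_lit 4634684201) (nat_lit 0) (nat_lit 15645200914) (nat_lit 252) (nat_lit 15645200914) (nat_lit 90) (nat_lit 1) (nat_lit 86) (nat_lit 1) (nat_lit 89) (nat_lit 1) (nat_lit 153) (nat_lit 296) (nat_lit 271)) (XT.lf (nat_lit 420) (nat_lit 33372146272) (nat_lit 0) (nat_lit 926013024) (nat_lit 336) (nat_lit 926013024) (nat_lit 86) (nat_lit 1) (nat_lit 81) (nat_lit 1) (nat_lit 85) (nat_lit 1) (nat_lit 154) (nat_lit 296) (nat_lit 270)))) (XT.nd (nat_lit 188) (nat_lit 252) (nat_lit 0) (XT.nd (nat_lit 94) (nat_lit 252) (nat_lit 0) (XT.lf (nat_lit 84) (nat_lit 13058767552) (nat_lit 0) (nat_lit 8409602981) (nat_lit 420) (nat_lit 13058767552) (nat_lit 82) (nat_lit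 1) (nat_lit 81) (nat_lit 1) (nat_lit 86) (nat_lit 1) (nat_lit 155) (nat_lit 296) (nat_lit 269)) (XT.lf (nat_lit 336) (nat_lit 19072742854) (nat_lit 0) (nat_lit 7392047056) (nat_lit 252) (nat_lit 7392047056) (nat_lit 82) (nat_lit 1) (nat_lit 78) (nat_lit 1) (nat_lit 81) (nat_lit 1) (nat_lit 156) (nat_lit 296) (nat_lit 268))) (XT.nd (nat_lit 94) (nat_lit 252) (nat_lit 0) (XT.lf (nat_lit 84) (nat_lit 6025374492) (nat_lit 0) (nat_lit 21152817017) (nat_lit 336) (nat_lit 6025374492) (nat_lit 79) (nat_lit 1) (nat_lit 78) (nat_lit 1) (nat_lit 82) (nat_lit 1) (nat_lit 157) (nat_lit 296) (nat_lit 267)) (XT.lf (nat_lit 336) (nat_lit 5021961309) (nat_lit 0) (nat_lit 13771597732) (nat_lit 252) (nat_lit 13771597732) (nat_lit 79) (nat_lit 1) (nat_lit 75) (nat_lit 1) (nat_lit 78) (nat_lit 1) (nat_lit 158) (nat_lit 296) (nat_lit 266)))))) (XT.nd (nat_lit 658) (nat_lit 1008) (nat_lit 0) (XT.nd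 (nat_lit 282) (nat_lit 504) (nat_lit 0) (XT.nd (nat_lit 94) (nat_lit 252) (nat_lit 0) (XT.lf (nat_lit 336) (nat_lit 30224313406) (nat_lit 0) (nat_lit 863075927) (nat_lit 252) (nat_lit 863075927) (nat_lit 75) (nat_lit 1) (nat_lit 71) (nat_lit 1) (nat_lit 74) (nat_lit 1) (nat_lit 159) (nat_lit 296) (nat_lit 265)) (XT.nd (nat_lit 94) (nat_lit 252) (nat_lit 0) (XT.lf (nat_lit 84) (nat_lit 11432992191) (nat_lit 0) (nat_lit 8471732414) (nat_lit 336) (nat_lit 11432992191) (nat_lit 72) (nat_lit 1) (nat_lit 71) (nat_lit 1) (nat_lit 75) (nat_lit 1) (nat_lit 160) (nat_lit 296) (nat_lit 264)) (XT.lf (nat_lit 336) (nat_lit 15721411135) (nat_lit 0) (nat_lit 7513114495) (nat_lit 252) (nat_lit 7513114495) (nat_lit 72) (nat_lit 1) (nat_lit 68) (nat_lit 1) (nat_lit 71) (nat_lit 1) (nat_lit 161) (nat_lit 296) (nat_lit 263)))) (XT.nd (nat_lit 188) (nat_lit 336) (nat_lit 0) (XT.nd (nat_lit 94)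 (nat_lit 168) (nat_lit 0) (XT.lf (nat_lit 84) (nat_lit 4329663804) (nat_lit 0) (nat_lit 21514061968) (nat_lit 336) (nat_lit 4329663804) (nat_lit 69) (nat_lit 1) (nat_lit 68) (nat_lit 1) (nat_lit 72) (nat_lit 1) (nat_lit 162) (nat_lit 296) (nat_lit 262)) (XT.lf (nat_lit 252) (nat_lit 1586532776) (nat_lit 0) (nat_lit 14011713830) (nat_lit 168) (nat_lit 14011713830) (nat_lit 69) (nat_lit 1) (nat_lit 66) (nat_lit 1) (nat_lit 68) (nat_lit 1) (nat_lit 163) (nat_lit 296) (nat_lit 261))) (XT.nd (nat_lit 94) (nat_lit 0) (nat_lit 0) (XT.lf (nat_lit 336) (nat_lit 23971978265) (nat_lit 0) (nat_lit 2545997848) (nat_lit 252) (nat_lit 2545997848) (nat_lit 66) (nat_lit 1) (nat_lit 62) (nat_lit 1) (nat_lit 65) (nat_lit 1) (nat_lit 164) (nat_lit 296) (nat_lit 260)) (XT.lf (nat_lit 84) (nat_lit 8372842982) (nat_lit 0) (nat_lit 11778407857) (nat_lit 336) (nat_lit 8372842982) (nat_lit 63) (nat_lit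 1) (nat_lit 62) (nat_lit 1) (nat_lit 66) (nat_lit 1) (nat_lit 165) (nat_lit 296) (nat_lit 259))))) (XT.nd (nat_lit 282) (nat_lit 588) (nat_lit 0) (XT.nd (nat_lit 94) (nat_lit 252) (nat_lit 0) (XT.lf (nat_lit 252) (nat_lit 9673528499) (nat_lit 0) (nat_lit 9163673680) (nat_lit 168) (nat_lit 9163673680) (nat_lit 63) (nat_lit 1) (nat_lit 60) (nat_lit 1) (nat_lit 62) (nat_lit 1) (nat_lit 166) (nat_lit 296) (nat_lit 258)) (XT.nd (nat_lit 94) (nat_lit 252) (nat_lit 0) (XT.lf (nat_lit 84) (nat_lit 1389779001) (nat_lit 0) (nat_lit 24715463493) (nat_lit 252) (nat_lit 1389779001) (nat_lit 61) (nat_lit 1) (nat_lit 60) (nat_lit 1) (nat_lit 63) (nat_lit 1) (nat_lit 167) (nat_lit 296) (nat_lit 257)) (XT.lf (nat_lit 84) (nat_lit 11470089932) (nat_lit 0) (nat_lit 4050826086) (nat_lit 252) (nat_lit 11470089932) (nat_lit 58) (nat_lit 1) (nat_lit 57) (nat_lit 1) (nat_lit 60) (nat_lit 1) (nat_lit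 168) (nat_lit 296) (nat_lit 256)))) (XT.nd (nat_lit 188) (nat_lit 420) (nat_lit 0) (XT.nd (nat_lit 94) (nat_lit 0) (nat_lit 0) (XT.lf (nat_lit 252) (nat_lit 15928230177) (nat_lit 0) (nat_lit 5287740859) (nat_lit 168) (nat_lit 5287740859) (nat_lit 58) (nat_lit 1) (nat_lit 55) (nat_lit 1) (nat_lit 57) (nat_lit 1) (nat_lit 169) (nat_lit 296) (nat_lit 255)) (XT.lf (nat_lit 84) (nat_lit 4494532164) (nat_lit 0) (nat_lit 17038123775) (nat_lit 252) (nat_lit 4494532164) (nat_lit 56) (nat_lit 1) (nat_lit 55) (nat_lit 1) (nat_lit 58) (nat_lit 1) (nat_lit 170) (nat_lit 296) (nat_lit 254))) (XT.nd (nat_lit 94) (nat_lit 252) (nat_lit 0) (XT.lf (nat_lit 252) (nat_lit 2105526500) (nat_lit 0) (nat_lit 11727371651) (nat_lit 168) (nat_lit 11727371651) (nat_lit 56) (nat_lit 1) (nat_lit 53) (nat_lit 1) (nat_lit 55) (nat_lit 1) (nat_lit 171) (nat_lit 296) (nat_lit 253)) (XT.lf (nat_lit 252) (nat_lit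 20694474710) (nat_lit 0) (nat_lit 2206203056) (nat_lit 168) (nat_lit 2206203056) (nat_lit 53) (nat_lit 1) (nat_lit 50) (nat_lit 1) (nat_lit 52) (nat_lit 1) (nat_lit 172) (nat_lit 296) (nat_lit 252))))))))
noncomputable def ec166 : XT := (XT.nd (nat_lit 2538) (nat_lit 1596) (nat_lit 0) (XT.nd (nat_lit 1222) (nat_lit 1344) (nat_lit 0) (XT.nd (nat_lit 564) (nat_lit 756) (nat_lit 0) (XT.nd (nat_lit 282) (nat_lit 336) (nat_lit 0) (XT.nd (nat_lit 94) (nat_lit 168) (nat_lit 0) (XT.lf (nat_lit 84) (nat_lit 6889241344) (nat_lit 0) (nat_lit 10878878779) (nat_lit 252) (nat_lit 6889241344) (nat_lit 51) (nat_lit 1) (nat_lit 50) (nat_lit 1) (nat_lit 53) (nat_lit 1) (nat_lit 173) (nat_lit 296) (nat_lit 251)) (XT.nd (nat_lit 94) (nat_lit 0) (nat_lit 0) (XT.lf (nat_lit 252) (nat_lit 7016357832) (nat_lit 0) (nat_lit 8602267225) (nat_lit 168) (nat_lit 8602267225) (nat_lit 51) (nat_lit 1) (nat_lit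 48) (nat_lit 1) (nat_lit 50) (nat_lit 1) (nat_lit 174) (nat_lit 296) (nat_lit 250)) (XT.lf (nat_lit 84) (nat_lit 230608331) (nat_lit 0) (nat_lit 23338513430) (nat_lit 252) (nat_lit 230608331) (nat_lit 49) (nat_lit 1) (nat_lit 48) (nat_lit 1) (nat_lit 51) (nat_lit 1) (nat_lit 175) (nat_lit 296) (nat_lit 249)))) (XT.nd (nat_lit 94) (nat_lit 168) (nat_lit 0) (XT.lf (nat_lit 84) (nat_lit 8707394579) (nat_lit 0) (nat_lit 5961101622) (nat_lit 168) (nat_lit 8707394579) (nat_lit 47) (nat_lit 1) (nat_lit 46) (nat_lit 1) (nat_lit 48) (nat_lit 1) (nat_lit 176) (nat_lit 296) (nat_lit 248)) (XT.nd (nat_lit 94) (nat_lit 0) (nat_lit 0) (XT.lf (nat_lit 252) (nat_lit 10804885400) (nat_lit 0) (nat_lit 6081039434) (nat_lit 168) (nat_lit 6081039434) (nat_lit 47) (nat_lit 1) (nat_lit 44) (nat_lit 1) (nat_lit 46) (nat_lit 1) (nat_lit 177) (nat_lit 296) (nat_lit 247)) (XT.lf (nat_lit 84) (nat_lit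 2166304847) (nat_lit 0) (nat_lit 18236466024) (nat_lit 252) (nat_lit 2166304847) (nat_lit 45) (nat_lit 1) (nat_lit 44) (nat_lit 1) (nat_lit 47) (nat_lit 1) (nat_lit 178) (nat_lit 296) (nat_lit 246))))) (XT.nd (nat_lit 282) (nat_lit 420) (nat_lit 0) (XT.nd (nat_lit 94) (nat_lit 168) (nat_lit 0) (XT.lf (nat_lit 84) (nat_lit 10058450950) (nat_lit 0) (nat_lit 2057566512) (nat_lit 168) (nat_lit 10058450950) (nat_lit 43) (nat_lit 1) (nat_lit 42) (nat_lit 1) (nat_lit 44) (nat_lit 1) (nat_lit 179) (nat_lit 296) (nat_lit 245)) (XT.nd (nat_lit 94) (nat_lit 0) (nat_lit 0) (XT.lf (nat_lit 252) (nat_lit 13682073051) (nat_lit 0) (nat_lit 4054250857) (nat_lit 168) (nat_lit 4054250857) (nat_lit 43) (nat_lit 1) (nat_lit 40) (nat_lit 1) (nat_lit 42) (nat_lit 1) (nat_lit 180) (nat_lit 296) (nat_lit 244)) (XT.lf (nat_lit 84) (nat_lit 3664684171) (nat_lit 0) (nat_lit 14084912650) (nat_lit 252)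 (nat_lit 3664684171) (nat_lit 41) (nat_lit 1) (nat_lit 40) (nat_lit 1) (nat_lit 43) (nat_lit 1) (nat_lit 181) (nat_lit 296) (nat_lit 243)))) (XT.nd (nat_lit 188) (nat_lit 84) (nat_lit 0) (XT.nd (nat_lit 94) (nat_lit 252) (nat_lit 0) (XT.lf (nat_lit 168) (nat_lit 1051997371) (nat_lit 0) (nat_lit 9996545347) (nat_lit 84) (nat_lit 9996545347) (nat_lit 41) (nat_lit 1) (nat_lit 39) (nat_lit 1) (nat_lit 40) (nat_lit 1) (nat_lit 182) (nat_lit 296) (nat_lit 242)) (XT.lf (nat_lit 252) (nat_lit 15820910685) (nat_lit 0) (nat_lit 2431979991) (nat_lit 168) (nat_lit 2431979991) (nat_lit 39) (nat_lit 1) (nat_lit 36) (nat_lit 1) (nat_lit 38) (nat_lit 1) (nat_lit 183) (nat_lit 296) (nat_lit 241))) (XT.nd (nat_lit 94) (nat_lit 84) (nat_lit 0) (XT.lf (nat_lit 84) (nat_lit 4807763605) (nat_lit 0) (nat_lit 10713146705) (nat_lit 252) (nat_lit 4807763605) (nat_lit 37) (nat_lit 1) (nat_lit 36)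 (nat_lit 1) (nat_lit 39) (nat_lit 1) (nat_lit 184) (nat_lit 296) (nat_lit 240)) (XT.lf (nat_lit 168) (nat_lit 3532845499) (nat_lit 0) (nat_lit 8224182596) (nat_lit 84) (nat_lit 8224182596) (nat_lit 37) (nat_lit 1) (nat_lit 35) (nat_lit 1) (nat_lit 36) (nat_lit 1) (nat_lit 185) (nat_lit 296) (nat_lit 239)))))) (XT.nd (nat_lit 658) (nat_lit 672) (nat_lit 0) (XT.nd (nat_lit 282) (nat_lit 336) (nat_lit 0) (XT.nd (nat_lit 94) (nat_lit 84) (nat_lit 0) (XT.lf (nat_lit 252) (nat_lit 17363174113) (nat_lit 0) (nat_lit 1140355745) (nat_lit 168) (nat_lit 1140355745) (nat_lit 35) (nat_lit 1) (nat_lit 32) (nat_lit 1) (nat_lit 34) (nat_lit 1) (nat_lit 186) (nat_lit 296) (nat_lit 238)) (XT.nd (nat_lit 94) (nat_lit 84) (nat_lit 0) (XT.lf (nat_lit 84) (nat_lit 5662805558) (nat_lit 0) (nat_lit 7980831555) (nat_lit 252) (nat_lit 5662805558) (nat_lit 33) (nat_lit 1) (nat_lit 32) (nat_lit 1)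 (nat_lit 35) (nat_lit 1) (nat_lit 187) (nat_lit 296) (nat_lit 237)) (XT.lf (nat_lit 168) (nat_lit 5446828028) (nat_lit 0) (nat_lit 6766055375) (nat_lit 84) (nat_lit 6766055375) (nat_lit 33) (nat_lit 1) (nat_lit 31) (nat_lit 1) (nat_lit 32) (nat_lit 1) (nat_lit 188) (nat_lit 296) (nat_lit 236)))) (XT.nd (nat_lit 188) (nat_lit 84) (nat_lit 0) (XT.nd (nat_lit 94) (nat_lit 0) (nat_lit 0) (XT.lf (nat_lit 252) (nat_lit 18424985113) (nat_lit 0) (nat_lit 118706624) (nat_lit 168) (nat_lit 118706624) (nat_lit 31) (nat_lit 1) (nat_lit 28) (nat_lit 1) (nat_lit 30) (nat_lit 1) (nat_lit 189) (nat_lit 296) (nat_lit 235)) (XT.lf (nat_lit 84) (nat_lit 6284943710) (nat_lit 0) (nat_lit 5772611060) (nat_lit 252) (nat_lit 6284943710) (nat_lit 29) (nat_lit 1) (nat_lit 28) (nat_lit 1) (nat_lit 31) (nat_lit 1) (nat_lit 190) (nat_lit 296) (nat_lit 234))) (XT.nd (nat_lit 94) (nat_lit 0) (nat_lit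 0) (XT.lf (nat_lit 168) (nat_lit 6900497273) (nat_lit 0) (nat_lit 5566450501) (nat_lit 84) (nat_lit 5566450501) (nat_lit 29) (nat_lit 1) (nat_lit 27) (nat_lit 1) (nat_lit 28) (nat_lit 1) (nat_lit 191) (nat_lit 296) (nat_lit 233)) (XT.lf (nat_lit 0) (nat_lit 693977590) (nat_lit 0) (nat_lit 16345675146) (nat_lit 168) (nat_lit 693977590) (nat_lit 27) (nat_lit 3) (nat_lit 27) (nat_lit 1) (nat_lit 29) (nat_lit 1) (nat_lit 192) (nat_lit 296) (nat_lit 232))))) (XT.nd (nat_lit 282) (nat_lit 420) (nat_lit 0) (XT.nd (nat_lit 94) (nat_lit 84) (nat_lit 0) (XT.lf (nat_lit 84) (nat_lit 6719343090) (nat_lit 0) (nat_lit 3993675870) (nat_lit 168) (nat_lit 6719343090) (nat_lit 26) (nat_lit 1) (nat_lit 25) (nat_lit 1) (nat_lit 27) (nat_lit 1) (nat_lit 193) (nat_lit 296) (nat_lit 231)) (XT.nd (nat_lit 94) (nat_lit 0) (nat_lit 0) (XT.lf (nat_lit 168) (nat_lit 7981226065) (nat_lit 0) (nat_lit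 4579532603) (nat_lit 84) (nat_lit 4579532603) (nat_lit 26) (nat_lit 1) (nat_lit 24) (nat_lit 1) (nat_lit 25) (nat_lit 1) (nat_lit 194) (nat_lit 296) (nat_lit 230)) (XT.lf (nat_lit 0) (nat_lit 1326402615) (nat_lit 0) (nat_lit 14203092929) (nat_lit 168) (nat_lit 1326402615) (nat_lit 24) (nat_lit 3) (nat_lit 24) (nat_lit 1) (nat_lit 26) (nat_lit 1) (nat_lit 195) (nat_lit 296) (nat_lit 229)))) (XT.nd (nat_lit 188) (nat_lit 168) (nat_lit 0) (XT.nd (nat_lit 94) (nat_lit 84) (nat_lit 0) (XT.lf (nat_lit 84) (nat_lit 7002976709) (nat_lit 0) (nat_lit 2566116036) (nat_lit 168) (nat_lit 7002976709) (nat_lit 23) (nat_lit 1) (nat_lit 22) (nat_lit 1) (nat_lit 24) (nat_lit 1) (nat_lit 196) (nat_lit 296) (nat_lit 228)) (XT.lf (nat_lit 168) (nat_lit 8760621941) (nat_lit 0) (nat_lit 3767592806) (nat_lit 84) (nat_lit 3767592806) (nat_lit 23) (nat_lit 1) (nat_lit 21) (nat_lit 1) (nat_lit 22)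 (nat_lit 1) (nat_lit 197) (nat_lit 296) (nat_lit 227))) (XT.nd (nat_lit 94) (nat_lit 168) (nat_lit 0) (XT.lf (nat_lit 0) (nat_lit 1810725699) (nat_lit 0) (nat_lit 12404410688) (nat_lit 168) (nat_lit 1810725699) (nat_lit 21) (nat_lit 3) (nat_lit 21) (nat_lit 1) (nat_lit 23) (nat_lit 1) (nat_lit 198) (nat_lit 296) (nat_lit 226)) (XT.lf (nat_lit 84) (nat_lit 7166086765) (nat_lit 0) (nat_lit 1425920504) (nat_lit 168) (nat_lit 7166086765) (nat_lit 20) (nat_lit 1) (nat_lit 19) (nat_lit 1) (nat_lit 21) (nat_lit 1) (nat_lit 199) (nat_lit 296) (nat_lit 225))))))) (XT.nd (nat_lit 1222) (nat_lit 504) (nat_lit 0) (XT.nd (nat_lit 564) (nat_lit 672) (nat_lit 0) (XT.nd (nat_lit 282) (nat_lit 168) (nat_lit 0) (XT.nd (nat_lit 94) (nat_lit 168) (nat_lit 0) (XT.lf (nat_lit 168) (nat_lit 9297335356) (nat_lit 0) (nat_lit 3099607925) (nat_lit 84) (nat_lit 3099607925) (nat_lit 20) (nat_lit 1)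 (nat_lit 18) (nat_lit 1) (nat_lit 19) (nat_lit 1) (nat_lit 200) (nat_lit 296) (nat_lit 224)) (XT.nd (nat_lit 94) (nat_lit 168) (nat_lit 0) (XT.lf (nat_lit 0) (nat_lit 2174918024) (nat_lit 0) (nat_lit 10890368881) (nat_lit 168) (nat_lit 2174918024) (nat_lit 18) (nat_lit 3) (nat_lit 18) (nat_lit 1) (nat_lit 20) (nat_lit 1) (nat_lit 201) (nat_lit 296) (nat_lit 223)) (XT.lf (nat_lit 84) (nat_lit 7233386359) (nat_lit 0) (nat_lit 520508794) (nat_lit 168) (nat_lit 7233386359) (nat_lit 17) (nat_lit 1) (nat_lit 16) (nat_lit 1) (nat_lit 18) (nat_lit 1) (nat_lit 202) (nat_lit 296) (nat_lit 222)))) (XT.nd (nat_lit 94) (nat_lit 84) (nat_lit 0) (XT.lf (nat_lit 168) (nat_lit 9639369383) (nat_lit 0) (nat_lit 2550055111) (nat_lit 84) (nat_lit 2550055111) (nat_lit 17) (nat_lit 1) (nat_lit 15) (nat_lit 1) (nat_lit 16) (nat_lit 1) (nat_lit 203) (nat_lit 296) (nat_lit 221)) (XT.nd (nat_lit 94)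 (nat_lit 84) (nat_lit 0) (XT.lf (nat_lit 0) (nat_lit 2441909974) (nat_lit 0) (nat_lit 9612132963) (nat_lit 168) (nat_lit 2441909974) (nat_lit 15) (nat_lit 3) (nat_lit 15) (nat_lit 1) (nat_lit 17) (nat_lit 1) (nat_lit 204) (nat_lit 296) (nat_lit 220)) (XT.lf (nat_lit 84) (nat_lit 199690845) (nat_lit 0) (nat_lit 7028474645) (nat_lit 84) (nat_lit 7028474645) (nat_lit 15) (nat_lit 3) (nat_lit 14) (nat_lit 1) (nat_lit 15) (nat_lit 1) (nat_lit 205) (nat_lit 296) (nat_lit 219))))) (XT.nd (nat_lit 282) (nat_lit 420) (nat_lit 0) (XT.nd (nat_lit 94) (nat_lit 84) (nat_lit 0) (XT.lf (nat_lit 168) (nat_lit 9825979310) (nat_lit 0) (nat_lit 2097936651) (nat_lit 84) (nat_lit 2097936651) (nat_lit 14) (nat_lit 1) (nat_lit 12) (nat_lit 1) (nat_lit 13) (nat_lit 1) (nat_lit 206) (nat_lit 296) (nat_lit 218)) (XT.nd (nat_lit 94) (nat_lit 84) (nat_lit 0) (XT.lf (nat_lit 0) (nat_lit 2630488743)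 (nat_lit 0) (nat_lit 8529448942) (nat_lit 168) (nat_lit 2630488743) (nat_lit 12) (nat_lit 3) (nat_lit 12) (nat_lit 1) (nat_lit 14) (nat_lit 1) (nat_lit 207) (nat_lit 296) (nat_lit 217)) (XT.lf (nat_lit 84) (nat_lit 775784947) (nat_lit 0) (nat_lit 6393842279) (nat_lit 84) (nat_lit 6393842279) (nat_lit 12) (nat_lit 3) (nat_lit 11) (nat_lit 1) (nat_lit 12) (nat_lit 1) (nat_lit 208) (nat_lit 296) (nat_lit 216)))) (XT.nd (nat_lit 188) (nat_lit 252) (nat_lit 0) (XT.nd (nat_lit 94) (nat_lit 0) (nat_lit 0) (XT.lf (nat_lit 168) (nat_lit 9889234889) (nat_lit 0) (nat_lit 1725977674) (nat_lit 84) (nat_lit 1725977674) (nat_lit 11) (nat_lit 1) (nat_lit 9) (nat_lit 1) (nat_lit 10) (nat_lit 1) (nat_lit 209) (nat_lit 296) (nat_lit 215)) (XT.lf (nat_lit 0) (nat_lit 2756036613) (nat_lit 0) (nat_lit 7609125767) (nat_lit 168) (nat_lit 2756036613) (nat_lit 9) (nat_lit 3) (nat_lit 9) (nat_lit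 1) (nat_lit 11) (nat_lit 1) (nat_lit 210) (nat_lit 296) (nat_lit 214))) (XT.nd (nat_lit 94) (nat_lit 168) (nat_lit 0) (XT.lf (nat_lit 84) (nat_lit 1220620000) (nat_lit 0) (nat_lit 5842609670) (nat_lit 84) (nat_lit 5842609670) (nat_lit 9) (nat_lit 3) (nat_lit 8) (nat_lit 1) (nat_lit 9) (nat_lit 1) (nat_lit 211) (nat_lit 296) (nat_lit 213)) (XT.lf (nat_lit 168) (nat_lit 9855305058) (nat_lit 0) (nat_lit 1419966104) (nat_lit 84) (nat_lit 1419966104) (nat_lit 8) (nat_lit 1) (nat_lit 6) (nat_lit 1) (nat_lit 7) (nat_lit 1) (nat_lit 212) (nat_lit 296) (nat_lit 212)))))) (XT.nd (nat_lit 658) (nat_lit 0) (nat_lit 0) (XT.nd (nat_lit 282) (nat_lit 252) (nat_lit 0) (XT.nd (nat_lit 94) (nat_lit 252) (nat_lit 0) (XT.lf (nat_lit 0) (nat_lit 2831138156) (nat_lit 0) (nat_lit 6823786613) (nat_lit 168) (nat_lit 2831138156) (nat_lit 6) (nat_lit 3) (nat_lit 6) (nat_lit 1) (nat_lit 8) (nat_lit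 1) (nat_lit 213) (nat_lit 296) (nat_lit 211)) (XT.nd (nat_lit 94) (nat_lit 168) (nat_lit 0) (XT.lf (nat_lit 84) (nat_lit 1558854528) (nat_lit 0) (nat_lit 5361376868) (nat_lit 84) (nat_lit 5361376868) (nat_lit 6) (nat_lit 3) (nat_lit 5) (nat_lit 1) (nat_lit 6) (nat_lit 1) (nat_lit 214) (nat_lit 296) (nat_lit 210)) (XT.lf (nat_lit 168) (nat_lit 9745514377) (nat_lit 0) (nat_lit 1168209628) (nat_lit 84) (nat_lit 1168209628) (nat_lit 5) (nat_lit 1) (nat_lit 3) (nat_lit 1) (nat_lit 4) (nat_lit 1) (nat_lit 215) (nat_lit 296) (nat_lit 209)))) (XT.nd (nat_lit 188) (nat_lit 168) (nat_lit 0) (XT.nd (nat_lit 94) (nat_lit 84) (nat_lit 0) (XT.lf (nat_lit 0) (nat_lit 2866079618) (nat_lit 0) (nat_lit 6150841385) (nat_lit 168) (nat_lit 2866079618) (nat_lit 3) (nat_lit 3) (nat_lit 3) (nat_lit 1) (nat_lit 5) (nat_lit 1) (nat_lit 216) (nat_lit 296) (nat_lit 208)) (XT.lf (nat_lit 84) (nat_lit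 1810709128) (nat_lit 0) (nat_lit 4939053667) (nat_lit 84) (nat_lit 4939053667) (nat_lit 3) (nat_lit 3) (nat_lit 2) (nat_lit 1) (nat_lit 3) (nat_lit 1) (nat_lit 217) (nat_lit 296) (nat_lit 207))) (XT.nd (nat_lit 94) (nat_lit 0) (nat_lit 0) (XT.lf (nat_lit 0) (nat_lit 16705025396) (nat_lit 0) (nat_lit 0) (nat_lit 0) (nat_lit 0) (nat_lit 0) (nat_lit 0) (nat_lit 1) (nat_lit 0) (nat_lit 1) (nat_lit 0) (nat_lit 218) (nat_lit 296) (nat_lit 206)) (XT.lf (nat_lit 0) (nat_lit 16695292448) (nat_lit 0) (nat_lit 0) (nat_lit 0) (nat_lit 0) (nat_lit 0) (nat_lit 0) (nat_lit 1) (nat_lit 0) (nat_lit 1) (nat_lit 0) (nat_lit 219) (nat_lit 296) (nat_lit 205))))) (XT.nd (nat_lit 282) (nat_lit 0) (nat_lit 0) (XT.nd (nat_lit 94) (nat_lit 0) (nat_lit 0) (XT.lf (nat_lit 0) (nat_lit 16686022974) (nat_lit 0) (nat_lit 0) (nat_lit 0) (nat_lit 0) (nat_lit 0) (nat_lit 0) (nat_lit 1) (nat_lit 0) (nat_lit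 1) (nat_lit 0) (nat_lit 220) (nat_lit 296) (nat_lit 204)) (XT.nd (nat_lit 94) (nat_lit 0) (nat_lit 0) (XT.lf (nat_lit 0) (nat_lit 16677194903) (nat_lit 0) (nat_lit 0) (nat_lit 0) (nat_lit 0) (nat_lit 0) (nat_lit 0) (nat_lit 1) (nat_lit 0) (nat_lit 1) (nat_lit 0) (nat_lit 221) (nat_lit 296) (nat_lit 203)) (XT.lf (nat_lit 0) (nat_lit 16668787217) (nat_lit 0) (nat_lit 0) (nat_lit 0) (nat_lit 0) (nat_lit 0) (nat_lit 0) (nat_lit 1) (nat_lit 0) (nat_lit 1) (nat_lit 0) (nat_lit 222) (nat_lit 296) (nat_lit 202)))) (XT.nd (nat_lit 188) (nat_lit 0) (nat_lit 0) (XT.nd (nat_lit 94) (nat_lit 0) (nat_lit 0) (XT.lf (nat_lit 0) (nat_lit 16660779896) (nat_lit 0) (nat_lit 0) (nat_lit 0) (nat_lit 0) (nat_lit 0) (nat_lit 0) (nat_lit 1) (nat_lit 0) (nat_lit 1) (nat_lit 0) (nat_lit 223) (nat_lit 296) (nat_lit 201)) (XT.lf (nat_lit 0) (nat_lit 16653153877) (nat_lit 0) (nat_lit 0) (nat_lit 0) (nat_lit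 0) (nat_lit 0) (nat_lit 0) (nat_lit 1) (nat_lit 0) (nat_lit 1) (nat_lit 0) (nat_lit 224) (nat_lit 296) (nat_lit 200))) (XT.nd (nat_lit 94) (nat_lit 0) (nat_lit 0) (XT.lf (nat_lit 0) (nat_lit 16645891001) (nat_lit 0) (nat_lit 0) (nat_lit 0) (nat_lit 0) (nat_lit 0) (nat_lit 0) (nat_lit 1) (nat_lit 0) (nat_lit 1) (nat_lit 0) (nat_lit 225) (nat_lit 296) (nat_lit 199)) (XT.lf (nat_lit 0) (nat_lit 16638973976) (nat_lit 0) (nat_lit 0) (nat_lit 0) (nat_lit 0) (nat_lit 0) (nat_lit 0) (nat_lit 1) (nat_lit 0) (nat_lit 1) (nat_lit 0) (nat_lit 226) (nat_lit 296) (nat_lit 198))))))))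
noncomputable def ec167 : XT := (XT.nd (nat_lit 2538) (nat_lit 0) (nat_lit 0) (XT.nd (nat_lit 1222) (nat_lit 0) (nat_lit 0) (XT.nd (nat_lit 564) (nat_lit 0) (nat_lit 0) (XT.nd (nat_lit 282) (nat_lit 0) (nat_lit 0) (XT.nd (nat_lit 94) (nat_lit 0) (nat_lit 0) (XT.lf (nat_lit 0) (nat_lit 16632386334) (nat_lit 0) (nat_lit 0) (nat_lit 0) (nat_lit 0) (nat_lit 0) (nat_lit 0) (nat_lit 1) (nat_lit 0) (nat_lit 1) (nat_lit 0) (nat_lit 227) (nat_lit 296) (nat_lit 197)) (XT.nd (nat_lit 94) (nat_lit 0) (nat_lit 0) (XT.lf (nat_lit 0) (nat_lit 16626112389) (nat_lit 0) (nat_lit 0) (nat_lit 0) (nat_lit 0) (nat_lit 0) (nat_lit 0) (nat_lit 1) (nat_lit 0) (nat_lit 1) (nat_lit 0) (nat_lit 228) (nat_lit 296) (nat_lit 196)) (XT.lf (nat_lit 0) (nat_lit 16620137203) (nat_lit 0) (nat_lit 0) (nat_lit 0) (nat_lit 0) (nat_lit 0) (nat_lit 0) (nat_lit 1) (nat_lit 0) (nat_lit 1) (nat_lit 0) (nat_lit 229)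 (nat_lit 296) (nat_lit 195)))) (XT.nd (nat_lit 94) (nat_lit 0) (nat_lit 0) (XT.lf (nat_lit 0) (nat_lit 16614446550) (nat_lit 0) (nat_lit 0) (nat_lit 0) (nat_lit 0) (nat_lit 0) (nat_lit 0) (nat_lit 1) (nat_lit 0) (nat_lit 1) (nat_lit 0) (nat_lit 230) (nat_lit 296) (nat_lit 194)) (XT.nd (nat_lit 94) (nat_lit 0) (nat_lit 0) (XT.lf (nat_lit 0) (nat_lit 16609026880) (nat_lit 0) (nat_lit 0) (nat_lit 0) (nat_lit 0) (nat_lit 0) (nat_lit 0) (nat_lit 1) (nat_lit 0) (nat_lit 1) (nat_lit 0) (nat_lit 231) (nat_lit 296) (nat_lit 193)) (XT.lf (nat_lit 0) (nat_lit 16603865290) (nat_lit 0) (nat_lit 0) (nat_lit 0) (nat_lit 0) (nat_lit 0) (nat_lit 0) (nat_lit 1) (nat_lit 0) (nat_lit 1) (nat_lit 0) (nat_lit 232) (nat_lit 296) (nat_lit 192))))) (XT.nd (nat_lit 282) (nat_lit 0) (nat_lit 0) (XT.nd (nat_lit 94) (nat_lit 0) (nat_lit 0) (XT.lf (nat_lit 0) (nat_lit 16598949490) (nat_lit 0) (nat_lit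 0) (nat_lit 0) (nat_lit 0) (nat_lit 0) (nat_lit 0) (nat_lit 1) (nat_lit 0) (nat_lit 1) (nat_lit 0) (nat_lit 233) (nat_lit 296) (nat_lit 191)) (XT.nd (nat_lit 94) (nat_lit 0) (nat_lit 0) (XT.lf (nat_lit 0) (nat_lit 16594267776) (nat_lit 0) (nat_lit 0) (nat_lit 0) (nat_lit 0) (nat_lit 0) (nat_lit 0) (nat_lit 1) (nat_lit 0) (nat_lit 1) (nat_lit 0) (nat_lit 234) (nat_lit 296) (nat_lit 190)) (XT.lf (nat_lit 0) (nat_lit 16589809000) (nat_lit 0) (nat_lit 0) (nat_lit 0) (nat_lit 0) (nat_lit 0) (nat_lit 0) (nat_lit 1) (nat_lit 0) (nat_lit 1) (nat_lit 0) (nat_lit 235) (nat_lit 296) (nat_lit 189)))) (XT.nd (nat_lit 188) (nat_lit 0) (nat_lit 0) (XT.nd (nat_lit 94) (nat_lit 0) (nat_lit 0) (XT.lf (nat_lit 0) (nat_lit 16585562547) (nat_lit 0) (nat_lit 0) (nat_lit 0) (nat_lit 0) (nat_lit 0) (nat_lit 0) (nat_lit 1) (nat_lit 0) (nat_lit 1) (nat_lit 0) (nat_lit 236) (nat_lit 296) (nat_lit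 188)) (XT.lf (nat_lit 0) (nat_lit 16581518306) (nat_lit 0) (nat_lit 0) (nat_lit 0) (nat_lit 0) (nat_lit 0) (nat_lit 0) (nat_lit 1) (nat_lit 0) (nat_lit 1) (nat_lit 0) (nat_lit 237) (nat_lit 296) (nat_lit 187))) (XT.nd (nat_lit 94) (nat_lit 0) (nat_lit 0) (XT.lf (nat_lit 0) (nat_lit 16577666648) (nat_lit 0) (nat_lit 0) (nat_lit 0) (nat_lit 0) (nat_lit 0) (nat_lit 0) (nat_lit 1) (nat_lit 0) (nat_lit 1) (nat_lit 0) (nat_lit 238) (nat_lit 296) (nat_lit 186)) (XT.lf (nat_lit 0) (nat_lit 16573998402) (nat_lit 0) (nat_lit 0) (nat_lit 0) (nat_lit 0) (nat_lit 0) (nat_lit 0) (nat_lit 1) (nat_lit 0) (nat_lit 1) (nat_lit 0) (nat_lit 239) (nat_lit 296) (nat_lit 185)))))) (XT.nd (nat_lit 658) (nat_lit 0) (nat_lit 0) (XT.nd (nat_lit 282) (nat_lit 0) (nat_lit 0) (XT.nd (nat_lit 94) (nat_lit 0) (nat_lit 0) (XT.lf (nat_lit 0) (nat_lit 16570504835) (nat_lit 0) (nat_lit 0) (nat_lit 0) (nat_lit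 0) (nat_lit 0) (nat_lit 0) (nat_lit 1) (nat_lit 0) (nat_lit 1) (nat_lit 0) (nat_lit 240) (nat_lit 296) (nat_lit 184)) (XT.nd (nat_lit 94) (nat_lit 0) (nat_lit 0) (XT.lf (nat_lit 0) (nat_lit 16567177628) (nat_lit 0) (nat_lit 0) (nat_lit 0) (nat_lit 0) (nat_lit 0) (nat_lit 0) (nat_lit 1) (nat_lit 0) (nat_lit 1) (nat_lit 0) (nat_lit 241) (nat_lit 296) (nat_lit 183)) (XT.lf (nat_lit 0) (nat_lit 16564008859) (nat_lit 0) (nat_lit 0) (nat_lit 0) (nat_lit 0) (nat_lit 0) (nat_lit 0) (nat_lit 1) (nat_lit 0) (nat_lit 1) (nat_lit 0) (nat_lit 242) (nat_lit 296) (nat_lit 182)))) (XT.nd (nat_lit 188) (nat_lit 0) (nat_lit 0) (XT.nd (nat_lit 94) (nat_lit 0) (nat_lit 0) (XT.lf (nat_lit 0) (nat_lit 16560990984) (nat_lit 0) (nat_lit 0) (nat_lit 0) (nat_lit 0) (nat_lit 0) (nat_lit 0) (nat_lit 1) (nat_lit 0) (nat_lit 1) (nat_lit 0) (nat_lit 243) (nat_lit 296) (nat_lit 181)) (XT.lf (nat_lit 0)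 (nat_lit 16558116818) (nat_lit 0) (nat_lit 0) (nat_lit 0) (nat_lit 0) (nat_lit 0) (nat_lit 0) (nat_lit 1) (nat_lit 0) (nat_lit 1) (nat_lit 0) (nat_lit 244) (nat_lit 296) (nat_lit 180))) (XT.nd (nat_lit 94) (nat_lit 0) (nat_lit 0) (XT.lf (nat_lit 0) (nat_lit 16555379516) (nat_lit 0) (nat_lit 0) (nat_lit 0) (nat_lit 0) (nat_lit 0) (nat_lit 0) (nat_lit 1) (nat_lit 0) (nat_lit 1) (nat_lit 0) (nat_lit 245) (nat_lit 296) (nat_lit 179)) (XT.lf (nat_lit 0) (nat_lit 16552772562) (nat_lit 0) (nat_lit 0) (nat_lit 0) (nat_lit 0) (nat_lit 0) (nat_lit 0) (nat_lit 1) (nat_lit 0) (nat_lit 1) (nat_lit 0) (nat_lit 246) (nat_lit 296) (nat_lit 178))))) (XT.nd (nat_lit 282) (nat_lit 0) (nat_lit 0) (XT.nd (nat_lit 94) (nat_lit 0) (nat_lit 0) (XT.lf (nat_lit 0) (nat_lit 16550289749) (nat_lit 0) (nat_lit 0) (nat_lit 0) (nat_lit 0) (nat_lit 0) (nat_lit 0) (nat_lit 1) (nat_lit 0) (nat_lit 1) (nat_lit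 0) (nat_lit 247) (nat_lit 296) (nat_lit 177)) (XT.nd (nat_lit 94) (nat_lit 0) (nat_lit 0) (XT.lf (nat_lit 0) (nat_lit 16547925165) (nat_lit 0) (nat_lit 0) (nat_lit 0) (nat_lit 0) (nat_lit 0) (nat_lit 0) (nat_lit 1) (nat_lit 0) (nat_lit 1) (nat_lit 0) (nat_lit 248) (nat_lit 296) (nat_lit 176)) (XT.lf (nat_lit 0) (nat_lit 16545673181) (nat_lit 0) (nat_lit 0) (nat_lit 0) (nat_lit 0) (nat_lit 0) (nat_lit 0) (nat_lit 1) (nat_lit 0) (nat_lit 1) (nat_lit 0) (nat_lit 249) (nat_lit 296) (nat_lit 175)))) (XT.nd (nat_lit 188) (nat_lit 0) (nat_lit 0) (XT.nd (nat_lit 94) (nat_lit 0) (nat_lit 0) (XT.lf (nat_lit 0) (nat_lit 16543528433) (nat_lit 0) (nat_lit 0) (nat_lit 0) (nat_lit 0) (nat_lit 0) (nat_lit 0) (nat_lit 1) (nat_lit 0) (nat_lit 1) (nat_lit 0) (nat_lit 250) (nat_lit 296) (nat_lit 174)) (XT.lf (nat_lit 0) (nat_lit 16541485817) (nat_lit 0) (nat_lit 0) (nat_lit 0) (nat_lit 0) (nat_lit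 0) (nat_lit 0) (nat_lit 1) (nat_lit 0) (nat_lit 1) (nat_lit 0) (nat_lit 251) (nat_lit 296) (nat_lit 173))) (XT.nd (nat_lit 94) (nat_lit 0) (nat_lit 0) (XT.lf (nat_lit 0) (nat_lit 16539540468) (nat_lit 0) (nat_lit 0) (nat_lit 0) (nat_lit 0) (nat_lit 0) (nat_lit 0) (nat_lit 1) (nat_lit 0) (nat_lit 1) (nat_lit 0) (nat_lit 252) (nat_lit 296) (nat_lit 172)) (XT.lf (nat_lit 0) (nat_lit 16537687754) (nat_lit 0) (nat_lit 0) (nat_lit 0) (nat_lit 0) (nat_lit 0) (nat_lit 0) (nat_lit 1) (nat_lit 0) (nat_lit 1) (nat_lit 0) (nat_lit 253) (nat_lit 296) (nat_lit 171))))))) (XT.nd (nat_lit 1316) (nat_lit 0) (nat_lit 0) (XT.nd (nat_lit 658) (nat_lit 0) (nat_lit 0) (XT.nd (nat_lit 282) (nat_lit 0) (nat_lit 0) (XT.nd (nat_lit 94) (nat_lit 0) (nat_lit 0) (XT.lf (nat_lit 0) (nat_lit 16535923265) (nat_lit 0) (nat_lit 0) (nat_lit 0) (nat_lit 0) (nat_lit 0) (nat_lit 0) (nat_lit 1) (nat_lit 0) (nat_lit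 1) (nat_lit 0) (nat_lit 254) (nat_lit 296) (nat_lit 170)) (XT.nd (nat_lit 94) (nat_lit 0) (nat_lit 0) (XT.lf (nat_lit 0) (nat_lit 16534242800) (nat_lit 0) (nat_lit 0) (nat_lit 0) (nat_lit 0) (nat_lit 0) (nat_lit 0) (nat_lit 1) (nat_lit 0) (nat_lit 1) (nat_lit 0) (nat_lit 255) (nat_lit 296) (nat_lit 169)) (XT.lf (nat_lit 0) (nat_lit 16532642356) (nat_lit 0) (nat_lit 0) (nat_lit 0) (nat_lit 0) (nat_lit 0) (nat_lit 0) (nat_lit 1) (nat_lit 0) (nat_lit 1) (nat_lit 0) (nat_lit 256) (nat_lit 296) (nat_lit 168)))) (XT.nd (nat_lit 188) (nat_lit 0) (nat_lit 0) (XT.nd (nat_lit 94) (nat_lit 0) (nat_lit 0) (XT.lf (nat_lit 0) (nat_lit 16531118124) (nat_lit 0) (nat_lit 0) (nat_lit 0) (nat_lit 0) (nat_lit 0) (nat_lit 0) (nat_lit 1) (nat_lit 0) (nat_lit 1) (nat_lit 0) (nat_lit 257) (nat_lit 296) (nat_lit 167)) (XT.lf (nat_lit 0) (nat_lit 16529666475) (nat_lit 0) (nat_lit 0) (nat_lit 0) (nat_lit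 0) (nat_lit 0) (nat_lit 0) (nat_lit 1) (nat_lit 0) (nat_lit 1) (nat_lit 0) (nat_lit 258) (nat_lit 296) (nat_lit 166))) (XT.nd (nat_lit 94) (nat_lit 0) (nat_lit 0) (XT.lf (nat_lit 0) (nat_lit 16528283952) (nat_lit 0) (nat_lit 0) (nat_lit 0) (nat_lit 0) (nat_lit 0) (nat_lit 0) (nat_lit 1) (nat_lit 0) (nat_lit 1) (nat_lit 0) (nat_lit 259) (nat_lit 296) (nat_lit 165)) (XT.lf (nat_lit 0) (nat_lit 16526967263) (nat_lit 0) (nat_lit 0) (nat_lit 0) (nat_lit 0) (nat_lit 0) (nat_lit 0) (nat_lit 1) (nat_lit 0) (nat_lit 1) (nat_lit 0) (nat_lit 260) (nat_lit 296) (nat_lit 164))))) (XT.nd (nat_lit 282) (nat_lit 0) (nat_lit 0) (XT.nd (nat_lit 94) (nat_lit 0) (nat_lit 0) (XT.lf (nat_lit 0) (nat_lit 16525713274) (nat_lit 0) (nat_lit 0) (nat_lit 0) (nat_lit 0) (nat_lit 0) (nat_lit 0) (nat_lit 1) (nat_lit 0) (nat_lit 1) (nat_lit 0) (nat_lit 261) (nat_lit 296) (nat_lit 163)) (XT.nd (nat_lit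 94) (nat_lit 0) (nat_lit 0) (XT.lf (nat_lit 0) (nat_lit 16524518998) (nat_lit 0) (nat_lit 0) (nat_lit 0) (nat_lit 0) (nat_lit 0) (nat_lit 0) (nat_lit 1) (nat_lit 0) (nat_lit 1) (nat_lit 0) (nat_lit 262) (nat_lit 296) (nat_lit 162)) (XT.lf (nat_lit 0) (nat_lit 16523381593) (nat_lit 0) (nat_lit 0) (nat_lit 0) (nat_lit 0) (nat_lit 0) (nat_lit 0) (nat_lit 1) (nat_lit 0) (nat_lit 1) (nat_lit 0) (nat_lit 263) (nat_lit 296) (nat_lit 161)))) (XT.nd (nat_lit 188) (nat_lit 0) (nat_lit 0) (XT.nd (nat_lit 94) (nat_lit 0) (nat_lit 0) (XT.lf (nat_lit 0) (nat_lit 16522298350) (nat_lit 0) (nat_lit 0) (nat_lit 0) (nat_lit 0) (nat_lit 0) (nat_lit 0) (nat_lit 1) (nat_lit 0) (nat_lit 1) (nat_lit 0) (nat_lit 264) (nat_lit 296) (nat_lit 160)) (XT.lf (nat_lit 0) (nat_lit 16521266689) (nat_lit 0) (nat_lit 0) (nat_lit 0) (nat_lit 0) (nat_lit 0) (nat_lit 0) (nat_lit 1) (nat_lit 0) (nat_lit 1) (nat_lit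 0) (nat_lit 265) (nat_lit 296) (nat_lit 159))) (XT.nd (nat_lit 94) (nat_lit 0) (nat_lit 0) (XT.lf (nat_lit 0) (nat_lit 16520284156) (nat_lit 0) (nat_lit 0) (nat_lit 0) (nat_lit 0) (nat_lit 0) (nat_lit 0) (nat_lit 1) (nat_lit 0) (nat_lit 1) (nat_lit 0) (nat_lit 266) (nat_lit 296) (nat_lit 158)) (XT.lf (nat_lit 0) (nat_lit 16519348410) (nat_lit 0) (nat_lit 0) (nat_lit 0) (nat_lit 0) (nat_lit 0) (nat_lit 0) (nat_lit 1) (nat_lit 0) (nat_lit 1) (nat_lit 0) (nat_lit 267) (nat_lit 296) (nat_lit 157)))))) (XT.nd (nat_lit 658) (nat_lit 0) (nat_lit 0) (XT.nd (nat_lit 282) (nat_lit 0) (nat_lit 0) (XT.nd (nat_lit 94) (nat_lit 0) (nat_lit 0) (XT.lf (nat_lit 0) (nat_lit 16518457223) (nat_lit 0) (nat_lit 0) (nat_lit 0) (nat_lit 0) (nat_lit 0) (nat_lit 0) (nat_lit 1) (nat_lit 0) (nat_lit 1) (nat_lit 0) (nat_lit 268) (nat_lit 296) (nat_lit 156)) (XT.nd (nat_lit 94) (nat_lit 0) (nat_lit 0)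 (XT.lf (nat_lit 0) (nat_lit 16517608474) (nat_lit 0) (nat_lit 0) (nat_lit 0) (nat_lit 0) (nat_lit 0) (nat_lit 0) (nat_lit 1) (nat_lit 0) (nat_lit 1) (nat_lit 0) (nat_lit 269) (nat_lit 296) (nat_lit 155)) (XT.lf (nat_lit 0) (nat_lit 16516800141) (nat_lit 0) (nat_lit 0) (nat_lit 0) (nat_lit 0) (nat_lit 0) (nat_lit 0) (nat_lit 1) (nat_lit 0) (nat_lit 1) (nat_lit 0) (nat_lit 270) (nat_lit 296) (nat_lit 154)))) (XT.nd (nat_lit 188) (nat_lit 0) (nat_lit 0) (XT.nd (nat_lit 94) (nat_lit 0) (nat_lit 0) (XT.lf (nat_lit 0) (nat_lit 16516030300) (nat_lit 0) (nat_lit 0) (nat_lit 0) (nat_lit 0) (nat_lit 0) (nat_lit 0) (nat_lit 1) (nat_lit 0) (nat_lit 1) (nat_lit 0) (nat_lit 271) (nat_lit 296) (nat_lit 153)) (XT.lf (nat_lit 0) (nat_lit 16515297119) (nat_lit 0) (nat_lit 0) (nat_lit 0) (nat_lit 0) (nat_lit 0) (nat_lit 0) (nat_lit 1) (nat_lit 0) (nat_lit 1) (nat_lit 0) (nat_lit 272) (nat_lit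 296) (nat_lit 152))) (XT.nd (nat_lit 94) (nat_lit 0) (nat_lit 0) (XT.lf (nat_lit 0) (nat_lit 16514598850) (nat_lit 0) (nat_lit 0) (nat_lit 0) (nat_lit 0) (nat_lit 0) (nat_lit 0) (nat_lit 1) (nat_lit 0) (nat_lit 1) (nat_lit 0) (nat_lit 273) (nat_lit 296) (nat_lit 151)) (XT.lf (nat_lit 0) (nat_lit 16513933833) (nat_lit 0) (nat_lit 0) (nat_lit 0) (nat_lit 0) (nat_lit 0) (nat_lit 0) (nat_lit 1) (nat_lit 0) (nat_lit 1) (nat_lit 0) (nat_lit 274) (nat_lit 296) (nat_lit 150))))) (XT.nd (nat_lit 282) (nat_lit 0) (nat_lit 0) (XT.nd (nat_lit 94) (nat_lit 0) (nat_lit 0) (XT.lf (nat_lit 0) (nat_lit 16513300483) (nat_lit 0) (nat_lit 0) (nat_lit 0) (nat_lit 0) (nat_lit 0) (nat_lit 0) (nat_lit 1) (nat_lit 0) (nat_lit 1) (nat_lit 0) (nat_lit 275) (nat_lit 296) (nat_lit 149)) (XT.nd (nat_lit 94) (nat_lit 0) (nat_lit 0) (XT.lf (nat_lit 0) (nat_lit 16512697293) (nat_lit 0) (nat_lit 0) (nat_lit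 0) (nat_lit 0) (nat_lit 0) (nat_lit 0) (nat_lit 1) (nat_lit 0) (nat_lit 1) (nat_lit 0) (nat_lit 276) (nat_lit 296) (nat_lit 148)) (XT.lf (nat_lit 0) (nat_lit 16512122826) (nat_lit 0) (nat_lit 0) (nat_lit 0) (nat_lit 0) (nat_lit 0) (nat_lit 0) (nat_lit 1) (nat_lit 0) (nat_lit 1) (nat_lit 0) (nat_lit 277) (nat_lit 296) (nat_lit 147)))) (XT.nd (nat_lit 188) (nat_lit 0) (nat_lit 0) (XT.nd (nat_lit 94) (nat_lit 0) (nat_lit 0) (XT.lf (nat_lit 0) (nat_lit 16511575715) (nat_lit 0) (nat_lit 0) (nat_lit 0) (nat_lit 0) (nat_lit 0) (nat_lit 0) (nat_lit 1) (nat_lit 0) (nat_lit 1) (nat_lit 0) (nat_lit 278) (nat_lit 296) (nat_lit 146)) (XT.lf (nat_lit 0) (nat_lit 16511054656) (nat_lit 0) (nat_lit 0) (nat_lit 0) (nat_lit 0) (nat_lit 0) (nat_lit 0) (nat_lit 1) (nat_lit 0) (nat_lit 1) (nat_lit 0) (nat_lit 279) (nat_lit 296) (nat_lit 145))) (XT.nd (nat_lit 94) (nat_lit 0) (nat_lit 0) (XT.lf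 (nat_lit 0) (nat_lit 16510558410) (nat_lit 0) (nat_lit 0) (nat_lit 0) (nat_lit 0) (nat_lit 0) (nat_lit 0) (nat_lit 1) (nat_lit 0) (nat_lit 1) (nat_lit 0) (nat_lit 280) (nat_lit 296) (nat_lit 144)) (XT.lf (nat_lit 0) (nat_lit 16510085795) (nat_lit 0) (nat_lit 0) (nat_lit 0) (nat_lit 0) (nat_lit 0) (nat_lit 0) (nat_lit 1) (nat_lit 0) (nat_lit 1) (nat_lit 0) (nat_lit 281) (nat_lit 296) (nat_lit 143))))))))
noncomputable def ec168 : XT := (XT.nd (nat_lit 2538) (nat_lit 0) (nat_lit 0) (XT.nd (nat_lit 1222) (nat_lit 0) (nat_lit 0) (XT.nd (nat_lit 564) (nat_lit 0) (nat_lit 0) (XT.nd (nat_lit 282) (nat_lit 0) (nat_lit 0) (XT.nd (nat_lit 94) (nat_lit 0) (nat_lit 0) (XT.lf (nat_lit 0) (nat_lit 16509635685) (nat_lit 0) (nat_lit 0) (nat_lit 0) (nat_lit 0) (nat_lit 0) (nat_lit 0) (nat_lit 1) (nat_lit 0) (nat_lit 1) (nat_lit 0) (nat_lit 282) (nat_lit 296) (nat_lit 142)) (XT.nd (nat_lit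 94) (nat_lit 0) (nat_lit 0) (XT.lf (nat_lit 0) (nat_lit 16509207009) (nat_lit 0) (nat_lit 0) (nat_lit 0) (nat_lit 0) (nat_lit 0) (nat_lit 0) (nat_lit 1) (nat_lit 0) (nat_lit 1) (nat_lit 0) (nat_lit 283) (nat_lit 296) (nat_lit 141)) (XT.lf (nat_lit 0) (nat_lit 16508798746) (nat_lit 0) (nat_lit 0) (nat_lit 0) (nat_lit 0) (nat_lit 0) (nat_lit 0) (nat_lit 1) (nat_lit 0) (nat_lit 1) (nat_lit 0) (nat_lit 284) (nat_lit 296) (nat_lit 140)))) (XT.nd (nat_lit 94) (nat_lit 0) (nat_lit 0) (XT.lf (nat_lit 0) (nat_lit 16508409924) (nat_lit 0) (nat_lit 0) (nat_lit 0) (nat_lit 0) (nat_lit 0) (nat_lit 0) (nat_lit 1) (nat_lit 0) (nat_lit 1) (nat_lit 0) (nat_lit 285) (nat_lit 296) (nat_lit 139)) (XT.nd (nat_lit 94) (nat_lit 0) (nat_lit 0) (XT.lf (nat_lit 0) (nat_lit 16508039617) (nat_lit 0) (nat_lit 0) (nat_lit 0) (nat_lit 0) (nat_lit 0) (nat_lit 0) (nat_lit 1) (nat_lit 0) (nat_lit 1) (nat_lit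 0) (nat_lit 286) (nat_lit 296) (nat_lit 138)) (XT.lf (nat_lit 0) (nat_lit 16507686944) (nat_lit 0) (nat_lit 0) (nat_lit 0) (nat_lit 0) (nat_lit 0) (nat_lit 0) (nat_lit 1) (nat_lit 0) (nat_lit 1) (nat_lit 0) (nat_lit 287) (nat_lit 296) (nat_lit 137))))) (XT.nd (nat_lit 282) (nat_lit 0) (nat_lit 0) (XT.nd (nat_lit 94) (nat_lit 0) (nat_lit 0) (XT.lf (nat_lit 0) (nat_lit 16507351065) (nat_lit 0) (nat_lit 0) (nat_lit 0) (nat_lit 0) (nat_lit 0) (nat_lit 0) (nat_lit 1) (nat_lit 0) (nat_lit 1) (nat_lit 0) (nat_lit 288) (nat_lit 296) (nat_lit 136)) (XT.nd (nat_lit 94) (nat_lit 0) (nat_lit 0) (XT.lf (nat_lit 0) (nat_lit 16507031181) (nat_lit 0) (nat_lit 0) (nat_lit 0) (nat_lit 0) (nat_lit 0) (nat_lit 0) (nat_lit 1) (nat_lit 0) (nat_lit 1) (nat_lit 0) (nat_lit 289) (nat_lit 296) (nat_lit 135)) (XT.lf (nat_lit 0) (nat_lit 16506726529) (nat_lit 0) (nat_lit 0) (nat_lit 0) (nat_lit 0)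 (nat_lit 0) (nat_lit 0) (nat_lit 1) (nat_lit 0) (nat_lit 1) (nat_lit 0) (nat_lit 290) (nat_lit 296) (nat_lit 134)))) (XT.nd (nat_lit 188) (nat_lit 0) (nat_lit 0) (XT.nd (nat_lit 94) (nat_lit 0) (nat_lit 0) (XT.lf (nat_lit 0) (nat_lit 16506436384) (nat_lit 0) (nat_lit 0) (nat_lit 0) (nat_lit 0) (nat_lit 0) (nat_lit 0) (nat_lit 1) (nat_lit 0) (nat_lit 1) (nat_lit 0) (nat_lit 291) (nat_lit 296) (nat_lit 133)) (XT.lf (nat_lit 0) (nat_lit 16506160055) (nat_lit 0) (nat_lit 0) (nat_lit 0) (nat_lit 0) (nat_lit 0) (nat_lit 0) (nat_lit 1) (nat_lit 0) (nat_lit 1) (nat_lit 0) (nat_lit 292) (nat_lit 296) (nat_lit 132))) (XT.nd (nat_lit 94) (nat_lit 0) (nat_lit 0) (XT.lf (nat_lit 0) (nat_lit 16505896885) (nat_lit 0) (nat_lit 0) (nat_lit 0) (nat_lit 0) (nat_lit 0) (nat_lit 0) (nat_lit 1) (nat_lit 0) (nat_lit 1) (nat_lit 0) (nat_lit 293) (nat_lit 296) (nat_lit 131)) (XT.lf (nat_lit 0) (nat_lit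 16505646247) (nat_lit 0) (nat_lit 0) (nat_lit 0) (nat_lit 0) (nat_lit 0) (nat_lit 0) (nat_lit 1) (nat_lit 0) (nat_lit 1) (nat_lit 0) (nat_lit 294) (nat_lit 296) (nat_lit 130)))))) (XT.nd (nat_lit 658) (nat_lit 0) (nat_lit 0) (XT.nd (nat_lit 282) (nat_lit 0) (nat_lit 0) (XT.nd (nat_lit 94) (nat_lit 0) (nat_lit 0) (XT.lf (nat_lit 0) (nat_lit 16505407544) (nat_lit 0) (nat_lit 0) (nat_lit 0) (nat_lit 0) (nat_lit 0) (nat_lit 0) (nat_lit 1) (nat_lit 0) (nat_lit 1) (nat_lit 0) (nat_lit 295) (nat_lit 296) (nat_lit 129)) (XT.nd (nat_lit 94) (nat_lit 0) (nat_lit 0) (XT.lf (nat_lit 0) (nat_lit 16505180208) (nat_lit 0) (nat_lit 0) (nat_lit 0) (nat_lit 0) (nat_lit 0) (nat_lit 0) (nat_lit 1) (nat_lit 0) (nat_lit 1) (nat_lit 0) (nat_lit 296) (nat_lit 296) (nat_lit 128)) (XT.lf (nat_lit 0) (nat_lit 16504963698) (nat_lit 0) (nat_lit 0) (nat_lit 0) (nat_lit 0) (nat_lit 0) (nat_lit 0) (nat_lit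 1) (nat_lit 0) (nat_lit 1) (nat_lit 0) (nat_lit 297) (nat_lit 296) (nat_lit 127)))) (XT.nd (nat_lit 188) (nat_lit 0) (nat_lit 0) (XT.nd (nat_lit 94) (nat_lit 0) (nat_lit 0) (XT.lf (nat_lit 0) (nat_lit 16504757497) (nat_lit 0) (nat_lit 0) (nat_lit 0) (nat_lit 0) (nat_lit 0) (nat_lit 0) (nat_lit 1) (nat_lit 0) (nat_lit 1) (nat_lit 0) (nat_lit 298) (nat_lit 296) (nat_lit 126)) (XT.lf (nat_lit 0) (nat_lit 16504561116) (nat_lit 0) (nat_lit 0) (nat_lit 0) (nat_lit 0) (nat_lit 0) (nat_lit 0) (nat_lit 1) (nat_lit 0) (nat_lit 1) (nat_lit 0) (nat_lit 299) (nat_lit 296) (nat_lit 125))) (XT.nd (nat_lit 94) (nat_lit 0) (nat_lit 0) (XT.lf (nat_lit 0) (nat_lit 16504374086) (nat_lit 0) (nat_lit 0) (nat_lit 0) (nat_lit 0) (nat_lit 0) (nat_lit 0) (nat_lit 1) (nat_lit 0) (nat_lit 1) (nat_lit 0) (nat_lit 300) (nat_lit 296) (nat_lit 124)) (XT.lf (nat_lit 0) (nat_lit 16504195962) (nat_lit 0)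 (nat_lit 0) (nat_lit 0) (nat_lit 0) (nat_lit 0) (nat_lit 0) (nat_lit 1) (nat_lit 0) (nat_lit 1) (nat_lit 0) (nat_lit 301) (nat_lit 296) (nat_lit 123))))) (XT.nd (nat_lit 282) (nat_lit 0) (nat_lit 0) (XT.nd (nat_lit 94) (nat_lit 0) (nat_lit 0) (XT.lf (nat_lit 0) (nat_lit 16504026320) (nat_lit 0) (nat_lit 0) (nat_lit 0) (nat_lit 0) (nat_lit 0) (nat_lit 0) (nat_lit 1) (nat_lit 0) (nat_lit 1) (nat_lit 0) (nat_lit 302) (nat_lit 296) (nat_lit 122)) (XT.nd (nat_lit 94) (nat_lit 0) (nat_lit 0) (XT.lf (nat_lit 0) (nat_lit 16503864757) (nat_lit 0) (nat_lit 0) (nat_lit 0) (nat_lit 0) (nat_lit 0) (nat_lit 0) (nat_lit 1) (nat_lit 0) (nat_lit 1) (nat_lit 0) (nat_lit 303) (nat_lit 296) (nat_lit 121)) (XT.lf (nat_lit 0) (nat_lit 16503710887) (nat_lit 0) (nat_lit 0) (nat_lit 0) (nat_lit 0) (nat_lit 0) (nat_lit 0) (nat_lit 1) (nat_lit 0) (nat_lit 1) (nat_lit 0) (nat_lit 304) (nat_lit 296)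 (nat_lit 120)))) (XT.nd (nat_lit 188) (nat_lit 0) (nat_lit 0) (XT.nd (nat_lit 94) (nat_lit 0) (nat_lit 0) (XT.lf (nat_lit 0) (nat_lit 16503564344) (nat_lit 0) (nat_lit 0) (nat_lit 0) (nat_lit 0) (nat_lit 0) (nat_lit 0) (nat_lit 1) (nat_lit 0) (nat_lit 1) (nat_lit 0) (nat_lit 305) (nat_lit 296) (nat_lit 119)) (XT.lf (nat_lit 0) (nat_lit 16503424779) (nat_lit 0) (nat_lit 0) (nat_lit 0) (nat_lit 0) (nat_lit 0) (nat_lit 0) (nat_lit 1) (nat_lit 0) (nat_lit 1) (nat_lit 0) (nat_lit 306) (nat_lit 296) (nat_lit 118))) (XT.nd (nat_lit 94) (nat_lit 0) (nat_lit 0) (XT.lf (nat_lit 0) (nat_lit 16503291861) (nat_lit 0) (nat_lit 0) (nat_lit 0) (nat_lit 0) (nat_lit 0) (nat_lit 0) (nat_lit 1) (nat_lit 0) (nat_lit 1) (nat_lit 0) (nat_lit 307) (nat_lit 296) (nat_lit 117)) (XT.lf (nat_lit 0) (nat_lit 16503165271) (nat_lit 0) (nat_lit 0) (nat_lit 0) (nat_lit 0) (nat_lit 0) (nat_lit 0) (nat_lit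 1) (nat_lit 0) (nat_lit 1) (nat_lit 0) (nat_lit 308) (nat_lit 296) (nat_lit 116))))))) (XT.nd (nat_lit 28952) (nat_lit 0) (nat_lit 7476) (XT.nd (nat_lit 28294) (nat_lit 0) (nat_lit 10836) (XT.nd (nat_lit 28012) (nat_lit 0) (nat_lit 10752) (XT.nd (nat_lit 94) (nat_lit 0) (nat_lit 0) (XT.lf (nat_lit 0) (nat_lit 16503044710) (nat_lit 0) (nat_lit 0) (nat_lit 0) (nat_lit 0) (nat_lit 0) (nat_lit 0) (nat_lit 1) (nat_lit 0) (nat_lit 1) (nat_lit 0) (nat_lit 309) (nat_lit 296) (nat_lit 115)) (XT.nd (nat_lit 94) (nat_lit 0) (nat_lit 0) (XT.lf (nat_lit 0) (nat_lit 16502929890) (nat_lit 0) (nat_lit 0) (nat_lit 0) (nat_lit 0) (nat_lit 0) (nat_lit 0) (nat_lit 1) (nat_lit 0) (nat_lit 1) (nat_lit 0) (nat_lit 310) (nat_lit 296) (nat_lit 114)) (XT.lf (nat_lit 0) (nat_lit 16502820538) (nat_lit 0) (nat_lit 0) (nat_lit 0) (nat_lit 0) (nat_lit 0) (nat_lit 0) (nat_lit 1) (nat_lit 0) (nat_lit 1)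 (nat_lit 0) (nat_lit 311) (nat_lit 296) (nat_lit 113)))) (XT.nd (nat_lit 94) (nat_lit 0) (nat_lit 0) (XT.lf (nat_lit 924) (nat_lit 8670411824) (nat_lit 0) (nat_lit 15394296264) (nat_lit 924) (nat_lit 8670411824) (nat_lit 139) (nat_lit 1) (nat_lit 128) (nat_lit 0) (nat_lit 139) (nat_lit 0) (nat_lit 126) (nat_lit 297) (nat_lit 297)) (XT.nd (nat_lit 94) (nat_lit 0) (nat_lit 84) (XT.lf (nat_lit 924) (nat_lit 33607598690) (nat_lit 84) (nat_lit 15146001163) (nat_lit 0) (nat_lit 15146001163) (nat_lit 139) (nat_lit 1) (nat_lit 129) (nat_lit 1) (nat_lit 128) (nat_lit 0) (nat_lit 127) (nat_lit 297) (nat_lit 296)) (XT.lf (nat_lit 924) (nat_lit 16016875506) (nat_lit 0) (nat_lit 30343768078) (nat_lit 840) (nat_lit 16016875506) (nat_lit 140) (nat_lit 1) (nat_lit 129) (nat_lit 1) (nat_lit 139) (nat_lit 1) (nat_lit 128) (nat_lit 297) (nat_lit 295))))) (XT.nd (nat_lit 282) (nat_lit 0) (nat_lit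 168) (XT.nd (nat_lit 94) (nat_lit 0) (nat_lit 84) (XT.lf (nat_lit 924) (nat_lit 30045432849) (nat_lit 84) (nat_lit 15429589451) (nat_lit 0) (nat_lit 15429589451) (nat_lit 140) (nat_lit 1) (nat_lit 130) (nat_lit 1) (nat_lit 129) (nat_lit 1) (nat_lit 129) (nat_lit 297) (nat_lit 294)) (XT.nd (nat_lit 94) (nat_lit 0) (nat_lit 0) (XT.lf (nat_lit 924) (nat_lit 13829624211) (nat_lit 0) (nat_lit 31819139763) (nat_lit 840) (nat_lit 13829624211) (nat_lit 141) (nat_lit 1) (nat_lit 130) (nat_lit 1) (nat_lit 140) (nat_lit 1) (nat_lit 130) (nat_lit 297) (nat_lit 293)) (XT.lf (nat_lit 924) (nat_lit 24873479895) (nat_lit 84) (nat_lit 16611080735) (nat_lit 0) (nat_lit 16611080735) (nat_lit 141) (nat_lit 1) (nat_lit 131) (nat_lit 1) (nat_lit 130) (nat_lit 1) (nat_lit 131) (nat_lit 297) (nat_lit 292)))) (XT.nd (nat_lit 188) (nat_lit 0) (nat_lit 84) (XT.nd (nat_lit 94) (nat_lit 0) (nat_lit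 0) (XT.lf (nat_lit 924) (nat_lit 10906302523) (nat_lit 0) (nat_lit 34946717349) (nat_lit 840) (nat_lit 10906302523) (nat_lit 142) (nat_lit 1) (nat_lit 131) (nat_lit 1) (nat_lit 141) (nat_lit 1) (nat_lit 132) (nat_lit 297) (nat_lit 291)) (XT.lf (nat_lit 924) (nat_lit 18333829410) (nat_lit 84) (nat_lit 18562983726) (nat_lit 0) (nat_lit 18562983726) (nat_lit 142) (nat_lit 1) (nat_lit 132) (nat_lit 1) (nat_lit 131) (nat_lit 1) (nat_lit 133) (nat_lit 297) (nat_lit 290))) (XT.nd (nat_lit 94) (nat_lit 0) (nat_lit 0) (XT.lf (nat_lit 924) (nat_lit 7360077588) (nat_lit 0) (nat_lit 39487686201) (nat_lit 840) (nat_lit 7360077588) (nat_lit 143) (nat_lit 1) (nat_lit 132) (nat_lit 1) (nat_lit 142) (nat_lit 1) (nat_lit 134) (nat_lit 297) (nat_lit 289)) (XT.lf (nat_lit 924) (nat_lit 10641662505) (nat_lit 84) (nat_lit 21171755916) (nat_lit 0) (nat_lit 21171755916) (nat_lit 143) (nat_lit 1)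 (nat_lit 133) (nat_lit 1) (nat_lit 132) (nat_lit 1) (nat_lit 135) (nat_lit 297) (nat_lit 288)))))) (XT.nd (nat_lit 658) (nat_lit 1428) (nat_lit 0) (XT.nd (nat_lit 282) (nat_lit 840) (nat_lit 0) (XT.nd (nat_lit 94) (nat_lit 1428) (nat_lit 0) (XT.lf (nat_lit 84) (nat_lit 3291465142) (nat_lit 0) (nat_lit 45229491941) (nat_lit 840) (nat_lit 3291465142) (nat_lit 134) (nat_lit 1) (nat_lit 133) (nat_lit 1) (nat_lit 143) (nat_lit 1) (nat_lit 136) (nat_lit 297) (nat_lit 287)) (XT.nd (nat_lit 94) (nat_lit 588) (nat_lit 0) (XT.lf (nat_lit 924) (nat_lit 1987963094) (nat_lit 0) (nat_lit 24336406943) (nat_lit 840) (nat_lit 24336406943) (nat_lit 134) (nat_lit 1) (nat_lit 123) (nat_lit 1) (nat_lit 133) (nat_lit 1) (nat_lit 137) (nat_lit 297) (nat_lit 286)) (XT.lf (nat_lit 588) (nat_lit 47176867811) (nat_lit 0) (nat_lit 1190870381) (nat_lit 504) (nat_lit 1190870381) (nat_lit 123) (nat_lit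 1) (nat_lit 116) (nat_lit 1) (nat_lit 122) (nat_lit 1) (nat_lit 138) (nat_lit 297) (nat_lit 285)))) (XT.nd (nat_lit 188) (nat_lit 420) (nat_lit 0) (XT.nd (nat_lit 94) (nat_lit 420) (nat_lit 0) (XT.lf (nat_lit 84) (nat_lit 20625644498) (nat_lit 0) (nat_lit 7219329239) (nat_lit 588) (nat_lit 20625644498) (nat_lit 117) (nat_lit 1) (nat_lit 116) (nat_lit 1) (nat_lit 123) (nat_lit 1) (nat_lit 139) (nat_lit 297) (nat_lit 284)) (XT.lf (nat_lit 504) (nat_lit 35491439808) (nat_lit 0) (nat_lit 5968726176) (nat_lit 420) (nat_lit 5968726176) (nat_lit 117) (nat_lit 1) (nat_lit 111) (nat_lit 1) (nat_lit 116) (nat_lit 1) (nat_lit 140) (nat_lit 297) (nat_lit 283))) (XT.nd (nat_lit 94) (nat_lit 420) (nat_lit 0) (XT.lf (nat_lit 84) (nat_lit 14712021135) (nat_lit 0) (nat_lit 16985023778) (nat_lit 504) (nat_lit 14712021135) (nat_lit 112) (nat_lit 1) (nat_lit 111) (nat_lit 1) (nat_lit 117) (nat_lit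 1) (nat_lit 141) (nat_lit 297) (nat_lit 282)) (XT.lf (nat_lit 504) (nat_lit 23371616429) (nat_lit 0) (nat_lit 11026570661) (nat_lit 420) (nat_lit 11026570661) (nat_lit 112) (nat_lit 1) (nat_lit 106) (nat_lit 1) (nat_lit 111) (nat_lit 1) (nat_lit 142) (nat_lit 297) (nat_lit 281))))) (XT.nd (nat_lit 282) (nat_lit 1092) (nat_lit 0) (XT.nd (nat_lit 94) (nat_lit 336) (nat_lit 0) (XT.lf (nat_lit 84) (nat_lit 8612130044) (nat_lit 0) (nat_lit 27244816367) (nat_lit 504) (nat_lit 8612130044) (nat_lit 107) (nat_lit 1) (nat_lit 106) (nat_lit 1) (nat_lit 112) (nat_lit 1) (nat_lit 143) (nat_lit 297) (nat_lit 280)) (XT.nd (nat_lit 94) (nat_lit 0) (nat_lit 0) (XT.lf (nat_lit 420) (nat_lit 10930202480) (nat_lit 0) (nat_lit 16303887977) (nat_lit 336) (nat_lit 16303887977) (nat_lit 107) (nat_lit 1) (nat_lit 102) (nat_lit 1) (nat_lit 106) (nat_lit 1) (nat_lit 144) (nat_lit 297) (nat_lit 279))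 (XT.lf (nat_lit 84) (nat_lit 2378339126) (nat_lit 0) (nat_lit 37886007607) (nat_lit 420) (nat_lit 2378339126) (nat_lit 103) (nat_lit 1) (nat_lit 102) (nat_lit 1) (nat_lit 107) (nat_lit 1) (nat_lit 145) (nat_lit 297) (nat_lit 278)))) (XT.nd (nat_lit 188) (nat_lit 336) (nat_lit 0) (XT.nd (nat_lit 94) (nat_lit 336) (nat_lit 0) (XT.lf (nat_lit 84) (nat_lit 20040568899) (nat_lit 0) (nat_lit 1678436574) (nat_lit 420) (nat_lit 20040568899) (nat_lit 98) (nat_lit 1) (nat_lit 97) (nat_lit 1) (nat_lit 102) (nat_lit 1) (nat_lit 146) (nat_lit 297) (nat_lit 277)) (XT.lf (nat_lit 420) (nat_lit 33150261389) (nat_lit 0) (nat_lit 3879916272) (nat_lit 336) (nat_lit 3879916272) (nat_lit 98) (nat_lit 1) (nat_lit 93) (nat_lit 1) (nat_lit 97) (nat_lit 1) (nat_lit 147) (nat_lit 297) (nat_lit 276))) (XT.nd (nat_lit 94) (nat_lit 336) (nat_lit 0) (XT.lf (nat_lit 84) (nat_lit 13002989903) (nat_lit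 0) (nat_lit 14069206714) (nat_lit 420) (nat_lit 13002989903) (nat_lit 94) (nat_lit 1) (nat_lit 93) (nat_lit 1) (nat_lit 98) (nat_lit 1) (nat_lit 148) (nat_lit 297) (nat_lit 275)) (XT.lf (nat_lit 420) (nat_lit 18974979420) (nat_lit 0) (nat_lit 10147125670) (nat_lit 336) (nat_lit 10147125670) (nat_lit 94) (nat_lit 1) (nat_lit 89) (nat_lit 1) (nat_lit 93) (nat_lit 1) (nat_lit 149) (nat_lit 297) (nat_lit 274))))))))
noncomputable def ec169 : XT := (XT.nd (nat_lit 2538) (nat_lit 2520) (nat_lit 0) (XT.nd (nat_lit 1222) (nat_lit 1512) (nat_lit 0) (XT.nd (nat_lit 564) (nat_lit 1344) (nat_lit 0) (XT.nd (nat_lit 282) (nat_lit 252) (nat_lit 0) (XT.nd (nat_lit 94) (nat_lit 672) (nat_lit 0) (XT.lf (nat_lit 84) (nat_lit 5983861669) (nat_lit 0) (nat_lit 26519117878) (nat_lit 420) (nat_lit 5983861669) (nat_lit 90) (nat_lit 1) (nat_lit 89) (nat_lit 1) (nat_lit 94) (nat_lit 1) (nat_lit 150)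 (nat_lit 297) (nat_lit 273)) (XT.nd (nat_lit 94) (nat_lit 420) (nat_lit 0) (XT.lf (nat_lit 336) (nat_lit 4866418411) (nat_lit 0) (nat_lit 16427460960) (nat_lit 252) (nat_lit 16427460960) (nat_lit 90) (nat_lit 1) (nat_lit 86) (nat_lit 1) (nat_lit 89) (nat_lit 1) (nat_lit 151) (nat_lit 297) (nat_lit 272)) (XT.lf (nat_lit 420) (nat_lit 35040753586) (nat_lit 0) (nat_lit 972313676) (nat_lit 336) (nat_lit 972313676) (nat_lit 86) (nat_lit 1) (nat_lit 81) (nat_lit 1) (nat_lit 85) (nat_lit 1) (nat_lit 152) (nat_lit 297) (nat_lit 271)))) (XT.nd (nat_lit 94) (nat_lit 252) (nat_lit 0) (XT.lf (nat_lit 84) (nat_lit 13711705930) (nat_lit 0) (nat_lit 8830083130) (nat_lit 420) (nat_lit 13711705930) (nat_lit 82) (nat_lit 1) (nat_lit 81) (nat_lit 1) (nat_lit 86) (nat_lit 1) (nat_lit 153) (nat_lit 297) (nat_lit 270)) (XT.nd (nat_lit 94) (nat_lit 0) (nat_lit 0) (XT.lf (nat_lit 336) (nat_lit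 20026379997) (nat_lit 0) (nat_lit 7761649409) (nat_lit 252) (nat_lit 7761649409) (nat_lit 82) (nat_lit 1) (nat_lit 78) (nat_lit 1) (nat_lit 81) (nat_lit 1) (nat_lit 154) (nat_lit 297) (nat_lit 269)) (XT.lf (nat_lit 84) (nat_lit 6326643217) (nat_lit 0) (nat_lit 22210457867) (nat_lit 336) (nat_lit 6326643217) (nat_lit 79) (nat_lit 1) (nat_lit 78) (nat_lit 1) (nat_lit 82) (nat_lit 1) (nat_lit 155) (nat_lit 297) (nat_lit 268))))) (XT.nd (nat_lit 282) (nat_lit 756) (nat_lit 0) (XT.nd (nat_lit 94) (nat_lit 336) (nat_lit 0) (XT.lf (nat_lit 336) (nat_lit 5273059375) (nat_lit 0) (nat_lit 14460177619) (nat_lit 252) (nat_lit 14460177619) (nat_lit 79) (nat_lit 1) (nat_lit 75) (nat_lit 1) (nat_lit 78) (nat_lit 1) (nat_lit 156) (nat_lit 297) (nat_lit 267)) (XT.nd (nat_lit 94) (nat_lit 0) (nat_lit 0) (XT.lf (nat_lit 336) (nat_lit 31735529076) (nat_lit 0) (nat_lit 906229723) (nat_lit 252)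 (nat_lit 906229723) (nat_lit 75) (nat_lit 1) (nat_lit 71) (nat_lit 1) (nat_lit 74) (nat_lit 1) (nat_lit 157) (nat_lit 297) (nat_lit 266)) (XT.lf (nat_lit 84) (nat_lit 12004641801) (nat_lit 0) (nat_lit 8895319034) (nat_lit 336) (nat_lit 12004641801) (nat_lit 72) (nat_lit 1) (nat_lit 71) (nat_lit 1) (nat_lit 75) (nat_lit 1) (nat_lit 158) (nat_lit 297) (nat_lit 265)))) (XT.nd (nat_lit 188) (nat_lit 504) (nat_lit 0) (XT.nd (nat_lit 94) (nat_lit 0) (nat_lit 0) (XT.lf (nat_lit 336) (nat_lit 16507481692) (nat_lit 0) (nat_lit 7888770219) (nat_lit 252) (nat_lit 7888770219) (nat_lit 72) (nat_lit 1) (nat_lit 68) (nat_lit 1) (nat_lit 71) (nat_lit 1) (nat_lit 159) (nat_lit 297) (nat_lit 264)) (XT.lf (nat_lit 84) (nat_lit 4546146995) (nat_lit 0) (nat_lit 22589765066) (nat_lit 336) (nat_lit 4546146995) (nat_lit 69) (nat_lit 1) (nat_lit 68) (nat_lit 1) (nat_lit 72) (nat_lit 1) (nat_lit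 160) (nat_lit 297) (nat_lit 263))) (XT.nd (nat_lit 94) (nat_lit 336) (nat_lit 0) (XT.lf (nat_lit 252) (nat_lit 1665859415) (nat_lit 0) (nat_lit 14712299522) (nat_lit 168) (nat_lit 14712299522) (nat_lit 69) (nat_lit 1) (nat_lit 66) (nat_lit 1) (nat_lit 68) (nat_lit 1) (nat_lit 161) (nat_lit 297) (nat_lit 262)) (XT.lf (nat_lit 336) (nat_lit 25170577178) (nat_lit 0) (nat_lit 2673297741) (nat_lit 252) (nat_lit 2673297741) (nat_lit 66) (nat_lit 1) (nat_lit 62) (nat_lit 1) (nat_lit 65) (nat_lit 1) (nat_lit 162) (nat_lit 297) (nat_lit 261)))))) (XT.nd (nat_lit 658) (nat_lit 756) (nat_lit 0) (XT.nd (nat_lit 282) (nat_lit 588) (nat_lit 0) (XT.nd (nat_lit 94) (nat_lit 168) (nat_lit 0) (XT.lf (nat_lit 84) (nat_lit 8791485131) (nat_lit 0) (nat_lit 12367328249) (nat_lit 336) (nat_lit 8791485131) (nat_lit 63) (nat_lit 1) (nat_lit 62) (nat_lit 1) (nat_lit 66) (nat_lit 1) (nat_lit 163)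 (nat_lit 297) (nat_lit 260)) (XT.nd (nat_lit 94) (nat_lit 0) (nat_lit 0) (XT.lf (nat_lit 252) (nat_lit 10157204924) (nat_lit 0) (nat_lit 9621857364) (nat_lit 168) (nat_lit 9621857364) (nat_lit 63) (nat_lit 1) (nat_lit 60) (nat_lit 1) (nat_lit 62) (nat_lit 1) (nat_lit 164) (nat_lit 297) (nat_lit 259)) (XT.lf (nat_lit 84) (nat_lit 1459267951) (nat_lit 0) (nat_lit 25951236668) (nat_lit 252) (nat_lit 1459267951) (nat_lit 61) (nat_lit 1) (nat_lit 60) (nat_lit 1) (nat_lit 63) (nat_lit 1) (nat_lit 165) (nat_lit 297) (nat_lit 258)))) (XT.nd (nat_lit 188) (nat_lit 168) (nat_lit 0) (XT.nd (nat_lit 94) (nat_lit 168) (nat_lit 0) (XT.lf (nat_lit 84) (nat_lit 12043594429) (nat_lit 0) (nat_lit 4253367390) (nat_lit 252) (nat_lit 12043594429) (nat_lit 58) (nat_lit 1) (nat_lit 57) (nat_lit 1) (nat_lit 60) (nat_lit 1) (nat_lit 166) (nat_lit 297) (nat_lit 257)) (XT.lf (nat_lit 252) (nat_lit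 16724641686) (nat_lit 0) (nat_lit 5552127902) (nat_lit 168) (nat_lit 5552127902) (nat_lit 58) (nat_lit 1) (nat_lit 55) (nat_lit 1) (nat_lit 57) (nat_lit 1) (nat_lit 167) (nat_lit 297) (nat_lit 256))) (XT.nd (nat_lit 94) (nat_lit 168) (nat_lit 0) (XT.lf (nat_lit 84) (nat_lit 4719258772) (nat_lit 0) (nat_lit 17890029964) (nat_lit 252) (nat_lit 4719258772) (nat_lit 56) (nat_lit 1) (nat_lit 55) (nat_lit 1) (nat_lit 58) (nat_lit 1) (nat_lit 168) (nat_lit 297) (nat_lit 255)) (XT.lf (nat_lit 252) (nat_lit 2210802825) (nat_lit 0) (nat_lit 12313740234) (nat_lit 168) (nat_lit 12313740234) (nat_lit 56) (nat_lit 1) (nat_lit 53) (nat_lit 1) (nat_lit 55) (nat_lit 1) (nat_lit 169) (nat_lit 297) (nat_lit 254))))) (XT.nd (nat_lit 282) (nat_lit 336) (nat_lit 0) (XT.nd (nat_lit 94) (nat_lit 168) (nat_lit 0) (XT.lf (nat_lit 252) (nat_lit 21729198446) (nat_lit 0) (nat_lit 2316513209) (nat_lit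 168) (nat_lit 2316513209) (nat_lit 53) (nat_lit 1) (nat_lit 50) (nat_lit 1) (nat_lit 52) (nat_lit 1) (nat_lit 170) (nat_lit 297) (nat_lit 253)) (XT.nd (nat_lit 94) (nat_lit 168) (nat_lit 0) (XT.lf (nat_lit 84) (nat_lit 7233703411) (nat_lit 0) (nat_lit 11422822718) (nat_lit 252) (nat_lit 7233703411) (nat_lit 51) (nat_lit 1) (nat_lit 50) (nat_lit 1) (nat_lit 53) (nat_lit 1) (nat_lit 171) (nat_lit 297) (nat_lit 252)) (XT.lf (nat_lit 252) (nat_lit 7367175724) (nat_lit 0) (nat_lit 9032380586) (nat_lit 168) (nat_lit 9032380586) (nat_lit 51) (nat_lit 1) (nat_lit 48) (nat_lit 1) (nat_lit 50) (nat_lit 1) (nat_lit 172) (nat_lit 297) (nat_lit 251)))) (XT.nd (nat_lit 188) (nat_lit 168) (nat_lit 0) (XT.nd (nat_lit 94) (nat_lit 168) (nat_lit 0) (XT.lf (nat_lit 84) (nat_lit 242138747) (nat_lit 0) (nat_lit 24505439102) (nat_lit 252) (nat_lit 242138747) (nat_lit 49) (nat_lit 1) (nat_lit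 48) (nat_lit 1) (nat_lit 51) (nat_lit 1) (nat_lit 173) (nat_lit 297) (nat_lit 250)) (XT.lf (nat_lit 84) (nat_lit 9142764307) (nat_lit 0) (nat_lit 6259156704) (nat_lit 168) (nat_lit 9142764307) (nat_lit 47) (nat_lit 1) (nat_lit 46) (nat_lit 1) (nat_lit 48) (nat_lit 1) (nat_lit 174) (nat_lit 297) (nat_lit 249))) (XT.nd (nat_lit 94) (nat_lit 0) (nat_lit 0) (XT.lf (nat_lit 252) (nat_lit 11345129670) (nat_lit 0) (nat_lit 6385091405) (nat_lit 168) (nat_lit 6385091405) (nat_lit 47) (nat_lit 1) (nat_lit 44) (nat_lit 1) (nat_lit 46) (nat_lit 1) (nat_lit 175) (nat_lit 297) (nat_lit 248)) (XT.lf (nat_lit 84) (nat_lit 2274620089) (nat_lit 0) (nat_lit 19148289325) (nat_lit 252) (nat_lit 2274620089) (nat_lit 45) (nat_lit 1) (nat_lit 44) (nat_lit 1) (nat_lit 47) (nat_lit 1) (nat_lit 176) (nat_lit 297) (nat_lit 247))))))) (XT.nd (nat_lit 1222) (nat_lit 1092) (nat_lit 0) (XT.nd (nat_lit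 564) (nat_lit 756) (nat_lit 0) (XT.nd (nat_lit 282) (nat_lit 336) (nat_lit 0) (XT.nd (nat_lit 94) (nat_lit 168) (nat_lit 0) (XT.lf (nat_lit 84) (nat_lit 10561373498) (nat_lit 0) (nat_lit 2160444838) (nat_lit 168) (nat_lit 10561373498) (nat_lit 43) (nat_lit 1) (nat_lit 42) (nat_lit 1) (nat_lit 44) (nat_lit 1) (nat_lit 177) (nat_lit 297) (nat_lit 246)) (XT.nd (nat_lit 94) (nat_lit 0) (nat_lit 0) (XT.lf (nat_lit 252) (nat_lit 14366176703) (nat_lit 0) (nat_lit 4256963400) (nat_lit 168) (nat_lit 4256963400) (nat_lit 43) (nat_lit 1) (nat_lit 40) (nat_lit 1) (nat_lit 42) (nat_lit 1) (nat_lit 178) (nat_lit 297) (nat_lit 245)) (XT.lf (nat_lit 84) (nat_lit 3847918379) (nat_lit 0) (nat_lit 14789158283) (nat_lit 252) (nat_lit 3847918379) (nat_lit 41) (nat_lit 1) (nat_lit 40) (nat_lit 1) (nat_lit 43) (nat_lit 1) (nat_lit 179) (nat_lit 297) (nat_lit 244)))) (XT.nd (nat_lit 94) (nat_lit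 252) (nat_lit 0) (XT.lf (nat_lit 168) (nat_lit 1104597239) (nat_lit 0) (nat_lit 10496372614) (nat_lit 84) (nat_lit 10496372614) (nat_lit 41) (nat_lit 1) (nat_lit 39) (nat_lit 1) (nat_lit 40) (nat_lit 1) (nat_lit 180) (nat_lit 297) (nat_lit 243)) (XT.nd (nat_lit 94) (nat_lit 0) (nat_lit 0) (XT.lf (nat_lit 252) (nat_lit 16611956220) (nat_lit 0) (nat_lit 2553578990) (nat_lit 168) (nat_lit 2553578990) (nat_lit 39) (nat_lit 1) (nat_lit 36) (nat_lit 1) (nat_lit 38) (nat_lit 1) (nat_lit 181) (nat_lit 297) (nat_lit 242)) (XT.lf (nat_lit 84) (nat_lit 5048151785) (nat_lit 0) (nat_lit 11248804040) (nat_lit 252) (nat_lit 5048151785) (nat_lit 37) (nat_lit 1) (nat_lit 36) (nat_lit 1) (nat_lit 39) (nat_lit 1) (nat_lit 182) (nat_lit 297) (nat_lit 241))))) (XT.nd (nat_lit 282) (nat_lit 420) (nat_lit 0) (XT.nd (nat_lit 94) (nat_lit 252) (nat_lit 0) (XT.lf (nat_lit 168) (nat_lit 3709487774)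 (nat_lit 0) (nat_lit 8635391726) (nat_lit 84) (nat_lit 8635391726) (nat_lit 37) (nat_lit 1) (nat_lit 35) (nat_lit 1) (nat_lit 36) (nat_lit 1) (nat_lit 183) (nat_lit 297) (nat_lit 240)) (XT.nd (nat_lit 94) (nat_lit 0) (nat_lit 0) (XT.lf (nat_lit 252) (nat_lit 18231332819) (nat_lit 0) (nat_lit 1197373532) (nat_lit 168) (nat_lit 1197373532) (nat_lit 35) (nat_lit 1) (nat_lit 32) (nat_lit 1) (nat_lit 34) (nat_lit 1) (nat_lit 184) (nat_lit 297) (nat_lit 239)) (XT.lf (nat_lit 84) (nat_lit 5945945835) (nat_lit 0) (nat_lit 8379873133) (nat_lit 252) (nat_lit 5945945835) (nat_lit 33) (nat_lit 1) (nat_lit 32) (nat_lit 1) (nat_lit 35) (nat_lit 1) (nat_lit 185) (nat_lit 297) (nat_lit 238)))) (XT.nd (nat_lit 188) (nat_lit 84) (nat_lit 0) (XT.nd (nat_lit 94) (nat_lit 252) (nat_lit 0) (XT.lf (nat_lit 168) (nat_lit 5719169430) (nat_lit 0) (nat_lit 7104358144) (nat_lit 84) (nat_lit 7104358144)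 (nat_lit 33) (nat_lit 1) (nat_lit 31) (nat_lit 1) (nat_lit 32) (nat_lit 1) (nat_lit 186) (nat_lit 297) (nat_lit 237)) (XT.lf (nat_lit 252) (nat_lit 19346234368) (nat_lit 0) (nat_lit 124641955) (nat_lit 168) (nat_lit 124641955) (nat_lit 31) (nat_lit 1) (nat_lit 28) (nat_lit 1) (nat_lit 30) (nat_lit 1) (nat_lit 187) (nat_lit 297) (nat_lit 236))) (XT.nd (nat_lit 94) (nat_lit 84) (nat_lit 0) (XT.lf (nat_lit 84) (nat_lit 6599190895) (nat_lit 0) (nat_lit 6061241613) (nat_lit 252) (nat_lit 6599190895) (nat_lit 29) (nat_lit 1) (nat_lit 28) (nat_lit 1) (nat_lit 31) (nat_lit 1) (nat_lit 188) (nat_lit 297) (nat_lit 235)) (XT.lf (nat_lit 168) (nat_lit 7245522137) (nat_lit 0) (nat_lit 5844773026) (nat_lit 84) (nat_lit 5844773026) (nat_lit 29) (nat_lit 1) (nat_lit 27) (nat_lit 1) (nat_lit 28) (nat_lit 1) (nat_lit 189) (nat_lit 297) (nat_lit 234)))))) (XT.nd (nat_lit 658) (nat_lit 588)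 (nat_lit 0) (XT.nd (nat_lit 282) (nat_lit 252) (nat_lit 0) (XT.nd (nat_lit 94) (nat_lit 252) (nat_lit 0) (XT.lf (nat_lit 0) (nat_lit 728676469) (nat_lit 0) (nat_lit 17162958903) (nat_lit 168) (nat_lit 728676469) (nat_lit 27) (nat_lit 3) (nat_lit 27) (nat_lit 1) (nat_lit 29) (nat_lit 1) (nat_lit 190) (nat_lit 297) (nat_lit 233)) (XT.nd (nat_lit 94) (nat_lit 84) (nat_lit 0) (XT.lf (nat_lit 84) (nat_lit 7055310244) (nat_lit 0) (nat_lit 4193359664) (nat_lit 168) (nat_lit 7055310244) (nat_lit 26) (nat_lit 1) (nat_lit 25) (nat_lit 1) (nat_lit 27) (nat_lit 1) (nat_lit 191) (nat_lit 297) (nat_lit 232)) (XT.lf (nat_lit 168) (nat_lit 8380287368) (nat_lit 0) (nat_lit 4808509233) (nat_lit 84) (nat_lit 4808509233) (nat_lit 26) (nat_lit 1) (nat_lit 24) (nat_lit 1) (nat_lit 25) (nat_lit 1) (nat_lit 192) (nat_lit 297) (nat_lit 231)))) (XT.nd (nat_lit 188) (nat_lit 84) (nat_lit 0) (XT.nd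 (nat_lit 94) (nat_lit 168) (nat_lit 0) (XT.lf (nat_lit 0) (nat_lit 1392722746) (nat_lit 0) (nat_lit 14913247576) (nat_lit 168) (nat_lit 1392722746) (nat_lit 24) (nat_lit 3) (nat_lit 24) (nat_lit 1) (nat_lit 26) (nat_lit 1) (nat_lit 193) (nat_lit 297) (nat_lit 230)) (XT.lf (nat_lit 84) (nat_lit 7353125544) (nat_lit 0) (nat_lit 2694421838) (nat_lit 168) (nat_lit 7353125544) (nat_lit 23) (nat_lit 1) (nat_lit 22) (nat_lit 1) (nat_lit 24) (nat_lit 1) (nat_lit 194) (nat_lit 297) (nat_lit 229))) (XT.nd (nat_lit 94) (nat_lit 0) (nat_lit 0) (XT.lf (nat_lit 168) (nat_lit 9198653038) (nat_lit 0) (nat_lit 3955972446) (nat_lit 84) (nat_lit 3955972446) (nat_lit 23) (nat_lit 1) (nat_lit 21) (nat_lit 1) (nat_lit 22) (nat_lit 1) (nat_lit 195) (nat_lit 297) (nat_lit 228)) (XT.lf (nat_lit 0) (nat_lit 1901261984) (nat_lit 0) (nat_lit 13024631222) (nat_lit 168) (nat_lit 1901261984) (nat_lit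 21) (nat_lit 3) (nat_lit 21) (nat_lit 1) (nat_lit 23) (nat_lit 1) (nat_lit 196) (nat_lit 297) (nat_lit 227))))) (XT.nd (nat_lit 282) (nat_lit 336) (nat_lit 0) (XT.nd (nat_lit 94) (nat_lit 84) (nat_lit 0) (XT.lf (nat_lit 84) (nat_lit 7524391103) (nat_lit 0) (nat_lit 1497216529) (nat_lit 168) (nat_lit 7524391103) (nat_lit 20) (nat_lit 1) (nat_lit 19) (nat_lit 1) (nat_lit 21) (nat_lit 1) (nat_lit 197) (nat_lit 297) (nat_lit 226)) (XT.nd (nat_lit 94) (nat_lit 0) (nat_lit 0) (XT.lf (nat_lit 168) (nat_lit 9762202124) (nat_lit 0) (nat_lit 3254588322) (nat_lit 84) (nat_lit 3254588322) (nat_lit 20) (nat_lit 1) (nat_lit 18) (nat_lit 1) (nat_lit 19) (nat_lit 1) (nat_lit 198) (nat_lit 297) (nat_lit 225)) (XT.lf (nat_lit 0) (nat_lit 2283663925) (nat_lit 0) (nat_lit 11434887325) (nat_lit 168) (nat_lit 2283663925) (nat_lit 18) (nat_lit 3) (nat_lit 18) (nat_lit 1) (nat_lit 20) (nat_lit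 1) (nat_lit 199) (nat_lit 297) (nat_lit 224)))) (XT.nd (nat_lit 188) (nat_lit 84) (nat_lit 0) (XT.nd (nat_lit 94) (nat_lit 84) (nat_lit 0) (XT.lf (nat_lit 84) (nat_lit 7595055677) (nat_lit 0) (nat_lit 546534234) (nat_lit 168) (nat_lit 7595055677) (nat_lit 17) (nat_lit 1) (nat_lit 16) (nat_lit 1) (nat_lit 18) (nat_lit 1) (nat_lit 200) (nat_lit 297) (nat_lit 223)) (XT.lf (nat_lit 168) (nat_lit 10121337852) (nat_lit 0) (nat_lit 2677557867) (nat_lit 84) (nat_lit 2677557867) (nat_lit 17) (nat_lit 1) (nat_lit 15) (nat_lit 1) (nat_lit 16) (nat_lit 1) (nat_lit 201) (nat_lit 297) (nat_lit 222))) (XT.nd (nat_lit 94) (nat_lit 84) (nat_lit 0) (XT.lf (nat_lit 0) (nat_lit 2564005472) (nat_lit 0) (nat_lit 10092739611) (nat_lit 168) (nat_lit 2564005472) (nat_lit 15) (nat_lit 3) (nat_lit 15) (nat_lit 1) (nat_lit 17) (nat_lit 1) (nat_lit 202) (nat_lit 297) (nat_lit 221)) (XT.lf (nat_lit 84)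 (nat_lit 209675388) (nat_lit 0) (nat_lit 7379898377) (nat_lit 84) (nat_lit 7379898377) (nat_lit 15) (nat_lit 3) (nat_lit 14) (nat_lit 1) (nat_lit 15) (nat_lit 1) (nat_lit 203) (nat_lit 297) (nat_lit 220))))))))
noncomputable def ec170 : XT := (XT.nd (nat_lit 2538) (nat_lit 0) (nat_lit 0) (XT.nd (nat_lit 1222) (nat_lit 0) (nat_lit 0) (XT.nd (nat_lit 564) (nat_lit 672) (nat_lit 0) (XT.nd (nat_lit 282) (nat_lit 252) (nat_lit 0) (XT.nd (nat_lit 94) (nat_lit 84) (nat_lit 0) (XT.lf (nat_lit 168) (nat_lit 10317278275) (nat_lit 0) (nat_lit 2202833483) (nat_lit 84) (nat_lit 2202833483) (nat_lit 14) (nat_lit 1) (nat_lit 12) (nat_lit 1) (nat_lit 13) (nat_lit 1) (nat_lit 204) (nat_lit 297) (nat_lit 219)) (XT.nd (nat_lit 94) (nat_lit 84) (nat_lit 0) (XT.lf (nat_lit 0) (nat_lit 2762013181) (nat_lit 0) (nat_lit 8955921389) (nat_lit 168) (nat_lit 2762013181) (nat_lit 12) (nat_lit 3) (nat_lit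 12) (nat_lit 1) (nat_lit 14) (nat_lit 1) (nat_lit 205) (nat_lit 297) (nat_lit 218)) (XT.lf (nat_lit 84) (nat_lit 814574195) (nat_lit 0) (nat_lit 6713534393) (nat_lit 84) (nat_lit 6713534393) (nat_lit 12) (nat_lit 3) (nat_lit 11) (nat_lit 1) (nat_lit 12) (nat_lit 1) (nat_lit 206) (nat_lit 297) (nat_lit 217)))) (XT.nd (nat_lit 94) (nat_lit 84) (nat_lit 0) (XT.lf (nat_lit 168) (nat_lit 10383696633) (nat_lit 0) (nat_lit 1812276558) (nat_lit 84) (nat_lit 1812276558) (nat_lit 11) (nat_lit 1) (nat_lit 9) (nat_lit 1) (nat_lit 10) (nat_lit 1) (nat_lit 207) (nat_lit 297) (nat_lit 216)) (XT.nd (nat_lit 94) (nat_lit 84) (nat_lit 0) (XT.lf (nat_lit 0) (nat_lit 2893838444) (nat_lit 0) (nat_lit 7989582055) (nat_lit 168) (nat_lit 2893838444) (nat_lit 9) (nat_lit 3) (nat_lit 9) (nat_lit 1) (nat_lit 11) (nat_lit 1) (nat_lit 208) (nat_lit 297) (nat_lit 215)) (XT.lf (nat_lit 84) (nat_lit 1281651000)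 (nat_lit 0) (nat_lit 6134740154) (nat_lit 84) (nat_lit 6134740154) (nat_lit 9) (nat_lit 3) (nat_lit 8) (nat_lit 1) (nat_lit 9) (nat_lit 1) (nat_lit 209) (nat_lit 297) (nat_lit 214))))) (XT.nd (nat_lit 282) (nat_lit 420) (nat_lit 0) (XT.nd (nat_lit 94) (nat_lit 84) (nat_lit 0) (XT.lf (nat_lit 168) (nat_lit 10348070311) (nat_lit 0) (nat_lit 1490964409) (nat_lit 84) (nat_lit 1490964409) (nat_lit 8) (nat_lit 1) (nat_lit 6) (nat_lit 1) (nat_lit 7) (nat_lit 1) (nat_lit 210) (nat_lit 297) (nat_lit 213)) (XT.nd (nat_lit 94) (nat_lit 84) (nat_lit 0) (XT.lf (nat_lit 0) (nat_lit 2972695064) (nat_lit 0) (nat_lit 7164975944) (nat_lit 168) (nat_lit 2972695064) (nat_lit 6) (nat_lit 3) (nat_lit 6) (nat_lit 1) (nat_lit 8) (nat_lit 1) (nat_lit 211) (nat_lit 297) (nat_lit 212)) (XT.lf (nat_lit 84) (nat_lit 1636797254) (nat_lit 0) (nat_lit 5629445711) (nat_lit 84) (nat_lit 5629445711) (nat_lit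 6) (nat_lit 3) (nat_lit 5) (nat_lit 1) (nat_lit 6) (nat_lit 1) (nat_lit 212) (nat_lit 297) (nat_lit 211)))) (XT.nd (nat_lit 188) (nat_lit 252) (nat_lit 0) (XT.nd (nat_lit 94) (nat_lit 0) (nat_lit 0) (XT.lf (nat_lit 168) (nat_lit 10232790096) (nat_lit 0) (nat_lit 1226620109) (nat_lit 84) (nat_lit 1226620109) (nat_lit 5) (nat_lit 1) (nat_lit 3) (nat_lit 1) (nat_lit 4) (nat_lit 1) (nat_lit 213) (nat_lit 297) (nat_lit 210)) (XT.lf (nat_lit 0) (nat_lit 3009383599) (nat_lit 0) (nat_lit 6458383454) (nat_lit 168) (nat_lit 3009383599) (nat_lit 3) (nat_lit 3) (nat_lit 3) (nat_lit 1) (nat_lit 5) (nat_lit 1) (nat_lit 214) (nat_lit 297) (nat_lit 209))) (XT.nd (nat_lit 94) (nat_lit 168) (nat_lit 0) (XT.lf (nat_lit 84) (nat_lit 1901244584) (nat_lit 0) (nat_lit 5186006351) (nat_lit 84) (nat_lit 5186006351) (nat_lit 3) (nat_lit 3) (nat_lit 2) (nat_lit 1) (nat_lit 3) (nat_lit 1) (nat_lit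 215) (nat_lit 297) (nat_lit 208)) (XT.lf (nat_lit 0) (nat_lit 17540276666) (nat_lit 0) (nat_lit 0) (nat_lit 0) (nat_lit 0) (nat_lit 0) (nat_lit 0) (nat_lit 1) (nat_lit 0) (nat_lit 1) (nat_lit 0) (nat_lit 216) (nat_lit 297) (nat_lit 207)))))) (XT.nd (nat_lit 658) (nat_lit 0) (nat_lit 0) (XT.nd (nat_lit 282) (nat_lit 0) (nat_lit 0) (XT.nd (nat_lit 94) (nat_lit 0) (nat_lit 0) (XT.lf (nat_lit 0) (nat_lit 17530057071) (nat_lit 0) (nat_lit 0) (nat_lit 0) (nat_lit 0) (nat_lit 0) (nat_lit 0) (nat_lit 1) (nat_lit 0) (nat_lit 1) (nat_lit 0) (nat_lit 217) (nat_lit 297) (nat_lit 206)) (XT.nd (nat_lit 94) (nat_lit 0) (nat_lit 0) (XT.lf (nat_lit 0) (nat_lit 17520324123) (nat_lit 0) (nat_lit 0) (nat_lit 0) (nat_lit 0) (nat_lit 0) (nat_lit 0) (nat_lit 1) (nat_lit 0) (nat_lit 1) (nat_lit 0) (nat_lit 218) (nat_lit 297) (nat_lit 205)) (XT.lf (nat_lit 0) (nat_lit 17511054648) (nat_lit 0) (nat_lit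 0) (nat_lit 0) (nat_lit 0) (nat_lit 0) (nat_lit 0) (nat_lit 1) (nat_lit 0) (nat_lit 1) (nat_lit 0) (nat_lit 219) (nat_lit 297) (nat_lit 204)))) (XT.nd (nat_lit 188) (nat_lit 0) (nat_lit 0) (XT.nd (nat_lit 94) (nat_lit 0) (nat_lit 0) (XT.lf (nat_lit 0) (nat_lit 17502226577) (nat_lit 0) (nat_lit 0) (nat_lit 0) (nat_lit 0) (nat_lit 0) (nat_lit 0) (nat_lit 1) (nat_lit 0) (nat_lit 1) (nat_lit 0) (nat_lit 220) (nat_lit 297) (nat_lit 203)) (XT.lf (nat_lit 0) (nat_lit 17493818891) (nat_lit 0) (nat_lit 0) (nat_lit 0) (nat_lit 0) (nat_lit 0) (nat_lit 0) (nat_lit 1) (nat_lit 0) (nat_lit 1) (nat_lit 0) (nat_lit 221) (nat_lit 297) (nat_lit 202))) (XT.nd (nat_lit 94) (nat_lit 0) (nat_lit 0) (XT.lf (nat_lit 0) (nat_lit 17485811571) (nat_lit 0) (nat_lit 0) (nat_lit 0) (nat_lit 0) (nat_lit 0) (nat_lit 0) (nat_lit 1) (nat_lit 0) (nat_lit 1) (nat_lit 0) (nat_lit 222) (nat_lit 297) (nat_lit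 201)) (XT.lf (nat_lit 0) (nat_lit 17478185551) (nat_lit 0) (nat_lit 0) (nat_lit 0) (nat_lit 0) (nat_lit 0) (nat_lit 0) (nat_lit 1) (nat_lit 0) (nat_lit 1) (nat_lit 0) (nat_lit 223) (nat_lit 297) (nat_lit 200))))) (XT.nd (nat_lit 282) (nat_lit 0) (nat_lit 0) (XT.nd (nat_lit 94) (nat_lit 0) (nat_lit 0) (XT.lf (nat_lit 0) (nat_lit 17470922675) (nat_lit 0) (nat_lit 0) (nat_lit 0) (nat_lit 0) (nat_lit 0) (nat_lit 0) (nat_lit 1) (nat_lit 0) (nat_lit 1) (nat_lit 0) (nat_lit 224) (nat_lit 297) (nat_lit 199)) (XT.nd (nat_lit 94) (nat_lit 0) (nat_lit 0) (XT.lf (nat_lit 0) (nat_lit 17464005651) (nat_lit 0) (nat_lit 0) (nat_lit 0) (nat_lit 0) (nat_lit 0) (nat_lit 0) (nat_lit 1) (nat_lit 0) (nat_lit 1) (nat_lit 0) (nat_lit 225) (nat_lit 297) (nat_lit 198)) (XT.lf (nat_lit 0) (nat_lit 17457418008) (nat_lit 0) (nat_lit 0) (nat_lit 0) (nat_lit 0) (nat_lit 0) (nat_lit 0) (nat_lit 1) (nat_lit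 0) (nat_lit 1) (nat_lit 0) (nat_lit 226) (nat_lit 297) (nat_lit 197)))) (XT.nd (nat_lit 188) (nat_lit 0) (nat_lit 0) (XT.nd (nat_lit 94) (nat_lit 0) (nat_lit 0) (XT.lf (nat_lit 0) (nat_lit 17451144063) (nat_lit 0) (nat_lit 0) (nat_lit 0) (nat_lit 0) (nat_lit 0) (nat_lit 0) (nat_lit 1) (nat_lit 0) (nat_lit 1) (nat_lit 0) (nat_lit 227) (nat_lit 297) (nat_lit 196)) (XT.lf (nat_lit 0) (nat_lit 17445168877) (nat_lit 0) (nat_lit 0) (nat_lit 0) (nat_lit 0) (nat_lit 0) (nat_lit 0) (nat_lit 1) (nat_lit 0) (nat_lit 1) (nat_lit 0) (nat_lit 228) (nat_lit 297) (nat_lit 195))) (XT.nd (nat_lit 94) (nat_lit 0) (nat_lit 0) (XT.lf (nat_lit 0) (nat_lit 17439478224) (nat_lit 0) (nat_lit 0) (nat_lit 0) (nat_lit 0) (nat_lit 0) (nat_lit 0) (nat_lit 1) (nat_lit 0) (nat_lit 1) (nat_lit 0) (nat_lit 229) (nat_lit 297) (nat_lit 194)) (XT.lf (nat_lit 0) (nat_lit 17434058555) (nat_lit 0) (nat_lit 0)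 (nat_lit 0) (nat_lit 0) (nat_lit 0) (nat_lit 0) (nat_lit 1) (nat_lit 0) (nat_lit 1) (nat_lit 0) (nat_lit 230) (nat_lit 297) (nat_lit 193))))))) (XT.nd (nat_lit 1222) (nat_lit 0) (nat_lit 0) (XT.nd (nat_lit 564) (nat_lit 0) (nat_lit 0) (XT.nd (nat_lit 282) (nat_lit 0) (nat_lit 0) (XT.nd (nat_lit 94) (nat_lit 0) (nat_lit 0) (XT.lf (nat_lit 0) (nat_lit 17428896964) (nat_lit 0) (nat_lit 0) (nat_lit 0) (nat_lit 0) (nat_lit 0) (nat_lit 0) (nat_lit 1) (nat_lit 0) (nat_lit 1) (nat_lit 0) (nat_lit 231) (nat_lit 297) (nat_lit 192)) (XT.nd (nat_lit 94) (nat_lit 0) (nat_lit 0) (XT.lf (nat_lit 0) (nat_lit 17423981164) (nat_lit 0) (nat_lit 0) (nat_lit 0) (nat_lit 0) (nat_lit 0) (nat_lit 0) (nat_lit 1) (nat_lit 0) (nat_lit 1) (nat_lit 0) (nat_lit 232) (nat_lit 297) (nat_lit 191)) (XT.lf (nat_lit 0) (nat_lit 17419299450) (nat_lit 0) (nat_lit 0) (nat_lit 0) (nat_lit 0) (nat_lit 0) (nat_lit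 0) (nat_lit 1) (nat_lit 0) (nat_lit 1) (nat_lit 0) (nat_lit 233) (nat_lit 297) (nat_lit 190)))) (XT.nd (nat_lit 94) (nat_lit 0) (nat_lit 0) (XT.lf (nat_lit 0) (nat_lit 17414840674) (nat_lit 0) (nat_lit 0) (nat_lit 0) (nat_lit 0) (nat_lit 0) (nat_lit 0) (nat_lit 1) (nat_lit 0) (nat_lit 1) (nat_lit 0) (nat_lit 234) (nat_lit 297) (nat_lit 189)) (XT.nd (nat_lit 94) (nat_lit 0) (nat_lit 0) (XT.lf (nat_lit 0) (nat_lit 17410594221) (nat_lit 0) (nat_lit 0) (nat_lit 0) (nat_lit 0) (nat_lit 0) (nat_lit 0) (nat_lit 1) (nat_lit 0) (nat_lit 1) (nat_lit 0) (nat_lit 235) (nat_lit 297) (nat_lit 188)) (XT.lf (nat_lit 0) (nat_lit 17406549980) (nat_lit 0) (nat_lit 0) (nat_lit 0) (nat_lit 0) (nat_lit 0) (nat_lit 0) (nat_lit 1) (nat_lit 0) (nat_lit 1) (nat_lit 0) (nat_lit 236) (nat_lit 297) (nat_lit 187))))) (XT.nd (nat_lit 282) (nat_lit 0) (nat_lit 0) (XT.nd (nat_lit 94) (nat_lit 0) (nat_lit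 0) (XT.lf (nat_lit 0) (nat_lit 17402698322) (nat_lit 0) (nat_lit 0) (nat_lit 0) (nat_lit 0) (nat_lit 0) (nat_lit 0) (nat_lit 1) (nat_lit 0) (nat_lit 1) (nat_lit 0) (nat_lit 237) (nat_lit 297) (nat_lit 186)) (XT.nd (nat_lit 94) (nat_lit 0) (nat_lit 0) (XT.lf (nat_lit 0) (nat_lit 17399030076) (nat_lit 0) (nat_lit 0) (nat_lit 0) (nat_lit 0) (nat_lit 0) (nat_lit 0) (nat_lit 1) (nat_lit 0) (nat_lit 1) (nat_lit 0) (nat_lit 238) (nat_lit 297) (nat_lit 185)) (XT.lf (nat_lit 0) (nat_lit 17395536509) (nat_lit 0) (nat_lit 0) (nat_lit 0) (nat_lit 0) (nat_lit 0) (nat_lit 0) (nat_lit 1) (nat_lit 0) (nat_lit 1) (nat_lit 0) (nat_lit 239) (nat_lit 297) (nat_lit 184)))) (XT.nd (nat_lit 188) (nat_lit 0) (nat_lit 0) (XT.nd (nat_lit 94) (nat_lit 0) (nat_lit 0) (XT.lf (nat_lit 0) (nat_lit 17392209302) (nat_lit 0) (nat_lit 0) (nat_lit 0) (nat_lit 0) (nat_lit 0) (nat_lit 0) (nat_lit 1) (nat_lit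 0) (nat_lit 1) (nat_lit 0) (nat_lit 240) (nat_lit 297) (nat_lit 183)) (XT.lf (nat_lit 0) (nat_lit 17389040533) (nat_lit 0) (nat_lit 0) (nat_lit 0) (nat_lit 0) (nat_lit 0) (nat_lit 0) (nat_lit 1) (nat_lit 0) (nat_lit 1) (nat_lit 0) (nat_lit 241) (nat_lit 297) (nat_lit 182))) (XT.nd (nat_lit 94) (nat_lit 0) (nat_lit 0) (XT.lf (nat_lit 0) (nat_lit 17386022658) (nat_lit 0) (nat_lit 0) (nat_lit 0) (nat_lit 0) (nat_lit 0) (nat_lit 0) (nat_lit 1) (nat_lit 0) (nat_lit 1) (nat_lit 0) (nat_lit 242) (nat_lit 297) (nat_lit 181)) (XT.lf (nat_lit 0) (nat_lit 17383148492) (nat_lit 0) (nat_lit 0) (nat_lit 0) (nat_lit 0) (nat_lit 0) (nat_lit 0) (nat_lit 1) (nat_lit 0) (nat_lit 1) (nat_lit 0) (nat_lit 243) (nat_lit 297) (nat_lit 180)))))) (XT.nd (nat_lit 658) (nat_lit 0) (nat_lit 0) (XT.nd (nat_lit 282) (nat_lit 0) (nat_lit 0) (XT.nd (nat_lit 94) (nat_lit 0) (nat_lit 0) (XT.lf (nat_lit 0)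 (nat_lit 17380411190) (nat_lit 0) (nat_lit 0) (nat_lit 0) (nat_lit 0) (nat_lit 0) (nat_lit 0) (nat_lit 1) (nat_lit 0) (nat_lit 1) (nat_lit 0) (nat_lit 244) (nat_lit 297) (nat_lit 179)) (XT.nd (nat_lit 94) (nat_lit 0) (nat_lit 0) (XT.lf (nat_lit 0) (nat_lit 17377804237) (nat_lit 0) (nat_lit 0) (nat_lit 0) (nat_lit 0) (nat_lit 0) (nat_lit 0) (nat_lit 1) (nat_lit 0) (nat_lit 1) (nat_lit 0) (nat_lit 245) (nat_lit 297) (nat_lit 178)) (XT.lf (nat_lit 0) (nat_lit 17375321424) (nat_lit 0) (nat_lit 0) (nat_lit 0) (nat_lit 0) (nat_lit 0) (nat_lit 0) (nat_lit 1) (nat_lit 0) (nat_lit 1) (nat_lit 0) (nat_lit 246) (nat_lit 297) (nat_lit 177)))) (XT.nd (nat_lit 188) (nat_lit 0) (nat_lit 0) (XT.nd (nat_lit 94) (nat_lit 0) (nat_lit 0) (XT.lf (nat_lit 0) (nat_lit 17372956840) (nat_lit 0) (nat_lit 0) (nat_lit 0) (nat_lit 0) (nat_lit 0) (nat_lit 0) (nat_lit 1) (nat_lit 0) (nat_lit 1) (nat_lit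 0) (nat_lit 247) (nat_lit 297) (nat_lit 176)) (XT.lf (nat_lit 0) (nat_lit 17370704855) (nat_lit 0) (nat_lit 0) (nat_lit 0) (nat_lit 0) (nat_lit 0) (nat_lit 0) (nat_lit 1) (nat_lit 0) (nat_lit 1) (nat_lit 0) (nat_lit 248) (nat_lit 297) (nat_lit 175))) (XT.nd (nat_lit 94) (nat_lit 0) (nat_lit 0) (XT.lf (nat_lit 0) (nat_lit 17368560108) (nat_lit 0) (nat_lit 0) (nat_lit 0) (nat_lit 0) (nat_lit 0) (nat_lit 0) (nat_lit 1) (nat_lit 0) (nat_lit 1) (nat_lit 0) (nat_lit 249) (nat_lit 297) (nat_lit 174)) (XT.lf (nat_lit 0) (nat_lit 17366517491) (nat_lit 0) (nat_lit 0) (nat_lit 0) (nat_lit 0) (nat_lit 0) (nat_lit 0) (nat_lit 1) (nat_lit 0) (nat_lit 1) (nat_lit 0) (nat_lit 250) (nat_lit 297) (nat_lit 173))))) (XT.nd (nat_lit 282) (nat_lit 0) (nat_lit 0) (XT.nd (nat_lit 94) (nat_lit 0) (nat_lit 0) (XT.lf (nat_lit 0) (nat_lit 17364572142) (nat_lit 0) (nat_lit 0) (nat_lit 0) (nat_lit 0)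 (nat_lit 0) (nat_lit 0) (nat_lit 1) (nat_lit 0) (nat_lit 1) (nat_lit 0) (nat_lit 251) (nat_lit 297) (nat_lit 172)) (XT.nd (nat_lit 94) (nat_lit 0) (nat_lit 0) (XT.lf (nat_lit 0) (nat_lit 17362719429) (nat_lit 0) (nat_lit 0) (nat_lit 0) (nat_lit 0) (nat_lit 0) (nat_lit 0) (nat_lit 1) (nat_lit 0) (nat_lit 1) (nat_lit 0) (nat_lit 252) (nat_lit 297) (nat_lit 171)) (XT.lf (nat_lit 0) (nat_lit 17360954940) (nat_lit 0) (nat_lit 0) (nat_lit 0) (nat_lit 0) (nat_lit 0) (nat_lit 0) (nat_lit 1) (nat_lit 0) (nat_lit 1) (nat_lit 0) (nat_lit 253) (nat_lit 297) (nat_lit 170)))) (XT.nd (nat_lit 188) (nat_lit 0) (nat_lit 0) (XT.nd (nat_lit 94) (nat_lit 0) (nat_lit 0) (XT.lf (nat_lit 0) (nat_lit 17359274474) (nat_lit 0) (nat_lit 0) (nat_lit 0) (nat_lit 0) (nat_lit 0) (nat_lit 0) (nat_lit 1) (nat_lit 0) (nat_lit 1) (nat_lit 0) (nat_lit 254) (nat_lit 297) (nat_lit 169)) (XT.lf (nat_lit 0) (nat_lit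 17357674031) (nat_lit 0) (nat_lit 0) (nat_lit 0) (nat_lit 0) (nat_lit 0) (nat_lit 0) (nat_lit 1) (nat_lit 0) (nat_lit 1) (nat_lit 0) (nat_lit 255) (nat_lit 297) (nat_lit 168))) (XT.nd (nat_lit 94) (nat_lit 0) (nat_lit 0) (XT.lf (nat_lit 0) (nat_lit 17356149799) (nat_lit 0) (nat_lit 0) (nat_lit 0) (nat_lit 0) (nat_lit 0) (nat_lit 0) (nat_lit 1) (nat_lit 0) (nat_lit 1) (nat_lit 0) (nat_lit 256) (nat_lit 297) (nat_lit 167)) (XT.lf (nat_lit 0) (nat_lit 17354698149) (nat_lit 0) (nat_lit 0) (nat_lit 0) (nat_lit 0) (nat_lit 0) (nat_lit 0) (nat_lit 1) (nat_lit 0) (nat_lit 1) (nat_lit 0) (nat_lit 257) (nat_lit 297) (nat_lit 166))))))))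
noncomputable def ec171 : XT := (XT.nd (nat_lit 2538) (nat_lit 0) (nat_lit 0) (XT.nd (nat_lit 1222) (nat_lit 0) (nat_lit 0) (XT.nd (nat_lit 564) (nat_lit 0) (nat_lit 0) (XT.nd (nat_lit 282) (nat_lit 0) (nat_lit 0) (XT.nd (nat_lit 94) (nat_lit 0) (nat_lit 0) (XT.lf (nat_lit 0) (nat_lit 17353315626) (nat_lit 0) (nat_lit 0) (nat_lit 0) (nat_lit 0) (nat_lit 0) (nat_lit 0) (nat_lit 1) (nat_lit 0) (nat_lit 1) (nat_lit 0) (nat_lit 258) (nat_lit 297) (nat_lit 165)) (XT.nd (nat_lit 94) (nat_lit 0) (nat_lit 0) (XT.lf (nat_lit 0) (nat_lit 17351998937) (nat_lit 0) (nat_lit 0) (nat_lit 0) (nat_lit 0) (nat_lit 0) (nat_lit 0) (nat_lit 1) (nat_lit 0) (nat_lit 1) (nat_lit 0) (nat_lit 259) (nat_lit 297) (nat_lit 164)) (XT.lf (nat_lit 0) (nat_lit 17350744948) (nat_lit 0) (nat_lit 0) (nat_lit 0) (nat_lit 0) (nat_lit 0) (nat_lit 0) (nat_lit 1) (nat_lit 0) (nat_lit 1) (nat_lit 0) (nat_lit 260)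 (nat_lit 297) (nat_lit 163)))) (XT.nd (nat_lit 94) (nat_lit 0) (nat_lit 0) (XT.lf (nat_lit 0) (nat_lit 17349550672) (nat_lit 0) (nat_lit 0) (nat_lit 0) (nat_lit 0) (nat_lit 0) (nat_lit 0) (nat_lit 1) (nat_lit 0) (nat_lit 1) (nat_lit 0) (nat_lit 261) (nat_lit 297) (nat_lit 162)) (XT.nd (nat_lit 94) (nat_lit 0) (nat_lit 0) (XT.lf (nat_lit 0) (nat_lit 17348413267) (nat_lit 0) (nat_lit 0) (nat_lit 0) (nat_lit 0) (nat_lit 0) (nat_lit 0) (nat_lit 1) (nat_lit 0) (nat_lit 1) (nat_lit 0) (nat_lit 262) (nat_lit 297) (nat_lit 161)) (XT.lf (nat_lit 0) (nat_lit 17347330024) (nat_lit 0) (nat_lit 0) (nat_lit 0) (nat_lit 0) (nat_lit 0) (nat_lit 0) (nat_lit 1) (nat_lit 0) (nat_lit 1) (nat_lit 0) (nat_lit 263) (nat_lit 297) (nat_lit 160))))) (XT.nd (nat_lit 282) (nat_lit 0) (nat_lit 0) (XT.nd (nat_lit 94) (nat_lit 0) (nat_lit 0) (XT.lf (nat_lit 0) (nat_lit 17346298364) (nat_lit 0) (nat_lit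 0) (nat_lit 0) (nat_lit 0) (nat_lit 0) (nat_lit 0) (nat_lit 1) (nat_lit 0) (nat_lit 1) (nat_lit 0) (nat_lit 264) (nat_lit 297) (nat_lit 159)) (XT.nd (nat_lit 94) (nat_lit 0) (nat_lit 0) (XT.lf (nat_lit 0) (nat_lit 17345315830) (nat_lit 0) (nat_lit 0) (nat_lit 0) (nat_lit 0) (nat_lit 0) (nat_lit 0) (nat_lit 1) (nat_lit 0) (nat_lit 1) (nat_lit 0) (nat_lit 265) (nat_lit 297) (nat_lit 158)) (XT.lf (nat_lit 0) (nat_lit 17344380084) (nat_lit 0) (nat_lit 0) (nat_lit 0) (nat_lit 0) (nat_lit 0) (nat_lit 0) (nat_lit 1) (nat_lit 0) (nat_lit 1) (nat_lit 0) (nat_lit 266) (nat_lit 297) (nat_lit 157)))) (XT.nd (nat_lit 188) (nat_lit 0) (nat_lit 0) (XT.nd (nat_lit 94) (nat_lit 0) (nat_lit 0) (XT.lf (nat_lit 0) (nat_lit 17343488897) (nat_lit 0) (nat_lit 0) (nat_lit 0) (nat_lit 0) (nat_lit 0) (nat_lit 0) (nat_lit 1) (nat_lit 0) (nat_lit 1) (nat_lit 0) (nat_lit 267) (nat_lit 297) (nat_lit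 156)) (XT.lf (nat_lit 0) (nat_lit 17342640148) (nat_lit 0) (nat_lit 0) (nat_lit 0) (nat_lit 0) (nat_lit 0) (nat_lit 0) (nat_lit 1) (nat_lit 0) (nat_lit 1) (nat_lit 0) (nat_lit 268) (nat_lit 297) (nat_lit 155))) (XT.nd (nat_lit 94) (nat_lit 0) (nat_lit 0) (XT.lf (nat_lit 0) (nat_lit 17341831815) (nat_lit 0) (nat_lit 0) (nat_lit 0) (nat_lit 0) (nat_lit 0) (nat_lit 0) (nat_lit 1) (nat_lit 0) (nat_lit 1) (nat_lit 0) (nat_lit 269) (nat_lit 297) (nat_lit 154)) (XT.lf (nat_lit 0) (nat_lit 17341061975) (nat_lit 0) (nat_lit 0) (nat_lit 0) (nat_lit 0) (nat_lit 0) (nat_lit 0) (nat_lit 1) (nat_lit 0) (nat_lit 1) (nat_lit 0) (nat_lit 270) (nat_lit 297) (nat_lit 153)))))) (XT.nd (nat_lit 658) (nat_lit 0) (nat_lit 0) (XT.nd (nat_lit 282) (nat_lit 0) (nat_lit 0) (XT.nd (nat_lit 94) (nat_lit 0) (nat_lit 0) (XT.lf (nat_lit 0) (nat_lit 17340328793) (nat_lit 0) (nat_lit 0) (nat_lit 0) (nat_lit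 0) (nat_lit 0) (nat_lit 0) (nat_lit 1) (nat_lit 0) (nat_lit 1) (nat_lit 0) (nat_lit 271) (nat_lit 297) (nat_lit 152)) (XT.nd (nat_lit 94) (nat_lit 0) (nat_lit 0) (XT.lf (nat_lit 0) (nat_lit 17339630525) (nat_lit 0) (nat_lit 0) (nat_lit 0) (nat_lit 0) (nat_lit 0) (nat_lit 0) (nat_lit 1) (nat_lit 0) (nat_lit 1) (nat_lit 0) (nat_lit 272) (nat_lit 297) (nat_lit 151)) (XT.lf (nat_lit 0) (nat_lit 17338965507) (nat_lit 0) (nat_lit 0) (nat_lit 0) (nat_lit 0) (nat_lit 0) (nat_lit 0) (nat_lit 1) (nat_lit 0) (nat_lit 1) (nat_lit 0) (nat_lit 273) (nat_lit 297) (nat_lit 150)))) (XT.nd (nat_lit 188) (nat_lit 0) (nat_lit 0) (XT.nd (nat_lit 94) (nat_lit 0) (nat_lit 0) (XT.lf (nat_lit 0) (nat_lit 17338332158) (nat_lit 0) (nat_lit 0) (nat_lit 0) (nat_lit 0) (nat_lit 0) (nat_lit 0) (nat_lit 1) (nat_lit 0) (nat_lit 1) (nat_lit 0) (nat_lit 274) (nat_lit 297) (nat_lit 149)) (XT.lf (nat_lit 0)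 (nat_lit 17337728967) (nat_lit 0) (nat_lit 0) (nat_lit 0) (nat_lit 0) (nat_lit 0) (nat_lit 0) (nat_lit 1) (nat_lit 0) (nat_lit 1) (nat_lit 0) (nat_lit 275) (nat_lit 297) (nat_lit 148))) (XT.nd (nat_lit 94) (nat_lit 0) (nat_lit 0) (XT.lf (nat_lit 0) (nat_lit 17337154500) (nat_lit 0) (nat_lit 0) (nat_lit 0) (nat_lit 0) (nat_lit 0) (nat_lit 0) (nat_lit 1) (nat_lit 0) (nat_lit 1) (nat_lit 0) (nat_lit 276) (nat_lit 297) (nat_lit 147)) (XT.lf (nat_lit 0) (nat_lit 17336607389) (nat_lit 0) (nat_lit 0) (nat_lit 0) (nat_lit 0) (nat_lit 0) (nat_lit 0) (nat_lit 1) (nat_lit 0) (nat_lit 1) (nat_lit 0) (nat_lit 277) (nat_lit 297) (nat_lit 146))))) (XT.nd (nat_lit 282) (nat_lit 0) (nat_lit 0) (XT.nd (nat_lit 94) (nat_lit 0) (nat_lit 0) (XT.lf (nat_lit 0) (nat_lit 17336086330) (nat_lit 0) (nat_lit 0) (nat_lit 0) (nat_lit 0) (nat_lit 0) (nat_lit 0) (nat_lit 1) (nat_lit 0) (nat_lit 1) (nat_lit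 0) (nat_lit 278) (nat_lit 297) (nat_lit 145)) (XT.nd (nat_lit 94) (nat_lit 0) (nat_lit 0) (XT.lf (nat_lit 0) (nat_lit 17335590084) (nat_lit 0) (nat_lit 0) (nat_lit 0) (nat_lit 0) (nat_lit 0) (nat_lit 0) (nat_lit 1) (nat_lit 0) (nat_lit 1) (nat_lit 0) (nat_lit 279) (nat_lit 297) (nat_lit 144)) (XT.lf (nat_lit 0) (nat_lit 17335117469) (nat_lit 0) (nat_lit 0) (nat_lit 0) (nat_lit 0) (nat_lit 0) (nat_lit 0) (nat_lit 1) (nat_lit 0) (nat_lit 1) (nat_lit 0) (nat_lit 280) (nat_lit 297) (nat_lit 143)))) (XT.nd (nat_lit 188) (nat_lit 0) (nat_lit 0) (XT.nd (nat_lit 94) (nat_lit 0) (nat_lit 0) (XT.lf (nat_lit 0) (nat_lit 17334667359) (nat_lit 0) (nat_lit 0) (nat_lit 0) (nat_lit 0) (nat_lit 0) (nat_lit 0) (nat_lit 1) (nat_lit 0) (nat_lit 1) (nat_lit 0) (nat_lit 281) (nat_lit 297) (nat_lit 142)) (XT.lf (nat_lit 0) (nat_lit 17334238683) (nat_lit 0) (nat_lit 0) (nat_lit 0) (nat_lit 0) (nat_lit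 0) (nat_lit 0) (nat_lit 1) (nat_lit 0) (nat_lit 1) (nat_lit 0) (nat_lit 282) (nat_lit 297) (nat_lit 141))) (XT.nd (nat_lit 94) (nat_lit 0) (nat_lit 0) (XT.lf (nat_lit 0) (nat_lit 17333830420) (nat_lit 0) (nat_lit 0) (nat_lit 0) (nat_lit 0) (nat_lit 0) (nat_lit 0) (nat_lit 1) (nat_lit 0) (nat_lit 1) (nat_lit 0) (nat_lit 283) (nat_lit 297) (nat_lit 140)) (XT.lf (nat_lit 0) (nat_lit 17333441598) (nat_lit 0) (nat_lit 0) (nat_lit 0) (nat_lit 0) (nat_lit 0) (nat_lit 0) (nat_lit 1) (nat_lit 0) (nat_lit 1) (nat_lit 0) (nat_lit 284) (nat_lit 297) (nat_lit 139))))))) (XT.nd (nat_lit 1316) (nat_lit 0) (nat_lit 0) (XT.nd (nat_lit 658) (nat_lit 0) (nat_lit 0) (XT.nd (nat_lit 282) (nat_lit 0) (nat_lit 0) (XT.nd (nat_lit 94) (nat_lit 0) (nat_lit 0) (XT.lf (nat_lit 0) (nat_lit 17333071292) (nat_lit 0) (nat_lit 0) (nat_lit 0) (nat_lit 0) (nat_lit 0) (nat_lit 0) (nat_lit 1) (nat_lit 0) (nat_lit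 1) (nat_lit 0) (nat_lit 285) (nat_lit 297) (nat_lit 138)) (XT.nd (nat_lit 94) (nat_lit 0) (nat_lit 0) (XT.lf (nat_lit 0) (nat_lit 17332718619) (nat_lit 0) (nat_lit 0) (nat_lit 0) (nat_lit 0) (nat_lit 0) (nat_lit 0) (nat_lit 1) (nat_lit 0) (nat_lit 1) (nat_lit 0) (nat_lit 286) (nat_lit 297) (nat_lit 137)) (XT.lf (nat_lit 0) (nat_lit 17332382740) (nat_lit 0) (nat_lit 0) (nat_lit 0) (nat_lit 0) (nat_lit 0) (nat_lit 0) (nat_lit 1) (nat_lit 0) (nat_lit 1) (nat_lit 0) (nat_lit 287) (nat_lit 297) (nat_lit 136)))) (XT.nd (nat_lit 188) (nat_lit 0) (nat_lit 0) (XT.nd (nat_lit 94) (nat_lit 0) (nat_lit 0) (XT.lf (nat_lit 0) (nat_lit 17332062855) (nat_lit 0) (nat_lit 0) (nat_lit 0) (nat_lit 0) (nat_lit 0) (nat_lit 0) (nat_lit 1) (nat_lit 0) (nat_lit 1) (nat_lit 0) (nat_lit 288) (nat_lit 297) (nat_lit 135)) (XT.lf (nat_lit 0) (nat_lit 17331758203) (nat_lit 0) (nat_lit 0) (nat_lit 0) (nat_lit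 0) (nat_lit 0) (nat_lit 0) (nat_lit 1) (nat_lit 0) (nat_lit 1) (nat_lit 0) (nat_lit 289) (nat_lit 297) (nat_lit 134))) (XT.nd (nat_lit 94) (nat_lit 0) (nat_lit 0) (XT.lf (nat_lit 0) (nat_lit 17331468058) (nat_lit 0) (nat_lit 0) (nat_lit 0) (nat_lit 0) (nat_lit 0) (nat_lit 0) (nat_lit 1) (nat_lit 0) (nat_lit 1) (nat_lit 0) (nat_lit 290) (nat_lit 297) (nat_lit 133)) (XT.lf (nat_lit 0) (nat_lit 17331191730) (nat_lit 0) (nat_lit 0) (nat_lit 0) (nat_lit 0) (nat_lit 0) (nat_lit 0) (nat_lit 1) (nat_lit 0) (nat_lit 1) (nat_lit 0) (nat_lit 291) (nat_lit 297) (nat_lit 132))))) (XT.nd (nat_lit 282) (nat_lit 0) (nat_lit 0) (XT.nd (nat_lit 94) (nat_lit 0) (nat_lit 0) (XT.lf (nat_lit 0) (nat_lit 17330928560) (nat_lit 0) (nat_lit 0) (nat_lit 0) (nat_lit 0) (nat_lit 0) (nat_lit 0) (nat_lit 1) (nat_lit 0) (nat_lit 1) (nat_lit 0) (nat_lit 292) (nat_lit 297) (nat_lit 131)) (XT.nd (nat_lit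 94) (nat_lit 0) (nat_lit 0) (XT.lf (nat_lit 0) (nat_lit 17330677922) (nat_lit 0) (nat_lit 0) (nat_lit 0) (nat_lit 0) (nat_lit 0) (nat_lit 0) (nat_lit 1) (nat_lit 0) (nat_lit 1) (nat_lit 0) (nat_lit 293) (nat_lit 297) (nat_lit 130)) (XT.lf (nat_lit 0) (nat_lit 17330439219) (nat_lit 0) (nat_lit 0) (nat_lit 0) (nat_lit 0) (nat_lit 0) (nat_lit 0) (nat_lit 1) (nat_lit 0) (nat_lit 1) (nat_lit 0) (nat_lit 294) (nat_lit 297) (nat_lit 129)))) (XT.nd (nat_lit 188) (nat_lit 0) (nat_lit 0) (XT.nd (nat_lit 94) (nat_lit 0) (nat_lit 0) (XT.lf (nat_lit 0) (nat_lit 17330211883) (nat_lit 0) (nat_lit 0) (nat_lit 0) (nat_lit 0) (nat_lit 0) (nat_lit 0) (nat_lit 1) (nat_lit 0) (nat_lit 1) (nat_lit 0) (nat_lit 295) (nat_lit 297) (nat_lit 128)) (XT.lf (nat_lit 0) (nat_lit 17329995372) (nat_lit 0) (nat_lit 0) (nat_lit 0) (nat_lit 0) (nat_lit 0) (nat_lit 0) (nat_lit 1) (nat_lit 0) (nat_lit 1) (nat_lit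 0) (nat_lit 296) (nat_lit 297) (nat_lit 127))) (XT.nd (nat_lit 94) (nat_lit 0) (nat_lit 0) (XT.lf (nat_lit 0) (nat_lit 17329789172) (nat_lit 0) (nat_lit 0) (nat_lit 0) (nat_lit 0) (nat_lit 0) (nat_lit 0) (nat_lit 1) (nat_lit 0) (nat_lit 1) (nat_lit 0) (nat_lit 297) (nat_lit 297) (nat_lit 126)) (XT.lf (nat_lit 0) (nat_lit 17329592790) (nat_lit 0) (nat_lit 0) (nat_lit 0) (nat_lit 0) (nat_lit 0) (nat_lit 0) (nat_lit 1) (nat_lit 0) (nat_lit 1) (nat_lit 0) (nat_lit 298) (nat_lit 297) (nat_lit 125)))))) (XT.nd (nat_lit 658) (nat_lit 0) (nat_lit 0) (XT.nd (nat_lit 282) (nat_lit 0) (nat_lit 0) (XT.nd (nat_lit 94) (nat_lit 0) (nat_lit 0) (XT.lf (nat_lit 0) (nat_lit 17329405760) (nat_lit 0) (nat_lit 0) (nat_lit 0) (nat_lit 0) (nat_lit 0) (nat_lit 0) (nat_lit 1) (nat_lit 0) (nat_lit 1) (nat_lit 0) (nat_lit 299) (nat_lit 297) (nat_lit 124)) (XT.nd (nat_lit 94) (nat_lit 0) (nat_lit 0)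 (XT.lf (nat_lit 0) (nat_lit 17329227636) (nat_lit 0) (nat_lit 0) (nat_lit 0) (nat_lit 0) (nat_lit 0) (nat_lit 0) (nat_lit 1) (nat_lit 0) (nat_lit 1) (nat_lit 0) (nat_lit 300) (nat_lit 297) (nat_lit 123)) (XT.lf (nat_lit 0) (nat_lit 17329057995) (nat_lit 0) (nat_lit 0) (nat_lit 0) (nat_lit 0) (nat_lit 0) (nat_lit 0) (nat_lit 1) (nat_lit 0) (nat_lit 1) (nat_lit 0) (nat_lit 301) (nat_lit 297) (nat_lit 122)))) (XT.nd (nat_lit 188) (nat_lit 0) (nat_lit 0) (XT.nd (nat_lit 94) (nat_lit 0) (nat_lit 0) (XT.lf (nat_lit 0) (nat_lit 17328896431) (nat_lit 0) (nat_lit 0) (nat_lit 0) (nat_lit 0) (nat_lit 0) (nat_lit 0) (nat_lit 1) (nat_lit 0) (nat_lit 1) (nat_lit 0) (nat_lit 302) (nat_lit 297) (nat_lit 121)) (XT.lf (nat_lit 0) (nat_lit 17328742561) (nat_lit 0) (nat_lit 0) (nat_lit 0) (nat_lit 0) (nat_lit 0) (nat_lit 0) (nat_lit 1) (nat_lit 0) (nat_lit 1) (nat_lit 0) (nat_lit 303) (nat_lit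 297) (nat_lit 120))) (XT.nd (nat_lit 94) (nat_lit 0) (nat_lit 0) (XT.lf (nat_lit 0) (nat_lit 17328596018) (nat_lit 0) (nat_lit 0) (nat_lit 0) (nat_lit 0) (nat_lit 0) (nat_lit 0) (nat_lit 1) (nat_lit 0) (nat_lit 1) (nat_lit 0) (nat_lit 304) (nat_lit 297) (nat_lit 119)) (XT.lf (nat_lit 0) (nat_lit 17328456454) (nat_lit 0) (nat_lit 0) (nat_lit 0) (nat_lit 0) (nat_lit 0) (nat_lit 0) (nat_lit 1) (nat_lit 0) (nat_lit 1) (nat_lit 0) (nat_lit 305) (nat_lit 297) (nat_lit 118))))) (XT.nd (nat_lit 282) (nat_lit 0) (nat_lit 0) (XT.nd (nat_lit 94) (nat_lit 0) (nat_lit 0) (XT.lf (nat_lit 0) (nat_lit 17328323535) (nat_lit 0) (nat_lit 0) (nat_lit 0) (nat_lit 0) (nat_lit 0) (nat_lit 0) (nat_lit 1) (nat_lit 0) (nat_lit 1) (nat_lit 0) (nat_lit 306) (nat_lit 297) (nat_lit 117)) (XT.nd (nat_lit 94) (nat_lit 0) (nat_lit 0) (XT.lf (nat_lit 0) (nat_lit 17328196946) (nat_lit 0) (nat_lit 0) (nat_lit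 0) (nat_lit 0) (nat_lit 0) (nat_lit 0) (nat_lit 1) (nat_lit 0) (nat_lit 1) (nat_lit 0) (nat_lit 307) (nat_lit 297) (nat_lit 116)) (XT.lf (nat_lit 0) (nat_lit 17328076385) (nat_lit 0) (nat_lit 0) (nat_lit 0) (nat_lit 0) (nat_lit 0) (nat_lit 0) (nat_lit 1) (nat_lit 0) (nat_lit 1) (nat_lit 0) (nat_lit 308) (nat_lit 297) (nat_lit 115)))) (XT.nd (nat_lit 188) (nat_lit 0) (nat_lit 0) (XT.nd (nat_lit 94) (nat_lit 0) (nat_lit 0) (XT.lf (nat_lit 0) (nat_lit 17327961564) (nat_lit 0) (nat_lit 0) (nat_lit 0) (nat_lit 0) (nat_lit 0) (nat_lit 0) (nat_lit 1) (nat_lit 0) (nat_lit 1) (nat_lit 0) (nat_lit 309) (nat_lit 297) (nat_lit 114)) (XT.lf (nat_lit 0) (nat_lit 17327852212) (nat_lit 0) (nat_lit 0) (nat_lit 0) (nat_lit 0) (nat_lit 0) (nat_lit 0) (nat_lit 1) (nat_lit 0) (nat_lit 1) (nat_lit 0) (nat_lit 310) (nat_lit 297) (nat_lit 113))) (XT.nd (nat_lit 27636) (nat_lit 0) (nat_lit 10752)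 (XT.lf (nat_lit 0) (nat_lit 17327748067) (nat_lit 0) (nat_lit 0) (nat_lit 0) (nat_lit 0) (nat_lit 0) (nat_lit 0) (nat_lit 1) (nat_lit 0) (nat_lit 1) (nat_lit 0) (nat_lit 311) (nat_lit 297) (nat_lit 112)) (XT.lf (nat_lit 924) (nat_lit 9103932415) (nat_lit 0) (nat_lit 16164011078) (nat_lit 924) (nat_lit 9103932415) (nat_lit 139) (nat_lit 1) (nat_lit 128) (nat_lit 0) (nat_lit 139) (nat_lit 0) (nat_lit 124) (nat_lit 298) (nat_lit 298))))))))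
noncomputable def ec172 : XT := (XT.nd (nat_lit 2538) (nat_lit 3528) (nat_lit 0) (XT.nd (nat_lit 1222) (nat_lit 2940) (nat_lit 0) (XT.nd (nat_lit 564) (nat_lit 1008) (nat_lit 0) (XT.nd (nat_lit 282) (nat_lit 0) (nat_lit 168) (XT.nd (nat_lit 94) (nat_lit 0) (nat_lit 84) (XT.lf (nat_lit 924) (nat_lit 35287978625) (nat_lit 84) (nat_lit 15903301222) (nat_lit 0) (nat_lit 15903301222) (nat_lit 139) (nat_lit 1) (nat_lit 129) (nat_lit 1) (nat_lit 128) (nat_lit 0) (nat_lit 125) (nat_lit 298) (nat_lit 297)) (XT.nd (nat_lit 94) (nat_lit 0) (nat_lit 0) (XT.lf (nat_lit 924) (nat_lit 16817719282) (nat_lit 0) (nat_lit 31860956482) (nat_lit 840) (nat_lit 16817719282) (nat_lit 140) (nat_lit 1) (nat_lit 129) (nat_lit 1) (nat_lit 139) (nat_lit 1) (nat_lit 126) (nat_lit 298) (nat_lit 296)) (XT.lf (nat_lit 924) (nat_lit 31547704491) (nat_lit 84) (nat_lit 16201068924) (nat_lit 0) (nat_lit 16201068924)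 (nat_lit 140) (nat_lit 1) (nat_lit 130) (nat_lit 1) (nat_lit 129) (nat_lit 1) (nat_lit 127) (nat_lit 298) (nat_lit 295)))) (XT.nd (nat_lit 94) (nat_lit 0) (nat_lit 0) (XT.lf (nat_lit 924) (nat_lit 14521105422) (nat_lit 0) (nat_lit 33410096751) (nat_lit 840) (nat_lit 14521105422) (nat_lit 141) (nat_lit 1) (nat_lit 130) (nat_lit 1) (nat_lit 140) (nat_lit 1) (nat_lit 128) (nat_lit 298) (nat_lit 294)) (XT.nd (nat_lit 94) (nat_lit 0) (nat_lit 84) (XT.lf (nat_lit 924) (nat_lit 26117153890) (nat_lit 84) (nat_lit 17441634772) (nat_lit 0) (nat_lit 17441634772) (nat_lit 141) (nat_lit 1) (nat_lit 131) (nat_lit 1) (nat_lit 130) (nat_lit 1) (nat_lit 129) (nat_lit 298) (nat_lit 293)) (XT.lf (nat_lit 924) (nat_lit 11451617649) (nat_lit 0) (nat_lit 36694053216) (nat_lit 840) (nat_lit 11451617649) (nat_lit 142) (nat_lit 1) (nat_lit 131) (nat_lit 1) (nat_lit 141) (nat_lit 1) (nat_lit 130)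 (nat_lit 298) (nat_lit 292))))) (XT.nd (nat_lit 282) (nat_lit 1260) (nat_lit 0) (XT.nd (nat_lit 94) (nat_lit 0) (nat_lit 84) (XT.lf (nat_lit 924) (nat_lit 19250520881) (nat_lit 84) (nat_lit 19491132913) (nat_lit 0) (nat_lit 19491132913) (nat_lit 142) (nat_lit 1) (nat_lit 132) (nat_lit 1) (nat_lit 131) (nat_lit 1) (nat_lit 131) (nat_lit 298) (nat_lit 291)) (XT.nd (nat_lit 94) (nat_lit 0) (nat_lit 0) (XT.lf (nat_lit 924) (nat_lit 7728081468) (nat_lit 0) (nat_lit 41462070511) (nat_lit 840) (nat_lit 7728081468) (nat_lit 143) (nat_lit 1) (nat_lit 132) (nat_lit 1) (nat_lit 142) (nat_lit 1) (nat_lit 132) (nat_lit 298) (nat_lit 290)) (XT.lf (nat_lit 924) (nat_lit 11173745630) (nat_lit 84) (nat_lit 22230343712) (nat_lit 0) (nat_lit 22230343712) (nat_lit 143) (nat_lit 1) (nat_lit 133) (nat_lit 1) (nat_lit 132) (nat_lit 1) (nat_lit 133) (nat_lit 298) (nat_lit 289)))) (XT.nd (nat_lit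 188) (nat_lit 588) (nat_lit 0) (XT.nd (nat_lit 94) (nat_lit 840) (nat_lit 0) (XT.lf (nat_lit 84) (nat_lit 3456038400) (nat_lit 0) (nat_lit 47490966538) (nat_lit 840) (nat_lit 3456038400) (nat_lit 134) (nat_lit 1) (nat_lit 133) (nat_lit 1) (nat_lit 143) (nat_lit 1) (nat_lit 134) (nat_lit 298) (nat_lit 288)) (XT.lf (nat_lit 924) (nat_lit 2087361249) (nat_lit 0) (nat_lit 25553227291) (nat_lit 840) (nat_lit 25553227291) (nat_lit 134) (nat_lit 1) (nat_lit 123) (nat_lit 1) (nat_lit 133) (nat_lit 1) (nat_lit 135) (nat_lit 298) (nat_lit 287))) (XT.nd (nat_lit 94) (nat_lit 0) (nat_lit 0) (XT.lf (nat_lit 588) (nat_lit 49535711202) (nat_lit 0) (nat_lit 1250413900) (nat_lit 504) (nat_lit 1250413900) (nat_lit 123) (nat_lit 1) (nat_lit 116) (nat_lit 1) (nat_lit 122) (nat_lit 1) (nat_lit 136) (nat_lit 298) (nat_lit 286)) (XT.lf (nat_lit 84) (nat_lit 21656926723) (nat_lit 0) (nat_lit 7580295701)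 (nat_lit 588) (nat_lit 21656926723) (nat_lit 117) (nat_lit 1) (nat_lit 116) (nat_lit 1) (nat_lit 123) (nat_lit 1) (nat_lit 137) (nat_lit 298) (nat_lit 285)))))) (XT.nd (nat_lit 658) (nat_lit 1344) (nat_lit 0) (XT.nd (nat_lit 282) (nat_lit 756) (nat_lit 0) (XT.nd (nat_lit 94) (nat_lit 420) (nat_lit 0) (XT.lf (nat_lit 504) (nat_lit 37266011799) (nat_lit 0) (nat_lit 6267162485) (nat_lit 420) (nat_lit 6267162485) (nat_lit 117) (nat_lit 1) (nat_lit 111) (nat_lit 1) (nat_lit 116) (nat_lit 1) (nat_lit 138) (nat_lit 298) (nat_lit 284)) (XT.nd (nat_lit 94) (nat_lit 420) (nat_lit 0) (XT.lf (nat_lit 84) (nat_lit 15447622192) (nat_lit 0) (nat_lit 17834274967) (nat_lit 504) (nat_lit 15447622192) (nat_lit 112) (nat_lit 1) (nat_lit 111) (nat_lit 1) (nat_lit 117) (nat_lit 1) (nat_lit 139) (nat_lit 298) (nat_lit 283)) (XT.lf (nat_lit 504) (nat_lit 24540197250) (nat_lit 0) (nat_lit 11577899194)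 (nat_lit 420) (nat_lit 11577899194) (nat_lit 112) (nat_lit 1) (nat_lit 106) (nat_lit 1) (nat_lit 111) (nat_lit 1) (nat_lit 140) (nat_lit 298) (nat_lit 282)))) (XT.nd (nat_lit 188) (nat_lit 420) (nat_lit 0) (XT.nd (nat_lit 94) (nat_lit 336) (nat_lit 0) (XT.lf (nat_lit 84) (nat_lit 9042736546) (nat_lit 0) (nat_lit 28607057185) (nat_lit 504) (nat_lit 9042736546) (nat_lit 107) (nat_lit 1) (nat_lit 106) (nat_lit 1) (nat_lit 112) (nat_lit 1) (nat_lit 141) (nat_lit 298) (nat_lit 281)) (XT.lf (nat_lit 420) (nat_lit 11476712604) (nat_lit 0) (nat_lit 17119082376) (nat_lit 336) (nat_lit 17119082376) (nat_lit 107) (nat_lit 1) (nat_lit 102) (nat_lit 1) (nat_lit 106) (nat_lit 1) (nat_lit 142) (nat_lit 298) (nat_lit 280))) (XT.nd (nat_lit 94) (nat_lit 420) (nat_lit 0) (XT.lf (nat_lit 84) (nat_lit 2497256083) (nat_lit 0) (nat_lit 39780307987) (nat_lit 420) (nat_lit 2497256083) (nat_lit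 103) (nat_lit 1) (nat_lit 102) (nat_lit 1) (nat_lit 107) (nat_lit 1) (nat_lit 143) (nat_lit 298) (nat_lit 279)) (XT.lf (nat_lit 84) (nat_lit 21042597344) (nat_lit 0) (nat_lit 1762358403) (nat_lit 420) (nat_lit 21042597344) (nat_lit 98) (nat_lit 1) (nat_lit 97) (nat_lit 1) (nat_lit 102) (nat_lit 1) (nat_lit 144) (nat_lit 298) (nat_lit 278))))) (XT.nd (nat_lit 282) (nat_lit 672) (nat_lit 0) (XT.nd (nat_lit 94) (nat_lit 336) (nat_lit 0) (XT.lf (nat_lit 420) (nat_lit 34807774459) (nat_lit 0) (nat_lit 4073912085) (nat_lit 336) (nat_lit 4073912085) (nat_lit 98) (nat_lit 1) (nat_lit 93) (nat_lit 1) (nat_lit 97) (nat_lit 1) (nat_lit 145) (nat_lit 298) (nat_lit 277)) (XT.nd (nat_lit 94) (nat_lit 336) (nat_lit 0) (XT.lf (nat_lit 84) (nat_lit 13653139398) (nat_lit 0) (nat_lit 14772667049) (nat_lit 420) (nat_lit 13653139398) (nat_lit 94) (nat_lit 1) (nat_lit 93) (nat_lit 1) (nat_lit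 98) (nat_lit 1) (nat_lit 146) (nat_lit 298) (nat_lit 276)) (XT.lf (nat_lit 420) (nat_lit 19923728391) (nat_lit 0) (nat_lit 10654481954) (nat_lit 336) (nat_lit 10654481954) (nat_lit 94) (nat_lit 1) (nat_lit 89) (nat_lit 1) (nat_lit 93) (nat_lit 1) (nat_lit 147) (nat_lit 298) (nat_lit 275)))) (XT.nd (nat_lit 188) (nat_lit 420) (nat_lit 0) (XT.nd (nat_lit 94) (nat_lit 252) (nat_lit 0) (XT.lf (nat_lit 84) (nat_lit 6283054753) (nat_lit 0) (nat_lit 27845073772) (nat_lit 420) (nat_lit 6283054753) (nat_lit 90) (nat_lit 1) (nat_lit 89) (nat_lit 1) (nat_lit 94) (nat_lit 1) (nat_lit 148) (nat_lit 298) (nat_lit 274)) (XT.lf (nat_lit 336) (nat_lit 5109739332) (nat_lit 0) (nat_lit 17248834008) (nat_lit 252) (nat_lit 17248834008) (nat_lit 90) (nat_lit 1) (nat_lit 86) (nat_lit 1) (nat_lit 89) (nat_lit 1) (nat_lit 149) (nat_lit 298) (nat_lit 273))) (XT.nd (nat_lit 94) (nat_lit 0) (nat_lit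 0) (XT.lf (nat_lit 420) (nat_lit 36792791265) (nat_lit 0) (nat_lit 1020929359) (nat_lit 336) (nat_lit 1020929359) (nat_lit 86) (nat_lit 1) (nat_lit 81) (nat_lit 1) (nat_lit 85) (nat_lit 1) (nat_lit 150) (nat_lit 298) (nat_lit 272)) (XT.lf (nat_lit 84) (nat_lit 14397291226) (nat_lit 0) (nat_lit 9271587286) (nat_lit 420) (nat_lit 14397291226) (nat_lit 82) (nat_lit 1) (nat_lit 81) (nat_lit 1) (nat_lit 86) (nat_lit 1) (nat_lit 151) (nat_lit 298) (nat_lit 271))))))) (XT.nd (nat_lit 1222) (nat_lit 1512) (nat_lit 0) (XT.nd (nat_lit 564) (nat_lit 924) (nat_lit 0) (XT.nd (nat_lit 282) (nat_lit 588) (nat_lit 0) (XT.nd (nat_lit 94) (nat_lit 252) (nat_lit 0) (XT.lf (nat_lit 336) (nat_lit 21027698996) (nat_lit 0) (nat_lit 8149731880) (nat_lit 252) (nat_lit 8149731880) (nat_lit 82) (nat_lit 1) (nat_lit 78) (nat_lit 1) (nat_lit 81) (nat_lit 1) (nat_lit 152) (nat_lit 298) (nat_lit 270))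 (XT.nd (nat_lit 94) (nat_lit 252) (nat_lit 0) (XT.lf (nat_lit 84) (nat_lit 6642975378) (nat_lit 0) (nat_lit 23320980761) (nat_lit 336) (nat_lit 6642975378) (nat_lit 79) (nat_lit 1) (nat_lit 78) (nat_lit 1) (nat_lit 82) (nat_lit 1) (nat_lit 153) (nat_lit 298) (nat_lit 269)) (XT.lf (nat_lit 336) (nat_lit 5536712343) (nat_lit 0) (nat_lit 15183186500) (nat_lit 252) (nat_lit 15183186500) (nat_lit 79) (nat_lit 1) (nat_lit 75) (nat_lit 1) (nat_lit 78) (nat_lit 1) (nat_lit 154) (nat_lit 298) (nat_lit 268)))) (XT.nd (nat_lit 94) (nat_lit 252) (nat_lit 0) (XT.lf (nat_lit 336) (nat_lit 33322305530) (nat_lit 0) (nat_lit 951541209) (nat_lit 252) (nat_lit 951541209) (nat_lit 75) (nat_lit 1) (nat_lit 71) (nat_lit 1) (nat_lit 74) (nat_lit 1) (nat_lit 155) (nat_lit 298) (nat_lit 267)) (XT.nd (nat_lit 94) (nat_lit 252) (nat_lit 0) (XT.lf (nat_lit 84) (nat_lit 12604873891) (nat_lit 0) (nat_lit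 9340084986) (nat_lit 336) (nat_lit 12604873891) (nat_lit 72) (nat_lit 1) (nat_lit 71) (nat_lit 1) (nat_lit 75) (nat_lit 1) (nat_lit 156) (nat_lit 298) (nat_lit 266)) (XT.lf (nat_lit 336) (nat_lit 17332855776) (nat_lit 0) (nat_lit 8283208730) (nat_lit 252) (nat_lit 8283208730) (nat_lit 72) (nat_lit 1) (nat_lit 68) (nat_lit 1) (nat_lit 71) (nat_lit 1) (nat_lit 157) (nat_lit 298) (nat_lit 265))))) (XT.nd (nat_lit 282) (nat_lit 420) (nat_lit 0) (XT.nd (nat_lit 94) (nat_lit 504) (nat_lit 0) (XT.lf (nat_lit 84) (nat_lit 4773454344) (nat_lit 0) (nat_lit 23719253320) (nat_lit 336) (nat_lit 4773454344) (nat_lit 69) (nat_lit 1) (nat_lit 68) (nat_lit 1) (nat_lit 72) (nat_lit 1) (nat_lit 158) (nat_lit 298) (nat_lit 264)) (XT.nd (nat_lit 94) (nat_lit 336) (nat_lit 0) (XT.lf (nat_lit 252) (nat_lit 1749152386) (nat_lit 0) (nat_lit 15447914498) (nat_lit 168) (nat_lit 15447914498) (nat_lit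 69) (nat_lit 1) (nat_lit 66) (nat_lit 1) (nat_lit 68) (nat_lit 1) (nat_lit 159) (nat_lit 298) (nat_lit 263)) (XT.lf (nat_lit 336) (nat_lit 26429106037) (nat_lit 0) (nat_lit 2806962628) (nat_lit 252) (nat_lit 2806962628) (nat_lit 66) (nat_lit 1) (nat_lit 62) (nat_lit 1) (nat_lit 65) (nat_lit 1) (nat_lit 160) (nat_lit 298) (nat_lit 262)))) (XT.nd (nat_lit 188) (nat_lit 252) (nat_lit 0) (XT.nd (nat_lit 94) (nat_lit 168) (nat_lit 0) (XT.lf (nat_lit 84) (nat_lit 9231059387) (nat_lit 0) (nat_lit 12985694662) (nat_lit 336) (nat_lit 9231059387) (nat_lit 63) (nat_lit 1) (nat_lit 62) (nat_lit 1) (nat_lit 66) (nat_lit 1) (nat_lit 161) (nat_lit 298) (nat_lit 261)) (XT.lf (nat_lit 252) (nat_lit 10665065170) (nat_lit 0) (nat_lit 10102950233) (nat_lit 168) (nat_lit 10102950233) (nat_lit 63) (nat_lit 1) (nat_lit 60) (nat_lit 1) (nat_lit 62) (nat_lit 1) (nat_lit 162) (nat_lit 298) (nat_lit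 260))) (XT.nd (nat_lit 94) (nat_lit 252) (nat_lit 0) (XT.lf (nat_lit 84) (nat_lit 1532231349) (nat_lit 0) (nat_lit 27248798502) (nat_lit 252) (nat_lit 1532231349) (nat_lit 61) (nat_lit 1) (nat_lit 60) (nat_lit 1) (nat_lit 63) (nat_lit 1) (nat_lit 163) (nat_lit 298) (nat_lit 259)) (XT.lf (nat_lit 84) (nat_lit 12645774150) (nat_lit 0) (nat_lit 4466035760) (nat_lit 252) (nat_lit 12645774150) (nat_lit 58) (nat_lit 1) (nat_lit 57) (nat_lit 1) (nat_lit 60) (nat_lit 1) (nat_lit 164) (nat_lit 298) (nat_lit 258)))))) (XT.nd (nat_lit 658) (nat_lit 756) (nat_lit 0) (XT.nd (nat_lit 282) (nat_lit 420) (nat_lit 0) (XT.nd (nat_lit 94) (nat_lit 168) (nat_lit 0) (XT.lf (nat_lit 252) (nat_lit 17560873770) (nat_lit 0) (nat_lit 5829734297) (nat_lit 168) (nat_lit 5829734297) (nat_lit 58) (nat_lit 1) (nat_lit 55) (nat_lit 1) (nat_lit 57) (nat_lit 1) (nat_lit 165) (nat_lit 298) (nat_lit 257))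 (XT.nd (nat_lit 94) (nat_lit 168) (nat_lit 0) (XT.lf (nat_lit 84) (nat_lit 4955221711) (nat_lit 0) (nat_lit 18784531462) (nat_lit 252) (nat_lit 4955221711) (nat_lit 56) (nat_lit 1) (nat_lit 55) (nat_lit 1) (nat_lit 58) (nat_lit 1) (nat_lit 166) (nat_lit 298) (nat_lit 256)) (XT.lf (nat_lit 252) (nat_lit 2321342966) (nat_lit 0) (nat_lit 12929427246) (nat_lit 168) (nat_lit 12929427246) (nat_lit 56) (nat_lit 1) (nat_lit 53) (nat_lit 1) (nat_lit 55) (nat_lit 1) (nat_lit 167) (nat_lit 298) (nat_lit 255)))) (XT.nd (nat_lit 188) (nat_lit 168) (nat_lit 0) (XT.nd (nat_lit 94) (nat_lit 0) (nat_lit 0) (XT.lf (nat_lit 252) (nat_lit 22815658368) (nat_lit 0) (nat_lit 2432338869) (nat_lit 168) (nat_lit 2432338869) (nat_lit 53) (nat_lit 1) (nat_lit 50) (nat_lit 1) (nat_lit 52) (nat_lit 1) (nat_lit 168) (nat_lit 298) (nat_lit 254)) (XT.lf (nat_lit 84) (nat_lit 7595388581) (nat_lit 0) (nat_lit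 11993963854) (nat_lit 252) (nat_lit 7595388581) (nat_lit 51) (nat_lit 1) (nat_lit 50) (nat_lit 1) (nat_lit 53) (nat_lit 1) (nat_lit 169) (nat_lit 298) (nat_lit 253))) (XT.nd (nat_lit 94) (nat_lit 0) (nat_lit 0) (XT.lf (nat_lit 252) (nat_lit 7735534510) (nat_lit 0) (nat_lit 9483999615) (nat_lit 168) (nat_lit 9483999615) (nat_lit 51) (nat_lit 1) (nat_lit 48) (nat_lit 1) (nat_lit 50) (nat_lit 1) (nat_lit 170) (nat_lit 298) (nat_lit 252)) (XT.lf (nat_lit 84) (nat_lit 254245685) (nat_lit 0) (nat_lit 25730711057) (nat_lit 252) (nat_lit 254245685) (nat_lit 49) (nat_lit 1) (nat_lit 48) (nat_lit 1) (nat_lit 51) (nat_lit 1) (nat_lit 171) (nat_lit 298) (nat_lit 251))))) (XT.nd (nat_lit 282) (nat_lit 420) (nat_lit 0) (XT.nd (nat_lit 94) (nat_lit 168) (nat_lit 0) (XT.lf (nat_lit 84) (nat_lit 9599902523) (nat_lit 0) (nat_lit 6572114539) (nat_lit 168) (nat_lit 9599902523) (nat_lit 47)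 (nat_lit 1) (nat_lit 46) (nat_lit 1) (nat_lit 48) (nat_lit 1) (nat_lit 172) (nat_lit 298) (nat_lit 250)) (XT.nd (nat_lit 94) (nat_lit 0) (nat_lit 0) (XT.lf (nat_lit 252) (nat_lit 11912386153) (nat_lit 0) (nat_lit 6704345976) (nat_lit 168) (nat_lit 6704345976) (nat_lit 47) (nat_lit 1) (nat_lit 44) (nat_lit 1) (nat_lit 46) (nat_lit 1) (nat_lit 173) (nat_lit 298) (nat_lit 249)) (XT.lf (nat_lit 84) (nat_lit 2388351094) (nat_lit 0) (nat_lit 20105703791) (nat_lit 252) (nat_lit 2388351094) (nat_lit 45) (nat_lit 1) (nat_lit 44) (nat_lit 1) (nat_lit 47) (nat_lit 1) (nat_lit 174) (nat_lit 298) (nat_lit 248)))) (XT.nd (nat_lit 188) (nat_lit 84) (nat_lit 0) (XT.nd (nat_lit 94) (nat_lit 168) (nat_lit 0) (XT.lf (nat_lit 84) (nat_lit 11089442173) (nat_lit 0) (nat_lit 2268467080) (nat_lit 168) (nat_lit 11089442173) (nat_lit 43) (nat_lit 1) (nat_lit 42) (nat_lit 1) (nat_lit 44) (nat_lit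 1) (nat_lit 175) (nat_lit 298) (nat_lit 247)) (XT.lf (nat_lit 252) (nat_lit 15084485538) (nat_lit 0) (nat_lit 4469811570) (nat_lit 168) (nat_lit 4469811570) (nat_lit 43) (nat_lit 1) (nat_lit 40) (nat_lit 1) (nat_lit 42) (nat_lit 1) (nat_lit 176) (nat_lit 298) (nat_lit 246))) (XT.nd (nat_lit 94) (nat_lit 84) (nat_lit 0) (XT.lf (nat_lit 84) (nat_lit 4040314298) (nat_lit 0) (nat_lit 15528616197) (nat_lit 252) (nat_lit 4040314298) (nat_lit 41) (nat_lit 1) (nat_lit 40) (nat_lit 1) (nat_lit 43) (nat_lit 1) (nat_lit 177) (nat_lit 298) (nat_lit 245)) (XT.lf (nat_lit 168) (nat_lit 1159827101) (nat_lit 0) (nat_lit 11021191245) (nat_lit 84) (nat_lit 11021191245) (nat_lit 41) (nat_lit 1) (nat_lit 39) (nat_lit 1) (nat_lit 40) (nat_lit 1) (nat_lit 178) (nat_lit 298) (nat_lit 244))))))))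
noncomputable def ec173 : XT := (XT.nd (nat_lit 2538) (nat_lit 756) (nat_lit 0) (XT.nd (nat_lit 1222) (nat_lit 1260) (nat_lit 0) (XT.nd (nat_lit 564) (nat_lit 588) (nat_lit 0) (XT.nd (nat_lit 282) (nat_lit 336) (nat_lit 0) (XT.nd (nat_lit 94) (nat_lit 84) (nat_lit 0) (XT.lf (nat_lit 252) (nat_lit 17442554031) (nat_lit 0) (nat_lit 2681257940) (nat_lit 168) (nat_lit 2681257940) (nat_lit 39) (nat_lit 1) (nat_lit 36) (nat_lit 1) (nat_lit 38) (nat_lit 1) (nat_lit 179) (nat_lit 298) (nat_lit 243)) (XT.nd (nat_lit 94) (nat_lit 84) (nat_lit 0) (XT.lf (nat_lit 84) (nat_lit 5300559375) (nat_lit 0) (nat_lit 11811244242) (nat_lit 252) (nat_lit 5300559375) (nat_lit 37) (nat_lit 1) (nat_lit 36) (nat_lit 1) (nat_lit 39) (nat_lit 1) (nat_lit 180) (nat_lit 298) (nat_lit 242)) (XT.lf (nat_lit 168) (nat_lit 3894962162) (nat_lit 0) (nat_lit 9067161312) (nat_lit 84) (nat_lit 9067161312) (nat_lit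 37) (nat_lit 1) (nat_lit 35) (nat_lit 1) (nat_lit 36) (nat_lit 1) (nat_lit 181) (nat_lit 298) (nat_lit 241)))) (XT.nd (nat_lit 94) (nat_lit 84) (nat_lit 0) (XT.lf (nat_lit 252) (nat_lit 19142899460) (nat_lit 0) (nat_lit 1257242208) (nat_lit 168) (nat_lit 1257242208) (nat_lit 35) (nat_lit 1) (nat_lit 32) (nat_lit 1) (nat_lit 34) (nat_lit 1) (nat_lit 182) (nat_lit 298) (nat_lit 240)) (XT.nd (nat_lit 94) (nat_lit 84) (nat_lit 0) (XT.lf (nat_lit 84) (nat_lit 6243243127) (nat_lit 0) (nat_lit 8798866789) (nat_lit 252) (nat_lit 6243243127) (nat_lit 33) (nat_lit 1) (nat_lit 32) (nat_lit 1) (nat_lit 35) (nat_lit 1) (nat_lit 183) (nat_lit 298) (nat_lit 239)) (XT.lf (nat_lit 168) (nat_lit 6005127901) (nat_lit 0) (nat_lit 7459576051) (nat_lit 84) (nat_lit 7459576051) (nat_lit 33) (nat_lit 1) (nat_lit 31) (nat_lit 1) (nat_lit 32) (nat_lit 1) (nat_lit 184) (nat_lit 298) (nat_lit 238)))))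 (XT.nd (nat_lit 282) (nat_lit 252) (nat_lit 0) (XT.nd (nat_lit 94) (nat_lit 84) (nat_lit 0) (XT.lf (nat_lit 252) (nat_lit 20313546087) (nat_lit 0) (nat_lit 130874053) (nat_lit 168) (nat_lit 130874053) (nat_lit 31) (nat_lit 1) (nat_lit 28) (nat_lit 1) (nat_lit 30) (nat_lit 1) (nat_lit 185) (nat_lit 298) (nat_lit 237)) (XT.nd (nat_lit 94) (nat_lit 84) (nat_lit 0) (XT.lf (nat_lit 84) (nat_lit 6929150440) (nat_lit 0) (nat_lit 6364303693) (nat_lit 252) (nat_lit 6929150440) (nat_lit 29) (nat_lit 1) (nat_lit 28) (nat_lit 1) (nat_lit 31) (nat_lit 1) (nat_lit 186) (nat_lit 298) (nat_lit 236)) (XT.lf (nat_lit 168) (nat_lit 7607798244) (nat_lit 0) (nat_lit 6137011678) (nat_lit 84) (nat_lit 6137011678) (nat_lit 29) (nat_lit 1) (nat_lit 27) (nat_lit 1) (nat_lit 28) (nat_lit 1) (nat_lit 187) (nat_lit 298) (nat_lit 235)))) (XT.nd (nat_lit 188) (nat_lit 84) (nat_lit 0) (XT.nd (nat_lit 94)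 (nat_lit 168) (nat_lit 0) (XT.lf (nat_lit 0) (nat_lit 765110293) (nat_lit 0) (nat_lit 18021106848) (nat_lit 168) (nat_lit 765110293) (nat_lit 27) (nat_lit 3) (nat_lit 27) (nat_lit 1) (nat_lit 29) (nat_lit 1) (nat_lit 188) (nat_lit 298) (nat_lit 234)) (XT.lf (nat_lit 84) (nat_lit 7408075757) (nat_lit 0) (nat_lit 4403027647) (nat_lit 168) (nat_lit 7408075757) (nat_lit 26) (nat_lit 1) (nat_lit 25) (nat_lit 1) (nat_lit 27) (nat_lit 1) (nat_lit 189) (nat_lit 298) (nat_lit 233))) (XT.nd (nat_lit 94) (nat_lit 0) (nat_lit 0) (XT.lf (nat_lit 168) (nat_lit 8799301736) (nat_lit 0) (nat_lit 5048934695) (nat_lit 84) (nat_lit 5048934695) (nat_lit 26) (nat_lit 1) (nat_lit 24) (nat_lit 1) (nat_lit 25) (nat_lit 1) (nat_lit 190) (nat_lit 298) (nat_lit 232)) (XT.lf (nat_lit 0) (nat_lit 1462358883) (nat_lit 0) (nat_lit 15658909954) (nat_lit 168) (nat_lit 1462358883) (nat_lit 24) (nat_lit 3)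 (nat_lit 24) (nat_lit 1) (nat_lit 26) (nat_lit 1) (nat_lit 191) (nat_lit 298) (nat_lit 231)))))) (XT.nd (nat_lit 658) (nat_lit 588) (nat_lit 0) (XT.nd (nat_lit 282) (nat_lit 420) (nat_lit 0) (XT.nd (nat_lit 94) (nat_lit 84) (nat_lit 0) (XT.lf (nat_lit 84) (nat_lit 7720781822) (nat_lit 0) (nat_lit 2829142930) (nat_lit 168) (nat_lit 7720781822) (nat_lit 23) (nat_lit 1) (nat_lit 22) (nat_lit 1) (nat_lit 24) (nat_lit 1) (nat_lit 192) (nat_lit 298) (nat_lit 230)) (XT.nd (nat_lit 94) (nat_lit 0) (nat_lit 0) (XT.lf (nat_lit 168) (nat_lit 9658585689) (nat_lit 0) (nat_lit 4153771069) (nat_lit 84) (nat_lit 4153771069) (nat_lit 23) (nat_lit 1) (nat_lit 21) (nat_lit 1) (nat_lit 22) (nat_lit 1) (nat_lit 193) (nat_lit 298) (nat_lit 229)) (XT.lf (nat_lit 0) (nat_lit 1996325083) (nat_lit 0) (nat_lit 13675862783) (nat_lit 168) (nat_lit 1996325083) (nat_lit 21) (nat_lit 3) (nat_lit 21) (nat_lit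 1) (nat_lit 23) (nat_lit 1) (nat_lit 194) (nat_lit 298) (nat_lit 228)))) (XT.nd (nat_lit 188) (nat_lit 168) (nat_lit 0) (XT.nd (nat_lit 94) (nat_lit 84) (nat_lit 0) (XT.lf (nat_lit 84) (nat_lit 7900610658) (nat_lit 0) (nat_lit 1572077355) (nat_lit 168) (nat_lit 7900610658) (nat_lit 20) (nat_lit 1) (nat_lit 19) (nat_lit 1) (nat_lit 21) (nat_lit 1) (nat_lit 195) (nat_lit 298) (nat_lit 227)) (XT.lf (nat_lit 168) (nat_lit 10250312230) (nat_lit 0) (nat_lit 3417317738) (nat_lit 84) (nat_lit 3417317738) (nat_lit 20) (nat_lit 1) (nat_lit 18) (nat_lit 1) (nat_lit 19) (nat_lit 1) (nat_lit 196) (nat_lit 298) (nat_lit 226))) (XT.nd (nat_lit 94) (nat_lit 168) (nat_lit 0) (XT.lf (nat_lit 0) (nat_lit 2397847121) (nat_lit 0) (nat_lit 12006631691) (nat_lit 168) (nat_lit 2397847121) (nat_lit 18) (nat_lit 3) (nat_lit 18) (nat_lit 1) (nat_lit 20) (nat_lit 1) (nat_lit 197) (nat_lit 298) (nat_lit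 225)) (XT.lf (nat_lit 84) (nat_lit 7974808461) (nat_lit 0) (nat_lit 573860945) (nat_lit 168) (nat_lit 7974808461) (nat_lit 17) (nat_lit 1) (nat_lit 16) (nat_lit 1) (nat_lit 18) (nat_lit 1) (nat_lit 198) (nat_lit 298) (nat_lit 224))))) (XT.nd (nat_lit 282) (nat_lit 420) (nat_lit 0) (XT.nd (nat_lit 94) (nat_lit 84) (nat_lit 0) (XT.lf (nat_lit 168) (nat_lit 10627404745) (nat_lit 0) (nat_lit 2811435760) (nat_lit 84) (nat_lit 2811435760) (nat_lit 17) (nat_lit 1) (nat_lit 15) (nat_lit 1) (nat_lit 16) (nat_lit 1) (nat_lit 199) (nat_lit 298) (nat_lit 223)) (XT.nd (nat_lit 94) (nat_lit 84) (nat_lit 0) (XT.lf (nat_lit 0) (nat_lit 2692205746) (nat_lit 0) (nat_lit 10597376592) (nat_lit 168) (nat_lit 2692205746) (nat_lit 15) (nat_lit 3) (nat_lit 15) (nat_lit 1) (nat_lit 17) (nat_lit 1) (nat_lit 200) (nat_lit 298) (nat_lit 222)) (XT.lf (nat_lit 84) (nat_lit 220159157) (nat_lit 0) (nat_lit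 7748893296) (nat_lit 84) (nat_lit 7748893296) (nat_lit 15) (nat_lit 3) (nat_lit 14) (nat_lit 1) (nat_lit 15) (nat_lit 1) (nat_lit 201) (nat_lit 298) (nat_lit 221)))) (XT.nd (nat_lit 188) (nat_lit 252) (nat_lit 0) (XT.nd (nat_lit 94) (nat_lit 0) (nat_lit 0) (XT.lf (nat_lit 168) (nat_lit 10833142189) (nat_lit 0) (nat_lit 2312975157) (nat_lit 84) (nat_lit 2312975157) (nat_lit 14) (nat_lit 1) (nat_lit 12) (nat_lit 1) (nat_lit 13) (nat_lit 1) (nat_lit 202) (nat_lit 298) (nat_lit 220)) (XT.lf (nat_lit 0) (nat_lit 2900113840) (nat_lit 0) (nat_lit 9403717458) (nat_lit 168) (nat_lit 2900113840) (nat_lit 12) (nat_lit 3) (nat_lit 12) (nat_lit 1) (nat_lit 14) (nat_lit 1) (nat_lit 203) (nat_lit 298) (nat_lit 219))) (XT.nd (nat_lit 94) (nat_lit 168) (nat_lit 0) (XT.lf (nat_lit 84) (nat_lit 855302904) (nat_lit 0) (nat_lit 7049211112) (nat_lit 84) (nat_lit 7049211112) (nat_lit 12) (nat_lit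 3) (nat_lit 11) (nat_lit 1) (nat_lit 12) (nat_lit 1) (nat_lit 204) (nat_lit 298) (nat_lit 218)) (XT.lf (nat_lit 168) (nat_lit 10902881465) (nat_lit 0) (nat_lit 1902890386) (nat_lit 84) (nat_lit 1902890386) (nat_lit 11) (nat_lit 1) (nat_lit 9) (nat_lit 1) (nat_lit 10) (nat_lit 1) (nat_lit 205) (nat_lit 298) (nat_lit 217))))))) (XT.nd (nat_lit 1316) (nat_lit 0) (nat_lit 0) (XT.nd (nat_lit 658) (nat_lit 252) (nat_lit 0) (XT.nd (nat_lit 282) (nat_lit 252) (nat_lit 0) (XT.nd (nat_lit 94) (nat_lit 252) (nat_lit 0) (XT.lf (nat_lit 0) (nat_lit 3038530366) (nat_lit 0) (nat_lit 8389061158) (nat_lit 168) (nat_lit 3038530366) (nat_lit 9) (nat_lit 3) (nat_lit 9) (nat_lit 1) (nat_lit 11) (nat_lit 1) (nat_lit 206) (nat_lit 298) (nat_lit 216)) (XT.nd (nat_lit 94) (nat_lit 168) (nat_lit 0) (XT.lf (nat_lit 84) (nat_lit 1345733550) (nat_lit 0) (nat_lit 6441477162) (nat_lit 84) (nat_lit 6441477162)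 (nat_lit 9) (nat_lit 3) (nat_lit 8) (nat_lit 1) (nat_lit 9) (nat_lit 1) (nat_lit 207) (nat_lit 298) (nat_lit 215)) (XT.lf (nat_lit 168) (nat_lit 10865473827) (nat_lit 0) (nat_lit 1565512630) (nat_lit 84) (nat_lit 1565512630) (nat_lit 8) (nat_lit 1) (nat_lit 6) (nat_lit 1) (nat_lit 7) (nat_lit 1) (nat_lit 208) (nat_lit 298) (nat_lit 214)))) (XT.nd (nat_lit 188) (nat_lit 168) (nat_lit 0) (XT.nd (nat_lit 94) (nat_lit 84) (nat_lit 0) (XT.lf (nat_lit 0) (nat_lit 3121329817) (nat_lit 0) (nat_lit 7523224741) (nat_lit 168) (nat_lit 3121329817) (nat_lit 6) (nat_lit 3) (nat_lit 6) (nat_lit 1) (nat_lit 8) (nat_lit 1) (nat_lit 209) (nat_lit 298) (nat_lit 213)) (XT.lf (nat_lit 84) (nat_lit 1718637117) (nat_lit 0) (nat_lit 5910917997) (nat_lit 84) (nat_lit 5910917997) (nat_lit 6) (nat_lit 3) (nat_lit 5) (nat_lit 1) (nat_lit 6) (nat_lit 1) (nat_lit 210) (nat_lit 298) (nat_lit 212))) (XT.nd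 (nat_lit 94) (nat_lit 0) (nat_lit 0) (XT.lf (nat_lit 168) (nat_lit 10744429601) (nat_lit 0) (nat_lit 1287951115) (nat_lit 84) (nat_lit 1287951115) (nat_lit 5) (nat_lit 1) (nat_lit 3) (nat_lit 1) (nat_lit 4) (nat_lit 1) (nat_lit 211) (nat_lit 298) (nat_lit 211)) (XT.lf (nat_lit 0) (nat_lit 3159852779) (nat_lit 0) (nat_lit 6781302627) (nat_lit 168) (nat_lit 3159852779) (nat_lit 3) (nat_lit 3) (nat_lit 3) (nat_lit 1) (nat_lit 5) (nat_lit 1) (nat_lit 212) (nat_lit 298) (nat_lit 210))))) (XT.nd (nat_lit 282) (nat_lit 0) (nat_lit 0) (XT.nd (nat_lit 94) (nat_lit 168) (nat_lit 0) (XT.lf (nat_lit 84) (nat_lit 1996306813) (nat_lit 0) (nat_lit 5445306668) (nat_lit 84) (nat_lit 5445306668) (nat_lit 3) (nat_lit 3) (nat_lit 2) (nat_lit 1) (nat_lit 3) (nat_lit 1) (nat_lit 213) (nat_lit 298) (nat_lit 209)) (XT.nd (nat_lit 94) (nat_lit 0) (nat_lit 0) (XT.lf (nat_lit 0) (nat_lit 18417290500)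 (nat_lit 0) (nat_lit 0) (nat_lit 0) (nat_lit 0) (nat_lit 0) (nat_lit 0) (nat_lit 1) (nat_lit 0) (nat_lit 1) (nat_lit 0) (nat_lit 214) (nat_lit 298) (nat_lit 208)) (XT.lf (nat_lit 0) (nat_lit 18406559924) (nat_lit 0) (nat_lit 0) (nat_lit 0) (nat_lit 0) (nat_lit 0) (nat_lit 0) (nat_lit 1) (nat_lit 0) (nat_lit 1) (nat_lit 0) (nat_lit 215) (nat_lit 298) (nat_lit 207)))) (XT.nd (nat_lit 188) (nat_lit 0) (nat_lit 0) (XT.nd (nat_lit 94) (nat_lit 0) (nat_lit 0) (XT.lf (nat_lit 0) (nat_lit 18396340329) (nat_lit 0) (nat_lit 0) (nat_lit 0) (nat_lit 0) (nat_lit 0) (nat_lit 0) (nat_lit 1) (nat_lit 0) (nat_lit 1) (nat_lit 0) (nat_lit 216) (nat_lit 298) (nat_lit 206)) (XT.lf (nat_lit 0) (nat_lit 18386607381) (nat_lit 0) (nat_lit 0) (nat_lit 0) (nat_lit 0) (nat_lit 0) (nat_lit 0) (nat_lit 1) (nat_lit 0) (nat_lit 1) (nat_lit 0) (nat_lit 217) (nat_lit 298) (nat_lit 205))) (XT.nd (nat_lit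 94) (nat_lit 0) (nat_lit 0) (XT.lf (nat_lit 0) (nat_lit 18377337906) (nat_lit 0) (nat_lit 0) (nat_lit 0) (nat_lit 0) (nat_lit 0) (nat_lit 0) (nat_lit 1) (nat_lit 0) (nat_lit 1) (nat_lit 0) (nat_lit 218) (nat_lit 298) (nat_lit 204)) (XT.lf (nat_lit 0) (nat_lit 18368509836) (nat_lit 0) (nat_lit 0) (nat_lit 0) (nat_lit 0) (nat_lit 0) (nat_lit 0) (nat_lit 1) (nat_lit 0) (nat_lit 1) (nat_lit 0) (nat_lit 219) (nat_lit 298) (nat_lit 203)))))) (XT.nd (nat_lit 658) (nat_lit 0) (nat_lit 0) (XT.nd (nat_lit 282) (nat_lit 0) (nat_lit 0) (XT.nd (nat_lit 94) (nat_lit 0) (nat_lit 0) (XT.lf (nat_lit 0) (nat_lit 18360102149) (nat_lit 0) (nat_lit 0) (nat_lit 0) (nat_lit 0) (nat_lit 0) (nat_lit 0) (nat_lit 1) (nat_lit 0) (nat_lit 1) (nat_lit 0) (nat_lit 220) (nat_lit 298) (nat_lit 202)) (XT.nd (nat_lit 94) (nat_lit 0) (nat_lit 0) (XT.lf (nat_lit 0) (nat_lit 18352094829) (nat_lit 0) (nat_lit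 0) (nat_lit 0) (nat_lit 0) (nat_lit 0) (nat_lit 0) (nat_lit 1) (nat_lit 0) (nat_lit 1) (nat_lit 0) (nat_lit 221) (nat_lit 298) (nat_lit 201)) (XT.lf (nat_lit 0) (nat_lit 18344468809) (nat_lit 0) (nat_lit 0) (nat_lit 0) (nat_lit 0) (nat_lit 0) (nat_lit 0) (nat_lit 1) (nat_lit 0) (nat_lit 1) (nat_lit 0) (nat_lit 222) (nat_lit 298) (nat_lit 200)))) (XT.nd (nat_lit 188) (nat_lit 0) (nat_lit 0) (XT.nd (nat_lit 94) (nat_lit 0) (nat_lit 0) (XT.lf (nat_lit 0) (nat_lit 18337205933) (nat_lit 0) (nat_lit 0) (nat_lit 0) (nat_lit 0) (nat_lit 0) (nat_lit 0) (nat_lit 1) (nat_lit 0) (nat_lit 1) (nat_lit 0) (nat_lit 223) (nat_lit 298) (nat_lit 199)) (XT.lf (nat_lit 0) (nat_lit 18330288909) (nat_lit 0) (nat_lit 0) (nat_lit 0) (nat_lit 0) (nat_lit 0) (nat_lit 0) (nat_lit 1) (nat_lit 0) (nat_lit 1) (nat_lit 0) (nat_lit 224) (nat_lit 298) (nat_lit 198))) (XT.nd (nat_lit 94) (nat_lit 0) (nat_lit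 0) (XT.lf (nat_lit 0) (nat_lit 18323701267) (nat_lit 0) (nat_lit 0) (nat_lit 0) (nat_lit 0) (nat_lit 0) (nat_lit 0) (nat_lit 1) (nat_lit 0) (nat_lit 1) (nat_lit 0) (nat_lit 225) (nat_lit 298) (nat_lit 197)) (XT.lf (nat_lit 0) (nat_lit 18317427321) (nat_lit 0) (nat_lit 0) (nat_lit 0) (nat_lit 0) (nat_lit 0) (nat_lit 0) (nat_lit 1) (nat_lit 0) (nat_lit 1) (nat_lit 0) (nat_lit 226) (nat_lit 298) (nat_lit 196))))) (XT.nd (nat_lit 282) (nat_lit 0) (nat_lit 0) (XT.nd (nat_lit 94) (nat_lit 0) (nat_lit 0) (XT.lf (nat_lit 0) (nat_lit 18311452136) (nat_lit 0) (nat_lit 0) (nat_lit 0) (nat_lit 0) (nat_lit 0) (nat_lit 0) (nat_lit 1) (nat_lit 0) (nat_lit 1) (nat_lit 0) (nat_lit 227) (nat_lit 298) (nat_lit 195)) (XT.nd (nat_lit 94) (nat_lit 0) (nat_lit 0) (XT.lf (nat_lit 0) (nat_lit 18305761482) (nat_lit 0) (nat_lit 0) (nat_lit 0) (nat_lit 0) (nat_lit 0) (nat_lit 0) (nat_lit 1) (nat_lit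 0) (nat_lit 1) (nat_lit 0) (nat_lit 228) (nat_lit 298) (nat_lit 194)) (XT.lf (nat_lit 0) (nat_lit 18300341813) (nat_lit 0) (nat_lit 0) (nat_lit 0) (nat_lit 0) (nat_lit 0) (nat_lit 0) (nat_lit 1) (nat_lit 0) (nat_lit 1) (nat_lit 0) (nat_lit 229) (nat_lit 298) (nat_lit 193)))) (XT.nd (nat_lit 188) (nat_lit 0) (nat_lit 0) (XT.nd (nat_lit 94) (nat_lit 0) (nat_lit 0) (XT.lf (nat_lit 0) (nat_lit 18295180223) (nat_lit 0) (nat_lit 0) (nat_lit 0) (nat_lit 0) (nat_lit 0) (nat_lit 0) (nat_lit 1) (nat_lit 0) (nat_lit 1) (nat_lit 0) (nat_lit 230) (nat_lit 298) (nat_lit 192)) (XT.lf (nat_lit 0) (nat_lit 18290264422) (nat_lit 0) (nat_lit 0) (nat_lit 0) (nat_lit 0) (nat_lit 0) (nat_lit 0) (nat_lit 1) (nat_lit 0) (nat_lit 1) (nat_lit 0) (nat_lit 231) (nat_lit 298) (nat_lit 191))) (XT.nd (nat_lit 94) (nat_lit 0) (nat_lit 0) (XT.lf (nat_lit 0) (nat_lit 18285582708) (nat_lit 0) (nat_lit 0)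 (nat_lit 0) (nat_lit 0) (nat_lit 0) (nat_lit 0) (nat_lit 1) (nat_lit 0) (nat_lit 1) (nat_lit 0) (nat_lit 232) (nat_lit 298) (nat_lit 190)) (XT.lf (nat_lit 0) (nat_lit 18281123932) (nat_lit 0) (nat_lit 0) (nat_lit 0) (nat_lit 0) (nat_lit 0) (nat_lit 0) (nat_lit 1) (nat_lit 0) (nat_lit 1) (nat_lit 0) (nat_lit 233) (nat_lit 298) (nat_lit 189))))))))
noncomputable def ec174 : XT := (XT.nd (nat_lit 2538) (nat_lit 0) (nat_lit 0) (XT.nd (nat_lit 1222) (nat_lit 0) (nat_lit 0) (XT.nd (nat_lit 564) (nat_lit 0) (nat_lit 0) (XT.nd (nat_lit 282) (nat_lit 0) (nat_lit 0) (XT.nd (nat_lit 94) (nat_lit 0) (nat_lit 0) (XT.lf (nat_lit 0) (nat_lit 18276877479) (nat_lit 0) (nat_lit 0) (nat_lit 0) (nat_lit 0) (nat_lit 0) (nat_lit 0) (nat_lit 1) (nat_lit 0) (nat_lit 1) (nat_lit 0) (nat_lit 234) (nat_lit 298) (nat_lit 188)) (XT.nd (nat_lit 94) (nat_lit 0) (nat_lit 0) (XT.lf (nat_lit 0) (nat_lit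 18272833238) (nat_lit 0) (nat_lit 0) (nat_lit 0) (nat_lit 0) (nat_lit 0) (nat_lit 0) (nat_lit 1) (nat_lit 0) (nat_lit 1) (nat_lit 0) (nat_lit 235) (nat_lit 298) (nat_lit 187)) (XT.lf (nat_lit 0) (nat_lit 18268981580) (nat_lit 0) (nat_lit 0) (nat_lit 0) (nat_lit 0) (nat_lit 0) (nat_lit 0) (nat_lit 1) (nat_lit 0) (nat_lit 1) (nat_lit 0) (nat_lit 236) (nat_lit 298) (nat_lit 186)))) (XT.nd (nat_lit 94) (nat_lit 0) (nat_lit 0) (XT.lf (nat_lit 0) (nat_lit 18265313334) (nat_lit 0) (nat_lit 0) (nat_lit 0) (nat_lit 0) (nat_lit 0) (nat_lit 0) (nat_lit 1) (nat_lit 0) (nat_lit 1) (nat_lit 0) (nat_lit 237) (nat_lit 298) (nat_lit 185)) (XT.nd (nat_lit 94) (nat_lit 0) (nat_lit 0) (XT.lf (nat_lit 0) (nat_lit 18261819767) (nat_lit 0) (nat_lit 0) (nat_lit 0) (nat_lit 0) (nat_lit 0) (nat_lit 0) (nat_lit 1) (nat_lit 0) (nat_lit 1) (nat_lit 0) (nat_lit 238) (nat_lit 298) (nat_lit 184)) (XT.lf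 (nat_lit 0) (nat_lit 18258492560) (nat_lit 0) (nat_lit 0) (nat_lit 0) (nat_lit 0) (nat_lit 0) (nat_lit 0) (nat_lit 1) (nat_lit 0) (nat_lit 1) (nat_lit 0) (nat_lit 239) (nat_lit 298) (nat_lit 183))))) (XT.nd (nat_lit 282) (nat_lit 0) (nat_lit 0) (XT.nd (nat_lit 94) (nat_lit 0) (nat_lit 0) (XT.lf (nat_lit 0) (nat_lit 18255323791) (nat_lit 0) (nat_lit 0) (nat_lit 0) (nat_lit 0) (nat_lit 0) (nat_lit 0) (nat_lit 1) (nat_lit 0) (nat_lit 1) (nat_lit 0) (nat_lit 240) (nat_lit 298) (nat_lit 182)) (XT.nd (nat_lit 94) (nat_lit 0) (nat_lit 0) (XT.lf (nat_lit 0) (nat_lit 18252305917) (nat_lit 0) (nat_lit 0) (nat_lit 0) (nat_lit 0) (nat_lit 0) (nat_lit 0) (nat_lit 1) (nat_lit 0) (nat_lit 1) (nat_lit 0) (nat_lit 241) (nat_lit 298) (nat_lit 181)) (XT.lf (nat_lit 0) (nat_lit 18249431750) (nat_lit 0) (nat_lit 0) (nat_lit 0) (nat_lit 0) (nat_lit 0) (nat_lit 0) (nat_lit 1) (nat_lit 0) (nat_lit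 1) (nat_lit 0) (nat_lit 242) (nat_lit 298) (nat_lit 180)))) (XT.nd (nat_lit 188) (nat_lit 0) (nat_lit 0) (XT.nd (nat_lit 94) (nat_lit 0) (nat_lit 0) (XT.lf (nat_lit 0) (nat_lit 18246694449) (nat_lit 0) (nat_lit 0) (nat_lit 0) (nat_lit 0) (nat_lit 0) (nat_lit 0) (nat_lit 1) (nat_lit 0) (nat_lit 1) (nat_lit 0) (nat_lit 243) (nat_lit 298) (nat_lit 179)) (XT.lf (nat_lit 0) (nat_lit 18244087495) (nat_lit 0) (nat_lit 0) (nat_lit 0) (nat_lit 0) (nat_lit 0) (nat_lit 0) (nat_lit 1) (nat_lit 0) (nat_lit 1) (nat_lit 0) (nat_lit 244) (nat_lit 298) (nat_lit 178))) (XT.nd (nat_lit 94) (nat_lit 0) (nat_lit 0) (XT.lf (nat_lit 0) (nat_lit 18241604682) (nat_lit 0) (nat_lit 0) (nat_lit 0) (nat_lit 0) (nat_lit 0) (nat_lit 0) (nat_lit 1) (nat_lit 0) (nat_lit 1) (nat_lit 0) (nat_lit 245) (nat_lit 298) (nat_lit 177)) (XT.lf (nat_lit 0) (nat_lit 18239240098) (nat_lit 0) (nat_lit 0) (nat_lit 0)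 (nat_lit 0) (nat_lit 0) (nat_lit 0) (nat_lit 1) (nat_lit 0) (nat_lit 1) (nat_lit 0) (nat_lit 246) (nat_lit 298) (nat_lit 176)))))) (XT.nd (nat_lit 658) (nat_lit 0) (nat_lit 0) (XT.nd (nat_lit 282) (nat_lit 0) (nat_lit 0) (XT.nd (nat_lit 94) (nat_lit 0) (nat_lit 0) (XT.lf (nat_lit 0) (nat_lit 18236988113) (nat_lit 0) (nat_lit 0) (nat_lit 0) (nat_lit 0) (nat_lit 0) (nat_lit 0) (nat_lit 1) (nat_lit 0) (nat_lit 1) (nat_lit 0) (nat_lit 247) (nat_lit 298) (nat_lit 175)) (XT.nd (nat_lit 94) (nat_lit 0) (nat_lit 0) (XT.lf (nat_lit 0) (nat_lit 18234843366) (nat_lit 0) (nat_lit 0) (nat_lit 0) (nat_lit 0) (nat_lit 0) (nat_lit 0) (nat_lit 1) (nat_lit 0) (nat_lit 1) (nat_lit 0) (nat_lit 248) (nat_lit 298) (nat_lit 174)) (XT.lf (nat_lit 0) (nat_lit 18232800749) (nat_lit 0) (nat_lit 0) (nat_lit 0) (nat_lit 0) (nat_lit 0) (nat_lit 0) (nat_lit 1) (nat_lit 0) (nat_lit 1) (nat_lit 0) (nat_lit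 249) (nat_lit 298) (nat_lit 173)))) (XT.nd (nat_lit 188) (nat_lit 0) (nat_lit 0) (XT.nd (nat_lit 94) (nat_lit 0) (nat_lit 0) (XT.lf (nat_lit 0) (nat_lit 18230855400) (nat_lit 0) (nat_lit 0) (nat_lit 0) (nat_lit 0) (nat_lit 0) (nat_lit 0) (nat_lit 1) (nat_lit 0) (nat_lit 1) (nat_lit 0) (nat_lit 250) (nat_lit 298) (nat_lit 172)) (XT.lf (nat_lit 0) (nat_lit 18229002687) (nat_lit 0) (nat_lit 0) (nat_lit 0) (nat_lit 0) (nat_lit 0) (nat_lit 0) (nat_lit 1) (nat_lit 0) (nat_lit 1) (nat_lit 0) (nat_lit 251) (nat_lit 298) (nat_lit 171))) (XT.nd (nat_lit 94) (nat_lit 0) (nat_lit 0) (XT.lf (nat_lit 0) (nat_lit 18227238198) (nat_lit 0) (nat_lit 0) (nat_lit 0) (nat_lit 0) (nat_lit 0) (nat_lit 0) (nat_lit 1) (nat_lit 0) (nat_lit 1) (nat_lit 0) (nat_lit 252) (nat_lit 298) (nat_lit 170)) (XT.lf (nat_lit 0) (nat_lit 18225557732) (nat_lit 0) (nat_lit 0) (nat_lit 0) (nat_lit 0) (nat_lit 0)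 (nat_lit 0) (nat_lit 1) (nat_lit 0) (nat_lit 1) (nat_lit 0) (nat_lit 253) (nat_lit 298) (nat_lit 169))))) (XT.nd (nat_lit 282) (nat_lit 0) (nat_lit 0) (XT.nd (nat_lit 94) (nat_lit 0) (nat_lit 0) (XT.lf (nat_lit 0) (nat_lit 18223957289) (nat_lit 0) (nat_lit 0) (nat_lit 0) (nat_lit 0) (nat_lit 0) (nat_lit 0) (nat_lit 1) (nat_lit 0) (nat_lit 1) (nat_lit 0) (nat_lit 254) (nat_lit 298) (nat_lit 168)) (XT.nd (nat_lit 94) (nat_lit 0) (nat_lit 0) (XT.lf (nat_lit 0) (nat_lit 18222433057) (nat_lit 0) (nat_lit 0) (nat_lit 0) (nat_lit 0) (nat_lit 0) (nat_lit 0) (nat_lit 1) (nat_lit 0) (nat_lit 1) (nat_lit 0) (nat_lit 255) (nat_lit 298) (nat_lit 167)) (XT.lf (nat_lit 0) (nat_lit 18220981407) (nat_lit 0) (nat_lit 0) (nat_lit 0) (nat_lit 0) (nat_lit 0) (nat_lit 0) (nat_lit 1) (nat_lit 0) (nat_lit 1) (nat_lit 0) (nat_lit 256) (nat_lit 298) (nat_lit 166)))) (XT.nd (nat_lit 188) (nat_lit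 0) (nat_lit 0) (XT.nd (nat_lit 94) (nat_lit 0) (nat_lit 0) (XT.lf (nat_lit 0) (nat_lit 18219598884) (nat_lit 0) (nat_lit 0) (nat_lit 0) (nat_lit 0) (nat_lit 0) (nat_lit 0) (nat_lit 1) (nat_lit 0) (nat_lit 1) (nat_lit 0) (nat_lit 257) (nat_lit 298) (nat_lit 165)) (XT.lf (nat_lit 0) (nat_lit 18218282195) (nat_lit 0) (nat_lit 0) (nat_lit 0) (nat_lit 0) (nat_lit 0) (nat_lit 0) (nat_lit 1) (nat_lit 0) (nat_lit 1) (nat_lit 0) (nat_lit 258) (nat_lit 298) (nat_lit 164))) (XT.nd (nat_lit 94) (nat_lit 0) (nat_lit 0) (XT.lf (nat_lit 0) (nat_lit 18217028206) (nat_lit 0) (nat_lit 0) (nat_lit 0) (nat_lit 0) (nat_lit 0) (nat_lit 0) (nat_lit 1) (nat_lit 0) (nat_lit 1) (nat_lit 0) (nat_lit 259) (nat_lit 298) (nat_lit 163)) (XT.lf (nat_lit 0) (nat_lit 18215833930) (nat_lit 0) (nat_lit 0) (nat_lit 0) (nat_lit 0) (nat_lit 0) (nat_lit 0) (nat_lit 1) (nat_lit 0) (nat_lit 1) (nat_lit 0) (nat_lit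 260) (nat_lit 298) (nat_lit 162))))))) (XT.nd (nat_lit 1222) (nat_lit 0) (nat_lit 0) (XT.nd (nat_lit 564) (nat_lit 0) (nat_lit 0) (XT.nd (nat_lit 282) (nat_lit 0) (nat_lit 0) (XT.nd (nat_lit 94) (nat_lit 0) (nat_lit 0) (XT.lf (nat_lit 0) (nat_lit 18214696525) (nat_lit 0) (nat_lit 0) (nat_lit 0) (nat_lit 0) (nat_lit 0) (nat_lit 0) (nat_lit 1) (nat_lit 0) (nat_lit 1) (nat_lit 0) (nat_lit 261) (nat_lit 298) (nat_lit 161)) (XT.nd (nat_lit 94) (nat_lit 0) (nat_lit 0) (XT.lf (nat_lit 0) (nat_lit 18213613282) (nat_lit 0) (nat_lit 0) (nat_lit 0) (nat_lit 0) (nat_lit 0) (nat_lit 0) (nat_lit 1) (nat_lit 0) (nat_lit 1) (nat_lit 0) (nat_lit 262) (nat_lit 298) (nat_lit 160)) (XT.lf (nat_lit 0) (nat_lit 18212581622) (nat_lit 0) (nat_lit 0) (nat_lit 0) (nat_lit 0) (nat_lit 0) (nat_lit 0) (nat_lit 1) (nat_lit 0) (nat_lit 1) (nat_lit 0) (nat_lit 263) (nat_lit 298) (nat_lit 159)))) (XT.nd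 (nat_lit 94) (nat_lit 0) (nat_lit 0) (XT.lf (nat_lit 0) (nat_lit 18211599088) (nat_lit 0) (nat_lit 0) (nat_lit 0) (nat_lit 0) (nat_lit 0) (nat_lit 0) (nat_lit 1) (nat_lit 0) (nat_lit 1) (nat_lit 0) (nat_lit 264) (nat_lit 298) (nat_lit 158)) (XT.nd (nat_lit 94) (nat_lit 0) (nat_lit 0) (XT.lf (nat_lit 0) (nat_lit 18210663342) (nat_lit 0) (nat_lit 0) (nat_lit 0) (nat_lit 0) (nat_lit 0) (nat_lit 0) (nat_lit 1) (nat_lit 0) (nat_lit 1) (nat_lit 0) (nat_lit 265) (nat_lit 298) (nat_lit 157)) (XT.lf (nat_lit 0) (nat_lit 18209772155) (nat_lit 0) (nat_lit 0) (nat_lit 0) (nat_lit 0) (nat_lit 0) (nat_lit 0) (nat_lit 1) (nat_lit 0) (nat_lit 1) (nat_lit 0) (nat_lit 266) (nat_lit 298) (nat_lit 156))))) (XT.nd (nat_lit 282) (nat_lit 0) (nat_lit 0) (XT.nd (nat_lit 94) (nat_lit 0) (nat_lit 0) (XT.lf (nat_lit 0) (nat_lit 18208923406) (nat_lit 0) (nat_lit 0) (nat_lit 0) (nat_lit 0) (nat_lit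 0) (nat_lit 0) (nat_lit 1) (nat_lit 0) (nat_lit 1) (nat_lit 0) (nat_lit 267) (nat_lit 298) (nat_lit 155)) (XT.nd (nat_lit 94) (nat_lit 0) (nat_lit 0) (XT.lf (nat_lit 0) (nat_lit 18208115073) (nat_lit 0) (nat_lit 0) (nat_lit 0) (nat_lit 0) (nat_lit 0) (nat_lit 0) (nat_lit 1) (nat_lit 0) (nat_lit 1) (nat_lit 0) (nat_lit 268) (nat_lit 298) (nat_lit 154)) (XT.lf (nat_lit 0) (nat_lit 18207345233) (nat_lit 0) (nat_lit 0) (nat_lit 0) (nat_lit 0) (nat_lit 0) (nat_lit 0) (nat_lit 1) (nat_lit 0) (nat_lit 1) (nat_lit 0) (nat_lit 269) (nat_lit 298) (nat_lit 153)))) (XT.nd (nat_lit 188) (nat_lit 0) (nat_lit 0) (XT.nd (nat_lit 94) (nat_lit 0) (nat_lit 0) (XT.lf (nat_lit 0) (nat_lit 18206612051) (nat_lit 0) (nat_lit 0) (nat_lit 0) (nat_lit 0) (nat_lit 0) (nat_lit 0) (nat_lit 1) (nat_lit 0) (nat_lit 1) (nat_lit 0) (nat_lit 270) (nat_lit 298) (nat_lit 152)) (XT.lf (nat_lit 0) (nat_lit 18205913783)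 (nat_lit 0) (nat_lit 0) (nat_lit 0) (nat_lit 0) (nat_lit 0) (nat_lit 0) (nat_lit 1) (nat_lit 0) (nat_lit 1) (nat_lit 0) (nat_lit 271) (nat_lit 298) (nat_lit 151))) (XT.nd (nat_lit 94) (nat_lit 0) (nat_lit 0) (XT.lf (nat_lit 0) (nat_lit 18205248766) (nat_lit 0) (nat_lit 0) (nat_lit 0) (nat_lit 0) (nat_lit 0) (nat_lit 0) (nat_lit 1) (nat_lit 0) (nat_lit 1) (nat_lit 0) (nat_lit 272) (nat_lit 298) (nat_lit 150)) (XT.lf (nat_lit 0) (nat_lit 18204615416) (nat_lit 0) (nat_lit 0) (nat_lit 0) (nat_lit 0) (nat_lit 0) (nat_lit 0) (nat_lit 1) (nat_lit 0) (nat_lit 1) (nat_lit 0) (nat_lit 273) (nat_lit 298) (nat_lit 149)))))) (XT.nd (nat_lit 658) (nat_lit 0) (nat_lit 0) (XT.nd (nat_lit 282) (nat_lit 0) (nat_lit 0) (XT.nd (nat_lit 94) (nat_lit 0) (nat_lit 0) (XT.lf (nat_lit 0) (nat_lit 18204012225) (nat_lit 0) (nat_lit 0) (nat_lit 0) (nat_lit 0) (nat_lit 0) (nat_lit 0) (nat_lit 1) (nat_lit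 0) (nat_lit 1) (nat_lit 0) (nat_lit 274) (nat_lit 298) (nat_lit 148)) (XT.nd (nat_lit 94) (nat_lit 0) (nat_lit 0) (XT.lf (nat_lit 0) (nat_lit 18203437758) (nat_lit 0) (nat_lit 0) (nat_lit 0) (nat_lit 0) (nat_lit 0) (nat_lit 0) (nat_lit 1) (nat_lit 0) (nat_lit 1) (nat_lit 0) (nat_lit 275) (nat_lit 298) (nat_lit 147)) (XT.lf (nat_lit 0) (nat_lit 18202890647) (nat_lit 0) (nat_lit 0) (nat_lit 0) (nat_lit 0) (nat_lit 0) (nat_lit 0) (nat_lit 1) (nat_lit 0) (nat_lit 1) (nat_lit 0) (nat_lit 276) (nat_lit 298) (nat_lit 146)))) (XT.nd (nat_lit 188) (nat_lit 0) (nat_lit 0) (XT.nd (nat_lit 94) (nat_lit 0) (nat_lit 0) (XT.lf (nat_lit 0) (nat_lit 18202369589) (nat_lit 0) (nat_lit 0) (nat_lit 0) (nat_lit 0) (nat_lit 0) (nat_lit 0) (nat_lit 1) (nat_lit 0) (nat_lit 1) (nat_lit 0) (nat_lit 277) (nat_lit 298) (nat_lit 145)) (XT.lf (nat_lit 0) (nat_lit 18201873342) (nat_lit 0) (nat_lit 0) (nat_lit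 0) (nat_lit 0) (nat_lit 0) (nat_lit 0) (nat_lit 1) (nat_lit 0) (nat_lit 1) (nat_lit 0) (nat_lit 278) (nat_lit 298) (nat_lit 144))) (XT.nd (nat_lit 94) (nat_lit 0) (nat_lit 0) (XT.lf (nat_lit 0) (nat_lit 18201400727) (nat_lit 0) (nat_lit 0) (nat_lit 0) (nat_lit 0) (nat_lit 0) (nat_lit 0) (nat_lit 1) (nat_lit 0) (nat_lit 1) (nat_lit 0) (nat_lit 279) (nat_lit 298) (nat_lit 143)) (XT.lf (nat_lit 0) (nat_lit 18200950617) (nat_lit 0) (nat_lit 0) (nat_lit 0) (nat_lit 0) (nat_lit 0) (nat_lit 0) (nat_lit 1) (nat_lit 0) (nat_lit 1) (nat_lit 0) (nat_lit 280) (nat_lit 298) (nat_lit 142))))) (XT.nd (nat_lit 282) (nat_lit 0) (nat_lit 0) (XT.nd (nat_lit 94) (nat_lit 0) (nat_lit 0) (XT.lf (nat_lit 0) (nat_lit 18200521941) (nat_lit 0) (nat_lit 0) (nat_lit 0) (nat_lit 0) (nat_lit 0) (nat_lit 0) (nat_lit 1) (nat_lit 0) (nat_lit 1) (nat_lit 0) (nat_lit 281) (nat_lit 298) (nat_lit 141)) (XT.nd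 (nat_lit 94) (nat_lit 0) (nat_lit 0) (XT.lf (nat_lit 0) (nat_lit 18200113678) (nat_lit 0) (nat_lit 0) (nat_lit 0) (nat_lit 0) (nat_lit 0) (nat_lit 0) (nat_lit 1) (nat_lit 0) (nat_lit 1) (nat_lit 0) (nat_lit 282) (nat_lit 298) (nat_lit 140)) (XT.lf (nat_lit 0) (nat_lit 18199724856) (nat_lit 0) (nat_lit 0) (nat_lit 0) (nat_lit 0) (nat_lit 0) (nat_lit 0) (nat_lit 1) (nat_lit 0) (nat_lit 1) (nat_lit 0) (nat_lit 283) (nat_lit 298) (nat_lit 139)))) (XT.nd (nat_lit 188) (nat_lit 0) (nat_lit 0) (XT.nd (nat_lit 94) (nat_lit 0) (nat_lit 0) (XT.lf (nat_lit 0) (nat_lit 18199354550) (nat_lit 0) (nat_lit 0) (nat_lit 0) (nat_lit 0) (nat_lit 0) (nat_lit 0) (nat_lit 1) (nat_lit 0) (nat_lit 1) (nat_lit 0) (nat_lit 284) (nat_lit 298) (nat_lit 138)) (XT.lf (nat_lit 0) (nat_lit 18199001877) (nat_lit 0) (nat_lit 0) (nat_lit 0) (nat_lit 0) (nat_lit 0) (nat_lit 0) (nat_lit 1) (nat_lit 0) (nat_lit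 1) (nat_lit 0) (nat_lit 285) (nat_lit 298) (nat_lit 137))) (XT.nd (nat_lit 94) (nat_lit 0) (nat_lit 0) (XT.lf (nat_lit 0) (nat_lit 18198665998) (nat_lit 0) (nat_lit 0) (nat_lit 0) (nat_lit 0) (nat_lit 0) (nat_lit 0) (nat_lit 1) (nat_lit 0) (nat_lit 1) (nat_lit 0) (nat_lit 286) (nat_lit 298) (nat_lit 136)) (XT.lf (nat_lit 0) (nat_lit 18198346113) (nat_lit 0) (nat_lit 0) (nat_lit 0) (nat_lit 0) (nat_lit 0) (nat_lit 0) (nat_lit 1) (nat_lit 0) (nat_lit 1) (nat_lit 0) (nat_lit 287) (nat_lit 298) (nat_lit 135))))))))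
noncomputable def ec175 : XT := (XT.nd (nat_lit 29892) (nat_lit 0) (nat_lit 6300) (XT.nd (nat_lit 1222) (nat_lit 0) (nat_lit 0) (XT.nd (nat_lit 564) (nat_lit 0) (nat_lit 0) (XT.nd (nat_lit 282) (nat_lit 0) (nat_lit 0) (XT.nd (nat_lit 94) (nat_lit 0) (nat_lit 0) (XT.lf (nat_lit 0) (nat_lit 18198041461) (nat_lit 0) (nat_lit 0) (nat_lit 0) (nat_lit 0) (nat_lit 0) (nat_lit 0) (nat_lit 1) (nat_lit 0) (nat_lit 1) (nat_lit 0) (nat_lit 288) (nat_lit 298) (nat_lit 134)) (XT.nd (nat_lit 94) (nat_lit 0) (nat_lit 0) (XT.lf (nat_lit 0) (nat_lit 18197751316) (nat_lit 0) (nat_lit 0) (nat_lit 0) (nat_lit 0) (nat_lit 0) (nat_lit 0) (nat_lit 1) (nat_lit 0) (nat_lit 1) (nat_lit 0) (nat_lit 289) (nat_lit 298) (nat_lit 133)) (XT.lf (nat_lit 0) (nat_lit 18197474988) (nat_lit 0) (nat_lit 0) (nat_lit 0) (nat_lit 0) (nat_lit 0) (nat_lit 0) (nat_lit 1) (nat_lit 0) (nat_lit 1) (nat_lit 0) (nat_lit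 290) (nat_lit 298) (nat_lit 132)))) (XT.nd (nat_lit 94) (nat_lit 0) (nat_lit 0) (XT.lf (nat_lit 0) (nat_lit 18197211818) (nat_lit 0) (nat_lit 0) (nat_lit 0) (nat_lit 0) (nat_lit 0) (nat_lit 0) (nat_lit 1) (nat_lit 0) (nat_lit 1) (nat_lit 0) (nat_lit 291) (nat_lit 298) (nat_lit 131)) (XT.nd (nat_lit 94) (nat_lit 0) (nat_lit 0) (XT.lf (nat_lit 0) (nat_lit 18196961180) (nat_lit 0) (nat_lit 0) (nat_lit 0) (nat_lit 0) (nat_lit 0) (nat_lit 0) (nat_lit 1) (nat_lit 0) (nat_lit 1) (nat_lit 0) (nat_lit 292) (nat_lit 298) (nat_lit 130)) (XT.lf (nat_lit 0) (nat_lit 18196722477) (nat_lit 0) (nat_lit 0) (nat_lit 0) (nat_lit 0) (nat_lit 0) (nat_lit 0) (nat_lit 1) (nat_lit 0) (nat_lit 1) (nat_lit 0) (nat_lit 293) (nat_lit 298) (nat_lit 129))))) (XT.nd (nat_lit 282) (nat_lit 0) (nat_lit 0) (XT.nd (nat_lit 94) (nat_lit 0) (nat_lit 0) (XT.lf (nat_lit 0) (nat_lit 18196495141) (nat_lit 0) (nat_lit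 0) (nat_lit 0) (nat_lit 0) (nat_lit 0) (nat_lit 0) (nat_lit 1) (nat_lit 0) (nat_lit 1) (nat_lit 0) (nat_lit 294) (nat_lit 298) (nat_lit 128)) (XT.nd (nat_lit 94) (nat_lit 0) (nat_lit 0) (XT.lf (nat_lit 0) (nat_lit 18196278630) (nat_lit 0) (nat_lit 0) (nat_lit 0) (nat_lit 0) (nat_lit 0) (nat_lit 0) (nat_lit 1) (nat_lit 0) (nat_lit 1) (nat_lit 0) (nat_lit 295) (nat_lit 298) (nat_lit 127)) (XT.lf (nat_lit 0) (nat_lit 18196072430) (nat_lit 0) (nat_lit 0) (nat_lit 0) (nat_lit 0) (nat_lit 0) (nat_lit 0) (nat_lit 1) (nat_lit 0) (nat_lit 1) (nat_lit 0) (nat_lit 296) (nat_lit 298) (nat_lit 126)))) (XT.nd (nat_lit 188) (nat_lit 0) (nat_lit 0) (XT.nd (nat_lit 94) (nat_lit 0) (nat_lit 0) (XT.lf (nat_lit 0) (nat_lit 18195876048) (nat_lit 0) (nat_lit 0) (nat_lit 0) (nat_lit 0) (nat_lit 0) (nat_lit 0) (nat_lit 1) (nat_lit 0) (nat_lit 1) (nat_lit 0) (nat_lit 297) (nat_lit 298) (nat_lit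 125)) (XT.lf (nat_lit 0) (nat_lit 18195689018) (nat_lit 0) (nat_lit 0) (nat_lit 0) (nat_lit 0) (nat_lit 0) (nat_lit 0) (nat_lit 1) (nat_lit 0) (nat_lit 1) (nat_lit 0) (nat_lit 298) (nat_lit 298) (nat_lit 124))) (XT.nd (nat_lit 94) (nat_lit 0) (nat_lit 0) (XT.lf (nat_lit 0) (nat_lit 18195510895) (nat_lit 0) (nat_lit 0) (nat_lit 0) (nat_lit 0) (nat_lit 0) (nat_lit 0) (nat_lit 1) (nat_lit 0) (nat_lit 1) (nat_lit 0) (nat_lit 299) (nat_lit 298) (nat_lit 123)) (XT.lf (nat_lit 0) (nat_lit 18195341253) (nat_lit 0) (nat_lit 0) (nat_lit 0) (nat_lit 0) (nat_lit 0) (nat_lit 0) (nat_lit 1) (nat_lit 0) (nat_lit 1) (nat_lit 0) (nat_lit 300) (nat_lit 298) (nat_lit 122)))))) (XT.nd (nat_lit 658) (nat_lit 0) (nat_lit 0) (XT.nd (nat_lit 282) (nat_lit 0) (nat_lit 0) (XT.nd (nat_lit 94) (nat_lit 0) (nat_lit 0) (XT.lf (nat_lit 0) (nat_lit 18195179689) (nat_lit 0) (nat_lit 0) (nat_lit 0) (nat_lit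 0) (nat_lit 0) (nat_lit 0) (nat_lit 1) (nat_lit 0) (nat_lit 1) (nat_lit 0) (nat_lit 301) (nat_lit 298) (nat_lit 121)) (XT.nd (nat_lit 94) (nat_lit 0) (nat_lit 0) (XT.lf (nat_lit 0) (nat_lit 18195025819) (nat_lit 0) (nat_lit 0) (nat_lit 0) (nat_lit 0) (nat_lit 0) (nat_lit 0) (nat_lit 1) (nat_lit 0) (nat_lit 1) (nat_lit 0) (nat_lit 302) (nat_lit 298) (nat_lit 120)) (XT.lf (nat_lit 0) (nat_lit 18194879276) (nat_lit 0) (nat_lit 0) (nat_lit 0) (nat_lit 0) (nat_lit 0) (nat_lit 0) (nat_lit 1) (nat_lit 0) (nat_lit 1) (nat_lit 0) (nat_lit 303) (nat_lit 298) (nat_lit 119)))) (XT.nd (nat_lit 188) (nat_lit 0) (nat_lit 0) (XT.nd (nat_lit 94) (nat_lit 0) (nat_lit 0) (XT.lf (nat_lit 0) (nat_lit 18194739712) (nat_lit 0) (nat_lit 0) (nat_lit 0) (nat_lit 0) (nat_lit 0) (nat_lit 0) (nat_lit 1) (nat_lit 0) (nat_lit 1) (nat_lit 0) (nat_lit 304) (nat_lit 298) (nat_lit 118)) (XT.lf (nat_lit 0)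 (nat_lit 18194606793) (nat_lit 0) (nat_lit 0) (nat_lit 0) (nat_lit 0) (nat_lit 0) (nat_lit 0) (nat_lit 1) (nat_lit 0) (nat_lit 1) (nat_lit 0) (nat_lit 305) (nat_lit 298) (nat_lit 117))) (XT.nd (nat_lit 94) (nat_lit 0) (nat_lit 0) (XT.lf (nat_lit 0) (nat_lit 18194480204) (nat_lit 0) (nat_lit 0) (nat_lit 0) (nat_lit 0) (nat_lit 0) (nat_lit 0) (nat_lit 1) (nat_lit 0) (nat_lit 1) (nat_lit 0) (nat_lit 306) (nat_lit 298) (nat_lit 116)) (XT.lf (nat_lit 0) (nat_lit 18194359643) (nat_lit 0) (nat_lit 0) (nat_lit 0) (nat_lit 0) (nat_lit 0) (nat_lit 0) (nat_lit 1) (nat_lit 0) (nat_lit 1) (nat_lit 0) (nat_lit 307) (nat_lit 298) (nat_lit 115))))) (XT.nd (nat_lit 282) (nat_lit 0) (nat_lit 0) (XT.nd (nat_lit 94) (nat_lit 0) (nat_lit 0) (XT.lf (nat_lit 0) (nat_lit 18194244823) (nat_lit 0) (nat_lit 0) (nat_lit 0) (nat_lit 0) (nat_lit 0) (nat_lit 0) (nat_lit 1) (nat_lit 0) (nat_lit 1) (nat_lit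 0) (nat_lit 308) (nat_lit 298) (nat_lit 114)) (XT.nd (nat_lit 94) (nat_lit 0) (nat_lit 0) (XT.lf (nat_lit 0) (nat_lit 18194135470) (nat_lit 0) (nat_lit 0) (nat_lit 0) (nat_lit 0) (nat_lit 0) (nat_lit 0) (nat_lit 1) (nat_lit 0) (nat_lit 1) (nat_lit 0) (nat_lit 309) (nat_lit 298) (nat_lit 113)) (XT.lf (nat_lit 0) (nat_lit 18194031325) (nat_lit 0) (nat_lit 0) (nat_lit 0) (nat_lit 0) (nat_lit 0) (nat_lit 0) (nat_lit 1) (nat_lit 0) (nat_lit 1) (nat_lit 0) (nat_lit 310) (nat_lit 298) (nat_lit 112)))) (XT.nd (nat_lit 27542) (nat_lit 0) (nat_lit 10752) (XT.nd (nat_lit 27448) (nat_lit 0) (nat_lit 10752) (XT.lf (nat_lit 0) (nat_lit 18193932139) (nat_lit 0) (nat_lit 0) (nat_lit 0) (nat_lit 0) (nat_lit 0) (nat_lit 0) (nat_lit 1) (nat_lit 0) (nat_lit 1) (nat_lit 0) (nat_lit 311) (nat_lit 298) (nat_lit 111)) (XT.lf (nat_lit 924) (nat_lit 9559129036) (nat_lit 0) (nat_lit 16972211632) (nat_lit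 924) (nat_lit 9559129036) (nat_lit 139) (nat_lit 1) (nat_lit 128) (nat_lit 0) (nat_lit 139) (nat_lit 0) (nat_lit 122) (nat_lit 299) (nat_lit 299))) (XT.nd (nat_lit 94) (nat_lit 0) (nat_lit 84) (XT.lf (nat_lit 924) (nat_lit 37052377556) (nat_lit 84) (nat_lit 16698466283) (nat_lit 0) (nat_lit 16698466283) (nat_lit 139) (nat_lit 1) (nat_lit 129) (nat_lit 1) (nat_lit 128) (nat_lit 0) (nat_lit 123) (nat_lit 299) (nat_lit 298)) (XT.lf (nat_lit 924) (nat_lit 17658605246) (nat_lit 0) (nat_lit 33454004307) (nat_lit 840) (nat_lit 17658605246) (nat_lit 140) (nat_lit 1) (nat_lit 129) (nat_lit 1) (nat_lit 139) (nat_lit 1) (nat_lit 124) (nat_lit 299) (nat_lit 297))))))) (XT.nd (nat_lit 1316) (nat_lit 2604) (nat_lit 0) (XT.nd (nat_lit 658) (nat_lit 1932) (nat_lit 0) (XT.nd (nat_lit 282) (nat_lit 0) (nat_lit 168) (XT.nd (nat_lit 94) (nat_lit 0) (nat_lit 84) (XT.lf (nat_lit 924) (nat_lit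 33125089716) (nat_lit 84) (nat_lit 17011122370) (nat_lit 0) (nat_lit 17011122370) (nat_lit 140) (nat_lit 1) (nat_lit 130) (nat_lit 1) (nat_lit 129) (nat_lit 1) (nat_lit 125) (nat_lit 299) (nat_lit 296)) (XT.nd (nat_lit 94) (nat_lit 0) (nat_lit 0) (XT.lf (nat_lit 924) (nat_lit 15247160693) (nat_lit 0) (nat_lit 35080601589) (nat_lit 840) (nat_lit 15247160693) (nat_lit 141) (nat_lit 1) (nat_lit 130) (nat_lit 1) (nat_lit 140) (nat_lit 1) (nat_lit 126) (nat_lit 299) (nat_lit 295)) (XT.lf (nat_lit 924) (nat_lit 27423011584) (nat_lit 84) (nat_lit 18313716510) (nat_lit 0) (nat_lit 18313716510) (nat_lit 141) (nat_lit 1) (nat_lit 131) (nat_lit 1) (nat_lit 130) (nat_lit 1) (nat_lit 127) (nat_lit 299) (nat_lit 294)))) (XT.nd (nat_lit 188) (nat_lit 0) (nat_lit 84) (XT.nd (nat_lit 94) (nat_lit 0) (nat_lit 0) (XT.lf (nat_lit 924) (nat_lit 12024198531) (nat_lit 0) (nat_lit 38528755877)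 (nat_lit 840) (nat_lit 12024198531) (nat_lit 142) (nat_lit 1) (nat_lit 131) (nat_lit 1) (nat_lit 141) (nat_lit 1) (nat_lit 128) (nat_lit 299) (nat_lit 293)) (XT.lf (nat_lit 924) (nat_lit 20213046925) (nat_lit 84) (nat_lit 20465689558) (nat_lit 0) (nat_lit 20465689558) (nat_lit 142) (nat_lit 1) (nat_lit 132) (nat_lit 1) (nat_lit 131) (nat_lit 1) (nat_lit 129) (nat_lit 299) (nat_lit 292))) (XT.nd (nat_lit 94) (nat_lit 0) (nat_lit 0) (XT.lf (nat_lit 924) (nat_lit 8114485541) (nat_lit 0) (nat_lit 43535174037) (nat_lit 840) (nat_lit 8114485541) (nat_lit 143) (nat_lit 1) (nat_lit 132) (nat_lit 1) (nat_lit 142) (nat_lit 1) (nat_lit 130) (nat_lit 299) (nat_lit 291)) (XT.lf (nat_lit 924) (nat_lit 11732432911) (nat_lit 84) (nat_lit 23341860897) (nat_lit 0) (nat_lit 23341860897) (nat_lit 143) (nat_lit 1) (nat_lit 133) (nat_lit 1) (nat_lit 132) (nat_lit 1) (nat_lit 131) (nat_lit 299)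 (nat_lit 290))))) (XT.nd (nat_lit 282) (nat_lit 840) (nat_lit 0) (XT.nd (nat_lit 94) (nat_lit 1428) (nat_lit 0) (XT.lf (nat_lit 84) (nat_lit 3628840320) (nat_lit 0) (nat_lit 49865514865) (nat_lit 840) (nat_lit 3628840320) (nat_lit 134) (nat_lit 1) (nat_lit 133) (nat_lit 1) (nat_lit 143) (nat_lit 1) (nat_lit 132) (nat_lit 299) (nat_lit 289)) (XT.nd (nat_lit 94) (nat_lit 588) (nat_lit 0) (XT.lf (nat_lit 924) (nat_lit 2191729311) (nat_lit 0) (nat_lit 26830888655) (nat_lit 840) (nat_lit 26830888655) (nat_lit 134) (nat_lit 1) (nat_lit 123) (nat_lit 1) (nat_lit 133) (nat_lit 1) (nat_lit 133) (nat_lit 299) (nat_lit 288)) (XT.lf (nat_lit 588) (nat_lit 52012496762) (nat_lit 0) (nat_lit 1312934595) (nat_lit 504) (nat_lit 1312934595) (nat_lit 123) (nat_lit 1) (nat_lit 116) (nat_lit 1) (nat_lit 122) (nat_lit 1) (nat_lit 134) (nat_lit 299) (nat_lit 287)))) (XT.nd (nat_lit 188) (nat_lit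 420) (nat_lit 0) (XT.nd (nat_lit 94) (nat_lit 420) (nat_lit 0) (XT.lf (nat_lit 84) (nat_lit 22739773059) (nat_lit 0) (nat_lit 7959310486) (nat_lit 588) (nat_lit 22739773059) (nat_lit 117) (nat_lit 1) (nat_lit 116) (nat_lit 1) (nat_lit 123) (nat_lit 1) (nat_lit 135) (nat_lit 299) (nat_lit 286)) (XT.lf (nat_lit 504) (nat_lit 39129312389) (nat_lit 0) (nat_lit 6580520609) (nat_lit 420) (nat_lit 6580520609) (nat_lit 117) (nat_lit 1) (nat_lit 111) (nat_lit 1) (nat_lit 116) (nat_lit 1) (nat_lit 136) (nat_lit 299) (nat_lit 285))) (XT.nd (nat_lit 94) (nat_lit 420) (nat_lit 0) (XT.lf (nat_lit 84) (nat_lit 16220003301) (nat_lit 0) (nat_lit 18725988715) (nat_lit 504) (nat_lit 16220003301) (nat_lit 112) (nat_lit 1) (nat_lit 111) (nat_lit 1) (nat_lit 117) (nat_lit 1) (nat_lit 137) (nat_lit 299) (nat_lit 284)) (XT.lf (nat_lit 504) (nat_lit 25767207113) (nat_lit 0) (nat_lit 12156794154)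 (nat_lit 420) (nat_lit 12156794154) (nat_lit 112) (nat_lit 1) (nat_lit 106) (nat_lit 1) (nat_lit 111) (nat_lit 1) (nat_lit 138) (nat_lit 299) (nat_lit 283)))))) (XT.nd (nat_lit 658) (nat_lit 1176) (nat_lit 0) (XT.nd (nat_lit 282) (nat_lit 1092) (nat_lit 0) (XT.nd (nat_lit 94) (nat_lit 336) (nat_lit 0) (XT.lf (nat_lit 84) (nat_lit 9494873373) (nat_lit 0) (nat_lit 30037410045) (nat_lit 504) (nat_lit 9494873373) (nat_lit 107) (nat_lit 1) (nat_lit 106) (nat_lit 1) (nat_lit 112) (nat_lit 1) (nat_lit 139) (nat_lit 299) (nat_lit 282)) (XT.nd (nat_lit 94) (nat_lit 0) (nat_lit 0) (XT.lf (nat_lit 420) (nat_lit 12050548234) (nat_lit 0) (nat_lit 17975036495) (nat_lit 336) (nat_lit 17975036495) (nat_lit 107) (nat_lit 1) (nat_lit 102) (nat_lit 1) (nat_lit 106) (nat_lit 1) (nat_lit 140) (nat_lit 299) (nat_lit 281)) (XT.lf (nat_lit 84) (nat_lit 2622118887) (nat_lit 0) (nat_lit 41769323387)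 (nat_lit 420) (nat_lit 2622118887) (nat_lit 103) (nat_lit 1) (nat_lit 102) (nat_lit 1) (nat_lit 107) (nat_lit 1) (nat_lit 141) (nat_lit 299) (nat_lit 280)))) (XT.nd (nat_lit 188) (nat_lit 336) (nat_lit 0) (XT.nd (nat_lit 94) (nat_lit 336) (nat_lit 0) (XT.lf (nat_lit 84) (nat_lit 22094727211) (nat_lit 0) (nat_lit 1850476323) (nat_lit 420) (nat_lit 22094727211) (nat_lit 98) (nat_lit 1) (nat_lit 97) (nat_lit 1) (nat_lit 102) (nat_lit 1) (nat_lit 142) (nat_lit 299) (nat_lit 279)) (XT.lf (nat_lit 420) (nat_lit 36548163182) (nat_lit 0) (nat_lit 4277607690) (nat_lit 336) (nat_lit 4277607690) (nat_lit 98) (nat_lit 1) (nat_lit 93) (nat_lit 1) (nat_lit 97) (nat_lit 1) (nat_lit 143) (nat_lit 299) (nat_lit 278))) (XT.nd (nat_lit 94) (nat_lit 336) (nat_lit 0) (XT.lf (nat_lit 84) (nat_lit 14335796368) (nat_lit 0) (nat_lit 15511300402) (nat_lit 420) (nat_lit 14335796368) (nat_lit 94) (nat_lit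 1) (nat_lit 93) (nat_lit 1) (nat_lit 98) (nat_lit 1) (nat_lit 144) (nat_lit 299) (nat_lit 277)) (XT.lf (nat_lit 420) (nat_lit 20919914810) (nat_lit 0) (nat_lit 11187206052) (nat_lit 336) (nat_lit 11187206052) (nat_lit 94) (nat_lit 1) (nat_lit 89) (nat_lit 1) (nat_lit 93) (nat_lit 1) (nat_lit 145) (nat_lit 299) (nat_lit 276))))) (XT.nd (nat_lit 282) (nat_lit 504) (nat_lit 0) (XT.nd (nat_lit 94) (nat_lit 672) (nat_lit 0) (XT.lf (nat_lit 84) (nat_lit 6597207490) (nat_lit 0) (nat_lit 29237327461) (nat_lit 420) (nat_lit 6597207490) (nat_lit 90) (nat_lit 1) (nat_lit 89) (nat_lit 1) (nat_lit 94) (nat_lit 1) (nat_lit 146) (nat_lit 299) (nat_lit 275)) (XT.nd (nat_lit 94) (nat_lit 420) (nat_lit 0) (XT.lf (nat_lit 336) (nat_lit 5365226299) (nat_lit 0) (nat_lit 18111275708) (nat_lit 252) (nat_lit 18111275708) (nat_lit 90) (nat_lit 1) (nat_lit 86) (nat_lit 1) (nat_lit 89) (nat_lit 1)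 (nat_lit 147) (nat_lit 299) (nat_lit 274)) (XT.lf (nat_lit 420) (nat_lit 38632430828) (nat_lit 0) (nat_lit 1071975827) (nat_lit 336) (nat_lit 1071975827) (nat_lit 86) (nat_lit 1) (nat_lit 81) (nat_lit 1) (nat_lit 85) (nat_lit 1) (nat_lit 148) (nat_lit 299) (nat_lit 273)))) (XT.nd (nat_lit 188) (nat_lit 252) (nat_lit 0) (XT.nd (nat_lit 94) (nat_lit 252) (nat_lit 0) (XT.lf (nat_lit 84) (nat_lit 15117155787) (nat_lit 0) (nat_lit 9735166651) (nat_lit 420) (nat_lit 15117155787) (nat_lit 82) (nat_lit 1) (nat_lit 81) (nat_lit 1) (nat_lit 86) (nat_lit 1) (nat_lit 149) (nat_lit 299) (nat_lit 272)) (XT.lf (nat_lit 336) (nat_lit 22079083946) (nat_lit 0) (nat_lit 8557218474) (nat_lit 252) (nat_lit 8557218474) (nat_lit 82) (nat_lit 1) (nat_lit 78) (nat_lit 1) (nat_lit 81) (nat_lit 1) (nat_lit 150) (nat_lit 299) (nat_lit 271))) (XT.nd (nat_lit 94) (nat_lit 252) (nat_lit 0) (XT.lf (nat_lit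 84) (nat_lit 6975124147) (nat_lit 0) (nat_lit 24487029799) (nat_lit 336) (nat_lit 6975124147) (nat_lit 79) (nat_lit 1) (nat_lit 78) (nat_lit 1) (nat_lit 82) (nat_lit 1) (nat_lit 151) (nat_lit 299) (nat_lit 270)) (XT.lf (nat_lit 336) (nat_lit 5813547960) (nat_lit 0) (nat_lit 15942345825) (nat_lit 252) (nat_lit 15942345825) (nat_lit 79) (nat_lit 1) (nat_lit 75) (nat_lit 1) (nat_lit 78) (nat_lit 1) (nat_lit 152) (nat_lit 299) (nat_lit 269))))))))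
noncomputable def ec176 : XT := (XT.nd (nat_lit 2538) (nat_lit 2436) (nat_lit 0) (XT.nd (nat_lit 1222) (nat_lit 1512) (nat_lit 0) (XT.nd (nat_lit 564) (nat_lit 756) (nat_lit 0) (XT.nd (nat_lit 282) (nat_lit 504) (nat_lit 0) (XT.nd (nat_lit 94) (nat_lit 252) (nat_lit 0) (XT.lf (nat_lit 336) (nat_lit 34988420806) (nat_lit 0) (nat_lit 999118270) (nat_lit 252) (nat_lit 999118270) (nat_lit 75) (nat_lit 1) (nat_lit 71) (nat_lit 1) (nat_lit 74) (nat_lit 1) (nat_lit 153) (nat_lit 299) (nat_lit 268)) (XT.nd (nat_lit 94) (nat_lit 252) (nat_lit 0) (XT.lf (nat_lit 84) (nat_lit 13235117585) (nat_lit 0) (nat_lit 9807089235) (nat_lit 336) (nat_lit 13235117585) (nat_lit 72) (nat_lit 1) (nat_lit 71) (nat_lit 1) (nat_lit 75) (nat_lit 1) (nat_lit 154) (nat_lit 299) (nat_lit 267)) (XT.lf (nat_lit 336) (nat_lit 18199498565) (nat_lit 0) (nat_lit 8697369167) (nat_lit 252) (nat_lit 8697369167)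 (nat_lit 72) (nat_lit 1) (nat_lit 68) (nat_lit 1) (nat_lit 71) (nat_lit 1) (nat_lit 155) (nat_lit 299) (nat_lit 266)))) (XT.nd (nat_lit 94) (nat_lit 504) (nat_lit 0) (XT.lf (nat_lit 84) (nat_lit 5012127062) (nat_lit 0) (nat_lit 24905215986) (nat_lit 336) (nat_lit 5012127062) (nat_lit 69) (nat_lit 1) (nat_lit 68) (nat_lit 1) (nat_lit 72) (nat_lit 1) (nat_lit 156) (nat_lit 299) (nat_lit 265)) (XT.nd (nat_lit 94) (nat_lit 336) (nat_lit 0) (XT.lf (nat_lit 252) (nat_lit 1836610005) (nat_lit 0) (nat_lit 16220310223) (nat_lit 168) (nat_lit 16220310223) (nat_lit 69) (nat_lit 1) (nat_lit 66) (nat_lit 1) (nat_lit 68) (nat_lit 1) (nat_lit 157) (nat_lit 299) (nat_lit 264)) (XT.lf (nat_lit 336) (nat_lit 27750561339) (nat_lit 0) (nat_lit 2947310759) (nat_lit 252) (nat_lit 2947310759) (nat_lit 66) (nat_lit 1) (nat_lit 62) (nat_lit 1) (nat_lit 65) (nat_lit 1) (nat_lit 158) (nat_lit 299)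 (nat_lit 263))))) (XT.nd (nat_lit 282) (nat_lit 588) (nat_lit 0) (XT.nd (nat_lit 94) (nat_lit 168) (nat_lit 0) (XT.lf (nat_lit 84) (nat_lit 9692612357) (nat_lit 0) (nat_lit 13634979395) (nat_lit 336) (nat_lit 9692612357) (nat_lit 63) (nat_lit 1) (nat_lit 62) (nat_lit 1) (nat_lit 66) (nat_lit 1) (nat_lit 159) (nat_lit 299) (nat_lit 262)) (XT.nd (nat_lit 94) (nat_lit 0) (nat_lit 0) (XT.lf (nat_lit 252) (nat_lit 11198318429) (nat_lit 0) (nat_lit 10608097744) (nat_lit 168) (nat_lit 10608097744) (nat_lit 63) (nat_lit 1) (nat_lit 60) (nat_lit 1) (nat_lit 62) (nat_lit 1) (nat_lit 160) (nat_lit 299) (nat_lit 261)) (XT.lf (nat_lit 84) (nat_lit 1608842917) (nat_lit 0) (nat_lit 28611238427) (nat_lit 252) (nat_lit 1608842917) (nat_lit 61) (nat_lit 1) (nat_lit 60) (nat_lit 1) (nat_lit 63) (nat_lit 1) (nat_lit 161) (nat_lit 299) (nat_lit 260)))) (XT.nd (nat_lit 188) (nat_lit 168) (nat_lit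 0) (XT.nd (nat_lit 94) (nat_lit 168) (nat_lit 0) (XT.lf (nat_lit 84) (nat_lit 13278062858) (nat_lit 0) (nat_lit 4689337548) (nat_lit 252) (nat_lit 13278062858) (nat_lit 58) (nat_lit 1) (nat_lit 57) (nat_lit 1) (nat_lit 60) (nat_lit 1) (nat_lit 162) (nat_lit 299) (nat_lit 259)) (XT.lf (nat_lit 252) (nat_lit 18438917459) (nat_lit 0) (nat_lit 6121221012) (nat_lit 168) (nat_lit 6121221012) (nat_lit 58) (nat_lit 1) (nat_lit 55) (nat_lit 1) (nat_lit 57) (nat_lit 1) (nat_lit 163) (nat_lit 299) (nat_lit 258))) (XT.nd (nat_lit 94) (nat_lit 168) (nat_lit 0) (XT.lf (nat_lit 84) (nat_lit 5202982796) (nat_lit 0) (nat_lit 19723758035) (nat_lit 252) (nat_lit 5202982796) (nat_lit 56) (nat_lit 1) (nat_lit 55) (nat_lit 1) (nat_lit 58) (nat_lit 1) (nat_lit 164) (nat_lit 299) (nat_lit 257)) (XT.lf (nat_lit 252) (nat_lit 2437410115) (nat_lit 0) (nat_lit 13575898608) (nat_lit 168) (nat_lit 13575898608)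 (nat_lit 56) (nat_lit 1) (nat_lit 53) (nat_lit 1) (nat_lit 55) (nat_lit 1) (nat_lit 165) (nat_lit 299) (nat_lit 256)))))) (XT.nd (nat_lit 658) (nat_lit 756) (nat_lit 0) (XT.nd (nat_lit 282) (nat_lit 336) (nat_lit 0) (XT.nd (nat_lit 94) (nat_lit 168) (nat_lit 0) (XT.lf (nat_lit 252) (nat_lit 23956441287) (nat_lit 0) (nat_lit 2553955813) (nat_lit 168) (nat_lit 2553955813) (nat_lit 53) (nat_lit 1) (nat_lit 50) (nat_lit 1) (nat_lit 52) (nat_lit 1) (nat_lit 166) (nat_lit 299) (nat_lit 255)) (XT.nd (nat_lit 94) (nat_lit 168) (nat_lit 0) (XT.lf (nat_lit 84) (nat_lit 7975158011) (nat_lit 0) (nat_lit 12593662047) (nat_lit 252) (nat_lit 7975158011) (nat_lit 51) (nat_lit 1) (nat_lit 50) (nat_lit 1) (nat_lit 53) (nat_lit 1) (nat_lit 167) (nat_lit 299) (nat_lit 254)) (XT.lf (nat_lit 252) (nat_lit 8122311235) (nat_lit 0) (nat_lit 9958199596) (nat_lit 168) (nat_lit 9958199596) (nat_lit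 51) (nat_lit 1) (nat_lit 48) (nat_lit 1) (nat_lit 50) (nat_lit 1) (nat_lit 168) (nat_lit 299) (nat_lit 253)))) (XT.nd (nat_lit 188) (nat_lit 168) (nat_lit 0) (XT.nd (nat_lit 94) (nat_lit 168) (nat_lit 0) (XT.lf (nat_lit 84) (nat_lit 266957969) (nat_lit 0) (nat_lit 27017246610) (nat_lit 252) (nat_lit 266957969) (nat_lit 49) (nat_lit 1) (nat_lit 48) (nat_lit 1) (nat_lit 51) (nat_lit 1) (nat_lit 169) (nat_lit 299) (nat_lit 252)) (XT.lf (nat_lit 84) (nat_lit 10079897649) (nat_lit 0) (nat_lit 6900720266) (nat_lit 168) (nat_lit 10079897649) (nat_lit 47) (nat_lit 1) (nat_lit 46) (nat_lit 1) (nat_lit 48) (nat_lit 1) (nat_lit 170) (nat_lit 299) (nat_lit 251))) (XT.nd (nat_lit 94) (nat_lit 0) (nat_lit 0) (XT.lf (nat_lit 252) (nat_lit 12508005461) (nat_lit 0) (nat_lit 7039563274) (nat_lit 168) (nat_lit 7039563274) (nat_lit 47) (nat_lit 1) (nat_lit 44) (nat_lit 1) (nat_lit 46) (nat_lit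 1) (nat_lit 171) (nat_lit 299) (nat_lit 250)) (XT.lf (nat_lit 84) (nat_lit 2507768649) (nat_lit 0) (nat_lit 21110988981) (nat_lit 252) (nat_lit 2507768649) (nat_lit 45) (nat_lit 1) (nat_lit 44) (nat_lit 1) (nat_lit 47) (nat_lit 1) (nat_lit 172) (nat_lit 299) (nat_lit 249))))) (XT.nd (nat_lit 282) (nat_lit 420) (nat_lit 0) (XT.nd (nat_lit 94) (nat_lit 168) (nat_lit 0) (XT.lf (nat_lit 84) (nat_lit 11643914281) (nat_lit 0) (nat_lit 2381890434) (nat_lit 168) (nat_lit 11643914281) (nat_lit 43) (nat_lit 1) (nat_lit 42) (nat_lit 1) (nat_lit 44) (nat_lit 1) (nat_lit 173) (nat_lit 299) (nat_lit 248)) (XT.nd (nat_lit 94) (nat_lit 0) (nat_lit 0) (XT.lf (nat_lit 252) (nat_lit 15838709815) (nat_lit 0) (nat_lit 4693302149) (nat_lit 168) (nat_lit 4693302149) (nat_lit 43) (nat_lit 1) (nat_lit 40) (nat_lit 1) (nat_lit 42) (nat_lit 1) (nat_lit 174) (nat_lit 299) (nat_lit 247)) (XT.lf (nat_lit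 84) (nat_lit 4242330013) (nat_lit 0) (nat_lit 16305047007) (nat_lit 252) (nat_lit 4242330013) (nat_lit 41) (nat_lit 1) (nat_lit 40) (nat_lit 1) (nat_lit 43) (nat_lit 1) (nat_lit 175) (nat_lit 299) (nat_lit 246)))) (XT.nd (nat_lit 188) (nat_lit 84) (nat_lit 0) (XT.nd (nat_lit 94) (nat_lit 252) (nat_lit 0) (XT.lf (nat_lit 168) (nat_lit 1217818457) (nat_lit 0) (nat_lit 11572250807) (nat_lit 84) (nat_lit 11572250807) (nat_lit 41) (nat_lit 1) (nat_lit 39) (nat_lit 1) (nat_lit 40) (nat_lit 1) (nat_lit 176) (nat_lit 299) (nat_lit 245)) (XT.lf (nat_lit 252) (nat_lit 18314681732) (nat_lit 0) (nat_lit 2815320837) (nat_lit 168) (nat_lit 2815320837) (nat_lit 39) (nat_lit 1) (nat_lit 36) (nat_lit 1) (nat_lit 38) (nat_lit 1) (nat_lit 177) (nat_lit 299) (nat_lit 244))) (XT.nd (nat_lit 94) (nat_lit 84) (nat_lit 0) (XT.lf (nat_lit 84) (nat_lit 5565587343) (nat_lit 0) (nat_lit 12401806454)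 (nat_lit 252) (nat_lit 5565587343) (nat_lit 37) (nat_lit 1) (nat_lit 36) (nat_lit 1) (nat_lit 39) (nat_lit 1) (nat_lit 178) (nat_lit 299) (nat_lit 243)) (XT.lf (nat_lit 168) (nat_lit 4089710270) (nat_lit 0) (nat_lit 9520519378) (nat_lit 84) (nat_lit 9520519378) (nat_lit 37) (nat_lit 1) (nat_lit 35) (nat_lit 1) (nat_lit 36) (nat_lit 1) (nat_lit 179) (nat_lit 299) (nat_lit 242))))))) (XT.nd (nat_lit 1222) (nat_lit 1260) (nat_lit 0) (XT.nd (nat_lit 564) (nat_lit 504) (nat_lit 0) (XT.nd (nat_lit 282) (nat_lit 336) (nat_lit 0) (XT.nd (nat_lit 94) (nat_lit 84) (nat_lit 0) (XT.lf (nat_lit 252) (nat_lit 20100044433) (nat_lit 0) (nat_lit 1320104319) (nat_lit 168) (nat_lit 1320104319) (nat_lit 35) (nat_lit 1) (nat_lit 32) (nat_lit 1) (nat_lit 34) (nat_lit 1) (nat_lit 180) (nat_lit 299) (nat_lit 241)) (XT.nd (nat_lit 94) (nat_lit 84) (nat_lit 0) (XT.lf (nat_lit 84) (nat_lit 6555405284)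 (nat_lit 0) (nat_lit 9238810129) (nat_lit 252) (nat_lit 6555405284) (nat_lit 33) (nat_lit 1) (nat_lit 32) (nat_lit 1) (nat_lit 35) (nat_lit 1) (nat_lit 181) (nat_lit 299) (nat_lit 240)) (XT.lf (nat_lit 168) (nat_lit 6305384296) (nat_lit 0) (nat_lit 7832554853) (nat_lit 84) (nat_lit 7832554853) (nat_lit 33) (nat_lit 1) (nat_lit 31) (nat_lit 1) (nat_lit 32) (nat_lit 1) (nat_lit 182) (nat_lit 299) (nat_lit 239)))) (XT.nd (nat_lit 94) (nat_lit 84) (nat_lit 0) (XT.lf (nat_lit 252) (nat_lit 21329223391) (nat_lit 0) (nat_lit 137417756) (nat_lit 168) (nat_lit 137417756) (nat_lit 31) (nat_lit 1) (nat_lit 28) (nat_lit 1) (nat_lit 30) (nat_lit 1) (nat_lit 183) (nat_lit 299) (nat_lit 238)) (XT.nd (nat_lit 94) (nat_lit 84) (nat_lit 0) (XT.lf (nat_lit 84) (nat_lit 7275607962) (nat_lit 0) (nat_lit 6682518878) (nat_lit 252) (nat_lit 7275607962) (nat_lit 29) (nat_lit 1) (nat_lit 28) (nat_lit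 1) (nat_lit 31) (nat_lit 1) (nat_lit 184) (nat_lit 299) (nat_lit 237)) (XT.lf (nat_lit 168) (nat_lit 7988188156) (nat_lit 0) (nat_lit 6443862262) (nat_lit 84) (nat_lit 6443862262) (nat_lit 29) (nat_lit 1) (nat_lit 27) (nat_lit 1) (nat_lit 28) (nat_lit 1) (nat_lit 185) (nat_lit 299) (nat_lit 236))))) (XT.nd (nat_lit 282) (nat_lit 252) (nat_lit 0) (XT.nd (nat_lit 94) (nat_lit 252) (nat_lit 0) (XT.lf (nat_lit 0) (nat_lit 803365807) (nat_lit 0) (nat_lit 18922162191) (nat_lit 168) (nat_lit 803365807) (nat_lit 27) (nat_lit 3) (nat_lit 27) (nat_lit 1) (nat_lit 29) (nat_lit 1) (nat_lit 186) (nat_lit 299) (nat_lit 235)) (XT.nd (nat_lit 94) (nat_lit 84) (nat_lit 0) (XT.lf (nat_lit 84) (nat_lit 7778479545) (nat_lit 0) (nat_lit 4623179029) (nat_lit 168) (nat_lit 7778479545) (nat_lit 26) (nat_lit 1) (nat_lit 25) (nat_lit 1) (nat_lit 27) (nat_lit 1) (nat_lit 187) (nat_lit 299) (nat_lit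 234)) (XT.lf (nat_lit 168) (nat_lit 9239266823) (nat_lit 0) (nat_lit 5301381430) (nat_lit 84) (nat_lit 5301381430) (nat_lit 26) (nat_lit 1) (nat_lit 24) (nat_lit 1) (nat_lit 25) (nat_lit 1) (nat_lit 188) (nat_lit 299) (nat_lit 233)))) (XT.nd (nat_lit 188) (nat_lit 84) (nat_lit 0) (XT.nd (nat_lit 94) (nat_lit 168) (nat_lit 0) (XT.lf (nat_lit 0) (nat_lit 1535476827) (nat_lit 0) (nat_lit 16441855452) (nat_lit 168) (nat_lit 1535476827) (nat_lit 24) (nat_lit 3) (nat_lit 24) (nat_lit 1) (nat_lit 26) (nat_lit 1) (nat_lit 189) (nat_lit 299) (nat_lit 232)) (XT.lf (nat_lit 84) (nat_lit 8106820913) (nat_lit 0) (nat_lit 2970600077) (nat_lit 168) (nat_lit 8106820913) (nat_lit 23) (nat_lit 1) (nat_lit 22) (nat_lit 1) (nat_lit 24) (nat_lit 1) (nat_lit 190) (nat_lit 299) (nat_lit 231))) (XT.nd (nat_lit 94) (nat_lit 0) (nat_lit 0) (XT.lf (nat_lit 168) (nat_lit 10141514974) (nat_lit 0) (nat_lit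 4361459622) (nat_lit 84) (nat_lit 4361459622) (nat_lit 23) (nat_lit 1) (nat_lit 21) (nat_lit 1) (nat_lit 22) (nat_lit 1) (nat_lit 191) (nat_lit 299) (nat_lit 230)) (XT.lf (nat_lit 0) (nat_lit 2096141338) (nat_lit 0) (nat_lit 14359655923) (nat_lit 168) (nat_lit 2096141338) (nat_lit 21) (nat_lit 3) (nat_lit 21) (nat_lit 1) (nat_lit 23) (nat_lit 1) (nat_lit 192) (nat_lit 299) (nat_lit 229)))))) (XT.nd (nat_lit 658) (nat_lit 672) (nat_lit 0) (XT.nd (nat_lit 282) (nat_lit 336) (nat_lit 0) (XT.nd (nat_lit 94) (nat_lit 84) (nat_lit 0) (XT.lf (nat_lit 84) (nat_lit 8295641191) (nat_lit 0) (nat_lit 1650681223) (nat_lit 168) (nat_lit 8295641191) (nat_lit 20) (nat_lit 1) (nat_lit 19) (nat_lit 1) (nat_lit 21) (nat_lit 1) (nat_lit 193) (nat_lit 299) (nat_lit 228)) (XT.nd (nat_lit 94) (nat_lit 0) (nat_lit 0) (XT.lf (nat_lit 168) (nat_lit 10762827842) (nat_lit 0) (nat_lit 3588183625) (nat_lit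 84) (nat_lit 3588183625) (nat_lit 20) (nat_lit 1) (nat_lit 18) (nat_lit 1) (nat_lit 19) (nat_lit 1) (nat_lit 194) (nat_lit 299) (nat_lit 227)) (XT.lf (nat_lit 0) (nat_lit 2517739477) (nat_lit 0) (nat_lit 12606963276) (nat_lit 168) (nat_lit 2517739477) (nat_lit 18) (nat_lit 3) (nat_lit 18) (nat_lit 1) (nat_lit 20) (nat_lit 1) (nat_lit 195) (nat_lit 299) (nat_lit 226)))) (XT.nd (nat_lit 188) (nat_lit 84) (nat_lit 0) (XT.nd (nat_lit 94) (nat_lit 84) (nat_lit 0) (XT.lf (nat_lit 84) (nat_lit 8373548884) (nat_lit 0) (nat_lit 602553993) (nat_lit 168) (nat_lit 8373548884) (nat_lit 17) (nat_lit 1) (nat_lit 16) (nat_lit 1) (nat_lit 18) (nat_lit 1) (nat_lit 196) (nat_lit 299) (nat_lit 225)) (XT.lf (nat_lit 168) (nat_lit 11158774982) (nat_lit 0) (nat_lit 2952007548) (nat_lit 84) (nat_lit 2952007548) (nat_lit 17) (nat_lit 1) (nat_lit 15) (nat_lit 1) (nat_lit 16) (nat_lit 1) (nat_lit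 197) (nat_lit 299) (nat_lit 224))) (XT.nd (nat_lit 94) (nat_lit 84) (nat_lit 0) (XT.lf (nat_lit 0) (nat_lit 2826816033) (nat_lit 0) (nat_lit 11127245421) (nat_lit 168) (nat_lit 2826816033) (nat_lit 15) (nat_lit 3) (nat_lit 15) (nat_lit 1) (nat_lit 17) (nat_lit 1) (nat_lit 198) (nat_lit 299) (nat_lit 223)) (XT.lf (nat_lit 84) (nat_lit 231167115) (nat_lit 0) (nat_lit 8136337961) (nat_lit 84) (nat_lit 8136337961) (nat_lit 15) (nat_lit 3) (nat_lit 14) (nat_lit 1) (nat_lit 15) (nat_lit 1) (nat_lit 199) (nat_lit 299) (nat_lit 222))))) (XT.nd (nat_lit 282) (nat_lit 420) (nat_lit 0) (XT.nd (nat_lit 94) (nat_lit 84) (nat_lit 0) (XT.lf (nat_lit 168) (nat_lit 11374799299) (nat_lit 0) (nat_lit 2428623915) (nat_lit 84) (nat_lit 2428623915) (nat_lit 14) (nat_lit 1) (nat_lit 12) (nat_lit 1) (nat_lit 13) (nat_lit 1) (nat_lit 200) (nat_lit 299) (nat_lit 221)) (XT.nd (nat_lit 94) (nat_lit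 84) (nat_lit 0) (XT.lf (nat_lit 0) (nat_lit 3045119532) (nat_lit 0) (nat_lit 9873903331) (nat_lit 168) (nat_lit 3045119532) (nat_lit 12) (nat_lit 3) (nat_lit 12) (nat_lit 1) (nat_lit 14) (nat_lit 1) (nat_lit 201) (nat_lit 299) (nat_lit 220)) (XT.lf (nat_lit 84) (nat_lit 898068050) (nat_lit 0) (nat_lit 7401671668) (nat_lit 84) (nat_lit 7401671668) (nat_lit 12) (nat_lit 3) (nat_lit 11) (nat_lit 1) (nat_lit 12) (nat_lit 1) (nat_lit 202) (nat_lit 299) (nat_lit 219)))) (XT.nd (nat_lit 188) (nat_lit 252) (nat_lit 0) (XT.nd (nat_lit 94) (nat_lit 0) (nat_lit 0) (XT.lf (nat_lit 168) (nat_lit 11448025538) (nat_lit 0) (nat_lit 1998034905) (nat_lit 84) (nat_lit 1998034905) (nat_lit 11) (nat_lit 1) (nat_lit 9) (nat_lit 1) (nat_lit 10) (nat_lit 1) (nat_lit 203) (nat_lit 299) (nat_lit 218)) (XT.lf (nat_lit 0) (nat_lit 3190456885) (nat_lit 0) (nat_lit 8808514216) (nat_lit 168) (nat_lit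 3190456885) (nat_lit 9) (nat_lit 3) (nat_lit 9) (nat_lit 1) (nat_lit 11) (nat_lit 1) (nat_lit 204) (nat_lit 299) (nat_lit 217))) (XT.nd (nat_lit 94) (nat_lit 168) (nat_lit 0) (XT.lf (nat_lit 84) (nat_lit 1413020228) (nat_lit 0) (nat_lit 6763551020) (nat_lit 84) (nat_lit 6763551020) (nat_lit 9) (nat_lit 3) (nat_lit 8) (nat_lit 1) (nat_lit 9) (nat_lit 1) (nat_lit 205) (nat_lit 299) (nat_lit 216)) (XT.lf (nat_lit 168) (nat_lit 11408747518) (nat_lit 0) (nat_lit 1643788261) (nat_lit 84) (nat_lit 1643788261) (nat_lit 8) (nat_lit 1) (nat_lit 6) (nat_lit 1) (nat_lit 7) (nat_lit 1) (nat_lit 206) (nat_lit 299) (nat_lit 215))))))))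
noncomputable def ec177 : XT := (XT.nd (nat_lit 2538) (nat_lit 0) (nat_lit 0) (XT.nd (nat_lit 1222) (nat_lit 0) (nat_lit 0) (XT.nd (nat_lit 564) (nat_lit 0) (nat_lit 0) (XT.nd (nat_lit 282) (nat_lit 252) (nat_lit 0) (XT.nd (nat_lit 94) (nat_lit 252) (nat_lit 0) (XT.lf (nat_lit 0) (nat_lit 3277396308) (nat_lit 0) (nat_lit 7899385978) (nat_lit 168) (nat_lit 3277396308) (nat_lit 6) (nat_lit 3) (nat_lit 6) (nat_lit 1) (nat_lit 8) (nat_lit 1) (nat_lit 207) (nat_lit 299) (nat_lit 214)) (XT.nd (nat_lit 94) (nat_lit 168) (nat_lit 0) (XT.lf (nat_lit 84) (nat_lit 1804568973) (nat_lit 0) (nat_lit 6206463897) (nat_lit 84) (nat_lit 6206463897) (nat_lit 6) (nat_lit 3) (nat_lit 5) (nat_lit 1) (nat_lit 6) (nat_lit 1) (nat_lit 208) (nat_lit 299) (nat_lit 213)) (XT.lf (nat_lit 168) (nat_lit 11281651081) (nat_lit 0) (nat_lit 1352348670) (nat_lit 84) (nat_lit 1352348670) (nat_lit 5) (nat_lit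 1) (nat_lit 3) (nat_lit 1) (nat_lit 4) (nat_lit 1) (nat_lit 209) (nat_lit 299) (nat_lit 212)))) (XT.nd (nat_lit 94) (nat_lit 252) (nat_lit 0) (XT.lf (nat_lit 0) (nat_lit 3317845418) (nat_lit 0) (nat_lit 7120367758) (nat_lit 168) (nat_lit 3317845418) (nat_lit 3) (nat_lit 3) (nat_lit 3) (nat_lit 1) (nat_lit 5) (nat_lit 1) (nat_lit 210) (nat_lit 299) (nat_lit 211)) (XT.nd (nat_lit 94) (nat_lit 168) (nat_lit 0) (XT.lf (nat_lit 84) (nat_lit 2096122154) (nat_lit 0) (nat_lit 5717572002) (nat_lit 84) (nat_lit 5717572002) (nat_lit 3) (nat_lit 3) (nat_lit 2) (nat_lit 1) (nat_lit 3) (nat_lit 1) (nat_lit 211) (nat_lit 299) (nat_lit 210)) (XT.lf (nat_lit 0) (nat_lit 19338155025) (nat_lit 0) (nat_lit 0) (nat_lit 0) (nat_lit 0) (nat_lit 0) (nat_lit 0) (nat_lit 1) (nat_lit 0) (nat_lit 1) (nat_lit 0) (nat_lit 212) (nat_lit 299) (nat_lit 209))))) (XT.nd (nat_lit 282) (nat_lit 0) (nat_lit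 0) (XT.nd (nat_lit 94) (nat_lit 0) (nat_lit 0) (XT.lf (nat_lit 0) (nat_lit 19326887921) (nat_lit 0) (nat_lit 0) (nat_lit 0) (nat_lit 0) (nat_lit 0) (nat_lit 0) (nat_lit 1) (nat_lit 0) (nat_lit 1) (nat_lit 0) (nat_lit 213) (nat_lit 299) (nat_lit 208)) (XT.nd (nat_lit 94) (nat_lit 0) (nat_lit 0) (XT.lf (nat_lit 0) (nat_lit 19316157345) (nat_lit 0) (nat_lit 0) (nat_lit 0) (nat_lit 0) (nat_lit 0) (nat_lit 0) (nat_lit 1) (nat_lit 0) (nat_lit 1) (nat_lit 0) (nat_lit 214) (nat_lit 299) (nat_lit 207)) (XT.lf (nat_lit 0) (nat_lit 19305937750) (nat_lit 0) (nat_lit 0) (nat_lit 0) (nat_lit 0) (nat_lit 0) (nat_lit 0) (nat_lit 1) (nat_lit 0) (nat_lit 1) (nat_lit 0) (nat_lit 215) (nat_lit 299) (nat_lit 206)))) (XT.nd (nat_lit 188) (nat_lit 0) (nat_lit 0) (XT.nd (nat_lit 94) (nat_lit 0) (nat_lit 0) (XT.lf (nat_lit 0) (nat_lit 19296204802) (nat_lit 0) (nat_lit 0) (nat_lit 0) (nat_lit 0)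 (nat_lit 0) (nat_lit 0) (nat_lit 1) (nat_lit 0) (nat_lit 1) (nat_lit 0) (nat_lit 216) (nat_lit 299) (nat_lit 205)) (XT.lf (nat_lit 0) (nat_lit 19286935327) (nat_lit 0) (nat_lit 0) (nat_lit 0) (nat_lit 0) (nat_lit 0) (nat_lit 0) (nat_lit 1) (nat_lit 0) (nat_lit 1) (nat_lit 0) (nat_lit 217) (nat_lit 299) (nat_lit 204))) (XT.nd (nat_lit 94) (nat_lit 0) (nat_lit 0) (XT.lf (nat_lit 0) (nat_lit 19278107257) (nat_lit 0) (nat_lit 0) (nat_lit 0) (nat_lit 0) (nat_lit 0) (nat_lit 0) (nat_lit 1) (nat_lit 0) (nat_lit 1) (nat_lit 0) (nat_lit 218) (nat_lit 299) (nat_lit 203)) (XT.lf (nat_lit 0) (nat_lit 19269699570) (nat_lit 0) (nat_lit 0) (nat_lit 0) (nat_lit 0) (nat_lit 0) (nat_lit 0) (nat_lit 1) (nat_lit 0) (nat_lit 1) (nat_lit 0) (nat_lit 219) (nat_lit 299) (nat_lit 202)))))) (XT.nd (nat_lit 658) (nat_lit 0) (nat_lit 0) (XT.nd (nat_lit 282) (nat_lit 0) (nat_lit 0) (XT.nd (nat_lit 94)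 (nat_lit 0) (nat_lit 0) (XT.lf (nat_lit 0) (nat_lit 19261692250) (nat_lit 0) (nat_lit 0) (nat_lit 0) (nat_lit 0) (nat_lit 0) (nat_lit 0) (nat_lit 1) (nat_lit 0) (nat_lit 1) (nat_lit 0) (nat_lit 220) (nat_lit 299) (nat_lit 201)) (XT.nd (nat_lit 94) (nat_lit 0) (nat_lit 0) (XT.lf (nat_lit 0) (nat_lit 19254066230) (nat_lit 0) (nat_lit 0) (nat_lit 0) (nat_lit 0) (nat_lit 0) (nat_lit 0) (nat_lit 1) (nat_lit 0) (nat_lit 1) (nat_lit 0) (nat_lit 221) (nat_lit 299) (nat_lit 200)) (XT.lf (nat_lit 0) (nat_lit 19246803354) (nat_lit 0) (nat_lit 0) (nat_lit 0) (nat_lit 0) (nat_lit 0) (nat_lit 0) (nat_lit 1) (nat_lit 0) (nat_lit 1) (nat_lit 0) (nat_lit 222) (nat_lit 299) (nat_lit 199)))) (XT.nd (nat_lit 188) (nat_lit 0) (nat_lit 0) (XT.nd (nat_lit 94) (nat_lit 0) (nat_lit 0) (XT.lf (nat_lit 0) (nat_lit 19239886330) (nat_lit 0) (nat_lit 0) (nat_lit 0) (nat_lit 0) (nat_lit 0) (nat_lit 0)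 (nat_lit 1) (nat_lit 0) (nat_lit 1) (nat_lit 0) (nat_lit 223) (nat_lit 299) (nat_lit 198)) (XT.lf (nat_lit 0) (nat_lit 19233298687) (nat_lit 0) (nat_lit 0) (nat_lit 0) (nat_lit 0) (nat_lit 0) (nat_lit 0) (nat_lit 1) (nat_lit 0) (nat_lit 1) (nat_lit 0) (nat_lit 224) (nat_lit 299) (nat_lit 197))) (XT.nd (nat_lit 94) (nat_lit 0) (nat_lit 0) (XT.lf (nat_lit 0) (nat_lit 19227024742) (nat_lit 0) (nat_lit 0) (nat_lit 0) (nat_lit 0) (nat_lit 0) (nat_lit 0) (nat_lit 1) (nat_lit 0) (nat_lit 1) (nat_lit 0) (nat_lit 225) (nat_lit 299) (nat_lit 196)) (XT.lf (nat_lit 0) (nat_lit 19221049557) (nat_lit 0) (nat_lit 0) (nat_lit 0) (nat_lit 0) (nat_lit 0) (nat_lit 0) (nat_lit 1) (nat_lit 0) (nat_lit 1) (nat_lit 0) (nat_lit 226) (nat_lit 299) (nat_lit 195))))) (XT.nd (nat_lit 282) (nat_lit 0) (nat_lit 0) (XT.nd (nat_lit 94) (nat_lit 0) (nat_lit 0) (XT.lf (nat_lit 0) (nat_lit 19215358903) (nat_lit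 0) (nat_lit 0) (nat_lit 0) (nat_lit 0) (nat_lit 0) (nat_lit 0) (nat_lit 1) (nat_lit 0) (nat_lit 1) (nat_lit 0) (nat_lit 227) (nat_lit 299) (nat_lit 194)) (XT.nd (nat_lit 94) (nat_lit 0) (nat_lit 0) (XT.lf (nat_lit 0) (nat_lit 19209939234) (nat_lit 0) (nat_lit 0) (nat_lit 0) (nat_lit 0) (nat_lit 0) (nat_lit 0) (nat_lit 1) (nat_lit 0) (nat_lit 1) (nat_lit 0) (nat_lit 228) (nat_lit 299) (nat_lit 193)) (XT.lf (nat_lit 0) (nat_lit 19204777644) (nat_lit 0) (nat_lit 0) (nat_lit 0) (nat_lit 0) (nat_lit 0) (nat_lit 0) (nat_lit 1) (nat_lit 0) (nat_lit 1) (nat_lit 0) (nat_lit 229) (nat_lit 299) (nat_lit 192)))) (XT.nd (nat_lit 188) (nat_lit 0) (nat_lit 0) (XT.nd (nat_lit 94) (nat_lit 0) (nat_lit 0) (XT.lf (nat_lit 0) (nat_lit 19199861843) (nat_lit 0) (nat_lit 0) (nat_lit 0) (nat_lit 0) (nat_lit 0) (nat_lit 0) (nat_lit 1) (nat_lit 0) (nat_lit 1) (nat_lit 0) (nat_lit 230) (nat_lit 299)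 (nat_lit 191)) (XT.lf (nat_lit 0) (nat_lit 19195180129) (nat_lit 0) (nat_lit 0) (nat_lit 0) (nat_lit 0) (nat_lit 0) (nat_lit 0) (nat_lit 1) (nat_lit 0) (nat_lit 1) (nat_lit 0) (nat_lit 231) (nat_lit 299) (nat_lit 190))) (XT.nd (nat_lit 94) (nat_lit 0) (nat_lit 0) (XT.lf (nat_lit 0) (nat_lit 19190721353) (nat_lit 0) (nat_lit 0) (nat_lit 0) (nat_lit 0) (nat_lit 0) (nat_lit 0) (nat_lit 1) (nat_lit 0) (nat_lit 1) (nat_lit 0) (nat_lit 232) (nat_lit 299) (nat_lit 189)) (XT.lf (nat_lit 0) (nat_lit 19186474900) (nat_lit 0) (nat_lit 0) (nat_lit 0) (nat_lit 0) (nat_lit 0) (nat_lit 0) (nat_lit 1) (nat_lit 0) (nat_lit 1) (nat_lit 0) (nat_lit 233) (nat_lit 299) (nat_lit 188))))))) (XT.nd (nat_lit 1222) (nat_lit 0) (nat_lit 0) (XT.nd (nat_lit 564) (nat_lit 0) (nat_lit 0) (XT.nd (nat_lit 282) (nat_lit 0) (nat_lit 0) (XT.nd (nat_lit 94) (nat_lit 0) (nat_lit 0) (XT.lf (nat_lit 0) (nat_lit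 19182430659) (nat_lit 0) (nat_lit 0) (nat_lit 0) (nat_lit 0) (nat_lit 0) (nat_lit 0) (nat_lit 1) (nat_lit 0) (nat_lit 1) (nat_lit 0) (nat_lit 234) (nat_lit 299) (nat_lit 187)) (XT.nd (nat_lit 94) (nat_lit 0) (nat_lit 0) (XT.lf (nat_lit 0) (nat_lit 19178579001) (nat_lit 0) (nat_lit 0) (nat_lit 0) (nat_lit 0) (nat_lit 0) (nat_lit 0) (nat_lit 1) (nat_lit 0) (nat_lit 1) (nat_lit 0) (nat_lit 235) (nat_lit 299) (nat_lit 186)) (XT.lf (nat_lit 0) (nat_lit 19174910755) (nat_lit 0) (nat_lit 0) (nat_lit 0) (nat_lit 0) (nat_lit 0) (nat_lit 0) (nat_lit 1) (nat_lit 0) (nat_lit 1) (nat_lit 0) (nat_lit 236) (nat_lit 299) (nat_lit 185)))) (XT.nd (nat_lit 94) (nat_lit 0) (nat_lit 0) (XT.lf (nat_lit 0) (nat_lit 19171417188) (nat_lit 0) (nat_lit 0) (nat_lit 0) (nat_lit 0) (nat_lit 0) (nat_lit 0) (nat_lit 1) (nat_lit 0) (nat_lit 1) (nat_lit 0) (nat_lit 237) (nat_lit 299) (nat_lit 184)) (XT.nd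 (nat_lit 94) (nat_lit 0) (nat_lit 0) (XT.lf (nat_lit 0) (nat_lit 19168089981) (nat_lit 0) (nat_lit 0) (nat_lit 0) (nat_lit 0) (nat_lit 0) (nat_lit 0) (nat_lit 1) (nat_lit 0) (nat_lit 1) (nat_lit 0) (nat_lit 238) (nat_lit 299) (nat_lit 183)) (XT.lf (nat_lit 0) (nat_lit 19164921212) (nat_lit 0) (nat_lit 0) (nat_lit 0) (nat_lit 0) (nat_lit 0) (nat_lit 0) (nat_lit 1) (nat_lit 0) (nat_lit 1) (nat_lit 0) (nat_lit 239) (nat_lit 299) (nat_lit 182))))) (XT.nd (nat_lit 282) (nat_lit 0) (nat_lit 0) (XT.nd (nat_lit 94) (nat_lit 0) (nat_lit 0) (XT.lf (nat_lit 0) (nat_lit 19161903338) (nat_lit 0) (nat_lit 0) (nat_lit 0) (nat_lit 0) (nat_lit 0) (nat_lit 0) (nat_lit 1) (nat_lit 0) (nat_lit 1) (nat_lit 0) (nat_lit 240) (nat_lit 299) (nat_lit 181)) (XT.nd (nat_lit 94) (nat_lit 0) (nat_lit 0) (XT.lf (nat_lit 0) (nat_lit 19159029171) (nat_lit 0) (nat_lit 0) (nat_lit 0) (nat_lit 0) (nat_lit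 0) (nat_lit 0) (nat_lit 1) (nat_lit 0) (nat_lit 1) (nat_lit 0) (nat_lit 241) (nat_lit 299) (nat_lit 180)) (XT.lf (nat_lit 0) (nat_lit 19156291870) (nat_lit 0) (nat_lit 0) (nat_lit 0) (nat_lit 0) (nat_lit 0) (nat_lit 0) (nat_lit 1) (nat_lit 0) (nat_lit 1) (nat_lit 0) (nat_lit 242) (nat_lit 299) (nat_lit 179)))) (XT.nd (nat_lit 188) (nat_lit 0) (nat_lit 0) (XT.nd (nat_lit 94) (nat_lit 0) (nat_lit 0) (XT.lf (nat_lit 0) (nat_lit 19153684916) (nat_lit 0) (nat_lit 0) (nat_lit 0) (nat_lit 0) (nat_lit 0) (nat_lit 0) (nat_lit 1) (nat_lit 0) (nat_lit 1) (nat_lit 0) (nat_lit 243) (nat_lit 299) (nat_lit 178)) (XT.lf (nat_lit 0) (nat_lit 19151202103) (nat_lit 0) (nat_lit 0) (nat_lit 0) (nat_lit 0) (nat_lit 0) (nat_lit 0) (nat_lit 1) (nat_lit 0) (nat_lit 1) (nat_lit 0) (nat_lit 244) (nat_lit 299) (nat_lit 177))) (XT.nd (nat_lit 94) (nat_lit 0) (nat_lit 0) (XT.lf (nat_lit 0) (nat_lit 19148837519)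 (nat_lit 0) (nat_lit 0) (nat_lit 0) (nat_lit 0) (nat_lit 0) (nat_lit 0) (nat_lit 1) (nat_lit 0) (nat_lit 1) (nat_lit 0) (nat_lit 245) (nat_lit 299) (nat_lit 176)) (XT.lf (nat_lit 0) (nat_lit 19146585534) (nat_lit 0) (nat_lit 0) (nat_lit 0) (nat_lit 0) (nat_lit 0) (nat_lit 0) (nat_lit 1) (nat_lit 0) (nat_lit 1) (nat_lit 0) (nat_lit 246) (nat_lit 299) (nat_lit 175)))))) (XT.nd (nat_lit 658) (nat_lit 0) (nat_lit 0) (XT.nd (nat_lit 282) (nat_lit 0) (nat_lit 0) (XT.nd (nat_lit 94) (nat_lit 0) (nat_lit 0) (XT.lf (nat_lit 0) (nat_lit 19144440787) (nat_lit 0) (nat_lit 0) (nat_lit 0) (nat_lit 0) (nat_lit 0) (nat_lit 0) (nat_lit 1) (nat_lit 0) (nat_lit 1) (nat_lit 0) (nat_lit 247) (nat_lit 299) (nat_lit 174)) (XT.nd (nat_lit 94) (nat_lit 0) (nat_lit 0) (XT.lf (nat_lit 0) (nat_lit 19142398170) (nat_lit 0) (nat_lit 0) (nat_lit 0) (nat_lit 0) (nat_lit 0) (nat_lit 0) (nat_lit 1) (nat_lit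 0) (nat_lit 1) (nat_lit 0) (nat_lit 248) (nat_lit 299) (nat_lit 173)) (XT.lf (nat_lit 0) (nat_lit 19140452821) (nat_lit 0) (nat_lit 0) (nat_lit 0) (nat_lit 0) (nat_lit 0) (nat_lit 0) (nat_lit 1) (nat_lit 0) (nat_lit 1) (nat_lit 0) (nat_lit 249) (nat_lit 299) (nat_lit 172)))) (XT.nd (nat_lit 188) (nat_lit 0) (nat_lit 0) (XT.nd (nat_lit 94) (nat_lit 0) (nat_lit 0) (XT.lf (nat_lit 0) (nat_lit 19138600108) (nat_lit 0) (nat_lit 0) (nat_lit 0) (nat_lit 0) (nat_lit 0) (nat_lit 0) (nat_lit 1) (nat_lit 0) (nat_lit 1) (nat_lit 0) (nat_lit 250) (nat_lit 299) (nat_lit 171)) (XT.lf (nat_lit 0) (nat_lit 19136835619) (nat_lit 0) (nat_lit 0) (nat_lit 0) (nat_lit 0) (nat_lit 0) (nat_lit 0) (nat_lit 1) (nat_lit 0) (nat_lit 1) (nat_lit 0) (nat_lit 251) (nat_lit 299) (nat_lit 170))) (XT.nd (nat_lit 94) (nat_lit 0) (nat_lit 0) (XT.lf (nat_lit 0) (nat_lit 19135155153) (nat_lit 0) (nat_lit 0)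 (nat_lit 0) (nat_lit 0) (nat_lit 0) (nat_lit 0) (nat_lit 1) (nat_lit 0) (nat_lit 1) (nat_lit 0) (nat_lit 252) (nat_lit 299) (nat_lit 169)) (XT.lf (nat_lit 0) (nat_lit 19133554710) (nat_lit 0) (nat_lit 0) (nat_lit 0) (nat_lit 0) (nat_lit 0) (nat_lit 0) (nat_lit 1) (nat_lit 0) (nat_lit 1) (nat_lit 0) (nat_lit 253) (nat_lit 299) (nat_lit 168))))) (XT.nd (nat_lit 282) (nat_lit 0) (nat_lit 0) (XT.nd (nat_lit 94) (nat_lit 0) (nat_lit 0) (XT.lf (nat_lit 0) (nat_lit 19132030478) (nat_lit 0) (nat_lit 0) (nat_lit 0) (nat_lit 0) (nat_lit 0) (nat_lit 0) (nat_lit 1) (nat_lit 0) (nat_lit 1) (nat_lit 0) (nat_lit 254) (nat_lit 299) (nat_lit 167)) (XT.nd (nat_lit 94) (nat_lit 0) (nat_lit 0) (XT.lf (nat_lit 0) (nat_lit 19130578828) (nat_lit 0) (nat_lit 0) (nat_lit 0) (nat_lit 0) (nat_lit 0) (nat_lit 0) (nat_lit 1) (nat_lit 0) (nat_lit 1) (nat_lit 0) (nat_lit 255) (nat_lit 299) (nat_lit 166))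 (XT.lf (nat_lit 0) (nat_lit 19129196305) (nat_lit 0) (nat_lit 0) (nat_lit 0) (nat_lit 0) (nat_lit 0) (nat_lit 0) (nat_lit 1) (nat_lit 0) (nat_lit 1) (nat_lit 0) (nat_lit 256) (nat_lit 299) (nat_lit 165)))) (XT.nd (nat_lit 188) (nat_lit 0) (nat_lit 0) (XT.nd (nat_lit 94) (nat_lit 0) (nat_lit 0) (XT.lf (nat_lit 0) (nat_lit 19127879616) (nat_lit 0) (nat_lit 0) (nat_lit 0) (nat_lit 0) (nat_lit 0) (nat_lit 0) (nat_lit 1) (nat_lit 0) (nat_lit 1) (nat_lit 0) (nat_lit 257) (nat_lit 299) (nat_lit 164)) (XT.lf (nat_lit 0) (nat_lit 19126625627) (nat_lit 0) (nat_lit 0) (nat_lit 0) (nat_lit 0) (nat_lit 0) (nat_lit 0) (nat_lit 1) (nat_lit 0) (nat_lit 1) (nat_lit 0) (nat_lit 258) (nat_lit 299) (nat_lit 163))) (XT.nd (nat_lit 94) (nat_lit 0) (nat_lit 0) (XT.lf (nat_lit 0) (nat_lit 19125431351) (nat_lit 0) (nat_lit 0) (nat_lit 0) (nat_lit 0) (nat_lit 0) (nat_lit 0) (nat_lit 1) (nat_lit 0)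 (nat_lit 1) (nat_lit 0) (nat_lit 259) (nat_lit 299) (nat_lit 162)) (XT.lf (nat_lit 0) (nat_lit 19124293946) (nat_lit 0) (nat_lit 0) (nat_lit 0) (nat_lit 0) (nat_lit 0) (nat_lit 0) (nat_lit 1) (nat_lit 0) (nat_lit 1) (nat_lit 0) (nat_lit 260) (nat_lit 299) (nat_lit 161))))))))
noncomputable def ec178 : XT := (XT.nd (nat_lit 2538) (nat_lit 0) (nat_lit 0) (XT.nd (nat_lit 1222) (nat_lit 0) (nat_lit 0) (XT.nd (nat_lit 564) (nat_lit 0) (nat_lit 0) (XT.nd (nat_lit 282) (nat_lit 0) (nat_lit 0) (XT.nd (nat_lit 94) (nat_lit 0) (nat_lit 0) (XT.lf (nat_lit 0) (nat_lit 19123210703) (nat_lit 0) (nat_lit 0) (nat_lit 0) (nat_lit 0) (nat_lit 0) (nat_lit 0) (nat_lit 1) (nat_lit 0) (nat_lit 1) (nat_lit 0) (nat_lit 261) (nat_lit 299) (nat_lit 160)) (XT.nd (nat_lit 94) (nat_lit 0) (nat_lit 0) (XT.lf (nat_lit 0) (nat_lit 19122179043) (nat_lit 0) (nat_lit 0) (nat_lit 0) (nat_lit 0) (nat_lit 0)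 (nat_lit 0) (nat_lit 1) (nat_lit 0) (nat_lit 1) (nat_lit 0) (nat_lit 262) (nat_lit 299) (nat_lit 159)) (XT.lf (nat_lit 0) (nat_lit 19121196509) (nat_lit 0) (nat_lit 0) (nat_lit 0) (nat_lit 0) (nat_lit 0) (nat_lit 0) (nat_lit 1) (nat_lit 0) (nat_lit 1) (nat_lit 0) (nat_lit 263) (nat_lit 299) (nat_lit 158)))) (XT.nd (nat_lit 94) (nat_lit 0) (nat_lit 0) (XT.lf (nat_lit 0) (nat_lit 19120260763) (nat_lit 0) (nat_lit 0) (nat_lit 0) (nat_lit 0) (nat_lit 0) (nat_lit 0) (nat_lit 1) (nat_lit 0) (nat_lit 1) (nat_lit 0) (nat_lit 264) (nat_lit 299) (nat_lit 157)) (XT.nd (nat_lit 94) (nat_lit 0) (nat_lit 0) (XT.lf (nat_lit 0) (nat_lit 19119369576) (nat_lit 0) (nat_lit 0) (nat_lit 0) (nat_lit 0) (nat_lit 0) (nat_lit 0) (nat_lit 1) (nat_lit 0) (nat_lit 1) (nat_lit 0) (nat_lit 265) (nat_lit 299) (nat_lit 156)) (XT.lf (nat_lit 0) (nat_lit 19118520827) (nat_lit 0) (nat_lit 0) (nat_lit 0) (nat_lit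 0) (nat_lit 0) (nat_lit 0) (nat_lit 1) (nat_lit 0) (nat_lit 1) (nat_lit 0) (nat_lit 266) (nat_lit 299) (nat_lit 155))))) (XT.nd (nat_lit 282) (nat_lit 0) (nat_lit 0) (XT.nd (nat_lit 94) (nat_lit 0) (nat_lit 0) (XT.lf (nat_lit 0) (nat_lit 19117712494) (nat_lit 0) (nat_lit 0) (nat_lit 0) (nat_lit 0) (nat_lit 0) (nat_lit 0) (nat_lit 1) (nat_lit 0) (nat_lit 1) (nat_lit 0) (nat_lit 267) (nat_lit 299) (nat_lit 154)) (XT.nd (nat_lit 94) (nat_lit 0) (nat_lit 0) (XT.lf (nat_lit 0) (nat_lit 19116942654) (nat_lit 0) (nat_lit 0) (nat_lit 0) (nat_lit 0) (nat_lit 0) (nat_lit 0) (nat_lit 1) (nat_lit 0) (nat_lit 1) (nat_lit 0) (nat_lit 268) (nat_lit 299) (nat_lit 153)) (XT.lf (nat_lit 0) (nat_lit 19116209472) (nat_lit 0) (nat_lit 0) (nat_lit 0) (nat_lit 0) (nat_lit 0) (nat_lit 0) (nat_lit 1) (nat_lit 0) (nat_lit 1) (nat_lit 0) (nat_lit 269) (nat_lit 299) (nat_lit 152)))) (XT.nd (nat_lit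 188) (nat_lit 0) (nat_lit 0) (XT.nd (nat_lit 94) (nat_lit 0) (nat_lit 0) (XT.lf (nat_lit 0) (nat_lit 19115511204) (nat_lit 0) (nat_lit 0) (nat_lit 0) (nat_lit 0) (nat_lit 0) (nat_lit 0) (nat_lit 1) (nat_lit 0) (nat_lit 1) (nat_lit 0) (nat_lit 270) (nat_lit 299) (nat_lit 151)) (XT.lf (nat_lit 0) (nat_lit 19114846187) (nat_lit 0) (nat_lit 0) (nat_lit 0) (nat_lit 0) (nat_lit 0) (nat_lit 0) (nat_lit 1) (nat_lit 0) (nat_lit 1) (nat_lit 0) (nat_lit 271) (nat_lit 299) (nat_lit 150))) (XT.nd (nat_lit 94) (nat_lit 0) (nat_lit 0) (XT.lf (nat_lit 0) (nat_lit 19114212837) (nat_lit 0) (nat_lit 0) (nat_lit 0) (nat_lit 0) (nat_lit 0) (nat_lit 0) (nat_lit 1) (nat_lit 0) (nat_lit 1) (nat_lit 0) (nat_lit 272) (nat_lit 299) (nat_lit 149)) (XT.lf (nat_lit 0) (nat_lit 19113609646) (nat_lit 0) (nat_lit 0) (nat_lit 0) (nat_lit 0) (nat_lit 0) (nat_lit 0) (nat_lit 1) (nat_lit 0) (nat_lit 1) (nat_lit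 0) (nat_lit 273) (nat_lit 299) (nat_lit 148)))))) (XT.nd (nat_lit 658) (nat_lit 0) (nat_lit 0) (XT.nd (nat_lit 282) (nat_lit 0) (nat_lit 0) (XT.nd (nat_lit 94) (nat_lit 0) (nat_lit 0) (XT.lf (nat_lit 0) (nat_lit 19113035179) (nat_lit 0) (nat_lit 0) (nat_lit 0) (nat_lit 0) (nat_lit 0) (nat_lit 0) (nat_lit 1) (nat_lit 0) (nat_lit 1) (nat_lit 0) (nat_lit 274) (nat_lit 299) (nat_lit 147)) (XT.nd (nat_lit 94) (nat_lit 0) (nat_lit 0) (XT.lf (nat_lit 0) (nat_lit 19112488068) (nat_lit 0) (nat_lit 0) (nat_lit 0) (nat_lit 0) (nat_lit 0) (nat_lit 0) (nat_lit 1) (nat_lit 0) (nat_lit 1) (nat_lit 0) (nat_lit 275) (nat_lit 299) (nat_lit 146)) (XT.lf (nat_lit 0) (nat_lit 19111967010) (nat_lit 0) (nat_lit 0) (nat_lit 0) (nat_lit 0) (nat_lit 0) (nat_lit 0) (nat_lit 1) (nat_lit 0) (nat_lit 1) (nat_lit 0) (nat_lit 276) (nat_lit 299) (nat_lit 145)))) (XT.nd (nat_lit 188) (nat_lit 0) (nat_lit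 0) (XT.nd (nat_lit 94) (nat_lit 0) (nat_lit 0) (XT.lf (nat_lit 0) (nat_lit 19111470763) (nat_lit 0) (nat_lit 0) (nat_lit 0) (nat_lit 0) (nat_lit 0) (nat_lit 0) (nat_lit 1) (nat_lit 0) (nat_lit 1) (nat_lit 0) (nat_lit 277) (nat_lit 299) (nat_lit 144)) (XT.lf (nat_lit 0) (nat_lit 19110998148) (nat_lit 0) (nat_lit 0) (nat_lit 0) (nat_lit 0) (nat_lit 0) (nat_lit 0) (nat_lit 1) (nat_lit 0) (nat_lit 1) (nat_lit 0) (nat_lit 278) (nat_lit 299) (nat_lit 143))) (XT.nd (nat_lit 94) (nat_lit 0) (nat_lit 0) (XT.lf (nat_lit 0) (nat_lit 19110548038) (nat_lit 0) (nat_lit 0) (nat_lit 0) (nat_lit 0) (nat_lit 0) (nat_lit 0) (nat_lit 1) (nat_lit 0) (nat_lit 1) (nat_lit 0) (nat_lit 279) (nat_lit 299) (nat_lit 142)) (XT.lf (nat_lit 0) (nat_lit 19110119362) (nat_lit 0) (nat_lit 0) (nat_lit 0) (nat_lit 0) (nat_lit 0) (nat_lit 0) (nat_lit 1) (nat_lit 0) (nat_lit 1) (nat_lit 0) (nat_lit 280) (nat_lit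 299) (nat_lit 141))))) (XT.nd (nat_lit 282) (nat_lit 0) (nat_lit 0) (XT.nd (nat_lit 94) (nat_lit 0) (nat_lit 0) (XT.lf (nat_lit 0) (nat_lit 19109711099) (nat_lit 0) (nat_lit 0) (nat_lit 0) (nat_lit 0) (nat_lit 0) (nat_lit 0) (nat_lit 1) (nat_lit 0) (nat_lit 1) (nat_lit 0) (nat_lit 281) (nat_lit 299) (nat_lit 140)) (XT.nd (nat_lit 94) (nat_lit 0) (nat_lit 0) (XT.lf (nat_lit 0) (nat_lit 19109322277) (nat_lit 0) (nat_lit 0) (nat_lit 0) (nat_lit 0) (nat_lit 0) (nat_lit 0) (nat_lit 1) (nat_lit 0) (nat_lit 1) (nat_lit 0) (nat_lit 282) (nat_lit 299) (nat_lit 139)) (XT.lf (nat_lit 0) (nat_lit 19108951971) (nat_lit 0) (nat_lit 0) (nat_lit 0) (nat_lit 0) (nat_lit 0) (nat_lit 0) (nat_lit 1) (nat_lit 0) (nat_lit 1) (nat_lit 0) (nat_lit 283) (nat_lit 299) (nat_lit 138)))) (XT.nd (nat_lit 188) (nat_lit 0) (nat_lit 0) (XT.nd (nat_lit 94) (nat_lit 0) (nat_lit 0) (XT.lf (nat_lit 0) (nat_lit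 19108599298) (nat_lit 0) (nat_lit 0) (nat_lit 0) (nat_lit 0) (nat_lit 0) (nat_lit 0) (nat_lit 1) (nat_lit 0) (nat_lit 1) (nat_lit 0) (nat_lit 284) (nat_lit 299) (nat_lit 137)) (XT.lf (nat_lit 0) (nat_lit 19108263419) (nat_lit 0) (nat_lit 0) (nat_lit 0) (nat_lit 0) (nat_lit 0) (nat_lit 0) (nat_lit 1) (nat_lit 0) (nat_lit 1) (nat_lit 0) (nat_lit 285) (nat_lit 299) (nat_lit 136))) (XT.nd (nat_lit 94) (nat_lit 0) (nat_lit 0) (XT.lf (nat_lit 0) (nat_lit 19107943534) (nat_lit 0) (nat_lit 0) (nat_lit 0) (nat_lit 0) (nat_lit 0) (nat_lit 0) (nat_lit 1) (nat_lit 0) (nat_lit 1) (nat_lit 0) (nat_lit 286) (nat_lit 299) (nat_lit 135)) (XT.lf (nat_lit 0) (nat_lit 19107638882) (nat_lit 0) (nat_lit 0) (nat_lit 0) (nat_lit 0) (nat_lit 0) (nat_lit 0) (nat_lit 1) (nat_lit 0) (nat_lit 1) (nat_lit 0) (nat_lit 287) (nat_lit 299) (nat_lit 134))))))) (XT.nd (nat_lit 1222) (nat_lit 0) (nat_lit 0)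 (XT.nd (nat_lit 564) (nat_lit 0) (nat_lit 0) (XT.nd (nat_lit 282) (nat_lit 0) (nat_lit 0) (XT.nd (nat_lit 94) (nat_lit 0) (nat_lit 0) (XT.lf (nat_lit 0) (nat_lit 19107348737) (nat_lit 0) (nat_lit 0) (nat_lit 0) (nat_lit 0) (nat_lit 0) (nat_lit 0) (nat_lit 1) (nat_lit 0) (nat_lit 1) (nat_lit 0) (nat_lit 288) (nat_lit 299) (nat_lit 133)) (XT.nd (nat_lit 94) (nat_lit 0) (nat_lit 0) (XT.lf (nat_lit 0) (nat_lit 19107072409) (nat_lit 0) (nat_lit 0) (nat_lit 0) (nat_lit 0) (nat_lit 0) (nat_lit 0) (nat_lit 1) (nat_lit 0) (nat_lit 1) (nat_lit 0) (nat_lit 289) (nat_lit 299) (nat_lit 132)) (XT.lf (nat_lit 0) (nat_lit 19106809239) (nat_lit 0) (nat_lit 0) (nat_lit 0) (nat_lit 0) (nat_lit 0) (nat_lit 0) (nat_lit 1) (nat_lit 0) (nat_lit 1) (nat_lit 0) (nat_lit 290) (nat_lit 299) (nat_lit 131)))) (XT.nd (nat_lit 94) (nat_lit 0) (nat_lit 0) (XT.lf (nat_lit 0) (nat_lit 19106558601) (nat_lit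 0) (nat_lit 0) (nat_lit 0) (nat_lit 0) (nat_lit 0) (nat_lit 0) (nat_lit 1) (nat_lit 0) (nat_lit 1) (nat_lit 0) (nat_lit 291) (nat_lit 299) (nat_lit 130)) (XT.nd (nat_lit 94) (nat_lit 0) (nat_lit 0) (XT.lf (nat_lit 0) (nat_lit 19106319898) (nat_lit 0) (nat_lit 0) (nat_lit 0) (nat_lit 0) (nat_lit 0) (nat_lit 0) (nat_lit 1) (nat_lit 0) (nat_lit 1) (nat_lit 0) (nat_lit 292) (nat_lit 299) (nat_lit 129)) (XT.lf (nat_lit 0) (nat_lit 19106092562) (nat_lit 0) (nat_lit 0) (nat_lit 0) (nat_lit 0) (nat_lit 0) (nat_lit 0) (nat_lit 1) (nat_lit 0) (nat_lit 1) (nat_lit 0) (nat_lit 293) (nat_lit 299) (nat_lit 128))))) (XT.nd (nat_lit 282) (nat_lit 0) (nat_lit 0) (XT.nd (nat_lit 94) (nat_lit 0) (nat_lit 0) (XT.lf (nat_lit 0) (nat_lit 19105876051) (nat_lit 0) (nat_lit 0) (nat_lit 0) (nat_lit 0) (nat_lit 0) (nat_lit 0) (nat_lit 1) (nat_lit 0) (nat_lit 1) (nat_lit 0) (nat_lit 294) (nat_lit 299)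 (nat_lit 127)) (XT.nd (nat_lit 94) (nat_lit 0) (nat_lit 0) (XT.lf (nat_lit 0) (nat_lit 19105669851) (nat_lit 0) (nat_lit 0) (nat_lit 0) (nat_lit 0) (nat_lit 0) (nat_lit 0) (nat_lit 1) (nat_lit 0) (nat_lit 1) (nat_lit 0) (nat_lit 295) (nat_lit 299) (nat_lit 126)) (XT.lf (nat_lit 0) (nat_lit 19105473469) (nat_lit 0) (nat_lit 0) (nat_lit 0) (nat_lit 0) (nat_lit 0) (nat_lit 0) (nat_lit 1) (nat_lit 0) (nat_lit 1) (nat_lit 0) (nat_lit 296) (nat_lit 299) (nat_lit 125)))) (XT.nd (nat_lit 188) (nat_lit 0) (nat_lit 0) (XT.nd (nat_lit 94) (nat_lit 0) (nat_lit 0) (XT.lf (nat_lit 0) (nat_lit 19105286439) (nat_lit 0) (nat_lit 0) (nat_lit 0) (nat_lit 0) (nat_lit 0) (nat_lit 0) (nat_lit 1) (nat_lit 0) (nat_lit 1) (nat_lit 0) (nat_lit 297) (nat_lit 299) (nat_lit 124)) (XT.lf (nat_lit 0) (nat_lit 19105108316) (nat_lit 0) (nat_lit 0) (nat_lit 0) (nat_lit 0) (nat_lit 0) (nat_lit 0) (nat_lit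 1) (nat_lit 0) (nat_lit 1) (nat_lit 0) (nat_lit 298) (nat_lit 299) (nat_lit 123))) (XT.nd (nat_lit 94) (nat_lit 0) (nat_lit 0) (XT.lf (nat_lit 0) (nat_lit 19104938674) (nat_lit 0) (nat_lit 0) (nat_lit 0) (nat_lit 0) (nat_lit 0) (nat_lit 0) (nat_lit 1) (nat_lit 0) (nat_lit 1) (nat_lit 0) (nat_lit 299) (nat_lit 299) (nat_lit 122)) (XT.lf (nat_lit 0) (nat_lit 19104777110) (nat_lit 0) (nat_lit 0) (nat_lit 0) (nat_lit 0) (nat_lit 0) (nat_lit 0) (nat_lit 1) (nat_lit 0) (nat_lit 1) (nat_lit 0) (nat_lit 300) (nat_lit 299) (nat_lit 121)))))) (XT.nd (nat_lit 658) (nat_lit 0) (nat_lit 0) (XT.nd (nat_lit 282) (nat_lit 0) (nat_lit 0) (XT.nd (nat_lit 94) (nat_lit 0) (nat_lit 0) (XT.lf (nat_lit 0) (nat_lit 19104623240) (nat_lit 0) (nat_lit 0) (nat_lit 0) (nat_lit 0) (nat_lit 0) (nat_lit 0) (nat_lit 1) (nat_lit 0) (nat_lit 1) (nat_lit 0) (nat_lit 301) (nat_lit 299) (nat_lit 120)) (XT.nd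 (nat_lit 94) (nat_lit 0) (nat_lit 0) (XT.lf (nat_lit 0) (nat_lit 19104476697) (nat_lit 0) (nat_lit 0) (nat_lit 0) (nat_lit 0) (nat_lit 0) (nat_lit 0) (nat_lit 1) (nat_lit 0) (nat_lit 1) (nat_lit 0) (nat_lit 302) (nat_lit 299) (nat_lit 119)) (XT.lf (nat_lit 0) (nat_lit 19104337133) (nat_lit 0) (nat_lit 0) (nat_lit 0) (nat_lit 0) (nat_lit 0) (nat_lit 0) (nat_lit 1) (nat_lit 0) (nat_lit 1) (nat_lit 0) (nat_lit 303) (nat_lit 299) (nat_lit 118)))) (XT.nd (nat_lit 188) (nat_lit 0) (nat_lit 0) (XT.nd (nat_lit 94) (nat_lit 0) (nat_lit 0) (XT.lf (nat_lit 0) (nat_lit 19104204214) (nat_lit 0) (nat_lit 0) (nat_lit 0) (nat_lit 0) (nat_lit 0) (nat_lit 0) (nat_lit 1) (nat_lit 0) (nat_lit 1) (nat_lit 0) (nat_lit 304) (nat_lit 299) (nat_lit 117)) (XT.lf (nat_lit 0) (nat_lit 19104077625) (nat_lit 0) (nat_lit 0) (nat_lit 0) (nat_lit 0) (nat_lit 0) (nat_lit 0) (nat_lit 1) (nat_lit 0) (nat_lit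 1) (nat_lit 0) (nat_lit 305) (nat_lit 299) (nat_lit 116))) (XT.nd (nat_lit 94) (nat_lit 0) (nat_lit 0) (XT.lf (nat_lit 0) (nat_lit 19103957064) (nat_lit 0) (nat_lit 0) (nat_lit 0) (nat_lit 0) (nat_lit 0) (nat_lit 0) (nat_lit 1) (nat_lit 0) (nat_lit 1) (nat_lit 0) (nat_lit 306) (nat_lit 299) (nat_lit 115)) (XT.lf (nat_lit 0) (nat_lit 19103842243) (nat_lit 0) (nat_lit 0) (nat_lit 0) (nat_lit 0) (nat_lit 0) (nat_lit 0) (nat_lit 1) (nat_lit 0) (nat_lit 1) (nat_lit 0) (nat_lit 307) (nat_lit 299) (nat_lit 114))))) (XT.nd (nat_lit 282) (nat_lit 0) (nat_lit 0) (XT.nd (nat_lit 94) (nat_lit 0) (nat_lit 0) (XT.lf (nat_lit 0) (nat_lit 19103732891) (nat_lit 0) (nat_lit 0) (nat_lit 0) (nat_lit 0) (nat_lit 0) (nat_lit 0) (nat_lit 1) (nat_lit 0) (nat_lit 1) (nat_lit 0) (nat_lit 308) (nat_lit 299) (nat_lit 113)) (XT.nd (nat_lit 94) (nat_lit 0) (nat_lit 0) (XT.lf (nat_lit 0) (nat_lit 19103628746)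 (nat_lit 0) (nat_lit 0) (nat_lit 0) (nat_lit 0) (nat_lit 0) (nat_lit 0) (nat_lit 1) (nat_lit 0) (nat_lit 1) (nat_lit 0) (nat_lit 309) (nat_lit 299) (nat_lit 112)) (XT.lf (nat_lit 0) (nat_lit 19103529560) (nat_lit 0) (nat_lit 0) (nat_lit 0) (nat_lit 0) (nat_lit 0) (nat_lit 0) (nat_lit 1) (nat_lit 0) (nat_lit 1) (nat_lit 0) (nat_lit 310) (nat_lit 299) (nat_lit 111)))) (XT.nd (nat_lit 27354) (nat_lit 0) (nat_lit 10752) (XT.nd (nat_lit 27260) (nat_lit 0) (nat_lit 10752) (XT.lf (nat_lit 0) (nat_lit 19103435097) (nat_lit 0) (nat_lit 0) (nat_lit 0) (nat_lit 0) (nat_lit 0) (nat_lit 0) (nat_lit 1) (nat_lit 0) (nat_lit 1) (nat_lit 0) (nat_lit 311) (nat_lit 299) (nat_lit 110)) (XT.lf (nat_lit 924) (nat_lit 10037085488) (nat_lit 0) (nat_lit 17820822213) (nat_lit 924) (nat_lit 10037085488) (nat_lit 139) (nat_lit 1) (nat_lit 128) (nat_lit 0) (nat_lit 139) (nat_lit 0) (nat_lit 120) (nat_lit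 300) (nat_lit 300))) (XT.nd (nat_lit 94) (nat_lit 0) (nat_lit 84) (XT.lf (nat_lit 924) (nat_lit 38904996434) (nat_lit 84) (nat_lit 17533389597) (nat_lit 0) (nat_lit 17533389597) (nat_lit 139) (nat_lit 1) (nat_lit 129) (nat_lit 1) (nat_lit 128) (nat_lit 0) (nat_lit 121) (nat_lit 300) (nat_lit 299)) (XT.lf (nat_lit 924) (nat_lit 18541535508) (nat_lit 0) (nat_lit 35126704522) (nat_lit 840) (nat_lit 18541535508) (nat_lit 140) (nat_lit 1) (nat_lit 129) (nat_lit 1) (nat_lit 139) (nat_lit 1) (nat_lit 122) (nat_lit 300) (nat_lit 298))))))))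
noncomputable def ec179 : XT := (XT.nd (nat_lit 2538) (nat_lit 3612) (nat_lit 0) (XT.nd (nat_lit 1222) (nat_lit 2772) (nat_lit 0) (XT.nd (nat_lit 564) (nat_lit 1512) (nat_lit 0) (XT.nd (nat_lit 282) (nat_lit 0) (nat_lit 168) (XT.nd (nat_lit 94) (nat_lit 0) (nat_lit 84) (XT.lf (nat_lit 924) (nat_lit 34781344202) (nat_lit 84) (nat_lit 17861678488) (nat_lit 0) (nat_lit 17861678488) (nat_lit 140) (nat_lit 1) (nat_lit 130) (nat_lit 1) (nat_lit 129) (nat_lit 1) (nat_lit 123) (nat_lit 300) (nat_lit 297)) (XT.nd (nat_lit 94) (nat_lit 0) (nat_lit 0) (XT.lf (nat_lit 924) (nat_lit 16009518728) (nat_lit 0) (nat_lit 36834631669) (nat_lit 840) (nat_lit 16009518728) (nat_lit 141) (nat_lit 1) (nat_lit 130) (nat_lit 1) (nat_lit 140) (nat_lit 1) (nat_lit 124) (nat_lit 300) (nat_lit 296)) (XT.lf (nat_lit 924) (nat_lit 28794162164) (nat_lit 84) (nat_lit 19229402336) (nat_lit 0) (nat_lit 19229402336)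 (nat_lit 141) (nat_lit 1) (nat_lit 131) (nat_lit 1) (nat_lit 130) (nat_lit 1) (nat_lit 125) (nat_lit 300) (nat_lit 295)))) (XT.nd (nat_lit 94) (nat_lit 0) (nat_lit 0) (XT.lf (nat_lit 924) (nat_lit 12625408458) (nat_lit 0) (nat_lit 40455193671) (nat_lit 840) (nat_lit 12625408458) (nat_lit 142) (nat_lit 1) (nat_lit 131) (nat_lit 1) (nat_lit 141) (nat_lit 1) (nat_lit 126) (nat_lit 300) (nat_lit 294)) (XT.nd (nat_lit 94) (nat_lit 0) (nat_lit 84) (XT.lf (nat_lit 924) (nat_lit 21223699271) (nat_lit 84) (nat_lit 21488974036) (nat_lit 0) (nat_lit 21488974036) (nat_lit 142) (nat_lit 1) (nat_lit 132) (nat_lit 1) (nat_lit 131) (nat_lit 1) (nat_lit 127) (nat_lit 300) (nat_lit 293)) (XT.lf (nat_lit 924) (nat_lit 8520209818) (nat_lit 0) (nat_lit 45711932739) (nat_lit 840) (nat_lit 8520209818) (nat_lit 143) (nat_lit 1) (nat_lit 132) (nat_lit 1) (nat_lit 142) (nat_lit 1) (nat_lit 128) (nat_lit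 300) (nat_lit 292))))) (XT.nd (nat_lit 282) (nat_lit 1008) (nat_lit 0) (XT.nd (nat_lit 94) (nat_lit 756) (nat_lit 0) (XT.lf (nat_lit 924) (nat_lit 12319054557) (nat_lit 84) (nat_lit 24508953942) (nat_lit 0) (nat_lit 24508953942) (nat_lit 143) (nat_lit 1) (nat_lit 133) (nat_lit 1) (nat_lit 132) (nat_lit 1) (nat_lit 129) (nat_lit 300) (nat_lit 291)) (XT.nd (nat_lit 94) (nat_lit 840) (nat_lit 0) (XT.lf (nat_lit 84) (nat_lit 3810282336) (nat_lit 0) (nat_lit 52358790608) (nat_lit 840) (nat_lit 3810282336) (nat_lit 134) (nat_lit 1) (nat_lit 133) (nat_lit 1) (nat_lit 143) (nat_lit 1) (nat_lit 130) (nat_lit 300) (nat_lit 290)) (XT.lf (nat_lit 924) (nat_lit 2301315777) (nat_lit 0) (nat_lit 28172433088) (nat_lit 840) (nat_lit 28172433088) (nat_lit 134) (nat_lit 1) (nat_lit 123) (nat_lit 1) (nat_lit 133) (nat_lit 1) (nat_lit 131) (nat_lit 300) (nat_lit 289)))) (XT.nd (nat_lit 188)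 (nat_lit 420) (nat_lit 0) (XT.nd (nat_lit 94) (nat_lit 0) (nat_lit 0) (XT.lf (nat_lit 588) (nat_lit 54613121600) (nat_lit 0) (nat_lit 1378581325) (nat_lit 504) (nat_lit 1378581325) (nat_lit 123) (nat_lit 1) (nat_lit 116) (nat_lit 1) (nat_lit 122) (nat_lit 1) (nat_lit 132) (nat_lit 300) (nat_lit 288)) (XT.lf (nat_lit 84) (nat_lit 23876761712) (nat_lit 0) (nat_lit 8357276010) (nat_lit 588) (nat_lit 23876761712) (nat_lit 117) (nat_lit 1) (nat_lit 116) (nat_lit 1) (nat_lit 123) (nat_lit 1) (nat_lit 133) (nat_lit 300) (nat_lit 287))) (XT.nd (nat_lit 94) (nat_lit 0) (nat_lit 0) (XT.lf (nat_lit 504) (nat_lit 41085778008) (nat_lit 0) (nat_lit 6909546640) (nat_lit 420) (nat_lit 6909546640) (nat_lit 117) (nat_lit 1) (nat_lit 111) (nat_lit 1) (nat_lit 116) (nat_lit 1) (nat_lit 134) (nat_lit 300) (nat_lit 286)) (XT.lf (nat_lit 84) (nat_lit 17031003467) (nat_lit 0) (nat_lit 19662288151)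 (nat_lit 504) (nat_lit 17031003467) (nat_lit 112) (nat_lit 1) (nat_lit 111) (nat_lit 1) (nat_lit 117) (nat_lit 1) (nat_lit 135) (nat_lit 300) (nat_lit 285)))))) (XT.nd (nat_lit 658) (nat_lit 1260) (nat_lit 0) (XT.nd (nat_lit 282) (nat_lit 756) (nat_lit 0) (XT.nd (nat_lit 94) (nat_lit 336) (nat_lit 0) (XT.lf (nat_lit 504) (nat_lit 27055567468) (nat_lit 0) (nat_lit 12764633861) (nat_lit 420) (nat_lit 12764633861) (nat_lit 112) (nat_lit 1) (nat_lit 106) (nat_lit 1) (nat_lit 111) (nat_lit 1) (nat_lit 136) (nat_lit 300) (nat_lit 284)) (XT.nd (nat_lit 94) (nat_lit 336) (nat_lit 0) (XT.lf (nat_lit 84) (nat_lit 9969617042) (nat_lit 0) (nat_lit 31539280547) (nat_lit 504) (nat_lit 9969617042) (nat_lit 107) (nat_lit 1) (nat_lit 106) (nat_lit 1) (nat_lit 112) (nat_lit 1) (nat_lit 137) (nat_lit 300) (nat_lit 283)) (XT.lf (nat_lit 420) (nat_lit 12653075646) (nat_lit 0) (nat_lit 18873788319)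 (nat_lit 336) (nat_lit 18873788319) (nat_lit 107) (nat_lit 1) (nat_lit 102) (nat_lit 1) (nat_lit 106) (nat_lit 1) (nat_lit 138) (nat_lit 300) (nat_lit 282)))) (XT.nd (nat_lit 188) (nat_lit 336) (nat_lit 0) (XT.nd (nat_lit 94) (nat_lit 420) (nat_lit 0) (XT.lf (nat_lit 84) (nat_lit 2753224831) (nat_lit 0) (nat_lit 43857789556) (nat_lit 420) (nat_lit 2753224831) (nat_lit 103) (nat_lit 1) (nat_lit 102) (nat_lit 1) (nat_lit 107) (nat_lit 1) (nat_lit 139) (nat_lit 300) (nat_lit 281)) (XT.lf (nat_lit 84) (nat_lit 23199463571) (nat_lit 0) (nat_lit 1943000139) (nat_lit 420) (nat_lit 23199463571) (nat_lit 98) (nat_lit 1) (nat_lit 97) (nat_lit 1) (nat_lit 102) (nat_lit 1) (nat_lit 140) (nat_lit 300) (nat_lit 280))) (XT.nd (nat_lit 94) (nat_lit 0) (nat_lit 0) (XT.lf (nat_lit 420) (nat_lit 38375571341) (nat_lit 0) (nat_lit 4491488074) (nat_lit 336) (nat_lit 4491488074) (nat_lit 98) (nat_lit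 1) (nat_lit 93) (nat_lit 1) (nat_lit 97) (nat_lit 1) (nat_lit 141) (nat_lit 300) (nat_lit 279)) (XT.lf (nat_lit 84) (nat_lit 15052586187) (nat_lit 0) (nat_lit 16286865422) (nat_lit 420) (nat_lit 15052586187) (nat_lit 94) (nat_lit 1) (nat_lit 93) (nat_lit 1) (nat_lit 98) (nat_lit 1) (nat_lit 142) (nat_lit 300) (nat_lit 278))))) (XT.nd (nat_lit 282) (nat_lit 672) (nat_lit 0) (XT.nd (nat_lit 94) (nat_lit 252) (nat_lit 0) (XT.lf (nat_lit 420) (nat_lit 21965910551) (nat_lit 0) (nat_lit 11746566354) (nat_lit 336) (nat_lit 11746566354) (nat_lit 94) (nat_lit 1) (nat_lit 89) (nat_lit 1) (nat_lit 93) (nat_lit 1) (nat_lit 143) (nat_lit 300) (nat_lit 277)) (XT.nd (nat_lit 94) (nat_lit 252) (nat_lit 0) (XT.lf (nat_lit 84) (nat_lit 6927067865) (nat_lit 0) (nat_lit 30699193834) (nat_lit 420) (nat_lit 6927067865) (nat_lit 90) (nat_lit 1) (nat_lit 89) (nat_lit 1) (nat_lit 94) (nat_lit 1)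 (nat_lit 144) (nat_lit 300) (nat_lit 276)) (XT.lf (nat_lit 336) (nat_lit 5633487614) (nat_lit 0) (nat_lit 19016839494) (nat_lit 252) (nat_lit 19016839494) (nat_lit 90) (nat_lit 1) (nat_lit 86) (nat_lit 1) (nat_lit 89) (nat_lit 1) (nat_lit 145) (nat_lit 300) (nat_lit 275)))) (XT.nd (nat_lit 188) (nat_lit 252) (nat_lit 0) (XT.nd (nat_lit 94) (nat_lit 0) (nat_lit 0) (XT.lf (nat_lit 420) (nat_lit 40564052370) (nat_lit 0) (nat_lit 1125574619) (nat_lit 336) (nat_lit 1125574619) (nat_lit 86) (nat_lit 1) (nat_lit 81) (nat_lit 1) (nat_lit 85) (nat_lit 1) (nat_lit 146) (nat_lit 300) (nat_lit 274)) (XT.lf (nat_lit 84) (nat_lit 15873013577) (nat_lit 0) (nat_lit 10221924983) (nat_lit 420) (nat_lit 15873013577) (nat_lit 82) (nat_lit 1) (nat_lit 81) (nat_lit 1) (nat_lit 86) (nat_lit 1) (nat_lit 147) (nat_lit 300) (nat_lit 273))) (XT.nd (nat_lit 94) (nat_lit 0) (nat_lit 0) (XT.lf (nat_lit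 336) (nat_lit 23183038144) (nat_lit 0) (nat_lit 8985079398) (nat_lit 252) (nat_lit 8985079398) (nat_lit 82) (nat_lit 1) (nat_lit 78) (nat_lit 1) (nat_lit 81) (nat_lit 1) (nat_lit 148) (nat_lit 300) (nat_lit 272)) (XT.lf (nat_lit 84) (nat_lit 7323880354) (nat_lit 0) (nat_lit 25711381289) (nat_lit 336) (nat_lit 7323880354) (nat_lit 79) (nat_lit 1) (nat_lit 78) (nat_lit 1) (nat_lit 82) (nat_lit 1) (nat_lit 149) (nat_lit 300) (nat_lit 271))))))) (XT.nd (nat_lit 1316) (nat_lit 1512) (nat_lit 0) (XT.nd (nat_lit 658) (nat_lit 756) (nat_lit 0) (XT.nd (nat_lit 282) (nat_lit 756) (nat_lit 0) (XT.nd (nat_lit 94) (nat_lit 336) (nat_lit 0) (XT.lf (nat_lit 336) (nat_lit 6104225359) (nat_lit 0) (nat_lit 16739463116) (nat_lit 252) (nat_lit 16739463116) (nat_lit 79) (nat_lit 1) (nat_lit 75) (nat_lit 1) (nat_lit 78) (nat_lit 1) (nat_lit 150) (nat_lit 300) (nat_lit 270)) (XT.nd (nat_lit 94)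 (nat_lit 0) (nat_lit 0) (XT.lf (nat_lit 336) (nat_lit 36737841847) (nat_lit 0) (nat_lit 1049074183) (nat_lit 252) (nat_lit 1049074183) (nat_lit 75) (nat_lit 1) (nat_lit 71) (nat_lit 1) (nat_lit 74) (nat_lit 1) (nat_lit 151) (nat_lit 300) (nat_lit 269)) (XT.lf (nat_lit 84) (nat_lit 13896873465) (nat_lit 0) (nat_lit 10297443697) (nat_lit 336) (nat_lit 13896873465) (nat_lit 72) (nat_lit 1) (nat_lit 71) (nat_lit 1) (nat_lit 75) (nat_lit 1) (nat_lit 152) (nat_lit 300) (nat_lit 268)))) (XT.nd (nat_lit 188) (nat_lit 504) (nat_lit 0) (XT.nd (nat_lit 94) (nat_lit 0) (nat_lit 0) (XT.lf (nat_lit 336) (nat_lit 19109473494) (nat_lit 0) (nat_lit 9132237625) (nat_lit 252) (nat_lit 9132237625) (nat_lit 72) (nat_lit 1) (nat_lit 68) (nat_lit 1) (nat_lit 71) (nat_lit 1) (nat_lit 153) (nat_lit 300) (nat_lit 267)) (XT.lf (nat_lit 84) (nat_lit 5262733415) (nat_lit 0) (nat_lit 26150476785) (nat_lit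 336) (nat_lit 5262733415) (nat_lit 69) (nat_lit 1) (nat_lit 68) (nat_lit 1) (nat_lit 72) (nat_lit 1) (nat_lit 154) (nat_lit 300) (nat_lit 266))) (XT.nd (nat_lit 94) (nat_lit 336) (nat_lit 0) (XT.lf (nat_lit 252) (nat_lit 1928440505) (nat_lit 0) (nat_lit 17031325734) (nat_lit 168) (nat_lit 17031325734) (nat_lit 69) (nat_lit 1) (nat_lit 66) (nat_lit 1) (nat_lit 68) (nat_lit 1) (nat_lit 155) (nat_lit 300) (nat_lit 265)) (XT.lf (nat_lit 336) (nat_lit 29138089406) (nat_lit 0) (nat_lit 3094676297) (nat_lit 252) (nat_lit 3094676297) (nat_lit 66) (nat_lit 1) (nat_lit 62) (nat_lit 1) (nat_lit 65) (nat_lit 1) (nat_lit 156) (nat_lit 300) (nat_lit 264))))) (XT.nd (nat_lit 282) (nat_lit 588) (nat_lit 0) (XT.nd (nat_lit 94) (nat_lit 168) (nat_lit 0) (XT.lf (nat_lit 84) (nat_lit 10177242974) (nat_lit 0) (nat_lit 14316728365) (nat_lit 336) (nat_lit 10177242974) (nat_lit 63) (nat_lit 1)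 (nat_lit 62) (nat_lit 1) (nat_lit 66) (nat_lit 1) (nat_lit 157) (nat_lit 300) (nat_lit 263)) (XT.nd (nat_lit 94) (nat_lit 0) (nat_lit 0) (XT.lf (nat_lit 252) (nat_lit 11758234350) (nat_lit 0) (nat_lit 11138502631) (nat_lit 168) (nat_lit 11138502631) (nat_lit 63) (nat_lit 1) (nat_lit 60) (nat_lit 1) (nat_lit 62) (nat_lit 1) (nat_lit 158) (nat_lit 300) (nat_lit 262)) (XT.lf (nat_lit 84) (nat_lit 1689285062) (nat_lit 0) (nat_lit 30041800348) (nat_lit 252) (nat_lit 1689285062) (nat_lit 61) (nat_lit 1) (nat_lit 60) (nat_lit 1) (nat_lit 63) (nat_lit 1) (nat_lit 159) (nat_lit 300) (nat_lit 261)))) (XT.nd (nat_lit 188) (nat_lit 168) (nat_lit 0) (XT.nd (nat_lit 94) (nat_lit 168) (nat_lit 0) (XT.lf (nat_lit 84) (nat_lit 13941966001) (nat_lit 0) (nat_lit 4923804425) (nat_lit 252) (nat_lit 13941966001) (nat_lit 58) (nat_lit 1) (nat_lit 57) (nat_lit 1) (nat_lit 60) (nat_lit 1) (nat_lit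 160) (nat_lit 300) (nat_lit 260)) (XT.lf (nat_lit 252) (nat_lit 19360863332) (nat_lit 0) (nat_lit 6427282062) (nat_lit 168) (nat_lit 6427282062) (nat_lit 58) (nat_lit 1) (nat_lit 55) (nat_lit 1) (nat_lit 57) (nat_lit 1) (nat_lit 161) (nat_lit 300) (nat_lit 259))) (XT.nd (nat_lit 94) (nat_lit 168) (nat_lit 0) (XT.lf (nat_lit 84) (nat_lit 5463131936) (nat_lit 0) (nat_lit 20709945937) (nat_lit 252) (nat_lit 5463131936) (nat_lit 56) (nat_lit 1) (nat_lit 55) (nat_lit 1) (nat_lit 58) (nat_lit 1) (nat_lit 162) (nat_lit 300) (nat_lit 258)) (XT.lf (nat_lit 252) (nat_lit 2559280621) (nat_lit 0) (nat_lit 14254693539) (nat_lit 168) (nat_lit 14254693539) (nat_lit 56) (nat_lit 1) (nat_lit 53) (nat_lit 1) (nat_lit 55) (nat_lit 1) (nat_lit 163) (nat_lit 300) (nat_lit 257)))))) (XT.nd (nat_lit 658) (nat_lit 756) (nat_lit 0) (XT.nd (nat_lit 282) (nat_lit 336) (nat_lit 0) (XT.nd (nat_lit 94)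 (nat_lit 168) (nat_lit 0) (XT.lf (nat_lit 252) (nat_lit 25154263351) (nat_lit 0) (nat_lit 2681653603) (nat_lit 168) (nat_lit 2681653603) (nat_lit 53) (nat_lit 1) (nat_lit 50) (nat_lit 1) (nat_lit 52) (nat_lit 1) (nat_lit 164) (nat_lit 300) (nat_lit 256)) (XT.nd (nat_lit 94) (nat_lit 168) (nat_lit 0) (XT.lf (nat_lit 84) (nat_lit 8373915911) (nat_lit 0) (nat_lit 13223345150) (nat_lit 252) (nat_lit 8373915911) (nat_lit 51) (nat_lit 1) (nat_lit 50) (nat_lit 1) (nat_lit 53) (nat_lit 1) (nat_lit 165) (nat_lit 300) (nat_lit 255)) (XT.lf (nat_lit 252) (nat_lit 8528426797) (nat_lit 0) (nat_lit 10456109576) (nat_lit 168) (nat_lit 10456109576) (nat_lit 51) (nat_lit 1) (nat_lit 48) (nat_lit 1) (nat_lit 50) (nat_lit 1) (nat_lit 166) (nat_lit 300) (nat_lit 254)))) (XT.nd (nat_lit 188) (nat_lit 168) (nat_lit 0) (XT.nd (nat_lit 94) (nat_lit 168) (nat_lit 0) (XT.lf (nat_lit 84) (nat_lit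 280305868) (nat_lit 0) (nat_lit 28368108940) (nat_lit 252) (nat_lit 280305868) (nat_lit 49) (nat_lit 1) (nat_lit 48) (nat_lit 1) (nat_lit 51) (nat_lit 1) (nat_lit 167) (nat_lit 300) (nat_lit 253)) (XT.lf (nat_lit 84) (nat_lit 10583892532) (nat_lit 0) (nat_lit 7245756279) (nat_lit 168) (nat_lit 10583892532) (nat_lit 47) (nat_lit 1) (nat_lit 46) (nat_lit 1) (nat_lit 48) (nat_lit 1) (nat_lit 168) (nat_lit 300) (nat_lit 252))) (XT.nd (nat_lit 94) (nat_lit 0) (nat_lit 0) (XT.lf (nat_lit 252) (nat_lit 13133405734) (nat_lit 0) (nat_lit 7391541438) (nat_lit 168) (nat_lit 7391541438) (nat_lit 47) (nat_lit 1) (nat_lit 44) (nat_lit 1) (nat_lit 46) (nat_lit 1) (nat_lit 169) (nat_lit 300) (nat_lit 251)) (XT.lf (nat_lit 84) (nat_lit 2633157081) (nat_lit 0) (nat_lit 22166538430) (nat_lit 252) (nat_lit 2633157081) (nat_lit 45) (nat_lit 1) (nat_lit 44) (nat_lit 1) (nat_lit 47) (nat_lit 1)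 (nat_lit 170) (nat_lit 300) (nat_lit 250))))) (XT.nd (nat_lit 282) (nat_lit 420) (nat_lit 0) (XT.nd (nat_lit 94) (nat_lit 168) (nat_lit 0) (XT.lf (nat_lit 84) (nat_lit 12226109996) (nat_lit 0) (nat_lit 2500984955) (nat_lit 168) (nat_lit 12226109996) (nat_lit 43) (nat_lit 1) (nat_lit 42) (nat_lit 1) (nat_lit 44) (nat_lit 1) (nat_lit 171) (nat_lit 300) (nat_lit 249)) (XT.nd (nat_lit 94) (nat_lit 0) (nat_lit 0) (XT.lf (nat_lit 252) (nat_lit 16630645306) (nat_lit 0) (nat_lit 4927967256) (nat_lit 168) (nat_lit 4927967256) (nat_lit 43) (nat_lit 1) (nat_lit 40) (nat_lit 1) (nat_lit 42) (nat_lit 1) (nat_lit 172) (nat_lit 300) (nat_lit 248)) (XT.lf (nat_lit 84) (nat_lit 4454446514) (nat_lit 0) (nat_lit 17120299357) (nat_lit 252) (nat_lit 4454446514) (nat_lit 41) (nat_lit 1) (nat_lit 40) (nat_lit 1) (nat_lit 43) (nat_lit 1) (nat_lit 173) (nat_lit 300) (nat_lit 247)))) (XT.nd (nat_lit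 188) (nat_lit 84) (nat_lit 0) (XT.nd (nat_lit 94) (nat_lit 252) (nat_lit 0) (XT.lf (nat_lit 168) (nat_lit 1278709379) (nat_lit 0) (nat_lit 12150863347) (nat_lit 84) (nat_lit 12150863347) (nat_lit 41) (nat_lit 1) (nat_lit 39) (nat_lit 1) (nat_lit 40) (nat_lit 1) (nat_lit 174) (nat_lit 300) (nat_lit 246)) (XT.lf (nat_lit 252) (nat_lit 19230415819) (nat_lit 0) (nat_lit 2956086879) (nat_lit 168) (nat_lit 2956086879) (nat_lit 39) (nat_lit 1) (nat_lit 36) (nat_lit 1) (nat_lit 38) (nat_lit 1) (nat_lit 175) (nat_lit 300) (nat_lit 245))) (XT.nd (nat_lit 94) (nat_lit 84) (nat_lit 0) (XT.lf (nat_lit 84) (nat_lit 5843866711) (nat_lit 0) (nat_lit 13021896777) (nat_lit 252) (nat_lit 5843866711) (nat_lit 37) (nat_lit 1) (nat_lit 36) (nat_lit 1) (nat_lit 39) (nat_lit 1) (nat_lit 176) (nat_lit 300) (nat_lit 244)) (XT.lf (nat_lit 168) (nat_lit 4294195784) (nat_lit 0) (nat_lit 9996545347)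 (nat_lit 84) (nat_lit 9996545347) (nat_lit 37) (nat_lit 1) (nat_lit 35) (nat_lit 1) (nat_lit 36) (nat_lit 1) (nat_lit 177) (nat_lit 300) (nat_lit 243))))))))
noncomputable def ec180 : XT := (XT.nd (nat_lit 2538) (nat_lit 504) (nat_lit 0) (XT.nd (nat_lit 1222) (nat_lit 1260) (nat_lit 0) (XT.nd (nat_lit 564) (nat_lit 504) (nat_lit 0) (XT.nd (nat_lit 282) (nat_lit 336) (nat_lit 0) (XT.nd (nat_lit 94) (nat_lit 84) (nat_lit 0) (XT.lf (nat_lit 252) (nat_lit 21105046655) (nat_lit 0) (nat_lit 1386109535) (nat_lit 168) (nat_lit 1386109535) (nat_lit 35) (nat_lit 1) (nat_lit 32) (nat_lit 1) (nat_lit 34) (nat_lit 1) (nat_lit 178) (nat_lit 300) (nat_lit 242)) (XT.nd (nat_lit 94) (nat_lit 84) (nat_lit 0) (XT.lf (nat_lit 84) (nat_lit 6883175548) (nat_lit 0) (nat_lit 9700750635) (nat_lit 252) (nat_lit 6883175548) (nat_lit 33) (nat_lit 1) (nat_lit 32) (nat_lit 1) (nat_lit 35) (nat_lit 1)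 (nat_lit 179) (nat_lit 300) (nat_lit 241)) (XT.lf (nat_lit 168) (nat_lit 6620653511) (nat_lit 0) (nat_lit 8224182596) (nat_lit 84) (nat_lit 8224182596) (nat_lit 33) (nat_lit 1) (nat_lit 31) (nat_lit 1) (nat_lit 32) (nat_lit 1) (nat_lit 180) (nat_lit 300) (nat_lit 240)))) (XT.nd (nat_lit 94) (nat_lit 84) (nat_lit 0) (XT.lf (nat_lit 252) (nat_lit 22395684561) (nat_lit 0) (nat_lit 144288644) (nat_lit 168) (nat_lit 144288644) (nat_lit 31) (nat_lit 1) (nat_lit 28) (nat_lit 1) (nat_lit 30) (nat_lit 1) (nat_lit 181) (nat_lit 300) (nat_lit 239)) (XT.nd (nat_lit 94) (nat_lit 84) (nat_lit 0) (XT.lf (nat_lit 84) (nat_lit 7639388360) (nat_lit 0) (nat_lit 7016644822) (nat_lit 252) (nat_lit 7639388360) (nat_lit 29) (nat_lit 1) (nat_lit 28) (nat_lit 1) (nat_lit 31) (nat_lit 1) (nat_lit 182) (nat_lit 300) (nat_lit 238)) (XT.lf (nat_lit 168) (nat_lit 8387597564) (nat_lit 0) (nat_lit 6766055375)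 (nat_lit 84) (nat_lit 6766055375) (nat_lit 29) (nat_lit 1) (nat_lit 27) (nat_lit 1) (nat_lit 28) (nat_lit 1) (nat_lit 183) (nat_lit 300) (nat_lit 237))))) (XT.nd (nat_lit 282) (nat_lit 252) (nat_lit 0) (XT.nd (nat_lit 94) (nat_lit 252) (nat_lit 0) (XT.lf (nat_lit 0) (nat_lit 843534098) (nat_lit 0) (nat_lit 19868270300) (nat_lit 168) (nat_lit 843534098) (nat_lit 27) (nat_lit 3) (nat_lit 27) (nat_lit 1) (nat_lit 29) (nat_lit 1) (nat_lit 184) (nat_lit 300) (nat_lit 236)) (XT.nd (nat_lit 94) (nat_lit 84) (nat_lit 0) (XT.lf (nat_lit 84) (nat_lit 8167403522) (nat_lit 0) (nat_lit 4854337981) (nat_lit 168) (nat_lit 8167403522) (nat_lit 26) (nat_lit 1) (nat_lit 25) (nat_lit 1) (nat_lit 27) (nat_lit 1) (nat_lit 185) (nat_lit 300) (nat_lit 235)) (XT.lf (nat_lit 168) (nat_lit 9701230164) (nat_lit 0) (nat_lit 5566450501) (nat_lit 84) (nat_lit 5566450501) (nat_lit 26) (nat_lit 1) (nat_lit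 24) (nat_lit 1) (nat_lit 25) (nat_lit 1) (nat_lit 186) (nat_lit 300) (nat_lit 234)))) (XT.nd (nat_lit 188) (nat_lit 84) (nat_lit 0) (XT.nd (nat_lit 94) (nat_lit 168) (nat_lit 0) (XT.lf (nat_lit 0) (nat_lit 1612250669) (nat_lit 0) (nat_lit 17263948225) (nat_lit 168) (nat_lit 1612250669) (nat_lit 24) (nat_lit 3) (nat_lit 24) (nat_lit 1) (nat_lit 26) (nat_lit 1) (nat_lit 187) (nat_lit 300) (nat_lit 233)) (XT.lf (nat_lit 84) (nat_lit 8512161959) (nat_lit 0) (nat_lit 3119130080) (nat_lit 168) (nat_lit 8512161959) (nat_lit 23) (nat_lit 1) (nat_lit 22) (nat_lit 1) (nat_lit 24) (nat_lit 1) (nat_lit 188) (nat_lit 300) (nat_lit 232))) (XT.nd (nat_lit 94) (nat_lit 0) (nat_lit 0) (XT.lf (nat_lit 168) (nat_lit 10648590723) (nat_lit 0) (nat_lit 4579532603) (nat_lit 84) (nat_lit 4579532603) (nat_lit 23) (nat_lit 1) (nat_lit 21) (nat_lit 1) (nat_lit 22) (nat_lit 1) (nat_lit 189) (nat_lit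 300) (nat_lit 231)) (XT.lf (nat_lit 0) (nat_lit 2200948404) (nat_lit 0) (nat_lit 15077638719) (nat_lit 168) (nat_lit 2200948404) (nat_lit 21) (nat_lit 3) (nat_lit 21) (nat_lit 1) (nat_lit 23) (nat_lit 1) (nat_lit 190) (nat_lit 300) (nat_lit 230)))))) (XT.nd (nat_lit 658) (nat_lit 672) (nat_lit 0) (XT.nd (nat_lit 282) (nat_lit 336) (nat_lit 0) (XT.nd (nat_lit 94) (nat_lit 84) (nat_lit 0) (XT.lf (nat_lit 84) (nat_lit 8710423251) (nat_lit 0) (nat_lit 1733215284) (nat_lit 168) (nat_lit 8710423251) (nat_lit 20) (nat_lit 1) (nat_lit 19) (nat_lit 1) (nat_lit 21) (nat_lit 1) (nat_lit 191) (nat_lit 300) (nat_lit 229)) (XT.nd (nat_lit 94) (nat_lit 0) (nat_lit 0) (XT.lf (nat_lit 168) (nat_lit 11300969234) (nat_lit 0) (nat_lit 3767592806) (nat_lit 84) (nat_lit 3767592806) (nat_lit 20) (nat_lit 1) (nat_lit 18) (nat_lit 1) (nat_lit 19) (nat_lit 1) (nat_lit 192) (nat_lit 300) (nat_lit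 228)) (XT.lf (nat_lit 0) (nat_lit 2643626451) (nat_lit 0) (nat_lit 13237311440) (nat_lit 168) (nat_lit 2643626451) (nat_lit 18) (nat_lit 3) (nat_lit 18) (nat_lit 1) (nat_lit 20) (nat_lit 1) (nat_lit 193) (nat_lit 300) (nat_lit 227)))) (XT.nd (nat_lit 188) (nat_lit 84) (nat_lit 0) (XT.nd (nat_lit 94) (nat_lit 84) (nat_lit 0) (XT.lf (nat_lit 84) (nat_lit 8792226328) (nat_lit 0) (nat_lit 632681692) (nat_lit 168) (nat_lit 8792226328) (nat_lit 17) (nat_lit 1) (nat_lit 16) (nat_lit 1) (nat_lit 18) (nat_lit 1) (nat_lit 194) (nat_lit 300) (nat_lit 226)) (XT.lf (nat_lit 168) (nat_lit 11716713731) (nat_lit 0) (nat_lit 3099607925) (nat_lit 84) (nat_lit 3099607925) (nat_lit 17) (nat_lit 1) (nat_lit 15) (nat_lit 1) (nat_lit 16) (nat_lit 1) (nat_lit 195) (nat_lit 300) (nat_lit 225))) (XT.nd (nat_lit 94) (nat_lit 84) (nat_lit 0) (XT.lf (nat_lit 0) (nat_lit 2968156835) (nat_lit 0) (nat_lit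 11683607692) (nat_lit 168) (nat_lit 2968156835) (nat_lit 15) (nat_lit 3) (nat_lit 15) (nat_lit 1) (nat_lit 17) (nat_lit 1) (nat_lit 196) (nat_lit 300) (nat_lit 224)) (XT.lf (nat_lit 84) (nat_lit 242725471) (nat_lit 0) (nat_lit 8543154859) (nat_lit 84) (nat_lit 8543154859) (nat_lit 15) (nat_lit 3) (nat_lit 14) (nat_lit 1) (nat_lit 15) (nat_lit 1) (nat_lit 197) (nat_lit 300) (nat_lit 223))))) (XT.nd (nat_lit 282) (nat_lit 420) (nat_lit 0) (XT.nd (nat_lit 94) (nat_lit 84) (nat_lit 0) (XT.lf (nat_lit 168) (nat_lit 11943539264) (nat_lit 0) (nat_lit 2550055111) (nat_lit 84) (nat_lit 2550055111) (nat_lit 14) (nat_lit 1) (nat_lit 12) (nat_lit 1) (nat_lit 13) (nat_lit 1) (nat_lit 198) (nat_lit 300) (nat_lit 222)) (XT.nd (nat_lit 94) (nat_lit 84) (nat_lit 0) (XT.lf (nat_lit 0) (nat_lit 3197375508) (nat_lit 0) (nat_lit 10367598498) (nat_lit 168) (nat_lit 3197375508) (nat_lit 12) (nat_lit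 3) (nat_lit 12) (nat_lit 1) (nat_lit 14) (nat_lit 1) (nat_lit 199) (nat_lit 300) (nat_lit 221)) (XT.lf (nat_lit 84) (nat_lit 942971452) (nat_lit 0) (nat_lit 7771755251) (nat_lit 84) (nat_lit 7771755251) (nat_lit 12) (nat_lit 3) (nat_lit 11) (nat_lit 1) (nat_lit 12) (nat_lit 1) (nat_lit 200) (nat_lit 300) (nat_lit 220)))) (XT.nd (nat_lit 188) (nat_lit 252) (nat_lit 0) (XT.nd (nat_lit 94) (nat_lit 0) (nat_lit 0) (XT.lf (nat_lit 168) (nat_lit 12020426815) (nat_lit 0) (nat_lit 2097936651) (nat_lit 84) (nat_lit 2097936651) (nat_lit 11) (nat_lit 1) (nat_lit 9) (nat_lit 1) (nat_lit 10) (nat_lit 1) (nat_lit 201) (nat_lit 300) (nat_lit 219)) (XT.lf (nat_lit 0) (nat_lit 3349979729) (nat_lit 0) (nat_lit 9248939927) (nat_lit 168) (nat_lit 3349979729) (nat_lit 9) (nat_lit 3) (nat_lit 9) (nat_lit 1) (nat_lit 11) (nat_lit 1) (nat_lit 202) (nat_lit 300) (nat_lit 218))) (XT.nd (nat_lit 94)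 (nat_lit 168) (nat_lit 0) (XT.lf (nat_lit 84) (nat_lit 1483671239) (nat_lit 0) (nat_lit 7101728571) (nat_lit 84) (nat_lit 7101728571) (nat_lit 9) (nat_lit 3) (nat_lit 8) (nat_lit 1) (nat_lit 9) (nat_lit 1) (nat_lit 203) (nat_lit 300) (nat_lit 217)) (XT.lf (nat_lit 168) (nat_lit 11979184894) (nat_lit 0) (nat_lit 1725977674) (nat_lit 84) (nat_lit 1725977674) (nat_lit 8) (nat_lit 1) (nat_lit 6) (nat_lit 1) (nat_lit 7) (nat_lit 1) (nat_lit 204) (nat_lit 300) (nat_lit 216))))))) (XT.nd (nat_lit 1222) (nat_lit 0) (nat_lit 0) (XT.nd (nat_lit 564) (nat_lit 0) (nat_lit 0) (XT.nd (nat_lit 282) (nat_lit 252) (nat_lit 0) (XT.nd (nat_lit 94) (nat_lit 252) (nat_lit 0) (XT.lf (nat_lit 0) (nat_lit 3441266123) (nat_lit 0) (nat_lit 8294355277) (nat_lit 168) (nat_lit 3441266123) (nat_lit 6) (nat_lit 3) (nat_lit 6) (nat_lit 1) (nat_lit 8) (nat_lit 1) (nat_lit 205) (nat_lit 300) (nat_lit 215))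 (XT.nd (nat_lit 94) (nat_lit 168) (nat_lit 0) (XT.lf (nat_lit 84) (nat_lit 1894797421) (nat_lit 0) (nat_lit 6516787091) (nat_lit 84) (nat_lit 6516787091) (nat_lit 6) (nat_lit 3) (nat_lit 5) (nat_lit 1) (nat_lit 6) (nat_lit 1) (nat_lit 206) (nat_lit 300) (nat_lit 214)) (XT.lf (nat_lit 168) (nat_lit 11845733635) (nat_lit 0) (nat_lit 1419966104) (nat_lit 84) (nat_lit 1419966104) (nat_lit 5) (nat_lit 1) (nat_lit 3) (nat_lit 1) (nat_lit 4) (nat_lit 1) (nat_lit 207) (nat_lit 300) (nat_lit 213)))) (XT.nd (nat_lit 94) (nat_lit 252) (nat_lit 0) (XT.lf (nat_lit 0) (nat_lit 3483737689) (nat_lit 0) (nat_lit 7476386146) (nat_lit 168) (nat_lit 3483737689) (nat_lit 3) (nat_lit 3) (nat_lit 3) (nat_lit 1) (nat_lit 5) (nat_lit 1) (nat_lit 208) (nat_lit 300) (nat_lit 212)) (XT.nd (nat_lit 94) (nat_lit 168) (nat_lit 0) (XT.lf (nat_lit 84) (nat_lit 2200928262) (nat_lit 0) (nat_lit 6003450602)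 (nat_lit 84) (nat_lit 6003450602) (nat_lit 3) (nat_lit 3) (nat_lit 2) (nat_lit 1) (nat_lit 3) (nat_lit 1) (nat_lit 209) (nat_lit 300) (nat_lit 211)) (XT.lf (nat_lit 0) (nat_lit 20305062776) (nat_lit 0) (nat_lit 0) (nat_lit 0) (nat_lit 0) (nat_lit 0) (nat_lit 0) (nat_lit 1) (nat_lit 0) (nat_lit 1) (nat_lit 0) (nat_lit 210) (nat_lit 300) (nat_lit 210))))) (XT.nd (nat_lit 282) (nat_lit 0) (nat_lit 0) (XT.nd (nat_lit 94) (nat_lit 0) (nat_lit 0) (XT.lf (nat_lit 0) (nat_lit 20293232317) (nat_lit 0) (nat_lit 0) (nat_lit 0) (nat_lit 0) (nat_lit 0) (nat_lit 0) (nat_lit 1) (nat_lit 0) (nat_lit 1) (nat_lit 0) (nat_lit 211) (nat_lit 300) (nat_lit 209)) (XT.nd (nat_lit 94) (nat_lit 0) (nat_lit 0) (XT.lf (nat_lit 0) (nat_lit 20281965213) (nat_lit 0) (nat_lit 0) (nat_lit 0) (nat_lit 0) (nat_lit 0) (nat_lit 0) (nat_lit 1) (nat_lit 0) (nat_lit 1) (nat_lit 0) (nat_lit 212) (nat_lit 300) (nat_lit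 208)) (XT.lf (nat_lit 0) (nat_lit 20271234637) (nat_lit 0) (nat_lit 0) (nat_lit 0) (nat_lit 0) (nat_lit 0) (nat_lit 0) (nat_lit 1) (nat_lit 0) (nat_lit 1) (nat_lit 0) (nat_lit 213) (nat_lit 300) (nat_lit 207)))) (XT.nd (nat_lit 188) (nat_lit 0) (nat_lit 0) (XT.nd (nat_lit 94) (nat_lit 0) (nat_lit 0) (XT.lf (nat_lit 0) (nat_lit 20261015042) (nat_lit 0) (nat_lit 0) (nat_lit 0) (nat_lit 0) (nat_lit 0) (nat_lit 0) (nat_lit 1) (nat_lit 0) (nat_lit 1) (nat_lit 0) (nat_lit 214) (nat_lit 300) (nat_lit 206)) (XT.lf (nat_lit 0) (nat_lit 20251282094) (nat_lit 0) (nat_lit 0) (nat_lit 0) (nat_lit 0) (nat_lit 0) (nat_lit 0) (nat_lit 1) (nat_lit 0) (nat_lit 1) (nat_lit 0) (nat_lit 215) (nat_lit 300) (nat_lit 205))) (XT.nd (nat_lit 94) (nat_lit 0) (nat_lit 0) (XT.lf (nat_lit 0) (nat_lit 20242012619) (nat_lit 0) (nat_lit 0) (nat_lit 0) (nat_lit 0) (nat_lit 0) (nat_lit 0) (nat_lit 1) (nat_lit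 0) (nat_lit 1) (nat_lit 0) (nat_lit 216) (nat_lit 300) (nat_lit 204)) (XT.lf (nat_lit 0) (nat_lit 20233184549) (nat_lit 0) (nat_lit 0) (nat_lit 0) (nat_lit 0) (nat_lit 0) (nat_lit 0) (nat_lit 1) (nat_lit 0) (nat_lit 1) (nat_lit 0) (nat_lit 217) (nat_lit 300) (nat_lit 203)))))) (XT.nd (nat_lit 658) (nat_lit 0) (nat_lit 0) (XT.nd (nat_lit 282) (nat_lit 0) (nat_lit 0) (XT.nd (nat_lit 94) (nat_lit 0) (nat_lit 0) (XT.lf (nat_lit 0) (nat_lit 20224776862) (nat_lit 0) (nat_lit 0) (nat_lit 0) (nat_lit 0) (nat_lit 0) (nat_lit 0) (nat_lit 1) (nat_lit 0) (nat_lit 1) (nat_lit 0) (nat_lit 218) (nat_lit 300) (nat_lit 202)) (XT.nd (nat_lit 94) (nat_lit 0) (nat_lit 0) (XT.lf (nat_lit 0) (nat_lit 20216769542) (nat_lit 0) (nat_lit 0) (nat_lit 0) (nat_lit 0) (nat_lit 0) (nat_lit 0) (nat_lit 1) (nat_lit 0) (nat_lit 1) (nat_lit 0) (nat_lit 219) (nat_lit 300) (nat_lit 201)) (XT.lf (nat_lit 0)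 (nat_lit 20209143522) (nat_lit 0) (nat_lit 0) (nat_lit 0) (nat_lit 0) (nat_lit 0) (nat_lit 0) (nat_lit 1) (nat_lit 0) (nat_lit 1) (nat_lit 0) (nat_lit 220) (nat_lit 300) (nat_lit 200)))) (XT.nd (nat_lit 188) (nat_lit 0) (nat_lit 0) (XT.nd (nat_lit 94) (nat_lit 0) (nat_lit 0) (XT.lf (nat_lit 0) (nat_lit 20201880646) (nat_lit 0) (nat_lit 0) (nat_lit 0) (nat_lit 0) (nat_lit 0) (nat_lit 0) (nat_lit 1) (nat_lit 0) (nat_lit 1) (nat_lit 0) (nat_lit 221) (nat_lit 300) (nat_lit 199)) (XT.lf (nat_lit 0) (nat_lit 20194963622) (nat_lit 0) (nat_lit 0) (nat_lit 0) (nat_lit 0) (nat_lit 0) (nat_lit 0) (nat_lit 1) (nat_lit 0) (nat_lit 1) (nat_lit 0) (nat_lit 222) (nat_lit 300) (nat_lit 198))) (XT.nd (nat_lit 94) (nat_lit 0) (nat_lit 0) (XT.lf (nat_lit 0) (nat_lit 20188375980) (nat_lit 0) (nat_lit 0) (nat_lit 0) (nat_lit 0) (nat_lit 0) (nat_lit 0) (nat_lit 1) (nat_lit 0) (nat_lit 1) (nat_lit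 0) (nat_lit 223) (nat_lit 300) (nat_lit 197)) (XT.lf (nat_lit 0) (nat_lit 20182102034) (nat_lit 0) (nat_lit 0) (nat_lit 0) (nat_lit 0) (nat_lit 0) (nat_lit 0) (nat_lit 1) (nat_lit 0) (nat_lit 1) (nat_lit 0) (nat_lit 224) (nat_lit 300) (nat_lit 196))))) (XT.nd (nat_lit 282) (nat_lit 0) (nat_lit 0) (XT.nd (nat_lit 94) (nat_lit 0) (nat_lit 0) (XT.lf (nat_lit 0) (nat_lit 20176126849) (nat_lit 0) (nat_lit 0) (nat_lit 0) (nat_lit 0) (nat_lit 0) (nat_lit 0) (nat_lit 1) (nat_lit 0) (nat_lit 1) (nat_lit 0) (nat_lit 225) (nat_lit 300) (nat_lit 195)) (XT.nd (nat_lit 94) (nat_lit 0) (nat_lit 0) (XT.lf (nat_lit 0) (nat_lit 20170436195) (nat_lit 0) (nat_lit 0) (nat_lit 0) (nat_lit 0) (nat_lit 0) (nat_lit 0) (nat_lit 1) (nat_lit 0) (nat_lit 1) (nat_lit 0) (nat_lit 226) (nat_lit 300) (nat_lit 194)) (XT.lf (nat_lit 0) (nat_lit 20165016526) (nat_lit 0) (nat_lit 0) (nat_lit 0) (nat_lit 0)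 (nat_lit 0) (nat_lit 0) (nat_lit 1) (nat_lit 0) (nat_lit 1) (nat_lit 0) (nat_lit 227) (nat_lit 300) (nat_lit 193)))) (XT.nd (nat_lit 188) (nat_lit 0) (nat_lit 0) (XT.nd (nat_lit 94) (nat_lit 0) (nat_lit 0) (XT.lf (nat_lit 0) (nat_lit 20159854936) (nat_lit 0) (nat_lit 0) (nat_lit 0) (nat_lit 0) (nat_lit 0) (nat_lit 0) (nat_lit 1) (nat_lit 0) (nat_lit 1) (nat_lit 0) (nat_lit 228) (nat_lit 300) (nat_lit 192)) (XT.lf (nat_lit 0) (nat_lit 20154939135) (nat_lit 0) (nat_lit 0) (nat_lit 0) (nat_lit 0) (nat_lit 0) (nat_lit 0) (nat_lit 1) (nat_lit 0) (nat_lit 1) (nat_lit 0) (nat_lit 229) (nat_lit 300) (nat_lit 191))) (XT.nd (nat_lit 94) (nat_lit 0) (nat_lit 0) (XT.lf (nat_lit 0) (nat_lit 20150257421) (nat_lit 0) (nat_lit 0) (nat_lit 0) (nat_lit 0) (nat_lit 0) (nat_lit 0) (nat_lit 1) (nat_lit 0) (nat_lit 1) (nat_lit 0) (nat_lit 230) (nat_lit 300) (nat_lit 190)) (XT.lf (nat_lit 0) (nat_lit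 20145798645) (nat_lit 0) (nat_lit 0) (nat_lit 0) (nat_lit 0) (nat_lit 0) (nat_lit 0) (nat_lit 1) (nat_lit 0) (nat_lit 1) (nat_lit 0) (nat_lit 231) (nat_lit 300) (nat_lit 189))))))))
noncomputable def ec181 : XT := (XT.nd (nat_lit 2538) (nat_lit 0) (nat_lit 0) (XT.nd (nat_lit 1222) (nat_lit 0) (nat_lit 0) (XT.nd (nat_lit 564) (nat_lit 0) (nat_lit 0) (XT.nd (nat_lit 282) (nat_lit 0) (nat_lit 0) (XT.nd (nat_lit 94) (nat_lit 0) (nat_lit 0) (XT.lf (nat_lit 0) (nat_lit 20141552192) (nat_lit 0) (nat_lit 0) (nat_lit 0) (nat_lit 0) (nat_lit 0) (nat_lit 0) (nat_lit 1) (nat_lit 0) (nat_lit 1) (nat_lit 0) (nat_lit 232) (nat_lit 300) (nat_lit 188)) (XT.nd (nat_lit 94) (nat_lit 0) (nat_lit 0) (XT.lf (nat_lit 0) (nat_lit 20137507951) (nat_lit 0) (nat_lit 0) (nat_lit 0) (nat_lit 0) (nat_lit 0) (nat_lit 0) (nat_lit 1) (nat_lit 0) (nat_lit 1) (nat_lit 0) (nat_lit 233) (nat_lit 300) (nat_lit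 187)) (XT.lf (nat_lit 0) (nat_lit 20133656293) (nat_lit 0) (nat_lit 0) (nat_lit 0) (nat_lit 0) (nat_lit 0) (nat_lit 0) (nat_lit 1) (nat_lit 0) (nat_lit 1) (nat_lit 0) (nat_lit 234) (nat_lit 300) (nat_lit 186)))) (XT.nd (nat_lit 94) (nat_lit 0) (nat_lit 0) (XT.lf (nat_lit 0) (nat_lit 20129988047) (nat_lit 0) (nat_lit 0) (nat_lit 0) (nat_lit 0) (nat_lit 0) (nat_lit 0) (nat_lit 1) (nat_lit 0) (nat_lit 1) (nat_lit 0) (nat_lit 235) (nat_lit 300) (nat_lit 185)) (XT.nd (nat_lit 94) (nat_lit 0) (nat_lit 0) (XT.lf (nat_lit 0) (nat_lit 20126494480) (nat_lit 0) (nat_lit 0) (nat_lit 0) (nat_lit 0) (nat_lit 0) (nat_lit 0) (nat_lit 1) (nat_lit 0) (nat_lit 1) (nat_lit 0) (nat_lit 236) (nat_lit 300) (nat_lit 184)) (XT.lf (nat_lit 0) (nat_lit 20123167273) (nat_lit 0) (nat_lit 0) (nat_lit 0) (nat_lit 0) (nat_lit 0) (nat_lit 0) (nat_lit 1) (nat_lit 0) (nat_lit 1) (nat_lit 0) (nat_lit 237)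 (nat_lit 300) (nat_lit 183))))) (XT.nd (nat_lit 282) (nat_lit 0) (nat_lit 0) (XT.nd (nat_lit 94) (nat_lit 0) (nat_lit 0) (XT.lf (nat_lit 0) (nat_lit 20119998504) (nat_lit 0) (nat_lit 0) (nat_lit 0) (nat_lit 0) (nat_lit 0) (nat_lit 0) (nat_lit 1) (nat_lit 0) (nat_lit 1) (nat_lit 0) (nat_lit 238) (nat_lit 300) (nat_lit 182)) (XT.nd (nat_lit 94) (nat_lit 0) (nat_lit 0) (XT.lf (nat_lit 0) (nat_lit 20116980630) (nat_lit 0) (nat_lit 0) (nat_lit 0) (nat_lit 0) (nat_lit 0) (nat_lit 0) (nat_lit 1) (nat_lit 0) (nat_lit 1) (nat_lit 0) (nat_lit 239) (nat_lit 300) (nat_lit 181)) (XT.lf (nat_lit 0) (nat_lit 20114106463) (nat_lit 0) (nat_lit 0) (nat_lit 0) (nat_lit 0) (nat_lit 0) (nat_lit 0) (nat_lit 1) (nat_lit 0) (nat_lit 1) (nat_lit 0) (nat_lit 240) (nat_lit 300) (nat_lit 180)))) (XT.nd (nat_lit 188) (nat_lit 0) (nat_lit 0) (XT.nd (nat_lit 94) (nat_lit 0) (nat_lit 0) (XT.lf (nat_lit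 0) (nat_lit 20111369162) (nat_lit 0) (nat_lit 0) (nat_lit 0) (nat_lit 0) (nat_lit 0) (nat_lit 0) (nat_lit 1) (nat_lit 0) (nat_lit 1) (nat_lit 0) (nat_lit 241) (nat_lit 300) (nat_lit 179)) (XT.lf (nat_lit 0) (nat_lit 20108762208) (nat_lit 0) (nat_lit 0) (nat_lit 0) (nat_lit 0) (nat_lit 0) (nat_lit 0) (nat_lit 1) (nat_lit 0) (nat_lit 1) (nat_lit 0) (nat_lit 242) (nat_lit 300) (nat_lit 178))) (XT.nd (nat_lit 94) (nat_lit 0) (nat_lit 0) (XT.lf (nat_lit 0) (nat_lit 20106279395) (nat_lit 0) (nat_lit 0) (nat_lit 0) (nat_lit 0) (nat_lit 0) (nat_lit 0) (nat_lit 1) (nat_lit 0) (nat_lit 1) (nat_lit 0) (nat_lit 243) (nat_lit 300) (nat_lit 177)) (XT.lf (nat_lit 0) (nat_lit 20103914811) (nat_lit 0) (nat_lit 0) (nat_lit 0) (nat_lit 0) (nat_lit 0) (nat_lit 0) (nat_lit 1) (nat_lit 0) (nat_lit 1) (nat_lit 0) (nat_lit 244) (nat_lit 300) (nat_lit 176)))))) (XT.nd (nat_lit 658) (nat_lit 0) (nat_lit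 0) (XT.nd (nat_lit 282) (nat_lit 0) (nat_lit 0) (XT.nd (nat_lit 94) (nat_lit 0) (nat_lit 0) (XT.lf (nat_lit 0) (nat_lit 20101662826) (nat_lit 0) (nat_lit 0) (nat_lit 0) (nat_lit 0) (nat_lit 0) (nat_lit 0) (nat_lit 1) (nat_lit 0) (nat_lit 1) (nat_lit 0) (nat_lit 245) (nat_lit 300) (nat_lit 175)) (XT.nd (nat_lit 94) (nat_lit 0) (nat_lit 0) (XT.lf (nat_lit 0) (nat_lit 20099518079) (nat_lit 0) (nat_lit 0) (nat_lit 0) (nat_lit 0) (nat_lit 0) (nat_lit 0) (nat_lit 1) (nat_lit 0) (nat_lit 1) (nat_lit 0) (nat_lit 246) (nat_lit 300) (nat_lit 174)) (XT.lf (nat_lit 0) (nat_lit 20097475462) (nat_lit 0) (nat_lit 0) (nat_lit 0) (nat_lit 0) (nat_lit 0) (nat_lit 0) (nat_lit 1) (nat_lit 0) (nat_lit 1) (nat_lit 0) (nat_lit 247) (nat_lit 300) (nat_lit 173)))) (XT.nd (nat_lit 188) (nat_lit 0) (nat_lit 0) (XT.nd (nat_lit 94) (nat_lit 0) (nat_lit 0) (XT.lf (nat_lit 0) (nat_lit 20095530113) (nat_lit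 0) (nat_lit 0) (nat_lit 0) (nat_lit 0) (nat_lit 0) (nat_lit 0) (nat_lit 1) (nat_lit 0) (nat_lit 1) (nat_lit 0) (nat_lit 248) (nat_lit 300) (nat_lit 172)) (XT.lf (nat_lit 0) (nat_lit 20093677400) (nat_lit 0) (nat_lit 0) (nat_lit 0) (nat_lit 0) (nat_lit 0) (nat_lit 0) (nat_lit 1) (nat_lit 0) (nat_lit 1) (nat_lit 0) (nat_lit 249) (nat_lit 300) (nat_lit 171))) (XT.nd (nat_lit 94) (nat_lit 0) (nat_lit 0) (XT.lf (nat_lit 0) (nat_lit 20091912911) (nat_lit 0) (nat_lit 0) (nat_lit 0) (nat_lit 0) (nat_lit 0) (nat_lit 0) (nat_lit 1) (nat_lit 0) (nat_lit 1) (nat_lit 0) (nat_lit 250) (nat_lit 300) (nat_lit 170)) (XT.lf (nat_lit 0) (nat_lit 20090232445) (nat_lit 0) (nat_lit 0) (nat_lit 0) (nat_lit 0) (nat_lit 0) (nat_lit 0) (nat_lit 1) (nat_lit 0) (nat_lit 1) (nat_lit 0) (nat_lit 251) (nat_lit 300) (nat_lit 169))))) (XT.nd (nat_lit 282) (nat_lit 0) (nat_lit 0) (XT.nd (nat_lit 94) (nat_lit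 0) (nat_lit 0) (XT.lf (nat_lit 0) (nat_lit 20088632002) (nat_lit 0) (nat_lit 0) (nat_lit 0) (nat_lit 0) (nat_lit 0) (nat_lit 0) (nat_lit 1) (nat_lit 0) (nat_lit 1) (nat_lit 0) (nat_lit 252) (nat_lit 300) (nat_lit 168)) (XT.nd (nat_lit 94) (nat_lit 0) (nat_lit 0) (XT.lf (nat_lit 0) (nat_lit 20087107770) (nat_lit 0) (nat_lit 0) (nat_lit 0) (nat_lit 0) (nat_lit 0) (nat_lit 0) (nat_lit 1) (nat_lit 0) (nat_lit 1) (nat_lit 0) (nat_lit 253) (nat_lit 300) (nat_lit 167)) (XT.lf (nat_lit 0) (nat_lit 20085656120) (nat_lit 0) (nat_lit 0) (nat_lit 0) (nat_lit 0) (nat_lit 0) (nat_lit 0) (nat_lit 1) (nat_lit 0) (nat_lit 1) (nat_lit 0) (nat_lit 254) (nat_lit 300) (nat_lit 166)))) (XT.nd (nat_lit 188) (nat_lit 0) (nat_lit 0) (XT.nd (nat_lit 94) (nat_lit 0) (nat_lit 0) (XT.lf (nat_lit 0) (nat_lit 20084273597) (nat_lit 0) (nat_lit 0) (nat_lit 0) (nat_lit 0) (nat_lit 0) (nat_lit 0) (nat_lit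 1) (nat_lit 0) (nat_lit 1) (nat_lit 0) (nat_lit 255) (nat_lit 300) (nat_lit 165)) (XT.lf (nat_lit 0) (nat_lit 20082956908) (nat_lit 0) (nat_lit 0) (nat_lit 0) (nat_lit 0) (nat_lit 0) (nat_lit 0) (nat_lit 1) (nat_lit 0) (nat_lit 1) (nat_lit 0) (nat_lit 256) (nat_lit 300) (nat_lit 164))) (XT.nd (nat_lit 94) (nat_lit 0) (nat_lit 0) (XT.lf (nat_lit 0) (nat_lit 20081702919) (nat_lit 0) (nat_lit 0) (nat_lit 0) (nat_lit 0) (nat_lit 0) (nat_lit 0) (nat_lit 1) (nat_lit 0) (nat_lit 1) (nat_lit 0) (nat_lit 257) (nat_lit 300) (nat_lit 163)) (XT.lf (nat_lit 0) (nat_lit 20080508643) (nat_lit 0) (nat_lit 0) (nat_lit 0) (nat_lit 0) (nat_lit 0) (nat_lit 0) (nat_lit 1) (nat_lit 0) (nat_lit 1) (nat_lit 0) (nat_lit 258) (nat_lit 300) (nat_lit 162))))))) (XT.nd (nat_lit 1316) (nat_lit 0) (nat_lit 0) (XT.nd (nat_lit 658) (nat_lit 0) (nat_lit 0) (XT.nd (nat_lit 282) (nat_lit 0) (nat_lit 0) (XT.nd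 (nat_lit 94) (nat_lit 0) (nat_lit 0) (XT.lf (nat_lit 0) (nat_lit 20079371238) (nat_lit 0) (nat_lit 0) (nat_lit 0) (nat_lit 0) (nat_lit 0) (nat_lit 0) (nat_lit 1) (nat_lit 0) (nat_lit 1) (nat_lit 0) (nat_lit 259) (nat_lit 300) (nat_lit 161)) (XT.nd (nat_lit 94) (nat_lit 0) (nat_lit 0) (XT.lf (nat_lit 0) (nat_lit 20078287995) (nat_lit 0) (nat_lit 0) (nat_lit 0) (nat_lit 0) (nat_lit 0) (nat_lit 0) (nat_lit 1) (nat_lit 0) (nat_lit 1) (nat_lit 0) (nat_lit 260) (nat_lit 300) (nat_lit 160)) (XT.lf (nat_lit 0) (nat_lit 20077256335) (nat_lit 0) (nat_lit 0) (nat_lit 0) (nat_lit 0) (nat_lit 0) (nat_lit 0) (nat_lit 1) (nat_lit 0) (nat_lit 1) (nat_lit 0) (nat_lit 261) (nat_lit 300) (nat_lit 159)))) (XT.nd (nat_lit 188) (nat_lit 0) (nat_lit 0) (XT.nd (nat_lit 94) (nat_lit 0) (nat_lit 0) (XT.lf (nat_lit 0) (nat_lit 20076273801) (nat_lit 0) (nat_lit 0) (nat_lit 0) (nat_lit 0) (nat_lit 0)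 (nat_lit 0) (nat_lit 1) (nat_lit 0) (nat_lit 1) (nat_lit 0) (nat_lit 262) (nat_lit 300) (nat_lit 158)) (XT.lf (nat_lit 0) (nat_lit 20075338055) (nat_lit 0) (nat_lit 0) (nat_lit 0) (nat_lit 0) (nat_lit 0) (nat_lit 0) (nat_lit 1) (nat_lit 0) (nat_lit 1) (nat_lit 0) (nat_lit 263) (nat_lit 300) (nat_lit 157))) (XT.nd (nat_lit 94) (nat_lit 0) (nat_lit 0) (XT.lf (nat_lit 0) (nat_lit 20074446868) (nat_lit 0) (nat_lit 0) (nat_lit 0) (nat_lit 0) (nat_lit 0) (nat_lit 0) (nat_lit 1) (nat_lit 0) (nat_lit 1) (nat_lit 0) (nat_lit 264) (nat_lit 300) (nat_lit 156)) (XT.lf (nat_lit 0) (nat_lit 20073598119) (nat_lit 0) (nat_lit 0) (nat_lit 0) (nat_lit 0) (nat_lit 0) (nat_lit 0) (nat_lit 1) (nat_lit 0) (nat_lit 1) (nat_lit 0) (nat_lit 265) (nat_lit 300) (nat_lit 155))))) (XT.nd (nat_lit 282) (nat_lit 0) (nat_lit 0) (XT.nd (nat_lit 94) (nat_lit 0) (nat_lit 0) (XT.lf (nat_lit 0) (nat_lit 20072789786)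 (nat_lit 0) (nat_lit 0) (nat_lit 0) (nat_lit 0) (nat_lit 0) (nat_lit 0) (nat_lit 1) (nat_lit 0) (nat_lit 1) (nat_lit 0) (nat_lit 266) (nat_lit 300) (nat_lit 154)) (XT.nd (nat_lit 94) (nat_lit 0) (nat_lit 0) (XT.lf (nat_lit 0) (nat_lit 20072019946) (nat_lit 0) (nat_lit 0) (nat_lit 0) (nat_lit 0) (nat_lit 0) (nat_lit 0) (nat_lit 1) (nat_lit 0) (nat_lit 1) (nat_lit 0) (nat_lit 267) (nat_lit 300) (nat_lit 153)) (XT.lf (nat_lit 0) (nat_lit 20071286764) (nat_lit 0) (nat_lit 0) (nat_lit 0) (nat_lit 0) (nat_lit 0) (nat_lit 0) (nat_lit 1) (nat_lit 0) (nat_lit 1) (nat_lit 0) (nat_lit 268) (nat_lit 300) (nat_lit 152)))) (XT.nd (nat_lit 188) (nat_lit 0) (nat_lit 0) (XT.nd (nat_lit 94) (nat_lit 0) (nat_lit 0) (XT.lf (nat_lit 0) (nat_lit 20070588496) (nat_lit 0) (nat_lit 0) (nat_lit 0) (nat_lit 0) (nat_lit 0) (nat_lit 0) (nat_lit 1) (nat_lit 0) (nat_lit 1) (nat_lit 0) (nat_lit 269) (nat_lit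 300) (nat_lit 151)) (XT.lf (nat_lit 0) (nat_lit 20069923479) (nat_lit 0) (nat_lit 0) (nat_lit 0) (nat_lit 0) (nat_lit 0) (nat_lit 0) (nat_lit 1) (nat_lit 0) (nat_lit 1) (nat_lit 0) (nat_lit 270) (nat_lit 300) (nat_lit 150))) (XT.nd (nat_lit 94) (nat_lit 0) (nat_lit 0) (XT.lf (nat_lit 0) (nat_lit 20069290129) (nat_lit 0) (nat_lit 0) (nat_lit 0) (nat_lit 0) (nat_lit 0) (nat_lit 0) (nat_lit 1) (nat_lit 0) (nat_lit 1) (nat_lit 0) (nat_lit 271) (nat_lit 300) (nat_lit 149)) (XT.lf (nat_lit 0) (nat_lit 20068686938) (nat_lit 0) (nat_lit 0) (nat_lit 0) (nat_lit 0) (nat_lit 0) (nat_lit 0) (nat_lit 1) (nat_lit 0) (nat_lit 1) (nat_lit 0) (nat_lit 272) (nat_lit 300) (nat_lit 148)))))) (XT.nd (nat_lit 658) (nat_lit 0) (nat_lit 0) (XT.nd (nat_lit 282) (nat_lit 0) (nat_lit 0) (XT.nd (nat_lit 94) (nat_lit 0) (nat_lit 0) (XT.lf (nat_lit 0) (nat_lit 20068112471) (nat_lit 0) (nat_lit 0) (nat_lit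 0) (nat_lit 0) (nat_lit 0) (nat_lit 0) (nat_lit 1) (nat_lit 0) (nat_lit 1) (nat_lit 0) (nat_lit 273) (nat_lit 300) (nat_lit 147)) (XT.nd (nat_lit 94) (nat_lit 0) (nat_lit 0) (XT.lf (nat_lit 0) (nat_lit 20067565360) (nat_lit 0) (nat_lit 0) (nat_lit 0) (nat_lit 0) (nat_lit 0) (nat_lit 0) (nat_lit 1) (nat_lit 0) (nat_lit 1) (nat_lit 0) (nat_lit 274) (nat_lit 300) (nat_lit 146)) (XT.lf (nat_lit 0) (nat_lit 20067044302) (nat_lit 0) (nat_lit 0) (nat_lit 0) (nat_lit 0) (nat_lit 0) (nat_lit 0) (nat_lit 1) (nat_lit 0) (nat_lit 1) (nat_lit 0) (nat_lit 275) (nat_lit 300) (nat_lit 145)))) (XT.nd (nat_lit 188) (nat_lit 0) (nat_lit 0) (XT.nd (nat_lit 94) (nat_lit 0) (nat_lit 0) (XT.lf (nat_lit 0) (nat_lit 20066548055) (nat_lit 0) (nat_lit 0) (nat_lit 0) (nat_lit 0) (nat_lit 0) (nat_lit 0) (nat_lit 1) (nat_lit 0) (nat_lit 1) (nat_lit 0) (nat_lit 276) (nat_lit 300) (nat_lit 144)) (XT.lf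 (nat_lit 0) (nat_lit 20066075440) (nat_lit 0) (nat_lit 0) (nat_lit 0) (nat_lit 0) (nat_lit 0) (nat_lit 0) (nat_lit 1) (nat_lit 0) (nat_lit 1) (nat_lit 0) (nat_lit 277) (nat_lit 300) (nat_lit 143))) (XT.nd (nat_lit 94) (nat_lit 0) (nat_lit 0) (XT.lf (nat_lit 0) (nat_lit 20065625330) (nat_lit 0) (nat_lit 0) (nat_lit 0) (nat_lit 0) (nat_lit 0) (nat_lit 0) (nat_lit 1) (nat_lit 0) (nat_lit 1) (nat_lit 0) (nat_lit 278) (nat_lit 300) (nat_lit 142)) (XT.lf (nat_lit 0) (nat_lit 20065196654) (nat_lit 0) (nat_lit 0) (nat_lit 0) (nat_lit 0) (nat_lit 0) (nat_lit 0) (nat_lit 1) (nat_lit 0) (nat_lit 1) (nat_lit 0) (nat_lit 279) (nat_lit 300) (nat_lit 141))))) (XT.nd (nat_lit 282) (nat_lit 0) (nat_lit 0) (XT.nd (nat_lit 94) (nat_lit 0) (nat_lit 0) (XT.lf (nat_lit 0) (nat_lit 20064788391) (nat_lit 0) (nat_lit 0) (nat_lit 0) (nat_lit 0) (nat_lit 0) (nat_lit 0) (nat_lit 1) (nat_lit 0) (nat_lit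 1) (nat_lit 0) (nat_lit 280) (nat_lit 300) (nat_lit 140)) (XT.nd (nat_lit 94) (nat_lit 0) (nat_lit 0) (XT.lf (nat_lit 0) (nat_lit 20064399569) (nat_lit 0) (nat_lit 0) (nat_lit 0) (nat_lit 0) (nat_lit 0) (nat_lit 0) (nat_lit 1) (nat_lit 0) (nat_lit 1) (nat_lit 0) (nat_lit 281) (nat_lit 300) (nat_lit 139)) (XT.lf (nat_lit 0) (nat_lit 20064029263) (nat_lit 0) (nat_lit 0) (nat_lit 0) (nat_lit 0) (nat_lit 0) (nat_lit 0) (nat_lit 1) (nat_lit 0) (nat_lit 1) (nat_lit 0) (nat_lit 282) (nat_lit 300) (nat_lit 138)))) (XT.nd (nat_lit 188) (nat_lit 0) (nat_lit 0) (XT.nd (nat_lit 94) (nat_lit 0) (nat_lit 0) (XT.lf (nat_lit 0) (nat_lit 20063676590) (nat_lit 0) (nat_lit 0) (nat_lit 0) (nat_lit 0) (nat_lit 0) (nat_lit 0) (nat_lit 1) (nat_lit 0) (nat_lit 1) (nat_lit 0) (nat_lit 283) (nat_lit 300) (nat_lit 137)) (XT.lf (nat_lit 0) (nat_lit 20063340711) (nat_lit 0) (nat_lit 0) (nat_lit 0) (nat_lit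 0) (nat_lit 0) (nat_lit 0) (nat_lit 1) (nat_lit 0) (nat_lit 1) (nat_lit 0) (nat_lit 284) (nat_lit 300) (nat_lit 136))) (XT.nd (nat_lit 94) (nat_lit 0) (nat_lit 0) (XT.lf (nat_lit 0) (nat_lit 20063020826) (nat_lit 0) (nat_lit 0) (nat_lit 0) (nat_lit 0) (nat_lit 0) (nat_lit 0) (nat_lit 1) (nat_lit 0) (nat_lit 1) (nat_lit 0) (nat_lit 285) (nat_lit 300) (nat_lit 135)) (XT.lf (nat_lit 0) (nat_lit 20062716174) (nat_lit 0) (nat_lit 0) (nat_lit 0) (nat_lit 0) (nat_lit 0) (nat_lit 0) (nat_lit 1) (nat_lit 0) (nat_lit 1) (nat_lit 0) (nat_lit 286) (nat_lit 300) (nat_lit 134))))))))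
noncomputable def ec182 : XT := (XT.nd (nat_lit 29516) (nat_lit 0) (nat_lit 6552) (XT.nd (nat_lit 1222) (nat_lit 0) (nat_lit 0) (XT.nd (nat_lit 564) (nat_lit 0) (nat_lit 0) (XT.nd (nat_lit 282) (nat_lit 0) (nat_lit 0) (XT.nd (nat_lit 94) (nat_lit 0) (nat_lit 0) (XT.lf (nat_lit 0) (nat_lit 20062426029) (nat_lit 0) (nat_lit 0) (nat_lit 0) (nat_lit 0) (nat_lit 0) (nat_lit 0) (nat_lit 1) (nat_lit 0) (nat_lit 1) (nat_lit 0) (nat_lit 287) (nat_lit 300) (nat_lit 133)) (XT.nd (nat_lit 94) (nat_lit 0) (nat_lit 0) (XT.lf (nat_lit 0) (nat_lit 20062149701) (nat_lit 0) (nat_lit 0) (nat_lit 0) (nat_lit 0) (nat_lit 0) (nat_lit 0) (nat_lit 1) (nat_lit 0) (nat_lit 1) (nat_lit 0) (nat_lit 288) (nat_lit 300) (nat_lit 132)) (XT.lf (nat_lit 0) (nat_lit 20061886531) (nat_lit 0) (nat_lit 0) (nat_lit 0) (nat_lit 0) (nat_lit 0) (nat_lit 0) (nat_lit 1) (nat_lit 0) (nat_lit 1) (nat_lit 0) (nat_lit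 289) (nat_lit 300) (nat_lit 131)))) (XT.nd (nat_lit 94) (nat_lit 0) (nat_lit 0) (XT.lf (nat_lit 0) (nat_lit 20061635893) (nat_lit 0) (nat_lit 0) (nat_lit 0) (nat_lit 0) (nat_lit 0) (nat_lit 0) (nat_lit 1) (nat_lit 0) (nat_lit 1) (nat_lit 0) (nat_lit 290) (nat_lit 300) (nat_lit 130)) (XT.nd (nat_lit 94) (nat_lit 0) (nat_lit 0) (XT.lf (nat_lit 0) (nat_lit 20061397190) (nat_lit 0) (nat_lit 0) (nat_lit 0) (nat_lit 0) (nat_lit 0) (nat_lit 0) (nat_lit 1) (nat_lit 0) (nat_lit 1) (nat_lit 0) (nat_lit 291) (nat_lit 300) (nat_lit 129)) (XT.lf (nat_lit 0) (nat_lit 20061169854) (nat_lit 0) (nat_lit 0) (nat_lit 0) (nat_lit 0) (nat_lit 0) (nat_lit 0) (nat_lit 1) (nat_lit 0) (nat_lit 1) (nat_lit 0) (nat_lit 292) (nat_lit 300) (nat_lit 128))))) (XT.nd (nat_lit 282) (nat_lit 0) (nat_lit 0) (XT.nd (nat_lit 94) (nat_lit 0) (nat_lit 0) (XT.lf (nat_lit 0) (nat_lit 20060953343) (nat_lit 0) (nat_lit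 0) (nat_lit 0) (nat_lit 0) (nat_lit 0) (nat_lit 0) (nat_lit 1) (nat_lit 0) (nat_lit 1) (nat_lit 0) (nat_lit 293) (nat_lit 300) (nat_lit 127)) (XT.nd (nat_lit 94) (nat_lit 0) (nat_lit 0) (XT.lf (nat_lit 0) (nat_lit 20060747143) (nat_lit 0) (nat_lit 0) (nat_lit 0) (nat_lit 0) (nat_lit 0) (nat_lit 0) (nat_lit 1) (nat_lit 0) (nat_lit 1) (nat_lit 0) (nat_lit 294) (nat_lit 300) (nat_lit 126)) (XT.lf (nat_lit 0) (nat_lit 20060550761) (nat_lit 0) (nat_lit 0) (nat_lit 0) (nat_lit 0) (nat_lit 0) (nat_lit 0) (nat_lit 1) (nat_lit 0) (nat_lit 1) (nat_lit 0) (nat_lit 295) (nat_lit 300) (nat_lit 125)))) (XT.nd (nat_lit 188) (nat_lit 0) (nat_lit 0) (XT.nd (nat_lit 94) (nat_lit 0) (nat_lit 0) (XT.lf (nat_lit 0) (nat_lit 20060363731) (nat_lit 0) (nat_lit 0) (nat_lit 0) (nat_lit 0) (nat_lit 0) (nat_lit 0) (nat_lit 1) (nat_lit 0) (nat_lit 1) (nat_lit 0) (nat_lit 296) (nat_lit 300) (nat_lit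 124)) (XT.lf (nat_lit 0) (nat_lit 20060185608) (nat_lit 0) (nat_lit 0) (nat_lit 0) (nat_lit 0) (nat_lit 0) (nat_lit 0) (nat_lit 1) (nat_lit 0) (nat_lit 1) (nat_lit 0) (nat_lit 297) (nat_lit 300) (nat_lit 123))) (XT.nd (nat_lit 94) (nat_lit 0) (nat_lit 0) (XT.lf (nat_lit 0) (nat_lit 20060015966) (nat_lit 0) (nat_lit 0) (nat_lit 0) (nat_lit 0) (nat_lit 0) (nat_lit 0) (nat_lit 1) (nat_lit 0) (nat_lit 1) (nat_lit 0) (nat_lit 298) (nat_lit 300) (nat_lit 122)) (XT.lf (nat_lit 0) (nat_lit 20059854402) (nat_lit 0) (nat_lit 0) (nat_lit 0) (nat_lit 0) (nat_lit 0) (nat_lit 0) (nat_lit 1) (nat_lit 0) (nat_lit 1) (nat_lit 0) (nat_lit 299) (nat_lit 300) (nat_lit 121)))))) (XT.nd (nat_lit 658) (nat_lit 0) (nat_lit 0) (XT.nd (nat_lit 282) (nat_lit 0) (nat_lit 0) (XT.nd (nat_lit 94) (nat_lit 0) (nat_lit 0) (XT.lf (nat_lit 0) (nat_lit 20059700532) (nat_lit 0) (nat_lit 0) (nat_lit 0) (nat_lit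 0) (nat_lit 0) (nat_lit 0) (nat_lit 1) (nat_lit 0) (nat_lit 1) (nat_lit 0) (nat_lit 300) (nat_lit 300) (nat_lit 120)) (XT.nd (nat_lit 94) (nat_lit 0) (nat_lit 0) (XT.lf (nat_lit 0) (nat_lit 20059553989) (nat_lit 0) (nat_lit 0) (nat_lit 0) (nat_lit 0) (nat_lit 0) (nat_lit 0) (nat_lit 1) (nat_lit 0) (nat_lit 1) (nat_lit 0) (nat_lit 301) (nat_lit 300) (nat_lit 119)) (XT.lf (nat_lit 0) (nat_lit 20059414425) (nat_lit 0) (nat_lit 0) (nat_lit 0) (nat_lit 0) (nat_lit 0) (nat_lit 0) (nat_lit 1) (nat_lit 0) (nat_lit 1) (nat_lit 0) (nat_lit 302) (nat_lit 300) (nat_lit 118)))) (XT.nd (nat_lit 188) (nat_lit 0) (nat_lit 0) (XT.nd (nat_lit 94) (nat_lit 0) (nat_lit 0) (XT.lf (nat_lit 0) (nat_lit 20059281506) (nat_lit 0) (nat_lit 0) (nat_lit 0) (nat_lit 0) (nat_lit 0) (nat_lit 0) (nat_lit 1) (nat_lit 0) (nat_lit 1) (nat_lit 0) (nat_lit 303) (nat_lit 300) (nat_lit 117)) (XT.lf (nat_lit 0)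 (nat_lit 20059154917) (nat_lit 0) (nat_lit 0) (nat_lit 0) (nat_lit 0) (nat_lit 0) (nat_lit 0) (nat_lit 1) (nat_lit 0) (nat_lit 1) (nat_lit 0) (nat_lit 304) (nat_lit 300) (nat_lit 116))) (XT.nd (nat_lit 94) (nat_lit 0) (nat_lit 0) (XT.lf (nat_lit 0) (nat_lit 20059034356) (nat_lit 0) (nat_lit 0) (nat_lit 0) (nat_lit 0) (nat_lit 0) (nat_lit 0) (nat_lit 1) (nat_lit 0) (nat_lit 1) (nat_lit 0) (nat_lit 305) (nat_lit 300) (nat_lit 115)) (XT.lf (nat_lit 0) (nat_lit 20058919536) (nat_lit 0) (nat_lit 0) (nat_lit 0) (nat_lit 0) (nat_lit 0) (nat_lit 0) (nat_lit 1) (nat_lit 0) (nat_lit 1) (nat_lit 0) (nat_lit 306) (nat_lit 300) (nat_lit 114))))) (XT.nd (nat_lit 282) (nat_lit 0) (nat_lit 0) (XT.nd (nat_lit 94) (nat_lit 0) (nat_lit 0) (XT.lf (nat_lit 0) (nat_lit 20058810183) (nat_lit 0) (nat_lit 0) (nat_lit 0) (nat_lit 0) (nat_lit 0) (nat_lit 0) (nat_lit 1) (nat_lit 0) (nat_lit 1) (nat_lit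 0) (nat_lit 307) (nat_lit 300) (nat_lit 113)) (XT.nd (nat_lit 94) (nat_lit 0) (nat_lit 0) (XT.lf (nat_lit 0) (nat_lit 20058706038) (nat_lit 0) (nat_lit 0) (nat_lit 0) (nat_lit 0) (nat_lit 0) (nat_lit 0) (nat_lit 1) (nat_lit 0) (nat_lit 1) (nat_lit 0) (nat_lit 308) (nat_lit 300) (nat_lit 112)) (XT.lf (nat_lit 0) (nat_lit 20058606852) (nat_lit 0) (nat_lit 0) (nat_lit 0) (nat_lit 0) (nat_lit 0) (nat_lit 0) (nat_lit 1) (nat_lit 0) (nat_lit 1) (nat_lit 0) (nat_lit 309) (nat_lit 300) (nat_lit 111)))) (XT.nd (nat_lit 27166) (nat_lit 0) (nat_lit 10752) (XT.nd (nat_lit 94) (nat_lit 0) (nat_lit 0) (XT.lf (nat_lit 0) (nat_lit 20058512389) (nat_lit 0) (nat_lit 0) (nat_lit 0) (nat_lit 0) (nat_lit 0) (nat_lit 0) (nat_lit 1) (nat_lit 0) (nat_lit 1) (nat_lit 0) (nat_lit 310) (nat_lit 300) (nat_lit 110)) (XT.lf (nat_lit 0) (nat_lit 20058422424) (nat_lit 0) (nat_lit 0) (nat_lit 0) (nat_lit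 0) (nat_lit 0) (nat_lit 0) (nat_lit 1) (nat_lit 0) (nat_lit 1) (nat_lit 0) (nat_lit 311) (nat_lit 300) (nat_lit 109))) (XT.nd (nat_lit 94) (nat_lit 0) (nat_lit 0) (XT.lf (nat_lit 924) (nat_lit 10538939762) (nat_lit 0) (nat_lit 18711863324) (nat_lit 924) (nat_lit 10538939762) (nat_lit 139) (nat_lit 1) (nat_lit 128) (nat_lit 0) (nat_lit 139) (nat_lit 0) (nat_lit 118) (nat_lit 301) (nat_lit 301)) (XT.lf (nat_lit 924) (nat_lit 40850246255) (nat_lit 84) (nat_lit 18410059077) (nat_lit 0) (nat_lit 18410059077) (nat_lit 139) (nat_lit 1) (nat_lit 129) (nat_lit 1) (nat_lit 128) (nat_lit 0) (nat_lit 119) (nat_lit 301) (nat_lit 300))))))) (XT.nd (nat_lit 1222) (nat_lit 2772) (nat_lit 0) (XT.nd (nat_lit 564) (nat_lit 1512) (nat_lit 0) (XT.nd (nat_lit 282) (nat_lit 0) (nat_lit 84) (XT.nd (nat_lit 94) (nat_lit 0) (nat_lit 0) (XT.lf (nat_lit 924) (nat_lit 19468612283) (nat_lit 0) (nat_lit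 36883039748) (nat_lit 840) (nat_lit 19468612283) (nat_lit 140) (nat_lit 1) (nat_lit 129) (nat_lit 1) (nat_lit 139) (nat_lit 1) (nat_lit 120) (nat_lit 301) (nat_lit 299)) (XT.nd (nat_lit 94) (nat_lit 0) (nat_lit 84) (XT.lf (nat_lit 924) (nat_lit 36520411412) (nat_lit 84) (nat_lit 18754762413) (nat_lit 0) (nat_lit 18754762413) (nat_lit 140) (nat_lit 1) (nat_lit 130) (nat_lit 1) (nat_lit 129) (nat_lit 1) (nat_lit 121) (nat_lit 301) (nat_lit 298)) (XT.lf (nat_lit 924) (nat_lit 16809994664) (nat_lit 0) (nat_lit 38676363252) (nat_lit 840) (nat_lit 16809994664) (nat_lit 141) (nat_lit 1) (nat_lit 130) (nat_lit 1) (nat_lit 140) (nat_lit 1) (nat_lit 122) (nat_lit 301) (nat_lit 297)))) (XT.nd (nat_lit 94) (nat_lit 0) (nat_lit 84) (XT.lf (nat_lit 924) (nat_lit 30233870272) (nat_lit 84) (nat_lit 20190872453) (nat_lit 0) (nat_lit 20190872453) (nat_lit 141) (nat_lit 1) (nat_lit 131) (nat_lit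 1) (nat_lit 130) (nat_lit 1) (nat_lit 123) (nat_lit 301) (nat_lit 296)) (XT.nd (nat_lit 94) (nat_lit 0) (nat_lit 0) (XT.lf (nat_lit 924) (nat_lit 13256678881) (nat_lit 0) (nat_lit 42477953354) (nat_lit 840) (nat_lit 13256678881) (nat_lit 142) (nat_lit 1) (nat_lit 131) (nat_lit 1) (nat_lit 141) (nat_lit 1) (nat_lit 124) (nat_lit 301) (nat_lit 295)) (XT.lf (nat_lit 924) (nat_lit 22284884235) (nat_lit 84) (nat_lit 22563422738) (nat_lit 0) (nat_lit 22563422738) (nat_lit 142) (nat_lit 1) (nat_lit 132) (nat_lit 1) (nat_lit 131) (nat_lit 1) (nat_lit 125) (nat_lit 301) (nat_lit 294))))) (XT.nd (nat_lit 282) (nat_lit 1764) (nat_lit 0) (XT.nd (nat_lit 94) (nat_lit 0) (nat_lit 0) (XT.lf (nat_lit 924) (nat_lit 8946220309) (nat_lit 0) (nat_lit 47997529376) (nat_lit 840) (nat_lit 8946220309) (nat_lit 143) (nat_lit 1) (nat_lit 132) (nat_lit 1) (nat_lit 142) (nat_lit 1) (nat_lit 126) (nat_lit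 301) (nat_lit 293)) (XT.nd (nat_lit 94) (nat_lit 0) (nat_lit 84) (XT.lf (nat_lit 924) (nat_lit 12935007285) (nat_lit 84) (nat_lit 25734401639) (nat_lit 0) (nat_lit 25734401639) (nat_lit 143) (nat_lit 1) (nat_lit 133) (nat_lit 1) (nat_lit 132) (nat_lit 1) (nat_lit 127) (nat_lit 301) (nat_lit 292)) (XT.lf (nat_lit 84) (nat_lit 4000796452) (nat_lit 0) (nat_lit 54976730139) (nat_lit 840) (nat_lit 4000796452) (nat_lit 134) (nat_lit 1) (nat_lit 133) (nat_lit 1) (nat_lit 143) (nat_lit 1) (nat_lit 128) (nat_lit 301) (nat_lit 291)))) (XT.nd (nat_lit 188) (nat_lit 420) (nat_lit 0) (XT.nd (nat_lit 94) (nat_lit 588) (nat_lit 0) (XT.lf (nat_lit 924) (nat_lit 2416381566) (nat_lit 0) (nat_lit 29581054742) (nat_lit 840) (nat_lit 29581054742) (nat_lit 134) (nat_lit 1) (nat_lit 123) (nat_lit 1) (nat_lit 133) (nat_lit 1) (nat_lit 129) (nat_lit 301) (nat_lit 290)) (XT.lf (nat_lit 588) (nat_lit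 57343777680) (nat_lit 0) (nat_lit 1447510391) (nat_lit 504) (nat_lit 1447510391) (nat_lit 123) (nat_lit 1) (nat_lit 116) (nat_lit 1) (nat_lit 122) (nat_lit 1) (nat_lit 130) (nat_lit 301) (nat_lit 289))) (XT.nd (nat_lit 94) (nat_lit 420) (nat_lit 0) (XT.lf (nat_lit 84) (nat_lit 25070599798) (nat_lit 0) (nat_lit 8775139810) (nat_lit 588) (nat_lit 25070599798) (nat_lit 117) (nat_lit 1) (nat_lit 116) (nat_lit 1) (nat_lit 123) (nat_lit 1) (nat_lit 131) (nat_lit 301) (nat_lit 288)) (XT.lf (nat_lit 504) (nat_lit 43140066909) (nat_lit 0) (nat_lit 7255023972) (nat_lit 420) (nat_lit 7255023972) (nat_lit 117) (nat_lit 1) (nat_lit 111) (nat_lit 1) (nat_lit 116) (nat_lit 1) (nat_lit 132) (nat_lit 301) (nat_lit 287)))))) (XT.nd (nat_lit 658) (nat_lit 1260) (nat_lit 0) (XT.nd (nat_lit 282) (nat_lit 1092) (nat_lit 0) (XT.nd (nat_lit 94) (nat_lit 420) (nat_lit 0) (XT.lf (nat_lit 84) (nat_lit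 17882553640) (nat_lit 0) (nat_lit 20645402558) (nat_lit 504) (nat_lit 17882553640) (nat_lit 112) (nat_lit 1) (nat_lit 111) (nat_lit 1) (nat_lit 117) (nat_lit 1) (nat_lit 133) (nat_lit 301) (nat_lit 286)) (XT.nd (nat_lit 94) (nat_lit 0) (nat_lit 0) (XT.lf (nat_lit 504) (nat_lit 28408345842) (nat_lit 0) (nat_lit 13402865554) (nat_lit 420) (nat_lit 13402865554) (nat_lit 112) (nat_lit 1) (nat_lit 106) (nat_lit 1) (nat_lit 111) (nat_lit 1) (nat_lit 134) (nat_lit 301) (nat_lit 285)) (XT.lf (nat_lit 84) (nat_lit 10468097894) (nat_lit 0) (nat_lit 33116244574) (nat_lit 504) (nat_lit 10468097894) (nat_lit 107) (nat_lit 1) (nat_lit 106) (nat_lit 1) (nat_lit 112) (nat_lit 1) (nat_lit 135) (nat_lit 301) (nat_lit 284)))) (XT.nd (nat_lit 188) (nat_lit 756) (nat_lit 0) (XT.nd (nat_lit 94) (nat_lit 0) (nat_lit 0) (XT.lf (nat_lit 420) (nat_lit 13285729428) (nat_lit 0) (nat_lit 19817477735)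 (nat_lit 336) (nat_lit 19817477735) (nat_lit 107) (nat_lit 1) (nat_lit 102) (nat_lit 1) (nat_lit 106) (nat_lit 1) (nat_lit 136) (nat_lit 301) (nat_lit 283)) (XT.lf (nat_lit 84) (nat_lit 2890886073) (nat_lit 0) (nat_lit 46050679034) (nat_lit 420) (nat_lit 2890886073) (nat_lit 103) (nat_lit 1) (nat_lit 102) (nat_lit 1) (nat_lit 107) (nat_lit 1) (nat_lit 137) (nat_lit 301) (nat_lit 282))) (XT.nd (nat_lit 94) (nat_lit 336) (nat_lit 0) (XT.lf (nat_lit 84) (nat_lit 24359436750) (nat_lit 0) (nat_lit 2040150146) (nat_lit 420) (nat_lit 24359436750) (nat_lit 98) (nat_lit 1) (nat_lit 97) (nat_lit 1) (nat_lit 102) (nat_lit 1) (nat_lit 138) (nat_lit 301) (nat_lit 281)) (XT.lf (nat_lit 420) (nat_lit 40294349908) (nat_lit 0) (nat_lit 4716062478) (nat_lit 336) (nat_lit 4716062478) (nat_lit 98) (nat_lit 1) (nat_lit 93) (nat_lit 1) (nat_lit 97) (nat_lit 1) (nat_lit 139) (nat_lit 301) (nat_lit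 280))))) (XT.nd (nat_lit 282) (nat_lit 924) (nat_lit 0) (XT.nd (nat_lit 94) (nat_lit 336) (nat_lit 0) (XT.lf (nat_lit 84) (nat_lit 15805215496) (nat_lit 0) (nat_lit 17101208693) (nat_lit 420) (nat_lit 15805215496) (nat_lit 94) (nat_lit 1) (nat_lit 93) (nat_lit 1) (nat_lit 98) (nat_lit 1) (nat_lit 140) (nat_lit 301) (nat_lit 279)) (XT.nd (nat_lit 94) (nat_lit 0) (nat_lit 0) (XT.lf (nat_lit 420) (nat_lit 23064206079) (nat_lit 0) (nat_lit 12333894672) (nat_lit 336) (nat_lit 12333894672) (nat_lit 94) (nat_lit 1) (nat_lit 89) (nat_lit 1) (nat_lit 93) (nat_lit 1) (nat_lit 141) (nat_lit 301) (nat_lit 278)) (XT.lf (nat_lit 84) (nat_lit 7273421258) (nat_lit 0) (nat_lit 32234153525) (nat_lit 420) (nat_lit 7273421258) (nat_lit 90) (nat_lit 1) (nat_lit 89) (nat_lit 1) (nat_lit 94) (nat_lit 1) (nat_lit 142) (nat_lit 301) (nat_lit 277)))) (XT.nd (nat_lit 188) (nat_lit 252) (nat_lit 0)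 (XT.nd (nat_lit 94) (nat_lit 420) (nat_lit 0) (XT.lf (nat_lit 336) (nat_lit 5915161994) (nat_lit 0) (nat_lit 19967681469) (nat_lit 252) (nat_lit 19967681469) (nat_lit 90) (nat_lit 1) (nat_lit 86) (nat_lit 1) (nat_lit 89) (nat_lit 1) (nat_lit 143) (nat_lit 301) (nat_lit 276)) (XT.lf (nat_lit 420) (nat_lit 42592254988) (nat_lit 0) (nat_lit 1181853350) (nat_lit 336) (nat_lit 1181853350) (nat_lit 86) (nat_lit 1) (nat_lit 81) (nat_lit 1) (nat_lit 85) (nat_lit 1) (nat_lit 144) (nat_lit 301) (nat_lit 275))) (XT.nd (nat_lit 94) (nat_lit 252) (nat_lit 0) (XT.lf (nat_lit 84) (nat_lit 16666664256) (nat_lit 0) (nat_lit 10733021233) (nat_lit 420) (nat_lit 16666664256) (nat_lit 82) (nat_lit 1) (nat_lit 81) (nat_lit 1) (nat_lit 86) (nat_lit 1) (nat_lit 145) (nat_lit 301) (nat_lit 274)) (XT.lf (nat_lit 336) (nat_lit 24342190051) (nat_lit 0) (nat_lit 9434333367) (nat_lit 252) (nat_lit 9434333367)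 (nat_lit 82) (nat_lit 1) (nat_lit 78) (nat_lit 1) (nat_lit 81) (nat_lit 1) (nat_lit 146) (nat_lit 301) (nat_lit 273))))))))
noncomputable def ec183 : XT := (XT.nd (nat_lit 2538) (nat_lit 2352) (nat_lit 0) (XT.nd (nat_lit 1222) (nat_lit 1596) (nat_lit 0) (XT.nd (nat_lit 564) (nat_lit 1092) (nat_lit 0) (XT.nd (nat_lit 282) (nat_lit 252) (nat_lit 0) (XT.nd (nat_lit 94) (nat_lit 588) (nat_lit 0) (XT.lf (nat_lit 84) (nat_lit 7690074372) (nat_lit 0) (nat_lit 26996950353) (nat_lit 336) (nat_lit 7690074372) (nat_lit 79) (nat_lit 1) (nat_lit 78) (nat_lit 1) (nat_lit 82) (nat_lit 1) (nat_lit 147) (nat_lit 301) (nat_lit 272)) (XT.nd (nat_lit 94) (nat_lit 336) (nat_lit 0) (XT.lf (nat_lit 336) (nat_lit 6409436626) (nat_lit 0) (nat_lit 17576436272) (nat_lit 252) (nat_lit 17576436272) (nat_lit 79) (nat_lit 1) (nat_lit 75) (nat_lit 1) (nat_lit 78) (nat_lit 1) (nat_lit 148) (nat_lit 301)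 (nat_lit 271)) (XT.lf (nat_lit 336) (nat_lit 38574733939) (nat_lit 0) (nat_lit 1101527893) (nat_lit 252) (nat_lit 1101527893) (nat_lit 75) (nat_lit 1) (nat_lit 71) (nat_lit 1) (nat_lit 74) (nat_lit 1) (nat_lit 149) (nat_lit 301) (nat_lit 270)))) (XT.nd (nat_lit 94) (nat_lit 252) (nat_lit 0) (XT.lf (nat_lit 84) (nat_lit 14591717138) (nat_lit 0) (nat_lit 10812315882) (nat_lit 336) (nat_lit 14591717138) (nat_lit 72) (nat_lit 1) (nat_lit 71) (nat_lit 1) (nat_lit 75) (nat_lit 1) (nat_lit 150) (nat_lit 301) (nat_lit 269)) (XT.nd (nat_lit 94) (nat_lit 0) (nat_lit 0) (XT.lf (nat_lit 336) (nat_lit 20064947168) (nat_lit 0) (nat_lit 9588849506) (nat_lit 252) (nat_lit 9588849506) (nat_lit 72) (nat_lit 1) (nat_lit 68) (nat_lit 1) (nat_lit 71) (nat_lit 1) (nat_lit 151) (nat_lit 301) (nat_lit 268)) (XT.lf (nat_lit 84) (nat_lit 5525870086) (nat_lit 0) (nat_lit 27458000624) (nat_lit 336)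 (nat_lit 5525870086) (nat_lit 69) (nat_lit 1) (nat_lit 68) (nat_lit 1) (nat_lit 72) (nat_lit 1) (nat_lit 152) (nat_lit 301) (nat_lit 267))))) (XT.nd (nat_lit 282) (nat_lit 588) (nat_lit 0) (XT.nd (nat_lit 94) (nat_lit 336) (nat_lit 0) (XT.lf (nat_lit 252) (nat_lit 2024862531) (nat_lit 0) (nat_lit 17882892021) (nat_lit 168) (nat_lit 17882892021) (nat_lit 69) (nat_lit 1) (nat_lit 66) (nat_lit 1) (nat_lit 68) (nat_lit 1) (nat_lit 153) (nat_lit 301) (nat_lit 266)) (XT.nd (nat_lit 94) (nat_lit 0) (nat_lit 0) (XT.lf (nat_lit 336) (nat_lit 30594993876) (nat_lit 0) (nat_lit 3249410112) (nat_lit 252) (nat_lit 3249410112) (nat_lit 66) (nat_lit 1) (nat_lit 62) (nat_lit 1) (nat_lit 65) (nat_lit 1) (nat_lit 154) (nat_lit 301) (nat_lit 265)) (XT.lf (nat_lit 84) (nat_lit 10686105123) (nat_lit 0) (nat_lit 15032564783) (nat_lit 336) (nat_lit 10686105123) (nat_lit 63) (nat_lit 1) (nat_lit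 62) (nat_lit 1) (nat_lit 66) (nat_lit 1) (nat_lit 155) (nat_lit 301) (nat_lit 264)))) (XT.nd (nat_lit 188) (nat_lit 420) (nat_lit 0) (XT.nd (nat_lit 94) (nat_lit 0) (nat_lit 0) (XT.lf (nat_lit 252) (nat_lit 12346146068) (nat_lit 0) (nat_lit 11695427763) (nat_lit 168) (nat_lit 11695427763) (nat_lit 63) (nat_lit 1) (nat_lit 60) (nat_lit 1) (nat_lit 62) (nat_lit 1) (nat_lit 156) (nat_lit 301) (nat_lit 263)) (XT.lf (nat_lit 84) (nat_lit 1773749316) (nat_lit 0) (nat_lit 31543890365) (nat_lit 252) (nat_lit 1773749316) (nat_lit 61) (nat_lit 1) (nat_lit 60) (nat_lit 1) (nat_lit 63) (nat_lit 1) (nat_lit 157) (nat_lit 301) (nat_lit 262))) (XT.nd (nat_lit 94) (nat_lit 168) (nat_lit 0) (XT.lf (nat_lit 84) (nat_lit 14639064301) (nat_lit 0) (nat_lit 5169994646) (nat_lit 252) (nat_lit 14639064301) (nat_lit 58) (nat_lit 1) (nat_lit 57) (nat_lit 1) (nat_lit 60) (nat_lit 1) (nat_lit 158)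 (nat_lit 301) (nat_lit 261)) (XT.lf (nat_lit 252) (nat_lit 20328906498) (nat_lit 0) (nat_lit 6748646165) (nat_lit 168) (nat_lit 6748646165) (nat_lit 58) (nat_lit 1) (nat_lit 55) (nat_lit 1) (nat_lit 57) (nat_lit 1) (nat_lit 159) (nat_lit 301) (nat_lit 260)))))) (XT.nd (nat_lit 658) (nat_lit 840) (nat_lit 0) (XT.nd (nat_lit 282) (nat_lit 336) (nat_lit 0) (XT.nd (nat_lit 94) (nat_lit 420) (nat_lit 0) (XT.lf (nat_lit 84) (nat_lit 5736288533) (nat_lit 0) (nat_lit 21745443234) (nat_lit 252) (nat_lit 5736288533) (nat_lit 56) (nat_lit 1) (nat_lit 55) (nat_lit 1) (nat_lit 58) (nat_lit 1) (nat_lit 160) (nat_lit 301) (nat_lit 259)) (XT.nd (nat_lit 94) (nat_lit 252) (nat_lit 0) (XT.lf (nat_lit 252) (nat_lit 2687244652) (nat_lit 0) (nat_lit 14967428215) (nat_lit 168) (nat_lit 14967428215) (nat_lit 56) (nat_lit 1) (nat_lit 53) (nat_lit 1) (nat_lit 55) (nat_lit 1) (nat_lit 161) (nat_lit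 301) (nat_lit 258)) (XT.lf (nat_lit 252) (nat_lit 26411976519) (nat_lit 0) (nat_lit 2815736284) (nat_lit 168) (nat_lit 2815736284) (nat_lit 53) (nat_lit 1) (nat_lit 50) (nat_lit 1) (nat_lit 52) (nat_lit 1) (nat_lit 162) (nat_lit 301) (nat_lit 257)))) (XT.nd (nat_lit 188) (nat_lit 168) (nat_lit 0) (XT.nd (nat_lit 94) (nat_lit 168) (nat_lit 0) (XT.lf (nat_lit 84) (nat_lit 8792611707) (nat_lit 0) (nat_lit 13884512407) (nat_lit 252) (nat_lit 8792611707) (nat_lit 51) (nat_lit 1) (nat_lit 50) (nat_lit 1) (nat_lit 53) (nat_lit 1) (nat_lit 163) (nat_lit 301) (nat_lit 256)) (XT.lf (nat_lit 252) (nat_lit 8954848137) (nat_lit 0) (nat_lit 10978915055) (nat_lit 168) (nat_lit 10978915055) (nat_lit 51) (nat_lit 1) (nat_lit 48) (nat_lit 1) (nat_lit 50) (nat_lit 1) (nat_lit 164) (nat_lit 301) (nat_lit 255))) (XT.nd (nat_lit 94) (nat_lit 168) (nat_lit 0) (XT.lf (nat_lit 84) (nat_lit 294321161)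 (nat_lit 0) (nat_lit 29786514387) (nat_lit 252) (nat_lit 294321161) (nat_lit 49) (nat_lit 1) (nat_lit 48) (nat_lit 1) (nat_lit 51) (nat_lit 1) (nat_lit 165) (nat_lit 301) (nat_lit 254)) (XT.lf (nat_lit 84) (nat_lit 11113087158) (nat_lit 0) (nat_lit 7608044093) (nat_lit 168) (nat_lit 11113087158) (nat_lit 47) (nat_lit 1) (nat_lit 46) (nat_lit 1) (nat_lit 48) (nat_lit 1) (nat_lit 166) (nat_lit 301) (nat_lit 253))))) (XT.nd (nat_lit 282) (nat_lit 504) (nat_lit 0) (XT.nd (nat_lit 94) (nat_lit 168) (nat_lit 0) (XT.lf (nat_lit 252) (nat_lit 13790076021) (nat_lit 0) (nat_lit 7761118510) (nat_lit 168) (nat_lit 7761118510) (nat_lit 47) (nat_lit 1) (nat_lit 44) (nat_lit 1) (nat_lit 46) (nat_lit 1) (nat_lit 167) (nat_lit 301) (nat_lit 252)) (XT.nd (nat_lit 94) (nat_lit 168) (nat_lit 0) (XT.lf (nat_lit 84) (nat_lit 2764814935) (nat_lit 0) (nat_lit 23274865352) (nat_lit 252) (nat_lit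 2764814935) (nat_lit 45) (nat_lit 1) (nat_lit 44) (nat_lit 1) (nat_lit 47) (nat_lit 1) (nat_lit 168) (nat_lit 301) (nat_lit 251)) (XT.lf (nat_lit 84) (nat_lit 12837415495) (nat_lit 0) (nat_lit 2626034203) (nat_lit 168) (nat_lit 12837415495) (nat_lit 43) (nat_lit 1) (nat_lit 42) (nat_lit 1) (nat_lit 44) (nat_lit 1) (nat_lit 169) (nat_lit 301) (nat_lit 250)))) (XT.nd (nat_lit 188) (nat_lit 336) (nat_lit 0) (XT.nd (nat_lit 94) (nat_lit 0) (nat_lit 0) (XT.lf (nat_lit 252) (nat_lit 17462177571) (nat_lit 0) (nat_lit 5174365619) (nat_lit 168) (nat_lit 5174365619) (nat_lit 43) (nat_lit 1) (nat_lit 40) (nat_lit 1) (nat_lit 42) (nat_lit 1) (nat_lit 170) (nat_lit 301) (nat_lit 249)) (XT.lf (nat_lit 84) (nat_lit 4677168840) (nat_lit 0) (nat_lit 17976314325) (nat_lit 252) (nat_lit 4677168840) (nat_lit 41) (nat_lit 1) (nat_lit 40) (nat_lit 1) (nat_lit 43) (nat_lit 1) (nat_lit 171) (nat_lit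 301) (nat_lit 248))) (XT.nd (nat_lit 94) (nat_lit 252) (nat_lit 0) (XT.lf (nat_lit 168) (nat_lit 1342644848) (nat_lit 0) (nat_lit 12758406515) (nat_lit 84) (nat_lit 12758406515) (nat_lit 41) (nat_lit 1) (nat_lit 39) (nat_lit 1) (nat_lit 40) (nat_lit 1) (nat_lit 172) (nat_lit 301) (nat_lit 247)) (XT.lf (nat_lit 252) (nat_lit 20191936610) (nat_lit 0) (nat_lit 3103891223) (nat_lit 168) (nat_lit 3103891223) (nat_lit 39) (nat_lit 1) (nat_lit 36) (nat_lit 1) (nat_lit 38) (nat_lit 1) (nat_lit 173) (nat_lit 301) (nat_lit 246))))))) (XT.nd (nat_lit 1316) (nat_lit 1092) (nat_lit 0) (XT.nd (nat_lit 658) (nat_lit 588) (nat_lit 0) (XT.nd (nat_lit 282) (nat_lit 336) (nat_lit 0) (XT.nd (nat_lit 94) (nat_lit 336) (nat_lit 0) (XT.lf (nat_lit 84) (nat_lit 6136060046) (nat_lit 0) (nat_lit 13672991616) (nat_lit 252) (nat_lit 6136060046) (nat_lit 37) (nat_lit 1) (nat_lit 36) (nat_lit 1) (nat_lit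 39) (nat_lit 1) (nat_lit 174) (nat_lit 301) (nat_lit 245)) (XT.nd (nat_lit 94) (nat_lit 252) (nat_lit 0) (XT.lf (nat_lit 168) (nat_lit 4508905573) (nat_lit 0) (nat_lit 10496372614) (nat_lit 84) (nat_lit 10496372614) (nat_lit 37) (nat_lit 1) (nat_lit 35) (nat_lit 1) (nat_lit 36) (nat_lit 1) (nat_lit 175) (nat_lit 301) (nat_lit 244)) (XT.lf (nat_lit 252) (nat_lit 22160298988) (nat_lit 0) (nat_lit 1455415012) (nat_lit 168) (nat_lit 1455415012) (nat_lit 35) (nat_lit 1) (nat_lit 32) (nat_lit 1) (nat_lit 34) (nat_lit 1) (nat_lit 176) (nat_lit 301) (nat_lit 243)))) (XT.nd (nat_lit 188) (nat_lit 252) (nat_lit 0) (XT.nd (nat_lit 94) (nat_lit 84) (nat_lit 0) (XT.lf (nat_lit 84) (nat_lit 7227334325) (nat_lit 0) (nat_lit 10185788167) (nat_lit 252) (nat_lit 7227334325) (nat_lit 33) (nat_lit 1) (nat_lit 32) (nat_lit 1) (nat_lit 35) (nat_lit 1) (nat_lit 177) (nat_lit 301) (nat_lit 242))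 (XT.lf (nat_lit 168) (nat_lit 6951686187) (nat_lit 0) (nat_lit 8635391726) (nat_lit 84) (nat_lit 8635391726) (nat_lit 33) (nat_lit 1) (nat_lit 31) (nat_lit 1) (nat_lit 32) (nat_lit 1) (nat_lit 178) (nat_lit 301) (nat_lit 241))) (XT.nd (nat_lit 94) (nat_lit 0) (nat_lit 0) (XT.lf (nat_lit 252) (nat_lit 23515468789) (nat_lit 0) (nat_lit 151503076) (nat_lit 168) (nat_lit 151503076) (nat_lit 31) (nat_lit 1) (nat_lit 28) (nat_lit 1) (nat_lit 30) (nat_lit 1) (nat_lit 179) (nat_lit 301) (nat_lit 240)) (XT.lf (nat_lit 84) (nat_lit 8021357778) (nat_lit 0) (nat_lit 7367477063) (nat_lit 252) (nat_lit 8021357778) (nat_lit 29) (nat_lit 1) (nat_lit 28) (nat_lit 1) (nat_lit 31) (nat_lit 1) (nat_lit 180) (nat_lit 301) (nat_lit 239))))) (XT.nd (nat_lit 282) (nat_lit 336) (nat_lit 0) (XT.nd (nat_lit 94) (nat_lit 168) (nat_lit 0) (XT.lf (nat_lit 168) (nat_lit 8806977442) (nat_lit 0) (nat_lit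 7104358144) (nat_lit 84) (nat_lit 7104358144) (nat_lit 29) (nat_lit 1) (nat_lit 27) (nat_lit 1) (nat_lit 28) (nat_lit 1) (nat_lit 181) (nat_lit 301) (nat_lit 238)) (XT.nd (nat_lit 94) (nat_lit 168) (nat_lit 0) (XT.lf (nat_lit 0) (nat_lit 885710802) (nat_lit 0) (nat_lit 20861683815) (nat_lit 168) (nat_lit 885710802) (nat_lit 27) (nat_lit 3) (nat_lit 27) (nat_lit 1) (nat_lit 29) (nat_lit 1) (nat_lit 182) (nat_lit 301) (nat_lit 237)) (XT.lf (nat_lit 84) (nat_lit 8575773698) (nat_lit 0) (nat_lit 5097054880) (nat_lit 168) (nat_lit 8575773698) (nat_lit 26) (nat_lit 1) (nat_lit 25) (nat_lit 1) (nat_lit 27) (nat_lit 1) (nat_lit 183) (nat_lit 301) (nat_lit 236)))) (XT.nd (nat_lit 188) (nat_lit 252) (nat_lit 0) (XT.nd (nat_lit 94) (nat_lit 0) (nat_lit 0) (XT.lf (nat_lit 168) (nat_lit 10186291672) (nat_lit 0) (nat_lit 5844773026) (nat_lit 84) (nat_lit 5844773026) (nat_lit 26) (nat_lit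 1) (nat_lit 24) (nat_lit 1) (nat_lit 25) (nat_lit 1) (nat_lit 184) (nat_lit 301) (nat_lit 235)) (XT.lf (nat_lit 0) (nat_lit 1692863202) (nat_lit 0) (nat_lit 18127145636) (nat_lit 168) (nat_lit 1692863202) (nat_lit 24) (nat_lit 3) (nat_lit 24) (nat_lit 1) (nat_lit 26) (nat_lit 1) (nat_lit 185) (nat_lit 301) (nat_lit 234))) (XT.nd (nat_lit 94) (nat_lit 84) (nat_lit 0) (XT.lf (nat_lit 84) (nat_lit 8937770056) (nat_lit 0) (nat_lit 3275086585) (nat_lit 168) (nat_lit 8937770056) (nat_lit 23) (nat_lit 1) (nat_lit 22) (nat_lit 1) (nat_lit 24) (nat_lit 1) (nat_lit 186) (nat_lit 301) (nat_lit 233)) (XT.lf (nat_lit 168) (nat_lit 11181020259) (nat_lit 0) (nat_lit 4808509233) (nat_lit 84) (nat_lit 4808509233) (nat_lit 23) (nat_lit 1) (nat_lit 21) (nat_lit 1) (nat_lit 22) (nat_lit 1) (nat_lit 187) (nat_lit 301) (nat_lit 232)))))) (XT.nd (nat_lit 658) (nat_lit 588) (nat_lit 0) (XT.nd (nat_lit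 282) (nat_lit 252) (nat_lit 0) (XT.nd (nat_lit 94) (nat_lit 252) (nat_lit 0) (XT.lf (nat_lit 0) (nat_lit 2310995825) (nat_lit 0) (nat_lit 15831520655) (nat_lit 168) (nat_lit 2310995825) (nat_lit 21) (nat_lit 3) (nat_lit 21) (nat_lit 1) (nat_lit 23) (nat_lit 1) (nat_lit 188) (nat_lit 301) (nat_lit 231)) (XT.nd (nat_lit 94) (nat_lit 84) (nat_lit 0) (XT.lf (nat_lit 84) (nat_lit 9145944413) (nat_lit 0) (nat_lit 1819876049) (nat_lit 168) (nat_lit 9145944413) (nat_lit 20) (nat_lit 1) (nat_lit 19) (nat_lit 1) (nat_lit 21) (nat_lit 1) (nat_lit 189) (nat_lit 301) (nat_lit 230)) (XT.lf (nat_lit 168) (nat_lit 11866017696) (nat_lit 0) (nat_lit 3955972446) (nat_lit 84) (nat_lit 3955972446) (nat_lit 20) (nat_lit 1) (nat_lit 18) (nat_lit 1) (nat_lit 19) (nat_lit 1) (nat_lit 190) (nat_lit 301) (nat_lit 229)))) (XT.nd (nat_lit 188) (nat_lit 84) (nat_lit 0) (XT.nd (nat_lit 94) (nat_lit 168)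 (nat_lit 0) (XT.lf (nat_lit 0) (nat_lit 2775807774) (nat_lit 0) (nat_lit 13899177012) (nat_lit 168) (nat_lit 2775807774) (nat_lit 18) (nat_lit 3) (nat_lit 18) (nat_lit 1) (nat_lit 20) (nat_lit 1) (nat_lit 191) (nat_lit 301) (nat_lit 228)) (XT.lf (nat_lit 84) (nat_lit 9231837644) (nat_lit 0) (nat_lit 664315777) (nat_lit 168) (nat_lit 9231837644) (nat_lit 17) (nat_lit 1) (nat_lit 16) (nat_lit 1) (nat_lit 18) (nat_lit 1) (nat_lit 192) (nat_lit 301) (nat_lit 227))) (XT.nd (nat_lit 94) (nat_lit 0) (nat_lit 0) (XT.lf (nat_lit 168) (nat_lit 12302549418) (nat_lit 0) (nat_lit 3254588322) (nat_lit 84) (nat_lit 3254588322) (nat_lit 17) (nat_lit 1) (nat_lit 15) (nat_lit 1) (nat_lit 16) (nat_lit 1) (nat_lit 193) (nat_lit 301) (nat_lit 226)) (XT.lf (nat_lit 0) (nat_lit 3116564677) (nat_lit 0) (nat_lit 12267788077) (nat_lit 168) (nat_lit 3116564677) (nat_lit 15) (nat_lit 3) (nat_lit 15)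 (nat_lit 1) (nat_lit 17) (nat_lit 1) (nat_lit 194) (nat_lit 301) (nat_lit 225))))) (XT.nd (nat_lit 282) (nat_lit 336) (nat_lit 0) (XT.nd (nat_lit 94) (nat_lit 168) (nat_lit 0) (XT.lf (nat_lit 84) (nat_lit 254861744) (nat_lit 0) (nat_lit 8970312602) (nat_lit 84) (nat_lit 8970312602) (nat_lit 15) (nat_lit 3) (nat_lit 14) (nat_lit 1) (nat_lit 15) (nat_lit 1) (nat_lit 195) (nat_lit 301) (nat_lit 224)) (XT.nd (nat_lit 94) (nat_lit 0) (nat_lit 0) (XT.lf (nat_lit 168) (nat_lit 12540716227) (nat_lit 0) (nat_lit 2677557867) (nat_lit 84) (nat_lit 2677557867) (nat_lit 14) (nat_lit 1) (nat_lit 12) (nat_lit 1) (nat_lit 13) (nat_lit 1) (nat_lit 196) (nat_lit 301) (nat_lit 223)) (XT.lf (nat_lit 0) (nat_lit 3357244284) (nat_lit 0) (nat_lit 10885978423) (nat_lit 168) (nat_lit 3357244284) (nat_lit 12) (nat_lit 3) (nat_lit 12) (nat_lit 1) (nat_lit 14) (nat_lit 1) (nat_lit 197) (nat_lit 301)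 (nat_lit 222)))) (XT.nd (nat_lit 188) (nat_lit 84) (nat_lit 0) (XT.nd (nat_lit 94) (nat_lit 168) (nat_lit 0) (XT.lf (nat_lit 84) (nat_lit 990120025) (nat_lit 0) (nat_lit 8160343014) (nat_lit 84) (nat_lit 8160343014) (nat_lit 12) (nat_lit 3) (nat_lit 11) (nat_lit 1) (nat_lit 12) (nat_lit 1) (nat_lit 198) (nat_lit 301) (nat_lit 221)) (XT.lf (nat_lit 168) (nat_lit 12621448156) (nat_lit 0) (nat_lit 2202833483) (nat_lit 84) (nat_lit 2202833483) (nat_lit 11) (nat_lit 1) (nat_lit 9) (nat_lit 1) (nat_lit 10) (nat_lit 1) (nat_lit 199) (nat_lit 301) (nat_lit 220))) (XT.nd (nat_lit 94) (nat_lit 84) (nat_lit 0) (XT.lf (nat_lit 0) (nat_lit 3517478715) (nat_lit 0) (nat_lit 9711386923) (nat_lit 168) (nat_lit 3517478715) (nat_lit 9) (nat_lit 3) (nat_lit 9) (nat_lit 1) (nat_lit 11) (nat_lit 1) (nat_lit 200) (nat_lit 301) (nat_lit 219)) (XT.lf (nat_lit 84) (nat_lit 1557854801) (nat_lit 0)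 (nat_lit 7456814999) (nat_lit 84) (nat_lit 7456814999) (nat_lit 9) (nat_lit 3) (nat_lit 8) (nat_lit 1) (nat_lit 9) (nat_lit 1) (nat_lit 201) (nat_lit 301) (nat_lit 218))))))))
noncomputable def ec184 : XT := (XT.nd (nat_lit 2538) (nat_lit 0) (nat_lit 0) (XT.nd (nat_lit 1222) (nat_lit 0) (nat_lit 0) (XT.nd (nat_lit 564) (nat_lit 168) (nat_lit 0) (XT.nd (nat_lit 282) (nat_lit 252) (nat_lit 0) (XT.nd (nat_lit 94) (nat_lit 84) (nat_lit 0) (XT.lf (nat_lit 168) (nat_lit 12578144139) (nat_lit 0) (nat_lit 1812276558) (nat_lit 84) (nat_lit 1812276558) (nat_lit 8) (nat_lit 1) (nat_lit 6) (nat_lit 1) (nat_lit 7) (nat_lit 1) (nat_lit 202) (nat_lit 301) (nat_lit 217)) (XT.nd (nat_lit 94) (nat_lit 84) (nat_lit 0) (XT.lf (nat_lit 0) (nat_lit 3613329429) (nat_lit 0) (nat_lit 8709073041) (nat_lit 168) (nat_lit 3613329429) (nat_lit 6) (nat_lit 3) (nat_lit 6) (nat_lit 1) (nat_lit 8) (nat_lit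 1) (nat_lit 203) (nat_lit 301) (nat_lit 216)) (XT.lf (nat_lit 84) (nat_lit 1989537292) (nat_lit 0) (nat_lit 6842626446) (nat_lit 84) (nat_lit 6842626446) (nat_lit 6) (nat_lit 3) (nat_lit 5) (nat_lit 1) (nat_lit 6) (nat_lit 1) (nat_lit 204) (nat_lit 301) (nat_lit 215)))) (XT.nd (nat_lit 94) (nat_lit 84) (nat_lit 0) (XT.lf (nat_lit 168) (nat_lit 12438020316) (nat_lit 0) (nat_lit 1490964409) (nat_lit 84) (nat_lit 1490964409) (nat_lit 5) (nat_lit 1) (nat_lit 3) (nat_lit 1) (nat_lit 4) (nat_lit 1) (nat_lit 205) (nat_lit 301) (nat_lit 214)) (XT.nd (nat_lit 94) (nat_lit 84) (nat_lit 0) (XT.lf (nat_lit 0) (nat_lit 3657924574) (nat_lit 0) (nat_lit 7850205454) (nat_lit 168) (nat_lit 3657924574) (nat_lit 3) (nat_lit 3) (nat_lit 3) (nat_lit 1) (nat_lit 5) (nat_lit 1) (nat_lit 206) (nat_lit 301) (nat_lit 213)) (XT.lf (nat_lit 84) (nat_lit 2310974675) (nat_lit 0) (nat_lit 6303623132)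 (nat_lit 84) (nat_lit 6303623132) (nat_lit 3) (nat_lit 3) (nat_lit 2) (nat_lit 1) (nat_lit 3) (nat_lit 1) (nat_lit 207) (nat_lit 301) (nat_lit 212))))) (XT.nd (nat_lit 282) (nat_lit 0) (nat_lit 0) (XT.nd (nat_lit 94) (nat_lit 0) (nat_lit 0) (XT.lf (nat_lit 0) (nat_lit 21320315915) (nat_lit 0) (nat_lit 0) (nat_lit 0) (nat_lit 0) (nat_lit 0) (nat_lit 0) (nat_lit 1) (nat_lit 0) (nat_lit 1) (nat_lit 0) (nat_lit 208) (nat_lit 301) (nat_lit 211)) (XT.nd (nat_lit 94) (nat_lit 0) (nat_lit 0) (XT.lf (nat_lit 0) (nat_lit 21307893932) (nat_lit 0) (nat_lit 0) (nat_lit 0) (nat_lit 0) (nat_lit 0) (nat_lit 0) (nat_lit 1) (nat_lit 0) (nat_lit 1) (nat_lit 0) (nat_lit 209) (nat_lit 301) (nat_lit 210)) (XT.lf (nat_lit 0) (nat_lit 21296063473) (nat_lit 0) (nat_lit 0) (nat_lit 0) (nat_lit 0) (nat_lit 0) (nat_lit 0) (nat_lit 1) (nat_lit 0) (nat_lit 1) (nat_lit 0) (nat_lit 210) (nat_lit 301) (nat_lit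 209)))) (XT.nd (nat_lit 188) (nat_lit 0) (nat_lit 0) (XT.nd (nat_lit 94) (nat_lit 0) (nat_lit 0) (XT.lf (nat_lit 0) (nat_lit 21284796369) (nat_lit 0) (nat_lit 0) (nat_lit 0) (nat_lit 0) (nat_lit 0) (nat_lit 0) (nat_lit 1) (nat_lit 0) (nat_lit 1) (nat_lit 0) (nat_lit 211) (nat_lit 301) (nat_lit 208)) (XT.lf (nat_lit 0) (nat_lit 21274065794) (nat_lit 0) (nat_lit 0) (nat_lit 0) (nat_lit 0) (nat_lit 0) (nat_lit 0) (nat_lit 1) (nat_lit 0) (nat_lit 1) (nat_lit 0) (nat_lit 212) (nat_lit 301) (nat_lit 207))) (XT.nd (nat_lit 94) (nat_lit 0) (nat_lit 0) (XT.lf (nat_lit 0) (nat_lit 21263846198) (nat_lit 0) (nat_lit 0) (nat_lit 0) (nat_lit 0) (nat_lit 0) (nat_lit 0) (nat_lit 1) (nat_lit 0) (nat_lit 1) (nat_lit 0) (nat_lit 213) (nat_lit 301) (nat_lit 206)) (XT.lf (nat_lit 0) (nat_lit 21254113250) (nat_lit 0) (nat_lit 0) (nat_lit 0) (nat_lit 0) (nat_lit 0) (nat_lit 0) (nat_lit 1) (nat_lit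 0) (nat_lit 1) (nat_lit 0) (nat_lit 214) (nat_lit 301) (nat_lit 205)))))) (XT.nd (nat_lit 658) (nat_lit 0) (nat_lit 0) (XT.nd (nat_lit 282) (nat_lit 0) (nat_lit 0) (XT.nd (nat_lit 94) (nat_lit 0) (nat_lit 0) (XT.lf (nat_lit 0) (nat_lit 21244843776) (nat_lit 0) (nat_lit 0) (nat_lit 0) (nat_lit 0) (nat_lit 0) (nat_lit 0) (nat_lit 1) (nat_lit 0) (nat_lit 1) (nat_lit 0) (nat_lit 215) (nat_lit 301) (nat_lit 204)) (XT.nd (nat_lit 94) (nat_lit 0) (nat_lit 0) (XT.lf (nat_lit 0) (nat_lit 21236015705) (nat_lit 0) (nat_lit 0) (nat_lit 0) (nat_lit 0) (nat_lit 0) (nat_lit 0) (nat_lit 1) (nat_lit 0) (nat_lit 1) (nat_lit 0) (nat_lit 216) (nat_lit 301) (nat_lit 203)) (XT.lf (nat_lit 0) (nat_lit 21227608019) (nat_lit 0) (nat_lit 0) (nat_lit 0) (nat_lit 0) (nat_lit 0) (nat_lit 0) (nat_lit 1) (nat_lit 0) (nat_lit 1) (nat_lit 0) (nat_lit 217) (nat_lit 301) (nat_lit 202)))) (XT.nd (nat_lit 188)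 (nat_lit 0) (nat_lit 0) (XT.nd (nat_lit 94) (nat_lit 0) (nat_lit 0) (XT.lf (nat_lit 0) (nat_lit 21219600698) (nat_lit 0) (nat_lit 0) (nat_lit 0) (nat_lit 0) (nat_lit 0) (nat_lit 0) (nat_lit 1) (nat_lit 0) (nat_lit 1) (nat_lit 0) (nat_lit 218) (nat_lit 301) (nat_lit 201)) (XT.lf (nat_lit 0) (nat_lit 21211974679) (nat_lit 0) (nat_lit 0) (nat_lit 0) (nat_lit 0) (nat_lit 0) (nat_lit 0) (nat_lit 1) (nat_lit 0) (nat_lit 1) (nat_lit 0) (nat_lit 219) (nat_lit 301) (nat_lit 200))) (XT.nd (nat_lit 94) (nat_lit 0) (nat_lit 0) (XT.lf (nat_lit 0) (nat_lit 21204711803) (nat_lit 0) (nat_lit 0) (nat_lit 0) (nat_lit 0) (nat_lit 0) (nat_lit 0) (nat_lit 1) (nat_lit 0) (nat_lit 1) (nat_lit 0) (nat_lit 220) (nat_lit 301) (nat_lit 199)) (XT.lf (nat_lit 0) (nat_lit 21197794779) (nat_lit 0) (nat_lit 0) (nat_lit 0) (nat_lit 0) (nat_lit 0) (nat_lit 0) (nat_lit 1) (nat_lit 0) (nat_lit 1) (nat_lit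 0) (nat_lit 221) (nat_lit 301) (nat_lit 198))))) (XT.nd (nat_lit 282) (nat_lit 0) (nat_lit 0) (XT.nd (nat_lit 94) (nat_lit 0) (nat_lit 0) (XT.lf (nat_lit 0) (nat_lit 21191207136) (nat_lit 0) (nat_lit 0) (nat_lit 0) (nat_lit 0) (nat_lit 0) (nat_lit 0) (nat_lit 1) (nat_lit 0) (nat_lit 1) (nat_lit 0) (nat_lit 222) (nat_lit 301) (nat_lit 197)) (XT.nd (nat_lit 94) (nat_lit 0) (nat_lit 0) (XT.lf (nat_lit 0) (nat_lit 21184933191) (nat_lit 0) (nat_lit 0) (nat_lit 0) (nat_lit 0) (nat_lit 0) (nat_lit 0) (nat_lit 1) (nat_lit 0) (nat_lit 1) (nat_lit 0) (nat_lit 223) (nat_lit 301) (nat_lit 196)) (XT.lf (nat_lit 0) (nat_lit 21178958005) (nat_lit 0) (nat_lit 0) (nat_lit 0) (nat_lit 0) (nat_lit 0) (nat_lit 0) (nat_lit 1) (nat_lit 0) (nat_lit 1) (nat_lit 0) (nat_lit 224) (nat_lit 301) (nat_lit 195)))) (XT.nd (nat_lit 188) (nat_lit 0) (nat_lit 0) (XT.nd (nat_lit 94) (nat_lit 0) (nat_lit 0)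 (XT.lf (nat_lit 0) (nat_lit 21173267352) (nat_lit 0) (nat_lit 0) (nat_lit 0) (nat_lit 0) (nat_lit 0) (nat_lit 0) (nat_lit 1) (nat_lit 0) (nat_lit 1) (nat_lit 0) (nat_lit 225) (nat_lit 301) (nat_lit 194)) (XT.lf (nat_lit 0) (nat_lit 21167847682) (nat_lit 0) (nat_lit 0) (nat_lit 0) (nat_lit 0) (nat_lit 0) (nat_lit 0) (nat_lit 1) (nat_lit 0) (nat_lit 1) (nat_lit 0) (nat_lit 226) (nat_lit 301) (nat_lit 193))) (XT.nd (nat_lit 94) (nat_lit 0) (nat_lit 0) (XT.lf (nat_lit 0) (nat_lit 21162686092) (nat_lit 0) (nat_lit 0) (nat_lit 0) (nat_lit 0) (nat_lit 0) (nat_lit 0) (nat_lit 1) (nat_lit 0) (nat_lit 1) (nat_lit 0) (nat_lit 227) (nat_lit 301) (nat_lit 192)) (XT.lf (nat_lit 0) (nat_lit 21157770292) (nat_lit 0) (nat_lit 0) (nat_lit 0) (nat_lit 0) (nat_lit 0) (nat_lit 0) (nat_lit 1) (nat_lit 0) (nat_lit 1) (nat_lit 0) (nat_lit 228) (nat_lit 301) (nat_lit 191))))))) (XT.nd (nat_lit 1222)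 (nat_lit 0) (nat_lit 0) (XT.nd (nat_lit 564) (nat_lit 0) (nat_lit 0) (XT.nd (nat_lit 282) (nat_lit 0) (nat_lit 0) (XT.nd (nat_lit 94) (nat_lit 0) (nat_lit 0) (XT.lf (nat_lit 0) (nat_lit 21153088578) (nat_lit 0) (nat_lit 0) (nat_lit 0) (nat_lit 0) (nat_lit 0) (nat_lit 0) (nat_lit 1) (nat_lit 0) (nat_lit 1) (nat_lit 0) (nat_lit 229) (nat_lit 301) (nat_lit 190)) (XT.nd (nat_lit 94) (nat_lit 0) (nat_lit 0) (XT.lf (nat_lit 0) (nat_lit 21148629802) (nat_lit 0) (nat_lit 0) (nat_lit 0) (nat_lit 0) (nat_lit 0) (nat_lit 0) (nat_lit 1) (nat_lit 0) (nat_lit 1) (nat_lit 0) (nat_lit 230) (nat_lit 301) (nat_lit 189)) (XT.lf (nat_lit 0) (nat_lit 21144383349) (nat_lit 0) (nat_lit 0) (nat_lit 0) (nat_lit 0) (nat_lit 0) (nat_lit 0) (nat_lit 1) (nat_lit 0) (nat_lit 1) (nat_lit 0) (nat_lit 231) (nat_lit 301) (nat_lit 188)))) (XT.nd (nat_lit 94) (nat_lit 0) (nat_lit 0) (XT.lf (nat_lit 0) (nat_lit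 21140339108) (nat_lit 0) (nat_lit 0) (nat_lit 0) (nat_lit 0) (nat_lit 0) (nat_lit 0) (nat_lit 1) (nat_lit 0) (nat_lit 1) (nat_lit 0) (nat_lit 232) (nat_lit 301) (nat_lit 187)) (XT.nd (nat_lit 94) (nat_lit 0) (nat_lit 0) (XT.lf (nat_lit 0) (nat_lit 21136487450) (nat_lit 0) (nat_lit 0) (nat_lit 0) (nat_lit 0) (nat_lit 0) (nat_lit 0) (nat_lit 1) (nat_lit 0) (nat_lit 1) (nat_lit 0) (nat_lit 233) (nat_lit 301) (nat_lit 186)) (XT.lf (nat_lit 0) (nat_lit 21132819204) (nat_lit 0) (nat_lit 0) (nat_lit 0) (nat_lit 0) (nat_lit 0) (nat_lit 0) (nat_lit 1) (nat_lit 0) (nat_lit 1) (nat_lit 0) (nat_lit 234) (nat_lit 301) (nat_lit 185))))) (XT.nd (nat_lit 282) (nat_lit 0) (nat_lit 0) (XT.nd (nat_lit 94) (nat_lit 0) (nat_lit 0) (XT.lf (nat_lit 0) (nat_lit 21129325637) (nat_lit 0) (nat_lit 0) (nat_lit 0) (nat_lit 0) (nat_lit 0) (nat_lit 0) (nat_lit 1) (nat_lit 0) (nat_lit 1) (nat_lit 0) (nat_lit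 235) (nat_lit 301) (nat_lit 184)) (XT.nd (nat_lit 94) (nat_lit 0) (nat_lit 0) (XT.lf (nat_lit 0) (nat_lit 21125998430) (nat_lit 0) (nat_lit 0) (nat_lit 0) (nat_lit 0) (nat_lit 0) (nat_lit 0) (nat_lit 1) (nat_lit 0) (nat_lit 1) (nat_lit 0) (nat_lit 236) (nat_lit 301) (nat_lit 183)) (XT.lf (nat_lit 0) (nat_lit 21122829661) (nat_lit 0) (nat_lit 0) (nat_lit 0) (nat_lit 0) (nat_lit 0) (nat_lit 0) (nat_lit 1) (nat_lit 0) (nat_lit 1) (nat_lit 0) (nat_lit 237) (nat_lit 301) (nat_lit 182)))) (XT.nd (nat_lit 188) (nat_lit 0) (nat_lit 0) (XT.nd (nat_lit 94) (nat_lit 0) (nat_lit 0) (XT.lf (nat_lit 0) (nat_lit 21119811786) (nat_lit 0) (nat_lit 0) (nat_lit 0) (nat_lit 0) (nat_lit 0) (nat_lit 0) (nat_lit 1) (nat_lit 0) (nat_lit 1) (nat_lit 0) (nat_lit 238) (nat_lit 301) (nat_lit 181)) (XT.lf (nat_lit 0) (nat_lit 21116937620) (nat_lit 0) (nat_lit 0) (nat_lit 0) (nat_lit 0) (nat_lit 0) (nat_lit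 0) (nat_lit 1) (nat_lit 0) (nat_lit 1) (nat_lit 0) (nat_lit 239) (nat_lit 301) (nat_lit 180))) (XT.nd (nat_lit 94) (nat_lit 0) (nat_lit 0) (XT.lf (nat_lit 0) (nat_lit 21114200318) (nat_lit 0) (nat_lit 0) (nat_lit 0) (nat_lit 0) (nat_lit 0) (nat_lit 0) (nat_lit 1) (nat_lit 0) (nat_lit 1) (nat_lit 0) (nat_lit 240) (nat_lit 301) (nat_lit 179)) (XT.lf (nat_lit 0) (nat_lit 21111593364) (nat_lit 0) (nat_lit 0) (nat_lit 0) (nat_lit 0) (nat_lit 0) (nat_lit 0) (nat_lit 1) (nat_lit 0) (nat_lit 1) (nat_lit 0) (nat_lit 241) (nat_lit 301) (nat_lit 178)))))) (XT.nd (nat_lit 658) (nat_lit 0) (nat_lit 0) (XT.nd (nat_lit 282) (nat_lit 0) (nat_lit 0) (XT.nd (nat_lit 94) (nat_lit 0) (nat_lit 0) (XT.lf (nat_lit 0) (nat_lit 21109110551) (nat_lit 0) (nat_lit 0) (nat_lit 0) (nat_lit 0) (nat_lit 0) (nat_lit 0) (nat_lit 1) (nat_lit 0) (nat_lit 1) (nat_lit 0) (nat_lit 242) (nat_lit 301) (nat_lit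 177)) (XT.nd (nat_lit 94) (nat_lit 0) (nat_lit 0) (XT.lf (nat_lit 0) (nat_lit 21106745967) (nat_lit 0) (nat_lit 0) (nat_lit 0) (nat_lit 0) (nat_lit 0) (nat_lit 0) (nat_lit 1) (nat_lit 0) (nat_lit 1) (nat_lit 0) (nat_lit 243) (nat_lit 301) (nat_lit 176)) (XT.lf (nat_lit 0) (nat_lit 21104493983) (nat_lit 0) (nat_lit 0) (nat_lit 0) (nat_lit 0) (nat_lit 0) (nat_lit 0) (nat_lit 1) (nat_lit 0) (nat_lit 1) (nat_lit 0) (nat_lit 244) (nat_lit 301) (nat_lit 175)))) (XT.nd (nat_lit 188) (nat_lit 0) (nat_lit 0) (XT.nd (nat_lit 94) (nat_lit 0) (nat_lit 0) (XT.lf (nat_lit 0) (nat_lit 21102349235) (nat_lit 0) (nat_lit 0) (nat_lit 0) (nat_lit 0) (nat_lit 0) (nat_lit 0) (nat_lit 1) (nat_lit 0) (nat_lit 1) (nat_lit 0) (nat_lit 245) (nat_lit 301) (nat_lit 174)) (XT.lf (nat_lit 0) (nat_lit 21100306619) (nat_lit 0) (nat_lit 0) (nat_lit 0) (nat_lit 0) (nat_lit 0) (nat_lit 0) (nat_lit 1) (nat_lit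 0) (nat_lit 1) (nat_lit 0) (nat_lit 246) (nat_lit 301) (nat_lit 173))) (XT.nd (nat_lit 94) (nat_lit 0) (nat_lit 0) (XT.lf (nat_lit 0) (nat_lit 21098361270) (nat_lit 0) (nat_lit 0) (nat_lit 0) (nat_lit 0) (nat_lit 0) (nat_lit 0) (nat_lit 1) (nat_lit 0) (nat_lit 1) (nat_lit 0) (nat_lit 247) (nat_lit 301) (nat_lit 172)) (XT.lf (nat_lit 0) (nat_lit 21096508556) (nat_lit 0) (nat_lit 0) (nat_lit 0) (nat_lit 0) (nat_lit 0) (nat_lit 0) (nat_lit 1) (nat_lit 0) (nat_lit 1) (nat_lit 0) (nat_lit 248) (nat_lit 301) (nat_lit 171))))) (XT.nd (nat_lit 282) (nat_lit 0) (nat_lit 0) (XT.nd (nat_lit 94) (nat_lit 0) (nat_lit 0) (XT.lf (nat_lit 0) (nat_lit 21094744067) (nat_lit 0) (nat_lit 0) (nat_lit 0) (nat_lit 0) (nat_lit 0) (nat_lit 0) (nat_lit 1) (nat_lit 0) (nat_lit 1) (nat_lit 0) (nat_lit 249) (nat_lit 301) (nat_lit 170)) (XT.nd (nat_lit 94) (nat_lit 0) (nat_lit 0) (XT.lf (nat_lit 0) (nat_lit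 21093063602) (nat_lit 0) (nat_lit 0) (nat_lit 0) (nat_lit 0) (nat_lit 0) (nat_lit 0) (nat_lit 1) (nat_lit 0) (nat_lit 1) (nat_lit 0) (nat_lit 250) (nat_lit 301) (nat_lit 169)) (XT.lf (nat_lit 0) (nat_lit 21091463158) (nat_lit 0) (nat_lit 0) (nat_lit 0) (nat_lit 0) (nat_lit 0) (nat_lit 0) (nat_lit 1) (nat_lit 0) (nat_lit 1) (nat_lit 0) (nat_lit 251) (nat_lit 301) (nat_lit 168)))) (XT.nd (nat_lit 188) (nat_lit 0) (nat_lit 0) (XT.nd (nat_lit 94) (nat_lit 0) (nat_lit 0) (XT.lf (nat_lit 0) (nat_lit 21089938926) (nat_lit 0) (nat_lit 0) (nat_lit 0) (nat_lit 0) (nat_lit 0) (nat_lit 0) (nat_lit 1) (nat_lit 0) (nat_lit 1) (nat_lit 0) (nat_lit 252) (nat_lit 301) (nat_lit 167)) (XT.lf (nat_lit 0) (nat_lit 21088487277) (nat_lit 0) (nat_lit 0) (nat_lit 0) (nat_lit 0) (nat_lit 0) (nat_lit 0) (nat_lit 1) (nat_lit 0) (nat_lit 1) (nat_lit 0) (nat_lit 253) (nat_lit 301) (nat_lit 166))) (XT.nd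 (nat_lit 94) (nat_lit 0) (nat_lit 0) (XT.lf (nat_lit 0) (nat_lit 21087104754) (nat_lit 0) (nat_lit 0) (nat_lit 0) (nat_lit 0) (nat_lit 0) (nat_lit 0) (nat_lit 1) (nat_lit 0) (nat_lit 1) (nat_lit 0) (nat_lit 254) (nat_lit 301) (nat_lit 165)) (XT.lf (nat_lit 0) (nat_lit 21085788065) (nat_lit 0) (nat_lit 0) (nat_lit 0) (nat_lit 0) (nat_lit 0) (nat_lit 0) (nat_lit 1) (nat_lit 0) (nat_lit 1) (nat_lit 0) (nat_lit 255) (nat_lit 301) (nat_lit 164))))))))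
noncomputable def ec185 : XT := (XT.nd (nat_lit 2538) (nat_lit 0) (nat_lit 0) (XT.nd (nat_lit 1222) (nat_lit 0) (nat_lit 0) (XT.nd (nat_lit 564) (nat_lit 0) (nat_lit 0) (XT.nd (nat_lit 282) (nat_lit 0) (nat_lit 0) (XT.nd (nat_lit 94) (nat_lit 0) (nat_lit 0) (XT.lf (nat_lit 0) (nat_lit 21084534076) (nat_lit 0) (nat_lit 0) (nat_lit 0) (nat_lit 0) (nat_lit 0) (nat_lit 0) (nat_lit 1) (nat_lit 0) (nat_lit 1) (nat_lit 0) (nat_lit 256) (nat_lit 301) (nat_lit 163)) (XT.nd (nat_lit 94) (nat_lit 0) (nat_lit 0) (XT.lf (nat_lit 0) (nat_lit 21083339800) (nat_lit 0) (nat_lit 0) (nat_lit 0) (nat_lit 0) (nat_lit 0) (nat_lit 0) (nat_lit 1) (nat_lit 0) (nat_lit 1) (nat_lit 0) (nat_lit 257) (nat_lit 301) (nat_lit 162)) (XT.lf (nat_lit 0) (nat_lit 21082202395) (nat_lit 0) (nat_lit 0) (nat_lit 0) (nat_lit 0) (nat_lit 0) (nat_lit 0) (nat_lit 1) (nat_lit 0) (nat_lit 1) (nat_lit 0) (nat_lit 258)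 (nat_lit 301) (nat_lit 161)))) (XT.nd (nat_lit 94) (nat_lit 0) (nat_lit 0) (XT.lf (nat_lit 0) (nat_lit 21081119152) (nat_lit 0) (nat_lit 0) (nat_lit 0) (nat_lit 0) (nat_lit 0) (nat_lit 0) (nat_lit 1) (nat_lit 0) (nat_lit 1) (nat_lit 0) (nat_lit 259) (nat_lit 301) (nat_lit 160)) (XT.nd (nat_lit 94) (nat_lit 0) (nat_lit 0) (XT.lf (nat_lit 0) (nat_lit 21080087491) (nat_lit 0) (nat_lit 0) (nat_lit 0) (nat_lit 0) (nat_lit 0) (nat_lit 0) (nat_lit 1) (nat_lit 0) (nat_lit 1) (nat_lit 0) (nat_lit 260) (nat_lit 301) (nat_lit 159)) (XT.lf (nat_lit 0) (nat_lit 21079104958) (nat_lit 0) (nat_lit 0) (nat_lit 0) (nat_lit 0) (nat_lit 0) (nat_lit 0) (nat_lit 1) (nat_lit 0) (nat_lit 1) (nat_lit 0) (nat_lit 261) (nat_lit 301) (nat_lit 158))))) (XT.nd (nat_lit 282) (nat_lit 0) (nat_lit 0) (XT.nd (nat_lit 94) (nat_lit 0) (nat_lit 0) (XT.lf (nat_lit 0) (nat_lit 21078169212) (nat_lit 0) (nat_lit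 0) (nat_lit 0) (nat_lit 0) (nat_lit 0) (nat_lit 0) (nat_lit 1) (nat_lit 0) (nat_lit 1) (nat_lit 0) (nat_lit 262) (nat_lit 301) (nat_lit 157)) (XT.nd (nat_lit 94) (nat_lit 0) (nat_lit 0) (XT.lf (nat_lit 0) (nat_lit 21077278025) (nat_lit 0) (nat_lit 0) (nat_lit 0) (nat_lit 0) (nat_lit 0) (nat_lit 0) (nat_lit 1) (nat_lit 0) (nat_lit 1) (nat_lit 0) (nat_lit 263) (nat_lit 301) (nat_lit 156)) (XT.lf (nat_lit 0) (nat_lit 21076429276) (nat_lit 0) (nat_lit 0) (nat_lit 0) (nat_lit 0) (nat_lit 0) (nat_lit 0) (nat_lit 1) (nat_lit 0) (nat_lit 1) (nat_lit 0) (nat_lit 264) (nat_lit 301) (nat_lit 155)))) (XT.nd (nat_lit 188) (nat_lit 0) (nat_lit 0) (XT.nd (nat_lit 94) (nat_lit 0) (nat_lit 0) (XT.lf (nat_lit 0) (nat_lit 21075620943) (nat_lit 0) (nat_lit 0) (nat_lit 0) (nat_lit 0) (nat_lit 0) (nat_lit 0) (nat_lit 1) (nat_lit 0) (nat_lit 1) (nat_lit 0) (nat_lit 265) (nat_lit 301) (nat_lit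 154)) (XT.lf (nat_lit 0) (nat_lit 21074851102) (nat_lit 0) (nat_lit 0) (nat_lit 0) (nat_lit 0) (nat_lit 0) (nat_lit 0) (nat_lit 1) (nat_lit 0) (nat_lit 1) (nat_lit 0) (nat_lit 266) (nat_lit 301) (nat_lit 153))) (XT.nd (nat_lit 94) (nat_lit 0) (nat_lit 0) (XT.lf (nat_lit 0) (nat_lit 21074117921) (nat_lit 0) (nat_lit 0) (nat_lit 0) (nat_lit 0) (nat_lit 0) (nat_lit 0) (nat_lit 1) (nat_lit 0) (nat_lit 1) (nat_lit 0) (nat_lit 267) (nat_lit 301) (nat_lit 152)) (XT.lf (nat_lit 0) (nat_lit 21073419652) (nat_lit 0) (nat_lit 0) (nat_lit 0) (nat_lit 0) (nat_lit 0) (nat_lit 0) (nat_lit 1) (nat_lit 0) (nat_lit 1) (nat_lit 0) (nat_lit 268) (nat_lit 301) (nat_lit 151)))))) (XT.nd (nat_lit 658) (nat_lit 0) (nat_lit 0) (XT.nd (nat_lit 282) (nat_lit 0) (nat_lit 0) (XT.nd (nat_lit 94) (nat_lit 0) (nat_lit 0) (XT.lf (nat_lit 0) (nat_lit 21072754635) (nat_lit 0) (nat_lit 0) (nat_lit 0) (nat_lit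 0) (nat_lit 0) (nat_lit 0) (nat_lit 1) (nat_lit 0) (nat_lit 1) (nat_lit 0) (nat_lit 269) (nat_lit 301) (nat_lit 150)) (XT.nd (nat_lit 94) (nat_lit 0) (nat_lit 0) (XT.lf (nat_lit 0) (nat_lit 21072121285) (nat_lit 0) (nat_lit 0) (nat_lit 0) (nat_lit 0) (nat_lit 0) (nat_lit 0) (nat_lit 1) (nat_lit 0) (nat_lit 1) (nat_lit 0) (nat_lit 270) (nat_lit 301) (nat_lit 149)) (XT.lf (nat_lit 0) (nat_lit 21071518095) (nat_lit 0) (nat_lit 0) (nat_lit 0) (nat_lit 0) (nat_lit 0) (nat_lit 0) (nat_lit 1) (nat_lit 0) (nat_lit 1) (nat_lit 0) (nat_lit 271) (nat_lit 301) (nat_lit 148)))) (XT.nd (nat_lit 188) (nat_lit 0) (nat_lit 0) (XT.nd (nat_lit 94) (nat_lit 0) (nat_lit 0) (XT.lf (nat_lit 0) (nat_lit 21070943628) (nat_lit 0) (nat_lit 0) (nat_lit 0) (nat_lit 0) (nat_lit 0) (nat_lit 0) (nat_lit 1) (nat_lit 0) (nat_lit 1) (nat_lit 0) (nat_lit 272) (nat_lit 301) (nat_lit 147)) (XT.lf (nat_lit 0)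 (nat_lit 21070396517) (nat_lit 0) (nat_lit 0) (nat_lit 0) (nat_lit 0) (nat_lit 0) (nat_lit 0) (nat_lit 1) (nat_lit 0) (nat_lit 1) (nat_lit 0) (nat_lit 273) (nat_lit 301) (nat_lit 146))) (XT.nd (nat_lit 94) (nat_lit 0) (nat_lit 0) (XT.lf (nat_lit 0) (nat_lit 21069875458) (nat_lit 0) (nat_lit 0) (nat_lit 0) (nat_lit 0) (nat_lit 0) (nat_lit 0) (nat_lit 1) (nat_lit 0) (nat_lit 1) (nat_lit 0) (nat_lit 274) (nat_lit 301) (nat_lit 145)) (XT.lf (nat_lit 0) (nat_lit 21069379212) (nat_lit 0) (nat_lit 0) (nat_lit 0) (nat_lit 0) (nat_lit 0) (nat_lit 0) (nat_lit 1) (nat_lit 0) (nat_lit 1) (nat_lit 0) (nat_lit 275) (nat_lit 301) (nat_lit 144))))) (XT.nd (nat_lit 282) (nat_lit 0) (nat_lit 0) (XT.nd (nat_lit 94) (nat_lit 0) (nat_lit 0) (XT.lf (nat_lit 0) (nat_lit 21068906597) (nat_lit 0) (nat_lit 0) (nat_lit 0) (nat_lit 0) (nat_lit 0) (nat_lit 0) (nat_lit 1) (nat_lit 0) (nat_lit 1) (nat_lit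 0) (nat_lit 276) (nat_lit 301) (nat_lit 143)) (XT.nd (nat_lit 94) (nat_lit 0) (nat_lit 0) (XT.lf (nat_lit 0) (nat_lit 21068456487) (nat_lit 0) (nat_lit 0) (nat_lit 0) (nat_lit 0) (nat_lit 0) (nat_lit 0) (nat_lit 1) (nat_lit 0) (nat_lit 1) (nat_lit 0) (nat_lit 277) (nat_lit 301) (nat_lit 142)) (XT.lf (nat_lit 0) (nat_lit 21068027811) (nat_lit 0) (nat_lit 0) (nat_lit 0) (nat_lit 0) (nat_lit 0) (nat_lit 0) (nat_lit 1) (nat_lit 0) (nat_lit 1) (nat_lit 0) (nat_lit 278) (nat_lit 301) (nat_lit 141)))) (XT.nd (nat_lit 188) (nat_lit 0) (nat_lit 0) (XT.nd (nat_lit 94) (nat_lit 0) (nat_lit 0) (XT.lf (nat_lit 0) (nat_lit 21067619548) (nat_lit 0) (nat_lit 0) (nat_lit 0) (nat_lit 0) (nat_lit 0) (nat_lit 0) (nat_lit 1) (nat_lit 0) (nat_lit 1) (nat_lit 0) (nat_lit 279) (nat_lit 301) (nat_lit 140)) (XT.lf (nat_lit 0) (nat_lit 21067230726) (nat_lit 0) (nat_lit 0) (nat_lit 0) (nat_lit 0) (nat_lit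 0) (nat_lit 0) (nat_lit 1) (nat_lit 0) (nat_lit 1) (nat_lit 0) (nat_lit 280) (nat_lit 301) (nat_lit 139))) (XT.nd (nat_lit 94) (nat_lit 0) (nat_lit 0) (XT.lf (nat_lit 0) (nat_lit 21066860419) (nat_lit 0) (nat_lit 0) (nat_lit 0) (nat_lit 0) (nat_lit 0) (nat_lit 0) (nat_lit 1) (nat_lit 0) (nat_lit 1) (nat_lit 0) (nat_lit 281) (nat_lit 301) (nat_lit 138)) (XT.lf (nat_lit 0) (nat_lit 21066507746) (nat_lit 0) (nat_lit 0) (nat_lit 0) (nat_lit 0) (nat_lit 0) (nat_lit 0) (nat_lit 1) (nat_lit 0) (nat_lit 1) (nat_lit 0) (nat_lit 282) (nat_lit 301) (nat_lit 137))))))) (XT.nd (nat_lit 1316) (nat_lit 0) (nat_lit 0) (XT.nd (nat_lit 658) (nat_lit 0) (nat_lit 0) (XT.nd (nat_lit 282) (nat_lit 0) (nat_lit 0) (XT.nd (nat_lit 94) (nat_lit 0) (nat_lit 0) (XT.lf (nat_lit 0) (nat_lit 21066171867) (nat_lit 0) (nat_lit 0) (nat_lit 0) (nat_lit 0) (nat_lit 0) (nat_lit 0) (nat_lit 1) (nat_lit 0) (nat_lit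 1) (nat_lit 0) (nat_lit 283) (nat_lit 301) (nat_lit 136)) (XT.nd (nat_lit 94) (nat_lit 0) (nat_lit 0) (XT.lf (nat_lit 0) (nat_lit 21065851983) (nat_lit 0) (nat_lit 0) (nat_lit 0) (nat_lit 0) (nat_lit 0) (nat_lit 0) (nat_lit 1) (nat_lit 0) (nat_lit 1) (nat_lit 0) (nat_lit 284) (nat_lit 301) (nat_lit 135)) (XT.lf (nat_lit 0) (nat_lit 21065547331) (nat_lit 0) (nat_lit 0) (nat_lit 0) (nat_lit 0) (nat_lit 0) (nat_lit 0) (nat_lit 1) (nat_lit 0) (nat_lit 1) (nat_lit 0) (nat_lit 285) (nat_lit 301) (nat_lit 134)))) (XT.nd (nat_lit 188) (nat_lit 0) (nat_lit 0) (XT.nd (nat_lit 94) (nat_lit 0) (nat_lit 0) (XT.lf (nat_lit 0) (nat_lit 21065257186) (nat_lit 0) (nat_lit 0) (nat_lit 0) (nat_lit 0) (nat_lit 0) (nat_lit 0) (nat_lit 1) (nat_lit 0) (nat_lit 1) (nat_lit 0) (nat_lit 286) (nat_lit 301) (nat_lit 133)) (XT.lf (nat_lit 0) (nat_lit 21064980857) (nat_lit 0) (nat_lit 0) (nat_lit 0) (nat_lit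 0) (nat_lit 0) (nat_lit 0) (nat_lit 1) (nat_lit 0) (nat_lit 1) (nat_lit 0) (nat_lit 287) (nat_lit 301) (nat_lit 132))) (XT.nd (nat_lit 94) (nat_lit 0) (nat_lit 0) (XT.lf (nat_lit 0) (nat_lit 21064717687) (nat_lit 0) (nat_lit 0) (nat_lit 0) (nat_lit 0) (nat_lit 0) (nat_lit 0) (nat_lit 1) (nat_lit 0) (nat_lit 1) (nat_lit 0) (nat_lit 288) (nat_lit 301) (nat_lit 131)) (XT.lf (nat_lit 0) (nat_lit 21064467049) (nat_lit 0) (nat_lit 0) (nat_lit 0) (nat_lit 0) (nat_lit 0) (nat_lit 0) (nat_lit 1) (nat_lit 0) (nat_lit 1) (nat_lit 0) (nat_lit 289) (nat_lit 301) (nat_lit 130))))) (XT.nd (nat_lit 282) (nat_lit 0) (nat_lit 0) (XT.nd (nat_lit 94) (nat_lit 0) (nat_lit 0) (XT.lf (nat_lit 0) (nat_lit 21064228347) (nat_lit 0) (nat_lit 0) (nat_lit 0) (nat_lit 0) (nat_lit 0) (nat_lit 0) (nat_lit 1) (nat_lit 0) (nat_lit 1) (nat_lit 0) (nat_lit 290) (nat_lit 301) (nat_lit 129)) (XT.nd (nat_lit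 94) (nat_lit 0) (nat_lit 0) (XT.lf (nat_lit 0) (nat_lit 21064001010) (nat_lit 0) (nat_lit 0) (nat_lit 0) (nat_lit 0) (nat_lit 0) (nat_lit 0) (nat_lit 1) (nat_lit 0) (nat_lit 1) (nat_lit 0) (nat_lit 291) (nat_lit 301) (nat_lit 128)) (XT.lf (nat_lit 0) (nat_lit 21063784500) (nat_lit 0) (nat_lit 0) (nat_lit 0) (nat_lit 0) (nat_lit 0) (nat_lit 0) (nat_lit 1) (nat_lit 0) (nat_lit 1) (nat_lit 0) (nat_lit 292) (nat_lit 301) (nat_lit 127)))) (XT.nd (nat_lit 188) (nat_lit 0) (nat_lit 0) (XT.nd (nat_lit 94) (nat_lit 0) (nat_lit 0) (XT.lf (nat_lit 0) (nat_lit 21063578299) (nat_lit 0) (nat_lit 0) (nat_lit 0) (nat_lit 0) (nat_lit 0) (nat_lit 0) (nat_lit 1) (nat_lit 0) (nat_lit 1) (nat_lit 0) (nat_lit 293) (nat_lit 301) (nat_lit 126)) (XT.lf (nat_lit 0) (nat_lit 21063381918) (nat_lit 0) (nat_lit 0) (nat_lit 0) (nat_lit 0) (nat_lit 0) (nat_lit 0) (nat_lit 1) (nat_lit 0) (nat_lit 1) (nat_lit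 0) (nat_lit 294) (nat_lit 301) (nat_lit 125))) (XT.nd (nat_lit 94) (nat_lit 0) (nat_lit 0) (XT.lf (nat_lit 0) (nat_lit 21063194888) (nat_lit 0) (nat_lit 0) (nat_lit 0) (nat_lit 0) (nat_lit 0) (nat_lit 0) (nat_lit 1) (nat_lit 0) (nat_lit 1) (nat_lit 0) (nat_lit 295) (nat_lit 301) (nat_lit 124)) (XT.lf (nat_lit 0) (nat_lit 21063016764) (nat_lit 0) (nat_lit 0) (nat_lit 0) (nat_lit 0) (nat_lit 0) (nat_lit 0) (nat_lit 1) (nat_lit 0) (nat_lit 1) (nat_lit 0) (nat_lit 296) (nat_lit 301) (nat_lit 123)))))) (XT.nd (nat_lit 658) (nat_lit 0) (nat_lit 0) (XT.nd (nat_lit 282) (nat_lit 0) (nat_lit 0) (XT.nd (nat_lit 94) (nat_lit 0) (nat_lit 0) (XT.lf (nat_lit 0) (nat_lit 21062847122) (nat_lit 0) (nat_lit 0) (nat_lit 0) (nat_lit 0) (nat_lit 0) (nat_lit 0) (nat_lit 1) (nat_lit 0) (nat_lit 1) (nat_lit 0) (nat_lit 297) (nat_lit 301) (nat_lit 122)) (XT.nd (nat_lit 94) (nat_lit 0) (nat_lit 0)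 (XT.lf (nat_lit 0) (nat_lit 21062685559) (nat_lit 0) (nat_lit 0) (nat_lit 0) (nat_lit 0) (nat_lit 0) (nat_lit 0) (nat_lit 1) (nat_lit 0) (nat_lit 1) (nat_lit 0) (nat_lit 298) (nat_lit 301) (nat_lit 121)) (XT.lf (nat_lit 0) (nat_lit 21062531689) (nat_lit 0) (nat_lit 0) (nat_lit 0) (nat_lit 0) (nat_lit 0) (nat_lit 0) (nat_lit 1) (nat_lit 0) (nat_lit 1) (nat_lit 0) (nat_lit 299) (nat_lit 301) (nat_lit 120)))) (XT.nd (nat_lit 188) (nat_lit 0) (nat_lit 0) (XT.nd (nat_lit 94) (nat_lit 0) (nat_lit 0) (XT.lf (nat_lit 0) (nat_lit 21062385146) (nat_lit 0) (nat_lit 0) (nat_lit 0) (nat_lit 0) (nat_lit 0) (nat_lit 0) (nat_lit 1) (nat_lit 0) (nat_lit 1) (nat_lit 0) (nat_lit 300) (nat_lit 301) (nat_lit 119)) (XT.lf (nat_lit 0) (nat_lit 21062245581) (nat_lit 0) (nat_lit 0) (nat_lit 0) (nat_lit 0) (nat_lit 0) (nat_lit 0) (nat_lit 1) (nat_lit 0) (nat_lit 1) (nat_lit 0) (nat_lit 301) (nat_lit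 301) (nat_lit 118))) (XT.nd (nat_lit 94) (nat_lit 0) (nat_lit 0) (XT.lf (nat_lit 0) (nat_lit 21062112663) (nat_lit 0) (nat_lit 0) (nat_lit 0) (nat_lit 0) (nat_lit 0) (nat_lit 0) (nat_lit 1) (nat_lit 0) (nat_lit 1) (nat_lit 0) (nat_lit 302) (nat_lit 301) (nat_lit 117)) (XT.lf (nat_lit 0) (nat_lit 21061986074) (nat_lit 0) (nat_lit 0) (nat_lit 0) (nat_lit 0) (nat_lit 0) (nat_lit 0) (nat_lit 1) (nat_lit 0) (nat_lit 1) (nat_lit 0) (nat_lit 303) (nat_lit 301) (nat_lit 116))))) (XT.nd (nat_lit 282) (nat_lit 0) (nat_lit 0) (XT.nd (nat_lit 94) (nat_lit 0) (nat_lit 0) (XT.lf (nat_lit 0) (nat_lit 21061865512) (nat_lit 0) (nat_lit 0) (nat_lit 0) (nat_lit 0) (nat_lit 0) (nat_lit 0) (nat_lit 1) (nat_lit 0) (nat_lit 1) (nat_lit 0) (nat_lit 304) (nat_lit 301) (nat_lit 115)) (XT.nd (nat_lit 94) (nat_lit 0) (nat_lit 0) (XT.lf (nat_lit 0) (nat_lit 21061750692) (nat_lit 0) (nat_lit 0) (nat_lit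 0) (nat_lit 0) (nat_lit 0) (nat_lit 0) (nat_lit 1) (nat_lit 0) (nat_lit 1) (nat_lit 0) (nat_lit 305) (nat_lit 301) (nat_lit 114)) (XT.lf (nat_lit 0) (nat_lit 21061641340) (nat_lit 0) (nat_lit 0) (nat_lit 0) (nat_lit 0) (nat_lit 0) (nat_lit 0) (nat_lit 1) (nat_lit 0) (nat_lit 1) (nat_lit 0) (nat_lit 306) (nat_lit 301) (nat_lit 113)))) (XT.nd (nat_lit 188) (nat_lit 0) (nat_lit 0) (XT.nd (nat_lit 94) (nat_lit 0) (nat_lit 0) (XT.lf (nat_lit 0) (nat_lit 21061537194) (nat_lit 0) (nat_lit 0) (nat_lit 0) (nat_lit 0) (nat_lit 0) (nat_lit 0) (nat_lit 1) (nat_lit 0) (nat_lit 1) (nat_lit 0) (nat_lit 307) (nat_lit 301) (nat_lit 112)) (XT.lf (nat_lit 0) (nat_lit 21061438008) (nat_lit 0) (nat_lit 0) (nat_lit 0) (nat_lit 0) (nat_lit 0) (nat_lit 0) (nat_lit 1) (nat_lit 0) (nat_lit 1) (nat_lit 0) (nat_lit 308) (nat_lit 301) (nat_lit 111))) (XT.nd (nat_lit 94) (nat_lit 0) (nat_lit 0) (XT.lf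 (nat_lit 0) (nat_lit 21061343546) (nat_lit 0) (nat_lit 0) (nat_lit 0) (nat_lit 0) (nat_lit 0) (nat_lit 0) (nat_lit 1) (nat_lit 0) (nat_lit 1) (nat_lit 0) (nat_lit 309) (nat_lit 301) (nat_lit 110)) (XT.lf (nat_lit 0) (nat_lit 21061253581) (nat_lit 0) (nat_lit 0) (nat_lit 0) (nat_lit 0) (nat_lit 0) (nat_lit 0) (nat_lit 1) (nat_lit 0) (nat_lit 1) (nat_lit 0) (nat_lit 310) (nat_lit 301) (nat_lit 109))))))))
noncomputable def ec186 : XT := (XT.nd (nat_lit 29234) (nat_lit 0) (nat_lit 3528) (XT.nd (nat_lit 27918) (nat_lit 0) (nat_lit 7476) (XT.nd (nat_lit 27260) (nat_lit 0) (nat_lit 10920) (XT.nd (nat_lit 26978) (nat_lit 0) (nat_lit 10752) (XT.nd (nat_lit 94) (nat_lit 0) (nat_lit 0) (XT.lf (nat_lit 0) (nat_lit 21061167900) (nat_lit 0) (nat_lit 0) (nat_lit 0) (nat_lit 0) (nat_lit 0) (nat_lit 0) (nat_lit 1) (nat_lit 0) (nat_lit 1) (nat_lit 0) (nat_lit 311) (nat_lit 301) (nat_lit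 108)) (XT.nd (nat_lit 26790) (nat_lit 0) (nat_lit 10752) (XT.lf (nat_lit 0) (nat_lit 21061086300) (nat_lit 0) (nat_lit 0) (nat_lit 0) (nat_lit 0) (nat_lit 0) (nat_lit 0) (nat_lit 1) (nat_lit 0) (nat_lit 1) (nat_lit 0) (nat_lit 312) (nat_lit 301) (nat_lit 107)) (XT.lf (nat_lit 924) (nat_lit 11065886751) (nat_lit 0) (nat_lit 19647456490) (nat_lit 924) (nat_lit 11065886751) (nat_lit 139) (nat_lit 1) (nat_lit 128) (nat_lit 0) (nat_lit 139) (nat_lit 0) (nat_lit 116) (nat_lit 302) (nat_lit 302)))) (XT.nd (nat_lit 94) (nat_lit 0) (nat_lit 84) (XT.lf (nat_lit 924) (nat_lit 42892758568) (nat_lit 84) (nat_lit 19330562031) (nat_lit 0) (nat_lit 19330562031) (nat_lit 139) (nat_lit 1) (nat_lit 129) (nat_lit 1) (nat_lit 128) (nat_lit 0) (nat_lit 117) (nat_lit 302) (nat_lit 301)) (XT.nd (nat_lit 94) (nat_lit 0) (nat_lit 0) (XT.lf (nat_lit 924) (nat_lit 20442042898) (nat_lit 0) (nat_lit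 38727191735) (nat_lit 840) (nat_lit 20442042898) (nat_lit 140) (nat_lit 1) (nat_lit 129) (nat_lit 1) (nat_lit 139) (nat_lit 1) (nat_lit 118) (nat_lit 302) (nat_lit 300)) (XT.lf (nat_lit 924) (nat_lit 38346431983) (nat_lit 84) (nat_lit 19692500533) (nat_lit 0) (nat_lit 19692500533) (nat_lit 140) (nat_lit 1) (nat_lit 130) (nat_lit 1) (nat_lit 129) (nat_lit 1) (nat_lit 119) (nat_lit 302) (nat_lit 299))))) (XT.nd (nat_lit 282) (nat_lit 0) (nat_lit 84) (XT.nd (nat_lit 94) (nat_lit 0) (nat_lit 0) (XT.lf (nat_lit 924) (nat_lit 17650494397) (nat_lit 0) (nat_lit 40610181415) (nat_lit 840) (nat_lit 17650494397) (nat_lit 141) (nat_lit 1) (nat_lit 130) (nat_lit 1) (nat_lit 140) (nat_lit 1) (nat_lit 120) (nat_lit 302) (nat_lit 298)) (XT.nd (nat_lit 94) (nat_lit 0) (nat_lit 84) (XT.lf (nat_lit 924) (nat_lit 31745563785) (nat_lit 84) (nat_lit 21200416075) (nat_lit 0) (nat_lit 21200416075)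 (nat_lit 141) (nat_lit 1) (nat_lit 131) (nat_lit 1) (nat_lit 130) (nat_lit 1) (nat_lit 121) (nat_lit 302) (nat_lit 297)) (XT.lf (nat_lit 924) (nat_lit 13919512825) (nat_lit 0) (nat_lit 44601851022) (nat_lit 840) (nat_lit 13919512825) (nat_lit 142) (nat_lit 1) (nat_lit 131) (nat_lit 1) (nat_lit 141) (nat_lit 1) (nat_lit 122) (nat_lit 302) (nat_lit 296)))) (XT.nd (nat_lit 188) (nat_lit 0) (nat_lit 84) (XT.nd (nat_lit 94) (nat_lit 0) (nat_lit 84) (XT.lf (nat_lit 924) (nat_lit 23399128447) (nat_lit 84) (nat_lit 23691593875) (nat_lit 0) (nat_lit 23691593875) (nat_lit 142) (nat_lit 1) (nat_lit 132) (nat_lit 1) (nat_lit 131) (nat_lit 1) (nat_lit 123) (nat_lit 302) (nat_lit 295)) (XT.lf (nat_lit 924) (nat_lit 9393531325) (nat_lit 0) (nat_lit 50397405845) (nat_lit 840) (nat_lit 9393531325) (nat_lit 143) (nat_lit 1) (nat_lit 132) (nat_lit 1) (nat_lit 142) (nat_lit 1) (nat_lit 124)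 (nat_lit 302) (nat_lit 294))) (XT.nd (nat_lit 94) (nat_lit 0) (nat_lit 84) (XT.lf (nat_lit 924) (nat_lit 13581757649) (nat_lit 84) (nat_lit 27021121721) (nat_lit 0) (nat_lit 27021121721) (nat_lit 143) (nat_lit 1) (nat_lit 133) (nat_lit 1) (nat_lit 132) (nat_lit 1) (nat_lit 125) (nat_lit 302) (nat_lit 293)) (XT.lf (nat_lit 84) (nat_lit 4200836275) (nat_lit 0) (nat_lit 57725566646) (nat_lit 840) (nat_lit 4200836275) (nat_lit 134) (nat_lit 1) (nat_lit 133) (nat_lit 1) (nat_lit 143) (nat_lit 1) (nat_lit 126) (nat_lit 302) (nat_lit 292)))))) (XT.nd (nat_lit 658) (nat_lit 1428) (nat_lit 0) (XT.nd (nat_lit 282) (nat_lit 840) (nat_lit 0) (XT.nd (nat_lit 94) (nat_lit 588) (nat_lit 0) (XT.lf (nat_lit 924) (nat_lit 2537200644) (nat_lit 0) (nat_lit 31060107480) (nat_lit 840) (nat_lit 31060107480) (nat_lit 134) (nat_lit 1) (nat_lit 123) (nat_lit 1) (nat_lit 133) (nat_lit 1) (nat_lit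 127) (nat_lit 302) (nat_lit 291)) (XT.nd (nat_lit 94) (nat_lit 0) (nat_lit 0) (XT.lf (nat_lit 588) (nat_lit 60210966564) (nat_lit 0) (nat_lit 1519885911) (nat_lit 504) (nat_lit 1519885911) (nat_lit 123) (nat_lit 1) (nat_lit 116) (nat_lit 1) (nat_lit 122) (nat_lit 1) (nat_lit 128) (nat_lit 302) (nat_lit 290)) (XT.lf (nat_lit 84) (nat_lit 26324129788) (nat_lit 0) (nat_lit 9213896801) (nat_lit 588) (nat_lit 26324129788) (nat_lit 117) (nat_lit 1) (nat_lit 116) (nat_lit 1) (nat_lit 123) (nat_lit 1) (nat_lit 129) (nat_lit 302) (nat_lit 289)))) (XT.nd (nat_lit 188) (nat_lit 420) (nat_lit 0) (XT.nd (nat_lit 94) (nat_lit 0) (nat_lit 0) (XT.lf (nat_lit 504) (nat_lit 45297070254) (nat_lit 0) (nat_lit 7617775170) (nat_lit 420) (nat_lit 7617775170) (nat_lit 117) (nat_lit 1) (nat_lit 111) (nat_lit 1) (nat_lit 116) (nat_lit 1) (nat_lit 130) (nat_lit 302) (nat_lit 288)) (XT.lf (nat_lit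 84) (nat_lit 18776681322) (nat_lit 0) (nat_lit 21677672686) (nat_lit 504) (nat_lit 18776681322) (nat_lit 112) (nat_lit 1) (nat_lit 111) (nat_lit 1) (nat_lit 117) (nat_lit 1) (nat_lit 131) (nat_lit 302) (nat_lit 287))) (XT.nd (nat_lit 94) (nat_lit 0) (nat_lit 0) (XT.lf (nat_lit 504) (nat_lit 29828763134) (nat_lit 0) (nat_lit 14073008832) (nat_lit 420) (nat_lit 14073008832) (nat_lit 112) (nat_lit 1) (nat_lit 106) (nat_lit 1) (nat_lit 111) (nat_lit 1) (nat_lit 132) (nat_lit 302) (nat_lit 286)) (XT.lf (nat_lit 84) (nat_lit 10991502789) (nat_lit 0) (nat_lit 34772056803) (nat_lit 504) (nat_lit 10991502789) (nat_lit 107) (nat_lit 1) (nat_lit 106) (nat_lit 1) (nat_lit 112) (nat_lit 1) (nat_lit 133) (nat_lit 302) (nat_lit 285))))) (XT.nd (nat_lit 282) (nat_lit 672) (nat_lit 0) (XT.nd (nat_lit 94) (nat_lit 420) (nat_lit 0) (XT.lf (nat_lit 420) (nat_lit 13950015899) (nat_lit 0) (nat_lit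 20808351622) (nat_lit 336) (nat_lit 20808351622) (nat_lit 107) (nat_lit 1) (nat_lit 102) (nat_lit 1) (nat_lit 106) (nat_lit 1) (nat_lit 134) (nat_lit 302) (nat_lit 284)) (XT.nd (nat_lit 94) (nat_lit 420) (nat_lit 0) (XT.lf (nat_lit 84) (nat_lit 3035430377) (nat_lit 0) (nat_lit 48353212985) (nat_lit 420) (nat_lit 3035430377) (nat_lit 103) (nat_lit 1) (nat_lit 102) (nat_lit 1) (nat_lit 107) (nat_lit 1) (nat_lit 135) (nat_lit 302) (nat_lit 283)) (XT.lf (nat_lit 84) (nat_lit 25577408587) (nat_lit 0) (nat_lit 2142157653) (nat_lit 420) (nat_lit 25577408587) (nat_lit 98) (nat_lit 1) (nat_lit 97) (nat_lit 1) (nat_lit 102) (nat_lit 1) (nat_lit 136) (nat_lit 302) (nat_lit 282)))) (XT.nd (nat_lit 188) (nat_lit 336) (nat_lit 0) (XT.nd (nat_lit 94) (nat_lit 0) (nat_lit 0) (XT.lf (nat_lit 420) (nat_lit 42309067403) (nat_lit 0) (nat_lit 4951865602) (nat_lit 336) (nat_lit 4951865602) (nat_lit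 98) (nat_lit 1) (nat_lit 93) (nat_lit 1) (nat_lit 97) (nat_lit 1) (nat_lit 137) (nat_lit 302) (nat_lit 281)) (XT.lf (nat_lit 84) (nat_lit 16595476271) (nat_lit 0) (nat_lit 17956269128) (nat_lit 420) (nat_lit 16595476271) (nat_lit 94) (nat_lit 1) (nat_lit 93) (nat_lit 1) (nat_lit 98) (nat_lit 1) (nat_lit 138) (nat_lit 302) (nat_lit 280))) (XT.nd (nat_lit 94) (nat_lit 0) (nat_lit 0) (XT.lf (nat_lit 420) (nat_lit 24217416383) (nat_lit 0) (nat_lit 12950589406) (nat_lit 336) (nat_lit 12950589406) (nat_lit 94) (nat_lit 1) (nat_lit 89) (nat_lit 1) (nat_lit 93) (nat_lit 1) (nat_lit 139) (nat_lit 302) (nat_lit 279)) (XT.lf (nat_lit 84) (nat_lit 7637092321) (nat_lit 0) (nat_lit 33845861202) (nat_lit 420) (nat_lit 7637092321) (nat_lit 90) (nat_lit 1) (nat_lit 89) (nat_lit 1) (nat_lit 94) (nat_lit 1) (nat_lit 140) (nat_lit 302) (nat_lit 278))))))) (XT.nd (nat_lit 1222) (nat_lit 1680)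 (nat_lit 0) (XT.nd (nat_lit 564) (nat_lit 1092) (nat_lit 0) (XT.nd (nat_lit 282) (nat_lit 504) (nat_lit 0) (XT.nd (nat_lit 94) (nat_lit 420) (nat_lit 0) (XT.lf (nat_lit 336) (nat_lit 6210920094) (nat_lit 0) (nat_lit 20966065542) (nat_lit 252) (nat_lit 20966065542) (nat_lit 90) (nat_lit 1) (nat_lit 86) (nat_lit 1) (nat_lit 89) (nat_lit 1) (nat_lit 141) (nat_lit 302) (nat_lit 277)) (XT.nd (nat_lit 94) (nat_lit 0) (nat_lit 0) (XT.lf (nat_lit 420) (nat_lit 44721867738) (nat_lit 0) (nat_lit 1240946017) (nat_lit 336) (nat_lit 1240946017) (nat_lit 86) (nat_lit 1) (nat_lit 81) (nat_lit 1) (nat_lit 85) (nat_lit 1) (nat_lit 142) (nat_lit 302) (nat_lit 276)) (XT.lf (nat_lit 84) (nat_lit 17499997469) (nat_lit 0) (nat_lit 11269672294) (nat_lit 420) (nat_lit 17499997469) (nat_lit 82) (nat_lit 1) (nat_lit 81) (nat_lit 1) (nat_lit 86) (nat_lit 1) (nat_lit 143) (nat_lit 302) (nat_lit 275))))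 (XT.nd (nat_lit 94) (nat_lit 252) (nat_lit 0) (XT.lf (nat_lit 336) (nat_lit 25559299553) (nat_lit 0) (nat_lit 9906050036) (nat_lit 252) (nat_lit 9906050036) (nat_lit 82) (nat_lit 1) (nat_lit 78) (nat_lit 1) (nat_lit 81) (nat_lit 1) (nat_lit 144) (nat_lit 302) (nat_lit 274)) (XT.nd (nat_lit 94) (nat_lit 252) (nat_lit 0) (XT.lf (nat_lit 84) (nat_lit 8074578091) (nat_lit 0) (nat_lit 28346797871) (nat_lit 336) (nat_lit 8074578091) (nat_lit 79) (nat_lit 1) (nat_lit 78) (nat_lit 1) (nat_lit 82) (nat_lit 1) (nat_lit 145) (nat_lit 302) (nat_lit 273)) (XT.lf (nat_lit 336) (nat_lit 6729908458) (nat_lit 0) (nat_lit 18455258086) (nat_lit 252) (nat_lit 18455258086) (nat_lit 79) (nat_lit 1) (nat_lit 75) (nat_lit 1) (nat_lit 78) (nat_lit 1) (nat_lit 146) (nat_lit 302) (nat_lit 272))))) (XT.nd (nat_lit 282) (nat_lit 504) (nat_lit 0) (XT.nd (nat_lit 94) (nat_lit 252) (nat_lit 0) (XT.lf (nat_lit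 336) (nat_lit 40503470636) (nat_lit 0) (nat_lit 1156604287) (nat_lit 252) (nat_lit 1156604287) (nat_lit 75) (nat_lit 1) (nat_lit 71) (nat_lit 1) (nat_lit 74) (nat_lit 1) (nat_lit 147) (nat_lit 302) (nat_lit 271)) (XT.nd (nat_lit 94) (nat_lit 252) (nat_lit 0) (XT.lf (nat_lit 84) (nat_lit 15321302995) (nat_lit 0) (nat_lit 11352931676) (nat_lit 336) (nat_lit 15321302995) (nat_lit 72) (nat_lit 1) (nat_lit 71) (nat_lit 1) (nat_lit 75) (nat_lit 1) (nat_lit 148) (nat_lit 302) (nat_lit 270)) (XT.lf (nat_lit 336) (nat_lit 21068194527) (nat_lit 0) (nat_lit 10068291982) (nat_lit 252) (nat_lit 10068291982) (nat_lit 72) (nat_lit 1) (nat_lit 68) (nat_lit 1) (nat_lit 71) (nat_lit 1) (nat_lit 149) (nat_lit 302) (nat_lit 269)))) (XT.nd (nat_lit 188) (nat_lit 336) (nat_lit 0) (XT.nd (nat_lit 94) (nat_lit 168) (nat_lit 0) (XT.lf (nat_lit 84) (nat_lit 5802163590) (nat_lit 0) (nat_lit 28830900656)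 (nat_lit 336) (nat_lit 5802163590) (nat_lit 69) (nat_lit 1) (nat_lit 68) (nat_lit 1) (nat_lit 72) (nat_lit 1) (nat_lit 150) (nat_lit 302) (nat_lit 268)) (XT.lf (nat_lit 252) (nat_lit 2126105657) (nat_lit 0) (nat_lit 18777036622) (nat_lit 168) (nat_lit 18777036622) (nat_lit 69) (nat_lit 1) (nat_lit 66) (nat_lit 1) (nat_lit 68) (nat_lit 1) (nat_lit 151) (nat_lit 302) (nat_lit 267))) (XT.nd (nat_lit 94) (nat_lit 0) (nat_lit 0) (XT.lf (nat_lit 336) (nat_lit 32124743570) (nat_lit 0) (nat_lit 3411880618) (nat_lit 252) (nat_lit 3411880618) (nat_lit 66) (nat_lit 1) (nat_lit 62) (nat_lit 1) (nat_lit 65) (nat_lit 1) (nat_lit 152) (nat_lit 302) (nat_lit 266)) (XT.lf (nat_lit 84) (nat_lit 11220410379) (nat_lit 0) (nat_lit 15784193022) (nat_lit 336) (nat_lit 11220410379) (nat_lit 63) (nat_lit 1) (nat_lit 62) (nat_lit 1) (nat_lit 66) (nat_lit 1) (nat_lit 153) (nat_lit 302) (nat_lit 265))))))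 (XT.nd (nat_lit 658) (nat_lit 672) (nat_lit 0) (XT.nd (nat_lit 282) (nat_lit 588) (nat_lit 0) (XT.nd (nat_lit 94) (nat_lit 252) (nat_lit 0) (XT.lf (nat_lit 252) (nat_lit 12963453371) (nat_lit 0) (nat_lit 12280199151) (nat_lit 168) (nat_lit 12280199151) (nat_lit 63) (nat_lit 1) (nat_lit 60) (nat_lit 1) (nat_lit 62) (nat_lit 1) (nat_lit 154) (nat_lit 302) (nat_lit 264)) (XT.nd (nat_lit 94) (nat_lit 252) (nat_lit 0) (XT.lf (nat_lit 84) (nat_lit 1862436781) (nat_lit 0) (nat_lit 33121084884) (nat_lit 252) (nat_lit 1862436781) (nat_lit 61) (nat_lit 1) (nat_lit 60) (nat_lit 1) (nat_lit 63) (nat_lit 1) (nat_lit 155) (nat_lit 302) (nat_lit 263)) (XT.lf (nat_lit 84) (nat_lit 15371017516) (nat_lit 0) (nat_lit 5428494379) (nat_lit 252) (nat_lit 15371017516) (nat_lit 58) (nat_lit 1) (nat_lit 57) (nat_lit 1) (nat_lit 60) (nat_lit 1) (nat_lit 156) (nat_lit 302) (nat_lit 262)))) (XT.nd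 (nat_lit 188) (nat_lit 420) (nat_lit 0) (XT.nd (nat_lit 94) (nat_lit 0) (nat_lit 0) (XT.lf (nat_lit 252) (nat_lit 21345351823) (nat_lit 0) (nat_lit 7086078474) (nat_lit 168) (nat_lit 7086078474) (nat_lit 58) (nat_lit 1) (nat_lit 55) (nat_lit 1) (nat_lit 57) (nat_lit 1) (nat_lit 157) (nat_lit 302) (nat_lit 261)) (XT.lf (nat_lit 84) (nat_lit 6023102960) (nat_lit 0) (nat_lit 22832715395) (nat_lit 252) (nat_lit 6023102960) (nat_lit 56) (nat_lit 1) (nat_lit 55) (nat_lit 1) (nat_lit 58) (nat_lit 1) (nat_lit 158) (nat_lit 302) (nat_lit 260))) (XT.nd (nat_lit 94) (nat_lit 252) (nat_lit 0) (XT.lf (nat_lit 252) (nat_lit 2821606884) (nat_lit 0) (nat_lit 15715799626) (nat_lit 168) (nat_lit 15715799626) (nat_lit 56) (nat_lit 1) (nat_lit 53) (nat_lit 1) (nat_lit 55) (nat_lit 1) (nat_lit 159) (nat_lit 302) (nat_lit 259)) (XT.lf (nat_lit 252) (nat_lit 27732575344) (nat_lit 0) (nat_lit 2956523098)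 (nat_lit 168) (nat_lit 2956523098) (nat_lit 53) (nat_lit 1) (nat_lit 50) (nat_lit 1) (nat_lit 52) (nat_lit 1) (nat_lit 160) (nat_lit 302) (nat_lit 258))))) (XT.nd (nat_lit 282) (nat_lit 504) (nat_lit 0) (XT.nd (nat_lit 94) (nat_lit 168) (nat_lit 0) (XT.lf (nat_lit 84) (nat_lit 9232242292) (nat_lit 0) (nat_lit 14578738027) (nat_lit 252) (nat_lit 9232242292) (nat_lit 51) (nat_lit 1) (nat_lit 50) (nat_lit 1) (nat_lit 53) (nat_lit 1) (nat_lit 161) (nat_lit 302) (nat_lit 257)) (XT.nd (nat_lit 94) (nat_lit 0) (nat_lit 0) (XT.lf (nat_lit 252) (nat_lit 9402590544) (nat_lit 0) (nat_lit 11527860807) (nat_lit 168) (nat_lit 11527860807) (nat_lit 51) (nat_lit 1) (nat_lit 48) (nat_lit 1) (nat_lit 50) (nat_lit 1) (nat_lit 162) (nat_lit 302) (nat_lit 256)) (XT.lf (nat_lit 84) (nat_lit 309037219) (nat_lit 0) (nat_lit 31275840107) (nat_lit 252) (nat_lit 309037219) (nat_lit 49) (nat_lit 1)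 (nat_lit 48) (nat_lit 1) (nat_lit 51) (nat_lit 1) (nat_lit 163) (nat_lit 302) (nat_lit 255)))) (XT.nd (nat_lit 188) (nat_lit 168) (nat_lit 0) (XT.nd (nat_lit 94) (nat_lit 168) (nat_lit 0) (XT.lf (nat_lit 84) (nat_lit 11668741516) (nat_lit 0) (nat_lit 7988446298) (nat_lit 168) (nat_lit 11668741516) (nat_lit 47) (nat_lit 1) (nat_lit 46) (nat_lit 1) (nat_lit 48) (nat_lit 1) (nat_lit 164) (nat_lit 302) (nat_lit 254)) (XT.lf (nat_lit 252) (nat_lit 14479579822) (nat_lit 0) (nat_lit 8149174436) (nat_lit 168) (nat_lit 8149174436) (nat_lit 47) (nat_lit 1) (nat_lit 44) (nat_lit 1) (nat_lit 46) (nat_lit 1) (nat_lit 165) (nat_lit 302) (nat_lit 253))) (XT.nd (nat_lit 94) (nat_lit 168) (nat_lit 0) (XT.lf (nat_lit 84) (nat_lit 2903055682) (nat_lit 0) (nat_lit 24438608619) (nat_lit 252) (nat_lit 2903055682) (nat_lit 45) (nat_lit 1) (nat_lit 44) (nat_lit 1) (nat_lit 47) (nat_lit 1) (nat_lit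 166) (nat_lit 302) (nat_lit 252)) (XT.lf (nat_lit 84) (nat_lit 13479286270) (nat_lit 0) (nat_lit 2757335913) (nat_lit 168) (nat_lit 13479286270) (nat_lit 43) (nat_lit 1) (nat_lit 42) (nat_lit 1) (nat_lit 44) (nat_lit 1) (nat_lit 167) (nat_lit 302) (nat_lit 251))))))))
noncomputable def ec187 : XT := (XT.nd (nat_lit 2538) (nat_lit 1008) (nat_lit 0) (XT.nd (nat_lit 1222) (nat_lit 1260) (nat_lit 0) (XT.nd (nat_lit 564) (nat_lit 672) (nat_lit 0) (XT.nd (nat_lit 282) (nat_lit 336) (nat_lit 0) (XT.nd (nat_lit 94) (nat_lit 84) (nat_lit 0) (XT.lf (nat_lit 252) (nat_lit 18335286450) (nat_lit 0) (nat_lit 5433083900) (nat_lit 168) (nat_lit 5433083900) (nat_lit 43) (nat_lit 1) (nat_lit 40) (nat_lit 1) (nat_lit 42) (nat_lit 1) (nat_lit 168) (nat_lit 302) (nat_lit 250)) (XT.nd (nat_lit 94) (nat_lit 84) (nat_lit 0) (XT.lf (nat_lit 84) (nat_lit 4911027282) (nat_lit 0) (nat_lit 18875130041)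 (nat_lit 252) (nat_lit 4911027282) (nat_lit 41) (nat_lit 1) (nat_lit 40) (nat_lit 1) (nat_lit 43) (nat_lit 1) (nat_lit 169) (nat_lit 302) (nat_lit 249)) (XT.lf (nat_lit 168) (nat_lit 1409777091) (nat_lit 0) (nat_lit 13396326841) (nat_lit 84) (nat_lit 13396326841) (nat_lit 41) (nat_lit 1) (nat_lit 39) (nat_lit 1) (nat_lit 40) (nat_lit 1) (nat_lit 170) (nat_lit 302) (nat_lit 248)))) (XT.nd (nat_lit 94) (nat_lit 84) (nat_lit 0) (XT.lf (nat_lit 252) (nat_lit 21201533440) (nat_lit 0) (nat_lit 3259085784) (nat_lit 168) (nat_lit 3259085784) (nat_lit 39) (nat_lit 1) (nat_lit 36) (nat_lit 1) (nat_lit 38) (nat_lit 1) (nat_lit 171) (nat_lit 302) (nat_lit 247)) (XT.nd (nat_lit 94) (nat_lit 84) (nat_lit 0) (XT.lf (nat_lit 84) (nat_lit 6442863049) (nat_lit 0) (nat_lit 14356641197) (nat_lit 252) (nat_lit 6442863049) (nat_lit 37) (nat_lit 1) (nat_lit 36) (nat_lit 1) (nat_lit 39) (nat_lit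 1) (nat_lit 172) (nat_lit 302) (nat_lit 246)) (XT.lf (nat_lit 168) (nat_lit 4734350852) (nat_lit 0) (nat_lit 11021191245) (nat_lit 84) (nat_lit 11021191245) (nat_lit 37) (nat_lit 1) (nat_lit 35) (nat_lit 1) (nat_lit 36) (nat_lit 1) (nat_lit 173) (nat_lit 302) (nat_lit 245))))) (XT.nd (nat_lit 282) (nat_lit 336) (nat_lit 0) (XT.nd (nat_lit 94) (nat_lit 84) (nat_lit 0) (XT.lf (nat_lit 252) (nat_lit 23268313937) (nat_lit 0) (nat_lit 1528185762) (nat_lit 168) (nat_lit 1528185762) (nat_lit 35) (nat_lit 1) (nat_lit 32) (nat_lit 1) (nat_lit 34) (nat_lit 1) (nat_lit 174) (nat_lit 302) (nat_lit 244)) (XT.nd (nat_lit 94) (nat_lit 84) (nat_lit 0) (XT.lf (nat_lit 84) (nat_lit 7588701042) (nat_lit 0) (nat_lit 10695077575) (nat_lit 252) (nat_lit 7588701042) (nat_lit 33) (nat_lit 1) (nat_lit 32) (nat_lit 1) (nat_lit 35) (nat_lit 1) (nat_lit 175) (nat_lit 302) (nat_lit 243)) (XT.lf (nat_lit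 168) (nat_lit 7299270496) (nat_lit 0) (nat_lit 9067161312) (nat_lit 84) (nat_lit 9067161312) (nat_lit 33) (nat_lit 1) (nat_lit 31) (nat_lit 1) (nat_lit 32) (nat_lit 1) (nat_lit 176) (nat_lit 302) (nat_lit 242)))) (XT.nd (nat_lit 188) (nat_lit 84) (nat_lit 0) (XT.nd (nat_lit 94) (nat_lit 0) (nat_lit 0) (XT.lf (nat_lit 252) (nat_lit 24691242228) (nat_lit 0) (nat_lit 159078230) (nat_lit 168) (nat_lit 159078230) (nat_lit 31) (nat_lit 1) (nat_lit 28) (nat_lit 1) (nat_lit 30) (nat_lit 1) (nat_lit 177) (nat_lit 302) (nat_lit 241)) (XT.lf (nat_lit 84) (nat_lit 8422425667) (nat_lit 0) (nat_lit 7735850916) (nat_lit 252) (nat_lit 8422425667) (nat_lit 29) (nat_lit 1) (nat_lit 28) (nat_lit 1) (nat_lit 31) (nat_lit 1) (nat_lit 178) (nat_lit 302) (nat_lit 240))) (XT.nd (nat_lit 94) (nat_lit 0) (nat_lit 0) (XT.lf (nat_lit 168) (nat_lit 9247326314) (nat_lit 0) (nat_lit 7459576051) (nat_lit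 84) (nat_lit 7459576051) (nat_lit 29) (nat_lit 1) (nat_lit 27) (nat_lit 1) (nat_lit 28) (nat_lit 1) (nat_lit 179) (nat_lit 302) (nat_lit 239)) (XT.lf (nat_lit 0) (nat_lit 929996343) (nat_lit 0) (nat_lit 21904768006) (nat_lit 168) (nat_lit 929996343) (nat_lit 27) (nat_lit 3) (nat_lit 27) (nat_lit 1) (nat_lit 29) (nat_lit 1) (nat_lit 180) (nat_lit 302) (nat_lit 238)))))) (XT.nd (nat_lit 658) (nat_lit 588) (nat_lit 0) (XT.nd (nat_lit 282) (nat_lit 420) (nat_lit 0) (XT.nd (nat_lit 94) (nat_lit 84) (nat_lit 0) (XT.lf (nat_lit 84) (nat_lit 9004562383) (nat_lit 0) (nat_lit 5351907624) (nat_lit 168) (nat_lit 9004562383) (nat_lit 26) (nat_lit 1) (nat_lit 25) (nat_lit 1) (nat_lit 27) (nat_lit 1) (nat_lit 181) (nat_lit 302) (nat_lit 237)) (XT.nd (nat_lit 94) (nat_lit 0) (nat_lit 0) (XT.lf (nat_lit 168) (nat_lit 10695606256) (nat_lit 0) (nat_lit 6137011678) (nat_lit 84) (nat_lit 6137011678)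 (nat_lit 26) (nat_lit 1) (nat_lit 24) (nat_lit 1) (nat_lit 25) (nat_lit 1) (nat_lit 182) (nat_lit 302) (nat_lit 236)) (XT.lf (nat_lit 0) (nat_lit 1777506362) (nat_lit 0) (nat_lit 19033502918) (nat_lit 168) (nat_lit 1777506362) (nat_lit 24) (nat_lit 3) (nat_lit 24) (nat_lit 1) (nat_lit 26) (nat_lit 1) (nat_lit 183) (nat_lit 302) (nat_lit 235)))) (XT.nd (nat_lit 188) (nat_lit 168) (nat_lit 0) (XT.nd (nat_lit 94) (nat_lit 84) (nat_lit 0) (XT.lf (nat_lit 84) (nat_lit 9384658559) (nat_lit 0) (nat_lit 3438840914) (nat_lit 168) (nat_lit 9384658559) (nat_lit 23) (nat_lit 1) (nat_lit 22) (nat_lit 1) (nat_lit 24) (nat_lit 1) (nat_lit 184) (nat_lit 302) (nat_lit 234)) (XT.lf (nat_lit 168) (nat_lit 11740071272) (nat_lit 0) (nat_lit 5048934695) (nat_lit 84) (nat_lit 5048934695) (nat_lit 23) (nat_lit 1) (nat_lit 21) (nat_lit 1) (nat_lit 22) (nat_lit 1) (nat_lit 185) (nat_lit 302) (nat_lit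 233))) (XT.nd (nat_lit 94) (nat_lit 168) (nat_lit 0) (XT.lf (nat_lit 0) (nat_lit 2426545616) (nat_lit 0) (nat_lit 16623096687) (nat_lit 168) (nat_lit 2426545616) (nat_lit 21) (nat_lit 3) (nat_lit 21) (nat_lit 1) (nat_lit 23) (nat_lit 1) (nat_lit 186) (nat_lit 302) (nat_lit 232)) (XT.lf (nat_lit 84) (nat_lit 9603241634) (nat_lit 0) (nat_lit 1910869851) (nat_lit 168) (nat_lit 9603241634) (nat_lit 20) (nat_lit 1) (nat_lit 19) (nat_lit 1) (nat_lit 21) (nat_lit 1) (nat_lit 187) (nat_lit 302) (nat_lit 231))))) (XT.nd (nat_lit 282) (nat_lit 336) (nat_lit 0) (XT.nd (nat_lit 94) (nat_lit 168) (nat_lit 0) (XT.lf (nat_lit 168) (nat_lit 12459318581) (nat_lit 0) (nat_lit 4153771069) (nat_lit 84) (nat_lit 4153771069) (nat_lit 20) (nat_lit 1) (nat_lit 18) (nat_lit 1) (nat_lit 19) (nat_lit 1) (nat_lit 188) (nat_lit 302) (nat_lit 230)) (XT.nd (nat_lit 94) (nat_lit 168) (nat_lit 0) (XT.lf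 (nat_lit 0) (nat_lit 2914598162) (nat_lit 0) (nat_lit 14594135862) (nat_lit 168) (nat_lit 2914598162) (nat_lit 18) (nat_lit 3) (nat_lit 18) (nat_lit 1) (nat_lit 20) (nat_lit 1) (nat_lit 189) (nat_lit 302) (nat_lit 229)) (XT.lf (nat_lit 84) (nat_lit 9693429527) (nat_lit 0) (nat_lit 697531566) (nat_lit 168) (nat_lit 9693429527) (nat_lit 17) (nat_lit 1) (nat_lit 16) (nat_lit 1) (nat_lit 18) (nat_lit 1) (nat_lit 190) (nat_lit 302) (nat_lit 228)))) (XT.nd (nat_lit 188) (nat_lit 252) (nat_lit 0) (XT.nd (nat_lit 94) (nat_lit 0) (nat_lit 0) (XT.lf (nat_lit 168) (nat_lit 12917676889) (nat_lit 0) (nat_lit 3417317738) (nat_lit 84) (nat_lit 3417317738) (nat_lit 17) (nat_lit 1) (nat_lit 15) (nat_lit 1) (nat_lit 16) (nat_lit 1) (nat_lit 191) (nat_lit 302) (nat_lit 227)) (XT.lf (nat_lit 0) (nat_lit 3272392911) (nat_lit 0) (nat_lit 12881177481) (nat_lit 168) (nat_lit 3272392911) (nat_lit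 15) (nat_lit 3) (nat_lit 15) (nat_lit 1) (nat_lit 17) (nat_lit 1) (nat_lit 192) (nat_lit 302) (nat_lit 226))) (XT.nd (nat_lit 94) (nat_lit 168) (nat_lit 0) (XT.lf (nat_lit 84) (nat_lit 267604831) (nat_lit 0) (nat_lit 9418828232) (nat_lit 84) (nat_lit 9418828232) (nat_lit 15) (nat_lit 3) (nat_lit 14) (nat_lit 1) (nat_lit 15) (nat_lit 1) (nat_lit 193) (nat_lit 302) (nat_lit 225)) (XT.lf (nat_lit 168) (nat_lit 13167752038) (nat_lit 0) (nat_lit 2811435760) (nat_lit 84) (nat_lit 2811435760) (nat_lit 14) (nat_lit 1) (nat_lit 12) (nat_lit 1) (nat_lit 13) (nat_lit 1) (nat_lit 194) (nat_lit 302) (nat_lit 224))))))) (XT.nd (nat_lit 1316) (nat_lit 0) (nat_lit 0) (XT.nd (nat_lit 658) (nat_lit 504) (nat_lit 0) (XT.nd (nat_lit 282) (nat_lit 252) (nat_lit 0) (XT.nd (nat_lit 94) (nat_lit 252) (nat_lit 0) (XT.lf (nat_lit 0) (nat_lit 3525106498) (nat_lit 0) (nat_lit 11430277344) (nat_lit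 168) (nat_lit 3525106498) (nat_lit 12) (nat_lit 3) (nat_lit 12) (nat_lit 1) (nat_lit 14) (nat_lit 1) (nat_lit 195) (nat_lit 302) (nat_lit 223)) (XT.nd (nat_lit 94) (nat_lit 168) (nat_lit 0) (XT.lf (nat_lit 84) (nat_lit 1039626026) (nat_lit 0) (nat_lit 8568360165) (nat_lit 84) (nat_lit 8568360165) (nat_lit 12) (nat_lit 3) (nat_lit 11) (nat_lit 1) (nat_lit 12) (nat_lit 1) (nat_lit 196) (nat_lit 302) (nat_lit 222)) (XT.lf (nat_lit 168) (nat_lit 13252520564) (nat_lit 0) (nat_lit 2312975157) (nat_lit 84) (nat_lit 2312975157) (nat_lit 11) (nat_lit 1) (nat_lit 9) (nat_lit 1) (nat_lit 10) (nat_lit 1) (nat_lit 197) (nat_lit 302) (nat_lit 221)))) (XT.nd (nat_lit 188) (nat_lit 168) (nat_lit 0) (XT.nd (nat_lit 94) (nat_lit 84) (nat_lit 0) (XT.lf (nat_lit 0) (nat_lit 3693352651) (nat_lit 0) (nat_lit 10196956269) (nat_lit 168) (nat_lit 3693352651) (nat_lit 9) (nat_lit 3) (nat_lit 9) (nat_lit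 1) (nat_lit 11) (nat_lit 1) (nat_lit 198) (nat_lit 302) (nat_lit 220)) (XT.lf (nat_lit 84) (nat_lit 1635747541) (nat_lit 0) (nat_lit 7829655749) (nat_lit 84) (nat_lit 7829655749) (nat_lit 9) (nat_lit 3) (nat_lit 8) (nat_lit 1) (nat_lit 9) (nat_lit 1) (nat_lit 199) (nat_lit 302) (nat_lit 219))) (XT.nd (nat_lit 94) (nat_lit 0) (nat_lit 0) (XT.lf (nat_lit 168) (nat_lit 13207051346) (nat_lit 0) (nat_lit 1902890386) (nat_lit 84) (nat_lit 1902890386) (nat_lit 8) (nat_lit 1) (nat_lit 6) (nat_lit 1) (nat_lit 7) (nat_lit 1) (nat_lit 200) (nat_lit 302) (nat_lit 218)) (XT.lf (nat_lit 0) (nat_lit 3793995901) (nat_lit 0) (nat_lit 9144526693) (nat_lit 168) (nat_lit 3793995901) (nat_lit 6) (nat_lit 3) (nat_lit 6) (nat_lit 1) (nat_lit 8) (nat_lit 1) (nat_lit 201) (nat_lit 302) (nat_lit 217))))) (XT.nd (nat_lit 282) (nat_lit 252) (nat_lit 0) (XT.nd (nat_lit 94) (nat_lit 168) (nat_lit 0)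 (XT.lf (nat_lit 84) (nat_lit 2089014157) (nat_lit 0) (nat_lit 7184757768) (nat_lit 84) (nat_lit 7184757768) (nat_lit 6) (nat_lit 3) (nat_lit 5) (nat_lit 1) (nat_lit 6) (nat_lit 1) (nat_lit 202) (nat_lit 302) (nat_lit 216)) (XT.nd (nat_lit 94) (nat_lit 0) (nat_lit 0) (XT.lf (nat_lit 168) (nat_lit 13059921332) (nat_lit 0) (nat_lit 1565512630) (nat_lit 84) (nat_lit 1565512630) (nat_lit 5) (nat_lit 1) (nat_lit 3) (nat_lit 1) (nat_lit 4) (nat_lit 1) (nat_lit 203) (nat_lit 302) (nat_lit 215)) (XT.lf (nat_lit 0) (nat_lit 3840820802) (nat_lit 0) (nat_lit 8242715726) (nat_lit 168) (nat_lit 3840820802) (nat_lit 3) (nat_lit 3) (nat_lit 3) (nat_lit 1) (nat_lit 5) (nat_lit 1) (nat_lit 204) (nat_lit 302) (nat_lit 214)))) (XT.nd (nat_lit 188) (nat_lit 0) (nat_lit 0) (XT.nd (nat_lit 94) (nat_lit 168) (nat_lit 0) (XT.lf (nat_lit 84) (nat_lit 2426523409) (nat_lit 0) (nat_lit 6618804289) (nat_lit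 84) (nat_lit 6618804289) (nat_lit 3) (nat_lit 3) (nat_lit 2) (nat_lit 1) (nat_lit 3) (nat_lit 1) (nat_lit 205) (nat_lit 302) (nat_lit 213)) (XT.lf (nat_lit 0) (nat_lit 22386331710) (nat_lit 0) (nat_lit 0) (nat_lit 0) (nat_lit 0) (nat_lit 0) (nat_lit 0) (nat_lit 1) (nat_lit 0) (nat_lit 1) (nat_lit 0) (nat_lit 206) (nat_lit 302) (nat_lit 212))) (XT.nd (nat_lit 94) (nat_lit 0) (nat_lit 0) (XT.lf (nat_lit 0) (nat_lit 22373288629) (nat_lit 0) (nat_lit 0) (nat_lit 0) (nat_lit 0) (nat_lit 0) (nat_lit 0) (nat_lit 1) (nat_lit 0) (nat_lit 1) (nat_lit 0) (nat_lit 207) (nat_lit 302) (nat_lit 211)) (XT.lf (nat_lit 0) (nat_lit 22360866647) (nat_lit 0) (nat_lit 0) (nat_lit 0) (nat_lit 0) (nat_lit 0) (nat_lit 0) (nat_lit 1) (nat_lit 0) (nat_lit 1) (nat_lit 0) (nat_lit 208) (nat_lit 302) (nat_lit 210)))))) (XT.nd (nat_lit 658) (nat_lit 0) (nat_lit 0) (XT.nd (nat_lit 282) (nat_lit 0) (nat_lit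 0) (XT.nd (nat_lit 94) (nat_lit 0) (nat_lit 0) (XT.lf (nat_lit 0) (nat_lit 22349036188) (nat_lit 0) (nat_lit 0) (nat_lit 0) (nat_lit 0) (nat_lit 0) (nat_lit 0) (nat_lit 1) (nat_lit 0) (nat_lit 1) (nat_lit 0) (nat_lit 209) (nat_lit 302) (nat_lit 209)) (XT.nd (nat_lit 94) (nat_lit 0) (nat_lit 0) (XT.lf (nat_lit 0) (nat_lit 22337769084) (nat_lit 0) (nat_lit 0) (nat_lit 0) (nat_lit 0) (nat_lit 0) (nat_lit 0) (nat_lit 1) (nat_lit 0) (nat_lit 1) (nat_lit 0) (nat_lit 210) (nat_lit 302) (nat_lit 208)) (XT.lf (nat_lit 0) (nat_lit 22327038508) (nat_lit 0) (nat_lit 0) (nat_lit 0) (nat_lit 0) (nat_lit 0) (nat_lit 0) (nat_lit 1) (nat_lit 0) (nat_lit 1) (nat_lit 0) (nat_lit 211) (nat_lit 302) (nat_lit 207)))) (XT.nd (nat_lit 188) (nat_lit 0) (nat_lit 0) (XT.nd (nat_lit 94) (nat_lit 0) (nat_lit 0) (XT.lf (nat_lit 0) (nat_lit 22316818913) (nat_lit 0) (nat_lit 0) (nat_lit 0) (nat_lit 0)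 (nat_lit 0) (nat_lit 0) (nat_lit 1) (nat_lit 0) (nat_lit 1) (nat_lit 0) (nat_lit 212) (nat_lit 302) (nat_lit 206)) (XT.lf (nat_lit 0) (nat_lit 22307085965) (nat_lit 0) (nat_lit 0) (nat_lit 0) (nat_lit 0) (nat_lit 0) (nat_lit 0) (nat_lit 1) (nat_lit 0) (nat_lit 1) (nat_lit 0) (nat_lit 213) (nat_lit 302) (nat_lit 205))) (XT.nd (nat_lit 94) (nat_lit 0) (nat_lit 0) (XT.lf (nat_lit 0) (nat_lit 22297816490) (nat_lit 0) (nat_lit 0) (nat_lit 0) (nat_lit 0) (nat_lit 0) (nat_lit 0) (nat_lit 1) (nat_lit 0) (nat_lit 1) (nat_lit 0) (nat_lit 214) (nat_lit 302) (nat_lit 204)) (XT.lf (nat_lit 0) (nat_lit 22288988420) (nat_lit 0) (nat_lit 0) (nat_lit 0) (nat_lit 0) (nat_lit 0) (nat_lit 0) (nat_lit 1) (nat_lit 0) (nat_lit 1) (nat_lit 0) (nat_lit 215) (nat_lit 302) (nat_lit 203))))) (XT.nd (nat_lit 282) (nat_lit 0) (nat_lit 0) (XT.nd (nat_lit 94) (nat_lit 0) (nat_lit 0) (XT.lf (nat_lit 0)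 (nat_lit 22280580733) (nat_lit 0) (nat_lit 0) (nat_lit 0) (nat_lit 0) (nat_lit 0) (nat_lit 0) (nat_lit 1) (nat_lit 0) (nat_lit 1) (nat_lit 0) (nat_lit 216) (nat_lit 302) (nat_lit 202)) (XT.nd (nat_lit 94) (nat_lit 0) (nat_lit 0) (XT.lf (nat_lit 0) (nat_lit 22272573413) (nat_lit 0) (nat_lit 0) (nat_lit 0) (nat_lit 0) (nat_lit 0) (nat_lit 0) (nat_lit 1) (nat_lit 0) (nat_lit 1) (nat_lit 0) (nat_lit 217) (nat_lit 302) (nat_lit 201)) (XT.lf (nat_lit 0) (nat_lit 22264947393) (nat_lit 0) (nat_lit 0) (nat_lit 0) (nat_lit 0) (nat_lit 0) (nat_lit 0) (nat_lit 1) (nat_lit 0) (nat_lit 1) (nat_lit 0) (nat_lit 218) (nat_lit 302) (nat_lit 200)))) (XT.nd (nat_lit 188) (nat_lit 0) (nat_lit 0) (XT.nd (nat_lit 94) (nat_lit 0) (nat_lit 0) (XT.lf (nat_lit 0) (nat_lit 22257684517) (nat_lit 0) (nat_lit 0) (nat_lit 0) (nat_lit 0) (nat_lit 0) (nat_lit 0) (nat_lit 1) (nat_lit 0) (nat_lit 1) (nat_lit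 0) (nat_lit 219) (nat_lit 302) (nat_lit 199)) (XT.lf (nat_lit 0) (nat_lit 22250767493) (nat_lit 0) (nat_lit 0) (nat_lit 0) (nat_lit 0) (nat_lit 0) (nat_lit 0) (nat_lit 1) (nat_lit 0) (nat_lit 1) (nat_lit 0) (nat_lit 220) (nat_lit 302) (nat_lit 198))) (XT.nd (nat_lit 94) (nat_lit 0) (nat_lit 0) (XT.lf (nat_lit 0) (nat_lit 22244179851) (nat_lit 0) (nat_lit 0) (nat_lit 0) (nat_lit 0) (nat_lit 0) (nat_lit 0) (nat_lit 1) (nat_lit 0) (nat_lit 1) (nat_lit 0) (nat_lit 221) (nat_lit 302) (nat_lit 197)) (XT.lf (nat_lit 0) (nat_lit 22237905905) (nat_lit 0) (nat_lit 0) (nat_lit 0) (nat_lit 0) (nat_lit 0) (nat_lit 0) (nat_lit 1) (nat_lit 0) (nat_lit 1) (nat_lit 0) (nat_lit 222) (nat_lit 302) (nat_lit 196))))))))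
noncomputable def ec188 : XT := (XT.nd (nat_lit 2538) (nat_lit 0) (nat_lit 0) (XT.nd (nat_lit 1222) (nat_lit 0) (nat_lit 0) (XT.nd (nat_lit 564) (nat_lit 0) (nat_lit 0) (XT.nd (nat_lit 282) (nat_lit 0) (nat_lit 0) (XT.nd (nat_lit 94) (nat_lit 0) (nat_lit 0) (XT.lf (nat_lit 0) (nat_lit 22231930720) (nat_lit 0) (nat_lit 0) (nat_lit 0) (nat_lit 0) (nat_lit 0) (nat_lit 0) (nat_lit 1) (nat_lit 0) (nat_lit 1) (nat_lit 0) (nat_lit 223) (nat_lit 302) (nat_lit 195)) (XT.nd (nat_lit 94) (nat_lit 0) (nat_lit 0) (XT.lf (nat_lit 0) (nat_lit 22226240067) (nat_lit 0) (nat_lit 0) (nat_lit 0) (nat_lit 0) (nat_lit 0) (nat_lit 0) (nat_lit 1) (nat_lit 0) (nat_lit 1) (nat_lit 0) (nat_lit 224) (nat_lit 302) (nat_lit 194)) (XT.lf (nat_lit 0) (nat_lit 22220820397) (nat_lit 0) (nat_lit 0) (nat_lit 0) (nat_lit 0) (nat_lit 0) (nat_lit 0) (nat_lit 1) (nat_lit 0) (nat_lit 1) (nat_lit 0) (nat_lit 225)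 (nat_lit 302) (nat_lit 193)))) (XT.nd (nat_lit 94) (nat_lit 0) (nat_lit 0) (XT.lf (nat_lit 0) (nat_lit 22215658807) (nat_lit 0) (nat_lit 0) (nat_lit 0) (nat_lit 0) (nat_lit 0) (nat_lit 0) (nat_lit 1) (nat_lit 0) (nat_lit 1) (nat_lit 0) (nat_lit 226) (nat_lit 302) (nat_lit 192)) (XT.nd (nat_lit 94) (nat_lit 0) (nat_lit 0) (XT.lf (nat_lit 0) (nat_lit 22210743006) (nat_lit 0) (nat_lit 0) (nat_lit 0) (nat_lit 0) (nat_lit 0) (nat_lit 0) (nat_lit 1) (nat_lit 0) (nat_lit 1) (nat_lit 0) (nat_lit 227) (nat_lit 302) (nat_lit 191)) (XT.lf (nat_lit 0) (nat_lit 22206061292) (nat_lit 0) (nat_lit 0) (nat_lit 0) (nat_lit 0) (nat_lit 0) (nat_lit 0) (nat_lit 1) (nat_lit 0) (nat_lit 1) (nat_lit 0) (nat_lit 228) (nat_lit 302) (nat_lit 190))))) (XT.nd (nat_lit 282) (nat_lit 0) (nat_lit 0) (XT.nd (nat_lit 94) (nat_lit 0) (nat_lit 0) (XT.lf (nat_lit 0) (nat_lit 22201602516) (nat_lit 0) (nat_lit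 0) (nat_lit 0) (nat_lit 0) (nat_lit 0) (nat_lit 0) (nat_lit 1) (nat_lit 0) (nat_lit 1) (nat_lit 0) (nat_lit 229) (nat_lit 302) (nat_lit 189)) (XT.nd (nat_lit 94) (nat_lit 0) (nat_lit 0) (XT.lf (nat_lit 0) (nat_lit 22197356063) (nat_lit 0) (nat_lit 0) (nat_lit 0) (nat_lit 0) (nat_lit 0) (nat_lit 0) (nat_lit 1) (nat_lit 0) (nat_lit 1) (nat_lit 0) (nat_lit 230) (nat_lit 302) (nat_lit 188)) (XT.lf (nat_lit 0) (nat_lit 22193311822) (nat_lit 0) (nat_lit 0) (nat_lit 0) (nat_lit 0) (nat_lit 0) (nat_lit 0) (nat_lit 1) (nat_lit 0) (nat_lit 1) (nat_lit 0) (nat_lit 231) (nat_lit 302) (nat_lit 187)))) (XT.nd (nat_lit 188) (nat_lit 0) (nat_lit 0) (XT.nd (nat_lit 94) (nat_lit 0) (nat_lit 0) (XT.lf (nat_lit 0) (nat_lit 22189460164) (nat_lit 0) (nat_lit 0) (nat_lit 0) (nat_lit 0) (nat_lit 0) (nat_lit 0) (nat_lit 1) (nat_lit 0) (nat_lit 1) (nat_lit 0) (nat_lit 232) (nat_lit 302) (nat_lit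 186)) (XT.lf (nat_lit 0) (nat_lit 22185791919) (nat_lit 0) (nat_lit 0) (nat_lit 0) (nat_lit 0) (nat_lit 0) (nat_lit 0) (nat_lit 1) (nat_lit 0) (nat_lit 1) (nat_lit 0) (nat_lit 233) (nat_lit 302) (nat_lit 185))) (XT.nd (nat_lit 94) (nat_lit 0) (nat_lit 0) (XT.lf (nat_lit 0) (nat_lit 22182298351) (nat_lit 0) (nat_lit 0) (nat_lit 0) (nat_lit 0) (nat_lit 0) (nat_lit 0) (nat_lit 1) (nat_lit 0) (nat_lit 1) (nat_lit 0) (nat_lit 234) (nat_lit 302) (nat_lit 184)) (XT.lf (nat_lit 0) (nat_lit 22178971144) (nat_lit 0) (nat_lit 0) (nat_lit 0) (nat_lit 0) (nat_lit 0) (nat_lit 0) (nat_lit 1) (nat_lit 0) (nat_lit 1) (nat_lit 0) (nat_lit 235) (nat_lit 302) (nat_lit 183)))))) (XT.nd (nat_lit 658) (nat_lit 0) (nat_lit 0) (XT.nd (nat_lit 282) (nat_lit 0) (nat_lit 0) (XT.nd (nat_lit 94) (nat_lit 0) (nat_lit 0) (XT.lf (nat_lit 0) (nat_lit 22175802376) (nat_lit 0) (nat_lit 0) (nat_lit 0) (nat_lit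 0) (nat_lit 0) (nat_lit 0) (nat_lit 1) (nat_lit 0) (nat_lit 1) (nat_lit 0) (nat_lit 236) (nat_lit 302) (nat_lit 182)) (XT.nd (nat_lit 94) (nat_lit 0) (nat_lit 0) (XT.lf (nat_lit 0) (nat_lit 22172784501) (nat_lit 0) (nat_lit 0) (nat_lit 0) (nat_lit 0) (nat_lit 0) (nat_lit 0) (nat_lit 1) (nat_lit 0) (nat_lit 1) (nat_lit 0) (nat_lit 237) (nat_lit 302) (nat_lit 181)) (XT.lf (nat_lit 0) (nat_lit 22169910334) (nat_lit 0) (nat_lit 0) (nat_lit 0) (nat_lit 0) (nat_lit 0) (nat_lit 0) (nat_lit 1) (nat_lit 0) (nat_lit 1) (nat_lit 0) (nat_lit 238) (nat_lit 302) (nat_lit 180)))) (XT.nd (nat_lit 188) (nat_lit 0) (nat_lit 0) (XT.nd (nat_lit 94) (nat_lit 0) (nat_lit 0) (XT.lf (nat_lit 0) (nat_lit 22167173033) (nat_lit 0) (nat_lit 0) (nat_lit 0) (nat_lit 0) (nat_lit 0) (nat_lit 0) (nat_lit 1) (nat_lit 0) (nat_lit 1) (nat_lit 0) (nat_lit 239) (nat_lit 302) (nat_lit 179)) (XT.lf (nat_lit 0)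 (nat_lit 22164566079) (nat_lit 0) (nat_lit 0) (nat_lit 0) (nat_lit 0) (nat_lit 0) (nat_lit 0) (nat_lit 1) (nat_lit 0) (nat_lit 1) (nat_lit 0) (nat_lit 240) (nat_lit 302) (nat_lit 178))) (XT.nd (nat_lit 94) (nat_lit 0) (nat_lit 0) (XT.lf (nat_lit 0) (nat_lit 22162083266) (nat_lit 0) (nat_lit 0) (nat_lit 0) (nat_lit 0) (nat_lit 0) (nat_lit 0) (nat_lit 1) (nat_lit 0) (nat_lit 1) (nat_lit 0) (nat_lit 241) (nat_lit 302) (nat_lit 177)) (XT.lf (nat_lit 0) (nat_lit 22159718682) (nat_lit 0) (nat_lit 0) (nat_lit 0) (nat_lit 0) (nat_lit 0) (nat_lit 0) (nat_lit 1) (nat_lit 0) (nat_lit 1) (nat_lit 0) (nat_lit 242) (nat_lit 302) (nat_lit 176))))) (XT.nd (nat_lit 282) (nat_lit 0) (nat_lit 0) (XT.nd (nat_lit 94) (nat_lit 0) (nat_lit 0) (XT.lf (nat_lit 0) (nat_lit 22157466697) (nat_lit 0) (nat_lit 0) (nat_lit 0) (nat_lit 0) (nat_lit 0) (nat_lit 0) (nat_lit 1) (nat_lit 0) (nat_lit 1) (nat_lit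 0) (nat_lit 243) (nat_lit 302) (nat_lit 175)) (XT.nd (nat_lit 94) (nat_lit 0) (nat_lit 0) (XT.lf (nat_lit 0) (nat_lit 22155321950) (nat_lit 0) (nat_lit 0) (nat_lit 0) (nat_lit 0) (nat_lit 0) (nat_lit 0) (nat_lit 1) (nat_lit 0) (nat_lit 1) (nat_lit 0) (nat_lit 244) (nat_lit 302) (nat_lit 174)) (XT.lf (nat_lit 0) (nat_lit 22153279333) (nat_lit 0) (nat_lit 0) (nat_lit 0) (nat_lit 0) (nat_lit 0) (nat_lit 0) (nat_lit 1) (nat_lit 0) (nat_lit 1) (nat_lit 0) (nat_lit 245) (nat_lit 302) (nat_lit 173)))) (XT.nd (nat_lit 188) (nat_lit 0) (nat_lit 0) (XT.nd (nat_lit 94) (nat_lit 0) (nat_lit 0) (XT.lf (nat_lit 0) (nat_lit 22151333984) (nat_lit 0) (nat_lit 0) (nat_lit 0) (nat_lit 0) (nat_lit 0) (nat_lit 0) (nat_lit 1) (nat_lit 0) (nat_lit 1) (nat_lit 0) (nat_lit 246) (nat_lit 302) (nat_lit 172)) (XT.lf (nat_lit 0) (nat_lit 22149481271) (nat_lit 0) (nat_lit 0) (nat_lit 0) (nat_lit 0) (nat_lit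 0) (nat_lit 0) (nat_lit 1) (nat_lit 0) (nat_lit 1) (nat_lit 0) (nat_lit 247) (nat_lit 302) (nat_lit 171))) (XT.nd (nat_lit 94) (nat_lit 0) (nat_lit 0) (XT.lf (nat_lit 0) (nat_lit 22147716782) (nat_lit 0) (nat_lit 0) (nat_lit 0) (nat_lit 0) (nat_lit 0) (nat_lit 0) (nat_lit 1) (nat_lit 0) (nat_lit 1) (nat_lit 0) (nat_lit 248) (nat_lit 302) (nat_lit 170)) (XT.lf (nat_lit 0) (nat_lit 22146036316) (nat_lit 0) (nat_lit 0) (nat_lit 0) (nat_lit 0) (nat_lit 0) (nat_lit 0) (nat_lit 1) (nat_lit 0) (nat_lit 1) (nat_lit 0) (nat_lit 249) (nat_lit 302) (nat_lit 169))))))) (XT.nd (nat_lit 1222) (nat_lit 0) (nat_lit 0) (XT.nd (nat_lit 564) (nat_lit 0) (nat_lit 0) (XT.nd (nat_lit 282) (nat_lit 0) (nat_lit 0) (XT.nd (nat_lit 94) (nat_lit 0) (nat_lit 0) (XT.lf (nat_lit 0) (nat_lit 22144435873) (nat_lit 0) (nat_lit 0) (nat_lit 0) (nat_lit 0) (nat_lit 0) (nat_lit 0) (nat_lit 1) (nat_lit 0) (nat_lit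 1) (nat_lit 0) (nat_lit 250) (nat_lit 302) (nat_lit 168)) (XT.nd (nat_lit 94) (nat_lit 0) (nat_lit 0) (XT.lf (nat_lit 0) (nat_lit 22142911641) (nat_lit 0) (nat_lit 0) (nat_lit 0) (nat_lit 0) (nat_lit 0) (nat_lit 0) (nat_lit 1) (nat_lit 0) (nat_lit 1) (nat_lit 0) (nat_lit 251) (nat_lit 302) (nat_lit 167)) (XT.lf (nat_lit 0) (nat_lit 22141459991) (nat_lit 0) (nat_lit 0) (nat_lit 0) (nat_lit 0) (nat_lit 0) (nat_lit 0) (nat_lit 1) (nat_lit 0) (nat_lit 1) (nat_lit 0) (nat_lit 252) (nat_lit 302) (nat_lit 166)))) (XT.nd (nat_lit 94) (nat_lit 0) (nat_lit 0) (XT.lf (nat_lit 0) (nat_lit 22140077468) (nat_lit 0) (nat_lit 0) (nat_lit 0) (nat_lit 0) (nat_lit 0) (nat_lit 0) (nat_lit 1) (nat_lit 0) (nat_lit 1) (nat_lit 0) (nat_lit 253) (nat_lit 302) (nat_lit 165)) (XT.nd (nat_lit 94) (nat_lit 0) (nat_lit 0) (XT.lf (nat_lit 0) (nat_lit 22138760779) (nat_lit 0) (nat_lit 0) (nat_lit 0) (nat_lit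 0) (nat_lit 0) (nat_lit 0) (nat_lit 1) (nat_lit 0) (nat_lit 1) (nat_lit 0) (nat_lit 254) (nat_lit 302) (nat_lit 164)) (XT.lf (nat_lit 0) (nat_lit 22137506790) (nat_lit 0) (nat_lit 0) (nat_lit 0) (nat_lit 0) (nat_lit 0) (nat_lit 0) (nat_lit 1) (nat_lit 0) (nat_lit 1) (nat_lit 0) (nat_lit 255) (nat_lit 302) (nat_lit 163))))) (XT.nd (nat_lit 282) (nat_lit 0) (nat_lit 0) (XT.nd (nat_lit 94) (nat_lit 0) (nat_lit 0) (XT.lf (nat_lit 0) (nat_lit 22136312514) (nat_lit 0) (nat_lit 0) (nat_lit 0) (nat_lit 0) (nat_lit 0) (nat_lit 0) (nat_lit 1) (nat_lit 0) (nat_lit 1) (nat_lit 0) (nat_lit 256) (nat_lit 302) (nat_lit 162)) (XT.nd (nat_lit 94) (nat_lit 0) (nat_lit 0) (XT.lf (nat_lit 0) (nat_lit 22135175109) (nat_lit 0) (nat_lit 0) (nat_lit 0) (nat_lit 0) (nat_lit 0) (nat_lit 0) (nat_lit 1) (nat_lit 0) (nat_lit 1) (nat_lit 0) (nat_lit 257) (nat_lit 302) (nat_lit 161)) (XT.lf (nat_lit 0)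 (nat_lit 22134091866) (nat_lit 0) (nat_lit 0) (nat_lit 0) (nat_lit 0) (nat_lit 0) (nat_lit 0) (nat_lit 1) (nat_lit 0) (nat_lit 1) (nat_lit 0) (nat_lit 258) (nat_lit 302) (nat_lit 160)))) (XT.nd (nat_lit 188) (nat_lit 0) (nat_lit 0) (XT.nd (nat_lit 94) (nat_lit 0) (nat_lit 0) (XT.lf (nat_lit 0) (nat_lit 22133060206) (nat_lit 0) (nat_lit 0) (nat_lit 0) (nat_lit 0) (nat_lit 0) (nat_lit 0) (nat_lit 1) (nat_lit 0) (nat_lit 1) (nat_lit 0) (nat_lit 259) (nat_lit 302) (nat_lit 159)) (XT.lf (nat_lit 0) (nat_lit 22132077672) (nat_lit 0) (nat_lit 0) (nat_lit 0) (nat_lit 0) (nat_lit 0) (nat_lit 0) (nat_lit 1) (nat_lit 0) (nat_lit 1) (nat_lit 0) (nat_lit 260) (nat_lit 302) (nat_lit 158))) (XT.nd (nat_lit 94) (nat_lit 0) (nat_lit 0) (XT.lf (nat_lit 0) (nat_lit 22131141926) (nat_lit 0) (nat_lit 0) (nat_lit 0) (nat_lit 0) (nat_lit 0) (nat_lit 0) (nat_lit 1) (nat_lit 0) (nat_lit 1) (nat_lit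 0) (nat_lit 261) (nat_lit 302) (nat_lit 157)) (XT.lf (nat_lit 0) (nat_lit 22130250739) (nat_lit 0) (nat_lit 0) (nat_lit 0) (nat_lit 0) (nat_lit 0) (nat_lit 0) (nat_lit 1) (nat_lit 0) (nat_lit 1) (nat_lit 0) (nat_lit 262) (nat_lit 302) (nat_lit 156)))))) (XT.nd (nat_lit 658) (nat_lit 0) (nat_lit 0) (XT.nd (nat_lit 282) (nat_lit 0) (nat_lit 0) (XT.nd (nat_lit 94) (nat_lit 0) (nat_lit 0) (XT.lf (nat_lit 0) (nat_lit 22129401990) (nat_lit 0) (nat_lit 0) (nat_lit 0) (nat_lit 0) (nat_lit 0) (nat_lit 0) (nat_lit 1) (nat_lit 0) (nat_lit 1) (nat_lit 0) (nat_lit 263) (nat_lit 302) (nat_lit 155)) (XT.nd (nat_lit 94) (nat_lit 0) (nat_lit 0) (XT.lf (nat_lit 0) (nat_lit 22128593657) (nat_lit 0) (nat_lit 0) (nat_lit 0) (nat_lit 0) (nat_lit 0) (nat_lit 0) (nat_lit 1) (nat_lit 0) (nat_lit 1) (nat_lit 0) (nat_lit 264) (nat_lit 302) (nat_lit 154)) (XT.lf (nat_lit 0) (nat_lit 22127823817) (nat_lit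 0) (nat_lit 0) (nat_lit 0) (nat_lit 0) (nat_lit 0) (nat_lit 0) (nat_lit 1) (nat_lit 0) (nat_lit 1) (nat_lit 0) (nat_lit 265) (nat_lit 302) (nat_lit 153)))) (XT.nd (nat_lit 188) (nat_lit 0) (nat_lit 0) (XT.nd (nat_lit 94) (nat_lit 0) (nat_lit 0) (XT.lf (nat_lit 0) (nat_lit 22127090635) (nat_lit 0) (nat_lit 0) (nat_lit 0) (nat_lit 0) (nat_lit 0) (nat_lit 0) (nat_lit 1) (nat_lit 0) (nat_lit 1) (nat_lit 0) (nat_lit 266) (nat_lit 302) (nat_lit 152)) (XT.lf (nat_lit 0) (nat_lit 22126392367) (nat_lit 0) (nat_lit 0) (nat_lit 0) (nat_lit 0) (nat_lit 0) (nat_lit 0) (nat_lit 1) (nat_lit 0) (nat_lit 1) (nat_lit 0) (nat_lit 267) (nat_lit 302) (nat_lit 151))) (XT.nd (nat_lit 94) (nat_lit 0) (nat_lit 0) (XT.lf (nat_lit 0) (nat_lit 22125727350) (nat_lit 0) (nat_lit 0) (nat_lit 0) (nat_lit 0) (nat_lit 0) (nat_lit 0) (nat_lit 1) (nat_lit 0) (nat_lit 1) (nat_lit 0) (nat_lit 268) (nat_lit 302)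 (nat_lit 150)) (XT.lf (nat_lit 0) (nat_lit 22125094000) (nat_lit 0) (nat_lit 0) (nat_lit 0) (nat_lit 0) (nat_lit 0) (nat_lit 0) (nat_lit 1) (nat_lit 0) (nat_lit 1) (nat_lit 0) (nat_lit 269) (nat_lit 302) (nat_lit 149))))) (XT.nd (nat_lit 282) (nat_lit 0) (nat_lit 0) (XT.nd (nat_lit 94) (nat_lit 0) (nat_lit 0) (XT.lf (nat_lit 0) (nat_lit 22124490809) (nat_lit 0) (nat_lit 0) (nat_lit 0) (nat_lit 0) (nat_lit 0) (nat_lit 0) (nat_lit 1) (nat_lit 0) (nat_lit 1) (nat_lit 0) (nat_lit 270) (nat_lit 302) (nat_lit 148)) (XT.nd (nat_lit 94) (nat_lit 0) (nat_lit 0) (XT.lf (nat_lit 0) (nat_lit 22123916343) (nat_lit 0) (nat_lit 0) (nat_lit 0) (nat_lit 0) (nat_lit 0) (nat_lit 0) (nat_lit 1) (nat_lit 0) (nat_lit 1) (nat_lit 0) (nat_lit 271) (nat_lit 302) (nat_lit 147)) (XT.lf (nat_lit 0) (nat_lit 22123369231) (nat_lit 0) (nat_lit 0) (nat_lit 0) (nat_lit 0) (nat_lit 0) (nat_lit 0) (nat_lit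 1) (nat_lit 0) (nat_lit 1) (nat_lit 0) (nat_lit 272) (nat_lit 302) (nat_lit 146)))) (XT.nd (nat_lit 188) (nat_lit 0) (nat_lit 0) (XT.nd (nat_lit 94) (nat_lit 0) (nat_lit 0) (XT.lf (nat_lit 0) (nat_lit 22122848173) (nat_lit 0) (nat_lit 0) (nat_lit 0) (nat_lit 0) (nat_lit 0) (nat_lit 0) (nat_lit 1) (nat_lit 0) (nat_lit 1) (nat_lit 0) (nat_lit 273) (nat_lit 302) (nat_lit 145)) (XT.lf (nat_lit 0) (nat_lit 22122351926) (nat_lit 0) (nat_lit 0) (nat_lit 0) (nat_lit 0) (nat_lit 0) (nat_lit 0) (nat_lit 1) (nat_lit 0) (nat_lit 1) (nat_lit 0) (nat_lit 274) (nat_lit 302) (nat_lit 144))) (XT.nd (nat_lit 94) (nat_lit 0) (nat_lit 0) (XT.lf (nat_lit 0) (nat_lit 22121879311) (nat_lit 0) (nat_lit 0) (nat_lit 0) (nat_lit 0) (nat_lit 0) (nat_lit 0) (nat_lit 1) (nat_lit 0) (nat_lit 1) (nat_lit 0) (nat_lit 275) (nat_lit 302) (nat_lit 143)) (XT.lf (nat_lit 0) (nat_lit 22121429201) (nat_lit 0)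 (nat_lit 0) (nat_lit 0) (nat_lit 0) (nat_lit 0) (nat_lit 0) (nat_lit 1) (nat_lit 0) (nat_lit 1) (nat_lit 0) (nat_lit 276) (nat_lit 302) (nat_lit 142))))))))
noncomputable def ec189 : XT := (XT.nd (nat_lit 2538) (nat_lit 0) (nat_lit 0) (XT.nd (nat_lit 1222) (nat_lit 0) (nat_lit 0) (XT.nd (nat_lit 564) (nat_lit 0) (nat_lit 0) (XT.nd (nat_lit 282) (nat_lit 0) (nat_lit 0) (XT.nd (nat_lit 94) (nat_lit 0) (nat_lit 0) (XT.lf (nat_lit 0) (nat_lit 22121000525) (nat_lit 0) (nat_lit 0) (nat_lit 0) (nat_lit 0) (nat_lit 0) (nat_lit 0) (nat_lit 1) (nat_lit 0) (nat_lit 1) (nat_lit 0) (nat_lit 277) (nat_lit 302) (nat_lit 141)) (XT.nd (nat_lit 94) (nat_lit 0) (nat_lit 0) (XT.lf (nat_lit 0) (nat_lit 22120592262) (nat_lit 0) (nat_lit 0) (nat_lit 0) (nat_lit 0) (nat_lit 0) (nat_lit 0) (nat_lit 1) (nat_lit 0) (nat_lit 1) (nat_lit 0) (nat_lit 278) (nat_lit 302) (nat_lit 140)) (XT.lf (nat_lit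 0) (nat_lit 22120203440) (nat_lit 0) (nat_lit 0) (nat_lit 0) (nat_lit 0) (nat_lit 0) (nat_lit 0) (nat_lit 1) (nat_lit 0) (nat_lit 1) (nat_lit 0) (nat_lit 279) (nat_lit 302) (nat_lit 139)))) (XT.nd (nat_lit 94) (nat_lit 0) (nat_lit 0) (XT.lf (nat_lit 0) (nat_lit 22119833134) (nat_lit 0) (nat_lit 0) (nat_lit 0) (nat_lit 0) (nat_lit 0) (nat_lit 0) (nat_lit 1) (nat_lit 0) (nat_lit 1) (nat_lit 0) (nat_lit 280) (nat_lit 302) (nat_lit 138)) (XT.nd (nat_lit 94) (nat_lit 0) (nat_lit 0) (XT.lf (nat_lit 0) (nat_lit 22119480461) (nat_lit 0) (nat_lit 0) (nat_lit 0) (nat_lit 0) (nat_lit 0) (nat_lit 0) (nat_lit 1) (nat_lit 0) (nat_lit 1) (nat_lit 0) (nat_lit 281) (nat_lit 302) (nat_lit 137)) (XT.lf (nat_lit 0) (nat_lit 22119144582) (nat_lit 0) (nat_lit 0) (nat_lit 0) (nat_lit 0) (nat_lit 0) (nat_lit 0) (nat_lit 1) (nat_lit 0) (nat_lit 1) (nat_lit 0) (nat_lit 282) (nat_lit 302) (nat_lit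 136))))) (XT.nd (nat_lit 282) (nat_lit 0) (nat_lit 0) (XT.nd (nat_lit 94) (nat_lit 0) (nat_lit 0) (XT.lf (nat_lit 0) (nat_lit 22118824697) (nat_lit 0) (nat_lit 0) (nat_lit 0) (nat_lit 0) (nat_lit 0) (nat_lit 0) (nat_lit 1) (nat_lit 0) (nat_lit 1) (nat_lit 0) (nat_lit 283) (nat_lit 302) (nat_lit 135)) (XT.nd (nat_lit 94) (nat_lit 0) (nat_lit 0) (XT.lf (nat_lit 0) (nat_lit 22118520045) (nat_lit 0) (nat_lit 0) (nat_lit 0) (nat_lit 0) (nat_lit 0) (nat_lit 0) (nat_lit 1) (nat_lit 0) (nat_lit 1) (nat_lit 0) (nat_lit 284) (nat_lit 302) (nat_lit 134)) (XT.lf (nat_lit 0) (nat_lit 22118229900) (nat_lit 0) (nat_lit 0) (nat_lit 0) (nat_lit 0) (nat_lit 0) (nat_lit 0) (nat_lit 1) (nat_lit 0) (nat_lit 1) (nat_lit 0) (nat_lit 285) (nat_lit 302) (nat_lit 133)))) (XT.nd (nat_lit 188) (nat_lit 0) (nat_lit 0) (XT.nd (nat_lit 94) (nat_lit 0) (nat_lit 0) (XT.lf (nat_lit 0) (nat_lit 22117953572)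 (nat_lit 0) (nat_lit 0) (nat_lit 0) (nat_lit 0) (nat_lit 0) (nat_lit 0) (nat_lit 1) (nat_lit 0) (nat_lit 1) (nat_lit 0) (nat_lit 286) (nat_lit 302) (nat_lit 132)) (XT.lf (nat_lit 0) (nat_lit 22117690402) (nat_lit 0) (nat_lit 0) (nat_lit 0) (nat_lit 0) (nat_lit 0) (nat_lit 0) (nat_lit 1) (nat_lit 0) (nat_lit 1) (nat_lit 0) (nat_lit 287) (nat_lit 302) (nat_lit 131))) (XT.nd (nat_lit 94) (nat_lit 0) (nat_lit 0) (XT.lf (nat_lit 0) (nat_lit 22117439764) (nat_lit 0) (nat_lit 0) (nat_lit 0) (nat_lit 0) (nat_lit 0) (nat_lit 0) (nat_lit 1) (nat_lit 0) (nat_lit 1) (nat_lit 0) (nat_lit 288) (nat_lit 302) (nat_lit 130)) (XT.lf (nat_lit 0) (nat_lit 22117201061) (nat_lit 0) (nat_lit 0) (nat_lit 0) (nat_lit 0) (nat_lit 0) (nat_lit 0) (nat_lit 1) (nat_lit 0) (nat_lit 1) (nat_lit 0) (nat_lit 289) (nat_lit 302) (nat_lit 129)))))) (XT.nd (nat_lit 658) (nat_lit 0) (nat_lit 0) (XT.nd (nat_lit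 282) (nat_lit 0) (nat_lit 0) (XT.nd (nat_lit 94) (nat_lit 0) (nat_lit 0) (XT.lf (nat_lit 0) (nat_lit 22116973725) (nat_lit 0) (nat_lit 0) (nat_lit 0) (nat_lit 0) (nat_lit 0) (nat_lit 0) (nat_lit 1) (nat_lit 0) (nat_lit 1) (nat_lit 0) (nat_lit 290) (nat_lit 302) (nat_lit 128)) (XT.nd (nat_lit 94) (nat_lit 0) (nat_lit 0) (XT.lf (nat_lit 0) (nat_lit 22116757214) (nat_lit 0) (nat_lit 0) (nat_lit 0) (nat_lit 0) (nat_lit 0) (nat_lit 0) (nat_lit 1) (nat_lit 0) (nat_lit 1) (nat_lit 0) (nat_lit 291) (nat_lit 302) (nat_lit 127)) (XT.lf (nat_lit 0) (nat_lit 22116551014) (nat_lit 0) (nat_lit 0) (nat_lit 0) (nat_lit 0) (nat_lit 0) (nat_lit 0) (nat_lit 1) (nat_lit 0) (nat_lit 1) (nat_lit 0) (nat_lit 292) (nat_lit 302) (nat_lit 126)))) (XT.nd (nat_lit 188) (nat_lit 0) (nat_lit 0) (XT.nd (nat_lit 94) (nat_lit 0) (nat_lit 0) (XT.lf (nat_lit 0) (nat_lit 22116354632) (nat_lit 0) (nat_lit 0)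 (nat_lit 0) (nat_lit 0) (nat_lit 0) (nat_lit 0) (nat_lit 1) (nat_lit 0) (nat_lit 1) (nat_lit 0) (nat_lit 293) (nat_lit 302) (nat_lit 125)) (XT.lf (nat_lit 0) (nat_lit 22116167602) (nat_lit 0) (nat_lit 0) (nat_lit 0) (nat_lit 0) (nat_lit 0) (nat_lit 0) (nat_lit 1) (nat_lit 0) (nat_lit 1) (nat_lit 0) (nat_lit 294) (nat_lit 302) (nat_lit 124))) (XT.nd (nat_lit 94) (nat_lit 0) (nat_lit 0) (XT.lf (nat_lit 0) (nat_lit 22115989479) (nat_lit 0) (nat_lit 0) (nat_lit 0) (nat_lit 0) (nat_lit 0) (nat_lit 0) (nat_lit 1) (nat_lit 0) (nat_lit 1) (nat_lit 0) (nat_lit 295) (nat_lit 302) (nat_lit 123)) (XT.lf (nat_lit 0) (nat_lit 22115819837) (nat_lit 0) (nat_lit 0) (nat_lit 0) (nat_lit 0) (nat_lit 0) (nat_lit 0) (nat_lit 1) (nat_lit 0) (nat_lit 1) (nat_lit 0) (nat_lit 296) (nat_lit 302) (nat_lit 122))))) (XT.nd (nat_lit 282) (nat_lit 0) (nat_lit 0) (XT.nd (nat_lit 94) (nat_lit 0) (nat_lit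 0) (XT.lf (nat_lit 0) (nat_lit 22115658273) (nat_lit 0) (nat_lit 0) (nat_lit 0) (nat_lit 0) (nat_lit 0) (nat_lit 0) (nat_lit 1) (nat_lit 0) (nat_lit 1) (nat_lit 0) (nat_lit 297) (nat_lit 302) (nat_lit 121)) (XT.nd (nat_lit 94) (nat_lit 0) (nat_lit 0) (XT.lf (nat_lit 0) (nat_lit 22115504403) (nat_lit 0) (nat_lit 0) (nat_lit 0) (nat_lit 0) (nat_lit 0) (nat_lit 0) (nat_lit 1) (nat_lit 0) (nat_lit 1) (nat_lit 0) (nat_lit 298) (nat_lit 302) (nat_lit 120)) (XT.lf (nat_lit 0) (nat_lit 22115357861) (nat_lit 0) (nat_lit 0) (nat_lit 0) (nat_lit 0) (nat_lit 0) (nat_lit 0) (nat_lit 1) (nat_lit 0) (nat_lit 1) (nat_lit 0) (nat_lit 299) (nat_lit 302) (nat_lit 119)))) (XT.nd (nat_lit 188) (nat_lit 0) (nat_lit 0) (XT.nd (nat_lit 94) (nat_lit 0) (nat_lit 0) (XT.lf (nat_lit 0) (nat_lit 22115218296) (nat_lit 0) (nat_lit 0) (nat_lit 0) (nat_lit 0) (nat_lit 0) (nat_lit 0) (nat_lit 1) (nat_lit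 0) (nat_lit 1) (nat_lit 0) (nat_lit 300) (nat_lit 302) (nat_lit 118)) (XT.lf (nat_lit 0) (nat_lit 22115085377) (nat_lit 0) (nat_lit 0) (nat_lit 0) (nat_lit 0) (nat_lit 0) (nat_lit 0) (nat_lit 1) (nat_lit 0) (nat_lit 1) (nat_lit 0) (nat_lit 301) (nat_lit 302) (nat_lit 117))) (XT.nd (nat_lit 94) (nat_lit 0) (nat_lit 0) (XT.lf (nat_lit 0) (nat_lit 22114958788) (nat_lit 0) (nat_lit 0) (nat_lit 0) (nat_lit 0) (nat_lit 0) (nat_lit 0) (nat_lit 1) (nat_lit 0) (nat_lit 1) (nat_lit 0) (nat_lit 302) (nat_lit 302) (nat_lit 116)) (XT.lf (nat_lit 0) (nat_lit 22114838227) (nat_lit 0) (nat_lit 0) (nat_lit 0) (nat_lit 0) (nat_lit 0) (nat_lit 0) (nat_lit 1) (nat_lit 0) (nat_lit 1) (nat_lit 0) (nat_lit 303) (nat_lit 302) (nat_lit 115))))))) (XT.nd (nat_lit 27824) (nat_lit 0) (nat_lit 8568) (XT.nd (nat_lit 658) (nat_lit 0) (nat_lit 0) (XT.nd (nat_lit 282) (nat_lit 0) (nat_lit 0) (XT.nd (nat_lit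 94) (nat_lit 0) (nat_lit 0) (XT.lf (nat_lit 0) (nat_lit 22114723407) (nat_lit 0) (nat_lit 0) (nat_lit 0) (nat_lit 0) (nat_lit 0) (nat_lit 0) (nat_lit 1) (nat_lit 0) (nat_lit 1) (nat_lit 0) (nat_lit 304) (nat_lit 302) (nat_lit 114)) (XT.nd (nat_lit 94) (nat_lit 0) (nat_lit 0) (XT.lf (nat_lit 0) (nat_lit 22114614054) (nat_lit 0) (nat_lit 0) (nat_lit 0) (nat_lit 0) (nat_lit 0) (nat_lit 0) (nat_lit 1) (nat_lit 0) (nat_lit 1) (nat_lit 0) (nat_lit 305) (nat_lit 302) (nat_lit 113)) (XT.lf (nat_lit 0) (nat_lit 22114509909) (nat_lit 0) (nat_lit 0) (nat_lit 0) (nat_lit 0) (nat_lit 0) (nat_lit 0) (nat_lit 1) (nat_lit 0) (nat_lit 1) (nat_lit 0) (nat_lit 306) (nat_lit 302) (nat_lit 112)))) (XT.nd (nat_lit 188) (nat_lit 0) (nat_lit 0) (XT.nd (nat_lit 94) (nat_lit 0) (nat_lit 0) (XT.lf (nat_lit 0) (nat_lit 22114410723) (nat_lit 0) (nat_lit 0) (nat_lit 0) (nat_lit 0) (nat_lit 0) (nat_lit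 0) (nat_lit 1) (nat_lit 0) (nat_lit 1) (nat_lit 0) (nat_lit 307) (nat_lit 302) (nat_lit 111)) (XT.lf (nat_lit 0) (nat_lit 22114316260) (nat_lit 0) (nat_lit 0) (nat_lit 0) (nat_lit 0) (nat_lit 0) (nat_lit 0) (nat_lit 1) (nat_lit 0) (nat_lit 1) (nat_lit 0) (nat_lit 308) (nat_lit 302) (nat_lit 110))) (XT.nd (nat_lit 94) (nat_lit 0) (nat_lit 0) (XT.lf (nat_lit 0) (nat_lit 22114226295) (nat_lit 0) (nat_lit 0) (nat_lit 0) (nat_lit 0) (nat_lit 0) (nat_lit 0) (nat_lit 1) (nat_lit 0) (nat_lit 1) (nat_lit 0) (nat_lit 309) (nat_lit 302) (nat_lit 109)) (XT.lf (nat_lit 0) (nat_lit 22114140615) (nat_lit 0) (nat_lit 0) (nat_lit 0) (nat_lit 0) (nat_lit 0) (nat_lit 0) (nat_lit 1) (nat_lit 0) (nat_lit 1) (nat_lit 0) (nat_lit 310) (nat_lit 302) (nat_lit 108))))) (XT.nd (nat_lit 26790) (nat_lit 0) (nat_lit 10752) (XT.nd (nat_lit 94) (nat_lit 0) (nat_lit 0) (XT.lf (nat_lit 0) (nat_lit 22114059014)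 (nat_lit 0) (nat_lit 0) (nat_lit 0) (nat_lit 0) (nat_lit 0) (nat_lit 0) (nat_lit 1) (nat_lit 0) (nat_lit 1) (nat_lit 0) (nat_lit 311) (nat_lit 302) (nat_lit 107)) (XT.nd (nat_lit 26602) (nat_lit 0) (nat_lit 10752) (XT.lf (nat_lit 0) (nat_lit 22113981299) (nat_lit 0) (nat_lit 0) (nat_lit 0) (nat_lit 0) (nat_lit 0) (nat_lit 0) (nat_lit 1) (nat_lit 0) (nat_lit 1) (nat_lit 0) (nat_lit 312) (nat_lit 302) (nat_lit 106)) (XT.lf (nat_lit 924) (nat_lit 11619181088) (nat_lit 0) (nat_lit 20629829315) (nat_lit 924) (nat_lit 11619181088) (nat_lit 139) (nat_lit 1) (nat_lit 128) (nat_lit 0) (nat_lit 139) (nat_lit 0) (nat_lit 114) (nat_lit 303) (nat_lit 303)))) (XT.nd (nat_lit 188) (nat_lit 0) (nat_lit 84) (XT.nd (nat_lit 94) (nat_lit 0) (nat_lit 84) (XT.lf (nat_lit 924) (nat_lit 45037396497) (nat_lit 84) (nat_lit 20297090132) (nat_lit 0) (nat_lit 20297090132) (nat_lit 139) (nat_lit 1)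 (nat_lit 129) (nat_lit 1) (nat_lit 128) (nat_lit 0) (nat_lit 115) (nat_lit 303) (nat_lit 302)) (XT.lf (nat_lit 924) (nat_lit 21464145042) (nat_lit 0) (nat_lit 40663551322) (nat_lit 840) (nat_lit 21464145042) (nat_lit 140) (nat_lit 1) (nat_lit 129) (nat_lit 1) (nat_lit 139) (nat_lit 1) (nat_lit 116) (nat_lit 303) (nat_lit 301))) (XT.nd (nat_lit 94) (nat_lit 0) (nat_lit 84) (XT.lf (nat_lit 924) (nat_lit 40263753582) (nat_lit 84) (nat_lit 20677125560) (nat_lit 0) (nat_lit 20677125560) (nat_lit 140) (nat_lit 1) (nat_lit 130) (nat_lit 1) (nat_lit 129) (nat_lit 1) (nat_lit 117) (nat_lit 303) (nat_lit 300)) (XT.lf (nat_lit 924) (nat_lit 18533019117) (nat_lit 0) (nat_lit 42640690485) (nat_lit 840) (nat_lit 18533019117) (nat_lit 141) (nat_lit 1) (nat_lit 130) (nat_lit 1) (nat_lit 140) (nat_lit 1) (nat_lit 118) (nat_lit 303) (nat_lit 299)))))) (XT.nd (nat_lit 658) (nat_lit 1764) (nat_lit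 0) (XT.nd (nat_lit 282) (nat_lit 588) (nat_lit 0) (XT.nd (nat_lit 94) (nat_lit 0) (nat_lit 84) (XT.lf (nat_lit 924) (nat_lit 33332841975) (nat_lit 84) (nat_lit 22260436879) (nat_lit 0) (nat_lit 22260436879) (nat_lit 141) (nat_lit 1) (nat_lit 131) (nat_lit 1) (nat_lit 130) (nat_lit 1) (nat_lit 119) (nat_lit 303) (nat_lit 298)) (XT.nd (nat_lit 94) (nat_lit 0) (nat_lit 0) (XT.lf (nat_lit 924) (nat_lit 14615488466) (nat_lit 0) (nat_lit 46831943573) (nat_lit 840) (nat_lit 14615488466) (nat_lit 142) (nat_lit 1) (nat_lit 131) (nat_lit 1) (nat_lit 141) (nat_lit 1) (nat_lit 120) (nat_lit 303) (nat_lit 297)) (XT.lf (nat_lit 924) (nat_lit 24569084869) (nat_lit 84) (nat_lit 24876173569) (nat_lit 0) (nat_lit 24876173569) (nat_lit 142) (nat_lit 1) (nat_lit 132) (nat_lit 1) (nat_lit 131) (nat_lit 1) (nat_lit 121) (nat_lit 303) (nat_lit 296)))) (XT.nd (nat_lit 188) (nat_lit 756) (nat_lit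 0) (XT.nd (nat_lit 94) (nat_lit 0) (nat_lit 0) (XT.lf (nat_lit 924) (nat_lit 9863207891) (nat_lit 0) (nat_lit 52917276137) (nat_lit 840) (nat_lit 9863207891) (nat_lit 143) (nat_lit 1) (nat_lit 132) (nat_lit 1) (nat_lit 142) (nat_lit 1) (nat_lit 122) (nat_lit 303) (nat_lit 295)) (XT.lf (nat_lit 924) (nat_lit 14260845532) (nat_lit 84) (nat_lit 28372177807) (nat_lit 0) (nat_lit 28372177807) (nat_lit 143) (nat_lit 1) (nat_lit 133) (nat_lit 1) (nat_lit 132) (nat_lit 1) (nat_lit 123) (nat_lit 303) (nat_lit 294))) (XT.nd (nat_lit 94) (nat_lit 840) (nat_lit 0) (XT.lf (nat_lit 84) (nat_lit 4410878089) (nat_lit 0) (nat_lit 60611844978) (nat_lit 840) (nat_lit 4410878089) (nat_lit 134) (nat_lit 1) (nat_lit 133) (nat_lit 1) (nat_lit 143) (nat_lit 1) (nat_lit 124) (nat_lit 303) (nat_lit 293)) (XT.lf (nat_lit 924) (nat_lit 2664060676) (nat_lit 0) (nat_lit 32613112854) (nat_lit 840) (nat_lit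 32613112854) (nat_lit 134) (nat_lit 1) (nat_lit 123) (nat_lit 1) (nat_lit 133) (nat_lit 1) (nat_lit 125) (nat_lit 303) (nat_lit 292))))) (XT.nd (nat_lit 282) (nat_lit 756) (nat_lit 0) (XT.nd (nat_lit 94) (nat_lit 420) (nat_lit 0) (XT.lf (nat_lit 588) (nat_lit 63221514892) (nat_lit 0) (nat_lit 1595880207) (nat_lit 504) (nat_lit 1595880207) (nat_lit 123) (nat_lit 1) (nat_lit 116) (nat_lit 1) (nat_lit 122) (nat_lit 1) (nat_lit 126) (nat_lit 303) (nat_lit 291)) (XT.nd (nat_lit 94) (nat_lit 420) (nat_lit 0) (XT.lf (nat_lit 84) (nat_lit 27640336277) (nat_lit 0) (nat_lit 9674591641) (nat_lit 588) (nat_lit 27640336277) (nat_lit 117) (nat_lit 1) (nat_lit 116) (nat_lit 1) (nat_lit 123) (nat_lit 1) (nat_lit 127) (nat_lit 303) (nat_lit 290)) (XT.lf (nat_lit 504) (nat_lit 47561923767) (nat_lit 0) (nat_lit 7998663929) (nat_lit 420) (nat_lit 7998663929) (nat_lit 117) (nat_lit 1) (nat_lit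 111) (nat_lit 1) (nat_lit 116) (nat_lit 1) (nat_lit 128) (nat_lit 303) (nat_lit 289)))) (XT.nd (nat_lit 188) (nat_lit 336) (nat_lit 0) (XT.nd (nat_lit 94) (nat_lit 420) (nat_lit 0) (XT.lf (nat_lit 84) (nat_lit 19715515388) (nat_lit 0) (nat_lit 22761556321) (nat_lit 504) (nat_lit 19715515388) (nat_lit 112) (nat_lit 1) (nat_lit 111) (nat_lit 1) (nat_lit 117) (nat_lit 1) (nat_lit 129) (nat_lit 303) (nat_lit 288)) (XT.lf (nat_lit 504) (nat_lit 31320201291) (nat_lit 0) (nat_lit 14776659274) (nat_lit 420) (nat_lit 14776659274) (nat_lit 112) (nat_lit 1) (nat_lit 106) (nat_lit 1) (nat_lit 111) (nat_lit 1) (nat_lit 130) (nat_lit 303) (nat_lit 287))) (XT.nd (nat_lit 94) (nat_lit 336) (nat_lit 0) (XT.lf (nat_lit 84) (nat_lit 11541077928) (nat_lit 0) (nat_lit 36510659643) (nat_lit 504) (nat_lit 11541077928) (nat_lit 107) (nat_lit 1) (nat_lit 106) (nat_lit 1) (nat_lit 112) (nat_lit 1)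 (nat_lit 131) (nat_lit 303) (nat_lit 286)) (XT.lf (nat_lit 420) (nat_lit 14647516694) (nat_lit 0) (nat_lit 21848769203) (nat_lit 336) (nat_lit 21848769203) (nat_lit 107) (nat_lit 1) (nat_lit 102) (nat_lit 1) (nat_lit 106) (nat_lit 1) (nat_lit 132) (nat_lit 303) (nat_lit 285))))))))
noncomputable def ec190 : XT := (XT.nd (nat_lit 2538) (nat_lit 2688) (nat_lit 0) (XT.nd (nat_lit 1222) (nat_lit 1764) (nat_lit 0) (XT.nd (nat_lit 564) (nat_lit 1512) (nat_lit 0) (XT.nd (nat_lit 282) (nat_lit 336) (nat_lit 0) (XT.nd (nat_lit 94) (nat_lit 756) (nat_lit 0) (XT.lf (nat_lit 84) (nat_lit 3187201895) (nat_lit 0) (nat_lit 50770873635) (nat_lit 420) (nat_lit 3187201895) (nat_lit 103) (nat_lit 1) (nat_lit 102) (nat_lit 1) (nat_lit 107) (nat_lit 1) (nat_lit 133) (nat_lit 303) (nat_lit 284)) (XT.nd (nat_lit 94) (nat_lit 336) (nat_lit 0) (XT.lf (nat_lit 84) (nat_lit 26856279017) (nat_lit 0)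 (nat_lit 2249265536) (nat_lit 420) (nat_lit 26856279017) (nat_lit 98) (nat_lit 1) (nat_lit 97) (nat_lit 1) (nat_lit 102) (nat_lit 1) (nat_lit 134) (nat_lit 303) (nat_lit 283)) (XT.lf (nat_lit 420) (nat_lit 44424520773) (nat_lit 0) (nat_lit 5199458882) (nat_lit 336) (nat_lit 5199458882) (nat_lit 98) (nat_lit 1) (nat_lit 93) (nat_lit 1) (nat_lit 97) (nat_lit 1) (nat_lit 135) (nat_lit 303) (nat_lit 282)))) (XT.nd (nat_lit 94) (nat_lit 336) (nat_lit 0) (XT.lf (nat_lit 84) (nat_lit 17425250084) (nat_lit 0) (nat_lit 18854082584) (nat_lit 420) (nat_lit 17425250084) (nat_lit 94) (nat_lit 1) (nat_lit 93) (nat_lit 1) (nat_lit 98) (nat_lit 1) (nat_lit 136) (nat_lit 303) (nat_lit 281)) (XT.nd (nat_lit 94) (nat_lit 0) (nat_lit 0) (XT.lf (nat_lit 420) (nat_lit 25428287202) (nat_lit 0) (nat_lit 13598118876) (nat_lit 336) (nat_lit 13598118876) (nat_lit 94) (nat_lit 1) (nat_lit 89) (nat_lit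 1) (nat_lit 93) (nat_lit 1) (nat_lit 137) (nat_lit 303) (nat_lit 280)) (XT.lf (nat_lit 84) (nat_lit 8018946937) (nat_lit 0) (nat_lit 35538154262) (nat_lit 420) (nat_lit 8018946937) (nat_lit 90) (nat_lit 1) (nat_lit 89) (nat_lit 1) (nat_lit 94) (nat_lit 1) (nat_lit 138) (nat_lit 303) (nat_lit 279))))) (XT.nd (nat_lit 282) (nat_lit 840) (nat_lit 0) (XT.nd (nat_lit 94) (nat_lit 420) (nat_lit 0) (XT.lf (nat_lit 336) (nat_lit 6521466099) (nat_lit 0) (nat_lit 22014368819) (nat_lit 252) (nat_lit 22014368819) (nat_lit 90) (nat_lit 1) (nat_lit 86) (nat_lit 1) (nat_lit 89) (nat_lit 1) (nat_lit 139) (nat_lit 303) (nat_lit 278)) (XT.nd (nat_lit 94) (nat_lit 0) (nat_lit 0) (XT.lf (nat_lit 420) (nat_lit 46957961124) (nat_lit 0) (nat_lit 1302993318) (nat_lit 336) (nat_lit 1302993318) (nat_lit 86) (nat_lit 1) (nat_lit 81) (nat_lit 1) (nat_lit 85) (nat_lit 1) (nat_lit 140) (nat_lit 303)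 (nat_lit 277)) (XT.lf (nat_lit 84) (nat_lit 18374997342) (nat_lit 0) (nat_lit 11833155909) (nat_lit 420) (nat_lit 18374997342) (nat_lit 82) (nat_lit 1) (nat_lit 81) (nat_lit 1) (nat_lit 86) (nat_lit 1) (nat_lit 141) (nat_lit 303) (nat_lit 276)))) (XT.nd (nat_lit 188) (nat_lit 588) (nat_lit 0) (XT.nd (nat_lit 94) (nat_lit 0) (nat_lit 0) (XT.lf (nat_lit 336) (nat_lit 26837264531) (nat_lit 0) (nat_lit 10401352538) (nat_lit 252) (nat_lit 10401352538) (nat_lit 82) (nat_lit 1) (nat_lit 78) (nat_lit 1) (nat_lit 81) (nat_lit 1) (nat_lit 142) (nat_lit 303) (nat_lit 275)) (XT.lf (nat_lit 84) (nat_lit 8478306995) (nat_lit 0) (nat_lit 29764137765) (nat_lit 336) (nat_lit 8478306995) (nat_lit 79) (nat_lit 1) (nat_lit 78) (nat_lit 1) (nat_lit 82) (nat_lit 1) (nat_lit 143) (nat_lit 303) (nat_lit 274))) (XT.nd (nat_lit 94) (nat_lit 336) (nat_lit 0) (XT.lf (nat_lit 336) (nat_lit 7066403881)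 (nat_lit 0) (nat_lit 19378020990) (nat_lit 252) (nat_lit 19378020990) (nat_lit 79) (nat_lit 1) (nat_lit 75) (nat_lit 1) (nat_lit 78) (nat_lit 1) (nat_lit 144) (nat_lit 303) (nat_lit 273)) (XT.lf (nat_lit 336) (nat_lit 42528644168) (nat_lit 0) (nat_lit 1214434502) (nat_lit 252) (nat_lit 1214434502) (nat_lit 75) (nat_lit 1) (nat_lit 71) (nat_lit 1) (nat_lit 74) (nat_lit 1) (nat_lit 145) (nat_lit 303) (nat_lit 272)))))) (XT.nd (nat_lit 658) (nat_lit 840) (nat_lit 0) (XT.nd (nat_lit 282) (nat_lit 672) (nat_lit 0) (XT.nd (nat_lit 94) (nat_lit 252) (nat_lit 0) (XT.lf (nat_lit 84) (nat_lit 16087368145) (nat_lit 0) (nat_lit 11920578260) (nat_lit 336) (nat_lit 16087368145) (nat_lit 72) (nat_lit 1) (nat_lit 71) (nat_lit 1) (nat_lit 75) (nat_lit 1) (nat_lit 146) (nat_lit 303) (nat_lit 271)) (XT.nd (nat_lit 94) (nat_lit 0) (nat_lit 0) (XT.lf (nat_lit 336) (nat_lit 22121604253) (nat_lit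 0) (nat_lit 10571706581) (nat_lit 252) (nat_lit 10571706581) (nat_lit 72) (nat_lit 1) (nat_lit 68) (nat_lit 1) (nat_lit 71) (nat_lit 1) (nat_lit 147) (nat_lit 303) (nat_lit 270)) (XT.lf (nat_lit 84) (nat_lit 6092271769) (nat_lit 0) (nat_lit 30272445688) (nat_lit 336) (nat_lit 6092271769) (nat_lit 69) (nat_lit 1) (nat_lit 68) (nat_lit 1) (nat_lit 72) (nat_lit 1) (nat_lit 148) (nat_lit 303) (nat_lit 269)))) (XT.nd (nat_lit 188) (nat_lit 168) (nat_lit 0) (XT.nd (nat_lit 94) (nat_lit 336) (nat_lit 0) (XT.lf (nat_lit 252) (nat_lit 2232410940) (nat_lit 0) (nat_lit 19715888453) (nat_lit 168) (nat_lit 19715888453) (nat_lit 69) (nat_lit 1) (nat_lit 66) (nat_lit 1) (nat_lit 68) (nat_lit 1) (nat_lit 149) (nat_lit 303) (nat_lit 268)) (XT.lf (nat_lit 336) (nat_lit 33730980749) (nat_lit 0) (nat_lit 3582474649) (nat_lit 252) (nat_lit 3582474649) (nat_lit 66) (nat_lit 1) (nat_lit 62) (nat_lit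 1) (nat_lit 65) (nat_lit 1) (nat_lit 150) (nat_lit 303) (nat_lit 267))) (XT.nd (nat_lit 94) (nat_lit 168) (nat_lit 0) (XT.lf (nat_lit 84) (nat_lit 11781430898) (nat_lit 0) (nat_lit 16573402673) (nat_lit 336) (nat_lit 11781430898) (nat_lit 63) (nat_lit 1) (nat_lit 62) (nat_lit 1) (nat_lit 66) (nat_lit 1) (nat_lit 151) (nat_lit 303) (nat_lit 266)) (XT.lf (nat_lit 252) (nat_lit 13611626040) (nat_lit 0) (nat_lit 12894209109) (nat_lit 168) (nat_lit 12894209109) (nat_lit 63) (nat_lit 1) (nat_lit 60) (nat_lit 1) (nat_lit 62) (nat_lit 1) (nat_lit 152) (nat_lit 303) (nat_lit 265))))) (XT.nd (nat_lit 282) (nat_lit 420) (nat_lit 0) (XT.nd (nat_lit 94) (nat_lit 420) (nat_lit 0) (XT.lf (nat_lit 84) (nat_lit 1955558620) (nat_lit 0) (nat_lit 34777139128) (nat_lit 252) (nat_lit 1955558620) (nat_lit 61) (nat_lit 1) (nat_lit 60) (nat_lit 1) (nat_lit 63) (nat_lit 1) (nat_lit 153) (nat_lit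 303) (nat_lit 264)) (XT.nd (nat_lit 94) (nat_lit 168) (nat_lit 0) (XT.lf (nat_lit 84) (nat_lit 16139568391) (nat_lit 0) (nat_lit 5699919097) (nat_lit 252) (nat_lit 16139568391) (nat_lit 58) (nat_lit 1) (nat_lit 57) (nat_lit 1) (nat_lit 60) (nat_lit 1) (nat_lit 154) (nat_lit 303) (nat_lit 263)) (XT.lf (nat_lit 252) (nat_lit 22412619414) (nat_lit 0) (nat_lit 7440382397) (nat_lit 168) (nat_lit 7440382397) (nat_lit 58) (nat_lit 1) (nat_lit 55) (nat_lit 1) (nat_lit 57) (nat_lit 1) (nat_lit 155) (nat_lit 303) (nat_lit 262)))) (XT.nd (nat_lit 188) (nat_lit 252) (nat_lit 0) (XT.nd (nat_lit 94) (nat_lit 168) (nat_lit 0) (XT.lf (nat_lit 84) (nat_lit 6324258108) (nat_lit 0) (nat_lit 23974351165) (nat_lit 252) (nat_lit 6324258108) (nat_lit 56) (nat_lit 1) (nat_lit 55) (nat_lit 1) (nat_lit 58) (nat_lit 1) (nat_lit 156) (nat_lit 303) (nat_lit 261)) (XT.lf (nat_lit 252) (nat_lit 2962687229)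 (nat_lit 0) (nat_lit 16501589608) (nat_lit 168) (nat_lit 16501589608) (nat_lit 56) (nat_lit 1) (nat_lit 53) (nat_lit 1) (nat_lit 55) (nat_lit 1) (nat_lit 157) (nat_lit 303) (nat_lit 260))) (XT.nd (nat_lit 94) (nat_lit 0) (nat_lit 0) (XT.lf (nat_lit 252) (nat_lit 29119204112) (nat_lit 0) (nat_lit 3104349253) (nat_lit 168) (nat_lit 3104349253) (nat_lit 53) (nat_lit 1) (nat_lit 50) (nat_lit 1) (nat_lit 52) (nat_lit 1) (nat_lit 158) (nat_lit 303) (nat_lit 259)) (XT.lf (nat_lit 84) (nat_lit 9693854407) (nat_lit 0) (nat_lit 15307674929) (nat_lit 252) (nat_lit 9693854407) (nat_lit 51) (nat_lit 1) (nat_lit 50) (nat_lit 1) (nat_lit 53) (nat_lit 1) (nat_lit 159) (nat_lit 303) (nat_lit 258))))))) (XT.nd (nat_lit 1222) (nat_lit 1176) (nat_lit 0) (XT.nd (nat_lit 564) (nat_lit 840) (nat_lit 0) (XT.nd (nat_lit 282) (nat_lit 336) (nat_lit 0) (XT.nd (nat_lit 94) (nat_lit 168) (nat_lit 0)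 (XT.lf (nat_lit 252) (nat_lit 9872720071) (nat_lit 0) (nat_lit 12104253848) (nat_lit 168) (nat_lit 12104253848) (nat_lit 51) (nat_lit 1) (nat_lit 48) (nat_lit 1) (nat_lit 50) (nat_lit 1) (nat_lit 160) (nat_lit 303) (nat_lit 257)) (XT.nd (nat_lit 94) (nat_lit 168) (nat_lit 0) (XT.lf (nat_lit 84) (nat_lit 324489080) (nat_lit 0) (nat_lit 32839632112) (nat_lit 252) (nat_lit 324489080) (nat_lit 49) (nat_lit 1) (nat_lit 48) (nat_lit 1) (nat_lit 51) (nat_lit 1) (nat_lit 161) (nat_lit 303) (nat_lit 256)) (XT.lf (nat_lit 84) (nat_lit 12252178592) (nat_lit 0) (nat_lit 8387868613) (nat_lit 168) (nat_lit 12252178592) (nat_lit 47) (nat_lit 1) (nat_lit 46) (nat_lit 1) (nat_lit 48) (nat_lit 1) (nat_lit 162) (nat_lit 303) (nat_lit 255)))) (XT.nd (nat_lit 94) (nat_lit 168) (nat_lit 0) (XT.lf (nat_lit 252) (nat_lit 15203558813) (nat_lit 0) (nat_lit 8556633157) (nat_lit 168) (nat_lit 8556633157)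 (nat_lit 47) (nat_lit 1) (nat_lit 44) (nat_lit 1) (nat_lit 46) (nat_lit 1) (nat_lit 163) (nat_lit 303) (nat_lit 254)) (XT.nd (nat_lit 94) (nat_lit 168) (nat_lit 0) (XT.lf (nat_lit 84) (nat_lit 3048208466) (nat_lit 0) (nat_lit 25660539050) (nat_lit 252) (nat_lit 3048208466) (nat_lit 45) (nat_lit 1) (nat_lit 44) (nat_lit 1) (nat_lit 47) (nat_lit 1) (nat_lit 164) (nat_lit 303) (nat_lit 253)) (XT.lf (nat_lit 84) (nat_lit 14153250584) (nat_lit 0) (nat_lit 2895202709) (nat_lit 168) (nat_lit 14153250584) (nat_lit 43) (nat_lit 1) (nat_lit 42) (nat_lit 1) (nat_lit 44) (nat_lit 1) (nat_lit 165) (nat_lit 303) (nat_lit 252))))) (XT.nd (nat_lit 282) (nat_lit 588) (nat_lit 0) (XT.nd (nat_lit 94) (nat_lit 84) (nat_lit 0) (XT.lf (nat_lit 252) (nat_lit 19252050773) (nat_lit 0) (nat_lit 5704738095) (nat_lit 168) (nat_lit 5704738095) (nat_lit 43) (nat_lit 1) (nat_lit 40) (nat_lit 1) (nat_lit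 42) (nat_lit 1) (nat_lit 166) (nat_lit 303) (nat_lit 251)) (XT.nd (nat_lit 94) (nat_lit 84) (nat_lit 0) (XT.lf (nat_lit 84) (nat_lit 5156578646) (nat_lit 0) (nat_lit 19818886543) (nat_lit 252) (nat_lit 5156578646) (nat_lit 41) (nat_lit 1) (nat_lit 40) (nat_lit 1) (nat_lit 43) (nat_lit 1) (nat_lit 167) (nat_lit 303) (nat_lit 250)) (XT.lf (nat_lit 168) (nat_lit 1480265945) (nat_lit 0) (nat_lit 14066143183) (nat_lit 84) (nat_lit 14066143183) (nat_lit 41) (nat_lit 1) (nat_lit 39) (nat_lit 1) (nat_lit 40) (nat_lit 1) (nat_lit 168) (nat_lit 303) (nat_lit 249)))) (XT.nd (nat_lit 188) (nat_lit 336) (nat_lit 0) (XT.nd (nat_lit 94) (nat_lit 0) (nat_lit 0) (XT.lf (nat_lit 252) (nat_lit 22261610112) (nat_lit 0) (nat_lit 3422040073) (nat_lit 168) (nat_lit 3422040073) (nat_lit 39) (nat_lit 1) (nat_lit 36) (nat_lit 1) (nat_lit 38) (nat_lit 1) (nat_lit 169) (nat_lit 303) (nat_lit 248))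 (XT.lf (nat_lit 84) (nat_lit 6765006201) (nat_lit 0) (nat_lit 15074473257) (nat_lit 252) (nat_lit 6765006201) (nat_lit 37) (nat_lit 1) (nat_lit 36) (nat_lit 1) (nat_lit 39) (nat_lit 1) (nat_lit 170) (nat_lit 303) (nat_lit 247))) (XT.nd (nat_lit 94) (nat_lit 252) (nat_lit 0) (XT.lf (nat_lit 168) (nat_lit 4971068394) (nat_lit 0) (nat_lit 11572250807) (nat_lit 84) (nat_lit 11572250807) (nat_lit 37) (nat_lit 1) (nat_lit 35) (nat_lit 1) (nat_lit 36) (nat_lit 1) (nat_lit 171) (nat_lit 303) (nat_lit 246)) (XT.lf (nat_lit 252) (nat_lit 24431729634) (nat_lit 0) (nat_lit 1604595050) (nat_lit 168) (nat_lit 1604595050) (nat_lit 35) (nat_lit 1) (nat_lit 32) (nat_lit 1) (nat_lit 34) (nat_lit 1) (nat_lit 172) (nat_lit 303) (nat_lit 245)))))) (XT.nd (nat_lit 658) (nat_lit 588) (nat_lit 0) (XT.nd (nat_lit 282) (nat_lit 252) (nat_lit 0) (XT.nd (nat_lit 94) (nat_lit 336) (nat_lit 0) (XT.lf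 (nat_lit 84) (nat_lit 7968136094) (nat_lit 0) (nat_lit 11229831454) (nat_lit 252) (nat_lit 7968136094) (nat_lit 33) (nat_lit 1) (nat_lit 32) (nat_lit 1) (nat_lit 35) (nat_lit 1) (nat_lit 173) (nat_lit 303) (nat_lit 244)) (XT.nd (nat_lit 94) (nat_lit 252) (nat_lit 0) (XT.lf (nat_lit 168) (nat_lit 7664234021) (nat_lit 0) (nat_lit 9520519378) (nat_lit 84) (nat_lit 9520519378) (nat_lit 33) (nat_lit 1) (nat_lit 31) (nat_lit 1) (nat_lit 32) (nat_lit 1) (nat_lit 174) (nat_lit 303) (nat_lit 243)) (XT.lf (nat_lit 252) (nat_lit 25925804340) (nat_lit 0) (nat_lit 167032141) (nat_lit 168) (nat_lit 167032141) (nat_lit 31) (nat_lit 1) (nat_lit 28) (nat_lit 1) (nat_lit 30) (nat_lit 1) (nat_lit 175) (nat_lit 303) (nat_lit 242)))) (XT.nd (nat_lit 188) (nat_lit 168) (nat_lit 0) (XT.nd (nat_lit 94) (nat_lit 84) (nat_lit 0) (XT.lf (nat_lit 84) (nat_lit 8843546951) (nat_lit 0) (nat_lit 8122643462)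 (nat_lit 252) (nat_lit 8843546951) (nat_lit 29) (nat_lit 1) (nat_lit 28) (nat_lit 1) (nat_lit 31) (nat_lit 1) (nat_lit 176) (nat_lit 303) (nat_lit 241)) (XT.lf (nat_lit 168) (nat_lit 9709692630) (nat_lit 0) (nat_lit 7832554853) (nat_lit 84) (nat_lit 7832554853) (nat_lit 29) (nat_lit 1) (nat_lit 27) (nat_lit 1) (nat_lit 28) (nat_lit 1) (nat_lit 177) (nat_lit 303) (nat_lit 240))) (XT.nd (nat_lit 94) (nat_lit 168) (nat_lit 0) (XT.lf (nat_lit 0) (nat_lit 976496160) (nat_lit 0) (nat_lit 23000006406) (nat_lit 168) (nat_lit 976496160) (nat_lit 27) (nat_lit 3) (nat_lit 27) (nat_lit 1) (nat_lit 29) (nat_lit 1) (nat_lit 178) (nat_lit 303) (nat_lit 239)) (XT.lf (nat_lit 84) (nat_lit 9454790502) (nat_lit 0) (nat_lit 5619503005) (nat_lit 168) (nat_lit 9454790502) (nat_lit 26) (nat_lit 1) (nat_lit 25) (nat_lit 1) (nat_lit 27) (nat_lit 1) (nat_lit 179) (nat_lit 303) (nat_lit 238))))) (XT.nd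 (nat_lit 282) (nat_lit 336) (nat_lit 0) (XT.nd (nat_lit 94) (nat_lit 168) (nat_lit 0) (XT.lf (nat_lit 168) (nat_lit 11230386569) (nat_lit 0) (nat_lit 6443862262) (nat_lit 84) (nat_lit 6443862262) (nat_lit 26) (nat_lit 1) (nat_lit 24) (nat_lit 1) (nat_lit 25) (nat_lit 1) (nat_lit 180) (nat_lit 303) (nat_lit 237)) (XT.nd (nat_lit 94) (nat_lit 168) (nat_lit 0) (XT.lf (nat_lit 0) (nat_lit 1866381680) (nat_lit 0) (nat_lit 19985178064) (nat_lit 168) (nat_lit 1866381680) (nat_lit 24) (nat_lit 3) (nat_lit 24) (nat_lit 1) (nat_lit 26) (nat_lit 1) (nat_lit 181) (nat_lit 303) (nat_lit 236)) (XT.lf (nat_lit 84) (nat_lit 9853891487) (nat_lit 0) (nat_lit 3610782959) (nat_lit 168) (nat_lit 9853891487) (nat_lit 23) (nat_lit 1) (nat_lit 22) (nat_lit 1) (nat_lit 24) (nat_lit 1) (nat_lit 182) (nat_lit 303) (nat_lit 235)))) (XT.nd (nat_lit 188) (nat_lit 252) (nat_lit 0) (XT.nd (nat_lit 94)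 (nat_lit 0) (nat_lit 0) (XT.lf (nat_lit 168) (nat_lit 12327074835) (nat_lit 0) (nat_lit 5301381430) (nat_lit 84) (nat_lit 5301381430) (nat_lit 23) (nat_lit 1) (nat_lit 21) (nat_lit 1) (nat_lit 22) (nat_lit 1) (nat_lit 183) (nat_lit 303) (nat_lit 234)) (XT.lf (nat_lit 0) (nat_lit 2547872897) (nat_lit 0) (nat_lit 17454251522) (nat_lit 168) (nat_lit 2547872897) (nat_lit 21) (nat_lit 3) (nat_lit 21) (nat_lit 1) (nat_lit 23) (nat_lit 1) (nat_lit 184) (nat_lit 303) (nat_lit 233))) (XT.nd (nat_lit 94) (nat_lit 84) (nat_lit 0) (XT.lf (nat_lit 84) (nat_lit 10083403715) (nat_lit 0) (nat_lit 2006413344) (nat_lit 168) (nat_lit 10083403715) (nat_lit 20) (nat_lit 1) (nat_lit 19) (nat_lit 1) (nat_lit 21) (nat_lit 1) (nat_lit 185) (nat_lit 303) (nat_lit 232)) (XT.lf (nat_lit 168) (nat_lit 13082284510) (nat_lit 0) (nat_lit 4361459622) (nat_lit 84) (nat_lit 4361459622) (nat_lit 20) (nat_lit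 1) (nat_lit 18) (nat_lit 1) (nat_lit 19) (nat_lit 1) (nat_lit 186) (nat_lit 303) (nat_lit 231))))))))
noncomputable def ec191 : XT := (XT.nd (nat_lit 2538) (nat_lit 0) (nat_lit 0) (XT.nd (nat_lit 1222) (nat_lit 504) (nat_lit 0) (XT.nd (nat_lit 564) (nat_lit 504) (nat_lit 0) (XT.nd (nat_lit 282) (nat_lit 252) (nat_lit 0) (XT.nd (nat_lit 94) (nat_lit 252) (nat_lit 0) (XT.lf (nat_lit 0) (nat_lit 3060328071) (nat_lit 0) (nat_lit 15323842656) (nat_lit 168) (nat_lit 3060328071) (nat_lit 18) (nat_lit 3) (nat_lit 18) (nat_lit 1) (nat_lit 20) (nat_lit 1) (nat_lit 187) (nat_lit 303) (nat_lit 230)) (XT.nd (nat_lit 94) (nat_lit 84) (nat_lit 0) (XT.lf (nat_lit 84) (nat_lit 10178101003) (nat_lit 0) (nat_lit 732408144) (nat_lit 168) (nat_lit 10178101003) (nat_lit 17) (nat_lit 1) (nat_lit 16) (nat_lit 1) (nat_lit 18) (nat_lit 1) (nat_lit 188) (nat_lit 303) (nat_lit 229)) (XT.lf (nat_lit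 168) (nat_lit 13563560733) (nat_lit 0) (nat_lit 3588183625) (nat_lit 84) (nat_lit 3588183625) (nat_lit 17) (nat_lit 1) (nat_lit 15) (nat_lit 1) (nat_lit 16) (nat_lit 1) (nat_lit 189) (nat_lit 303) (nat_lit 228)))) (XT.nd (nat_lit 94) (nat_lit 252) (nat_lit 0) (XT.lf (nat_lit 0) (nat_lit 3436012556) (nat_lit 0) (nat_lit 13525236355) (nat_lit 168) (nat_lit 3436012556) (nat_lit 15) (nat_lit 3) (nat_lit 15) (nat_lit 1) (nat_lit 17) (nat_lit 1) (nat_lit 190) (nat_lit 303) (nat_lit 227)) (XT.nd (nat_lit 94) (nat_lit 168) (nat_lit 0) (XT.lf (nat_lit 84) (nat_lit 280985073) (nat_lit 0) (nat_lit 9889769643) (nat_lit 84) (nat_lit 9889769643) (nat_lit 15) (nat_lit 3) (nat_lit 14) (nat_lit 1) (nat_lit 15) (nat_lit 1) (nat_lit 191) (nat_lit 303) (nat_lit 226)) (XT.lf (nat_lit 168) (nat_lit 13826139640) (nat_lit 0) (nat_lit 2952007548) (nat_lit 84) (nat_lit 2952007548) (nat_lit 14) (nat_lit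 1) (nat_lit 12) (nat_lit 1) (nat_lit 13) (nat_lit 1) (nat_lit 192) (nat_lit 303) (nat_lit 225))))) (XT.nd (nat_lit 282) (nat_lit 252) (nat_lit 0) (XT.nd (nat_lit 94) (nat_lit 252) (nat_lit 0) (XT.lf (nat_lit 0) (nat_lit 3701361823) (nat_lit 0) (nat_lit 12001791211) (nat_lit 168) (nat_lit 3701361823) (nat_lit 12) (nat_lit 3) (nat_lit 12) (nat_lit 1) (nat_lit 14) (nat_lit 1) (nat_lit 193) (nat_lit 303) (nat_lit 224)) (XT.nd (nat_lit 94) (nat_lit 168) (nat_lit 0) (XT.lf (nat_lit 84) (nat_lit 1091607327) (nat_lit 0) (nat_lit 8996778173) (nat_lit 84) (nat_lit 8996778173) (nat_lit 12) (nat_lit 3) (nat_lit 11) (nat_lit 1) (nat_lit 12) (nat_lit 1) (nat_lit 194) (nat_lit 303) (nat_lit 223)) (XT.lf (nat_lit 168) (nat_lit 13915146592) (nat_lit 0) (nat_lit 2428623915) (nat_lit 84) (nat_lit 2428623915) (nat_lit 11) (nat_lit 1) (nat_lit 9) (nat_lit 1) (nat_lit 10) (nat_lit 1) (nat_lit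 195) (nat_lit 303) (nat_lit 222)))) (XT.nd (nat_lit 188) (nat_lit 168) (nat_lit 0) (XT.nd (nat_lit 94) (nat_lit 84) (nat_lit 0) (XT.lf (nat_lit 0) (nat_lit 3878020284) (nat_lit 0) (nat_lit 10706804083) (nat_lit 168) (nat_lit 3878020284) (nat_lit 9) (nat_lit 3) (nat_lit 9) (nat_lit 1) (nat_lit 11) (nat_lit 1) (nat_lit 196) (nat_lit 303) (nat_lit 221)) (XT.lf (nat_lit 84) (nat_lit 1717534918) (nat_lit 0) (nat_lit 8221138537) (nat_lit 84) (nat_lit 8221138537) (nat_lit 9) (nat_lit 3) (nat_lit 8) (nat_lit 1) (nat_lit 9) (nat_lit 1) (nat_lit 197) (nat_lit 303) (nat_lit 220))) (XT.nd (nat_lit 94) (nat_lit 0) (nat_lit 0) (XT.lf (nat_lit 168) (nat_lit 13867403913) (nat_lit 0) (nat_lit 1998034905) (nat_lit 84) (nat_lit 1998034905) (nat_lit 8) (nat_lit 1) (nat_lit 6) (nat_lit 1) (nat_lit 7) (nat_lit 1) (nat_lit 198) (nat_lit 303) (nat_lit 219)) (XT.lf (nat_lit 0) (nat_lit 3983695696)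 (nat_lit 0) (nat_lit 9601753027) (nat_lit 168) (nat_lit 3983695696) (nat_lit 6) (nat_lit 3) (nat_lit 6) (nat_lit 1) (nat_lit 8) (nat_lit 1) (nat_lit 199) (nat_lit 303) (nat_lit 218)))))) (XT.nd (nat_lit 658) (nat_lit 0) (nat_lit 0) (XT.nd (nat_lit 282) (nat_lit 252) (nat_lit 0) (XT.nd (nat_lit 94) (nat_lit 168) (nat_lit 0) (XT.lf (nat_lit 84) (nat_lit 2193464865) (nat_lit 0) (nat_lit 7543995657) (nat_lit 84) (nat_lit 7543995657) (nat_lit 6) (nat_lit 3) (nat_lit 5) (nat_lit 1) (nat_lit 6) (nat_lit 1) (nat_lit 200) (nat_lit 303) (nat_lit 217)) (XT.nd (nat_lit 94) (nat_lit 0) (nat_lit 0) (XT.lf (nat_lit 168) (nat_lit 13712917399) (nat_lit 0) (nat_lit 1643788261) (nat_lit 84) (nat_lit 1643788261) (nat_lit 5) (nat_lit 1) (nat_lit 3) (nat_lit 1) (nat_lit 4) (nat_lit 1) (nat_lit 201) (nat_lit 303) (nat_lit 216)) (XT.lf (nat_lit 0) (nat_lit 4032861843) (nat_lit 0) (nat_lit 8654851513)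 (nat_lit 168) (nat_lit 4032861843) (nat_lit 3) (nat_lit 3) (nat_lit 3) (nat_lit 1) (nat_lit 5) (nat_lit 1) (nat_lit 202) (nat_lit 303) (nat_lit 215)))) (XT.nd (nat_lit 188) (nat_lit 0) (nat_lit 0) (XT.nd (nat_lit 94) (nat_lit 168) (nat_lit 0) (XT.lf (nat_lit 84) (nat_lit 2547849579) (nat_lit 0) (nat_lit 6949744503) (nat_lit 84) (nat_lit 6949744503) (nat_lit 3) (nat_lit 3) (nat_lit 2) (nat_lit 1) (nat_lit 3) (nat_lit 1) (nat_lit 203) (nat_lit 303) (nat_lit 214)) (XT.lf (nat_lit 0) (nat_lit 23505648296) (nat_lit 0) (nat_lit 0) (nat_lit 0) (nat_lit 0) (nat_lit 0) (nat_lit 0) (nat_lit 1) (nat_lit 0) (nat_lit 1) (nat_lit 0) (nat_lit 204) (nat_lit 303) (nat_lit 213))) (XT.nd (nat_lit 94) (nat_lit 0) (nat_lit 0) (XT.lf (nat_lit 0) (nat_lit 23491953061) (nat_lit 0) (nat_lit 0) (nat_lit 0) (nat_lit 0) (nat_lit 0) (nat_lit 0) (nat_lit 1) (nat_lit 0) (nat_lit 1) (nat_lit 0) (nat_lit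 205) (nat_lit 303) (nat_lit 212)) (XT.lf (nat_lit 0) (nat_lit 23478909979) (nat_lit 0) (nat_lit 0) (nat_lit 0) (nat_lit 0) (nat_lit 0) (nat_lit 0) (nat_lit 1) (nat_lit 0) (nat_lit 1) (nat_lit 0) (nat_lit 206) (nat_lit 303) (nat_lit 211))))) (XT.nd (nat_lit 282) (nat_lit 0) (nat_lit 0) (XT.nd (nat_lit 94) (nat_lit 0) (nat_lit 0) (XT.lf (nat_lit 0) (nat_lit 23466487997) (nat_lit 0) (nat_lit 0) (nat_lit 0) (nat_lit 0) (nat_lit 0) (nat_lit 0) (nat_lit 1) (nat_lit 0) (nat_lit 1) (nat_lit 0) (nat_lit 207) (nat_lit 303) (nat_lit 210)) (XT.nd (nat_lit 94) (nat_lit 0) (nat_lit 0) (XT.lf (nat_lit 0) (nat_lit 23454657538) (nat_lit 0) (nat_lit 0) (nat_lit 0) (nat_lit 0) (nat_lit 0) (nat_lit 0) (nat_lit 1) (nat_lit 0) (nat_lit 1) (nat_lit 0) (nat_lit 208) (nat_lit 303) (nat_lit 209)) (XT.lf (nat_lit 0) (nat_lit 23443390434) (nat_lit 0) (nat_lit 0) (nat_lit 0) (nat_lit 0) (nat_lit 0)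 (nat_lit 0) (nat_lit 1) (nat_lit 0) (nat_lit 1) (nat_lit 0) (nat_lit 209) (nat_lit 303) (nat_lit 208)))) (XT.nd (nat_lit 188) (nat_lit 0) (nat_lit 0) (XT.nd (nat_lit 94) (nat_lit 0) (nat_lit 0) (XT.lf (nat_lit 0) (nat_lit 23432659859) (nat_lit 0) (nat_lit 0) (nat_lit 0) (nat_lit 0) (nat_lit 0) (nat_lit 0) (nat_lit 1) (nat_lit 0) (nat_lit 1) (nat_lit 0) (nat_lit 210) (nat_lit 303) (nat_lit 207)) (XT.lf (nat_lit 0) (nat_lit 23422440263) (nat_lit 0) (nat_lit 0) (nat_lit 0) (nat_lit 0) (nat_lit 0) (nat_lit 0) (nat_lit 1) (nat_lit 0) (nat_lit 1) (nat_lit 0) (nat_lit 211) (nat_lit 303) (nat_lit 206))) (XT.nd (nat_lit 94) (nat_lit 0) (nat_lit 0) (XT.lf (nat_lit 0) (nat_lit 23412707315) (nat_lit 0) (nat_lit 0) (nat_lit 0) (nat_lit 0) (nat_lit 0) (nat_lit 0) (nat_lit 1) (nat_lit 0) (nat_lit 1) (nat_lit 0) (nat_lit 212) (nat_lit 303) (nat_lit 205)) (XT.lf (nat_lit 0) (nat_lit 23403437841)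 (nat_lit 0) (nat_lit 0) (nat_lit 0) (nat_lit 0) (nat_lit 0) (nat_lit 0) (nat_lit 1) (nat_lit 0) (nat_lit 1) (nat_lit 0) (nat_lit 213) (nat_lit 303) (nat_lit 204))))))) (XT.nd (nat_lit 1316) (nat_lit 0) (nat_lit 0) (XT.nd (nat_lit 658) (nat_lit 0) (nat_lit 0) (XT.nd (nat_lit 282) (nat_lit 0) (nat_lit 0) (XT.nd (nat_lit 94) (nat_lit 0) (nat_lit 0) (XT.lf (nat_lit 0) (nat_lit 23394609770) (nat_lit 0) (nat_lit 0) (nat_lit 0) (nat_lit 0) (nat_lit 0) (nat_lit 0) (nat_lit 1) (nat_lit 0) (nat_lit 1) (nat_lit 0) (nat_lit 214) (nat_lit 303) (nat_lit 203)) (XT.nd (nat_lit 94) (nat_lit 0) (nat_lit 0) (XT.lf (nat_lit 0) (nat_lit 23386202083) (nat_lit 0) (nat_lit 0) (nat_lit 0) (nat_lit 0) (nat_lit 0) (nat_lit 0) (nat_lit 1) (nat_lit 0) (nat_lit 1) (nat_lit 0) (nat_lit 215) (nat_lit 303) (nat_lit 202)) (XT.lf (nat_lit 0) (nat_lit 23378194763) (nat_lit 0) (nat_lit 0) (nat_lit 0) (nat_lit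 0) (nat_lit 0) (nat_lit 0) (nat_lit 1) (nat_lit 0) (nat_lit 1) (nat_lit 0) (nat_lit 216) (nat_lit 303) (nat_lit 201)))) (XT.nd (nat_lit 188) (nat_lit 0) (nat_lit 0) (XT.nd (nat_lit 94) (nat_lit 0) (nat_lit 0) (XT.lf (nat_lit 0) (nat_lit 23370568743) (nat_lit 0) (nat_lit 0) (nat_lit 0) (nat_lit 0) (nat_lit 0) (nat_lit 0) (nat_lit 1) (nat_lit 0) (nat_lit 1) (nat_lit 0) (nat_lit 217) (nat_lit 303) (nat_lit 200)) (XT.lf (nat_lit 0) (nat_lit 23363305868) (nat_lit 0) (nat_lit 0) (nat_lit 0) (nat_lit 0) (nat_lit 0) (nat_lit 0) (nat_lit 1) (nat_lit 0) (nat_lit 1) (nat_lit 0) (nat_lit 218) (nat_lit 303) (nat_lit 199))) (XT.nd (nat_lit 94) (nat_lit 0) (nat_lit 0) (XT.lf (nat_lit 0) (nat_lit 23356388843) (nat_lit 0) (nat_lit 0) (nat_lit 0) (nat_lit 0) (nat_lit 0) (nat_lit 0) (nat_lit 1) (nat_lit 0) (nat_lit 1) (nat_lit 0) (nat_lit 219) (nat_lit 303) (nat_lit 198)) (XT.lf (nat_lit 0)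 (nat_lit 23349801201) (nat_lit 0) (nat_lit 0) (nat_lit 0) (nat_lit 0) (nat_lit 0) (nat_lit 0) (nat_lit 1) (nat_lit 0) (nat_lit 1) (nat_lit 0) (nat_lit 220) (nat_lit 303) (nat_lit 197))))) (XT.nd (nat_lit 282) (nat_lit 0) (nat_lit 0) (XT.nd (nat_lit 94) (nat_lit 0) (nat_lit 0) (XT.lf (nat_lit 0) (nat_lit 23343527256) (nat_lit 0) (nat_lit 0) (nat_lit 0) (nat_lit 0) (nat_lit 0) (nat_lit 0) (nat_lit 1) (nat_lit 0) (nat_lit 1) (nat_lit 0) (nat_lit 221) (nat_lit 303) (nat_lit 196)) (XT.nd (nat_lit 94) (nat_lit 0) (nat_lit 0) (XT.lf (nat_lit 0) (nat_lit 23337552070) (nat_lit 0) (nat_lit 0) (nat_lit 0) (nat_lit 0) (nat_lit 0) (nat_lit 0) (nat_lit 1) (nat_lit 0) (nat_lit 1) (nat_lit 0) (nat_lit 222) (nat_lit 303) (nat_lit 195)) (XT.lf (nat_lit 0) (nat_lit 23331861417) (nat_lit 0) (nat_lit 0) (nat_lit 0) (nat_lit 0) (nat_lit 0) (nat_lit 0) (nat_lit 1) (nat_lit 0) (nat_lit 1) (nat_lit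 0) (nat_lit 223) (nat_lit 303) (nat_lit 194)))) (XT.nd (nat_lit 188) (nat_lit 0) (nat_lit 0) (XT.nd (nat_lit 94) (nat_lit 0) (nat_lit 0) (XT.lf (nat_lit 0) (nat_lit 23326441747) (nat_lit 0) (nat_lit 0) (nat_lit 0) (nat_lit 0) (nat_lit 0) (nat_lit 0) (nat_lit 1) (nat_lit 0) (nat_lit 1) (nat_lit 0) (nat_lit 224) (nat_lit 303) (nat_lit 193)) (XT.lf (nat_lit 0) (nat_lit 23321280157) (nat_lit 0) (nat_lit 0) (nat_lit 0) (nat_lit 0) (nat_lit 0) (nat_lit 0) (nat_lit 1) (nat_lit 0) (nat_lit 1) (nat_lit 0) (nat_lit 225) (nat_lit 303) (nat_lit 192))) (XT.nd (nat_lit 94) (nat_lit 0) (nat_lit 0) (XT.lf (nat_lit 0) (nat_lit 23316364357) (nat_lit 0) (nat_lit 0) (nat_lit 0) (nat_lit 0) (nat_lit 0) (nat_lit 0) (nat_lit 1) (nat_lit 0) (nat_lit 1) (nat_lit 0) (nat_lit 226) (nat_lit 303) (nat_lit 191)) (XT.lf (nat_lit 0) (nat_lit 23311682642) (nat_lit 0) (nat_lit 0) (nat_lit 0) (nat_lit 0)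 (nat_lit 0) (nat_lit 0) (nat_lit 1) (nat_lit 0) (nat_lit 1) (nat_lit 0) (nat_lit 227) (nat_lit 303) (nat_lit 190)))))) (XT.nd (nat_lit 658) (nat_lit 0) (nat_lit 0) (XT.nd (nat_lit 282) (nat_lit 0) (nat_lit 0) (XT.nd (nat_lit 94) (nat_lit 0) (nat_lit 0) (XT.lf (nat_lit 0) (nat_lit 23307223867) (nat_lit 0) (nat_lit 0) (nat_lit 0) (nat_lit 0) (nat_lit 0) (nat_lit 0) (nat_lit 1) (nat_lit 0) (nat_lit 1) (nat_lit 0) (nat_lit 228) (nat_lit 303) (nat_lit 189)) (XT.nd (nat_lit 94) (nat_lit 0) (nat_lit 0) (XT.lf (nat_lit 0) (nat_lit 23302977414) (nat_lit 0) (nat_lit 0) (nat_lit 0) (nat_lit 0) (nat_lit 0) (nat_lit 0) (nat_lit 1) (nat_lit 0) (nat_lit 1) (nat_lit 0) (nat_lit 229) (nat_lit 303) (nat_lit 188)) (XT.lf (nat_lit 0) (nat_lit 23298933173) (nat_lit 0) (nat_lit 0) (nat_lit 0) (nat_lit 0) (nat_lit 0) (nat_lit 0) (nat_lit 1) (nat_lit 0) (nat_lit 1) (nat_lit 0) (nat_lit 230) (nat_lit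 303) (nat_lit 187)))) (XT.nd (nat_lit 188) (nat_lit 0) (nat_lit 0) (XT.nd (nat_lit 94) (nat_lit 0) (nat_lit 0) (XT.lf (nat_lit 0) (nat_lit 23295081515) (nat_lit 0) (nat_lit 0) (nat_lit 0) (nat_lit 0) (nat_lit 0) (nat_lit 0) (nat_lit 1) (nat_lit 0) (nat_lit 1) (nat_lit 0) (nat_lit 231) (nat_lit 303) (nat_lit 186)) (XT.lf (nat_lit 0) (nat_lit 23291413269) (nat_lit 0) (nat_lit 0) (nat_lit 0) (nat_lit 0) (nat_lit 0) (nat_lit 0) (nat_lit 1) (nat_lit 0) (nat_lit 1) (nat_lit 0) (nat_lit 232) (nat_lit 303) (nat_lit 185))) (XT.nd (nat_lit 94) (nat_lit 0) (nat_lit 0) (XT.lf (nat_lit 0) (nat_lit 23287919701) (nat_lit 0) (nat_lit 0) (nat_lit 0) (nat_lit 0) (nat_lit 0) (nat_lit 0) (nat_lit 1) (nat_lit 0) (nat_lit 1) (nat_lit 0) (nat_lit 233) (nat_lit 303) (nat_lit 184)) (XT.lf (nat_lit 0) (nat_lit 23284592494) (nat_lit 0) (nat_lit 0) (nat_lit 0) (nat_lit 0) (nat_lit 0) (nat_lit 0) (nat_lit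 1) (nat_lit 0) (nat_lit 1) (nat_lit 0) (nat_lit 234) (nat_lit 303) (nat_lit 183))))) (XT.nd (nat_lit 282) (nat_lit 0) (nat_lit 0) (XT.nd (nat_lit 94) (nat_lit 0) (nat_lit 0) (XT.lf (nat_lit 0) (nat_lit 23281423726) (nat_lit 0) (nat_lit 0) (nat_lit 0) (nat_lit 0) (nat_lit 0) (nat_lit 0) (nat_lit 1) (nat_lit 0) (nat_lit 1) (nat_lit 0) (nat_lit 235) (nat_lit 303) (nat_lit 182)) (XT.nd (nat_lit 94) (nat_lit 0) (nat_lit 0) (XT.lf (nat_lit 0) (nat_lit 23278405851) (nat_lit 0) (nat_lit 0) (nat_lit 0) (nat_lit 0) (nat_lit 0) (nat_lit 0) (nat_lit 1) (nat_lit 0) (nat_lit 1) (nat_lit 0) (nat_lit 236) (nat_lit 303) (nat_lit 181)) (XT.lf (nat_lit 0) (nat_lit 23275531684) (nat_lit 0) (nat_lit 0) (nat_lit 0) (nat_lit 0) (nat_lit 0) (nat_lit 0) (nat_lit 1) (nat_lit 0) (nat_lit 1) (nat_lit 0) (nat_lit 237) (nat_lit 303) (nat_lit 180)))) (XT.nd (nat_lit 188) (nat_lit 0) (nat_lit 0) (XT.nd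 (nat_lit 94) (nat_lit 0) (nat_lit 0) (XT.lf (nat_lit 0) (nat_lit 23272794383) (nat_lit 0) (nat_lit 0) (nat_lit 0) (nat_lit 0) (nat_lit 0) (nat_lit 0) (nat_lit 1) (nat_lit 0) (nat_lit 1) (nat_lit 0) (nat_lit 238) (nat_lit 303) (nat_lit 179)) (XT.lf (nat_lit 0) (nat_lit 23270187429) (nat_lit 0) (nat_lit 0) (nat_lit 0) (nat_lit 0) (nat_lit 0) (nat_lit 0) (nat_lit 1) (nat_lit 0) (nat_lit 1) (nat_lit 0) (nat_lit 239) (nat_lit 303) (nat_lit 178))) (XT.nd (nat_lit 94) (nat_lit 0) (nat_lit 0) (XT.lf (nat_lit 0) (nat_lit 23267704616) (nat_lit 0) (nat_lit 0) (nat_lit 0) (nat_lit 0) (nat_lit 0) (nat_lit 0) (nat_lit 1) (nat_lit 0) (nat_lit 1) (nat_lit 0) (nat_lit 240) (nat_lit 303) (nat_lit 177)) (XT.lf (nat_lit 0) (nat_lit 23265340032) (nat_lit 0) (nat_lit 0) (nat_lit 0) (nat_lit 0) (nat_lit 0) (nat_lit 0) (nat_lit 1) (nat_lit 0) (nat_lit 1) (nat_lit 0) (nat_lit 241) (nat_lit 303)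 (nat_lit 176))))))))
noncomputable def ec192 : XT := (XT.nd (nat_lit 2538) (nat_lit 0) (nat_lit 0) (XT.nd (nat_lit 1222) (nat_lit 0) (nat_lit 0) (XT.nd (nat_lit 564) (nat_lit 0) (nat_lit 0) (XT.nd (nat_lit 282) (nat_lit 0) (nat_lit 0) (XT.nd (nat_lit 94) (nat_lit 0) (nat_lit 0) (XT.lf (nat_lit 0) (nat_lit 23263088047) (nat_lit 0) (nat_lit 0) (nat_lit 0) (nat_lit 0) (nat_lit 0) (nat_lit 0) (nat_lit 1) (nat_lit 0) (nat_lit 1) (nat_lit 0) (nat_lit 242) (nat_lit 303) (nat_lit 175)) (XT.nd (nat_lit 94) (nat_lit 0) (nat_lit 0) (XT.lf (nat_lit 0) (nat_lit 23260943300) (nat_lit 0) (nat_lit 0) (nat_lit 0) (nat_lit 0) (nat_lit 0) (nat_lit 0) (nat_lit 1) (nat_lit 0) (nat_lit 1) (nat_lit 0) (nat_lit 243) (nat_lit 303) (nat_lit 174)) (XT.lf (nat_lit 0) (nat_lit 23258900683) (nat_lit 0) (nat_lit 0) (nat_lit 0) (nat_lit 0) (nat_lit 0) (nat_lit 0) (nat_lit 1) (nat_lit 0) (nat_lit 1) (nat_lit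 0) (nat_lit 244) (nat_lit 303) (nat_lit 173)))) (XT.nd (nat_lit 94) (nat_lit 0) (nat_lit 0) (XT.lf (nat_lit 0) (nat_lit 23256955334) (nat_lit 0) (nat_lit 0) (nat_lit 0) (nat_lit 0) (nat_lit 0) (nat_lit 0) (nat_lit 1) (nat_lit 0) (nat_lit 1) (nat_lit 0) (nat_lit 245) (nat_lit 303) (nat_lit 172)) (XT.nd (nat_lit 94) (nat_lit 0) (nat_lit 0) (XT.lf (nat_lit 0) (nat_lit 23255102621) (nat_lit 0) (nat_lit 0) (nat_lit 0) (nat_lit 0) (nat_lit 0) (nat_lit 0) (nat_lit 1) (nat_lit 0) (nat_lit 1) (nat_lit 0) (nat_lit 246) (nat_lit 303) (nat_lit 171)) (XT.lf (nat_lit 0) (nat_lit 23253338132) (nat_lit 0) (nat_lit 0) (nat_lit 0) (nat_lit 0) (nat_lit 0) (nat_lit 0) (nat_lit 1) (nat_lit 0) (nat_lit 1) (nat_lit 0) (nat_lit 247) (nat_lit 303) (nat_lit 170))))) (XT.nd (nat_lit 282) (nat_lit 0) (nat_lit 0) (XT.nd (nat_lit 94) (nat_lit 0) (nat_lit 0) (XT.lf (nat_lit 0) (nat_lit 23251657666) (nat_lit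 0) (nat_lit 0) (nat_lit 0) (nat_lit 0) (nat_lit 0) (nat_lit 0) (nat_lit 1) (nat_lit 0) (nat_lit 1) (nat_lit 0) (nat_lit 248) (nat_lit 303) (nat_lit 169)) (XT.nd (nat_lit 94) (nat_lit 0) (nat_lit 0) (XT.lf (nat_lit 0) (nat_lit 23250057223) (nat_lit 0) (nat_lit 0) (nat_lit 0) (nat_lit 0) (nat_lit 0) (nat_lit 0) (nat_lit 1) (nat_lit 0) (nat_lit 1) (nat_lit 0) (nat_lit 249) (nat_lit 303) (nat_lit 168)) (XT.lf (nat_lit 0) (nat_lit 23248532991) (nat_lit 0) (nat_lit 0) (nat_lit 0) (nat_lit 0) (nat_lit 0) (nat_lit 0) (nat_lit 1) (nat_lit 0) (nat_lit 1) (nat_lit 0) (nat_lit 250) (nat_lit 303) (nat_lit 167)))) (XT.nd (nat_lit 188) (nat_lit 0) (nat_lit 0) (XT.nd (nat_lit 94) (nat_lit 0) (nat_lit 0) (XT.lf (nat_lit 0) (nat_lit 23247081342) (nat_lit 0) (nat_lit 0) (nat_lit 0) (nat_lit 0) (nat_lit 0) (nat_lit 0) (nat_lit 1) (nat_lit 0) (nat_lit 1) (nat_lit 0) (nat_lit 251) (nat_lit 303)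 (nat_lit 166)) (XT.lf (nat_lit 0) (nat_lit 23245698818) (nat_lit 0) (nat_lit 0) (nat_lit 0) (nat_lit 0) (nat_lit 0) (nat_lit 0) (nat_lit 1) (nat_lit 0) (nat_lit 1) (nat_lit 0) (nat_lit 252) (nat_lit 303) (nat_lit 165))) (XT.nd (nat_lit 94) (nat_lit 0) (nat_lit 0) (XT.lf (nat_lit 0) (nat_lit 23244382130) (nat_lit 0) (nat_lit 0) (nat_lit 0) (nat_lit 0) (nat_lit 0) (nat_lit 0) (nat_lit 1) (nat_lit 0) (nat_lit 1) (nat_lit 0) (nat_lit 253) (nat_lit 303) (nat_lit 164)) (XT.lf (nat_lit 0) (nat_lit 23243128140) (nat_lit 0) (nat_lit 0) (nat_lit 0) (nat_lit 0) (nat_lit 0) (nat_lit 0) (nat_lit 1) (nat_lit 0) (nat_lit 1) (nat_lit 0) (nat_lit 254) (nat_lit 303) (nat_lit 163)))))) (XT.nd (nat_lit 658) (nat_lit 0) (nat_lit 0) (XT.nd (nat_lit 282) (nat_lit 0) (nat_lit 0) (XT.nd (nat_lit 94) (nat_lit 0) (nat_lit 0) (XT.lf (nat_lit 0) (nat_lit 23241933865) (nat_lit 0) (nat_lit 0) (nat_lit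 0) (nat_lit 0) (nat_lit 0) (nat_lit 0) (nat_lit 1) (nat_lit 0) (nat_lit 1) (nat_lit 0) (nat_lit 255) (nat_lit 303) (nat_lit 162)) (XT.nd (nat_lit 94) (nat_lit 0) (nat_lit 0) (XT.lf (nat_lit 0) (nat_lit 23240796459) (nat_lit 0) (nat_lit 0) (nat_lit 0) (nat_lit 0) (nat_lit 0) (nat_lit 0) (nat_lit 1) (nat_lit 0) (nat_lit 1) (nat_lit 0) (nat_lit 256) (nat_lit 303) (nat_lit 161)) (XT.lf (nat_lit 0) (nat_lit 23239713216) (nat_lit 0) (nat_lit 0) (nat_lit 0) (nat_lit 0) (nat_lit 0) (nat_lit 0) (nat_lit 1) (nat_lit 0) (nat_lit 1) (nat_lit 0) (nat_lit 257) (nat_lit 303) (nat_lit 160)))) (XT.nd (nat_lit 188) (nat_lit 0) (nat_lit 0) (XT.nd (nat_lit 94) (nat_lit 0) (nat_lit 0) (XT.lf (nat_lit 0) (nat_lit 23238681556) (nat_lit 0) (nat_lit 0) (nat_lit 0) (nat_lit 0) (nat_lit 0) (nat_lit 0) (nat_lit 1) (nat_lit 0) (nat_lit 1) (nat_lit 0) (nat_lit 258) (nat_lit 303) (nat_lit 159)) (XT.lf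 (nat_lit 0) (nat_lit 23237699023) (nat_lit 0) (nat_lit 0) (nat_lit 0) (nat_lit 0) (nat_lit 0) (nat_lit 0) (nat_lit 1) (nat_lit 0) (nat_lit 1) (nat_lit 0) (nat_lit 259) (nat_lit 303) (nat_lit 158))) (XT.nd (nat_lit 94) (nat_lit 0) (nat_lit 0) (XT.lf (nat_lit 0) (nat_lit 23236763276) (nat_lit 0) (nat_lit 0) (nat_lit 0) (nat_lit 0) (nat_lit 0) (nat_lit 0) (nat_lit 1) (nat_lit 0) (nat_lit 1) (nat_lit 0) (nat_lit 260) (nat_lit 303) (nat_lit 157)) (XT.lf (nat_lit 0) (nat_lit 23235872090) (nat_lit 0) (nat_lit 0) (nat_lit 0) (nat_lit 0) (nat_lit 0) (nat_lit 0) (nat_lit 1) (nat_lit 0) (nat_lit 1) (nat_lit 0) (nat_lit 261) (nat_lit 303) (nat_lit 156))))) (XT.nd (nat_lit 282) (nat_lit 0) (nat_lit 0) (XT.nd (nat_lit 94) (nat_lit 0) (nat_lit 0) (XT.lf (nat_lit 0) (nat_lit 23235023340) (nat_lit 0) (nat_lit 0) (nat_lit 0) (nat_lit 0) (nat_lit 0) (nat_lit 0) (nat_lit 1) (nat_lit 0) (nat_lit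 1) (nat_lit 0) (nat_lit 262) (nat_lit 303) (nat_lit 155)) (XT.nd (nat_lit 94) (nat_lit 0) (nat_lit 0) (XT.lf (nat_lit 0) (nat_lit 23234215008) (nat_lit 0) (nat_lit 0) (nat_lit 0) (nat_lit 0) (nat_lit 0) (nat_lit 0) (nat_lit 1) (nat_lit 0) (nat_lit 1) (nat_lit 0) (nat_lit 263) (nat_lit 303) (nat_lit 154)) (XT.lf (nat_lit 0) (nat_lit 23233445167) (nat_lit 0) (nat_lit 0) (nat_lit 0) (nat_lit 0) (nat_lit 0) (nat_lit 0) (nat_lit 1) (nat_lit 0) (nat_lit 1) (nat_lit 0) (nat_lit 264) (nat_lit 303) (nat_lit 153)))) (XT.nd (nat_lit 188) (nat_lit 0) (nat_lit 0) (XT.nd (nat_lit 94) (nat_lit 0) (nat_lit 0) (XT.lf (nat_lit 0) (nat_lit 23232711985) (nat_lit 0) (nat_lit 0) (nat_lit 0) (nat_lit 0) (nat_lit 0) (nat_lit 0) (nat_lit 1) (nat_lit 0) (nat_lit 1) (nat_lit 0) (nat_lit 265) (nat_lit 303) (nat_lit 152)) (XT.lf (nat_lit 0) (nat_lit 23232013717) (nat_lit 0) (nat_lit 0) (nat_lit 0) (nat_lit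 0) (nat_lit 0) (nat_lit 0) (nat_lit 1) (nat_lit 0) (nat_lit 1) (nat_lit 0) (nat_lit 266) (nat_lit 303) (nat_lit 151))) (XT.nd (nat_lit 94) (nat_lit 0) (nat_lit 0) (XT.lf (nat_lit 0) (nat_lit 23231348700) (nat_lit 0) (nat_lit 0) (nat_lit 0) (nat_lit 0) (nat_lit 0) (nat_lit 0) (nat_lit 1) (nat_lit 0) (nat_lit 1) (nat_lit 0) (nat_lit 267) (nat_lit 303) (nat_lit 150)) (XT.lf (nat_lit 0) (nat_lit 23230715350) (nat_lit 0) (nat_lit 0) (nat_lit 0) (nat_lit 0) (nat_lit 0) (nat_lit 0) (nat_lit 1) (nat_lit 0) (nat_lit 1) (nat_lit 0) (nat_lit 268) (nat_lit 303) (nat_lit 149))))))) (XT.nd (nat_lit 1222) (nat_lit 0) (nat_lit 0) (XT.nd (nat_lit 564) (nat_lit 0) (nat_lit 0) (XT.nd (nat_lit 282) (nat_lit 0) (nat_lit 0) (XT.nd (nat_lit 94) (nat_lit 0) (nat_lit 0) (XT.lf (nat_lit 0) (nat_lit 23230112160) (nat_lit 0) (nat_lit 0) (nat_lit 0) (nat_lit 0) (nat_lit 0) (nat_lit 0) (nat_lit 1) (nat_lit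 0) (nat_lit 1) (nat_lit 0) (nat_lit 269) (nat_lit 303) (nat_lit 148)) (XT.nd (nat_lit 94) (nat_lit 0) (nat_lit 0) (XT.lf (nat_lit 0) (nat_lit 23229537693) (nat_lit 0) (nat_lit 0) (nat_lit 0) (nat_lit 0) (nat_lit 0) (nat_lit 0) (nat_lit 1) (nat_lit 0) (nat_lit 1) (nat_lit 0) (nat_lit 270) (nat_lit 303) (nat_lit 147)) (XT.lf (nat_lit 0) (nat_lit 23228990581) (nat_lit 0) (nat_lit 0) (nat_lit 0) (nat_lit 0) (nat_lit 0) (nat_lit 0) (nat_lit 1) (nat_lit 0) (nat_lit 1) (nat_lit 0) (nat_lit 271) (nat_lit 303) (nat_lit 146)))) (XT.nd (nat_lit 94) (nat_lit 0) (nat_lit 0) (XT.lf (nat_lit 0) (nat_lit 23228469523) (nat_lit 0) (nat_lit 0) (nat_lit 0) (nat_lit 0) (nat_lit 0) (nat_lit 0) (nat_lit 1) (nat_lit 0) (nat_lit 1) (nat_lit 0) (nat_lit 272) (nat_lit 303) (nat_lit 145)) (XT.nd (nat_lit 94) (nat_lit 0) (nat_lit 0) (XT.lf (nat_lit 0) (nat_lit 23227973277) (nat_lit 0) (nat_lit 0) (nat_lit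 0) (nat_lit 0) (nat_lit 0) (nat_lit 0) (nat_lit 1) (nat_lit 0) (nat_lit 1) (nat_lit 0) (nat_lit 273) (nat_lit 303) (nat_lit 144)) (XT.lf (nat_lit 0) (nat_lit 23227500661) (nat_lit 0) (nat_lit 0) (nat_lit 0) (nat_lit 0) (nat_lit 0) (nat_lit 0) (nat_lit 1) (nat_lit 0) (nat_lit 1) (nat_lit 0) (nat_lit 274) (nat_lit 303) (nat_lit 143))))) (XT.nd (nat_lit 282) (nat_lit 0) (nat_lit 0) (XT.nd (nat_lit 94) (nat_lit 0) (nat_lit 0) (XT.lf (nat_lit 0) (nat_lit 23227050551) (nat_lit 0) (nat_lit 0) (nat_lit 0) (nat_lit 0) (nat_lit 0) (nat_lit 0) (nat_lit 1) (nat_lit 0) (nat_lit 1) (nat_lit 0) (nat_lit 275) (nat_lit 303) (nat_lit 142)) (XT.nd (nat_lit 94) (nat_lit 0) (nat_lit 0) (XT.lf (nat_lit 0) (nat_lit 23226621875) (nat_lit 0) (nat_lit 0) (nat_lit 0) (nat_lit 0) (nat_lit 0) (nat_lit 0) (nat_lit 1) (nat_lit 0) (nat_lit 1) (nat_lit 0) (nat_lit 276) (nat_lit 303) (nat_lit 141)) (XT.lf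 (nat_lit 0) (nat_lit 23226213612) (nat_lit 0) (nat_lit 0) (nat_lit 0) (nat_lit 0) (nat_lit 0) (nat_lit 0) (nat_lit 1) (nat_lit 0) (nat_lit 1) (nat_lit 0) (nat_lit 277) (nat_lit 303) (nat_lit 140)))) (XT.nd (nat_lit 188) (nat_lit 0) (nat_lit 0) (XT.nd (nat_lit 94) (nat_lit 0) (nat_lit 0) (XT.lf (nat_lit 0) (nat_lit 23225824790) (nat_lit 0) (nat_lit 0) (nat_lit 0) (nat_lit 0) (nat_lit 0) (nat_lit 0) (nat_lit 1) (nat_lit 0) (nat_lit 1) (nat_lit 0) (nat_lit 278) (nat_lit 303) (nat_lit 139)) (XT.lf (nat_lit 0) (nat_lit 23225454484) (nat_lit 0) (nat_lit 0) (nat_lit 0) (nat_lit 0) (nat_lit 0) (nat_lit 0) (nat_lit 1) (nat_lit 0) (nat_lit 1) (nat_lit 0) (nat_lit 279) (nat_lit 303) (nat_lit 138))) (XT.nd (nat_lit 94) (nat_lit 0) (nat_lit 0) (XT.lf (nat_lit 0) (nat_lit 23225101811) (nat_lit 0) (nat_lit 0) (nat_lit 0) (nat_lit 0) (nat_lit 0) (nat_lit 0) (nat_lit 1) (nat_lit 0) (nat_lit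 1) (nat_lit 0) (nat_lit 280) (nat_lit 303) (nat_lit 137)) (XT.lf (nat_lit 0) (nat_lit 23224765932) (nat_lit 0) (nat_lit 0) (nat_lit 0) (nat_lit 0) (nat_lit 0) (nat_lit 0) (nat_lit 1) (nat_lit 0) (nat_lit 1) (nat_lit 0) (nat_lit 281) (nat_lit 303) (nat_lit 136)))))) (XT.nd (nat_lit 658) (nat_lit 0) (nat_lit 0) (XT.nd (nat_lit 282) (nat_lit 0) (nat_lit 0) (XT.nd (nat_lit 94) (nat_lit 0) (nat_lit 0) (XT.lf (nat_lit 0) (nat_lit 23224446047) (nat_lit 0) (nat_lit 0) (nat_lit 0) (nat_lit 0) (nat_lit 0) (nat_lit 0) (nat_lit 1) (nat_lit 0) (nat_lit 1) (nat_lit 0) (nat_lit 282) (nat_lit 303) (nat_lit 135)) (XT.nd (nat_lit 94) (nat_lit 0) (nat_lit 0) (XT.lf (nat_lit 0) (nat_lit 23224141395) (nat_lit 0) (nat_lit 0) (nat_lit 0) (nat_lit 0) (nat_lit 0) (nat_lit 0) (nat_lit 1) (nat_lit 0) (nat_lit 1) (nat_lit 0) (nat_lit 283) (nat_lit 303) (nat_lit 134)) (XT.lf (nat_lit 0) (nat_lit 23223851250)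 (nat_lit 0) (nat_lit 0) (nat_lit 0) (nat_lit 0) (nat_lit 0) (nat_lit 0) (nat_lit 1) (nat_lit 0) (nat_lit 1) (nat_lit 0) (nat_lit 284) (nat_lit 303) (nat_lit 133)))) (XT.nd (nat_lit 188) (nat_lit 0) (nat_lit 0) (XT.nd (nat_lit 94) (nat_lit 0) (nat_lit 0) (XT.lf (nat_lit 0) (nat_lit 23223574922) (nat_lit 0) (nat_lit 0) (nat_lit 0) (nat_lit 0) (nat_lit 0) (nat_lit 0) (nat_lit 1) (nat_lit 0) (nat_lit 1) (nat_lit 0) (nat_lit 285) (nat_lit 303) (nat_lit 132)) (XT.lf (nat_lit 0) (nat_lit 23223311752) (nat_lit 0) (nat_lit 0) (nat_lit 0) (nat_lit 0) (nat_lit 0) (nat_lit 0) (nat_lit 1) (nat_lit 0) (nat_lit 1) (nat_lit 0) (nat_lit 286) (nat_lit 303) (nat_lit 131))) (XT.nd (nat_lit 94) (nat_lit 0) (nat_lit 0) (XT.lf (nat_lit 0) (nat_lit 23223061114) (nat_lit 0) (nat_lit 0) (nat_lit 0) (nat_lit 0) (nat_lit 0) (nat_lit 0) (nat_lit 1) (nat_lit 0) (nat_lit 1) (nat_lit 0) (nat_lit 287) (nat_lit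 303) (nat_lit 130)) (XT.lf (nat_lit 0) (nat_lit 23222822411) (nat_lit 0) (nat_lit 0) (nat_lit 0) (nat_lit 0) (nat_lit 0) (nat_lit 0) (nat_lit 1) (nat_lit 0) (nat_lit 1) (nat_lit 0) (nat_lit 288) (nat_lit 303) (nat_lit 129))))) (XT.nd (nat_lit 282) (nat_lit 0) (nat_lit 0) (XT.nd (nat_lit 94) (nat_lit 0) (nat_lit 0) (XT.lf (nat_lit 0) (nat_lit 23222595075) (nat_lit 0) (nat_lit 0) (nat_lit 0) (nat_lit 0) (nat_lit 0) (nat_lit 0) (nat_lit 1) (nat_lit 0) (nat_lit 1) (nat_lit 0) (nat_lit 289) (nat_lit 303) (nat_lit 128)) (XT.nd (nat_lit 94) (nat_lit 0) (nat_lit 0) (XT.lf (nat_lit 0) (nat_lit 23222378565) (nat_lit 0) (nat_lit 0) (nat_lit 0) (nat_lit 0) (nat_lit 0) (nat_lit 0) (nat_lit 1) (nat_lit 0) (nat_lit 1) (nat_lit 0) (nat_lit 290) (nat_lit 303) (nat_lit 127)) (XT.lf (nat_lit 0) (nat_lit 23222172364) (nat_lit 0) (nat_lit 0) (nat_lit 0) (nat_lit 0) (nat_lit 0) (nat_lit 0) (nat_lit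 1) (nat_lit 0) (nat_lit 1) (nat_lit 0) (nat_lit 291) (nat_lit 303) (nat_lit 126)))) (XT.nd (nat_lit 188) (nat_lit 0) (nat_lit 0) (XT.nd (nat_lit 94) (nat_lit 0) (nat_lit 0) (XT.lf (nat_lit 0) (nat_lit 23221975983) (nat_lit 0) (nat_lit 0) (nat_lit 0) (nat_lit 0) (nat_lit 0) (nat_lit 0) (nat_lit 1) (nat_lit 0) (nat_lit 1) (nat_lit 0) (nat_lit 292) (nat_lit 303) (nat_lit 125)) (XT.lf (nat_lit 0) (nat_lit 23221788953) (nat_lit 0) (nat_lit 0) (nat_lit 0) (nat_lit 0) (nat_lit 0) (nat_lit 0) (nat_lit 1) (nat_lit 0) (nat_lit 1) (nat_lit 0) (nat_lit 293) (nat_lit 303) (nat_lit 124))) (XT.nd (nat_lit 94) (nat_lit 0) (nat_lit 0) (XT.lf (nat_lit 0) (nat_lit 23221610829) (nat_lit 0) (nat_lit 0) (nat_lit 0) (nat_lit 0) (nat_lit 0) (nat_lit 0) (nat_lit 1) (nat_lit 0) (nat_lit 1) (nat_lit 0) (nat_lit 294) (nat_lit 303) (nat_lit 123)) (XT.lf (nat_lit 0) (nat_lit 23221441187) (nat_lit 0)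 (nat_lit 0) (nat_lit 0) (nat_lit 0) (nat_lit 0) (nat_lit 0) (nat_lit 1) (nat_lit 0) (nat_lit 1) (nat_lit 0) (nat_lit 295) (nat_lit 303) (nat_lit 122))))))))
noncomputable def ec193 : XT := (XT.nd (nat_lit 28858) (nat_lit 0) (nat_lit 5208) (XT.nd (nat_lit 1222) (nat_lit 0) (nat_lit 0) (XT.nd (nat_lit 564) (nat_lit 0) (nat_lit 0) (XT.nd (nat_lit 282) (nat_lit 0) (nat_lit 0) (XT.nd (nat_lit 94) (nat_lit 0) (nat_lit 0) (XT.lf (nat_lit 0) (nat_lit 23221279624) (nat_lit 0) (nat_lit 0) (nat_lit 0) (nat_lit 0) (nat_lit 0) (nat_lit 0) (nat_lit 1) (nat_lit 0) (nat_lit 1) (nat_lit 0) (nat_lit 296) (nat_lit 303) (nat_lit 121)) (XT.nd (nat_lit 94) (nat_lit 0) (nat_lit 0) (XT.lf (nat_lit 0) (nat_lit 23221125754) (nat_lit 0) (nat_lit 0) (nat_lit 0) (nat_lit 0) (nat_lit 0) (nat_lit 0) (nat_lit 1) (nat_lit 0) (nat_lit 1) (nat_lit 0) (nat_lit 297) (nat_lit 303) (nat_lit 120)) (XT.lf (nat_lit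 0) (nat_lit 23220979211) (nat_lit 0) (nat_lit 0) (nat_lit 0) (nat_lit 0) (nat_lit 0) (nat_lit 0) (nat_lit 1) (nat_lit 0) (nat_lit 1) (nat_lit 0) (nat_lit 298) (nat_lit 303) (nat_lit 119)))) (XT.nd (nat_lit 94) (nat_lit 0) (nat_lit 0) (XT.lf (nat_lit 0) (nat_lit 23220839646) (nat_lit 0) (nat_lit 0) (nat_lit 0) (nat_lit 0) (nat_lit 0) (nat_lit 0) (nat_lit 1) (nat_lit 0) (nat_lit 1) (nat_lit 0) (nat_lit 299) (nat_lit 303) (nat_lit 118)) (XT.nd (nat_lit 94) (nat_lit 0) (nat_lit 0) (XT.lf (nat_lit 0) (nat_lit 23220706727) (nat_lit 0) (nat_lit 0) (nat_lit 0) (nat_lit 0) (nat_lit 0) (nat_lit 0) (nat_lit 1) (nat_lit 0) (nat_lit 1) (nat_lit 0) (nat_lit 300) (nat_lit 303) (nat_lit 117)) (XT.lf (nat_lit 0) (nat_lit 23220580138) (nat_lit 0) (nat_lit 0) (nat_lit 0) (nat_lit 0) (nat_lit 0) (nat_lit 0) (nat_lit 1) (nat_lit 0) (nat_lit 1) (nat_lit 0) (nat_lit 301) (nat_lit 303) (nat_lit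 116))))) (XT.nd (nat_lit 282) (nat_lit 0) (nat_lit 0) (XT.nd (nat_lit 94) (nat_lit 0) (nat_lit 0) (XT.lf (nat_lit 0) (nat_lit 23220459577) (nat_lit 0) (nat_lit 0) (nat_lit 0) (nat_lit 0) (nat_lit 0) (nat_lit 0) (nat_lit 1) (nat_lit 0) (nat_lit 1) (nat_lit 0) (nat_lit 302) (nat_lit 303) (nat_lit 115)) (XT.nd (nat_lit 94) (nat_lit 0) (nat_lit 0) (XT.lf (nat_lit 0) (nat_lit 23220344757) (nat_lit 0) (nat_lit 0) (nat_lit 0) (nat_lit 0) (nat_lit 0) (nat_lit 0) (nat_lit 1) (nat_lit 0) (nat_lit 1) (nat_lit 0) (nat_lit 303) (nat_lit 303) (nat_lit 114)) (XT.lf (nat_lit 0) (nat_lit 23220235404) (nat_lit 0) (nat_lit 0) (nat_lit 0) (nat_lit 0) (nat_lit 0) (nat_lit 0) (nat_lit 1) (nat_lit 0) (nat_lit 1) (nat_lit 0) (nat_lit 304) (nat_lit 303) (nat_lit 113)))) (XT.nd (nat_lit 188) (nat_lit 0) (nat_lit 0) (XT.nd (nat_lit 94) (nat_lit 0) (nat_lit 0) (XT.lf (nat_lit 0) (nat_lit 23220131259)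 (nat_lit 0) (nat_lit 0) (nat_lit 0) (nat_lit 0) (nat_lit 0) (nat_lit 0) (nat_lit 1) (nat_lit 0) (nat_lit 1) (nat_lit 0) (nat_lit 305) (nat_lit 303) (nat_lit 112)) (XT.lf (nat_lit 0) (nat_lit 23220032073) (nat_lit 0) (nat_lit 0) (nat_lit 0) (nat_lit 0) (nat_lit 0) (nat_lit 0) (nat_lit 1) (nat_lit 0) (nat_lit 1) (nat_lit 0) (nat_lit 306) (nat_lit 303) (nat_lit 111))) (XT.nd (nat_lit 94) (nat_lit 0) (nat_lit 0) (XT.lf (nat_lit 0) (nat_lit 23219937610) (nat_lit 0) (nat_lit 0) (nat_lit 0) (nat_lit 0) (nat_lit 0) (nat_lit 0) (nat_lit 1) (nat_lit 0) (nat_lit 1) (nat_lit 0) (nat_lit 307) (nat_lit 303) (nat_lit 110)) (XT.lf (nat_lit 0) (nat_lit 23219847646) (nat_lit 0) (nat_lit 0) (nat_lit 0) (nat_lit 0) (nat_lit 0) (nat_lit 0) (nat_lit 1) (nat_lit 0) (nat_lit 1) (nat_lit 0) (nat_lit 308) (nat_lit 303) (nat_lit 109)))))) (XT.nd (nat_lit 26978) (nat_lit 0) (nat_lit 10836) (XT.nd (nat_lit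 282) (nat_lit 0) (nat_lit 0) (XT.nd (nat_lit 94) (nat_lit 0) (nat_lit 0) (XT.lf (nat_lit 0) (nat_lit 23219761965) (nat_lit 0) (nat_lit 0) (nat_lit 0) (nat_lit 0) (nat_lit 0) (nat_lit 0) (nat_lit 1) (nat_lit 0) (nat_lit 1) (nat_lit 0) (nat_lit 309) (nat_lit 303) (nat_lit 108)) (XT.nd (nat_lit 94) (nat_lit 0) (nat_lit 0) (XT.lf (nat_lit 0) (nat_lit 23219680364) (nat_lit 0) (nat_lit 0) (nat_lit 0) (nat_lit 0) (nat_lit 0) (nat_lit 0) (nat_lit 1) (nat_lit 0) (nat_lit 1) (nat_lit 0) (nat_lit 310) (nat_lit 303) (nat_lit 107)) (XT.lf (nat_lit 0) (nat_lit 23219602650) (nat_lit 0) (nat_lit 0) (nat_lit 0) (nat_lit 0) (nat_lit 0) (nat_lit 0) (nat_lit 1) (nat_lit 0) (nat_lit 1) (nat_lit 0) (nat_lit 311) (nat_lit 303) (nat_lit 106)))) (XT.nd (nat_lit 26508) (nat_lit 0) (nat_lit 10752) (XT.nd (nat_lit 26414) (nat_lit 0) (nat_lit 10752) (XT.lf (nat_lit 0) (nat_lit 23219528635) (nat_lit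 0) (nat_lit 0) (nat_lit 0) (nat_lit 0) (nat_lit 0) (nat_lit 0) (nat_lit 1) (nat_lit 0) (nat_lit 1) (nat_lit 0) (nat_lit 312) (nat_lit 303) (nat_lit 105)) (XT.lf (nat_lit 924) (nat_lit 12200140143) (nat_lit 0) (nat_lit 21661320780) (nat_lit 924) (nat_lit 12200140143) (nat_lit 139) (nat_lit 1) (nat_lit 128) (nat_lit 0) (nat_lit 139) (nat_lit 0) (nat_lit 112) (nat_lit 304) (nat_lit 304))) (XT.nd (nat_lit 94) (nat_lit 0) (nat_lit 84) (XT.lf (nat_lit 924) (nat_lit 47289266321) (nat_lit 84) (nat_lit 21311944639) (nat_lit 0) (nat_lit 21311944639) (nat_lit 139) (nat_lit 1) (nat_lit 129) (nat_lit 1) (nat_lit 128) (nat_lit 0) (nat_lit 113) (nat_lit 304) (nat_lit 303)) (XT.lf (nat_lit 924) (nat_lit 22537352295) (nat_lit 0) (nat_lit 42696728888) (nat_lit 840) (nat_lit 22537352295) (nat_lit 140) (nat_lit 1) (nat_lit 129) (nat_lit 1) (nat_lit 139) (nat_lit 1) (nat_lit 114) (nat_lit 304)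 (nat_lit 302))))) (XT.nd (nat_lit 282) (nat_lit 0) (nat_lit 168) (XT.nd (nat_lit 94) (nat_lit 0) (nat_lit 84) (XT.lf (nat_lit 924) (nat_lit 42276941261) (nat_lit 84) (nat_lit 21710981838) (nat_lit 0) (nat_lit 21710981838) (nat_lit 140) (nat_lit 1) (nat_lit 130) (nat_lit 1) (nat_lit 129) (nat_lit 1) (nat_lit 115) (nat_lit 304) (nat_lit 301)) (XT.nd (nat_lit 94) (nat_lit 0) (nat_lit 0) (XT.lf (nat_lit 924) (nat_lit 19459670073) (nat_lit 0) (nat_lit 44772725010) (nat_lit 840) (nat_lit 19459670073) (nat_lit 141) (nat_lit 1) (nat_lit 130) (nat_lit 1) (nat_lit 140) (nat_lit 1) (nat_lit 116) (nat_lit 304) (nat_lit 300)) (XT.lf (nat_lit 924) (nat_lit 34999484073) (nat_lit 84) (nat_lit 23373458723) (nat_lit 0) (nat_lit 23373458723) (nat_lit 141) (nat_lit 1) (nat_lit 131) (nat_lit 1) (nat_lit 130) (nat_lit 1) (nat_lit 117) (nat_lit 304) (nat_lit 299)))) (XT.nd (nat_lit 188) (nat_lit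 0) (nat_lit 84) (XT.nd (nat_lit 94) (nat_lit 0) (nat_lit 0) (XT.lf (nat_lit 924) (nat_lit 15346262889) (nat_lit 0) (nat_lit 49173540752) (nat_lit 840) (nat_lit 15346262889) (nat_lit 142) (nat_lit 1) (nat_lit 131) (nat_lit 1) (nat_lit 141) (nat_lit 1) (nat_lit 118) (nat_lit 304) (nat_lit 298)) (XT.lf (nat_lit 924) (nat_lit 25797539112) (nat_lit 84) (nat_lit 26119982247) (nat_lit 0) (nat_lit 26119982247) (nat_lit 142) (nat_lit 1) (nat_lit 132) (nat_lit 1) (nat_lit 131) (nat_lit 1) (nat_lit 119) (nat_lit 304) (nat_lit 297))) (XT.nd (nat_lit 94) (nat_lit 0) (nat_lit 0) (XT.lf (nat_lit 924) (nat_lit 10356368285) (nat_lit 0) (nat_lit 55563139944) (nat_lit 840) (nat_lit 10356368285) (nat_lit 143) (nat_lit 1) (nat_lit 132) (nat_lit 1) (nat_lit 142) (nat_lit 1) (nat_lit 120) (nat_lit 304) (nat_lit 296)) (XT.lf (nat_lit 924) (nat_lit 14973887808) (nat_lit 84) (nat_lit 29790786698)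 (nat_lit 0) (nat_lit 29790786698) (nat_lit 143) (nat_lit 1) (nat_lit 133) (nat_lit 1) (nat_lit 132) (nat_lit 1) (nat_lit 121) (nat_lit 304) (nat_lit 295))))))) (XT.nd (nat_lit 1222) (nat_lit 2604) (nat_lit 0) (XT.nd (nat_lit 564) (nat_lit 1512) (nat_lit 0) (XT.nd (nat_lit 282) (nat_lit 420) (nat_lit 0) (XT.nd (nat_lit 94) (nat_lit 1428) (nat_lit 0) (XT.lf (nat_lit 84) (nat_lit 4631421993) (nat_lit 0) (nat_lit 63642437227) (nat_lit 840) (nat_lit 4631421993) (nat_lit 134) (nat_lit 1) (nat_lit 133) (nat_lit 1) (nat_lit 143) (nat_lit 1) (nat_lit 122) (nat_lit 304) (nat_lit 294)) (XT.nd (nat_lit 94) (nat_lit 588) (nat_lit 0) (XT.lf (nat_lit 924) (nat_lit 2797263710) (nat_lit 0) (nat_lit 34243768496) (nat_lit 840) (nat_lit 34243768496) (nat_lit 134) (nat_lit 1) (nat_lit 123) (nat_lit 1) (nat_lit 133) (nat_lit 1) (nat_lit 123) (nat_lit 304) (nat_lit 293)) (XT.lf (nat_lit 588) (nat_lit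 66382590637) (nat_lit 0) (nat_lit 1675674217) (nat_lit 504) (nat_lit 1675674217) (nat_lit 123) (nat_lit 1) (nat_lit 116) (nat_lit 1) (nat_lit 122) (nat_lit 1) (nat_lit 124) (nat_lit 304) (nat_lit 292)))) (XT.nd (nat_lit 94) (nat_lit 420) (nat_lit 0) (XT.lf (nat_lit 84) (nat_lit 29022353091) (nat_lit 0) (nat_lit 10158321223) (nat_lit 588) (nat_lit 29022353091) (nat_lit 117) (nat_lit 1) (nat_lit 116) (nat_lit 1) (nat_lit 123) (nat_lit 1) (nat_lit 125) (nat_lit 304) (nat_lit 291)) (XT.nd (nat_lit 94) (nat_lit 0) (nat_lit 0) (XT.lf (nat_lit 504) (nat_lit 49940019955) (nat_lit 0) (nat_lit 8398597125) (nat_lit 420) (nat_lit 8398597125) (nat_lit 117) (nat_lit 1) (nat_lit 111) (nat_lit 1) (nat_lit 116) (nat_lit 1) (nat_lit 126) (nat_lit 304) (nat_lit 290)) (XT.lf (nat_lit 84) (nat_lit 20701291157) (nat_lit 0) (nat_lit 23899634137) (nat_lit 504) (nat_lit 20701291157) (nat_lit 112)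 (nat_lit 1) (nat_lit 111) (nat_lit 1) (nat_lit 117) (nat_lit 1) (nat_lit 127) (nat_lit 304) (nat_lit 289))))) (XT.nd (nat_lit 282) (nat_lit 756) (nat_lit 0) (XT.nd (nat_lit 94) (nat_lit 336) (nat_lit 0) (XT.lf (nat_lit 504) (nat_lit 32886211355) (nat_lit 0) (nat_lit 15515492237) (nat_lit 420) (nat_lit 15515492237) (nat_lit 112) (nat_lit 1) (nat_lit 106) (nat_lit 1) (nat_lit 111) (nat_lit 1) (nat_lit 128) (nat_lit 304) (nat_lit 288)) (XT.nd (nat_lit 94) (nat_lit 336) (nat_lit 0) (XT.lf (nat_lit 84) (nat_lit 12118131825) (nat_lit 0) (nat_lit 38336192625) (nat_lit 504) (nat_lit 12118131825) (nat_lit 107) (nat_lit 1) (nat_lit 106) (nat_lit 1) (nat_lit 112) (nat_lit 1) (nat_lit 129) (nat_lit 304) (nat_lit 287)) (XT.lf (nat_lit 420) (nat_lit 15379892529) (nat_lit 0) (nat_lit 22941207664) (nat_lit 336) (nat_lit 22941207664) (nat_lit 107) (nat_lit 1) (nat_lit 102) (nat_lit 1) (nat_lit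 106) (nat_lit 1) (nat_lit 130) (nat_lit 304) (nat_lit 286)))) (XT.nd (nat_lit 188) (nat_lit 336) (nat_lit 0) (XT.nd (nat_lit 94) (nat_lit 420) (nat_lit 0) (XT.lf (nat_lit 84) (nat_lit 3346561990) (nat_lit 0) (nat_lit 53309417316) (nat_lit 420) (nat_lit 3346561990) (nat_lit 103) (nat_lit 1) (nat_lit 102) (nat_lit 1) (nat_lit 107) (nat_lit 1) (nat_lit 131) (nat_lit 304) (nat_lit 285)) (XT.lf (nat_lit 84) (nat_lit 28199092968) (nat_lit 0) (nat_lit 2361728813) (nat_lit 420) (nat_lit 28199092968) (nat_lit 98) (nat_lit 1) (nat_lit 97) (nat_lit 1) (nat_lit 102) (nat_lit 1) (nat_lit 132) (nat_lit 304) (nat_lit 284))) (XT.nd (nat_lit 94) (nat_lit 0) (nat_lit 0) (XT.lf (nat_lit 420) (nat_lit 46645746812) (nat_lit 0) (nat_lit 5459431826) (nat_lit 336) (nat_lit 5459431826) (nat_lit 98) (nat_lit 1) (nat_lit 93) (nat_lit 1) (nat_lit 97) (nat_lit 1) (nat_lit 133) (nat_lit 304) (nat_lit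 283)) (XT.lf (nat_lit 84) (nat_lit 18296512589) (nat_lit 0) (nat_lit 19796786714) (nat_lit 420) (nat_lit 18296512589) (nat_lit 94) (nat_lit 1) (nat_lit 93) (nat_lit 1) (nat_lit 98) (nat_lit 1) (nat_lit 134) (nat_lit 304) (nat_lit 282)))))) (XT.nd (nat_lit 658) (nat_lit 1344) (nat_lit 0) (XT.nd (nat_lit 282) (nat_lit 672) (nat_lit 0) (XT.nd (nat_lit 94) (nat_lit 252) (nat_lit 0) (XT.lf (nat_lit 420) (nat_lit 26699701562) (nat_lit 0) (nat_lit 14278024820) (nat_lit 336) (nat_lit 14278024820) (nat_lit 94) (nat_lit 1) (nat_lit 89) (nat_lit 1) (nat_lit 93) (nat_lit 1) (nat_lit 135) (nat_lit 304) (nat_lit 281)) (XT.nd (nat_lit 94) (nat_lit 252) (nat_lit 0) (XT.lf (nat_lit 84) (nat_lit 8419894284) (nat_lit 0) (nat_lit 37315061975) (nat_lit 420) (nat_lit 8419894284) (nat_lit 90) (nat_lit 1) (nat_lit 89) (nat_lit 1) (nat_lit 94) (nat_lit 1) (nat_lit 136) (nat_lit 304) (nat_lit 280))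 (XT.lf (nat_lit 336) (nat_lit 6847539404) (nat_lit 0) (nat_lit 23115087260) (nat_lit 252) (nat_lit 23115087260) (nat_lit 90) (nat_lit 1) (nat_lit 86) (nat_lit 1) (nat_lit 89) (nat_lit 1) (nat_lit 137) (nat_lit 304) (nat_lit 279)))) (XT.nd (nat_lit 188) (nat_lit 252) (nat_lit 0) (XT.nd (nat_lit 94) (nat_lit 0) (nat_lit 0) (XT.lf (nat_lit 420) (nat_lit 49305859181) (nat_lit 0) (nat_lit 1368142984) (nat_lit 336) (nat_lit 1368142984) (nat_lit 86) (nat_lit 1) (nat_lit 81) (nat_lit 1) (nat_lit 85) (nat_lit 1) (nat_lit 138) (nat_lit 304) (nat_lit 278)) (XT.lf (nat_lit 84) (nat_lit 19293747209) (nat_lit 0) (nat_lit 12424813704) (nat_lit 420) (nat_lit 19293747209) (nat_lit 82) (nat_lit 1) (nat_lit 81) (nat_lit 1) (nat_lit 86) (nat_lit 1) (nat_lit 139) (nat_lit 304) (nat_lit 277))) (XT.nd (nat_lit 94) (nat_lit 0) (nat_lit 0) (XT.lf (nat_lit 336) (nat_lit 28179127758) (nat_lit 0) (nat_lit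 10921420165) (nat_lit 252) (nat_lit 10921420165) (nat_lit 82) (nat_lit 1) (nat_lit 78) (nat_lit 1) (nat_lit 81) (nat_lit 1) (nat_lit 140) (nat_lit 304) (nat_lit 276)) (XT.lf (nat_lit 84) (nat_lit 8902222345) (nat_lit 0) (nat_lit 31252344653) (nat_lit 336) (nat_lit 8902222345) (nat_lit 79) (nat_lit 1) (nat_lit 78) (nat_lit 1) (nat_lit 82) (nat_lit 1) (nat_lit 141) (nat_lit 304) (nat_lit 275))))) (XT.nd (nat_lit 282) (nat_lit 756) (nat_lit 0) (XT.nd (nat_lit 94) (nat_lit 336) (nat_lit 0) (XT.lf (nat_lit 336) (nat_lit 7419724075) (nat_lit 0) (nat_lit 20346922040) (nat_lit 252) (nat_lit 20346922040) (nat_lit 79) (nat_lit 1) (nat_lit 75) (nat_lit 1) (nat_lit 78) (nat_lit 1) (nat_lit 142) (nat_lit 304) (nat_lit 274)) (XT.nd (nat_lit 94) (nat_lit 0) (nat_lit 0) (XT.lf (nat_lit 336) (nat_lit 44655076376) (nat_lit 0) (nat_lit 1275156227) (nat_lit 252) (nat_lit 1275156227) (nat_lit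 75) (nat_lit 1) (nat_lit 71) (nat_lit 1) (nat_lit 74) (nat_lit 1) (nat_lit 143) (nat_lit 304) (nat_lit 273)) (XT.lf (nat_lit 84) (nat_lit 16891736552) (nat_lit 0) (nat_lit 12516607173) (nat_lit 336) (nat_lit 16891736552) (nat_lit 72) (nat_lit 1) (nat_lit 71) (nat_lit 1) (nat_lit 75) (nat_lit 1) (nat_lit 144) (nat_lit 304) (nat_lit 272)))) (XT.nd (nat_lit 188) (nat_lit 504) (nat_lit 0) (XT.nd (nat_lit 94) (nat_lit 0) (nat_lit 0) (XT.lf (nat_lit 336) (nat_lit 23227684466) (nat_lit 0) (nat_lit 11100291910) (nat_lit 252) (nat_lit 11100291910) (nat_lit 72) (nat_lit 1) (nat_lit 68) (nat_lit 1) (nat_lit 71) (nat_lit 1) (nat_lit 145) (nat_lit 304) (nat_lit 271)) (XT.lf (nat_lit 84) (nat_lit 6396885358) (nat_lit 0) (nat_lit 31786067973) (nat_lit 336) (nat_lit 6396885358) (nat_lit 69) (nat_lit 1) (nat_lit 68) (nat_lit 1) (nat_lit 72) (nat_lit 1) (nat_lit 146) (nat_lit 304) (nat_lit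 270))) (XT.nd (nat_lit 94) (nat_lit 336) (nat_lit 0) (XT.lf (nat_lit 252) (nat_lit 2344031487) (nat_lit 0) (nat_lit 20701682876) (nat_lit 168) (nat_lit 20701682876) (nat_lit 69) (nat_lit 1) (nat_lit 66) (nat_lit 1) (nat_lit 68) (nat_lit 1) (nat_lit 147) (nat_lit 304) (nat_lit 269)) (XT.lf (nat_lit 336) (nat_lit 35417529786) (nat_lit 0) (nat_lit 3761598381) (nat_lit 252) (nat_lit 3761598381) (nat_lit 66) (nat_lit 1) (nat_lit 62) (nat_lit 1) (nat_lit 65) (nat_lit 1) (nat_lit 148) (nat_lit 304) (nat_lit 268))))))))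
noncomputable def ec194 : XT := (XT.nd (nat_lit 2538) (nat_lit 2268) (nat_lit 0) (XT.nd (nat_lit 1222) (nat_lit 1428) (nat_lit 0) (XT.nd (nat_lit 564) (nat_lit 924) (nat_lit 0) (XT.nd (nat_lit 282) (nat_lit 420) (nat_lit 0) (XT.nd (nat_lit 94) (nat_lit 168) (nat_lit 0) (XT.lf (nat_lit 84) (nat_lit 12370502443) (nat_lit 0) (nat_lit 17402072807) (nat_lit 336) (nat_lit 12370502443) (nat_lit 63) (nat_lit 1) (nat_lit 62) (nat_lit 1) (nat_lit 66) (nat_lit 1) (nat_lit 149) (nat_lit 304) (nat_lit 267)) (XT.nd (nat_lit 94) (nat_lit 0) (nat_lit 0) (XT.lf (nat_lit 252) (nat_lit 14292207342) (nat_lit 0) (nat_lit 13538919564) (nat_lit 168) (nat_lit 13538919564) (nat_lit 63) (nat_lit 1) (nat_lit 60) (nat_lit 1) (nat_lit 62) (nat_lit 1) (nat_lit 150) (nat_lit 304) (nat_lit 266)) (XT.lf (nat_lit 84) (nat_lit 2053336552) (nat_lit 0) (nat_lit 36515996084) (nat_lit 252) (nat_lit 2053336552)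 (nat_lit 61) (nat_lit 1) (nat_lit 60) (nat_lit 1) (nat_lit 63) (nat_lit 1) (nat_lit 151) (nat_lit 304) (nat_lit 265)))) (XT.nd (nat_lit 94) (nat_lit 168) (nat_lit 0) (XT.lf (nat_lit 84) (nat_lit 16946546811) (nat_lit 0) (nat_lit 5984915052) (nat_lit 252) (nat_lit 16946546811) (nat_lit 58) (nat_lit 1) (nat_lit 57) (nat_lit 1) (nat_lit 60) (nat_lit 1) (nat_lit 152) (nat_lit 304) (nat_lit 264)) (XT.nd (nat_lit 94) (nat_lit 0) (nat_lit 0) (XT.lf (nat_lit 252) (nat_lit 23533250385) (nat_lit 0) (nat_lit 7812401517) (nat_lit 168) (nat_lit 7812401517) (nat_lit 58) (nat_lit 1) (nat_lit 55) (nat_lit 1) (nat_lit 57) (nat_lit 1) (nat_lit 153) (nat_lit 304) (nat_lit 263)) (XT.lf (nat_lit 84) (nat_lit 6640471013) (nat_lit 0) (nat_lit 25173068723) (nat_lit 252) (nat_lit 6640471013) (nat_lit 56) (nat_lit 1) (nat_lit 55) (nat_lit 1) (nat_lit 58) (nat_lit 1) (nat_lit 154) (nat_lit 304) (nat_lit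 262))))) (XT.nd (nat_lit 282) (nat_lit 504) (nat_lit 0) (XT.nd (nat_lit 94) (nat_lit 252) (nat_lit 0) (XT.lf (nat_lit 252) (nat_lit 3110821590) (nat_lit 0) (nat_lit 17326669088) (nat_lit 168) (nat_lit 17326669088) (nat_lit 56) (nat_lit 1) (nat_lit 53) (nat_lit 1) (nat_lit 55) (nat_lit 1) (nat_lit 155) (nat_lit 304) (nat_lit 261)) (XT.nd (nat_lit 94) (nat_lit 0) (nat_lit 0) (XT.lf (nat_lit 252) (nat_lit 30575164317) (nat_lit 0) (nat_lit 3259566715) (nat_lit 168) (nat_lit 3259566715) (nat_lit 53) (nat_lit 1) (nat_lit 50) (nat_lit 1) (nat_lit 52) (nat_lit 1) (nat_lit 156) (nat_lit 304) (nat_lit 260)) (XT.lf (nat_lit 84) (nat_lit 10178547127) (nat_lit 0) (nat_lit 16073058675) (nat_lit 252) (nat_lit 10178547127) (nat_lit 51) (nat_lit 1) (nat_lit 50) (nat_lit 1) (nat_lit 53) (nat_lit 1) (nat_lit 157) (nat_lit 304) (nat_lit 259)))) (XT.nd (nat_lit 188) (nat_lit 336) (nat_lit 0)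 (XT.nd (nat_lit 94) (nat_lit 0) (nat_lit 0) (XT.lf (nat_lit 252) (nat_lit 10366356075) (nat_lit 0) (nat_lit 12709466540) (nat_lit 168) (nat_lit 12709466540) (nat_lit 51) (nat_lit 1) (nat_lit 48) (nat_lit 1) (nat_lit 50) (nat_lit 1) (nat_lit 158) (nat_lit 304) (nat_lit 258)) (XT.lf (nat_lit 84) (nat_lit 340713534) (nat_lit 0) (nat_lit 34481613718) (nat_lit 252) (nat_lit 340713534) (nat_lit 49) (nat_lit 1) (nat_lit 48) (nat_lit 1) (nat_lit 51) (nat_lit 1) (nat_lit 159) (nat_lit 304) (nat_lit 257))) (XT.nd (nat_lit 94) (nat_lit 168) (nat_lit 0) (XT.lf (nat_lit 84) (nat_lit 12864787521) (nat_lit 0) (nat_lit 8807262043) (nat_lit 168) (nat_lit 12864787521) (nat_lit 47) (nat_lit 1) (nat_lit 46) (nat_lit 1) (nat_lit 48) (nat_lit 1) (nat_lit 160) (nat_lit 304) (nat_lit 256)) (XT.lf (nat_lit 252) (nat_lit 15963736753) (nat_lit 0) (nat_lit 8984464815) (nat_lit 168) (nat_lit 8984464815)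 (nat_lit 47) (nat_lit 1) (nat_lit 44) (nat_lit 1) (nat_lit 46) (nat_lit 1) (nat_lit 161) (nat_lit 304) (nat_lit 255)))))) (XT.nd (nat_lit 658) (nat_lit 756) (nat_lit 0) (XT.nd (nat_lit 282) (nat_lit 336) (nat_lit 0) (XT.nd (nat_lit 94) (nat_lit 336) (nat_lit 0) (XT.lf (nat_lit 84) (nat_lit 3200618889) (nat_lit 0) (nat_lit 26943566003) (nat_lit 252) (nat_lit 3200618889) (nat_lit 45) (nat_lit 1) (nat_lit 44) (nat_lit 1) (nat_lit 47) (nat_lit 1) (nat_lit 162) (nat_lit 304) (nat_lit 254)) (XT.nd (nat_lit 94) (nat_lit 168) (nat_lit 0) (XT.lf (nat_lit 84) (nat_lit 14860913113) (nat_lit 0) (nat_lit 3039962845) (nat_lit 168) (nat_lit 14860913113) (nat_lit 43) (nat_lit 1) (nat_lit 42) (nat_lit 1) (nat_lit 44) (nat_lit 1) (nat_lit 163) (nat_lit 304) (nat_lit 253)) (XT.lf (nat_lit 252) (nat_lit 20214653311) (nat_lit 0) (nat_lit 5989975000) (nat_lit 168) (nat_lit 5989975000) (nat_lit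 43) (nat_lit 1) (nat_lit 40) (nat_lit 1) (nat_lit 42) (nat_lit 1) (nat_lit 164) (nat_lit 304) (nat_lit 252)))) (XT.nd (nat_lit 188) (nat_lit 252) (nat_lit 0) (XT.nd (nat_lit 94) (nat_lit 84) (nat_lit 0) (XT.lf (nat_lit 84) (nat_lit 5414407578) (nat_lit 0) (nat_lit 20809830871) (nat_lit 252) (nat_lit 5414407578) (nat_lit 41) (nat_lit 1) (nat_lit 40) (nat_lit 1) (nat_lit 43) (nat_lit 1) (nat_lit 165) (nat_lit 304) (nat_lit 251)) (XT.lf (nat_lit 168) (nat_lit 1554279243) (nat_lit 0) (nat_lit 14769450342) (nat_lit 84) (nat_lit 14769450342) (nat_lit 41) (nat_lit 1) (nat_lit 39) (nat_lit 1) (nat_lit 40) (nat_lit 1) (nat_lit 166) (nat_lit 304) (nat_lit 250))) (XT.nd (nat_lit 94) (nat_lit 0) (nat_lit 0) (XT.lf (nat_lit 252) (nat_lit 23374690618) (nat_lit 0) (nat_lit 3593142077) (nat_lit 168) (nat_lit 3593142077) (nat_lit 39) (nat_lit 1) (nat_lit 36) (nat_lit 1) (nat_lit 38) (nat_lit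 1) (nat_lit 167) (nat_lit 304) (nat_lit 249)) (XT.lf (nat_lit 84) (nat_lit 7103256511) (nat_lit 0) (nat_lit 15828196920) (nat_lit 252) (nat_lit 7103256511) (nat_lit 37) (nat_lit 1) (nat_lit 36) (nat_lit 1) (nat_lit 39) (nat_lit 1) (nat_lit 168) (nat_lit 304) (nat_lit 248))))) (XT.nd (nat_lit 282) (nat_lit 420) (nat_lit 0) (XT.nd (nat_lit 94) (nat_lit 252) (nat_lit 0) (XT.lf (nat_lit 168) (nat_lit 5219621814) (nat_lit 0) (nat_lit 12150863347) (nat_lit 84) (nat_lit 12150863347) (nat_lit 37) (nat_lit 1) (nat_lit 35) (nat_lit 1) (nat_lit 36) (nat_lit 1) (nat_lit 169) (nat_lit 304) (nat_lit 247)) (XT.nd (nat_lit 94) (nat_lit 0) (nat_lit 0) (XT.lf (nat_lit 252) (nat_lit 25653316116) (nat_lit 0) (nat_lit 1684824803) (nat_lit 168) (nat_lit 1684824803) (nat_lit 35) (nat_lit 1) (nat_lit 32) (nat_lit 1) (nat_lit 34) (nat_lit 1) (nat_lit 170) (nat_lit 304) (nat_lit 246)) (XT.lf (nat_lit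 84) (nat_lit 8366542898) (nat_lit 0) (nat_lit 11791323027) (nat_lit 252) (nat_lit 8366542898) (nat_lit 33) (nat_lit 1) (nat_lit 32) (nat_lit 1) (nat_lit 35) (nat_lit 1) (nat_lit 171) (nat_lit 304) (nat_lit 245)))) (XT.nd (nat_lit 188) (nat_lit 84) (nat_lit 0) (XT.nd (nat_lit 94) (nat_lit 252) (nat_lit 0) (XT.lf (nat_lit 168) (nat_lit 8047445722) (nat_lit 0) (nat_lit 9996545347) (nat_lit 84) (nat_lit 9996545347) (nat_lit 33) (nat_lit 1) (nat_lit 31) (nat_lit 1) (nat_lit 32) (nat_lit 1) (nat_lit 172) (nat_lit 304) (nat_lit 244)) (XT.lf (nat_lit 252) (nat_lit 27222094557) (nat_lit 0) (nat_lit 175383748) (nat_lit 168) (nat_lit 175383748) (nat_lit 31) (nat_lit 1) (nat_lit 28) (nat_lit 1) (nat_lit 30) (nat_lit 1) (nat_lit 173) (nat_lit 304) (nat_lit 243))) (XT.nd (nat_lit 94) (nat_lit 84) (nat_lit 0) (XT.lf (nat_lit 84) (nat_lit 9285724298) (nat_lit 0) (nat_lit 8528775635) (nat_lit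 252) (nat_lit 9285724298) (nat_lit 29) (nat_lit 1) (nat_lit 28) (nat_lit 1) (nat_lit 31) (nat_lit 1) (nat_lit 174) (nat_lit 304) (nat_lit 242)) (XT.lf (nat_lit 168) (nat_lit 10195177261) (nat_lit 0) (nat_lit 8224182596) (nat_lit 84) (nat_lit 8224182596) (nat_lit 29) (nat_lit 1) (nat_lit 27) (nat_lit 1) (nat_lit 28) (nat_lit 1) (nat_lit 175) (nat_lit 304) (nat_lit 241))))))) (XT.nd (nat_lit 1222) (nat_lit 1260) (nat_lit 0) (XT.nd (nat_lit 564) (nat_lit 504) (nat_lit 0) (XT.nd (nat_lit 282) (nat_lit 252) (nat_lit 0) (XT.nd (nat_lit 94) (nat_lit 252) (nat_lit 0) (XT.lf (nat_lit 0) (nat_lit 1025320968) (nat_lit 0) (nat_lit 24150006727) (nat_lit 168) (nat_lit 1025320968) (nat_lit 27) (nat_lit 3) (nat_lit 27) (nat_lit 1) (nat_lit 29) (nat_lit 1) (nat_lit 176) (nat_lit 304) (nat_lit 240)) (XT.nd (nat_lit 94) (nat_lit 84) (nat_lit 0) (XT.lf (nat_lit 84) (nat_lit 9927530027) (nat_lit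 0) (nat_lit 5900478155) (nat_lit 168) (nat_lit 9927530027) (nat_lit 26) (nat_lit 1) (nat_lit 25) (nat_lit 1) (nat_lit 27) (nat_lit 1) (nat_lit 177) (nat_lit 304) (nat_lit 239)) (XT.lf (nat_lit 168) (nat_lit 11791905897) (nat_lit 0) (nat_lit 6766055375) (nat_lit 84) (nat_lit 6766055375) (nat_lit 26) (nat_lit 1) (nat_lit 24) (nat_lit 1) (nat_lit 25) (nat_lit 1) (nat_lit 178) (nat_lit 304) (nat_lit 238)))) (XT.nd (nat_lit 94) (nat_lit 252) (nat_lit 0) (XT.lf (nat_lit 0) (nat_lit 1959700764) (nat_lit 0) (nat_lit 20984436967) (nat_lit 168) (nat_lit 1959700764) (nat_lit 24) (nat_lit 3) (nat_lit 24) (nat_lit 1) (nat_lit 26) (nat_lit 1) (nat_lit 179) (nat_lit 304) (nat_lit 237)) (XT.nd (nat_lit 94) (nat_lit 84) (nat_lit 0) (XT.lf (nat_lit 84) (nat_lit 10346586062) (nat_lit 0) (nat_lit 3791322107) (nat_lit 168) (nat_lit 10346586062) (nat_lit 23) (nat_lit 1) (nat_lit 22) (nat_lit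 1) (nat_lit 24) (nat_lit 1) (nat_lit 180) (nat_lit 304) (nat_lit 236)) (XT.lf (nat_lit 168) (nat_lit 12943428577) (nat_lit 0) (nat_lit 5566450501) (nat_lit 84) (nat_lit 5566450501) (nat_lit 23) (nat_lit 1) (nat_lit 21) (nat_lit 1) (nat_lit 22) (nat_lit 1) (nat_lit 181) (nat_lit 304) (nat_lit 235))))) (XT.nd (nat_lit 282) (nat_lit 252) (nat_lit 0) (XT.nd (nat_lit 94) (nat_lit 252) (nat_lit 0) (XT.lf (nat_lit 0) (nat_lit 2675266542) (nat_lit 0) (nat_lit 18326964098) (nat_lit 168) (nat_lit 2675266542) (nat_lit 21) (nat_lit 3) (nat_lit 21) (nat_lit 1) (nat_lit 23) (nat_lit 1) (nat_lit 182) (nat_lit 304) (nat_lit 234)) (XT.nd (nat_lit 94) (nat_lit 84) (nat_lit 0) (XT.lf (nat_lit 84) (nat_lit 10587573901) (nat_lit 0) (nat_lit 2106734011) (nat_lit 168) (nat_lit 10587573901) (nat_lit 20) (nat_lit 1) (nat_lit 19) (nat_lit 1) (nat_lit 21) (nat_lit 1) (nat_lit 183) (nat_lit 304) (nat_lit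 233)) (XT.lf (nat_lit 168) (nat_lit 13736398735) (nat_lit 0) (nat_lit 4579532603) (nat_lit 84) (nat_lit 4579532603) (nat_lit 20) (nat_lit 1) (nat_lit 18) (nat_lit 1) (nat_lit 19) (nat_lit 1) (nat_lit 184) (nat_lit 304) (nat_lit 232)))) (XT.nd (nat_lit 188) (nat_lit 84) (nat_lit 0) (XT.nd (nat_lit 94) (nat_lit 168) (nat_lit 0) (XT.lf (nat_lit 0) (nat_lit 3213344474) (nat_lit 0) (nat_lit 16090034788) (nat_lit 168) (nat_lit 3213344474) (nat_lit 18) (nat_lit 3) (nat_lit 18) (nat_lit 1) (nat_lit 20) (nat_lit 1) (nat_lit 185) (nat_lit 304) (nat_lit 231)) (XT.lf (nat_lit 84) (nat_lit 10687006053) (nat_lit 0) (nat_lit 769028551) (nat_lit 168) (nat_lit 10687006053) (nat_lit 17) (nat_lit 1) (nat_lit 16) (nat_lit 1) (nat_lit 18) (nat_lit 1) (nat_lit 186) (nat_lit 304) (nat_lit 230))) (XT.nd (nat_lit 94) (nat_lit 0) (nat_lit 0) (XT.lf (nat_lit 168) (nat_lit 14241738770) (nat_lit 0)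 (nat_lit 3767592806) (nat_lit 84) (nat_lit 3767592806) (nat_lit 17) (nat_lit 1) (nat_lit 15) (nat_lit 1) (nat_lit 16) (nat_lit 1) (nat_lit 187) (nat_lit 304) (nat_lit 229)) (XT.lf (nat_lit 0) (nat_lit 3607813184) (nat_lit 0) (nat_lit 14201498173) (nat_lit 168) (nat_lit 3607813184) (nat_lit 15) (nat_lit 3) (nat_lit 15) (nat_lit 1) (nat_lit 17) (nat_lit 1) (nat_lit 188) (nat_lit 304) (nat_lit 228)))))) (XT.nd (nat_lit 658) (nat_lit 672) (nat_lit 0) (XT.nd (nat_lit 282) (nat_lit 336) (nat_lit 0) (XT.nd (nat_lit 94) (nat_lit 168) (nat_lit 0) (XT.lf (nat_lit 84) (nat_lit 295034327) (nat_lit 0) (nat_lit 10384258125) (nat_lit 84) (nat_lit 10384258125) (nat_lit 15) (nat_lit 3) (nat_lit 14) (nat_lit 1) (nat_lit 15) (nat_lit 1) (nat_lit 189) (nat_lit 304) (nat_lit 227)) (XT.nd (nat_lit 94) (nat_lit 0) (nat_lit 0) (XT.lf (nat_lit 168) (nat_lit 14517446622) (nat_lit 0) (nat_lit 3099607925)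 (nat_lit 84) (nat_lit 3099607925) (nat_lit 14) (nat_lit 1) (nat_lit 12) (nat_lit 1) (nat_lit 13) (nat_lit 1) (nat_lit 190) (nat_lit 304) (nat_lit 226)) (XT.lf (nat_lit 0) (nat_lit 3886429914) (nat_lit 0) (nat_lit 12601880771) (nat_lit 168) (nat_lit 3886429914) (nat_lit 12) (nat_lit 3) (nat_lit 12) (nat_lit 1) (nat_lit 14) (nat_lit 1) (nat_lit 191) (nat_lit 304) (nat_lit 225)))) (XT.nd (nat_lit 188) (nat_lit 84) (nat_lit 0) (XT.nd (nat_lit 94) (nat_lit 168) (nat_lit 0) (XT.lf (nat_lit 84) (nat_lit 1146187694) (nat_lit 0) (nat_lit 9446617082) (nat_lit 84) (nat_lit 9446617082) (nat_lit 12) (nat_lit 3) (nat_lit 11) (nat_lit 1) (nat_lit 12) (nat_lit 1) (nat_lit 192) (nat_lit 304) (nat_lit 224)) (XT.lf (nat_lit 168) (nat_lit 14610903922) (nat_lit 0) (nat_lit 2550055111) (nat_lit 84) (nat_lit 2550055111) (nat_lit 11) (nat_lit 1) (nat_lit 9) (nat_lit 1) (nat_lit 10) (nat_lit 1)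 (nat_lit 193) (nat_lit 304) (nat_lit 223))) (XT.nd (nat_lit 94) (nat_lit 84) (nat_lit 0) (XT.lf (nat_lit 0) (nat_lit 4071921298) (nat_lit 0) (nat_lit 11242144287) (nat_lit 168) (nat_lit 4071921298) (nat_lit 9) (nat_lit 3) (nat_lit 9) (nat_lit 1) (nat_lit 11) (nat_lit 1) (nat_lit 194) (nat_lit 304) (nat_lit 222)) (XT.lf (nat_lit 84) (nat_lit 1803411664) (nat_lit 0) (nat_lit 8632195464) (nat_lit 84) (nat_lit 8632195464) (nat_lit 9) (nat_lit 3) (nat_lit 8) (nat_lit 1) (nat_lit 9) (nat_lit 1) (nat_lit 195) (nat_lit 304) (nat_lit 221))))) (XT.nd (nat_lit 282) (nat_lit 420) (nat_lit 0) (XT.nd (nat_lit 94) (nat_lit 84) (nat_lit 0) (XT.lf (nat_lit 168) (nat_lit 14560774109) (nat_lit 0) (nat_lit 2097936651) (nat_lit 84) (nat_lit 2097936651) (nat_lit 8) (nat_lit 1) (nat_lit 6) (nat_lit 1) (nat_lit 7) (nat_lit 1) (nat_lit 196) (nat_lit 304) (nat_lit 220)) (XT.nd (nat_lit 94) (nat_lit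 84) (nat_lit 0) (XT.lf (nat_lit 0) (nat_lit 4182880481) (nat_lit 0) (nat_lit 10081840679) (nat_lit 168) (nat_lit 4182880481) (nat_lit 6) (nat_lit 3) (nat_lit 6) (nat_lit 1) (nat_lit 8) (nat_lit 1) (nat_lit 197) (nat_lit 304) (nat_lit 219)) (XT.lf (nat_lit 84) (nat_lit 2303138108) (nat_lit 0) (nat_lit 7921195440) (nat_lit 84) (nat_lit 7921195440) (nat_lit 6) (nat_lit 3) (nat_lit 5) (nat_lit 1) (nat_lit 6) (nat_lit 1) (nat_lit 198) (nat_lit 304) (nat_lit 218)))) (XT.nd (nat_lit 188) (nat_lit 252) (nat_lit 0) (XT.nd (nat_lit 94) (nat_lit 0) (nat_lit 0) (XT.lf (nat_lit 168) (nat_lit 14398563269) (nat_lit 0) (nat_lit 1725977674) (nat_lit 84) (nat_lit 1725977674) (nat_lit 5) (nat_lit 1) (nat_lit 3) (nat_lit 1) (nat_lit 4) (nat_lit 1) (nat_lit 199) (nat_lit 304) (nat_lit 217)) (XT.lf (nat_lit 0) (nat_lit 4234504935) (nat_lit 0) (nat_lit 9087594088) (nat_lit 168) (nat_lit 4234504935)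 (nat_lit 3) (nat_lit 3) (nat_lit 3) (nat_lit 1) (nat_lit 5) (nat_lit 1) (nat_lit 200) (nat_lit 304) (nat_lit 216))) (XT.nd (nat_lit 94) (nat_lit 168) (nat_lit 0) (XT.lf (nat_lit 84) (nat_lit 2675242058) (nat_lit 0) (nat_lit 7297231728) (nat_lit 84) (nat_lit 7297231728) (nat_lit 3) (nat_lit 3) (nat_lit 2) (nat_lit 1) (nat_lit 3) (nat_lit 1) (nat_lit 201) (nat_lit 304) (nat_lit 215)) (XT.lf (nat_lit 0) (nat_lit 24680930711) (nat_lit 0) (nat_lit 0) (nat_lit 0) (nat_lit 0) (nat_lit 0) (nat_lit 0) (nat_lit 1) (nat_lit 0) (nat_lit 1) (nat_lit 0) (nat_lit 202) (nat_lit 304) (nat_lit 214))))))))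
noncomputable def ec195 : XT := (XT.nd (nat_lit 2538) (nat_lit 0) (nat_lit 0) (XT.nd (nat_lit 1222) (nat_lit 0) (nat_lit 0) (XT.nd (nat_lit 564) (nat_lit 0) (nat_lit 0) (XT.nd (nat_lit 282) (nat_lit 0) (nat_lit 0) (XT.nd (nat_lit 94) (nat_lit 0) (nat_lit 0) (XT.lf (nat_lit 0) (nat_lit 24666550714) (nat_lit 0) (nat_lit 0) (nat_lit 0) (nat_lit 0) (nat_lit 0) (nat_lit 0) (nat_lit 1) (nat_lit 0) (nat_lit 1) (nat_lit 0) (nat_lit 203) (nat_lit 304) (nat_lit 213)) (XT.nd (nat_lit 94) (nat_lit 0) (nat_lit 0) (XT.lf (nat_lit 0) (nat_lit 24652855478) (nat_lit 0) (nat_lit 0) (nat_lit 0) (nat_lit 0) (nat_lit 0) (nat_lit 0) (nat_lit 1) (nat_lit 0) (nat_lit 1) (nat_lit 0) (nat_lit 204) (nat_lit 304) (nat_lit 212)) (XT.lf (nat_lit 0) (nat_lit 24639812397) (nat_lit 0) (nat_lit 0) (nat_lit 0) (nat_lit 0) (nat_lit 0) (nat_lit 0) (nat_lit 1) (nat_lit 0) (nat_lit 1) (nat_lit 0) (nat_lit 205)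 (nat_lit 304) (nat_lit 211)))) (XT.nd (nat_lit 94) (nat_lit 0) (nat_lit 0) (XT.lf (nat_lit 0) (nat_lit 24627390415) (nat_lit 0) (nat_lit 0) (nat_lit 0) (nat_lit 0) (nat_lit 0) (nat_lit 0) (nat_lit 1) (nat_lit 0) (nat_lit 1) (nat_lit 0) (nat_lit 206) (nat_lit 304) (nat_lit 210)) (XT.nd (nat_lit 94) (nat_lit 0) (nat_lit 0) (XT.lf (nat_lit 0) (nat_lit 24615559956) (nat_lit 0) (nat_lit 0) (nat_lit 0) (nat_lit 0) (nat_lit 0) (nat_lit 0) (nat_lit 1) (nat_lit 0) (nat_lit 1) (nat_lit 0) (nat_lit 207) (nat_lit 304) (nat_lit 209)) (XT.lf (nat_lit 0) (nat_lit 24604292852) (nat_lit 0) (nat_lit 0) (nat_lit 0) (nat_lit 0) (nat_lit 0) (nat_lit 0) (nat_lit 1) (nat_lit 0) (nat_lit 1) (nat_lit 0) (nat_lit 208) (nat_lit 304) (nat_lit 208))))) (XT.nd (nat_lit 282) (nat_lit 0) (nat_lit 0) (XT.nd (nat_lit 94) (nat_lit 0) (nat_lit 0) (XT.lf (nat_lit 0) (nat_lit 24593562276) (nat_lit 0) (nat_lit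 0) (nat_lit 0) (nat_lit 0) (nat_lit 0) (nat_lit 0) (nat_lit 1) (nat_lit 0) (nat_lit 1) (nat_lit 0) (nat_lit 209) (nat_lit 304) (nat_lit 207)) (XT.nd (nat_lit 94) (nat_lit 0) (nat_lit 0) (XT.lf (nat_lit 0) (nat_lit 24583342681) (nat_lit 0) (nat_lit 0) (nat_lit 0) (nat_lit 0) (nat_lit 0) (nat_lit 0) (nat_lit 1) (nat_lit 0) (nat_lit 1) (nat_lit 0) (nat_lit 210) (nat_lit 304) (nat_lit 206)) (XT.lf (nat_lit 0) (nat_lit 24573609733) (nat_lit 0) (nat_lit 0) (nat_lit 0) (nat_lit 0) (nat_lit 0) (nat_lit 0) (nat_lit 1) (nat_lit 0) (nat_lit 1) (nat_lit 0) (nat_lit 211) (nat_lit 304) (nat_lit 205)))) (XT.nd (nat_lit 188) (nat_lit 0) (nat_lit 0) (XT.nd (nat_lit 94) (nat_lit 0) (nat_lit 0) (XT.lf (nat_lit 0) (nat_lit 24564340258) (nat_lit 0) (nat_lit 0) (nat_lit 0) (nat_lit 0) (nat_lit 0) (nat_lit 0) (nat_lit 1) (nat_lit 0) (nat_lit 1) (nat_lit 0) (nat_lit 212) (nat_lit 304) (nat_lit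 204)) (XT.lf (nat_lit 0) (nat_lit 24555512188) (nat_lit 0) (nat_lit 0) (nat_lit 0) (nat_lit 0) (nat_lit 0) (nat_lit 0) (nat_lit 1) (nat_lit 0) (nat_lit 1) (nat_lit 0) (nat_lit 213) (nat_lit 304) (nat_lit 203))) (XT.nd (nat_lit 94) (nat_lit 0) (nat_lit 0) (XT.lf (nat_lit 0) (nat_lit 24547104501) (nat_lit 0) (nat_lit 0) (nat_lit 0) (nat_lit 0) (nat_lit 0) (nat_lit 0) (nat_lit 1) (nat_lit 0) (nat_lit 1) (nat_lit 0) (nat_lit 214) (nat_lit 304) (nat_lit 202)) (XT.lf (nat_lit 0) (nat_lit 24539097181) (nat_lit 0) (nat_lit 0) (nat_lit 0) (nat_lit 0) (nat_lit 0) (nat_lit 0) (nat_lit 1) (nat_lit 0) (nat_lit 1) (nat_lit 0) (nat_lit 215) (nat_lit 304) (nat_lit 201)))))) (XT.nd (nat_lit 658) (nat_lit 0) (nat_lit 0) (XT.nd (nat_lit 282) (nat_lit 0) (nat_lit 0) (XT.nd (nat_lit 94) (nat_lit 0) (nat_lit 0) (XT.lf (nat_lit 0) (nat_lit 24531471161) (nat_lit 0) (nat_lit 0) (nat_lit 0) (nat_lit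 0) (nat_lit 0) (nat_lit 0) (nat_lit 1) (nat_lit 0) (nat_lit 1) (nat_lit 0) (nat_lit 216) (nat_lit 304) (nat_lit 200)) (XT.nd (nat_lit 94) (nat_lit 0) (nat_lit 0) (XT.lf (nat_lit 0) (nat_lit 24524208285) (nat_lit 0) (nat_lit 0) (nat_lit 0) (nat_lit 0) (nat_lit 0) (nat_lit 0) (nat_lit 1) (nat_lit 0) (nat_lit 1) (nat_lit 0) (nat_lit 217) (nat_lit 304) (nat_lit 199)) (XT.lf (nat_lit 0) (nat_lit 24517291261) (nat_lit 0) (nat_lit 0) (nat_lit 0) (nat_lit 0) (nat_lit 0) (nat_lit 0) (nat_lit 1) (nat_lit 0) (nat_lit 1) (nat_lit 0) (nat_lit 218) (nat_lit 304) (nat_lit 198)))) (XT.nd (nat_lit 188) (nat_lit 0) (nat_lit 0) (XT.nd (nat_lit 94) (nat_lit 0) (nat_lit 0) (XT.lf (nat_lit 0) (nat_lit 24510703618) (nat_lit 0) (nat_lit 0) (nat_lit 0) (nat_lit 0) (nat_lit 0) (nat_lit 0) (nat_lit 1) (nat_lit 0) (nat_lit 1) (nat_lit 0) (nat_lit 219) (nat_lit 304) (nat_lit 197)) (XT.lf (nat_lit 0)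 (nat_lit 24504429673) (nat_lit 0) (nat_lit 0) (nat_lit 0) (nat_lit 0) (nat_lit 0) (nat_lit 0) (nat_lit 1) (nat_lit 0) (nat_lit 1) (nat_lit 0) (nat_lit 220) (nat_lit 304) (nat_lit 196))) (XT.nd (nat_lit 94) (nat_lit 0) (nat_lit 0) (XT.lf (nat_lit 0) (nat_lit 24498454488) (nat_lit 0) (nat_lit 0) (nat_lit 0) (nat_lit 0) (nat_lit 0) (nat_lit 0) (nat_lit 1) (nat_lit 0) (nat_lit 1) (nat_lit 0) (nat_lit 221) (nat_lit 304) (nat_lit 195)) (XT.lf (nat_lit 0) (nat_lit 24492763834) (nat_lit 0) (nat_lit 0) (nat_lit 0) (nat_lit 0) (nat_lit 0) (nat_lit 0) (nat_lit 1) (nat_lit 0) (nat_lit 1) (nat_lit 0) (nat_lit 222) (nat_lit 304) (nat_lit 194))))) (XT.nd (nat_lit 282) (nat_lit 0) (nat_lit 0) (XT.nd (nat_lit 94) (nat_lit 0) (nat_lit 0) (XT.lf (nat_lit 0) (nat_lit 24487344165) (nat_lit 0) (nat_lit 0) (nat_lit 0) (nat_lit 0) (nat_lit 0) (nat_lit 0) (nat_lit 1) (nat_lit 0) (nat_lit 1) (nat_lit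 0) (nat_lit 223) (nat_lit 304) (nat_lit 193)) (XT.nd (nat_lit 94) (nat_lit 0) (nat_lit 0) (XT.lf (nat_lit 0) (nat_lit 24482182575) (nat_lit 0) (nat_lit 0) (nat_lit 0) (nat_lit 0) (nat_lit 0) (nat_lit 0) (nat_lit 1) (nat_lit 0) (nat_lit 1) (nat_lit 0) (nat_lit 224) (nat_lit 304) (nat_lit 192)) (XT.lf (nat_lit 0) (nat_lit 24477266774) (nat_lit 0) (nat_lit 0) (nat_lit 0) (nat_lit 0) (nat_lit 0) (nat_lit 0) (nat_lit 1) (nat_lit 0) (nat_lit 1) (nat_lit 0) (nat_lit 225) (nat_lit 304) (nat_lit 191)))) (XT.nd (nat_lit 188) (nat_lit 0) (nat_lit 0) (XT.nd (nat_lit 94) (nat_lit 0) (nat_lit 0) (XT.lf (nat_lit 0) (nat_lit 24472585060) (nat_lit 0) (nat_lit 0) (nat_lit 0) (nat_lit 0) (nat_lit 0) (nat_lit 0) (nat_lit 1) (nat_lit 0) (nat_lit 1) (nat_lit 0) (nat_lit 226) (nat_lit 304) (nat_lit 190)) (XT.lf (nat_lit 0) (nat_lit 24468126284) (nat_lit 0) (nat_lit 0) (nat_lit 0) (nat_lit 0) (nat_lit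 0) (nat_lit 0) (nat_lit 1) (nat_lit 0) (nat_lit 1) (nat_lit 0) (nat_lit 227) (nat_lit 304) (nat_lit 189))) (XT.nd (nat_lit 94) (nat_lit 0) (nat_lit 0) (XT.lf (nat_lit 0) (nat_lit 24463879831) (nat_lit 0) (nat_lit 0) (nat_lit 0) (nat_lit 0) (nat_lit 0) (nat_lit 0) (nat_lit 1) (nat_lit 0) (nat_lit 1) (nat_lit 0) (nat_lit 228) (nat_lit 304) (nat_lit 188)) (XT.lf (nat_lit 0) (nat_lit 24459835590) (nat_lit 0) (nat_lit 0) (nat_lit 0) (nat_lit 0) (nat_lit 0) (nat_lit 0) (nat_lit 1) (nat_lit 0) (nat_lit 1) (nat_lit 0) (nat_lit 229) (nat_lit 304) (nat_lit 187))))))) (XT.nd (nat_lit 1316) (nat_lit 0) (nat_lit 0) (XT.nd (nat_lit 658) (nat_lit 0) (nat_lit 0) (XT.nd (nat_lit 282) (nat_lit 0) (nat_lit 0) (XT.nd (nat_lit 94) (nat_lit 0) (nat_lit 0) (XT.lf (nat_lit 0) (nat_lit 24455983932) (nat_lit 0) (nat_lit 0) (nat_lit 0) (nat_lit 0) (nat_lit 0) (nat_lit 0) (nat_lit 1) (nat_lit 0) (nat_lit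 1) (nat_lit 0) (nat_lit 230) (nat_lit 304) (nat_lit 186)) (XT.nd (nat_lit 94) (nat_lit 0) (nat_lit 0) (XT.lf (nat_lit 0) (nat_lit 24452315686) (nat_lit 0) (nat_lit 0) (nat_lit 0) (nat_lit 0) (nat_lit 0) (nat_lit 0) (nat_lit 1) (nat_lit 0) (nat_lit 1) (nat_lit 0) (nat_lit 231) (nat_lit 304) (nat_lit 185)) (XT.lf (nat_lit 0) (nat_lit 24448822119) (nat_lit 0) (nat_lit 0) (nat_lit 0) (nat_lit 0) (nat_lit 0) (nat_lit 0) (nat_lit 1) (nat_lit 0) (nat_lit 1) (nat_lit 0) (nat_lit 232) (nat_lit 304) (nat_lit 184)))) (XT.nd (nat_lit 188) (nat_lit 0) (nat_lit 0) (XT.nd (nat_lit 94) (nat_lit 0) (nat_lit 0) (XT.lf (nat_lit 0) (nat_lit 24445494912) (nat_lit 0) (nat_lit 0) (nat_lit 0) (nat_lit 0) (nat_lit 0) (nat_lit 0) (nat_lit 1) (nat_lit 0) (nat_lit 1) (nat_lit 0) (nat_lit 233) (nat_lit 304) (nat_lit 183)) (XT.lf (nat_lit 0) (nat_lit 24442326143) (nat_lit 0) (nat_lit 0) (nat_lit 0) (nat_lit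 0) (nat_lit 0) (nat_lit 0) (nat_lit 1) (nat_lit 0) (nat_lit 1) (nat_lit 0) (nat_lit 234) (nat_lit 304) (nat_lit 182))) (XT.nd (nat_lit 94) (nat_lit 0) (nat_lit 0) (XT.lf (nat_lit 0) (nat_lit 24439308269) (nat_lit 0) (nat_lit 0) (nat_lit 0) (nat_lit 0) (nat_lit 0) (nat_lit 0) (nat_lit 1) (nat_lit 0) (nat_lit 1) (nat_lit 0) (nat_lit 235) (nat_lit 304) (nat_lit 181)) (XT.lf (nat_lit 0) (nat_lit 24436434102) (nat_lit 0) (nat_lit 0) (nat_lit 0) (nat_lit 0) (nat_lit 0) (nat_lit 0) (nat_lit 1) (nat_lit 0) (nat_lit 1) (nat_lit 0) (nat_lit 236) (nat_lit 304) (nat_lit 180))))) (XT.nd (nat_lit 282) (nat_lit 0) (nat_lit 0) (XT.nd (nat_lit 94) (nat_lit 0) (nat_lit 0) (XT.lf (nat_lit 0) (nat_lit 24433696801) (nat_lit 0) (nat_lit 0) (nat_lit 0) (nat_lit 0) (nat_lit 0) (nat_lit 0) (nat_lit 1) (nat_lit 0) (nat_lit 1) (nat_lit 0) (nat_lit 237) (nat_lit 304) (nat_lit 179)) (XT.nd (nat_lit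 94) (nat_lit 0) (nat_lit 0) (XT.lf (nat_lit 0) (nat_lit 24431089847) (nat_lit 0) (nat_lit 0) (nat_lit 0) (nat_lit 0) (nat_lit 0) (nat_lit 0) (nat_lit 1) (nat_lit 0) (nat_lit 1) (nat_lit 0) (nat_lit 238) (nat_lit 304) (nat_lit 178)) (XT.lf (nat_lit 0) (nat_lit 24428607034) (nat_lit 0) (nat_lit 0) (nat_lit 0) (nat_lit 0) (nat_lit 0) (nat_lit 0) (nat_lit 1) (nat_lit 0) (nat_lit 1) (nat_lit 0) (nat_lit 239) (nat_lit 304) (nat_lit 177)))) (XT.nd (nat_lit 188) (nat_lit 0) (nat_lit 0) (XT.nd (nat_lit 94) (nat_lit 0) (nat_lit 0) (XT.lf (nat_lit 0) (nat_lit 24426242450) (nat_lit 0) (nat_lit 0) (nat_lit 0) (nat_lit 0) (nat_lit 0) (nat_lit 0) (nat_lit 1) (nat_lit 0) (nat_lit 1) (nat_lit 0) (nat_lit 240) (nat_lit 304) (nat_lit 176)) (XT.lf (nat_lit 0) (nat_lit 24423990465) (nat_lit 0) (nat_lit 0) (nat_lit 0) (nat_lit 0) (nat_lit 0) (nat_lit 0) (nat_lit 1) (nat_lit 0) (nat_lit 1) (nat_lit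 0) (nat_lit 241) (nat_lit 304) (nat_lit 175))) (XT.nd (nat_lit 94) (nat_lit 0) (nat_lit 0) (XT.lf (nat_lit 0) (nat_lit 24421845718) (nat_lit 0) (nat_lit 0) (nat_lit 0) (nat_lit 0) (nat_lit 0) (nat_lit 0) (nat_lit 1) (nat_lit 0) (nat_lit 1) (nat_lit 0) (nat_lit 242) (nat_lit 304) (nat_lit 174)) (XT.lf (nat_lit 0) (nat_lit 24419803101) (nat_lit 0) (nat_lit 0) (nat_lit 0) (nat_lit 0) (nat_lit 0) (nat_lit 0) (nat_lit 1) (nat_lit 0) (nat_lit 1) (nat_lit 0) (nat_lit 243) (nat_lit 304) (nat_lit 173)))))) (XT.nd (nat_lit 658) (nat_lit 0) (nat_lit 0) (XT.nd (nat_lit 282) (nat_lit 0) (nat_lit 0) (XT.nd (nat_lit 94) (nat_lit 0) (nat_lit 0) (XT.lf (nat_lit 0) (nat_lit 24417857752) (nat_lit 0) (nat_lit 0) (nat_lit 0) (nat_lit 0) (nat_lit 0) (nat_lit 0) (nat_lit 1) (nat_lit 0) (nat_lit 1) (nat_lit 0) (nat_lit 244) (nat_lit 304) (nat_lit 172)) (XT.nd (nat_lit 94) (nat_lit 0) (nat_lit 0)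 (XT.lf (nat_lit 0) (nat_lit 24416005039) (nat_lit 0) (nat_lit 0) (nat_lit 0) (nat_lit 0) (nat_lit 0) (nat_lit 0) (nat_lit 1) (nat_lit 0) (nat_lit 1) (nat_lit 0) (nat_lit 245) (nat_lit 304) (nat_lit 171)) (XT.lf (nat_lit 0) (nat_lit 24414240550) (nat_lit 0) (nat_lit 0) (nat_lit 0) (nat_lit 0) (nat_lit 0) (nat_lit 0) (nat_lit 1) (nat_lit 0) (nat_lit 1) (nat_lit 0) (nat_lit 246) (nat_lit 304) (nat_lit 170)))) (XT.nd (nat_lit 188) (nat_lit 0) (nat_lit 0) (XT.nd (nat_lit 94) (nat_lit 0) (nat_lit 0) (XT.lf (nat_lit 0) (nat_lit 24412560084) (nat_lit 0) (nat_lit 0) (nat_lit 0) (nat_lit 0) (nat_lit 0) (nat_lit 0) (nat_lit 1) (nat_lit 0) (nat_lit 1) (nat_lit 0) (nat_lit 247) (nat_lit 304) (nat_lit 169)) (XT.lf (nat_lit 0) (nat_lit 24410959641) (nat_lit 0) (nat_lit 0) (nat_lit 0) (nat_lit 0) (nat_lit 0) (nat_lit 0) (nat_lit 1) (nat_lit 0) (nat_lit 1) (nat_lit 0) (nat_lit 248) (nat_lit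 304) (nat_lit 168))) (XT.nd (nat_lit 94) (nat_lit 0) (nat_lit 0) (XT.lf (nat_lit 0) (nat_lit 24409435409) (nat_lit 0) (nat_lit 0) (nat_lit 0) (nat_lit 0) (nat_lit 0) (nat_lit 0) (nat_lit 1) (nat_lit 0) (nat_lit 1) (nat_lit 0) (nat_lit 249) (nat_lit 304) (nat_lit 167)) (XT.lf (nat_lit 0) (nat_lit 24407983759) (nat_lit 0) (nat_lit 0) (nat_lit 0) (nat_lit 0) (nat_lit 0) (nat_lit 0) (nat_lit 1) (nat_lit 0) (nat_lit 1) (nat_lit 0) (nat_lit 250) (nat_lit 304) (nat_lit 166))))) (XT.nd (nat_lit 282) (nat_lit 0) (nat_lit 0) (XT.nd (nat_lit 94) (nat_lit 0) (nat_lit 0) (XT.lf (nat_lit 0) (nat_lit 24406601236) (nat_lit 0) (nat_lit 0) (nat_lit 0) (nat_lit 0) (nat_lit 0) (nat_lit 0) (nat_lit 1) (nat_lit 0) (nat_lit 1) (nat_lit 0) (nat_lit 251) (nat_lit 304) (nat_lit 165)) (XT.nd (nat_lit 94) (nat_lit 0) (nat_lit 0) (XT.lf (nat_lit 0) (nat_lit 24405284547) (nat_lit 0) (nat_lit 0) (nat_lit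 0) (nat_lit 0) (nat_lit 0) (nat_lit 0) (nat_lit 1) (nat_lit 0) (nat_lit 1) (nat_lit 0) (nat_lit 252) (nat_lit 304) (nat_lit 164)) (XT.lf (nat_lit 0) (nat_lit 24404030558) (nat_lit 0) (nat_lit 0) (nat_lit 0) (nat_lit 0) (nat_lit 0) (nat_lit 0) (nat_lit 1) (nat_lit 0) (nat_lit 1) (nat_lit 0) (nat_lit 253) (nat_lit 304) (nat_lit 163)))) (XT.nd (nat_lit 188) (nat_lit 0) (nat_lit 0) (XT.nd (nat_lit 94) (nat_lit 0) (nat_lit 0) (XT.lf (nat_lit 0) (nat_lit 24402836282) (nat_lit 0) (nat_lit 0) (nat_lit 0) (nat_lit 0) (nat_lit 0) (nat_lit 0) (nat_lit 1) (nat_lit 0) (nat_lit 1) (nat_lit 0) (nat_lit 254) (nat_lit 304) (nat_lit 162)) (XT.lf (nat_lit 0) (nat_lit 24401698877) (nat_lit 0) (nat_lit 0) (nat_lit 0) (nat_lit 0) (nat_lit 0) (nat_lit 0) (nat_lit 1) (nat_lit 0) (nat_lit 1) (nat_lit 0) (nat_lit 255) (nat_lit 304) (nat_lit 161))) (XT.nd (nat_lit 94) (nat_lit 0) (nat_lit 0) (XT.lf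 (nat_lit 0) (nat_lit 24400615634) (nat_lit 0) (nat_lit 0) (nat_lit 0) (nat_lit 0) (nat_lit 0) (nat_lit 0) (nat_lit 1) (nat_lit 0) (nat_lit 1) (nat_lit 0) (nat_lit 256) (nat_lit 304) (nat_lit 160)) (XT.lf (nat_lit 0) (nat_lit 24399583974) (nat_lit 0) (nat_lit 0) (nat_lit 0) (nat_lit 0) (nat_lit 0) (nat_lit 0) (nat_lit 1) (nat_lit 0) (nat_lit 1) (nat_lit 0) (nat_lit 257) (nat_lit 304) (nat_lit 159))))))))
noncomputable def ec196 : XT := (XT.nd (nat_lit 2538) (nat_lit 0) (nat_lit 0) (XT.nd (nat_lit 1222) (nat_lit 0) (nat_lit 0) (XT.nd (nat_lit 564) (nat_lit 0) (nat_lit 0) (XT.nd (nat_lit 282) (nat_lit 0) (nat_lit 0) (XT.nd (nat_lit 94) (nat_lit 0) (nat_lit 0) (XT.lf (nat_lit 0) (nat_lit 24398601440) (nat_lit 0) (nat_lit 0) (nat_lit 0) (nat_lit 0) (nat_lit 0) (nat_lit 0) (nat_lit 1) (nat_lit 0) (nat_lit 1) (nat_lit 0) (nat_lit 258) (nat_lit 304) (nat_lit 158)) (XT.nd (nat_lit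 94) (nat_lit 0) (nat_lit 0) (XT.lf (nat_lit 0) (nat_lit 24397665694) (nat_lit 0) (nat_lit 0) (nat_lit 0) (nat_lit 0) (nat_lit 0) (nat_lit 0) (nat_lit 1) (nat_lit 0) (nat_lit 1) (nat_lit 0) (nat_lit 259) (nat_lit 304) (nat_lit 157)) (XT.lf (nat_lit 0) (nat_lit 24396774507) (nat_lit 0) (nat_lit 0) (nat_lit 0) (nat_lit 0) (nat_lit 0) (nat_lit 0) (nat_lit 1) (nat_lit 0) (nat_lit 1) (nat_lit 0) (nat_lit 260) (nat_lit 304) (nat_lit 156)))) (XT.nd (nat_lit 94) (nat_lit 0) (nat_lit 0) (XT.lf (nat_lit 0) (nat_lit 24395925758) (nat_lit 0) (nat_lit 0) (nat_lit 0) (nat_lit 0) (nat_lit 0) (nat_lit 0) (nat_lit 1) (nat_lit 0) (nat_lit 1) (nat_lit 0) (nat_lit 261) (nat_lit 304) (nat_lit 155)) (XT.nd (nat_lit 94) (nat_lit 0) (nat_lit 0) (XT.lf (nat_lit 0) (nat_lit 24395117425) (nat_lit 0) (nat_lit 0) (nat_lit 0) (nat_lit 0) (nat_lit 0) (nat_lit 0) (nat_lit 1) (nat_lit 0) (nat_lit 1) (nat_lit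 0) (nat_lit 262) (nat_lit 304) (nat_lit 154)) (XT.lf (nat_lit 0) (nat_lit 24394347585) (nat_lit 0) (nat_lit 0) (nat_lit 0) (nat_lit 0) (nat_lit 0) (nat_lit 0) (nat_lit 1) (nat_lit 0) (nat_lit 1) (nat_lit 0) (nat_lit 263) (nat_lit 304) (nat_lit 153))))) (XT.nd (nat_lit 282) (nat_lit 0) (nat_lit 0) (XT.nd (nat_lit 94) (nat_lit 0) (nat_lit 0) (XT.lf (nat_lit 0) (nat_lit 24393614403) (nat_lit 0) (nat_lit 0) (nat_lit 0) (nat_lit 0) (nat_lit 0) (nat_lit 0) (nat_lit 1) (nat_lit 0) (nat_lit 1) (nat_lit 0) (nat_lit 264) (nat_lit 304) (nat_lit 152)) (XT.nd (nat_lit 94) (nat_lit 0) (nat_lit 0) (XT.lf (nat_lit 0) (nat_lit 24392916135) (nat_lit 0) (nat_lit 0) (nat_lit 0) (nat_lit 0) (nat_lit 0) (nat_lit 0) (nat_lit 1) (nat_lit 0) (nat_lit 1) (nat_lit 0) (nat_lit 265) (nat_lit 304) (nat_lit 151)) (XT.lf (nat_lit 0) (nat_lit 24392251118) (nat_lit 0) (nat_lit 0) (nat_lit 0) (nat_lit 0)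 (nat_lit 0) (nat_lit 0) (nat_lit 1) (nat_lit 0) (nat_lit 1) (nat_lit 0) (nat_lit 266) (nat_lit 304) (nat_lit 150)))) (XT.nd (nat_lit 188) (nat_lit 0) (nat_lit 0) (XT.nd (nat_lit 94) (nat_lit 0) (nat_lit 0) (XT.lf (nat_lit 0) (nat_lit 24391617768) (nat_lit 0) (nat_lit 0) (nat_lit 0) (nat_lit 0) (nat_lit 0) (nat_lit 0) (nat_lit 1) (nat_lit 0) (nat_lit 1) (nat_lit 0) (nat_lit 267) (nat_lit 304) (nat_lit 149)) (XT.lf (nat_lit 0) (nat_lit 24391014577) (nat_lit 0) (nat_lit 0) (nat_lit 0) (nat_lit 0) (nat_lit 0) (nat_lit 0) (nat_lit 1) (nat_lit 0) (nat_lit 1) (nat_lit 0) (nat_lit 268) (nat_lit 304) (nat_lit 148))) (XT.nd (nat_lit 94) (nat_lit 0) (nat_lit 0) (XT.lf (nat_lit 0) (nat_lit 24390440110) (nat_lit 0) (nat_lit 0) (nat_lit 0) (nat_lit 0) (nat_lit 0) (nat_lit 0) (nat_lit 1) (nat_lit 0) (nat_lit 1) (nat_lit 0) (nat_lit 269) (nat_lit 304) (nat_lit 147)) (XT.lf (nat_lit 0) (nat_lit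 24389892999) (nat_lit 0) (nat_lit 0) (nat_lit 0) (nat_lit 0) (nat_lit 0) (nat_lit 0) (nat_lit 1) (nat_lit 0) (nat_lit 1) (nat_lit 0) (nat_lit 270) (nat_lit 304) (nat_lit 146)))))) (XT.nd (nat_lit 658) (nat_lit 0) (nat_lit 0) (XT.nd (nat_lit 282) (nat_lit 0) (nat_lit 0) (XT.nd (nat_lit 94) (nat_lit 0) (nat_lit 0) (XT.lf (nat_lit 0) (nat_lit 24389371941) (nat_lit 0) (nat_lit 0) (nat_lit 0) (nat_lit 0) (nat_lit 0) (nat_lit 0) (nat_lit 1) (nat_lit 0) (nat_lit 1) (nat_lit 0) (nat_lit 271) (nat_lit 304) (nat_lit 145)) (XT.nd (nat_lit 94) (nat_lit 0) (nat_lit 0) (XT.lf (nat_lit 0) (nat_lit 24388875694) (nat_lit 0) (nat_lit 0) (nat_lit 0) (nat_lit 0) (nat_lit 0) (nat_lit 0) (nat_lit 1) (nat_lit 0) (nat_lit 1) (nat_lit 0) (nat_lit 272) (nat_lit 304) (nat_lit 144)) (XT.lf (nat_lit 0) (nat_lit 24388403079) (nat_lit 0) (nat_lit 0) (nat_lit 0) (nat_lit 0) (nat_lit 0) (nat_lit 0) (nat_lit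 1) (nat_lit 0) (nat_lit 1) (nat_lit 0) (nat_lit 273) (nat_lit 304) (nat_lit 143)))) (XT.nd (nat_lit 188) (nat_lit 0) (nat_lit 0) (XT.nd (nat_lit 94) (nat_lit 0) (nat_lit 0) (XT.lf (nat_lit 0) (nat_lit 24387952969) (nat_lit 0) (nat_lit 0) (nat_lit 0) (nat_lit 0) (nat_lit 0) (nat_lit 0) (nat_lit 1) (nat_lit 0) (nat_lit 1) (nat_lit 0) (nat_lit 274) (nat_lit 304) (nat_lit 142)) (XT.lf (nat_lit 0) (nat_lit 24387524293) (nat_lit 0) (nat_lit 0) (nat_lit 0) (nat_lit 0) (nat_lit 0) (nat_lit 0) (nat_lit 1) (nat_lit 0) (nat_lit 1) (nat_lit 0) (nat_lit 275) (nat_lit 304) (nat_lit 141))) (XT.nd (nat_lit 94) (nat_lit 0) (nat_lit 0) (XT.lf (nat_lit 0) (nat_lit 24387116030) (nat_lit 0) (nat_lit 0) (nat_lit 0) (nat_lit 0) (nat_lit 0) (nat_lit 0) (nat_lit 1) (nat_lit 0) (nat_lit 1) (nat_lit 0) (nat_lit 276) (nat_lit 304) (nat_lit 140)) (XT.lf (nat_lit 0) (nat_lit 24386727208) (nat_lit 0)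 (nat_lit 0) (nat_lit 0) (nat_lit 0) (nat_lit 0) (nat_lit 0) (nat_lit 1) (nat_lit 0) (nat_lit 1) (nat_lit 0) (nat_lit 277) (nat_lit 304) (nat_lit 139))))) (XT.nd (nat_lit 282) (nat_lit 0) (nat_lit 0) (XT.nd (nat_lit 94) (nat_lit 0) (nat_lit 0) (XT.lf (nat_lit 0) (nat_lit 24386356902) (nat_lit 0) (nat_lit 0) (nat_lit 0) (nat_lit 0) (nat_lit 0) (nat_lit 0) (nat_lit 1) (nat_lit 0) (nat_lit 1) (nat_lit 0) (nat_lit 278) (nat_lit 304) (nat_lit 138)) (XT.nd (nat_lit 94) (nat_lit 0) (nat_lit 0) (XT.lf (nat_lit 0) (nat_lit 24386004229) (nat_lit 0) (nat_lit 0) (nat_lit 0) (nat_lit 0) (nat_lit 0) (nat_lit 0) (nat_lit 1) (nat_lit 0) (nat_lit 1) (nat_lit 0) (nat_lit 279) (nat_lit 304) (nat_lit 137)) (XT.lf (nat_lit 0) (nat_lit 24385668350) (nat_lit 0) (nat_lit 0) (nat_lit 0) (nat_lit 0) (nat_lit 0) (nat_lit 0) (nat_lit 1) (nat_lit 0) (nat_lit 1) (nat_lit 0) (nat_lit 280) (nat_lit 304)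 (nat_lit 136)))) (XT.nd (nat_lit 188) (nat_lit 0) (nat_lit 0) (XT.nd (nat_lit 94) (nat_lit 0) (nat_lit 0) (XT.lf (nat_lit 0) (nat_lit 24385348465) (nat_lit 0) (nat_lit 0) (nat_lit 0) (nat_lit 0) (nat_lit 0) (nat_lit 0) (nat_lit 1) (nat_lit 0) (nat_lit 1) (nat_lit 0) (nat_lit 281) (nat_lit 304) (nat_lit 135)) (XT.lf (nat_lit 0) (nat_lit 24385043813) (nat_lit 0) (nat_lit 0) (nat_lit 0) (nat_lit 0) (nat_lit 0) (nat_lit 0) (nat_lit 1) (nat_lit 0) (nat_lit 1) (nat_lit 0) (nat_lit 282) (nat_lit 304) (nat_lit 134))) (XT.nd (nat_lit 94) (nat_lit 0) (nat_lit 0) (XT.lf (nat_lit 0) (nat_lit 24384753668) (nat_lit 0) (nat_lit 0) (nat_lit 0) (nat_lit 0) (nat_lit 0) (nat_lit 0) (nat_lit 1) (nat_lit 0) (nat_lit 1) (nat_lit 0) (nat_lit 283) (nat_lit 304) (nat_lit 133)) (XT.lf (nat_lit 0) (nat_lit 24384477340) (nat_lit 0) (nat_lit 0) (nat_lit 0) (nat_lit 0) (nat_lit 0) (nat_lit 0) (nat_lit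 1) (nat_lit 0) (nat_lit 1) (nat_lit 0) (nat_lit 284) (nat_lit 304) (nat_lit 132))))))) (XT.nd (nat_lit 1222) (nat_lit 0) (nat_lit 0) (XT.nd (nat_lit 564) (nat_lit 0) (nat_lit 0) (XT.nd (nat_lit 282) (nat_lit 0) (nat_lit 0) (XT.nd (nat_lit 94) (nat_lit 0) (nat_lit 0) (XT.lf (nat_lit 0) (nat_lit 24384214170) (nat_lit 0) (nat_lit 0) (nat_lit 0) (nat_lit 0) (nat_lit 0) (nat_lit 0) (nat_lit 1) (nat_lit 0) (nat_lit 1) (nat_lit 0) (nat_lit 285) (nat_lit 304) (nat_lit 131)) (XT.nd (nat_lit 94) (nat_lit 0) (nat_lit 0) (XT.lf (nat_lit 0) (nat_lit 24383963532) (nat_lit 0) (nat_lit 0) (nat_lit 0) (nat_lit 0) (nat_lit 0) (nat_lit 0) (nat_lit 1) (nat_lit 0) (nat_lit 1) (nat_lit 0) (nat_lit 286) (nat_lit 304) (nat_lit 130)) (XT.lf (nat_lit 0) (nat_lit 24383724829) (nat_lit 0) (nat_lit 0) (nat_lit 0) (nat_lit 0) (nat_lit 0) (nat_lit 0) (nat_lit 1) (nat_lit 0) (nat_lit 1) (nat_lit 0) (nat_lit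 287) (nat_lit 304) (nat_lit 129)))) (XT.nd (nat_lit 94) (nat_lit 0) (nat_lit 0) (XT.lf (nat_lit 0) (nat_lit 24383497493) (nat_lit 0) (nat_lit 0) (nat_lit 0) (nat_lit 0) (nat_lit 0) (nat_lit 0) (nat_lit 1) (nat_lit 0) (nat_lit 1) (nat_lit 0) (nat_lit 288) (nat_lit 304) (nat_lit 128)) (XT.nd (nat_lit 94) (nat_lit 0) (nat_lit 0) (XT.lf (nat_lit 0) (nat_lit 24383280982) (nat_lit 0) (nat_lit 0) (nat_lit 0) (nat_lit 0) (nat_lit 0) (nat_lit 0) (nat_lit 1) (nat_lit 0) (nat_lit 1) (nat_lit 0) (nat_lit 289) (nat_lit 304) (nat_lit 127)) (XT.lf (nat_lit 0) (nat_lit 24383074782) (nat_lit 0) (nat_lit 0) (nat_lit 0) (nat_lit 0) (nat_lit 0) (nat_lit 0) (nat_lit 1) (nat_lit 0) (nat_lit 1) (nat_lit 0) (nat_lit 290) (nat_lit 304) (nat_lit 126))))) (XT.nd (nat_lit 282) (nat_lit 0) (nat_lit 0) (XT.nd (nat_lit 94) (nat_lit 0) (nat_lit 0) (XT.lf (nat_lit 0) (nat_lit 24382878400) (nat_lit 0) (nat_lit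 0) (nat_lit 0) (nat_lit 0) (nat_lit 0) (nat_lit 0) (nat_lit 1) (nat_lit 0) (nat_lit 1) (nat_lit 0) (nat_lit 291) (nat_lit 304) (nat_lit 125)) (XT.nd (nat_lit 94) (nat_lit 0) (nat_lit 0) (XT.lf (nat_lit 0) (nat_lit 24382691370) (nat_lit 0) (nat_lit 0) (nat_lit 0) (nat_lit 0) (nat_lit 0) (nat_lit 0) (nat_lit 1) (nat_lit 0) (nat_lit 1) (nat_lit 0) (nat_lit 292) (nat_lit 304) (nat_lit 124)) (XT.lf (nat_lit 0) (nat_lit 24382513246) (nat_lit 0) (nat_lit 0) (nat_lit 0) (nat_lit 0) (nat_lit 0) (nat_lit 0) (nat_lit 1) (nat_lit 0) (nat_lit 1) (nat_lit 0) (nat_lit 293) (nat_lit 304) (nat_lit 123)))) (XT.nd (nat_lit 188) (nat_lit 0) (nat_lit 0) (XT.nd (nat_lit 94) (nat_lit 0) (nat_lit 0) (XT.lf (nat_lit 0) (nat_lit 24382343605) (nat_lit 0) (nat_lit 0) (nat_lit 0) (nat_lit 0) (nat_lit 0) (nat_lit 0) (nat_lit 1) (nat_lit 0) (nat_lit 1) (nat_lit 0) (nat_lit 294) (nat_lit 304) (nat_lit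 122)) (XT.lf (nat_lit 0) (nat_lit 24382182041) (nat_lit 0) (nat_lit 0) (nat_lit 0) (nat_lit 0) (nat_lit 0) (nat_lit 0) (nat_lit 1) (nat_lit 0) (nat_lit 1) (nat_lit 0) (nat_lit 295) (nat_lit 304) (nat_lit 121))) (XT.nd (nat_lit 94) (nat_lit 0) (nat_lit 0) (XT.lf (nat_lit 0) (nat_lit 24382028171) (nat_lit 0) (nat_lit 0) (nat_lit 0) (nat_lit 0) (nat_lit 0) (nat_lit 0) (nat_lit 1) (nat_lit 0) (nat_lit 1) (nat_lit 0) (nat_lit 296) (nat_lit 304) (nat_lit 120)) (XT.lf (nat_lit 0) (nat_lit 24381881628) (nat_lit 0) (nat_lit 0) (nat_lit 0) (nat_lit 0) (nat_lit 0) (nat_lit 0) (nat_lit 1) (nat_lit 0) (nat_lit 1) (nat_lit 0) (nat_lit 297) (nat_lit 304) (nat_lit 119)))))) (XT.nd (nat_lit 658) (nat_lit 0) (nat_lit 0) (XT.nd (nat_lit 282) (nat_lit 0) (nat_lit 0) (XT.nd (nat_lit 94) (nat_lit 0) (nat_lit 0) (XT.lf (nat_lit 0) (nat_lit 24381742064) (nat_lit 0) (nat_lit 0) (nat_lit 0) (nat_lit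 0) (nat_lit 0) (nat_lit 0) (nat_lit 1) (nat_lit 0) (nat_lit 1) (nat_lit 0) (nat_lit 298) (nat_lit 304) (nat_lit 118)) (XT.nd (nat_lit 94) (nat_lit 0) (nat_lit 0) (XT.lf (nat_lit 0) (nat_lit 24381609145) (nat_lit 0) (nat_lit 0) (nat_lit 0) (nat_lit 0) (nat_lit 0) (nat_lit 0) (nat_lit 1) (nat_lit 0) (nat_lit 1) (nat_lit 0) (nat_lit 299) (nat_lit 304) (nat_lit 117)) (XT.lf (nat_lit 0) (nat_lit 24381482556) (nat_lit 0) (nat_lit 0) (nat_lit 0) (nat_lit 0) (nat_lit 0) (nat_lit 0) (nat_lit 1) (nat_lit 0) (nat_lit 1) (nat_lit 0) (nat_lit 300) (nat_lit 304) (nat_lit 116)))) (XT.nd (nat_lit 188) (nat_lit 0) (nat_lit 0) (XT.nd (nat_lit 94) (nat_lit 0) (nat_lit 0) (XT.lf (nat_lit 0) (nat_lit 24381361995) (nat_lit 0) (nat_lit 0) (nat_lit 0) (nat_lit 0) (nat_lit 0) (nat_lit 0) (nat_lit 1) (nat_lit 0) (nat_lit 1) (nat_lit 0) (nat_lit 301) (nat_lit 304) (nat_lit 115)) (XT.lf (nat_lit 0)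 (nat_lit 24381247174) (nat_lit 0) (nat_lit 0) (nat_lit 0) (nat_lit 0) (nat_lit 0) (nat_lit 0) (nat_lit 1) (nat_lit 0) (nat_lit 1) (nat_lit 0) (nat_lit 302) (nat_lit 304) (nat_lit 114))) (XT.nd (nat_lit 94) (nat_lit 0) (nat_lit 0) (XT.lf (nat_lit 0) (nat_lit 24381137822) (nat_lit 0) (nat_lit 0) (nat_lit 0) (nat_lit 0) (nat_lit 0) (nat_lit 0) (nat_lit 1) (nat_lit 0) (nat_lit 1) (nat_lit 0) (nat_lit 303) (nat_lit 304) (nat_lit 113)) (XT.lf (nat_lit 0) (nat_lit 24381033677) (nat_lit 0) (nat_lit 0) (nat_lit 0) (nat_lit 0) (nat_lit 0) (nat_lit 0) (nat_lit 1) (nat_lit 0) (nat_lit 1) (nat_lit 0) (nat_lit 304) (nat_lit 304) (nat_lit 112))))) (XT.nd (nat_lit 282) (nat_lit 0) (nat_lit 0) (XT.nd (nat_lit 94) (nat_lit 0) (nat_lit 0) (XT.lf (nat_lit 0) (nat_lit 24380934491) (nat_lit 0) (nat_lit 0) (nat_lit 0) (nat_lit 0) (nat_lit 0) (nat_lit 0) (nat_lit 1) (nat_lit 0) (nat_lit 1) (nat_lit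 0) (nat_lit 305) (nat_lit 304) (nat_lit 111)) (XT.nd (nat_lit 94) (nat_lit 0) (nat_lit 0) (XT.lf (nat_lit 0) (nat_lit 24380840028) (nat_lit 0) (nat_lit 0) (nat_lit 0) (nat_lit 0) (nat_lit 0) (nat_lit 0) (nat_lit 1) (nat_lit 0) (nat_lit 1) (nat_lit 0) (nat_lit 306) (nat_lit 304) (nat_lit 110)) (XT.lf (nat_lit 0) (nat_lit 24380750063) (nat_lit 0) (nat_lit 0) (nat_lit 0) (nat_lit 0) (nat_lit 0) (nat_lit 0) (nat_lit 1) (nat_lit 0) (nat_lit 1) (nat_lit 0) (nat_lit 307) (nat_lit 304) (nat_lit 109)))) (XT.nd (nat_lit 188) (nat_lit 0) (nat_lit 0) (XT.nd (nat_lit 94) (nat_lit 0) (nat_lit 0) (XT.lf (nat_lit 0) (nat_lit 24380664383) (nat_lit 0) (nat_lit 0) (nat_lit 0) (nat_lit 0) (nat_lit 0) (nat_lit 0) (nat_lit 1) (nat_lit 0) (nat_lit 1) (nat_lit 0) (nat_lit 308) (nat_lit 304) (nat_lit 108)) (XT.lf (nat_lit 0) (nat_lit 24380582782) (nat_lit 0) (nat_lit 0) (nat_lit 0) (nat_lit 0) (nat_lit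 0) (nat_lit 0) (nat_lit 1) (nat_lit 0) (nat_lit 1) (nat_lit 0) (nat_lit 309) (nat_lit 304) (nat_lit 107))) (XT.nd (nat_lit 94) (nat_lit 0) (nat_lit 0) (XT.lf (nat_lit 0) (nat_lit 24380505067) (nat_lit 0) (nat_lit 0) (nat_lit 0) (nat_lit 0) (nat_lit 0) (nat_lit 0) (nat_lit 1) (nat_lit 0) (nat_lit 1) (nat_lit 0) (nat_lit 310) (nat_lit 304) (nat_lit 106)) (XT.lf (nat_lit 0) (nat_lit 24380431053) (nat_lit 0) (nat_lit 0) (nat_lit 0) (nat_lit 0) (nat_lit 0) (nat_lit 0) (nat_lit 1) (nat_lit 0) (nat_lit 1) (nat_lit 0) (nat_lit 311) (nat_lit 304) (nat_lit 105))))))))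
noncomputable def ec197 : XT := (XT.nd (nat_lit 28576) (nat_lit 0) (nat_lit 3360) (XT.nd (nat_lit 27260) (nat_lit 0) (nat_lit 7476) (XT.nd (nat_lit 26602) (nat_lit 0) (nat_lit 10920) (XT.nd (nat_lit 26320) (nat_lit 0) (nat_lit 10752) (XT.nd (nat_lit 94) (nat_lit 0) (nat_lit 0) (XT.lf (nat_lit 0) (nat_lit 24380360564) (nat_lit 0) (nat_lit 0) (nat_lit 0) (nat_lit 0) (nat_lit 0) (nat_lit 0) (nat_lit 1) (nat_lit 0) (nat_lit 1) (nat_lit 0) (nat_lit 312) (nat_lit 304) (nat_lit 104)) (XT.nd (nat_lit 26132) (nat_lit 0) (nat_lit 10752) (XT.lf (nat_lit 0) (nat_lit 24380293431) (nat_lit 0) (nat_lit 0) (nat_lit 0) (nat_lit 0) (nat_lit 0) (nat_lit 0) (nat_lit 1) (nat_lit 0) (nat_lit 1) (nat_lit 0) (nat_lit 313) (nat_lit 304) (nat_lit 103)) (XT.lf (nat_lit 924) (nat_lit 12810147150) (nat_lit 0) (nat_lit 22744386819) (nat_lit 924) (nat_lit 12810147150) (nat_lit 139) (nat_lit 1) (nat_lit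 128) (nat_lit 0) (nat_lit 139) (nat_lit 0) (nat_lit 110) (nat_lit 305) (nat_lit 305)))) (XT.nd (nat_lit 94) (nat_lit 0) (nat_lit 84) (XT.lf (nat_lit 924) (nat_lit 49653729637) (nat_lit 84) (nat_lit 22377541871) (nat_lit 0) (nat_lit 22377541871) (nat_lit 139) (nat_lit 1) (nat_lit 129) (nat_lit 1) (nat_lit 128) (nat_lit 0) (nat_lit 111) (nat_lit 305) (nat_lit 304)) (XT.nd (nat_lit 94) (nat_lit 0) (nat_lit 0) (XT.lf (nat_lit 924) (nat_lit 23664219909) (nat_lit 0) (nat_lit 44831565333) (nat_lit 840) (nat_lit 23664219909) (nat_lit 140) (nat_lit 1) (nat_lit 129) (nat_lit 1) (nat_lit 139) (nat_lit 1) (nat_lit 112) (nat_lit 305) (nat_lit 303)) (XT.lf (nat_lit 924) (nat_lit 44390788324) (nat_lit 84) (nat_lit 22796530930) (nat_lit 0) (nat_lit 22796530930) (nat_lit 140) (nat_lit 1) (nat_lit 130) (nat_lit 1) (nat_lit 129) (nat_lit 1) (nat_lit 113) (nat_lit 305) (nat_lit 302))))) (XT.nd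 (nat_lit 282) (nat_lit 0) (nat_lit 84) (XT.nd (nat_lit 94) (nat_lit 0) (nat_lit 0) (XT.lf (nat_lit 924) (nat_lit 20432653577) (nat_lit 0) (nat_lit 47011361260) (nat_lit 840) (nat_lit 20432653577) (nat_lit 141) (nat_lit 1) (nat_lit 130) (nat_lit 1) (nat_lit 140) (nat_lit 1) (nat_lit 114) (nat_lit 305) (nat_lit 301)) (XT.nd (nat_lit 94) (nat_lit 0) (nat_lit 84) (XT.lf (nat_lit 924) (nat_lit 36749458277) (nat_lit 84) (nat_lit 24542131659) (nat_lit 0) (nat_lit 24542131659) (nat_lit 141) (nat_lit 1) (nat_lit 131) (nat_lit 1) (nat_lit 130) (nat_lit 1) (nat_lit 115) (nat_lit 305) (nat_lit 300)) (XT.lf (nat_lit 924) (nat_lit 16113576034) (nat_lit 0) (nat_lit 51632217790) (nat_lit 840) (nat_lit 16113576034) (nat_lit 142) (nat_lit 1) (nat_lit 131) (nat_lit 1) (nat_lit 141) (nat_lit 1) (nat_lit 116) (nat_lit 305) (nat_lit 299)))) (XT.nd (nat_lit 188) (nat_lit 0) (nat_lit 84) (XT.nd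 (nat_lit 94) (nat_lit 0) (nat_lit 84) (XT.lf (nat_lit 924) (nat_lit 27087416068) (nat_lit 84) (nat_lit 27425981360) (nat_lit 0) (nat_lit 27425981360) (nat_lit 142) (nat_lit 1) (nat_lit 132) (nat_lit 1) (nat_lit 131) (nat_lit 1) (nat_lit 117) (nat_lit 305) (nat_lit 298)) (XT.lf (nat_lit 924) (nat_lit 10874186700) (nat_lit 0) (nat_lit 58341296941) (nat_lit 840) (nat_lit 10874186700) (nat_lit 143) (nat_lit 1) (nat_lit 132) (nat_lit 1) (nat_lit 142) (nat_lit 1) (nat_lit 118) (nat_lit 305) (nat_lit 297))) (XT.nd (nat_lit 94) (nat_lit 0) (nat_lit 84) (XT.lf (nat_lit 924) (nat_lit 15722582199) (nat_lit 84) (nat_lit 31280326033) (nat_lit 0) (nat_lit 31280326033) (nat_lit 143) (nat_lit 1) (nat_lit 133) (nat_lit 1) (nat_lit 132) (nat_lit 1) (nat_lit 119) (nat_lit 305) (nat_lit 296)) (XT.lf (nat_lit 84) (nat_lit 4862993093) (nat_lit 0) (nat_lit 66824559089) (nat_lit 840) (nat_lit 4862993093)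 (nat_lit 134) (nat_lit 1) (nat_lit 133) (nat_lit 1) (nat_lit 143) (nat_lit 1) (nat_lit 120) (nat_lit 305) (nat_lit 295)))))) (XT.nd (nat_lit 658) (nat_lit 1428) (nat_lit 0) (XT.nd (nat_lit 282) (nat_lit 840) (nat_lit 0) (XT.nd (nat_lit 94) (nat_lit 588) (nat_lit 0) (XT.lf (nat_lit 924) (nat_lit 2937126896) (nat_lit 0) (nat_lit 35955956921) (nat_lit 840) (nat_lit 35955956921) (nat_lit 134) (nat_lit 1) (nat_lit 123) (nat_lit 1) (nat_lit 133) (nat_lit 1) (nat_lit 121) (nat_lit 305) (nat_lit 294)) (XT.nd (nat_lit 94) (nat_lit 0) (nat_lit 0) (XT.lf (nat_lit 588) (nat_lit 69701720169) (nat_lit 0) (nat_lit 1759457928) (nat_lit 504) (nat_lit 1759457928) (nat_lit 123) (nat_lit 1) (nat_lit 116) (nat_lit 1) (nat_lit 122) (nat_lit 1) (nat_lit 122) (nat_lit 305) (nat_lit 293)) (XT.lf (nat_lit 84) (nat_lit 30473470746) (nat_lit 0) (nat_lit 10666237284) (nat_lit 588) (nat_lit 30473470746)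 (nat_lit 117) (nat_lit 1) (nat_lit 116) (nat_lit 1) (nat_lit 123) (nat_lit 1) (nat_lit 123) (nat_lit 305) (nat_lit 292)))) (XT.nd (nat_lit 188) (nat_lit 420) (nat_lit 0) (XT.nd (nat_lit 94) (nat_lit 0) (nat_lit 0) (XT.lf (nat_lit 504) (nat_lit 52437020953) (nat_lit 0) (nat_lit 8818526982) (nat_lit 420) (nat_lit 8818526982) (nat_lit 117) (nat_lit 1) (nat_lit 111) (nat_lit 1) (nat_lit 116) (nat_lit 1) (nat_lit 124) (nat_lit 305) (nat_lit 291)) (XT.lf (nat_lit 84) (nat_lit 21736355715) (nat_lit 0) (nat_lit 25094615844) (nat_lit 504) (nat_lit 21736355715) (nat_lit 112) (nat_lit 1) (nat_lit 111) (nat_lit 1) (nat_lit 117) (nat_lit 1) (nat_lit 125) (nat_lit 305) (nat_lit 290))) (XT.nd (nat_lit 94) (nat_lit 0) (nat_lit 0) (XT.lf (nat_lit 504) (nat_lit 34530521923) (nat_lit 0) (nat_lit 16291266849) (nat_lit 420) (nat_lit 16291266849) (nat_lit 112) (nat_lit 1) (nat_lit 106) (nat_lit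 1) (nat_lit 111) (nat_lit 1) (nat_lit 126) (nat_lit 305) (nat_lit 289)) (XT.lf (nat_lit 84) (nat_lit 12724038416) (nat_lit 0) (nat_lit 40253002257) (nat_lit 504) (nat_lit 12724038416) (nat_lit 107) (nat_lit 1) (nat_lit 106) (nat_lit 1) (nat_lit 112) (nat_lit 1) (nat_lit 127) (nat_lit 305) (nat_lit 288))))) (XT.nd (nat_lit 282) (nat_lit 672) (nat_lit 0) (XT.nd (nat_lit 94) (nat_lit 420) (nat_lit 0) (XT.lf (nat_lit 420) (nat_lit 16148887156) (nat_lit 0) (nat_lit 24088268047) (nat_lit 336) (nat_lit 24088268047) (nat_lit 107) (nat_lit 1) (nat_lit 102) (nat_lit 1) (nat_lit 106) (nat_lit 1) (nat_lit 128) (nat_lit 305) (nat_lit 287)) (XT.nd (nat_lit 94) (nat_lit 420) (nat_lit 0) (XT.lf (nat_lit 84) (nat_lit 3513890090) (nat_lit 0) (nat_lit 55974888182) (nat_lit 420) (nat_lit 3513890090) (nat_lit 103) (nat_lit 1) (nat_lit 102) (nat_lit 1) (nat_lit 107) (nat_lit 1) (nat_lit 129)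 (nat_lit 305) (nat_lit 286)) (XT.lf (nat_lit 84) (nat_lit 29609047616) (nat_lit 0) (nat_lit 2479815253) (nat_lit 420) (nat_lit 29609047616) (nat_lit 98) (nat_lit 1) (nat_lit 97) (nat_lit 1) (nat_lit 102) (nat_lit 1) (nat_lit 130) (nat_lit 305) (nat_lit 285)))) (XT.nd (nat_lit 188) (nat_lit 336) (nat_lit 0) (XT.nd (nat_lit 94) (nat_lit 0) (nat_lit 0) (XT.lf (nat_lit 420) (nat_lit 48978034153) (nat_lit 0) (nat_lit 5732403417) (nat_lit 336) (nat_lit 5732403417) (nat_lit 98) (nat_lit 1) (nat_lit 93) (nat_lit 1) (nat_lit 97) (nat_lit 1) (nat_lit 131) (nat_lit 305) (nat_lit 284)) (XT.lf (nat_lit 84) (nat_lit 19211338218) (nat_lit 0) (nat_lit 20786626049) (nat_lit 420) (nat_lit 19211338218) (nat_lit 94) (nat_lit 1) (nat_lit 93) (nat_lit 1) (nat_lit 98) (nat_lit 1) (nat_lit 132) (nat_lit 305) (nat_lit 283))) (XT.nd (nat_lit 94) (nat_lit 0) (nat_lit 0) (XT.lf (nat_lit 420) (nat_lit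 28034686640) (nat_lit 0) (nat_lit 14991926061) (nat_lit 336) (nat_lit 14991926061) (nat_lit 94) (nat_lit 1) (nat_lit 89) (nat_lit 1) (nat_lit 93) (nat_lit 1) (nat_lit 133) (nat_lit 305) (nat_lit 282)) (XT.lf (nat_lit 84) (nat_lit 8840888998) (nat_lit 0) (nat_lit 39180815074) (nat_lit 420) (nat_lit 8840888998) (nat_lit 90) (nat_lit 1) (nat_lit 89) (nat_lit 1) (nat_lit 94) (nat_lit 1) (nat_lit 134) (nat_lit 305) (nat_lit 281))))))) (XT.nd (nat_lit 1316) (nat_lit 1680) (nat_lit 0) (XT.nd (nat_lit 658) (nat_lit 924) (nat_lit 0) (XT.nd (nat_lit 282) (nat_lit 840) (nat_lit 0) (XT.nd (nat_lit 94) (nat_lit 420) (nat_lit 0) (XT.lf (nat_lit 336) (nat_lit 7189916374) (nat_lit 0) (nat_lit 24270841623) (nat_lit 252) (nat_lit 24270841623) (nat_lit 90) (nat_lit 1) (nat_lit 86) (nat_lit 1) (nat_lit 89) (nat_lit 1) (nat_lit 135) (nat_lit 305) (nat_lit 280)) (XT.nd (nat_lit 94) (nat_lit 0)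 (nat_lit 0) (XT.lf (nat_lit 420) (nat_lit 51771152140) (nat_lit 0) (nat_lit 1436550133) (nat_lit 336) (nat_lit 1436550133) (nat_lit 86) (nat_lit 1) (nat_lit 81) (nat_lit 1) (nat_lit 85) (nat_lit 1) (nat_lit 136) (nat_lit 305) (nat_lit 279)) (XT.lf (nat_lit 84) (nat_lit 20258434570) (nat_lit 0) (nat_lit 13046054390) (nat_lit 420) (nat_lit 20258434570) (nat_lit 82) (nat_lit 1) (nat_lit 81) (nat_lit 1) (nat_lit 86) (nat_lit 1) (nat_lit 137) (nat_lit 305) (nat_lit 278)))) (XT.nd (nat_lit 188) (nat_lit 588) (nat_lit 0) (XT.nd (nat_lit 94) (nat_lit 0) (nat_lit 0) (XT.lf (nat_lit 336) (nat_lit 29588084146) (nat_lit 0) (nat_lit 11467491173) (nat_lit 252) (nat_lit 11467491173) (nat_lit 82) (nat_lit 1) (nat_lit 78) (nat_lit 1) (nat_lit 81) (nat_lit 1) (nat_lit 138) (nat_lit 305) (nat_lit 277)) (XT.lf (nat_lit 84) (nat_lit 9347333462) (nat_lit 0) (nat_lit 32814961886) (nat_lit 336)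 (nat_lit 9347333462) (nat_lit 79) (nat_lit 1) (nat_lit 78) (nat_lit 1) (nat_lit 82) (nat_lit 1) (nat_lit 139) (nat_lit 305) (nat_lit 276))) (XT.nd (nat_lit 94) (nat_lit 336) (nat_lit 0) (XT.lf (nat_lit 336) (nat_lit 7790710279) (nat_lit 0) (nat_lit 21364268142) (nat_lit 252) (nat_lit 21364268142) (nat_lit 79) (nat_lit 1) (nat_lit 75) (nat_lit 1) (nat_lit 78) (nat_lit 1) (nat_lit 140) (nat_lit 305) (nat_lit 275)) (XT.lf (nat_lit 336) (nat_lit 46887830195) (nat_lit 0) (nat_lit 1338914038) (nat_lit 252) (nat_lit 1338914038) (nat_lit 75) (nat_lit 1) (nat_lit 71) (nat_lit 1) (nat_lit 74) (nat_lit 1) (nat_lit 141) (nat_lit 305) (nat_lit 274))))) (XT.nd (nat_lit 282) (nat_lit 672) (nat_lit 0) (XT.nd (nat_lit 94) (nat_lit 252) (nat_lit 0) (XT.lf (nat_lit 84) (nat_lit 17736323380) (nat_lit 0) (nat_lit 13142437532) (nat_lit 336) (nat_lit 17736323380) (nat_lit 72) (nat_lit 1) (nat_lit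 71) (nat_lit 1) (nat_lit 75) (nat_lit 1) (nat_lit 142) (nat_lit 305) (nat_lit 273)) (XT.nd (nat_lit 94) (nat_lit 0) (nat_lit 0) (XT.lf (nat_lit 336) (nat_lit 24389068689) (nat_lit 0) (nat_lit 11655306506) (nat_lit 252) (nat_lit 11655306506) (nat_lit 72) (nat_lit 1) (nat_lit 68) (nat_lit 1) (nat_lit 71) (nat_lit 1) (nat_lit 143) (nat_lit 305) (nat_lit 272)) (XT.lf (nat_lit 84) (nat_lit 6716729626) (nat_lit 0) (nat_lit 33375371372) (nat_lit 336) (nat_lit 6716729626) (nat_lit 69) (nat_lit 1) (nat_lit 68) (nat_lit 1) (nat_lit 72) (nat_lit 1) (nat_lit 144) (nat_lit 305) (nat_lit 271)))) (XT.nd (nat_lit 188) (nat_lit 168) (nat_lit 0) (XT.nd (nat_lit 94) (nat_lit 336) (nat_lit 0) (XT.lf (nat_lit 252) (nat_lit 2461233061) (nat_lit 0) (nat_lit 21736767020) (nat_lit 168) (nat_lit 21736767020) (nat_lit 69) (nat_lit 1) (nat_lit 66) (nat_lit 1) (nat_lit 68) (nat_lit 1) (nat_lit 145)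 (nat_lit 305) (nat_lit 270)) (XT.lf (nat_lit 336) (nat_lit 37188406276) (nat_lit 0) (nat_lit 3949678300) (nat_lit 252) (nat_lit 3949678300) (nat_lit 66) (nat_lit 1) (nat_lit 62) (nat_lit 1) (nat_lit 65) (nat_lit 1) (nat_lit 146) (nat_lit 305) (nat_lit 269))) (XT.nd (nat_lit 94) (nat_lit 168) (nat_lit 0) (XT.lf (nat_lit 84) (nat_lit 12989027565) (nat_lit 0) (nat_lit 18272176447) (nat_lit 336) (nat_lit 12989027565) (nat_lit 63) (nat_lit 1) (nat_lit 62) (nat_lit 1) (nat_lit 66) (nat_lit 1) (nat_lit 147) (nat_lit 305) (nat_lit 268)) (XT.lf (nat_lit 252) (nat_lit 15006817709) (nat_lit 0) (nat_lit 14215865543) (nat_lit 168) (nat_lit 14215865543) (nat_lit 63) (nat_lit 1) (nat_lit 60) (nat_lit 1) (nat_lit 62) (nat_lit 1) (nat_lit 148) (nat_lit 305) (nat_lit 267)))))) (XT.nd (nat_lit 658) (nat_lit 840) (nat_lit 0) (XT.nd (nat_lit 282) (nat_lit 420) (nat_lit 0) (XT.nd (nat_lit 94)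 (nat_lit 420) (nat_lit 0) (XT.lf (nat_lit 84) (nat_lit 2156003379) (nat_lit 0) (nat_lit 38341795889) (nat_lit 252) (nat_lit 2156003379) (nat_lit 61) (nat_lit 1) (nat_lit 60) (nat_lit 1) (nat_lit 63) (nat_lit 1) (nat_lit 149) (nat_lit 305) (nat_lit 266)) (XT.nd (nat_lit 94) (nat_lit 168) (nat_lit 0) (XT.lf (nat_lit 84) (nat_lit 17793874152) (nat_lit 0) (nat_lit 6284160805) (nat_lit 252) (nat_lit 17793874152) (nat_lit 58) (nat_lit 1) (nat_lit 57) (nat_lit 1) (nat_lit 60) (nat_lit 1) (nat_lit 150) (nat_lit 305) (nat_lit 265)) (XT.lf (nat_lit 252) (nat_lit 24709912904) (nat_lit 0) (nat_lit 8203021593) (nat_lit 168) (nat_lit 8203021593) (nat_lit 58) (nat_lit 1) (nat_lit 55) (nat_lit 1) (nat_lit 57) (nat_lit 1) (nat_lit 151) (nat_lit 305) (nat_lit 264)))) (XT.nd (nat_lit 188) (nat_lit 252) (nat_lit 0) (XT.nd (nat_lit 94) (nat_lit 168) (nat_lit 0) (XT.lf (nat_lit 84) (nat_lit 6972494564)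 (nat_lit 0) (nat_lit 26431722160) (nat_lit 252) (nat_lit 6972494564) (nat_lit 56) (nat_lit 1) (nat_lit 55) (nat_lit 1) (nat_lit 58) (nat_lit 1) (nat_lit 152) (nat_lit 305) (nat_lit 263)) (XT.lf (nat_lit 252) (nat_lit 3266362669) (nat_lit 0) (nat_lit 18193002542) (nat_lit 168) (nat_lit 18193002542) (nat_lit 56) (nat_lit 1) (nat_lit 53) (nat_lit 1) (nat_lit 55) (nat_lit 1) (nat_lit 153) (nat_lit 305) (nat_lit 262))) (XT.nd (nat_lit 94) (nat_lit 0) (nat_lit 0) (XT.lf (nat_lit 252) (nat_lit 32103922533) (nat_lit 0) (nat_lit 3422545051) (nat_lit 168) (nat_lit 3422545051) (nat_lit 53) (nat_lit 1) (nat_lit 50) (nat_lit 1) (nat_lit 52) (nat_lit 1) (nat_lit 154) (nat_lit 305) (nat_lit 261)) (XT.lf (nat_lit 84) (nat_lit 10687474483) (nat_lit 0) (nat_lit 16876711609) (nat_lit 252) (nat_lit 10687474483) (nat_lit 51) (nat_lit 1) (nat_lit 50) (nat_lit 1) (nat_lit 53) (nat_lit 1) (nat_lit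 155) (nat_lit 305) (nat_lit 260))))) (XT.nd (nat_lit 282) (nat_lit 504) (nat_lit 0) (XT.nd (nat_lit 94) (nat_lit 168) (nat_lit 0) (XT.lf (nat_lit 252) (nat_lit 10884673878) (nat_lit 0) (nat_lit 13344939867) (nat_lit 168) (nat_lit 13344939867) (nat_lit 51) (nat_lit 1) (nat_lit 48) (nat_lit 1) (nat_lit 50) (nat_lit 1) (nat_lit 156) (nat_lit 305) (nat_lit 259)) (XT.nd (nat_lit 94) (nat_lit 168) (nat_lit 0) (XT.lf (nat_lit 84) (nat_lit 357749211) (nat_lit 0) (nat_lit 36205694404) (nat_lit 252) (nat_lit 357749211) (nat_lit 49) (nat_lit 1) (nat_lit 48) (nat_lit 1) (nat_lit 51) (nat_lit 1) (nat_lit 157) (nat_lit 305) (nat_lit 258)) (XT.lf (nat_lit 84) (nat_lit 13508026898) (nat_lit 0) (nat_lit 9247625146) (nat_lit 168) (nat_lit 13508026898) (nat_lit 47) (nat_lit 1) (nat_lit 46) (nat_lit 1) (nat_lit 48) (nat_lit 1) (nat_lit 158) (nat_lit 305) (nat_lit 257)))) (XT.nd (nat_lit 188)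 (nat_lit 336) (nat_lit 0) (XT.nd (nat_lit 94) (nat_lit 0) (nat_lit 0) (XT.lf (nat_lit 252) (nat_lit 16761923591) (nat_lit 0) (nat_lit 9433688056) (nat_lit 168) (nat_lit 9433688056) (nat_lit 47) (nat_lit 1) (nat_lit 44) (nat_lit 1) (nat_lit 46) (nat_lit 1) (nat_lit 159) (nat_lit 305) (nat_lit 256)) (XT.lf (nat_lit 84) (nat_lit 3360649834) (nat_lit 0) (nat_lit 28290744303) (nat_lit 252) (nat_lit 3360649834) (nat_lit 45) (nat_lit 1) (nat_lit 44) (nat_lit 1) (nat_lit 47) (nat_lit 1) (nat_lit 160) (nat_lit 305) (nat_lit 255))) (XT.nd (nat_lit 94) (nat_lit 168) (nat_lit 0) (XT.lf (nat_lit 84) (nat_lit 15603958769) (nat_lit 0) (nat_lit 3191960987) (nat_lit 168) (nat_lit 15603958769) (nat_lit 43) (nat_lit 1) (nat_lit 42) (nat_lit 1) (nat_lit 44) (nat_lit 1) (nat_lit 161) (nat_lit 305) (nat_lit 254)) (XT.lf (nat_lit 252) (nat_lit 21225385977) (nat_lit 0) (nat_lit 6289473750) (nat_lit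 168) (nat_lit 6289473750) (nat_lit 43) (nat_lit 1) (nat_lit 40) (nat_lit 1) (nat_lit 42) (nat_lit 1) (nat_lit 162) (nat_lit 305) (nat_lit 253))))))))
noncomputable def ec198 : XT := (XT.nd (nat_lit 2538) (nat_lit 1008) (nat_lit 0) (XT.nd (nat_lit 1222) (nat_lit 1092) (nat_lit 0) (XT.nd (nat_lit 564) (nat_lit 588) (nat_lit 0) (XT.nd (nat_lit 282) (nat_lit 336) (nat_lit 0) (XT.nd (nat_lit 94) (nat_lit 336) (nat_lit 0) (XT.lf (nat_lit 84) (nat_lit 5685127957) (nat_lit 0) (nat_lit 21850322414) (nat_lit 252) (nat_lit 5685127957) (nat_lit 41) (nat_lit 1) (nat_lit 40) (nat_lit 1) (nat_lit 43) (nat_lit 1) (nat_lit 163) (nat_lit 305) (nat_lit 252)) (XT.nd (nat_lit 94) (nat_lit 252) (nat_lit 0) (XT.lf (nat_lit 168) (nat_lit 1631993205) (nat_lit 0) (nat_lit 15507922859) (nat_lit 84) (nat_lit 15507922859) (nat_lit 41) (nat_lit 1) (nat_lit 39) (nat_lit 1) (nat_lit 40) (nat_lit 1) (nat_lit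 164) (nat_lit 305) (nat_lit 251)) (XT.lf (nat_lit 252) (nat_lit 24543425149) (nat_lit 0) (nat_lit 3772799180) (nat_lit 168) (nat_lit 3772799180) (nat_lit 39) (nat_lit 1) (nat_lit 36) (nat_lit 1) (nat_lit 38) (nat_lit 1) (nat_lit 165) (nat_lit 305) (nat_lit 250)))) (XT.nd (nat_lit 94) (nat_lit 336) (nat_lit 0) (XT.lf (nat_lit 84) (nat_lit 7458419337) (nat_lit 0) (nat_lit 16619606766) (nat_lit 252) (nat_lit 7458419337) (nat_lit 37) (nat_lit 1) (nat_lit 36) (nat_lit 1) (nat_lit 39) (nat_lit 1) (nat_lit 166) (nat_lit 305) (nat_lit 249)) (XT.nd (nat_lit 94) (nat_lit 252) (nat_lit 0) (XT.lf (nat_lit 168) (nat_lit 5480602905) (nat_lit 0) (nat_lit 12758406515) (nat_lit 84) (nat_lit 12758406515) (nat_lit 37) (nat_lit 1) (nat_lit 35) (nat_lit 1) (nat_lit 36) (nat_lit 1) (nat_lit 167) (nat_lit 305) (nat_lit 248)) (XT.lf (nat_lit 252) (nat_lit 26935981921) (nat_lit 0) (nat_lit 1769066043)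 (nat_lit 168) (nat_lit 1769066043) (nat_lit 35) (nat_lit 1) (nat_lit 32) (nat_lit 1) (nat_lit 34) (nat_lit 1) (nat_lit 168) (nat_lit 305) (nat_lit 247))))) (XT.nd (nat_lit 282) (nat_lit 252) (nat_lit 0) (XT.nd (nat_lit 94) (nat_lit 336) (nat_lit 0) (XT.lf (nat_lit 84) (nat_lit 8784870043) (nat_lit 0) (nat_lit 12380889178) (nat_lit 252) (nat_lit 8784870043) (nat_lit 33) (nat_lit 1) (nat_lit 32) (nat_lit 1) (nat_lit 35) (nat_lit 1) (nat_lit 169) (nat_lit 305) (nat_lit 246)) (XT.nd (nat_lit 94) (nat_lit 252) (nat_lit 0) (XT.lf (nat_lit 168) (nat_lit 8449818008) (nat_lit 0) (nat_lit 10496372614) (nat_lit 84) (nat_lit 10496372614) (nat_lit 33) (nat_lit 1) (nat_lit 31) (nat_lit 1) (nat_lit 32) (nat_lit 1) (nat_lit 170) (nat_lit 305) (nat_lit 245)) (XT.lf (nat_lit 252) (nat_lit 28583199285) (nat_lit 0) (nat_lit 184152936) (nat_lit 168) (nat_lit 184152936) (nat_lit 31) (nat_lit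 1) (nat_lit 28) (nat_lit 1) (nat_lit 30) (nat_lit 1) (nat_lit 171) (nat_lit 305) (nat_lit 244)))) (XT.nd (nat_lit 188) (nat_lit 168) (nat_lit 0) (XT.nd (nat_lit 94) (nat_lit 84) (nat_lit 0) (XT.lf (nat_lit 84) (nat_lit 9750010513) (nat_lit 0) (nat_lit 8955214417) (nat_lit 252) (nat_lit 9750010513) (nat_lit 29) (nat_lit 1) (nat_lit 28) (nat_lit 1) (nat_lit 31) (nat_lit 1) (nat_lit 172) (nat_lit 305) (nat_lit 243)) (XT.lf (nat_lit 168) (nat_lit 10704936124) (nat_lit 0) (nat_lit 8635391726) (nat_lit 84) (nat_lit 8635391726) (nat_lit 29) (nat_lit 1) (nat_lit 27) (nat_lit 1) (nat_lit 28) (nat_lit 1) (nat_lit 173) (nat_lit 305) (nat_lit 242))) (XT.nd (nat_lit 94) (nat_lit 168) (nat_lit 0) (XT.lf (nat_lit 0) (nat_lit 1076587016) (nat_lit 0) (nat_lit 25357507063) (nat_lit 168) (nat_lit 1076587016) (nat_lit 27) (nat_lit 3) (nat_lit 27) (nat_lit 1) (nat_lit 29) (nat_lit 1) (nat_lit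 174) (nat_lit 305) (nat_lit 241)) (XT.lf (nat_lit 84) (nat_lit 10423906528) (nat_lit 0) (nat_lit 6195502063) (nat_lit 168) (nat_lit 10423906528) (nat_lit 26) (nat_lit 1) (nat_lit 25) (nat_lit 1) (nat_lit 27) (nat_lit 1) (nat_lit 175) (nat_lit 305) (nat_lit 240)))))) (XT.nd (nat_lit 658) (nat_lit 504) (nat_lit 0) (XT.nd (nat_lit 282) (nat_lit 336) (nat_lit 0) (XT.nd (nat_lit 94) (nat_lit 168) (nat_lit 0) (XT.lf (nat_lit 168) (nat_lit 12381501192) (nat_lit 0) (nat_lit 7104358144) (nat_lit 84) (nat_lit 7104358144) (nat_lit 26) (nat_lit 1) (nat_lit 24) (nat_lit 1) (nat_lit 25) (nat_lit 1) (nat_lit 176) (nat_lit 305) (nat_lit 239)) (XT.nd (nat_lit 94) (nat_lit 168) (nat_lit 0) (XT.lf (nat_lit 0) (nat_lit 2057685803) (nat_lit 0) (nat_lit 22033658815) (nat_lit 168) (nat_lit 2057685803) (nat_lit 24) (nat_lit 3) (nat_lit 24) (nat_lit 1) (nat_lit 26) (nat_lit 1) (nat_lit 177) (nat_lit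 305) (nat_lit 238)) (XT.lf (nat_lit 84) (nat_lit 10863915365) (nat_lit 0) (nat_lit 3980888213) (nat_lit 168) (nat_lit 10863915365) (nat_lit 23) (nat_lit 1) (nat_lit 22) (nat_lit 1) (nat_lit 24) (nat_lit 1) (nat_lit 178) (nat_lit 305) (nat_lit 237)))) (XT.nd (nat_lit 188) (nat_lit 252) (nat_lit 0) (XT.nd (nat_lit 94) (nat_lit 0) (nat_lit 0) (XT.lf (nat_lit 168) (nat_lit 13590600006) (nat_lit 0) (nat_lit 5844773026) (nat_lit 84) (nat_lit 5844773026) (nat_lit 23) (nat_lit 1) (nat_lit 21) (nat_lit 1) (nat_lit 22) (nat_lit 1) (nat_lit 179) (nat_lit 305) (nat_lit 236)) (XT.lf (nat_lit 0) (nat_lit 2809029869) (nat_lit 0) (nat_lit 19243312303) (nat_lit 168) (nat_lit 2809029869) (nat_lit 21) (nat_lit 3) (nat_lit 21) (nat_lit 1) (nat_lit 23) (nat_lit 1) (nat_lit 180) (nat_lit 305) (nat_lit 235))) (XT.nd (nat_lit 94) (nat_lit 84) (nat_lit 0) (XT.lf (nat_lit 84) (nat_lit 11116952596)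 (nat_lit 0) (nat_lit 2212070711) (nat_lit 168) (nat_lit 11116952596) (nat_lit 20) (nat_lit 1) (nat_lit 19) (nat_lit 1) (nat_lit 21) (nat_lit 1) (nat_lit 181) (nat_lit 305) (nat_lit 234)) (XT.lf (nat_lit 168) (nat_lit 14423218672) (nat_lit 0) (nat_lit 4808509233) (nat_lit 84) (nat_lit 4808509233) (nat_lit 20) (nat_lit 1) (nat_lit 18) (nat_lit 1) (nat_lit 19) (nat_lit 1) (nat_lit 182) (nat_lit 305) (nat_lit 233))))) (XT.nd (nat_lit 282) (nat_lit 252) (nat_lit 0) (XT.nd (nat_lit 94) (nat_lit 252) (nat_lit 0) (XT.lf (nat_lit 0) (nat_lit 3374011698) (nat_lit 0) (nat_lit 16894536528) (nat_lit 168) (nat_lit 3374011698) (nat_lit 18) (nat_lit 3) (nat_lit 18) (nat_lit 1) (nat_lit 20) (nat_lit 1) (nat_lit 183) (nat_lit 305) (nat_lit 232)) (XT.nd (nat_lit 94) (nat_lit 84) (nat_lit 0) (XT.lf (nat_lit 84) (nat_lit 11221356356) (nat_lit 0) (nat_lit 807479979) (nat_lit 168) (nat_lit 11221356356)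 (nat_lit 17) (nat_lit 1) (nat_lit 16) (nat_lit 1) (nat_lit 18) (nat_lit 1) (nat_lit 184) (nat_lit 305) (nat_lit 231)) (XT.lf (nat_lit 168) (nat_lit 14953825708) (nat_lit 0) (nat_lit 3955972446) (nat_lit 84) (nat_lit 3955972446) (nat_lit 17) (nat_lit 1) (nat_lit 15) (nat_lit 1) (nat_lit 16) (nat_lit 1) (nat_lit 185) (nat_lit 305) (nat_lit 230)))) (XT.nd (nat_lit 188) (nat_lit 168) (nat_lit 0) (XT.nd (nat_lit 94) (nat_lit 84) (nat_lit 0) (XT.lf (nat_lit 0) (nat_lit 3788203843) (nat_lit 0) (nat_lit 14911573081) (nat_lit 168) (nat_lit 3788203843) (nat_lit 15) (nat_lit 3) (nat_lit 15) (nat_lit 1) (nat_lit 17) (nat_lit 1) (nat_lit 186) (nat_lit 305) (nat_lit 229)) (XT.lf (nat_lit 84) (nat_lit 309786043) (nat_lit 0) (nat_lit 10903471032) (nat_lit 84) (nat_lit 10903471032) (nat_lit 15) (nat_lit 3) (nat_lit 14) (nat_lit 1) (nat_lit 15) (nat_lit 1) (nat_lit 187) (nat_lit 305) (nat_lit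 228))) (XT.nd (nat_lit 94) (nat_lit 0) (nat_lit 0) (XT.lf (nat_lit 168) (nat_lit 15243318953) (nat_lit 0) (nat_lit 3254588322) (nat_lit 84) (nat_lit 3254588322) (nat_lit 14) (nat_lit 1) (nat_lit 12) (nat_lit 1) (nat_lit 13) (nat_lit 1) (nat_lit 188) (nat_lit 305) (nat_lit 227)) (XT.lf (nat_lit 0) (nat_lit 4080751410) (nat_lit 0) (nat_lit 13231974810) (nat_lit 168) (nat_lit 4080751410) (nat_lit 12) (nat_lit 3) (nat_lit 12) (nat_lit 1) (nat_lit 14) (nat_lit 1) (nat_lit 189) (nat_lit 305) (nat_lit 226))))))) (XT.nd (nat_lit 1222) (nat_lit 0) (nat_lit 0) (XT.nd (nat_lit 564) (nat_lit 504) (nat_lit 0) (XT.nd (nat_lit 282) (nat_lit 252) (nat_lit 0) (XT.nd (nat_lit 94) (nat_lit 168) (nat_lit 0) (XT.lf (nat_lit 84) (nat_lit 1203497078) (nat_lit 0) (nat_lit 9918947936) (nat_lit 84) (nat_lit 9918947936) (nat_lit 12) (nat_lit 3) (nat_lit 11) (nat_lit 1) (nat_lit 12) (nat_lit 1) (nat_lit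 190) (nat_lit 305) (nat_lit 225)) (XT.nd (nat_lit 94) (nat_lit 0) (nat_lit 0) (XT.lf (nat_lit 168) (nat_lit 15341449118) (nat_lit 0) (nat_lit 2677557867) (nat_lit 84) (nat_lit 2677557867) (nat_lit 11) (nat_lit 1) (nat_lit 9) (nat_lit 1) (nat_lit 10) (nat_lit 1) (nat_lit 191) (nat_lit 305) (nat_lit 224)) (XT.lf (nat_lit 0) (nat_lit 4275517363) (nat_lit 0) (nat_lit 11804251502) (nat_lit 168) (nat_lit 4275517363) (nat_lit 9) (nat_lit 3) (nat_lit 9) (nat_lit 1) (nat_lit 11) (nat_lit 1) (nat_lit 192) (nat_lit 305) (nat_lit 223)))) (XT.nd (nat_lit 94) (nat_lit 168) (nat_lit 0) (XT.lf (nat_lit 84) (nat_lit 1893582248) (nat_lit 0) (nat_lit 9063805237) (nat_lit 84) (nat_lit 9063805237) (nat_lit 9) (nat_lit 3) (nat_lit 8) (nat_lit 1) (nat_lit 9) (nat_lit 1) (nat_lit 193) (nat_lit 305) (nat_lit 222)) (XT.nd (nat_lit 94) (nat_lit 0) (nat_lit 0) (XT.lf (nat_lit 168) (nat_lit 15288812814)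 (nat_lit 0) (nat_lit 2202833483) (nat_lit 84) (nat_lit 2202833483) (nat_lit 8) (nat_lit 1) (nat_lit 6) (nat_lit 1) (nat_lit 7) (nat_lit 1) (nat_lit 194) (nat_lit 305) (nat_lit 221)) (XT.lf (nat_lit 0) (nat_lit 4392024505) (nat_lit 0) (nat_lit 10585932713) (nat_lit 168) (nat_lit 4392024505) (nat_lit 6) (nat_lit 3) (nat_lit 6) (nat_lit 1) (nat_lit 8) (nat_lit 1) (nat_lit 195) (nat_lit 305) (nat_lit 220))))) (XT.nd (nat_lit 282) (nat_lit 252) (nat_lit 0) (XT.nd (nat_lit 94) (nat_lit 168) (nat_lit 0) (XT.lf (nat_lit 84) (nat_lit 2418295014) (nat_lit 0) (nat_lit 8317255212) (nat_lit 84) (nat_lit 8317255212) (nat_lit 6) (nat_lit 3) (nat_lit 5) (nat_lit 1) (nat_lit 6) (nat_lit 1) (nat_lit 196) (nat_lit 305) (nat_lit 219)) (XT.nd (nat_lit 94) (nat_lit 0) (nat_lit 0) (XT.lf (nat_lit 168) (nat_lit 15118491432) (nat_lit 0) (nat_lit 1812276558) (nat_lit 84) (nat_lit 1812276558) (nat_lit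 5) (nat_lit 1) (nat_lit 3) (nat_lit 1) (nat_lit 4) (nat_lit 1) (nat_lit 197) (nat_lit 305) (nat_lit 218)) (XT.lf (nat_lit 0) (nat_lit 4446230181) (nat_lit 0) (nat_lit 9541973793) (nat_lit 168) (nat_lit 4446230181) (nat_lit 3) (nat_lit 3) (nat_lit 3) (nat_lit 1) (nat_lit 5) (nat_lit 1) (nat_lit 198) (nat_lit 305) (nat_lit 217)))) (XT.nd (nat_lit 188) (nat_lit 0) (nat_lit 0) (XT.nd (nat_lit 94) (nat_lit 168) (nat_lit 0) (XT.lf (nat_lit 84) (nat_lit 2809004161) (nat_lit 0) (nat_lit 7662093315) (nat_lit 84) (nat_lit 7662093315) (nat_lit 3) (nat_lit 3) (nat_lit 2) (nat_lit 1) (nat_lit 3) (nat_lit 1) (nat_lit 199) (nat_lit 305) (nat_lit 216)) (XT.lf (nat_lit 0) (nat_lit 25914977246) (nat_lit 0) (nat_lit 0) (nat_lit 0) (nat_lit 0) (nat_lit 0) (nat_lit 0) (nat_lit 1) (nat_lit 0) (nat_lit 1) (nat_lit 0) (nat_lit 200) (nat_lit 305) (nat_lit 215))) (XT.nd (nat_lit 94) (nat_lit 0) (nat_lit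 0) (XT.lf (nat_lit 0) (nat_lit 25899878249) (nat_lit 0) (nat_lit 0) (nat_lit 0) (nat_lit 0) (nat_lit 0) (nat_lit 0) (nat_lit 1) (nat_lit 0) (nat_lit 1) (nat_lit 0) (nat_lit 201) (nat_lit 305) (nat_lit 214)) (XT.lf (nat_lit 0) (nat_lit 25885498252) (nat_lit 0) (nat_lit 0) (nat_lit 0) (nat_lit 0) (nat_lit 0) (nat_lit 0) (nat_lit 1) (nat_lit 0) (nat_lit 1) (nat_lit 0) (nat_lit 202) (nat_lit 305) (nat_lit 213)))))) (XT.nd (nat_lit 658) (nat_lit 0) (nat_lit 0) (XT.nd (nat_lit 282) (nat_lit 0) (nat_lit 0) (XT.nd (nat_lit 94) (nat_lit 0) (nat_lit 0) (XT.lf (nat_lit 0) (nat_lit 25871803017) (nat_lit 0) (nat_lit 0) (nat_lit 0) (nat_lit 0) (nat_lit 0) (nat_lit 0) (nat_lit 1) (nat_lit 0) (nat_lit 1) (nat_lit 0) (nat_lit 203) (nat_lit 305) (nat_lit 212)) (XT.nd (nat_lit 94) (nat_lit 0) (nat_lit 0) (XT.lf (nat_lit 0) (nat_lit 25858759936) (nat_lit 0) (nat_lit 0) (nat_lit 0) (nat_lit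 0) (nat_lit 0) (nat_lit 0) (nat_lit 1) (nat_lit 0) (nat_lit 1) (nat_lit 0) (nat_lit 204) (nat_lit 305) (nat_lit 211)) (XT.lf (nat_lit 0) (nat_lit 25846337953) (nat_lit 0) (nat_lit 0) (nat_lit 0) (nat_lit 0) (nat_lit 0) (nat_lit 0) (nat_lit 1) (nat_lit 0) (nat_lit 1) (nat_lit 0) (nat_lit 205) (nat_lit 305) (nat_lit 210)))) (XT.nd (nat_lit 188) (nat_lit 0) (nat_lit 0) (XT.nd (nat_lit 94) (nat_lit 0) (nat_lit 0) (XT.lf (nat_lit 0) (nat_lit 25834507494) (nat_lit 0) (nat_lit 0) (nat_lit 0) (nat_lit 0) (nat_lit 0) (nat_lit 0) (nat_lit 1) (nat_lit 0) (nat_lit 1) (nat_lit 0) (nat_lit 206) (nat_lit 305) (nat_lit 209)) (XT.lf (nat_lit 0) (nat_lit 25823240390) (nat_lit 0) (nat_lit 0) (nat_lit 0) (nat_lit 0) (nat_lit 0) (nat_lit 0) (nat_lit 1) (nat_lit 0) (nat_lit 1) (nat_lit 0) (nat_lit 207) (nat_lit 305) (nat_lit 208))) (XT.nd (nat_lit 94) (nat_lit 0) (nat_lit 0) (XT.lf (nat_lit 0)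 (nat_lit 25812509815) (nat_lit 0) (nat_lit 0) (nat_lit 0) (nat_lit 0) (nat_lit 0) (nat_lit 0) (nat_lit 1) (nat_lit 0) (nat_lit 1) (nat_lit 0) (nat_lit 208) (nat_lit 305) (nat_lit 207)) (XT.lf (nat_lit 0) (nat_lit 25802290219) (nat_lit 0) (nat_lit 0) (nat_lit 0) (nat_lit 0) (nat_lit 0) (nat_lit 0) (nat_lit 1) (nat_lit 0) (nat_lit 1) (nat_lit 0) (nat_lit 209) (nat_lit 305) (nat_lit 206))))) (XT.nd (nat_lit 282) (nat_lit 0) (nat_lit 0) (XT.nd (nat_lit 94) (nat_lit 0) (nat_lit 0) (XT.lf (nat_lit 0) (nat_lit 25792557271) (nat_lit 0) (nat_lit 0) (nat_lit 0) (nat_lit 0) (nat_lit 0) (nat_lit 0) (nat_lit 1) (nat_lit 0) (nat_lit 1) (nat_lit 0) (nat_lit 210) (nat_lit 305) (nat_lit 205)) (XT.nd (nat_lit 94) (nat_lit 0) (nat_lit 0) (XT.lf (nat_lit 0) (nat_lit 25783287797) (nat_lit 0) (nat_lit 0) (nat_lit 0) (nat_lit 0) (nat_lit 0) (nat_lit 0) (nat_lit 1) (nat_lit 0) (nat_lit 1) (nat_lit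 0) (nat_lit 211) (nat_lit 305) (nat_lit 204)) (XT.lf (nat_lit 0) (nat_lit 25774459726) (nat_lit 0) (nat_lit 0) (nat_lit 0) (nat_lit 0) (nat_lit 0) (nat_lit 0) (nat_lit 1) (nat_lit 0) (nat_lit 1) (nat_lit 0) (nat_lit 212) (nat_lit 305) (nat_lit 203)))) (XT.nd (nat_lit 188) (nat_lit 0) (nat_lit 0) (XT.nd (nat_lit 94) (nat_lit 0) (nat_lit 0) (XT.lf (nat_lit 0) (nat_lit 25766052040) (nat_lit 0) (nat_lit 0) (nat_lit 0) (nat_lit 0) (nat_lit 0) (nat_lit 0) (nat_lit 1) (nat_lit 0) (nat_lit 1) (nat_lit 0) (nat_lit 213) (nat_lit 305) (nat_lit 202)) (XT.lf (nat_lit 0) (nat_lit 25758044719) (nat_lit 0) (nat_lit 0) (nat_lit 0) (nat_lit 0) (nat_lit 0) (nat_lit 0) (nat_lit 1) (nat_lit 0) (nat_lit 1) (nat_lit 0) (nat_lit 214) (nat_lit 305) (nat_lit 201))) (XT.nd (nat_lit 94) (nat_lit 0) (nat_lit 0) (XT.lf (nat_lit 0) (nat_lit 25750418700) (nat_lit 0) (nat_lit 0) (nat_lit 0) (nat_lit 0)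 (nat_lit 0) (nat_lit 0) (nat_lit 1) (nat_lit 0) (nat_lit 1) (nat_lit 0) (nat_lit 215) (nat_lit 305) (nat_lit 200)) (XT.lf (nat_lit 0) (nat_lit 25743155824) (nat_lit 0) (nat_lit 0) (nat_lit 0) (nat_lit 0) (nat_lit 0) (nat_lit 0) (nat_lit 1) (nat_lit 0) (nat_lit 1) (nat_lit 0) (nat_lit 216) (nat_lit 305) (nat_lit 199))))))))
noncomputable def ec199 : XT := (XT.nd (nat_lit 2538) (nat_lit 0) (nat_lit 0) (XT.nd (nat_lit 1222) (nat_lit 0) (nat_lit 0) (XT.nd (nat_lit 564) (nat_lit 0) (nat_lit 0) (XT.nd (nat_lit 282) (nat_lit 0) (nat_lit 0) (XT.nd (nat_lit 94) (nat_lit 0) (nat_lit 0) (XT.lf (nat_lit 0) (nat_lit 25736238799) (nat_lit 0) (nat_lit 0) (nat_lit 0) (nat_lit 0) (nat_lit 0) (nat_lit 0) (nat_lit 1) (nat_lit 0) (nat_lit 1) (nat_lit 0) (nat_lit 217) (nat_lit 305) (nat_lit 198)) (XT.nd (nat_lit 94) (nat_lit 0) (nat_lit 0) (XT.lf (nat_lit 0) (nat_lit 25729651157) (nat_lit 0)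 (nat_lit 0) (nat_lit 0) (nat_lit 0) (nat_lit 0) (nat_lit 0) (nat_lit 1) (nat_lit 0) (nat_lit 1) (nat_lit 0) (nat_lit 218) (nat_lit 305) (nat_lit 197)) (XT.lf (nat_lit 0) (nat_lit 25723377212) (nat_lit 0) (nat_lit 0) (nat_lit 0) (nat_lit 0) (nat_lit 0) (nat_lit 0) (nat_lit 1) (nat_lit 0) (nat_lit 1) (nat_lit 0) (nat_lit 219) (nat_lit 305) (nat_lit 196)))) (XT.nd (nat_lit 94) (nat_lit 0) (nat_lit 0) (XT.lf (nat_lit 0) (nat_lit 25717402026) (nat_lit 0) (nat_lit 0) (nat_lit 0) (nat_lit 0) (nat_lit 0) (nat_lit 0) (nat_lit 1) (nat_lit 0) (nat_lit 1) (nat_lit 0) (nat_lit 220) (nat_lit 305) (nat_lit 195)) (XT.nd (nat_lit 94) (nat_lit 0) (nat_lit 0) (XT.lf (nat_lit 0) (nat_lit 25711711373) (nat_lit 0) (nat_lit 0) (nat_lit 0) (nat_lit 0) (nat_lit 0) (nat_lit 0) (nat_lit 1) (nat_lit 0) (nat_lit 1) (nat_lit 0) (nat_lit 221) (nat_lit 305) (nat_lit 194)) (XT.lf (nat_lit 0) (nat_lit 25706291703)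 (nat_lit 0) (nat_lit 0) (nat_lit 0) (nat_lit 0) (nat_lit 0) (nat_lit 0) (nat_lit 1) (nat_lit 0) (nat_lit 1) (nat_lit 0) (nat_lit 222) (nat_lit 305) (nat_lit 193))))) (XT.nd (nat_lit 282) (nat_lit 0) (nat_lit 0) (XT.nd (nat_lit 94) (nat_lit 0) (nat_lit 0) (XT.lf (nat_lit 0) (nat_lit 25701130113) (nat_lit 0) (nat_lit 0) (nat_lit 0) (nat_lit 0) (nat_lit 0) (nat_lit 0) (nat_lit 1) (nat_lit 0) (nat_lit 1) (nat_lit 0) (nat_lit 223) (nat_lit 305) (nat_lit 192)) (XT.nd (nat_lit 94) (nat_lit 0) (nat_lit 0) (XT.lf (nat_lit 0) (nat_lit 25696214313) (nat_lit 0) (nat_lit 0) (nat_lit 0) (nat_lit 0) (nat_lit 0) (nat_lit 0) (nat_lit 1) (nat_lit 0) (nat_lit 1) (nat_lit 0) (nat_lit 224) (nat_lit 305) (nat_lit 191)) (XT.lf (nat_lit 0) (nat_lit 25691532598) (nat_lit 0) (nat_lit 0) (nat_lit 0) (nat_lit 0) (nat_lit 0) (nat_lit 0) (nat_lit 1) (nat_lit 0) (nat_lit 1) (nat_lit 0) (nat_lit 225) (nat_lit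 305) (nat_lit 190)))) (XT.nd (nat_lit 188) (nat_lit 0) (nat_lit 0) (XT.nd (nat_lit 94) (nat_lit 0) (nat_lit 0) (XT.lf (nat_lit 0) (nat_lit 25687073823) (nat_lit 0) (nat_lit 0) (nat_lit 0) (nat_lit 0) (nat_lit 0) (nat_lit 0) (nat_lit 1) (nat_lit 0) (nat_lit 1) (nat_lit 0) (nat_lit 226) (nat_lit 305) (nat_lit 189)) (XT.lf (nat_lit 0) (nat_lit 25682827370) (nat_lit 0) (nat_lit 0) (nat_lit 0) (nat_lit 0) (nat_lit 0) (nat_lit 0) (nat_lit 1) (nat_lit 0) (nat_lit 1) (nat_lit 0) (nat_lit 227) (nat_lit 305) (nat_lit 188))) (XT.nd (nat_lit 94) (nat_lit 0) (nat_lit 0) (XT.lf (nat_lit 0) (nat_lit 25678783129) (nat_lit 0) (nat_lit 0) (nat_lit 0) (nat_lit 0) (nat_lit 0) (nat_lit 0) (nat_lit 1) (nat_lit 0) (nat_lit 1) (nat_lit 0) (nat_lit 228) (nat_lit 305) (nat_lit 187)) (XT.lf (nat_lit 0) (nat_lit 25674931471) (nat_lit 0) (nat_lit 0) (nat_lit 0) (nat_lit 0) (nat_lit 0) (nat_lit 0) (nat_lit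 1) (nat_lit 0) (nat_lit 1) (nat_lit 0) (nat_lit 229) (nat_lit 305) (nat_lit 186)))))) (XT.nd (nat_lit 658) (nat_lit 0) (nat_lit 0) (XT.nd (nat_lit 282) (nat_lit 0) (nat_lit 0) (XT.nd (nat_lit 94) (nat_lit 0) (nat_lit 0) (XT.lf (nat_lit 0) (nat_lit 25671263225) (nat_lit 0) (nat_lit 0) (nat_lit 0) (nat_lit 0) (nat_lit 0) (nat_lit 0) (nat_lit 1) (nat_lit 0) (nat_lit 1) (nat_lit 0) (nat_lit 230) (nat_lit 305) (nat_lit 185)) (XT.nd (nat_lit 94) (nat_lit 0) (nat_lit 0) (XT.lf (nat_lit 0) (nat_lit 25667769658) (nat_lit 0) (nat_lit 0) (nat_lit 0) (nat_lit 0) (nat_lit 0) (nat_lit 0) (nat_lit 1) (nat_lit 0) (nat_lit 1) (nat_lit 0) (nat_lit 231) (nat_lit 305) (nat_lit 184)) (XT.lf (nat_lit 0) (nat_lit 25664442451) (nat_lit 0) (nat_lit 0) (nat_lit 0) (nat_lit 0) (nat_lit 0) (nat_lit 0) (nat_lit 1) (nat_lit 0) (nat_lit 1) (nat_lit 0) (nat_lit 232) (nat_lit 305) (nat_lit 183)))) (XT.nd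 (nat_lit 188) (nat_lit 0) (nat_lit 0) (XT.nd (nat_lit 94) (nat_lit 0) (nat_lit 0) (XT.lf (nat_lit 0) (nat_lit 25661273682) (nat_lit 0) (nat_lit 0) (nat_lit 0) (nat_lit 0) (nat_lit 0) (nat_lit 0) (nat_lit 1) (nat_lit 0) (nat_lit 1) (nat_lit 0) (nat_lit 233) (nat_lit 305) (nat_lit 182)) (XT.lf (nat_lit 0) (nat_lit 25658255807) (nat_lit 0) (nat_lit 0) (nat_lit 0) (nat_lit 0) (nat_lit 0) (nat_lit 0) (nat_lit 1) (nat_lit 0) (nat_lit 1) (nat_lit 0) (nat_lit 234) (nat_lit 305) (nat_lit 181))) (XT.nd (nat_lit 94) (nat_lit 0) (nat_lit 0) (XT.lf (nat_lit 0) (nat_lit 25655381641) (nat_lit 0) (nat_lit 0) (nat_lit 0) (nat_lit 0) (nat_lit 0) (nat_lit 0) (nat_lit 1) (nat_lit 0) (nat_lit 1) (nat_lit 0) (nat_lit 235) (nat_lit 305) (nat_lit 180)) (XT.lf (nat_lit 0) (nat_lit 25652644339) (nat_lit 0) (nat_lit 0) (nat_lit 0) (nat_lit 0) (nat_lit 0) (nat_lit 0) (nat_lit 1) (nat_lit 0) (nat_lit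 1) (nat_lit 0) (nat_lit 236) (nat_lit 305) (nat_lit 179))))) (XT.nd (nat_lit 282) (nat_lit 0) (nat_lit 0) (XT.nd (nat_lit 94) (nat_lit 0) (nat_lit 0) (XT.lf (nat_lit 0) (nat_lit 25650037385) (nat_lit 0) (nat_lit 0) (nat_lit 0) (nat_lit 0) (nat_lit 0) (nat_lit 0) (nat_lit 1) (nat_lit 0) (nat_lit 1) (nat_lit 0) (nat_lit 237) (nat_lit 305) (nat_lit 178)) (XT.nd (nat_lit 94) (nat_lit 0) (nat_lit 0) (XT.lf (nat_lit 0) (nat_lit 25647554572) (nat_lit 0) (nat_lit 0) (nat_lit 0) (nat_lit 0) (nat_lit 0) (nat_lit 0) (nat_lit 1) (nat_lit 0) (nat_lit 1) (nat_lit 0) (nat_lit 238) (nat_lit 305) (nat_lit 177)) (XT.lf (nat_lit 0) (nat_lit 25645189988) (nat_lit 0) (nat_lit 0) (nat_lit 0) (nat_lit 0) (nat_lit 0) (nat_lit 0) (nat_lit 1) (nat_lit 0) (nat_lit 1) (nat_lit 0) (nat_lit 239) (nat_lit 305) (nat_lit 176)))) (XT.nd (nat_lit 188) (nat_lit 0) (nat_lit 0) (XT.nd (nat_lit 94) (nat_lit 0)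 (nat_lit 0) (XT.lf (nat_lit 0) (nat_lit 25642938004) (nat_lit 0) (nat_lit 0) (nat_lit 0) (nat_lit 0) (nat_lit 0) (nat_lit 0) (nat_lit 1) (nat_lit 0) (nat_lit 1) (nat_lit 0) (nat_lit 240) (nat_lit 305) (nat_lit 175)) (XT.lf (nat_lit 0) (nat_lit 25640793256) (nat_lit 0) (nat_lit 0) (nat_lit 0) (nat_lit 0) (nat_lit 0) (nat_lit 0) (nat_lit 1) (nat_lit 0) (nat_lit 1) (nat_lit 0) (nat_lit 241) (nat_lit 305) (nat_lit 174))) (XT.nd (nat_lit 94) (nat_lit 0) (nat_lit 0) (XT.lf (nat_lit 0) (nat_lit 25638750640) (nat_lit 0) (nat_lit 0) (nat_lit 0) (nat_lit 0) (nat_lit 0) (nat_lit 0) (nat_lit 1) (nat_lit 0) (nat_lit 1) (nat_lit 0) (nat_lit 242) (nat_lit 305) (nat_lit 173)) (XT.lf (nat_lit 0) (nat_lit 25636805291) (nat_lit 0) (nat_lit 0) (nat_lit 0) (nat_lit 0) (nat_lit 0) (nat_lit 0) (nat_lit 1) (nat_lit 0) (nat_lit 1) (nat_lit 0) (nat_lit 243) (nat_lit 305) (nat_lit 172))))))) (XT.nd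 (nat_lit 1316) (nat_lit 0) (nat_lit 0) (XT.nd (nat_lit 658) (nat_lit 0) (nat_lit 0) (XT.nd (nat_lit 282) (nat_lit 0) (nat_lit 0) (XT.nd (nat_lit 94) (nat_lit 0) (nat_lit 0) (XT.lf (nat_lit 0) (nat_lit 25634952577) (nat_lit 0) (nat_lit 0) (nat_lit 0) (nat_lit 0) (nat_lit 0) (nat_lit 0) (nat_lit 1) (nat_lit 0) (nat_lit 1) (nat_lit 0) (nat_lit 244) (nat_lit 305) (nat_lit 171)) (XT.nd (nat_lit 94) (nat_lit 0) (nat_lit 0) (XT.lf (nat_lit 0) (nat_lit 25633188088) (nat_lit 0) (nat_lit 0) (nat_lit 0) (nat_lit 0) (nat_lit 0) (nat_lit 0) (nat_lit 1) (nat_lit 0) (nat_lit 1) (nat_lit 0) (nat_lit 245) (nat_lit 305) (nat_lit 170)) (XT.lf (nat_lit 0) (nat_lit 25631507623) (nat_lit 0) (nat_lit 0) (nat_lit 0) (nat_lit 0) (nat_lit 0) (nat_lit 0) (nat_lit 1) (nat_lit 0) (nat_lit 1) (nat_lit 0) (nat_lit 246) (nat_lit 305) (nat_lit 169)))) (XT.nd (nat_lit 188) (nat_lit 0) (nat_lit 0) (XT.nd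 (nat_lit 94) (nat_lit 0) (nat_lit 0) (XT.lf (nat_lit 0) (nat_lit 25629907179) (nat_lit 0) (nat_lit 0) (nat_lit 0) (nat_lit 0) (nat_lit 0) (nat_lit 0) (nat_lit 1) (nat_lit 0) (nat_lit 1) (nat_lit 0) (nat_lit 247) (nat_lit 305) (nat_lit 168)) (XT.lf (nat_lit 0) (nat_lit 25628382947) (nat_lit 0) (nat_lit 0) (nat_lit 0) (nat_lit 0) (nat_lit 0) (nat_lit 0) (nat_lit 1) (nat_lit 0) (nat_lit 1) (nat_lit 0) (nat_lit 248) (nat_lit 305) (nat_lit 167))) (XT.nd (nat_lit 94) (nat_lit 0) (nat_lit 0) (XT.lf (nat_lit 0) (nat_lit 25626931298) (nat_lit 0) (nat_lit 0) (nat_lit 0) (nat_lit 0) (nat_lit 0) (nat_lit 0) (nat_lit 1) (nat_lit 0) (nat_lit 1) (nat_lit 0) (nat_lit 249) (nat_lit 305) (nat_lit 166)) (XT.lf (nat_lit 0) (nat_lit 25625548775) (nat_lit 0) (nat_lit 0) (nat_lit 0) (nat_lit 0) (nat_lit 0) (nat_lit 0) (nat_lit 1) (nat_lit 0) (nat_lit 1) (nat_lit 0) (nat_lit 250) (nat_lit 305)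 (nat_lit 165))))) (XT.nd (nat_lit 282) (nat_lit 0) (nat_lit 0) (XT.nd (nat_lit 94) (nat_lit 0) (nat_lit 0) (XT.lf (nat_lit 0) (nat_lit 25624232086) (nat_lit 0) (nat_lit 0) (nat_lit 0) (nat_lit 0) (nat_lit 0) (nat_lit 0) (nat_lit 1) (nat_lit 0) (nat_lit 1) (nat_lit 0) (nat_lit 251) (nat_lit 305) (nat_lit 164)) (XT.nd (nat_lit 94) (nat_lit 0) (nat_lit 0) (XT.lf (nat_lit 0) (nat_lit 25622978097) (nat_lit 0) (nat_lit 0) (nat_lit 0) (nat_lit 0) (nat_lit 0) (nat_lit 0) (nat_lit 1) (nat_lit 0) (nat_lit 1) (nat_lit 0) (nat_lit 252) (nat_lit 305) (nat_lit 163)) (XT.lf (nat_lit 0) (nat_lit 25621783821) (nat_lit 0) (nat_lit 0) (nat_lit 0) (nat_lit 0) (nat_lit 0) (nat_lit 0) (nat_lit 1) (nat_lit 0) (nat_lit 1) (nat_lit 0) (nat_lit 253) (nat_lit 305) (nat_lit 162)))) (XT.nd (nat_lit 188) (nat_lit 0) (nat_lit 0) (XT.nd (nat_lit 94) (nat_lit 0) (nat_lit 0) (XT.lf (nat_lit 0) (nat_lit 25620646416)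 (nat_lit 0) (nat_lit 0) (nat_lit 0) (nat_lit 0) (nat_lit 0) (nat_lit 0) (nat_lit 1) (nat_lit 0) (nat_lit 1) (nat_lit 0) (nat_lit 254) (nat_lit 305) (nat_lit 161)) (XT.lf (nat_lit 0) (nat_lit 25619563172) (nat_lit 0) (nat_lit 0) (nat_lit 0) (nat_lit 0) (nat_lit 0) (nat_lit 0) (nat_lit 1) (nat_lit 0) (nat_lit 1) (nat_lit 0) (nat_lit 255) (nat_lit 305) (nat_lit 160))) (XT.nd (nat_lit 94) (nat_lit 0) (nat_lit 0) (XT.lf (nat_lit 0) (nat_lit 25618531512) (nat_lit 0) (nat_lit 0) (nat_lit 0) (nat_lit 0) (nat_lit 0) (nat_lit 0) (nat_lit 1) (nat_lit 0) (nat_lit 1) (nat_lit 0) (nat_lit 256) (nat_lit 305) (nat_lit 159)) (XT.lf (nat_lit 0) (nat_lit 25617548979) (nat_lit 0) (nat_lit 0) (nat_lit 0) (nat_lit 0) (nat_lit 0) (nat_lit 0) (nat_lit 1) (nat_lit 0) (nat_lit 1) (nat_lit 0) (nat_lit 257) (nat_lit 305) (nat_lit 158)))))) (XT.nd (nat_lit 658) (nat_lit 0) (nat_lit 0) (XT.nd (nat_lit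 282) (nat_lit 0) (nat_lit 0) (XT.nd (nat_lit 94) (nat_lit 0) (nat_lit 0) (XT.lf (nat_lit 0) (nat_lit 25616613233) (nat_lit 0) (nat_lit 0) (nat_lit 0) (nat_lit 0) (nat_lit 0) (nat_lit 0) (nat_lit 1) (nat_lit 0) (nat_lit 1) (nat_lit 0) (nat_lit 258) (nat_lit 305) (nat_lit 157)) (XT.nd (nat_lit 94) (nat_lit 0) (nat_lit 0) (XT.lf (nat_lit 0) (nat_lit 25615722046) (nat_lit 0) (nat_lit 0) (nat_lit 0) (nat_lit 0) (nat_lit 0) (nat_lit 0) (nat_lit 1) (nat_lit 0) (nat_lit 1) (nat_lit 0) (nat_lit 259) (nat_lit 305) (nat_lit 156)) (XT.lf (nat_lit 0) (nat_lit 25614873297) (nat_lit 0) (nat_lit 0) (nat_lit 0) (nat_lit 0) (nat_lit 0) (nat_lit 0) (nat_lit 1) (nat_lit 0) (nat_lit 1) (nat_lit 0) (nat_lit 260) (nat_lit 305) (nat_lit 155)))) (XT.nd (nat_lit 188) (nat_lit 0) (nat_lit 0) (XT.nd (nat_lit 94) (nat_lit 0) (nat_lit 0) (XT.lf (nat_lit 0) (nat_lit 25614064964) (nat_lit 0) (nat_lit 0)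 (nat_lit 0) (nat_lit 0) (nat_lit 0) (nat_lit 0) (nat_lit 1) (nat_lit 0) (nat_lit 1) (nat_lit 0) (nat_lit 261) (nat_lit 305) (nat_lit 154)) (XT.lf (nat_lit 0) (nat_lit 25613295123) (nat_lit 0) (nat_lit 0) (nat_lit 0) (nat_lit 0) (nat_lit 0) (nat_lit 0) (nat_lit 1) (nat_lit 0) (nat_lit 1) (nat_lit 0) (nat_lit 262) (nat_lit 305) (nat_lit 153))) (XT.nd (nat_lit 94) (nat_lit 0) (nat_lit 0) (XT.lf (nat_lit 0) (nat_lit 25612561942) (nat_lit 0) (nat_lit 0) (nat_lit 0) (nat_lit 0) (nat_lit 0) (nat_lit 0) (nat_lit 1) (nat_lit 0) (nat_lit 1) (nat_lit 0) (nat_lit 263) (nat_lit 305) (nat_lit 152)) (XT.lf (nat_lit 0) (nat_lit 25611863673) (nat_lit 0) (nat_lit 0) (nat_lit 0) (nat_lit 0) (nat_lit 0) (nat_lit 0) (nat_lit 1) (nat_lit 0) (nat_lit 1) (nat_lit 0) (nat_lit 264) (nat_lit 305) (nat_lit 151))))) (XT.nd (nat_lit 282) (nat_lit 0) (nat_lit 0) (XT.nd (nat_lit 94) (nat_lit 0) (nat_lit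 0) (XT.lf (nat_lit 0) (nat_lit 25611198656) (nat_lit 0) (nat_lit 0) (nat_lit 0) (nat_lit 0) (nat_lit 0) (nat_lit 0) (nat_lit 1) (nat_lit 0) (nat_lit 1) (nat_lit 0) (nat_lit 265) (nat_lit 305) (nat_lit 150)) (XT.nd (nat_lit 94) (nat_lit 0) (nat_lit 0) (XT.lf (nat_lit 0) (nat_lit 25610565306) (nat_lit 0) (nat_lit 0) (nat_lit 0) (nat_lit 0) (nat_lit 0) (nat_lit 0) (nat_lit 1) (nat_lit 0) (nat_lit 1) (nat_lit 0) (nat_lit 266) (nat_lit 305) (nat_lit 149)) (XT.lf (nat_lit 0) (nat_lit 25609962116) (nat_lit 0) (nat_lit 0) (nat_lit 0) (nat_lit 0) (nat_lit 0) (nat_lit 0) (nat_lit 1) (nat_lit 0) (nat_lit 1) (nat_lit 0) (nat_lit 267) (nat_lit 305) (nat_lit 148)))) (XT.nd (nat_lit 188) (nat_lit 0) (nat_lit 0) (XT.nd (nat_lit 94) (nat_lit 0) (nat_lit 0) (XT.lf (nat_lit 0) (nat_lit 25609387649) (nat_lit 0) (nat_lit 0) (nat_lit 0) (nat_lit 0) (nat_lit 0) (nat_lit 0) (nat_lit 1) (nat_lit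 0) (nat_lit 1) (nat_lit 0) (nat_lit 268) (nat_lit 305) (nat_lit 147)) (XT.lf (nat_lit 0) (nat_lit 25608840538) (nat_lit 0) (nat_lit 0) (nat_lit 0) (nat_lit 0) (nat_lit 0) (nat_lit 0) (nat_lit 1) (nat_lit 0) (nat_lit 1) (nat_lit 0) (nat_lit 269) (nat_lit 305) (nat_lit 146))) (XT.nd (nat_lit 94) (nat_lit 0) (nat_lit 0) (XT.lf (nat_lit 0) (nat_lit 25608319479) (nat_lit 0) (nat_lit 0) (nat_lit 0) (nat_lit 0) (nat_lit 0) (nat_lit 0) (nat_lit 1) (nat_lit 0) (nat_lit 1) (nat_lit 0) (nat_lit 270) (nat_lit 305) (nat_lit 145)) (XT.lf (nat_lit 0) (nat_lit 25607823233) (nat_lit 0) (nat_lit 0) (nat_lit 0) (nat_lit 0) (nat_lit 0) (nat_lit 0) (nat_lit 1) (nat_lit 0) (nat_lit 1) (nat_lit 0) (nat_lit 271) (nat_lit 305) (nat_lit 144))))))))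
noncomputable def ec200 : XT := (XT.nd (nat_lit 2538) (nat_lit 0) (nat_lit 0) (XT.nd (nat_lit 1222) (nat_lit 0) (nat_lit 0) (XT.nd (nat_lit 564) (nat_lit 0) (nat_lit 0) (XT.nd (nat_lit 282) (nat_lit 0) (nat_lit 0) (XT.nd (nat_lit 94) (nat_lit 0) (nat_lit 0) (XT.lf (nat_lit 0) (nat_lit 25607350618) (nat_lit 0) (nat_lit 0) (nat_lit 0) (nat_lit 0) (nat_lit 0) (nat_lit 0) (nat_lit 1) (nat_lit 0) (nat_lit 1) (nat_lit 0) (nat_lit 272) (nat_lit 305) (nat_lit 143)) (XT.nd (nat_lit 94) (nat_lit 0) (nat_lit 0) (XT.lf (nat_lit 0) (nat_lit 25606900508) (nat_lit 0) (nat_lit 0) (nat_lit 0) (nat_lit 0) (nat_lit 0) (nat_lit 0) (nat_lit 1) (nat_lit 0) (nat_lit 1) (nat_lit 0) (nat_lit 273) (nat_lit 305) (nat_lit 142)) (XT.lf (nat_lit 0) (nat_lit 25606471832) (nat_lit 0) (nat_lit 0) (nat_lit 0) (nat_lit 0) (nat_lit 0) (nat_lit 0) (nat_lit 1) (nat_lit 0) (nat_lit 1) (nat_lit 0) (nat_lit 274)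 (nat_lit 305) (nat_lit 141)))) (XT.nd (nat_lit 94) (nat_lit 0) (nat_lit 0) (XT.lf (nat_lit 0) (nat_lit 25606063569) (nat_lit 0) (nat_lit 0) (nat_lit 0) (nat_lit 0) (nat_lit 0) (nat_lit 0) (nat_lit 1) (nat_lit 0) (nat_lit 1) (nat_lit 0) (nat_lit 275) (nat_lit 305) (nat_lit 140)) (XT.nd (nat_lit 94) (nat_lit 0) (nat_lit 0) (XT.lf (nat_lit 0) (nat_lit 25605674747) (nat_lit 0) (nat_lit 0) (nat_lit 0) (nat_lit 0) (nat_lit 0) (nat_lit 0) (nat_lit 1) (nat_lit 0) (nat_lit 1) (nat_lit 0) (nat_lit 276) (nat_lit 305) (nat_lit 139)) (XT.lf (nat_lit 0) (nat_lit 25605304440) (nat_lit 0) (nat_lit 0) (nat_lit 0) (nat_lit 0) (nat_lit 0) (nat_lit 0) (nat_lit 1) (nat_lit 0) (nat_lit 1) (nat_lit 0) (nat_lit 277) (nat_lit 305) (nat_lit 138))))) (XT.nd (nat_lit 282) (nat_lit 0) (nat_lit 0) (XT.nd (nat_lit 94) (nat_lit 0) (nat_lit 0) (XT.lf (nat_lit 0) (nat_lit 25604951767) (nat_lit 0) (nat_lit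 0) (nat_lit 0) (nat_lit 0) (nat_lit 0) (nat_lit 0) (nat_lit 1) (nat_lit 0) (nat_lit 1) (nat_lit 0) (nat_lit 278) (nat_lit 305) (nat_lit 137)) (XT.nd (nat_lit 94) (nat_lit 0) (nat_lit 0) (XT.lf (nat_lit 0) (nat_lit 25604615888) (nat_lit 0) (nat_lit 0) (nat_lit 0) (nat_lit 0) (nat_lit 0) (nat_lit 0) (nat_lit 1) (nat_lit 0) (nat_lit 1) (nat_lit 0) (nat_lit 279) (nat_lit 305) (nat_lit 136)) (XT.lf (nat_lit 0) (nat_lit 25604296004) (nat_lit 0) (nat_lit 0) (nat_lit 0) (nat_lit 0) (nat_lit 0) (nat_lit 0) (nat_lit 1) (nat_lit 0) (nat_lit 1) (nat_lit 0) (nat_lit 280) (nat_lit 305) (nat_lit 135)))) (XT.nd (nat_lit 188) (nat_lit 0) (nat_lit 0) (XT.nd (nat_lit 94) (nat_lit 0) (nat_lit 0) (XT.lf (nat_lit 0) (nat_lit 25603991352) (nat_lit 0) (nat_lit 0) (nat_lit 0) (nat_lit 0) (nat_lit 0) (nat_lit 0) (nat_lit 1) (nat_lit 0) (nat_lit 1) (nat_lit 0) (nat_lit 281) (nat_lit 305) (nat_lit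 134)) (XT.lf (nat_lit 0) (nat_lit 25603701207) (nat_lit 0) (nat_lit 0) (nat_lit 0) (nat_lit 0) (nat_lit 0) (nat_lit 0) (nat_lit 1) (nat_lit 0) (nat_lit 1) (nat_lit 0) (nat_lit 282) (nat_lit 305) (nat_lit 133))) (XT.nd (nat_lit 94) (nat_lit 0) (nat_lit 0) (XT.lf (nat_lit 0) (nat_lit 25603424878) (nat_lit 0) (nat_lit 0) (nat_lit 0) (nat_lit 0) (nat_lit 0) (nat_lit 0) (nat_lit 1) (nat_lit 0) (nat_lit 1) (nat_lit 0) (nat_lit 283) (nat_lit 305) (nat_lit 132)) (XT.lf (nat_lit 0) (nat_lit 25603161708) (nat_lit 0) (nat_lit 0) (nat_lit 0) (nat_lit 0) (nat_lit 0) (nat_lit 0) (nat_lit 1) (nat_lit 0) (nat_lit 1) (nat_lit 0) (nat_lit 284) (nat_lit 305) (nat_lit 131)))))) (XT.nd (nat_lit 658) (nat_lit 0) (nat_lit 0) (XT.nd (nat_lit 282) (nat_lit 0) (nat_lit 0) (XT.nd (nat_lit 94) (nat_lit 0) (nat_lit 0) (XT.lf (nat_lit 0) (nat_lit 25602911070) (nat_lit 0) (nat_lit 0) (nat_lit 0) (nat_lit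 0) (nat_lit 0) (nat_lit 0) (nat_lit 1) (nat_lit 0) (nat_lit 1) (nat_lit 0) (nat_lit 285) (nat_lit 305) (nat_lit 130)) (XT.nd (nat_lit 94) (nat_lit 0) (nat_lit 0) (XT.lf (nat_lit 0) (nat_lit 25602672367) (nat_lit 0) (nat_lit 0) (nat_lit 0) (nat_lit 0) (nat_lit 0) (nat_lit 0) (nat_lit 1) (nat_lit 0) (nat_lit 1) (nat_lit 0) (nat_lit 286) (nat_lit 305) (nat_lit 129)) (XT.lf (nat_lit 0) (nat_lit 25602445031) (nat_lit 0) (nat_lit 0) (nat_lit 0) (nat_lit 0) (nat_lit 0) (nat_lit 0) (nat_lit 1) (nat_lit 0) (nat_lit 1) (nat_lit 0) (nat_lit 287) (nat_lit 305) (nat_lit 128)))) (XT.nd (nat_lit 188) (nat_lit 0) (nat_lit 0) (XT.nd (nat_lit 94) (nat_lit 0) (nat_lit 0) (XT.lf (nat_lit 0) (nat_lit 25602228521) (nat_lit 0) (nat_lit 0) (nat_lit 0) (nat_lit 0) (nat_lit 0) (nat_lit 0) (nat_lit 1) (nat_lit 0) (nat_lit 1) (nat_lit 0) (nat_lit 288) (nat_lit 305) (nat_lit 127)) (XT.lf (nat_lit 0)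 (nat_lit 25602022320) (nat_lit 0) (nat_lit 0) (nat_lit 0) (nat_lit 0) (nat_lit 0) (nat_lit 0) (nat_lit 1) (nat_lit 0) (nat_lit 1) (nat_lit 0) (nat_lit 289) (nat_lit 305) (nat_lit 126))) (XT.nd (nat_lit 94) (nat_lit 0) (nat_lit 0) (XT.lf (nat_lit 0) (nat_lit 25601825939) (nat_lit 0) (nat_lit 0) (nat_lit 0) (nat_lit 0) (nat_lit 0) (nat_lit 0) (nat_lit 1) (nat_lit 0) (nat_lit 1) (nat_lit 0) (nat_lit 290) (nat_lit 305) (nat_lit 125)) (XT.lf (nat_lit 0) (nat_lit 25601638909) (nat_lit 0) (nat_lit 0) (nat_lit 0) (nat_lit 0) (nat_lit 0) (nat_lit 0) (nat_lit 1) (nat_lit 0) (nat_lit 1) (nat_lit 0) (nat_lit 291) (nat_lit 305) (nat_lit 124))))) (XT.nd (nat_lit 282) (nat_lit 0) (nat_lit 0) (XT.nd (nat_lit 94) (nat_lit 0) (nat_lit 0) (XT.lf (nat_lit 0) (nat_lit 25601460785) (nat_lit 0) (nat_lit 0) (nat_lit 0) (nat_lit 0) (nat_lit 0) (nat_lit 0) (nat_lit 1) (nat_lit 0) (nat_lit 1) (nat_lit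 0) (nat_lit 292) (nat_lit 305) (nat_lit 123)) (XT.nd (nat_lit 94) (nat_lit 0) (nat_lit 0) (XT.lf (nat_lit 0) (nat_lit 25601291143) (nat_lit 0) (nat_lit 0) (nat_lit 0) (nat_lit 0) (nat_lit 0) (nat_lit 0) (nat_lit 1) (nat_lit 0) (nat_lit 1) (nat_lit 0) (nat_lit 293) (nat_lit 305) (nat_lit 122)) (XT.lf (nat_lit 0) (nat_lit 25601129580) (nat_lit 0) (nat_lit 0) (nat_lit 0) (nat_lit 0) (nat_lit 0) (nat_lit 0) (nat_lit 1) (nat_lit 0) (nat_lit 1) (nat_lit 0) (nat_lit 294) (nat_lit 305) (nat_lit 121)))) (XT.nd (nat_lit 188) (nat_lit 0) (nat_lit 0) (XT.nd (nat_lit 94) (nat_lit 0) (nat_lit 0) (XT.lf (nat_lit 0) (nat_lit 25600975710) (nat_lit 0) (nat_lit 0) (nat_lit 0) (nat_lit 0) (nat_lit 0) (nat_lit 0) (nat_lit 1) (nat_lit 0) (nat_lit 1) (nat_lit 0) (nat_lit 295) (nat_lit 305) (nat_lit 120)) (XT.lf (nat_lit 0) (nat_lit 25600829167) (nat_lit 0) (nat_lit 0) (nat_lit 0) (nat_lit 0) (nat_lit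 0) (nat_lit 0) (nat_lit 1) (nat_lit 0) (nat_lit 1) (nat_lit 0) (nat_lit 296) (nat_lit 305) (nat_lit 119))) (XT.nd (nat_lit 94) (nat_lit 0) (nat_lit 0) (XT.lf (nat_lit 0) (nat_lit 25600689602) (nat_lit 0) (nat_lit 0) (nat_lit 0) (nat_lit 0) (nat_lit 0) (nat_lit 0) (nat_lit 1) (nat_lit 0) (nat_lit 1) (nat_lit 0) (nat_lit 297) (nat_lit 305) (nat_lit 118)) (XT.lf (nat_lit 0) (nat_lit 25600556684) (nat_lit 0) (nat_lit 0) (nat_lit 0) (nat_lit 0) (nat_lit 0) (nat_lit 0) (nat_lit 1) (nat_lit 0) (nat_lit 1) (nat_lit 0) (nat_lit 298) (nat_lit 305) (nat_lit 117))))))) (XT.nd (nat_lit 1222) (nat_lit 0) (nat_lit 0) (XT.nd (nat_lit 564) (nat_lit 0) (nat_lit 0) (XT.nd (nat_lit 282) (nat_lit 0) (nat_lit 0) (XT.nd (nat_lit 94) (nat_lit 0) (nat_lit 0) (XT.lf (nat_lit 0) (nat_lit 25600430094) (nat_lit 0) (nat_lit 0) (nat_lit 0) (nat_lit 0) (nat_lit 0) (nat_lit 0) (nat_lit 1) (nat_lit 0) (nat_lit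 1) (nat_lit 0) (nat_lit 299) (nat_lit 305) (nat_lit 116)) (XT.nd (nat_lit 94) (nat_lit 0) (nat_lit 0) (XT.lf (nat_lit 0) (nat_lit 25600309533) (nat_lit 0) (nat_lit 0) (nat_lit 0) (nat_lit 0) (nat_lit 0) (nat_lit 0) (nat_lit 1) (nat_lit 0) (nat_lit 1) (nat_lit 0) (nat_lit 300) (nat_lit 305) (nat_lit 115)) (XT.lf (nat_lit 0) (nat_lit 25600194713) (nat_lit 0) (nat_lit 0) (nat_lit 0) (nat_lit 0) (nat_lit 0) (nat_lit 0) (nat_lit 1) (nat_lit 0) (nat_lit 1) (nat_lit 0) (nat_lit 301) (nat_lit 305) (nat_lit 114)))) (XT.nd (nat_lit 94) (nat_lit 0) (nat_lit 0) (XT.lf (nat_lit 0) (nat_lit 25600085361) (nat_lit 0) (nat_lit 0) (nat_lit 0) (nat_lit 0) (nat_lit 0) (nat_lit 0) (nat_lit 1) (nat_lit 0) (nat_lit 1) (nat_lit 0) (nat_lit 302) (nat_lit 305) (nat_lit 113)) (XT.nd (nat_lit 94) (nat_lit 0) (nat_lit 0) (XT.lf (nat_lit 0) (nat_lit 25599981215) (nat_lit 0) (nat_lit 0) (nat_lit 0) (nat_lit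 0) (nat_lit 0) (nat_lit 0) (nat_lit 1) (nat_lit 0) (nat_lit 1) (nat_lit 0) (nat_lit 303) (nat_lit 305) (nat_lit 112)) (XT.lf (nat_lit 0) (nat_lit 25599882029) (nat_lit 0) (nat_lit 0) (nat_lit 0) (nat_lit 0) (nat_lit 0) (nat_lit 0) (nat_lit 1) (nat_lit 0) (nat_lit 1) (nat_lit 0) (nat_lit 304) (nat_lit 305) (nat_lit 111))))) (XT.nd (nat_lit 282) (nat_lit 0) (nat_lit 0) (XT.nd (nat_lit 94) (nat_lit 0) (nat_lit 0) (XT.lf (nat_lit 0) (nat_lit 25599787566) (nat_lit 0) (nat_lit 0) (nat_lit 0) (nat_lit 0) (nat_lit 0) (nat_lit 0) (nat_lit 1) (nat_lit 0) (nat_lit 1) (nat_lit 0) (nat_lit 305) (nat_lit 305) (nat_lit 110)) (XT.nd (nat_lit 94) (nat_lit 0) (nat_lit 0) (XT.lf (nat_lit 0) (nat_lit 25599697602) (nat_lit 0) (nat_lit 0) (nat_lit 0) (nat_lit 0) (nat_lit 0) (nat_lit 0) (nat_lit 1) (nat_lit 0) (nat_lit 1) (nat_lit 0) (nat_lit 306) (nat_lit 305) (nat_lit 109)) (XT.lf (nat_lit 0)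 (nat_lit 25599611921) (nat_lit 0) (nat_lit 0) (nat_lit 0) (nat_lit 0) (nat_lit 0) (nat_lit 0) (nat_lit 1) (nat_lit 0) (nat_lit 1) (nat_lit 0) (nat_lit 307) (nat_lit 305) (nat_lit 108)))) (XT.nd (nat_lit 188) (nat_lit 0) (nat_lit 0) (XT.nd (nat_lit 94) (nat_lit 0) (nat_lit 0) (XT.lf (nat_lit 0) (nat_lit 25599530321) (nat_lit 0) (nat_lit 0) (nat_lit 0) (nat_lit 0) (nat_lit 0) (nat_lit 0) (nat_lit 1) (nat_lit 0) (nat_lit 1) (nat_lit 0) (nat_lit 308) (nat_lit 305) (nat_lit 107)) (XT.lf (nat_lit 0) (nat_lit 25599452606) (nat_lit 0) (nat_lit 0) (nat_lit 0) (nat_lit 0) (nat_lit 0) (nat_lit 0) (nat_lit 1) (nat_lit 0) (nat_lit 1) (nat_lit 0) (nat_lit 309) (nat_lit 305) (nat_lit 106))) (XT.nd (nat_lit 94) (nat_lit 0) (nat_lit 0) (XT.lf (nat_lit 0) (nat_lit 25599378592) (nat_lit 0) (nat_lit 0) (nat_lit 0) (nat_lit 0) (nat_lit 0) (nat_lit 0) (nat_lit 1) (nat_lit 0) (nat_lit 1) (nat_lit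 0) (nat_lit 310) (nat_lit 305) (nat_lit 105)) (XT.lf (nat_lit 0) (nat_lit 25599308102) (nat_lit 0) (nat_lit 0) (nat_lit 0) (nat_lit 0) (nat_lit 0) (nat_lit 0) (nat_lit 1) (nat_lit 0) (nat_lit 1) (nat_lit 0) (nat_lit 311) (nat_lit 305) (nat_lit 104)))))) (XT.nd (nat_lit 26508) (nat_lit 0) (nat_lit 10332) (XT.nd (nat_lit 26132) (nat_lit 0) (nat_lit 10752) (XT.nd (nat_lit 94) (nat_lit 0) (nat_lit 0) (XT.lf (nat_lit 0) (nat_lit 25599240969) (nat_lit 0) (nat_lit 0) (nat_lit 0) (nat_lit 0) (nat_lit 0) (nat_lit 0) (nat_lit 1) (nat_lit 0) (nat_lit 1) (nat_lit 0) (nat_lit 312) (nat_lit 305) (nat_lit 103)) (XT.nd (nat_lit 25944) (nat_lit 0) (nat_lit 10752) (XT.lf (nat_lit 0) (nat_lit 25599177033) (nat_lit 0) (nat_lit 0) (nat_lit 0) (nat_lit 0) (nat_lit 0) (nat_lit 0) (nat_lit 1) (nat_lit 0) (nat_lit 1) (nat_lit 0) (nat_lit 313) (nat_lit 305) (nat_lit 102)) (XT.lf (nat_lit 924) (nat_lit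 13450654507) (nat_lit 0) (nat_lit 23881606160) (nat_lit 924) (nat_lit 13450654507) (nat_lit 139) (nat_lit 1) (nat_lit 128) (nat_lit 0) (nat_lit 139) (nat_lit 0) (nat_lit 108) (nat_lit 306) (nat_lit 306)))) (XT.nd (nat_lit 188) (nat_lit 0) (nat_lit 84) (XT.nd (nat_lit 94) (nat_lit 0) (nat_lit 84) (XT.lf (nat_lit 924) (nat_lit 52136416119) (nat_lit 84) (nat_lit 23496418964) (nat_lit 0) (nat_lit 23496418964) (nat_lit 139) (nat_lit 1) (nat_lit 129) (nat_lit 1) (nat_lit 128) (nat_lit 0) (nat_lit 109) (nat_lit 306) (nat_lit 305)) (XT.lf (nat_lit 924) (nat_lit 24847430905) (nat_lit 0) (nat_lit 47073143600) (nat_lit 840) (nat_lit 24847430905) (nat_lit 140) (nat_lit 1) (nat_lit 129) (nat_lit 1) (nat_lit 139) (nat_lit 1) (nat_lit 110) (nat_lit 306) (nat_lit 304))) (XT.nd (nat_lit 94) (nat_lit 0) (nat_lit 84) (XT.lf (nat_lit 924) (nat_lit 46610327740) (nat_lit 84) (nat_lit 23936357477)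 (nat_lit 0) (nat_lit 23936357477) (nat_lit 140) (nat_lit 1) (nat_lit 130) (nat_lit 1) (nat_lit 129) (nat_lit 1) (nat_lit 111) (nat_lit 306) (nat_lit 303)) (XT.lf (nat_lit 924) (nat_lit 21454286256) (nat_lit 0) (nat_lit 49361929323) (nat_lit 840) (nat_lit 21454286256) (nat_lit 141) (nat_lit 1) (nat_lit 130) (nat_lit 1) (nat_lit 140) (nat_lit 1) (nat_lit 112) (nat_lit 306) (nat_lit 302))))) (XT.nd (nat_lit 282) (nat_lit 588) (nat_lit 0) (XT.nd (nat_lit 94) (nat_lit 0) (nat_lit 84) (XT.lf (nat_lit 924) (nat_lit 38586931191) (nat_lit 84) (nat_lit 25769238242) (nat_lit 0) (nat_lit 25769238242) (nat_lit 141) (nat_lit 1) (nat_lit 131) (nat_lit 1) (nat_lit 130) (nat_lit 1) (nat_lit 113) (nat_lit 306) (nat_lit 301)) (XT.nd (nat_lit 94) (nat_lit 0) (nat_lit 0) (XT.lf (nat_lit 924) (nat_lit 16919254836) (nat_lit 0) (nat_lit 54213828679) (nat_lit 840) (nat_lit 16919254836) (nat_lit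 142) (nat_lit 1) (nat_lit 131) (nat_lit 1) (nat_lit 141) (nat_lit 1) (nat_lit 114) (nat_lit 306) (nat_lit 300)) (XT.lf (nat_lit 924) (nat_lit 28441786872) (nat_lit 84) (nat_lit 28797280428) (nat_lit 0) (nat_lit 28797280428) (nat_lit 142) (nat_lit 1) (nat_lit 132) (nat_lit 1) (nat_lit 131) (nat_lit 1) (nat_lit 115) (nat_lit 306) (nat_lit 299)))) (XT.nd (nat_lit 188) (nat_lit 756) (nat_lit 0) (XT.nd (nat_lit 94) (nat_lit 0) (nat_lit 0) (XT.lf (nat_lit 924) (nat_lit 11417896035) (nat_lit 0) (nat_lit 61258361788) (nat_lit 840) (nat_lit 11417896035) (nat_lit 143) (nat_lit 1) (nat_lit 132) (nat_lit 1) (nat_lit 142) (nat_lit 1) (nat_lit 116) (nat_lit 306) (nat_lit 298)) (XT.lf (nat_lit 924) (nat_lit 16508711309) (nat_lit 84) (nat_lit 32844342334) (nat_lit 0) (nat_lit 32844342334) (nat_lit 143) (nat_lit 1) (nat_lit 133) (nat_lit 1) (nat_lit 132) (nat_lit 1) (nat_lit 117) (nat_lit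 306) (nat_lit 297))) (XT.nd (nat_lit 94) (nat_lit 840) (nat_lit 0) (XT.lf (nat_lit 84) (nat_lit 5106142748) (nat_lit 0) (nat_lit 70165787043) (nat_lit 840) (nat_lit 5106142748) (nat_lit 134) (nat_lit 1) (nat_lit 133) (nat_lit 1) (nat_lit 143) (nat_lit 1) (nat_lit 118) (nat_lit 306) (nat_lit 296)) (XT.lf (nat_lit 924) (nat_lit 3083983241) (nat_lit 0) (nat_lit 37753754767) (nat_lit 840) (nat_lit 37753754767) (nat_lit 134) (nat_lit 1) (nat_lit 123) (nat_lit 1) (nat_lit 133) (nat_lit 1) (nat_lit 119) (nat_lit 306) (nat_lit 295))))))))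
noncomputable def ec201 : XT := (XT.nd (nat_lit 2538) (nat_lit 2940) (nat_lit 0) (XT.nd (nat_lit 1222) (nat_lit 2436) (nat_lit 0) (XT.nd (nat_lit 564) (nat_lit 1428) (nat_lit 0) (XT.nd (nat_lit 282) (nat_lit 420) (nat_lit 0) (XT.nd (nat_lit 94) (nat_lit 420) (nat_lit 0) (XT.lf (nat_lit 588) (nat_lit 73186806177) (nat_lit 0) (nat_lit 1847430824) (nat_lit 504) (nat_lit 1847430824) (nat_lit 123) (nat_lit 1) (nat_lit 116) (nat_lit 1) (nat_lit 122) (nat_lit 1) (nat_lit 120) (nat_lit 306) (nat_lit 294)) (XT.nd (nat_lit 94) (nat_lit 420) (nat_lit 0) (XT.lf (nat_lit 84) (nat_lit 31997144283) (nat_lit 0) (nat_lit 11199549148) (nat_lit 588) (nat_lit 31997144283) (nat_lit 117) (nat_lit 1) (nat_lit 116) (nat_lit 1) (nat_lit 123) (nat_lit 1) (nat_lit 121) (nat_lit 306) (nat_lit 293)) (XT.lf (nat_lit 504) (nat_lit 55058872001) (nat_lit 0) (nat_lit 9259453331) (nat_lit 420) (nat_lit 9259453331)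 (nat_lit 117) (nat_lit 1) (nat_lit 111) (nat_lit 1) (nat_lit 116) (nat_lit 1) (nat_lit 122) (nat_lit 306) (nat_lit 292)))) (XT.nd (nat_lit 94) (nat_lit 420) (nat_lit 0) (XT.lf (nat_lit 84) (nat_lit 22823173501) (nat_lit 0) (nat_lit 26349346636) (nat_lit 504) (nat_lit 22823173501) (nat_lit 112) (nat_lit 1) (nat_lit 111) (nat_lit 1) (nat_lit 117) (nat_lit 1) (nat_lit 123) (nat_lit 306) (nat_lit 291)) (XT.nd (nat_lit 94) (nat_lit 0) (nat_lit 0) (XT.lf (nat_lit 504) (nat_lit 36257048019) (nat_lit 0) (nat_lit 17105830192) (nat_lit 420) (nat_lit 17105830192) (nat_lit 112) (nat_lit 1) (nat_lit 106) (nat_lit 1) (nat_lit 111) (nat_lit 1) (nat_lit 124) (nat_lit 306) (nat_lit 290)) (XT.lf (nat_lit 84) (nat_lit 13360240337) (nat_lit 0) (nat_lit 42265652369) (nat_lit 504) (nat_lit 13360240337) (nat_lit 107) (nat_lit 1) (nat_lit 106) (nat_lit 1) (nat_lit 112) (nat_lit 1) (nat_lit 125)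 (nat_lit 306) (nat_lit 289))))) (XT.nd (nat_lit 282) (nat_lit 672) (nat_lit 0) (XT.nd (nat_lit 94) (nat_lit 420) (nat_lit 0) (XT.lf (nat_lit 420) (nat_lit 16956331514) (nat_lit 0) (nat_lit 25292681449) (nat_lit 336) (nat_lit 25292681449) (nat_lit 107) (nat_lit 1) (nat_lit 102) (nat_lit 1) (nat_lit 106) (nat_lit 1) (nat_lit 126) (nat_lit 306) (nat_lit 288)) (XT.nd (nat_lit 94) (nat_lit 420) (nat_lit 0) (XT.lf (nat_lit 84) (nat_lit 3689584594) (nat_lit 0) (nat_lit 58773632591) (nat_lit 420) (nat_lit 3689584594) (nat_lit 103) (nat_lit 1) (nat_lit 102) (nat_lit 1) (nat_lit 107) (nat_lit 1) (nat_lit 127) (nat_lit 306) (nat_lit 287)) (XT.lf (nat_lit 84) (nat_lit 31089499997) (nat_lit 0) (nat_lit 2603806016) (nat_lit 420) (nat_lit 31089499997) (nat_lit 98) (nat_lit 1) (nat_lit 97) (nat_lit 1) (nat_lit 102) (nat_lit 1) (nat_lit 128) (nat_lit 306) (nat_lit 286)))) (XT.nd (nat_lit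 188) (nat_lit 336) (nat_lit 0) (XT.nd (nat_lit 94) (nat_lit 0) (nat_lit 0) (XT.lf (nat_lit 420) (nat_lit 51426935860) (nat_lit 0) (nat_lit 6019023588) (nat_lit 336) (nat_lit 6019023588) (nat_lit 98) (nat_lit 1) (nat_lit 93) (nat_lit 1) (nat_lit 97) (nat_lit 1) (nat_lit 129) (nat_lit 306) (nat_lit 285)) (XT.lf (nat_lit 84) (nat_lit 20171905129) (nat_lit 0) (nat_lit 21825957352) (nat_lit 420) (nat_lit 20171905129) (nat_lit 94) (nat_lit 1) (nat_lit 93) (nat_lit 1) (nat_lit 98) (nat_lit 1) (nat_lit 130) (nat_lit 306) (nat_lit 284))) (XT.nd (nat_lit 94) (nat_lit 0) (nat_lit 0) (XT.lf (nat_lit 420) (nat_lit 29436420972) (nat_lit 0) (nat_lit 15741522364) (nat_lit 336) (nat_lit 15741522364) (nat_lit 94) (nat_lit 1) (nat_lit 89) (nat_lit 1) (nat_lit 93) (nat_lit 1) (nat_lit 131) (nat_lit 306) (nat_lit 283)) (XT.lf (nat_lit 84) (nat_lit 9282933448) (nat_lit 0) (nat_lit 41139855827)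 (nat_lit 420) (nat_lit 9282933448) (nat_lit 90) (nat_lit 1) (nat_lit 89) (nat_lit 1) (nat_lit 94) (nat_lit 1) (nat_lit 132) (nat_lit 306) (nat_lit 282)))))) (XT.nd (nat_lit 658) (nat_lit 924) (nat_lit 0) (XT.nd (nat_lit 282) (nat_lit 840) (nat_lit 0) (XT.nd (nat_lit 94) (nat_lit 420) (nat_lit 0) (XT.lf (nat_lit 336) (nat_lit 7549412193) (nat_lit 0) (nat_lit 25484383704) (nat_lit 252) (nat_lit 25484383704) (nat_lit 90) (nat_lit 1) (nat_lit 86) (nat_lit 1) (nat_lit 89) (nat_lit 1) (nat_lit 133) (nat_lit 306) (nat_lit 281)) (XT.nd (nat_lit 94) (nat_lit 0) (nat_lit 0) (XT.lf (nat_lit 420) (nat_lit 54359709747) (nat_lit 0) (nat_lit 1508377640) (nat_lit 336) (nat_lit 1508377640) (nat_lit 86) (nat_lit 1) (nat_lit 81) (nat_lit 1) (nat_lit 85) (nat_lit 1) (nat_lit 134) (nat_lit 306) (nat_lit 280)) (XT.lf (nat_lit 84) (nat_lit 21271356298) (nat_lit 0) (nat_lit 13698357109) (nat_lit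 420) (nat_lit 21271356298) (nat_lit 82) (nat_lit 1) (nat_lit 81) (nat_lit 1) (nat_lit 86) (nat_lit 1) (nat_lit 135) (nat_lit 306) (nat_lit 279)))) (XT.nd (nat_lit 188) (nat_lit 588) (nat_lit 0) (XT.nd (nat_lit 94) (nat_lit 0) (nat_lit 0) (XT.lf (nat_lit 336) (nat_lit 31067488353) (nat_lit 0) (nat_lit 12040865732) (nat_lit 252) (nat_lit 12040865732) (nat_lit 82) (nat_lit 1) (nat_lit 78) (nat_lit 1) (nat_lit 81) (nat_lit 1) (nat_lit 136) (nat_lit 306) (nat_lit 278)) (XT.lf (nat_lit 84) (nat_lit 9814700135) (nat_lit 0) (nat_lit 34455709980) (nat_lit 336) (nat_lit 9814700135) (nat_lit 79) (nat_lit 1) (nat_lit 78) (nat_lit 1) (nat_lit 82) (nat_lit 1) (nat_lit 137) (nat_lit 306) (nat_lit 277))) (XT.nd (nat_lit 94) (nat_lit 336) (nat_lit 0) (XT.lf (nat_lit 336) (nat_lit 8180245793) (nat_lit 0) (nat_lit 22432481549) (nat_lit 252) (nat_lit 22432481549) (nat_lit 79) (nat_lit 1) (nat_lit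 75) (nat_lit 1) (nat_lit 78) (nat_lit 1) (nat_lit 138) (nat_lit 306) (nat_lit 276)) (XT.lf (nat_lit 336) (nat_lit 49232221705) (nat_lit 0) (nat_lit 1405859740) (nat_lit 252) (nat_lit 1405859740) (nat_lit 75) (nat_lit 1) (nat_lit 71) (nat_lit 1) (nat_lit 74) (nat_lit 1) (nat_lit 139) (nat_lit 306) (nat_lit 275))))) (XT.nd (nat_lit 282) (nat_lit 672) (nat_lit 0) (XT.nd (nat_lit 94) (nat_lit 252) (nat_lit 0) (XT.lf (nat_lit 84) (nat_lit 18623139549) (nat_lit 0) (nat_lit 13799559408) (nat_lit 336) (nat_lit 18623139549) (nat_lit 72) (nat_lit 1) (nat_lit 71) (nat_lit 1) (nat_lit 75) (nat_lit 1) (nat_lit 140) (nat_lit 306) (nat_lit 274)) (XT.nd (nat_lit 94) (nat_lit 0) (nat_lit 0) (XT.lf (nat_lit 336) (nat_lit 25608522124) (nat_lit 0) (nat_lit 12238071831) (nat_lit 252) (nat_lit 12238071831) (nat_lit 72) (nat_lit 1) (nat_lit 68) (nat_lit 1) (nat_lit 71) (nat_lit 1) (nat_lit 141)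 (nat_lit 306) (nat_lit 273)) (XT.lf (nat_lit 84) (nat_lit 7052566107) (nat_lit 0) (nat_lit 35044139940) (nat_lit 336) (nat_lit 7052566107) (nat_lit 69) (nat_lit 1) (nat_lit 68) (nat_lit 1) (nat_lit 72) (nat_lit 1) (nat_lit 142) (nat_lit 306) (nat_lit 272)))) (XT.nd (nat_lit 188) (nat_lit 168) (nat_lit 0) (XT.nd (nat_lit 94) (nat_lit 336) (nat_lit 0) (XT.lf (nat_lit 252) (nat_lit 2584294714) (nat_lit 0) (nat_lit 22823605371) (nat_lit 168) (nat_lit 22823605371) (nat_lit 69) (nat_lit 1) (nat_lit 66) (nat_lit 1) (nat_lit 68) (nat_lit 1) (nat_lit 143) (nat_lit 306) (nat_lit 271)) (XT.lf (nat_lit 336) (nat_lit 39047826589) (nat_lit 0) (nat_lit 4147162215) (nat_lit 252) (nat_lit 4147162215) (nat_lit 66) (nat_lit 1) (nat_lit 62) (nat_lit 1) (nat_lit 65) (nat_lit 1) (nat_lit 144) (nat_lit 306) (nat_lit 270))) (XT.nd (nat_lit 94) (nat_lit 168) (nat_lit 0) (XT.lf (nat_lit 84) (nat_lit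 13638478944) (nat_lit 0) (nat_lit 19185785270) (nat_lit 336) (nat_lit 13638478944) (nat_lit 63) (nat_lit 1) (nat_lit 62) (nat_lit 1) (nat_lit 66) (nat_lit 1) (nat_lit 145) (nat_lit 306) (nat_lit 269)) (XT.lf (nat_lit 252) (nat_lit 15757158594) (nat_lit 0) (nat_lit 14926658820) (nat_lit 168) (nat_lit 14926658820) (nat_lit 63) (nat_lit 1) (nat_lit 60) (nat_lit 1) (nat_lit 62) (nat_lit 1) (nat_lit 146) (nat_lit 306) (nat_lit 268))))))) (XT.nd (nat_lit 1222) (nat_lit 1428) (nat_lit 0) (XT.nd (nat_lit 564) (nat_lit 672) (nat_lit 0) (XT.nd (nat_lit 282) (nat_lit 420) (nat_lit 0) (XT.nd (nat_lit 94) (nat_lit 420) (nat_lit 0) (XT.lf (nat_lit 84) (nat_lit 2263803548) (nat_lit 0) (nat_lit 40258885683) (nat_lit 252) (nat_lit 2263803548) (nat_lit 61) (nat_lit 1) (nat_lit 60) (nat_lit 1) (nat_lit 63) (nat_lit 1) (nat_lit 147) (nat_lit 306) (nat_lit 267)) (XT.nd (nat_lit 94) (nat_lit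 168) (nat_lit 0) (XT.lf (nat_lit 84) (nat_lit 18683567859) (nat_lit 0) (nat_lit 6598368845) (nat_lit 252) (nat_lit 18683567859) (nat_lit 58) (nat_lit 1) (nat_lit 57) (nat_lit 1) (nat_lit 60) (nat_lit 1) (nat_lit 148) (nat_lit 306) (nat_lit 266)) (XT.lf (nat_lit 252) (nat_lit 25945408550) (nat_lit 0) (nat_lit 8613172673) (nat_lit 168) (nat_lit 8613172673) (nat_lit 58) (nat_lit 1) (nat_lit 55) (nat_lit 1) (nat_lit 57) (nat_lit 1) (nat_lit 149) (nat_lit 306) (nat_lit 265)))) (XT.nd (nat_lit 94) (nat_lit 420) (nat_lit 0) (XT.lf (nat_lit 84) (nat_lit 7321119292) (nat_lit 0) (nat_lit 27753308268) (nat_lit 252) (nat_lit 7321119292) (nat_lit 56) (nat_lit 1) (nat_lit 55) (nat_lit 1) (nat_lit 58) (nat_lit 1) (nat_lit 150) (nat_lit 306) (nat_lit 264)) (XT.nd (nat_lit 94) (nat_lit 252) (nat_lit 0) (XT.lf (nat_lit 252) (nat_lit 3429680803) (nat_lit 0) (nat_lit 19102652670) (nat_lit 168)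 (nat_lit 19102652670) (nat_lit 56) (nat_lit 1) (nat_lit 53) (nat_lit 1) (nat_lit 55) (nat_lit 1) (nat_lit 151) (nat_lit 306) (nat_lit 263)) (XT.lf (nat_lit 252) (nat_lit 33709118660) (nat_lit 0) (nat_lit 3593672304) (nat_lit 168) (nat_lit 3593672304) (nat_lit 53) (nat_lit 1) (nat_lit 50) (nat_lit 1) (nat_lit 52) (nat_lit 1) (nat_lit 152) (nat_lit 306) (nat_lit 262))))) (XT.nd (nat_lit 282) (nat_lit 504) (nat_lit 0) (XT.nd (nat_lit 94) (nat_lit 168) (nat_lit 0) (XT.lf (nat_lit 84) (nat_lit 11221848208) (nat_lit 0) (nat_lit 17720547190) (nat_lit 252) (nat_lit 11221848208) (nat_lit 51) (nat_lit 1) (nat_lit 50) (nat_lit 1) (nat_lit 53) (nat_lit 1) (nat_lit 153) (nat_lit 306) (nat_lit 261)) (XT.nd (nat_lit 94) (nat_lit 0) (nat_lit 0) (XT.lf (nat_lit 252) (nat_lit 11428907572) (nat_lit 0) (nat_lit 14012186860) (nat_lit 168) (nat_lit 14012186860) (nat_lit 51) (nat_lit 1) (nat_lit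 48) (nat_lit 1) (nat_lit 50) (nat_lit 1) (nat_lit 154) (nat_lit 306) (nat_lit 260)) (XT.lf (nat_lit 84) (nat_lit 375636671) (nat_lit 0) (nat_lit 38015979124) (nat_lit 252) (nat_lit 375636671) (nat_lit 49) (nat_lit 1) (nat_lit 48) (nat_lit 1) (nat_lit 51) (nat_lit 1) (nat_lit 155) (nat_lit 306) (nat_lit 259)))) (XT.nd (nat_lit 188) (nat_lit 168) (nat_lit 0) (XT.nd (nat_lit 94) (nat_lit 168) (nat_lit 0) (XT.lf (nat_lit 84) (nat_lit 14183428243) (nat_lit 0) (nat_lit 9710006403) (nat_lit 168) (nat_lit 14183428243) (nat_lit 47) (nat_lit 1) (nat_lit 46) (nat_lit 1) (nat_lit 48) (nat_lit 1) (nat_lit 156) (nat_lit 306) (nat_lit 258)) (XT.lf (nat_lit 252) (nat_lit 17600019771) (nat_lit 0) (nat_lit 9905372459) (nat_lit 168) (nat_lit 9905372459) (nat_lit 47) (nat_lit 1) (nat_lit 44) (nat_lit 1) (nat_lit 46) (nat_lit 1) (nat_lit 157) (nat_lit 306) (nat_lit 257))) (XT.nd (nat_lit 94)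 (nat_lit 168) (nat_lit 0) (XT.lf (nat_lit 84) (nat_lit 3528682326) (nat_lit 0) (nat_lit 29705281518) (nat_lit 252) (nat_lit 3528682326) (nat_lit 45) (nat_lit 1) (nat_lit 44) (nat_lit 1) (nat_lit 47) (nat_lit 1) (nat_lit 158) (nat_lit 306) (nat_lit 256)) (XT.lf (nat_lit 84) (nat_lit 16384156707) (nat_lit 0) (nat_lit 3351559036) (nat_lit 168) (nat_lit 16384156707) (nat_lit 43) (nat_lit 1) (nat_lit 42) (nat_lit 1) (nat_lit 44) (nat_lit 1) (nat_lit 159) (nat_lit 306) (nat_lit 255)))))) (XT.nd (nat_lit 658) (nat_lit 588) (nat_lit 0) (XT.nd (nat_lit 282) (nat_lit 588) (nat_lit 0) (XT.nd (nat_lit 94) (nat_lit 84) (nat_lit 0) (XT.lf (nat_lit 252) (nat_lit 22286655276) (nat_lit 0) (nat_lit 6603947437) (nat_lit 168) (nat_lit 6603947437) (nat_lit 43) (nat_lit 1) (nat_lit 40) (nat_lit 1) (nat_lit 42) (nat_lit 1) (nat_lit 160) (nat_lit 306) (nat_lit 254)) (XT.nd (nat_lit 94) (nat_lit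 84) (nat_lit 0) (XT.lf (nat_lit 84) (nat_lit 5969384355) (nat_lit 0) (nat_lit 22942838535) (nat_lit 252) (nat_lit 5969384355) (nat_lit 41) (nat_lit 1) (nat_lit 40) (nat_lit 1) (nat_lit 43) (nat_lit 1) (nat_lit 161) (nat_lit 306) (nat_lit 253)) (XT.lf (nat_lit 168) (nat_lit 1713592865) (nat_lit 0) (nat_lit 16283319002) (nat_lit 84) (nat_lit 16283319002) (nat_lit 41) (nat_lit 1) (nat_lit 39) (nat_lit 1) (nat_lit 40) (nat_lit 1) (nat_lit 162) (nat_lit 306) (nat_lit 252)))) (XT.nd (nat_lit 188) (nat_lit 336) (nat_lit 0) (XT.nd (nat_lit 94) (nat_lit 0) (nat_lit 0) (XT.lf (nat_lit 252) (nat_lit 25770596406) (nat_lit 0) (nat_lit 3961439139) (nat_lit 168) (nat_lit 3961439139) (nat_lit 39) (nat_lit 1) (nat_lit 36) (nat_lit 1) (nat_lit 38) (nat_lit 1) (nat_lit 163) (nat_lit 306) (nat_lit 251)) (XT.lf (nat_lit 84) (nat_lit 7831340303) (nat_lit 0) (nat_lit 17450587104) (nat_lit 252)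 (nat_lit 7831340303) (nat_lit 37) (nat_lit 1) (nat_lit 36) (nat_lit 1) (nat_lit 39) (nat_lit 1) (nat_lit 164) (nat_lit 306) (nat_lit 250))) (XT.nd (nat_lit 94) (nat_lit 252) (nat_lit 0) (XT.lf (nat_lit 168) (nat_lit 5754633050) (nat_lit 0) (nat_lit 13396326841) (nat_lit 84) (nat_lit 13396326841) (nat_lit 37) (nat_lit 1) (nat_lit 35) (nat_lit 1) (nat_lit 36) (nat_lit 1) (nat_lit 165) (nat_lit 306) (nat_lit 249)) (XT.lf (nat_lit 252) (nat_lit 28282781018) (nat_lit 0) (nat_lit 1857519345) (nat_lit 168) (nat_lit 1857519345) (nat_lit 35) (nat_lit 1) (nat_lit 32) (nat_lit 1) (nat_lit 34) (nat_lit 1) (nat_lit 166) (nat_lit 306) (nat_lit 248))))) (XT.nd (nat_lit 282) (nat_lit 252) (nat_lit 0) (XT.nd (nat_lit 94) (nat_lit 336) (nat_lit 0) (XT.lf (nat_lit 84) (nat_lit 9224113546) (nat_lit 0) (nat_lit 12999933637) (nat_lit 252) (nat_lit 9224113546) (nat_lit 33) (nat_lit 1) (nat_lit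 32) (nat_lit 1) (nat_lit 35) (nat_lit 1) (nat_lit 167) (nat_lit 306) (nat_lit 247)) (XT.nd (nat_lit 94) (nat_lit 252) (nat_lit 0) (XT.lf (nat_lit 168) (nat_lit 8872308908) (nat_lit 0) (nat_lit 11021191245) (nat_lit 84) (nat_lit 11021191245) (nat_lit 33) (nat_lit 1) (nat_lit 31) (nat_lit 1) (nat_lit 32) (nat_lit 1) (nat_lit 168) (nat_lit 306) (nat_lit 246)) (XT.lf (nat_lit 252) (nat_lit 30012359249) (nat_lit 0) (nat_lit 193360583) (nat_lit 168) (nat_lit 193360583) (nat_lit 31) (nat_lit 1) (nat_lit 28) (nat_lit 1) (nat_lit 30) (nat_lit 1) (nat_lit 169) (nat_lit 306) (nat_lit 245)))) (XT.nd (nat_lit 188) (nat_lit 168) (nat_lit 0) (XT.nd (nat_lit 94) (nat_lit 84) (nat_lit 0) (XT.lf (nat_lit 84) (nat_lit 10237511039) (nat_lit 0) (nat_lit 9402975138) (nat_lit 252) (nat_lit 10237511039) (nat_lit 29) (nat_lit 1) (nat_lit 28) (nat_lit 1) (nat_lit 31) (nat_lit 1) (nat_lit 170) (nat_lit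 306) (nat_lit 244)) (XT.lf (nat_lit 168) (nat_lit 11240182931) (nat_lit 0) (nat_lit 9067161312) (nat_lit 84) (nat_lit 9067161312) (nat_lit 29) (nat_lit 1) (nat_lit 27) (nat_lit 1) (nat_lit 28) (nat_lit 1) (nat_lit 171) (nat_lit 306) (nat_lit 243))) (XT.nd (nat_lit 94) (nat_lit 168) (nat_lit 0) (XT.lf (nat_lit 0) (nat_lit 1130416367) (nat_lit 0) (nat_lit 26625382416) (nat_lit 168) (nat_lit 1130416367) (nat_lit 27) (nat_lit 3) (nat_lit 27) (nat_lit 1) (nat_lit 29) (nat_lit 1) (nat_lit 172) (nat_lit 306) (nat_lit 242)) (XT.lf (nat_lit 84) (nat_lit 10945101855) (nat_lit 0) (nat_lit 6505277166) (nat_lit 168) (nat_lit 10945101855) (nat_lit 26) (nat_lit 1) (nat_lit 25) (nat_lit 1) (nat_lit 27) (nat_lit 1) (nat_lit 173) (nat_lit 306) (nat_lit 241))))))))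
noncomputable def ec202 : XT := (XT.nd (nat_lit 2538) (nat_lit 0) (nat_lit 0) (XT.nd (nat_lit 1222) (nat_lit 1008) (nat_lit 0) (XT.nd (nat_lit 564) (nat_lit 588) (nat_lit 0) (XT.nd (nat_lit 282) (nat_lit 252) (nat_lit 0) (XT.nd (nat_lit 94) (nat_lit 168) (nat_lit 0) (XT.lf (nat_lit 168) (nat_lit 13000576252) (nat_lit 0) (nat_lit 7459576051) (nat_lit 84) (nat_lit 7459576051) (nat_lit 26) (nat_lit 1) (nat_lit 24) (nat_lit 1) (nat_lit 25) (nat_lit 1) (nat_lit 174) (nat_lit 306) (nat_lit 240)) (XT.nd (nat_lit 94) (nat_lit 168) (nat_lit 0) (XT.lf (nat_lit 0) (nat_lit 2160570093) (nat_lit 0) (nat_lit 23135341756) (nat_lit 168) (nat_lit 2160570093) (nat_lit 24) (nat_lit 3) (nat_lit 24) (nat_lit 1) (nat_lit 26) (nat_lit 1) (nat_lit 175) (nat_lit 306) (nat_lit 239)) (XT.lf (nat_lit 84) (nat_lit 11407111133) (nat_lit 0) (nat_lit 4179932624) (nat_lit 168) (nat_lit 11407111133) (nat_lit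 23) (nat_lit 1) (nat_lit 22) (nat_lit 1) (nat_lit 24) (nat_lit 1) (nat_lit 176) (nat_lit 306) (nat_lit 238)))) (XT.nd (nat_lit 94) (nat_lit 168) (nat_lit 0) (XT.lf (nat_lit 168) (nat_lit 14270130006) (nat_lit 0) (nat_lit 6137011678) (nat_lit 84) (nat_lit 6137011678) (nat_lit 23) (nat_lit 1) (nat_lit 21) (nat_lit 1) (nat_lit 22) (nat_lit 1) (nat_lit 177) (nat_lit 306) (nat_lit 237)) (XT.nd (nat_lit 94) (nat_lit 168) (nat_lit 0) (XT.lf (nat_lit 0) (nat_lit 2949481362) (nat_lit 0) (nat_lit 20205477918) (nat_lit 168) (nat_lit 2949481362) (nat_lit 21) (nat_lit 3) (nat_lit 21) (nat_lit 1) (nat_lit 23) (nat_lit 1) (nat_lit 178) (nat_lit 306) (nat_lit 236)) (XT.lf (nat_lit 84) (nat_lit 11672800226) (nat_lit 0) (nat_lit 2322674247) (nat_lit 168) (nat_lit 11672800226) (nat_lit 20) (nat_lit 1) (nat_lit 19) (nat_lit 1) (nat_lit 21) (nat_lit 1) (nat_lit 179) (nat_lit 306) (nat_lit 235)))))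 (XT.nd (nat_lit 282) (nat_lit 336) (nat_lit 0) (XT.nd (nat_lit 94) (nat_lit 168) (nat_lit 0) (XT.lf (nat_lit 168) (nat_lit 15144379606) (nat_lit 0) (nat_lit 5048934695) (nat_lit 84) (nat_lit 5048934695) (nat_lit 20) (nat_lit 1) (nat_lit 18) (nat_lit 1) (nat_lit 19) (nat_lit 1) (nat_lit 180) (nat_lit 306) (nat_lit 234)) (XT.nd (nat_lit 94) (nat_lit 168) (nat_lit 0) (XT.lf (nat_lit 0) (nat_lit 3542712283) (nat_lit 0) (nat_lit 17739263354) (nat_lit 168) (nat_lit 3542712283) (nat_lit 18) (nat_lit 3) (nat_lit 18) (nat_lit 1) (nat_lit 20) (nat_lit 1) (nat_lit 181) (nat_lit 306) (nat_lit 233)) (XT.lf (nat_lit 84) (nat_lit 11782424174) (nat_lit 0) (nat_lit 847853978) (nat_lit 168) (nat_lit 11782424174) (nat_lit 17) (nat_lit 1) (nat_lit 16) (nat_lit 1) (nat_lit 18) (nat_lit 1) (nat_lit 182) (nat_lit 306) (nat_lit 232)))) (XT.nd (nat_lit 188) (nat_lit 252) (nat_lit 0) (XT.nd (nat_lit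 94) (nat_lit 0) (nat_lit 0) (XT.lf (nat_lit 168) (nat_lit 15701516994) (nat_lit 0) (nat_lit 4153771069) (nat_lit 84) (nat_lit 4153771069) (nat_lit 17) (nat_lit 1) (nat_lit 15) (nat_lit 1) (nat_lit 16) (nat_lit 1) (nat_lit 183) (nat_lit 306) (nat_lit 231)) (XT.lf (nat_lit 0) (nat_lit 3977614036) (nat_lit 0) (nat_lit 15657151736) (nat_lit 168) (nat_lit 3977614036) (nat_lit 15) (nat_lit 3) (nat_lit 15) (nat_lit 1) (nat_lit 17) (nat_lit 1) (nat_lit 184) (nat_lit 306) (nat_lit 230))) (XT.nd (nat_lit 94) (nat_lit 168) (nat_lit 0) (XT.lf (nat_lit 84) (nat_lit 325275345) (nat_lit 0) (nat_lit 11448644583) (nat_lit 84) (nat_lit 11448644583) (nat_lit 15) (nat_lit 3) (nat_lit 14) (nat_lit 1) (nat_lit 15) (nat_lit 1) (nat_lit 185) (nat_lit 306) (nat_lit 229)) (XT.lf (nat_lit 168) (nat_lit 16005484901) (nat_lit 0) (nat_lit 3417317738) (nat_lit 84) (nat_lit 3417317738) (nat_lit 14) (nat_lit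 1) (nat_lit 12) (nat_lit 1) (nat_lit 13) (nat_lit 1) (nat_lit 186) (nat_lit 306) (nat_lit 228)))))) (XT.nd (nat_lit 658) (nat_lit 504) (nat_lit 0) (XT.nd (nat_lit 282) (nat_lit 252) (nat_lit 0) (XT.nd (nat_lit 94) (nat_lit 252) (nat_lit 0) (XT.lf (nat_lit 0) (nat_lit 4284788980) (nat_lit 0) (nat_lit 13893573551) (nat_lit 168) (nat_lit 4284788980) (nat_lit 12) (nat_lit 3) (nat_lit 12) (nat_lit 1) (nat_lit 14) (nat_lit 1) (nat_lit 187) (nat_lit 306) (nat_lit 227)) (XT.nd (nat_lit 94) (nat_lit 168) (nat_lit 0) (XT.lf (nat_lit 84) (nat_lit 1263671932) (nat_lit 0) (nat_lit 10414895332) (nat_lit 84) (nat_lit 10414895332) (nat_lit 12) (nat_lit 3) (nat_lit 11) (nat_lit 1) (nat_lit 12) (nat_lit 1) (nat_lit 188) (nat_lit 306) (nat_lit 226)) (XT.lf (nat_lit 168) (nat_lit 16108521574) (nat_lit 0) (nat_lit 2811435760) (nat_lit 84) (nat_lit 2811435760) (nat_lit 11) (nat_lit 1) (nat_lit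 9) (nat_lit 1) (nat_lit 10) (nat_lit 1) (nat_lit 189) (nat_lit 306) (nat_lit 225)))) (XT.nd (nat_lit 188) (nat_lit 168) (nat_lit 0) (XT.nd (nat_lit 94) (nat_lit 84) (nat_lit 0) (XT.lf (nat_lit 0) (nat_lit 4489293231) (nat_lit 0) (nat_lit 12394464077) (nat_lit 168) (nat_lit 4489293231) (nat_lit 9) (nat_lit 3) (nat_lit 9) (nat_lit 1) (nat_lit 11) (nat_lit 1) (nat_lit 190) (nat_lit 306) (nat_lit 224)) (XT.lf (nat_lit 84) (nat_lit 1988261360) (nat_lit 0) (nat_lit 9516995499) (nat_lit 84) (nat_lit 9516995499) (nat_lit 9) (nat_lit 3) (nat_lit 8) (nat_lit 1) (nat_lit 9) (nat_lit 1) (nat_lit 191) (nat_lit 306) (nat_lit 223))) (XT.nd (nat_lit 94) (nat_lit 0) (nat_lit 0) (XT.lf (nat_lit 168) (nat_lit 16053253455) (nat_lit 0) (nat_lit 2312975157) (nat_lit 84) (nat_lit 2312975157) (nat_lit 8) (nat_lit 1) (nat_lit 6) (nat_lit 1) (nat_lit 7) (nat_lit 1) (nat_lit 192) (nat_lit 306) (nat_lit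 222)) (XT.lf (nat_lit 0) (nat_lit 4611625730) (nat_lit 0) (nat_lit 11115229349) (nat_lit 168) (nat_lit 4611625730) (nat_lit 6) (nat_lit 3) (nat_lit 6) (nat_lit 1) (nat_lit 8) (nat_lit 1) (nat_lit 193) (nat_lit 306) (nat_lit 221))))) (XT.nd (nat_lit 282) (nat_lit 252) (nat_lit 0) (XT.nd (nat_lit 94) (nat_lit 168) (nat_lit 0) (XT.lf (nat_lit 84) (nat_lit 2539209764) (nat_lit 0) (nat_lit 8733117972) (nat_lit 84) (nat_lit 8733117972) (nat_lit 6) (nat_lit 3) (nat_lit 5) (nat_lit 1) (nat_lit 6) (nat_lit 1) (nat_lit 194) (nat_lit 306) (nat_lit 220)) (XT.nd (nat_lit 94) (nat_lit 0) (nat_lit 0) (XT.lf (nat_lit 168) (nat_lit 15874416004) (nat_lit 0) (nat_lit 1902890386) (nat_lit 84) (nat_lit 1902890386) (nat_lit 5) (nat_lit 1) (nat_lit 3) (nat_lit 1) (nat_lit 4) (nat_lit 1) (nat_lit 195) (nat_lit 306) (nat_lit 219)) (XT.lf (nat_lit 0) (nat_lit 4668541691) (nat_lit 0) (nat_lit 10019072482)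 (nat_lit 168) (nat_lit 4668541691) (nat_lit 3) (nat_lit 3) (nat_lit 3) (nat_lit 1) (nat_lit 5) (nat_lit 1) (nat_lit 196) (nat_lit 306) (nat_lit 218)))) (XT.nd (nat_lit 188) (nat_lit 0) (nat_lit 0) (XT.nd (nat_lit 94) (nat_lit 168) (nat_lit 0) (XT.lf (nat_lit 84) (nat_lit 2949454369) (nat_lit 0) (nat_lit 8045197981) (nat_lit 84) (nat_lit 8045197981) (nat_lit 3) (nat_lit 3) (nat_lit 2) (nat_lit 1) (nat_lit 3) (nat_lit 1) (nat_lit 197) (nat_lit 306) (nat_lit 217)) (XT.lf (nat_lit 0) (nat_lit 27210726109) (nat_lit 0) (nat_lit 0) (nat_lit 0) (nat_lit 0) (nat_lit 0) (nat_lit 0) (nat_lit 1) (nat_lit 0) (nat_lit 1) (nat_lit 0) (nat_lit 198) (nat_lit 306) (nat_lit 216))) (XT.nd (nat_lit 94) (nat_lit 0) (nat_lit 0) (XT.lf (nat_lit 0) (nat_lit 27194872162) (nat_lit 0) (nat_lit 0) (nat_lit 0) (nat_lit 0) (nat_lit 0) (nat_lit 0) (nat_lit 1) (nat_lit 0) (nat_lit 1) (nat_lit 0) (nat_lit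 199) (nat_lit 306) (nat_lit 215)) (XT.lf (nat_lit 0) (nat_lit 27179773165) (nat_lit 0) (nat_lit 0) (nat_lit 0) (nat_lit 0) (nat_lit 0) (nat_lit 0) (nat_lit 1) (nat_lit 0) (nat_lit 1) (nat_lit 0) (nat_lit 200) (nat_lit 306) (nat_lit 214))))))) (XT.nd (nat_lit 1222) (nat_lit 0) (nat_lit 0) (XT.nd (nat_lit 564) (nat_lit 0) (nat_lit 0) (XT.nd (nat_lit 282) (nat_lit 0) (nat_lit 0) (XT.nd (nat_lit 94) (nat_lit 0) (nat_lit 0) (XT.lf (nat_lit 0) (nat_lit 27165393168) (nat_lit 0) (nat_lit 0) (nat_lit 0) (nat_lit 0) (nat_lit 0) (nat_lit 0) (nat_lit 1) (nat_lit 0) (nat_lit 1) (nat_lit 0) (nat_lit 201) (nat_lit 306) (nat_lit 213)) (XT.nd (nat_lit 94) (nat_lit 0) (nat_lit 0) (XT.lf (nat_lit 0) (nat_lit 27151697932) (nat_lit 0) (nat_lit 0) (nat_lit 0) (nat_lit 0) (nat_lit 0) (nat_lit 0) (nat_lit 1) (nat_lit 0) (nat_lit 1) (nat_lit 0) (nat_lit 202) (nat_lit 306) (nat_lit 212)) (XT.lf (nat_lit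 0) (nat_lit 27138654851) (nat_lit 0) (nat_lit 0) (nat_lit 0) (nat_lit 0) (nat_lit 0) (nat_lit 0) (nat_lit 1) (nat_lit 0) (nat_lit 1) (nat_lit 0) (nat_lit 203) (nat_lit 306) (nat_lit 211)))) (XT.nd (nat_lit 94) (nat_lit 0) (nat_lit 0) (XT.lf (nat_lit 0) (nat_lit 27126232869) (nat_lit 0) (nat_lit 0) (nat_lit 0) (nat_lit 0) (nat_lit 0) (nat_lit 0) (nat_lit 1) (nat_lit 0) (nat_lit 1) (nat_lit 0) (nat_lit 204) (nat_lit 306) (nat_lit 210)) (XT.nd (nat_lit 94) (nat_lit 0) (nat_lit 0) (XT.lf (nat_lit 0) (nat_lit 27114402410) (nat_lit 0) (nat_lit 0) (nat_lit 0) (nat_lit 0) (nat_lit 0) (nat_lit 0) (nat_lit 1) (nat_lit 0) (nat_lit 1) (nat_lit 0) (nat_lit 205) (nat_lit 306) (nat_lit 209)) (XT.lf (nat_lit 0) (nat_lit 27103135306) (nat_lit 0) (nat_lit 0) (nat_lit 0) (nat_lit 0) (nat_lit 0) (nat_lit 0) (nat_lit 1) (nat_lit 0) (nat_lit 1) (nat_lit 0) (nat_lit 206) (nat_lit 306) (nat_lit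 208))))) (XT.nd (nat_lit 282) (nat_lit 0) (nat_lit 0) (XT.nd (nat_lit 94) (nat_lit 0) (nat_lit 0) (XT.lf (nat_lit 0) (nat_lit 27092404730) (nat_lit 0) (nat_lit 0) (nat_lit 0) (nat_lit 0) (nat_lit 0) (nat_lit 0) (nat_lit 1) (nat_lit 0) (nat_lit 1) (nat_lit 0) (nat_lit 207) (nat_lit 306) (nat_lit 207)) (XT.nd (nat_lit 94) (nat_lit 0) (nat_lit 0) (XT.lf (nat_lit 0) (nat_lit 27082185135) (nat_lit 0) (nat_lit 0) (nat_lit 0) (nat_lit 0) (nat_lit 0) (nat_lit 0) (nat_lit 1) (nat_lit 0) (nat_lit 1) (nat_lit 0) (nat_lit 208) (nat_lit 306) (nat_lit 206)) (XT.lf (nat_lit 0) (nat_lit 27072452187) (nat_lit 0) (nat_lit 0) (nat_lit 0) (nat_lit 0) (nat_lit 0) (nat_lit 0) (nat_lit 1) (nat_lit 0) (nat_lit 1) (nat_lit 0) (nat_lit 209) (nat_lit 306) (nat_lit 205)))) (XT.nd (nat_lit 188) (nat_lit 0) (nat_lit 0) (XT.nd (nat_lit 94) (nat_lit 0) (nat_lit 0) (XT.lf (nat_lit 0) (nat_lit 27063182712)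 (nat_lit 0) (nat_lit 0) (nat_lit 0) (nat_lit 0) (nat_lit 0) (nat_lit 0) (nat_lit 1) (nat_lit 0) (nat_lit 1) (nat_lit 0) (nat_lit 210) (nat_lit 306) (nat_lit 204)) (XT.lf (nat_lit 0) (nat_lit 27054354642) (nat_lit 0) (nat_lit 0) (nat_lit 0) (nat_lit 0) (nat_lit 0) (nat_lit 0) (nat_lit 1) (nat_lit 0) (nat_lit 1) (nat_lit 0) (nat_lit 211) (nat_lit 306) (nat_lit 203))) (XT.nd (nat_lit 94) (nat_lit 0) (nat_lit 0) (XT.lf (nat_lit 0) (nat_lit 27045946955) (nat_lit 0) (nat_lit 0) (nat_lit 0) (nat_lit 0) (nat_lit 0) (nat_lit 0) (nat_lit 1) (nat_lit 0) (nat_lit 1) (nat_lit 0) (nat_lit 212) (nat_lit 306) (nat_lit 202)) (XT.lf (nat_lit 0) (nat_lit 27037939635) (nat_lit 0) (nat_lit 0) (nat_lit 0) (nat_lit 0) (nat_lit 0) (nat_lit 0) (nat_lit 1) (nat_lit 0) (nat_lit 1) (nat_lit 0) (nat_lit 213) (nat_lit 306) (nat_lit 201)))))) (XT.nd (nat_lit 658) (nat_lit 0) (nat_lit 0) (XT.nd (nat_lit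 282) (nat_lit 0) (nat_lit 0) (XT.nd (nat_lit 94) (nat_lit 0) (nat_lit 0) (XT.lf (nat_lit 0) (nat_lit 27030313615) (nat_lit 0) (nat_lit 0) (nat_lit 0) (nat_lit 0) (nat_lit 0) (nat_lit 0) (nat_lit 1) (nat_lit 0) (nat_lit 1) (nat_lit 0) (nat_lit 214) (nat_lit 306) (nat_lit 200)) (XT.nd (nat_lit 94) (nat_lit 0) (nat_lit 0) (XT.lf (nat_lit 0) (nat_lit 27023050739) (nat_lit 0) (nat_lit 0) (nat_lit 0) (nat_lit 0) (nat_lit 0) (nat_lit 0) (nat_lit 1) (nat_lit 0) (nat_lit 1) (nat_lit 0) (nat_lit 215) (nat_lit 306) (nat_lit 199)) (XT.lf (nat_lit 0) (nat_lit 27016133715) (nat_lit 0) (nat_lit 0) (nat_lit 0) (nat_lit 0) (nat_lit 0) (nat_lit 0) (nat_lit 1) (nat_lit 0) (nat_lit 1) (nat_lit 0) (nat_lit 216) (nat_lit 306) (nat_lit 198)))) (XT.nd (nat_lit 188) (nat_lit 0) (nat_lit 0) (XT.nd (nat_lit 94) (nat_lit 0) (nat_lit 0) (XT.lf (nat_lit 0) (nat_lit 27009546073) (nat_lit 0) (nat_lit 0)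 (nat_lit 0) (nat_lit 0) (nat_lit 0) (nat_lit 0) (nat_lit 1) (nat_lit 0) (nat_lit 1) (nat_lit 0) (nat_lit 217) (nat_lit 306) (nat_lit 197)) (XT.lf (nat_lit 0) (nat_lit 27003272127) (nat_lit 0) (nat_lit 0) (nat_lit 0) (nat_lit 0) (nat_lit 0) (nat_lit 0) (nat_lit 1) (nat_lit 0) (nat_lit 1) (nat_lit 0) (nat_lit 218) (nat_lit 306) (nat_lit 196))) (XT.nd (nat_lit 94) (nat_lit 0) (nat_lit 0) (XT.lf (nat_lit 0) (nat_lit 26997296942) (nat_lit 0) (nat_lit 0) (nat_lit 0) (nat_lit 0) (nat_lit 0) (nat_lit 0) (nat_lit 1) (nat_lit 0) (nat_lit 1) (nat_lit 0) (nat_lit 219) (nat_lit 306) (nat_lit 195)) (XT.lf (nat_lit 0) (nat_lit 26991606288) (nat_lit 0) (nat_lit 0) (nat_lit 0) (nat_lit 0) (nat_lit 0) (nat_lit 0) (nat_lit 1) (nat_lit 0) (nat_lit 1) (nat_lit 0) (nat_lit 220) (nat_lit 306) (nat_lit 194))))) (XT.nd (nat_lit 282) (nat_lit 0) (nat_lit 0) (XT.nd (nat_lit 94) (nat_lit 0) (nat_lit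 0) (XT.lf (nat_lit 0) (nat_lit 26986186619) (nat_lit 0) (nat_lit 0) (nat_lit 0) (nat_lit 0) (nat_lit 0) (nat_lit 0) (nat_lit 1) (nat_lit 0) (nat_lit 1) (nat_lit 0) (nat_lit 221) (nat_lit 306) (nat_lit 193)) (XT.nd (nat_lit 94) (nat_lit 0) (nat_lit 0) (XT.lf (nat_lit 0) (nat_lit 26981025029) (nat_lit 0) (nat_lit 0) (nat_lit 0) (nat_lit 0) (nat_lit 0) (nat_lit 0) (nat_lit 1) (nat_lit 0) (nat_lit 1) (nat_lit 0) (nat_lit 222) (nat_lit 306) (nat_lit 192)) (XT.lf (nat_lit 0) (nat_lit 26976109228) (nat_lit 0) (nat_lit 0) (nat_lit 0) (nat_lit 0) (nat_lit 0) (nat_lit 0) (nat_lit 1) (nat_lit 0) (nat_lit 1) (nat_lit 0) (nat_lit 223) (nat_lit 306) (nat_lit 191)))) (XT.nd (nat_lit 188) (nat_lit 0) (nat_lit 0) (XT.nd (nat_lit 94) (nat_lit 0) (nat_lit 0) (XT.lf (nat_lit 0) (nat_lit 26971427514) (nat_lit 0) (nat_lit 0) (nat_lit 0) (nat_lit 0) (nat_lit 0) (nat_lit 0) (nat_lit 1) (nat_lit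 0) (nat_lit 1) (nat_lit 0) (nat_lit 224) (nat_lit 306) (nat_lit 190)) (XT.lf (nat_lit 0) (nat_lit 26966968738) (nat_lit 0) (nat_lit 0) (nat_lit 0) (nat_lit 0) (nat_lit 0) (nat_lit 0) (nat_lit 1) (nat_lit 0) (nat_lit 1) (nat_lit 0) (nat_lit 225) (nat_lit 306) (nat_lit 189))) (XT.nd (nat_lit 94) (nat_lit 0) (nat_lit 0) (XT.lf (nat_lit 0) (nat_lit 26962722285) (nat_lit 0) (nat_lit 0) (nat_lit 0) (nat_lit 0) (nat_lit 0) (nat_lit 0) (nat_lit 1) (nat_lit 0) (nat_lit 1) (nat_lit 0) (nat_lit 226) (nat_lit 306) (nat_lit 188)) (XT.lf (nat_lit 0) (nat_lit 26958678044) (nat_lit 0) (nat_lit 0) (nat_lit 0) (nat_lit 0) (nat_lit 0) (nat_lit 0) (nat_lit 1) (nat_lit 0) (nat_lit 1) (nat_lit 0) (nat_lit 227) (nat_lit 306) (nat_lit 187))))))))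
noncomputable def ec203 : XT := (XT.nd (nat_lit 2538) (nat_lit 0) (nat_lit 0) (XT.nd (nat_lit 1222) (nat_lit 0) (nat_lit 0) (XT.nd (nat_lit 564) (nat_lit 0) (nat_lit 0) (XT.nd (nat_lit 282) (nat_lit 0) (nat_lit 0) (XT.nd (nat_lit 94) (nat_lit 0) (nat_lit 0) (XT.lf (nat_lit 0) (nat_lit 26954826386) (nat_lit 0) (nat_lit 0) (nat_lit 0) (nat_lit 0) (nat_lit 0) (nat_lit 0) (nat_lit 1) (nat_lit 0) (nat_lit 1) (nat_lit 0) (nat_lit 228) (nat_lit 306) (nat_lit 186)) (XT.nd (nat_lit 94) (nat_lit 0) (nat_lit 0) (XT.lf (nat_lit 0) (nat_lit 26951158141) (nat_lit 0) (nat_lit 0) (nat_lit 0) (nat_lit 0) (nat_lit 0) (nat_lit 0) (nat_lit 1) (nat_lit 0) (nat_lit 1) (nat_lit 0) (nat_lit 229) (nat_lit 306) (nat_lit 185)) (XT.lf (nat_lit 0) (nat_lit 26947664573) (nat_lit 0) (nat_lit 0) (nat_lit 0) (nat_lit 0) (nat_lit 0) (nat_lit 0) (nat_lit 1) (nat_lit 0) (nat_lit 1) (nat_lit 0) (nat_lit 230)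 (nat_lit 306) (nat_lit 184)))) (XT.nd (nat_lit 94) (nat_lit 0) (nat_lit 0) (XT.lf (nat_lit 0) (nat_lit 26944337366) (nat_lit 0) (nat_lit 0) (nat_lit 0) (nat_lit 0) (nat_lit 0) (nat_lit 0) (nat_lit 1) (nat_lit 0) (nat_lit 1) (nat_lit 0) (nat_lit 231) (nat_lit 306) (nat_lit 183)) (XT.nd (nat_lit 94) (nat_lit 0) (nat_lit 0) (XT.lf (nat_lit 0) (nat_lit 26941168597) (nat_lit 0) (nat_lit 0) (nat_lit 0) (nat_lit 0) (nat_lit 0) (nat_lit 0) (nat_lit 1) (nat_lit 0) (nat_lit 1) (nat_lit 0) (nat_lit 232) (nat_lit 306) (nat_lit 182)) (XT.lf (nat_lit 0) (nat_lit 26938150723) (nat_lit 0) (nat_lit 0) (nat_lit 0) (nat_lit 0) (nat_lit 0) (nat_lit 0) (nat_lit 1) (nat_lit 0) (nat_lit 1) (nat_lit 0) (nat_lit 233) (nat_lit 306) (nat_lit 181))))) (XT.nd (nat_lit 282) (nat_lit 0) (nat_lit 0) (XT.nd (nat_lit 94) (nat_lit 0) (nat_lit 0) (XT.lf (nat_lit 0) (nat_lit 26935276556) (nat_lit 0) (nat_lit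 0) (nat_lit 0) (nat_lit 0) (nat_lit 0) (nat_lit 0) (nat_lit 1) (nat_lit 0) (nat_lit 1) (nat_lit 0) (nat_lit 234) (nat_lit 306) (nat_lit 180)) (XT.nd (nat_lit 94) (nat_lit 0) (nat_lit 0) (XT.lf (nat_lit 0) (nat_lit 26932539255) (nat_lit 0) (nat_lit 0) (nat_lit 0) (nat_lit 0) (nat_lit 0) (nat_lit 0) (nat_lit 1) (nat_lit 0) (nat_lit 1) (nat_lit 0) (nat_lit 235) (nat_lit 306) (nat_lit 179)) (XT.lf (nat_lit 0) (nat_lit 26929932301) (nat_lit 0) (nat_lit 0) (nat_lit 0) (nat_lit 0) (nat_lit 0) (nat_lit 0) (nat_lit 1) (nat_lit 0) (nat_lit 1) (nat_lit 0) (nat_lit 236) (nat_lit 306) (nat_lit 178)))) (XT.nd (nat_lit 188) (nat_lit 0) (nat_lit 0) (XT.nd (nat_lit 94) (nat_lit 0) (nat_lit 0) (XT.lf (nat_lit 0) (nat_lit 26927449488) (nat_lit 0) (nat_lit 0) (nat_lit 0) (nat_lit 0) (nat_lit 0) (nat_lit 0) (nat_lit 1) (nat_lit 0) (nat_lit 1) (nat_lit 0) (nat_lit 237) (nat_lit 306) (nat_lit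 177)) (XT.lf (nat_lit 0) (nat_lit 26925084904) (nat_lit 0) (nat_lit 0) (nat_lit 0) (nat_lit 0) (nat_lit 0) (nat_lit 0) (nat_lit 1) (nat_lit 0) (nat_lit 1) (nat_lit 0) (nat_lit 238) (nat_lit 306) (nat_lit 176))) (XT.nd (nat_lit 94) (nat_lit 0) (nat_lit 0) (XT.lf (nat_lit 0) (nat_lit 26922832919) (nat_lit 0) (nat_lit 0) (nat_lit 0) (nat_lit 0) (nat_lit 0) (nat_lit 0) (nat_lit 1) (nat_lit 0) (nat_lit 1) (nat_lit 0) (nat_lit 239) (nat_lit 306) (nat_lit 175)) (XT.lf (nat_lit 0) (nat_lit 26920688172) (nat_lit 0) (nat_lit 0) (nat_lit 0) (nat_lit 0) (nat_lit 0) (nat_lit 0) (nat_lit 1) (nat_lit 0) (nat_lit 1) (nat_lit 0) (nat_lit 240) (nat_lit 306) (nat_lit 174)))))) (XT.nd (nat_lit 658) (nat_lit 0) (nat_lit 0) (XT.nd (nat_lit 282) (nat_lit 0) (nat_lit 0) (XT.nd (nat_lit 94) (nat_lit 0) (nat_lit 0) (XT.lf (nat_lit 0) (nat_lit 26918645555) (nat_lit 0) (nat_lit 0) (nat_lit 0) (nat_lit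 0) (nat_lit 0) (nat_lit 0) (nat_lit 1) (nat_lit 0) (nat_lit 1) (nat_lit 0) (nat_lit 241) (nat_lit 306) (nat_lit 173)) (XT.nd (nat_lit 94) (nat_lit 0) (nat_lit 0) (XT.lf (nat_lit 0) (nat_lit 26916700206) (nat_lit 0) (nat_lit 0) (nat_lit 0) (nat_lit 0) (nat_lit 0) (nat_lit 0) (nat_lit 1) (nat_lit 0) (nat_lit 1) (nat_lit 0) (nat_lit 242) (nat_lit 306) (nat_lit 172)) (XT.lf (nat_lit 0) (nat_lit 26914847493) (nat_lit 0) (nat_lit 0) (nat_lit 0) (nat_lit 0) (nat_lit 0) (nat_lit 0) (nat_lit 1) (nat_lit 0) (nat_lit 1) (nat_lit 0) (nat_lit 243) (nat_lit 306) (nat_lit 171)))) (XT.nd (nat_lit 188) (nat_lit 0) (nat_lit 0) (XT.nd (nat_lit 94) (nat_lit 0) (nat_lit 0) (XT.lf (nat_lit 0) (nat_lit 26913083004) (nat_lit 0) (nat_lit 0) (nat_lit 0) (nat_lit 0) (nat_lit 0) (nat_lit 0) (nat_lit 1) (nat_lit 0) (nat_lit 1) (nat_lit 0) (nat_lit 244) (nat_lit 306) (nat_lit 170)) (XT.lf (nat_lit 0)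 (nat_lit 26911402538) (nat_lit 0) (nat_lit 0) (nat_lit 0) (nat_lit 0) (nat_lit 0) (nat_lit 0) (nat_lit 1) (nat_lit 0) (nat_lit 1) (nat_lit 0) (nat_lit 245) (nat_lit 306) (nat_lit 169))) (XT.nd (nat_lit 94) (nat_lit 0) (nat_lit 0) (XT.lf (nat_lit 0) (nat_lit 26909802095) (nat_lit 0) (nat_lit 0) (nat_lit 0) (nat_lit 0) (nat_lit 0) (nat_lit 0) (nat_lit 1) (nat_lit 0) (nat_lit 1) (nat_lit 0) (nat_lit 246) (nat_lit 306) (nat_lit 168)) (XT.lf (nat_lit 0) (nat_lit 26908277863) (nat_lit 0) (nat_lit 0) (nat_lit 0) (nat_lit 0) (nat_lit 0) (nat_lit 0) (nat_lit 1) (nat_lit 0) (nat_lit 1) (nat_lit 0) (nat_lit 247) (nat_lit 306) (nat_lit 167))))) (XT.nd (nat_lit 282) (nat_lit 0) (nat_lit 0) (XT.nd (nat_lit 94) (nat_lit 0) (nat_lit 0) (XT.lf (nat_lit 0) (nat_lit 26906826213) (nat_lit 0) (nat_lit 0) (nat_lit 0) (nat_lit 0) (nat_lit 0) (nat_lit 0) (nat_lit 1) (nat_lit 0) (nat_lit 1) (nat_lit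 0) (nat_lit 248) (nat_lit 306) (nat_lit 166)) (XT.nd (nat_lit 94) (nat_lit 0) (nat_lit 0) (XT.lf (nat_lit 0) (nat_lit 26905443690) (nat_lit 0) (nat_lit 0) (nat_lit 0) (nat_lit 0) (nat_lit 0) (nat_lit 0) (nat_lit 1) (nat_lit 0) (nat_lit 1) (nat_lit 0) (nat_lit 249) (nat_lit 306) (nat_lit 165)) (XT.lf (nat_lit 0) (nat_lit 26904127001) (nat_lit 0) (nat_lit 0) (nat_lit 0) (nat_lit 0) (nat_lit 0) (nat_lit 0) (nat_lit 1) (nat_lit 0) (nat_lit 1) (nat_lit 0) (nat_lit 250) (nat_lit 306) (nat_lit 164)))) (XT.nd (nat_lit 188) (nat_lit 0) (nat_lit 0) (XT.nd (nat_lit 94) (nat_lit 0) (nat_lit 0) (XT.lf (nat_lit 0) (nat_lit 26902873012) (nat_lit 0) (nat_lit 0) (nat_lit 0) (nat_lit 0) (nat_lit 0) (nat_lit 0) (nat_lit 1) (nat_lit 0) (nat_lit 1) (nat_lit 0) (nat_lit 251) (nat_lit 306) (nat_lit 163)) (XT.lf (nat_lit 0) (nat_lit 26901678736) (nat_lit 0) (nat_lit 0) (nat_lit 0) (nat_lit 0) (nat_lit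 0) (nat_lit 0) (nat_lit 1) (nat_lit 0) (nat_lit 1) (nat_lit 0) (nat_lit 252) (nat_lit 306) (nat_lit 162))) (XT.nd (nat_lit 94) (nat_lit 0) (nat_lit 0) (XT.lf (nat_lit 0) (nat_lit 26900541331) (nat_lit 0) (nat_lit 0) (nat_lit 0) (nat_lit 0) (nat_lit 0) (nat_lit 0) (nat_lit 1) (nat_lit 0) (nat_lit 1) (nat_lit 0) (nat_lit 253) (nat_lit 306) (nat_lit 161)) (XT.lf (nat_lit 0) (nat_lit 26899458088) (nat_lit 0) (nat_lit 0) (nat_lit 0) (nat_lit 0) (nat_lit 0) (nat_lit 0) (nat_lit 1) (nat_lit 0) (nat_lit 1) (nat_lit 0) (nat_lit 254) (nat_lit 306) (nat_lit 160))))))) (XT.nd (nat_lit 1316) (nat_lit 0) (nat_lit 0) (XT.nd (nat_lit 658) (nat_lit 0) (nat_lit 0) (XT.nd (nat_lit 282) (nat_lit 0) (nat_lit 0) (XT.nd (nat_lit 94) (nat_lit 0) (nat_lit 0) (XT.lf (nat_lit 0) (nat_lit 26898426428) (nat_lit 0) (nat_lit 0) (nat_lit 0) (nat_lit 0) (nat_lit 0) (nat_lit 0) (nat_lit 1) (nat_lit 0) (nat_lit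 1) (nat_lit 0) (nat_lit 255) (nat_lit 306) (nat_lit 159)) (XT.nd (nat_lit 94) (nat_lit 0) (nat_lit 0) (XT.lf (nat_lit 0) (nat_lit 26897443894) (nat_lit 0) (nat_lit 0) (nat_lit 0) (nat_lit 0) (nat_lit 0) (nat_lit 0) (nat_lit 1) (nat_lit 0) (nat_lit 1) (nat_lit 0) (nat_lit 256) (nat_lit 306) (nat_lit 158)) (XT.lf (nat_lit 0) (nat_lit 26896508148) (nat_lit 0) (nat_lit 0) (nat_lit 0) (nat_lit 0) (nat_lit 0) (nat_lit 0) (nat_lit 1) (nat_lit 0) (nat_lit 1) (nat_lit 0) (nat_lit 257) (nat_lit 306) (nat_lit 157)))) (XT.nd (nat_lit 188) (nat_lit 0) (nat_lit 0) (XT.nd (nat_lit 94) (nat_lit 0) (nat_lit 0) (XT.lf (nat_lit 0) (nat_lit 26895616961) (nat_lit 0) (nat_lit 0) (nat_lit 0) (nat_lit 0) (nat_lit 0) (nat_lit 0) (nat_lit 1) (nat_lit 0) (nat_lit 1) (nat_lit 0) (nat_lit 258) (nat_lit 306) (nat_lit 156)) (XT.lf (nat_lit 0) (nat_lit 26894768212) (nat_lit 0) (nat_lit 0) (nat_lit 0) (nat_lit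 0) (nat_lit 0) (nat_lit 0) (nat_lit 1) (nat_lit 0) (nat_lit 1) (nat_lit 0) (nat_lit 259) (nat_lit 306) (nat_lit 155))) (XT.nd (nat_lit 94) (nat_lit 0) (nat_lit 0) (XT.lf (nat_lit 0) (nat_lit 26893959879) (nat_lit 0) (nat_lit 0) (nat_lit 0) (nat_lit 0) (nat_lit 0) (nat_lit 0) (nat_lit 1) (nat_lit 0) (nat_lit 1) (nat_lit 0) (nat_lit 260) (nat_lit 306) (nat_lit 154)) (XT.lf (nat_lit 0) (nat_lit 26893190039) (nat_lit 0) (nat_lit 0) (nat_lit 0) (nat_lit 0) (nat_lit 0) (nat_lit 0) (nat_lit 1) (nat_lit 0) (nat_lit 1) (nat_lit 0) (nat_lit 261) (nat_lit 306) (nat_lit 153))))) (XT.nd (nat_lit 282) (nat_lit 0) (nat_lit 0) (XT.nd (nat_lit 94) (nat_lit 0) (nat_lit 0) (XT.lf (nat_lit 0) (nat_lit 26892456857) (nat_lit 0) (nat_lit 0) (nat_lit 0) (nat_lit 0) (nat_lit 0) (nat_lit 0) (nat_lit 1) (nat_lit 0) (nat_lit 1) (nat_lit 0) (nat_lit 262) (nat_lit 306) (nat_lit 152)) (XT.nd (nat_lit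 94) (nat_lit 0) (nat_lit 0) (XT.lf (nat_lit 0) (nat_lit 26891758589) (nat_lit 0) (nat_lit 0) (nat_lit 0) (nat_lit 0) (nat_lit 0) (nat_lit 0) (nat_lit 1) (nat_lit 0) (nat_lit 1) (nat_lit 0) (nat_lit 263) (nat_lit 306) (nat_lit 151)) (XT.lf (nat_lit 0) (nat_lit 26891093572) (nat_lit 0) (nat_lit 0) (nat_lit 0) (nat_lit 0) (nat_lit 0) (nat_lit 0) (nat_lit 1) (nat_lit 0) (nat_lit 1) (nat_lit 0) (nat_lit 264) (nat_lit 306) (nat_lit 150)))) (XT.nd (nat_lit 188) (nat_lit 0) (nat_lit 0) (XT.nd (nat_lit 94) (nat_lit 0) (nat_lit 0) (XT.lf (nat_lit 0) (nat_lit 26890460222) (nat_lit 0) (nat_lit 0) (nat_lit 0) (nat_lit 0) (nat_lit 0) (nat_lit 0) (nat_lit 1) (nat_lit 0) (nat_lit 1) (nat_lit 0) (nat_lit 265) (nat_lit 306) (nat_lit 149)) (XT.lf (nat_lit 0) (nat_lit 26889857031) (nat_lit 0) (nat_lit 0) (nat_lit 0) (nat_lit 0) (nat_lit 0) (nat_lit 0) (nat_lit 1) (nat_lit 0) (nat_lit 1) (nat_lit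 0) (nat_lit 266) (nat_lit 306) (nat_lit 148))) (XT.nd (nat_lit 94) (nat_lit 0) (nat_lit 0) (XT.lf (nat_lit 0) (nat_lit 26889282564) (nat_lit 0) (nat_lit 0) (nat_lit 0) (nat_lit 0) (nat_lit 0) (nat_lit 0) (nat_lit 1) (nat_lit 0) (nat_lit 1) (nat_lit 0) (nat_lit 267) (nat_lit 306) (nat_lit 147)) (XT.lf (nat_lit 0) (nat_lit 26888735453) (nat_lit 0) (nat_lit 0) (nat_lit 0) (nat_lit 0) (nat_lit 0) (nat_lit 0) (nat_lit 1) (nat_lit 0) (nat_lit 1) (nat_lit 0) (nat_lit 268) (nat_lit 306) (nat_lit 146)))))) (XT.nd (nat_lit 658) (nat_lit 0) (nat_lit 0) (XT.nd (nat_lit 282) (nat_lit 0) (nat_lit 0) (XT.nd (nat_lit 94) (nat_lit 0) (nat_lit 0) (XT.lf (nat_lit 0) (nat_lit 26888214395) (nat_lit 0) (nat_lit 0) (nat_lit 0) (nat_lit 0) (nat_lit 0) (nat_lit 0) (nat_lit 1) (nat_lit 0) (nat_lit 1) (nat_lit 0) (nat_lit 269) (nat_lit 306) (nat_lit 145)) (XT.nd (nat_lit 94) (nat_lit 0) (nat_lit 0)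 (XT.lf (nat_lit 0) (nat_lit 26887718148) (nat_lit 0) (nat_lit 0) (nat_lit 0) (nat_lit 0) (nat_lit 0) (nat_lit 0) (nat_lit 1) (nat_lit 0) (nat_lit 1) (nat_lit 0) (nat_lit 270) (nat_lit 306) (nat_lit 144)) (XT.lf (nat_lit 0) (nat_lit 26887245533) (nat_lit 0) (nat_lit 0) (nat_lit 0) (nat_lit 0) (nat_lit 0) (nat_lit 0) (nat_lit 1) (nat_lit 0) (nat_lit 1) (nat_lit 0) (nat_lit 271) (nat_lit 306) (nat_lit 143)))) (XT.nd (nat_lit 188) (nat_lit 0) (nat_lit 0) (XT.nd (nat_lit 94) (nat_lit 0) (nat_lit 0) (XT.lf (nat_lit 0) (nat_lit 26886795423) (nat_lit 0) (nat_lit 0) (nat_lit 0) (nat_lit 0) (nat_lit 0) (nat_lit 0) (nat_lit 1) (nat_lit 0) (nat_lit 1) (nat_lit 0) (nat_lit 272) (nat_lit 306) (nat_lit 142)) (XT.lf (nat_lit 0) (nat_lit 26886366747) (nat_lit 0) (nat_lit 0) (nat_lit 0) (nat_lit 0) (nat_lit 0) (nat_lit 0) (nat_lit 1) (nat_lit 0) (nat_lit 1) (nat_lit 0) (nat_lit 273) (nat_lit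 306) (nat_lit 141))) (XT.nd (nat_lit 94) (nat_lit 0) (nat_lit 0) (XT.lf (nat_lit 0) (nat_lit 26885958484) (nat_lit 0) (nat_lit 0) (nat_lit 0) (nat_lit 0) (nat_lit 0) (nat_lit 0) (nat_lit 1) (nat_lit 0) (nat_lit 1) (nat_lit 0) (nat_lit 274) (nat_lit 306) (nat_lit 140)) (XT.lf (nat_lit 0) (nat_lit 26885569662) (nat_lit 0) (nat_lit 0) (nat_lit 0) (nat_lit 0) (nat_lit 0) (nat_lit 0) (nat_lit 1) (nat_lit 0) (nat_lit 1) (nat_lit 0) (nat_lit 275) (nat_lit 306) (nat_lit 139))))) (XT.nd (nat_lit 282) (nat_lit 0) (nat_lit 0) (XT.nd (nat_lit 94) (nat_lit 0) (nat_lit 0) (XT.lf (nat_lit 0) (nat_lit 26885199356) (nat_lit 0) (nat_lit 0) (nat_lit 0) (nat_lit 0) (nat_lit 0) (nat_lit 0) (nat_lit 1) (nat_lit 0) (nat_lit 1) (nat_lit 0) (nat_lit 276) (nat_lit 306) (nat_lit 138)) (XT.nd (nat_lit 94) (nat_lit 0) (nat_lit 0) (XT.lf (nat_lit 0) (nat_lit 26884846683) (nat_lit 0) (nat_lit 0) (nat_lit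 0) (nat_lit 0) (nat_lit 0) (nat_lit 0) (nat_lit 1) (nat_lit 0) (nat_lit 1) (nat_lit 0) (nat_lit 277) (nat_lit 306) (nat_lit 137)) (XT.lf (nat_lit 0) (nat_lit 26884510804) (nat_lit 0) (nat_lit 0) (nat_lit 0) (nat_lit 0) (nat_lit 0) (nat_lit 0) (nat_lit 1) (nat_lit 0) (nat_lit 1) (nat_lit 0) (nat_lit 278) (nat_lit 306) (nat_lit 136)))) (XT.nd (nat_lit 188) (nat_lit 0) (nat_lit 0) (XT.nd (nat_lit 94) (nat_lit 0) (nat_lit 0) (XT.lf (nat_lit 0) (nat_lit 26884190919) (nat_lit 0) (nat_lit 0) (nat_lit 0) (nat_lit 0) (nat_lit 0) (nat_lit 0) (nat_lit 1) (nat_lit 0) (nat_lit 1) (nat_lit 0) (nat_lit 279) (nat_lit 306) (nat_lit 135)) (XT.lf (nat_lit 0) (nat_lit 26883886267) (nat_lit 0) (nat_lit 0) (nat_lit 0) (nat_lit 0) (nat_lit 0) (nat_lit 0) (nat_lit 1) (nat_lit 0) (nat_lit 1) (nat_lit 0) (nat_lit 280) (nat_lit 306) (nat_lit 134))) (XT.nd (nat_lit 94) (nat_lit 0) (nat_lit 0) (XT.lf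 (nat_lit 0) (nat_lit 26883596122) (nat_lit 0) (nat_lit 0) (nat_lit 0) (nat_lit 0) (nat_lit 0) (nat_lit 0) (nat_lit 1) (nat_lit 0) (nat_lit 1) (nat_lit 0) (nat_lit 281) (nat_lit 306) (nat_lit 133)) (XT.lf (nat_lit 0) (nat_lit 26883319794) (nat_lit 0) (nat_lit 0) (nat_lit 0) (nat_lit 0) (nat_lit 0) (nat_lit 0) (nat_lit 1) (nat_lit 0) (nat_lit 1) (nat_lit 0) (nat_lit 282) (nat_lit 306) (nat_lit 132))))))))
noncomputable def ec204 : XT := (XT.nd (nat_lit 2538) (nat_lit 0) (nat_lit 0) (XT.nd (nat_lit 1222) (nat_lit 0) (nat_lit 0) (XT.nd (nat_lit 564) (nat_lit 0) (nat_lit 0) (XT.nd (nat_lit 282) (nat_lit 0) (nat_lit 0) (XT.nd (nat_lit 94) (nat_lit 0) (nat_lit 0) (XT.lf (nat_lit 0) (nat_lit 26883056624) (nat_lit 0) (nat_lit 0) (nat_lit 0) (nat_lit 0) (nat_lit 0) (nat_lit 0) (nat_lit 1) (nat_lit 0) (nat_lit 1) (nat_lit 0) (nat_lit 283) (nat_lit 306) (nat_lit 131)) (XT.nd (nat_lit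 94) (nat_lit 0) (nat_lit 0) (XT.lf (nat_lit 0) (nat_lit 26882805986) (nat_lit 0) (nat_lit 0) (nat_lit 0) (nat_lit 0) (nat_lit 0) (nat_lit 0) (nat_lit 1) (nat_lit 0) (nat_lit 1) (nat_lit 0) (nat_lit 284) (nat_lit 306) (nat_lit 130)) (XT.lf (nat_lit 0) (nat_lit 26882567283) (nat_lit 0) (nat_lit 0) (nat_lit 0) (nat_lit 0) (nat_lit 0) (nat_lit 0) (nat_lit 1) (nat_lit 0) (nat_lit 1) (nat_lit 0) (nat_lit 285) (nat_lit 306) (nat_lit 129)))) (XT.nd (nat_lit 94) (nat_lit 0) (nat_lit 0) (XT.lf (nat_lit 0) (nat_lit 26882339947) (nat_lit 0) (nat_lit 0) (nat_lit 0) (nat_lit 0) (nat_lit 0) (nat_lit 0) (nat_lit 1) (nat_lit 0) (nat_lit 1) (nat_lit 0) (nat_lit 286) (nat_lit 306) (nat_lit 128)) (XT.nd (nat_lit 94) (nat_lit 0) (nat_lit 0) (XT.lf (nat_lit 0) (nat_lit 26882123436) (nat_lit 0) (nat_lit 0) (nat_lit 0) (nat_lit 0) (nat_lit 0) (nat_lit 0) (nat_lit 1) (nat_lit 0) (nat_lit 1) (nat_lit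 0) (nat_lit 287) (nat_lit 306) (nat_lit 127)) (XT.lf (nat_lit 0) (nat_lit 26881917236) (nat_lit 0) (nat_lit 0) (nat_lit 0) (nat_lit 0) (nat_lit 0) (nat_lit 0) (nat_lit 1) (nat_lit 0) (nat_lit 1) (nat_lit 0) (nat_lit 288) (nat_lit 306) (nat_lit 126))))) (XT.nd (nat_lit 282) (nat_lit 0) (nat_lit 0) (XT.nd (nat_lit 94) (nat_lit 0) (nat_lit 0) (XT.lf (nat_lit 0) (nat_lit 26881720854) (nat_lit 0) (nat_lit 0) (nat_lit 0) (nat_lit 0) (nat_lit 0) (nat_lit 0) (nat_lit 1) (nat_lit 0) (nat_lit 1) (nat_lit 0) (nat_lit 289) (nat_lit 306) (nat_lit 125)) (XT.nd (nat_lit 94) (nat_lit 0) (nat_lit 0) (XT.lf (nat_lit 0) (nat_lit 26881533824) (nat_lit 0) (nat_lit 0) (nat_lit 0) (nat_lit 0) (nat_lit 0) (nat_lit 0) (nat_lit 1) (nat_lit 0) (nat_lit 1) (nat_lit 0) (nat_lit 290) (nat_lit 306) (nat_lit 124)) (XT.lf (nat_lit 0) (nat_lit 26881355701) (nat_lit 0) (nat_lit 0) (nat_lit 0) (nat_lit 0)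 (nat_lit 0) (nat_lit 0) (nat_lit 1) (nat_lit 0) (nat_lit 1) (nat_lit 0) (nat_lit 291) (nat_lit 306) (nat_lit 123)))) (XT.nd (nat_lit 188) (nat_lit 0) (nat_lit 0) (XT.nd (nat_lit 94) (nat_lit 0) (nat_lit 0) (XT.lf (nat_lit 0) (nat_lit 26881186059) (nat_lit 0) (nat_lit 0) (nat_lit 0) (nat_lit 0) (nat_lit 0) (nat_lit 0) (nat_lit 1) (nat_lit 0) (nat_lit 1) (nat_lit 0) (nat_lit 292) (nat_lit 306) (nat_lit 122)) (XT.lf (nat_lit 0) (nat_lit 26881024495) (nat_lit 0) (nat_lit 0) (nat_lit 0) (nat_lit 0) (nat_lit 0) (nat_lit 0) (nat_lit 1) (nat_lit 0) (nat_lit 1) (nat_lit 0) (nat_lit 293) (nat_lit 306) (nat_lit 121))) (XT.nd (nat_lit 94) (nat_lit 0) (nat_lit 0) (XT.lf (nat_lit 0) (nat_lit 26880870625) (nat_lit 0) (nat_lit 0) (nat_lit 0) (nat_lit 0) (nat_lit 0) (nat_lit 0) (nat_lit 1) (nat_lit 0) (nat_lit 1) (nat_lit 0) (nat_lit 294) (nat_lit 306) (nat_lit 120)) (XT.lf (nat_lit 0) (nat_lit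 26880724083) (nat_lit 0) (nat_lit 0) (nat_lit 0) (nat_lit 0) (nat_lit 0) (nat_lit 0) (nat_lit 1) (nat_lit 0) (nat_lit 1) (nat_lit 0) (nat_lit 295) (nat_lit 306) (nat_lit 119)))))) (XT.nd (nat_lit 658) (nat_lit 0) (nat_lit 0) (XT.nd (nat_lit 282) (nat_lit 0) (nat_lit 0) (XT.nd (nat_lit 94) (nat_lit 0) (nat_lit 0) (XT.lf (nat_lit 0) (nat_lit 26880584518) (nat_lit 0) (nat_lit 0) (nat_lit 0) (nat_lit 0) (nat_lit 0) (nat_lit 0) (nat_lit 1) (nat_lit 0) (nat_lit 1) (nat_lit 0) (nat_lit 296) (nat_lit 306) (nat_lit 118)) (XT.nd (nat_lit 94) (nat_lit 0) (nat_lit 0) (XT.lf (nat_lit 0) (nat_lit 26880451599) (nat_lit 0) (nat_lit 0) (nat_lit 0) (nat_lit 0) (nat_lit 0) (nat_lit 0) (nat_lit 1) (nat_lit 0) (nat_lit 1) (nat_lit 0) (nat_lit 297) (nat_lit 306) (nat_lit 117)) (XT.lf (nat_lit 0) (nat_lit 26880325010) (nat_lit 0) (nat_lit 0) (nat_lit 0) (nat_lit 0) (nat_lit 0) (nat_lit 0) (nat_lit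 1) (nat_lit 0) (nat_lit 1) (nat_lit 0) (nat_lit 298) (nat_lit 306) (nat_lit 116)))) (XT.nd (nat_lit 188) (nat_lit 0) (nat_lit 0) (XT.nd (nat_lit 94) (nat_lit 0) (nat_lit 0) (XT.lf (nat_lit 0) (nat_lit 26880204449) (nat_lit 0) (nat_lit 0) (nat_lit 0) (nat_lit 0) (nat_lit 0) (nat_lit 0) (nat_lit 1) (nat_lit 0) (nat_lit 1) (nat_lit 0) (nat_lit 299) (nat_lit 306) (nat_lit 115)) (XT.lf (nat_lit 0) (nat_lit 26880089629) (nat_lit 0) (nat_lit 0) (nat_lit 0) (nat_lit 0) (nat_lit 0) (nat_lit 0) (nat_lit 1) (nat_lit 0) (nat_lit 1) (nat_lit 0) (nat_lit 300) (nat_lit 306) (nat_lit 114))) (XT.nd (nat_lit 94) (nat_lit 0) (nat_lit 0) (XT.lf (nat_lit 0) (nat_lit 26879980276) (nat_lit 0) (nat_lit 0) (nat_lit 0) (nat_lit 0) (nat_lit 0) (nat_lit 0) (nat_lit 1) (nat_lit 0) (nat_lit 1) (nat_lit 0) (nat_lit 301) (nat_lit 306) (nat_lit 113)) (XT.lf (nat_lit 0) (nat_lit 26879876131) (nat_lit 0)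 (nat_lit 0) (nat_lit 0) (nat_lit 0) (nat_lit 0) (nat_lit 0) (nat_lit 1) (nat_lit 0) (nat_lit 1) (nat_lit 0) (nat_lit 302) (nat_lit 306) (nat_lit 112))))) (XT.nd (nat_lit 282) (nat_lit 0) (nat_lit 0) (XT.nd (nat_lit 94) (nat_lit 0) (nat_lit 0) (XT.lf (nat_lit 0) (nat_lit 26879776945) (nat_lit 0) (nat_lit 0) (nat_lit 0) (nat_lit 0) (nat_lit 0) (nat_lit 0) (nat_lit 1) (nat_lit 0) (nat_lit 1) (nat_lit 0) (nat_lit 303) (nat_lit 306) (nat_lit 111)) (XT.nd (nat_lit 94) (nat_lit 0) (nat_lit 0) (XT.lf (nat_lit 0) (nat_lit 26879682482) (nat_lit 0) (nat_lit 0) (nat_lit 0) (nat_lit 0) (nat_lit 0) (nat_lit 0) (nat_lit 1) (nat_lit 0) (nat_lit 1) (nat_lit 0) (nat_lit 304) (nat_lit 306) (nat_lit 110)) (XT.lf (nat_lit 0) (nat_lit 26879592517) (nat_lit 0) (nat_lit 0) (nat_lit 0) (nat_lit 0) (nat_lit 0) (nat_lit 0) (nat_lit 1) (nat_lit 0) (nat_lit 1) (nat_lit 0) (nat_lit 305) (nat_lit 306)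 (nat_lit 109)))) (XT.nd (nat_lit 188) (nat_lit 0) (nat_lit 0) (XT.nd (nat_lit 94) (nat_lit 0) (nat_lit 0) (XT.lf (nat_lit 0) (nat_lit 26879506837) (nat_lit 0) (nat_lit 0) (nat_lit 0) (nat_lit 0) (nat_lit 0) (nat_lit 0) (nat_lit 1) (nat_lit 0) (nat_lit 1) (nat_lit 0) (nat_lit 306) (nat_lit 306) (nat_lit 108)) (XT.lf (nat_lit 0) (nat_lit 26879425236) (nat_lit 0) (nat_lit 0) (nat_lit 0) (nat_lit 0) (nat_lit 0) (nat_lit 0) (nat_lit 1) (nat_lit 0) (nat_lit 1) (nat_lit 0) (nat_lit 307) (nat_lit 306) (nat_lit 107))) (XT.nd (nat_lit 94) (nat_lit 0) (nat_lit 0) (XT.lf (nat_lit 0) (nat_lit 26879347521) (nat_lit 0) (nat_lit 0) (nat_lit 0) (nat_lit 0) (nat_lit 0) (nat_lit 0) (nat_lit 1) (nat_lit 0) (nat_lit 1) (nat_lit 0) (nat_lit 308) (nat_lit 306) (nat_lit 106)) (XT.lf (nat_lit 0) (nat_lit 26879273507) (nat_lit 0) (nat_lit 0) (nat_lit 0) (nat_lit 0) (nat_lit 0) (nat_lit 0) (nat_lit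 1) (nat_lit 0) (nat_lit 1) (nat_lit 0) (nat_lit 309) (nat_lit 306) (nat_lit 105))))))) (XT.nd (nat_lit 26790) (nat_lit 0) (nat_lit 7812) (XT.nd (nat_lit 26132) (nat_lit 0) (nat_lit 10752) (XT.nd (nat_lit 282) (nat_lit 0) (nat_lit 0) (XT.nd (nat_lit 94) (nat_lit 0) (nat_lit 0) (XT.lf (nat_lit 0) (nat_lit 26879203018) (nat_lit 0) (nat_lit 0) (nat_lit 0) (nat_lit 0) (nat_lit 0) (nat_lit 0) (nat_lit 1) (nat_lit 0) (nat_lit 1) (nat_lit 0) (nat_lit 310) (nat_lit 306) (nat_lit 104)) (XT.nd (nat_lit 94) (nat_lit 0) (nat_lit 0) (XT.lf (nat_lit 0) (nat_lit 26879135885) (nat_lit 0) (nat_lit 0) (nat_lit 0) (nat_lit 0) (nat_lit 0) (nat_lit 0) (nat_lit 1) (nat_lit 0) (nat_lit 1) (nat_lit 0) (nat_lit 311) (nat_lit 306) (nat_lit 103)) (XT.lf (nat_lit 0) (nat_lit 26879071949) (nat_lit 0) (nat_lit 0) (nat_lit 0) (nat_lit 0) (nat_lit 0) (nat_lit 0) (nat_lit 1) (nat_lit 0) (nat_lit 1) (nat_lit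 0) (nat_lit 312) (nat_lit 306) (nat_lit 102)))) (XT.nd (nat_lit 94) (nat_lit 0) (nat_lit 0) (XT.lf (nat_lit 0) (nat_lit 26879011057) (nat_lit 0) (nat_lit 0) (nat_lit 0) (nat_lit 0) (nat_lit 0) (nat_lit 0) (nat_lit 1) (nat_lit 0) (nat_lit 1) (nat_lit 0) (nat_lit 313) (nat_lit 306) (nat_lit 101)) (XT.nd (nat_lit 25662) (nat_lit 0) (nat_lit 10752) (XT.lf (nat_lit 0) (nat_lit 26878953065) (nat_lit 0) (nat_lit 0) (nat_lit 0) (nat_lit 0) (nat_lit 0) (nat_lit 0) (nat_lit 1) (nat_lit 0) (nat_lit 1) (nat_lit 0) (nat_lit 314) (nat_lit 306) (nat_lit 100)) (XT.lf (nat_lit 924) (nat_lit 14123187233) (nat_lit 0) (nat_lit 25075686469) (nat_lit 924) (nat_lit 14123187233) (nat_lit 139) (nat_lit 1) (nat_lit 128) (nat_lit 0) (nat_lit 139) (nat_lit 0) (nat_lit 106) (nat_lit 307) (nat_lit 307))))) (XT.nd (nat_lit 282) (nat_lit 0) (nat_lit 168) (XT.nd (nat_lit 94) (nat_lit 0) (nat_lit 84) (XT.lf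 (nat_lit 924) (nat_lit 54743236925) (nat_lit 84) (nat_lit 24671239913) (nat_lit 0) (nat_lit 24671239913) (nat_lit 139) (nat_lit 1) (nat_lit 129) (nat_lit 1) (nat_lit 128) (nat_lit 0) (nat_lit 107) (nat_lit 307) (nat_lit 306)) (XT.nd (nat_lit 94) (nat_lit 0) (nat_lit 0) (XT.lf (nat_lit 924) (nat_lit 26089802450) (nat_lit 0) (nat_lit 49426800780) (nat_lit 840) (nat_lit 26089802450) (nat_lit 140) (nat_lit 1) (nat_lit 129) (nat_lit 1) (nat_lit 139) (nat_lit 1) (nat_lit 108) (nat_lit 307) (nat_lit 305)) (XT.lf (nat_lit 924) (nat_lit 48940844127) (nat_lit 84) (nat_lit 25133175351) (nat_lit 0) (nat_lit 25133175351) (nat_lit 140) (nat_lit 1) (nat_lit 130) (nat_lit 1) (nat_lit 129) (nat_lit 1) (nat_lit 109) (nat_lit 307) (nat_lit 304)))) (XT.nd (nat_lit 188) (nat_lit 0) (nat_lit 84) (XT.nd (nat_lit 94) (nat_lit 0) (nat_lit 0) (XT.lf (nat_lit 924) (nat_lit 22527000568) (nat_lit 0)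 (nat_lit 51830025789) (nat_lit 840) (nat_lit 22527000568) (nat_lit 141) (nat_lit 1) (nat_lit 130) (nat_lit 1) (nat_lit 140) (nat_lit 1) (nat_lit 110) (nat_lit 307) (nat_lit 303)) (XT.lf (nat_lit 924) (nat_lit 40516277751) (nat_lit 84) (nat_lit 27057700154) (nat_lit 0) (nat_lit 27057700154) (nat_lit 141) (nat_lit 1) (nat_lit 131) (nat_lit 1) (nat_lit 130) (nat_lit 1) (nat_lit 111) (nat_lit 307) (nat_lit 302))) (XT.nd (nat_lit 94) (nat_lit 0) (nat_lit 0) (XT.lf (nat_lit 924) (nat_lit 17765217577) (nat_lit 0) (nat_lit 56924520113) (nat_lit 840) (nat_lit 17765217577) (nat_lit 142) (nat_lit 1) (nat_lit 131) (nat_lit 1) (nat_lit 141) (nat_lit 1) (nat_lit 112) (nat_lit 307) (nat_lit 301)) (XT.lf (nat_lit 924) (nat_lit 29863876215) (nat_lit 84) (nat_lit 30237144449) (nat_lit 0) (nat_lit 30237144449) (nat_lit 142) (nat_lit 1) (nat_lit 132) (nat_lit 1) (nat_lit 131) (nat_lit 1) (nat_lit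 113) (nat_lit 307) (nat_lit 300)))))) (XT.nd (nat_lit 658) (nat_lit 1512) (nat_lit 0) (XT.nd (nat_lit 282) (nat_lit 1764) (nat_lit 0) (XT.nd (nat_lit 94) (nat_lit 0) (nat_lit 0) (XT.lf (nat_lit 924) (nat_lit 11988790837) (nat_lit 0) (nat_lit 64321279877) (nat_lit 840) (nat_lit 11988790837) (nat_lit 143) (nat_lit 1) (nat_lit 132) (nat_lit 1) (nat_lit 142) (nat_lit 1) (nat_lit 114) (nat_lit 307) (nat_lit 299)) (XT.nd (nat_lit 94) (nat_lit 0) (nat_lit 84) (XT.lf (nat_lit 924) (nat_lit 17334146874) (nat_lit 84) (nat_lit 34486559451) (nat_lit 0) (nat_lit 34486559451) (nat_lit 143) (nat_lit 1) (nat_lit 133) (nat_lit 1) (nat_lit 132) (nat_lit 1) (nat_lit 115) (nat_lit 307) (nat_lit 298)) (XT.lf (nat_lit 84) (nat_lit 5361449885) (nat_lit 0) (nat_lit 73674076395) (nat_lit 840) (nat_lit 5361449885) (nat_lit 134) (nat_lit 1) (nat_lit 133) (nat_lit 1) (nat_lit 143) (nat_lit 1) (nat_lit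 116) (nat_lit 307) (nat_lit 297)))) (XT.nd (nat_lit 188) (nat_lit 420) (nat_lit 0) (XT.nd (nat_lit 94) (nat_lit 588) (nat_lit 0) (XT.lf (nat_lit 924) (nat_lit 3238182403) (nat_lit 0) (nat_lit 39641442506) (nat_lit 840) (nat_lit 39641442506) (nat_lit 134) (nat_lit 1) (nat_lit 123) (nat_lit 1) (nat_lit 133) (nat_lit 1) (nat_lit 117) (nat_lit 307) (nat_lit 296)) (XT.lf (nat_lit 588) (nat_lit 76846146486) (nat_lit 0) (nat_lit 1939802365) (nat_lit 504) (nat_lit 1939802365) (nat_lit 123) (nat_lit 1) (nat_lit 116) (nat_lit 1) (nat_lit 122) (nat_lit 1) (nat_lit 118) (nat_lit 307) (nat_lit 295))) (XT.nd (nat_lit 94) (nat_lit 420) (nat_lit 0) (XT.lf (nat_lit 84) (nat_lit 33597001497) (nat_lit 0) (nat_lit 11759526606) (nat_lit 588) (nat_lit 33597001497) (nat_lit 117) (nat_lit 1) (nat_lit 116) (nat_lit 1) (nat_lit 123) (nat_lit 1) (nat_lit 119) (nat_lit 307) (nat_lit 294)) (XT.lf (nat_lit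 504) (nat_lit 57811815601) (nat_lit 0) (nat_lit 9722425997) (nat_lit 420) (nat_lit 9722425997) (nat_lit 117) (nat_lit 1) (nat_lit 111) (nat_lit 1) (nat_lit 116) (nat_lit 1) (nat_lit 120) (nat_lit 307) (nat_lit 293))))) (XT.nd (nat_lit 282) (nat_lit 1092) (nat_lit 0) (XT.nd (nat_lit 94) (nat_lit 420) (nat_lit 0) (XT.lf (nat_lit 84) (nat_lit 23964332176) (nat_lit 0) (nat_lit 27666813968) (nat_lit 504) (nat_lit 23964332176) (nat_lit 112) (nat_lit 1) (nat_lit 111) (nat_lit 1) (nat_lit 117) (nat_lit 1) (nat_lit 121) (nat_lit 307) (nat_lit 292)) (XT.nd (nat_lit 94) (nat_lit 0) (nat_lit 0) (XT.lf (nat_lit 504) (nat_lit 38069900420) (nat_lit 0) (nat_lit 17961121701) (nat_lit 420) (nat_lit 17961121701) (nat_lit 112) (nat_lit 1) (nat_lit 106) (nat_lit 1) (nat_lit 111) (nat_lit 1) (nat_lit 122) (nat_lit 307) (nat_lit 291)) (XT.lf (nat_lit 84) (nat_lit 14028252354) (nat_lit 0) (nat_lit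 44378934988) (nat_lit 504) (nat_lit 14028252354) (nat_lit 107) (nat_lit 1) (nat_lit 106) (nat_lit 1) (nat_lit 112) (nat_lit 1) (nat_lit 123) (nat_lit 307) (nat_lit 290)))) (XT.nd (nat_lit 188) (nat_lit 756) (nat_lit 0) (XT.nd (nat_lit 94) (nat_lit 0) (nat_lit 0) (XT.lf (nat_lit 420) (nat_lit 17804148089) (nat_lit 0) (nat_lit 26557315522) (nat_lit 336) (nat_lit 26557315522) (nat_lit 107) (nat_lit 1) (nat_lit 102) (nat_lit 1) (nat_lit 106) (nat_lit 1) (nat_lit 124) (nat_lit 307) (nat_lit 289)) (XT.lf (nat_lit 84) (nat_lit 3874063824) (nat_lit 0) (nat_lit 61712314221) (nat_lit 420) (nat_lit 3874063824) (nat_lit 103) (nat_lit 1) (nat_lit 102) (nat_lit 1) (nat_lit 107) (nat_lit 1) (nat_lit 125) (nat_lit 307) (nat_lit 288))) (XT.nd (nat_lit 94) (nat_lit 336) (nat_lit 0) (XT.lf (nat_lit 84) (nat_lit 32643974997) (nat_lit 0) (nat_lit 2733996317) (nat_lit 420) (nat_lit 32643974997)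 (nat_lit 98) (nat_lit 1) (nat_lit 97) (nat_lit 1) (nat_lit 102) (nat_lit 1) (nat_lit 126) (nat_lit 307) (nat_lit 287)) (XT.lf (nat_lit 420) (nat_lit 53998282654) (nat_lit 0) (nat_lit 6319974768) (nat_lit 336) (nat_lit 6319974768) (nat_lit 98) (nat_lit 1) (nat_lit 93) (nat_lit 1) (nat_lit 97) (nat_lit 1) (nat_lit 127) (nat_lit 307) (nat_lit 286))))))))
noncomputable def ec205 : XT := (XT.nd (nat_lit 2538) (nat_lit 2604) (nat_lit 0) (XT.nd (nat_lit 1222) (nat_lit 1848) (nat_lit 0) (XT.nd (nat_lit 564) (nat_lit 1092) (nat_lit 0) (XT.nd (nat_lit 282) (nat_lit 672) (nat_lit 0) (XT.nd (nat_lit 94) (nat_lit 336) (nat_lit 0) (XT.lf (nat_lit 84) (nat_lit 21180500385) (nat_lit 0) (nat_lit 22917255219) (nat_lit 420) (nat_lit 21180500385) (nat_lit 94) (nat_lit 1) (nat_lit 93) (nat_lit 1) (nat_lit 98) (nat_lit 1) (nat_lit 128) (nat_lit 307) (nat_lit 285)) (XT.nd (nat_lit 94) (nat_lit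 0) (nat_lit 0) (XT.lf (nat_lit 420) (nat_lit 30908242021) (nat_lit 0) (nat_lit 16528598482) (nat_lit 336) (nat_lit 16528598482) (nat_lit 94) (nat_lit 1) (nat_lit 89) (nat_lit 1) (nat_lit 93) (nat_lit 1) (nat_lit 129) (nat_lit 307) (nat_lit 284)) (XT.lf (nat_lit 84) (nat_lit 9747080121) (nat_lit 0) (nat_lit 43196848619) (nat_lit 420) (nat_lit 9747080121) (nat_lit 90) (nat_lit 1) (nat_lit 89) (nat_lit 1) (nat_lit 94) (nat_lit 1) (nat_lit 130) (nat_lit 307) (nat_lit 283)))) (XT.nd (nat_lit 94) (nat_lit 420) (nat_lit 0) (XT.lf (nat_lit 336) (nat_lit 7926882802) (nat_lit 0) (nat_lit 26758602890) (nat_lit 252) (nat_lit 26758602890) (nat_lit 90) (nat_lit 1) (nat_lit 86) (nat_lit 1) (nat_lit 89) (nat_lit 1) (nat_lit 131) (nat_lit 307) (nat_lit 282)) (XT.nd (nat_lit 94) (nat_lit 0) (nat_lit 0) (XT.lf (nat_lit 420) (nat_lit 57077695234) (nat_lit 0) (nat_lit 1583796522) (nat_lit 336)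 (nat_lit 1583796522) (nat_lit 86) (nat_lit 1) (nat_lit 81) (nat_lit 1) (nat_lit 85) (nat_lit 1) (nat_lit 132) (nat_lit 307) (nat_lit 281)) (XT.lf (nat_lit 84) (nat_lit 22334924113) (nat_lit 0) (nat_lit 14383274965) (nat_lit 420) (nat_lit 22334924113) (nat_lit 82) (nat_lit 1) (nat_lit 81) (nat_lit 1) (nat_lit 86) (nat_lit 1) (nat_lit 133) (nat_lit 307) (nat_lit 280))))) (XT.nd (nat_lit 282) (nat_lit 588) (nat_lit 0) (XT.nd (nat_lit 94) (nat_lit 252) (nat_lit 0) (XT.lf (nat_lit 336) (nat_lit 32620862771) (nat_lit 0) (nat_lit 12642909018) (nat_lit 252) (nat_lit 12642909018) (nat_lit 82) (nat_lit 1) (nat_lit 78) (nat_lit 1) (nat_lit 81) (nat_lit 1) (nat_lit 134) (nat_lit 307) (nat_lit 279)) (XT.nd (nat_lit 94) (nat_lit 252) (nat_lit 0) (XT.lf (nat_lit 84) (nat_lit 10305435142) (nat_lit 0) (nat_lit 36178495479) (nat_lit 336) (nat_lit 10305435142) (nat_lit 79) (nat_lit 1) (nat_lit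 78) (nat_lit 1) (nat_lit 82) (nat_lit 1) (nat_lit 135) (nat_lit 307) (nat_lit 278)) (XT.lf (nat_lit 336) (nat_lit 8589258082) (nat_lit 0) (nat_lit 23554105626) (nat_lit 252) (nat_lit 23554105626) (nat_lit 79) (nat_lit 1) (nat_lit 75) (nat_lit 1) (nat_lit 78) (nat_lit 1) (nat_lit 136) (nat_lit 307) (nat_lit 277)))) (XT.nd (nat_lit 188) (nat_lit 252) (nat_lit 0) (XT.nd (nat_lit 94) (nat_lit 0) (nat_lit 0) (XT.lf (nat_lit 336) (nat_lit 51693832790) (nat_lit 0) (nat_lit 1476152727) (nat_lit 252) (nat_lit 1476152727) (nat_lit 75) (nat_lit 1) (nat_lit 71) (nat_lit 1) (nat_lit 74) (nat_lit 1) (nat_lit 137) (nat_lit 307) (nat_lit 276)) (XT.lf (nat_lit 84) (nat_lit 19554296526) (nat_lit 0) (nat_lit 14489537379) (nat_lit 336) (nat_lit 19554296526) (nat_lit 72) (nat_lit 1) (nat_lit 71) (nat_lit 1) (nat_lit 75) (nat_lit 1) (nat_lit 138) (nat_lit 307) (nat_lit 275))) (XT.nd (nat_lit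 94) (nat_lit 0) (nat_lit 0) (XT.lf (nat_lit 336) (nat_lit 26888948230) (nat_lit 0) (nat_lit 12849975422) (nat_lit 252) (nat_lit 12849975422) (nat_lit 72) (nat_lit 1) (nat_lit 68) (nat_lit 1) (nat_lit 71) (nat_lit 1) (nat_lit 139) (nat_lit 307) (nat_lit 274)) (XT.lf (nat_lit 84) (nat_lit 7405194413) (nat_lit 0) (nat_lit 36796346937) (nat_lit 336) (nat_lit 7405194413) (nat_lit 69) (nat_lit 1) (nat_lit 68) (nat_lit 1) (nat_lit 72) (nat_lit 1) (nat_lit 140) (nat_lit 307) (nat_lit 273)))))) (XT.nd (nat_lit 658) (nat_lit 756) (nat_lit 0) (XT.nd (nat_lit 282) (nat_lit 588) (nat_lit 0) (XT.nd (nat_lit 94) (nat_lit 336) (nat_lit 0) (XT.lf (nat_lit 252) (nat_lit 2713509450) (nat_lit 0) (nat_lit 23964785639) (nat_lit 168) (nat_lit 23964785639) (nat_lit 69) (nat_lit 1) (nat_lit 66) (nat_lit 1) (nat_lit 68) (nat_lit 1) (nat_lit 141) (nat_lit 307) (nat_lit 272)) (XT.nd (nat_lit 94) (nat_lit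 0) (nat_lit 0) (XT.lf (nat_lit 336) (nat_lit 41000217919) (nat_lit 0) (nat_lit 4354520326) (nat_lit 252) (nat_lit 4354520326) (nat_lit 66) (nat_lit 1) (nat_lit 62) (nat_lit 1) (nat_lit 65) (nat_lit 1) (nat_lit 142) (nat_lit 307) (nat_lit 271)) (XT.lf (nat_lit 84) (nat_lit 14320402891) (nat_lit 0) (nat_lit 20145074533) (nat_lit 336) (nat_lit 14320402891) (nat_lit 63) (nat_lit 1) (nat_lit 62) (nat_lit 1) (nat_lit 66) (nat_lit 1) (nat_lit 143) (nat_lit 307) (nat_lit 270)))) (XT.nd (nat_lit 188) (nat_lit 420) (nat_lit 0) (XT.nd (nat_lit 94) (nat_lit 0) (nat_lit 0) (XT.lf (nat_lit 252) (nat_lit 16545016524) (nat_lit 0) (nat_lit 15672991761) (nat_lit 168) (nat_lit 15672991761) (nat_lit 63) (nat_lit 1) (nat_lit 60) (nat_lit 1) (nat_lit 62) (nat_lit 1) (nat_lit 144) (nat_lit 307) (nat_lit 269)) (XT.lf (nat_lit 84) (nat_lit 2376993726) (nat_lit 0) (nat_lit 42271829967) (nat_lit 252)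 (nat_lit 2376993726) (nat_lit 61) (nat_lit 1) (nat_lit 60) (nat_lit 1) (nat_lit 63) (nat_lit 1) (nat_lit 145) (nat_lit 307) (nat_lit 268))) (XT.nd (nat_lit 94) (nat_lit 168) (nat_lit 0) (XT.lf (nat_lit 84) (nat_lit 19617746252) (nat_lit 0) (nat_lit 6928287288) (nat_lit 252) (nat_lit 19617746252) (nat_lit 58) (nat_lit 1) (nat_lit 57) (nat_lit 1) (nat_lit 60) (nat_lit 1) (nat_lit 146) (nat_lit 307) (nat_lit 267)) (XT.lf (nat_lit 252) (nat_lit 27242678977) (nat_lit 0) (nat_lit 9043831307) (nat_lit 168) (nat_lit 9043831307) (nat_lit 58) (nat_lit 1) (nat_lit 55) (nat_lit 1) (nat_lit 57) (nat_lit 1) (nat_lit 147) (nat_lit 307) (nat_lit 266))))) (XT.nd (nat_lit 282) (nat_lit 336) (nat_lit 0) (XT.nd (nat_lit 94) (nat_lit 420) (nat_lit 0) (XT.lf (nat_lit 84) (nat_lit 7687175256) (nat_lit 0) (nat_lit 29140973681) (nat_lit 252) (nat_lit 7687175256) (nat_lit 56) (nat_lit 1) (nat_lit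 55) (nat_lit 1) (nat_lit 58) (nat_lit 1) (nat_lit 148) (nat_lit 307) (nat_lit 265)) (XT.nd (nat_lit 94) (nat_lit 252) (nat_lit 0) (XT.lf (nat_lit 252) (nat_lit 3601164843) (nat_lit 0) (nat_lit 20057785303) (nat_lit 168) (nat_lit 20057785303) (nat_lit 56) (nat_lit 1) (nat_lit 53) (nat_lit 1) (nat_lit 55) (nat_lit 1) (nat_lit 149) (nat_lit 307) (nat_lit 264)) (XT.lf (nat_lit 252) (nat_lit 35394574593) (nat_lit 0) (nat_lit 3773355919) (nat_lit 168) (nat_lit 3773355919) (nat_lit 53) (nat_lit 1) (nat_lit 50) (nat_lit 1) (nat_lit 52) (nat_lit 1) (nat_lit 150) (nat_lit 307) (nat_lit 263)))) (XT.nd (nat_lit 188) (nat_lit 168) (nat_lit 0) (XT.nd (nat_lit 94) (nat_lit 168) (nat_lit 0) (XT.lf (nat_lit 84) (nat_lit 11782940618) (nat_lit 0) (nat_lit 18606574549) (nat_lit 252) (nat_lit 11782940618) (nat_lit 51) (nat_lit 1) (nat_lit 50) (nat_lit 1) (nat_lit 53) (nat_lit 1) (nat_lit 151)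 (nat_lit 307) (nat_lit 262)) (XT.lf (nat_lit 252) (nat_lit 12000352951) (nat_lit 0) (nat_lit 14712796204) (nat_lit 168) (nat_lit 14712796204) (nat_lit 51) (nat_lit 1) (nat_lit 48) (nat_lit 1) (nat_lit 50) (nat_lit 1) (nat_lit 152) (nat_lit 307) (nat_lit 261))) (XT.nd (nat_lit 94) (nat_lit 168) (nat_lit 0) (XT.lf (nat_lit 84) (nat_lit 394418505) (nat_lit 0) (nat_lit 39916778080) (nat_lit 252) (nat_lit 394418505) (nat_lit 49) (nat_lit 1) (nat_lit 48) (nat_lit 1) (nat_lit 51) (nat_lit 1) (nat_lit 153) (nat_lit 307) (nat_lit 260)) (XT.lf (nat_lit 84) (nat_lit 14892599655) (nat_lit 0) (nat_lit 10195506723) (nat_lit 168) (nat_lit 14892599655) (nat_lit 47) (nat_lit 1) (nat_lit 46) (nat_lit 1) (nat_lit 48) (nat_lit 1) (nat_lit 154) (nat_lit 307) (nat_lit 259))))))) (XT.nd (nat_lit 1316) (nat_lit 1092) (nat_lit 0) (XT.nd (nat_lit 658) (nat_lit 672) (nat_lit 0) (XT.nd (nat_lit 282)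 (nat_lit 504) (nat_lit 0) (XT.nd (nat_lit 94) (nat_lit 168) (nat_lit 0) (XT.lf (nat_lit 252) (nat_lit 18480020759) (nat_lit 0) (nat_lit 10400641082) (nat_lit 168) (nat_lit 10400641082) (nat_lit 47) (nat_lit 1) (nat_lit 44) (nat_lit 1) (nat_lit 46) (nat_lit 1) (nat_lit 155) (nat_lit 307) (nat_lit 258)) (XT.nd (nat_lit 94) (nat_lit 168) (nat_lit 0) (XT.lf (nat_lit 84) (nat_lit 3705116442) (nat_lit 0) (nat_lit 31190545594) (nat_lit 252) (nat_lit 3705116442) (nat_lit 45) (nat_lit 1) (nat_lit 44) (nat_lit 1) (nat_lit 47) (nat_lit 1) (nat_lit 156) (nat_lit 307) (nat_lit 257)) (XT.lf (nat_lit 84) (nat_lit 17203364542) (nat_lit 0) (nat_lit 3519136988) (nat_lit 168) (nat_lit 17203364542) (nat_lit 43) (nat_lit 1) (nat_lit 42) (nat_lit 1) (nat_lit 44) (nat_lit 1) (nat_lit 157) (nat_lit 307) (nat_lit 256)))) (XT.nd (nat_lit 188) (nat_lit 336) (nat_lit 0) (XT.nd (nat_lit 94) (nat_lit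 0) (nat_lit 0) (XT.lf (nat_lit 252) (nat_lit 23400988039) (nat_lit 0) (nat_lit 6934144809) (nat_lit 168) (nat_lit 6934144809) (nat_lit 43) (nat_lit 1) (nat_lit 40) (nat_lit 1) (nat_lit 42) (nat_lit 1) (nat_lit 158) (nat_lit 307) (nat_lit 255)) (XT.lf (nat_lit 84) (nat_lit 6267853573) (nat_lit 0) (nat_lit 24089980462) (nat_lit 252) (nat_lit 6267853573) (nat_lit 41) (nat_lit 1) (nat_lit 40) (nat_lit 1) (nat_lit 43) (nat_lit 1) (nat_lit 159) (nat_lit 307) (nat_lit 254))) (XT.nd (nat_lit 94) (nat_lit 252) (nat_lit 0) (XT.lf (nat_lit 168) (nat_lit 1799272508) (nat_lit 0) (nat_lit 17097484952) (nat_lit 84) (nat_lit 17097484952) (nat_lit 41) (nat_lit 1) (nat_lit 39) (nat_lit 1) (nat_lit 40) (nat_lit 1) (nat_lit 160) (nat_lit 307) (nat_lit 253)) (XT.lf (nat_lit 252) (nat_lit 27059126227) (nat_lit 0) (nat_lit 4159511096) (nat_lit 168) (nat_lit 4159511096) (nat_lit 39) (nat_lit 1)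 (nat_lit 36) (nat_lit 1) (nat_lit 38) (nat_lit 1) (nat_lit 161) (nat_lit 307) (nat_lit 252))))) (XT.nd (nat_lit 282) (nat_lit 336) (nat_lit 0) (XT.nd (nat_lit 94) (nat_lit 336) (nat_lit 0) (XT.lf (nat_lit 84) (nat_lit 8222907319) (nat_lit 0) (nat_lit 18323116459) (nat_lit 252) (nat_lit 8222907319) (nat_lit 37) (nat_lit 1) (nat_lit 36) (nat_lit 1) (nat_lit 39) (nat_lit 1) (nat_lit 162) (nat_lit 307) (nat_lit 251)) (XT.nd (nat_lit 94) (nat_lit 252) (nat_lit 0) (XT.lf (nat_lit 168) (nat_lit 6042364703) (nat_lit 0) (nat_lit 14066143183) (nat_lit 84) (nat_lit 14066143183) (nat_lit 37) (nat_lit 1) (nat_lit 35) (nat_lit 1) (nat_lit 36) (nat_lit 1) (nat_lit 163) (nat_lit 307) (nat_lit 250)) (XT.lf (nat_lit 252) (nat_lit 29696920068) (nat_lit 0) (nat_lit 1950395312) (nat_lit 168) (nat_lit 1950395312) (nat_lit 35) (nat_lit 1) (nat_lit 32) (nat_lit 1) (nat_lit 34) (nat_lit 1) (nat_lit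 164) (nat_lit 307) (nat_lit 249)))) (XT.nd (nat_lit 188) (nat_lit 252) (nat_lit 0) (XT.nd (nat_lit 94) (nat_lit 84) (nat_lit 0) (XT.lf (nat_lit 84) (nat_lit 9685319223) (nat_lit 0) (nat_lit 13649930319) (nat_lit 252) (nat_lit 9685319223) (nat_lit 33) (nat_lit 1) (nat_lit 32) (nat_lit 1) (nat_lit 35) (nat_lit 1) (nat_lit 165) (nat_lit 307) (nat_lit 248)) (XT.lf (nat_lit 168) (nat_lit 9315924354) (nat_lit 0) (nat_lit 11572250807) (nat_lit 84) (nat_lit 11572250807) (nat_lit 33) (nat_lit 1) (nat_lit 31) (nat_lit 1) (nat_lit 32) (nat_lit 1) (nat_lit 166) (nat_lit 307) (nat_lit 247))) (XT.nd (nat_lit 94) (nat_lit 0) (nat_lit 0) (XT.lf (nat_lit 252) (nat_lit 31512977211) (nat_lit 0) (nat_lit 203028612) (nat_lit 168) (nat_lit 203028612) (nat_lit 31) (nat_lit 1) (nat_lit 28) (nat_lit 1) (nat_lit 30) (nat_lit 1) (nat_lit 167) (nat_lit 307) (nat_lit 246)) (XT.lf (nat_lit 84) (nat_lit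 10749386591) (nat_lit 0) (nat_lit 9873123895) (nat_lit 252) (nat_lit 10749386591) (nat_lit 29) (nat_lit 1) (nat_lit 28) (nat_lit 1) (nat_lit 31) (nat_lit 1) (nat_lit 168) (nat_lit 307) (nat_lit 245)))))) (XT.nd (nat_lit 658) (nat_lit 504) (nat_lit 0) (XT.nd (nat_lit 282) (nat_lit 336) (nat_lit 0) (XT.nd (nat_lit 94) (nat_lit 168) (nat_lit 0) (XT.lf (nat_lit 168) (nat_lit 11802192077) (nat_lit 0) (nat_lit 9520519378) (nat_lit 84) (nat_lit 9520519378) (nat_lit 29) (nat_lit 1) (nat_lit 27) (nat_lit 1) (nat_lit 28) (nat_lit 1) (nat_lit 169) (nat_lit 307) (nat_lit 244)) (XT.nd (nat_lit 94) (nat_lit 168) (nat_lit 0) (XT.lf (nat_lit 0) (nat_lit 1186937185) (nat_lit 0) (nat_lit 27956651537) (nat_lit 168) (nat_lit 1186937185) (nat_lit 27) (nat_lit 3) (nat_lit 27) (nat_lit 1) (nat_lit 29) (nat_lit 1) (nat_lit 170) (nat_lit 307) (nat_lit 243)) (XT.lf (nat_lit 84) (nat_lit 11492356948)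 (nat_lit 0) (nat_lit 6830541024) (nat_lit 168) (nat_lit 11492356948) (nat_lit 26) (nat_lit 1) (nat_lit 25) (nat_lit 1) (nat_lit 27) (nat_lit 1) (nat_lit 171) (nat_lit 307) (nat_lit 242)))) (XT.nd (nat_lit 188) (nat_lit 252) (nat_lit 0) (XT.nd (nat_lit 94) (nat_lit 0) (nat_lit 0) (XT.lf (nat_lit 168) (nat_lit 13650605065) (nat_lit 0) (nat_lit 7832554853) (nat_lit 84) (nat_lit 7832554853) (nat_lit 26) (nat_lit 1) (nat_lit 24) (nat_lit 1) (nat_lit 25) (nat_lit 1) (nat_lit 172) (nat_lit 307) (nat_lit 241)) (XT.lf (nat_lit 0) (nat_lit 2268598597) (nat_lit 0) (nat_lit 24292108844) (nat_lit 168) (nat_lit 2268598597) (nat_lit 24) (nat_lit 3) (nat_lit 24) (nat_lit 1) (nat_lit 26) (nat_lit 1) (nat_lit 173) (nat_lit 307) (nat_lit 240))) (XT.nd (nat_lit 94) (nat_lit 84) (nat_lit 0) (XT.lf (nat_lit 84) (nat_lit 11977466690) (nat_lit 0) (nat_lit 4388929255) (nat_lit 168) (nat_lit 11977466690)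 (nat_lit 23) (nat_lit 1) (nat_lit 22) (nat_lit 1) (nat_lit 24) (nat_lit 1) (nat_lit 174) (nat_lit 307) (nat_lit 239)) (XT.lf (nat_lit 168) (nat_lit 14983636507) (nat_lit 0) (nat_lit 6443862262) (nat_lit 84) (nat_lit 6443862262) (nat_lit 23) (nat_lit 1) (nat_lit 21) (nat_lit 1) (nat_lit 22) (nat_lit 1) (nat_lit 175) (nat_lit 307) (nat_lit 238))))) (XT.nd (nat_lit 282) (nat_lit 252) (nat_lit 0) (XT.nd (nat_lit 94) (nat_lit 252) (nat_lit 0) (XT.lf (nat_lit 0) (nat_lit 3096955430) (nat_lit 0) (nat_lit 21215751814) (nat_lit 168) (nat_lit 3096955430) (nat_lit 21) (nat_lit 3) (nat_lit 21) (nat_lit 1) (nat_lit 23) (nat_lit 1) (nat_lit 176) (nat_lit 307) (nat_lit 237)) (XT.nd (nat_lit 94) (nat_lit 84) (nat_lit 0) (XT.lf (nat_lit 84) (nat_lit 12256440238) (nat_lit 0) (nat_lit 2438807959) (nat_lit 168) (nat_lit 12256440238) (nat_lit 20) (nat_lit 1) (nat_lit 19) (nat_lit 1) (nat_lit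 21) (nat_lit 1) (nat_lit 177) (nat_lit 307) (nat_lit 236)) (XT.lf (nat_lit 168) (nat_lit 15901598586) (nat_lit 0) (nat_lit 5301381430) (nat_lit 84) (nat_lit 5301381430) (nat_lit 20) (nat_lit 1) (nat_lit 18) (nat_lit 1) (nat_lit 19) (nat_lit 1) (nat_lit 178) (nat_lit 307) (nat_lit 235)))) (XT.nd (nat_lit 188) (nat_lit 84) (nat_lit 0) (XT.nd (nat_lit 94) (nat_lit 168) (nat_lit 0) (XT.lf (nat_lit 0) (nat_lit 3719847897) (nat_lit 0) (nat_lit 18626226522) (nat_lit 168) (nat_lit 3719847897) (nat_lit 18) (nat_lit 3) (nat_lit 18) (nat_lit 1) (nat_lit 20) (nat_lit 1) (nat_lit 179) (nat_lit 307) (nat_lit 234)) (XT.lf (nat_lit 84) (nat_lit 12371545382) (nat_lit 0) (nat_lit 890246677) (nat_lit 168) (nat_lit 12371545382) (nat_lit 17) (nat_lit 1) (nat_lit 16) (nat_lit 1) (nat_lit 18) (nat_lit 1) (nat_lit 180) (nat_lit 307) (nat_lit 233))) (XT.nd (nat_lit 94) (nat_lit 0) (nat_lit 0) (XT.lf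 (nat_lit 168) (nat_lit 16486592843) (nat_lit 0) (nat_lit 4361459622) (nat_lit 84) (nat_lit 4361459622) (nat_lit 17) (nat_lit 1) (nat_lit 15) (nat_lit 1) (nat_lit 16) (nat_lit 1) (nat_lit 181) (nat_lit 307) (nat_lit 232)) (XT.lf (nat_lit 0) (nat_lit 4176494737) (nat_lit 0) (nat_lit 16440009322) (nat_lit 168) (nat_lit 4176494737) (nat_lit 15) (nat_lit 3) (nat_lit 15) (nat_lit 1) (nat_lit 17) (nat_lit 1) (nat_lit 182) (nat_lit 307) (nat_lit 231))))))))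
noncomputable def ec206 : XT := (XT.nd (nat_lit 2538) (nat_lit 0) (nat_lit 0) (XT.nd (nat_lit 1222) (nat_lit 168) (nat_lit 0) (XT.nd (nat_lit 564) (nat_lit 588) (nat_lit 0) (XT.nd (nat_lit 282) (nat_lit 252) (nat_lit 0) (XT.nd (nat_lit 94) (nat_lit 168) (nat_lit 0) (XT.lf (nat_lit 84) (nat_lit 341539113) (nat_lit 0) (nat_lit 12021076813) (nat_lit 84) (nat_lit 12021076813) (nat_lit 15) (nat_lit 3) (nat_lit 14) (nat_lit 1) (nat_lit 15) (nat_lit 1) (nat_lit 183) (nat_lit 307) (nat_lit 230)) (XT.nd (nat_lit 94) (nat_lit 0) (nat_lit 0) (XT.lf (nat_lit 168) (nat_lit 16805759146) (nat_lit 0) (nat_lit 3588183625) (nat_lit 84) (nat_lit 3588183625) (nat_lit 14) (nat_lit 1) (nat_lit 12) (nat_lit 1) (nat_lit 13) (nat_lit 1) (nat_lit 184) (nat_lit 307) (nat_lit 229)) (XT.lf (nat_lit 0) (nat_lit 4499028429) (nat_lit 0) (nat_lit 14588252228) (nat_lit 168) (nat_lit 4499028429) (nat_lit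 12) (nat_lit 3) (nat_lit 12) (nat_lit 1) (nat_lit 14) (nat_lit 1) (nat_lit 185) (nat_lit 307) (nat_lit 228)))) (XT.nd (nat_lit 94) (nat_lit 168) (nat_lit 0) (XT.lf (nat_lit 84) (nat_lit 1326855529) (nat_lit 0) (nat_lit 10935640099) (nat_lit 84) (nat_lit 10935640099) (nat_lit 12) (nat_lit 3) (nat_lit 11) (nat_lit 1) (nat_lit 12) (nat_lit 1) (nat_lit 186) (nat_lit 307) (nat_lit 227)) (XT.nd (nat_lit 94) (nat_lit 0) (nat_lit 0) (XT.lf (nat_lit 168) (nat_lit 16913947652) (nat_lit 0) (nat_lit 2952007548) (nat_lit 84) (nat_lit 2952007548) (nat_lit 11) (nat_lit 1) (nat_lit 9) (nat_lit 1) (nat_lit 10) (nat_lit 1) (nat_lit 187) (nat_lit 307) (nat_lit 226)) (XT.lf (nat_lit 0) (nat_lit 4713757893) (nat_lit 0) (nat_lit 13014187281) (nat_lit 168) (nat_lit 4713757893) (nat_lit 9) (nat_lit 3) (nat_lit 9) (nat_lit 1) (nat_lit 11) (nat_lit 1) (nat_lit 188) (nat_lit 307) (nat_lit 225)))))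 (XT.nd (nat_lit 282) (nat_lit 336) (nat_lit 0) (XT.nd (nat_lit 94) (nat_lit 168) (nat_lit 0) (XT.lf (nat_lit 84) (nat_lit 2087674428) (nat_lit 0) (nat_lit 9992845274) (nat_lit 84) (nat_lit 9992845274) (nat_lit 9) (nat_lit 3) (nat_lit 8) (nat_lit 1) (nat_lit 9) (nat_lit 1) (nat_lit 189) (nat_lit 307) (nat_lit 224)) (XT.nd (nat_lit 94) (nat_lit 0) (nat_lit 0) (XT.lf (nat_lit 168) (nat_lit 16855916128) (nat_lit 0) (nat_lit 2428623915) (nat_lit 84) (nat_lit 2428623915) (nat_lit 8) (nat_lit 1) (nat_lit 6) (nat_lit 1) (nat_lit 7) (nat_lit 1) (nat_lit 190) (nat_lit 307) (nat_lit 223)) (XT.lf (nat_lit 0) (nat_lit 4842207017) (nat_lit 0) (nat_lit 11670990816) (nat_lit 168) (nat_lit 4842207017) (nat_lit 6) (nat_lit 3) (nat_lit 6) (nat_lit 1) (nat_lit 8) (nat_lit 1) (nat_lit 191) (nat_lit 307) (nat_lit 222)))) (XT.nd (nat_lit 188) (nat_lit 84) (nat_lit 0) (XT.nd (nat_lit 94) (nat_lit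 168) (nat_lit 0) (XT.lf (nat_lit 84) (nat_lit 2666170252) (nat_lit 0) (nat_lit 9169773871) (nat_lit 84) (nat_lit 9169773871) (nat_lit 6) (nat_lit 3) (nat_lit 5) (nat_lit 1) (nat_lit 6) (nat_lit 1) (nat_lit 192) (nat_lit 307) (nat_lit 221)) (XT.lf (nat_lit 168) (nat_lit 16668136804) (nat_lit 0) (nat_lit 1998034905) (nat_lit 84) (nat_lit 1998034905) (nat_lit 5) (nat_lit 1) (nat_lit 3) (nat_lit 1) (nat_lit 4) (nat_lit 1) (nat_lit 193) (nat_lit 307) (nat_lit 220))) (XT.nd (nat_lit 94) (nat_lit 84) (nat_lit 0) (XT.lf (nat_lit 0) (nat_lit 4901968775) (nat_lit 0) (nat_lit 10520026107) (nat_lit 168) (nat_lit 4901968775) (nat_lit 3) (nat_lit 3) (nat_lit 3) (nat_lit 1) (nat_lit 5) (nat_lit 1) (nat_lit 194) (nat_lit 307) (nat_lit 219)) (XT.lf (nat_lit 84) (nat_lit 3096927088) (nat_lit 0) (nat_lit 8447457880) (nat_lit 84) (nat_lit 8447457880) (nat_lit 3) (nat_lit 3) (nat_lit 2) (nat_lit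 1) (nat_lit 3) (nat_lit 1) (nat_lit 195) (nat_lit 307) (nat_lit 218)))))) (XT.nd (nat_lit 658) (nat_lit 0) (nat_lit 0) (XT.nd (nat_lit 282) (nat_lit 0) (nat_lit 0) (XT.nd (nat_lit 94) (nat_lit 0) (nat_lit 0) (XT.lf (nat_lit 0) (nat_lit 28571262414) (nat_lit 0) (nat_lit 0) (nat_lit 0) (nat_lit 0) (nat_lit 0) (nat_lit 0) (nat_lit 1) (nat_lit 0) (nat_lit 1) (nat_lit 0) (nat_lit 196) (nat_lit 307) (nat_lit 217)) (XT.nd (nat_lit 94) (nat_lit 0) (nat_lit 0) (XT.lf (nat_lit 0) (nat_lit 28554615770) (nat_lit 0) (nat_lit 0) (nat_lit 0) (nat_lit 0) (nat_lit 0) (nat_lit 0) (nat_lit 1) (nat_lit 0) (nat_lit 1) (nat_lit 0) (nat_lit 197) (nat_lit 307) (nat_lit 216)) (XT.lf (nat_lit 0) (nat_lit 28538761823) (nat_lit 0) (nat_lit 0) (nat_lit 0) (nat_lit 0) (nat_lit 0) (nat_lit 0) (nat_lit 1) (nat_lit 0) (nat_lit 1) (nat_lit 0) (nat_lit 198) (nat_lit 307) (nat_lit 215)))) (XT.nd (nat_lit 188)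 (nat_lit 0) (nat_lit 0) (XT.nd (nat_lit 94) (nat_lit 0) (nat_lit 0) (XT.lf (nat_lit 0) (nat_lit 28523662826) (nat_lit 0) (nat_lit 0) (nat_lit 0) (nat_lit 0) (nat_lit 0) (nat_lit 0) (nat_lit 1) (nat_lit 0) (nat_lit 1) (nat_lit 0) (nat_lit 199) (nat_lit 307) (nat_lit 214)) (XT.lf (nat_lit 0) (nat_lit 28509282829) (nat_lit 0) (nat_lit 0) (nat_lit 0) (nat_lit 0) (nat_lit 0) (nat_lit 0) (nat_lit 1) (nat_lit 0) (nat_lit 1) (nat_lit 0) (nat_lit 200) (nat_lit 307) (nat_lit 213))) (XT.nd (nat_lit 94) (nat_lit 0) (nat_lit 0) (XT.lf (nat_lit 0) (nat_lit 28495587594) (nat_lit 0) (nat_lit 0) (nat_lit 0) (nat_lit 0) (nat_lit 0) (nat_lit 0) (nat_lit 1) (nat_lit 0) (nat_lit 1) (nat_lit 0) (nat_lit 201) (nat_lit 307) (nat_lit 212)) (XT.lf (nat_lit 0) (nat_lit 28482544512) (nat_lit 0) (nat_lit 0) (nat_lit 0) (nat_lit 0) (nat_lit 0) (nat_lit 0) (nat_lit 1) (nat_lit 0) (nat_lit 1) (nat_lit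 0) (nat_lit 202) (nat_lit 307) (nat_lit 211))))) (XT.nd (nat_lit 282) (nat_lit 0) (nat_lit 0) (XT.nd (nat_lit 94) (nat_lit 0) (nat_lit 0) (XT.lf (nat_lit 0) (nat_lit 28470122530) (nat_lit 0) (nat_lit 0) (nat_lit 0) (nat_lit 0) (nat_lit 0) (nat_lit 0) (nat_lit 1) (nat_lit 0) (nat_lit 1) (nat_lit 0) (nat_lit 203) (nat_lit 307) (nat_lit 210)) (XT.nd (nat_lit 94) (nat_lit 0) (nat_lit 0) (XT.lf (nat_lit 0) (nat_lit 28458292071) (nat_lit 0) (nat_lit 0) (nat_lit 0) (nat_lit 0) (nat_lit 0) (nat_lit 0) (nat_lit 1) (nat_lit 0) (nat_lit 1) (nat_lit 0) (nat_lit 204) (nat_lit 307) (nat_lit 209)) (XT.lf (nat_lit 0) (nat_lit 28447024967) (nat_lit 0) (nat_lit 0) (nat_lit 0) (nat_lit 0) (nat_lit 0) (nat_lit 0) (nat_lit 1) (nat_lit 0) (nat_lit 1) (nat_lit 0) (nat_lit 205) (nat_lit 307) (nat_lit 208)))) (XT.nd (nat_lit 188) (nat_lit 0) (nat_lit 0) (XT.nd (nat_lit 94) (nat_lit 0) (nat_lit 0)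 (XT.lf (nat_lit 0) (nat_lit 28436294392) (nat_lit 0) (nat_lit 0) (nat_lit 0) (nat_lit 0) (nat_lit 0) (nat_lit 0) (nat_lit 1) (nat_lit 0) (nat_lit 1) (nat_lit 0) (nat_lit 206) (nat_lit 307) (nat_lit 207)) (XT.lf (nat_lit 0) (nat_lit 28426074796) (nat_lit 0) (nat_lit 0) (nat_lit 0) (nat_lit 0) (nat_lit 0) (nat_lit 0) (nat_lit 1) (nat_lit 0) (nat_lit 1) (nat_lit 0) (nat_lit 207) (nat_lit 307) (nat_lit 206))) (XT.nd (nat_lit 94) (nat_lit 0) (nat_lit 0) (XT.lf (nat_lit 0) (nat_lit 28416341848) (nat_lit 0) (nat_lit 0) (nat_lit 0) (nat_lit 0) (nat_lit 0) (nat_lit 0) (nat_lit 1) (nat_lit 0) (nat_lit 1) (nat_lit 0) (nat_lit 208) (nat_lit 307) (nat_lit 205)) (XT.lf (nat_lit 0) (nat_lit 28407072374) (nat_lit 0) (nat_lit 0) (nat_lit 0) (nat_lit 0) (nat_lit 0) (nat_lit 0) (nat_lit 1) (nat_lit 0) (nat_lit 1) (nat_lit 0) (nat_lit 209) (nat_lit 307) (nat_lit 204))))))) (XT.nd (nat_lit 1222)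 (nat_lit 0) (nat_lit 0) (XT.nd (nat_lit 564) (nat_lit 0) (nat_lit 0) (XT.nd (nat_lit 282) (nat_lit 0) (nat_lit 0) (XT.nd (nat_lit 94) (nat_lit 0) (nat_lit 0) (XT.lf (nat_lit 0) (nat_lit 28398244303) (nat_lit 0) (nat_lit 0) (nat_lit 0) (nat_lit 0) (nat_lit 0) (nat_lit 0) (nat_lit 1) (nat_lit 0) (nat_lit 1) (nat_lit 0) (nat_lit 210) (nat_lit 307) (nat_lit 203)) (XT.nd (nat_lit 94) (nat_lit 0) (nat_lit 0) (XT.lf (nat_lit 0) (nat_lit 28389836616) (nat_lit 0) (nat_lit 0) (nat_lit 0) (nat_lit 0) (nat_lit 0) (nat_lit 0) (nat_lit 1) (nat_lit 0) (nat_lit 1) (nat_lit 0) (nat_lit 211) (nat_lit 307) (nat_lit 202)) (XT.lf (nat_lit 0) (nat_lit 28381829296) (nat_lit 0) (nat_lit 0) (nat_lit 0) (nat_lit 0) (nat_lit 0) (nat_lit 0) (nat_lit 1) (nat_lit 0) (nat_lit 1) (nat_lit 0) (nat_lit 212) (nat_lit 307) (nat_lit 201)))) (XT.nd (nat_lit 94) (nat_lit 0) (nat_lit 0) (XT.lf (nat_lit 0) (nat_lit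 28374203276) (nat_lit 0) (nat_lit 0) (nat_lit 0) (nat_lit 0) (nat_lit 0) (nat_lit 0) (nat_lit 1) (nat_lit 0) (nat_lit 1) (nat_lit 0) (nat_lit 213) (nat_lit 307) (nat_lit 200)) (XT.nd (nat_lit 94) (nat_lit 0) (nat_lit 0) (XT.lf (nat_lit 0) (nat_lit 28366940401) (nat_lit 0) (nat_lit 0) (nat_lit 0) (nat_lit 0) (nat_lit 0) (nat_lit 0) (nat_lit 1) (nat_lit 0) (nat_lit 1) (nat_lit 0) (nat_lit 214) (nat_lit 307) (nat_lit 199)) (XT.lf (nat_lit 0) (nat_lit 28360023376) (nat_lit 0) (nat_lit 0) (nat_lit 0) (nat_lit 0) (nat_lit 0) (nat_lit 0) (nat_lit 1) (nat_lit 0) (nat_lit 1) (nat_lit 0) (nat_lit 215) (nat_lit 307) (nat_lit 198))))) (XT.nd (nat_lit 282) (nat_lit 0) (nat_lit 0) (XT.nd (nat_lit 94) (nat_lit 0) (nat_lit 0) (XT.lf (nat_lit 0) (nat_lit 28353435734) (nat_lit 0) (nat_lit 0) (nat_lit 0) (nat_lit 0) (nat_lit 0) (nat_lit 0) (nat_lit 1) (nat_lit 0) (nat_lit 1) (nat_lit 0) (nat_lit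 216) (nat_lit 307) (nat_lit 197)) (XT.nd (nat_lit 94) (nat_lit 0) (nat_lit 0) (XT.lf (nat_lit 0) (nat_lit 28347161789) (nat_lit 0) (nat_lit 0) (nat_lit 0) (nat_lit 0) (nat_lit 0) (nat_lit 0) (nat_lit 1) (nat_lit 0) (nat_lit 1) (nat_lit 0) (nat_lit 217) (nat_lit 307) (nat_lit 196)) (XT.lf (nat_lit 0) (nat_lit 28341186603) (nat_lit 0) (nat_lit 0) (nat_lit 0) (nat_lit 0) (nat_lit 0) (nat_lit 0) (nat_lit 1) (nat_lit 0) (nat_lit 1) (nat_lit 0) (nat_lit 218) (nat_lit 307) (nat_lit 195)))) (XT.nd (nat_lit 188) (nat_lit 0) (nat_lit 0) (XT.nd (nat_lit 94) (nat_lit 0) (nat_lit 0) (XT.lf (nat_lit 0) (nat_lit 28335495950) (nat_lit 0) (nat_lit 0) (nat_lit 0) (nat_lit 0) (nat_lit 0) (nat_lit 0) (nat_lit 1) (nat_lit 0) (nat_lit 1) (nat_lit 0) (nat_lit 219) (nat_lit 307) (nat_lit 194)) (XT.lf (nat_lit 0) (nat_lit 28330076280) (nat_lit 0) (nat_lit 0) (nat_lit 0) (nat_lit 0) (nat_lit 0) (nat_lit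 0) (nat_lit 1) (nat_lit 0) (nat_lit 1) (nat_lit 0) (nat_lit 220) (nat_lit 307) (nat_lit 193))) (XT.nd (nat_lit 94) (nat_lit 0) (nat_lit 0) (XT.lf (nat_lit 0) (nat_lit 28324914690) (nat_lit 0) (nat_lit 0) (nat_lit 0) (nat_lit 0) (nat_lit 0) (nat_lit 0) (nat_lit 1) (nat_lit 0) (nat_lit 1) (nat_lit 0) (nat_lit 221) (nat_lit 307) (nat_lit 192)) (XT.lf (nat_lit 0) (nat_lit 28319998890) (nat_lit 0) (nat_lit 0) (nat_lit 0) (nat_lit 0) (nat_lit 0) (nat_lit 0) (nat_lit 1) (nat_lit 0) (nat_lit 1) (nat_lit 0) (nat_lit 222) (nat_lit 307) (nat_lit 191)))))) (XT.nd (nat_lit 658) (nat_lit 0) (nat_lit 0) (XT.nd (nat_lit 282) (nat_lit 0) (nat_lit 0) (XT.nd (nat_lit 94) (nat_lit 0) (nat_lit 0) (XT.lf (nat_lit 0) (nat_lit 28315317175) (nat_lit 0) (nat_lit 0) (nat_lit 0) (nat_lit 0) (nat_lit 0) (nat_lit 0) (nat_lit 1) (nat_lit 0) (nat_lit 1) (nat_lit 0) (nat_lit 223) (nat_lit 307) (nat_lit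 190)) (XT.nd (nat_lit 94) (nat_lit 0) (nat_lit 0) (XT.lf (nat_lit 0) (nat_lit 28310858400) (nat_lit 0) (nat_lit 0) (nat_lit 0) (nat_lit 0) (nat_lit 0) (nat_lit 0) (nat_lit 1) (nat_lit 0) (nat_lit 1) (nat_lit 0) (nat_lit 224) (nat_lit 307) (nat_lit 189)) (XT.lf (nat_lit 0) (nat_lit 28306611947) (nat_lit 0) (nat_lit 0) (nat_lit 0) (nat_lit 0) (nat_lit 0) (nat_lit 0) (nat_lit 1) (nat_lit 0) (nat_lit 1) (nat_lit 0) (nat_lit 225) (nat_lit 307) (nat_lit 188)))) (XT.nd (nat_lit 188) (nat_lit 0) (nat_lit 0) (XT.nd (nat_lit 94) (nat_lit 0) (nat_lit 0) (XT.lf (nat_lit 0) (nat_lit 28302567706) (nat_lit 0) (nat_lit 0) (nat_lit 0) (nat_lit 0) (nat_lit 0) (nat_lit 0) (nat_lit 1) (nat_lit 0) (nat_lit 1) (nat_lit 0) (nat_lit 226) (nat_lit 307) (nat_lit 187)) (XT.lf (nat_lit 0) (nat_lit 28298716048) (nat_lit 0) (nat_lit 0) (nat_lit 0) (nat_lit 0) (nat_lit 0) (nat_lit 0) (nat_lit 1) (nat_lit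 0) (nat_lit 1) (nat_lit 0) (nat_lit 227) (nat_lit 307) (nat_lit 186))) (XT.nd (nat_lit 94) (nat_lit 0) (nat_lit 0) (XT.lf (nat_lit 0) (nat_lit 28295047802) (nat_lit 0) (nat_lit 0) (nat_lit 0) (nat_lit 0) (nat_lit 0) (nat_lit 0) (nat_lit 1) (nat_lit 0) (nat_lit 1) (nat_lit 0) (nat_lit 228) (nat_lit 307) (nat_lit 185)) (XT.lf (nat_lit 0) (nat_lit 28291554234) (nat_lit 0) (nat_lit 0) (nat_lit 0) (nat_lit 0) (nat_lit 0) (nat_lit 0) (nat_lit 1) (nat_lit 0) (nat_lit 1) (nat_lit 0) (nat_lit 229) (nat_lit 307) (nat_lit 184))))) (XT.nd (nat_lit 282) (nat_lit 0) (nat_lit 0) (XT.nd (nat_lit 94) (nat_lit 0) (nat_lit 0) (XT.lf (nat_lit 0) (nat_lit 28288227027) (nat_lit 0) (nat_lit 0) (nat_lit 0) (nat_lit 0) (nat_lit 0) (nat_lit 0) (nat_lit 1) (nat_lit 0) (nat_lit 1) (nat_lit 0) (nat_lit 230) (nat_lit 307) (nat_lit 183)) (XT.nd (nat_lit 94) (nat_lit 0) (nat_lit 0) (XT.lf (nat_lit 0) (nat_lit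 28285058259) (nat_lit 0) (nat_lit 0) (nat_lit 0) (nat_lit 0) (nat_lit 0) (nat_lit 0) (nat_lit 1) (nat_lit 0) (nat_lit 1) (nat_lit 0) (nat_lit 231) (nat_lit 307) (nat_lit 182)) (XT.lf (nat_lit 0) (nat_lit 28282040384) (nat_lit 0) (nat_lit 0) (nat_lit 0) (nat_lit 0) (nat_lit 0) (nat_lit 0) (nat_lit 1) (nat_lit 0) (nat_lit 1) (nat_lit 0) (nat_lit 232) (nat_lit 307) (nat_lit 181)))) (XT.nd (nat_lit 188) (nat_lit 0) (nat_lit 0) (XT.nd (nat_lit 94) (nat_lit 0) (nat_lit 0) (XT.lf (nat_lit 0) (nat_lit 28279166217) (nat_lit 0) (nat_lit 0) (nat_lit 0) (nat_lit 0) (nat_lit 0) (nat_lit 0) (nat_lit 1) (nat_lit 0) (nat_lit 1) (nat_lit 0) (nat_lit 233) (nat_lit 307) (nat_lit 180)) (XT.lf (nat_lit 0) (nat_lit 28276428916) (nat_lit 0) (nat_lit 0) (nat_lit 0) (nat_lit 0) (nat_lit 0) (nat_lit 0) (nat_lit 1) (nat_lit 0) (nat_lit 1) (nat_lit 0) (nat_lit 234) (nat_lit 307) (nat_lit 179))) (XT.nd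 (nat_lit 94) (nat_lit 0) (nat_lit 0) (XT.lf (nat_lit 0) (nat_lit 28273821962) (nat_lit 0) (nat_lit 0) (nat_lit 0) (nat_lit 0) (nat_lit 0) (nat_lit 0) (nat_lit 1) (nat_lit 0) (nat_lit 1) (nat_lit 0) (nat_lit 235) (nat_lit 307) (nat_lit 178)) (XT.lf (nat_lit 0) (nat_lit 28271339149) (nat_lit 0) (nat_lit 0) (nat_lit 0) (nat_lit 0) (nat_lit 0) (nat_lit 0) (nat_lit 1) (nat_lit 0) (nat_lit 1) (nat_lit 0) (nat_lit 236) (nat_lit 307) (nat_lit 177))))))))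
noncomputable def ec207 : XT := (XT.nd (nat_lit 2538) (nat_lit 0) (nat_lit 0) (XT.nd (nat_lit 1222) (nat_lit 0) (nat_lit 0) (XT.nd (nat_lit 564) (nat_lit 0) (nat_lit 0) (XT.nd (nat_lit 282) (nat_lit 0) (nat_lit 0) (XT.nd (nat_lit 94) (nat_lit 0) (nat_lit 0) (XT.lf (nat_lit 0) (nat_lit 28268974565) (nat_lit 0) (nat_lit 0) (nat_lit 0) (nat_lit 0) (nat_lit 0) (nat_lit 0) (nat_lit 1) (nat_lit 0) (nat_lit 1) (nat_lit 0) (nat_lit 237) (nat_lit 307) (nat_lit 176)) (XT.nd (nat_lit 94) (nat_lit 0) (nat_lit 0) (XT.lf (nat_lit 0) (nat_lit 28266722580) (nat_lit 0) (nat_lit 0) (nat_lit 0) (nat_lit 0) (nat_lit 0) (nat_lit 0) (nat_lit 1) (nat_lit 0) (nat_lit 1) (nat_lit 0) (nat_lit 238) (nat_lit 307) (nat_lit 175)) (XT.lf (nat_lit 0) (nat_lit 28264577833) (nat_lit 0) (nat_lit 0) (nat_lit 0) (nat_lit 0) (nat_lit 0) (nat_lit 0) (nat_lit 1) (nat_lit 0) (nat_lit 1) (nat_lit 0) (nat_lit 239)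 (nat_lit 307) (nat_lit 174)))) (XT.nd (nat_lit 94) (nat_lit 0) (nat_lit 0) (XT.lf (nat_lit 0) (nat_lit 28262535217) (nat_lit 0) (nat_lit 0) (nat_lit 0) (nat_lit 0) (nat_lit 0) (nat_lit 0) (nat_lit 1) (nat_lit 0) (nat_lit 1) (nat_lit 0) (nat_lit 240) (nat_lit 307) (nat_lit 173)) (XT.nd (nat_lit 94) (nat_lit 0) (nat_lit 0) (XT.lf (nat_lit 0) (nat_lit 28260589867) (nat_lit 0) (nat_lit 0) (nat_lit 0) (nat_lit 0) (nat_lit 0) (nat_lit 0) (nat_lit 1) (nat_lit 0) (nat_lit 1) (nat_lit 0) (nat_lit 241) (nat_lit 307) (nat_lit 172)) (XT.lf (nat_lit 0) (nat_lit 28258737154) (nat_lit 0) (nat_lit 0) (nat_lit 0) (nat_lit 0) (nat_lit 0) (nat_lit 0) (nat_lit 1) (nat_lit 0) (nat_lit 1) (nat_lit 0) (nat_lit 242) (nat_lit 307) (nat_lit 171))))) (XT.nd (nat_lit 282) (nat_lit 0) (nat_lit 0) (XT.nd (nat_lit 94) (nat_lit 0) (nat_lit 0) (XT.lf (nat_lit 0) (nat_lit 28256972665) (nat_lit 0) (nat_lit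 0) (nat_lit 0) (nat_lit 0) (nat_lit 0) (nat_lit 0) (nat_lit 1) (nat_lit 0) (nat_lit 1) (nat_lit 0) (nat_lit 243) (nat_lit 307) (nat_lit 170)) (XT.nd (nat_lit 94) (nat_lit 0) (nat_lit 0) (XT.lf (nat_lit 0) (nat_lit 28255292199) (nat_lit 0) (nat_lit 0) (nat_lit 0) (nat_lit 0) (nat_lit 0) (nat_lit 0) (nat_lit 1) (nat_lit 0) (nat_lit 1) (nat_lit 0) (nat_lit 244) (nat_lit 307) (nat_lit 169)) (XT.lf (nat_lit 0) (nat_lit 28253691756) (nat_lit 0) (nat_lit 0) (nat_lit 0) (nat_lit 0) (nat_lit 0) (nat_lit 0) (nat_lit 1) (nat_lit 0) (nat_lit 1) (nat_lit 0) (nat_lit 245) (nat_lit 307) (nat_lit 168)))) (XT.nd (nat_lit 188) (nat_lit 0) (nat_lit 0) (XT.nd (nat_lit 94) (nat_lit 0) (nat_lit 0) (XT.lf (nat_lit 0) (nat_lit 28252167524) (nat_lit 0) (nat_lit 0) (nat_lit 0) (nat_lit 0) (nat_lit 0) (nat_lit 0) (nat_lit 1) (nat_lit 0) (nat_lit 1) (nat_lit 0) (nat_lit 246) (nat_lit 307) (nat_lit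 167)) (XT.lf (nat_lit 0) (nat_lit 28250715875) (nat_lit 0) (nat_lit 0) (nat_lit 0) (nat_lit 0) (nat_lit 0) (nat_lit 0) (nat_lit 1) (nat_lit 0) (nat_lit 1) (nat_lit 0) (nat_lit 247) (nat_lit 307) (nat_lit 166))) (XT.nd (nat_lit 94) (nat_lit 0) (nat_lit 0) (XT.lf (nat_lit 0) (nat_lit 28249333351) (nat_lit 0) (nat_lit 0) (nat_lit 0) (nat_lit 0) (nat_lit 0) (nat_lit 0) (nat_lit 1) (nat_lit 0) (nat_lit 1) (nat_lit 0) (nat_lit 248) (nat_lit 307) (nat_lit 165)) (XT.lf (nat_lit 0) (nat_lit 28248016663) (nat_lit 0) (nat_lit 0) (nat_lit 0) (nat_lit 0) (nat_lit 0) (nat_lit 0) (nat_lit 1) (nat_lit 0) (nat_lit 1) (nat_lit 0) (nat_lit 249) (nat_lit 307) (nat_lit 164)))))) (XT.nd (nat_lit 658) (nat_lit 0) (nat_lit 0) (XT.nd (nat_lit 282) (nat_lit 0) (nat_lit 0) (XT.nd (nat_lit 94) (nat_lit 0) (nat_lit 0) (XT.lf (nat_lit 0) (nat_lit 28246762673) (nat_lit 0) (nat_lit 0) (nat_lit 0) (nat_lit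 0) (nat_lit 0) (nat_lit 0) (nat_lit 1) (nat_lit 0) (nat_lit 1) (nat_lit 0) (nat_lit 250) (nat_lit 307) (nat_lit 163)) (XT.nd (nat_lit 94) (nat_lit 0) (nat_lit 0) (XT.lf (nat_lit 0) (nat_lit 28245568398) (nat_lit 0) (nat_lit 0) (nat_lit 0) (nat_lit 0) (nat_lit 0) (nat_lit 0) (nat_lit 1) (nat_lit 0) (nat_lit 1) (nat_lit 0) (nat_lit 251) (nat_lit 307) (nat_lit 162)) (XT.lf (nat_lit 0) (nat_lit 28244430992) (nat_lit 0) (nat_lit 0) (nat_lit 0) (nat_lit 0) (nat_lit 0) (nat_lit 0) (nat_lit 1) (nat_lit 0) (nat_lit 1) (nat_lit 0) (nat_lit 252) (nat_lit 307) (nat_lit 161)))) (XT.nd (nat_lit 188) (nat_lit 0) (nat_lit 0) (XT.nd (nat_lit 94) (nat_lit 0) (nat_lit 0) (XT.lf (nat_lit 0) (nat_lit 28243347749) (nat_lit 0) (nat_lit 0) (nat_lit 0) (nat_lit 0) (nat_lit 0) (nat_lit 0) (nat_lit 1) (nat_lit 0) (nat_lit 1) (nat_lit 0) (nat_lit 253) (nat_lit 307) (nat_lit 160)) (XT.lf (nat_lit 0)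 (nat_lit 28242316089) (nat_lit 0) (nat_lit 0) (nat_lit 0) (nat_lit 0) (nat_lit 0) (nat_lit 0) (nat_lit 1) (nat_lit 0) (nat_lit 1) (nat_lit 0) (nat_lit 254) (nat_lit 307) (nat_lit 159))) (XT.nd (nat_lit 94) (nat_lit 0) (nat_lit 0) (XT.lf (nat_lit 0) (nat_lit 28241333556) (nat_lit 0) (nat_lit 0) (nat_lit 0) (nat_lit 0) (nat_lit 0) (nat_lit 0) (nat_lit 1) (nat_lit 0) (nat_lit 1) (nat_lit 0) (nat_lit 255) (nat_lit 307) (nat_lit 158)) (XT.lf (nat_lit 0) (nat_lit 28240397810) (nat_lit 0) (nat_lit 0) (nat_lit 0) (nat_lit 0) (nat_lit 0) (nat_lit 0) (nat_lit 1) (nat_lit 0) (nat_lit 1) (nat_lit 0) (nat_lit 256) (nat_lit 307) (nat_lit 157))))) (XT.nd (nat_lit 282) (nat_lit 0) (nat_lit 0) (XT.nd (nat_lit 94) (nat_lit 0) (nat_lit 0) (XT.lf (nat_lit 0) (nat_lit 28239506623) (nat_lit 0) (nat_lit 0) (nat_lit 0) (nat_lit 0) (nat_lit 0) (nat_lit 0) (nat_lit 1) (nat_lit 0) (nat_lit 1) (nat_lit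 0) (nat_lit 257) (nat_lit 307) (nat_lit 156)) (XT.nd (nat_lit 94) (nat_lit 0) (nat_lit 0) (XT.lf (nat_lit 0) (nat_lit 28238657873) (nat_lit 0) (nat_lit 0) (nat_lit 0) (nat_lit 0) (nat_lit 0) (nat_lit 0) (nat_lit 1) (nat_lit 0) (nat_lit 1) (nat_lit 0) (nat_lit 258) (nat_lit 307) (nat_lit 155)) (XT.lf (nat_lit 0) (nat_lit 28237849541) (nat_lit 0) (nat_lit 0) (nat_lit 0) (nat_lit 0) (nat_lit 0) (nat_lit 0) (nat_lit 1) (nat_lit 0) (nat_lit 1) (nat_lit 0) (nat_lit 259) (nat_lit 307) (nat_lit 154)))) (XT.nd (nat_lit 188) (nat_lit 0) (nat_lit 0) (XT.nd (nat_lit 94) (nat_lit 0) (nat_lit 0) (XT.lf (nat_lit 0) (nat_lit 28237079700) (nat_lit 0) (nat_lit 0) (nat_lit 0) (nat_lit 0) (nat_lit 0) (nat_lit 0) (nat_lit 1) (nat_lit 0) (nat_lit 1) (nat_lit 0) (nat_lit 260) (nat_lit 307) (nat_lit 153)) (XT.lf (nat_lit 0) (nat_lit 28236346518) (nat_lit 0) (nat_lit 0) (nat_lit 0) (nat_lit 0) (nat_lit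 0) (nat_lit 0) (nat_lit 1) (nat_lit 0) (nat_lit 1) (nat_lit 0) (nat_lit 261) (nat_lit 307) (nat_lit 152))) (XT.nd (nat_lit 94) (nat_lit 0) (nat_lit 0) (XT.lf (nat_lit 0) (nat_lit 28235648250) (nat_lit 0) (nat_lit 0) (nat_lit 0) (nat_lit 0) (nat_lit 0) (nat_lit 0) (nat_lit 1) (nat_lit 0) (nat_lit 1) (nat_lit 0) (nat_lit 262) (nat_lit 307) (nat_lit 151)) (XT.lf (nat_lit 0) (nat_lit 28234983233) (nat_lit 0) (nat_lit 0) (nat_lit 0) (nat_lit 0) (nat_lit 0) (nat_lit 0) (nat_lit 1) (nat_lit 0) (nat_lit 1) (nat_lit 0) (nat_lit 263) (nat_lit 307) (nat_lit 150))))))) (XT.nd (nat_lit 1316) (nat_lit 0) (nat_lit 0) (XT.nd (nat_lit 658) (nat_lit 0) (nat_lit 0) (XT.nd (nat_lit 282) (nat_lit 0) (nat_lit 0) (XT.nd (nat_lit 94) (nat_lit 0) (nat_lit 0) (XT.lf (nat_lit 0) (nat_lit 28234349883) (nat_lit 0) (nat_lit 0) (nat_lit 0) (nat_lit 0) (nat_lit 0) (nat_lit 0) (nat_lit 1) (nat_lit 0) (nat_lit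 1) (nat_lit 0) (nat_lit 264) (nat_lit 307) (nat_lit 149)) (XT.nd (nat_lit 94) (nat_lit 0) (nat_lit 0) (XT.lf (nat_lit 0) (nat_lit 28233746693) (nat_lit 0) (nat_lit 0) (nat_lit 0) (nat_lit 0) (nat_lit 0) (nat_lit 0) (nat_lit 1) (nat_lit 0) (nat_lit 1) (nat_lit 0) (nat_lit 265) (nat_lit 307) (nat_lit 148)) (XT.lf (nat_lit 0) (nat_lit 28233172226) (nat_lit 0) (nat_lit 0) (nat_lit 0) (nat_lit 0) (nat_lit 0) (nat_lit 0) (nat_lit 1) (nat_lit 0) (nat_lit 1) (nat_lit 0) (nat_lit 266) (nat_lit 307) (nat_lit 147)))) (XT.nd (nat_lit 188) (nat_lit 0) (nat_lit 0) (XT.nd (nat_lit 94) (nat_lit 0) (nat_lit 0) (XT.lf (nat_lit 0) (nat_lit 28232625114) (nat_lit 0) (nat_lit 0) (nat_lit 0) (nat_lit 0) (nat_lit 0) (nat_lit 0) (nat_lit 1) (nat_lit 0) (nat_lit 1) (nat_lit 0) (nat_lit 267) (nat_lit 307) (nat_lit 146)) (XT.lf (nat_lit 0) (nat_lit 28232104056) (nat_lit 0) (nat_lit 0) (nat_lit 0) (nat_lit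 0) (nat_lit 0) (nat_lit 0) (nat_lit 1) (nat_lit 0) (nat_lit 1) (nat_lit 0) (nat_lit 268) (nat_lit 307) (nat_lit 145))) (XT.nd (nat_lit 94) (nat_lit 0) (nat_lit 0) (XT.lf (nat_lit 0) (nat_lit 28231607810) (nat_lit 0) (nat_lit 0) (nat_lit 0) (nat_lit 0) (nat_lit 0) (nat_lit 0) (nat_lit 1) (nat_lit 0) (nat_lit 1) (nat_lit 0) (nat_lit 269) (nat_lit 307) (nat_lit 144)) (XT.lf (nat_lit 0) (nat_lit 28231135194) (nat_lit 0) (nat_lit 0) (nat_lit 0) (nat_lit 0) (nat_lit 0) (nat_lit 0) (nat_lit 1) (nat_lit 0) (nat_lit 1) (nat_lit 0) (nat_lit 270) (nat_lit 307) (nat_lit 143))))) (XT.nd (nat_lit 282) (nat_lit 0) (nat_lit 0) (XT.nd (nat_lit 94) (nat_lit 0) (nat_lit 0) (XT.lf (nat_lit 0) (nat_lit 28230685084) (nat_lit 0) (nat_lit 0) (nat_lit 0) (nat_lit 0) (nat_lit 0) (nat_lit 0) (nat_lit 1) (nat_lit 0) (nat_lit 1) (nat_lit 0) (nat_lit 271) (nat_lit 307) (nat_lit 142)) (XT.nd (nat_lit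 94) (nat_lit 0) (nat_lit 0) (XT.lf (nat_lit 0) (nat_lit 28230256408) (nat_lit 0) (nat_lit 0) (nat_lit 0) (nat_lit 0) (nat_lit 0) (nat_lit 0) (nat_lit 1) (nat_lit 0) (nat_lit 1) (nat_lit 0) (nat_lit 272) (nat_lit 307) (nat_lit 141)) (XT.lf (nat_lit 0) (nat_lit 28229848145) (nat_lit 0) (nat_lit 0) (nat_lit 0) (nat_lit 0) (nat_lit 0) (nat_lit 0) (nat_lit 1) (nat_lit 0) (nat_lit 1) (nat_lit 0) (nat_lit 273) (nat_lit 307) (nat_lit 140)))) (XT.nd (nat_lit 188) (nat_lit 0) (nat_lit 0) (XT.nd (nat_lit 94) (nat_lit 0) (nat_lit 0) (XT.lf (nat_lit 0) (nat_lit 28229459324) (nat_lit 0) (nat_lit 0) (nat_lit 0) (nat_lit 0) (nat_lit 0) (nat_lit 0) (nat_lit 1) (nat_lit 0) (nat_lit 1) (nat_lit 0) (nat_lit 274) (nat_lit 307) (nat_lit 139)) (XT.lf (nat_lit 0) (nat_lit 28229089017) (nat_lit 0) (nat_lit 0) (nat_lit 0) (nat_lit 0) (nat_lit 0) (nat_lit 0) (nat_lit 1) (nat_lit 0) (nat_lit 1) (nat_lit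 0) (nat_lit 275) (nat_lit 307) (nat_lit 138))) (XT.nd (nat_lit 94) (nat_lit 0) (nat_lit 0) (XT.lf (nat_lit 0) (nat_lit 28228736344) (nat_lit 0) (nat_lit 0) (nat_lit 0) (nat_lit 0) (nat_lit 0) (nat_lit 0) (nat_lit 1) (nat_lit 0) (nat_lit 1) (nat_lit 0) (nat_lit 276) (nat_lit 307) (nat_lit 137)) (XT.lf (nat_lit 0) (nat_lit 28228400465) (nat_lit 0) (nat_lit 0) (nat_lit 0) (nat_lit 0) (nat_lit 0) (nat_lit 0) (nat_lit 1) (nat_lit 0) (nat_lit 1) (nat_lit 0) (nat_lit 277) (nat_lit 307) (nat_lit 136)))))) (XT.nd (nat_lit 658) (nat_lit 0) (nat_lit 0) (XT.nd (nat_lit 282) (nat_lit 0) (nat_lit 0) (XT.nd (nat_lit 94) (nat_lit 0) (nat_lit 0) (XT.lf (nat_lit 0) (nat_lit 28228080580) (nat_lit 0) (nat_lit 0) (nat_lit 0) (nat_lit 0) (nat_lit 0) (nat_lit 0) (nat_lit 1) (nat_lit 0) (nat_lit 1) (nat_lit 0) (nat_lit 278) (nat_lit 307) (nat_lit 135)) (XT.nd (nat_lit 94) (nat_lit 0) (nat_lit 0)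 (XT.lf (nat_lit 0) (nat_lit 28227775928) (nat_lit 0) (nat_lit 0) (nat_lit 0) (nat_lit 0) (nat_lit 0) (nat_lit 0) (nat_lit 1) (nat_lit 0) (nat_lit 1) (nat_lit 0) (nat_lit 279) (nat_lit 307) (nat_lit 134)) (XT.lf (nat_lit 0) (nat_lit 28227485784) (nat_lit 0) (nat_lit 0) (nat_lit 0) (nat_lit 0) (nat_lit 0) (nat_lit 0) (nat_lit 1) (nat_lit 0) (nat_lit 1) (nat_lit 0) (nat_lit 280) (nat_lit 307) (nat_lit 133)))) (XT.nd (nat_lit 188) (nat_lit 0) (nat_lit 0) (XT.nd (nat_lit 94) (nat_lit 0) (nat_lit 0) (XT.lf (nat_lit 0) (nat_lit 28227209455) (nat_lit 0) (nat_lit 0) (nat_lit 0) (nat_lit 0) (nat_lit 0) (nat_lit 0) (nat_lit 1) (nat_lit 0) (nat_lit 1) (nat_lit 0) (nat_lit 281) (nat_lit 307) (nat_lit 132)) (XT.lf (nat_lit 0) (nat_lit 28226946285) (nat_lit 0) (nat_lit 0) (nat_lit 0) (nat_lit 0) (nat_lit 0) (nat_lit 0) (nat_lit 1) (nat_lit 0) (nat_lit 1) (nat_lit 0) (nat_lit 282) (nat_lit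 307) (nat_lit 131))) (XT.nd (nat_lit 94) (nat_lit 0) (nat_lit 0) (XT.lf (nat_lit 0) (nat_lit 28226695647) (nat_lit 0) (nat_lit 0) (nat_lit 0) (nat_lit 0) (nat_lit 0) (nat_lit 0) (nat_lit 1) (nat_lit 0) (nat_lit 1) (nat_lit 0) (nat_lit 283) (nat_lit 307) (nat_lit 130)) (XT.lf (nat_lit 0) (nat_lit 28226456944) (nat_lit 0) (nat_lit 0) (nat_lit 0) (nat_lit 0) (nat_lit 0) (nat_lit 0) (nat_lit 1) (nat_lit 0) (nat_lit 1) (nat_lit 0) (nat_lit 284) (nat_lit 307) (nat_lit 129))))) (XT.nd (nat_lit 282) (nat_lit 0) (nat_lit 0) (XT.nd (nat_lit 94) (nat_lit 0) (nat_lit 0) (XT.lf (nat_lit 0) (nat_lit 28226229608) (nat_lit 0) (nat_lit 0) (nat_lit 0) (nat_lit 0) (nat_lit 0) (nat_lit 0) (nat_lit 1) (nat_lit 0) (nat_lit 1) (nat_lit 0) (nat_lit 285) (nat_lit 307) (nat_lit 128)) (XT.nd (nat_lit 94) (nat_lit 0) (nat_lit 0) (XT.lf (nat_lit 0) (nat_lit 28226013098) (nat_lit 0) (nat_lit 0) (nat_lit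 0) (nat_lit 0) (nat_lit 0) (nat_lit 0) (nat_lit 1) (nat_lit 0) (nat_lit 1) (nat_lit 0) (nat_lit 286) (nat_lit 307) (nat_lit 127)) (XT.lf (nat_lit 0) (nat_lit 28225806897) (nat_lit 0) (nat_lit 0) (nat_lit 0) (nat_lit 0) (nat_lit 0) (nat_lit 0) (nat_lit 1) (nat_lit 0) (nat_lit 1) (nat_lit 0) (nat_lit 287) (nat_lit 307) (nat_lit 126)))) (XT.nd (nat_lit 188) (nat_lit 0) (nat_lit 0) (XT.nd (nat_lit 94) (nat_lit 0) (nat_lit 0) (XT.lf (nat_lit 0) (nat_lit 28225610516) (nat_lit 0) (nat_lit 0) (nat_lit 0) (nat_lit 0) (nat_lit 0) (nat_lit 0) (nat_lit 1) (nat_lit 0) (nat_lit 1) (nat_lit 0) (nat_lit 288) (nat_lit 307) (nat_lit 125)) (XT.lf (nat_lit 0) (nat_lit 28225423486) (nat_lit 0) (nat_lit 0) (nat_lit 0) (nat_lit 0) (nat_lit 0) (nat_lit 0) (nat_lit 1) (nat_lit 0) (nat_lit 1) (nat_lit 0) (nat_lit 289) (nat_lit 307) (nat_lit 124))) (XT.nd (nat_lit 94) (nat_lit 0) (nat_lit 0) (XT.lf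 (nat_lit 0) (nat_lit 28225245362) (nat_lit 0) (nat_lit 0) (nat_lit 0) (nat_lit 0) (nat_lit 0) (nat_lit 0) (nat_lit 1) (nat_lit 0) (nat_lit 1) (nat_lit 0) (nat_lit 290) (nat_lit 307) (nat_lit 123)) (XT.lf (nat_lit 0) (nat_lit 28225075720) (nat_lit 0) (nat_lit 0) (nat_lit 0) (nat_lit 0) (nat_lit 0) (nat_lit 0) (nat_lit 1) (nat_lit 0) (nat_lit 1) (nat_lit 0) (nat_lit 291) (nat_lit 307) (nat_lit 122))))))))
noncomputable def ec208 : XT := (XT.nd (nat_lit 27918) (nat_lit 0) (nat_lit 6300) (XT.nd (nat_lit 1222) (nat_lit 0) (nat_lit 0) (XT.nd (nat_lit 564) (nat_lit 0) (nat_lit 0) (XT.nd (nat_lit 282) (nat_lit 0) (nat_lit 0) (XT.nd (nat_lit 94) (nat_lit 0) (nat_lit 0) (XT.lf (nat_lit 0) (nat_lit 28224914157) (nat_lit 0) (nat_lit 0) (nat_lit 0) (nat_lit 0) (nat_lit 0) (nat_lit 0) (nat_lit 1) (nat_lit 0) (nat_lit 1) (nat_lit 0) (nat_lit 292) (nat_lit 307) (nat_lit 121)) (XT.nd (nat_lit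 94) (nat_lit 0) (nat_lit 0) (XT.lf (nat_lit 0) (nat_lit 28224760287) (nat_lit 0) (nat_lit 0) (nat_lit 0) (nat_lit 0) (nat_lit 0) (nat_lit 0) (nat_lit 1) (nat_lit 0) (nat_lit 1) (nat_lit 0) (nat_lit 293) (nat_lit 307) (nat_lit 120)) (XT.lf (nat_lit 0) (nat_lit 28224613744) (nat_lit 0) (nat_lit 0) (nat_lit 0) (nat_lit 0) (nat_lit 0) (nat_lit 0) (nat_lit 1) (nat_lit 0) (nat_lit 1) (nat_lit 0) (nat_lit 294) (nat_lit 307) (nat_lit 119)))) (XT.nd (nat_lit 94) (nat_lit 0) (nat_lit 0) (XT.lf (nat_lit 0) (nat_lit 28224474179) (nat_lit 0) (nat_lit 0) (nat_lit 0) (nat_lit 0) (nat_lit 0) (nat_lit 0) (nat_lit 1) (nat_lit 0) (nat_lit 1) (nat_lit 0) (nat_lit 295) (nat_lit 307) (nat_lit 118)) (XT.nd (nat_lit 94) (nat_lit 0) (nat_lit 0) (XT.lf (nat_lit 0) (nat_lit 28224341260) (nat_lit 0) (nat_lit 0) (nat_lit 0) (nat_lit 0) (nat_lit 0) (nat_lit 0) (nat_lit 1) (nat_lit 0) (nat_lit 1) (nat_lit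 0) (nat_lit 296) (nat_lit 307) (nat_lit 117)) (XT.lf (nat_lit 0) (nat_lit 28224214671) (nat_lit 0) (nat_lit 0) (nat_lit 0) (nat_lit 0) (nat_lit 0) (nat_lit 0) (nat_lit 1) (nat_lit 0) (nat_lit 1) (nat_lit 0) (nat_lit 297) (nat_lit 307) (nat_lit 116))))) (XT.nd (nat_lit 282) (nat_lit 0) (nat_lit 0) (XT.nd (nat_lit 94) (nat_lit 0) (nat_lit 0) (XT.lf (nat_lit 0) (nat_lit 28224094110) (nat_lit 0) (nat_lit 0) (nat_lit 0) (nat_lit 0) (nat_lit 0) (nat_lit 0) (nat_lit 1) (nat_lit 0) (nat_lit 1) (nat_lit 0) (nat_lit 298) (nat_lit 307) (nat_lit 115)) (XT.nd (nat_lit 94) (nat_lit 0) (nat_lit 0) (XT.lf (nat_lit 0) (nat_lit 28223979290) (nat_lit 0) (nat_lit 0) (nat_lit 0) (nat_lit 0) (nat_lit 0) (nat_lit 0) (nat_lit 1) (nat_lit 0) (nat_lit 1) (nat_lit 0) (nat_lit 299) (nat_lit 307) (nat_lit 114)) (XT.lf (nat_lit 0) (nat_lit 28223869937) (nat_lit 0) (nat_lit 0) (nat_lit 0) (nat_lit 0)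 (nat_lit 0) (nat_lit 0) (nat_lit 1) (nat_lit 0) (nat_lit 1) (nat_lit 0) (nat_lit 300) (nat_lit 307) (nat_lit 113)))) (XT.nd (nat_lit 188) (nat_lit 0) (nat_lit 0) (XT.nd (nat_lit 94) (nat_lit 0) (nat_lit 0) (XT.lf (nat_lit 0) (nat_lit 28223765792) (nat_lit 0) (nat_lit 0) (nat_lit 0) (nat_lit 0) (nat_lit 0) (nat_lit 0) (nat_lit 1) (nat_lit 0) (nat_lit 1) (nat_lit 0) (nat_lit 301) (nat_lit 307) (nat_lit 112)) (XT.lf (nat_lit 0) (nat_lit 28223666606) (nat_lit 0) (nat_lit 0) (nat_lit 0) (nat_lit 0) (nat_lit 0) (nat_lit 0) (nat_lit 1) (nat_lit 0) (nat_lit 1) (nat_lit 0) (nat_lit 302) (nat_lit 307) (nat_lit 111))) (XT.nd (nat_lit 94) (nat_lit 0) (nat_lit 0) (XT.lf (nat_lit 0) (nat_lit 28223572143) (nat_lit 0) (nat_lit 0) (nat_lit 0) (nat_lit 0) (nat_lit 0) (nat_lit 0) (nat_lit 1) (nat_lit 0) (nat_lit 1) (nat_lit 0) (nat_lit 303) (nat_lit 307) (nat_lit 110)) (XT.lf (nat_lit 0) (nat_lit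 28223482179) (nat_lit 0) (nat_lit 0) (nat_lit 0) (nat_lit 0) (nat_lit 0) (nat_lit 0) (nat_lit 1) (nat_lit 0) (nat_lit 1) (nat_lit 0) (nat_lit 304) (nat_lit 307) (nat_lit 109)))))) (XT.nd (nat_lit 658) (nat_lit 0) (nat_lit 0) (XT.nd (nat_lit 282) (nat_lit 0) (nat_lit 0) (XT.nd (nat_lit 94) (nat_lit 0) (nat_lit 0) (XT.lf (nat_lit 0) (nat_lit 28223396498) (nat_lit 0) (nat_lit 0) (nat_lit 0) (nat_lit 0) (nat_lit 0) (nat_lit 0) (nat_lit 1) (nat_lit 0) (nat_lit 1) (nat_lit 0) (nat_lit 305) (nat_lit 307) (nat_lit 108)) (XT.nd (nat_lit 94) (nat_lit 0) (nat_lit 0) (XT.lf (nat_lit 0) (nat_lit 28223314897) (nat_lit 0) (nat_lit 0) (nat_lit 0) (nat_lit 0) (nat_lit 0) (nat_lit 0) (nat_lit 1) (nat_lit 0) (nat_lit 1) (nat_lit 0) (nat_lit 306) (nat_lit 307) (nat_lit 107)) (XT.lf (nat_lit 0) (nat_lit 28223237183) (nat_lit 0) (nat_lit 0) (nat_lit 0) (nat_lit 0) (nat_lit 0) (nat_lit 0) (nat_lit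 1) (nat_lit 0) (nat_lit 1) (nat_lit 0) (nat_lit 307) (nat_lit 307) (nat_lit 106)))) (XT.nd (nat_lit 188) (nat_lit 0) (nat_lit 0) (XT.nd (nat_lit 94) (nat_lit 0) (nat_lit 0) (XT.lf (nat_lit 0) (nat_lit 28223163169) (nat_lit 0) (nat_lit 0) (nat_lit 0) (nat_lit 0) (nat_lit 0) (nat_lit 0) (nat_lit 1) (nat_lit 0) (nat_lit 1) (nat_lit 0) (nat_lit 308) (nat_lit 307) (nat_lit 105)) (XT.lf (nat_lit 0) (nat_lit 28223092679) (nat_lit 0) (nat_lit 0) (nat_lit 0) (nat_lit 0) (nat_lit 0) (nat_lit 0) (nat_lit 1) (nat_lit 0) (nat_lit 1) (nat_lit 0) (nat_lit 309) (nat_lit 307) (nat_lit 104))) (XT.nd (nat_lit 94) (nat_lit 0) (nat_lit 0) (XT.lf (nat_lit 0) (nat_lit 28223025546) (nat_lit 0) (nat_lit 0) (nat_lit 0) (nat_lit 0) (nat_lit 0) (nat_lit 0) (nat_lit 1) (nat_lit 0) (nat_lit 1) (nat_lit 0) (nat_lit 310) (nat_lit 307) (nat_lit 103)) (XT.lf (nat_lit 0) (nat_lit 28222961610) (nat_lit 0)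 (nat_lit 0) (nat_lit 0) (nat_lit 0) (nat_lit 0) (nat_lit 0) (nat_lit 1) (nat_lit 0) (nat_lit 1) (nat_lit 0) (nat_lit 311) (nat_lit 307) (nat_lit 102))))) (XT.nd (nat_lit 25662) (nat_lit 0) (nat_lit 10752) (XT.nd (nat_lit 94) (nat_lit 0) (nat_lit 0) (XT.lf (nat_lit 0) (nat_lit 28222900718) (nat_lit 0) (nat_lit 0) (nat_lit 0) (nat_lit 0) (nat_lit 0) (nat_lit 0) (nat_lit 1) (nat_lit 0) (nat_lit 1) (nat_lit 0) (nat_lit 312) (nat_lit 307) (nat_lit 101)) (XT.nd (nat_lit 94) (nat_lit 0) (nat_lit 0) (XT.lf (nat_lit 0) (nat_lit 28222842726) (nat_lit 0) (nat_lit 0) (nat_lit 0) (nat_lit 0) (nat_lit 0) (nat_lit 0) (nat_lit 1) (nat_lit 0) (nat_lit 1) (nat_lit 0) (nat_lit 313) (nat_lit 307) (nat_lit 100)) (XT.lf (nat_lit 0) (nat_lit 28222787496) (nat_lit 0) (nat_lit 0) (nat_lit 0) (nat_lit 0) (nat_lit 0) (nat_lit 0) (nat_lit 1) (nat_lit 0) (nat_lit 1) (nat_lit 0) (nat_lit 314) (nat_lit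 307) (nat_lit 99)))) (XT.nd (nat_lit 188) (nat_lit 0) (nat_lit 84) (XT.nd (nat_lit 94) (nat_lit 0) (nat_lit 0) (XT.lf (nat_lit 924) (nat_lit 14829346594) (nat_lit 0) (nat_lit 26329470792) (nat_lit 924) (nat_lit 14829346594) (nat_lit 139) (nat_lit 1) (nat_lit 128) (nat_lit 0) (nat_lit 139) (nat_lit 0) (nat_lit 104) (nat_lit 308) (nat_lit 308)) (XT.lf (nat_lit 924) (nat_lit 57480398772) (nat_lit 84) (nat_lit 25904801908) (nat_lit 0) (nat_lit 25904801908) (nat_lit 139) (nat_lit 1) (nat_lit 129) (nat_lit 1) (nat_lit 128) (nat_lit 0) (nat_lit 105) (nat_lit 308) (nat_lit 307))) (XT.nd (nat_lit 94) (nat_lit 0) (nat_lit 0) (XT.lf (nat_lit 924) (nat_lit 27394292573) (nat_lit 0) (nat_lit 51898140819) (nat_lit 840) (nat_lit 27394292573) (nat_lit 140) (nat_lit 1) (nat_lit 129) (nat_lit 1) (nat_lit 139) (nat_lit 1) (nat_lit 106) (nat_lit 308) (nat_lit 306)) (XT.lf (nat_lit 924) (nat_lit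 51387886334) (nat_lit 84) (nat_lit 26389834118) (nat_lit 0) (nat_lit 26389834118) (nat_lit 140) (nat_lit 1) (nat_lit 130) (nat_lit 1) (nat_lit 129) (nat_lit 1) (nat_lit 107) (nat_lit 308) (nat_lit 305))))))) (XT.nd (nat_lit 1222) (nat_lit 2604) (nat_lit 0) (XT.nd (nat_lit 564) (nat_lit 2016) (nat_lit 0) (XT.nd (nat_lit 282) (nat_lit 0) (nat_lit 84) (XT.nd (nat_lit 94) (nat_lit 0) (nat_lit 0) (XT.lf (nat_lit 924) (nat_lit 23653350597) (nat_lit 0) (nat_lit 54421527079) (nat_lit 840) (nat_lit 23653350597) (nat_lit 141) (nat_lit 1) (nat_lit 130) (nat_lit 1) (nat_lit 140) (nat_lit 1) (nat_lit 108) (nat_lit 308) (nat_lit 304)) (XT.nd (nat_lit 94) (nat_lit 0) (nat_lit 84) (XT.lf (nat_lit 924) (nat_lit 42542091638) (nat_lit 84) (nat_lit 28410585162) (nat_lit 0) (nat_lit 28410585162) (nat_lit 141) (nat_lit 1) (nat_lit 131) (nat_lit 1) (nat_lit 130) (nat_lit 1) (nat_lit 109) (nat_lit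 308) (nat_lit 303)) (XT.lf (nat_lit 924) (nat_lit 18653478456) (nat_lit 0) (nat_lit 59770746119) (nat_lit 840) (nat_lit 18653478456) (nat_lit 142) (nat_lit 1) (nat_lit 131) (nat_lit 1) (nat_lit 141) (nat_lit 1) (nat_lit 110) (nat_lit 308) (nat_lit 302)))) (XT.nd (nat_lit 94) (nat_lit 0) (nat_lit 84) (XT.lf (nat_lit 924) (nat_lit 31357070026) (nat_lit 84) (nat_lit 31749001672) (nat_lit 0) (nat_lit 31749001672) (nat_lit 142) (nat_lit 1) (nat_lit 132) (nat_lit 1) (nat_lit 131) (nat_lit 1) (nat_lit 111) (nat_lit 308) (nat_lit 301)) (XT.nd (nat_lit 94) (nat_lit 0) (nat_lit 0) (XT.lf (nat_lit 924) (nat_lit 12588230378) (nat_lit 0) (nat_lit 67537343871) (nat_lit 840) (nat_lit 12588230378) (nat_lit 143) (nat_lit 1) (nat_lit 132) (nat_lit 1) (nat_lit 142) (nat_lit 1) (nat_lit 112) (nat_lit 308) (nat_lit 300)) (XT.lf (nat_lit 924) (nat_lit 18200854218) (nat_lit 84) (nat_lit 36210887424)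 (nat_lit 0) (nat_lit 36210887424) (nat_lit 143) (nat_lit 1) (nat_lit 133) (nat_lit 1) (nat_lit 132) (nat_lit 1) (nat_lit 113) (nat_lit 308) (nat_lit 299))))) (XT.nd (nat_lit 282) (nat_lit 840) (nat_lit 0) (XT.nd (nat_lit 94) (nat_lit 1428) (nat_lit 0) (XT.lf (nat_lit 84) (nat_lit 5629522379) (nat_lit 0) (nat_lit 77357780215) (nat_lit 840) (nat_lit 5629522379) (nat_lit 134) (nat_lit 1) (nat_lit 133) (nat_lit 1) (nat_lit 143) (nat_lit 1) (nat_lit 114) (nat_lit 308) (nat_lit 298)) (XT.nd (nat_lit 94) (nat_lit 588) (nat_lit 0) (XT.lf (nat_lit 924) (nat_lit 3400091523) (nat_lit 0) (nat_lit 41623514631) (nat_lit 840) (nat_lit 41623514631) (nat_lit 134) (nat_lit 1) (nat_lit 123) (nat_lit 1) (nat_lit 133) (nat_lit 1) (nat_lit 115) (nat_lit 308) (nat_lit 297)) (XT.lf (nat_lit 588) (nat_lit 80688453810) (nat_lit 0) (nat_lit 2036792484) (nat_lit 504) (nat_lit 2036792484) (nat_lit 123)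 (nat_lit 1) (nat_lit 116) (nat_lit 1) (nat_lit 122) (nat_lit 1) (nat_lit 116) (nat_lit 308) (nat_lit 296)))) (XT.nd (nat_lit 188) (nat_lit 420) (nat_lit 0) (XT.nd (nat_lit 94) (nat_lit 420) (nat_lit 0) (XT.lf (nat_lit 84) (nat_lit 35276851572) (nat_lit 0) (nat_lit 12347502936) (nat_lit 588) (nat_lit 35276851572) (nat_lit 117) (nat_lit 1) (nat_lit 116) (nat_lit 1) (nat_lit 123) (nat_lit 1) (nat_lit 117) (nat_lit 308) (nat_lit 295)) (XT.lf (nat_lit 504) (nat_lit 60702406381) (nat_lit 0) (nat_lit 10208547297) (nat_lit 420) (nat_lit 10208547297) (nat_lit 117) (nat_lit 1) (nat_lit 111) (nat_lit 1) (nat_lit 116) (nat_lit 1) (nat_lit 118) (nat_lit 308) (nat_lit 294))) (XT.nd (nat_lit 94) (nat_lit 420) (nat_lit 0) (XT.lf (nat_lit 84) (nat_lit 25162548785) (nat_lit 0) (nat_lit 29050154666) (nat_lit 504) (nat_lit 25162548785) (nat_lit 112) (nat_lit 1) (nat_lit 111) (nat_lit 1) (nat_lit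 117) (nat_lit 1) (nat_lit 119) (nat_lit 308) (nat_lit 293)) (XT.lf (nat_lit 504) (nat_lit 39973395441) (nat_lit 0) (nat_lit 18859177786) (nat_lit 420) (nat_lit 18859177786) (nat_lit 112) (nat_lit 1) (nat_lit 106) (nat_lit 1) (nat_lit 111) (nat_lit 1) (nat_lit 120) (nat_lit 308) (nat_lit 292)))))) (XT.nd (nat_lit 658) (nat_lit 1176) (nat_lit 0) (XT.nd (nat_lit 282) (nat_lit 1092) (nat_lit 0) (XT.nd (nat_lit 94) (nat_lit 336) (nat_lit 0) (XT.lf (nat_lit 84) (nat_lit 14729664971) (nat_lit 0) (nat_lit 46597881737) (nat_lit 504) (nat_lit 14729664971) (nat_lit 107) (nat_lit 1) (nat_lit 106) (nat_lit 1) (nat_lit 112) (nat_lit 1) (nat_lit 121) (nat_lit 308) (nat_lit 291)) (XT.nd (nat_lit 94) (nat_lit 0) (nat_lit 0) (XT.lf (nat_lit 420) (nat_lit 18694355494) (nat_lit 0) (nat_lit 27885181298) (nat_lit 336) (nat_lit 27885181298) (nat_lit 107) (nat_lit 1) (nat_lit 102) (nat_lit 1) (nat_lit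 106) (nat_lit 1) (nat_lit 122) (nat_lit 308) (nat_lit 290)) (XT.lf (nat_lit 84) (nat_lit 4067767015) (nat_lit 0) (nat_lit 64797929932) (nat_lit 420) (nat_lit 4067767015) (nat_lit 103) (nat_lit 1) (nat_lit 102) (nat_lit 1) (nat_lit 107) (nat_lit 1) (nat_lit 123) (nat_lit 308) (nat_lit 289)))) (XT.nd (nat_lit 188) (nat_lit 336) (nat_lit 0) (XT.nd (nat_lit 94) (nat_lit 336) (nat_lit 0) (XT.lf (nat_lit 84) (nat_lit 34276173747) (nat_lit 0) (nat_lit 2870696133) (nat_lit 420) (nat_lit 34276173747) (nat_lit 98) (nat_lit 1) (nat_lit 97) (nat_lit 1) (nat_lit 102) (nat_lit 1) (nat_lit 124) (nat_lit 308) (nat_lit 288)) (XT.lf (nat_lit 420) (nat_lit 56698196786) (nat_lit 0) (nat_lit 6635973506) (nat_lit 336) (nat_lit 6635973506) (nat_lit 98) (nat_lit 1) (nat_lit 93) (nat_lit 1) (nat_lit 97) (nat_lit 1) (nat_lit 125) (nat_lit 308) (nat_lit 287))) (XT.nd (nat_lit 94) (nat_lit 336) (nat_lit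 0) (XT.lf (nat_lit 84) (nat_lit 22239525405) (nat_lit 0) (nat_lit 24063117980) (nat_lit 420) (nat_lit 22239525405) (nat_lit 94) (nat_lit 1) (nat_lit 93) (nat_lit 1) (nat_lit 98) (nat_lit 1) (nat_lit 126) (nat_lit 308) (nat_lit 286)) (XT.lf (nat_lit 420) (nat_lit 32453654122) (nat_lit 0) (nat_lit 17355028406) (nat_lit 336) (nat_lit 17355028406) (nat_lit 94) (nat_lit 1) (nat_lit 89) (nat_lit 1) (nat_lit 93) (nat_lit 1) (nat_lit 127) (nat_lit 308) (nat_lit 285))))) (XT.nd (nat_lit 282) (nat_lit 504) (nat_lit 0) (XT.nd (nat_lit 94) (nat_lit 672) (nat_lit 0) (XT.lf (nat_lit 84) (nat_lit 10234434127) (nat_lit 0) (nat_lit 45356691050) (nat_lit 420) (nat_lit 10234434127) (nat_lit 90) (nat_lit 1) (nat_lit 89) (nat_lit 1) (nat_lit 94) (nat_lit 1) (nat_lit 128) (nat_lit 308) (nat_lit 284)) (XT.nd (nat_lit 94) (nat_lit 420) (nat_lit 0) (XT.lf (nat_lit 336) (nat_lit 8323226942) (nat_lit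 0) (nat_lit 28096533034) (nat_lit 252) (nat_lit 28096533034) (nat_lit 90) (nat_lit 1) (nat_lit 86) (nat_lit 1) (nat_lit 89) (nat_lit 1) (nat_lit 129) (nat_lit 308) (nat_lit 283)) (XT.lf (nat_lit 420) (nat_lit 59931579996) (nat_lit 0) (nat_lit 1662986348) (nat_lit 336) (nat_lit 1662986348) (nat_lit 86) (nat_lit 1) (nat_lit 81) (nat_lit 1) (nat_lit 85) (nat_lit 1) (nat_lit 130) (nat_lit 308) (nat_lit 282)))) (XT.nd (nat_lit 188) (nat_lit 252) (nat_lit 0) (XT.nd (nat_lit 94) (nat_lit 252) (nat_lit 0) (XT.lf (nat_lit 84) (nat_lit 23451670319) (nat_lit 0) (nat_lit 15102438713) (nat_lit 420) (nat_lit 23451670319) (nat_lit 82) (nat_lit 1) (nat_lit 81) (nat_lit 1) (nat_lit 86) (nat_lit 1) (nat_lit 131) (nat_lit 308) (nat_lit 281)) (XT.lf (nat_lit 336) (nat_lit 34251905909) (nat_lit 0) (nat_lit 13275054469) (nat_lit 252) (nat_lit 13275054469) (nat_lit 82) (nat_lit 1) (nat_lit 78)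 (nat_lit 1) (nat_lit 81) (nat_lit 1) (nat_lit 132) (nat_lit 308) (nat_lit 280))) (XT.nd (nat_lit 94) (nat_lit 252) (nat_lit 0) (XT.lf (nat_lit 84) (nat_lit 10820706899) (nat_lit 0) (nat_lit 37987420253) (nat_lit 336) (nat_lit 10820706899) (nat_lit 79) (nat_lit 1) (nat_lit 78) (nat_lit 1) (nat_lit 82) (nat_lit 1) (nat_lit 133) (nat_lit 308) (nat_lit 279)) (XT.lf (nat_lit 336) (nat_lit 9018720986) (nat_lit 0) (nat_lit 24731810908) (nat_lit 252) (nat_lit 24731810908) (nat_lit 79) (nat_lit 1) (nat_lit 75) (nat_lit 1) (nat_lit 78) (nat_lit 1) (nat_lit 134) (nat_lit 308) (nat_lit 278))))))))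
noncomputable def ec209 : XT := (XT.nd (nat_lit 2538) (nat_lit 2436) (nat_lit 0) (XT.nd (nat_lit 1222) (nat_lit 1512) (nat_lit 0) (XT.nd (nat_lit 564) (nat_lit 756) (nat_lit 0) (XT.nd (nat_lit 282) (nat_lit 504) (nat_lit 0) (XT.nd (nat_lit 94) (nat_lit 252) (nat_lit 0) (XT.lf (nat_lit 336) (nat_lit 54278524429) (nat_lit 0) (nat_lit 1549960364) (nat_lit 252) (nat_lit 1549960364) (nat_lit 75) (nat_lit 1) (nat_lit 71) (nat_lit 1) (nat_lit 74) (nat_lit 1) (nat_lit 135) (nat_lit 308) (nat_lit 277)) (XT.nd (nat_lit 94) (nat_lit 252) (nat_lit 0) (XT.lf (nat_lit 84) (nat_lit 20532011352) (nat_lit 0) (nat_lit 15214014248) (nat_lit 336) (nat_lit 20532011352) (nat_lit 72) (nat_lit 1) (nat_lit 71) (nat_lit 1) (nat_lit 75) (nat_lit 1) (nat_lit 136) (nat_lit 308) (nat_lit 276)) (XT.lf (nat_lit 336) (nat_lit 28233395641) (nat_lit 0) (nat_lit 13492474194) (nat_lit 252) (nat_lit 13492474194)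 (nat_lit 72) (nat_lit 1) (nat_lit 68) (nat_lit 1) (nat_lit 71) (nat_lit 1) (nat_lit 137) (nat_lit 308) (nat_lit 275)))) (XT.nd (nat_lit 94) (nat_lit 504) (nat_lit 0) (XT.lf (nat_lit 84) (nat_lit 7775454133) (nat_lit 0) (nat_lit 38636164284) (nat_lit 336) (nat_lit 7775454133) (nat_lit 69) (nat_lit 1) (nat_lit 68) (nat_lit 1) (nat_lit 72) (nat_lit 1) (nat_lit 138) (nat_lit 308) (nat_lit 274)) (XT.nd (nat_lit 94) (nat_lit 336) (nat_lit 0) (XT.lf (nat_lit 252) (nat_lit 2849184923) (nat_lit 0) (nat_lit 25163024921) (nat_lit 168) (nat_lit 25163024921) (nat_lit 69) (nat_lit 1) (nat_lit 66) (nat_lit 1) (nat_lit 68) (nat_lit 1) (nat_lit 139) (nat_lit 308) (nat_lit 273)) (XT.lf (nat_lit 336) (nat_lit 43050228815) (nat_lit 0) (nat_lit 4572246342) (nat_lit 252) (nat_lit 4572246342) (nat_lit 66) (nat_lit 1) (nat_lit 62) (nat_lit 1) (nat_lit 65) (nat_lit 1) (nat_lit 140) (nat_lit 308)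 (nat_lit 272))))) (XT.nd (nat_lit 282) (nat_lit 588) (nat_lit 0) (XT.nd (nat_lit 94) (nat_lit 168) (nat_lit 0) (XT.lf (nat_lit 84) (nat_lit 15036423036) (nat_lit 0) (nat_lit 21152328260) (nat_lit 336) (nat_lit 15036423036) (nat_lit 63) (nat_lit 1) (nat_lit 62) (nat_lit 1) (nat_lit 66) (nat_lit 1) (nat_lit 141) (nat_lit 308) (nat_lit 271)) (XT.nd (nat_lit 94) (nat_lit 0) (nat_lit 0) (XT.lf (nat_lit 252) (nat_lit 17372267350) (nat_lit 0) (nat_lit 16456641349) (nat_lit 168) (nat_lit 16456641349) (nat_lit 63) (nat_lit 1) (nat_lit 60) (nat_lit 1) (nat_lit 62) (nat_lit 1) (nat_lit 142) (nat_lit 308) (nat_lit 270)) (XT.lf (nat_lit 84) (nat_lit 2495843412) (nat_lit 0) (nat_lit 44385421466) (nat_lit 252) (nat_lit 2495843412) (nat_lit 61) (nat_lit 1) (nat_lit 60) (nat_lit 1) (nat_lit 63) (nat_lit 1) (nat_lit 143) (nat_lit 308) (nat_lit 269)))) (XT.nd (nat_lit 188) (nat_lit 168) (nat_lit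 0) (XT.nd (nat_lit 94) (nat_lit 168) (nat_lit 0) (XT.lf (nat_lit 84) (nat_lit 20598633565) (nat_lit 0) (nat_lit 7274701652) (nat_lit 252) (nat_lit 20598633565) (nat_lit 58) (nat_lit 1) (nat_lit 57) (nat_lit 1) (nat_lit 60) (nat_lit 1) (nat_lit 144) (nat_lit 308) (nat_lit 268)) (XT.lf (nat_lit 252) (nat_lit 28604812926) (nat_lit 0) (nat_lit 9496022872) (nat_lit 168) (nat_lit 9496022872) (nat_lit 58) (nat_lit 1) (nat_lit 55) (nat_lit 1) (nat_lit 57) (nat_lit 1) (nat_lit 145) (nat_lit 308) (nat_lit 267))) (XT.nd (nat_lit 94) (nat_lit 168) (nat_lit 0) (XT.lf (nat_lit 84) (nat_lit 8071534019) (nat_lit 0) (nat_lit 30598022365) (nat_lit 252) (nat_lit 8071534019) (nat_lit 56) (nat_lit 1) (nat_lit 55) (nat_lit 1) (nat_lit 58) (nat_lit 1) (nat_lit 146) (nat_lit 308) (nat_lit 266)) (XT.lf (nat_lit 252) (nat_lit 3781223085) (nat_lit 0) (nat_lit 21060674568) (nat_lit 168) (nat_lit 21060674568)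 (nat_lit 56) (nat_lit 1) (nat_lit 53) (nat_lit 1) (nat_lit 55) (nat_lit 1) (nat_lit 147) (nat_lit 308) (nat_lit 265)))))) (XT.nd (nat_lit 658) (nat_lit 756) (nat_lit 0) (XT.nd (nat_lit 282) (nat_lit 336) (nat_lit 0) (XT.nd (nat_lit 94) (nat_lit 168) (nat_lit 0) (XT.lf (nat_lit 252) (nat_lit 37164303323) (nat_lit 0) (nat_lit 3962023715) (nat_lit 168) (nat_lit 3962023715) (nat_lit 53) (nat_lit 1) (nat_lit 50) (nat_lit 1) (nat_lit 52) (nat_lit 1) (nat_lit 148) (nat_lit 308) (nat_lit 264)) (XT.nd (nat_lit 94) (nat_lit 168) (nat_lit 0) (XT.lf (nat_lit 84) (nat_lit 12372087649) (nat_lit 0) (nat_lit 19536903277) (nat_lit 252) (nat_lit 12372087649) (nat_lit 51) (nat_lit 1) (nat_lit 50) (nat_lit 1) (nat_lit 53) (nat_lit 1) (nat_lit 149) (nat_lit 308) (nat_lit 263)) (XT.lf (nat_lit 252) (nat_lit 12600370599) (nat_lit 0) (nat_lit 15448436014) (nat_lit 168) (nat_lit 15448436014) (nat_lit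 51) (nat_lit 1) (nat_lit 48) (nat_lit 1) (nat_lit 50) (nat_lit 1) (nat_lit 150) (nat_lit 308) (nat_lit 262)))) (XT.nd (nat_lit 188) (nat_lit 168) (nat_lit 0) (XT.nd (nat_lit 94) (nat_lit 168) (nat_lit 0) (XT.lf (nat_lit 84) (nat_lit 414139430) (nat_lit 0) (nat_lit 41912616984) (nat_lit 252) (nat_lit 414139430) (nat_lit 49) (nat_lit 1) (nat_lit 48) (nat_lit 1) (nat_lit 51) (nat_lit 1) (nat_lit 151) (nat_lit 308) (nat_lit 261)) (XT.lf (nat_lit 84) (nat_lit 15637229637) (nat_lit 0) (nat_lit 10705282059) (nat_lit 168) (nat_lit 15637229637) (nat_lit 47) (nat_lit 1) (nat_lit 46) (nat_lit 1) (nat_lit 48) (nat_lit 1) (nat_lit 152) (nat_lit 308) (nat_lit 260))) (XT.nd (nat_lit 94) (nat_lit 0) (nat_lit 0) (XT.lf (nat_lit 252) (nat_lit 19404021797) (nat_lit 0) (nat_lit 10920673136) (nat_lit 168) (nat_lit 10920673136) (nat_lit 47) (nat_lit 1) (nat_lit 44) (nat_lit 1) (nat_lit 46) (nat_lit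 1) (nat_lit 153) (nat_lit 308) (nat_lit 259)) (XT.lf (nat_lit 84) (nat_lit 3890372264) (nat_lit 0) (nat_lit 32750072874) (nat_lit 252) (nat_lit 3890372264) (nat_lit 45) (nat_lit 1) (nat_lit 44) (nat_lit 1) (nat_lit 47) (nat_lit 1) (nat_lit 154) (nat_lit 308) (nat_lit 258))))) (XT.nd (nat_lit 282) (nat_lit 420) (nat_lit 0) (XT.nd (nat_lit 94) (nat_lit 168) (nat_lit 0) (XT.lf (nat_lit 84) (nat_lit 18063532770) (nat_lit 0) (nat_lit 3695093837) (nat_lit 168) (nat_lit 18063532770) (nat_lit 43) (nat_lit 1) (nat_lit 42) (nat_lit 1) (nat_lit 44) (nat_lit 1) (nat_lit 155) (nat_lit 308) (nat_lit 257)) (XT.nd (nat_lit 94) (nat_lit 0) (nat_lit 0) (XT.lf (nat_lit 252) (nat_lit 24571037441) (nat_lit 0) (nat_lit 7280852050) (nat_lit 168) (nat_lit 7280852050) (nat_lit 43) (nat_lit 1) (nat_lit 40) (nat_lit 1) (nat_lit 42) (nat_lit 1) (nat_lit 156) (nat_lit 308) (nat_lit 256)) (XT.lf (nat_lit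 84) (nat_lit 6581246251) (nat_lit 0) (nat_lit 25294479485) (nat_lit 252) (nat_lit 6581246251) (nat_lit 41) (nat_lit 1) (nat_lit 40) (nat_lit 1) (nat_lit 43) (nat_lit 1) (nat_lit 157) (nat_lit 308) (nat_lit 255)))) (XT.nd (nat_lit 188) (nat_lit 84) (nat_lit 0) (XT.nd (nat_lit 94) (nat_lit 252) (nat_lit 0) (XT.lf (nat_lit 168) (nat_lit 1889236134) (nat_lit 0) (nat_lit 17952359200) (nat_lit 84) (nat_lit 17952359200) (nat_lit 41) (nat_lit 1) (nat_lit 39) (nat_lit 1) (nat_lit 40) (nat_lit 1) (nat_lit 158) (nat_lit 308) (nat_lit 254)) (XT.lf (nat_lit 252) (nat_lit 28412082538) (nat_lit 0) (nat_lit 4367486651) (nat_lit 168) (nat_lit 4367486651) (nat_lit 39) (nat_lit 1) (nat_lit 36) (nat_lit 1) (nat_lit 38) (nat_lit 1) (nat_lit 159) (nat_lit 308) (nat_lit 253))) (XT.nd (nat_lit 94) (nat_lit 84) (nat_lit 0) (XT.lf (nat_lit 84) (nat_lit 8634052685) (nat_lit 0) (nat_lit 19239272282)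 (nat_lit 252) (nat_lit 8634052685) (nat_lit 37) (nat_lit 1) (nat_lit 36) (nat_lit 1) (nat_lit 39) (nat_lit 1) (nat_lit 160) (nat_lit 308) (nat_lit 252)) (XT.lf (nat_lit 168) (nat_lit 6344482938) (nat_lit 0) (nat_lit 14769450342) (nat_lit 84) (nat_lit 14769450342) (nat_lit 37) (nat_lit 1) (nat_lit 35) (nat_lit 1) (nat_lit 36) (nat_lit 1) (nat_lit 161) (nat_lit 308) (nat_lit 251))))))) (XT.nd (nat_lit 1222) (nat_lit 1260) (nat_lit 0) (XT.nd (nat_lit 564) (nat_lit 504) (nat_lit 0) (XT.nd (nat_lit 282) (nat_lit 336) (nat_lit 0) (XT.nd (nat_lit 94) (nat_lit 84) (nat_lit 0) (XT.lf (nat_lit 252) (nat_lit 31181766072) (nat_lit 0) (nat_lit 2047915078) (nat_lit 168) (nat_lit 2047915078) (nat_lit 35) (nat_lit 1) (nat_lit 32) (nat_lit 1) (nat_lit 34) (nat_lit 1) (nat_lit 162) (nat_lit 308) (nat_lit 250)) (XT.nd (nat_lit 94) (nat_lit 84) (nat_lit 0) (XT.lf (nat_lit 84) (nat_lit 10169585184)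 (nat_lit 0) (nat_lit 14332426835) (nat_lit 252) (nat_lit 10169585184) (nat_lit 33) (nat_lit 1) (nat_lit 32) (nat_lit 1) (nat_lit 35) (nat_lit 1) (nat_lit 163) (nat_lit 308) (nat_lit 249)) (XT.lf (nat_lit 168) (nat_lit 9781720571) (nat_lit 0) (nat_lit 12150863347) (nat_lit 84) (nat_lit 12150863347) (nat_lit 33) (nat_lit 1) (nat_lit 31) (nat_lit 1) (nat_lit 32) (nat_lit 1) (nat_lit 164) (nat_lit 308) (nat_lit 248)))) (XT.nd (nat_lit 94) (nat_lit 84) (nat_lit 0) (XT.lf (nat_lit 252) (nat_lit 33088626072) (nat_lit 0) (nat_lit 213180042) (nat_lit 168) (nat_lit 213180042) (nat_lit 31) (nat_lit 1) (nat_lit 28) (nat_lit 1) (nat_lit 30) (nat_lit 1) (nat_lit 165) (nat_lit 308) (nat_lit 247)) (XT.nd (nat_lit 94) (nat_lit 84) (nat_lit 0) (XT.lf (nat_lit 84) (nat_lit 11286855920) (nat_lit 0) (nat_lit 10366780090) (nat_lit 252) (nat_lit 11286855920) (nat_lit 29) (nat_lit 1) (nat_lit 28)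 (nat_lit 1) (nat_lit 31) (nat_lit 1) (nat_lit 166) (nat_lit 308) (nat_lit 246)) (XT.lf (nat_lit 168) (nat_lit 12392301681) (nat_lit 0) (nat_lit 9996545347) (nat_lit 84) (nat_lit 9996545347) (nat_lit 29) (nat_lit 1) (nat_lit 27) (nat_lit 1) (nat_lit 28) (nat_lit 1) (nat_lit 167) (nat_lit 308) (nat_lit 245))))) (XT.nd (nat_lit 282) (nat_lit 252) (nat_lit 0) (XT.nd (nat_lit 94) (nat_lit 252) (nat_lit 0) (XT.lf (nat_lit 0) (nat_lit 1246284045) (nat_lit 0) (nat_lit 29354484114) (nat_lit 168) (nat_lit 1246284045) (nat_lit 27) (nat_lit 3) (nat_lit 27) (nat_lit 1) (nat_lit 29) (nat_lit 1) (nat_lit 168) (nat_lit 308) (nat_lit 244)) (XT.nd (nat_lit 94) (nat_lit 84) (nat_lit 0) (XT.lf (nat_lit 84) (nat_lit 12066974795) (nat_lit 0) (nat_lit 7172068076) (nat_lit 168) (nat_lit 12066974795) (nat_lit 26) (nat_lit 1) (nat_lit 25) (nat_lit 1) (nat_lit 27) (nat_lit 1) (nat_lit 169) (nat_lit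 308) (nat_lit 243)) (XT.lf (nat_lit 168) (nat_lit 14333135318) (nat_lit 0) (nat_lit 8224182596) (nat_lit 84) (nat_lit 8224182596) (nat_lit 26) (nat_lit 1) (nat_lit 24) (nat_lit 1) (nat_lit 25) (nat_lit 1) (nat_lit 170) (nat_lit 308) (nat_lit 242)))) (XT.nd (nat_lit 188) (nat_lit 84) (nat_lit 0) (XT.nd (nat_lit 94) (nat_lit 168) (nat_lit 0) (XT.lf (nat_lit 0) (nat_lit 2382028527) (nat_lit 0) (nat_lit 25506714286) (nat_lit 168) (nat_lit 2382028527) (nat_lit 24) (nat_lit 3) (nat_lit 24) (nat_lit 1) (nat_lit 26) (nat_lit 1) (nat_lit 171) (nat_lit 308) (nat_lit 241)) (XT.lf (nat_lit 84) (nat_lit 12576340024) (nat_lit 0) (nat_lit 4608375718) (nat_lit 168) (nat_lit 12576340024) (nat_lit 23) (nat_lit 1) (nat_lit 22) (nat_lit 1) (nat_lit 24) (nat_lit 1) (nat_lit 172) (nat_lit 308) (nat_lit 240))) (XT.nd (nat_lit 94) (nat_lit 0) (nat_lit 0) (XT.lf (nat_lit 168) (nat_lit 15732818332)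 (nat_lit 0) (nat_lit 6766055375) (nat_lit 84) (nat_lit 6766055375) (nat_lit 23) (nat_lit 1) (nat_lit 21) (nat_lit 1) (nat_lit 22) (nat_lit 1) (nat_lit 173) (nat_lit 308) (nat_lit 239)) (XT.lf (nat_lit 0) (nat_lit 3251803202) (nat_lit 0) (nat_lit 22276539405) (nat_lit 168) (nat_lit 3251803202) (nat_lit 21) (nat_lit 3) (nat_lit 21) (nat_lit 1) (nat_lit 23) (nat_lit 1) (nat_lit 174) (nat_lit 308) (nat_lit 238)))))) (XT.nd (nat_lit 658) (nat_lit 672) (nat_lit 0) (XT.nd (nat_lit 282) (nat_lit 336) (nat_lit 0) (XT.nd (nat_lit 94) (nat_lit 84) (nat_lit 0) (XT.lf (nat_lit 84) (nat_lit 12869262249) (nat_lit 0) (nat_lit 2560748357) (nat_lit 168) (nat_lit 12869262249) (nat_lit 20) (nat_lit 1) (nat_lit 19) (nat_lit 1) (nat_lit 21) (nat_lit 1) (nat_lit 175) (nat_lit 308) (nat_lit 237)) (XT.nd (nat_lit 94) (nat_lit 0) (nat_lit 0) (XT.lf (nat_lit 168) (nat_lit 16696678515) (nat_lit 0)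 (nat_lit 5566450501) (nat_lit 84) (nat_lit 5566450501) (nat_lit 20) (nat_lit 1) (nat_lit 18) (nat_lit 1) (nat_lit 19) (nat_lit 1) (nat_lit 176) (nat_lit 308) (nat_lit 236)) (XT.lf (nat_lit 0) (nat_lit 3905840292) (nat_lit 0) (nat_lit 19557537848) (nat_lit 168) (nat_lit 3905840292) (nat_lit 18) (nat_lit 3) (nat_lit 18) (nat_lit 1) (nat_lit 20) (nat_lit 1) (nat_lit 177) (nat_lit 308) (nat_lit 235)))) (XT.nd (nat_lit 188) (nat_lit 84) (nat_lit 0) (XT.nd (nat_lit 94) (nat_lit 84) (nat_lit 0) (XT.lf (nat_lit 84) (nat_lit 12990122652) (nat_lit 0) (nat_lit 934759011) (nat_lit 168) (nat_lit 12990122652) (nat_lit 17) (nat_lit 1) (nat_lit 16) (nat_lit 1) (nat_lit 18) (nat_lit 1) (nat_lit 178) (nat_lit 308) (nat_lit 234)) (XT.lf (nat_lit 168) (nat_lit 17310922485) (nat_lit 0) (nat_lit 4579532603) (nat_lit 84) (nat_lit 4579532603) (nat_lit 17) (nat_lit 1) (nat_lit 15) (nat_lit 1) (nat_lit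 16) (nat_lit 1) (nat_lit 179) (nat_lit 308) (nat_lit 233))) (XT.nd (nat_lit 94) (nat_lit 84) (nat_lit 0) (XT.lf (nat_lit 0) (nat_lit 4385319474) (nat_lit 0) (nat_lit 17262009788) (nat_lit 168) (nat_lit 4385319474) (nat_lit 15) (nat_lit 3) (nat_lit 15) (nat_lit 1) (nat_lit 17) (nat_lit 1) (nat_lit 180) (nat_lit 308) (nat_lit 232)) (XT.lf (nat_lit 84) (nat_lit 358616068) (nat_lit 0) (nat_lit 12622130653) (nat_lit 84) (nat_lit 12622130653) (nat_lit 15) (nat_lit 3) (nat_lit 14) (nat_lit 1) (nat_lit 15) (nat_lit 1) (nat_lit 181) (nat_lit 308) (nat_lit 231))))) (XT.nd (nat_lit 282) (nat_lit 420) (nat_lit 0) (XT.nd (nat_lit 94) (nat_lit 84) (nat_lit 0) (XT.lf (nat_lit 168) (nat_lit 17646047103) (nat_lit 0) (nat_lit 3767592806) (nat_lit 84) (nat_lit 3767592806) (nat_lit 14) (nat_lit 1) (nat_lit 12) (nat_lit 1) (nat_lit 13) (nat_lit 1) (nat_lit 182) (nat_lit 308) (nat_lit 230)) (XT.nd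 (nat_lit 94) (nat_lit 84) (nat_lit 0) (XT.lf (nat_lit 0) (nat_lit 4723979851) (nat_lit 0) (nat_lit 15317664840) (nat_lit 168) (nat_lit 4723979851) (nat_lit 12) (nat_lit 3) (nat_lit 12) (nat_lit 1) (nat_lit 14) (nat_lit 1) (nat_lit 183) (nat_lit 308) (nat_lit 229)) (XT.lf (nat_lit 84) (nat_lit 1393198305) (nat_lit 0) (nat_lit 11482422104) (nat_lit 84) (nat_lit 11482422104) (nat_lit 12) (nat_lit 3) (nat_lit 11) (nat_lit 1) (nat_lit 12) (nat_lit 1) (nat_lit 184) (nat_lit 308) (nat_lit 228)))) (XT.nd (nat_lit 188) (nat_lit 252) (nat_lit 0) (XT.nd (nat_lit 94) (nat_lit 0) (nat_lit 0) (XT.lf (nat_lit 168) (nat_lit 17759645035) (nat_lit 0) (nat_lit 3099607925) (nat_lit 84) (nat_lit 3099607925) (nat_lit 11) (nat_lit 1) (nat_lit 9) (nat_lit 1) (nat_lit 10) (nat_lit 1) (nat_lit 185) (nat_lit 308) (nat_lit 227)) (XT.lf (nat_lit 0) (nat_lit 4949445787) (nat_lit 0) (nat_lit 13664896645)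 (nat_lit 168) (nat_lit 4949445787) (nat_lit 9) (nat_lit 3) (nat_lit 9) (nat_lit 1) (nat_lit 11) (nat_lit 1) (nat_lit 186) (nat_lit 308) (nat_lit 226))) (XT.nd (nat_lit 94) (nat_lit 168) (nat_lit 0) (XT.lf (nat_lit 84) (nat_lit 2192058149) (nat_lit 0) (nat_lit 10492487537) (nat_lit 84) (nat_lit 10492487537) (nat_lit 9) (nat_lit 3) (nat_lit 8) (nat_lit 1) (nat_lit 9) (nat_lit 1) (nat_lit 187) (nat_lit 308) (nat_lit 225)) (XT.lf (nat_lit 168) (nat_lit 17698711934) (nat_lit 0) (nat_lit 2550055111) (nat_lit 84) (nat_lit 2550055111) (nat_lit 8) (nat_lit 1) (nat_lit 6) (nat_lit 1) (nat_lit 7) (nat_lit 1) (nat_lit 188) (nat_lit 308) (nat_lit 224))))))))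
noncomputable def ec210 : XT := (XT.nd (nat_lit 2538) (nat_lit 0) (nat_lit 0) (XT.nd (nat_lit 1222) (nat_lit 0) (nat_lit 0) (XT.nd (nat_lit 564) (nat_lit 0) (nat_lit 0) (XT.nd (nat_lit 282) (nat_lit 252) (nat_lit 0) (XT.nd (nat_lit 94) (nat_lit 252) (nat_lit 0) (XT.lf (nat_lit 0) (nat_lit 5084317368) (nat_lit 0) (nat_lit 12254540357) (nat_lit 168) (nat_lit 5084317368) (nat_lit 6) (nat_lit 3) (nat_lit 6) (nat_lit 1) (nat_lit 8) (nat_lit 1) (nat_lit 189) (nat_lit 308) (nat_lit 223)) (XT.nd (nat_lit 94) (nat_lit 168) (nat_lit 0) (XT.lf (nat_lit 84) (nat_lit 2799478765) (nat_lit 0) (nat_lit 9628262564) (nat_lit 84) (nat_lit 9628262564) (nat_lit 6) (nat_lit 3) (nat_lit 5) (nat_lit 1) (nat_lit 6) (nat_lit 1) (nat_lit 190) (nat_lit 308) (nat_lit 222)) (XT.lf (nat_lit 168) (nat_lit 17501543644) (nat_lit 0) (nat_lit 2097936651) (nat_lit 84) (nat_lit 2097936651) (nat_lit 5) (nat_lit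 1) (nat_lit 3) (nat_lit 1) (nat_lit 4) (nat_lit 1) (nat_lit 191) (nat_lit 308) (nat_lit 221)))) (XT.nd (nat_lit 94) (nat_lit 252) (nat_lit 0) (XT.lf (nat_lit 0) (nat_lit 5147067214) (nat_lit 0) (nat_lit 11046027412) (nat_lit 168) (nat_lit 5147067214) (nat_lit 3) (nat_lit 3) (nat_lit 3) (nat_lit 1) (nat_lit 5) (nat_lit 1) (nat_lit 192) (nat_lit 308) (nat_lit 220)) (XT.nd (nat_lit 94) (nat_lit 168) (nat_lit 0) (XT.lf (nat_lit 84) (nat_lit 3251773442) (nat_lit 0) (nat_lit 8869830774) (nat_lit 84) (nat_lit 8869830774) (nat_lit 3) (nat_lit 3) (nat_lit 2) (nat_lit 1) (nat_lit 3) (nat_lit 1) (nat_lit 193) (nat_lit 308) (nat_lit 219)) (XT.lf (nat_lit 0) (nat_lit 29999825535) (nat_lit 0) (nat_lit 0) (nat_lit 0) (nat_lit 0) (nat_lit 0) (nat_lit 0) (nat_lit 1) (nat_lit 0) (nat_lit 1) (nat_lit 0) (nat_lit 194) (nat_lit 308) (nat_lit 218))))) (XT.nd (nat_lit 282) (nat_lit 0) (nat_lit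 0) (XT.nd (nat_lit 94) (nat_lit 0) (nat_lit 0) (XT.lf (nat_lit 0) (nat_lit 29982346558) (nat_lit 0) (nat_lit 0) (nat_lit 0) (nat_lit 0) (nat_lit 0) (nat_lit 0) (nat_lit 1) (nat_lit 0) (nat_lit 1) (nat_lit 0) (nat_lit 195) (nat_lit 308) (nat_lit 217)) (XT.nd (nat_lit 94) (nat_lit 0) (nat_lit 0) (XT.lf (nat_lit 0) (nat_lit 29965699914) (nat_lit 0) (nat_lit 0) (nat_lit 0) (nat_lit 0) (nat_lit 0) (nat_lit 0) (nat_lit 1) (nat_lit 0) (nat_lit 1) (nat_lit 0) (nat_lit 196) (nat_lit 308) (nat_lit 216)) (XT.lf (nat_lit 0) (nat_lit 29949845967) (nat_lit 0) (nat_lit 0) (nat_lit 0) (nat_lit 0) (nat_lit 0) (nat_lit 0) (nat_lit 1) (nat_lit 0) (nat_lit 1) (nat_lit 0) (nat_lit 197) (nat_lit 308) (nat_lit 215)))) (XT.nd (nat_lit 188) (nat_lit 0) (nat_lit 0) (XT.nd (nat_lit 94) (nat_lit 0) (nat_lit 0) (XT.lf (nat_lit 0) (nat_lit 29934746970) (nat_lit 0) (nat_lit 0) (nat_lit 0) (nat_lit 0)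 (nat_lit 0) (nat_lit 0) (nat_lit 1) (nat_lit 0) (nat_lit 1) (nat_lit 0) (nat_lit 198) (nat_lit 308) (nat_lit 214)) (XT.lf (nat_lit 0) (nat_lit 29920366973) (nat_lit 0) (nat_lit 0) (nat_lit 0) (nat_lit 0) (nat_lit 0) (nat_lit 0) (nat_lit 1) (nat_lit 0) (nat_lit 1) (nat_lit 0) (nat_lit 199) (nat_lit 308) (nat_lit 213))) (XT.nd (nat_lit 94) (nat_lit 0) (nat_lit 0) (XT.lf (nat_lit 0) (nat_lit 29906671738) (nat_lit 0) (nat_lit 0) (nat_lit 0) (nat_lit 0) (nat_lit 0) (nat_lit 0) (nat_lit 1) (nat_lit 0) (nat_lit 1) (nat_lit 0) (nat_lit 200) (nat_lit 308) (nat_lit 212)) (XT.lf (nat_lit 0) (nat_lit 29893628657) (nat_lit 0) (nat_lit 0) (nat_lit 0) (nat_lit 0) (nat_lit 0) (nat_lit 0) (nat_lit 1) (nat_lit 0) (nat_lit 1) (nat_lit 0) (nat_lit 201) (nat_lit 308) (nat_lit 211)))))) (XT.nd (nat_lit 658) (nat_lit 0) (nat_lit 0) (XT.nd (nat_lit 282) (nat_lit 0) (nat_lit 0) (XT.nd (nat_lit 94)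 (nat_lit 0) (nat_lit 0) (XT.lf (nat_lit 0) (nat_lit 29881206675) (nat_lit 0) (nat_lit 0) (nat_lit 0) (nat_lit 0) (nat_lit 0) (nat_lit 0) (nat_lit 1) (nat_lit 0) (nat_lit 1) (nat_lit 0) (nat_lit 202) (nat_lit 308) (nat_lit 210)) (XT.nd (nat_lit 94) (nat_lit 0) (nat_lit 0) (XT.lf (nat_lit 0) (nat_lit 29869376215) (nat_lit 0) (nat_lit 0) (nat_lit 0) (nat_lit 0) (nat_lit 0) (nat_lit 0) (nat_lit 1) (nat_lit 0) (nat_lit 1) (nat_lit 0) (nat_lit 203) (nat_lit 308) (nat_lit 209)) (XT.lf (nat_lit 0) (nat_lit 29858109111) (nat_lit 0) (nat_lit 0) (nat_lit 0) (nat_lit 0) (nat_lit 0) (nat_lit 0) (nat_lit 1) (nat_lit 0) (nat_lit 1) (nat_lit 0) (nat_lit 204) (nat_lit 308) (nat_lit 208)))) (XT.nd (nat_lit 188) (nat_lit 0) (nat_lit 0) (XT.nd (nat_lit 94) (nat_lit 0) (nat_lit 0) (XT.lf (nat_lit 0) (nat_lit 29847378536) (nat_lit 0) (nat_lit 0) (nat_lit 0) (nat_lit 0) (nat_lit 0) (nat_lit 0)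 (nat_lit 1) (nat_lit 0) (nat_lit 1) (nat_lit 0) (nat_lit 205) (nat_lit 308) (nat_lit 207)) (XT.lf (nat_lit 0) (nat_lit 29837158941) (nat_lit 0) (nat_lit 0) (nat_lit 0) (nat_lit 0) (nat_lit 0) (nat_lit 0) (nat_lit 1) (nat_lit 0) (nat_lit 1) (nat_lit 0) (nat_lit 206) (nat_lit 308) (nat_lit 206))) (XT.nd (nat_lit 94) (nat_lit 0) (nat_lit 0) (XT.lf (nat_lit 0) (nat_lit 29827425992) (nat_lit 0) (nat_lit 0) (nat_lit 0) (nat_lit 0) (nat_lit 0) (nat_lit 0) (nat_lit 1) (nat_lit 0) (nat_lit 1) (nat_lit 0) (nat_lit 207) (nat_lit 308) (nat_lit 205)) (XT.lf (nat_lit 0) (nat_lit 29818156518) (nat_lit 0) (nat_lit 0) (nat_lit 0) (nat_lit 0) (nat_lit 0) (nat_lit 0) (nat_lit 1) (nat_lit 0) (nat_lit 1) (nat_lit 0) (nat_lit 208) (nat_lit 308) (nat_lit 204))))) (XT.nd (nat_lit 282) (nat_lit 0) (nat_lit 0) (XT.nd (nat_lit 94) (nat_lit 0) (nat_lit 0) (XT.lf (nat_lit 0) (nat_lit 29809328447) (nat_lit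 0) (nat_lit 0) (nat_lit 0) (nat_lit 0) (nat_lit 0) (nat_lit 0) (nat_lit 1) (nat_lit 0) (nat_lit 1) (nat_lit 0) (nat_lit 209) (nat_lit 308) (nat_lit 203)) (XT.nd (nat_lit 94) (nat_lit 0) (nat_lit 0) (XT.lf (nat_lit 0) (nat_lit 29800920761) (nat_lit 0) (nat_lit 0) (nat_lit 0) (nat_lit 0) (nat_lit 0) (nat_lit 0) (nat_lit 1) (nat_lit 0) (nat_lit 1) (nat_lit 0) (nat_lit 210) (nat_lit 308) (nat_lit 202)) (XT.lf (nat_lit 0) (nat_lit 29792913440) (nat_lit 0) (nat_lit 0) (nat_lit 0) (nat_lit 0) (nat_lit 0) (nat_lit 0) (nat_lit 1) (nat_lit 0) (nat_lit 1) (nat_lit 0) (nat_lit 211) (nat_lit 308) (nat_lit 201)))) (XT.nd (nat_lit 188) (nat_lit 0) (nat_lit 0) (XT.nd (nat_lit 94) (nat_lit 0) (nat_lit 0) (XT.lf (nat_lit 0) (nat_lit 29785287421) (nat_lit 0) (nat_lit 0) (nat_lit 0) (nat_lit 0) (nat_lit 0) (nat_lit 0) (nat_lit 1) (nat_lit 0) (nat_lit 1) (nat_lit 0) (nat_lit 212) (nat_lit 308)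 (nat_lit 200)) (XT.lf (nat_lit 0) (nat_lit 29778024545) (nat_lit 0) (nat_lit 0) (nat_lit 0) (nat_lit 0) (nat_lit 0) (nat_lit 0) (nat_lit 1) (nat_lit 0) (nat_lit 1) (nat_lit 0) (nat_lit 213) (nat_lit 308) (nat_lit 199))) (XT.nd (nat_lit 94) (nat_lit 0) (nat_lit 0) (XT.lf (nat_lit 0) (nat_lit 29771107521) (nat_lit 0) (nat_lit 0) (nat_lit 0) (nat_lit 0) (nat_lit 0) (nat_lit 0) (nat_lit 1) (nat_lit 0) (nat_lit 1) (nat_lit 0) (nat_lit 214) (nat_lit 308) (nat_lit 198)) (XT.lf (nat_lit 0) (nat_lit 29764519878) (nat_lit 0) (nat_lit 0) (nat_lit 0) (nat_lit 0) (nat_lit 0) (nat_lit 0) (nat_lit 1) (nat_lit 0) (nat_lit 1) (nat_lit 0) (nat_lit 215) (nat_lit 308) (nat_lit 197))))))) (XT.nd (nat_lit 1222) (nat_lit 0) (nat_lit 0) (XT.nd (nat_lit 564) (nat_lit 0) (nat_lit 0) (XT.nd (nat_lit 282) (nat_lit 0) (nat_lit 0) (XT.nd (nat_lit 94) (nat_lit 0) (nat_lit 0) (XT.lf (nat_lit 0) (nat_lit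 29758245933) (nat_lit 0) (nat_lit 0) (nat_lit 0) (nat_lit 0) (nat_lit 0) (nat_lit 0) (nat_lit 1) (nat_lit 0) (nat_lit 1) (nat_lit 0) (nat_lit 216) (nat_lit 308) (nat_lit 196)) (XT.nd (nat_lit 94) (nat_lit 0) (nat_lit 0) (XT.lf (nat_lit 0) (nat_lit 29752270747) (nat_lit 0) (nat_lit 0) (nat_lit 0) (nat_lit 0) (nat_lit 0) (nat_lit 0) (nat_lit 1) (nat_lit 0) (nat_lit 1) (nat_lit 0) (nat_lit 217) (nat_lit 308) (nat_lit 195)) (XT.lf (nat_lit 0) (nat_lit 29746580094) (nat_lit 0) (nat_lit 0) (nat_lit 0) (nat_lit 0) (nat_lit 0) (nat_lit 0) (nat_lit 1) (nat_lit 0) (nat_lit 1) (nat_lit 0) (nat_lit 218) (nat_lit 308) (nat_lit 194)))) (XT.nd (nat_lit 94) (nat_lit 0) (nat_lit 0) (XT.lf (nat_lit 0) (nat_lit 29741160424) (nat_lit 0) (nat_lit 0) (nat_lit 0) (nat_lit 0) (nat_lit 0) (nat_lit 0) (nat_lit 1) (nat_lit 0) (nat_lit 1) (nat_lit 0) (nat_lit 219) (nat_lit 308) (nat_lit 193)) (XT.nd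 (nat_lit 94) (nat_lit 0) (nat_lit 0) (XT.lf (nat_lit 0) (nat_lit 29735998834) (nat_lit 0) (nat_lit 0) (nat_lit 0) (nat_lit 0) (nat_lit 0) (nat_lit 0) (nat_lit 1) (nat_lit 0) (nat_lit 1) (nat_lit 0) (nat_lit 220) (nat_lit 308) (nat_lit 192)) (XT.lf (nat_lit 0) (nat_lit 29731083034) (nat_lit 0) (nat_lit 0) (nat_lit 0) (nat_lit 0) (nat_lit 0) (nat_lit 0) (nat_lit 1) (nat_lit 0) (nat_lit 1) (nat_lit 0) (nat_lit 221) (nat_lit 308) (nat_lit 191))))) (XT.nd (nat_lit 282) (nat_lit 0) (nat_lit 0) (XT.nd (nat_lit 94) (nat_lit 0) (nat_lit 0) (XT.lf (nat_lit 0) (nat_lit 29726401320) (nat_lit 0) (nat_lit 0) (nat_lit 0) (nat_lit 0) (nat_lit 0) (nat_lit 0) (nat_lit 1) (nat_lit 0) (nat_lit 1) (nat_lit 0) (nat_lit 222) (nat_lit 308) (nat_lit 190)) (XT.nd (nat_lit 94) (nat_lit 0) (nat_lit 0) (XT.lf (nat_lit 0) (nat_lit 29721942544) (nat_lit 0) (nat_lit 0) (nat_lit 0) (nat_lit 0) (nat_lit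 0) (nat_lit 0) (nat_lit 1) (nat_lit 0) (nat_lit 1) (nat_lit 0) (nat_lit 223) (nat_lit 308) (nat_lit 189)) (XT.lf (nat_lit 0) (nat_lit 29717696091) (nat_lit 0) (nat_lit 0) (nat_lit 0) (nat_lit 0) (nat_lit 0) (nat_lit 0) (nat_lit 1) (nat_lit 0) (nat_lit 1) (nat_lit 0) (nat_lit 224) (nat_lit 308) (nat_lit 188)))) (XT.nd (nat_lit 188) (nat_lit 0) (nat_lit 0) (XT.nd (nat_lit 94) (nat_lit 0) (nat_lit 0) (XT.lf (nat_lit 0) (nat_lit 29713651850) (nat_lit 0) (nat_lit 0) (nat_lit 0) (nat_lit 0) (nat_lit 0) (nat_lit 0) (nat_lit 1) (nat_lit 0) (nat_lit 1) (nat_lit 0) (nat_lit 225) (nat_lit 308) (nat_lit 187)) (XT.lf (nat_lit 0) (nat_lit 29709800192) (nat_lit 0) (nat_lit 0) (nat_lit 0) (nat_lit 0) (nat_lit 0) (nat_lit 0) (nat_lit 1) (nat_lit 0) (nat_lit 1) (nat_lit 0) (nat_lit 226) (nat_lit 308) (nat_lit 186))) (XT.nd (nat_lit 94) (nat_lit 0) (nat_lit 0) (XT.lf (nat_lit 0) (nat_lit 29706131946)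 (nat_lit 0) (nat_lit 0) (nat_lit 0) (nat_lit 0) (nat_lit 0) (nat_lit 0) (nat_lit 1) (nat_lit 0) (nat_lit 1) (nat_lit 0) (nat_lit 227) (nat_lit 308) (nat_lit 185)) (XT.lf (nat_lit 0) (nat_lit 29702638379) (nat_lit 0) (nat_lit 0) (nat_lit 0) (nat_lit 0) (nat_lit 0) (nat_lit 0) (nat_lit 1) (nat_lit 0) (nat_lit 1) (nat_lit 0) (nat_lit 228) (nat_lit 308) (nat_lit 184)))))) (XT.nd (nat_lit 658) (nat_lit 0) (nat_lit 0) (XT.nd (nat_lit 282) (nat_lit 0) (nat_lit 0) (XT.nd (nat_lit 94) (nat_lit 0) (nat_lit 0) (XT.lf (nat_lit 0) (nat_lit 29699311172) (nat_lit 0) (nat_lit 0) (nat_lit 0) (nat_lit 0) (nat_lit 0) (nat_lit 0) (nat_lit 1) (nat_lit 0) (nat_lit 1) (nat_lit 0) (nat_lit 229) (nat_lit 308) (nat_lit 183)) (XT.nd (nat_lit 94) (nat_lit 0) (nat_lit 0) (XT.lf (nat_lit 0) (nat_lit 29696142403) (nat_lit 0) (nat_lit 0) (nat_lit 0) (nat_lit 0) (nat_lit 0) (nat_lit 0) (nat_lit 1) (nat_lit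 0) (nat_lit 1) (nat_lit 0) (nat_lit 230) (nat_lit 308) (nat_lit 182)) (XT.lf (nat_lit 0) (nat_lit 29693124528) (nat_lit 0) (nat_lit 0) (nat_lit 0) (nat_lit 0) (nat_lit 0) (nat_lit 0) (nat_lit 1) (nat_lit 0) (nat_lit 1) (nat_lit 0) (nat_lit 231) (nat_lit 308) (nat_lit 181)))) (XT.nd (nat_lit 188) (nat_lit 0) (nat_lit 0) (XT.nd (nat_lit 94) (nat_lit 0) (nat_lit 0) (XT.lf (nat_lit 0) (nat_lit 29690250362) (nat_lit 0) (nat_lit 0) (nat_lit 0) (nat_lit 0) (nat_lit 0) (nat_lit 0) (nat_lit 1) (nat_lit 0) (nat_lit 1) (nat_lit 0) (nat_lit 232) (nat_lit 308) (nat_lit 180)) (XT.lf (nat_lit 0) (nat_lit 29687513060) (nat_lit 0) (nat_lit 0) (nat_lit 0) (nat_lit 0) (nat_lit 0) (nat_lit 0) (nat_lit 1) (nat_lit 0) (nat_lit 1) (nat_lit 0) (nat_lit 233) (nat_lit 308) (nat_lit 179))) (XT.nd (nat_lit 94) (nat_lit 0) (nat_lit 0) (XT.lf (nat_lit 0) (nat_lit 29684906106) (nat_lit 0) (nat_lit 0)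 (nat_lit 0) (nat_lit 0) (nat_lit 0) (nat_lit 0) (nat_lit 1) (nat_lit 0) (nat_lit 1) (nat_lit 0) (nat_lit 234) (nat_lit 308) (nat_lit 178)) (XT.lf (nat_lit 0) (nat_lit 29682423293) (nat_lit 0) (nat_lit 0) (nat_lit 0) (nat_lit 0) (nat_lit 0) (nat_lit 0) (nat_lit 1) (nat_lit 0) (nat_lit 1) (nat_lit 0) (nat_lit 235) (nat_lit 308) (nat_lit 177))))) (XT.nd (nat_lit 282) (nat_lit 0) (nat_lit 0) (XT.nd (nat_lit 94) (nat_lit 0) (nat_lit 0) (XT.lf (nat_lit 0) (nat_lit 29680058709) (nat_lit 0) (nat_lit 0) (nat_lit 0) (nat_lit 0) (nat_lit 0) (nat_lit 0) (nat_lit 1) (nat_lit 0) (nat_lit 1) (nat_lit 0) (nat_lit 236) (nat_lit 308) (nat_lit 176)) (XT.nd (nat_lit 94) (nat_lit 0) (nat_lit 0) (XT.lf (nat_lit 0) (nat_lit 29677806725) (nat_lit 0) (nat_lit 0) (nat_lit 0) (nat_lit 0) (nat_lit 0) (nat_lit 0) (nat_lit 1) (nat_lit 0) (nat_lit 1) (nat_lit 0) (nat_lit 237) (nat_lit 308) (nat_lit 175))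 (XT.lf (nat_lit 0) (nat_lit 29675661977) (nat_lit 0) (nat_lit 0) (nat_lit 0) (nat_lit 0) (nat_lit 0) (nat_lit 0) (nat_lit 1) (nat_lit 0) (nat_lit 1) (nat_lit 0) (nat_lit 238) (nat_lit 308) (nat_lit 174)))) (XT.nd (nat_lit 188) (nat_lit 0) (nat_lit 0) (XT.nd (nat_lit 94) (nat_lit 0) (nat_lit 0) (XT.lf (nat_lit 0) (nat_lit 29673619361) (nat_lit 0) (nat_lit 0) (nat_lit 0) (nat_lit 0) (nat_lit 0) (nat_lit 0) (nat_lit 1) (nat_lit 0) (nat_lit 1) (nat_lit 0) (nat_lit 239) (nat_lit 308) (nat_lit 173)) (XT.lf (nat_lit 0) (nat_lit 29671674012) (nat_lit 0) (nat_lit 0) (nat_lit 0) (nat_lit 0) (nat_lit 0) (nat_lit 0) (nat_lit 1) (nat_lit 0) (nat_lit 1) (nat_lit 0) (nat_lit 240) (nat_lit 308) (nat_lit 172))) (XT.nd (nat_lit 94) (nat_lit 0) (nat_lit 0) (XT.lf (nat_lit 0) (nat_lit 29669821298) (nat_lit 0) (nat_lit 0) (nat_lit 0) (nat_lit 0) (nat_lit 0) (nat_lit 0) (nat_lit 1) (nat_lit 0)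 (nat_lit 1) (nat_lit 0) (nat_lit 241) (nat_lit 308) (nat_lit 171)) (XT.lf (nat_lit 0) (nat_lit 29668056809) (nat_lit 0) (nat_lit 0) (nat_lit 0) (nat_lit 0) (nat_lit 0) (nat_lit 0) (nat_lit 1) (nat_lit 0) (nat_lit 1) (nat_lit 0) (nat_lit 242) (nat_lit 308) (nat_lit 170))))))))
noncomputable def ec211 : XT := (XT.nd (nat_lit 2538) (nat_lit 0) (nat_lit 0) (XT.nd (nat_lit 1222) (nat_lit 0) (nat_lit 0) (XT.nd (nat_lit 564) (nat_lit 0) (nat_lit 0) (XT.nd (nat_lit 282) (nat_lit 0) (nat_lit 0) (XT.nd (nat_lit 94) (nat_lit 0) (nat_lit 0) (XT.lf (nat_lit 0) (nat_lit 29666376344) (nat_lit 0) (nat_lit 0) (nat_lit 0) (nat_lit 0) (nat_lit 0) (nat_lit 0) (nat_lit 1) (nat_lit 0) (nat_lit 1) (nat_lit 0) (nat_lit 243) (nat_lit 308) (nat_lit 169)) (XT.nd (nat_lit 94) (nat_lit 0) (nat_lit 0) (XT.lf (nat_lit 0) (nat_lit 29664775900) (nat_lit 0) (nat_lit 0) (nat_lit 0) (nat_lit 0) (nat_lit 0)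 (nat_lit 0) (nat_lit 1) (nat_lit 0) (nat_lit 1) (nat_lit 0) (nat_lit 244) (nat_lit 308) (nat_lit 168)) (XT.lf (nat_lit 0) (nat_lit 29663251668) (nat_lit 0) (nat_lit 0) (nat_lit 0) (nat_lit 0) (nat_lit 0) (nat_lit 0) (nat_lit 1) (nat_lit 0) (nat_lit 1) (nat_lit 0) (nat_lit 245) (nat_lit 308) (nat_lit 167)))) (XT.nd (nat_lit 94) (nat_lit 0) (nat_lit 0) (XT.lf (nat_lit 0) (nat_lit 29661800019) (nat_lit 0) (nat_lit 0) (nat_lit 0) (nat_lit 0) (nat_lit 0) (nat_lit 0) (nat_lit 1) (nat_lit 0) (nat_lit 1) (nat_lit 0) (nat_lit 246) (nat_lit 308) (nat_lit 166)) (XT.nd (nat_lit 94) (nat_lit 0) (nat_lit 0) (XT.lf (nat_lit 0) (nat_lit 29660417496) (nat_lit 0) (nat_lit 0) (nat_lit 0) (nat_lit 0) (nat_lit 0) (nat_lit 0) (nat_lit 1) (nat_lit 0) (nat_lit 1) (nat_lit 0) (nat_lit 247) (nat_lit 308) (nat_lit 165)) (XT.lf (nat_lit 0) (nat_lit 29659100807) (nat_lit 0) (nat_lit 0) (nat_lit 0) (nat_lit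 0) (nat_lit 0) (nat_lit 0) (nat_lit 1) (nat_lit 0) (nat_lit 1) (nat_lit 0) (nat_lit 248) (nat_lit 308) (nat_lit 164))))) (XT.nd (nat_lit 282) (nat_lit 0) (nat_lit 0) (XT.nd (nat_lit 94) (nat_lit 0) (nat_lit 0) (XT.lf (nat_lit 0) (nat_lit 29657846818) (nat_lit 0) (nat_lit 0) (nat_lit 0) (nat_lit 0) (nat_lit 0) (nat_lit 0) (nat_lit 1) (nat_lit 0) (nat_lit 1) (nat_lit 0) (nat_lit 249) (nat_lit 308) (nat_lit 163)) (XT.nd (nat_lit 94) (nat_lit 0) (nat_lit 0) (XT.lf (nat_lit 0) (nat_lit 29656652542) (nat_lit 0) (nat_lit 0) (nat_lit 0) (nat_lit 0) (nat_lit 0) (nat_lit 0) (nat_lit 1) (nat_lit 0) (nat_lit 1) (nat_lit 0) (nat_lit 250) (nat_lit 308) (nat_lit 162)) (XT.lf (nat_lit 0) (nat_lit 29655515137) (nat_lit 0) (nat_lit 0) (nat_lit 0) (nat_lit 0) (nat_lit 0) (nat_lit 0) (nat_lit 1) (nat_lit 0) (nat_lit 1) (nat_lit 0) (nat_lit 251) (nat_lit 308) (nat_lit 161)))) (XT.nd (nat_lit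 188) (nat_lit 0) (nat_lit 0) (XT.nd (nat_lit 94) (nat_lit 0) (nat_lit 0) (XT.lf (nat_lit 0) (nat_lit 29654431894) (nat_lit 0) (nat_lit 0) (nat_lit 0) (nat_lit 0) (nat_lit 0) (nat_lit 0) (nat_lit 1) (nat_lit 0) (nat_lit 1) (nat_lit 0) (nat_lit 252) (nat_lit 308) (nat_lit 160)) (XT.lf (nat_lit 0) (nat_lit 29653400233) (nat_lit 0) (nat_lit 0) (nat_lit 0) (nat_lit 0) (nat_lit 0) (nat_lit 0) (nat_lit 1) (nat_lit 0) (nat_lit 1) (nat_lit 0) (nat_lit 253) (nat_lit 308) (nat_lit 159))) (XT.nd (nat_lit 94) (nat_lit 0) (nat_lit 0) (XT.lf (nat_lit 0) (nat_lit 29652417700) (nat_lit 0) (nat_lit 0) (nat_lit 0) (nat_lit 0) (nat_lit 0) (nat_lit 0) (nat_lit 1) (nat_lit 0) (nat_lit 1) (nat_lit 0) (nat_lit 254) (nat_lit 308) (nat_lit 158)) (XT.lf (nat_lit 0) (nat_lit 29651481954) (nat_lit 0) (nat_lit 0) (nat_lit 0) (nat_lit 0) (nat_lit 0) (nat_lit 0) (nat_lit 1) (nat_lit 0) (nat_lit 1) (nat_lit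 0) (nat_lit 255) (nat_lit 308) (nat_lit 157)))))) (XT.nd (nat_lit 658) (nat_lit 0) (nat_lit 0) (XT.nd (nat_lit 282) (nat_lit 0) (nat_lit 0) (XT.nd (nat_lit 94) (nat_lit 0) (nat_lit 0) (XT.lf (nat_lit 0) (nat_lit 29650590767) (nat_lit 0) (nat_lit 0) (nat_lit 0) (nat_lit 0) (nat_lit 0) (nat_lit 0) (nat_lit 1) (nat_lit 0) (nat_lit 1) (nat_lit 0) (nat_lit 256) (nat_lit 308) (nat_lit 156)) (XT.nd (nat_lit 94) (nat_lit 0) (nat_lit 0) (XT.lf (nat_lit 0) (nat_lit 29649742018) (nat_lit 0) (nat_lit 0) (nat_lit 0) (nat_lit 0) (nat_lit 0) (nat_lit 0) (nat_lit 1) (nat_lit 0) (nat_lit 1) (nat_lit 0) (nat_lit 257) (nat_lit 308) (nat_lit 155)) (XT.lf (nat_lit 0) (nat_lit 29648933685) (nat_lit 0) (nat_lit 0) (nat_lit 0) (nat_lit 0) (nat_lit 0) (nat_lit 0) (nat_lit 1) (nat_lit 0) (nat_lit 1) (nat_lit 0) (nat_lit 258) (nat_lit 308) (nat_lit 154)))) (XT.nd (nat_lit 188) (nat_lit 0) (nat_lit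 0) (XT.nd (nat_lit 94) (nat_lit 0) (nat_lit 0) (XT.lf (nat_lit 0) (nat_lit 29648163844) (nat_lit 0) (nat_lit 0) (nat_lit 0) (nat_lit 0) (nat_lit 0) (nat_lit 0) (nat_lit 1) (nat_lit 0) (nat_lit 1) (nat_lit 0) (nat_lit 259) (nat_lit 308) (nat_lit 153)) (XT.lf (nat_lit 0) (nat_lit 29647430663) (nat_lit 0) (nat_lit 0) (nat_lit 0) (nat_lit 0) (nat_lit 0) (nat_lit 0) (nat_lit 1) (nat_lit 0) (nat_lit 1) (nat_lit 0) (nat_lit 260) (nat_lit 308) (nat_lit 152))) (XT.nd (nat_lit 94) (nat_lit 0) (nat_lit 0) (XT.lf (nat_lit 0) (nat_lit 29646732395) (nat_lit 0) (nat_lit 0) (nat_lit 0) (nat_lit 0) (nat_lit 0) (nat_lit 0) (nat_lit 1) (nat_lit 0) (nat_lit 1) (nat_lit 0) (nat_lit 261) (nat_lit 308) (nat_lit 151)) (XT.lf (nat_lit 0) (nat_lit 29646067377) (nat_lit 0) (nat_lit 0) (nat_lit 0) (nat_lit 0) (nat_lit 0) (nat_lit 0) (nat_lit 1) (nat_lit 0) (nat_lit 1) (nat_lit 0) (nat_lit 262) (nat_lit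 308) (nat_lit 150))))) (XT.nd (nat_lit 282) (nat_lit 0) (nat_lit 0) (XT.nd (nat_lit 94) (nat_lit 0) (nat_lit 0) (XT.lf (nat_lit 0) (nat_lit 29645434027) (nat_lit 0) (nat_lit 0) (nat_lit 0) (nat_lit 0) (nat_lit 0) (nat_lit 0) (nat_lit 1) (nat_lit 0) (nat_lit 1) (nat_lit 0) (nat_lit 263) (nat_lit 308) (nat_lit 149)) (XT.nd (nat_lit 94) (nat_lit 0) (nat_lit 0) (XT.lf (nat_lit 0) (nat_lit 29644830837) (nat_lit 0) (nat_lit 0) (nat_lit 0) (nat_lit 0) (nat_lit 0) (nat_lit 0) (nat_lit 1) (nat_lit 0) (nat_lit 1) (nat_lit 0) (nat_lit 264) (nat_lit 308) (nat_lit 148)) (XT.lf (nat_lit 0) (nat_lit 29644256370) (nat_lit 0) (nat_lit 0) (nat_lit 0) (nat_lit 0) (nat_lit 0) (nat_lit 0) (nat_lit 1) (nat_lit 0) (nat_lit 1) (nat_lit 0) (nat_lit 265) (nat_lit 308) (nat_lit 147)))) (XT.nd (nat_lit 188) (nat_lit 0) (nat_lit 0) (XT.nd (nat_lit 94) (nat_lit 0) (nat_lit 0) (XT.lf (nat_lit 0) (nat_lit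 29643709259) (nat_lit 0) (nat_lit 0) (nat_lit 0) (nat_lit 0) (nat_lit 0) (nat_lit 0) (nat_lit 1) (nat_lit 0) (nat_lit 1) (nat_lit 0) (nat_lit 266) (nat_lit 308) (nat_lit 146)) (XT.lf (nat_lit 0) (nat_lit 29643188200) (nat_lit 0) (nat_lit 0) (nat_lit 0) (nat_lit 0) (nat_lit 0) (nat_lit 0) (nat_lit 1) (nat_lit 0) (nat_lit 1) (nat_lit 0) (nat_lit 267) (nat_lit 308) (nat_lit 145))) (XT.nd (nat_lit 94) (nat_lit 0) (nat_lit 0) (XT.lf (nat_lit 0) (nat_lit 29642691954) (nat_lit 0) (nat_lit 0) (nat_lit 0) (nat_lit 0) (nat_lit 0) (nat_lit 0) (nat_lit 1) (nat_lit 0) (nat_lit 1) (nat_lit 0) (nat_lit 268) (nat_lit 308) (nat_lit 144)) (XT.lf (nat_lit 0) (nat_lit 29642219339) (nat_lit 0) (nat_lit 0) (nat_lit 0) (nat_lit 0) (nat_lit 0) (nat_lit 0) (nat_lit 1) (nat_lit 0) (nat_lit 1) (nat_lit 0) (nat_lit 269) (nat_lit 308) (nat_lit 143))))))) (XT.nd (nat_lit 1316) (nat_lit 0) (nat_lit 0)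 (XT.nd (nat_lit 658) (nat_lit 0) (nat_lit 0) (XT.nd (nat_lit 282) (nat_lit 0) (nat_lit 0) (XT.nd (nat_lit 94) (nat_lit 0) (nat_lit 0) (XT.lf (nat_lit 0) (nat_lit 29641769229) (nat_lit 0) (nat_lit 0) (nat_lit 0) (nat_lit 0) (nat_lit 0) (nat_lit 0) (nat_lit 1) (nat_lit 0) (nat_lit 1) (nat_lit 0) (nat_lit 270) (nat_lit 308) (nat_lit 142)) (XT.nd (nat_lit 94) (nat_lit 0) (nat_lit 0) (XT.lf (nat_lit 0) (nat_lit 29641340553) (nat_lit 0) (nat_lit 0) (nat_lit 0) (nat_lit 0) (nat_lit 0) (nat_lit 0) (nat_lit 1) (nat_lit 0) (nat_lit 1) (nat_lit 0) (nat_lit 271) (nat_lit 308) (nat_lit 141)) (XT.lf (nat_lit 0) (nat_lit 29640932290) (nat_lit 0) (nat_lit 0) (nat_lit 0) (nat_lit 0) (nat_lit 0) (nat_lit 0) (nat_lit 1) (nat_lit 0) (nat_lit 1) (nat_lit 0) (nat_lit 272) (nat_lit 308) (nat_lit 140)))) (XT.nd (nat_lit 188) (nat_lit 0) (nat_lit 0) (XT.nd (nat_lit 94) (nat_lit 0) (nat_lit 0) (XT.lf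 (nat_lit 0) (nat_lit 29640543468) (nat_lit 0) (nat_lit 0) (nat_lit 0) (nat_lit 0) (nat_lit 0) (nat_lit 0) (nat_lit 1) (nat_lit 0) (nat_lit 1) (nat_lit 0) (nat_lit 273) (nat_lit 308) (nat_lit 139)) (XT.lf (nat_lit 0) (nat_lit 29640173161) (nat_lit 0) (nat_lit 0) (nat_lit 0) (nat_lit 0) (nat_lit 0) (nat_lit 0) (nat_lit 1) (nat_lit 0) (nat_lit 1) (nat_lit 0) (nat_lit 274) (nat_lit 308) (nat_lit 138))) (XT.nd (nat_lit 94) (nat_lit 0) (nat_lit 0) (XT.lf (nat_lit 0) (nat_lit 29639820488) (nat_lit 0) (nat_lit 0) (nat_lit 0) (nat_lit 0) (nat_lit 0) (nat_lit 0) (nat_lit 1) (nat_lit 0) (nat_lit 1) (nat_lit 0) (nat_lit 275) (nat_lit 308) (nat_lit 137)) (XT.lf (nat_lit 0) (nat_lit 29639484610) (nat_lit 0) (nat_lit 0) (nat_lit 0) (nat_lit 0) (nat_lit 0) (nat_lit 0) (nat_lit 1) (nat_lit 0) (nat_lit 1) (nat_lit 0) (nat_lit 276) (nat_lit 308) (nat_lit 136))))) (XT.nd (nat_lit 282) (nat_lit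 0) (nat_lit 0) (XT.nd (nat_lit 94) (nat_lit 0) (nat_lit 0) (XT.lf (nat_lit 0) (nat_lit 29639164725) (nat_lit 0) (nat_lit 0) (nat_lit 0) (nat_lit 0) (nat_lit 0) (nat_lit 0) (nat_lit 1) (nat_lit 0) (nat_lit 1) (nat_lit 0) (nat_lit 277) (nat_lit 308) (nat_lit 135)) (XT.nd (nat_lit 94) (nat_lit 0) (nat_lit 0) (XT.lf (nat_lit 0) (nat_lit 29638860073) (nat_lit 0) (nat_lit 0) (nat_lit 0) (nat_lit 0) (nat_lit 0) (nat_lit 0) (nat_lit 1) (nat_lit 0) (nat_lit 1) (nat_lit 0) (nat_lit 278) (nat_lit 308) (nat_lit 134)) (XT.lf (nat_lit 0) (nat_lit 29638569928) (nat_lit 0) (nat_lit 0) (nat_lit 0) (nat_lit 0) (nat_lit 0) (nat_lit 0) (nat_lit 1) (nat_lit 0) (nat_lit 1) (nat_lit 0) (nat_lit 279) (nat_lit 308) (nat_lit 133)))) (XT.nd (nat_lit 188) (nat_lit 0) (nat_lit 0) (XT.nd (nat_lit 94) (nat_lit 0) (nat_lit 0) (XT.lf (nat_lit 0) (nat_lit 29638293599) (nat_lit 0) (nat_lit 0) (nat_lit 0)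 (nat_lit 0) (nat_lit 0) (nat_lit 0) (nat_lit 1) (nat_lit 0) (nat_lit 1) (nat_lit 0) (nat_lit 280) (nat_lit 308) (nat_lit 132)) (XT.lf (nat_lit 0) (nat_lit 29638030430) (nat_lit 0) (nat_lit 0) (nat_lit 0) (nat_lit 0) (nat_lit 0) (nat_lit 0) (nat_lit 1) (nat_lit 0) (nat_lit 1) (nat_lit 0) (nat_lit 281) (nat_lit 308) (nat_lit 131))) (XT.nd (nat_lit 94) (nat_lit 0) (nat_lit 0) (XT.lf (nat_lit 0) (nat_lit 29637779791) (nat_lit 0) (nat_lit 0) (nat_lit 0) (nat_lit 0) (nat_lit 0) (nat_lit 0) (nat_lit 1) (nat_lit 0) (nat_lit 1) (nat_lit 0) (nat_lit 282) (nat_lit 308) (nat_lit 130)) (XT.lf (nat_lit 0) (nat_lit 29637541089) (nat_lit 0) (nat_lit 0) (nat_lit 0) (nat_lit 0) (nat_lit 0) (nat_lit 0) (nat_lit 1) (nat_lit 0) (nat_lit 1) (nat_lit 0) (nat_lit 283) (nat_lit 308) (nat_lit 129)))))) (XT.nd (nat_lit 658) (nat_lit 0) (nat_lit 0) (XT.nd (nat_lit 282) (nat_lit 0) (nat_lit 0) (XT.nd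 (nat_lit 94) (nat_lit 0) (nat_lit 0) (XT.lf (nat_lit 0) (nat_lit 29637313752) (nat_lit 0) (nat_lit 0) (nat_lit 0) (nat_lit 0) (nat_lit 0) (nat_lit 0) (nat_lit 1) (nat_lit 0) (nat_lit 1) (nat_lit 0) (nat_lit 284) (nat_lit 308) (nat_lit 128)) (XT.nd (nat_lit 94) (nat_lit 0) (nat_lit 0) (XT.lf (nat_lit 0) (nat_lit 29637097242) (nat_lit 0) (nat_lit 0) (nat_lit 0) (nat_lit 0) (nat_lit 0) (nat_lit 0) (nat_lit 1) (nat_lit 0) (nat_lit 1) (nat_lit 0) (nat_lit 285) (nat_lit 308) (nat_lit 127)) (XT.lf (nat_lit 0) (nat_lit 29636891041) (nat_lit 0) (nat_lit 0) (nat_lit 0) (nat_lit 0) (nat_lit 0) (nat_lit 0) (nat_lit 1) (nat_lit 0) (nat_lit 1) (nat_lit 0) (nat_lit 286) (nat_lit 308) (nat_lit 126)))) (XT.nd (nat_lit 188) (nat_lit 0) (nat_lit 0) (XT.nd (nat_lit 94) (nat_lit 0) (nat_lit 0) (XT.lf (nat_lit 0) (nat_lit 29636694660) (nat_lit 0) (nat_lit 0) (nat_lit 0) (nat_lit 0) (nat_lit 0)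 (nat_lit 0) (nat_lit 1) (nat_lit 0) (nat_lit 1) (nat_lit 0) (nat_lit 287) (nat_lit 308) (nat_lit 125)) (XT.lf (nat_lit 0) (nat_lit 29636507630) (nat_lit 0) (nat_lit 0) (nat_lit 0) (nat_lit 0) (nat_lit 0) (nat_lit 0) (nat_lit 1) (nat_lit 0) (nat_lit 1) (nat_lit 0) (nat_lit 288) (nat_lit 308) (nat_lit 124))) (XT.nd (nat_lit 94) (nat_lit 0) (nat_lit 0) (XT.lf (nat_lit 0) (nat_lit 29636329506) (nat_lit 0) (nat_lit 0) (nat_lit 0) (nat_lit 0) (nat_lit 0) (nat_lit 0) (nat_lit 1) (nat_lit 0) (nat_lit 1) (nat_lit 0) (nat_lit 289) (nat_lit 308) (nat_lit 123)) (XT.lf (nat_lit 0) (nat_lit 29636159865) (nat_lit 0) (nat_lit 0) (nat_lit 0) (nat_lit 0) (nat_lit 0) (nat_lit 0) (nat_lit 1) (nat_lit 0) (nat_lit 1) (nat_lit 0) (nat_lit 290) (nat_lit 308) (nat_lit 122))))) (XT.nd (nat_lit 282) (nat_lit 0) (nat_lit 0) (XT.nd (nat_lit 94) (nat_lit 0) (nat_lit 0) (XT.lf (nat_lit 0) (nat_lit 29635998301)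 (nat_lit 0) (nat_lit 0) (nat_lit 0) (nat_lit 0) (nat_lit 0) (nat_lit 0) (nat_lit 1) (nat_lit 0) (nat_lit 1) (nat_lit 0) (nat_lit 291) (nat_lit 308) (nat_lit 121)) (XT.nd (nat_lit 94) (nat_lit 0) (nat_lit 0) (XT.lf (nat_lit 0) (nat_lit 29635844431) (nat_lit 0) (nat_lit 0) (nat_lit 0) (nat_lit 0) (nat_lit 0) (nat_lit 0) (nat_lit 1) (nat_lit 0) (nat_lit 1) (nat_lit 0) (nat_lit 292) (nat_lit 308) (nat_lit 120)) (XT.lf (nat_lit 0) (nat_lit 29635697888) (nat_lit 0) (nat_lit 0) (nat_lit 0) (nat_lit 0) (nat_lit 0) (nat_lit 0) (nat_lit 1) (nat_lit 0) (nat_lit 1) (nat_lit 0) (nat_lit 293) (nat_lit 308) (nat_lit 119)))) (XT.nd (nat_lit 188) (nat_lit 0) (nat_lit 0) (XT.nd (nat_lit 94) (nat_lit 0) (nat_lit 0) (XT.lf (nat_lit 0) (nat_lit 29635558323) (nat_lit 0) (nat_lit 0) (nat_lit 0) (nat_lit 0) (nat_lit 0) (nat_lit 0) (nat_lit 1) (nat_lit 0) (nat_lit 1) (nat_lit 0) (nat_lit 294) (nat_lit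 308) (nat_lit 118)) (XT.lf (nat_lit 0) (nat_lit 29635425405) (nat_lit 0) (nat_lit 0) (nat_lit 0) (nat_lit 0) (nat_lit 0) (nat_lit 0) (nat_lit 1) (nat_lit 0) (nat_lit 1) (nat_lit 0) (nat_lit 295) (nat_lit 308) (nat_lit 117))) (XT.nd (nat_lit 94) (nat_lit 0) (nat_lit 0) (XT.lf (nat_lit 0) (nat_lit 29635298816) (nat_lit 0) (nat_lit 0) (nat_lit 0) (nat_lit 0) (nat_lit 0) (nat_lit 0) (nat_lit 1) (nat_lit 0) (nat_lit 1) (nat_lit 0) (nat_lit 296) (nat_lit 308) (nat_lit 116)) (XT.lf (nat_lit 0) (nat_lit 29635178254) (nat_lit 0) (nat_lit 0) (nat_lit 0) (nat_lit 0) (nat_lit 0) (nat_lit 0) (nat_lit 1) (nat_lit 0) (nat_lit 1) (nat_lit 0) (nat_lit 297) (nat_lit 308) (nat_lit 115))))))))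
noncomputable def ec212 : XT := (XT.nd (nat_lit 27636) (nat_lit 0) (nat_lit 5544) (XT.nd (nat_lit 1222) (nat_lit 0) (nat_lit 0) (XT.nd (nat_lit 564) (nat_lit 0) (nat_lit 0) (XT.nd (nat_lit 282) (nat_lit 0) (nat_lit 0) (XT.nd (nat_lit 94) (nat_lit 0) (nat_lit 0) (XT.lf (nat_lit 0) (nat_lit 29635063434) (nat_lit 0) (nat_lit 0) (nat_lit 0) (nat_lit 0) (nat_lit 0) (nat_lit 0) (nat_lit 1) (nat_lit 0) (nat_lit 1) (nat_lit 0) (nat_lit 298) (nat_lit 308) (nat_lit 114)) (XT.nd (nat_lit 94) (nat_lit 0) (nat_lit 0) (XT.lf (nat_lit 0) (nat_lit 29634954082) (nat_lit 0) (nat_lit 0) (nat_lit 0) (nat_lit 0) (nat_lit 0) (nat_lit 0) (nat_lit 1) (nat_lit 0) (nat_lit 1) (nat_lit 0) (nat_lit 299) (nat_lit 308) (nat_lit 113)) (XT.lf (nat_lit 0) (nat_lit 29634849936) (nat_lit 0) (nat_lit 0) (nat_lit 0) (nat_lit 0) (nat_lit 0) (nat_lit 0) (nat_lit 1) (nat_lit 0) (nat_lit 1) (nat_lit 0) (nat_lit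 300) (nat_lit 308) (nat_lit 112)))) (XT.nd (nat_lit 94) (nat_lit 0) (nat_lit 0) (XT.lf (nat_lit 0) (nat_lit 29634750750) (nat_lit 0) (nat_lit 0) (nat_lit 0) (nat_lit 0) (nat_lit 0) (nat_lit 0) (nat_lit 1) (nat_lit 0) (nat_lit 1) (nat_lit 0) (nat_lit 301) (nat_lit 308) (nat_lit 111)) (XT.nd (nat_lit 94) (nat_lit 0) (nat_lit 0) (XT.lf (nat_lit 0) (nat_lit 29634656288) (nat_lit 0) (nat_lit 0) (nat_lit 0) (nat_lit 0) (nat_lit 0) (nat_lit 0) (nat_lit 1) (nat_lit 0) (nat_lit 1) (nat_lit 0) (nat_lit 302) (nat_lit 308) (nat_lit 110)) (XT.lf (nat_lit 0) (nat_lit 29634566323) (nat_lit 0) (nat_lit 0) (nat_lit 0) (nat_lit 0) (nat_lit 0) (nat_lit 0) (nat_lit 1) (nat_lit 0) (nat_lit 1) (nat_lit 0) (nat_lit 303) (nat_lit 308) (nat_lit 109))))) (XT.nd (nat_lit 282) (nat_lit 0) (nat_lit 0) (XT.nd (nat_lit 94) (nat_lit 0) (nat_lit 0) (XT.lf (nat_lit 0) (nat_lit 29634480642) (nat_lit 0) (nat_lit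 0) (nat_lit 0) (nat_lit 0) (nat_lit 0) (nat_lit 0) (nat_lit 1) (nat_lit 0) (nat_lit 1) (nat_lit 0) (nat_lit 304) (nat_lit 308) (nat_lit 108)) (XT.nd (nat_lit 94) (nat_lit 0) (nat_lit 0) (XT.lf (nat_lit 0) (nat_lit 29634399042) (nat_lit 0) (nat_lit 0) (nat_lit 0) (nat_lit 0) (nat_lit 0) (nat_lit 0) (nat_lit 1) (nat_lit 0) (nat_lit 1) (nat_lit 0) (nat_lit 305) (nat_lit 308) (nat_lit 107)) (XT.lf (nat_lit 0) (nat_lit 29634321327) (nat_lit 0) (nat_lit 0) (nat_lit 0) (nat_lit 0) (nat_lit 0) (nat_lit 0) (nat_lit 1) (nat_lit 0) (nat_lit 1) (nat_lit 0) (nat_lit 306) (nat_lit 308) (nat_lit 106)))) (XT.nd (nat_lit 188) (nat_lit 0) (nat_lit 0) (XT.nd (nat_lit 94) (nat_lit 0) (nat_lit 0) (XT.lf (nat_lit 0) (nat_lit 29634247313) (nat_lit 0) (nat_lit 0) (nat_lit 0) (nat_lit 0) (nat_lit 0) (nat_lit 0) (nat_lit 1) (nat_lit 0) (nat_lit 1) (nat_lit 0) (nat_lit 307) (nat_lit 308) (nat_lit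 105)) (XT.lf (nat_lit 0) (nat_lit 29634176823) (nat_lit 0) (nat_lit 0) (nat_lit 0) (nat_lit 0) (nat_lit 0) (nat_lit 0) (nat_lit 1) (nat_lit 0) (nat_lit 1) (nat_lit 0) (nat_lit 308) (nat_lit 308) (nat_lit 104))) (XT.nd (nat_lit 94) (nat_lit 0) (nat_lit 0) (XT.lf (nat_lit 0) (nat_lit 29634109690) (nat_lit 0) (nat_lit 0) (nat_lit 0) (nat_lit 0) (nat_lit 0) (nat_lit 0) (nat_lit 1) (nat_lit 0) (nat_lit 1) (nat_lit 0) (nat_lit 309) (nat_lit 308) (nat_lit 103)) (XT.lf (nat_lit 0) (nat_lit 29634045754) (nat_lit 0) (nat_lit 0) (nat_lit 0) (nat_lit 0) (nat_lit 0) (nat_lit 0) (nat_lit 1) (nat_lit 0) (nat_lit 1) (nat_lit 0) (nat_lit 310) (nat_lit 308) (nat_lit 102)))))) (XT.nd (nat_lit 25756) (nat_lit 0) (nat_lit 10836) (XT.nd (nat_lit 282) (nat_lit 0) (nat_lit 0) (XT.nd (nat_lit 94) (nat_lit 0) (nat_lit 0) (XT.lf (nat_lit 0) (nat_lit 29633984863) (nat_lit 0) (nat_lit 0) (nat_lit 0)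 (nat_lit 0) (nat_lit 0) (nat_lit 0) (nat_lit 1) (nat_lit 0) (nat_lit 1) (nat_lit 0) (nat_lit 311) (nat_lit 308) (nat_lit 101)) (XT.nd (nat_lit 94) (nat_lit 0) (nat_lit 0) (XT.lf (nat_lit 0) (nat_lit 29633926871) (nat_lit 0) (nat_lit 0) (nat_lit 0) (nat_lit 0) (nat_lit 0) (nat_lit 0) (nat_lit 1) (nat_lit 0) (nat_lit 1) (nat_lit 0) (nat_lit 312) (nat_lit 308) (nat_lit 100)) (XT.lf (nat_lit 0) (nat_lit 29633871640) (nat_lit 0) (nat_lit 0) (nat_lit 0) (nat_lit 0) (nat_lit 0) (nat_lit 0) (nat_lit 1) (nat_lit 0) (nat_lit 1) (nat_lit 0) (nat_lit 313) (nat_lit 308) (nat_lit 99)))) (XT.nd (nat_lit 25286) (nat_lit 0) (nat_lit 10752) (XT.nd (nat_lit 94) (nat_lit 0) (nat_lit 0) (XT.lf (nat_lit 0) (nat_lit 29633819040) (nat_lit 0) (nat_lit 0) (nat_lit 0) (nat_lit 0) (nat_lit 0) (nat_lit 0) (nat_lit 1) (nat_lit 0) (nat_lit 1) (nat_lit 0) (nat_lit 314) (nat_lit 308) (nat_lit 98)) (XT.lf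 (nat_lit 0) (nat_lit 29633768944) (nat_lit 0) (nat_lit 0) (nat_lit 0) (nat_lit 0) (nat_lit 0) (nat_lit 0) (nat_lit 1) (nat_lit 0) (nat_lit 1) (nat_lit 0) (nat_lit 315) (nat_lit 308) (nat_lit 97))) (XT.nd (nat_lit 94) (nat_lit 0) (nat_lit 0) (XT.lf (nat_lit 924) (nat_lit 15570813924) (nat_lit 0) (nat_lit 27645944332) (nat_lit 924) (nat_lit 15570813924) (nat_lit 139) (nat_lit 1) (nat_lit 128) (nat_lit 0) (nat_lit 139) (nat_lit 0) (nat_lit 102) (nat_lit 309) (nat_lit 309)) (XT.lf (nat_lit 924) (nat_lit 60354418710) (nat_lit 84) (nat_lit 27200042004) (nat_lit 0) (nat_lit 27200042004) (nat_lit 139) (nat_lit 1) (nat_lit 129) (nat_lit 1) (nat_lit 128) (nat_lit 0) (nat_lit 103) (nat_lit 309) (nat_lit 308))))) (XT.nd (nat_lit 282) (nat_lit 0) (nat_lit 84) (XT.nd (nat_lit 94) (nat_lit 0) (nat_lit 0) (XT.lf (nat_lit 924) (nat_lit 28764007201) (nat_lit 0) (nat_lit 54493047860) (nat_lit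 840) (nat_lit 28764007201) (nat_lit 140) (nat_lit 1) (nat_lit 129) (nat_lit 1) (nat_lit 139) (nat_lit 1) (nat_lit 104) (nat_lit 309) (nat_lit 307)) (XT.nd (nat_lit 94) (nat_lit 0) (nat_lit 84) (XT.lf (nat_lit 924) (nat_lit 53957280650) (nat_lit 84) (nat_lit 27709325824) (nat_lit 0) (nat_lit 27709325824) (nat_lit 140) (nat_lit 1) (nat_lit 130) (nat_lit 1) (nat_lit 129) (nat_lit 1) (nat_lit 105) (nat_lit 309) (nat_lit 306)) (XT.lf (nat_lit 924) (nat_lit 24836018127) (nat_lit 0) (nat_lit 57142603433) (nat_lit 840) (nat_lit 24836018127) (nat_lit 141) (nat_lit 1) (nat_lit 130) (nat_lit 1) (nat_lit 140) (nat_lit 1) (nat_lit 106) (nat_lit 309) (nat_lit 305)))) (XT.nd (nat_lit 188) (nat_lit 0) (nat_lit 84) (XT.nd (nat_lit 94) (nat_lit 0) (nat_lit 84) (XT.lf (nat_lit 924) (nat_lit 44669196220) (nat_lit 84) (nat_lit 29831114420) (nat_lit 0) (nat_lit 29831114420) (nat_lit 141) (nat_lit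 1) (nat_lit 131) (nat_lit 1) (nat_lit 130) (nat_lit 1) (nat_lit 107) (nat_lit 309) (nat_lit 304)) (XT.lf (nat_lit 924) (nat_lit 19586152379) (nat_lit 0) (nat_lit 62759283425) (nat_lit 840) (nat_lit 19586152379) (nat_lit 142) (nat_lit 1) (nat_lit 131) (nat_lit 1) (nat_lit 141) (nat_lit 1) (nat_lit 108) (nat_lit 309) (nat_lit 303))) (XT.nd (nat_lit 94) (nat_lit 0) (nat_lit 84) (XT.lf (nat_lit 924) (nat_lit 32924923527) (nat_lit 84) (nat_lit 33336451755) (nat_lit 0) (nat_lit 33336451755) (nat_lit 142) (nat_lit 1) (nat_lit 132) (nat_lit 1) (nat_lit 131) (nat_lit 1) (nat_lit 109) (nat_lit 309) (nat_lit 302)) (XT.lf (nat_lit 924) (nat_lit 13217641897) (nat_lit 0) (nat_lit 70914211065) (nat_lit 840) (nat_lit 13217641897) (nat_lit 143) (nat_lit 1) (nat_lit 132) (nat_lit 1) (nat_lit 142) (nat_lit 1) (nat_lit 110) (nat_lit 309) (nat_lit 301))))))) (XT.nd (nat_lit 1222) (nat_lit 2268)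 (nat_lit 0) (XT.nd (nat_lit 564) (nat_lit 1512) (nat_lit 0) (XT.nd (nat_lit 282) (nat_lit 1008) (nat_lit 0) (XT.nd (nat_lit 94) (nat_lit 756) (nat_lit 0) (XT.lf (nat_lit 924) (nat_lit 19110896929) (nat_lit 84) (nat_lit 38021431795) (nat_lit 0) (nat_lit 38021431795) (nat_lit 143) (nat_lit 1) (nat_lit 133) (nat_lit 1) (nat_lit 132) (nat_lit 1) (nat_lit 111) (nat_lit 309) (nat_lit 300)) (XT.nd (nat_lit 94) (nat_lit 840) (nat_lit 0) (XT.lf (nat_lit 84) (nat_lit 5910998498) (nat_lit 0) (nat_lit 81225669226) (nat_lit 840) (nat_lit 5910998498) (nat_lit 134) (nat_lit 1) (nat_lit 133) (nat_lit 1) (nat_lit 143) (nat_lit 1) (nat_lit 112) (nat_lit 309) (nat_lit 299)) (XT.lf (nat_lit 924) (nat_lit 3570096099) (nat_lit 0) (nat_lit 43704690362) (nat_lit 840) (nat_lit 43704690362) (nat_lit 134) (nat_lit 1) (nat_lit 123) (nat_lit 1) (nat_lit 133) (nat_lit 1) (nat_lit 113) (nat_lit 309) (nat_lit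 298)))) (XT.nd (nat_lit 94) (nat_lit 420) (nat_lit 0) (XT.lf (nat_lit 588) (nat_lit 84722876501) (nat_lit 0) (nat_lit 2138632108) (nat_lit 504) (nat_lit 2138632108) (nat_lit 123) (nat_lit 1) (nat_lit 116) (nat_lit 1) (nat_lit 122) (nat_lit 1) (nat_lit 114) (nat_lit 309) (nat_lit 297)) (XT.nd (nat_lit 94) (nat_lit 420) (nat_lit 0) (XT.lf (nat_lit 84) (nat_lit 37040694151) (nat_lit 0) (nat_lit 12964878083) (nat_lit 588) (nat_lit 37040694151) (nat_lit 117) (nat_lit 1) (nat_lit 116) (nat_lit 1) (nat_lit 123) (nat_lit 1) (nat_lit 115) (nat_lit 309) (nat_lit 296)) (XT.lf (nat_lit 504) (nat_lit 63737526700) (nat_lit 0) (nat_lit 10718974662) (nat_lit 420) (nat_lit 10718974662) (nat_lit 117) (nat_lit 1) (nat_lit 111) (nat_lit 1) (nat_lit 116) (nat_lit 1) (nat_lit 116) (nat_lit 309) (nat_lit 295))))) (XT.nd (nat_lit 282) (nat_lit 1092) (nat_lit 0) (XT.nd (nat_lit 94) (nat_lit 420)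 (nat_lit 0) (XT.lf (nat_lit 84) (nat_lit 26420676224) (nat_lit 0) (nat_lit 30502662399) (nat_lit 504) (nat_lit 26420676224) (nat_lit 112) (nat_lit 1) (nat_lit 111) (nat_lit 1) (nat_lit 117) (nat_lit 1) (nat_lit 117) (nat_lit 309) (nat_lit 294)) (XT.nd (nat_lit 94) (nat_lit 0) (nat_lit 0) (XT.lf (nat_lit 504) (nat_lit 41972065213) (nat_lit 0) (nat_lit 19802136676) (nat_lit 420) (nat_lit 19802136676) (nat_lit 112) (nat_lit 1) (nat_lit 106) (nat_lit 1) (nat_lit 111) (nat_lit 1) (nat_lit 118) (nat_lit 309) (nat_lit 293)) (XT.lf (nat_lit 84) (nat_lit 15466148220) (nat_lit 0) (nat_lit 48927775824) (nat_lit 504) (nat_lit 15466148220) (nat_lit 107) (nat_lit 1) (nat_lit 106) (nat_lit 1) (nat_lit 112) (nat_lit 1) (nat_lit 119) (nat_lit 309) (nat_lit 292)))) (XT.nd (nat_lit 188) (nat_lit 756) (nat_lit 0) (XT.nd (nat_lit 94) (nat_lit 0) (nat_lit 0) (XT.lf (nat_lit 420) (nat_lit 19629073268)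 (nat_lit 0) (nat_lit 29279440363) (nat_lit 336) (nat_lit 29279440363) (nat_lit 107) (nat_lit 1) (nat_lit 102) (nat_lit 1) (nat_lit 106) (nat_lit 1) (nat_lit 120) (nat_lit 309) (nat_lit 291)) (XT.lf (nat_lit 84) (nat_lit 4271155366) (nat_lit 0) (nat_lit 68037826429) (nat_lit 420) (nat_lit 4271155366) (nat_lit 103) (nat_lit 1) (nat_lit 102) (nat_lit 1) (nat_lit 107) (nat_lit 1) (nat_lit 121) (nat_lit 309) (nat_lit 290))) (XT.nd (nat_lit 94) (nat_lit 336) (nat_lit 0) (XT.lf (nat_lit 84) (nat_lit 35989982434) (nat_lit 0) (nat_lit 3014230939) (nat_lit 420) (nat_lit 35989982434) (nat_lit 98) (nat_lit 1) (nat_lit 97) (nat_lit 1) (nat_lit 102) (nat_lit 1) (nat_lit 122) (nat_lit 309) (nat_lit 289)) (XT.lf (nat_lit 420) (nat_lit 59533106626) (nat_lit 0) (nat_lit 6967772181) (nat_lit 336) (nat_lit 6967772181) (nat_lit 98) (nat_lit 1) (nat_lit 93) (nat_lit 1) (nat_lit 97) (nat_lit 1)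 (nat_lit 123) (nat_lit 309) (nat_lit 288)))))) (XT.nd (nat_lit 658) (nat_lit 1008) (nat_lit 0) (XT.nd (nat_lit 282) (nat_lit 924) (nat_lit 0) (XT.nd (nat_lit 94) (nat_lit 336) (nat_lit 0) (XT.lf (nat_lit 84) (nat_lit 23351501675) (nat_lit 0) (nat_lit 25266273879) (nat_lit 420) (nat_lit 23351501675) (nat_lit 94) (nat_lit 1) (nat_lit 93) (nat_lit 1) (nat_lit 98) (nat_lit 1) (nat_lit 124) (nat_lit 309) (nat_lit 287)) (XT.nd (nat_lit 94) (nat_lit 0) (nat_lit 0) (XT.lf (nat_lit 420) (nat_lit 34076336828) (nat_lit 0) (nat_lit 18222779826) (nat_lit 336) (nat_lit 18222779826) (nat_lit 94) (nat_lit 1) (nat_lit 89) (nat_lit 1) (nat_lit 93) (nat_lit 1) (nat_lit 125) (nat_lit 309) (nat_lit 286)) (XT.lf (nat_lit 84) (nat_lit 10746155833) (nat_lit 0) (nat_lit 47624525602) (nat_lit 420) (nat_lit 10746155833) (nat_lit 90) (nat_lit 1) (nat_lit 89) (nat_lit 1) (nat_lit 94) (nat_lit 1) (nat_lit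 126) (nat_lit 309) (nat_lit 285)))) (XT.nd (nat_lit 188) (nat_lit 252) (nat_lit 0) (XT.nd (nat_lit 94) (nat_lit 420) (nat_lit 0) (XT.lf (nat_lit 336) (nat_lit 8739388290) (nat_lit 0) (nat_lit 29501359686) (nat_lit 252) (nat_lit 29501359686) (nat_lit 90) (nat_lit 1) (nat_lit 86) (nat_lit 1) (nat_lit 89) (nat_lit 1) (nat_lit 127) (nat_lit 309) (nat_lit 284)) (XT.lf (nat_lit 420) (nat_lit 62928158996) (nat_lit 0) (nat_lit 1746135666) (nat_lit 336) (nat_lit 1746135666) (nat_lit 86) (nat_lit 1) (nat_lit 81) (nat_lit 1) (nat_lit 85) (nat_lit 1) (nat_lit 128) (nat_lit 309) (nat_lit 283))) (XT.nd (nat_lit 94) (nat_lit 252) (nat_lit 0) (XT.lf (nat_lit 84) (nat_lit 24624253835) (nat_lit 0) (nat_lit 15857560649) (nat_lit 420) (nat_lit 24624253835) (nat_lit 82) (nat_lit 1) (nat_lit 81) (nat_lit 1) (nat_lit 86) (nat_lit 1) (nat_lit 129) (nat_lit 309) (nat_lit 282)) (XT.lf (nat_lit 336)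 (nat_lit 35964501205) (nat_lit 0) (nat_lit 13938807193) (nat_lit 252) (nat_lit 13938807193) (nat_lit 82) (nat_lit 1) (nat_lit 78) (nat_lit 1) (nat_lit 81) (nat_lit 1) (nat_lit 130) (nat_lit 309) (nat_lit 281))))) (XT.nd (nat_lit 282) (nat_lit 420) (nat_lit 0) (XT.nd (nat_lit 94) (nat_lit 588) (nat_lit 0) (XT.lf (nat_lit 84) (nat_lit 11361742244) (nat_lit 0) (nat_lit 39886791266) (nat_lit 336) (nat_lit 11361742244) (nat_lit 79) (nat_lit 1) (nat_lit 78) (nat_lit 1) (nat_lit 82) (nat_lit 1) (nat_lit 131) (nat_lit 309) (nat_lit 280)) (XT.nd (nat_lit 94) (nat_lit 336) (nat_lit 0) (XT.lf (nat_lit 336) (nat_lit 9469657036) (nat_lit 0) (nat_lit 25968401453) (nat_lit 252) (nat_lit 25968401453) (nat_lit 79) (nat_lit 1) (nat_lit 75) (nat_lit 1) (nat_lit 78) (nat_lit 1) (nat_lit 132) (nat_lit 309) (nat_lit 279)) (XT.lf (nat_lit 336) (nat_lit 56992450651) (nat_lit 0) (nat_lit 1627458382)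 (nat_lit 252) (nat_lit 1627458382) (nat_lit 75) (nat_lit 1) (nat_lit 71) (nat_lit 1) (nat_lit 74) (nat_lit 1) (nat_lit 133) (nat_lit 309) (nat_lit 278)))) (XT.nd (nat_lit 188) (nat_lit 168) (nat_lit 0) (XT.nd (nat_lit 94) (nat_lit 252) (nat_lit 0) (XT.lf (nat_lit 84) (nat_lit 21558611920) (nat_lit 0) (nat_lit 15974714960) (nat_lit 336) (nat_lit 21558611920) (nat_lit 72) (nat_lit 1) (nat_lit 71) (nat_lit 1) (nat_lit 75) (nat_lit 1) (nat_lit 134) (nat_lit 309) (nat_lit 277)) (XT.lf (nat_lit 336) (nat_lit 29645065423) (nat_lit 0) (nat_lit 14167097903) (nat_lit 252) (nat_lit 14167097903) (nat_lit 72) (nat_lit 1) (nat_lit 68) (nat_lit 1) (nat_lit 71) (nat_lit 1) (nat_lit 135) (nat_lit 309) (nat_lit 276))) (XT.nd (nat_lit 94) (nat_lit 168) (nat_lit 0) (XT.lf (nat_lit 84) (nat_lit 8164226840) (nat_lit 0) (nat_lit 40567972498) (nat_lit 336) (nat_lit 8164226840) (nat_lit 69) (nat_lit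 1) (nat_lit 68) (nat_lit 1) (nat_lit 72) (nat_lit 1) (nat_lit 136) (nat_lit 309) (nat_lit 275)) (XT.lf (nat_lit 252) (nat_lit 2991644169) (nat_lit 0) (nat_lit 26421176167) (nat_lit 168) (nat_lit 26421176167) (nat_lit 69) (nat_lit 1) (nat_lit 66) (nat_lit 1) (nat_lit 68) (nat_lit 1) (nat_lit 137) (nat_lit 309) (nat_lit 274))))))))
noncomputable def ec213 : XT := (XT.nd (nat_lit 2538) (nat_lit 2352) (nat_lit 0) (XT.nd (nat_lit 1222) (nat_lit 1512) (nat_lit 0) (XT.nd (nat_lit 564) (nat_lit 756) (nat_lit 0) (XT.nd (nat_lit 282) (nat_lit 420) (nat_lit 0) (XT.nd (nat_lit 94) (nat_lit 168) (nat_lit 0) (XT.lf (nat_lit 336) (nat_lit 45202740256) (nat_lit 0) (nat_lit 4800858659) (nat_lit 252) (nat_lit 4800858659) (nat_lit 66) (nat_lit 1) (nat_lit 62) (nat_lit 1) (nat_lit 65) (nat_lit 1) (nat_lit 138) (nat_lit 309) (nat_lit 273)) (XT.nd (nat_lit 94) (nat_lit 168) (nat_lit 0) (XT.lf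 (nat_lit 84) (nat_lit 15788244187) (nat_lit 0) (nat_lit 22209944673) (nat_lit 336) (nat_lit 15788244187) (nat_lit 63) (nat_lit 1) (nat_lit 62) (nat_lit 1) (nat_lit 66) (nat_lit 1) (nat_lit 139) (nat_lit 309) (nat_lit 272)) (XT.lf (nat_lit 252) (nat_lit 18240880718) (nat_lit 0) (nat_lit 17279473416) (nat_lit 168) (nat_lit 17279473416) (nat_lit 63) (nat_lit 1) (nat_lit 60) (nat_lit 1) (nat_lit 62) (nat_lit 1) (nat_lit 140) (nat_lit 309) (nat_lit 271)))) (XT.nd (nat_lit 94) (nat_lit 420) (nat_lit 0) (XT.lf (nat_lit 84) (nat_lit 2620635582) (nat_lit 0) (nat_lit 46604692539) (nat_lit 252) (nat_lit 2620635582) (nat_lit 61) (nat_lit 1) (nat_lit 60) (nat_lit 1) (nat_lit 63) (nat_lit 1) (nat_lit 141) (nat_lit 309) (nat_lit 270)) (XT.nd (nat_lit 94) (nat_lit 168) (nat_lit 0) (XT.lf (nat_lit 84) (nat_lit 21628565243) (nat_lit 0) (nat_lit 7638436735) (nat_lit 252) (nat_lit 21628565243)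 (nat_lit 58) (nat_lit 1) (nat_lit 57) (nat_lit 1) (nat_lit 60) (nat_lit 1) (nat_lit 142) (nat_lit 309) (nat_lit 269)) (XT.lf (nat_lit 252) (nat_lit 30035053572) (nat_lit 0) (nat_lit 9970824016) (nat_lit 168) (nat_lit 9970824016) (nat_lit 58) (nat_lit 1) (nat_lit 55) (nat_lit 1) (nat_lit 57) (nat_lit 1) (nat_lit 143) (nat_lit 309) (nat_lit 268))))) (XT.nd (nat_lit 282) (nat_lit 336) (nat_lit 0) (XT.nd (nat_lit 94) (nat_lit 420) (nat_lit 0) (XT.lf (nat_lit 84) (nat_lit 8475110720) (nat_lit 0) (nat_lit 32127923483) (nat_lit 252) (nat_lit 8475110720) (nat_lit 56) (nat_lit 1) (nat_lit 55) (nat_lit 1) (nat_lit 58) (nat_lit 1) (nat_lit 144) (nat_lit 309) (nat_lit 267)) (XT.nd (nat_lit 94) (nat_lit 252) (nat_lit 0) (XT.lf (nat_lit 252) (nat_lit 3970284240) (nat_lit 0) (nat_lit 22113708297) (nat_lit 168) (nat_lit 22113708297) (nat_lit 56) (nat_lit 1) (nat_lit 53) (nat_lit 1) (nat_lit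 55) (nat_lit 1) (nat_lit 145) (nat_lit 309) (nat_lit 266)) (XT.lf (nat_lit 252) (nat_lit 39022518489) (nat_lit 0) (nat_lit 4160124901) (nat_lit 168) (nat_lit 4160124901) (nat_lit 53) (nat_lit 1) (nat_lit 50) (nat_lit 1) (nat_lit 52) (nat_lit 1) (nat_lit 146) (nat_lit 309) (nat_lit 265)))) (XT.nd (nat_lit 188) (nat_lit 168) (nat_lit 0) (XT.nd (nat_lit 94) (nat_lit 168) (nat_lit 0) (XT.lf (nat_lit 84) (nat_lit 12990692031) (nat_lit 0) (nat_lit 20513748440) (nat_lit 252) (nat_lit 12990692031) (nat_lit 51) (nat_lit 1) (nat_lit 50) (nat_lit 1) (nat_lit 53) (nat_lit 1) (nat_lit 147) (nat_lit 309) (nat_lit 264)) (XT.lf (nat_lit 252) (nat_lit 13230389129) (nat_lit 0) (nat_lit 16220857814) (nat_lit 168) (nat_lit 16220857814) (nat_lit 51) (nat_lit 1) (nat_lit 48) (nat_lit 1) (nat_lit 50) (nat_lit 1) (nat_lit 148) (nat_lit 309) (nat_lit 263))) (XT.nd (nat_lit 94) (nat_lit 168) (nat_lit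 0) (XT.lf (nat_lit 84) (nat_lit 434846402) (nat_lit 0) (nat_lit 44008247833) (nat_lit 252) (nat_lit 434846402) (nat_lit 49) (nat_lit 1) (nat_lit 48) (nat_lit 1) (nat_lit 51) (nat_lit 1) (nat_lit 149) (nat_lit 309) (nat_lit 262)) (XT.lf (nat_lit 84) (nat_lit 16419091119) (nat_lit 0) (nat_lit 11240546162) (nat_lit 168) (nat_lit 16419091119) (nat_lit 47) (nat_lit 1) (nat_lit 46) (nat_lit 1) (nat_lit 48) (nat_lit 1) (nat_lit 150) (nat_lit 309) (nat_lit 261)))))) (XT.nd (nat_lit 658) (nat_lit 672) (nat_lit 0) (XT.nd (nat_lit 282) (nat_lit 504) (nat_lit 0) (XT.nd (nat_lit 94) (nat_lit 168) (nat_lit 0) (XT.lf (nat_lit 252) (nat_lit 20374222887) (nat_lit 0) (nat_lit 11466706793) (nat_lit 168) (nat_lit 11466706793) (nat_lit 47) (nat_lit 1) (nat_lit 44) (nat_lit 1) (nat_lit 46) (nat_lit 1) (nat_lit 151) (nat_lit 309) (nat_lit 260)) (XT.nd (nat_lit 94) (nat_lit 168) (nat_lit 0) (XT.lf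 (nat_lit 84) (nat_lit 4084890877) (nat_lit 0) (nat_lit 34387576518) (nat_lit 252) (nat_lit 4084890877) (nat_lit 45) (nat_lit 1) (nat_lit 44) (nat_lit 1) (nat_lit 47) (nat_lit 1) (nat_lit 152) (nat_lit 309) (nat_lit 259)) (XT.lf (nat_lit 84) (nat_lit 18966709408) (nat_lit 0) (nat_lit 3879848529) (nat_lit 168) (nat_lit 18966709408) (nat_lit 43) (nat_lit 1) (nat_lit 42) (nat_lit 1) (nat_lit 44) (nat_lit 1) (nat_lit 153) (nat_lit 309) (nat_lit 258)))) (XT.nd (nat_lit 188) (nat_lit 336) (nat_lit 0) (XT.nd (nat_lit 94) (nat_lit 0) (nat_lit 0) (XT.lf (nat_lit 252) (nat_lit 25799589313) (nat_lit 0) (nat_lit 7644894652) (nat_lit 168) (nat_lit 7644894652) (nat_lit 43) (nat_lit 1) (nat_lit 40) (nat_lit 1) (nat_lit 42) (nat_lit 1) (nat_lit 154) (nat_lit 309) (nat_lit 257)) (XT.lf (nat_lit 84) (nat_lit 6910308564) (nat_lit 0) (nat_lit 26559203459) (nat_lit 252) (nat_lit 6910308564) (nat_lit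 41) (nat_lit 1) (nat_lit 40) (nat_lit 1) (nat_lit 43) (nat_lit 1) (nat_lit 155) (nat_lit 309) (nat_lit 256))) (XT.nd (nat_lit 94) (nat_lit 252) (nat_lit 0) (XT.lf (nat_lit 168) (nat_lit 1983697941) (nat_lit 0) (nat_lit 18849977160) (nat_lit 84) (nat_lit 18849977160) (nat_lit 41) (nat_lit 1) (nat_lit 39) (nat_lit 1) (nat_lit 40) (nat_lit 1) (nat_lit 156) (nat_lit 309) (nat_lit 255)) (XT.lf (nat_lit 252) (nat_lit 29832686665) (nat_lit 0) (nat_lit 4585860984) (nat_lit 168) (nat_lit 4585860984) (nat_lit 39) (nat_lit 1) (nat_lit 36) (nat_lit 1) (nat_lit 38) (nat_lit 1) (nat_lit 157) (nat_lit 309) (nat_lit 254))))) (XT.nd (nat_lit 282) (nat_lit 336) (nat_lit 0) (XT.nd (nat_lit 94) (nat_lit 336) (nat_lit 0) (XT.lf (nat_lit 84) (nat_lit 9065755319) (nat_lit 0) (nat_lit 20201235896) (nat_lit 252) (nat_lit 9065755319) (nat_lit 37) (nat_lit 1) (nat_lit 36) (nat_lit 1) (nat_lit 39)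 (nat_lit 1) (nat_lit 158) (nat_lit 309) (nat_lit 253)) (XT.nd (nat_lit 94) (nat_lit 252) (nat_lit 0) (XT.lf (nat_lit 168) (nat_lit 6661707085) (nat_lit 0) (nat_lit 15507922859) (nat_lit 84) (nat_lit 15507922859) (nat_lit 37) (nat_lit 1) (nat_lit 35) (nat_lit 1) (nat_lit 36) (nat_lit 1) (nat_lit 159) (nat_lit 309) (nat_lit 252)) (XT.lf (nat_lit 252) (nat_lit 32740854375) (nat_lit 0) (nat_lit 2150310832) (nat_lit 168) (nat_lit 2150310832) (nat_lit 35) (nat_lit 1) (nat_lit 32) (nat_lit 1) (nat_lit 34) (nat_lit 1) (nat_lit 160) (nat_lit 309) (nat_lit 251)))) (XT.nd (nat_lit 188) (nat_lit 252) (nat_lit 0) (XT.nd (nat_lit 94) (nat_lit 84) (nat_lit 0) (XT.lf (nat_lit 84) (nat_lit 10678064443) (nat_lit 0) (nat_lit 15049048177) (nat_lit 252) (nat_lit 10678064443) (nat_lit 33) (nat_lit 1) (nat_lit 32) (nat_lit 1) (nat_lit 35) (nat_lit 1) (nat_lit 161) (nat_lit 309) (nat_lit 250))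 (XT.lf (nat_lit 168) (nat_lit 10270806600) (nat_lit 0) (nat_lit 12758406515) (nat_lit 84) (nat_lit 12758406515) (nat_lit 33) (nat_lit 1) (nat_lit 31) (nat_lit 1) (nat_lit 32) (nat_lit 1) (nat_lit 162) (nat_lit 309) (nat_lit 249))) (XT.nd (nat_lit 94) (nat_lit 0) (nat_lit 0) (XT.lf (nat_lit 252) (nat_lit 34743057375) (nat_lit 0) (nat_lit 223839045) (nat_lit 168) (nat_lit 223839045) (nat_lit 31) (nat_lit 1) (nat_lit 28) (nat_lit 1) (nat_lit 30) (nat_lit 1) (nat_lit 163) (nat_lit 309) (nat_lit 248)) (XT.lf (nat_lit 84) (nat_lit 11851198716) (nat_lit 0) (nat_lit 10885119094) (nat_lit 252) (nat_lit 11851198716) (nat_lit 29) (nat_lit 1) (nat_lit 28) (nat_lit 1) (nat_lit 31) (nat_lit 1) (nat_lit 164) (nat_lit 309) (nat_lit 247))))))) (XT.nd (nat_lit 1316) (nat_lit 1260) (nat_lit 0) (XT.nd (nat_lit 658) (nat_lit 504) (nat_lit 0) (XT.nd (nat_lit 282) (nat_lit 336) (nat_lit 0) (XT.nd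 (nat_lit 94) (nat_lit 168) (nat_lit 0) (XT.lf (nat_lit 168) (nat_lit 13011916765) (nat_lit 0) (nat_lit 10496372614) (nat_lit 84) (nat_lit 10496372614) (nat_lit 29) (nat_lit 1) (nat_lit 27) (nat_lit 1) (nat_lit 28) (nat_lit 1) (nat_lit 165) (nat_lit 309) (nat_lit 246)) (XT.nd (nat_lit 94) (nat_lit 168) (nat_lit 0) (XT.lf (nat_lit 0) (nat_lit 1308598247) (nat_lit 0) (nat_lit 30822208320) (nat_lit 168) (nat_lit 1308598247) (nat_lit 27) (nat_lit 3) (nat_lit 27) (nat_lit 1) (nat_lit 29) (nat_lit 1) (nat_lit 166) (nat_lit 309) (nat_lit 245)) (XT.lf (nat_lit 84) (nat_lit 12670323535) (nat_lit 0) (nat_lit 7530671479) (nat_lit 168) (nat_lit 12670323535) (nat_lit 26) (nat_lit 1) (nat_lit 25) (nat_lit 1) (nat_lit 27) (nat_lit 1) (nat_lit 167) (nat_lit 309) (nat_lit 244)))) (XT.nd (nat_lit 188) (nat_lit 252) (nat_lit 0) (XT.nd (nat_lit 94) (nat_lit 0) (nat_lit 0) (XT.lf (nat_lit 168)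 (nat_lit 15049792084) (nat_lit 0) (nat_lit 8635391726) (nat_lit 84) (nat_lit 8635391726) (nat_lit 26) (nat_lit 1) (nat_lit 24) (nat_lit 1) (nat_lit 25) (nat_lit 1) (nat_lit 168) (nat_lit 309) (nat_lit 243)) (XT.lf (nat_lit 0) (nat_lit 2501129954) (nat_lit 0) (nat_lit 26782050001) (nat_lit 168) (nat_lit 2501129954) (nat_lit 24) (nat_lit 3) (nat_lit 24) (nat_lit 1) (nat_lit 26) (nat_lit 1) (nat_lit 169) (nat_lit 309) (nat_lit 242))) (XT.nd (nat_lit 94) (nat_lit 84) (nat_lit 0) (XT.lf (nat_lit 84) (nat_lit 13205157025) (nat_lit 0) (nat_lit 4838794503) (nat_lit 168) (nat_lit 13205157025) (nat_lit 23) (nat_lit 1) (nat_lit 22) (nat_lit 1) (nat_lit 24) (nat_lit 1) (nat_lit 170) (nat_lit 309) (nat_lit 241)) (XT.lf (nat_lit 168) (nat_lit 16519459249) (nat_lit 0) (nat_lit 7104358144) (nat_lit 84) (nat_lit 7104358144) (nat_lit 23) (nat_lit 1) (nat_lit 21) (nat_lit 1) (nat_lit 22) (nat_lit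 1) (nat_lit 171) (nat_lit 309) (nat_lit 240))))) (XT.nd (nat_lit 282) (nat_lit 252) (nat_lit 0) (XT.nd (nat_lit 94) (nat_lit 252) (nat_lit 0) (XT.lf (nat_lit 0) (nat_lit 3414393362) (nat_lit 0) (nat_lit 23390366375) (nat_lit 168) (nat_lit 3414393362) (nat_lit 21) (nat_lit 3) (nat_lit 21) (nat_lit 1) (nat_lit 23) (nat_lit 1) (nat_lit 172) (nat_lit 309) (nat_lit 239)) (XT.nd (nat_lit 94) (nat_lit 84) (nat_lit 0) (XT.lf (nat_lit 84) (nat_lit 13512725362) (nat_lit 0) (nat_lit 2688785775) (nat_lit 168) (nat_lit 13512725362) (nat_lit 20) (nat_lit 1) (nat_lit 19) (nat_lit 1) (nat_lit 21) (nat_lit 1) (nat_lit 173) (nat_lit 309) (nat_lit 238)) (XT.lf (nat_lit 168) (nat_lit 17531512441) (nat_lit 0) (nat_lit 5844773026) (nat_lit 84) (nat_lit 5844773026) (nat_lit 20) (nat_lit 1) (nat_lit 18) (nat_lit 1) (nat_lit 19) (nat_lit 1) (nat_lit 174) (nat_lit 309) (nat_lit 237)))) (XT.nd (nat_lit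 188) (nat_lit 84) (nat_lit 0) (XT.nd (nat_lit 94) (nat_lit 168) (nat_lit 0) (XT.lf (nat_lit 0) (nat_lit 4101132306) (nat_lit 0) (nat_lit 20535414740) (nat_lit 168) (nat_lit 4101132306) (nat_lit 18) (nat_lit 3) (nat_lit 18) (nat_lit 1) (nat_lit 20) (nat_lit 1) (nat_lit 175) (nat_lit 309) (nat_lit 236)) (XT.lf (nat_lit 84) (nat_lit 13639628784) (nat_lit 0) (nat_lit 981496961) (nat_lit 168) (nat_lit 13639628784) (nat_lit 17) (nat_lit 1) (nat_lit 16) (nat_lit 1) (nat_lit 18) (nat_lit 1) (nat_lit 176) (nat_lit 309) (nat_lit 235))) (XT.nd (nat_lit 94) (nat_lit 0) (nat_lit 0) (XT.lf (nat_lit 168) (nat_lit 18176468610) (nat_lit 0) (nat_lit 4808509233) (nat_lit 84) (nat_lit 4808509233) (nat_lit 17) (nat_lit 1) (nat_lit 15) (nat_lit 1) (nat_lit 16) (nat_lit 1) (nat_lit 177) (nat_lit 309) (nat_lit 234)) (XT.lf (nat_lit 0) (nat_lit 4604585448) (nat_lit 0) (nat_lit 18125110278) (nat_lit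 168) (nat_lit 4604585448) (nat_lit 15) (nat_lit 3) (nat_lit 15) (nat_lit 1) (nat_lit 17) (nat_lit 1) (nat_lit 178) (nat_lit 309) (nat_lit 233)))))) (XT.nd (nat_lit 658) (nat_lit 672) (nat_lit 0) (XT.nd (nat_lit 282) (nat_lit 336) (nat_lit 0) (XT.nd (nat_lit 94) (nat_lit 168) (nat_lit 0) (XT.lf (nat_lit 84) (nat_lit 376546872) (nat_lit 0) (nat_lit 13253237186) (nat_lit 84) (nat_lit 13253237186) (nat_lit 15) (nat_lit 3) (nat_lit 14) (nat_lit 1) (nat_lit 15) (nat_lit 1) (nat_lit 179) (nat_lit 309) (nat_lit 232)) (XT.nd (nat_lit 94) (nat_lit 0) (nat_lit 0) (XT.lf (nat_lit 168) (nat_lit 18528349459) (nat_lit 0) (nat_lit 3955972446) (nat_lit 84) (nat_lit 3955972446) (nat_lit 14) (nat_lit 1) (nat_lit 12) (nat_lit 1) (nat_lit 13) (nat_lit 1) (nat_lit 180) (nat_lit 309) (nat_lit 231)) (XT.lf (nat_lit 0) (nat_lit 4960178843) (nat_lit 0) (nat_lit 16083548082) (nat_lit 168) (nat_lit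 4960178843) (nat_lit 12) (nat_lit 3) (nat_lit 12) (nat_lit 1) (nat_lit 14) (nat_lit 1) (nat_lit 181) (nat_lit 309) (nat_lit 230)))) (XT.nd (nat_lit 188) (nat_lit 84) (nat_lit 0) (XT.nd (nat_lit 94) (nat_lit 168) (nat_lit 0) (XT.lf (nat_lit 84) (nat_lit 1462858221) (nat_lit 0) (nat_lit 12056543209) (nat_lit 84) (nat_lit 12056543209) (nat_lit 12) (nat_lit 3) (nat_lit 11) (nat_lit 1) (nat_lit 12) (nat_lit 1) (nat_lit 182) (nat_lit 309) (nat_lit 229)) (XT.lf (nat_lit 168) (nat_lit 18647627287) (nat_lit 0) (nat_lit 3254588322) (nat_lit 84) (nat_lit 3254588322) (nat_lit 11) (nat_lit 1) (nat_lit 9) (nat_lit 1) (nat_lit 10) (nat_lit 1) (nat_lit 183) (nat_lit 309) (nat_lit 228))) (XT.nd (nat_lit 94) (nat_lit 84) (nat_lit 0) (XT.lf (nat_lit 0) (nat_lit 5196918077) (nat_lit 0) (nat_lit 14348141477) (nat_lit 168) (nat_lit 5196918077) (nat_lit 9) (nat_lit 3) (nat_lit 9) (nat_lit 1) (nat_lit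 11) (nat_lit 1) (nat_lit 184) (nat_lit 309) (nat_lit 227)) (XT.lf (nat_lit 84) (nat_lit 2301661057) (nat_lit 0) (nat_lit 11017111914) (nat_lit 84) (nat_lit 11017111914) (nat_lit 9) (nat_lit 3) (nat_lit 8) (nat_lit 1) (nat_lit 9) (nat_lit 1) (nat_lit 185) (nat_lit 309) (nat_lit 226))))) (XT.nd (nat_lit 282) (nat_lit 420) (nat_lit 0) (XT.nd (nat_lit 94) (nat_lit 84) (nat_lit 0) (XT.lf (nat_lit 168) (nat_lit 18583647531) (nat_lit 0) (nat_lit 2677557867) (nat_lit 84) (nat_lit 2677557867) (nat_lit 8) (nat_lit 1) (nat_lit 6) (nat_lit 1) (nat_lit 7) (nat_lit 1) (nat_lit 186) (nat_lit 309) (nat_lit 225)) (XT.nd (nat_lit 94) (nat_lit 84) (nat_lit 0) (XT.lf (nat_lit 0) (nat_lit 5338533236) (nat_lit 0) (nat_lit 12867267375) (nat_lit 168) (nat_lit 5338533236) (nat_lit 6) (nat_lit 3) (nat_lit 6) (nat_lit 1) (nat_lit 8) (nat_lit 1) (nat_lit 187) (nat_lit 309) (nat_lit 224)) (XT.lf (nat_lit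 84) (nat_lit 2939452703) (nat_lit 0) (nat_lit 10109675693) (nat_lit 84) (nat_lit 10109675693) (nat_lit 6) (nat_lit 3) (nat_lit 5) (nat_lit 1) (nat_lit 6) (nat_lit 1) (nat_lit 188) (nat_lit 309) (nat_lit 223)))) (XT.nd (nat_lit 188) (nat_lit 252) (nat_lit 0) (XT.nd (nat_lit 94) (nat_lit 0) (nat_lit 0) (XT.lf (nat_lit 168) (nat_lit 18376620827) (nat_lit 0) (nat_lit 2202833483) (nat_lit 84) (nat_lit 2202833483) (nat_lit 5) (nat_lit 1) (nat_lit 3) (nat_lit 1) (nat_lit 4) (nat_lit 1) (nat_lit 189) (nat_lit 309) (nat_lit 222)) (XT.lf (nat_lit 0) (nat_lit 5404420575) (nat_lit 0) (nat_lit 11598328783) (nat_lit 168) (nat_lit 5404420575) (nat_lit 3) (nat_lit 3) (nat_lit 3) (nat_lit 1) (nat_lit 5) (nat_lit 1) (nat_lit 190) (nat_lit 309) (nat_lit 221))) (XT.nd (nat_lit 94) (nat_lit 168) (nat_lit 0) (XT.lf (nat_lit 84) (nat_lit 3414362114) (nat_lit 0) (nat_lit 9313322312) (nat_lit 84)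 (nat_lit 9313322312) (nat_lit 3) (nat_lit 3) (nat_lit 2) (nat_lit 1) (nat_lit 3) (nat_lit 1) (nat_lit 191) (nat_lit 309) (nat_lit 220)) (XT.lf (nat_lit 0) (nat_lit 31499816812) (nat_lit 0) (nat_lit 0) (nat_lit 0) (nat_lit 0) (nat_lit 0) (nat_lit 0) (nat_lit 1) (nat_lit 0) (nat_lit 1) (nat_lit 0) (nat_lit 192) (nat_lit 309) (nat_lit 219))))))))
noncomputable def ec214 : XT := (XT.nd (nat_lit 2538) (nat_lit 0) (nat_lit 0) (XT.nd (nat_lit 1222) (nat_lit 0) (nat_lit 0) (XT.nd (nat_lit 564) (nat_lit 0) (nat_lit 0) (XT.nd (nat_lit 282) (nat_lit 0) (nat_lit 0) (XT.nd (nat_lit 94) (nat_lit 0) (nat_lit 0) (XT.lf (nat_lit 0) (nat_lit 31481463886) (nat_lit 0) (nat_lit 0) (nat_lit 0) (nat_lit 0) (nat_lit 0) (nat_lit 0) (nat_lit 1) (nat_lit 0) (nat_lit 1) (nat_lit 0) (nat_lit 193) (nat_lit 309) (nat_lit 218)) (XT.nd (nat_lit 94) (nat_lit 0) (nat_lit 0) (XT.lf (nat_lit 0) (nat_lit 31463984910)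 (nat_lit 0) (nat_lit 0) (nat_lit 0) (nat_lit 0) (nat_lit 0) (nat_lit 0) (nat_lit 1) (nat_lit 0) (nat_lit 1) (nat_lit 0) (nat_lit 194) (nat_lit 309) (nat_lit 217)) (XT.lf (nat_lit 0) (nat_lit 31447338266) (nat_lit 0) (nat_lit 0) (nat_lit 0) (nat_lit 0) (nat_lit 0) (nat_lit 0) (nat_lit 1) (nat_lit 0) (nat_lit 1) (nat_lit 0) (nat_lit 195) (nat_lit 309) (nat_lit 216)))) (XT.nd (nat_lit 94) (nat_lit 0) (nat_lit 0) (XT.lf (nat_lit 0) (nat_lit 31431484319) (nat_lit 0) (nat_lit 0) (nat_lit 0) (nat_lit 0) (nat_lit 0) (nat_lit 0) (nat_lit 1) (nat_lit 0) (nat_lit 1) (nat_lit 0) (nat_lit 196) (nat_lit 309) (nat_lit 215)) (XT.nd (nat_lit 94) (nat_lit 0) (nat_lit 0) (XT.lf (nat_lit 0) (nat_lit 31416385322) (nat_lit 0) (nat_lit 0) (nat_lit 0) (nat_lit 0) (nat_lit 0) (nat_lit 0) (nat_lit 1) (nat_lit 0) (nat_lit 1) (nat_lit 0) (nat_lit 197) (nat_lit 309) (nat_lit 214)) (XT.lf (nat_lit 0)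 (nat_lit 31402005325) (nat_lit 0) (nat_lit 0) (nat_lit 0) (nat_lit 0) (nat_lit 0) (nat_lit 0) (nat_lit 1) (nat_lit 0) (nat_lit 1) (nat_lit 0) (nat_lit 198) (nat_lit 309) (nat_lit 213))))) (XT.nd (nat_lit 282) (nat_lit 0) (nat_lit 0) (XT.nd (nat_lit 94) (nat_lit 0) (nat_lit 0) (XT.lf (nat_lit 0) (nat_lit 31388310090) (nat_lit 0) (nat_lit 0) (nat_lit 0) (nat_lit 0) (nat_lit 0) (nat_lit 0) (nat_lit 1) (nat_lit 0) (nat_lit 1) (nat_lit 0) (nat_lit 199) (nat_lit 309) (nat_lit 212)) (XT.nd (nat_lit 94) (nat_lit 0) (nat_lit 0) (XT.lf (nat_lit 0) (nat_lit 31375267008) (nat_lit 0) (nat_lit 0) (nat_lit 0) (nat_lit 0) (nat_lit 0) (nat_lit 0) (nat_lit 1) (nat_lit 0) (nat_lit 1) (nat_lit 0) (nat_lit 200) (nat_lit 309) (nat_lit 211)) (XT.lf (nat_lit 0) (nat_lit 31362845026) (nat_lit 0) (nat_lit 0) (nat_lit 0) (nat_lit 0) (nat_lit 0) (nat_lit 0) (nat_lit 1) (nat_lit 0) (nat_lit 1) (nat_lit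 0) (nat_lit 201) (nat_lit 309) (nat_lit 210)))) (XT.nd (nat_lit 188) (nat_lit 0) (nat_lit 0) (XT.nd (nat_lit 94) (nat_lit 0) (nat_lit 0) (XT.lf (nat_lit 0) (nat_lit 31351014567) (nat_lit 0) (nat_lit 0) (nat_lit 0) (nat_lit 0) (nat_lit 0) (nat_lit 0) (nat_lit 1) (nat_lit 0) (nat_lit 1) (nat_lit 0) (nat_lit 202) (nat_lit 309) (nat_lit 209)) (XT.lf (nat_lit 0) (nat_lit 31339747463) (nat_lit 0) (nat_lit 0) (nat_lit 0) (nat_lit 0) (nat_lit 0) (nat_lit 0) (nat_lit 1) (nat_lit 0) (nat_lit 1) (nat_lit 0) (nat_lit 203) (nat_lit 309) (nat_lit 208))) (XT.nd (nat_lit 94) (nat_lit 0) (nat_lit 0) (XT.lf (nat_lit 0) (nat_lit 31329016888) (nat_lit 0) (nat_lit 0) (nat_lit 0) (nat_lit 0) (nat_lit 0) (nat_lit 0) (nat_lit 1) (nat_lit 0) (nat_lit 1) (nat_lit 0) (nat_lit 204) (nat_lit 309) (nat_lit 207)) (XT.lf (nat_lit 0) (nat_lit 31318797292) (nat_lit 0) (nat_lit 0) (nat_lit 0) (nat_lit 0)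 (nat_lit 0) (nat_lit 0) (nat_lit 1) (nat_lit 0) (nat_lit 1) (nat_lit 0) (nat_lit 205) (nat_lit 309) (nat_lit 206)))))) (XT.nd (nat_lit 658) (nat_lit 0) (nat_lit 0) (XT.nd (nat_lit 282) (nat_lit 0) (nat_lit 0) (XT.nd (nat_lit 94) (nat_lit 0) (nat_lit 0) (XT.lf (nat_lit 0) (nat_lit 31309064344) (nat_lit 0) (nat_lit 0) (nat_lit 0) (nat_lit 0) (nat_lit 0) (nat_lit 0) (nat_lit 1) (nat_lit 0) (nat_lit 1) (nat_lit 0) (nat_lit 206) (nat_lit 309) (nat_lit 205)) (XT.nd (nat_lit 94) (nat_lit 0) (nat_lit 0) (XT.lf (nat_lit 0) (nat_lit 31299794870) (nat_lit 0) (nat_lit 0) (nat_lit 0) (nat_lit 0) (nat_lit 0) (nat_lit 0) (nat_lit 1) (nat_lit 0) (nat_lit 1) (nat_lit 0) (nat_lit 207) (nat_lit 309) (nat_lit 204)) (XT.lf (nat_lit 0) (nat_lit 31290966799) (nat_lit 0) (nat_lit 0) (nat_lit 0) (nat_lit 0) (nat_lit 0) (nat_lit 0) (nat_lit 1) (nat_lit 0) (nat_lit 1) (nat_lit 0) (nat_lit 208) (nat_lit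 309) (nat_lit 203)))) (XT.nd (nat_lit 188) (nat_lit 0) (nat_lit 0) (XT.nd (nat_lit 94) (nat_lit 0) (nat_lit 0) (XT.lf (nat_lit 0) (nat_lit 31282559112) (nat_lit 0) (nat_lit 0) (nat_lit 0) (nat_lit 0) (nat_lit 0) (nat_lit 0) (nat_lit 1) (nat_lit 0) (nat_lit 1) (nat_lit 0) (nat_lit 209) (nat_lit 309) (nat_lit 202)) (XT.lf (nat_lit 0) (nat_lit 31274551792) (nat_lit 0) (nat_lit 0) (nat_lit 0) (nat_lit 0) (nat_lit 0) (nat_lit 0) (nat_lit 1) (nat_lit 0) (nat_lit 1) (nat_lit 0) (nat_lit 210) (nat_lit 309) (nat_lit 201))) (XT.nd (nat_lit 94) (nat_lit 0) (nat_lit 0) (XT.lf (nat_lit 0) (nat_lit 31266925772) (nat_lit 0) (nat_lit 0) (nat_lit 0) (nat_lit 0) (nat_lit 0) (nat_lit 0) (nat_lit 1) (nat_lit 0) (nat_lit 1) (nat_lit 0) (nat_lit 211) (nat_lit 309) (nat_lit 200)) (XT.lf (nat_lit 0) (nat_lit 31259662897) (nat_lit 0) (nat_lit 0) (nat_lit 0) (nat_lit 0) (nat_lit 0) (nat_lit 0) (nat_lit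 1) (nat_lit 0) (nat_lit 1) (nat_lit 0) (nat_lit 212) (nat_lit 309) (nat_lit 199))))) (XT.nd (nat_lit 282) (nat_lit 0) (nat_lit 0) (XT.nd (nat_lit 94) (nat_lit 0) (nat_lit 0) (XT.lf (nat_lit 0) (nat_lit 31252745872) (nat_lit 0) (nat_lit 0) (nat_lit 0) (nat_lit 0) (nat_lit 0) (nat_lit 0) (nat_lit 1) (nat_lit 0) (nat_lit 1) (nat_lit 0) (nat_lit 213) (nat_lit 309) (nat_lit 198)) (XT.nd (nat_lit 94) (nat_lit 0) (nat_lit 0) (XT.lf (nat_lit 0) (nat_lit 31246158230) (nat_lit 0) (nat_lit 0) (nat_lit 0) (nat_lit 0) (nat_lit 0) (nat_lit 0) (nat_lit 1) (nat_lit 0) (nat_lit 1) (nat_lit 0) (nat_lit 214) (nat_lit 309) (nat_lit 197)) (XT.lf (nat_lit 0) (nat_lit 31239884285) (nat_lit 0) (nat_lit 0) (nat_lit 0) (nat_lit 0) (nat_lit 0) (nat_lit 0) (nat_lit 1) (nat_lit 0) (nat_lit 1) (nat_lit 0) (nat_lit 215) (nat_lit 309) (nat_lit 196)))) (XT.nd (nat_lit 188) (nat_lit 0) (nat_lit 0) (XT.nd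 (nat_lit 94) (nat_lit 0) (nat_lit 0) (XT.lf (nat_lit 0) (nat_lit 31233909099) (nat_lit 0) (nat_lit 0) (nat_lit 0) (nat_lit 0) (nat_lit 0) (nat_lit 0) (nat_lit 1) (nat_lit 0) (nat_lit 1) (nat_lit 0) (nat_lit 216) (nat_lit 309) (nat_lit 195)) (XT.lf (nat_lit 0) (nat_lit 31228218446) (nat_lit 0) (nat_lit 0) (nat_lit 0) (nat_lit 0) (nat_lit 0) (nat_lit 0) (nat_lit 1) (nat_lit 0) (nat_lit 1) (nat_lit 0) (nat_lit 217) (nat_lit 309) (nat_lit 194))) (XT.nd (nat_lit 94) (nat_lit 0) (nat_lit 0) (XT.lf (nat_lit 0) (nat_lit 31222798776) (nat_lit 0) (nat_lit 0) (nat_lit 0) (nat_lit 0) (nat_lit 0) (nat_lit 0) (nat_lit 1) (nat_lit 0) (nat_lit 1) (nat_lit 0) (nat_lit 218) (nat_lit 309) (nat_lit 193)) (XT.lf (nat_lit 0) (nat_lit 31217637186) (nat_lit 0) (nat_lit 0) (nat_lit 0) (nat_lit 0) (nat_lit 0) (nat_lit 0) (nat_lit 1) (nat_lit 0) (nat_lit 1) (nat_lit 0) (nat_lit 219) (nat_lit 309)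 (nat_lit 192))))))) (XT.nd (nat_lit 1222) (nat_lit 0) (nat_lit 0) (XT.nd (nat_lit 564) (nat_lit 0) (nat_lit 0) (XT.nd (nat_lit 282) (nat_lit 0) (nat_lit 0) (XT.nd (nat_lit 94) (nat_lit 0) (nat_lit 0) (XT.lf (nat_lit 0) (nat_lit 31212721386) (nat_lit 0) (nat_lit 0) (nat_lit 0) (nat_lit 0) (nat_lit 0) (nat_lit 0) (nat_lit 1) (nat_lit 0) (nat_lit 1) (nat_lit 0) (nat_lit 220) (nat_lit 309) (nat_lit 191)) (XT.nd (nat_lit 94) (nat_lit 0) (nat_lit 0) (XT.lf (nat_lit 0) (nat_lit 31208039671) (nat_lit 0) (nat_lit 0) (nat_lit 0) (nat_lit 0) (nat_lit 0) (nat_lit 0) (nat_lit 1) (nat_lit 0) (nat_lit 1) (nat_lit 0) (nat_lit 221) (nat_lit 309) (nat_lit 190)) (XT.lf (nat_lit 0) (nat_lit 31203580896) (nat_lit 0) (nat_lit 0) (nat_lit 0) (nat_lit 0) (nat_lit 0) (nat_lit 0) (nat_lit 1) (nat_lit 0) (nat_lit 1) (nat_lit 0) (nat_lit 222) (nat_lit 309) (nat_lit 189)))) (XT.nd (nat_lit 94) (nat_lit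 0) (nat_lit 0) (XT.lf (nat_lit 0) (nat_lit 31199334443) (nat_lit 0) (nat_lit 0) (nat_lit 0) (nat_lit 0) (nat_lit 0) (nat_lit 0) (nat_lit 1) (nat_lit 0) (nat_lit 1) (nat_lit 0) (nat_lit 223) (nat_lit 309) (nat_lit 188)) (XT.nd (nat_lit 94) (nat_lit 0) (nat_lit 0) (XT.lf (nat_lit 0) (nat_lit 31195290202) (nat_lit 0) (nat_lit 0) (nat_lit 0) (nat_lit 0) (nat_lit 0) (nat_lit 0) (nat_lit 1) (nat_lit 0) (nat_lit 1) (nat_lit 0) (nat_lit 224) (nat_lit 309) (nat_lit 187)) (XT.lf (nat_lit 0) (nat_lit 31191438544) (nat_lit 0) (nat_lit 0) (nat_lit 0) (nat_lit 0) (nat_lit 0) (nat_lit 0) (nat_lit 1) (nat_lit 0) (nat_lit 1) (nat_lit 0) (nat_lit 225) (nat_lit 309) (nat_lit 186))))) (XT.nd (nat_lit 282) (nat_lit 0) (nat_lit 0) (XT.nd (nat_lit 94) (nat_lit 0) (nat_lit 0) (XT.lf (nat_lit 0) (nat_lit 31187770298) (nat_lit 0) (nat_lit 0) (nat_lit 0) (nat_lit 0) (nat_lit 0) (nat_lit 0) (nat_lit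 1) (nat_lit 0) (nat_lit 1) (nat_lit 0) (nat_lit 226) (nat_lit 309) (nat_lit 185)) (XT.nd (nat_lit 94) (nat_lit 0) (nat_lit 0) (XT.lf (nat_lit 0) (nat_lit 31184276730) (nat_lit 0) (nat_lit 0) (nat_lit 0) (nat_lit 0) (nat_lit 0) (nat_lit 0) (nat_lit 1) (nat_lit 0) (nat_lit 1) (nat_lit 0) (nat_lit 227) (nat_lit 309) (nat_lit 184)) (XT.lf (nat_lit 0) (nat_lit 31180949523) (nat_lit 0) (nat_lit 0) (nat_lit 0) (nat_lit 0) (nat_lit 0) (nat_lit 0) (nat_lit 1) (nat_lit 0) (nat_lit 1) (nat_lit 0) (nat_lit 228) (nat_lit 309) (nat_lit 183)))) (XT.nd (nat_lit 188) (nat_lit 0) (nat_lit 0) (XT.nd (nat_lit 94) (nat_lit 0) (nat_lit 0) (XT.lf (nat_lit 0) (nat_lit 31177780755) (nat_lit 0) (nat_lit 0) (nat_lit 0) (nat_lit 0) (nat_lit 0) (nat_lit 0) (nat_lit 1) (nat_lit 0) (nat_lit 1) (nat_lit 0) (nat_lit 229) (nat_lit 309) (nat_lit 182)) (XT.lf (nat_lit 0) (nat_lit 31174762880) (nat_lit 0) (nat_lit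 0) (nat_lit 0) (nat_lit 0) (nat_lit 0) (nat_lit 0) (nat_lit 1) (nat_lit 0) (nat_lit 1) (nat_lit 0) (nat_lit 230) (nat_lit 309) (nat_lit 181))) (XT.nd (nat_lit 94) (nat_lit 0) (nat_lit 0) (XT.lf (nat_lit 0) (nat_lit 31171888713) (nat_lit 0) (nat_lit 0) (nat_lit 0) (nat_lit 0) (nat_lit 0) (nat_lit 0) (nat_lit 1) (nat_lit 0) (nat_lit 1) (nat_lit 0) (nat_lit 231) (nat_lit 309) (nat_lit 180)) (XT.lf (nat_lit 0) (nat_lit 31169151412) (nat_lit 0) (nat_lit 0) (nat_lit 0) (nat_lit 0) (nat_lit 0) (nat_lit 0) (nat_lit 1) (nat_lit 0) (nat_lit 1) (nat_lit 0) (nat_lit 232) (nat_lit 309) (nat_lit 179)))))) (XT.nd (nat_lit 658) (nat_lit 0) (nat_lit 0) (XT.nd (nat_lit 282) (nat_lit 0) (nat_lit 0) (XT.nd (nat_lit 94) (nat_lit 0) (nat_lit 0) (XT.lf (nat_lit 0) (nat_lit 31166544458) (nat_lit 0) (nat_lit 0) (nat_lit 0) (nat_lit 0) (nat_lit 0) (nat_lit 0) (nat_lit 1) (nat_lit 0) (nat_lit 1) (nat_lit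 0) (nat_lit 233) (nat_lit 309) (nat_lit 178)) (XT.nd (nat_lit 94) (nat_lit 0) (nat_lit 0) (XT.lf (nat_lit 0) (nat_lit 31164061645) (nat_lit 0) (nat_lit 0) (nat_lit 0) (nat_lit 0) (nat_lit 0) (nat_lit 0) (nat_lit 1) (nat_lit 0) (nat_lit 1) (nat_lit 0) (nat_lit 234) (nat_lit 309) (nat_lit 177)) (XT.lf (nat_lit 0) (nat_lit 31161697061) (nat_lit 0) (nat_lit 0) (nat_lit 0) (nat_lit 0) (nat_lit 0) (nat_lit 0) (nat_lit 1) (nat_lit 0) (nat_lit 1) (nat_lit 0) (nat_lit 235) (nat_lit 309) (nat_lit 176)))) (XT.nd (nat_lit 188) (nat_lit 0) (nat_lit 0) (XT.nd (nat_lit 94) (nat_lit 0) (nat_lit 0) (XT.lf (nat_lit 0) (nat_lit 31159445076) (nat_lit 0) (nat_lit 0) (nat_lit 0) (nat_lit 0) (nat_lit 0) (nat_lit 0) (nat_lit 1) (nat_lit 0) (nat_lit 1) (nat_lit 0) (nat_lit 236) (nat_lit 309) (nat_lit 175)) (XT.lf (nat_lit 0) (nat_lit 31157300329) (nat_lit 0) (nat_lit 0) (nat_lit 0) (nat_lit 0) (nat_lit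 0) (nat_lit 0) (nat_lit 1) (nat_lit 0) (nat_lit 1) (nat_lit 0) (nat_lit 237) (nat_lit 309) (nat_lit 174))) (XT.nd (nat_lit 94) (nat_lit 0) (nat_lit 0) (XT.lf (nat_lit 0) (nat_lit 31155257712) (nat_lit 0) (nat_lit 0) (nat_lit 0) (nat_lit 0) (nat_lit 0) (nat_lit 0) (nat_lit 1) (nat_lit 0) (nat_lit 1) (nat_lit 0) (nat_lit 238) (nat_lit 309) (nat_lit 173)) (XT.lf (nat_lit 0) (nat_lit 31153312363) (nat_lit 0) (nat_lit 0) (nat_lit 0) (nat_lit 0) (nat_lit 0) (nat_lit 0) (nat_lit 1) (nat_lit 0) (nat_lit 1) (nat_lit 0) (nat_lit 239) (nat_lit 309) (nat_lit 172))))) (XT.nd (nat_lit 282) (nat_lit 0) (nat_lit 0) (XT.nd (nat_lit 94) (nat_lit 0) (nat_lit 0) (XT.lf (nat_lit 0) (nat_lit 31151459650) (nat_lit 0) (nat_lit 0) (nat_lit 0) (nat_lit 0) (nat_lit 0) (nat_lit 0) (nat_lit 1) (nat_lit 0) (nat_lit 1) (nat_lit 0) (nat_lit 240) (nat_lit 309) (nat_lit 171)) (XT.nd (nat_lit 94) (nat_lit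 0) (nat_lit 0) (XT.lf (nat_lit 0) (nat_lit 31149695161) (nat_lit 0) (nat_lit 0) (nat_lit 0) (nat_lit 0) (nat_lit 0) (nat_lit 0) (nat_lit 1) (nat_lit 0) (nat_lit 1) (nat_lit 0) (nat_lit 241) (nat_lit 309) (nat_lit 170)) (XT.lf (nat_lit 0) (nat_lit 31148014695) (nat_lit 0) (nat_lit 0) (nat_lit 0) (nat_lit 0) (nat_lit 0) (nat_lit 0) (nat_lit 1) (nat_lit 0) (nat_lit 1) (nat_lit 0) (nat_lit 242) (nat_lit 309) (nat_lit 169)))) (XT.nd (nat_lit 188) (nat_lit 0) (nat_lit 0) (XT.nd (nat_lit 94) (nat_lit 0) (nat_lit 0) (XT.lf (nat_lit 0) (nat_lit 31146414252) (nat_lit 0) (nat_lit 0) (nat_lit 0) (nat_lit 0) (nat_lit 0) (nat_lit 0) (nat_lit 1) (nat_lit 0) (nat_lit 1) (nat_lit 0) (nat_lit 243) (nat_lit 309) (nat_lit 168)) (XT.lf (nat_lit 0) (nat_lit 31144890020) (nat_lit 0) (nat_lit 0) (nat_lit 0) (nat_lit 0) (nat_lit 0) (nat_lit 0) (nat_lit 1) (nat_lit 0) (nat_lit 1) (nat_lit 0) (nat_lit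 244) (nat_lit 309) (nat_lit 167))) (XT.nd (nat_lit 94) (nat_lit 0) (nat_lit 0) (XT.lf (nat_lit 0) (nat_lit 31143438371) (nat_lit 0) (nat_lit 0) (nat_lit 0) (nat_lit 0) (nat_lit 0) (nat_lit 0) (nat_lit 1) (nat_lit 0) (nat_lit 1) (nat_lit 0) (nat_lit 245) (nat_lit 309) (nat_lit 166)) (XT.lf (nat_lit 0) (nat_lit 31142055847) (nat_lit 0) (nat_lit 0) (nat_lit 0) (nat_lit 0) (nat_lit 0) (nat_lit 0) (nat_lit 1) (nat_lit 0) (nat_lit 1) (nat_lit 0) (nat_lit 246) (nat_lit 309) (nat_lit 165))))))))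
noncomputable def ec215 : XT := (XT.nd (nat_lit 2538) (nat_lit 0) (nat_lit 0) (XT.nd (nat_lit 1222) (nat_lit 0) (nat_lit 0) (XT.nd (nat_lit 564) (nat_lit 0) (nat_lit 0) (XT.nd (nat_lit 282) (nat_lit 0) (nat_lit 0) (XT.nd (nat_lit 94) (nat_lit 0) (nat_lit 0) (XT.lf (nat_lit 0) (nat_lit 31140739159) (nat_lit 0) (nat_lit 0) (nat_lit 0) (nat_lit 0) (nat_lit 0) (nat_lit 0) (nat_lit 1) (nat_lit 0) (nat_lit 1) (nat_lit 0) (nat_lit 247) (nat_lit 309) (nat_lit 164)) (XT.nd (nat_lit 94) (nat_lit 0) (nat_lit 0) (XT.lf (nat_lit 0) (nat_lit 31139485169) (nat_lit 0) (nat_lit 0) (nat_lit 0) (nat_lit 0) (nat_lit 0) (nat_lit 0) (nat_lit 1) (nat_lit 0) (nat_lit 1) (nat_lit 0) (nat_lit 248) (nat_lit 309) (nat_lit 163)) (XT.lf (nat_lit 0) (nat_lit 31138290894) (nat_lit 0) (nat_lit 0) (nat_lit 0) (nat_lit 0) (nat_lit 0) (nat_lit 0) (nat_lit 1) (nat_lit 0) (nat_lit 1) (nat_lit 0) (nat_lit 249)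 (nat_lit 309) (nat_lit 162)))) (XT.nd (nat_lit 94) (nat_lit 0) (nat_lit 0) (XT.lf (nat_lit 0) (nat_lit 31137153488) (nat_lit 0) (nat_lit 0) (nat_lit 0) (nat_lit 0) (nat_lit 0) (nat_lit 0) (nat_lit 1) (nat_lit 0) (nat_lit 1) (nat_lit 0) (nat_lit 250) (nat_lit 309) (nat_lit 161)) (XT.nd (nat_lit 94) (nat_lit 0) (nat_lit 0) (XT.lf (nat_lit 0) (nat_lit 31136070245) (nat_lit 0) (nat_lit 0) (nat_lit 0) (nat_lit 0) (nat_lit 0) (nat_lit 0) (nat_lit 1) (nat_lit 0) (nat_lit 1) (nat_lit 0) (nat_lit 251) (nat_lit 309) (nat_lit 160)) (XT.lf (nat_lit 0) (nat_lit 31135038585) (nat_lit 0) (nat_lit 0) (nat_lit 0) (nat_lit 0) (nat_lit 0) (nat_lit 0) (nat_lit 1) (nat_lit 0) (nat_lit 1) (nat_lit 0) (nat_lit 252) (nat_lit 309) (nat_lit 159))))) (XT.nd (nat_lit 282) (nat_lit 0) (nat_lit 0) (XT.nd (nat_lit 94) (nat_lit 0) (nat_lit 0) (XT.lf (nat_lit 0) (nat_lit 31134056052) (nat_lit 0) (nat_lit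 0) (nat_lit 0) (nat_lit 0) (nat_lit 0) (nat_lit 0) (nat_lit 1) (nat_lit 0) (nat_lit 1) (nat_lit 0) (nat_lit 253) (nat_lit 309) (nat_lit 158)) (XT.nd (nat_lit 94) (nat_lit 0) (nat_lit 0) (XT.lf (nat_lit 0) (nat_lit 31133120305) (nat_lit 0) (nat_lit 0) (nat_lit 0) (nat_lit 0) (nat_lit 0) (nat_lit 0) (nat_lit 1) (nat_lit 0) (nat_lit 1) (nat_lit 0) (nat_lit 254) (nat_lit 309) (nat_lit 157)) (XT.lf (nat_lit 0) (nat_lit 31132229119) (nat_lit 0) (nat_lit 0) (nat_lit 0) (nat_lit 0) (nat_lit 0) (nat_lit 0) (nat_lit 1) (nat_lit 0) (nat_lit 1) (nat_lit 0) (nat_lit 255) (nat_lit 309) (nat_lit 156)))) (XT.nd (nat_lit 188) (nat_lit 0) (nat_lit 0) (XT.nd (nat_lit 94) (nat_lit 0) (nat_lit 0) (XT.lf (nat_lit 0) (nat_lit 31131380369) (nat_lit 0) (nat_lit 0) (nat_lit 0) (nat_lit 0) (nat_lit 0) (nat_lit 0) (nat_lit 1) (nat_lit 0) (nat_lit 1) (nat_lit 0) (nat_lit 256) (nat_lit 309) (nat_lit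 155)) (XT.lf (nat_lit 0) (nat_lit 31130572037) (nat_lit 0) (nat_lit 0) (nat_lit 0) (nat_lit 0) (nat_lit 0) (nat_lit 0) (nat_lit 1) (nat_lit 0) (nat_lit 1) (nat_lit 0) (nat_lit 257) (nat_lit 309) (nat_lit 154))) (XT.nd (nat_lit 94) (nat_lit 0) (nat_lit 0) (XT.lf (nat_lit 0) (nat_lit 31129802196) (nat_lit 0) (nat_lit 0) (nat_lit 0) (nat_lit 0) (nat_lit 0) (nat_lit 0) (nat_lit 1) (nat_lit 0) (nat_lit 1) (nat_lit 0) (nat_lit 258) (nat_lit 309) (nat_lit 153)) (XT.lf (nat_lit 0) (nat_lit 31129069014) (nat_lit 0) (nat_lit 0) (nat_lit 0) (nat_lit 0) (nat_lit 0) (nat_lit 0) (nat_lit 1) (nat_lit 0) (nat_lit 1) (nat_lit 0) (nat_lit 259) (nat_lit 309) (nat_lit 152)))))) (XT.nd (nat_lit 658) (nat_lit 0) (nat_lit 0) (XT.nd (nat_lit 282) (nat_lit 0) (nat_lit 0) (XT.nd (nat_lit 94) (nat_lit 0) (nat_lit 0) (XT.lf (nat_lit 0) (nat_lit 31128370746) (nat_lit 0) (nat_lit 0) (nat_lit 0) (nat_lit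 0) (nat_lit 0) (nat_lit 0) (nat_lit 1) (nat_lit 0) (nat_lit 1) (nat_lit 0) (nat_lit 260) (nat_lit 309) (nat_lit 151)) (XT.nd (nat_lit 94) (nat_lit 0) (nat_lit 0) (XT.lf (nat_lit 0) (nat_lit 31127705729) (nat_lit 0) (nat_lit 0) (nat_lit 0) (nat_lit 0) (nat_lit 0) (nat_lit 0) (nat_lit 1) (nat_lit 0) (nat_lit 1) (nat_lit 0) (nat_lit 261) (nat_lit 309) (nat_lit 150)) (XT.lf (nat_lit 0) (nat_lit 31127072379) (nat_lit 0) (nat_lit 0) (nat_lit 0) (nat_lit 0) (nat_lit 0) (nat_lit 0) (nat_lit 1) (nat_lit 0) (nat_lit 1) (nat_lit 0) (nat_lit 262) (nat_lit 309) (nat_lit 149)))) (XT.nd (nat_lit 188) (nat_lit 0) (nat_lit 0) (XT.nd (nat_lit 94) (nat_lit 0) (nat_lit 0) (XT.lf (nat_lit 0) (nat_lit 31126469189) (nat_lit 0) (nat_lit 0) (nat_lit 0) (nat_lit 0) (nat_lit 0) (nat_lit 0) (nat_lit 1) (nat_lit 0) (nat_lit 1) (nat_lit 0) (nat_lit 263) (nat_lit 309) (nat_lit 148)) (XT.lf (nat_lit 0)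 (nat_lit 31125894722) (nat_lit 0) (nat_lit 0) (nat_lit 0) (nat_lit 0) (nat_lit 0) (nat_lit 0) (nat_lit 1) (nat_lit 0) (nat_lit 1) (nat_lit 0) (nat_lit 264) (nat_lit 309) (nat_lit 147))) (XT.nd (nat_lit 94) (nat_lit 0) (nat_lit 0) (XT.lf (nat_lit 0) (nat_lit 31125347610) (nat_lit 0) (nat_lit 0) (nat_lit 0) (nat_lit 0) (nat_lit 0) (nat_lit 0) (nat_lit 1) (nat_lit 0) (nat_lit 1) (nat_lit 0) (nat_lit 265) (nat_lit 309) (nat_lit 146)) (XT.lf (nat_lit 0) (nat_lit 31124826552) (nat_lit 0) (nat_lit 0) (nat_lit 0) (nat_lit 0) (nat_lit 0) (nat_lit 0) (nat_lit 1) (nat_lit 0) (nat_lit 1) (nat_lit 0) (nat_lit 266) (nat_lit 309) (nat_lit 145))))) (XT.nd (nat_lit 282) (nat_lit 0) (nat_lit 0) (XT.nd (nat_lit 94) (nat_lit 0) (nat_lit 0) (XT.lf (nat_lit 0) (nat_lit 31124330306) (nat_lit 0) (nat_lit 0) (nat_lit 0) (nat_lit 0) (nat_lit 0) (nat_lit 0) (nat_lit 1) (nat_lit 0) (nat_lit 1) (nat_lit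 0) (nat_lit 267) (nat_lit 309) (nat_lit 144)) (XT.nd (nat_lit 94) (nat_lit 0) (nat_lit 0) (XT.lf (nat_lit 0) (nat_lit 31123857690) (nat_lit 0) (nat_lit 0) (nat_lit 0) (nat_lit 0) (nat_lit 0) (nat_lit 0) (nat_lit 1) (nat_lit 0) (nat_lit 1) (nat_lit 0) (nat_lit 268) (nat_lit 309) (nat_lit 143)) (XT.lf (nat_lit 0) (nat_lit 31123407580) (nat_lit 0) (nat_lit 0) (nat_lit 0) (nat_lit 0) (nat_lit 0) (nat_lit 0) (nat_lit 1) (nat_lit 0) (nat_lit 1) (nat_lit 0) (nat_lit 269) (nat_lit 309) (nat_lit 142)))) (XT.nd (nat_lit 188) (nat_lit 0) (nat_lit 0) (XT.nd (nat_lit 94) (nat_lit 0) (nat_lit 0) (XT.lf (nat_lit 0) (nat_lit 31122978904) (nat_lit 0) (nat_lit 0) (nat_lit 0) (nat_lit 0) (nat_lit 0) (nat_lit 0) (nat_lit 1) (nat_lit 0) (nat_lit 1) (nat_lit 0) (nat_lit 270) (nat_lit 309) (nat_lit 141)) (XT.lf (nat_lit 0) (nat_lit 31122570641) (nat_lit 0) (nat_lit 0) (nat_lit 0) (nat_lit 0) (nat_lit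 0) (nat_lit 0) (nat_lit 1) (nat_lit 0) (nat_lit 1) (nat_lit 0) (nat_lit 271) (nat_lit 309) (nat_lit 140))) (XT.nd (nat_lit 94) (nat_lit 0) (nat_lit 0) (XT.lf (nat_lit 0) (nat_lit 31122181819) (nat_lit 0) (nat_lit 0) (nat_lit 0) (nat_lit 0) (nat_lit 0) (nat_lit 0) (nat_lit 1) (nat_lit 0) (nat_lit 1) (nat_lit 0) (nat_lit 272) (nat_lit 309) (nat_lit 139)) (XT.lf (nat_lit 0) (nat_lit 31121811513) (nat_lit 0) (nat_lit 0) (nat_lit 0) (nat_lit 0) (nat_lit 0) (nat_lit 0) (nat_lit 1) (nat_lit 0) (nat_lit 1) (nat_lit 0) (nat_lit 273) (nat_lit 309) (nat_lit 138))))))) (XT.nd (nat_lit 1316) (nat_lit 0) (nat_lit 0) (XT.nd (nat_lit 658) (nat_lit 0) (nat_lit 0) (XT.nd (nat_lit 282) (nat_lit 0) (nat_lit 0) (XT.nd (nat_lit 94) (nat_lit 0) (nat_lit 0) (XT.lf (nat_lit 0) (nat_lit 31121458840) (nat_lit 0) (nat_lit 0) (nat_lit 0) (nat_lit 0) (nat_lit 0) (nat_lit 0) (nat_lit 1) (nat_lit 0) (nat_lit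 1) (nat_lit 0) (nat_lit 274) (nat_lit 309) (nat_lit 137)) (XT.nd (nat_lit 94) (nat_lit 0) (nat_lit 0) (XT.lf (nat_lit 0) (nat_lit 31121122961) (nat_lit 0) (nat_lit 0) (nat_lit 0) (nat_lit 0) (nat_lit 0) (nat_lit 0) (nat_lit 1) (nat_lit 0) (nat_lit 1) (nat_lit 0) (nat_lit 275) (nat_lit 309) (nat_lit 136)) (XT.lf (nat_lit 0) (nat_lit 31120803076) (nat_lit 0) (nat_lit 0) (nat_lit 0) (nat_lit 0) (nat_lit 0) (nat_lit 0) (nat_lit 1) (nat_lit 0) (nat_lit 1) (nat_lit 0) (nat_lit 276) (nat_lit 309) (nat_lit 135)))) (XT.nd (nat_lit 188) (nat_lit 0) (nat_lit 0) (XT.nd (nat_lit 94) (nat_lit 0) (nat_lit 0) (XT.lf (nat_lit 0) (nat_lit 31120498424) (nat_lit 0) (nat_lit 0) (nat_lit 0) (nat_lit 0) (nat_lit 0) (nat_lit 0) (nat_lit 1) (nat_lit 0) (nat_lit 1) (nat_lit 0) (nat_lit 277) (nat_lit 309) (nat_lit 134)) (XT.lf (nat_lit 0) (nat_lit 31120208279) (nat_lit 0) (nat_lit 0) (nat_lit 0) (nat_lit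 0) (nat_lit 0) (nat_lit 0) (nat_lit 1) (nat_lit 0) (nat_lit 1) (nat_lit 0) (nat_lit 278) (nat_lit 309) (nat_lit 133))) (XT.nd (nat_lit 94) (nat_lit 0) (nat_lit 0) (XT.lf (nat_lit 0) (nat_lit 31119931951) (nat_lit 0) (nat_lit 0) (nat_lit 0) (nat_lit 0) (nat_lit 0) (nat_lit 0) (nat_lit 1) (nat_lit 0) (nat_lit 1) (nat_lit 0) (nat_lit 279) (nat_lit 309) (nat_lit 132)) (XT.lf (nat_lit 0) (nat_lit 31119668781) (nat_lit 0) (nat_lit 0) (nat_lit 0) (nat_lit 0) (nat_lit 0) (nat_lit 0) (nat_lit 1) (nat_lit 0) (nat_lit 1) (nat_lit 0) (nat_lit 280) (nat_lit 309) (nat_lit 131))))) (XT.nd (nat_lit 282) (nat_lit 0) (nat_lit 0) (XT.nd (nat_lit 94) (nat_lit 0) (nat_lit 0) (XT.lf (nat_lit 0) (nat_lit 31119418143) (nat_lit 0) (nat_lit 0) (nat_lit 0) (nat_lit 0) (nat_lit 0) (nat_lit 0) (nat_lit 1) (nat_lit 0) (nat_lit 1) (nat_lit 0) (nat_lit 281) (nat_lit 309) (nat_lit 130)) (XT.nd (nat_lit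 94) (nat_lit 0) (nat_lit 0) (XT.lf (nat_lit 0) (nat_lit 31119179440) (nat_lit 0) (nat_lit 0) (nat_lit 0) (nat_lit 0) (nat_lit 0) (nat_lit 0) (nat_lit 1) (nat_lit 0) (nat_lit 1) (nat_lit 0) (nat_lit 282) (nat_lit 309) (nat_lit 129)) (XT.lf (nat_lit 0) (nat_lit 31118952104) (nat_lit 0) (nat_lit 0) (nat_lit 0) (nat_lit 0) (nat_lit 0) (nat_lit 0) (nat_lit 1) (nat_lit 0) (nat_lit 1) (nat_lit 0) (nat_lit 283) (nat_lit 309) (nat_lit 128)))) (XT.nd (nat_lit 188) (nat_lit 0) (nat_lit 0) (XT.nd (nat_lit 94) (nat_lit 0) (nat_lit 0) (XT.lf (nat_lit 0) (nat_lit 31118735593) (nat_lit 0) (nat_lit 0) (nat_lit 0) (nat_lit 0) (nat_lit 0) (nat_lit 0) (nat_lit 1) (nat_lit 0) (nat_lit 1) (nat_lit 0) (nat_lit 284) (nat_lit 309) (nat_lit 127)) (XT.lf (nat_lit 0) (nat_lit 31118529393) (nat_lit 0) (nat_lit 0) (nat_lit 0) (nat_lit 0) (nat_lit 0) (nat_lit 0) (nat_lit 1) (nat_lit 0) (nat_lit 1) (nat_lit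 0) (nat_lit 285) (nat_lit 309) (nat_lit 126))) (XT.nd (nat_lit 94) (nat_lit 0) (nat_lit 0) (XT.lf (nat_lit 0) (nat_lit 31118333012) (nat_lit 0) (nat_lit 0) (nat_lit 0) (nat_lit 0) (nat_lit 0) (nat_lit 0) (nat_lit 1) (nat_lit 0) (nat_lit 1) (nat_lit 0) (nat_lit 286) (nat_lit 309) (nat_lit 125)) (XT.lf (nat_lit 0) (nat_lit 31118145982) (nat_lit 0) (nat_lit 0) (nat_lit 0) (nat_lit 0) (nat_lit 0) (nat_lit 0) (nat_lit 1) (nat_lit 0) (nat_lit 1) (nat_lit 0) (nat_lit 287) (nat_lit 309) (nat_lit 124)))))) (XT.nd (nat_lit 658) (nat_lit 0) (nat_lit 0) (XT.nd (nat_lit 282) (nat_lit 0) (nat_lit 0) (XT.nd (nat_lit 94) (nat_lit 0) (nat_lit 0) (XT.lf (nat_lit 0) (nat_lit 31117967858) (nat_lit 0) (nat_lit 0) (nat_lit 0) (nat_lit 0) (nat_lit 0) (nat_lit 0) (nat_lit 1) (nat_lit 0) (nat_lit 1) (nat_lit 0) (nat_lit 288) (nat_lit 309) (nat_lit 123)) (XT.nd (nat_lit 94) (nat_lit 0) (nat_lit 0)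 (XT.lf (nat_lit 0) (nat_lit 31117798216) (nat_lit 0) (nat_lit 0) (nat_lit 0) (nat_lit 0) (nat_lit 0) (nat_lit 0) (nat_lit 1) (nat_lit 0) (nat_lit 1) (nat_lit 0) (nat_lit 289) (nat_lit 309) (nat_lit 122)) (XT.lf (nat_lit 0) (nat_lit 31117636653) (nat_lit 0) (nat_lit 0) (nat_lit 0) (nat_lit 0) (nat_lit 0) (nat_lit 0) (nat_lit 1) (nat_lit 0) (nat_lit 1) (nat_lit 0) (nat_lit 290) (nat_lit 309) (nat_lit 121)))) (XT.nd (nat_lit 188) (nat_lit 0) (nat_lit 0) (XT.nd (nat_lit 94) (nat_lit 0) (nat_lit 0) (XT.lf (nat_lit 0) (nat_lit 31117482783) (nat_lit 0) (nat_lit 0) (nat_lit 0) (nat_lit 0) (nat_lit 0) (nat_lit 0) (nat_lit 1) (nat_lit 0) (nat_lit 1) (nat_lit 0) (nat_lit 291) (nat_lit 309) (nat_lit 120)) (XT.lf (nat_lit 0) (nat_lit 31117336240) (nat_lit 0) (nat_lit 0) (nat_lit 0) (nat_lit 0) (nat_lit 0) (nat_lit 0) (nat_lit 1) (nat_lit 0) (nat_lit 1) (nat_lit 0) (nat_lit 292) (nat_lit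 309) (nat_lit 119))) (XT.nd (nat_lit 94) (nat_lit 0) (nat_lit 0) (XT.lf (nat_lit 0) (nat_lit 31117196675) (nat_lit 0) (nat_lit 0) (nat_lit 0) (nat_lit 0) (nat_lit 0) (nat_lit 0) (nat_lit 1) (nat_lit 0) (nat_lit 1) (nat_lit 0) (nat_lit 293) (nat_lit 309) (nat_lit 118)) (XT.lf (nat_lit 0) (nat_lit 31117063756) (nat_lit 0) (nat_lit 0) (nat_lit 0) (nat_lit 0) (nat_lit 0) (nat_lit 0) (nat_lit 1) (nat_lit 0) (nat_lit 1) (nat_lit 0) (nat_lit 294) (nat_lit 309) (nat_lit 117))))) (XT.nd (nat_lit 282) (nat_lit 0) (nat_lit 0) (XT.nd (nat_lit 94) (nat_lit 0) (nat_lit 0) (XT.lf (nat_lit 0) (nat_lit 31116937167) (nat_lit 0) (nat_lit 0) (nat_lit 0) (nat_lit 0) (nat_lit 0) (nat_lit 0) (nat_lit 1) (nat_lit 0) (nat_lit 1) (nat_lit 0) (nat_lit 295) (nat_lit 309) (nat_lit 116)) (XT.nd (nat_lit 94) (nat_lit 0) (nat_lit 0) (XT.lf (nat_lit 0) (nat_lit 31116816606) (nat_lit 0) (nat_lit 0) (nat_lit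 0) (nat_lit 0) (nat_lit 0) (nat_lit 0) (nat_lit 1) (nat_lit 0) (nat_lit 1) (nat_lit 0) (nat_lit 296) (nat_lit 309) (nat_lit 115)) (XT.lf (nat_lit 0) (nat_lit 31116701786) (nat_lit 0) (nat_lit 0) (nat_lit 0) (nat_lit 0) (nat_lit 0) (nat_lit 0) (nat_lit 1) (nat_lit 0) (nat_lit 1) (nat_lit 0) (nat_lit 297) (nat_lit 309) (nat_lit 114)))) (XT.nd (nat_lit 188) (nat_lit 0) (nat_lit 0) (XT.nd (nat_lit 94) (nat_lit 0) (nat_lit 0) (XT.lf (nat_lit 0) (nat_lit 31116592433) (nat_lit 0) (nat_lit 0) (nat_lit 0) (nat_lit 0) (nat_lit 0) (nat_lit 0) (nat_lit 1) (nat_lit 0) (nat_lit 1) (nat_lit 0) (nat_lit 298) (nat_lit 309) (nat_lit 113)) (XT.lf (nat_lit 0) (nat_lit 31116488288) (nat_lit 0) (nat_lit 0) (nat_lit 0) (nat_lit 0) (nat_lit 0) (nat_lit 0) (nat_lit 1) (nat_lit 0) (nat_lit 1) (nat_lit 0) (nat_lit 299) (nat_lit 309) (nat_lit 112))) (XT.nd (nat_lit 94) (nat_lit 0) (nat_lit 0) (XT.lf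 (nat_lit 0) (nat_lit 31116389102) (nat_lit 0) (nat_lit 0) (nat_lit 0) (nat_lit 0) (nat_lit 0) (nat_lit 0) (nat_lit 1) (nat_lit 0) (nat_lit 1) (nat_lit 0) (nat_lit 300) (nat_lit 309) (nat_lit 111)) (XT.lf (nat_lit 0) (nat_lit 31116294639) (nat_lit 0) (nat_lit 0) (nat_lit 0) (nat_lit 0) (nat_lit 0) (nat_lit 0) (nat_lit 1) (nat_lit 0) (nat_lit 1) (nat_lit 0) (nat_lit 301) (nat_lit 309) (nat_lit 110))))))))
noncomputable def ec216 : XT := (XT.nd (nat_lit 27354) (nat_lit 0) (nat_lit 5040) (XT.nd (nat_lit 1222) (nat_lit 0) (nat_lit 0) (XT.nd (nat_lit 564) (nat_lit 0) (nat_lit 0) (XT.nd (nat_lit 282) (nat_lit 0) (nat_lit 0) (XT.nd (nat_lit 94) (nat_lit 0) (nat_lit 0) (XT.lf (nat_lit 0) (nat_lit 31116204675) (nat_lit 0) (nat_lit 0) (nat_lit 0) (nat_lit 0) (nat_lit 0) (nat_lit 0) (nat_lit 1) (nat_lit 0) (nat_lit 1) (nat_lit 0) (nat_lit 302) (nat_lit 309) (nat_lit 109)) (XT.nd (nat_lit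 94) (nat_lit 0) (nat_lit 0) (XT.lf (nat_lit 0) (nat_lit 31116118994) (nat_lit 0) (nat_lit 0) (nat_lit 0) (nat_lit 0) (nat_lit 0) (nat_lit 0) (nat_lit 1) (nat_lit 0) (nat_lit 1) (nat_lit 0) (nat_lit 303) (nat_lit 309) (nat_lit 108)) (XT.lf (nat_lit 0) (nat_lit 31116037393) (nat_lit 0) (nat_lit 0) (nat_lit 0) (nat_lit 0) (nat_lit 0) (nat_lit 0) (nat_lit 1) (nat_lit 0) (nat_lit 1) (nat_lit 0) (nat_lit 304) (nat_lit 309) (nat_lit 107)))) (XT.nd (nat_lit 94) (nat_lit 0) (nat_lit 0) (XT.lf (nat_lit 0) (nat_lit 31115959679) (nat_lit 0) (nat_lit 0) (nat_lit 0) (nat_lit 0) (nat_lit 0) (nat_lit 0) (nat_lit 1) (nat_lit 0) (nat_lit 1) (nat_lit 0) (nat_lit 305) (nat_lit 309) (nat_lit 106)) (XT.nd (nat_lit 94) (nat_lit 0) (nat_lit 0) (XT.lf (nat_lit 0) (nat_lit 31115885664) (nat_lit 0) (nat_lit 0) (nat_lit 0) (nat_lit 0) (nat_lit 0) (nat_lit 0) (nat_lit 1) (nat_lit 0) (nat_lit 1) (nat_lit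 0) (nat_lit 306) (nat_lit 309) (nat_lit 105)) (XT.lf (nat_lit 0) (nat_lit 31115815175) (nat_lit 0) (nat_lit 0) (nat_lit 0) (nat_lit 0) (nat_lit 0) (nat_lit 0) (nat_lit 1) (nat_lit 0) (nat_lit 1) (nat_lit 0) (nat_lit 307) (nat_lit 309) (nat_lit 104))))) (XT.nd (nat_lit 282) (nat_lit 0) (nat_lit 0) (XT.nd (nat_lit 94) (nat_lit 0) (nat_lit 0) (XT.lf (nat_lit 0) (nat_lit 31115748042) (nat_lit 0) (nat_lit 0) (nat_lit 0) (nat_lit 0) (nat_lit 0) (nat_lit 0) (nat_lit 1) (nat_lit 0) (nat_lit 1) (nat_lit 0) (nat_lit 308) (nat_lit 309) (nat_lit 103)) (XT.nd (nat_lit 94) (nat_lit 0) (nat_lit 0) (XT.lf (nat_lit 0) (nat_lit 31115684106) (nat_lit 0) (nat_lit 0) (nat_lit 0) (nat_lit 0) (nat_lit 0) (nat_lit 0) (nat_lit 1) (nat_lit 0) (nat_lit 1) (nat_lit 0) (nat_lit 309) (nat_lit 309) (nat_lit 102)) (XT.lf (nat_lit 0) (nat_lit 31115623214) (nat_lit 0) (nat_lit 0) (nat_lit 0) (nat_lit 0)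 (nat_lit 0) (nat_lit 0) (nat_lit 1) (nat_lit 0) (nat_lit 1) (nat_lit 0) (nat_lit 310) (nat_lit 309) (nat_lit 101)))) (XT.nd (nat_lit 188) (nat_lit 0) (nat_lit 0) (XT.nd (nat_lit 94) (nat_lit 0) (nat_lit 0) (XT.lf (nat_lit 0) (nat_lit 31115565222) (nat_lit 0) (nat_lit 0) (nat_lit 0) (nat_lit 0) (nat_lit 0) (nat_lit 0) (nat_lit 1) (nat_lit 0) (nat_lit 1) (nat_lit 0) (nat_lit 311) (nat_lit 309) (nat_lit 100)) (XT.lf (nat_lit 0) (nat_lit 31115509992) (nat_lit 0) (nat_lit 0) (nat_lit 0) (nat_lit 0) (nat_lit 0) (nat_lit 0) (nat_lit 1) (nat_lit 0) (nat_lit 1) (nat_lit 0) (nat_lit 312) (nat_lit 309) (nat_lit 99))) (XT.nd (nat_lit 94) (nat_lit 0) (nat_lit 0) (XT.lf (nat_lit 0) (nat_lit 31115457391) (nat_lit 0) (nat_lit 0) (nat_lit 0) (nat_lit 0) (nat_lit 0) (nat_lit 0) (nat_lit 1) (nat_lit 0) (nat_lit 1) (nat_lit 0) (nat_lit 313) (nat_lit 309) (nat_lit 98)) (XT.lf (nat_lit 0) (nat_lit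 31115407296) (nat_lit 0) (nat_lit 0) (nat_lit 0) (nat_lit 0) (nat_lit 0) (nat_lit 0) (nat_lit 1) (nat_lit 0) (nat_lit 1) (nat_lit 0) (nat_lit 314) (nat_lit 309) (nat_lit 97)))))) (XT.nd (nat_lit 25474) (nat_lit 0) (nat_lit 10332) (XT.nd (nat_lit 25098) (nat_lit 0) (nat_lit 10752) (XT.nd (nat_lit 94) (nat_lit 0) (nat_lit 0) (XT.lf (nat_lit 0) (nat_lit 31115359585) (nat_lit 0) (nat_lit 0) (nat_lit 0) (nat_lit 0) (nat_lit 0) (nat_lit 0) (nat_lit 1) (nat_lit 0) (nat_lit 1) (nat_lit 0) (nat_lit 315) (nat_lit 309) (nat_lit 96)) (XT.nd (nat_lit 24910) (nat_lit 0) (nat_lit 10752) (XT.lf (nat_lit 0) (nat_lit 31115314147) (nat_lit 0) (nat_lit 0) (nat_lit 0) (nat_lit 0) (nat_lit 0) (nat_lit 0) (nat_lit 1) (nat_lit 0) (nat_lit 1) (nat_lit 0) (nat_lit 316) (nat_lit 309) (nat_lit 95)) (XT.lf (nat_lit 924) (nat_lit 16349354620) (nat_lit 0) (nat_lit 29028241548) (nat_lit 924) (nat_lit 16349354620)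 (nat_lit 139) (nat_lit 1) (nat_lit 128) (nat_lit 0) (nat_lit 139) (nat_lit 0) (nat_lit 100) (nat_lit 310) (nat_lit 310)))) (XT.nd (nat_lit 188) (nat_lit 0) (nat_lit 84) (XT.nd (nat_lit 94) (nat_lit 0) (nat_lit 84) (XT.lf (nat_lit 924) (nat_lit 63372139646) (nat_lit 84) (nat_lit 28560044104) (nat_lit 0) (nat_lit 28560044104) (nat_lit 139) (nat_lit 1) (nat_lit 129) (nat_lit 1) (nat_lit 128) (nat_lit 0) (nat_lit 101) (nat_lit 310) (nat_lit 309)) (XT.lf (nat_lit 924) (nat_lit 30202207561) (nat_lit 0) (nat_lit 57217700253) (nat_lit 840) (nat_lit 30202207561) (nat_lit 140) (nat_lit 1) (nat_lit 129) (nat_lit 1) (nat_lit 139) (nat_lit 1) (nat_lit 102) (nat_lit 310) (nat_lit 308))) (XT.nd (nat_lit 94) (nat_lit 0) (nat_lit 84) (XT.lf (nat_lit 924) (nat_lit 56655144683) (nat_lit 84) (nat_lit 29094792115) (nat_lit 0) (nat_lit 29094792115) (nat_lit 140) (nat_lit 1) (nat_lit 130) (nat_lit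 1) (nat_lit 129) (nat_lit 1) (nat_lit 103) (nat_lit 310) (nat_lit 307)) (XT.lf (nat_lit 924) (nat_lit 26077819033) (nat_lit 0) (nat_lit 59999733604) (nat_lit 840) (nat_lit 26077819033) (nat_lit 141) (nat_lit 1) (nat_lit 130) (nat_lit 1) (nat_lit 140) (nat_lit 1) (nat_lit 104) (nat_lit 310) (nat_lit 306))))) (XT.nd (nat_lit 282) (nat_lit 588) (nat_lit 0) (XT.nd (nat_lit 94) (nat_lit 0) (nat_lit 84) (XT.lf (nat_lit 924) (nat_lit 46902656031) (nat_lit 84) (nat_lit 31322670141) (nat_lit 0) (nat_lit 31322670141) (nat_lit 141) (nat_lit 1) (nat_lit 131) (nat_lit 1) (nat_lit 130) (nat_lit 1) (nat_lit 105) (nat_lit 310) (nat_lit 305)) (XT.nd (nat_lit 94) (nat_lit 0) (nat_lit 0) (XT.lf (nat_lit 924) (nat_lit 20565459998) (nat_lit 0) (nat_lit 65897247596) (nat_lit 840) (nat_lit 20565459998) (nat_lit 142) (nat_lit 1) (nat_lit 131) (nat_lit 1) (nat_lit 141) (nat_lit 1) (nat_lit 106)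 (nat_lit 310) (nat_lit 304)) (XT.lf (nat_lit 924) (nat_lit 34571169704) (nat_lit 84) (nat_lit 35003274343) (nat_lit 0) (nat_lit 35003274343) (nat_lit 142) (nat_lit 1) (nat_lit 132) (nat_lit 1) (nat_lit 131) (nat_lit 1) (nat_lit 107) (nat_lit 310) (nat_lit 303)))) (XT.nd (nat_lit 188) (nat_lit 756) (nat_lit 0) (XT.nd (nat_lit 94) (nat_lit 0) (nat_lit 0) (XT.lf (nat_lit 924) (nat_lit 13878523992) (nat_lit 0) (nat_lit 74459921618) (nat_lit 840) (nat_lit 13878523992) (nat_lit 143) (nat_lit 1) (nat_lit 132) (nat_lit 1) (nat_lit 142) (nat_lit 1) (nat_lit 108) (nat_lit 310) (nat_lit 302)) (XT.lf (nat_lit 924) (nat_lit 20066441775) (nat_lit 84) (nat_lit 39922503385) (nat_lit 0) (nat_lit 39922503385) (nat_lit 143) (nat_lit 1) (nat_lit 133) (nat_lit 1) (nat_lit 132) (nat_lit 1) (nat_lit 109) (nat_lit 310) (nat_lit 301))) (XT.nd (nat_lit 94) (nat_lit 840) (nat_lit 0) (XT.lf (nat_lit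 84) (nat_lit 6206548423) (nat_lit 0) (nat_lit 85286952687) (nat_lit 840) (nat_lit 6206548423) (nat_lit 134) (nat_lit 1) (nat_lit 133) (nat_lit 1) (nat_lit 143) (nat_lit 1) (nat_lit 110) (nat_lit 310) (nat_lit 300)) (XT.lf (nat_lit 924) (nat_lit 3748600904) (nat_lit 0) (nat_lit 45889924881) (nat_lit 840) (nat_lit 45889924881) (nat_lit 134) (nat_lit 1) (nat_lit 123) (nat_lit 1) (nat_lit 133) (nat_lit 1) (nat_lit 111) (nat_lit 310) (nat_lit 299))))))) (XT.nd (nat_lit 1222) (nat_lit 2436) (nat_lit 0) (XT.nd (nat_lit 564) (nat_lit 1428) (nat_lit 0) (XT.nd (nat_lit 282) (nat_lit 420) (nat_lit 0) (XT.nd (nat_lit 94) (nat_lit 420) (nat_lit 0) (XT.lf (nat_lit 588) (nat_lit 88959020326) (nat_lit 0) (nat_lit 2245563713) (nat_lit 504) (nat_lit 2245563713) (nat_lit 123) (nat_lit 1) (nat_lit 116) (nat_lit 1) (nat_lit 122) (nat_lit 1) (nat_lit 112) (nat_lit 310) (nat_lit 298)) (XT.nd (nat_lit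 94) (nat_lit 420) (nat_lit 0) (XT.lf (nat_lit 84) (nat_lit 38892728858) (nat_lit 0) (nat_lit 13613121987) (nat_lit 588) (nat_lit 38892728858) (nat_lit 117) (nat_lit 1) (nat_lit 116) (nat_lit 1) (nat_lit 123) (nat_lit 1) (nat_lit 113) (nat_lit 310) (nat_lit 297)) (XT.lf (nat_lit 504) (nat_lit 66924403035) (nat_lit 0) (nat_lit 11254923395) (nat_lit 420) (nat_lit 11254923395) (nat_lit 117) (nat_lit 1) (nat_lit 111) (nat_lit 1) (nat_lit 116) (nat_lit 1) (nat_lit 114) (nat_lit 310) (nat_lit 296)))) (XT.nd (nat_lit 94) (nat_lit 420) (nat_lit 0) (XT.lf (nat_lit 84) (nat_lit 27741710036) (nat_lit 0) (nat_lit 32027795519) (nat_lit 504) (nat_lit 27741710036) (nat_lit 112) (nat_lit 1) (nat_lit 111) (nat_lit 1) (nat_lit 117) (nat_lit 1) (nat_lit 115) (nat_lit 310) (nat_lit 295)) (XT.nd (nat_lit 94) (nat_lit 0) (nat_lit 0) (XT.lf (nat_lit 504) (nat_lit 44070668474) (nat_lit 0) (nat_lit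 20792243510) (nat_lit 420) (nat_lit 20792243510) (nat_lit 112) (nat_lit 1) (nat_lit 106) (nat_lit 1) (nat_lit 111) (nat_lit 1) (nat_lit 116) (nat_lit 310) (nat_lit 294)) (XT.lf (nat_lit 84) (nat_lit 16239455631) (nat_lit 0) (nat_lit 51374164616) (nat_lit 504) (nat_lit 16239455631) (nat_lit 107) (nat_lit 1) (nat_lit 106) (nat_lit 1) (nat_lit 112) (nat_lit 1) (nat_lit 117) (nat_lit 310) (nat_lit 293))))) (XT.nd (nat_lit 282) (nat_lit 672) (nat_lit 0) (XT.nd (nat_lit 94) (nat_lit 420) (nat_lit 0) (XT.lf (nat_lit 420) (nat_lit 20610526932) (nat_lit 0) (nat_lit 30743412381) (nat_lit 336) (nat_lit 30743412381) (nat_lit 107) (nat_lit 1) (nat_lit 102) (nat_lit 1) (nat_lit 106) (nat_lit 1) (nat_lit 118) (nat_lit 310) (nat_lit 292)) (XT.nd (nat_lit 94) (nat_lit 420) (nat_lit 0) (XT.lf (nat_lit 84) (nat_lit 4484713134) (nat_lit 0) (nat_lit 71439717750) (nat_lit 420) (nat_lit 4484713134)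 (nat_lit 103) (nat_lit 1) (nat_lit 102) (nat_lit 1) (nat_lit 107) (nat_lit 1) (nat_lit 119) (nat_lit 310) (nat_lit 291)) (XT.lf (nat_lit 84) (nat_lit 37789481556) (nat_lit 0) (nat_lit 3164942486) (nat_lit 420) (nat_lit 37789481556) (nat_lit 98) (nat_lit 1) (nat_lit 97) (nat_lit 1) (nat_lit 102) (nat_lit 1) (nat_lit 120) (nat_lit 310) (nat_lit 290)))) (XT.nd (nat_lit 188) (nat_lit 336) (nat_lit 0) (XT.nd (nat_lit 94) (nat_lit 0) (nat_lit 0) (XT.lf (nat_lit 420) (nat_lit 62509761957) (nat_lit 0) (nat_lit 7316160791) (nat_lit 336) (nat_lit 7316160791) (nat_lit 98) (nat_lit 1) (nat_lit 93) (nat_lit 1) (nat_lit 97) (nat_lit 1) (nat_lit 121) (nat_lit 310) (nat_lit 289)) (XT.lf (nat_lit 84) (nat_lit 24519076759) (nat_lit 0) (nat_lit 26529587573) (nat_lit 420) (nat_lit 24519076759) (nat_lit 94) (nat_lit 1) (nat_lit 93) (nat_lit 1) (nat_lit 98) (nat_lit 1) (nat_lit 122) (nat_lit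 310) (nat_lit 288))) (XT.nd (nat_lit 94) (nat_lit 0) (nat_lit 0) (XT.lf (nat_lit 420) (nat_lit 35780153669) (nat_lit 0) (nat_lit 19133918818) (nat_lit 336) (nat_lit 19133918818) (nat_lit 94) (nat_lit 1) (nat_lit 89) (nat_lit 1) (nat_lit 93) (nat_lit 1) (nat_lit 123) (nat_lit 310) (nat_lit 287)) (XT.lf (nat_lit 84) (nat_lit 11283463625) (nat_lit 0) (nat_lit 50005751882) (nat_lit 420) (nat_lit 11283463625) (nat_lit 90) (nat_lit 1) (nat_lit 89) (nat_lit 1) (nat_lit 94) (nat_lit 1) (nat_lit 124) (nat_lit 310) (nat_lit 286)))))) (XT.nd (nat_lit 658) (nat_lit 924) (nat_lit 0) (XT.nd (nat_lit 282) (nat_lit 840) (nat_lit 0) (XT.nd (nat_lit 94) (nat_lit 420) (nat_lit 0) (XT.lf (nat_lit 336) (nat_lit 9176357704) (nat_lit 0) (nat_lit 30976427670) (nat_lit 252) (nat_lit 30976427670) (nat_lit 90) (nat_lit 1) (nat_lit 86) (nat_lit 1) (nat_lit 89) (nat_lit 1) (nat_lit 125) (nat_lit 310)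 (nat_lit 285)) (XT.nd (nat_lit 94) (nat_lit 0) (nat_lit 0) (XT.lf (nat_lit 420) (nat_lit 66074566945) (nat_lit 0) (nat_lit 1833442449) (nat_lit 336) (nat_lit 1833442449) (nat_lit 86) (nat_lit 1) (nat_lit 81) (nat_lit 1) (nat_lit 85) (nat_lit 1) (nat_lit 126) (nat_lit 310) (nat_lit 284)) (XT.lf (nat_lit 84) (nat_lit 25855466526) (nat_lit 0) (nat_lit 16650438681) (nat_lit 420) (nat_lit 25855466526) (nat_lit 82) (nat_lit 1) (nat_lit 81) (nat_lit 1) (nat_lit 86) (nat_lit 1) (nat_lit 127) (nat_lit 310) (nat_lit 283)))) (XT.nd (nat_lit 188) (nat_lit 588) (nat_lit 0) (XT.nd (nat_lit 94) (nat_lit 0) (nat_lit 0) (XT.lf (nat_lit 336) (nat_lit 37762726265) (nat_lit 0) (nat_lit 14635747552) (nat_lit 252) (nat_lit 14635747552) (nat_lit 82) (nat_lit 1) (nat_lit 78) (nat_lit 1) (nat_lit 81) (nat_lit 1) (nat_lit 128) (nat_lit 310) (nat_lit 282)) (XT.lf (nat_lit 84) (nat_lit 11929829356)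 (nat_lit 0) (nat_lit 41881130829) (nat_lit 336) (nat_lit 11929829356) (nat_lit 79) (nat_lit 1) (nat_lit 78) (nat_lit 1) (nat_lit 82) (nat_lit 1) (nat_lit 129) (nat_lit 310) (nat_lit 281))) (XT.nd (nat_lit 94) (nat_lit 336) (nat_lit 0) (XT.lf (nat_lit 336) (nat_lit 9943139887) (nat_lit 0) (nat_lit 27266821526) (nat_lit 252) (nat_lit 27266821526) (nat_lit 79) (nat_lit 1) (nat_lit 75) (nat_lit 1) (nat_lit 78) (nat_lit 1) (nat_lit 130) (nat_lit 310) (nat_lit 280)) (XT.lf (nat_lit 336) (nat_lit 59842073184) (nat_lit 0) (nat_lit 1708831301) (nat_lit 252) (nat_lit 1708831301) (nat_lit 75) (nat_lit 1) (nat_lit 71) (nat_lit 1) (nat_lit 74) (nat_lit 1) (nat_lit 131) (nat_lit 310) (nat_lit 279))))) (XT.nd (nat_lit 282) (nat_lit 672) (nat_lit 0) (XT.nd (nat_lit 94) (nat_lit 252) (nat_lit 0) (XT.lf (nat_lit 84) (nat_lit 22636542516) (nat_lit 0) (nat_lit 16773450708) (nat_lit 336) (nat_lit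 22636542516) (nat_lit 72) (nat_lit 1) (nat_lit 71) (nat_lit 1) (nat_lit 75) (nat_lit 1) (nat_lit 132) (nat_lit 310) (nat_lit 278)) (XT.nd (nat_lit 94) (nat_lit 0) (nat_lit 0) (XT.lf (nat_lit 336) (nat_lit 31127318695) (nat_lit 0) (nat_lit 14875452798) (nat_lit 252) (nat_lit 14875452798) (nat_lit 72) (nat_lit 1) (nat_lit 68) (nat_lit 1) (nat_lit 71) (nat_lit 1) (nat_lit 133) (nat_lit 310) (nat_lit 277)) (XT.lf (nat_lit 84) (nat_lit 8572438182) (nat_lit 0) (nat_lit 42596371123) (nat_lit 336) (nat_lit 8572438182) (nat_lit 69) (nat_lit 1) (nat_lit 68) (nat_lit 1) (nat_lit 72) (nat_lit 1) (nat_lit 134) (nat_lit 310) (nat_lit 276)))) (XT.nd (nat_lit 188) (nat_lit 168) (nat_lit 0) (XT.nd (nat_lit 94) (nat_lit 336) (nat_lit 0) (XT.lf (nat_lit 252) (nat_lit 3141226377) (nat_lit 0) (nat_lit 27742234976) (nat_lit 168) (nat_lit 27742234976) (nat_lit 69) (nat_lit 1) (nat_lit 66) (nat_lit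 1) (nat_lit 68) (nat_lit 1) (nat_lit 135) (nat_lit 310) (nat_lit 275)) (XT.lf (nat_lit 336) (nat_lit 47462877268) (nat_lit 0) (nat_lit 5040901592) (nat_lit 252) (nat_lit 5040901592) (nat_lit 66) (nat_lit 1) (nat_lit 62) (nat_lit 1) (nat_lit 65) (nat_lit 1) (nat_lit 136) (nat_lit 310) (nat_lit 274))) (XT.nd (nat_lit 94) (nat_lit 168) (nat_lit 0) (XT.lf (nat_lit 84) (nat_lit 16577656397) (nat_lit 0) (nat_lit 23320441907) (nat_lit 336) (nat_lit 16577656397) (nat_lit 63) (nat_lit 1) (nat_lit 62) (nat_lit 1) (nat_lit 66) (nat_lit 1) (nat_lit 137) (nat_lit 310) (nat_lit 273)) (XT.lf (nat_lit 252) (nat_lit 19152924754) (nat_lit 0) (nat_lit 18143447087) (nat_lit 168) (nat_lit 18143447087) (nat_lit 63) (nat_lit 1) (nat_lit 60) (nat_lit 1) (nat_lit 62) (nat_lit 1) (nat_lit 138) (nat_lit 310) (nat_lit 272))))))))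
noncomputable def ec217 : XT := (XT.nd (nat_lit 2538) (nat_lit 2100) (nat_lit 0) (XT.nd (nat_lit 1222) (nat_lit 1428) (nat_lit 0) (XT.nd (nat_lit 564) (nat_lit 672) (nat_lit 0) (XT.nd (nat_lit 282) (nat_lit 420) (nat_lit 0) (XT.nd (nat_lit 94) (nat_lit 420) (nat_lit 0) (XT.lf (nat_lit 84) (nat_lit 2751667362) (nat_lit 0) (nat_lit 48934927166) (nat_lit 252) (nat_lit 2751667362) (nat_lit 61) (nat_lit 1) (nat_lit 60) (nat_lit 1) (nat_lit 63) (nat_lit 1) (nat_lit 139) (nat_lit 310) (nat_lit 271)) (XT.nd (nat_lit 94) (nat_lit 168) (nat_lit 0) (XT.lf (nat_lit 84) (nat_lit 22709993505) (nat_lit 0) (nat_lit 8020358571) (nat_lit 252) (nat_lit 22709993505) (nat_lit 58) (nat_lit 1) (nat_lit 57) (nat_lit 1) (nat_lit 60) (nat_lit 1) (nat_lit 140) (nat_lit 310) (nat_lit 270)) (XT.lf (nat_lit 252) (nat_lit 31536806251) (nat_lit 0) (nat_lit 10469365216) (nat_lit 168) (nat_lit 10469365216)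 (nat_lit 58) (nat_lit 1) (nat_lit 55) (nat_lit 1) (nat_lit 57) (nat_lit 1) (nat_lit 141) (nat_lit 310) (nat_lit 269)))) (XT.nd (nat_lit 94) (nat_lit 420) (nat_lit 0) (XT.lf (nat_lit 84) (nat_lit 8898866256) (nat_lit 0) (nat_lit 33734319658) (nat_lit 252) (nat_lit 8898866256) (nat_lit 56) (nat_lit 1) (nat_lit 55) (nat_lit 1) (nat_lit 58) (nat_lit 1) (nat_lit 142) (nat_lit 310) (nat_lit 268)) (XT.nd (nat_lit 94) (nat_lit 252) (nat_lit 0) (XT.lf (nat_lit 252) (nat_lit 4168798452) (nat_lit 0) (nat_lit 23219393712) (nat_lit 168) (nat_lit 23219393712) (nat_lit 56) (nat_lit 1) (nat_lit 53) (nat_lit 1) (nat_lit 55) (nat_lit 1) (nat_lit 143) (nat_lit 310) (nat_lit 267)) (XT.lf (nat_lit 252) (nat_lit 40973644413) (nat_lit 0) (nat_lit 4368131146) (nat_lit 168) (nat_lit 4368131146) (nat_lit 53) (nat_lit 1) (nat_lit 50) (nat_lit 1) (nat_lit 52) (nat_lit 1) (nat_lit 144) (nat_lit 310)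 (nat_lit 266))))) (XT.nd (nat_lit 282) (nat_lit 504) (nat_lit 0) (XT.nd (nat_lit 94) (nat_lit 168) (nat_lit 0) (XT.lf (nat_lit 84) (nat_lit 13640226633) (nat_lit 0) (nat_lit 21539435862) (nat_lit 252) (nat_lit 13640226633) (nat_lit 51) (nat_lit 1) (nat_lit 50) (nat_lit 1) (nat_lit 53) (nat_lit 1) (nat_lit 145) (nat_lit 310) (nat_lit 265)) (XT.nd (nat_lit 94) (nat_lit 0) (nat_lit 0) (XT.lf (nat_lit 252) (nat_lit 13891908585) (nat_lit 0) (nat_lit 17031900705) (nat_lit 168) (nat_lit 17031900705) (nat_lit 51) (nat_lit 1) (nat_lit 48) (nat_lit 1) (nat_lit 50) (nat_lit 1) (nat_lit 146) (nat_lit 310) (nat_lit 264)) (XT.lf (nat_lit 84) (nat_lit 456588722) (nat_lit 0) (nat_lit 46208660225) (nat_lit 252) (nat_lit 456588722) (nat_lit 49) (nat_lit 1) (nat_lit 48) (nat_lit 1) (nat_lit 51) (nat_lit 1) (nat_lit 147) (nat_lit 310) (nat_lit 263)))) (XT.nd (nat_lit 188) (nat_lit 168) (nat_lit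 0) (XT.nd (nat_lit 94) (nat_lit 168) (nat_lit 0) (XT.lf (nat_lit 84) (nat_lit 17240045675) (nat_lit 0) (nat_lit 11802573470) (nat_lit 168) (nat_lit 17240045675) (nat_lit 47) (nat_lit 1) (nat_lit 46) (nat_lit 1) (nat_lit 48) (nat_lit 1) (nat_lit 148) (nat_lit 310) (nat_lit 262)) (XT.lf (nat_lit 252) (nat_lit 21392934031) (nat_lit 0) (nat_lit 12040042133) (nat_lit 168) (nat_lit 12040042133) (nat_lit 47) (nat_lit 1) (nat_lit 44) (nat_lit 1) (nat_lit 46) (nat_lit 1) (nat_lit 149) (nat_lit 310) (nat_lit 261))) (XT.nd (nat_lit 94) (nat_lit 168) (nat_lit 0) (XT.lf (nat_lit 84) (nat_lit 4289135421) (nat_lit 0) (nat_lit 36106955343) (nat_lit 252) (nat_lit 4289135421) (nat_lit 45) (nat_lit 1) (nat_lit 44) (nat_lit 1) (nat_lit 47) (nat_lit 1) (nat_lit 150) (nat_lit 310) (nat_lit 260)) (XT.lf (nat_lit 84) (nat_lit 19915044878) (nat_lit 0) (nat_lit 4073840956) (nat_lit 168) (nat_lit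 19915044878) (nat_lit 43) (nat_lit 1) (nat_lit 42) (nat_lit 1) (nat_lit 44) (nat_lit 1) (nat_lit 151) (nat_lit 310) (nat_lit 259)))))) (XT.nd (nat_lit 658) (nat_lit 588) (nat_lit 0) (XT.nd (nat_lit 282) (nat_lit 588) (nat_lit 0) (XT.nd (nat_lit 94) (nat_lit 84) (nat_lit 0) (XT.lf (nat_lit 252) (nat_lit 27089568779) (nat_lit 0) (nat_lit 8027139385) (nat_lit 168) (nat_lit 8027139385) (nat_lit 43) (nat_lit 1) (nat_lit 40) (nat_lit 1) (nat_lit 42) (nat_lit 1) (nat_lit 152) (nat_lit 310) (nat_lit 258)) (XT.nd (nat_lit 94) (nat_lit 84) (nat_lit 0) (XT.lf (nat_lit 84) (nat_lit 7255823992) (nat_lit 0) (nat_lit 27887163632) (nat_lit 252) (nat_lit 7255823992) (nat_lit 41) (nat_lit 1) (nat_lit 40) (nat_lit 1) (nat_lit 43) (nat_lit 1) (nat_lit 153) (nat_lit 310) (nat_lit 257)) (XT.lf (nat_lit 168) (nat_lit 2082882838) (nat_lit 0) (nat_lit 19792476018) (nat_lit 84) (nat_lit 19792476018)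 (nat_lit 41) (nat_lit 1) (nat_lit 39) (nat_lit 1) (nat_lit 40) (nat_lit 1) (nat_lit 154) (nat_lit 310) (nat_lit 256)))) (XT.nd (nat_lit 188) (nat_lit 336) (nat_lit 0) (XT.nd (nat_lit 94) (nat_lit 0) (nat_lit 0) (XT.lf (nat_lit 252) (nat_lit 31324320998) (nat_lit 0) (nat_lit 4815154033) (nat_lit 168) (nat_lit 4815154033) (nat_lit 39) (nat_lit 1) (nat_lit 36) (nat_lit 1) (nat_lit 38) (nat_lit 1) (nat_lit 155) (nat_lit 310) (nat_lit 255)) (XT.lf (nat_lit 84) (nat_lit 9519043085) (nat_lit 0) (nat_lit 21211297691) (nat_lit 252) (nat_lit 9519043085) (nat_lit 37) (nat_lit 1) (nat_lit 36) (nat_lit 1) (nat_lit 39) (nat_lit 1) (nat_lit 156) (nat_lit 310) (nat_lit 254))) (XT.nd (nat_lit 94) (nat_lit 252) (nat_lit 0) (XT.lf (nat_lit 168) (nat_lit 6994792439) (nat_lit 0) (nat_lit 16283319002) (nat_lit 84) (nat_lit 16283319002) (nat_lit 37) (nat_lit 1) (nat_lit 35) (nat_lit 1) (nat_lit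 36) (nat_lit 1) (nat_lit 157) (nat_lit 310) (nat_lit 253)) (XT.lf (nat_lit 252) (nat_lit 34377897094) (nat_lit 0) (nat_lit 2257826374) (nat_lit 168) (nat_lit 2257826374) (nat_lit 35) (nat_lit 1) (nat_lit 32) (nat_lit 1) (nat_lit 34) (nat_lit 1) (nat_lit 158) (nat_lit 310) (nat_lit 252))))) (XT.nd (nat_lit 282) (nat_lit 252) (nat_lit 0) (XT.nd (nat_lit 94) (nat_lit 336) (nat_lit 0) (XT.lf (nat_lit 84) (nat_lit 11211967665) (nat_lit 0) (nat_lit 15801500586) (nat_lit 252) (nat_lit 11211967665) (nat_lit 33) (nat_lit 1) (nat_lit 32) (nat_lit 1) (nat_lit 35) (nat_lit 1) (nat_lit 159) (nat_lit 310) (nat_lit 251)) (XT.nd (nat_lit 94) (nat_lit 252) (nat_lit 0) (XT.lf (nat_lit 168) (nat_lit 10784346930) (nat_lit 0) (nat_lit 13396326841) (nat_lit 84) (nat_lit 13396326841) (nat_lit 33) (nat_lit 1) (nat_lit 31) (nat_lit 1) (nat_lit 32) (nat_lit 1) (nat_lit 160) (nat_lit 310) (nat_lit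 250)) (XT.lf (nat_lit 252) (nat_lit 36480210244) (nat_lit 0) (nat_lit 235030997) (nat_lit 168) (nat_lit 235030997) (nat_lit 31) (nat_lit 1) (nat_lit 28) (nat_lit 1) (nat_lit 30) (nat_lit 1) (nat_lit 161) (nat_lit 310) (nat_lit 249)))) (XT.nd (nat_lit 188) (nat_lit 168) (nat_lit 0) (XT.nd (nat_lit 94) (nat_lit 84) (nat_lit 0) (XT.lf (nat_lit 84) (nat_lit 12443758652) (nat_lit 0) (nat_lit 11429375049) (nat_lit 252) (nat_lit 12443758652) (nat_lit 29) (nat_lit 1) (nat_lit 28) (nat_lit 1) (nat_lit 31) (nat_lit 1) (nat_lit 162) (nat_lit 310) (nat_lit 248)) (XT.lf (nat_lit 168) (nat_lit 13662512603) (nat_lit 0) (nat_lit 11021191245) (nat_lit 84) (nat_lit 11021191245) (nat_lit 29) (nat_lit 1) (nat_lit 27) (nat_lit 1) (nat_lit 28) (nat_lit 1) (nat_lit 163) (nat_lit 310) (nat_lit 247))) (XT.nd (nat_lit 94) (nat_lit 168) (nat_lit 0) (XT.lf (nat_lit 0) (nat_lit 1374028159) (nat_lit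 0) (nat_lit 32363318736) (nat_lit 168) (nat_lit 1374028159) (nat_lit 27) (nat_lit 3) (nat_lit 27) (nat_lit 1) (nat_lit 29) (nat_lit 1) (nat_lit 164) (nat_lit 310) (nat_lit 246)) (XT.lf (nat_lit 84) (nat_lit 13303839712) (nat_lit 0) (nat_lit 7907205053) (nat_lit 168) (nat_lit 13303839712) (nat_lit 26) (nat_lit 1) (nat_lit 25) (nat_lit 1) (nat_lit 27) (nat_lit 1) (nat_lit 165) (nat_lit 310) (nat_lit 245))))))) (XT.nd (nat_lit 1222) (nat_lit 1008) (nat_lit 0) (XT.nd (nat_lit 564) (nat_lit 588) (nat_lit 0) (XT.nd (nat_lit 282) (nat_lit 252) (nat_lit 0) (XT.nd (nat_lit 94) (nat_lit 168) (nat_lit 0) (XT.lf (nat_lit 168) (nat_lit 15802281688) (nat_lit 0) (nat_lit 9067161312) (nat_lit 84) (nat_lit 9067161312) (nat_lit 26) (nat_lit 1) (nat_lit 24) (nat_lit 1) (nat_lit 25) (nat_lit 1) (nat_lit 166) (nat_lit 310) (nat_lit 244)) (XT.nd (nat_lit 94) (nat_lit 168) (nat_lit 0) (XT.lf (nat_lit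 0) (nat_lit 2626186451) (nat_lit 0) (nat_lit 28121152501) (nat_lit 168) (nat_lit 2626186451) (nat_lit 24) (nat_lit 3) (nat_lit 24) (nat_lit 1) (nat_lit 26) (nat_lit 1) (nat_lit 167) (nat_lit 310) (nat_lit 243)) (XT.lf (nat_lit 84) (nat_lit 13865414877) (nat_lit 0) (nat_lit 5080734229) (nat_lit 168) (nat_lit 13865414877) (nat_lit 23) (nat_lit 1) (nat_lit 22) (nat_lit 1) (nat_lit 24) (nat_lit 1) (nat_lit 168) (nat_lit 310) (nat_lit 242)))) (XT.nd (nat_lit 94) (nat_lit 168) (nat_lit 0) (XT.lf (nat_lit 168) (nat_lit 17345432211) (nat_lit 0) (nat_lit 7459576051) (nat_lit 84) (nat_lit 7459576051) (nat_lit 23) (nat_lit 1) (nat_lit 21) (nat_lit 1) (nat_lit 22) (nat_lit 1) (nat_lit 169) (nat_lit 310) (nat_lit 241)) (XT.nd (nat_lit 94) (nat_lit 168) (nat_lit 0) (XT.lf (nat_lit 0) (nat_lit 3585113030) (nat_lit 0) (nat_lit 24559884694) (nat_lit 168) (nat_lit 3585113030) (nat_lit 21)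 (nat_lit 3) (nat_lit 21) (nat_lit 1) (nat_lit 23) (nat_lit 1) (nat_lit 170) (nat_lit 310) (nat_lit 240)) (XT.lf (nat_lit 84) (nat_lit 14188361630) (nat_lit 0) (nat_lit 2823225064) (nat_lit 168) (nat_lit 14188361630) (nat_lit 20) (nat_lit 1) (nat_lit 19) (nat_lit 1) (nat_lit 21) (nat_lit 1) (nat_lit 171) (nat_lit 310) (nat_lit 239))))) (XT.nd (nat_lit 282) (nat_lit 336) (nat_lit 0) (XT.nd (nat_lit 94) (nat_lit 168) (nat_lit 0) (XT.lf (nat_lit 168) (nat_lit 18408088063) (nat_lit 0) (nat_lit 6137011678) (nat_lit 84) (nat_lit 6137011678) (nat_lit 20) (nat_lit 1) (nat_lit 18) (nat_lit 1) (nat_lit 19) (nat_lit 1) (nat_lit 172) (nat_lit 310) (nat_lit 238)) (XT.nd (nat_lit 94) (nat_lit 168) (nat_lit 0) (XT.lf (nat_lit 0) (nat_lit 4306188922) (nat_lit 0) (nat_lit 21562185478) (nat_lit 168) (nat_lit 4306188922) (nat_lit 18) (nat_lit 3) (nat_lit 18) (nat_lit 1) (nat_lit 20) (nat_lit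 1) (nat_lit 173) (nat_lit 310) (nat_lit 237)) (XT.lf (nat_lit 84) (nat_lit 14321610223) (nat_lit 0) (nat_lit 1030571809) (nat_lit 168) (nat_lit 14321610223) (nat_lit 17) (nat_lit 1) (nat_lit 16) (nat_lit 1) (nat_lit 18) (nat_lit 1) (nat_lit 174) (nat_lit 310) (nat_lit 236)))) (XT.nd (nat_lit 188) (nat_lit 252) (nat_lit 0) (XT.nd (nat_lit 94) (nat_lit 0) (nat_lit 0) (XT.lf (nat_lit 168) (nat_lit 19085292040) (nat_lit 0) (nat_lit 5048934695) (nat_lit 84) (nat_lit 5048934695) (nat_lit 17) (nat_lit 1) (nat_lit 15) (nat_lit 1) (nat_lit 16) (nat_lit 1) (nat_lit 175) (nat_lit 310) (nat_lit 235)) (XT.lf (nat_lit 0) (nat_lit 4834814720) (nat_lit 0) (nat_lit 19031365792) (nat_lit 168) (nat_lit 4834814720) (nat_lit 15) (nat_lit 3) (nat_lit 15) (nat_lit 1) (nat_lit 17) (nat_lit 1) (nat_lit 176) (nat_lit 310) (nat_lit 234))) (XT.nd (nat_lit 94) (nat_lit 168) (nat_lit 0) (XT.lf (nat_lit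 84) (nat_lit 395374215) (nat_lit 0) (nat_lit 13915899045) (nat_lit 84) (nat_lit 13915899045) (nat_lit 15) (nat_lit 3) (nat_lit 14) (nat_lit 1) (nat_lit 15) (nat_lit 1) (nat_lit 177) (nat_lit 310) (nat_lit 233)) (XT.lf (nat_lit 168) (nat_lit 19454766931) (nat_lit 0) (nat_lit 4153771069) (nat_lit 84) (nat_lit 4153771069) (nat_lit 14) (nat_lit 1) (nat_lit 12) (nat_lit 1) (nat_lit 13) (nat_lit 1) (nat_lit 178) (nat_lit 310) (nat_lit 232)))))) (XT.nd (nat_lit 658) (nat_lit 504) (nat_lit 0) (XT.nd (nat_lit 282) (nat_lit 252) (nat_lit 0) (XT.nd (nat_lit 94) (nat_lit 252) (nat_lit 0) (XT.lf (nat_lit 0) (nat_lit 5208187786) (nat_lit 0) (nat_lit 16887725486) (nat_lit 168) (nat_lit 5208187786) (nat_lit 12) (nat_lit 3) (nat_lit 12) (nat_lit 1) (nat_lit 14) (nat_lit 1) (nat_lit 179) (nat_lit 310) (nat_lit 231)) (XT.nd (nat_lit 94) (nat_lit 168) (nat_lit 0) (XT.lf (nat_lit 84) (nat_lit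 1536001132) (nat_lit 0) (nat_lit 12659370370) (nat_lit 84) (nat_lit 12659370370) (nat_lit 12) (nat_lit 3) (nat_lit 11) (nat_lit 1) (nat_lit 12) (nat_lit 1) (nat_lit 180) (nat_lit 310) (nat_lit 230)) (XT.lf (nat_lit 168) (nat_lit 19580008651) (nat_lit 0) (nat_lit 3417317738) (nat_lit 84) (nat_lit 3417317738) (nat_lit 11) (nat_lit 1) (nat_lit 9) (nat_lit 1) (nat_lit 10) (nat_lit 1) (nat_lit 181) (nat_lit 310) (nat_lit 229)))) (XT.nd (nat_lit 188) (nat_lit 168) (nat_lit 0) (XT.nd (nat_lit 94) (nat_lit 84) (nat_lit 0) (XT.lf (nat_lit 0) (nat_lit 5456763980) (nat_lit 0) (nat_lit 15065548551) (nat_lit 168) (nat_lit 5456763980) (nat_lit 9) (nat_lit 3) (nat_lit 9) (nat_lit 1) (nat_lit 11) (nat_lit 1) (nat_lit 182) (nat_lit 310) (nat_lit 228)) (XT.lf (nat_lit 84) (nat_lit 2416744110) (nat_lit 0) (nat_lit 11567967510) (nat_lit 84) (nat_lit 11567967510) (nat_lit 9) (nat_lit 3) (nat_lit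 8) (nat_lit 1) (nat_lit 9) (nat_lit 1) (nat_lit 183) (nat_lit 310) (nat_lit 227))) (XT.nd (nat_lit 94) (nat_lit 0) (nat_lit 0) (XT.lf (nat_lit 168) (nat_lit 19512829907) (nat_lit 0) (nat_lit 2811435760) (nat_lit 84) (nat_lit 2811435760) (nat_lit 8) (nat_lit 1) (nat_lit 6) (nat_lit 1) (nat_lit 7) (nat_lit 1) (nat_lit 184) (nat_lit 310) (nat_lit 226)) (XT.lf (nat_lit 0) (nat_lit 5605459898) (nat_lit 0) (nat_lit 13510630743) (nat_lit 168) (nat_lit 5605459898) (nat_lit 6) (nat_lit 3) (nat_lit 6) (nat_lit 1) (nat_lit 8) (nat_lit 1) (nat_lit 185) (nat_lit 310) (nat_lit 225))))) (XT.nd (nat_lit 282) (nat_lit 252) (nat_lit 0) (XT.nd (nat_lit 94) (nat_lit 168) (nat_lit 0) (XT.lf (nat_lit 84) (nat_lit 3086425339) (nat_lit 0) (nat_lit 10615159477) (nat_lit 84) (nat_lit 10615159477) (nat_lit 6) (nat_lit 3) (nat_lit 5) (nat_lit 1) (nat_lit 6) (nat_lit 1) (nat_lit 186) (nat_lit 310) (nat_lit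 224)) (XT.nd (nat_lit 94) (nat_lit 0) (nat_lit 0) (XT.lf (nat_lit 168) (nat_lit 19295451868) (nat_lit 0) (nat_lit 2312975157) (nat_lit 84) (nat_lit 2312975157) (nat_lit 5) (nat_lit 1) (nat_lit 3) (nat_lit 1) (nat_lit 4) (nat_lit 1) (nat_lit 187) (nat_lit 310) (nat_lit 223)) (XT.lf (nat_lit 0) (nat_lit 5674641603) (nat_lit 0) (nat_lit 12178245222) (nat_lit 168) (nat_lit 5674641603) (nat_lit 3) (nat_lit 3) (nat_lit 3) (nat_lit 1) (nat_lit 5) (nat_lit 1) (nat_lit 188) (nat_lit 310) (nat_lit 222)))) (XT.nd (nat_lit 188) (nat_lit 0) (nat_lit 0) (XT.nd (nat_lit 94) (nat_lit 168) (nat_lit 0) (XT.lf (nat_lit 84) (nat_lit 3585080220) (nat_lit 0) (nat_lit 9778988428) (nat_lit 84) (nat_lit 9778988428) (nat_lit 3) (nat_lit 3) (nat_lit 2) (nat_lit 1) (nat_lit 3) (nat_lit 1) (nat_lit 189) (nat_lit 310) (nat_lit 221)) (XT.lf (nat_lit 0) (nat_lit 33074807652) (nat_lit 0) (nat_lit 0) (nat_lit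 0) (nat_lit 0) (nat_lit 0) (nat_lit 0) (nat_lit 1) (nat_lit 0) (nat_lit 1) (nat_lit 0) (nat_lit 190) (nat_lit 310) (nat_lit 220))) (XT.nd (nat_lit 94) (nat_lit 0) (nat_lit 0) (XT.lf (nat_lit 0) (nat_lit 33055537081) (nat_lit 0) (nat_lit 0) (nat_lit 0) (nat_lit 0) (nat_lit 0) (nat_lit 0) (nat_lit 1) (nat_lit 0) (nat_lit 1) (nat_lit 0) (nat_lit 191) (nat_lit 310) (nat_lit 219)) (XT.lf (nat_lit 0) (nat_lit 33037184156) (nat_lit 0) (nat_lit 0) (nat_lit 0) (nat_lit 0) (nat_lit 0) (nat_lit 0) (nat_lit 1) (nat_lit 0) (nat_lit 1) (nat_lit 0) (nat_lit 192) (nat_lit 310) (nat_lit 218))))))))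
noncomputable def ec218 : XT := (XT.nd (nat_lit 2538) (nat_lit 0) (nat_lit 0) (XT.nd (nat_lit 1222) (nat_lit 0) (nat_lit 0) (XT.nd (nat_lit 564) (nat_lit 0) (nat_lit 0) (XT.nd (nat_lit 282) (nat_lit 0) (nat_lit 0) (XT.nd (nat_lit 94) (nat_lit 0) (nat_lit 0) (XT.lf (nat_lit 0) (nat_lit 33019705179) (nat_lit 0) (nat_lit 0) (nat_lit 0) (nat_lit 0) (nat_lit 0) (nat_lit 0) (nat_lit 1) (nat_lit 0) (nat_lit 1) (nat_lit 0) (nat_lit 193) (nat_lit 310) (nat_lit 217)) (XT.nd (nat_lit 94) (nat_lit 0) (nat_lit 0) (XT.lf (nat_lit 0) (nat_lit 33003058535) (nat_lit 0) (nat_lit 0) (nat_lit 0) (nat_lit 0) (nat_lit 0) (nat_lit 0) (nat_lit 1) (nat_lit 0) (nat_lit 1) (nat_lit 0) (nat_lit 194) (nat_lit 310) (nat_lit 216)) (XT.lf (nat_lit 0) (nat_lit 32987204588) (nat_lit 0) (nat_lit 0) (nat_lit 0) (nat_lit 0) (nat_lit 0) (nat_lit 0) (nat_lit 1) (nat_lit 0) (nat_lit 1) (nat_lit 0) (nat_lit 195)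 (nat_lit 310) (nat_lit 215)))) (XT.nd (nat_lit 94) (nat_lit 0) (nat_lit 0) (XT.lf (nat_lit 0) (nat_lit 32972105591) (nat_lit 0) (nat_lit 0) (nat_lit 0) (nat_lit 0) (nat_lit 0) (nat_lit 0) (nat_lit 1) (nat_lit 0) (nat_lit 1) (nat_lit 0) (nat_lit 196) (nat_lit 310) (nat_lit 214)) (XT.nd (nat_lit 94) (nat_lit 0) (nat_lit 0) (XT.lf (nat_lit 0) (nat_lit 32957725594) (nat_lit 0) (nat_lit 0) (nat_lit 0) (nat_lit 0) (nat_lit 0) (nat_lit 0) (nat_lit 1) (nat_lit 0) (nat_lit 1) (nat_lit 0) (nat_lit 197) (nat_lit 310) (nat_lit 213)) (XT.lf (nat_lit 0) (nat_lit 32944030359) (nat_lit 0) (nat_lit 0) (nat_lit 0) (nat_lit 0) (nat_lit 0) (nat_lit 0) (nat_lit 1) (nat_lit 0) (nat_lit 1) (nat_lit 0) (nat_lit 198) (nat_lit 310) (nat_lit 212))))) (XT.nd (nat_lit 282) (nat_lit 0) (nat_lit 0) (XT.nd (nat_lit 94) (nat_lit 0) (nat_lit 0) (XT.lf (nat_lit 0) (nat_lit 32930987277) (nat_lit 0) (nat_lit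 0) (nat_lit 0) (nat_lit 0) (nat_lit 0) (nat_lit 0) (nat_lit 1) (nat_lit 0) (nat_lit 1) (nat_lit 0) (nat_lit 199) (nat_lit 310) (nat_lit 211)) (XT.nd (nat_lit 94) (nat_lit 0) (nat_lit 0) (XT.lf (nat_lit 0) (nat_lit 32918565295) (nat_lit 0) (nat_lit 0) (nat_lit 0) (nat_lit 0) (nat_lit 0) (nat_lit 0) (nat_lit 1) (nat_lit 0) (nat_lit 1) (nat_lit 0) (nat_lit 200) (nat_lit 310) (nat_lit 210)) (XT.lf (nat_lit 0) (nat_lit 32906734836) (nat_lit 0) (nat_lit 0) (nat_lit 0) (nat_lit 0) (nat_lit 0) (nat_lit 0) (nat_lit 1) (nat_lit 0) (nat_lit 1) (nat_lit 0) (nat_lit 201) (nat_lit 310) (nat_lit 209)))) (XT.nd (nat_lit 188) (nat_lit 0) (nat_lit 0) (XT.nd (nat_lit 94) (nat_lit 0) (nat_lit 0) (XT.lf (nat_lit 0) (nat_lit 32895467732) (nat_lit 0) (nat_lit 0) (nat_lit 0) (nat_lit 0) (nat_lit 0) (nat_lit 0) (nat_lit 1) (nat_lit 0) (nat_lit 1) (nat_lit 0) (nat_lit 202) (nat_lit 310) (nat_lit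 208)) (XT.lf (nat_lit 0) (nat_lit 32884737157) (nat_lit 0) (nat_lit 0) (nat_lit 0) (nat_lit 0) (nat_lit 0) (nat_lit 0) (nat_lit 1) (nat_lit 0) (nat_lit 1) (nat_lit 0) (nat_lit 203) (nat_lit 310) (nat_lit 207))) (XT.nd (nat_lit 94) (nat_lit 0) (nat_lit 0) (XT.lf (nat_lit 0) (nat_lit 32874517561) (nat_lit 0) (nat_lit 0) (nat_lit 0) (nat_lit 0) (nat_lit 0) (nat_lit 0) (nat_lit 1) (nat_lit 0) (nat_lit 1) (nat_lit 0) (nat_lit 204) (nat_lit 310) (nat_lit 206)) (XT.lf (nat_lit 0) (nat_lit 32864784613) (nat_lit 0) (nat_lit 0) (nat_lit 0) (nat_lit 0) (nat_lit 0) (nat_lit 0) (nat_lit 1) (nat_lit 0) (nat_lit 1) (nat_lit 0) (nat_lit 205) (nat_lit 310) (nat_lit 205)))))) (XT.nd (nat_lit 658) (nat_lit 0) (nat_lit 0) (XT.nd (nat_lit 282) (nat_lit 0) (nat_lit 0) (XT.nd (nat_lit 94) (nat_lit 0) (nat_lit 0) (XT.lf (nat_lit 0) (nat_lit 32855515139) (nat_lit 0) (nat_lit 0) (nat_lit 0) (nat_lit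 0) (nat_lit 0) (nat_lit 0) (nat_lit 1) (nat_lit 0) (nat_lit 1) (nat_lit 0) (nat_lit 206) (nat_lit 310) (nat_lit 204)) (XT.nd (nat_lit 94) (nat_lit 0) (nat_lit 0) (XT.lf (nat_lit 0) (nat_lit 32846687068) (nat_lit 0) (nat_lit 0) (nat_lit 0) (nat_lit 0) (nat_lit 0) (nat_lit 0) (nat_lit 1) (nat_lit 0) (nat_lit 1) (nat_lit 0) (nat_lit 207) (nat_lit 310) (nat_lit 203)) (XT.lf (nat_lit 0) (nat_lit 32838279381) (nat_lit 0) (nat_lit 0) (nat_lit 0) (nat_lit 0) (nat_lit 0) (nat_lit 0) (nat_lit 1) (nat_lit 0) (nat_lit 1) (nat_lit 0) (nat_lit 208) (nat_lit 310) (nat_lit 202)))) (XT.nd (nat_lit 188) (nat_lit 0) (nat_lit 0) (XT.nd (nat_lit 94) (nat_lit 0) (nat_lit 0) (XT.lf (nat_lit 0) (nat_lit 32830272061) (nat_lit 0) (nat_lit 0) (nat_lit 0) (nat_lit 0) (nat_lit 0) (nat_lit 0) (nat_lit 1) (nat_lit 0) (nat_lit 1) (nat_lit 0) (nat_lit 209) (nat_lit 310) (nat_lit 201)) (XT.lf (nat_lit 0)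 (nat_lit 32822646041) (nat_lit 0) (nat_lit 0) (nat_lit 0) (nat_lit 0) (nat_lit 0) (nat_lit 0) (nat_lit 1) (nat_lit 0) (nat_lit 1) (nat_lit 0) (nat_lit 210) (nat_lit 310) (nat_lit 200))) (XT.nd (nat_lit 94) (nat_lit 0) (nat_lit 0) (XT.lf (nat_lit 0) (nat_lit 32815383166) (nat_lit 0) (nat_lit 0) (nat_lit 0) (nat_lit 0) (nat_lit 0) (nat_lit 0) (nat_lit 1) (nat_lit 0) (nat_lit 1) (nat_lit 0) (nat_lit 211) (nat_lit 310) (nat_lit 199)) (XT.lf (nat_lit 0) (nat_lit 32808466141) (nat_lit 0) (nat_lit 0) (nat_lit 0) (nat_lit 0) (nat_lit 0) (nat_lit 0) (nat_lit 1) (nat_lit 0) (nat_lit 1) (nat_lit 0) (nat_lit 212) (nat_lit 310) (nat_lit 198))))) (XT.nd (nat_lit 282) (nat_lit 0) (nat_lit 0) (XT.nd (nat_lit 94) (nat_lit 0) (nat_lit 0) (XT.lf (nat_lit 0) (nat_lit 32801878499) (nat_lit 0) (nat_lit 0) (nat_lit 0) (nat_lit 0) (nat_lit 0) (nat_lit 0) (nat_lit 1) (nat_lit 0) (nat_lit 1) (nat_lit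 0) (nat_lit 213) (nat_lit 310) (nat_lit 197)) (XT.nd (nat_lit 94) (nat_lit 0) (nat_lit 0) (XT.lf (nat_lit 0) (nat_lit 32795604554) (nat_lit 0) (nat_lit 0) (nat_lit 0) (nat_lit 0) (nat_lit 0) (nat_lit 0) (nat_lit 1) (nat_lit 0) (nat_lit 1) (nat_lit 0) (nat_lit 214) (nat_lit 310) (nat_lit 196)) (XT.lf (nat_lit 0) (nat_lit 32789629368) (nat_lit 0) (nat_lit 0) (nat_lit 0) (nat_lit 0) (nat_lit 0) (nat_lit 0) (nat_lit 1) (nat_lit 0) (nat_lit 1) (nat_lit 0) (nat_lit 215) (nat_lit 310) (nat_lit 195)))) (XT.nd (nat_lit 188) (nat_lit 0) (nat_lit 0) (XT.nd (nat_lit 94) (nat_lit 0) (nat_lit 0) (XT.lf (nat_lit 0) (nat_lit 32783938715) (nat_lit 0) (nat_lit 0) (nat_lit 0) (nat_lit 0) (nat_lit 0) (nat_lit 0) (nat_lit 1) (nat_lit 0) (nat_lit 1) (nat_lit 0) (nat_lit 216) (nat_lit 310) (nat_lit 194)) (XT.lf (nat_lit 0) (nat_lit 32778519045) (nat_lit 0) (nat_lit 0) (nat_lit 0) (nat_lit 0) (nat_lit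 0) (nat_lit 0) (nat_lit 1) (nat_lit 0) (nat_lit 1) (nat_lit 0) (nat_lit 217) (nat_lit 310) (nat_lit 193))) (XT.nd (nat_lit 94) (nat_lit 0) (nat_lit 0) (XT.lf (nat_lit 0) (nat_lit 32773357455) (nat_lit 0) (nat_lit 0) (nat_lit 0) (nat_lit 0) (nat_lit 0) (nat_lit 0) (nat_lit 1) (nat_lit 0) (nat_lit 1) (nat_lit 0) (nat_lit 218) (nat_lit 310) (nat_lit 192)) (XT.lf (nat_lit 0) (nat_lit 32768441655) (nat_lit 0) (nat_lit 0) (nat_lit 0) (nat_lit 0) (nat_lit 0) (nat_lit 0) (nat_lit 1) (nat_lit 0) (nat_lit 1) (nat_lit 0) (nat_lit 219) (nat_lit 310) (nat_lit 191))))))) (XT.nd (nat_lit 1222) (nat_lit 0) (nat_lit 0) (XT.nd (nat_lit 564) (nat_lit 0) (nat_lit 0) (XT.nd (nat_lit 282) (nat_lit 0) (nat_lit 0) (XT.nd (nat_lit 94) (nat_lit 0) (nat_lit 0) (XT.lf (nat_lit 0) (nat_lit 32763759940) (nat_lit 0) (nat_lit 0) (nat_lit 0) (nat_lit 0) (nat_lit 0) (nat_lit 0) (nat_lit 1) (nat_lit 0) (nat_lit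 1) (nat_lit 0) (nat_lit 220) (nat_lit 310) (nat_lit 190)) (XT.nd (nat_lit 94) (nat_lit 0) (nat_lit 0) (XT.lf (nat_lit 0) (nat_lit 32759301165) (nat_lit 0) (nat_lit 0) (nat_lit 0) (nat_lit 0) (nat_lit 0) (nat_lit 0) (nat_lit 1) (nat_lit 0) (nat_lit 1) (nat_lit 0) (nat_lit 221) (nat_lit 310) (nat_lit 189)) (XT.lf (nat_lit 0) (nat_lit 32755054712) (nat_lit 0) (nat_lit 0) (nat_lit 0) (nat_lit 0) (nat_lit 0) (nat_lit 0) (nat_lit 1) (nat_lit 0) (nat_lit 1) (nat_lit 0) (nat_lit 222) (nat_lit 310) (nat_lit 188)))) (XT.nd (nat_lit 94) (nat_lit 0) (nat_lit 0) (XT.lf (nat_lit 0) (nat_lit 32751010471) (nat_lit 0) (nat_lit 0) (nat_lit 0) (nat_lit 0) (nat_lit 0) (nat_lit 0) (nat_lit 1) (nat_lit 0) (nat_lit 1) (nat_lit 0) (nat_lit 223) (nat_lit 310) (nat_lit 187)) (XT.nd (nat_lit 94) (nat_lit 0) (nat_lit 0) (XT.lf (nat_lit 0) (nat_lit 32747158813) (nat_lit 0) (nat_lit 0) (nat_lit 0) (nat_lit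 0) (nat_lit 0) (nat_lit 0) (nat_lit 1) (nat_lit 0) (nat_lit 1) (nat_lit 0) (nat_lit 224) (nat_lit 310) (nat_lit 186)) (XT.lf (nat_lit 0) (nat_lit 32743490567) (nat_lit 0) (nat_lit 0) (nat_lit 0) (nat_lit 0) (nat_lit 0) (nat_lit 0) (nat_lit 1) (nat_lit 0) (nat_lit 1) (nat_lit 0) (nat_lit 225) (nat_lit 310) (nat_lit 185))))) (XT.nd (nat_lit 282) (nat_lit 0) (nat_lit 0) (XT.nd (nat_lit 94) (nat_lit 0) (nat_lit 0) (XT.lf (nat_lit 0) (nat_lit 32739996999) (nat_lit 0) (nat_lit 0) (nat_lit 0) (nat_lit 0) (nat_lit 0) (nat_lit 0) (nat_lit 1) (nat_lit 0) (nat_lit 1) (nat_lit 0) (nat_lit 226) (nat_lit 310) (nat_lit 184)) (XT.nd (nat_lit 94) (nat_lit 0) (nat_lit 0) (XT.lf (nat_lit 0) (nat_lit 32736669792) (nat_lit 0) (nat_lit 0) (nat_lit 0) (nat_lit 0) (nat_lit 0) (nat_lit 0) (nat_lit 1) (nat_lit 0) (nat_lit 1) (nat_lit 0) (nat_lit 227) (nat_lit 310) (nat_lit 183)) (XT.lf (nat_lit 0)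 (nat_lit 32733501024) (nat_lit 0) (nat_lit 0) (nat_lit 0) (nat_lit 0) (nat_lit 0) (nat_lit 0) (nat_lit 1) (nat_lit 0) (nat_lit 1) (nat_lit 0) (nat_lit 228) (nat_lit 310) (nat_lit 182)))) (XT.nd (nat_lit 188) (nat_lit 0) (nat_lit 0) (XT.nd (nat_lit 94) (nat_lit 0) (nat_lit 0) (XT.lf (nat_lit 0) (nat_lit 32730483149) (nat_lit 0) (nat_lit 0) (nat_lit 0) (nat_lit 0) (nat_lit 0) (nat_lit 0) (nat_lit 1) (nat_lit 0) (nat_lit 1) (nat_lit 0) (nat_lit 229) (nat_lit 310) (nat_lit 181)) (XT.lf (nat_lit 0) (nat_lit 32727608982) (nat_lit 0) (nat_lit 0) (nat_lit 0) (nat_lit 0) (nat_lit 0) (nat_lit 0) (nat_lit 1) (nat_lit 0) (nat_lit 1) (nat_lit 0) (nat_lit 230) (nat_lit 310) (nat_lit 180))) (XT.nd (nat_lit 94) (nat_lit 0) (nat_lit 0) (XT.lf (nat_lit 0) (nat_lit 32724871681) (nat_lit 0) (nat_lit 0) (nat_lit 0) (nat_lit 0) (nat_lit 0) (nat_lit 0) (nat_lit 1) (nat_lit 0) (nat_lit 1) (nat_lit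 0) (nat_lit 231) (nat_lit 310) (nat_lit 179)) (XT.lf (nat_lit 0) (nat_lit 32722264727) (nat_lit 0) (nat_lit 0) (nat_lit 0) (nat_lit 0) (nat_lit 0) (nat_lit 0) (nat_lit 1) (nat_lit 0) (nat_lit 1) (nat_lit 0) (nat_lit 232) (nat_lit 310) (nat_lit 178)))))) (XT.nd (nat_lit 658) (nat_lit 0) (nat_lit 0) (XT.nd (nat_lit 282) (nat_lit 0) (nat_lit 0) (XT.nd (nat_lit 94) (nat_lit 0) (nat_lit 0) (XT.lf (nat_lit 0) (nat_lit 32719781914) (nat_lit 0) (nat_lit 0) (nat_lit 0) (nat_lit 0) (nat_lit 0) (nat_lit 0) (nat_lit 1) (nat_lit 0) (nat_lit 1) (nat_lit 0) (nat_lit 233) (nat_lit 310) (nat_lit 177)) (XT.nd (nat_lit 94) (nat_lit 0) (nat_lit 0) (XT.lf (nat_lit 0) (nat_lit 32717417330) (nat_lit 0) (nat_lit 0) (nat_lit 0) (nat_lit 0) (nat_lit 0) (nat_lit 0) (nat_lit 1) (nat_lit 0) (nat_lit 1) (nat_lit 0) (nat_lit 234) (nat_lit 310) (nat_lit 176)) (XT.lf (nat_lit 0) (nat_lit 32715165345) (nat_lit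 0) (nat_lit 0) (nat_lit 0) (nat_lit 0) (nat_lit 0) (nat_lit 0) (nat_lit 1) (nat_lit 0) (nat_lit 1) (nat_lit 0) (nat_lit 235) (nat_lit 310) (nat_lit 175)))) (XT.nd (nat_lit 188) (nat_lit 0) (nat_lit 0) (XT.nd (nat_lit 94) (nat_lit 0) (nat_lit 0) (XT.lf (nat_lit 0) (nat_lit 32713020598) (nat_lit 0) (nat_lit 0) (nat_lit 0) (nat_lit 0) (nat_lit 0) (nat_lit 0) (nat_lit 1) (nat_lit 0) (nat_lit 1) (nat_lit 0) (nat_lit 236) (nat_lit 310) (nat_lit 174)) (XT.lf (nat_lit 0) (nat_lit 32710977982) (nat_lit 0) (nat_lit 0) (nat_lit 0) (nat_lit 0) (nat_lit 0) (nat_lit 0) (nat_lit 1) (nat_lit 0) (nat_lit 1) (nat_lit 0) (nat_lit 237) (nat_lit 310) (nat_lit 173))) (XT.nd (nat_lit 94) (nat_lit 0) (nat_lit 0) (XT.lf (nat_lit 0) (nat_lit 32709032633) (nat_lit 0) (nat_lit 0) (nat_lit 0) (nat_lit 0) (nat_lit 0) (nat_lit 0) (nat_lit 1) (nat_lit 0) (nat_lit 1) (nat_lit 0) (nat_lit 238) (nat_lit 310)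 (nat_lit 172)) (XT.lf (nat_lit 0) (nat_lit 32707179919) (nat_lit 0) (nat_lit 0) (nat_lit 0) (nat_lit 0) (nat_lit 0) (nat_lit 0) (nat_lit 1) (nat_lit 0) (nat_lit 1) (nat_lit 0) (nat_lit 239) (nat_lit 310) (nat_lit 171))))) (XT.nd (nat_lit 282) (nat_lit 0) (nat_lit 0) (XT.nd (nat_lit 94) (nat_lit 0) (nat_lit 0) (XT.lf (nat_lit 0) (nat_lit 32705415430) (nat_lit 0) (nat_lit 0) (nat_lit 0) (nat_lit 0) (nat_lit 0) (nat_lit 0) (nat_lit 1) (nat_lit 0) (nat_lit 1) (nat_lit 0) (nat_lit 240) (nat_lit 310) (nat_lit 170)) (XT.nd (nat_lit 94) (nat_lit 0) (nat_lit 0) (XT.lf (nat_lit 0) (nat_lit 32703734965) (nat_lit 0) (nat_lit 0) (nat_lit 0) (nat_lit 0) (nat_lit 0) (nat_lit 0) (nat_lit 1) (nat_lit 0) (nat_lit 1) (nat_lit 0) (nat_lit 241) (nat_lit 310) (nat_lit 169)) (XT.lf (nat_lit 0) (nat_lit 32702134521) (nat_lit 0) (nat_lit 0) (nat_lit 0) (nat_lit 0) (nat_lit 0) (nat_lit 0) (nat_lit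 1) (nat_lit 0) (nat_lit 1) (nat_lit 0) (nat_lit 242) (nat_lit 310) (nat_lit 168)))) (XT.nd (nat_lit 188) (nat_lit 0) (nat_lit 0) (XT.nd (nat_lit 94) (nat_lit 0) (nat_lit 0) (XT.lf (nat_lit 0) (nat_lit 32700610289) (nat_lit 0) (nat_lit 0) (nat_lit 0) (nat_lit 0) (nat_lit 0) (nat_lit 0) (nat_lit 1) (nat_lit 0) (nat_lit 1) (nat_lit 0) (nat_lit 243) (nat_lit 310) (nat_lit 167)) (XT.lf (nat_lit 0) (nat_lit 32699158640) (nat_lit 0) (nat_lit 0) (nat_lit 0) (nat_lit 0) (nat_lit 0) (nat_lit 0) (nat_lit 1) (nat_lit 0) (nat_lit 1) (nat_lit 0) (nat_lit 244) (nat_lit 310) (nat_lit 166))) (XT.nd (nat_lit 94) (nat_lit 0) (nat_lit 0) (XT.lf (nat_lit 0) (nat_lit 32697776117) (nat_lit 0) (nat_lit 0) (nat_lit 0) (nat_lit 0) (nat_lit 0) (nat_lit 0) (nat_lit 1) (nat_lit 0) (nat_lit 1) (nat_lit 0) (nat_lit 245) (nat_lit 310) (nat_lit 165)) (XT.lf (nat_lit 0) (nat_lit 32696459428) (nat_lit 0)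 (nat_lit 0) (nat_lit 0) (nat_lit 0) (nat_lit 0) (nat_lit 0) (nat_lit 1) (nat_lit 0) (nat_lit 1) (nat_lit 0) (nat_lit 246) (nat_lit 310) (nat_lit 164))))))))
noncomputable def ec219 : XT := (XT.nd (nat_lit 2538) (nat_lit 0) (nat_lit 0) (XT.nd (nat_lit 1222) (nat_lit 0) (nat_lit 0) (XT.nd (nat_lit 564) (nat_lit 0) (nat_lit 0) (XT.nd (nat_lit 282) (nat_lit 0) (nat_lit 0) (XT.nd (nat_lit 94) (nat_lit 0) (nat_lit 0) (XT.lf (nat_lit 0) (nat_lit 32695205438) (nat_lit 0) (nat_lit 0) (nat_lit 0) (nat_lit 0) (nat_lit 0) (nat_lit 0) (nat_lit 1) (nat_lit 0) (nat_lit 1) (nat_lit 0) (nat_lit 247) (nat_lit 310) (nat_lit 163)) (XT.nd (nat_lit 94) (nat_lit 0) (nat_lit 0) (XT.lf (nat_lit 0) (nat_lit 32694011163) (nat_lit 0) (nat_lit 0) (nat_lit 0) (nat_lit 0) (nat_lit 0) (nat_lit 0) (nat_lit 1) (nat_lit 0) (nat_lit 1) (nat_lit 0) (nat_lit 248) (nat_lit 310) (nat_lit 162)) (XT.lf (nat_lit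 0) (nat_lit 32692873757) (nat_lit 0) (nat_lit 0) (nat_lit 0) (nat_lit 0) (nat_lit 0) (nat_lit 0) (nat_lit 1) (nat_lit 0) (nat_lit 1) (nat_lit 0) (nat_lit 249) (nat_lit 310) (nat_lit 161)))) (XT.nd (nat_lit 94) (nat_lit 0) (nat_lit 0) (XT.lf (nat_lit 0) (nat_lit 32691790514) (nat_lit 0) (nat_lit 0) (nat_lit 0) (nat_lit 0) (nat_lit 0) (nat_lit 0) (nat_lit 1) (nat_lit 0) (nat_lit 1) (nat_lit 0) (nat_lit 250) (nat_lit 310) (nat_lit 160)) (XT.nd (nat_lit 94) (nat_lit 0) (nat_lit 0) (XT.lf (nat_lit 0) (nat_lit 32690758854) (nat_lit 0) (nat_lit 0) (nat_lit 0) (nat_lit 0) (nat_lit 0) (nat_lit 0) (nat_lit 1) (nat_lit 0) (nat_lit 1) (nat_lit 0) (nat_lit 251) (nat_lit 310) (nat_lit 159)) (XT.lf (nat_lit 0) (nat_lit 32689776321) (nat_lit 0) (nat_lit 0) (nat_lit 0) (nat_lit 0) (nat_lit 0) (nat_lit 0) (nat_lit 1) (nat_lit 0) (nat_lit 1) (nat_lit 0) (nat_lit 252) (nat_lit 310) (nat_lit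 158))))) (XT.nd (nat_lit 282) (nat_lit 0) (nat_lit 0) (XT.nd (nat_lit 94) (nat_lit 0) (nat_lit 0) (XT.lf (nat_lit 0) (nat_lit 32688840575) (nat_lit 0) (nat_lit 0) (nat_lit 0) (nat_lit 0) (nat_lit 0) (nat_lit 0) (nat_lit 1) (nat_lit 0) (nat_lit 1) (nat_lit 0) (nat_lit 253) (nat_lit 310) (nat_lit 157)) (XT.nd (nat_lit 94) (nat_lit 0) (nat_lit 0) (XT.lf (nat_lit 0) (nat_lit 32687949388) (nat_lit 0) (nat_lit 0) (nat_lit 0) (nat_lit 0) (nat_lit 0) (nat_lit 0) (nat_lit 1) (nat_lit 0) (nat_lit 1) (nat_lit 0) (nat_lit 254) (nat_lit 310) (nat_lit 156)) (XT.lf (nat_lit 0) (nat_lit 32687100638) (nat_lit 0) (nat_lit 0) (nat_lit 0) (nat_lit 0) (nat_lit 0) (nat_lit 0) (nat_lit 1) (nat_lit 0) (nat_lit 1) (nat_lit 0) (nat_lit 255) (nat_lit 310) (nat_lit 155)))) (XT.nd (nat_lit 188) (nat_lit 0) (nat_lit 0) (XT.nd (nat_lit 94) (nat_lit 0) (nat_lit 0) (XT.lf (nat_lit 0) (nat_lit 32686292306)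 (nat_lit 0) (nat_lit 0) (nat_lit 0) (nat_lit 0) (nat_lit 0) (nat_lit 0) (nat_lit 1) (nat_lit 0) (nat_lit 1) (nat_lit 0) (nat_lit 256) (nat_lit 310) (nat_lit 154)) (XT.lf (nat_lit 0) (nat_lit 32685522465) (nat_lit 0) (nat_lit 0) (nat_lit 0) (nat_lit 0) (nat_lit 0) (nat_lit 0) (nat_lit 1) (nat_lit 0) (nat_lit 1) (nat_lit 0) (nat_lit 257) (nat_lit 310) (nat_lit 153))) (XT.nd (nat_lit 94) (nat_lit 0) (nat_lit 0) (XT.lf (nat_lit 0) (nat_lit 32684789283) (nat_lit 0) (nat_lit 0) (nat_lit 0) (nat_lit 0) (nat_lit 0) (nat_lit 0) (nat_lit 1) (nat_lit 0) (nat_lit 1) (nat_lit 0) (nat_lit 258) (nat_lit 310) (nat_lit 152)) (XT.lf (nat_lit 0) (nat_lit 32684091015) (nat_lit 0) (nat_lit 0) (nat_lit 0) (nat_lit 0) (nat_lit 0) (nat_lit 0) (nat_lit 1) (nat_lit 0) (nat_lit 1) (nat_lit 0) (nat_lit 259) (nat_lit 310) (nat_lit 151)))))) (XT.nd (nat_lit 658) (nat_lit 0) (nat_lit 0) (XT.nd (nat_lit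 282) (nat_lit 0) (nat_lit 0) (XT.nd (nat_lit 94) (nat_lit 0) (nat_lit 0) (XT.lf (nat_lit 0) (nat_lit 32683425998) (nat_lit 0) (nat_lit 0) (nat_lit 0) (nat_lit 0) (nat_lit 0) (nat_lit 0) (nat_lit 1) (nat_lit 0) (nat_lit 1) (nat_lit 0) (nat_lit 260) (nat_lit 310) (nat_lit 150)) (XT.nd (nat_lit 94) (nat_lit 0) (nat_lit 0) (XT.lf (nat_lit 0) (nat_lit 32682792648) (nat_lit 0) (nat_lit 0) (nat_lit 0) (nat_lit 0) (nat_lit 0) (nat_lit 0) (nat_lit 1) (nat_lit 0) (nat_lit 1) (nat_lit 0) (nat_lit 261) (nat_lit 310) (nat_lit 149)) (XT.lf (nat_lit 0) (nat_lit 32682189458) (nat_lit 0) (nat_lit 0) (nat_lit 0) (nat_lit 0) (nat_lit 0) (nat_lit 0) (nat_lit 1) (nat_lit 0) (nat_lit 1) (nat_lit 0) (nat_lit 262) (nat_lit 310) (nat_lit 148)))) (XT.nd (nat_lit 188) (nat_lit 0) (nat_lit 0) (XT.nd (nat_lit 94) (nat_lit 0) (nat_lit 0) (XT.lf (nat_lit 0) (nat_lit 32681614991) (nat_lit 0) (nat_lit 0)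 (nat_lit 0) (nat_lit 0) (nat_lit 0) (nat_lit 0) (nat_lit 1) (nat_lit 0) (nat_lit 1) (nat_lit 0) (nat_lit 263) (nat_lit 310) (nat_lit 147)) (XT.lf (nat_lit 0) (nat_lit 32681067879) (nat_lit 0) (nat_lit 0) (nat_lit 0) (nat_lit 0) (nat_lit 0) (nat_lit 0) (nat_lit 1) (nat_lit 0) (nat_lit 1) (nat_lit 0) (nat_lit 264) (nat_lit 310) (nat_lit 146))) (XT.nd (nat_lit 94) (nat_lit 0) (nat_lit 0) (XT.lf (nat_lit 0) (nat_lit 32680546821) (nat_lit 0) (nat_lit 0) (nat_lit 0) (nat_lit 0) (nat_lit 0) (nat_lit 0) (nat_lit 1) (nat_lit 0) (nat_lit 1) (nat_lit 0) (nat_lit 265) (nat_lit 310) (nat_lit 145)) (XT.lf (nat_lit 0) (nat_lit 32680050575) (nat_lit 0) (nat_lit 0) (nat_lit 0) (nat_lit 0) (nat_lit 0) (nat_lit 0) (nat_lit 1) (nat_lit 0) (nat_lit 1) (nat_lit 0) (nat_lit 266) (nat_lit 310) (nat_lit 144))))) (XT.nd (nat_lit 282) (nat_lit 0) (nat_lit 0) (XT.nd (nat_lit 94) (nat_lit 0) (nat_lit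 0) (XT.lf (nat_lit 0) (nat_lit 32679577959) (nat_lit 0) (nat_lit 0) (nat_lit 0) (nat_lit 0) (nat_lit 0) (nat_lit 0) (nat_lit 1) (nat_lit 0) (nat_lit 1) (nat_lit 0) (nat_lit 267) (nat_lit 310) (nat_lit 143)) (XT.nd (nat_lit 94) (nat_lit 0) (nat_lit 0) (XT.lf (nat_lit 0) (nat_lit 32679127849) (nat_lit 0) (nat_lit 0) (nat_lit 0) (nat_lit 0) (nat_lit 0) (nat_lit 0) (nat_lit 1) (nat_lit 0) (nat_lit 1) (nat_lit 0) (nat_lit 268) (nat_lit 310) (nat_lit 142)) (XT.lf (nat_lit 0) (nat_lit 32678699173) (nat_lit 0) (nat_lit 0) (nat_lit 0) (nat_lit 0) (nat_lit 0) (nat_lit 0) (nat_lit 1) (nat_lit 0) (nat_lit 1) (nat_lit 0) (nat_lit 269) (nat_lit 310) (nat_lit 141)))) (XT.nd (nat_lit 188) (nat_lit 0) (nat_lit 0) (XT.nd (nat_lit 94) (nat_lit 0) (nat_lit 0) (XT.lf (nat_lit 0) (nat_lit 32678290910) (nat_lit 0) (nat_lit 0) (nat_lit 0) (nat_lit 0) (nat_lit 0) (nat_lit 0) (nat_lit 1) (nat_lit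 0) (nat_lit 1) (nat_lit 0) (nat_lit 270) (nat_lit 310) (nat_lit 140)) (XT.lf (nat_lit 0) (nat_lit 32677902089) (nat_lit 0) (nat_lit 0) (nat_lit 0) (nat_lit 0) (nat_lit 0) (nat_lit 0) (nat_lit 1) (nat_lit 0) (nat_lit 1) (nat_lit 0) (nat_lit 271) (nat_lit 310) (nat_lit 139))) (XT.nd (nat_lit 94) (nat_lit 0) (nat_lit 0) (XT.lf (nat_lit 0) (nat_lit 32677531782) (nat_lit 0) (nat_lit 0) (nat_lit 0) (nat_lit 0) (nat_lit 0) (nat_lit 0) (nat_lit 1) (nat_lit 0) (nat_lit 1) (nat_lit 0) (nat_lit 272) (nat_lit 310) (nat_lit 138)) (XT.lf (nat_lit 0) (nat_lit 32677179109) (nat_lit 0) (nat_lit 0) (nat_lit 0) (nat_lit 0) (nat_lit 0) (nat_lit 0) (nat_lit 1) (nat_lit 0) (nat_lit 1) (nat_lit 0) (nat_lit 273) (nat_lit 310) (nat_lit 137))))))) (XT.nd (nat_lit 1316) (nat_lit 0) (nat_lit 0) (XT.nd (nat_lit 658) (nat_lit 0) (nat_lit 0) (XT.nd (nat_lit 282) (nat_lit 0) (nat_lit 0) (XT.nd (nat_lit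 94) (nat_lit 0) (nat_lit 0) (XT.lf (nat_lit 0) (nat_lit 32676843230) (nat_lit 0) (nat_lit 0) (nat_lit 0) (nat_lit 0) (nat_lit 0) (nat_lit 0) (nat_lit 1) (nat_lit 0) (nat_lit 1) (nat_lit 0) (nat_lit 274) (nat_lit 310) (nat_lit 136)) (XT.nd (nat_lit 94) (nat_lit 0) (nat_lit 0) (XT.lf (nat_lit 0) (nat_lit 32676523346) (nat_lit 0) (nat_lit 0) (nat_lit 0) (nat_lit 0) (nat_lit 0) (nat_lit 0) (nat_lit 1) (nat_lit 0) (nat_lit 1) (nat_lit 0) (nat_lit 275) (nat_lit 310) (nat_lit 135)) (XT.lf (nat_lit 0) (nat_lit 32676218693) (nat_lit 0) (nat_lit 0) (nat_lit 0) (nat_lit 0) (nat_lit 0) (nat_lit 0) (nat_lit 1) (nat_lit 0) (nat_lit 1) (nat_lit 0) (nat_lit 276) (nat_lit 310) (nat_lit 134)))) (XT.nd (nat_lit 188) (nat_lit 0) (nat_lit 0) (XT.nd (nat_lit 94) (nat_lit 0) (nat_lit 0) (XT.lf (nat_lit 0) (nat_lit 32675928549) (nat_lit 0) (nat_lit 0) (nat_lit 0) (nat_lit 0) (nat_lit 0) (nat_lit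 0) (nat_lit 1) (nat_lit 0) (nat_lit 1) (nat_lit 0) (nat_lit 277) (nat_lit 310) (nat_lit 133)) (XT.lf (nat_lit 0) (nat_lit 32675652220) (nat_lit 0) (nat_lit 0) (nat_lit 0) (nat_lit 0) (nat_lit 0) (nat_lit 0) (nat_lit 1) (nat_lit 0) (nat_lit 1) (nat_lit 0) (nat_lit 278) (nat_lit 310) (nat_lit 132))) (XT.nd (nat_lit 94) (nat_lit 0) (nat_lit 0) (XT.lf (nat_lit 0) (nat_lit 32675389050) (nat_lit 0) (nat_lit 0) (nat_lit 0) (nat_lit 0) (nat_lit 0) (nat_lit 0) (nat_lit 1) (nat_lit 0) (nat_lit 1) (nat_lit 0) (nat_lit 279) (nat_lit 310) (nat_lit 131)) (XT.lf (nat_lit 0) (nat_lit 32675138412) (nat_lit 0) (nat_lit 0) (nat_lit 0) (nat_lit 0) (nat_lit 0) (nat_lit 0) (nat_lit 1) (nat_lit 0) (nat_lit 1) (nat_lit 0) (nat_lit 280) (nat_lit 310) (nat_lit 130))))) (XT.nd (nat_lit 282) (nat_lit 0) (nat_lit 0) (XT.nd (nat_lit 94) (nat_lit 0) (nat_lit 0) (XT.lf (nat_lit 0) (nat_lit 32674899709)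 (nat_lit 0) (nat_lit 0) (nat_lit 0) (nat_lit 0) (nat_lit 0) (nat_lit 0) (nat_lit 1) (nat_lit 0) (nat_lit 1) (nat_lit 0) (nat_lit 281) (nat_lit 310) (nat_lit 129)) (XT.nd (nat_lit 94) (nat_lit 0) (nat_lit 0) (XT.lf (nat_lit 0) (nat_lit 32674672373) (nat_lit 0) (nat_lit 0) (nat_lit 0) (nat_lit 0) (nat_lit 0) (nat_lit 0) (nat_lit 1) (nat_lit 0) (nat_lit 1) (nat_lit 0) (nat_lit 282) (nat_lit 310) (nat_lit 128)) (XT.lf (nat_lit 0) (nat_lit 32674455863) (nat_lit 0) (nat_lit 0) (nat_lit 0) (nat_lit 0) (nat_lit 0) (nat_lit 0) (nat_lit 1) (nat_lit 0) (nat_lit 1) (nat_lit 0) (nat_lit 283) (nat_lit 310) (nat_lit 127)))) (XT.nd (nat_lit 188) (nat_lit 0) (nat_lit 0) (XT.nd (nat_lit 94) (nat_lit 0) (nat_lit 0) (XT.lf (nat_lit 0) (nat_lit 32674249662) (nat_lit 0) (nat_lit 0) (nat_lit 0) (nat_lit 0) (nat_lit 0) (nat_lit 0) (nat_lit 1) (nat_lit 0) (nat_lit 1) (nat_lit 0) (nat_lit 284) (nat_lit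 310) (nat_lit 126)) (XT.lf (nat_lit 0) (nat_lit 32674053281) (nat_lit 0) (nat_lit 0) (nat_lit 0) (nat_lit 0) (nat_lit 0) (nat_lit 0) (nat_lit 1) (nat_lit 0) (nat_lit 1) (nat_lit 0) (nat_lit 285) (nat_lit 310) (nat_lit 125))) (XT.nd (nat_lit 94) (nat_lit 0) (nat_lit 0) (XT.lf (nat_lit 0) (nat_lit 32673866251) (nat_lit 0) (nat_lit 0) (nat_lit 0) (nat_lit 0) (nat_lit 0) (nat_lit 0) (nat_lit 1) (nat_lit 0) (nat_lit 1) (nat_lit 0) (nat_lit 286) (nat_lit 310) (nat_lit 124)) (XT.lf (nat_lit 0) (nat_lit 32673688127) (nat_lit 0) (nat_lit 0) (nat_lit 0) (nat_lit 0) (nat_lit 0) (nat_lit 0) (nat_lit 1) (nat_lit 0) (nat_lit 1) (nat_lit 0) (nat_lit 287) (nat_lit 310) (nat_lit 123)))))) (XT.nd (nat_lit 658) (nat_lit 0) (nat_lit 0) (XT.nd (nat_lit 282) (nat_lit 0) (nat_lit 0) (XT.nd (nat_lit 94) (nat_lit 0) (nat_lit 0) (XT.lf (nat_lit 0) (nat_lit 32673518485) (nat_lit 0) (nat_lit 0) (nat_lit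 0) (nat_lit 0) (nat_lit 0) (nat_lit 0) (nat_lit 1) (nat_lit 0) (nat_lit 1) (nat_lit 0) (nat_lit 288) (nat_lit 310) (nat_lit 122)) (XT.nd (nat_lit 94) (nat_lit 0) (nat_lit 0) (XT.lf (nat_lit 0) (nat_lit 32673356922) (nat_lit 0) (nat_lit 0) (nat_lit 0) (nat_lit 0) (nat_lit 0) (nat_lit 0) (nat_lit 1) (nat_lit 0) (nat_lit 1) (nat_lit 0) (nat_lit 289) (nat_lit 310) (nat_lit 121)) (XT.lf (nat_lit 0) (nat_lit 32673203052) (nat_lit 0) (nat_lit 0) (nat_lit 0) (nat_lit 0) (nat_lit 0) (nat_lit 0) (nat_lit 1) (nat_lit 0) (nat_lit 1) (nat_lit 0) (nat_lit 290) (nat_lit 310) (nat_lit 120)))) (XT.nd (nat_lit 188) (nat_lit 0) (nat_lit 0) (XT.nd (nat_lit 94) (nat_lit 0) (nat_lit 0) (XT.lf (nat_lit 0) (nat_lit 32673056509) (nat_lit 0) (nat_lit 0) (nat_lit 0) (nat_lit 0) (nat_lit 0) (nat_lit 0) (nat_lit 1) (nat_lit 0) (nat_lit 1) (nat_lit 0) (nat_lit 291) (nat_lit 310) (nat_lit 119)) (XT.lf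 (nat_lit 0) (nat_lit 32672916944) (nat_lit 0) (nat_lit 0) (nat_lit 0) (nat_lit 0) (nat_lit 0) (nat_lit 0) (nat_lit 1) (nat_lit 0) (nat_lit 1) (nat_lit 0) (nat_lit 292) (nat_lit 310) (nat_lit 118))) (XT.nd (nat_lit 94) (nat_lit 0) (nat_lit 0) (XT.lf (nat_lit 0) (nat_lit 32672784025) (nat_lit 0) (nat_lit 0) (nat_lit 0) (nat_lit 0) (nat_lit 0) (nat_lit 0) (nat_lit 1) (nat_lit 0) (nat_lit 1) (nat_lit 0) (nat_lit 293) (nat_lit 310) (nat_lit 117)) (XT.lf (nat_lit 0) (nat_lit 32672657436) (nat_lit 0) (nat_lit 0) (nat_lit 0) (nat_lit 0) (nat_lit 0) (nat_lit 0) (nat_lit 1) (nat_lit 0) (nat_lit 1) (nat_lit 0) (nat_lit 294) (nat_lit 310) (nat_lit 116))))) (XT.nd (nat_lit 282) (nat_lit 0) (nat_lit 0) (XT.nd (nat_lit 94) (nat_lit 0) (nat_lit 0) (XT.lf (nat_lit 0) (nat_lit 32672536875) (nat_lit 0) (nat_lit 0) (nat_lit 0) (nat_lit 0) (nat_lit 0) (nat_lit 0) (nat_lit 1) (nat_lit 0) (nat_lit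 1) (nat_lit 0) (nat_lit 295) (nat_lit 310) (nat_lit 115)) (XT.nd (nat_lit 94) (nat_lit 0) (nat_lit 0) (XT.lf (nat_lit 0) (nat_lit 32672422055) (nat_lit 0) (nat_lit 0) (nat_lit 0) (nat_lit 0) (nat_lit 0) (nat_lit 0) (nat_lit 1) (nat_lit 0) (nat_lit 1) (nat_lit 0) (nat_lit 296) (nat_lit 310) (nat_lit 114)) (XT.lf (nat_lit 0) (nat_lit 32672312702) (nat_lit 0) (nat_lit 0) (nat_lit 0) (nat_lit 0) (nat_lit 0) (nat_lit 0) (nat_lit 1) (nat_lit 0) (nat_lit 1) (nat_lit 0) (nat_lit 297) (nat_lit 310) (nat_lit 113)))) (XT.nd (nat_lit 188) (nat_lit 0) (nat_lit 0) (XT.nd (nat_lit 94) (nat_lit 0) (nat_lit 0) (XT.lf (nat_lit 0) (nat_lit 32672208557) (nat_lit 0) (nat_lit 0) (nat_lit 0) (nat_lit 0) (nat_lit 0) (nat_lit 0) (nat_lit 1) (nat_lit 0) (nat_lit 1) (nat_lit 0) (nat_lit 298) (nat_lit 310) (nat_lit 112)) (XT.lf (nat_lit 0) (nat_lit 32672109371) (nat_lit 0) (nat_lit 0) (nat_lit 0) (nat_lit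 0) (nat_lit 0) (nat_lit 0) (nat_lit 1) (nat_lit 0) (nat_lit 1) (nat_lit 0) (nat_lit 299) (nat_lit 310) (nat_lit 111))) (XT.nd (nat_lit 94) (nat_lit 0) (nat_lit 0) (XT.lf (nat_lit 0) (nat_lit 32672014908) (nat_lit 0) (nat_lit 0) (nat_lit 0) (nat_lit 0) (nat_lit 0) (nat_lit 0) (nat_lit 1) (nat_lit 0) (nat_lit 1) (nat_lit 0) (nat_lit 300) (nat_lit 310) (nat_lit 110)) (XT.lf (nat_lit 0) (nat_lit 32671924944) (nat_lit 0) (nat_lit 0) (nat_lit 0) (nat_lit 0) (nat_lit 0) (nat_lit 0) (nat_lit 1) (nat_lit 0) (nat_lit 1) (nat_lit 0) (nat_lit 301) (nat_lit 310) (nat_lit 109))))))))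
noncomputable def ec220 : XT := (XT.nd (nat_lit 27166) (nat_lit 0) (nat_lit 5040) (XT.nd (nat_lit 1222) (nat_lit 0) (nat_lit 0) (XT.nd (nat_lit 564) (nat_lit 0) (nat_lit 0) (XT.nd (nat_lit 282) (nat_lit 0) (nat_lit 0) (XT.nd (nat_lit 94) (nat_lit 0) (nat_lit 0) (XT.lf (nat_lit 0) (nat_lit 32671839263) (nat_lit 0) (nat_lit 0) (nat_lit 0) (nat_lit 0) (nat_lit 0) (nat_lit 0) (nat_lit 1) (nat_lit 0) (nat_lit 1) (nat_lit 0) (nat_lit 302) (nat_lit 310) (nat_lit 108)) (XT.nd (nat_lit 94) (nat_lit 0) (nat_lit 0) (XT.lf (nat_lit 0) (nat_lit 32671757663) (nat_lit 0) (nat_lit 0) (nat_lit 0) (nat_lit 0) (nat_lit 0) (nat_lit 0) (nat_lit 1) (nat_lit 0) (nat_lit 1) (nat_lit 0) (nat_lit 303) (nat_lit 310) (nat_lit 107)) (XT.lf (nat_lit 0) (nat_lit 32671679948) (nat_lit 0) (nat_lit 0) (nat_lit 0) (nat_lit 0) (nat_lit 0) (nat_lit 0) (nat_lit 1) (nat_lit 0) (nat_lit 1) (nat_lit 0) (nat_lit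 304) (nat_lit 310) (nat_lit 106)))) (XT.nd (nat_lit 94) (nat_lit 0) (nat_lit 0) (XT.lf (nat_lit 0) (nat_lit 32671605934) (nat_lit 0) (nat_lit 0) (nat_lit 0) (nat_lit 0) (nat_lit 0) (nat_lit 0) (nat_lit 1) (nat_lit 0) (nat_lit 1) (nat_lit 0) (nat_lit 305) (nat_lit 310) (nat_lit 105)) (XT.nd (nat_lit 94) (nat_lit 0) (nat_lit 0) (XT.lf (nat_lit 0) (nat_lit 32671535444) (nat_lit 0) (nat_lit 0) (nat_lit 0) (nat_lit 0) (nat_lit 0) (nat_lit 0) (nat_lit 1) (nat_lit 0) (nat_lit 1) (nat_lit 0) (nat_lit 306) (nat_lit 310) (nat_lit 104)) (XT.lf (nat_lit 0) (nat_lit 32671468311) (nat_lit 0) (nat_lit 0) (nat_lit 0) (nat_lit 0) (nat_lit 0) (nat_lit 0) (nat_lit 1) (nat_lit 0) (nat_lit 1) (nat_lit 0) (nat_lit 307) (nat_lit 310) (nat_lit 103))))) (XT.nd (nat_lit 282) (nat_lit 0) (nat_lit 0) (XT.nd (nat_lit 94) (nat_lit 0) (nat_lit 0) (XT.lf (nat_lit 0) (nat_lit 32671404375) (nat_lit 0) (nat_lit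 0) (nat_lit 0) (nat_lit 0) (nat_lit 0) (nat_lit 0) (nat_lit 1) (nat_lit 0) (nat_lit 1) (nat_lit 0) (nat_lit 308) (nat_lit 310) (nat_lit 102)) (XT.nd (nat_lit 94) (nat_lit 0) (nat_lit 0) (XT.lf (nat_lit 0) (nat_lit 32671343483) (nat_lit 0) (nat_lit 0) (nat_lit 0) (nat_lit 0) (nat_lit 0) (nat_lit 0) (nat_lit 1) (nat_lit 0) (nat_lit 1) (nat_lit 0) (nat_lit 309) (nat_lit 310) (nat_lit 101)) (XT.lf (nat_lit 0) (nat_lit 32671285491) (nat_lit 0) (nat_lit 0) (nat_lit 0) (nat_lit 0) (nat_lit 0) (nat_lit 0) (nat_lit 1) (nat_lit 0) (nat_lit 1) (nat_lit 0) (nat_lit 310) (nat_lit 310) (nat_lit 100)))) (XT.nd (nat_lit 188) (nat_lit 0) (nat_lit 0) (XT.nd (nat_lit 94) (nat_lit 0) (nat_lit 0) (XT.lf (nat_lit 0) (nat_lit 32671230261) (nat_lit 0) (nat_lit 0) (nat_lit 0) (nat_lit 0) (nat_lit 0) (nat_lit 0) (nat_lit 1) (nat_lit 0) (nat_lit 1) (nat_lit 0) (nat_lit 311) (nat_lit 310) (nat_lit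 99)) (XT.lf (nat_lit 0) (nat_lit 32671177660) (nat_lit 0) (nat_lit 0) (nat_lit 0) (nat_lit 0) (nat_lit 0) (nat_lit 0) (nat_lit 1) (nat_lit 0) (nat_lit 1) (nat_lit 0) (nat_lit 312) (nat_lit 310) (nat_lit 98))) (XT.nd (nat_lit 94) (nat_lit 0) (nat_lit 0) (XT.lf (nat_lit 0) (nat_lit 32671127565) (nat_lit 0) (nat_lit 0) (nat_lit 0) (nat_lit 0) (nat_lit 0) (nat_lit 0) (nat_lit 1) (nat_lit 0) (nat_lit 1) (nat_lit 0) (nat_lit 313) (nat_lit 310) (nat_lit 97)) (XT.lf (nat_lit 0) (nat_lit 32671079855) (nat_lit 0) (nat_lit 0) (nat_lit 0) (nat_lit 0) (nat_lit 0) (nat_lit 0) (nat_lit 1) (nat_lit 0) (nat_lit 1) (nat_lit 0) (nat_lit 314) (nat_lit 310) (nat_lit 96)))))) (XT.nd (nat_lit 25286) (nat_lit 0) (nat_lit 10332) (XT.nd (nat_lit 24910) (nat_lit 0) (nat_lit 10752) (XT.nd (nat_lit 94) (nat_lit 0) (nat_lit 0) (XT.lf (nat_lit 0) (nat_lit 32671034416) (nat_lit 0) (nat_lit 0) (nat_lit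 0) (nat_lit 0) (nat_lit 0) (nat_lit 0) (nat_lit 1) (nat_lit 0) (nat_lit 1) (nat_lit 0) (nat_lit 315) (nat_lit 310) (nat_lit 95)) (XT.nd (nat_lit 24722) (nat_lit 0) (nat_lit 10752) (XT.lf (nat_lit 0) (nat_lit 32670991142) (nat_lit 0) (nat_lit 0) (nat_lit 0) (nat_lit 0) (nat_lit 0) (nat_lit 0) (nat_lit 1) (nat_lit 0) (nat_lit 1) (nat_lit 0) (nat_lit 316) (nat_lit 310) (nat_lit 94)) (XT.lf (nat_lit 924) (nat_lit 17166822351) (nat_lit 0) (nat_lit 30479653626) (nat_lit 924) (nat_lit 17166822351) (nat_lit 139) (nat_lit 1) (nat_lit 128) (nat_lit 0) (nat_lit 139) (nat_lit 0) (nat_lit 98) (nat_lit 311) (nat_lit 311)))) (XT.nd (nat_lit 188) (nat_lit 0) (nat_lit 84) (XT.nd (nat_lit 94) (nat_lit 0) (nat_lit 84) (XT.lf (nat_lit 924) (nat_lit 66540746628) (nat_lit 84) (nat_lit 29988046309) (nat_lit 0) (nat_lit 29988046309) (nat_lit 139) (nat_lit 1) (nat_lit 129) (nat_lit 1) (nat_lit 128)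 (nat_lit 0) (nat_lit 99) (nat_lit 311) (nat_lit 310)) (XT.lf (nat_lit 924) (nat_lit 31712317939) (nat_lit 0) (nat_lit 60078585265) (nat_lit 840) (nat_lit 31712317939) (nat_lit 140) (nat_lit 1) (nat_lit 129) (nat_lit 1) (nat_lit 139) (nat_lit 1) (nat_lit 100) (nat_lit 311) (nat_lit 309))) (XT.nd (nat_lit 94) (nat_lit 0) (nat_lit 84) (XT.lf (nat_lit 924) (nat_lit 59487901917) (nat_lit 84) (nat_lit 30549531721) (nat_lit 0) (nat_lit 30549531721) (nat_lit 140) (nat_lit 1) (nat_lit 130) (nat_lit 1) (nat_lit 129) (nat_lit 1) (nat_lit 101) (nat_lit 311) (nat_lit 308)) (XT.lf (nat_lit 924) (nat_lit 27381709985) (nat_lit 0) (nat_lit 62999720285) (nat_lit 840) (nat_lit 27381709985) (nat_lit 141) (nat_lit 1) (nat_lit 130) (nat_lit 1) (nat_lit 140) (nat_lit 1) (nat_lit 102) (nat_lit 311) (nat_lit 307))))) (XT.nd (nat_lit 282) (nat_lit 588) (nat_lit 0) (XT.nd (nat_lit 94) (nat_lit 0)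 (nat_lit 84) (XT.lf (nat_lit 924) (nat_lit 49247788833) (nat_lit 84) (nat_lit 32888803648) (nat_lit 0) (nat_lit 32888803648) (nat_lit 141) (nat_lit 1) (nat_lit 131) (nat_lit 1) (nat_lit 130) (nat_lit 1) (nat_lit 103) (nat_lit 311) (nat_lit 306)) (XT.nd (nat_lit 94) (nat_lit 0) (nat_lit 0) (XT.lf (nat_lit 924) (nat_lit 21593732998) (nat_lit 0) (nat_lit 69192109976) (nat_lit 840) (nat_lit 21593732998) (nat_lit 142) (nat_lit 1) (nat_lit 131) (nat_lit 1) (nat_lit 141) (nat_lit 1) (nat_lit 104) (nat_lit 311) (nat_lit 305)) (XT.lf (nat_lit 924) (nat_lit 36299728189) (nat_lit 84) (nat_lit 36753438060) (nat_lit 0) (nat_lit 36753438060) (nat_lit 142) (nat_lit 1) (nat_lit 132) (nat_lit 1) (nat_lit 131) (nat_lit 1) (nat_lit 105) (nat_lit 311) (nat_lit 304)))) (XT.nd (nat_lit 188) (nat_lit 756) (nat_lit 0) (XT.nd (nat_lit 94) (nat_lit 0) (nat_lit 0) (XT.lf (nat_lit 924) (nat_lit 14572450192)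 (nat_lit 0) (nat_lit 78182917699) (nat_lit 840) (nat_lit 14572450192) (nat_lit 143) (nat_lit 1) (nat_lit 132) (nat_lit 1) (nat_lit 142) (nat_lit 1) (nat_lit 106) (nat_lit 311) (nat_lit 303)) (XT.lf (nat_lit 924) (nat_lit 21069763864) (nat_lit 84) (nat_lit 41918628554) (nat_lit 0) (nat_lit 41918628554) (nat_lit 143) (nat_lit 1) (nat_lit 133) (nat_lit 1) (nat_lit 132) (nat_lit 1) (nat_lit 107) (nat_lit 311) (nat_lit 302))) (XT.nd (nat_lit 94) (nat_lit 840) (nat_lit 0) (XT.lf (nat_lit 84) (nat_lit 6516875844) (nat_lit 0) (nat_lit 89551300321) (nat_lit 840) (nat_lit 6516875844) (nat_lit 134) (nat_lit 1) (nat_lit 133) (nat_lit 1) (nat_lit 143) (nat_lit 1) (nat_lit 108) (nat_lit 311) (nat_lit 301)) (XT.lf (nat_lit 924) (nat_lit 3936030949) (nat_lit 0) (nat_lit 48184421125) (nat_lit 840) (nat_lit 48184421125) (nat_lit 134) (nat_lit 1) (nat_lit 123) (nat_lit 1) (nat_lit 133) (nat_lit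 1) (nat_lit 109) (nat_lit 311) (nat_lit 300))))))) (XT.nd (nat_lit 1222) (nat_lit 2436) (nat_lit 0) (XT.nd (nat_lit 564) (nat_lit 1428) (nat_lit 0) (XT.nd (nat_lit 282) (nat_lit 420) (nat_lit 0) (XT.nd (nat_lit 94) (nat_lit 420) (nat_lit 0) (XT.lf (nat_lit 588) (nat_lit 93406971342) (nat_lit 0) (nat_lit 2357841899) (nat_lit 504) (nat_lit 2357841899) (nat_lit 123) (nat_lit 1) (nat_lit 116) (nat_lit 1) (nat_lit 122) (nat_lit 1) (nat_lit 110) (nat_lit 311) (nat_lit 299)) (XT.nd (nat_lit 94) (nat_lit 420) (nat_lit 0) (XT.lf (nat_lit 84) (nat_lit 40837365301) (nat_lit 0) (nat_lit 14293778087) (nat_lit 588) (nat_lit 40837365301) (nat_lit 117) (nat_lit 1) (nat_lit 116) (nat_lit 1) (nat_lit 123) (nat_lit 1) (nat_lit 111) (nat_lit 311) (nat_lit 298)) (XT.lf (nat_lit 504) (nat_lit 70270623187) (nat_lit 0) (nat_lit 11817669565) (nat_lit 420) (nat_lit 11817669565) (nat_lit 117) (nat_lit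 1) (nat_lit 111) (nat_lit 1) (nat_lit 116) (nat_lit 1) (nat_lit 112) (nat_lit 311) (nat_lit 297)))) (XT.nd (nat_lit 94) (nat_lit 420) (nat_lit 0) (XT.lf (nat_lit 84) (nat_lit 29128795537) (nat_lit 0) (nat_lit 33629185295) (nat_lit 504) (nat_lit 29128795537) (nat_lit 112) (nat_lit 1) (nat_lit 111) (nat_lit 1) (nat_lit 117) (nat_lit 1) (nat_lit 113) (nat_lit 311) (nat_lit 296)) (XT.nd (nat_lit 94) (nat_lit 0) (nat_lit 0) (XT.lf (nat_lit 504) (nat_lit 46274201897) (nat_lit 0) (nat_lit 21831855685) (nat_lit 420) (nat_lit 21831855685) (nat_lit 112) (nat_lit 1) (nat_lit 106) (nat_lit 1) (nat_lit 111) (nat_lit 1) (nat_lit 114) (nat_lit 311) (nat_lit 295)) (XT.lf (nat_lit 84) (nat_lit 17051428413) (nat_lit 0) (nat_lit 53942872846) (nat_lit 504) (nat_lit 17051428413) (nat_lit 107) (nat_lit 1) (nat_lit 106) (nat_lit 1) (nat_lit 112) (nat_lit 1) (nat_lit 115) (nat_lit 311) (nat_lit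 294))))) (XT.nd (nat_lit 282) (nat_lit 672) (nat_lit 0) (XT.nd (nat_lit 94) (nat_lit 420) (nat_lit 0) (XT.lf (nat_lit 420) (nat_lit 21641053278) (nat_lit 0) (nat_lit 32280583000) (nat_lit 336) (nat_lit 32280583000) (nat_lit 107) (nat_lit 1) (nat_lit 102) (nat_lit 1) (nat_lit 106) (nat_lit 1) (nat_lit 116) (nat_lit 311) (nat_lit 293)) (XT.nd (nat_lit 94) (nat_lit 420) (nat_lit 0) (XT.lf (nat_lit 84) (nat_lit 4708948791) (nat_lit 0) (nat_lit 75011703638) (nat_lit 420) (nat_lit 4708948791) (nat_lit 103) (nat_lit 1) (nat_lit 102) (nat_lit 1) (nat_lit 107) (nat_lit 1) (nat_lit 117) (nat_lit 311) (nat_lit 292)) (XT.lf (nat_lit 84) (nat_lit 39678955633) (nat_lit 0) (nat_lit 3323189611) (nat_lit 420) (nat_lit 39678955633) (nat_lit 98) (nat_lit 1) (nat_lit 97) (nat_lit 1) (nat_lit 102) (nat_lit 1) (nat_lit 118) (nat_lit 311) (nat_lit 291)))) (XT.nd (nat_lit 188) (nat_lit 336) (nat_lit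 0) (XT.nd (nat_lit 94) (nat_lit 0) (nat_lit 0) (XT.lf (nat_lit 420) (nat_lit 65635250055) (nat_lit 0) (nat_lit 7681968830) (nat_lit 336) (nat_lit 7681968830) (nat_lit 98) (nat_lit 1) (nat_lit 93) (nat_lit 1) (nat_lit 97) (nat_lit 1) (nat_lit 119) (nat_lit 311) (nat_lit 290)) (XT.lf (nat_lit 84) (nat_lit 25745030597) (nat_lit 0) (nat_lit 27856066952) (nat_lit 420) (nat_lit 25745030597) (nat_lit 94) (nat_lit 1) (nat_lit 93) (nat_lit 1) (nat_lit 98) (nat_lit 1) (nat_lit 120) (nat_lit 311) (nat_lit 289))) (XT.nd (nat_lit 94) (nat_lit 0) (nat_lit 0) (XT.lf (nat_lit 420) (nat_lit 37569161353) (nat_lit 0) (nat_lit 20090614759) (nat_lit 336) (nat_lit 20090614759) (nat_lit 94) (nat_lit 1) (nat_lit 89) (nat_lit 1) (nat_lit 93) (nat_lit 1) (nat_lit 121) (nat_lit 311) (nat_lit 288)) (XT.lf (nat_lit 84) (nat_lit 11847636806) (nat_lit 0) (nat_lit 52506039476) (nat_lit 420) (nat_lit 11847636806)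 (nat_lit 90) (nat_lit 1) (nat_lit 89) (nat_lit 1) (nat_lit 94) (nat_lit 1) (nat_lit 122) (nat_lit 311) (nat_lit 287)))))) (XT.nd (nat_lit 658) (nat_lit 924) (nat_lit 0) (XT.nd (nat_lit 282) (nat_lit 840) (nat_lit 0) (XT.nd (nat_lit 94) (nat_lit 420) (nat_lit 0) (XT.lf (nat_lit 336) (nat_lit 9635175589) (nat_lit 0) (nat_lit 32525249054) (nat_lit 252) (nat_lit 32525249054) (nat_lit 90) (nat_lit 1) (nat_lit 86) (nat_lit 1) (nat_lit 89) (nat_lit 1) (nat_lit 123) (nat_lit 311) (nat_lit 286)) (XT.nd (nat_lit 94) (nat_lit 0) (nat_lit 0) (XT.lf (nat_lit 420) (nat_lit 69378295293) (nat_lit 0) (nat_lit 1925114571) (nat_lit 336) (nat_lit 1925114571) (nat_lit 86) (nat_lit 1) (nat_lit 81) (nat_lit 1) (nat_lit 85) (nat_lit 1) (nat_lit 124) (nat_lit 311) (nat_lit 285)) (XT.lf (nat_lit 84) (nat_lit 27148239853) (nat_lit 0) (nat_lit 17482960615) (nat_lit 420) (nat_lit 27148239853) (nat_lit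 82) (nat_lit 1) (nat_lit 81) (nat_lit 1) (nat_lit 86) (nat_lit 1) (nat_lit 125) (nat_lit 311) (nat_lit 284)))) (XT.nd (nat_lit 188) (nat_lit 588) (nat_lit 0) (XT.nd (nat_lit 94) (nat_lit 0) (nat_lit 0) (XT.lf (nat_lit 336) (nat_lit 39650862578) (nat_lit 0) (nat_lit 15367534930) (nat_lit 252) (nat_lit 15367534930) (nat_lit 82) (nat_lit 1) (nat_lit 78) (nat_lit 1) (nat_lit 81) (nat_lit 1) (nat_lit 126) (nat_lit 311) (nat_lit 283)) (XT.lf (nat_lit 84) (nat_lit 12526320824) (nat_lit 0) (nat_lit 43975187370) (nat_lit 336) (nat_lit 12526320824) (nat_lit 79) (nat_lit 1) (nat_lit 78) (nat_lit 1) (nat_lit 82) (nat_lit 1) (nat_lit 127) (nat_lit 311) (nat_lit 282))) (XT.nd (nat_lit 94) (nat_lit 336) (nat_lit 0) (XT.lf (nat_lit 336) (nat_lit 10440296882) (nat_lit 0) (nat_lit 28630162602) (nat_lit 252) (nat_lit 28630162602) (nat_lit 79) (nat_lit 1) (nat_lit 75) (nat_lit 1) (nat_lit 78)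 (nat_lit 1) (nat_lit 128) (nat_lit 311) (nat_lit 281)) (XT.lf (nat_lit 336) (nat_lit 62834176843) (nat_lit 0) (nat_lit 1794272866) (nat_lit 252) (nat_lit 1794272866) (nat_lit 75) (nat_lit 1) (nat_lit 71) (nat_lit 1) (nat_lit 74) (nat_lit 1) (nat_lit 129) (nat_lit 311) (nat_lit 280))))) (XT.nd (nat_lit 282) (nat_lit 672) (nat_lit 0) (XT.nd (nat_lit 94) (nat_lit 252) (nat_lit 0) (XT.lf (nat_lit 84) (nat_lit 23768369642) (nat_lit 0) (nat_lit 17612123244) (nat_lit 336) (nat_lit 23768369642) (nat_lit 72) (nat_lit 1) (nat_lit 71) (nat_lit 1) (nat_lit 75) (nat_lit 1) (nat_lit 130) (nat_lit 311) (nat_lit 279)) (XT.nd (nat_lit 94) (nat_lit 0) (nat_lit 0) (XT.lf (nat_lit 336) (nat_lit 32683684629) (nat_lit 0) (nat_lit 15619225438) (nat_lit 252) (nat_lit 15619225438) (nat_lit 72) (nat_lit 1) (nat_lit 68) (nat_lit 1) (nat_lit 71) (nat_lit 1) (nat_lit 131) (nat_lit 311) (nat_lit 278))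 (XT.lf (nat_lit 84) (nat_lit 9001060091) (nat_lit 0) (nat_lit 44726189679) (nat_lit 336) (nat_lit 9001060091) (nat_lit 69) (nat_lit 1) (nat_lit 68) (nat_lit 1) (nat_lit 72) (nat_lit 1) (nat_lit 132) (nat_lit 311) (nat_lit 277)))) (XT.nd (nat_lit 188) (nat_lit 168) (nat_lit 0) (XT.nd (nat_lit 94) (nat_lit 336) (nat_lit 0) (XT.lf (nat_lit 252) (nat_lit 3298287696) (nat_lit 0) (nat_lit 29129346724) (nat_lit 168) (nat_lit 29129346724) (nat_lit 69) (nat_lit 1) (nat_lit 66) (nat_lit 1) (nat_lit 68) (nat_lit 1) (nat_lit 133) (nat_lit 311) (nat_lit 276)) (XT.lf (nat_lit 336) (nat_lit 49836021132) (nat_lit 0) (nat_lit 5292946672) (nat_lit 252) (nat_lit 5292946672) (nat_lit 66) (nat_lit 1) (nat_lit 62) (nat_lit 1) (nat_lit 65) (nat_lit 1) (nat_lit 134) (nat_lit 311) (nat_lit 275))) (XT.nd (nat_lit 94) (nat_lit 168) (nat_lit 0) (XT.lf (nat_lit 84) (nat_lit 17406539217) (nat_lit 0)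 (nat_lit 24486464002) (nat_lit 336) (nat_lit 17406539217) (nat_lit 63) (nat_lit 1) (nat_lit 62) (nat_lit 1) (nat_lit 66) (nat_lit 1) (nat_lit 135) (nat_lit 311) (nat_lit 274)) (XT.lf (nat_lit 252) (nat_lit 20110570992) (nat_lit 0) (nat_lit 19050619441) (nat_lit 168) (nat_lit 19050619441) (nat_lit 63) (nat_lit 1) (nat_lit 60) (nat_lit 1) (nat_lit 62) (nat_lit 1) (nat_lit 136) (nat_lit 311) (nat_lit 273))))))))
noncomputable def ec221 : XT := (XT.nd (nat_lit 2538) (nat_lit 2100) (nat_lit 0) (XT.nd (nat_lit 1222) (nat_lit 1428) (nat_lit 0) (XT.nd (nat_lit 564) (nat_lit 672) (nat_lit 0) (XT.nd (nat_lit 282) (nat_lit 420) (nat_lit 0) (XT.nd (nat_lit 94) (nat_lit 420) (nat_lit 0) (XT.lf (nat_lit 84) (nat_lit 2889250730) (nat_lit 0) (nat_lit 51381673524) (nat_lit 252) (nat_lit 2889250730) (nat_lit 61) (nat_lit 1) (nat_lit 60) (nat_lit 1) (nat_lit 63) (nat_lit 1) (nat_lit 137) (nat_lit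 311) (nat_lit 272)) (XT.nd (nat_lit 94) (nat_lit 168) (nat_lit 0) (XT.lf (nat_lit 84) (nat_lit 23845493181) (nat_lit 0) (nat_lit 8421376500) (nat_lit 252) (nat_lit 23845493181) (nat_lit 58) (nat_lit 1) (nat_lit 57) (nat_lit 1) (nat_lit 60) (nat_lit 1) (nat_lit 138) (nat_lit 311) (nat_lit 271)) (XT.lf (nat_lit 252) (nat_lit 33113646564) (nat_lit 0) (nat_lit 10992833477) (nat_lit 168) (nat_lit 10992833477) (nat_lit 58) (nat_lit 1) (nat_lit 55) (nat_lit 1) (nat_lit 57) (nat_lit 1) (nat_lit 139) (nat_lit 311) (nat_lit 270)))) (XT.nd (nat_lit 94) (nat_lit 420) (nat_lit 0) (XT.lf (nat_lit 84) (nat_lit 9343809569) (nat_lit 0) (nat_lit 35421035641) (nat_lit 252) (nat_lit 9343809569) (nat_lit 56) (nat_lit 1) (nat_lit 55) (nat_lit 1) (nat_lit 58) (nat_lit 1) (nat_lit 140) (nat_lit 311) (nat_lit 269)) (XT.nd (nat_lit 94) (nat_lit 252) (nat_lit 0) (XT.lf (nat_lit 252) (nat_lit 4377238374)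 (nat_lit 0) (nat_lit 24380363397) (nat_lit 168) (nat_lit 24380363397) (nat_lit 56) (nat_lit 1) (nat_lit 53) (nat_lit 1) (nat_lit 55) (nat_lit 1) (nat_lit 141) (nat_lit 311) (nat_lit 268)) (XT.lf (nat_lit 252) (nat_lit 43022326634) (nat_lit 0) (nat_lit 4586537703) (nat_lit 168) (nat_lit 4586537703) (nat_lit 53) (nat_lit 1) (nat_lit 50) (nat_lit 1) (nat_lit 52) (nat_lit 1) (nat_lit 142) (nat_lit 311) (nat_lit 267))))) (XT.nd (nat_lit 282) (nat_lit 504) (nat_lit 0) (XT.nd (nat_lit 94) (nat_lit 168) (nat_lit 0) (XT.lf (nat_lit 84) (nat_lit 14322237965) (nat_lit 0) (nat_lit 22616407656) (nat_lit 252) (nat_lit 14322237965) (nat_lit 51) (nat_lit 1) (nat_lit 50) (nat_lit 1) (nat_lit 53) (nat_lit 1) (nat_lit 143) (nat_lit 311) (nat_lit 266)) (XT.nd (nat_lit 94) (nat_lit 0) (nat_lit 0) (XT.lf (nat_lit 252) (nat_lit 14586504014) (nat_lit 0) (nat_lit 17883495740) (nat_lit 168) (nat_lit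 17883495740) (nat_lit 51) (nat_lit 1) (nat_lit 48) (nat_lit 1) (nat_lit 50) (nat_lit 1) (nat_lit 144) (nat_lit 311) (nat_lit 265)) (XT.lf (nat_lit 84) (nat_lit 479418158) (nat_lit 0) (nat_lit 48519093236) (nat_lit 252) (nat_lit 479418158) (nat_lit 49) (nat_lit 1) (nat_lit 48) (nat_lit 1) (nat_lit 51) (nat_lit 1) (nat_lit 145) (nat_lit 311) (nat_lit 264)))) (XT.nd (nat_lit 188) (nat_lit 168) (nat_lit 0) (XT.nd (nat_lit 94) (nat_lit 168) (nat_lit 0) (XT.lf (nat_lit 84) (nat_lit 18102047959) (nat_lit 0) (nat_lit 12392702144) (nat_lit 168) (nat_lit 18102047959) (nat_lit 47) (nat_lit 1) (nat_lit 46) (nat_lit 1) (nat_lit 48) (nat_lit 1) (nat_lit 146) (nat_lit 311) (nat_lit 263)) (XT.lf (nat_lit 252) (nat_lit 22462580733) (nat_lit 0) (nat_lit 12642044239) (nat_lit 168) (nat_lit 12642044239) (nat_lit 47) (nat_lit 1) (nat_lit 44) (nat_lit 1) (nat_lit 46) (nat_lit 1) (nat_lit 147)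 (nat_lit 311) (nat_lit 262))) (XT.nd (nat_lit 94) (nat_lit 168) (nat_lit 0) (XT.lf (nat_lit 84) (nat_lit 4503592192) (nat_lit 0) (nat_lit 37912303111) (nat_lit 252) (nat_lit 4503592192) (nat_lit 45) (nat_lit 1) (nat_lit 44) (nat_lit 1) (nat_lit 47) (nat_lit 1) (nat_lit 148) (nat_lit 311) (nat_lit 261)) (XT.lf (nat_lit 84) (nat_lit 20910797122) (nat_lit 0) (nat_lit 4277533004) (nat_lit 168) (nat_lit 20910797122) (nat_lit 43) (nat_lit 1) (nat_lit 42) (nat_lit 1) (nat_lit 44) (nat_lit 1) (nat_lit 149) (nat_lit 311) (nat_lit 260)))))) (XT.nd (nat_lit 658) (nat_lit 588) (nat_lit 0) (XT.nd (nat_lit 282) (nat_lit 588) (nat_lit 0) (XT.nd (nat_lit 94) (nat_lit 84) (nat_lit 0) (XT.lf (nat_lit 252) (nat_lit 28444047218) (nat_lit 0) (nat_lit 8428496354) (nat_lit 168) (nat_lit 8428496354) (nat_lit 43) (nat_lit 1) (nat_lit 40) (nat_lit 1) (nat_lit 42) (nat_lit 1) (nat_lit 150) (nat_lit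 311) (nat_lit 259)) (XT.nd (nat_lit 94) (nat_lit 84) (nat_lit 0) (XT.lf (nat_lit 84) (nat_lit 7618615192) (nat_lit 0) (nat_lit 29281521814) (nat_lit 252) (nat_lit 7618615192) (nat_lit 41) (nat_lit 1) (nat_lit 40) (nat_lit 1) (nat_lit 43) (nat_lit 1) (nat_lit 151) (nat_lit 311) (nat_lit 258)) (XT.lf (nat_lit 168) (nat_lit 2187026979) (nat_lit 0) (nat_lit 20782099819) (nat_lit 84) (nat_lit 20782099819) (nat_lit 41) (nat_lit 1) (nat_lit 39) (nat_lit 1) (nat_lit 40) (nat_lit 1) (nat_lit 152) (nat_lit 311) (nat_lit 257)))) (XT.nd (nat_lit 188) (nat_lit 336) (nat_lit 0) (XT.nd (nat_lit 94) (nat_lit 0) (nat_lit 0) (XT.lf (nat_lit 252) (nat_lit 32890537048) (nat_lit 0) (nat_lit 5055911735) (nat_lit 168) (nat_lit 5055911735) (nat_lit 39) (nat_lit 1) (nat_lit 36) (nat_lit 1) (nat_lit 38) (nat_lit 1) (nat_lit 153) (nat_lit 311) (nat_lit 256)) (XT.lf (nat_lit 84) (nat_lit 9994995239)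 (nat_lit 0) (nat_lit 22271862576) (nat_lit 252) (nat_lit 9994995239) (nat_lit 37) (nat_lit 1) (nat_lit 36) (nat_lit 1) (nat_lit 39) (nat_lit 1) (nat_lit 154) (nat_lit 311) (nat_lit 255))) (XT.nd (nat_lit 94) (nat_lit 252) (nat_lit 0) (XT.lf (nat_lit 168) (nat_lit 7344532061) (nat_lit 0) (nat_lit 17097484952) (nat_lit 84) (nat_lit 17097484952) (nat_lit 37) (nat_lit 1) (nat_lit 35) (nat_lit 1) (nat_lit 36) (nat_lit 1) (nat_lit 155) (nat_lit 311) (nat_lit 254)) (XT.lf (nat_lit 252) (nat_lit 36096791949) (nat_lit 0) (nat_lit 2370717692) (nat_lit 168) (nat_lit 2370717692) (nat_lit 35) (nat_lit 1) (nat_lit 32) (nat_lit 1) (nat_lit 34) (nat_lit 1) (nat_lit 156) (nat_lit 311) (nat_lit 253))))) (XT.nd (nat_lit 282) (nat_lit 252) (nat_lit 0) (XT.nd (nat_lit 94) (nat_lit 336) (nat_lit 0) (XT.lf (nat_lit 84) (nat_lit 11772566049) (nat_lit 0) (nat_lit 16591575615) (nat_lit 252) (nat_lit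 11772566049) (nat_lit 33) (nat_lit 1) (nat_lit 32) (nat_lit 1) (nat_lit 35) (nat_lit 1) (nat_lit 157) (nat_lit 311) (nat_lit 252)) (XT.nd (nat_lit 94) (nat_lit 252) (nat_lit 0) (XT.lf (nat_lit 168) (nat_lit 11323564277) (nat_lit 0) (nat_lit 14066143183) (nat_lit 84) (nat_lit 14066143183) (nat_lit 33) (nat_lit 1) (nat_lit 31) (nat_lit 1) (nat_lit 32) (nat_lit 1) (nat_lit 158) (nat_lit 311) (nat_lit 251)) (XT.lf (nat_lit 252) (nat_lit 38304220756) (nat_lit 0) (nat_lit 246782547) (nat_lit 168) (nat_lit 246782547) (nat_lit 31) (nat_lit 1) (nat_lit 28) (nat_lit 1) (nat_lit 30) (nat_lit 1) (nat_lit 159) (nat_lit 311) (nat_lit 250)))) (XT.nd (nat_lit 188) (nat_lit 168) (nat_lit 0) (XT.nd (nat_lit 94) (nat_lit 84) (nat_lit 0) (XT.lf (nat_lit 84) (nat_lit 13065946585) (nat_lit 0) (nat_lit 12000843801) (nat_lit 252) (nat_lit 13065946585) (nat_lit 29) (nat_lit 1) (nat_lit 28) (nat_lit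 1) (nat_lit 31) (nat_lit 1) (nat_lit 160) (nat_lit 311) (nat_lit 249)) (XT.lf (nat_lit 168) (nat_lit 14345638234) (nat_lit 0) (nat_lit 11572250807) (nat_lit 84) (nat_lit 11572250807) (nat_lit 29) (nat_lit 1) (nat_lit 27) (nat_lit 1) (nat_lit 28) (nat_lit 1) (nat_lit 161) (nat_lit 311) (nat_lit 248))) (XT.nd (nat_lit 94) (nat_lit 168) (nat_lit 0) (XT.lf (nat_lit 0) (nat_lit 1442729567) (nat_lit 0) (nat_lit 33981484673) (nat_lit 168) (nat_lit 1442729567) (nat_lit 27) (nat_lit 3) (nat_lit 27) (nat_lit 1) (nat_lit 29) (nat_lit 1) (nat_lit 162) (nat_lit 311) (nat_lit 247)) (XT.lf (nat_lit 84) (nat_lit 13969031697) (nat_lit 0) (nat_lit 8302565306) (nat_lit 168) (nat_lit 13969031697) (nat_lit 26) (nat_lit 1) (nat_lit 25) (nat_lit 1) (nat_lit 27) (nat_lit 1) (nat_lit 163) (nat_lit 311) (nat_lit 246))))))) (XT.nd (nat_lit 1316) (nat_lit 1008) (nat_lit 0) (XT.nd (nat_lit 658) (nat_lit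 504) (nat_lit 0) (XT.nd (nat_lit 282) (nat_lit 336) (nat_lit 0) (XT.nd (nat_lit 94) (nat_lit 168) (nat_lit 0) (XT.lf (nat_lit 168) (nat_lit 16592395772) (nat_lit 0) (nat_lit 9520519378) (nat_lit 84) (nat_lit 9520519378) (nat_lit 26) (nat_lit 1) (nat_lit 24) (nat_lit 1) (nat_lit 25) (nat_lit 1) (nat_lit 164) (nat_lit 311) (nat_lit 245)) (XT.nd (nat_lit 94) (nat_lit 168) (nat_lit 0) (XT.lf (nat_lit 0) (nat_lit 2757495774) (nat_lit 0) (nat_lit 29527210126) (nat_lit 168) (nat_lit 2757495774) (nat_lit 24) (nat_lit 3) (nat_lit 24) (nat_lit 1) (nat_lit 26) (nat_lit 1) (nat_lit 165) (nat_lit 311) (nat_lit 244)) (XT.lf (nat_lit 84) (nat_lit 14558685621) (nat_lit 0) (nat_lit 5334770940) (nat_lit 168) (nat_lit 14558685621) (nat_lit 23) (nat_lit 1) (nat_lit 22) (nat_lit 1) (nat_lit 24) (nat_lit 1) (nat_lit 166) (nat_lit 311) (nat_lit 243)))) (XT.nd (nat_lit 188) (nat_lit 252) (nat_lit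 0) (XT.nd (nat_lit 94) (nat_lit 0) (nat_lit 0) (XT.lf (nat_lit 168) (nat_lit 18212703822) (nat_lit 0) (nat_lit 7832554853) (nat_lit 84) (nat_lit 7832554853) (nat_lit 23) (nat_lit 1) (nat_lit 21) (nat_lit 1) (nat_lit 22) (nat_lit 1) (nat_lit 167) (nat_lit 311) (nat_lit 242)) (XT.lf (nat_lit 0) (nat_lit 3764368682) (nat_lit 0) (nat_lit 25787878928) (nat_lit 168) (nat_lit 3764368682) (nat_lit 21) (nat_lit 3) (nat_lit 21) (nat_lit 1) (nat_lit 23) (nat_lit 1) (nat_lit 168) (nat_lit 311) (nat_lit 241))) (XT.nd (nat_lit 94) (nat_lit 84) (nat_lit 0) (XT.lf (nat_lit 84) (nat_lit 14897779712) (nat_lit 0) (nat_lit 2964386317) (nat_lit 168) (nat_lit 14897779712) (nat_lit 20) (nat_lit 1) (nat_lit 19) (nat_lit 1) (nat_lit 21) (nat_lit 1) (nat_lit 169) (nat_lit 311) (nat_lit 240)) (XT.lf (nat_lit 168) (nat_lit 19328492466) (nat_lit 0) (nat_lit 6443862262) (nat_lit 84) (nat_lit 6443862262)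 (nat_lit 20) (nat_lit 1) (nat_lit 18) (nat_lit 1) (nat_lit 19) (nat_lit 1) (nat_lit 170) (nat_lit 311) (nat_lit 239))))) (XT.nd (nat_lit 282) (nat_lit 252) (nat_lit 0) (XT.nd (nat_lit 94) (nat_lit 252) (nat_lit 0) (XT.lf (nat_lit 0) (nat_lit 4521498368) (nat_lit 0) (nat_lit 22640294751) (nat_lit 168) (nat_lit 4521498368) (nat_lit 18) (nat_lit 3) (nat_lit 18) (nat_lit 1) (nat_lit 20) (nat_lit 1) (nat_lit 171) (nat_lit 311) (nat_lit 238)) (XT.nd (nat_lit 94) (nat_lit 84) (nat_lit 0) (XT.lf (nat_lit 84) (nat_lit 15037690735) (nat_lit 0) (nat_lit 1082100400) (nat_lit 168) (nat_lit 15037690735) (nat_lit 17) (nat_lit 1) (nat_lit 16) (nat_lit 1) (nat_lit 18) (nat_lit 1) (nat_lit 172) (nat_lit 311) (nat_lit 237)) (XT.lf (nat_lit 168) (nat_lit 20039556642) (nat_lit 0) (nat_lit 5301381430) (nat_lit 84) (nat_lit 5301381430) (nat_lit 17) (nat_lit 1) (nat_lit 15) (nat_lit 1) (nat_lit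 16) (nat_lit 1) (nat_lit 173) (nat_lit 311) (nat_lit 236)))) (XT.nd (nat_lit 188) (nat_lit 168) (nat_lit 0) (XT.nd (nat_lit 94) (nat_lit 84) (nat_lit 0) (XT.lf (nat_lit 0) (nat_lit 5076555456) (nat_lit 0) (nat_lit 19982934081) (nat_lit 168) (nat_lit 5076555456) (nat_lit 15) (nat_lit 3) (nat_lit 15) (nat_lit 1) (nat_lit 17) (nat_lit 1) (nat_lit 174) (nat_lit 311) (nat_lit 235)) (XT.lf (nat_lit 84) (nat_lit 415142926) (nat_lit 0) (nat_lit 14611693997) (nat_lit 84) (nat_lit 14611693997) (nat_lit 15) (nat_lit 3) (nat_lit 14) (nat_lit 1) (nat_lit 15) (nat_lit 1) (nat_lit 175) (nat_lit 311) (nat_lit 234))) (XT.nd (nat_lit 94) (nat_lit 0) (nat_lit 0) (XT.lf (nat_lit 168) (nat_lit 20427505278) (nat_lit 0) (nat_lit 4361459622) (nat_lit 84) (nat_lit 4361459622) (nat_lit 14) (nat_lit 1) (nat_lit 12) (nat_lit 1) (nat_lit 13) (nat_lit 1) (nat_lit 176) (nat_lit 311) (nat_lit 233)) (XT.lf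 (nat_lit 0) (nat_lit 5468597175) (nat_lit 0) (nat_lit 17732111760) (nat_lit 168) (nat_lit 5468597175) (nat_lit 12) (nat_lit 3) (nat_lit 12) (nat_lit 1) (nat_lit 14) (nat_lit 1) (nat_lit 177) (nat_lit 311) (nat_lit 232)))))) (XT.nd (nat_lit 658) (nat_lit 420) (nat_lit 0) (XT.nd (nat_lit 282) (nat_lit 336) (nat_lit 0) (XT.nd (nat_lit 94) (nat_lit 168) (nat_lit 0) (XT.lf (nat_lit 84) (nat_lit 1612801188) (nat_lit 0) (nat_lit 13292338888) (nat_lit 84) (nat_lit 13292338888) (nat_lit 12) (nat_lit 3) (nat_lit 11) (nat_lit 1) (nat_lit 12) (nat_lit 1) (nat_lit 178) (nat_lit 311) (nat_lit 231)) (XT.nd (nat_lit 94) (nat_lit 0) (nat_lit 0) (XT.lf (nat_lit 168) (nat_lit 20559009084) (nat_lit 0) (nat_lit 3588183625) (nat_lit 84) (nat_lit 3588183625) (nat_lit 11) (nat_lit 1) (nat_lit 9) (nat_lit 1) (nat_lit 10) (nat_lit 1) (nat_lit 179) (nat_lit 311) (nat_lit 230)) (XT.lf (nat_lit 0) (nat_lit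 5729602180) (nat_lit 0) (nat_lit 15818825978) (nat_lit 168) (nat_lit 5729602180) (nat_lit 9) (nat_lit 3) (nat_lit 9) (nat_lit 1) (nat_lit 11) (nat_lit 1) (nat_lit 180) (nat_lit 311) (nat_lit 229)))) (XT.nd (nat_lit 188) (nat_lit 84) (nat_lit 0) (XT.nd (nat_lit 94) (nat_lit 168) (nat_lit 0) (XT.lf (nat_lit 84) (nat_lit 2537581315) (nat_lit 0) (nat_lit 12146365885) (nat_lit 84) (nat_lit 12146365885) (nat_lit 9) (nat_lit 3) (nat_lit 8) (nat_lit 1) (nat_lit 9) (nat_lit 1) (nat_lit 181) (nat_lit 311) (nat_lit 228)) (XT.lf (nat_lit 168) (nat_lit 20488471403) (nat_lit 0) (nat_lit 2952007548) (nat_lit 84) (nat_lit 2952007548) (nat_lit 8) (nat_lit 1) (nat_lit 6) (nat_lit 1) (nat_lit 7) (nat_lit 1) (nat_lit 182) (nat_lit 311) (nat_lit 227))) (XT.nd (nat_lit 94) (nat_lit 84) (nat_lit 0) (XT.lf (nat_lit 0) (nat_lit 5885732893) (nat_lit 0) (nat_lit 14186162281) (nat_lit 168) (nat_lit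 5885732893) (nat_lit 6) (nat_lit 3) (nat_lit 6) (nat_lit 1) (nat_lit 8) (nat_lit 1) (nat_lit 183) (nat_lit 311) (nat_lit 226)) (XT.lf (nat_lit 84) (nat_lit 3240746606) (nat_lit 0) (nat_lit 11145917451) (nat_lit 84) (nat_lit 11145917451) (nat_lit 6) (nat_lit 3) (nat_lit 5) (nat_lit 1) (nat_lit 6) (nat_lit 1) (nat_lit 184) (nat_lit 311) (nat_lit 225))))) (XT.nd (nat_lit 282) (nat_lit 168) (nat_lit 0) (XT.nd (nat_lit 94) (nat_lit 84) (nat_lit 0) (XT.lf (nat_lit 168) (nat_lit 20260224461) (nat_lit 0) (nat_lit 2428623915) (nat_lit 84) (nat_lit 2428623915) (nat_lit 5) (nat_lit 1) (nat_lit 3) (nat_lit 1) (nat_lit 4) (nat_lit 1) (nat_lit 185) (nat_lit 311) (nat_lit 224)) (XT.nd (nat_lit 94) (nat_lit 84) (nat_lit 0) (XT.lf (nat_lit 0) (nat_lit 5958373683) (nat_lit 0) (nat_lit 12787157483) (nat_lit 168) (nat_lit 5958373683) (nat_lit 3) (nat_lit 3) (nat_lit 3) (nat_lit 1) (nat_lit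 5) (nat_lit 1) (nat_lit 186) (nat_lit 311) (nat_lit 223)) (XT.lf (nat_lit 84) (nat_lit 3764334231) (nat_lit 0) (nat_lit 10267937849) (nat_lit 84) (nat_lit 10267937849) (nat_lit 3) (nat_lit 3) (nat_lit 2) (nat_lit 1) (nat_lit 3) (nat_lit 1) (nat_lit 187) (nat_lit 311) (nat_lit 222)))) (XT.nd (nat_lit 188) (nat_lit 0) (nat_lit 0) (XT.nd (nat_lit 94) (nat_lit 0) (nat_lit 0) (XT.lf (nat_lit 0) (nat_lit 34728548035) (nat_lit 0) (nat_lit 0) (nat_lit 0) (nat_lit 0) (nat_lit 0) (nat_lit 0) (nat_lit 1) (nat_lit 0) (nat_lit 1) (nat_lit 0) (nat_lit 188) (nat_lit 311) (nat_lit 221)) (XT.lf (nat_lit 0) (nat_lit 34708313935) (nat_lit 0) (nat_lit 0) (nat_lit 0) (nat_lit 0) (nat_lit 0) (nat_lit 0) (nat_lit 1) (nat_lit 0) (nat_lit 1) (nat_lit 0) (nat_lit 189) (nat_lit 311) (nat_lit 220))) (XT.nd (nat_lit 94) (nat_lit 0) (nat_lit 0) (XT.lf (nat_lit 0) (nat_lit 34689043363) (nat_lit 0) (nat_lit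 0) (nat_lit 0) (nat_lit 0) (nat_lit 0) (nat_lit 0) (nat_lit 1) (nat_lit 0) (nat_lit 1) (nat_lit 0) (nat_lit 190) (nat_lit 311) (nat_lit 219)) (XT.lf (nat_lit 0) (nat_lit 34670690438) (nat_lit 0) (nat_lit 0) (nat_lit 0) (nat_lit 0) (nat_lit 0) (nat_lit 0) (nat_lit 1) (nat_lit 0) (nat_lit 1) (nat_lit 0) (nat_lit 191) (nat_lit 311) (nat_lit 218))))))))
noncomputable def ec222 : XT := (XT.nd (nat_lit 2538) (nat_lit 0) (nat_lit 0) (XT.nd (nat_lit 1222) (nat_lit 0) (nat_lit 0) (XT.nd (nat_lit 564) (nat_lit 0) (nat_lit 0) (XT.nd (nat_lit 282) (nat_lit 0) (nat_lit 0) (XT.nd (nat_lit 94) (nat_lit 0) (nat_lit 0) (XT.lf (nat_lit 0) (nat_lit 34653211462) (nat_lit 0) (nat_lit 0) (nat_lit 0) (nat_lit 0) (nat_lit 0) (nat_lit 0) (nat_lit 1) (nat_lit 0) (nat_lit 1) (nat_lit 0) (nat_lit 192) (nat_lit 311) (nat_lit 217)) (XT.nd (nat_lit 94) (nat_lit 0) (nat_lit 0) (XT.lf (nat_lit 0) (nat_lit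 34636564818) (nat_lit 0) (nat_lit 0) (nat_lit 0) (nat_lit 0) (nat_lit 0) (nat_lit 0) (nat_lit 1) (nat_lit 0) (nat_lit 1) (nat_lit 0) (nat_lit 193) (nat_lit 311) (nat_lit 216)) (XT.lf (nat_lit 0) (nat_lit 34620710871) (nat_lit 0) (nat_lit 0) (nat_lit 0) (nat_lit 0) (nat_lit 0) (nat_lit 0) (nat_lit 1) (nat_lit 0) (nat_lit 1) (nat_lit 0) (nat_lit 194) (nat_lit 311) (nat_lit 215)))) (XT.nd (nat_lit 94) (nat_lit 0) (nat_lit 0) (XT.lf (nat_lit 0) (nat_lit 34605611874) (nat_lit 0) (nat_lit 0) (nat_lit 0) (nat_lit 0) (nat_lit 0) (nat_lit 0) (nat_lit 1) (nat_lit 0) (nat_lit 1) (nat_lit 0) (nat_lit 195) (nat_lit 311) (nat_lit 214)) (XT.nd (nat_lit 94) (nat_lit 0) (nat_lit 0) (XT.lf (nat_lit 0) (nat_lit 34591231877) (nat_lit 0) (nat_lit 0) (nat_lit 0) (nat_lit 0) (nat_lit 0) (nat_lit 0) (nat_lit 1) (nat_lit 0) (nat_lit 1) (nat_lit 0) (nat_lit 196) (nat_lit 311) (nat_lit 213)) (XT.lf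 (nat_lit 0) (nat_lit 34577536641) (nat_lit 0) (nat_lit 0) (nat_lit 0) (nat_lit 0) (nat_lit 0) (nat_lit 0) (nat_lit 1) (nat_lit 0) (nat_lit 1) (nat_lit 0) (nat_lit 197) (nat_lit 311) (nat_lit 212))))) (XT.nd (nat_lit 282) (nat_lit 0) (nat_lit 0) (XT.nd (nat_lit 94) (nat_lit 0) (nat_lit 0) (XT.lf (nat_lit 0) (nat_lit 34564493560) (nat_lit 0) (nat_lit 0) (nat_lit 0) (nat_lit 0) (nat_lit 0) (nat_lit 0) (nat_lit 1) (nat_lit 0) (nat_lit 1) (nat_lit 0) (nat_lit 198) (nat_lit 311) (nat_lit 211)) (XT.nd (nat_lit 94) (nat_lit 0) (nat_lit 0) (XT.lf (nat_lit 0) (nat_lit 34552071578) (nat_lit 0) (nat_lit 0) (nat_lit 0) (nat_lit 0) (nat_lit 0) (nat_lit 0) (nat_lit 1) (nat_lit 0) (nat_lit 1) (nat_lit 0) (nat_lit 199) (nat_lit 311) (nat_lit 210)) (XT.lf (nat_lit 0) (nat_lit 34540241119) (nat_lit 0) (nat_lit 0) (nat_lit 0) (nat_lit 0) (nat_lit 0) (nat_lit 0) (nat_lit 1) (nat_lit 0) (nat_lit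 1) (nat_lit 0) (nat_lit 200) (nat_lit 311) (nat_lit 209)))) (XT.nd (nat_lit 188) (nat_lit 0) (nat_lit 0) (XT.nd (nat_lit 94) (nat_lit 0) (nat_lit 0) (XT.lf (nat_lit 0) (nat_lit 34528974015) (nat_lit 0) (nat_lit 0) (nat_lit 0) (nat_lit 0) (nat_lit 0) (nat_lit 0) (nat_lit 1) (nat_lit 0) (nat_lit 1) (nat_lit 0) (nat_lit 201) (nat_lit 311) (nat_lit 208)) (XT.lf (nat_lit 0) (nat_lit 34518243439) (nat_lit 0) (nat_lit 0) (nat_lit 0) (nat_lit 0) (nat_lit 0) (nat_lit 0) (nat_lit 1) (nat_lit 0) (nat_lit 1) (nat_lit 0) (nat_lit 202) (nat_lit 311) (nat_lit 207))) (XT.nd (nat_lit 94) (nat_lit 0) (nat_lit 0) (XT.lf (nat_lit 0) (nat_lit 34508023844) (nat_lit 0) (nat_lit 0) (nat_lit 0) (nat_lit 0) (nat_lit 0) (nat_lit 0) (nat_lit 1) (nat_lit 0) (nat_lit 1) (nat_lit 0) (nat_lit 203) (nat_lit 311) (nat_lit 206)) (XT.lf (nat_lit 0) (nat_lit 34498290896) (nat_lit 0) (nat_lit 0) (nat_lit 0)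 (nat_lit 0) (nat_lit 0) (nat_lit 0) (nat_lit 1) (nat_lit 0) (nat_lit 1) (nat_lit 0) (nat_lit 204) (nat_lit 311) (nat_lit 205)))))) (XT.nd (nat_lit 658) (nat_lit 0) (nat_lit 0) (XT.nd (nat_lit 282) (nat_lit 0) (nat_lit 0) (XT.nd (nat_lit 94) (nat_lit 0) (nat_lit 0) (XT.lf (nat_lit 0) (nat_lit 34489021421) (nat_lit 0) (nat_lit 0) (nat_lit 0) (nat_lit 0) (nat_lit 0) (nat_lit 0) (nat_lit 1) (nat_lit 0) (nat_lit 1) (nat_lit 0) (nat_lit 205) (nat_lit 311) (nat_lit 204)) (XT.nd (nat_lit 94) (nat_lit 0) (nat_lit 0) (XT.lf (nat_lit 0) (nat_lit 34480193351) (nat_lit 0) (nat_lit 0) (nat_lit 0) (nat_lit 0) (nat_lit 0) (nat_lit 0) (nat_lit 1) (nat_lit 0) (nat_lit 1) (nat_lit 0) (nat_lit 206) (nat_lit 311) (nat_lit 203)) (XT.lf (nat_lit 0) (nat_lit 34471785664) (nat_lit 0) (nat_lit 0) (nat_lit 0) (nat_lit 0) (nat_lit 0) (nat_lit 0) (nat_lit 1) (nat_lit 0) (nat_lit 1) (nat_lit 0) (nat_lit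 207) (nat_lit 311) (nat_lit 202)))) (XT.nd (nat_lit 188) (nat_lit 0) (nat_lit 0) (XT.nd (nat_lit 94) (nat_lit 0) (nat_lit 0) (XT.lf (nat_lit 0) (nat_lit 34463778344) (nat_lit 0) (nat_lit 0) (nat_lit 0) (nat_lit 0) (nat_lit 0) (nat_lit 0) (nat_lit 1) (nat_lit 0) (nat_lit 1) (nat_lit 0) (nat_lit 208) (nat_lit 311) (nat_lit 201)) (XT.lf (nat_lit 0) (nat_lit 34456152324) (nat_lit 0) (nat_lit 0) (nat_lit 0) (nat_lit 0) (nat_lit 0) (nat_lit 0) (nat_lit 1) (nat_lit 0) (nat_lit 1) (nat_lit 0) (nat_lit 209) (nat_lit 311) (nat_lit 200))) (XT.nd (nat_lit 94) (nat_lit 0) (nat_lit 0) (XT.lf (nat_lit 0) (nat_lit 34448889448) (nat_lit 0) (nat_lit 0) (nat_lit 0) (nat_lit 0) (nat_lit 0) (nat_lit 0) (nat_lit 1) (nat_lit 0) (nat_lit 1) (nat_lit 0) (nat_lit 210) (nat_lit 311) (nat_lit 199)) (XT.lf (nat_lit 0) (nat_lit 34441972424) (nat_lit 0) (nat_lit 0) (nat_lit 0) (nat_lit 0) (nat_lit 0)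 (nat_lit 0) (nat_lit 1) (nat_lit 0) (nat_lit 1) (nat_lit 0) (nat_lit 211) (nat_lit 311) (nat_lit 198))))) (XT.nd (nat_lit 282) (nat_lit 0) (nat_lit 0) (XT.nd (nat_lit 94) (nat_lit 0) (nat_lit 0) (XT.lf (nat_lit 0) (nat_lit 34435384782) (nat_lit 0) (nat_lit 0) (nat_lit 0) (nat_lit 0) (nat_lit 0) (nat_lit 0) (nat_lit 1) (nat_lit 0) (nat_lit 1) (nat_lit 0) (nat_lit 212) (nat_lit 311) (nat_lit 197)) (XT.nd (nat_lit 94) (nat_lit 0) (nat_lit 0) (XT.lf (nat_lit 0) (nat_lit 34429110836) (nat_lit 0) (nat_lit 0) (nat_lit 0) (nat_lit 0) (nat_lit 0) (nat_lit 0) (nat_lit 1) (nat_lit 0) (nat_lit 1) (nat_lit 0) (nat_lit 213) (nat_lit 311) (nat_lit 196)) (XT.lf (nat_lit 0) (nat_lit 34423135651) (nat_lit 0) (nat_lit 0) (nat_lit 0) (nat_lit 0) (nat_lit 0) (nat_lit 0) (nat_lit 1) (nat_lit 0) (nat_lit 1) (nat_lit 0) (nat_lit 214) (nat_lit 311) (nat_lit 195)))) (XT.nd (nat_lit 188) (nat_lit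 0) (nat_lit 0) (XT.nd (nat_lit 94) (nat_lit 0) (nat_lit 0) (XT.lf (nat_lit 0) (nat_lit 34417444997) (nat_lit 0) (nat_lit 0) (nat_lit 0) (nat_lit 0) (nat_lit 0) (nat_lit 0) (nat_lit 1) (nat_lit 0) (nat_lit 1) (nat_lit 0) (nat_lit 215) (nat_lit 311) (nat_lit 194)) (XT.lf (nat_lit 0) (nat_lit 34412025328) (nat_lit 0) (nat_lit 0) (nat_lit 0) (nat_lit 0) (nat_lit 0) (nat_lit 0) (nat_lit 1) (nat_lit 0) (nat_lit 1) (nat_lit 0) (nat_lit 216) (nat_lit 311) (nat_lit 193))) (XT.nd (nat_lit 94) (nat_lit 0) (nat_lit 0) (XT.lf (nat_lit 0) (nat_lit 34406863738) (nat_lit 0) (nat_lit 0) (nat_lit 0) (nat_lit 0) (nat_lit 0) (nat_lit 0) (nat_lit 1) (nat_lit 0) (nat_lit 1) (nat_lit 0) (nat_lit 217) (nat_lit 311) (nat_lit 192)) (XT.lf (nat_lit 0) (nat_lit 34401947937) (nat_lit 0) (nat_lit 0) (nat_lit 0) (nat_lit 0) (nat_lit 0) (nat_lit 0) (nat_lit 1) (nat_lit 0) (nat_lit 1) (nat_lit 0) (nat_lit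 218) (nat_lit 311) (nat_lit 191))))))) (XT.nd (nat_lit 1222) (nat_lit 0) (nat_lit 0) (XT.nd (nat_lit 564) (nat_lit 0) (nat_lit 0) (XT.nd (nat_lit 282) (nat_lit 0) (nat_lit 0) (XT.nd (nat_lit 94) (nat_lit 0) (nat_lit 0) (XT.lf (nat_lit 0) (nat_lit 34397266223) (nat_lit 0) (nat_lit 0) (nat_lit 0) (nat_lit 0) (nat_lit 0) (nat_lit 0) (nat_lit 1) (nat_lit 0) (nat_lit 1) (nat_lit 0) (nat_lit 219) (nat_lit 311) (nat_lit 190)) (XT.nd (nat_lit 94) (nat_lit 0) (nat_lit 0) (XT.lf (nat_lit 0) (nat_lit 34392807447) (nat_lit 0) (nat_lit 0) (nat_lit 0) (nat_lit 0) (nat_lit 0) (nat_lit 0) (nat_lit 1) (nat_lit 0) (nat_lit 1) (nat_lit 0) (nat_lit 220) (nat_lit 311) (nat_lit 189)) (XT.lf (nat_lit 0) (nat_lit 34388560994) (nat_lit 0) (nat_lit 0) (nat_lit 0) (nat_lit 0) (nat_lit 0) (nat_lit 0) (nat_lit 1) (nat_lit 0) (nat_lit 1) (nat_lit 0) (nat_lit 221) (nat_lit 311) (nat_lit 188)))) (XT.nd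 (nat_lit 94) (nat_lit 0) (nat_lit 0) (XT.lf (nat_lit 0) (nat_lit 34384516753) (nat_lit 0) (nat_lit 0) (nat_lit 0) (nat_lit 0) (nat_lit 0) (nat_lit 0) (nat_lit 1) (nat_lit 0) (nat_lit 1) (nat_lit 0) (nat_lit 222) (nat_lit 311) (nat_lit 187)) (XT.nd (nat_lit 94) (nat_lit 0) (nat_lit 0) (XT.lf (nat_lit 0) (nat_lit 34380665095) (nat_lit 0) (nat_lit 0) (nat_lit 0) (nat_lit 0) (nat_lit 0) (nat_lit 0) (nat_lit 1) (nat_lit 0) (nat_lit 1) (nat_lit 0) (nat_lit 223) (nat_lit 311) (nat_lit 186)) (XT.lf (nat_lit 0) (nat_lit 34376996849) (nat_lit 0) (nat_lit 0) (nat_lit 0) (nat_lit 0) (nat_lit 0) (nat_lit 0) (nat_lit 1) (nat_lit 0) (nat_lit 1) (nat_lit 0) (nat_lit 224) (nat_lit 311) (nat_lit 185))))) (XT.nd (nat_lit 282) (nat_lit 0) (nat_lit 0) (XT.nd (nat_lit 94) (nat_lit 0) (nat_lit 0) (XT.lf (nat_lit 0) (nat_lit 34373503282) (nat_lit 0) (nat_lit 0) (nat_lit 0) (nat_lit 0) (nat_lit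 0) (nat_lit 0) (nat_lit 1) (nat_lit 0) (nat_lit 1) (nat_lit 0) (nat_lit 225) (nat_lit 311) (nat_lit 184)) (XT.nd (nat_lit 94) (nat_lit 0) (nat_lit 0) (XT.lf (nat_lit 0) (nat_lit 34370176075) (nat_lit 0) (nat_lit 0) (nat_lit 0) (nat_lit 0) (nat_lit 0) (nat_lit 0) (nat_lit 1) (nat_lit 0) (nat_lit 1) (nat_lit 0) (nat_lit 226) (nat_lit 311) (nat_lit 183)) (XT.lf (nat_lit 0) (nat_lit 34367007306) (nat_lit 0) (nat_lit 0) (nat_lit 0) (nat_lit 0) (nat_lit 0) (nat_lit 0) (nat_lit 1) (nat_lit 0) (nat_lit 1) (nat_lit 0) (nat_lit 227) (nat_lit 311) (nat_lit 182)))) (XT.nd (nat_lit 188) (nat_lit 0) (nat_lit 0) (XT.nd (nat_lit 94) (nat_lit 0) (nat_lit 0) (XT.lf (nat_lit 0) (nat_lit 34363989432) (nat_lit 0) (nat_lit 0) (nat_lit 0) (nat_lit 0) (nat_lit 0) (nat_lit 0) (nat_lit 1) (nat_lit 0) (nat_lit 1) (nat_lit 0) (nat_lit 228) (nat_lit 311) (nat_lit 181)) (XT.lf (nat_lit 0) (nat_lit 34361115265)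 (nat_lit 0) (nat_lit 0) (nat_lit 0) (nat_lit 0) (nat_lit 0) (nat_lit 0) (nat_lit 1) (nat_lit 0) (nat_lit 1) (nat_lit 0) (nat_lit 229) (nat_lit 311) (nat_lit 180))) (XT.nd (nat_lit 94) (nat_lit 0) (nat_lit 0) (XT.lf (nat_lit 0) (nat_lit 34358377964) (nat_lit 0) (nat_lit 0) (nat_lit 0) (nat_lit 0) (nat_lit 0) (nat_lit 0) (nat_lit 1) (nat_lit 0) (nat_lit 1) (nat_lit 0) (nat_lit 230) (nat_lit 311) (nat_lit 179)) (XT.lf (nat_lit 0) (nat_lit 34355771010) (nat_lit 0) (nat_lit 0) (nat_lit 0) (nat_lit 0) (nat_lit 0) (nat_lit 0) (nat_lit 1) (nat_lit 0) (nat_lit 1) (nat_lit 0) (nat_lit 231) (nat_lit 311) (nat_lit 178)))))) (XT.nd (nat_lit 658) (nat_lit 0) (nat_lit 0) (XT.nd (nat_lit 282) (nat_lit 0) (nat_lit 0) (XT.nd (nat_lit 94) (nat_lit 0) (nat_lit 0) (XT.lf (nat_lit 0) (nat_lit 34353288197) (nat_lit 0) (nat_lit 0) (nat_lit 0) (nat_lit 0) (nat_lit 0) (nat_lit 0) (nat_lit 1) (nat_lit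 0) (nat_lit 1) (nat_lit 0) (nat_lit 232) (nat_lit 311) (nat_lit 177)) (XT.nd (nat_lit 94) (nat_lit 0) (nat_lit 0) (XT.lf (nat_lit 0) (nat_lit 34350923613) (nat_lit 0) (nat_lit 0) (nat_lit 0) (nat_lit 0) (nat_lit 0) (nat_lit 0) (nat_lit 1) (nat_lit 0) (nat_lit 1) (nat_lit 0) (nat_lit 233) (nat_lit 311) (nat_lit 176)) (XT.lf (nat_lit 0) (nat_lit 34348671628) (nat_lit 0) (nat_lit 0) (nat_lit 0) (nat_lit 0) (nat_lit 0) (nat_lit 0) (nat_lit 1) (nat_lit 0) (nat_lit 1) (nat_lit 0) (nat_lit 234) (nat_lit 311) (nat_lit 175)))) (XT.nd (nat_lit 188) (nat_lit 0) (nat_lit 0) (XT.nd (nat_lit 94) (nat_lit 0) (nat_lit 0) (XT.lf (nat_lit 0) (nat_lit 34346526881) (nat_lit 0) (nat_lit 0) (nat_lit 0) (nat_lit 0) (nat_lit 0) (nat_lit 0) (nat_lit 1) (nat_lit 0) (nat_lit 1) (nat_lit 0) (nat_lit 235) (nat_lit 311) (nat_lit 174)) (XT.lf (nat_lit 0) (nat_lit 34344484264) (nat_lit 0) (nat_lit 0) (nat_lit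 0) (nat_lit 0) (nat_lit 0) (nat_lit 0) (nat_lit 1) (nat_lit 0) (nat_lit 1) (nat_lit 0) (nat_lit 236) (nat_lit 311) (nat_lit 173))) (XT.nd (nat_lit 94) (nat_lit 0) (nat_lit 0) (XT.lf (nat_lit 0) (nat_lit 34342538915) (nat_lit 0) (nat_lit 0) (nat_lit 0) (nat_lit 0) (nat_lit 0) (nat_lit 0) (nat_lit 1) (nat_lit 0) (nat_lit 1) (nat_lit 0) (nat_lit 237) (nat_lit 311) (nat_lit 172)) (XT.lf (nat_lit 0) (nat_lit 34340686202) (nat_lit 0) (nat_lit 0) (nat_lit 0) (nat_lit 0) (nat_lit 0) (nat_lit 0) (nat_lit 1) (nat_lit 0) (nat_lit 1) (nat_lit 0) (nat_lit 238) (nat_lit 311) (nat_lit 171))))) (XT.nd (nat_lit 282) (nat_lit 0) (nat_lit 0) (XT.nd (nat_lit 94) (nat_lit 0) (nat_lit 0) (XT.lf (nat_lit 0) (nat_lit 34338921713) (nat_lit 0) (nat_lit 0) (nat_lit 0) (nat_lit 0) (nat_lit 0) (nat_lit 0) (nat_lit 1) (nat_lit 0) (nat_lit 1) (nat_lit 0) (nat_lit 239) (nat_lit 311) (nat_lit 170)) (XT.nd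 (nat_lit 94) (nat_lit 0) (nat_lit 0) (XT.lf (nat_lit 0) (nat_lit 34337241247) (nat_lit 0) (nat_lit 0) (nat_lit 0) (nat_lit 0) (nat_lit 0) (nat_lit 0) (nat_lit 1) (nat_lit 0) (nat_lit 1) (nat_lit 0) (nat_lit 240) (nat_lit 311) (nat_lit 169)) (XT.lf (nat_lit 0) (nat_lit 34335640804) (nat_lit 0) (nat_lit 0) (nat_lit 0) (nat_lit 0) (nat_lit 0) (nat_lit 0) (nat_lit 1) (nat_lit 0) (nat_lit 1) (nat_lit 0) (nat_lit 241) (nat_lit 311) (nat_lit 168)))) (XT.nd (nat_lit 188) (nat_lit 0) (nat_lit 0) (XT.nd (nat_lit 94) (nat_lit 0) (nat_lit 0) (XT.lf (nat_lit 0) (nat_lit 34334116572) (nat_lit 0) (nat_lit 0) (nat_lit 0) (nat_lit 0) (nat_lit 0) (nat_lit 0) (nat_lit 1) (nat_lit 0) (nat_lit 1) (nat_lit 0) (nat_lit 242) (nat_lit 311) (nat_lit 167)) (XT.lf (nat_lit 0) (nat_lit 34332664922) (nat_lit 0) (nat_lit 0) (nat_lit 0) (nat_lit 0) (nat_lit 0) (nat_lit 0) (nat_lit 1) (nat_lit 0) (nat_lit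 1) (nat_lit 0) (nat_lit 243) (nat_lit 311) (nat_lit 166))) (XT.nd (nat_lit 94) (nat_lit 0) (nat_lit 0) (XT.lf (nat_lit 0) (nat_lit 34331282399) (nat_lit 0) (nat_lit 0) (nat_lit 0) (nat_lit 0) (nat_lit 0) (nat_lit 0) (nat_lit 1) (nat_lit 0) (nat_lit 1) (nat_lit 0) (nat_lit 244) (nat_lit 311) (nat_lit 165)) (XT.lf (nat_lit 0) (nat_lit 34329965710) (nat_lit 0) (nat_lit 0) (nat_lit 0) (nat_lit 0) (nat_lit 0) (nat_lit 0) (nat_lit 1) (nat_lit 0) (nat_lit 1) (nat_lit 0) (nat_lit 245) (nat_lit 311) (nat_lit 164))))))))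
noncomputable def ec223 : XT := (XT.nd (nat_lit 2538) (nat_lit 0) (nat_lit 0) (XT.nd (nat_lit 1222) (nat_lit 0) (nat_lit 0) (XT.nd (nat_lit 564) (nat_lit 0) (nat_lit 0) (XT.nd (nat_lit 282) (nat_lit 0) (nat_lit 0) (XT.nd (nat_lit 94) (nat_lit 0) (nat_lit 0) (XT.lf (nat_lit 0) (nat_lit 34328711721) (nat_lit 0) (nat_lit 0) (nat_lit 0) (nat_lit 0) (nat_lit 0) (nat_lit 0) (nat_lit 1) (nat_lit 0) (nat_lit 1) (nat_lit 0) (nat_lit 246) (nat_lit 311) (nat_lit 163)) (XT.nd (nat_lit 94) (nat_lit 0) (nat_lit 0) (XT.lf (nat_lit 0) (nat_lit 34327517445) (nat_lit 0) (nat_lit 0) (nat_lit 0) (nat_lit 0) (nat_lit 0) (nat_lit 0) (nat_lit 1) (nat_lit 0) (nat_lit 1) (nat_lit 0) (nat_lit 247) (nat_lit 311) (nat_lit 162)) (XT.lf (nat_lit 0) (nat_lit 34326380040) (nat_lit 0) (nat_lit 0) (nat_lit 0) (nat_lit 0) (nat_lit 0) (nat_lit 0) (nat_lit 1) (nat_lit 0) (nat_lit 1) (nat_lit 0) (nat_lit 248)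 (nat_lit 311) (nat_lit 161)))) (XT.nd (nat_lit 94) (nat_lit 0) (nat_lit 0) (XT.lf (nat_lit 0) (nat_lit 34325296797) (nat_lit 0) (nat_lit 0) (nat_lit 0) (nat_lit 0) (nat_lit 0) (nat_lit 0) (nat_lit 1) (nat_lit 0) (nat_lit 1) (nat_lit 0) (nat_lit 249) (nat_lit 311) (nat_lit 160)) (XT.nd (nat_lit 94) (nat_lit 0) (nat_lit 0) (XT.lf (nat_lit 0) (nat_lit 34324265137) (nat_lit 0) (nat_lit 0) (nat_lit 0) (nat_lit 0) (nat_lit 0) (nat_lit 0) (nat_lit 1) (nat_lit 0) (nat_lit 1) (nat_lit 0) (nat_lit 250) (nat_lit 311) (nat_lit 159)) (XT.lf (nat_lit 0) (nat_lit 34323282603) (nat_lit 0) (nat_lit 0) (nat_lit 0) (nat_lit 0) (nat_lit 0) (nat_lit 0) (nat_lit 1) (nat_lit 0) (nat_lit 1) (nat_lit 0) (nat_lit 251) (nat_lit 311) (nat_lit 158))))) (XT.nd (nat_lit 282) (nat_lit 0) (nat_lit 0) (XT.nd (nat_lit 94) (nat_lit 0) (nat_lit 0) (XT.lf (nat_lit 0) (nat_lit 34322346857) (nat_lit 0) (nat_lit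 0) (nat_lit 0) (nat_lit 0) (nat_lit 0) (nat_lit 0) (nat_lit 1) (nat_lit 0) (nat_lit 1) (nat_lit 0) (nat_lit 252) (nat_lit 311) (nat_lit 157)) (XT.nd (nat_lit 94) (nat_lit 0) (nat_lit 0) (XT.lf (nat_lit 0) (nat_lit 34321455670) (nat_lit 0) (nat_lit 0) (nat_lit 0) (nat_lit 0) (nat_lit 0) (nat_lit 0) (nat_lit 1) (nat_lit 0) (nat_lit 1) (nat_lit 0) (nat_lit 253) (nat_lit 311) (nat_lit 156)) (XT.lf (nat_lit 0) (nat_lit 34320606921) (nat_lit 0) (nat_lit 0) (nat_lit 0) (nat_lit 0) (nat_lit 0) (nat_lit 0) (nat_lit 1) (nat_lit 0) (nat_lit 1) (nat_lit 0) (nat_lit 254) (nat_lit 311) (nat_lit 155)))) (XT.nd (nat_lit 188) (nat_lit 0) (nat_lit 0) (XT.nd (nat_lit 94) (nat_lit 0) (nat_lit 0) (XT.lf (nat_lit 0) (nat_lit 34319798588) (nat_lit 0) (nat_lit 0) (nat_lit 0) (nat_lit 0) (nat_lit 0) (nat_lit 0) (nat_lit 1) (nat_lit 0) (nat_lit 1) (nat_lit 0) (nat_lit 255) (nat_lit 311) (nat_lit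 154)) (XT.lf (nat_lit 0) (nat_lit 34319028748) (nat_lit 0) (nat_lit 0) (nat_lit 0) (nat_lit 0) (nat_lit 0) (nat_lit 0) (nat_lit 1) (nat_lit 0) (nat_lit 1) (nat_lit 0) (nat_lit 256) (nat_lit 311) (nat_lit 153))) (XT.nd (nat_lit 94) (nat_lit 0) (nat_lit 0) (XT.lf (nat_lit 0) (nat_lit 34318295566) (nat_lit 0) (nat_lit 0) (nat_lit 0) (nat_lit 0) (nat_lit 0) (nat_lit 0) (nat_lit 1) (nat_lit 0) (nat_lit 1) (nat_lit 0) (nat_lit 257) (nat_lit 311) (nat_lit 152)) (XT.lf (nat_lit 0) (nat_lit 34317597298) (nat_lit 0) (nat_lit 0) (nat_lit 0) (nat_lit 0) (nat_lit 0) (nat_lit 0) (nat_lit 1) (nat_lit 0) (nat_lit 1) (nat_lit 0) (nat_lit 258) (nat_lit 311) (nat_lit 151)))))) (XT.nd (nat_lit 658) (nat_lit 0) (nat_lit 0) (XT.nd (nat_lit 282) (nat_lit 0) (nat_lit 0) (XT.nd (nat_lit 94) (nat_lit 0) (nat_lit 0) (XT.lf (nat_lit 0) (nat_lit 34316932281) (nat_lit 0) (nat_lit 0) (nat_lit 0) (nat_lit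 0) (nat_lit 0) (nat_lit 0) (nat_lit 1) (nat_lit 0) (nat_lit 1) (nat_lit 0) (nat_lit 259) (nat_lit 311) (nat_lit 150)) (XT.nd (nat_lit 94) (nat_lit 0) (nat_lit 0) (XT.lf (nat_lit 0) (nat_lit 34316298931) (nat_lit 0) (nat_lit 0) (nat_lit 0) (nat_lit 0) (nat_lit 0) (nat_lit 0) (nat_lit 1) (nat_lit 0) (nat_lit 1) (nat_lit 0) (nat_lit 260) (nat_lit 311) (nat_lit 149)) (XT.lf (nat_lit 0) (nat_lit 34315695740) (nat_lit 0) (nat_lit 0) (nat_lit 0) (nat_lit 0) (nat_lit 0) (nat_lit 0) (nat_lit 1) (nat_lit 0) (nat_lit 1) (nat_lit 0) (nat_lit 261) (nat_lit 311) (nat_lit 148)))) (XT.nd (nat_lit 188) (nat_lit 0) (nat_lit 0) (XT.nd (nat_lit 94) (nat_lit 0) (nat_lit 0) (XT.lf (nat_lit 0) (nat_lit 34315121273) (nat_lit 0) (nat_lit 0) (nat_lit 0) (nat_lit 0) (nat_lit 0) (nat_lit 0) (nat_lit 1) (nat_lit 0) (nat_lit 1) (nat_lit 0) (nat_lit 262) (nat_lit 311) (nat_lit 147)) (XT.lf (nat_lit 0)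 (nat_lit 34314574162) (nat_lit 0) (nat_lit 0) (nat_lit 0) (nat_lit 0) (nat_lit 0) (nat_lit 0) (nat_lit 1) (nat_lit 0) (nat_lit 1) (nat_lit 0) (nat_lit 263) (nat_lit 311) (nat_lit 146))) (XT.nd (nat_lit 94) (nat_lit 0) (nat_lit 0) (XT.lf (nat_lit 0) (nat_lit 34314053104) (nat_lit 0) (nat_lit 0) (nat_lit 0) (nat_lit 0) (nat_lit 0) (nat_lit 0) (nat_lit 1) (nat_lit 0) (nat_lit 1) (nat_lit 0) (nat_lit 264) (nat_lit 311) (nat_lit 145)) (XT.lf (nat_lit 0) (nat_lit 34313556857) (nat_lit 0) (nat_lit 0) (nat_lit 0) (nat_lit 0) (nat_lit 0) (nat_lit 0) (nat_lit 1) (nat_lit 0) (nat_lit 1) (nat_lit 0) (nat_lit 265) (nat_lit 311) (nat_lit 144))))) (XT.nd (nat_lit 282) (nat_lit 0) (nat_lit 0) (XT.nd (nat_lit 94) (nat_lit 0) (nat_lit 0) (XT.lf (nat_lit 0) (nat_lit 34313084242) (nat_lit 0) (nat_lit 0) (nat_lit 0) (nat_lit 0) (nat_lit 0) (nat_lit 0) (nat_lit 1) (nat_lit 0) (nat_lit 1) (nat_lit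 0) (nat_lit 266) (nat_lit 311) (nat_lit 143)) (XT.nd (nat_lit 94) (nat_lit 0) (nat_lit 0) (XT.lf (nat_lit 0) (nat_lit 34312634132) (nat_lit 0) (nat_lit 0) (nat_lit 0) (nat_lit 0) (nat_lit 0) (nat_lit 0) (nat_lit 1) (nat_lit 0) (nat_lit 1) (nat_lit 0) (nat_lit 267) (nat_lit 311) (nat_lit 142)) (XT.lf (nat_lit 0) (nat_lit 34312205456) (nat_lit 0) (nat_lit 0) (nat_lit 0) (nat_lit 0) (nat_lit 0) (nat_lit 0) (nat_lit 1) (nat_lit 0) (nat_lit 1) (nat_lit 0) (nat_lit 268) (nat_lit 311) (nat_lit 141)))) (XT.nd (nat_lit 188) (nat_lit 0) (nat_lit 0) (XT.nd (nat_lit 94) (nat_lit 0) (nat_lit 0) (XT.lf (nat_lit 0) (nat_lit 34311797193) (nat_lit 0) (nat_lit 0) (nat_lit 0) (nat_lit 0) (nat_lit 0) (nat_lit 0) (nat_lit 1) (nat_lit 0) (nat_lit 1) (nat_lit 0) (nat_lit 269) (nat_lit 311) (nat_lit 140)) (XT.lf (nat_lit 0) (nat_lit 34311408371) (nat_lit 0) (nat_lit 0) (nat_lit 0) (nat_lit 0) (nat_lit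 0) (nat_lit 0) (nat_lit 1) (nat_lit 0) (nat_lit 1) (nat_lit 0) (nat_lit 270) (nat_lit 311) (nat_lit 139))) (XT.nd (nat_lit 94) (nat_lit 0) (nat_lit 0) (XT.lf (nat_lit 0) (nat_lit 34311038065) (nat_lit 0) (nat_lit 0) (nat_lit 0) (nat_lit 0) (nat_lit 0) (nat_lit 0) (nat_lit 1) (nat_lit 0) (nat_lit 1) (nat_lit 0) (nat_lit 271) (nat_lit 311) (nat_lit 138)) (XT.lf (nat_lit 0) (nat_lit 34310685392) (nat_lit 0) (nat_lit 0) (nat_lit 0) (nat_lit 0) (nat_lit 0) (nat_lit 0) (nat_lit 1) (nat_lit 0) (nat_lit 1) (nat_lit 0) (nat_lit 272) (nat_lit 311) (nat_lit 137))))))) (XT.nd (nat_lit 1316) (nat_lit 0) (nat_lit 0) (XT.nd (nat_lit 658) (nat_lit 0) (nat_lit 0) (XT.nd (nat_lit 282) (nat_lit 0) (nat_lit 0) (XT.nd (nat_lit 94) (nat_lit 0) (nat_lit 0) (XT.lf (nat_lit 0) (nat_lit 34310349513) (nat_lit 0) (nat_lit 0) (nat_lit 0) (nat_lit 0) (nat_lit 0) (nat_lit 0) (nat_lit 1) (nat_lit 0) (nat_lit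 1) (nat_lit 0) (nat_lit 273) (nat_lit 311) (nat_lit 136)) (XT.nd (nat_lit 94) (nat_lit 0) (nat_lit 0) (XT.lf (nat_lit 0) (nat_lit 34310029628) (nat_lit 0) (nat_lit 0) (nat_lit 0) (nat_lit 0) (nat_lit 0) (nat_lit 0) (nat_lit 1) (nat_lit 0) (nat_lit 1) (nat_lit 0) (nat_lit 274) (nat_lit 311) (nat_lit 135)) (XT.lf (nat_lit 0) (nat_lit 34309724976) (nat_lit 0) (nat_lit 0) (nat_lit 0) (nat_lit 0) (nat_lit 0) (nat_lit 0) (nat_lit 1) (nat_lit 0) (nat_lit 1) (nat_lit 0) (nat_lit 275) (nat_lit 311) (nat_lit 134)))) (XT.nd (nat_lit 188) (nat_lit 0) (nat_lit 0) (XT.nd (nat_lit 94) (nat_lit 0) (nat_lit 0) (XT.lf (nat_lit 0) (nat_lit 34309434831) (nat_lit 0) (nat_lit 0) (nat_lit 0) (nat_lit 0) (nat_lit 0) (nat_lit 0) (nat_lit 1) (nat_lit 0) (nat_lit 1) (nat_lit 0) (nat_lit 276) (nat_lit 311) (nat_lit 133)) (XT.lf (nat_lit 0) (nat_lit 34309158503) (nat_lit 0) (nat_lit 0) (nat_lit 0) (nat_lit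 0) (nat_lit 0) (nat_lit 0) (nat_lit 1) (nat_lit 0) (nat_lit 1) (nat_lit 0) (nat_lit 277) (nat_lit 311) (nat_lit 132))) (XT.nd (nat_lit 94) (nat_lit 0) (nat_lit 0) (XT.lf (nat_lit 0) (nat_lit 34308895333) (nat_lit 0) (nat_lit 0) (nat_lit 0) (nat_lit 0) (nat_lit 0) (nat_lit 0) (nat_lit 1) (nat_lit 0) (nat_lit 1) (nat_lit 0) (nat_lit 278) (nat_lit 311) (nat_lit 131)) (XT.lf (nat_lit 0) (nat_lit 34308644695) (nat_lit 0) (nat_lit 0) (nat_lit 0) (nat_lit 0) (nat_lit 0) (nat_lit 0) (nat_lit 1) (nat_lit 0) (nat_lit 1) (nat_lit 0) (nat_lit 279) (nat_lit 311) (nat_lit 130))))) (XT.nd (nat_lit 282) (nat_lit 0) (nat_lit 0) (XT.nd (nat_lit 94) (nat_lit 0) (nat_lit 0) (XT.lf (nat_lit 0) (nat_lit 34308405992) (nat_lit 0) (nat_lit 0) (nat_lit 0) (nat_lit 0) (nat_lit 0) (nat_lit 0) (nat_lit 1) (nat_lit 0) (nat_lit 1) (nat_lit 0) (nat_lit 280) (nat_lit 311) (nat_lit 129)) (XT.nd (nat_lit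 94) (nat_lit 0) (nat_lit 0) (XT.lf (nat_lit 0) (nat_lit 34308178656) (nat_lit 0) (nat_lit 0) (nat_lit 0) (nat_lit 0) (nat_lit 0) (nat_lit 0) (nat_lit 1) (nat_lit 0) (nat_lit 1) (nat_lit 0) (nat_lit 281) (nat_lit 311) (nat_lit 128)) (XT.lf (nat_lit 0) (nat_lit 34307962145) (nat_lit 0) (nat_lit 0) (nat_lit 0) (nat_lit 0) (nat_lit 0) (nat_lit 0) (nat_lit 1) (nat_lit 0) (nat_lit 1) (nat_lit 0) (nat_lit 282) (nat_lit 311) (nat_lit 127)))) (XT.nd (nat_lit 188) (nat_lit 0) (nat_lit 0) (XT.nd (nat_lit 94) (nat_lit 0) (nat_lit 0) (XT.lf (nat_lit 0) (nat_lit 34307755945) (nat_lit 0) (nat_lit 0) (nat_lit 0) (nat_lit 0) (nat_lit 0) (nat_lit 0) (nat_lit 1) (nat_lit 0) (nat_lit 1) (nat_lit 0) (nat_lit 283) (nat_lit 311) (nat_lit 126)) (XT.lf (nat_lit 0) (nat_lit 34307559563) (nat_lit 0) (nat_lit 0) (nat_lit 0) (nat_lit 0) (nat_lit 0) (nat_lit 0) (nat_lit 1) (nat_lit 0) (nat_lit 1) (nat_lit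 0) (nat_lit 284) (nat_lit 311) (nat_lit 125))) (XT.nd (nat_lit 94) (nat_lit 0) (nat_lit 0) (XT.lf (nat_lit 0) (nat_lit 34307372533) (nat_lit 0) (nat_lit 0) (nat_lit 0) (nat_lit 0) (nat_lit 0) (nat_lit 0) (nat_lit 1) (nat_lit 0) (nat_lit 1) (nat_lit 0) (nat_lit 285) (nat_lit 311) (nat_lit 124)) (XT.lf (nat_lit 0) (nat_lit 34307194410) (nat_lit 0) (nat_lit 0) (nat_lit 0) (nat_lit 0) (nat_lit 0) (nat_lit 0) (nat_lit 1) (nat_lit 0) (nat_lit 1) (nat_lit 0) (nat_lit 286) (nat_lit 311) (nat_lit 123)))))) (XT.nd (nat_lit 658) (nat_lit 0) (nat_lit 0) (XT.nd (nat_lit 282) (nat_lit 0) (nat_lit 0) (XT.nd (nat_lit 94) (nat_lit 0) (nat_lit 0) (XT.lf (nat_lit 0) (nat_lit 34307024768) (nat_lit 0) (nat_lit 0) (nat_lit 0) (nat_lit 0) (nat_lit 0) (nat_lit 0) (nat_lit 1) (nat_lit 0) (nat_lit 1) (nat_lit 0) (nat_lit 287) (nat_lit 311) (nat_lit 122)) (XT.nd (nat_lit 94) (nat_lit 0) (nat_lit 0)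 (XT.lf (nat_lit 0) (nat_lit 34306863204) (nat_lit 0) (nat_lit 0) (nat_lit 0) (nat_lit 0) (nat_lit 0) (nat_lit 0) (nat_lit 1) (nat_lit 0) (nat_lit 1) (nat_lit 0) (nat_lit 288) (nat_lit 311) (nat_lit 121)) (XT.lf (nat_lit 0) (nat_lit 34306709334) (nat_lit 0) (nat_lit 0) (nat_lit 0) (nat_lit 0) (nat_lit 0) (nat_lit 0) (nat_lit 1) (nat_lit 0) (nat_lit 1) (nat_lit 0) (nat_lit 289) (nat_lit 311) (nat_lit 120)))) (XT.nd (nat_lit 188) (nat_lit 0) (nat_lit 0) (XT.nd (nat_lit 94) (nat_lit 0) (nat_lit 0) (XT.lf (nat_lit 0) (nat_lit 34306562791) (nat_lit 0) (nat_lit 0) (nat_lit 0) (nat_lit 0) (nat_lit 0) (nat_lit 0) (nat_lit 1) (nat_lit 0) (nat_lit 1) (nat_lit 0) (nat_lit 290) (nat_lit 311) (nat_lit 119)) (XT.lf (nat_lit 0) (nat_lit 34306423227) (nat_lit 0) (nat_lit 0) (nat_lit 0) (nat_lit 0) (nat_lit 0) (nat_lit 0) (nat_lit 1) (nat_lit 0) (nat_lit 1) (nat_lit 0) (nat_lit 291) (nat_lit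 311) (nat_lit 118))) (XT.nd (nat_lit 94) (nat_lit 0) (nat_lit 0) (XT.lf (nat_lit 0) (nat_lit 34306290308) (nat_lit 0) (nat_lit 0) (nat_lit 0) (nat_lit 0) (nat_lit 0) (nat_lit 0) (nat_lit 1) (nat_lit 0) (nat_lit 1) (nat_lit 0) (nat_lit 292) (nat_lit 311) (nat_lit 117)) (XT.lf (nat_lit 0) (nat_lit 34306163719) (nat_lit 0) (nat_lit 0) (nat_lit 0) (nat_lit 0) (nat_lit 0) (nat_lit 0) (nat_lit 1) (nat_lit 0) (nat_lit 1) (nat_lit 0) (nat_lit 293) (nat_lit 311) (nat_lit 116))))) (XT.nd (nat_lit 282) (nat_lit 0) (nat_lit 0) (XT.nd (nat_lit 94) (nat_lit 0) (nat_lit 0) (XT.lf (nat_lit 0) (nat_lit 34306043158) (nat_lit 0) (nat_lit 0) (nat_lit 0) (nat_lit 0) (nat_lit 0) (nat_lit 0) (nat_lit 1) (nat_lit 0) (nat_lit 1) (nat_lit 0) (nat_lit 294) (nat_lit 311) (nat_lit 115)) (XT.nd (nat_lit 94) (nat_lit 0) (nat_lit 0) (XT.lf (nat_lit 0) (nat_lit 34305928338) (nat_lit 0) (nat_lit 0) (nat_lit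 0) (nat_lit 0) (nat_lit 0) (nat_lit 0) (nat_lit 1) (nat_lit 0) (nat_lit 1) (nat_lit 0) (nat_lit 295) (nat_lit 311) (nat_lit 114)) (XT.lf (nat_lit 0) (nat_lit 34305818985) (nat_lit 0) (nat_lit 0) (nat_lit 0) (nat_lit 0) (nat_lit 0) (nat_lit 0) (nat_lit 1) (nat_lit 0) (nat_lit 1) (nat_lit 0) (nat_lit 296) (nat_lit 311) (nat_lit 113)))) (XT.nd (nat_lit 188) (nat_lit 0) (nat_lit 0) (XT.nd (nat_lit 94) (nat_lit 0) (nat_lit 0) (XT.lf (nat_lit 0) (nat_lit 34305714840) (nat_lit 0) (nat_lit 0) (nat_lit 0) (nat_lit 0) (nat_lit 0) (nat_lit 0) (nat_lit 1) (nat_lit 0) (nat_lit 1) (nat_lit 0) (nat_lit 297) (nat_lit 311) (nat_lit 112)) (XT.lf (nat_lit 0) (nat_lit 34305615654) (nat_lit 0) (nat_lit 0) (nat_lit 0) (nat_lit 0) (nat_lit 0) (nat_lit 0) (nat_lit 1) (nat_lit 0) (nat_lit 1) (nat_lit 0) (nat_lit 298) (nat_lit 311) (nat_lit 111))) (XT.nd (nat_lit 94) (nat_lit 0) (nat_lit 0) (XT.lf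 (nat_lit 0) (nat_lit 34305521191) (nat_lit 0) (nat_lit 0) (nat_lit 0) (nat_lit 0) (nat_lit 0) (nat_lit 0) (nat_lit 1) (nat_lit 0) (nat_lit 1) (nat_lit 0) (nat_lit 299) (nat_lit 311) (nat_lit 110)) (XT.lf (nat_lit 0) (nat_lit 34305431226) (nat_lit 0) (nat_lit 0) (nat_lit 0) (nat_lit 0) (nat_lit 0) (nat_lit 0) (nat_lit 1) (nat_lit 0) (nat_lit 1) (nat_lit 0) (nat_lit 300) (nat_lit 311) (nat_lit 109))))))))
noncomputable def ec224 : XT := (XT.nd (nat_lit 26884) (nat_lit 0) (nat_lit 3696) (XT.nd (nat_lit 1222) (nat_lit 0) (nat_lit 0) (XT.nd (nat_lit 564) (nat_lit 0) (nat_lit 0) (XT.nd (nat_lit 282) (nat_lit 0) (nat_lit 0) (XT.nd (nat_lit 94) (nat_lit 0) (nat_lit 0) (XT.lf (nat_lit 0) (nat_lit 34305345546) (nat_lit 0) (nat_lit 0) (nat_lit 0) (nat_lit 0) (nat_lit 0) (nat_lit 0) (nat_lit 1) (nat_lit 0) (nat_lit 1) (nat_lit 0) (nat_lit 301) (nat_lit 311) (nat_lit 108)) (XT.nd (nat_lit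 94) (nat_lit 0) (nat_lit 0) (XT.lf (nat_lit 0) (nat_lit 34305263945) (nat_lit 0) (nat_lit 0) (nat_lit 0) (nat_lit 0) (nat_lit 0) (nat_lit 0) (nat_lit 1) (nat_lit 0) (nat_lit 1) (nat_lit 0) (nat_lit 302) (nat_lit 311) (nat_lit 107)) (XT.lf (nat_lit 0) (nat_lit 34305186230) (nat_lit 0) (nat_lit 0) (nat_lit 0) (nat_lit 0) (nat_lit 0) (nat_lit 0) (nat_lit 1) (nat_lit 0) (nat_lit 1) (nat_lit 0) (nat_lit 303) (nat_lit 311) (nat_lit 106)))) (XT.nd (nat_lit 94) (nat_lit 0) (nat_lit 0) (XT.lf (nat_lit 0) (nat_lit 34305112216) (nat_lit 0) (nat_lit 0) (nat_lit 0) (nat_lit 0) (nat_lit 0) (nat_lit 0) (nat_lit 1) (nat_lit 0) (nat_lit 1) (nat_lit 0) (nat_lit 304) (nat_lit 311) (nat_lit 105)) (XT.nd (nat_lit 94) (nat_lit 0) (nat_lit 0) (XT.lf (nat_lit 0) (nat_lit 34305041727) (nat_lit 0) (nat_lit 0) (nat_lit 0) (nat_lit 0) (nat_lit 0) (nat_lit 0) (nat_lit 1) (nat_lit 0) (nat_lit 1) (nat_lit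 0) (nat_lit 305) (nat_lit 311) (nat_lit 104)) (XT.lf (nat_lit 0) (nat_lit 34304974594) (nat_lit 0) (nat_lit 0) (nat_lit 0) (nat_lit 0) (nat_lit 0) (nat_lit 0) (nat_lit 1) (nat_lit 0) (nat_lit 1) (nat_lit 0) (nat_lit 306) (nat_lit 311) (nat_lit 103))))) (XT.nd (nat_lit 282) (nat_lit 0) (nat_lit 0) (XT.nd (nat_lit 94) (nat_lit 0) (nat_lit 0) (XT.lf (nat_lit 0) (nat_lit 34304910657) (nat_lit 0) (nat_lit 0) (nat_lit 0) (nat_lit 0) (nat_lit 0) (nat_lit 0) (nat_lit 1) (nat_lit 0) (nat_lit 1) (nat_lit 0) (nat_lit 307) (nat_lit 311) (nat_lit 102)) (XT.nd (nat_lit 94) (nat_lit 0) (nat_lit 0) (XT.lf (nat_lit 0) (nat_lit 34304849766) (nat_lit 0) (nat_lit 0) (nat_lit 0) (nat_lit 0) (nat_lit 0) (nat_lit 0) (nat_lit 1) (nat_lit 0) (nat_lit 1) (nat_lit 0) (nat_lit 308) (nat_lit 311) (nat_lit 101)) (XT.lf (nat_lit 0) (nat_lit 34304791774) (nat_lit 0) (nat_lit 0) (nat_lit 0) (nat_lit 0)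 (nat_lit 0) (nat_lit 0) (nat_lit 1) (nat_lit 0) (nat_lit 1) (nat_lit 0) (nat_lit 309) (nat_lit 311) (nat_lit 100)))) (XT.nd (nat_lit 188) (nat_lit 0) (nat_lit 0) (XT.nd (nat_lit 94) (nat_lit 0) (nat_lit 0) (XT.lf (nat_lit 0) (nat_lit 34304736543) (nat_lit 0) (nat_lit 0) (nat_lit 0) (nat_lit 0) (nat_lit 0) (nat_lit 0) (nat_lit 1) (nat_lit 0) (nat_lit 1) (nat_lit 0) (nat_lit 310) (nat_lit 311) (nat_lit 99)) (XT.lf (nat_lit 0) (nat_lit 34304683943) (nat_lit 0) (nat_lit 0) (nat_lit 0) (nat_lit 0) (nat_lit 0) (nat_lit 0) (nat_lit 1) (nat_lit 0) (nat_lit 1) (nat_lit 0) (nat_lit 311) (nat_lit 311) (nat_lit 98))) (XT.nd (nat_lit 94) (nat_lit 0) (nat_lit 0) (XT.lf (nat_lit 0) (nat_lit 34304633847) (nat_lit 0) (nat_lit 0) (nat_lit 0) (nat_lit 0) (nat_lit 0) (nat_lit 0) (nat_lit 1) (nat_lit 0) (nat_lit 1) (nat_lit 0) (nat_lit 312) (nat_lit 311) (nat_lit 97)) (XT.lf (nat_lit 0) (nat_lit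 34304586137) (nat_lit 0) (nat_lit 0) (nat_lit 0) (nat_lit 0) (nat_lit 0) (nat_lit 0) (nat_lit 1) (nat_lit 0) (nat_lit 1) (nat_lit 0) (nat_lit 313) (nat_lit 311) (nat_lit 96)))))) (XT.nd (nat_lit 25004) (nat_lit 0) (nat_lit 10836) (XT.nd (nat_lit 282) (nat_lit 0) (nat_lit 0) (XT.nd (nat_lit 94) (nat_lit 0) (nat_lit 0) (XT.lf (nat_lit 0) (nat_lit 34304540699) (nat_lit 0) (nat_lit 0) (nat_lit 0) (nat_lit 0) (nat_lit 0) (nat_lit 0) (nat_lit 1) (nat_lit 0) (nat_lit 1) (nat_lit 0) (nat_lit 314) (nat_lit 311) (nat_lit 95)) (XT.nd (nat_lit 94) (nat_lit 0) (nat_lit 0) (XT.lf (nat_lit 0) (nat_lit 34304497424) (nat_lit 0) (nat_lit 0) (nat_lit 0) (nat_lit 0) (nat_lit 0) (nat_lit 0) (nat_lit 1) (nat_lit 0) (nat_lit 1) (nat_lit 0) (nat_lit 315) (nat_lit 311) (nat_lit 94)) (XT.lf (nat_lit 0) (nat_lit 34304456211) (nat_lit 0) (nat_lit 0) (nat_lit 0) (nat_lit 0) (nat_lit 0) (nat_lit 0) (nat_lit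 1) (nat_lit 0) (nat_lit 1) (nat_lit 0) (nat_lit 316) (nat_lit 311) (nat_lit 93)))) (XT.nd (nat_lit 24534) (nat_lit 0) (nat_lit 10752) (XT.nd (nat_lit 24440) (nat_lit 0) (nat_lit 10752) (XT.lf (nat_lit 0) (nat_lit 34304416959) (nat_lit 0) (nat_lit 0) (nat_lit 0) (nat_lit 0) (nat_lit 0) (nat_lit 0) (nat_lit 1) (nat_lit 0) (nat_lit 1) (nat_lit 0) (nat_lit 317) (nat_lit 311) (nat_lit 92)) (XT.lf (nat_lit 924) (nat_lit 18025163469) (nat_lit 0) (nat_lit 32003636307) (nat_lit 924) (nat_lit 18025163469) (nat_lit 139) (nat_lit 1) (nat_lit 128) (nat_lit 0) (nat_lit 139) (nat_lit 0) (nat_lit 96) (nat_lit 312) (nat_lit 312))) (XT.nd (nat_lit 94) (nat_lit 0) (nat_lit 84) (XT.lf (nat_lit 924) (nat_lit 69867783960) (nat_lit 84) (nat_lit 31487448625) (nat_lit 0) (nat_lit 31487448625) (nat_lit 139) (nat_lit 1) (nat_lit 129) (nat_lit 1) (nat_lit 128) (nat_lit 0) (nat_lit 97) (nat_lit 312)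 (nat_lit 311)) (XT.lf (nat_lit 924) (nat_lit 33297933836) (nat_lit 0) (nat_lit 63082514528) (nat_lit 840) (nat_lit 33297933836) (nat_lit 140) (nat_lit 1) (nat_lit 129) (nat_lit 1) (nat_lit 139) (nat_lit 1) (nat_lit 98) (nat_lit 312) (nat_lit 310))))) (XT.nd (nat_lit 282) (nat_lit 0) (nat_lit 168) (XT.nd (nat_lit 94) (nat_lit 0) (nat_lit 84) (XT.lf (nat_lit 924) (nat_lit 62462297013) (nat_lit 84) (nat_lit 32077008307) (nat_lit 0) (nat_lit 32077008307) (nat_lit 140) (nat_lit 1) (nat_lit 130) (nat_lit 1) (nat_lit 129) (nat_lit 1) (nat_lit 99) (nat_lit 312) (nat_lit 309)) (XT.nd (nat_lit 94) (nat_lit 0) (nat_lit 0) (XT.lf (nat_lit 924) (nat_lit 28750795484) (nat_lit 0) (nat_lit 66149706299) (nat_lit 840) (nat_lit 28750795484) (nat_lit 141) (nat_lit 1) (nat_lit 130) (nat_lit 1) (nat_lit 140) (nat_lit 1) (nat_lit 100) (nat_lit 312) (nat_lit 308)) (XT.lf (nat_lit 924) (nat_lit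 51710178274) (nat_lit 84) (nat_lit 34533243831) (nat_lit 0) (nat_lit 34533243831) (nat_lit 141) (nat_lit 1) (nat_lit 131) (nat_lit 1) (nat_lit 130) (nat_lit 1) (nat_lit 101) (nat_lit 312) (nat_lit 307)))) (XT.nd (nat_lit 188) (nat_lit 0) (nat_lit 84) (XT.nd (nat_lit 94) (nat_lit 0) (nat_lit 0) (XT.lf (nat_lit 924) (nat_lit 22673419648) (nat_lit 0) (nat_lit 72651715475) (nat_lit 840) (nat_lit 22673419648) (nat_lit 142) (nat_lit 1) (nat_lit 131) (nat_lit 1) (nat_lit 141) (nat_lit 1) (nat_lit 102) (nat_lit 312) (nat_lit 306)) (XT.lf (nat_lit 924) (nat_lit 38114714598) (nat_lit 84) (nat_lit 38591109963) (nat_lit 0) (nat_lit 38591109963) (nat_lit 142) (nat_lit 1) (nat_lit 132) (nat_lit 1) (nat_lit 131) (nat_lit 1) (nat_lit 103) (nat_lit 312) (nat_lit 305))) (XT.nd (nat_lit 94) (nat_lit 0) (nat_lit 0) (XT.lf (nat_lit 924) (nat_lit 15301072701) (nat_lit 0) (nat_lit 82092063584)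 (nat_lit 840) (nat_lit 15301072701) (nat_lit 143) (nat_lit 1) (nat_lit 132) (nat_lit 1) (nat_lit 142) (nat_lit 1) (nat_lit 104) (nat_lit 312) (nat_lit 304)) (XT.lf (nat_lit 924) (nat_lit 22123252057) (nat_lit 84) (nat_lit 44014559981) (nat_lit 0) (nat_lit 44014559981) (nat_lit 143) (nat_lit 1) (nat_lit 133) (nat_lit 1) (nat_lit 132) (nat_lit 1) (nat_lit 105) (nat_lit 312) (nat_lit 303))))))) (XT.nd (nat_lit 2444) (nat_lit 1848) (nat_lit 0) (XT.nd (nat_lit 1786) (nat_lit 1008) (nat_lit 0) (XT.nd (nat_lit 1504) (nat_lit 3192) (nat_lit 0) (XT.nd (nat_lit 94) (nat_lit 1428) (nat_lit 0) (XT.lf (nat_lit 84) (nat_lit 6842719637) (nat_lit 0) (nat_lit 94028865337) (nat_lit 840) (nat_lit 6842719637) (nat_lit 134) (nat_lit 1) (nat_lit 133) (nat_lit 1) (nat_lit 143) (nat_lit 1) (nat_lit 106) (nat_lit 312) (nat_lit 302)) (XT.nd (nat_lit 94) (nat_lit 588) (nat_lit 0) (XT.lf (nat_lit 924)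 (nat_lit 4132832497) (nat_lit 0) (nat_lit 50593642181) (nat_lit 840) (nat_lit 50593642181) (nat_lit 134) (nat_lit 1) (nat_lit 123) (nat_lit 1) (nat_lit 133) (nat_lit 1) (nat_lit 107) (nat_lit 312) (nat_lit 301)) (XT.lf (nat_lit 588) (nat_lit 98077319909) (nat_lit 0) (nat_lit 2475733994) (nat_lit 504) (nat_lit 2475733994) (nat_lit 123) (nat_lit 1) (nat_lit 116) (nat_lit 1) (nat_lit 122) (nat_lit 1) (nat_lit 108) (nat_lit 312) (nat_lit 300)))) (XT.nd (nat_lit 94) (nat_lit 252) (nat_lit 0) (XT.lf (nat_lit 420) (nat_lit 72847210057) (nat_lit 0) (nat_lit 2021370300) (nat_lit 336) (nat_lit 2021370300) (nat_lit 86) (nat_lit 1) (nat_lit 81) (nat_lit 1) (nat_lit 85) (nat_lit 1) (nat_lit 122) (nat_lit 312) (nat_lit 286)) (XT.nd (nat_lit 94) (nat_lit 252) (nat_lit 0) (XT.lf (nat_lit 84) (nat_lit 28505651845) (nat_lit 0) (nat_lit 18357108646) (nat_lit 420) (nat_lit 28505651845) (nat_lit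 82) (nat_lit 1) (nat_lit 81) (nat_lit 1) (nat_lit 86) (nat_lit 1) (nat_lit 123) (nat_lit 312) (nat_lit 285)) (XT.lf (nat_lit 336) (nat_lit 41633405707) (nat_lit 0) (nat_lit 16135911676) (nat_lit 252) (nat_lit 16135911676) (nat_lit 82) (nat_lit 1) (nat_lit 78) (nat_lit 1) (nat_lit 81) (nat_lit 1) (nat_lit 124) (nat_lit 312) (nat_lit 284))))) (XT.nd (nat_lit 282) (nat_lit 420) (nat_lit 0) (XT.nd (nat_lit 94) (nat_lit 588) (nat_lit 0) (XT.lf (nat_lit 84) (nat_lit 13152636865) (nat_lit 0) (nat_lit 46173946739) (nat_lit 336) (nat_lit 13152636865) (nat_lit 79) (nat_lit 1) (nat_lit 78) (nat_lit 1) (nat_lit 82) (nat_lit 1) (nat_lit 125) (nat_lit 312) (nat_lit 283)) (XT.nd (nat_lit 94) (nat_lit 336) (nat_lit 0) (XT.lf (nat_lit 336) (nat_lit 10962311726) (nat_lit 0) (nat_lit 30061670732) (nat_lit 252) (nat_lit 30061670732) (nat_lit 79) (nat_lit 1) (nat_lit 75) (nat_lit 1) (nat_lit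 78) (nat_lit 1) (nat_lit 126) (nat_lit 312) (nat_lit 282)) (XT.lf (nat_lit 336) (nat_lit 65975885685) (nat_lit 0) (nat_lit 1883986509) (nat_lit 252) (nat_lit 1883986509) (nat_lit 75) (nat_lit 1) (nat_lit 71) (nat_lit 1) (nat_lit 74) (nat_lit 1) (nat_lit 127) (nat_lit 312) (nat_lit 281)))) (XT.nd (nat_lit 188) (nat_lit 168) (nat_lit 0) (XT.nd (nat_lit 94) (nat_lit 252) (nat_lit 0) (XT.lf (nat_lit 84) (nat_lit 24956788124) (nat_lit 0) (nat_lit 18492729406) (nat_lit 336) (nat_lit 24956788124) (nat_lit 72) (nat_lit 1) (nat_lit 71) (nat_lit 1) (nat_lit 75) (nat_lit 1) (nat_lit 128) (nat_lit 312) (nat_lit 280)) (XT.lf (nat_lit 336) (nat_lit 34317868861) (nat_lit 0) (nat_lit 16400186710) (nat_lit 252) (nat_lit 16400186710) (nat_lit 72) (nat_lit 1) (nat_lit 68) (nat_lit 1) (nat_lit 71) (nat_lit 1) (nat_lit 129) (nat_lit 312) (nat_lit 279))) (XT.nd (nat_lit 94) (nat_lit 168) (nat_lit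 0) (XT.lf (nat_lit 84) (nat_lit 9451113096) (nat_lit 0) (nat_lit 46962499163) (nat_lit 336) (nat_lit 9451113096) (nat_lit 69) (nat_lit 1) (nat_lit 68) (nat_lit 1) (nat_lit 72) (nat_lit 1) (nat_lit 130) (nat_lit 312) (nat_lit 278)) (XT.lf (nat_lit 252) (nat_lit 3463202081) (nat_lit 0) (nat_lit 30585814061) (nat_lit 168) (nat_lit 30585814061) (nat_lit 69) (nat_lit 1) (nat_lit 66) (nat_lit 1) (nat_lit 68) (nat_lit 1) (nat_lit 131) (nat_lit 312) (nat_lit 277)))))) (XT.nd (nat_lit 658) (nat_lit 924) (nat_lit 0) (XT.nd (nat_lit 282) (nat_lit 420) (nat_lit 0) (XT.nd (nat_lit 94) (nat_lit 168) (nat_lit 0) (XT.lf (nat_lit 336) (nat_lit 52327822188) (nat_lit 0) (nat_lit 5557594006) (nat_lit 252) (nat_lit 5557594006) (nat_lit 66) (nat_lit 1) (nat_lit 62) (nat_lit 1) (nat_lit 65) (nat_lit 1) (nat_lit 132) (nat_lit 312) (nat_lit 276)) (XT.nd (nat_lit 94) (nat_lit 168) (nat_lit 0) (XT.lf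 (nat_lit 84) (nat_lit 18276866177) (nat_lit 0) (nat_lit 25710787202) (nat_lit 336) (nat_lit 18276866177) (nat_lit 63) (nat_lit 1) (nat_lit 62) (nat_lit 1) (nat_lit 66) (nat_lit 1) (nat_lit 133) (nat_lit 312) (nat_lit 275)) (XT.lf (nat_lit 252) (nat_lit 21116099541) (nat_lit 0) (nat_lit 20003150414) (nat_lit 168) (nat_lit 20003150414) (nat_lit 63) (nat_lit 1) (nat_lit 60) (nat_lit 1) (nat_lit 62) (nat_lit 1) (nat_lit 134) (nat_lit 312) (nat_lit 274)))) (XT.nd (nat_lit 188) (nat_lit 168) (nat_lit 0) (XT.nd (nat_lit 94) (nat_lit 252) (nat_lit 0) (XT.lf (nat_lit 84) (nat_lit 3033713266) (nat_lit 0) (nat_lit 53950757201) (nat_lit 252) (nat_lit 3033713266) (nat_lit 61) (nat_lit 1) (nat_lit 60) (nat_lit 1) (nat_lit 63) (nat_lit 1) (nat_lit 135) (nat_lit 312) (nat_lit 273)) (XT.lf (nat_lit 84) (nat_lit 25037767840) (nat_lit 0) (nat_lit 8842445325) (nat_lit 252) (nat_lit 25037767840)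 (nat_lit 58) (nat_lit 1) (nat_lit 57) (nat_lit 1) (nat_lit 60) (nat_lit 1) (nat_lit 136) (nat_lit 312) (nat_lit 272))) (XT.nd (nat_lit 94) (nat_lit 0) (nat_lit 0) (XT.lf (nat_lit 252) (nat_lit 34769328892) (nat_lit 0) (nat_lit 11542475151) (nat_lit 168) (nat_lit 11542475151) (nat_lit 58) (nat_lit 1) (nat_lit 55) (nat_lit 1) (nat_lit 57) (nat_lit 1) (nat_lit 137) (nat_lit 312) (nat_lit 271)) (XT.lf (nat_lit 84) (nat_lit 9811000048) (nat_lit 0) (nat_lit 37192087423) (nat_lit 252) (nat_lit 9811000048) (nat_lit 56) (nat_lit 1) (nat_lit 55) (nat_lit 1) (nat_lit 58) (nat_lit 1) (nat_lit 138) (nat_lit 312) (nat_lit 270))))) (XT.nd (nat_lit 282) (nat_lit 504) (nat_lit 0) (XT.nd (nat_lit 94) (nat_lit 252) (nat_lit 0) (XT.lf (nat_lit 252) (nat_lit 4596100293) (nat_lit 0) (nat_lit 25599381567) (nat_lit 168) (nat_lit 25599381567) (nat_lit 56) (nat_lit 1) (nat_lit 53) (nat_lit 1) (nat_lit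 55) (nat_lit 1) (nat_lit 139) (nat_lit 312) (nat_lit 269)) (XT.nd (nat_lit 94) (nat_lit 0) (nat_lit 0) (XT.lf (nat_lit 252) (nat_lit 45173442966) (nat_lit 0) (nat_lit 4815864588) (nat_lit 168) (nat_lit 4815864588) (nat_lit 53) (nat_lit 1) (nat_lit 50) (nat_lit 1) (nat_lit 52) (nat_lit 1) (nat_lit 140) (nat_lit 312) (nat_lit 268)) (XT.lf (nat_lit 84) (nat_lit 15038349863) (nat_lit 0) (nat_lit 23747228038) (nat_lit 252) (nat_lit 15038349863) (nat_lit 51) (nat_lit 1) (nat_lit 50) (nat_lit 1) (nat_lit 53) (nat_lit 1) (nat_lit 141) (nat_lit 312) (nat_lit 267)))) (XT.nd (nat_lit 188) (nat_lit 336) (nat_lit 0) (XT.nd (nat_lit 94) (nat_lit 0) (nat_lit 0) (XT.lf (nat_lit 252) (nat_lit 15315829215) (nat_lit 0) (nat_lit 18777670528) (nat_lit 168) (nat_lit 18777670528) (nat_lit 51) (nat_lit 1) (nat_lit 48) (nat_lit 1) (nat_lit 50) (nat_lit 1) (nat_lit 142) (nat_lit 312) (nat_lit 266))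 (XT.lf (nat_lit 84) (nat_lit 503389066) (nat_lit 0) (nat_lit 50945047898) (nat_lit 252) (nat_lit 503389066) (nat_lit 49) (nat_lit 1) (nat_lit 48) (nat_lit 1) (nat_lit 51) (nat_lit 1) (nat_lit 143) (nat_lit 312) (nat_lit 265))) (XT.nd (nat_lit 94) (nat_lit 168) (nat_lit 0) (XT.lf (nat_lit 84) (nat_lit 19007150357) (nat_lit 0) (nat_lit 13012337251) (nat_lit 168) (nat_lit 19007150357) (nat_lit 47) (nat_lit 1) (nat_lit 46) (nat_lit 1) (nat_lit 48) (nat_lit 1) (nat_lit 144) (nat_lit 312) (nat_lit 264)) (XT.lf (nat_lit 252) (nat_lit 23585709770) (nat_lit 0) (nat_lit 13274146451) (nat_lit 168) (nat_lit 13274146451) (nat_lit 47) (nat_lit 1) (nat_lit 44) (nat_lit 1) (nat_lit 46) (nat_lit 1) (nat_lit 145) (nat_lit 312) (nat_lit 263))))))))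
noncomputable def ec225 : XT := (XT.nd (nat_lit 2538) (nat_lit 1260) (nat_lit 0) (XT.nd (nat_lit 1222) (nat_lit 1092) (nat_lit 0) (XT.nd (nat_lit 564) (nat_lit 672) (nat_lit 0) (XT.nd (nat_lit 282) (nat_lit 336) (nat_lit 0) (XT.nd (nat_lit 94) (nat_lit 336) (nat_lit 0) (XT.lf (nat_lit 84) (nat_lit 4728771802) (nat_lit 0) (nat_lit 39807918266) (nat_lit 252) (nat_lit 4728771802) (nat_lit 45) (nat_lit 1) (nat_lit 44) (nat_lit 1) (nat_lit 47) (nat_lit 1) (nat_lit 146) (nat_lit 312) (nat_lit 262)) (XT.nd (nat_lit 94) (nat_lit 168) (nat_lit 0) (XT.lf (nat_lit 84) (nat_lit 21956336979) (nat_lit 0) (nat_lit 4491409654) (nat_lit 168) (nat_lit 21956336979) (nat_lit 43) (nat_lit 1) (nat_lit 42) (nat_lit 1) (nat_lit 44) (nat_lit 1) (nat_lit 147) (nat_lit 312) (nat_lit 261)) (XT.lf (nat_lit 252) (nat_lit 29866249579) (nat_lit 0) (nat_lit 8849921172) (nat_lit 168) (nat_lit 8849921172)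 (nat_lit 43) (nat_lit 1) (nat_lit 40) (nat_lit 1) (nat_lit 42) (nat_lit 1) (nat_lit 148) (nat_lit 312) (nat_lit 260)))) (XT.nd (nat_lit 94) (nat_lit 336) (nat_lit 0) (XT.lf (nat_lit 84) (nat_lit 7999545951) (nat_lit 0) (nat_lit 30745597904) (nat_lit 252) (nat_lit 7999545951) (nat_lit 41) (nat_lit 1) (nat_lit 40) (nat_lit 1) (nat_lit 43) (nat_lit 1) (nat_lit 149) (nat_lit 312) (nat_lit 259)) (XT.nd (nat_lit 94) (nat_lit 252) (nat_lit 0) (XT.lf (nat_lit 168) (nat_lit 2296378328) (nat_lit 0) (nat_lit 21821204810) (nat_lit 84) (nat_lit 21821204810) (nat_lit 41) (nat_lit 1) (nat_lit 39) (nat_lit 1) (nat_lit 40) (nat_lit 1) (nat_lit 150) (nat_lit 312) (nat_lit 258)) (XT.lf (nat_lit 252) (nat_lit 34535063900) (nat_lit 0) (nat_lit 5308707322) (nat_lit 168) (nat_lit 5308707322) (nat_lit 39) (nat_lit 1) (nat_lit 36) (nat_lit 1) (nat_lit 38) (nat_lit 1) (nat_lit 151) (nat_lit 312)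 (nat_lit 257))))) (XT.nd (nat_lit 282) (nat_lit 336) (nat_lit 0) (XT.nd (nat_lit 94) (nat_lit 336) (nat_lit 0) (XT.lf (nat_lit 84) (nat_lit 10494745001) (nat_lit 0) (nat_lit 23385455704) (nat_lit 252) (nat_lit 10494745001) (nat_lit 37) (nat_lit 1) (nat_lit 36) (nat_lit 1) (nat_lit 39) (nat_lit 1) (nat_lit 152) (nat_lit 312) (nat_lit 256)) (XT.nd (nat_lit 94) (nat_lit 252) (nat_lit 0) (XT.lf (nat_lit 168) (nat_lit 7711758664) (nat_lit 0) (nat_lit 17952359200) (nat_lit 84) (nat_lit 17952359200) (nat_lit 37) (nat_lit 1) (nat_lit 35) (nat_lit 1) (nat_lit 36) (nat_lit 1) (nat_lit 153) (nat_lit 312) (nat_lit 255)) (XT.lf (nat_lit 252) (nat_lit 37901631546) (nat_lit 0) (nat_lit 2489253577) (nat_lit 168) (nat_lit 2489253577) (nat_lit 35) (nat_lit 1) (nat_lit 32) (nat_lit 1) (nat_lit 34) (nat_lit 1) (nat_lit 154) (nat_lit 312) (nat_lit 254)))) (XT.nd (nat_lit 188) (nat_lit 252) (nat_lit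 0) (XT.nd (nat_lit 94) (nat_lit 84) (nat_lit 0) (XT.lf (nat_lit 84) (nat_lit 12361194351) (nat_lit 0) (nat_lit 17421154396) (nat_lit 252) (nat_lit 12361194351) (nat_lit 33) (nat_lit 1) (nat_lit 32) (nat_lit 1) (nat_lit 35) (nat_lit 1) (nat_lit 155) (nat_lit 312) (nat_lit 253)) (XT.lf (nat_lit 168) (nat_lit 11889742490) (nat_lit 0) (nat_lit 14769450342) (nat_lit 84) (nat_lit 14769450342) (nat_lit 33) (nat_lit 1) (nat_lit 31) (nat_lit 1) (nat_lit 32) (nat_lit 1) (nat_lit 156) (nat_lit 312) (nat_lit 252))) (XT.nd (nat_lit 94) (nat_lit 0) (nat_lit 0) (XT.lf (nat_lit 252) (nat_lit 40219431794) (nat_lit 0) (nat_lit 259121674) (nat_lit 168) (nat_lit 259121674) (nat_lit 31) (nat_lit 1) (nat_lit 28) (nat_lit 1) (nat_lit 30) (nat_lit 1) (nat_lit 157) (nat_lit 312) (nat_lit 251)) (XT.lf (nat_lit 84) (nat_lit 13719243914) (nat_lit 0) (nat_lit 12600885991) (nat_lit 252) (nat_lit 13719243914)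 (nat_lit 29) (nat_lit 1) (nat_lit 28) (nat_lit 1) (nat_lit 31) (nat_lit 1) (nat_lit 158) (nat_lit 312) (nat_lit 250)))))) (XT.nd (nat_lit 658) (nat_lit 504) (nat_lit 0) (XT.nd (nat_lit 282) (nat_lit 336) (nat_lit 0) (XT.nd (nat_lit 94) (nat_lit 168) (nat_lit 0) (XT.lf (nat_lit 168) (nat_lit 15062920145) (nat_lit 0) (nat_lit 12150863347) (nat_lit 84) (nat_lit 12150863347) (nat_lit 29) (nat_lit 1) (nat_lit 27) (nat_lit 1) (nat_lit 28) (nat_lit 1) (nat_lit 159) (nat_lit 312) (nat_lit 249)) (XT.nd (nat_lit 94) (nat_lit 168) (nat_lit 0) (XT.lf (nat_lit 0) (nat_lit 1514866046) (nat_lit 0) (nat_lit 35680558906) (nat_lit 168) (nat_lit 1514866046) (nat_lit 27) (nat_lit 3) (nat_lit 27) (nat_lit 1) (nat_lit 29) (nat_lit 1) (nat_lit 160) (nat_lit 312) (nat_lit 248)) (XT.lf (nat_lit 84) (nat_lit 14667483282) (nat_lit 0) (nat_lit 8717693572) (nat_lit 168) (nat_lit 14667483282) (nat_lit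 26) (nat_lit 1) (nat_lit 25) (nat_lit 1) (nat_lit 27) (nat_lit 1) (nat_lit 161) (nat_lit 312) (nat_lit 247)))) (XT.nd (nat_lit 188) (nat_lit 252) (nat_lit 0) (XT.nd (nat_lit 94) (nat_lit 0) (nat_lit 0) (XT.lf (nat_lit 168) (nat_lit 17422015561) (nat_lit 0) (nat_lit 9996545347) (nat_lit 84) (nat_lit 9996545347) (nat_lit 26) (nat_lit 1) (nat_lit 24) (nat_lit 1) (nat_lit 25) (nat_lit 1) (nat_lit 162) (nat_lit 312) (nat_lit 246)) (XT.lf (nat_lit 0) (nat_lit 2895370563) (nat_lit 0) (nat_lit 31003570632) (nat_lit 168) (nat_lit 2895370563) (nat_lit 24) (nat_lit 3) (nat_lit 24) (nat_lit 1) (nat_lit 26) (nat_lit 1) (nat_lit 163) (nat_lit 312) (nat_lit 245))) (XT.nd (nat_lit 94) (nat_lit 84) (nat_lit 0) (XT.lf (nat_lit 84) (nat_lit 15286619902) (nat_lit 0) (nat_lit 5601509487) (nat_lit 168) (nat_lit 15286619902) (nat_lit 23) (nat_lit 1) (nat_lit 22) (nat_lit 1) (nat_lit 24) (nat_lit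 1) (nat_lit 164) (nat_lit 312) (nat_lit 244)) (XT.lf (nat_lit 168) (nat_lit 19123339013) (nat_lit 0) (nat_lit 8224182596) (nat_lit 84) (nat_lit 8224182596) (nat_lit 23) (nat_lit 1) (nat_lit 21) (nat_lit 1) (nat_lit 22) (nat_lit 1) (nat_lit 165) (nat_lit 312) (nat_lit 243))))) (XT.nd (nat_lit 282) (nat_lit 252) (nat_lit 0) (XT.nd (nat_lit 94) (nat_lit 252) (nat_lit 0) (XT.lf (nat_lit 0) (nat_lit 3952587116) (nat_lit 0) (nat_lit 27077272875) (nat_lit 168) (nat_lit 3952587116) (nat_lit 21) (nat_lit 3) (nat_lit 21) (nat_lit 1) (nat_lit 23) (nat_lit 1) (nat_lit 166) (nat_lit 312) (nat_lit 242)) (XT.nd (nat_lit 94) (nat_lit 84) (nat_lit 0) (XT.lf (nat_lit 84) (nat_lit 15642668697) (nat_lit 0) (nat_lit 3112605633) (nat_lit 168) (nat_lit 15642668697) (nat_lit 20) (nat_lit 1) (nat_lit 19) (nat_lit 1) (nat_lit 21) (nat_lit 1) (nat_lit 167) (nat_lit 312) (nat_lit 241)) (XT.lf (nat_lit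 168) (nat_lit 20294917090) (nat_lit 0) (nat_lit 6766055375) (nat_lit 84) (nat_lit 6766055375) (nat_lit 20) (nat_lit 1) (nat_lit 18) (nat_lit 1) (nat_lit 19) (nat_lit 1) (nat_lit 168) (nat_lit 312) (nat_lit 240)))) (XT.nd (nat_lit 188) (nat_lit 84) (nat_lit 0) (XT.nd (nat_lit 94) (nat_lit 168) (nat_lit 0) (XT.lf (nat_lit 0) (nat_lit 4747573286) (nat_lit 0) (nat_lit 23772309489) (nat_lit 168) (nat_lit 4747573286) (nat_lit 18) (nat_lit 3) (nat_lit 18) (nat_lit 1) (nat_lit 20) (nat_lit 1) (nat_lit 169) (nat_lit 312) (nat_lit 239)) (XT.lf (nat_lit 84) (nat_lit 15789575271) (nat_lit 0) (nat_lit 1136205420) (nat_lit 168) (nat_lit 15789575271) (nat_lit 17) (nat_lit 1) (nat_lit 16) (nat_lit 1) (nat_lit 18) (nat_lit 1) (nat_lit 170) (nat_lit 312) (nat_lit 238))) (XT.nd (nat_lit 94) (nat_lit 0) (nat_lit 0) (XT.lf (nat_lit 168) (nat_lit 21041534474) (nat_lit 0) (nat_lit 5566450501)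 (nat_lit 84) (nat_lit 5566450501) (nat_lit 17) (nat_lit 1) (nat_lit 15) (nat_lit 1) (nat_lit 16) (nat_lit 1) (nat_lit 171) (nat_lit 312) (nat_lit 237)) (XT.lf (nat_lit 0) (nat_lit 5330383229) (nat_lit 0) (nat_lit 20982080786) (nat_lit 168) (nat_lit 5330383229) (nat_lit 15) (nat_lit 3) (nat_lit 15) (nat_lit 1) (nat_lit 17) (nat_lit 1) (nat_lit 172) (nat_lit 312) (nat_lit 236))))))) (XT.nd (nat_lit 1222) (nat_lit 168) (nat_lit 0) (XT.nd (nat_lit 564) (nat_lit 588) (nat_lit 0) (XT.nd (nat_lit 282) (nat_lit 252) (nat_lit 0) (XT.nd (nat_lit 94) (nat_lit 168) (nat_lit 0) (XT.lf (nat_lit 84) (nat_lit 435900072) (nat_lit 0) (nat_lit 15342278697) (nat_lit 84) (nat_lit 15342278697) (nat_lit 15) (nat_lit 3) (nat_lit 14) (nat_lit 1) (nat_lit 15) (nat_lit 1) (nat_lit 173) (nat_lit 312) (nat_lit 235)) (XT.nd (nat_lit 94) (nat_lit 0) (nat_lit 0) (XT.lf (nat_lit 168) (nat_lit 21448880542)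 (nat_lit 0) (nat_lit 4579532603) (nat_lit 84) (nat_lit 4579532603) (nat_lit 14) (nat_lit 1) (nat_lit 12) (nat_lit 1) (nat_lit 13) (nat_lit 1) (nat_lit 174) (nat_lit 312) (nat_lit 234)) (XT.lf (nat_lit 0) (nat_lit 5742027034) (nat_lit 0) (nat_lit 18618717348) (nat_lit 168) (nat_lit 5742027034) (nat_lit 12) (nat_lit 3) (nat_lit 12) (nat_lit 1) (nat_lit 14) (nat_lit 1) (nat_lit 175) (nat_lit 312) (nat_lit 233)))) (XT.nd (nat_lit 94) (nat_lit 168) (nat_lit 0) (XT.lf (nat_lit 84) (nat_lit 1693441248) (nat_lit 0) (nat_lit 13956955833) (nat_lit 84) (nat_lit 13956955833) (nat_lit 12) (nat_lit 3) (nat_lit 11) (nat_lit 1) (nat_lit 12) (nat_lit 1) (nat_lit 176) (nat_lit 312) (nat_lit 232)) (XT.nd (nat_lit 94) (nat_lit 0) (nat_lit 0) (XT.lf (nat_lit 168) (nat_lit 21586959538) (nat_lit 0) (nat_lit 3767592806) (nat_lit 84) (nat_lit 3767592806) (nat_lit 11) (nat_lit 1) (nat_lit 9) (nat_lit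 1) (nat_lit 10) (nat_lit 1) (nat_lit 177) (nat_lit 312) (nat_lit 231)) (XT.lf (nat_lit 0) (nat_lit 6016082289) (nat_lit 0) (nat_lit 16609767277) (nat_lit 168) (nat_lit 6016082289) (nat_lit 9) (nat_lit 3) (nat_lit 9) (nat_lit 1) (nat_lit 11) (nat_lit 1) (nat_lit 178) (nat_lit 312) (nat_lit 230))))) (XT.nd (nat_lit 282) (nat_lit 336) (nat_lit 0) (XT.nd (nat_lit 94) (nat_lit 168) (nat_lit 0) (XT.lf (nat_lit 84) (nat_lit 2664460381) (nat_lit 0) (nat_lit 12753684180) (nat_lit 84) (nat_lit 12753684180) (nat_lit 9) (nat_lit 3) (nat_lit 8) (nat_lit 1) (nat_lit 9) (nat_lit 1) (nat_lit 179) (nat_lit 312) (nat_lit 229)) (XT.nd (nat_lit 94) (nat_lit 0) (nat_lit 0) (XT.lf (nat_lit 168) (nat_lit 21512894973) (nat_lit 0) (nat_lit 3099607925) (nat_lit 84) (nat_lit 3099607925) (nat_lit 8) (nat_lit 1) (nat_lit 6) (nat_lit 1) (nat_lit 7) (nat_lit 1) (nat_lit 180) (nat_lit 312) (nat_lit 228))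 (XT.lf (nat_lit 0) (nat_lit 6180019537) (nat_lit 0) (nat_lit 14895470395) (nat_lit 168) (nat_lit 6180019537) (nat_lit 6) (nat_lit 3) (nat_lit 6) (nat_lit 1) (nat_lit 8) (nat_lit 1) (nat_lit 181) (nat_lit 312) (nat_lit 227)))) (XT.nd (nat_lit 188) (nat_lit 84) (nat_lit 0) (XT.nd (nat_lit 94) (nat_lit 168) (nat_lit 0) (XT.lf (nat_lit 84) (nat_lit 3402783936) (nat_lit 0) (nat_lit 11703213324) (nat_lit 84) (nat_lit 11703213324) (nat_lit 6) (nat_lit 3) (nat_lit 5) (nat_lit 1) (nat_lit 6) (nat_lit 1) (nat_lit 182) (nat_lit 312) (nat_lit 226)) (XT.lf (nat_lit 168) (nat_lit 21273235685) (nat_lit 0) (nat_lit 2550055111) (nat_lit 84) (nat_lit 2550055111) (nat_lit 5) (nat_lit 1) (nat_lit 3) (nat_lit 1) (nat_lit 4) (nat_lit 1) (nat_lit 183) (nat_lit 312) (nat_lit 225))) (XT.nd (nat_lit 94) (nat_lit 84) (nat_lit 0) (XT.lf (nat_lit 0) (nat_lit 6256292368) (nat_lit 0) (nat_lit 13426515357)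 (nat_lit 168) (nat_lit 6256292368) (nat_lit 3) (nat_lit 3) (nat_lit 3) (nat_lit 1) (nat_lit 5) (nat_lit 1) (nat_lit 184) (nat_lit 312) (nat_lit 224)) (XT.lf (nat_lit 84) (nat_lit 3952550943) (nat_lit 0) (nat_lit 10781334742) (nat_lit 84) (nat_lit 10781334742) (nat_lit 3) (nat_lit 3) (nat_lit 2) (nat_lit 1) (nat_lit 3) (nat_lit 1) (nat_lit 185) (nat_lit 312) (nat_lit 223)))))) (XT.nd (nat_lit 658) (nat_lit 0) (nat_lit 0) (XT.nd (nat_lit 282) (nat_lit 0) (nat_lit 0) (XT.nd (nat_lit 94) (nat_lit 0) (nat_lit 0) (XT.lf (nat_lit 0) (nat_lit 36464975437) (nat_lit 0) (nat_lit 0) (nat_lit 0) (nat_lit 0) (nat_lit 0) (nat_lit 0) (nat_lit 1) (nat_lit 0) (nat_lit 1) (nat_lit 0) (nat_lit 186) (nat_lit 312) (nat_lit 222)) (XT.nd (nat_lit 94) (nat_lit 0) (nat_lit 0) (XT.lf (nat_lit 0) (nat_lit 36443729632) (nat_lit 0) (nat_lit 0) (nat_lit 0) (nat_lit 0) (nat_lit 0) (nat_lit 0) (nat_lit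 1) (nat_lit 0) (nat_lit 1) (nat_lit 0) (nat_lit 187) (nat_lit 312) (nat_lit 221)) (XT.lf (nat_lit 0) (nat_lit 36423495532) (nat_lit 0) (nat_lit 0) (nat_lit 0) (nat_lit 0) (nat_lit 0) (nat_lit 0) (nat_lit 1) (nat_lit 0) (nat_lit 1) (nat_lit 0) (nat_lit 188) (nat_lit 312) (nat_lit 220)))) (XT.nd (nat_lit 188) (nat_lit 0) (nat_lit 0) (XT.nd (nat_lit 94) (nat_lit 0) (nat_lit 0) (XT.lf (nat_lit 0) (nat_lit 36404224960) (nat_lit 0) (nat_lit 0) (nat_lit 0) (nat_lit 0) (nat_lit 0) (nat_lit 0) (nat_lit 1) (nat_lit 0) (nat_lit 1) (nat_lit 0) (nat_lit 189) (nat_lit 312) (nat_lit 219)) (XT.lf (nat_lit 0) (nat_lit 36385872035) (nat_lit 0) (nat_lit 0) (nat_lit 0) (nat_lit 0) (nat_lit 0) (nat_lit 0) (nat_lit 1) (nat_lit 0) (nat_lit 1) (nat_lit 0) (nat_lit 190) (nat_lit 312) (nat_lit 218))) (XT.nd (nat_lit 94) (nat_lit 0) (nat_lit 0) (XT.lf (nat_lit 0) (nat_lit 36368393059) (nat_lit 0)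 (nat_lit 0) (nat_lit 0) (nat_lit 0) (nat_lit 0) (nat_lit 0) (nat_lit 1) (nat_lit 0) (nat_lit 1) (nat_lit 0) (nat_lit 191) (nat_lit 312) (nat_lit 217)) (XT.lf (nat_lit 0) (nat_lit 36351746414) (nat_lit 0) (nat_lit 0) (nat_lit 0) (nat_lit 0) (nat_lit 0) (nat_lit 0) (nat_lit 1) (nat_lit 0) (nat_lit 1) (nat_lit 0) (nat_lit 192) (nat_lit 312) (nat_lit 216))))) (XT.nd (nat_lit 282) (nat_lit 0) (nat_lit 0) (XT.nd (nat_lit 94) (nat_lit 0) (nat_lit 0) (XT.lf (nat_lit 0) (nat_lit 36335892468) (nat_lit 0) (nat_lit 0) (nat_lit 0) (nat_lit 0) (nat_lit 0) (nat_lit 0) (nat_lit 1) (nat_lit 0) (nat_lit 1) (nat_lit 0) (nat_lit 193) (nat_lit 312) (nat_lit 215)) (XT.nd (nat_lit 94) (nat_lit 0) (nat_lit 0) (XT.lf (nat_lit 0) (nat_lit 36320793471) (nat_lit 0) (nat_lit 0) (nat_lit 0) (nat_lit 0) (nat_lit 0) (nat_lit 0) (nat_lit 1) (nat_lit 0) (nat_lit 1) (nat_lit 0) (nat_lit 194) (nat_lit 312)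 (nat_lit 214)) (XT.lf (nat_lit 0) (nat_lit 36306413473) (nat_lit 0) (nat_lit 0) (nat_lit 0) (nat_lit 0) (nat_lit 0) (nat_lit 0) (nat_lit 1) (nat_lit 0) (nat_lit 1) (nat_lit 0) (nat_lit 195) (nat_lit 312) (nat_lit 213)))) (XT.nd (nat_lit 1410) (nat_lit 0) (nat_lit 0) (XT.nd (nat_lit 94) (nat_lit 0) (nat_lit 0) (XT.lf (nat_lit 0) (nat_lit 36292718238) (nat_lit 0) (nat_lit 0) (nat_lit 0) (nat_lit 0) (nat_lit 0) (nat_lit 0) (nat_lit 1) (nat_lit 0) (nat_lit 1) (nat_lit 0) (nat_lit 196) (nat_lit 312) (nat_lit 212)) (XT.lf (nat_lit 0) (nat_lit 36279675157) (nat_lit 0) (nat_lit 0) (nat_lit 0) (nat_lit 0) (nat_lit 0) (nat_lit 0) (nat_lit 1) (nat_lit 0) (nat_lit 1) (nat_lit 0) (nat_lit 197) (nat_lit 312) (nat_lit 211))) (XT.nd (nat_lit 94) (nat_lit 0) (nat_lit 0) (XT.lf (nat_lit 0) (nat_lit 36150566378) (nat_lit 0) (nat_lit 0) (nat_lit 0) (nat_lit 0) (nat_lit 0) (nat_lit 0) (nat_lit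 1) (nat_lit 0) (nat_lit 1) (nat_lit 0) (nat_lit 211) (nat_lit 312) (nat_lit 197)) (XT.lf (nat_lit 0) (nat_lit 36144292433) (nat_lit 0) (nat_lit 0) (nat_lit 0) (nat_lit 0) (nat_lit 0) (nat_lit 0) (nat_lit 1) (nat_lit 0) (nat_lit 1) (nat_lit 0) (nat_lit 212) (nat_lit 312) (nat_lit 196))))))))
noncomputable def ec226 : XT := (XT.nd (nat_lit 2538) (nat_lit 0) (nat_lit 0) (XT.nd (nat_lit 1222) (nat_lit 0) (nat_lit 0) (XT.nd (nat_lit 564) (nat_lit 0) (nat_lit 0) (XT.nd (nat_lit 282) (nat_lit 0) (nat_lit 0) (XT.nd (nat_lit 94) (nat_lit 0) (nat_lit 0) (XT.lf (nat_lit 0) (nat_lit 36138317247) (nat_lit 0) (nat_lit 0) (nat_lit 0) (nat_lit 0) (nat_lit 0) (nat_lit 0) (nat_lit 1) (nat_lit 0) (nat_lit 1) (nat_lit 0) (nat_lit 213) (nat_lit 312) (nat_lit 195)) (XT.nd (nat_lit 94) (nat_lit 0) (nat_lit 0) (XT.lf (nat_lit 0) (nat_lit 36132626594) (nat_lit 0) (nat_lit 0) (nat_lit 0) (nat_lit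 0) (nat_lit 0) (nat_lit 0) (nat_lit 1) (nat_lit 0) (nat_lit 1) (nat_lit 0) (nat_lit 214) (nat_lit 312) (nat_lit 194)) (XT.lf (nat_lit 0) (nat_lit 36127206924) (nat_lit 0) (nat_lit 0) (nat_lit 0) (nat_lit 0) (nat_lit 0) (nat_lit 0) (nat_lit 1) (nat_lit 0) (nat_lit 1) (nat_lit 0) (nat_lit 215) (nat_lit 312) (nat_lit 193)))) (XT.nd (nat_lit 94) (nat_lit 0) (nat_lit 0) (XT.lf (nat_lit 0) (nat_lit 36122045334) (nat_lit 0) (nat_lit 0) (nat_lit 0) (nat_lit 0) (nat_lit 0) (nat_lit 0) (nat_lit 1) (nat_lit 0) (nat_lit 1) (nat_lit 0) (nat_lit 216) (nat_lit 312) (nat_lit 192)) (XT.nd (nat_lit 94) (nat_lit 0) (nat_lit 0) (XT.lf (nat_lit 0) (nat_lit 36117129534) (nat_lit 0) (nat_lit 0) (nat_lit 0) (nat_lit 0) (nat_lit 0) (nat_lit 0) (nat_lit 1) (nat_lit 0) (nat_lit 1) (nat_lit 0) (nat_lit 217) (nat_lit 312) (nat_lit 191)) (XT.lf (nat_lit 0) (nat_lit 36112447820) (nat_lit 0) (nat_lit 0)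 (nat_lit 0) (nat_lit 0) (nat_lit 0) (nat_lit 0) (nat_lit 1) (nat_lit 0) (nat_lit 1) (nat_lit 0) (nat_lit 218) (nat_lit 312) (nat_lit 190))))) (XT.nd (nat_lit 282) (nat_lit 0) (nat_lit 0) (XT.nd (nat_lit 94) (nat_lit 0) (nat_lit 0) (XT.lf (nat_lit 0) (nat_lit 36107989044) (nat_lit 0) (nat_lit 0) (nat_lit 0) (nat_lit 0) (nat_lit 0) (nat_lit 0) (nat_lit 1) (nat_lit 0) (nat_lit 1) (nat_lit 0) (nat_lit 219) (nat_lit 312) (nat_lit 189)) (XT.nd (nat_lit 94) (nat_lit 0) (nat_lit 0) (XT.lf (nat_lit 0) (nat_lit 36103742591) (nat_lit 0) (nat_lit 0) (nat_lit 0) (nat_lit 0) (nat_lit 0) (nat_lit 0) (nat_lit 1) (nat_lit 0) (nat_lit 1) (nat_lit 0) (nat_lit 220) (nat_lit 312) (nat_lit 188)) (XT.lf (nat_lit 0) (nat_lit 36099698350) (nat_lit 0) (nat_lit 0) (nat_lit 0) (nat_lit 0) (nat_lit 0) (nat_lit 0) (nat_lit 1) (nat_lit 0) (nat_lit 1) (nat_lit 0) (nat_lit 221) (nat_lit 312) (nat_lit 187))))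 (XT.nd (nat_lit 188) (nat_lit 0) (nat_lit 0) (XT.nd (nat_lit 94) (nat_lit 0) (nat_lit 0) (XT.lf (nat_lit 0) (nat_lit 36095846692) (nat_lit 0) (nat_lit 0) (nat_lit 0) (nat_lit 0) (nat_lit 0) (nat_lit 0) (nat_lit 1) (nat_lit 0) (nat_lit 1) (nat_lit 0) (nat_lit 222) (nat_lit 312) (nat_lit 186)) (XT.lf (nat_lit 0) (nat_lit 36092178446) (nat_lit 0) (nat_lit 0) (nat_lit 0) (nat_lit 0) (nat_lit 0) (nat_lit 0) (nat_lit 1) (nat_lit 0) (nat_lit 1) (nat_lit 0) (nat_lit 223) (nat_lit 312) (nat_lit 185))) (XT.nd (nat_lit 94) (nat_lit 0) (nat_lit 0) (XT.lf (nat_lit 0) (nat_lit 36088684879) (nat_lit 0) (nat_lit 0) (nat_lit 0) (nat_lit 0) (nat_lit 0) (nat_lit 0) (nat_lit 1) (nat_lit 0) (nat_lit 1) (nat_lit 0) (nat_lit 224) (nat_lit 312) (nat_lit 184)) (XT.lf (nat_lit 0) (nat_lit 36085357672) (nat_lit 0) (nat_lit 0) (nat_lit 0) (nat_lit 0) (nat_lit 0) (nat_lit 0) (nat_lit 1) (nat_lit 0)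 (nat_lit 1) (nat_lit 0) (nat_lit 225) (nat_lit 312) (nat_lit 183)))))) (XT.nd (nat_lit 658) (nat_lit 0) (nat_lit 0) (XT.nd (nat_lit 282) (nat_lit 0) (nat_lit 0) (XT.nd (nat_lit 94) (nat_lit 0) (nat_lit 0) (XT.lf (nat_lit 0) (nat_lit 36082188903) (nat_lit 0) (nat_lit 0) (nat_lit 0) (nat_lit 0) (nat_lit 0) (nat_lit 0) (nat_lit 1) (nat_lit 0) (nat_lit 1) (nat_lit 0) (nat_lit 226) (nat_lit 312) (nat_lit 182)) (XT.nd (nat_lit 94) (nat_lit 0) (nat_lit 0) (XT.lf (nat_lit 0) (nat_lit 36079171028) (nat_lit 0) (nat_lit 0) (nat_lit 0) (nat_lit 0) (nat_lit 0) (nat_lit 0) (nat_lit 1) (nat_lit 0) (nat_lit 1) (nat_lit 0) (nat_lit 227) (nat_lit 312) (nat_lit 181)) (XT.lf (nat_lit 0) (nat_lit 36076296862) (nat_lit 0) (nat_lit 0) (nat_lit 0) (nat_lit 0) (nat_lit 0) (nat_lit 0) (nat_lit 1) (nat_lit 0) (nat_lit 1) (nat_lit 0) (nat_lit 228) (nat_lit 312) (nat_lit 180)))) (XT.nd (nat_lit 188)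 (nat_lit 0) (nat_lit 0) (XT.nd (nat_lit 94) (nat_lit 0) (nat_lit 0) (XT.lf (nat_lit 0) (nat_lit 36073559560) (nat_lit 0) (nat_lit 0) (nat_lit 0) (nat_lit 0) (nat_lit 0) (nat_lit 0) (nat_lit 1) (nat_lit 0) (nat_lit 1) (nat_lit 0) (nat_lit 229) (nat_lit 312) (nat_lit 179)) (XT.lf (nat_lit 0) (nat_lit 36070952606) (nat_lit 0) (nat_lit 0) (nat_lit 0) (nat_lit 0) (nat_lit 0) (nat_lit 0) (nat_lit 1) (nat_lit 0) (nat_lit 1) (nat_lit 0) (nat_lit 230) (nat_lit 312) (nat_lit 178))) (XT.nd (nat_lit 94) (nat_lit 0) (nat_lit 0) (XT.lf (nat_lit 0) (nat_lit 36068469793) (nat_lit 0) (nat_lit 0) (nat_lit 0) (nat_lit 0) (nat_lit 0) (nat_lit 0) (nat_lit 1) (nat_lit 0) (nat_lit 1) (nat_lit 0) (nat_lit 231) (nat_lit 312) (nat_lit 177)) (XT.lf (nat_lit 0) (nat_lit 36066105209) (nat_lit 0) (nat_lit 0) (nat_lit 0) (nat_lit 0) (nat_lit 0) (nat_lit 0) (nat_lit 1) (nat_lit 0) (nat_lit 1) (nat_lit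 0) (nat_lit 232) (nat_lit 312) (nat_lit 176))))) (XT.nd (nat_lit 282) (nat_lit 0) (nat_lit 0) (XT.nd (nat_lit 94) (nat_lit 0) (nat_lit 0) (XT.lf (nat_lit 0) (nat_lit 36063853225) (nat_lit 0) (nat_lit 0) (nat_lit 0) (nat_lit 0) (nat_lit 0) (nat_lit 0) (nat_lit 1) (nat_lit 0) (nat_lit 1) (nat_lit 0) (nat_lit 233) (nat_lit 312) (nat_lit 175)) (XT.nd (nat_lit 94) (nat_lit 0) (nat_lit 0) (XT.lf (nat_lit 0) (nat_lit 36061708477) (nat_lit 0) (nat_lit 0) (nat_lit 0) (nat_lit 0) (nat_lit 0) (nat_lit 0) (nat_lit 1) (nat_lit 0) (nat_lit 1) (nat_lit 0) (nat_lit 234) (nat_lit 312) (nat_lit 174)) (XT.lf (nat_lit 0) (nat_lit 36059665861) (nat_lit 0) (nat_lit 0) (nat_lit 0) (nat_lit 0) (nat_lit 0) (nat_lit 0) (nat_lit 1) (nat_lit 0) (nat_lit 1) (nat_lit 0) (nat_lit 235) (nat_lit 312) (nat_lit 173)))) (XT.nd (nat_lit 188) (nat_lit 0) (nat_lit 0) (XT.nd (nat_lit 94) (nat_lit 0) (nat_lit 0)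 (XT.lf (nat_lit 0) (nat_lit 36057720512) (nat_lit 0) (nat_lit 0) (nat_lit 0) (nat_lit 0) (nat_lit 0) (nat_lit 0) (nat_lit 1) (nat_lit 0) (nat_lit 1) (nat_lit 0) (nat_lit 236) (nat_lit 312) (nat_lit 172)) (XT.lf (nat_lit 0) (nat_lit 36055867798) (nat_lit 0) (nat_lit 0) (nat_lit 0) (nat_lit 0) (nat_lit 0) (nat_lit 0) (nat_lit 1) (nat_lit 0) (nat_lit 1) (nat_lit 0) (nat_lit 237) (nat_lit 312) (nat_lit 171))) (XT.nd (nat_lit 94) (nat_lit 0) (nat_lit 0) (XT.lf (nat_lit 0) (nat_lit 36054103310) (nat_lit 0) (nat_lit 0) (nat_lit 0) (nat_lit 0) (nat_lit 0) (nat_lit 0) (nat_lit 1) (nat_lit 0) (nat_lit 1) (nat_lit 0) (nat_lit 238) (nat_lit 312) (nat_lit 170)) (XT.lf (nat_lit 0) (nat_lit 36052422844) (nat_lit 0) (nat_lit 0) (nat_lit 0) (nat_lit 0) (nat_lit 0) (nat_lit 0) (nat_lit 1) (nat_lit 0) (nat_lit 1) (nat_lit 0) (nat_lit 239) (nat_lit 312) (nat_lit 169))))))) (XT.nd (nat_lit 1222)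 (nat_lit 0) (nat_lit 0) (XT.nd (nat_lit 564) (nat_lit 0) (nat_lit 0) (XT.nd (nat_lit 282) (nat_lit 0) (nat_lit 0) (XT.nd (nat_lit 94) (nat_lit 0) (nat_lit 0) (XT.lf (nat_lit 0) (nat_lit 36050822400) (nat_lit 0) (nat_lit 0) (nat_lit 0) (nat_lit 0) (nat_lit 0) (nat_lit 0) (nat_lit 1) (nat_lit 0) (nat_lit 1) (nat_lit 0) (nat_lit 240) (nat_lit 312) (nat_lit 168)) (XT.nd (nat_lit 94) (nat_lit 0) (nat_lit 0) (XT.lf (nat_lit 0) (nat_lit 36049298168) (nat_lit 0) (nat_lit 0) (nat_lit 0) (nat_lit 0) (nat_lit 0) (nat_lit 0) (nat_lit 1) (nat_lit 0) (nat_lit 1) (nat_lit 0) (nat_lit 241) (nat_lit 312) (nat_lit 167)) (XT.lf (nat_lit 0) (nat_lit 36047846519) (nat_lit 0) (nat_lit 0) (nat_lit 0) (nat_lit 0) (nat_lit 0) (nat_lit 0) (nat_lit 1) (nat_lit 0) (nat_lit 1) (nat_lit 0) (nat_lit 242) (nat_lit 312) (nat_lit 166)))) (XT.nd (nat_lit 94) (nat_lit 0) (nat_lit 0) (XT.lf (nat_lit 0) (nat_lit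 36046463996) (nat_lit 0) (nat_lit 0) (nat_lit 0) (nat_lit 0) (nat_lit 0) (nat_lit 0) (nat_lit 1) (nat_lit 0) (nat_lit 1) (nat_lit 0) (nat_lit 243) (nat_lit 312) (nat_lit 165)) (XT.nd (nat_lit 94) (nat_lit 0) (nat_lit 0) (XT.lf (nat_lit 0) (nat_lit 36045147307) (nat_lit 0) (nat_lit 0) (nat_lit 0) (nat_lit 0) (nat_lit 0) (nat_lit 0) (nat_lit 1) (nat_lit 0) (nat_lit 1) (nat_lit 0) (nat_lit 244) (nat_lit 312) (nat_lit 164)) (XT.lf (nat_lit 0) (nat_lit 36043893318) (nat_lit 0) (nat_lit 0) (nat_lit 0) (nat_lit 0) (nat_lit 0) (nat_lit 0) (nat_lit 1) (nat_lit 0) (nat_lit 1) (nat_lit 0) (nat_lit 245) (nat_lit 312) (nat_lit 163))))) (XT.nd (nat_lit 282) (nat_lit 0) (nat_lit 0) (XT.nd (nat_lit 94) (nat_lit 0) (nat_lit 0) (XT.lf (nat_lit 0) (nat_lit 36042699042) (nat_lit 0) (nat_lit 0) (nat_lit 0) (nat_lit 0) (nat_lit 0) (nat_lit 0) (nat_lit 1) (nat_lit 0) (nat_lit 1) (nat_lit 0) (nat_lit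 246) (nat_lit 312) (nat_lit 162)) (XT.nd (nat_lit 94) (nat_lit 0) (nat_lit 0) (XT.lf (nat_lit 0) (nat_lit 36041561637) (nat_lit 0) (nat_lit 0) (nat_lit 0) (nat_lit 0) (nat_lit 0) (nat_lit 0) (nat_lit 1) (nat_lit 0) (nat_lit 1) (nat_lit 0) (nat_lit 247) (nat_lit 312) (nat_lit 161)) (XT.lf (nat_lit 0) (nat_lit 36040478394) (nat_lit 0) (nat_lit 0) (nat_lit 0) (nat_lit 0) (nat_lit 0) (nat_lit 0) (nat_lit 1) (nat_lit 0) (nat_lit 1) (nat_lit 0) (nat_lit 248) (nat_lit 312) (nat_lit 160)))) (XT.nd (nat_lit 188) (nat_lit 0) (nat_lit 0) (XT.nd (nat_lit 94) (nat_lit 0) (nat_lit 0) (XT.lf (nat_lit 0) (nat_lit 36039446734) (nat_lit 0) (nat_lit 0) (nat_lit 0) (nat_lit 0) (nat_lit 0) (nat_lit 0) (nat_lit 1) (nat_lit 0) (nat_lit 1) (nat_lit 0) (nat_lit 249) (nat_lit 312) (nat_lit 159)) (XT.lf (nat_lit 0) (nat_lit 36038464200) (nat_lit 0) (nat_lit 0) (nat_lit 0) (nat_lit 0) (nat_lit 0) (nat_lit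 0) (nat_lit 1) (nat_lit 0) (nat_lit 1) (nat_lit 0) (nat_lit 250) (nat_lit 312) (nat_lit 158))) (XT.nd (nat_lit 94) (nat_lit 0) (nat_lit 0) (XT.lf (nat_lit 0) (nat_lit 36037528454) (nat_lit 0) (nat_lit 0) (nat_lit 0) (nat_lit 0) (nat_lit 0) (nat_lit 0) (nat_lit 1) (nat_lit 0) (nat_lit 1) (nat_lit 0) (nat_lit 251) (nat_lit 312) (nat_lit 157)) (XT.lf (nat_lit 0) (nat_lit 36036637267) (nat_lit 0) (nat_lit 0) (nat_lit 0) (nat_lit 0) (nat_lit 0) (nat_lit 0) (nat_lit 1) (nat_lit 0) (nat_lit 1) (nat_lit 0) (nat_lit 252) (nat_lit 312) (nat_lit 156)))))) (XT.nd (nat_lit 658) (nat_lit 0) (nat_lit 0) (XT.nd (nat_lit 282) (nat_lit 0) (nat_lit 0) (XT.nd (nat_lit 94) (nat_lit 0) (nat_lit 0) (XT.lf (nat_lit 0) (nat_lit 36035788518) (nat_lit 0) (nat_lit 0) (nat_lit 0) (nat_lit 0) (nat_lit 0) (nat_lit 0) (nat_lit 1) (nat_lit 0) (nat_lit 1) (nat_lit 0) (nat_lit 253) (nat_lit 312) (nat_lit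 155)) (XT.nd (nat_lit 94) (nat_lit 0) (nat_lit 0) (XT.lf (nat_lit 0) (nat_lit 36034980185) (nat_lit 0) (nat_lit 0) (nat_lit 0) (nat_lit 0) (nat_lit 0) (nat_lit 0) (nat_lit 1) (nat_lit 0) (nat_lit 1) (nat_lit 0) (nat_lit 254) (nat_lit 312) (nat_lit 154)) (XT.lf (nat_lit 0) (nat_lit 36034210344) (nat_lit 0) (nat_lit 0) (nat_lit 0) (nat_lit 0) (nat_lit 0) (nat_lit 0) (nat_lit 1) (nat_lit 0) (nat_lit 1) (nat_lit 0) (nat_lit 255) (nat_lit 312) (nat_lit 153)))) (XT.nd (nat_lit 188) (nat_lit 0) (nat_lit 0) (XT.nd (nat_lit 94) (nat_lit 0) (nat_lit 0) (XT.lf (nat_lit 0) (nat_lit 36033477163) (nat_lit 0) (nat_lit 0) (nat_lit 0) (nat_lit 0) (nat_lit 0) (nat_lit 0) (nat_lit 1) (nat_lit 0) (nat_lit 1) (nat_lit 0) (nat_lit 256) (nat_lit 312) (nat_lit 152)) (XT.lf (nat_lit 0) (nat_lit 36032778895) (nat_lit 0) (nat_lit 0) (nat_lit 0) (nat_lit 0) (nat_lit 0) (nat_lit 0) (nat_lit 1) (nat_lit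 0) (nat_lit 1) (nat_lit 0) (nat_lit 257) (nat_lit 312) (nat_lit 151))) (XT.nd (nat_lit 94) (nat_lit 0) (nat_lit 0) (XT.lf (nat_lit 0) (nat_lit 36032113877) (nat_lit 0) (nat_lit 0) (nat_lit 0) (nat_lit 0) (nat_lit 0) (nat_lit 0) (nat_lit 1) (nat_lit 0) (nat_lit 1) (nat_lit 0) (nat_lit 258) (nat_lit 312) (nat_lit 150)) (XT.lf (nat_lit 0) (nat_lit 36031480527) (nat_lit 0) (nat_lit 0) (nat_lit 0) (nat_lit 0) (nat_lit 0) (nat_lit 0) (nat_lit 1) (nat_lit 0) (nat_lit 1) (nat_lit 0) (nat_lit 259) (nat_lit 312) (nat_lit 149))))) (XT.nd (nat_lit 282) (nat_lit 0) (nat_lit 0) (XT.nd (nat_lit 94) (nat_lit 0) (nat_lit 0) (XT.lf (nat_lit 0) (nat_lit 36030877337) (nat_lit 0) (nat_lit 0) (nat_lit 0) (nat_lit 0) (nat_lit 0) (nat_lit 0) (nat_lit 1) (nat_lit 0) (nat_lit 1) (nat_lit 0) (nat_lit 260) (nat_lit 312) (nat_lit 148)) (XT.nd (nat_lit 94) (nat_lit 0) (nat_lit 0) (XT.lf (nat_lit 0) (nat_lit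 36030302870) (nat_lit 0) (nat_lit 0) (nat_lit 0) (nat_lit 0) (nat_lit 0) (nat_lit 0) (nat_lit 1) (nat_lit 0) (nat_lit 1) (nat_lit 0) (nat_lit 261) (nat_lit 312) (nat_lit 147)) (XT.lf (nat_lit 0) (nat_lit 36029755759) (nat_lit 0) (nat_lit 0) (nat_lit 0) (nat_lit 0) (nat_lit 0) (nat_lit 0) (nat_lit 1) (nat_lit 0) (nat_lit 1) (nat_lit 0) (nat_lit 262) (nat_lit 312) (nat_lit 146)))) (XT.nd (nat_lit 188) (nat_lit 0) (nat_lit 0) (XT.nd (nat_lit 94) (nat_lit 0) (nat_lit 0) (XT.lf (nat_lit 0) (nat_lit 36029234700) (nat_lit 0) (nat_lit 0) (nat_lit 0) (nat_lit 0) (nat_lit 0) (nat_lit 0) (nat_lit 1) (nat_lit 0) (nat_lit 1) (nat_lit 0) (nat_lit 263) (nat_lit 312) (nat_lit 145)) (XT.lf (nat_lit 0) (nat_lit 36028738454) (nat_lit 0) (nat_lit 0) (nat_lit 0) (nat_lit 0) (nat_lit 0) (nat_lit 0) (nat_lit 1) (nat_lit 0) (nat_lit 1) (nat_lit 0) (nat_lit 264) (nat_lit 312) (nat_lit 144))) (XT.nd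 (nat_lit 94) (nat_lit 0) (nat_lit 0) (XT.lf (nat_lit 0) (nat_lit 36028265839) (nat_lit 0) (nat_lit 0) (nat_lit 0) (nat_lit 0) (nat_lit 0) (nat_lit 0) (nat_lit 1) (nat_lit 0) (nat_lit 1) (nat_lit 0) (nat_lit 265) (nat_lit 312) (nat_lit 143)) (XT.lf (nat_lit 0) (nat_lit 36027815729) (nat_lit 0) (nat_lit 0) (nat_lit 0) (nat_lit 0) (nat_lit 0) (nat_lit 0) (nat_lit 1) (nat_lit 0) (nat_lit 1) (nat_lit 0) (nat_lit 266) (nat_lit 312) (nat_lit 142))))))))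
noncomputable def ec227 : XT := (XT.nd (nat_lit 3948) (nat_lit 0) (nat_lit 0) (XT.nd (nat_lit 1222) (nat_lit 0) (nat_lit 0) (XT.nd (nat_lit 564) (nat_lit 0) (nat_lit 0) (XT.nd (nat_lit 282) (nat_lit 0) (nat_lit 0) (XT.nd (nat_lit 94) (nat_lit 0) (nat_lit 0) (XT.lf (nat_lit 0) (nat_lit 36027387053) (nat_lit 0) (nat_lit 0) (nat_lit 0) (nat_lit 0) (nat_lit 0) (nat_lit 0) (nat_lit 1) (nat_lit 0) (nat_lit 1) (nat_lit 0) (nat_lit 267) (nat_lit 312) (nat_lit 141)) (XT.nd (nat_lit 94) (nat_lit 0) (nat_lit 0) (XT.lf (nat_lit 0) (nat_lit 36026978790) (nat_lit 0) (nat_lit 0) (nat_lit 0) (nat_lit 0) (nat_lit 0) (nat_lit 0) (nat_lit 1) (nat_lit 0) (nat_lit 1) (nat_lit 0) (nat_lit 268) (nat_lit 312) (nat_lit 140)) (XT.lf (nat_lit 0) (nat_lit 36026589968) (nat_lit 0) (nat_lit 0) (nat_lit 0) (nat_lit 0) (nat_lit 0) (nat_lit 0) (nat_lit 1) (nat_lit 0) (nat_lit 1) (nat_lit 0) (nat_lit 269)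 (nat_lit 312) (nat_lit 139)))) (XT.nd (nat_lit 94) (nat_lit 0) (nat_lit 0) (XT.lf (nat_lit 0) (nat_lit 36026219661) (nat_lit 0) (nat_lit 0) (nat_lit 0) (nat_lit 0) (nat_lit 0) (nat_lit 0) (nat_lit 1) (nat_lit 0) (nat_lit 1) (nat_lit 0) (nat_lit 270) (nat_lit 312) (nat_lit 138)) (XT.nd (nat_lit 94) (nat_lit 0) (nat_lit 0) (XT.lf (nat_lit 0) (nat_lit 36025866988) (nat_lit 0) (nat_lit 0) (nat_lit 0) (nat_lit 0) (nat_lit 0) (nat_lit 0) (nat_lit 1) (nat_lit 0) (nat_lit 1) (nat_lit 0) (nat_lit 271) (nat_lit 312) (nat_lit 137)) (XT.lf (nat_lit 0) (nat_lit 36025531110) (nat_lit 0) (nat_lit 0) (nat_lit 0) (nat_lit 0) (nat_lit 0) (nat_lit 0) (nat_lit 1) (nat_lit 0) (nat_lit 1) (nat_lit 0) (nat_lit 272) (nat_lit 312) (nat_lit 136))))) (XT.nd (nat_lit 282) (nat_lit 0) (nat_lit 0) (XT.nd (nat_lit 94) (nat_lit 0) (nat_lit 0) (XT.lf (nat_lit 0) (nat_lit 36025211225) (nat_lit 0) (nat_lit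 0) (nat_lit 0) (nat_lit 0) (nat_lit 0) (nat_lit 0) (nat_lit 1) (nat_lit 0) (nat_lit 1) (nat_lit 0) (nat_lit 273) (nat_lit 312) (nat_lit 135)) (XT.nd (nat_lit 94) (nat_lit 0) (nat_lit 0) (XT.lf (nat_lit 0) (nat_lit 36024906573) (nat_lit 0) (nat_lit 0) (nat_lit 0) (nat_lit 0) (nat_lit 0) (nat_lit 0) (nat_lit 1) (nat_lit 0) (nat_lit 1) (nat_lit 0) (nat_lit 274) (nat_lit 312) (nat_lit 134)) (XT.lf (nat_lit 0) (nat_lit 36024616428) (nat_lit 0) (nat_lit 0) (nat_lit 0) (nat_lit 0) (nat_lit 0) (nat_lit 0) (nat_lit 1) (nat_lit 0) (nat_lit 1) (nat_lit 0) (nat_lit 275) (nat_lit 312) (nat_lit 133)))) (XT.nd (nat_lit 188) (nat_lit 0) (nat_lit 0) (XT.nd (nat_lit 94) (nat_lit 0) (nat_lit 0) (XT.lf (nat_lit 0) (nat_lit 36024340099) (nat_lit 0) (nat_lit 0) (nat_lit 0) (nat_lit 0) (nat_lit 0) (nat_lit 0) (nat_lit 1) (nat_lit 0) (nat_lit 1) (nat_lit 0) (nat_lit 276) (nat_lit 312) (nat_lit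 132)) (XT.lf (nat_lit 0) (nat_lit 36024076930) (nat_lit 0) (nat_lit 0) (nat_lit 0) (nat_lit 0) (nat_lit 0) (nat_lit 0) (nat_lit 1) (nat_lit 0) (nat_lit 1) (nat_lit 0) (nat_lit 277) (nat_lit 312) (nat_lit 131))) (XT.nd (nat_lit 94) (nat_lit 0) (nat_lit 0) (XT.lf (nat_lit 0) (nat_lit 36023826291) (nat_lit 0) (nat_lit 0) (nat_lit 0) (nat_lit 0) (nat_lit 0) (nat_lit 0) (nat_lit 1) (nat_lit 0) (nat_lit 1) (nat_lit 0) (nat_lit 278) (nat_lit 312) (nat_lit 130)) (XT.lf (nat_lit 0) (nat_lit 36023587589) (nat_lit 0) (nat_lit 0) (nat_lit 0) (nat_lit 0) (nat_lit 0) (nat_lit 0) (nat_lit 1) (nat_lit 0) (nat_lit 1) (nat_lit 0) (nat_lit 279) (nat_lit 312) (nat_lit 129)))))) (XT.nd (nat_lit 2068) (nat_lit 0) (nat_lit 0) (XT.nd (nat_lit 282) (nat_lit 0) (nat_lit 0) (XT.nd (nat_lit 94) (nat_lit 0) (nat_lit 0) (XT.lf (nat_lit 0) (nat_lit 36023360253) (nat_lit 0) (nat_lit 0) (nat_lit 0) (nat_lit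 0) (nat_lit 0) (nat_lit 0) (nat_lit 1) (nat_lit 0) (nat_lit 1) (nat_lit 0) (nat_lit 280) (nat_lit 312) (nat_lit 128)) (XT.nd (nat_lit 94) (nat_lit 0) (nat_lit 0) (XT.lf (nat_lit 0) (nat_lit 36023143742) (nat_lit 0) (nat_lit 0) (nat_lit 0) (nat_lit 0) (nat_lit 0) (nat_lit 0) (nat_lit 1) (nat_lit 0) (nat_lit 1) (nat_lit 0) (nat_lit 281) (nat_lit 312) (nat_lit 127)) (XT.lf (nat_lit 0) (nat_lit 36022937541) (nat_lit 0) (nat_lit 0) (nat_lit 0) (nat_lit 0) (nat_lit 0) (nat_lit 0) (nat_lit 1) (nat_lit 0) (nat_lit 1) (nat_lit 0) (nat_lit 282) (nat_lit 312) (nat_lit 126)))) (XT.nd (nat_lit 188) (nat_lit 0) (nat_lit 0) (XT.nd (nat_lit 94) (nat_lit 0) (nat_lit 0) (XT.lf (nat_lit 0) (nat_lit 36022741160) (nat_lit 0) (nat_lit 0) (nat_lit 0) (nat_lit 0) (nat_lit 0) (nat_lit 0) (nat_lit 1) (nat_lit 0) (nat_lit 1) (nat_lit 0) (nat_lit 283) (nat_lit 312) (nat_lit 125)) (XT.lf (nat_lit 0)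 (nat_lit 36022554130) (nat_lit 0) (nat_lit 0) (nat_lit 0) (nat_lit 0) (nat_lit 0) (nat_lit 0) (nat_lit 1) (nat_lit 0) (nat_lit 1) (nat_lit 0) (nat_lit 284) (nat_lit 312) (nat_lit 124))) (XT.nd (nat_lit 1504) (nat_lit 0) (nat_lit 0) (XT.lf (nat_lit 0) (nat_lit 36022376006) (nat_lit 0) (nat_lit 0) (nat_lit 0) (nat_lit 0) (nat_lit 0) (nat_lit 0) (nat_lit 1) (nat_lit 0) (nat_lit 1) (nat_lit 0) (nat_lit 285) (nat_lit 312) (nat_lit 123)) (XT.lf (nat_lit 0) (nat_lit 36020445542) (nat_lit 0) (nat_lit 0) (nat_lit 0) (nat_lit 0) (nat_lit 0) (nat_lit 0) (nat_lit 1) (nat_lit 0) (nat_lit 1) (nat_lit 0) (nat_lit 301) (nat_lit 312) (nat_lit 107))))) (XT.nd (nat_lit 282) (nat_lit 0) (nat_lit 0) (XT.nd (nat_lit 94) (nat_lit 0) (nat_lit 0) (XT.lf (nat_lit 0) (nat_lit 36020367827) (nat_lit 0) (nat_lit 0) (nat_lit 0) (nat_lit 0) (nat_lit 0) (nat_lit 0) (nat_lit 1) (nat_lit 0) (nat_lit 1) (nat_lit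 0) (nat_lit 302) (nat_lit 312) (nat_lit 106)) (XT.nd (nat_lit 94) (nat_lit 0) (nat_lit 0) (XT.lf (nat_lit 0) (nat_lit 36020293813) (nat_lit 0) (nat_lit 0) (nat_lit 0) (nat_lit 0) (nat_lit 0) (nat_lit 0) (nat_lit 1) (nat_lit 0) (nat_lit 1) (nat_lit 0) (nat_lit 303) (nat_lit 312) (nat_lit 105)) (XT.lf (nat_lit 0) (nat_lit 36020223323) (nat_lit 0) (nat_lit 0) (nat_lit 0) (nat_lit 0) (nat_lit 0) (nat_lit 0) (nat_lit 1) (nat_lit 0) (nat_lit 1) (nat_lit 0) (nat_lit 304) (nat_lit 312) (nat_lit 104)))) (XT.nd (nat_lit 188) (nat_lit 0) (nat_lit 0) (XT.nd (nat_lit 94) (nat_lit 0) (nat_lit 0) (XT.lf (nat_lit 0) (nat_lit 36020156190) (nat_lit 0) (nat_lit 0) (nat_lit 0) (nat_lit 0) (nat_lit 0) (nat_lit 0) (nat_lit 1) (nat_lit 0) (nat_lit 1) (nat_lit 0) (nat_lit 305) (nat_lit 312) (nat_lit 103)) (XT.lf (nat_lit 0) (nat_lit 36020092254) (nat_lit 0) (nat_lit 0) (nat_lit 0) (nat_lit 0) (nat_lit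 0) (nat_lit 0) (nat_lit 1) (nat_lit 0) (nat_lit 1) (nat_lit 0) (nat_lit 306) (nat_lit 312) (nat_lit 102))) (XT.nd (nat_lit 94) (nat_lit 0) (nat_lit 0) (XT.lf (nat_lit 0) (nat_lit 36020031363) (nat_lit 0) (nat_lit 0) (nat_lit 0) (nat_lit 0) (nat_lit 0) (nat_lit 0) (nat_lit 1) (nat_lit 0) (nat_lit 1) (nat_lit 0) (nat_lit 307) (nat_lit 312) (nat_lit 101)) (XT.lf (nat_lit 0) (nat_lit 36019973371) (nat_lit 0) (nat_lit 0) (nat_lit 0) (nat_lit 0) (nat_lit 0) (nat_lit 0) (nat_lit 1) (nat_lit 0) (nat_lit 1) (nat_lit 0) (nat_lit 308) (nat_lit 312) (nat_lit 100))))))) (XT.nd (nat_lit 25380) (nat_lit 0) (nat_lit 5040) (XT.nd (nat_lit 658) (nat_lit 0) (nat_lit 0) (XT.nd (nat_lit 282) (nat_lit 0) (nat_lit 0) (XT.nd (nat_lit 94) (nat_lit 0) (nat_lit 0) (XT.lf (nat_lit 0) (nat_lit 36019918140) (nat_lit 0) (nat_lit 0) (nat_lit 0) (nat_lit 0) (nat_lit 0) (nat_lit 0) (nat_lit 1) (nat_lit 0)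 (nat_lit 1) (nat_lit 0) (nat_lit 309) (nat_lit 312) (nat_lit 99)) (XT.nd (nat_lit 94) (nat_lit 0) (nat_lit 0) (XT.lf (nat_lit 0) (nat_lit 36019865540) (nat_lit 0) (nat_lit 0) (nat_lit 0) (nat_lit 0) (nat_lit 0) (nat_lit 0) (nat_lit 1) (nat_lit 0) (nat_lit 1) (nat_lit 0) (nat_lit 310) (nat_lit 312) (nat_lit 98)) (XT.lf (nat_lit 0) (nat_lit 36019815444) (nat_lit 0) (nat_lit 0) (nat_lit 0) (nat_lit 0) (nat_lit 0) (nat_lit 0) (nat_lit 1) (nat_lit 0) (nat_lit 1) (nat_lit 0) (nat_lit 311) (nat_lit 312) (nat_lit 97)))) (XT.nd (nat_lit 188) (nat_lit 0) (nat_lit 0) (XT.nd (nat_lit 94) (nat_lit 0) (nat_lit 0) (XT.lf (nat_lit 0) (nat_lit 36019767734) (nat_lit 0) (nat_lit 0) (nat_lit 0) (nat_lit 0) (nat_lit 0) (nat_lit 0) (nat_lit 1) (nat_lit 0) (nat_lit 1) (nat_lit 0) (nat_lit 312) (nat_lit 312) (nat_lit 96)) (XT.lf (nat_lit 0) (nat_lit 36019722296) (nat_lit 0) (nat_lit 0) (nat_lit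 0) (nat_lit 0) (nat_lit 0) (nat_lit 0) (nat_lit 1) (nat_lit 0) (nat_lit 1) (nat_lit 0) (nat_lit 313) (nat_lit 312) (nat_lit 95))) (XT.nd (nat_lit 94) (nat_lit 0) (nat_lit 0) (XT.lf (nat_lit 0) (nat_lit 36019679021) (nat_lit 0) (nat_lit 0) (nat_lit 0) (nat_lit 0) (nat_lit 0) (nat_lit 0) (nat_lit 1) (nat_lit 0) (nat_lit 1) (nat_lit 0) (nat_lit 314) (nat_lit 312) (nat_lit 94)) (XT.lf (nat_lit 0) (nat_lit 36019637807) (nat_lit 0) (nat_lit 0) (nat_lit 0) (nat_lit 0) (nat_lit 0) (nat_lit 0) (nat_lit 1) (nat_lit 0) (nat_lit 1) (nat_lit 0) (nat_lit 315) (nat_lit 312) (nat_lit 93))))) (XT.nd (nat_lit 24346) (nat_lit 0) (nat_lit 10752) (XT.nd (nat_lit 94) (nat_lit 0) (nat_lit 0) (XT.lf (nat_lit 0) (nat_lit 36019598556) (nat_lit 0) (nat_lit 0) (nat_lit 0) (nat_lit 0) (nat_lit 0) (nat_lit 0) (nat_lit 1) (nat_lit 0) (nat_lit 1) (nat_lit 0) (nat_lit 316) (nat_lit 312) (nat_lit 92)) (XT.nd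 (nat_lit 94) (nat_lit 0) (nat_lit 0) (XT.lf (nat_lit 0) (nat_lit 36019561174) (nat_lit 0) (nat_lit 0) (nat_lit 0) (nat_lit 0) (nat_lit 0) (nat_lit 0) (nat_lit 1) (nat_lit 0) (nat_lit 1) (nat_lit 0) (nat_lit 317) (nat_lit 312) (nat_lit 91)) (XT.lf (nat_lit 0) (nat_lit 36019525572) (nat_lit 0) (nat_lit 0) (nat_lit 0) (nat_lit 0) (nat_lit 0) (nat_lit 0) (nat_lit 1) (nat_lit 0) (nat_lit 1) (nat_lit 0) (nat_lit 318) (nat_lit 312) (nat_lit 90)))) (XT.nd (nat_lit 188) (nat_lit 0) (nat_lit 84) (XT.nd (nat_lit 94) (nat_lit 0) (nat_lit 0) (XT.lf (nat_lit 924) (nat_lit 18926421642) (nat_lit 0) (nat_lit 33603818122) (nat_lit 924) (nat_lit 18926421642) (nat_lit 139) (nat_lit 1) (nat_lit 128) (nat_lit 0) (nat_lit 139) (nat_lit 0) (nat_lit 94) (nat_lit 313) (nat_lit 313)) (XT.lf (nat_lit 924) (nat_lit 73361173158) (nat_lit 84) (nat_lit 33061821056) (nat_lit 0) (nat_lit 33061821056) (nat_lit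 139) (nat_lit 1) (nat_lit 129) (nat_lit 1) (nat_lit 128) (nat_lit 0) (nat_lit 95) (nat_lit 313) (nat_lit 312))) (XT.nd (nat_lit 94) (nat_lit 0) (nat_lit 0) (XT.lf (nat_lit 924) (nat_lit 34962830528) (nat_lit 0) (nat_lit 66236640255) (nat_lit 840) (nat_lit 34962830528) (nat_lit 140) (nat_lit 1) (nat_lit 129) (nat_lit 1) (nat_lit 139) (nat_lit 1) (nat_lit 96) (nat_lit 313) (nat_lit 311)) (XT.lf (nat_lit 924) (nat_lit 65585411864) (nat_lit 84) (nat_lit 33680858722) (nat_lit 0) (nat_lit 33680858722) (nat_lit 140) (nat_lit 1) (nat_lit 130) (nat_lit 1) (nat_lit 129) (nat_lit 1) (nat_lit 97) (nat_lit 313) (nat_lit 310)))))) (XT.nd (nat_lit 2726) (nat_lit 924) (nat_lit 0) (XT.nd (nat_lit 282) (nat_lit 4956) (nat_lit 0) (XT.nd (nat_lit 94) (nat_lit 0) (nat_lit 0) (XT.lf (nat_lit 924) (nat_lit 30188335258) (nat_lit 0) (nat_lit 69457191614) (nat_lit 840) (nat_lit 30188335258) (nat_lit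 141) (nat_lit 1) (nat_lit 130) (nat_lit 1) (nat_lit 140) (nat_lit 1) (nat_lit 98) (nat_lit 313) (nat_lit 309)) (XT.nd (nat_lit 94) (nat_lit 0) (nat_lit 84) (XT.lf (nat_lit 924) (nat_lit 54295687188) (nat_lit 84) (nat_lit 36259906022) (nat_lit 0) (nat_lit 36259906022) (nat_lit 141) (nat_lit 1) (nat_lit 131) (nat_lit 1) (nat_lit 130) (nat_lit 1) (nat_lit 99) (nat_lit 313) (nat_lit 308)) (XT.lf (nat_lit 924) (nat_lit 23807090631) (nat_lit 0) (nat_lit 76284301248) (nat_lit 840) (nat_lit 23807090631) (nat_lit 142) (nat_lit 1) (nat_lit 131) (nat_lit 1) (nat_lit 141) (nat_lit 1) (nat_lit 100) (nat_lit 313) (nat_lit 307)))) (XT.nd (nat_lit 188) (nat_lit 5040) (nat_lit 0) (XT.nd (nat_lit 94) (nat_lit 0) (nat_lit 84) (XT.lf (nat_lit 924) (nat_lit 40020450328) (nat_lit 84) (nat_lit 40520665462) (nat_lit 0) (nat_lit 40520665462) (nat_lit 142) (nat_lit 1) (nat_lit 132) (nat_lit 1) (nat_lit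 131) (nat_lit 1) (nat_lit 101) (nat_lit 313) (nat_lit 306)) (XT.lf (nat_lit 924) (nat_lit 16066126337) (nat_lit 0) (nat_lit 86196666763) (nat_lit 840) (nat_lit 16066126337) (nat_lit 143) (nat_lit 1) (nat_lit 132) (nat_lit 1) (nat_lit 142) (nat_lit 1) (nat_lit 102) (nat_lit 313) (nat_lit 305))) (XT.nd (nat_lit 2162) (nat_lit 5124) (nat_lit 0) (XT.lf (nat_lit 924) (nat_lit 23229414660) (nat_lit 84) (nat_lit 46215287981) (nat_lit 0) (nat_lit 46215287981) (nat_lit 143) (nat_lit 1) (nat_lit 133) (nat_lit 1) (nat_lit 132) (nat_lit 1) (nat_lit 103) (nat_lit 313) (nat_lit 304)) (XT.lf (nat_lit 84) (nat_lit 26204627530) (nat_lit 0) (nat_lit 19417365876) (nat_lit 336) (nat_lit 26204627530) (nat_lit 72) (nat_lit 1) (nat_lit 71) (nat_lit 1) (nat_lit 75) (nat_lit 1) (nat_lit 126) (nat_lit 313) (nat_lit 281))))) (XT.nd (nat_lit 282) (nat_lit 504) (nat_lit 0) (XT.nd (nat_lit 94) (nat_lit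 168) (nat_lit 0) (XT.lf (nat_lit 336) (nat_lit 36033762304) (nat_lit 0) (nat_lit 17220196046) (nat_lit 252) (nat_lit 17220196046) (nat_lit 72) (nat_lit 1) (nat_lit 68) (nat_lit 1) (nat_lit 71) (nat_lit 1) (nat_lit 127) (nat_lit 313) (nat_lit 280)) (XT.nd (nat_lit 94) (nat_lit 168) (nat_lit 0) (XT.lf (nat_lit 84) (nat_lit 9923668750) (nat_lit 0) (nat_lit 49310624122) (nat_lit 336) (nat_lit 9923668750) (nat_lit 69) (nat_lit 1) (nat_lit 68) (nat_lit 1) (nat_lit 72) (nat_lit 1) (nat_lit 128) (nat_lit 313) (nat_lit 279)) (XT.lf (nat_lit 252) (nat_lit 3636362185) (nat_lit 0) (nat_lit 32115104764) (nat_lit 168) (nat_lit 32115104764) (nat_lit 69) (nat_lit 1) (nat_lit 66) (nat_lit 1) (nat_lit 68) (nat_lit 1) (nat_lit 129) (nat_lit 313) (nat_lit 278)))) (XT.nd (nat_lit 188) (nat_lit 168) (nat_lit 0) (XT.nd (nat_lit 94) (nat_lit 0) (nat_lit 0) (XT.lf (nat_lit 336) (nat_lit 54944213298)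 (nat_lit 0) (nat_lit 5835473706) (nat_lit 252) (nat_lit 5835473706) (nat_lit 66) (nat_lit 1) (nat_lit 62) (nat_lit 1) (nat_lit 65) (nat_lit 1) (nat_lit 130) (nat_lit 313) (nat_lit 277)) (XT.lf (nat_lit 84) (nat_lit 19190709486) (nat_lit 0) (nat_lit 26996326562) (nat_lit 336) (nat_lit 19190709486) (nat_lit 63) (nat_lit 1) (nat_lit 62) (nat_lit 1) (nat_lit 66) (nat_lit 1) (nat_lit 131) (nat_lit 313) (nat_lit 276))) (XT.nd (nat_lit 94) (nat_lit 0) (nat_lit 0) (XT.lf (nat_lit 252) (nat_lit 22171904518) (nat_lit 0) (nat_lit 21003307934) (nat_lit 168) (nat_lit 21003307934) (nat_lit 63) (nat_lit 1) (nat_lit 60) (nat_lit 1) (nat_lit 62) (nat_lit 1) (nat_lit 132) (nat_lit 313) (nat_lit 275)) (XT.lf (nat_lit 84) (nat_lit 3185398930) (nat_lit 0) (nat_lit 56648295061) (nat_lit 252) (nat_lit 3185398930) (nat_lit 61) (nat_lit 1) (nat_lit 60) (nat_lit 1) (nat_lit 63) (nat_lit 1) (nat_lit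 133) (nat_lit 313) (nat_lit 274))))))))
noncomputable def ec228 : XT := (XT.nd (nat_lit 2538) (nat_lit 2016) (nat_lit 0) (XT.nd (nat_lit 1222) (nat_lit 1344) (nat_lit 0) (XT.nd (nat_lit 564) (nat_lit 840) (nat_lit 0) (XT.nd (nat_lit 282) (nat_lit 420) (nat_lit 0) (XT.nd (nat_lit 94) (nat_lit 168) (nat_lit 0) (XT.lf (nat_lit 84) (nat_lit 26289656232) (nat_lit 0) (nat_lit 9284567591) (nat_lit 252) (nat_lit 26289656232) (nat_lit 58) (nat_lit 1) (nat_lit 57) (nat_lit 1) (nat_lit 60) (nat_lit 1) (nat_lit 134) (nat_lit 313) (nat_lit 273)) (XT.nd (nat_lit 94) (nat_lit 0) (nat_lit 0) (XT.lf (nat_lit 252) (nat_lit 36507795337) (nat_lit 0) (nat_lit 12119598909) (nat_lit 168) (nat_lit 12119598909) (nat_lit 58) (nat_lit 1) (nat_lit 55) (nat_lit 1) (nat_lit 57) (nat_lit 1) (nat_lit 135) (nat_lit 313) (nat_lit 272)) (XT.lf (nat_lit 84) (nat_lit 10301550050) (nat_lit 0) (nat_lit 39051691794)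 (nat_lit 252) (nat_lit 10301550050) (nat_lit 56) (nat_lit 1) (nat_lit 55) (nat_lit 1) (nat_lit 58) (nat_lit 1) (nat_lit 136) (nat_lit 313) (nat_lit 271)))) (XT.nd (nat_lit 94) (nat_lit 252) (nat_lit 0) (XT.lf (nat_lit 252) (nat_lit 4825905308) (nat_lit 0) (nat_lit 26879350645) (nat_lit 168) (nat_lit 26879350645) (nat_lit 56) (nat_lit 1) (nat_lit 53) (nat_lit 1) (nat_lit 55) (nat_lit 1) (nat_lit 137) (nat_lit 313) (nat_lit 270)) (XT.nd (nat_lit 94) (nat_lit 0) (nat_lit 0) (XT.lf (nat_lit 252) (nat_lit 47432115114) (nat_lit 0) (nat_lit 5056657818) (nat_lit 168) (nat_lit 5056657818) (nat_lit 53) (nat_lit 1) (nat_lit 50) (nat_lit 1) (nat_lit 52) (nat_lit 1) (nat_lit 138) (nat_lit 313) (nat_lit 269)) (XT.lf (nat_lit 84) (nat_lit 15790267356) (nat_lit 0) (nat_lit 24934589440) (nat_lit 252) (nat_lit 15790267356) (nat_lit 51) (nat_lit 1) (nat_lit 50) (nat_lit 1) (nat_lit 53) (nat_lit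 1) (nat_lit 139) (nat_lit 313) (nat_lit 268))))) (XT.nd (nat_lit 282) (nat_lit 504) (nat_lit 0) (XT.nd (nat_lit 94) (nat_lit 168) (nat_lit 0) (XT.lf (nat_lit 252) (nat_lit 16081620676) (nat_lit 0) (nat_lit 19716554054) (nat_lit 168) (nat_lit 19716554054) (nat_lit 51) (nat_lit 1) (nat_lit 48) (nat_lit 1) (nat_lit 50) (nat_lit 1) (nat_lit 140) (nat_lit 313) (nat_lit 267)) (XT.nd (nat_lit 94) (nat_lit 168) (nat_lit 0) (XT.lf (nat_lit 84) (nat_lit 528558519) (nat_lit 0) (nat_lit 53492300293) (nat_lit 252) (nat_lit 528558519) (nat_lit 49) (nat_lit 1) (nat_lit 48) (nat_lit 1) (nat_lit 51) (nat_lit 1) (nat_lit 141) (nat_lit 313) (nat_lit 266)) (XT.lf (nat_lit 84) (nat_lit 19957507875) (nat_lit 0) (nat_lit 13662954114) (nat_lit 168) (nat_lit 19957507875) (nat_lit 47) (nat_lit 1) (nat_lit 46) (nat_lit 1) (nat_lit 48) (nat_lit 1) (nat_lit 142) (nat_lit 313) (nat_lit 265)))) (XT.nd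 (nat_lit 188) (nat_lit 336) (nat_lit 0) (XT.nd (nat_lit 94) (nat_lit 0) (nat_lit 0) (XT.lf (nat_lit 252) (nat_lit 24764995258) (nat_lit 0) (nat_lit 13937853774) (nat_lit 168) (nat_lit 13937853774) (nat_lit 47) (nat_lit 1) (nat_lit 44) (nat_lit 1) (nat_lit 46) (nat_lit 1) (nat_lit 143) (nat_lit 313) (nat_lit 264)) (XT.lf (nat_lit 84) (nat_lit 4965210392) (nat_lit 0) (nat_lit 41798314180) (nat_lit 252) (nat_lit 4965210392) (nat_lit 45) (nat_lit 1) (nat_lit 44) (nat_lit 1) (nat_lit 47) (nat_lit 1) (nat_lit 144) (nat_lit 313) (nat_lit 263))) (XT.nd (nat_lit 94) (nat_lit 168) (nat_lit 0) (XT.lf (nat_lit 84) (nat_lit 23054153827) (nat_lit 0) (nat_lit 4715980137) (nat_lit 168) (nat_lit 23054153827) (nat_lit 43) (nat_lit 1) (nat_lit 42) (nat_lit 1) (nat_lit 44) (nat_lit 1) (nat_lit 145) (nat_lit 313) (nat_lit 262)) (XT.lf (nat_lit 252) (nat_lit 31359562058) (nat_lit 0) (nat_lit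 9292417230) (nat_lit 168) (nat_lit 9292417230) (nat_lit 43) (nat_lit 1) (nat_lit 40) (nat_lit 1) (nat_lit 42) (nat_lit 1) (nat_lit 146) (nat_lit 313) (nat_lit 261)))))) (XT.nd (nat_lit 658) (nat_lit 672) (nat_lit 0) (XT.nd (nat_lit 282) (nat_lit 336) (nat_lit 0) (XT.nd (nat_lit 94) (nat_lit 336) (nat_lit 0) (XT.lf (nat_lit 84) (nat_lit 8399523249) (nat_lit 0) (nat_lit 32282877800) (nat_lit 252) (nat_lit 8399523249) (nat_lit 41) (nat_lit 1) (nat_lit 40) (nat_lit 1) (nat_lit 43) (nat_lit 1) (nat_lit 147) (nat_lit 313) (nat_lit 260)) (XT.nd (nat_lit 94) (nat_lit 252) (nat_lit 0) (XT.lf (nat_lit 168) (nat_lit 2411197245) (nat_lit 0) (nat_lit 22912265050) (nat_lit 84) (nat_lit 22912265050) (nat_lit 41) (nat_lit 1) (nat_lit 39) (nat_lit 1) (nat_lit 40) (nat_lit 1) (nat_lit 148) (nat_lit 313) (nat_lit 259)) (XT.lf (nat_lit 252) (nat_lit 36261817095) (nat_lit 0) (nat_lit 5574142688)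 (nat_lit 168) (nat_lit 5574142688) (nat_lit 39) (nat_lit 1) (nat_lit 36) (nat_lit 1) (nat_lit 38) (nat_lit 1) (nat_lit 149) (nat_lit 313) (nat_lit 258)))) (XT.nd (nat_lit 188) (nat_lit 252) (nat_lit 0) (XT.nd (nat_lit 94) (nat_lit 84) (nat_lit 0) (XT.lf (nat_lit 84) (nat_lit 11019482251) (nat_lit 0) (nat_lit 24554728490) (nat_lit 252) (nat_lit 11019482251) (nat_lit 37) (nat_lit 1) (nat_lit 36) (nat_lit 1) (nat_lit 39) (nat_lit 1) (nat_lit 150) (nat_lit 313) (nat_lit 257)) (XT.lf (nat_lit 168) (nat_lit 8097346597) (nat_lit 0) (nat_lit 18849977160) (nat_lit 84) (nat_lit 18849977160) (nat_lit 37) (nat_lit 1) (nat_lit 35) (nat_lit 1) (nat_lit 36) (nat_lit 1) (nat_lit 151) (nat_lit 313) (nat_lit 256))) (XT.nd (nat_lit 94) (nat_lit 0) (nat_lit 0) (XT.lf (nat_lit 252) (nat_lit 39796713124) (nat_lit 0) (nat_lit 2613716256) (nat_lit 168) (nat_lit 2613716256) (nat_lit 35) (nat_lit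 1) (nat_lit 32) (nat_lit 1) (nat_lit 34) (nat_lit 1) (nat_lit 152) (nat_lit 313) (nat_lit 255)) (XT.lf (nat_lit 84) (nat_lit 12979254069) (nat_lit 0) (nat_lit 18292212116) (nat_lit 252) (nat_lit 12979254069) (nat_lit 33) (nat_lit 1) (nat_lit 32) (nat_lit 1) (nat_lit 35) (nat_lit 1) (nat_lit 153) (nat_lit 313) (nat_lit 254))))) (XT.nd (nat_lit 282) (nat_lit 336) (nat_lit 0) (XT.nd (nat_lit 94) (nat_lit 252) (nat_lit 0) (XT.lf (nat_lit 168) (nat_lit 12484229615) (nat_lit 0) (nat_lit 15507922859) (nat_lit 84) (nat_lit 15507922859) (nat_lit 33) (nat_lit 1) (nat_lit 31) (nat_lit 1) (nat_lit 32) (nat_lit 1) (nat_lit 154) (nat_lit 313) (nat_lit 253)) (XT.nd (nat_lit 94) (nat_lit 0) (nat_lit 0) (XT.lf (nat_lit 252) (nat_lit 42230403384) (nat_lit 0) (nat_lit 272077758) (nat_lit 168) (nat_lit 272077758) (nat_lit 31) (nat_lit 1) (nat_lit 28) (nat_lit 1) (nat_lit 30) (nat_lit 1) (nat_lit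 155) (nat_lit 313) (nat_lit 252)) (XT.lf (nat_lit 84) (nat_lit 14405206110) (nat_lit 0) (nat_lit 13230930291) (nat_lit 252) (nat_lit 14405206110) (nat_lit 29) (nat_lit 1) (nat_lit 28) (nat_lit 1) (nat_lit 31) (nat_lit 1) (nat_lit 156) (nat_lit 313) (nat_lit 251)))) (XT.nd (nat_lit 188) (nat_lit 252) (nat_lit 0) (XT.nd (nat_lit 94) (nat_lit 0) (nat_lit 0) (XT.lf (nat_lit 168) (nat_lit 15816066153) (nat_lit 0) (nat_lit 12758406515) (nat_lit 84) (nat_lit 12758406515) (nat_lit 29) (nat_lit 1) (nat_lit 27) (nat_lit 1) (nat_lit 28) (nat_lit 1) (nat_lit 157) (nat_lit 313) (nat_lit 250)) (XT.lf (nat_lit 0) (nat_lit 1590609348) (nat_lit 0) (nat_lit 37464586852) (nat_lit 168) (nat_lit 1590609348) (nat_lit 27) (nat_lit 3) (nat_lit 27) (nat_lit 1) (nat_lit 29) (nat_lit 1) (nat_lit 158) (nat_lit 313) (nat_lit 249))) (XT.nd (nat_lit 94) (nat_lit 84) (nat_lit 0) (XT.lf (nat_lit 84) (nat_lit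 15400857446) (nat_lit 0) (nat_lit 9153578250) (nat_lit 168) (nat_lit 15400857446) (nat_lit 26) (nat_lit 1) (nat_lit 25) (nat_lit 1) (nat_lit 27) (nat_lit 1) (nat_lit 159) (nat_lit 313) (nat_lit 248)) (XT.lf (nat_lit 168) (nat_lit 18293116339) (nat_lit 0) (nat_lit 10496372614) (nat_lit 84) (nat_lit 10496372614) (nat_lit 26) (nat_lit 1) (nat_lit 24) (nat_lit 1) (nat_lit 25) (nat_lit 1) (nat_lit 160) (nat_lit 313) (nat_lit 247))))))) (XT.nd (nat_lit 1222) (nat_lit 1008) (nat_lit 0) (XT.nd (nat_lit 564) (nat_lit 504) (nat_lit 0) (XT.nd (nat_lit 282) (nat_lit 252) (nat_lit 0) (XT.nd (nat_lit 94) (nat_lit 252) (nat_lit 0) (XT.lf (nat_lit 0) (nat_lit 3040139091) (nat_lit 0) (nat_lit 32553749164) (nat_lit 168) (nat_lit 3040139091) (nat_lit 24) (nat_lit 3) (nat_lit 24) (nat_lit 1) (nat_lit 26) (nat_lit 1) (nat_lit 161) (nat_lit 313) (nat_lit 246)) (XT.nd (nat_lit 94) (nat_lit 84)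 (nat_lit 0) (XT.lf (nat_lit 84) (nat_lit 16050950897) (nat_lit 0) (nat_lit 5881584961) (nat_lit 168) (nat_lit 16050950897) (nat_lit 23) (nat_lit 1) (nat_lit 22) (nat_lit 1) (nat_lit 24) (nat_lit 1) (nat_lit 162) (nat_lit 313) (nat_lit 245)) (XT.lf (nat_lit 168) (nat_lit 20079505964) (nat_lit 0) (nat_lit 8635391726) (nat_lit 84) (nat_lit 8635391726) (nat_lit 23) (nat_lit 1) (nat_lit 21) (nat_lit 1) (nat_lit 22) (nat_lit 1) (nat_lit 163) (nat_lit 313) (nat_lit 244)))) (XT.nd (nat_lit 94) (nat_lit 252) (nat_lit 0) (XT.lf (nat_lit 0) (nat_lit 4150216472) (nat_lit 0) (nat_lit 28431136519) (nat_lit 168) (nat_lit 4150216472) (nat_lit 21) (nat_lit 3) (nat_lit 21) (nat_lit 1) (nat_lit 23) (nat_lit 1) (nat_lit 164) (nat_lit 313) (nat_lit 243)) (XT.nd (nat_lit 94) (nat_lit 84) (nat_lit 0) (XT.lf (nat_lit 84) (nat_lit 16424802132) (nat_lit 0) (nat_lit 3268235915) (nat_lit 168) (nat_lit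 16424802132) (nat_lit 20) (nat_lit 1) (nat_lit 19) (nat_lit 1) (nat_lit 21) (nat_lit 1) (nat_lit 165) (nat_lit 313) (nat_lit 242)) (XT.lf (nat_lit 168) (nat_lit 21309662944) (nat_lit 0) (nat_lit 7104358144) (nat_lit 84) (nat_lit 7104358144) (nat_lit 20) (nat_lit 1) (nat_lit 18) (nat_lit 1) (nat_lit 19) (nat_lit 1) (nat_lit 166) (nat_lit 313) (nat_lit 241))))) (XT.nd (nat_lit 282) (nat_lit 252) (nat_lit 0) (XT.nd (nat_lit 94) (nat_lit 252) (nat_lit 0) (XT.lf (nat_lit 0) (nat_lit 4984951951) (nat_lit 0) (nat_lit 24960924964) (nat_lit 168) (nat_lit 4984951951) (nat_lit 18) (nat_lit 3) (nat_lit 18) (nat_lit 1) (nat_lit 20) (nat_lit 1) (nat_lit 167) (nat_lit 313) (nat_lit 240)) (XT.nd (nat_lit 94) (nat_lit 84) (nat_lit 0) (XT.lf (nat_lit 84) (nat_lit 16579054035) (nat_lit 0) (nat_lit 1193015691) (nat_lit 168) (nat_lit 16579054035) (nat_lit 17) (nat_lit 1) (nat_lit 16) (nat_lit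 1) (nat_lit 18) (nat_lit 1) (nat_lit 168) (nat_lit 313) (nat_lit 239)) (XT.lf (nat_lit 168) (nat_lit 22093611198) (nat_lit 0) (nat_lit 5844773026) (nat_lit 84) (nat_lit 5844773026) (nat_lit 17) (nat_lit 1) (nat_lit 15) (nat_lit 1) (nat_lit 16) (nat_lit 1) (nat_lit 169) (nat_lit 313) (nat_lit 238)))) (XT.nd (nat_lit 188) (nat_lit 168) (nat_lit 0) (XT.nd (nat_lit 94) (nat_lit 84) (nat_lit 0) (XT.lf (nat_lit 0) (nat_lit 5596902391) (nat_lit 0) (nat_lit 22031184825) (nat_lit 168) (nat_lit 5596902391) (nat_lit 15) (nat_lit 3) (nat_lit 15) (nat_lit 1) (nat_lit 17) (nat_lit 1) (nat_lit 170) (nat_lit 313) (nat_lit 237)) (XT.lf (nat_lit 84) (nat_lit 457695076) (nat_lit 0) (nat_lit 16109392632) (nat_lit 84) (nat_lit 16109392632) (nat_lit 15) (nat_lit 3) (nat_lit 14) (nat_lit 1) (nat_lit 15) (nat_lit 1) (nat_lit 171) (nat_lit 313) (nat_lit 236))) (XT.nd (nat_lit 94) (nat_lit 0) (nat_lit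 0) (XT.lf (nat_lit 168) (nat_lit 22521324569) (nat_lit 0) (nat_lit 4808509233) (nat_lit 84) (nat_lit 4808509233) (nat_lit 14) (nat_lit 1) (nat_lit 12) (nat_lit 1) (nat_lit 13) (nat_lit 1) (nat_lit 172) (nat_lit 313) (nat_lit 235)) (XT.lf (nat_lit 0) (nat_lit 6029128385) (nat_lit 0) (nat_lit 19549653215) (nat_lit 168) (nat_lit 6029128385) (nat_lit 12) (nat_lit 3) (nat_lit 12) (nat_lit 1) (nat_lit 14) (nat_lit 1) (nat_lit 173) (nat_lit 313) (nat_lit 234)))))) (XT.nd (nat_lit 658) (nat_lit 420) (nat_lit 0) (XT.nd (nat_lit 282) (nat_lit 336) (nat_lit 0) (XT.nd (nat_lit 94) (nat_lit 168) (nat_lit 0) (XT.lf (nat_lit 84) (nat_lit 1778113310) (nat_lit 0) (nat_lit 14654803624) (nat_lit 84) (nat_lit 14654803624) (nat_lit 12) (nat_lit 3) (nat_lit 11) (nat_lit 1) (nat_lit 12) (nat_lit 1) (nat_lit 174) (nat_lit 313) (nat_lit 233)) (XT.nd (nat_lit 94) (nat_lit 0) (nat_lit 0) (XT.lf (nat_lit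 168) (nat_lit 22666307515) (nat_lit 0) (nat_lit 3955972446) (nat_lit 84) (nat_lit 3955972446) (nat_lit 11) (nat_lit 1) (nat_lit 9) (nat_lit 1) (nat_lit 10) (nat_lit 1) (nat_lit 175) (nat_lit 313) (nat_lit 232)) (XT.lf (nat_lit 0) (nat_lit 6316886403) (nat_lit 0) (nat_lit 17440255641) (nat_lit 168) (nat_lit 6316886403) (nat_lit 9) (nat_lit 3) (nat_lit 9) (nat_lit 1) (nat_lit 11) (nat_lit 1) (nat_lit 176) (nat_lit 313) (nat_lit 231)))) (XT.nd (nat_lit 188) (nat_lit 84) (nat_lit 0) (XT.nd (nat_lit 94) (nat_lit 168) (nat_lit 0) (XT.lf (nat_lit 84) (nat_lit 2797683400) (nat_lit 0) (nat_lit 13391368389) (nat_lit 84) (nat_lit 13391368389) (nat_lit 9) (nat_lit 3) (nat_lit 8) (nat_lit 1) (nat_lit 9) (nat_lit 1) (nat_lit 177) (nat_lit 313) (nat_lit 230)) (XT.lf (nat_lit 168) (nat_lit 22588539722) (nat_lit 0) (nat_lit 3254588322) (nat_lit 84) (nat_lit 3254588322) (nat_lit 8) (nat_lit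 1) (nat_lit 6) (nat_lit 1) (nat_lit 7) (nat_lit 1) (nat_lit 178) (nat_lit 313) (nat_lit 229))) (XT.nd (nat_lit 94) (nat_lit 84) (nat_lit 0) (XT.lf (nat_lit 0) (nat_lit 6489020514) (nat_lit 0) (nat_lit 15640243914) (nat_lit 168) (nat_lit 6489020514) (nat_lit 6) (nat_lit 3) (nat_lit 6) (nat_lit 1) (nat_lit 8) (nat_lit 1) (nat_lit 179) (nat_lit 313) (nat_lit 228)) (XT.lf (nat_lit 84) (nat_lit 3572923133) (nat_lit 0) (nat_lit 12288373990) (nat_lit 84) (nat_lit 12288373990) (nat_lit 6) (nat_lit 3) (nat_lit 5) (nat_lit 1) (nat_lit 6) (nat_lit 1) (nat_lit 180) (nat_lit 313) (nat_lit 227))))) (XT.nd (nat_lit 282) (nat_lit 168) (nat_lit 0) (XT.nd (nat_lit 94) (nat_lit 84) (nat_lit 0) (XT.lf (nat_lit 168) (nat_lit 22336897469) (nat_lit 0) (nat_lit 2677557867) (nat_lit 84) (nat_lit 2677557867) (nat_lit 5) (nat_lit 1) (nat_lit 3) (nat_lit 1) (nat_lit 4) (nat_lit 1) (nat_lit 181) (nat_lit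 313) (nat_lit 226)) (XT.nd (nat_lit 94) (nat_lit 84) (nat_lit 0) (XT.lf (nat_lit 0) (nat_lit 6569106986) (nat_lit 0) (nat_lit 14097841125) (nat_lit 168) (nat_lit 6569106986) (nat_lit 3) (nat_lit 3) (nat_lit 3) (nat_lit 1) (nat_lit 5) (nat_lit 1) (nat_lit 182) (nat_lit 313) (nat_lit 225)) (XT.lf (nat_lit 84) (nat_lit 4150178490) (nat_lit 0) (nat_lit 11320401479) (nat_lit 84) (nat_lit 11320401479) (nat_lit 3) (nat_lit 3) (nat_lit 2) (nat_lit 1) (nat_lit 3) (nat_lit 1) (nat_lit 183) (nat_lit 313) (nat_lit 224)))) (XT.nd (nat_lit 188) (nat_lit 0) (nat_lit 0) (XT.nd (nat_lit 94) (nat_lit 0) (nat_lit 0) (XT.lf (nat_lit 0) (nat_lit 38288224209) (nat_lit 0) (nat_lit 0) (nat_lit 0) (nat_lit 0) (nat_lit 0) (nat_lit 0) (nat_lit 1) (nat_lit 0) (nat_lit 1) (nat_lit 0) (nat_lit 184) (nat_lit 313) (nat_lit 223)) (XT.lf (nat_lit 0) (nat_lit 38265916113) (nat_lit 0) (nat_lit 0) (nat_lit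 0) (nat_lit 0) (nat_lit 0) (nat_lit 0) (nat_lit 1) (nat_lit 0) (nat_lit 1) (nat_lit 0) (nat_lit 185) (nat_lit 313) (nat_lit 222))) (XT.nd (nat_lit 94) (nat_lit 0) (nat_lit 0) (XT.lf (nat_lit 0) (nat_lit 38244670308) (nat_lit 0) (nat_lit 0) (nat_lit 0) (nat_lit 0) (nat_lit 0) (nat_lit 0) (nat_lit 1) (nat_lit 0) (nat_lit 1) (nat_lit 0) (nat_lit 186) (nat_lit 313) (nat_lit 221)) (XT.lf (nat_lit 0) (nat_lit 38224436208) (nat_lit 0) (nat_lit 0) (nat_lit 0) (nat_lit 0) (nat_lit 0) (nat_lit 0) (nat_lit 1) (nat_lit 0) (nat_lit 1) (nat_lit 0) (nat_lit 187) (nat_lit 313) (nat_lit 220))))))))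
noncomputable def ec229 : XT := (XT.nd (nat_lit 4418) (nat_lit 0) (nat_lit 0) (XT.nd (nat_lit 3102) (nat_lit 0) (nat_lit 0) (XT.nd (nat_lit 2444) (nat_lit 0) (nat_lit 0) (XT.nd (nat_lit 282) (nat_lit 0) (nat_lit 0) (XT.nd (nat_lit 94) (nat_lit 0) (nat_lit 0) (XT.lf (nat_lit 0) (nat_lit 38205165637) (nat_lit 0) (nat_lit 0) (nat_lit 0) (nat_lit 0) (nat_lit 0) (nat_lit 0) (nat_lit 1) (nat_lit 0) (nat_lit 1) (nat_lit 0) (nat_lit 188) (nat_lit 313) (nat_lit 219)) (XT.nd (nat_lit 94) (nat_lit 0) (nat_lit 0) (XT.lf (nat_lit 0) (nat_lit 38186812711) (nat_lit 0) (nat_lit 0) (nat_lit 0) (nat_lit 0) (nat_lit 0) (nat_lit 0) (nat_lit 1) (nat_lit 0) (nat_lit 1) (nat_lit 0) (nat_lit 189) (nat_lit 313) (nat_lit 218)) (XT.lf (nat_lit 0) (nat_lit 38169333735) (nat_lit 0) (nat_lit 0) (nat_lit 0) (nat_lit 0) (nat_lit 0) (nat_lit 0) (nat_lit 1) (nat_lit 0) (nat_lit 1) (nat_lit 0) (nat_lit 190)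 (nat_lit 313) (nat_lit 217)))) (XT.nd (nat_lit 94) (nat_lit 0) (nat_lit 0) (XT.lf (nat_lit 0) (nat_lit 38152687091) (nat_lit 0) (nat_lit 0) (nat_lit 0) (nat_lit 0) (nat_lit 0) (nat_lit 0) (nat_lit 1) (nat_lit 0) (nat_lit 1) (nat_lit 0) (nat_lit 191) (nat_lit 313) (nat_lit 216)) (XT.nd (nat_lit 94) (nat_lit 0) (nat_lit 0) (XT.lf (nat_lit 0) (nat_lit 38136833144) (nat_lit 0) (nat_lit 0) (nat_lit 0) (nat_lit 0) (nat_lit 0) (nat_lit 0) (nat_lit 1) (nat_lit 0) (nat_lit 1) (nat_lit 0) (nat_lit 192) (nat_lit 313) (nat_lit 215)) (XT.lf (nat_lit 0) (nat_lit 38121734147) (nat_lit 0) (nat_lit 0) (nat_lit 0) (nat_lit 0) (nat_lit 0) (nat_lit 0) (nat_lit 1) (nat_lit 0) (nat_lit 1) (nat_lit 0) (nat_lit 193) (nat_lit 313) (nat_lit 214))))) (XT.nd (nat_lit 282) (nat_lit 0) (nat_lit 0) (XT.nd (nat_lit 94) (nat_lit 0) (nat_lit 0) (XT.lf (nat_lit 0) (nat_lit 37928147601) (nat_lit 0) (nat_lit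 0) (nat_lit 0) (nat_lit 0) (nat_lit 0) (nat_lit 0) (nat_lit 1) (nat_lit 0) (nat_lit 1) (nat_lit 0) (nat_lit 214) (nat_lit 313) (nat_lit 193)) (XT.nd (nat_lit 94) (nat_lit 0) (nat_lit 0) (XT.lf (nat_lit 0) (nat_lit 37922986011) (nat_lit 0) (nat_lit 0) (nat_lit 0) (nat_lit 0) (nat_lit 0) (nat_lit 0) (nat_lit 1) (nat_lit 0) (nat_lit 1) (nat_lit 0) (nat_lit 215) (nat_lit 313) (nat_lit 192)) (XT.lf (nat_lit 0) (nat_lit 37918070211) (nat_lit 0) (nat_lit 0) (nat_lit 0) (nat_lit 0) (nat_lit 0) (nat_lit 0) (nat_lit 1) (nat_lit 0) (nat_lit 1) (nat_lit 0) (nat_lit 216) (nat_lit 313) (nat_lit 191)))) (XT.nd (nat_lit 188) (nat_lit 0) (nat_lit 0) (XT.nd (nat_lit 94) (nat_lit 0) (nat_lit 0) (XT.lf (nat_lit 0) (nat_lit 37913388496) (nat_lit 0) (nat_lit 0) (nat_lit 0) (nat_lit 0) (nat_lit 0) (nat_lit 0) (nat_lit 1) (nat_lit 0) (nat_lit 1) (nat_lit 0) (nat_lit 217) (nat_lit 313) (nat_lit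 190)) (XT.lf (nat_lit 0) (nat_lit 37908929721) (nat_lit 0) (nat_lit 0) (nat_lit 0) (nat_lit 0) (nat_lit 0) (nat_lit 0) (nat_lit 1) (nat_lit 0) (nat_lit 1) (nat_lit 0) (nat_lit 218) (nat_lit 313) (nat_lit 189))) (XT.nd (nat_lit 94) (nat_lit 0) (nat_lit 0) (XT.lf (nat_lit 0) (nat_lit 37904683268) (nat_lit 0) (nat_lit 0) (nat_lit 0) (nat_lit 0) (nat_lit 0) (nat_lit 0) (nat_lit 1) (nat_lit 0) (nat_lit 1) (nat_lit 0) (nat_lit 219) (nat_lit 313) (nat_lit 188)) (XT.lf (nat_lit 0) (nat_lit 37900639027) (nat_lit 0) (nat_lit 0) (nat_lit 0) (nat_lit 0) (nat_lit 0) (nat_lit 0) (nat_lit 1) (nat_lit 0) (nat_lit 1) (nat_lit 0) (nat_lit 220) (nat_lit 313) (nat_lit 187)))))) (XT.nd (nat_lit 658) (nat_lit 0) (nat_lit 0) (XT.nd (nat_lit 282) (nat_lit 0) (nat_lit 0) (XT.nd (nat_lit 94) (nat_lit 0) (nat_lit 0) (XT.lf (nat_lit 0) (nat_lit 37896787369) (nat_lit 0) (nat_lit 0) (nat_lit 0) (nat_lit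 0) (nat_lit 0) (nat_lit 0) (nat_lit 1) (nat_lit 0) (nat_lit 1) (nat_lit 0) (nat_lit 221) (nat_lit 313) (nat_lit 186)) (XT.nd (nat_lit 94) (nat_lit 0) (nat_lit 0) (XT.lf (nat_lit 0) (nat_lit 37893119123) (nat_lit 0) (nat_lit 0) (nat_lit 0) (nat_lit 0) (nat_lit 0) (nat_lit 0) (nat_lit 1) (nat_lit 0) (nat_lit 1) (nat_lit 0) (nat_lit 222) (nat_lit 313) (nat_lit 185)) (XT.lf (nat_lit 0) (nat_lit 37889625555) (nat_lit 0) (nat_lit 0) (nat_lit 0) (nat_lit 0) (nat_lit 0) (nat_lit 0) (nat_lit 1) (nat_lit 0) (nat_lit 1) (nat_lit 0) (nat_lit 223) (nat_lit 313) (nat_lit 184)))) (XT.nd (nat_lit 188) (nat_lit 0) (nat_lit 0) (XT.nd (nat_lit 94) (nat_lit 0) (nat_lit 0) (XT.lf (nat_lit 0) (nat_lit 37886298348) (nat_lit 0) (nat_lit 0) (nat_lit 0) (nat_lit 0) (nat_lit 0) (nat_lit 0) (nat_lit 1) (nat_lit 0) (nat_lit 1) (nat_lit 0) (nat_lit 224) (nat_lit 313) (nat_lit 183)) (XT.lf (nat_lit 0)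 (nat_lit 37883129580) (nat_lit 0) (nat_lit 0) (nat_lit 0) (nat_lit 0) (nat_lit 0) (nat_lit 0) (nat_lit 1) (nat_lit 0) (nat_lit 1) (nat_lit 0) (nat_lit 225) (nat_lit 313) (nat_lit 182))) (XT.nd (nat_lit 94) (nat_lit 0) (nat_lit 0) (XT.lf (nat_lit 0) (nat_lit 37880111705) (nat_lit 0) (nat_lit 0) (nat_lit 0) (nat_lit 0) (nat_lit 0) (nat_lit 0) (nat_lit 1) (nat_lit 0) (nat_lit 1) (nat_lit 0) (nat_lit 226) (nat_lit 313) (nat_lit 181)) (XT.lf (nat_lit 0) (nat_lit 37877237538) (nat_lit 0) (nat_lit 0) (nat_lit 0) (nat_lit 0) (nat_lit 0) (nat_lit 0) (nat_lit 1) (nat_lit 0) (nat_lit 1) (nat_lit 0) (nat_lit 227) (nat_lit 313) (nat_lit 180))))) (XT.nd (nat_lit 282) (nat_lit 0) (nat_lit 0) (XT.nd (nat_lit 94) (nat_lit 0) (nat_lit 0) (XT.lf (nat_lit 0) (nat_lit 37874500237) (nat_lit 0) (nat_lit 0) (nat_lit 0) (nat_lit 0) (nat_lit 0) (nat_lit 0) (nat_lit 1) (nat_lit 0) (nat_lit 1) (nat_lit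 0) (nat_lit 228) (nat_lit 313) (nat_lit 179)) (XT.nd (nat_lit 94) (nat_lit 0) (nat_lit 0) (XT.lf (nat_lit 0) (nat_lit 37871893283) (nat_lit 0) (nat_lit 0) (nat_lit 0) (nat_lit 0) (nat_lit 0) (nat_lit 0) (nat_lit 1) (nat_lit 0) (nat_lit 1) (nat_lit 0) (nat_lit 229) (nat_lit 313) (nat_lit 178)) (XT.lf (nat_lit 0) (nat_lit 37869410470) (nat_lit 0) (nat_lit 0) (nat_lit 0) (nat_lit 0) (nat_lit 0) (nat_lit 0) (nat_lit 1) (nat_lit 0) (nat_lit 1) (nat_lit 0) (nat_lit 230) (nat_lit 313) (nat_lit 177)))) (XT.nd (nat_lit 188) (nat_lit 0) (nat_lit 0) (XT.nd (nat_lit 94) (nat_lit 0) (nat_lit 0) (XT.lf (nat_lit 0) (nat_lit 37867045886) (nat_lit 0) (nat_lit 0) (nat_lit 0) (nat_lit 0) (nat_lit 0) (nat_lit 0) (nat_lit 1) (nat_lit 0) (nat_lit 1) (nat_lit 0) (nat_lit 231) (nat_lit 313) (nat_lit 176)) (XT.lf (nat_lit 0) (nat_lit 37864793901) (nat_lit 0) (nat_lit 0) (nat_lit 0) (nat_lit 0) (nat_lit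 0) (nat_lit 0) (nat_lit 1) (nat_lit 0) (nat_lit 1) (nat_lit 0) (nat_lit 232) (nat_lit 313) (nat_lit 175))) (XT.nd (nat_lit 94) (nat_lit 0) (nat_lit 0) (XT.lf (nat_lit 0) (nat_lit 37862649154) (nat_lit 0) (nat_lit 0) (nat_lit 0) (nat_lit 0) (nat_lit 0) (nat_lit 0) (nat_lit 1) (nat_lit 0) (nat_lit 1) (nat_lit 0) (nat_lit 233) (nat_lit 313) (nat_lit 174)) (XT.lf (nat_lit 0) (nat_lit 37860606537) (nat_lit 0) (nat_lit 0) (nat_lit 0) (nat_lit 0) (nat_lit 0) (nat_lit 0) (nat_lit 1) (nat_lit 0) (nat_lit 1) (nat_lit 0) (nat_lit 234) (nat_lit 313) (nat_lit 173))))))) (XT.nd (nat_lit 1316) (nat_lit 0) (nat_lit 0) (XT.nd (nat_lit 658) (nat_lit 0) (nat_lit 0) (XT.nd (nat_lit 282) (nat_lit 0) (nat_lit 0) (XT.nd (nat_lit 94) (nat_lit 0) (nat_lit 0) (XT.lf (nat_lit 0) (nat_lit 37858661188) (nat_lit 0) (nat_lit 0) (nat_lit 0) (nat_lit 0) (nat_lit 0) (nat_lit 0) (nat_lit 1) (nat_lit 0) (nat_lit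 1) (nat_lit 0) (nat_lit 235) (nat_lit 313) (nat_lit 172)) (XT.nd (nat_lit 94) (nat_lit 0) (nat_lit 0) (XT.lf (nat_lit 0) (nat_lit 37856808475) (nat_lit 0) (nat_lit 0) (nat_lit 0) (nat_lit 0) (nat_lit 0) (nat_lit 0) (nat_lit 1) (nat_lit 0) (nat_lit 1) (nat_lit 0) (nat_lit 236) (nat_lit 313) (nat_lit 171)) (XT.lf (nat_lit 0) (nat_lit 37855043986) (nat_lit 0) (nat_lit 0) (nat_lit 0) (nat_lit 0) (nat_lit 0) (nat_lit 0) (nat_lit 1) (nat_lit 0) (nat_lit 1) (nat_lit 0) (nat_lit 237) (nat_lit 313) (nat_lit 170)))) (XT.nd (nat_lit 188) (nat_lit 0) (nat_lit 0) (XT.nd (nat_lit 94) (nat_lit 0) (nat_lit 0) (XT.lf (nat_lit 0) (nat_lit 37853363520) (nat_lit 0) (nat_lit 0) (nat_lit 0) (nat_lit 0) (nat_lit 0) (nat_lit 0) (nat_lit 1) (nat_lit 0) (nat_lit 1) (nat_lit 0) (nat_lit 238) (nat_lit 313) (nat_lit 169)) (XT.lf (nat_lit 0) (nat_lit 37851763077) (nat_lit 0) (nat_lit 0) (nat_lit 0) (nat_lit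 0) (nat_lit 0) (nat_lit 0) (nat_lit 1) (nat_lit 0) (nat_lit 1) (nat_lit 0) (nat_lit 239) (nat_lit 313) (nat_lit 168))) (XT.nd (nat_lit 94) (nat_lit 0) (nat_lit 0) (XT.lf (nat_lit 0) (nat_lit 37850238845) (nat_lit 0) (nat_lit 0) (nat_lit 0) (nat_lit 0) (nat_lit 0) (nat_lit 0) (nat_lit 1) (nat_lit 0) (nat_lit 1) (nat_lit 0) (nat_lit 240) (nat_lit 313) (nat_lit 167)) (XT.lf (nat_lit 0) (nat_lit 37848787196) (nat_lit 0) (nat_lit 0) (nat_lit 0) (nat_lit 0) (nat_lit 0) (nat_lit 0) (nat_lit 1) (nat_lit 0) (nat_lit 1) (nat_lit 0) (nat_lit 241) (nat_lit 313) (nat_lit 166))))) (XT.nd (nat_lit 282) (nat_lit 0) (nat_lit 0) (XT.nd (nat_lit 94) (nat_lit 0) (nat_lit 0) (XT.lf (nat_lit 0) (nat_lit 37847404672) (nat_lit 0) (nat_lit 0) (nat_lit 0) (nat_lit 0) (nat_lit 0) (nat_lit 0) (nat_lit 1) (nat_lit 0) (nat_lit 1) (nat_lit 0) (nat_lit 242) (nat_lit 313) (nat_lit 165)) (XT.nd (nat_lit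 94) (nat_lit 0) (nat_lit 0) (XT.lf (nat_lit 0) (nat_lit 37846087984) (nat_lit 0) (nat_lit 0) (nat_lit 0) (nat_lit 0) (nat_lit 0) (nat_lit 0) (nat_lit 1) (nat_lit 0) (nat_lit 1) (nat_lit 0) (nat_lit 243) (nat_lit 313) (nat_lit 164)) (XT.lf (nat_lit 0) (nat_lit 37844833994) (nat_lit 0) (nat_lit 0) (nat_lit 0) (nat_lit 0) (nat_lit 0) (nat_lit 0) (nat_lit 1) (nat_lit 0) (nat_lit 1) (nat_lit 0) (nat_lit 244) (nat_lit 313) (nat_lit 163)))) (XT.nd (nat_lit 188) (nat_lit 0) (nat_lit 0) (XT.nd (nat_lit 94) (nat_lit 0) (nat_lit 0) (XT.lf (nat_lit 0) (nat_lit 37843639719) (nat_lit 0) (nat_lit 0) (nat_lit 0) (nat_lit 0) (nat_lit 0) (nat_lit 0) (nat_lit 1) (nat_lit 0) (nat_lit 1) (nat_lit 0) (nat_lit 245) (nat_lit 313) (nat_lit 162)) (XT.lf (nat_lit 0) (nat_lit 37842502313) (nat_lit 0) (nat_lit 0) (nat_lit 0) (nat_lit 0) (nat_lit 0) (nat_lit 0) (nat_lit 1) (nat_lit 0) (nat_lit 1) (nat_lit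 0) (nat_lit 246) (nat_lit 313) (nat_lit 161))) (XT.nd (nat_lit 94) (nat_lit 0) (nat_lit 0) (XT.lf (nat_lit 0) (nat_lit 37841419070) (nat_lit 0) (nat_lit 0) (nat_lit 0) (nat_lit 0) (nat_lit 0) (nat_lit 0) (nat_lit 1) (nat_lit 0) (nat_lit 1) (nat_lit 0) (nat_lit 247) (nat_lit 313) (nat_lit 160)) (XT.lf (nat_lit 0) (nat_lit 37840387410) (nat_lit 0) (nat_lit 0) (nat_lit 0) (nat_lit 0) (nat_lit 0) (nat_lit 0) (nat_lit 1) (nat_lit 0) (nat_lit 1) (nat_lit 0) (nat_lit 248) (nat_lit 313) (nat_lit 159)))))) (XT.nd (nat_lit 658) (nat_lit 0) (nat_lit 0) (XT.nd (nat_lit 282) (nat_lit 0) (nat_lit 0) (XT.nd (nat_lit 94) (nat_lit 0) (nat_lit 0) (XT.lf (nat_lit 0) (nat_lit 37839404877) (nat_lit 0) (nat_lit 0) (nat_lit 0) (nat_lit 0) (nat_lit 0) (nat_lit 0) (nat_lit 1) (nat_lit 0) (nat_lit 1) (nat_lit 0) (nat_lit 249) (nat_lit 313) (nat_lit 158)) (XT.nd (nat_lit 94) (nat_lit 0) (nat_lit 0)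 (XT.lf (nat_lit 0) (nat_lit 37838469130) (nat_lit 0) (nat_lit 0) (nat_lit 0) (nat_lit 0) (nat_lit 0) (nat_lit 0) (nat_lit 1) (nat_lit 0) (nat_lit 1) (nat_lit 0) (nat_lit 250) (nat_lit 313) (nat_lit 157)) (XT.lf (nat_lit 0) (nat_lit 37837577944) (nat_lit 0) (nat_lit 0) (nat_lit 0) (nat_lit 0) (nat_lit 0) (nat_lit 0) (nat_lit 1) (nat_lit 0) (nat_lit 1) (nat_lit 0) (nat_lit 251) (nat_lit 313) (nat_lit 156)))) (XT.nd (nat_lit 188) (nat_lit 0) (nat_lit 0) (XT.nd (nat_lit 94) (nat_lit 0) (nat_lit 0) (XT.lf (nat_lit 0) (nat_lit 37836729194) (nat_lit 0) (nat_lit 0) (nat_lit 0) (nat_lit 0) (nat_lit 0) (nat_lit 0) (nat_lit 1) (nat_lit 0) (nat_lit 1) (nat_lit 0) (nat_lit 252) (nat_lit 313) (nat_lit 155)) (XT.lf (nat_lit 0) (nat_lit 37835920862) (nat_lit 0) (nat_lit 0) (nat_lit 0) (nat_lit 0) (nat_lit 0) (nat_lit 0) (nat_lit 1) (nat_lit 0) (nat_lit 1) (nat_lit 0) (nat_lit 253) (nat_lit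 313) (nat_lit 154))) (XT.nd (nat_lit 94) (nat_lit 0) (nat_lit 0) (XT.lf (nat_lit 0) (nat_lit 37835151021) (nat_lit 0) (nat_lit 0) (nat_lit 0) (nat_lit 0) (nat_lit 0) (nat_lit 0) (nat_lit 1) (nat_lit 0) (nat_lit 1) (nat_lit 0) (nat_lit 254) (nat_lit 313) (nat_lit 153)) (XT.lf (nat_lit 0) (nat_lit 37834417839) (nat_lit 0) (nat_lit 0) (nat_lit 0) (nat_lit 0) (nat_lit 0) (nat_lit 0) (nat_lit 1) (nat_lit 0) (nat_lit 1) (nat_lit 0) (nat_lit 255) (nat_lit 313) (nat_lit 152))))) (XT.nd (nat_lit 282) (nat_lit 0) (nat_lit 0) (XT.nd (nat_lit 94) (nat_lit 0) (nat_lit 0) (XT.lf (nat_lit 0) (nat_lit 37833719571) (nat_lit 0) (nat_lit 0) (nat_lit 0) (nat_lit 0) (nat_lit 0) (nat_lit 0) (nat_lit 1) (nat_lit 0) (nat_lit 1) (nat_lit 0) (nat_lit 256) (nat_lit 313) (nat_lit 151)) (XT.nd (nat_lit 94) (nat_lit 0) (nat_lit 0) (XT.lf (nat_lit 0) (nat_lit 37833054554) (nat_lit 0) (nat_lit 0) (nat_lit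 0) (nat_lit 0) (nat_lit 0) (nat_lit 0) (nat_lit 1) (nat_lit 0) (nat_lit 1) (nat_lit 0) (nat_lit 257) (nat_lit 313) (nat_lit 150)) (XT.lf (nat_lit 0) (nat_lit 37832421204) (nat_lit 0) (nat_lit 0) (nat_lit 0) (nat_lit 0) (nat_lit 0) (nat_lit 0) (nat_lit 1) (nat_lit 0) (nat_lit 1) (nat_lit 0) (nat_lit 258) (nat_lit 313) (nat_lit 149)))) (XT.nd (nat_lit 188) (nat_lit 0) (nat_lit 0) (XT.nd (nat_lit 94) (nat_lit 0) (nat_lit 0) (XT.lf (nat_lit 0) (nat_lit 37831818014) (nat_lit 0) (nat_lit 0) (nat_lit 0) (nat_lit 0) (nat_lit 0) (nat_lit 0) (nat_lit 1) (nat_lit 0) (nat_lit 1) (nat_lit 0) (nat_lit 259) (nat_lit 313) (nat_lit 148)) (XT.lf (nat_lit 0) (nat_lit 37831243547) (nat_lit 0) (nat_lit 0) (nat_lit 0) (nat_lit 0) (nat_lit 0) (nat_lit 0) (nat_lit 1) (nat_lit 0) (nat_lit 1) (nat_lit 0) (nat_lit 260) (nat_lit 313) (nat_lit 147))) (XT.nd (nat_lit 94) (nat_lit 0) (nat_lit 0) (XT.lf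 (nat_lit 0) (nat_lit 37830696435) (nat_lit 0) (nat_lit 0) (nat_lit 0) (nat_lit 0) (nat_lit 0) (nat_lit 0) (nat_lit 1) (nat_lit 0) (nat_lit 1) (nat_lit 0) (nat_lit 261) (nat_lit 313) (nat_lit 146)) (XT.lf (nat_lit 0) (nat_lit 37830175377) (nat_lit 0) (nat_lit 0) (nat_lit 0) (nat_lit 0) (nat_lit 0) (nat_lit 0) (nat_lit 1) (nat_lit 0) (nat_lit 1) (nat_lit 0) (nat_lit 262) (nat_lit 313) (nat_lit 145))))))))
noncomputable def ec230 : XT := (XT.nd (nat_lit 4606) (nat_lit 0) (nat_lit 0) (XT.nd (nat_lit 1222) (nat_lit 0) (nat_lit 0) (XT.nd (nat_lit 564) (nat_lit 0) (nat_lit 0) (XT.nd (nat_lit 282) (nat_lit 0) (nat_lit 0) (XT.nd (nat_lit 94) (nat_lit 0) (nat_lit 0) (XT.lf (nat_lit 0) (nat_lit 37829679131) (nat_lit 0) (nat_lit 0) (nat_lit 0) (nat_lit 0) (nat_lit 0) (nat_lit 0) (nat_lit 1) (nat_lit 0) (nat_lit 1) (nat_lit 0) (nat_lit 263) (nat_lit 313) (nat_lit 144)) (XT.nd (nat_lit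 94) (nat_lit 0) (nat_lit 0) (XT.lf (nat_lit 0) (nat_lit 37829206515) (nat_lit 0) (nat_lit 0) (nat_lit 0) (nat_lit 0) (nat_lit 0) (nat_lit 0) (nat_lit 1) (nat_lit 0) (nat_lit 1) (nat_lit 0) (nat_lit 264) (nat_lit 313) (nat_lit 143)) (XT.lf (nat_lit 0) (nat_lit 37828756405) (nat_lit 0) (nat_lit 0) (nat_lit 0) (nat_lit 0) (nat_lit 0) (nat_lit 0) (nat_lit 1) (nat_lit 0) (nat_lit 1) (nat_lit 0) (nat_lit 265) (nat_lit 313) (nat_lit 142)))) (XT.nd (nat_lit 94) (nat_lit 0) (nat_lit 0) (XT.lf (nat_lit 0) (nat_lit 37828327729) (nat_lit 0) (nat_lit 0) (nat_lit 0) (nat_lit 0) (nat_lit 0) (nat_lit 0) (nat_lit 1) (nat_lit 0) (nat_lit 1) (nat_lit 0) (nat_lit 266) (nat_lit 313) (nat_lit 141)) (XT.nd (nat_lit 94) (nat_lit 0) (nat_lit 0) (XT.lf (nat_lit 0) (nat_lit 37827919466) (nat_lit 0) (nat_lit 0) (nat_lit 0) (nat_lit 0) (nat_lit 0) (nat_lit 0) (nat_lit 1) (nat_lit 0) (nat_lit 1) (nat_lit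 0) (nat_lit 267) (nat_lit 313) (nat_lit 140)) (XT.lf (nat_lit 0) (nat_lit 37827530644) (nat_lit 0) (nat_lit 0) (nat_lit 0) (nat_lit 0) (nat_lit 0) (nat_lit 0) (nat_lit 1) (nat_lit 0) (nat_lit 1) (nat_lit 0) (nat_lit 268) (nat_lit 313) (nat_lit 139))))) (XT.nd (nat_lit 282) (nat_lit 0) (nat_lit 0) (XT.nd (nat_lit 94) (nat_lit 0) (nat_lit 0) (XT.lf (nat_lit 0) (nat_lit 37827160338) (nat_lit 0) (nat_lit 0) (nat_lit 0) (nat_lit 0) (nat_lit 0) (nat_lit 0) (nat_lit 1) (nat_lit 0) (nat_lit 1) (nat_lit 0) (nat_lit 269) (nat_lit 313) (nat_lit 138)) (XT.nd (nat_lit 94) (nat_lit 0) (nat_lit 0) (XT.lf (nat_lit 0) (nat_lit 37826807665) (nat_lit 0) (nat_lit 0) (nat_lit 0) (nat_lit 0) (nat_lit 0) (nat_lit 0) (nat_lit 1) (nat_lit 0) (nat_lit 1) (nat_lit 0) (nat_lit 270) (nat_lit 313) (nat_lit 137)) (XT.lf (nat_lit 0) (nat_lit 37826471786) (nat_lit 0) (nat_lit 0) (nat_lit 0) (nat_lit 0)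 (nat_lit 0) (nat_lit 0) (nat_lit 1) (nat_lit 0) (nat_lit 1) (nat_lit 0) (nat_lit 271) (nat_lit 313) (nat_lit 136)))) (XT.nd (nat_lit 188) (nat_lit 0) (nat_lit 0) (XT.nd (nat_lit 94) (nat_lit 0) (nat_lit 0) (XT.lf (nat_lit 0) (nat_lit 37826151901) (nat_lit 0) (nat_lit 0) (nat_lit 0) (nat_lit 0) (nat_lit 0) (nat_lit 0) (nat_lit 1) (nat_lit 0) (nat_lit 1) (nat_lit 0) (nat_lit 272) (nat_lit 313) (nat_lit 135)) (XT.lf (nat_lit 0) (nat_lit 37825847249) (nat_lit 0) (nat_lit 0) (nat_lit 0) (nat_lit 0) (nat_lit 0) (nat_lit 0) (nat_lit 1) (nat_lit 0) (nat_lit 1) (nat_lit 0) (nat_lit 273) (nat_lit 313) (nat_lit 134))) (XT.nd (nat_lit 94) (nat_lit 0) (nat_lit 0) (XT.lf (nat_lit 0) (nat_lit 37825557104) (nat_lit 0) (nat_lit 0) (nat_lit 0) (nat_lit 0) (nat_lit 0) (nat_lit 0) (nat_lit 1) (nat_lit 0) (nat_lit 1) (nat_lit 0) (nat_lit 274) (nat_lit 313) (nat_lit 133)) (XT.lf (nat_lit 0) (nat_lit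 37825280776) (nat_lit 0) (nat_lit 0) (nat_lit 0) (nat_lit 0) (nat_lit 0) (nat_lit 0) (nat_lit 1) (nat_lit 0) (nat_lit 1) (nat_lit 0) (nat_lit 275) (nat_lit 313) (nat_lit 132)))))) (XT.nd (nat_lit 2726) (nat_lit 0) (nat_lit 0) (XT.nd (nat_lit 282) (nat_lit 0) (nat_lit 0) (XT.nd (nat_lit 94) (nat_lit 0) (nat_lit 0) (XT.lf (nat_lit 0) (nat_lit 37825017606) (nat_lit 0) (nat_lit 0) (nat_lit 0) (nat_lit 0) (nat_lit 0) (nat_lit 0) (nat_lit 1) (nat_lit 0) (nat_lit 1) (nat_lit 0) (nat_lit 276) (nat_lit 313) (nat_lit 131)) (XT.nd (nat_lit 94) (nat_lit 0) (nat_lit 0) (XT.lf (nat_lit 0) (nat_lit 37824766968) (nat_lit 0) (nat_lit 0) (nat_lit 0) (nat_lit 0) (nat_lit 0) (nat_lit 0) (nat_lit 1) (nat_lit 0) (nat_lit 1) (nat_lit 0) (nat_lit 277) (nat_lit 313) (nat_lit 130)) (XT.lf (nat_lit 0) (nat_lit 37824528265) (nat_lit 0) (nat_lit 0) (nat_lit 0) (nat_lit 0) (nat_lit 0) (nat_lit 0) (nat_lit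 1) (nat_lit 0) (nat_lit 1) (nat_lit 0) (nat_lit 278) (nat_lit 313) (nat_lit 129)))) (XT.nd (nat_lit 188) (nat_lit 0) (nat_lit 0) (XT.nd (nat_lit 94) (nat_lit 0) (nat_lit 0) (XT.lf (nat_lit 0) (nat_lit 37824300929) (nat_lit 0) (nat_lit 0) (nat_lit 0) (nat_lit 0) (nat_lit 0) (nat_lit 0) (nat_lit 1) (nat_lit 0) (nat_lit 1) (nat_lit 0) (nat_lit 279) (nat_lit 313) (nat_lit 128)) (XT.lf (nat_lit 0) (nat_lit 37824084419) (nat_lit 0) (nat_lit 0) (nat_lit 0) (nat_lit 0) (nat_lit 0) (nat_lit 0) (nat_lit 1) (nat_lit 0) (nat_lit 1) (nat_lit 0) (nat_lit 280) (nat_lit 313) (nat_lit 127))) (XT.nd (nat_lit 2162) (nat_lit 0) (nat_lit 0) (XT.lf (nat_lit 0) (nat_lit 37823878218) (nat_lit 0) (nat_lit 0) (nat_lit 0) (nat_lit 0) (nat_lit 0) (nat_lit 0) (nat_lit 1) (nat_lit 0) (nat_lit 1) (nat_lit 0) (nat_lit 281) (nat_lit 313) (nat_lit 126)) (XT.lf (nat_lit 0) (nat_lit 37821096867) (nat_lit 0)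 (nat_lit 0) (nat_lit 0) (nat_lit 0) (nat_lit 0) (nat_lit 0) (nat_lit 1) (nat_lit 0) (nat_lit 1) (nat_lit 0) (nat_lit 304) (nat_lit 313) (nat_lit 103))))) (XT.nd (nat_lit 282) (nat_lit 0) (nat_lit 0) (XT.nd (nat_lit 94) (nat_lit 0) (nat_lit 0) (XT.lf (nat_lit 0) (nat_lit 37821032931) (nat_lit 0) (nat_lit 0) (nat_lit 0) (nat_lit 0) (nat_lit 0) (nat_lit 0) (nat_lit 1) (nat_lit 0) (nat_lit 1) (nat_lit 0) (nat_lit 305) (nat_lit 313) (nat_lit 102)) (XT.nd (nat_lit 94) (nat_lit 0) (nat_lit 0) (XT.lf (nat_lit 0) (nat_lit 37820972039) (nat_lit 0) (nat_lit 0) (nat_lit 0) (nat_lit 0) (nat_lit 0) (nat_lit 0) (nat_lit 1) (nat_lit 0) (nat_lit 1) (nat_lit 0) (nat_lit 306) (nat_lit 313) (nat_lit 101)) (XT.lf (nat_lit 0) (nat_lit 37820914047) (nat_lit 0) (nat_lit 0) (nat_lit 0) (nat_lit 0) (nat_lit 0) (nat_lit 0) (nat_lit 1) (nat_lit 0) (nat_lit 1) (nat_lit 0) (nat_lit 307) (nat_lit 313)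 (nat_lit 100)))) (XT.nd (nat_lit 188) (nat_lit 0) (nat_lit 0) (XT.nd (nat_lit 94) (nat_lit 0) (nat_lit 0) (XT.lf (nat_lit 0) (nat_lit 37820858817) (nat_lit 0) (nat_lit 0) (nat_lit 0) (nat_lit 0) (nat_lit 0) (nat_lit 0) (nat_lit 1) (nat_lit 0) (nat_lit 1) (nat_lit 0) (nat_lit 308) (nat_lit 313) (nat_lit 99)) (XT.lf (nat_lit 0) (nat_lit 37820806216) (nat_lit 0) (nat_lit 0) (nat_lit 0) (nat_lit 0) (nat_lit 0) (nat_lit 0) (nat_lit 1) (nat_lit 0) (nat_lit 1) (nat_lit 0) (nat_lit 309) (nat_lit 313) (nat_lit 98))) (XT.nd (nat_lit 94) (nat_lit 0) (nat_lit 0) (XT.lf (nat_lit 0) (nat_lit 37820756121) (nat_lit 0) (nat_lit 0) (nat_lit 0) (nat_lit 0) (nat_lit 0) (nat_lit 0) (nat_lit 1) (nat_lit 0) (nat_lit 1) (nat_lit 0) (nat_lit 310) (nat_lit 313) (nat_lit 97)) (XT.lf (nat_lit 0) (nat_lit 37820708410) (nat_lit 0) (nat_lit 0) (nat_lit 0) (nat_lit 0) (nat_lit 0) (nat_lit 0) (nat_lit 1)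 (nat_lit 0) (nat_lit 1) (nat_lit 0) (nat_lit 311) (nat_lit 313) (nat_lit 96))))))) (XT.nd (nat_lit 25004) (nat_lit 0) (nat_lit 4200) (XT.nd (nat_lit 564) (nat_lit 0) (nat_lit 0) (XT.nd (nat_lit 282) (nat_lit 0) (nat_lit 0) (XT.nd (nat_lit 94) (nat_lit 0) (nat_lit 0) (XT.lf (nat_lit 0) (nat_lit 37820662972) (nat_lit 0) (nat_lit 0) (nat_lit 0) (nat_lit 0) (nat_lit 0) (nat_lit 0) (nat_lit 1) (nat_lit 0) (nat_lit 1) (nat_lit 0) (nat_lit 312) (nat_lit 313) (nat_lit 95)) (XT.nd (nat_lit 94) (nat_lit 0) (nat_lit 0) (XT.lf (nat_lit 0) (nat_lit 37820619698) (nat_lit 0) (nat_lit 0) (nat_lit 0) (nat_lit 0) (nat_lit 0) (nat_lit 0) (nat_lit 1) (nat_lit 0) (nat_lit 1) (nat_lit 0) (nat_lit 313) (nat_lit 313) (nat_lit 94)) (XT.lf (nat_lit 0) (nat_lit 37820578484) (nat_lit 0) (nat_lit 0) (nat_lit 0) (nat_lit 0) (nat_lit 0) (nat_lit 0) (nat_lit 1) (nat_lit 0) (nat_lit 1) (nat_lit 0) (nat_lit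 314) (nat_lit 313) (nat_lit 93)))) (XT.nd (nat_lit 94) (nat_lit 0) (nat_lit 0) (XT.lf (nat_lit 0) (nat_lit 37820539233) (nat_lit 0) (nat_lit 0) (nat_lit 0) (nat_lit 0) (nat_lit 0) (nat_lit 0) (nat_lit 1) (nat_lit 0) (nat_lit 1) (nat_lit 0) (nat_lit 315) (nat_lit 313) (nat_lit 92)) (XT.nd (nat_lit 94) (nat_lit 0) (nat_lit 0) (XT.lf (nat_lit 0) (nat_lit 37820501850) (nat_lit 0) (nat_lit 0) (nat_lit 0) (nat_lit 0) (nat_lit 0) (nat_lit 0) (nat_lit 1) (nat_lit 0) (nat_lit 1) (nat_lit 0) (nat_lit 316) (nat_lit 313) (nat_lit 91)) (XT.lf (nat_lit 0) (nat_lit 37820466248) (nat_lit 0) (nat_lit 0) (nat_lit 0) (nat_lit 0) (nat_lit 0) (nat_lit 0) (nat_lit 1) (nat_lit 0) (nat_lit 1) (nat_lit 0) (nat_lit 317) (nat_lit 313) (nat_lit 90))))) (XT.nd (nat_lit 24064) (nat_lit 0) (nat_lit 10752) (XT.nd (nat_lit 94) (nat_lit 0) (nat_lit 0) (XT.lf (nat_lit 0) (nat_lit 37820432342) (nat_lit 0)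 (nat_lit 0) (nat_lit 0) (nat_lit 0) (nat_lit 0) (nat_lit 0) (nat_lit 1) (nat_lit 0) (nat_lit 1) (nat_lit 0) (nat_lit 318) (nat_lit 313) (nat_lit 89)) (XT.nd (nat_lit 23876) (nat_lit 0) (nat_lit 10752) (XT.lf (nat_lit 0) (nat_lit 37820400050) (nat_lit 0) (nat_lit 0) (nat_lit 0) (nat_lit 0) (nat_lit 0) (nat_lit 0) (nat_lit 1) (nat_lit 0) (nat_lit 1) (nat_lit 0) (nat_lit 319) (nat_lit 313) (nat_lit 88)) (XT.lf (nat_lit 924) (nat_lit 19872742725) (nat_lit 0) (nat_lit 35284009028) (nat_lit 924) (nat_lit 19872742725) (nat_lit 139) (nat_lit 1) (nat_lit 128) (nat_lit 0) (nat_lit 139) (nat_lit 0) (nat_lit 92) (nat_lit 314) (nat_lit 314)))) (XT.nd (nat_lit 188) (nat_lit 0) (nat_lit 84) (XT.nd (nat_lit 94) (nat_lit 0) (nat_lit 84) (XT.lf (nat_lit 924) (nat_lit 77029231815) (nat_lit 84) (nat_lit 34714912109) (nat_lit 0) (nat_lit 34714912109) (nat_lit 139) (nat_lit 1) (nat_lit 129) (nat_lit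 1) (nat_lit 128) (nat_lit 0) (nat_lit 93) (nat_lit 314) (nat_lit 313)) (XT.lf (nat_lit 924) (nat_lit 36710972055) (nat_lit 0) (nat_lit 69548472268) (nat_lit 840) (nat_lit 36710972055) (nat_lit 140) (nat_lit 1) (nat_lit 129) (nat_lit 1) (nat_lit 139) (nat_lit 1) (nat_lit 94) (nat_lit 314) (nat_lit 312))) (XT.nd (nat_lit 94) (nat_lit 0) (nat_lit 84) (XT.lf (nat_lit 924) (nat_lit 68864682457) (nat_lit 84) (nat_lit 35364901659) (nat_lit 0) (nat_lit 35364901659) (nat_lit 140) (nat_lit 1) (nat_lit 130) (nat_lit 1) (nat_lit 129) (nat_lit 1) (nat_lit 95) (nat_lit 314) (nat_lit 311)) (XT.lf (nat_lit 924) (nat_lit 31697752021) (nat_lit 0) (nat_lit 72930051195) (nat_lit 840) (nat_lit 31697752021) (nat_lit 141) (nat_lit 1) (nat_lit 130) (nat_lit 1) (nat_lit 140) (nat_lit 1) (nat_lit 96) (nat_lit 314) (nat_lit 310)))))) (XT.nd (nat_lit 3196) (nat_lit 840) (nat_lit 0) (XT.nd (nat_lit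 282) (nat_lit 5880) (nat_lit 0) (XT.nd (nat_lit 94) (nat_lit 0) (nat_lit 84) (XT.lf (nat_lit 924) (nat_lit 57010471548) (nat_lit 84) (nat_lit 38072901323) (nat_lit 0) (nat_lit 38072901323) (nat_lit 141) (nat_lit 1) (nat_lit 131) (nat_lit 1) (nat_lit 130) (nat_lit 1) (nat_lit 97) (nat_lit 314) (nat_lit 309)) (XT.nd (nat_lit 94) (nat_lit 0) (nat_lit 0) (XT.lf (nat_lit 924) (nat_lit 24997445162) (nat_lit 0) (nat_lit 80098516311) (nat_lit 840) (nat_lit 24997445162) (nat_lit 142) (nat_lit 1) (nat_lit 131) (nat_lit 1) (nat_lit 141) (nat_lit 1) (nat_lit 98) (nat_lit 314) (nat_lit 308)) (XT.lf (nat_lit 924) (nat_lit 42021472845) (nat_lit 84) (nat_lit 42546698735) (nat_lit 0) (nat_lit 42546698735) (nat_lit 142) (nat_lit 1) (nat_lit 132) (nat_lit 1) (nat_lit 131) (nat_lit 1) (nat_lit 99) (nat_lit 314) (nat_lit 307)))) (XT.nd (nat_lit 2726) (nat_lit 168) (nat_lit 0) (XT.nd (nat_lit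 2632) (nat_lit 5880) (nat_lit 0) (XT.lf (nat_lit 924) (nat_lit 16869432653) (nat_lit 0) (nat_lit 90506500101) (nat_lit 840) (nat_lit 16869432653) (nat_lit 143) (nat_lit 1) (nat_lit 132) (nat_lit 1) (nat_lit 142) (nat_lit 1) (nat_lit 100) (nat_lit 314) (nat_lit 306)) (XT.lf (nat_lit 336) (nat_lit 57691423963) (nat_lit 0) (nat_lit 6127247391) (nat_lit 252) (nat_lit 6127247391) (nat_lit 66) (nat_lit 1) (nat_lit 62) (nat_lit 1) (nat_lit 65) (nat_lit 1) (nat_lit 128) (nat_lit 314) (nat_lit 278))) (XT.nd (nat_lit 94) (nat_lit 168) (nat_lit 0) (XT.lf (nat_lit 84) (nat_lit 20150244961) (nat_lit 0) (nat_lit 28346142891) (nat_lit 336) (nat_lit 20150244961) (nat_lit 63) (nat_lit 1) (nat_lit 62) (nat_lit 1) (nat_lit 66) (nat_lit 1) (nat_lit 129) (nat_lit 314) (nat_lit 277)) (XT.lf (nat_lit 252) (nat_lit 23280499744) (nat_lit 0) (nat_lit 22053473331) (nat_lit 168) (nat_lit 22053473331)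 (nat_lit 63) (nat_lit 1) (nat_lit 60) (nat_lit 1) (nat_lit 62) (nat_lit 1) (nat_lit 130) (nat_lit 314) (nat_lit 276))))) (XT.nd (nat_lit 282) (nat_lit 420) (nat_lit 0) (XT.nd (nat_lit 94) (nat_lit 420) (nat_lit 0) (XT.lf (nat_lit 84) (nat_lit 3344668876) (nat_lit 0) (nat_lit 59480709814) (nat_lit 252) (nat_lit 3344668876) (nat_lit 61) (nat_lit 1) (nat_lit 60) (nat_lit 1) (nat_lit 63) (nat_lit 1) (nat_lit 131) (nat_lit 314) (nat_lit 275)) (XT.nd (nat_lit 94) (nat_lit 168) (nat_lit 0) (XT.lf (nat_lit 84) (nat_lit 27604139043) (nat_lit 0) (nat_lit 9748795971) (nat_lit 252) (nat_lit 27604139043) (nat_lit 58) (nat_lit 1) (nat_lit 57) (nat_lit 1) (nat_lit 60) (nat_lit 1) (nat_lit 132) (nat_lit 314) (nat_lit 274)) (XT.lf (nat_lit 252) (nat_lit 38333185103) (nat_lit 0) (nat_lit 12725578854) (nat_lit 168) (nat_lit 12725578854) (nat_lit 58) (nat_lit 1) (nat_lit 55) (nat_lit 1) (nat_lit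 57) (nat_lit 1) (nat_lit 133) (nat_lit 314) (nat_lit 273)))) (XT.nd (nat_lit 188) (nat_lit 252) (nat_lit 0) (XT.nd (nat_lit 94) (nat_lit 168) (nat_lit 0) (XT.lf (nat_lit 84) (nat_lit 10816627553) (nat_lit 0) (nat_lit 41004276383) (nat_lit 252) (nat_lit 10816627553) (nat_lit 56) (nat_lit 1) (nat_lit 55) (nat_lit 1) (nat_lit 58) (nat_lit 1) (nat_lit 134) (nat_lit 314) (nat_lit 272)) (XT.lf (nat_lit 252) (nat_lit 5067200573) (nat_lit 0) (nat_lit 28223318178) (nat_lit 168) (nat_lit 28223318178) (nat_lit 56) (nat_lit 1) (nat_lit 53) (nat_lit 1) (nat_lit 55) (nat_lit 1) (nat_lit 135) (nat_lit 314) (nat_lit 271))) (XT.nd (nat_lit 94) (nat_lit 0) (nat_lit 0) (XT.lf (nat_lit 252) (nat_lit 49803720870) (nat_lit 0) (nat_lit 5309490709) (nat_lit 168) (nat_lit 5309490709) (nat_lit 53) (nat_lit 1) (nat_lit 50) (nat_lit 1) (nat_lit 52) (nat_lit 1) (nat_lit 136) (nat_lit 314) (nat_lit 270))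 (XT.lf (nat_lit 84) (nat_lit 16579780724) (nat_lit 0) (nat_lit 26181318912) (nat_lit 252) (nat_lit 16579780724) (nat_lit 51) (nat_lit 1) (nat_lit 50) (nat_lit 1) (nat_lit 53) (nat_lit 1) (nat_lit 137) (nat_lit 314) (nat_lit 269))))))))
noncomputable def ec231 : XT := (XT.nd (nat_lit 2538) (nat_lit 1512) (nat_lit 0) (XT.nd (nat_lit 1222) (nat_lit 1176) (nat_lit 0) (XT.nd (nat_lit 564) (nat_lit 840) (nat_lit 0) (XT.nd (nat_lit 282) (nat_lit 336) (nat_lit 0) (XT.nd (nat_lit 94) (nat_lit 168) (nat_lit 0) (XT.lf (nat_lit 252) (nat_lit 16885701710) (nat_lit 0) (nat_lit 20702381757) (nat_lit 168) (nat_lit 20702381757) (nat_lit 51) (nat_lit 1) (nat_lit 48) (nat_lit 1) (nat_lit 50) (nat_lit 1) (nat_lit 138) (nat_lit 314) (nat_lit 268)) (XT.nd (nat_lit 94) (nat_lit 168) (nat_lit 0) (XT.lf (nat_lit 84) (nat_lit 554986445) (nat_lit 0) (nat_lit 56166915308) (nat_lit 252) (nat_lit 554986445)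 (nat_lit 49) (nat_lit 1) (nat_lit 48) (nat_lit 1) (nat_lit 51) (nat_lit 1) (nat_lit 139) (nat_lit 314) (nat_lit 267)) (XT.lf (nat_lit 84) (nat_lit 20955383269) (nat_lit 0) (nat_lit 14346101819) (nat_lit 168) (nat_lit 20955383269) (nat_lit 47) (nat_lit 1) (nat_lit 46) (nat_lit 1) (nat_lit 48) (nat_lit 1) (nat_lit 140) (nat_lit 314) (nat_lit 266)))) (XT.nd (nat_lit 94) (nat_lit 168) (nat_lit 0) (XT.lf (nat_lit 252) (nat_lit 26003245021) (nat_lit 0) (nat_lit 14634746462) (nat_lit 168) (nat_lit 14634746462) (nat_lit 47) (nat_lit 1) (nat_lit 44) (nat_lit 1) (nat_lit 46) (nat_lit 1) (nat_lit 141) (nat_lit 314) (nat_lit 265)) (XT.nd (nat_lit 94) (nat_lit 168) (nat_lit 0) (XT.lf (nat_lit 84) (nat_lit 5213470912) (nat_lit 0) (nat_lit 43888229889) (nat_lit 252) (nat_lit 5213470912) (nat_lit 45) (nat_lit 1) (nat_lit 44) (nat_lit 1) (nat_lit 47) (nat_lit 1) (nat_lit 142) (nat_lit 314)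 (nat_lit 264)) (XT.lf (nat_lit 84) (nat_lit 24206861519) (nat_lit 0) (nat_lit 4951779143) (nat_lit 168) (nat_lit 24206861519) (nat_lit 43) (nat_lit 1) (nat_lit 42) (nat_lit 1) (nat_lit 44) (nat_lit 1) (nat_lit 143) (nat_lit 314) (nat_lit 263))))) (XT.nd (nat_lit 282) (nat_lit 588) (nat_lit 0) (XT.nd (nat_lit 94) (nat_lit 84) (nat_lit 0) (XT.lf (nat_lit 252) (nat_lit 32927540161) (nat_lit 0) (nat_lit 9757038092) (nat_lit 168) (nat_lit 9757038092) (nat_lit 43) (nat_lit 1) (nat_lit 40) (nat_lit 1) (nat_lit 42) (nat_lit 1) (nat_lit 144) (nat_lit 314) (nat_lit 262)) (XT.nd (nat_lit 94) (nat_lit 84) (nat_lit 0) (XT.lf (nat_lit 84) (nat_lit 8819499411) (nat_lit 0) (nat_lit 33897021690) (nat_lit 252) (nat_lit 8819499411) (nat_lit 41) (nat_lit 1) (nat_lit 40) (nat_lit 1) (nat_lit 43) (nat_lit 1) (nat_lit 145) (nat_lit 314) (nat_lit 261)) (XT.lf (nat_lit 168) (nat_lit 2531757107)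 (nat_lit 0) (nat_lit 24057878303) (nat_lit 84) (nat_lit 24057878303) (nat_lit 41) (nat_lit 1) (nat_lit 39) (nat_lit 1) (nat_lit 40) (nat_lit 1) (nat_lit 146) (nat_lit 314) (nat_lit 260)))) (XT.nd (nat_lit 188) (nat_lit 336) (nat_lit 0) (XT.nd (nat_lit 94) (nat_lit 0) (nat_lit 0) (XT.lf (nat_lit 252) (nat_lit 38074907950) (nat_lit 0) (nat_lit 5852849822) (nat_lit 168) (nat_lit 5852849822) (nat_lit 39) (nat_lit 1) (nat_lit 36) (nat_lit 1) (nat_lit 38) (nat_lit 1) (nat_lit 147) (nat_lit 314) (nat_lit 259)) (XT.lf (nat_lit 84) (nat_lit 11570456364) (nat_lit 0) (nat_lit 25782464914) (nat_lit 252) (nat_lit 11570456364) (nat_lit 37) (nat_lit 1) (nat_lit 36) (nat_lit 1) (nat_lit 39) (nat_lit 1) (nat_lit 148) (nat_lit 314) (nat_lit 258))) (XT.nd (nat_lit 94) (nat_lit 252) (nat_lit 0) (XT.lf (nat_lit 168) (nat_lit 8502213927) (nat_lit 0) (nat_lit 19792476018) (nat_lit 84) (nat_lit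 19792476018) (nat_lit 37) (nat_lit 1) (nat_lit 35) (nat_lit 1) (nat_lit 36) (nat_lit 1) (nat_lit 149) (nat_lit 314) (nat_lit 257)) (XT.lf (nat_lit 252) (nat_lit 41786548780) (nat_lit 0) (nat_lit 2744402069) (nat_lit 168) (nat_lit 2744402069) (nat_lit 35) (nat_lit 1) (nat_lit 32) (nat_lit 1) (nat_lit 34) (nat_lit 1) (nat_lit 150) (nat_lit 314) (nat_lit 256)))))) (XT.nd (nat_lit 658) (nat_lit 588) (nat_lit 0) (XT.nd (nat_lit 282) (nat_lit 252) (nat_lit 0) (XT.nd (nat_lit 94) (nat_lit 336) (nat_lit 0) (XT.lf (nat_lit 84) (nat_lit 13628216772) (nat_lit 0) (nat_lit 19206822722) (nat_lit 252) (nat_lit 13628216772) (nat_lit 33) (nat_lit 1) (nat_lit 32) (nat_lit 1) (nat_lit 35) (nat_lit 1) (nat_lit 151) (nat_lit 314) (nat_lit 255)) (XT.nd (nat_lit 94) (nat_lit 252) (nat_lit 0) (XT.lf (nat_lit 168) (nat_lit 13108441096) (nat_lit 0) (nat_lit 16283319002) (nat_lit 84) (nat_lit 16283319002)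 (nat_lit 33) (nat_lit 1) (nat_lit 31) (nat_lit 1) (nat_lit 32) (nat_lit 1) (nat_lit 152) (nat_lit 314) (nat_lit 254)) (XT.lf (nat_lit 252) (nat_lit 44341923553) (nat_lit 0) (nat_lit 285681646) (nat_lit 168) (nat_lit 285681646) (nat_lit 31) (nat_lit 1) (nat_lit 28) (nat_lit 1) (nat_lit 30) (nat_lit 1) (nat_lit 153) (nat_lit 314) (nat_lit 253)))) (XT.nd (nat_lit 188) (nat_lit 168) (nat_lit 0) (XT.nd (nat_lit 94) (nat_lit 84) (nat_lit 0) (XT.lf (nat_lit 84) (nat_lit 15125466415) (nat_lit 0) (nat_lit 13892476805) (nat_lit 252) (nat_lit 15125466415) (nat_lit 29) (nat_lit 1) (nat_lit 28) (nat_lit 1) (nat_lit 31) (nat_lit 1) (nat_lit 154) (nat_lit 314) (nat_lit 252)) (XT.lf (nat_lit 168) (nat_lit 16606869460) (nat_lit 0) (nat_lit 13396326841) (nat_lit 84) (nat_lit 13396326841) (nat_lit 29) (nat_lit 1) (nat_lit 27) (nat_lit 1) (nat_lit 28) (nat_lit 1) (nat_lit 155) (nat_lit 314)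 (nat_lit 251))) (XT.nd (nat_lit 94) (nat_lit 168) (nat_lit 0) (XT.lf (nat_lit 0) (nat_lit 1670139815) (nat_lit 0) (nat_lit 39337816194) (nat_lit 168) (nat_lit 1670139815) (nat_lit 27) (nat_lit 3) (nat_lit 27) (nat_lit 1) (nat_lit 29) (nat_lit 1) (nat_lit 156) (nat_lit 314) (nat_lit 250)) (XT.lf (nat_lit 84) (nat_lit 16170900319) (nat_lit 0) (nat_lit 9611257163) (nat_lit 168) (nat_lit 16170900319) (nat_lit 26) (nat_lit 1) (nat_lit 25) (nat_lit 1) (nat_lit 27) (nat_lit 1) (nat_lit 157) (nat_lit 314) (nat_lit 249))))) (XT.nd (nat_lit 282) (nat_lit 336) (nat_lit 0) (XT.nd (nat_lit 94) (nat_lit 168) (nat_lit 0) (XT.lf (nat_lit 168) (nat_lit 19207772156) (nat_lit 0) (nat_lit 11021191245) (nat_lit 84) (nat_lit 11021191245) (nat_lit 26) (nat_lit 1) (nat_lit 24) (nat_lit 1) (nat_lit 25) (nat_lit 1) (nat_lit 158) (nat_lit 314) (nat_lit 248)) (XT.nd (nat_lit 94) (nat_lit 168) (nat_lit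 0) (XT.lf (nat_lit 0) (nat_lit 3192146045) (nat_lit 0) (nat_lit 34181436622) (nat_lit 168) (nat_lit 3192146045) (nat_lit 24) (nat_lit 3) (nat_lit 24) (nat_lit 1) (nat_lit 26) (nat_lit 1) (nat_lit 159) (nat_lit 314) (nat_lit 247)) (XT.lf (nat_lit 84) (nat_lit 16853498442) (nat_lit 0) (nat_lit 6175664210) (nat_lit 168) (nat_lit 16853498442) (nat_lit 23) (nat_lit 1) (nat_lit 22) (nat_lit 1) (nat_lit 24) (nat_lit 1) (nat_lit 160) (nat_lit 314) (nat_lit 246)))) (XT.nd (nat_lit 188) (nat_lit 252) (nat_lit 0) (XT.nd (nat_lit 94) (nat_lit 0) (nat_lit 0) (XT.lf (nat_lit 168) (nat_lit 21083481262) (nat_lit 0) (nat_lit 9067161312) (nat_lit 84) (nat_lit 9067161312) (nat_lit 23) (nat_lit 1) (nat_lit 21) (nat_lit 1) (nat_lit 22) (nat_lit 1) (nat_lit 161) (nat_lit 314) (nat_lit 245)) (XT.lf (nat_lit 0) (nat_lit 4357727295) (nat_lit 0) (nat_lit 29852693345) (nat_lit 168) (nat_lit 4357727295)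 (nat_lit 21) (nat_lit 3) (nat_lit 21) (nat_lit 1) (nat_lit 23) (nat_lit 1) (nat_lit 162) (nat_lit 314) (nat_lit 244))) (XT.nd (nat_lit 94) (nat_lit 84) (nat_lit 0) (XT.lf (nat_lit 84) (nat_lit 17246042239) (nat_lit 0) (nat_lit 3431647711) (nat_lit 168) (nat_lit 17246042239) (nat_lit 20) (nat_lit 1) (nat_lit 19) (nat_lit 1) (nat_lit 21) (nat_lit 1) (nat_lit 163) (nat_lit 314) (nat_lit 243)) (XT.lf (nat_lit 168) (nat_lit 22375146091) (nat_lit 0) (nat_lit 7459576051) (nat_lit 84) (nat_lit 7459576051) (nat_lit 20) (nat_lit 1) (nat_lit 18) (nat_lit 1) (nat_lit 19) (nat_lit 1) (nat_lit 164) (nat_lit 314) (nat_lit 242))))))) (XT.nd (nat_lit 1316) (nat_lit 420) (nat_lit 0) (XT.nd (nat_lit 658) (nat_lit 588) (nat_lit 0) (XT.nd (nat_lit 282) (nat_lit 252) (nat_lit 0) (XT.nd (nat_lit 94) (nat_lit 252) (nat_lit 0) (XT.lf (nat_lit 0) (nat_lit 5234199548) (nat_lit 0) (nat_lit 26208971212)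 (nat_lit 168) (nat_lit 5234199548) (nat_lit 18) (nat_lit 3) (nat_lit 18) (nat_lit 1) (nat_lit 20) (nat_lit 1) (nat_lit 165) (nat_lit 314) (nat_lit 241)) (XT.nd (nat_lit 94) (nat_lit 84) (nat_lit 0) (XT.lf (nat_lit 84) (nat_lit 17408006737) (nat_lit 0) (nat_lit 1252666475) (nat_lit 168) (nat_lit 17408006737) (nat_lit 17) (nat_lit 1) (nat_lit 16) (nat_lit 1) (nat_lit 18) (nat_lit 1) (nat_lit 166) (nat_lit 314) (nat_lit 240)) (XT.lf (nat_lit 168) (nat_lit 23198291758) (nat_lit 0) (nat_lit 6137011678) (nat_lit 84) (nat_lit 6137011678) (nat_lit 17) (nat_lit 1) (nat_lit 15) (nat_lit 1) (nat_lit 16) (nat_lit 1) (nat_lit 167) (nat_lit 314) (nat_lit 239)))) (XT.nd (nat_lit 188) (nat_lit 168) (nat_lit 0) (XT.nd (nat_lit 94) (nat_lit 84) (nat_lit 0) (XT.lf (nat_lit 0) (nat_lit 5876747510) (nat_lit 0) (nat_lit 23132744066) (nat_lit 168) (nat_lit 5876747510) (nat_lit 15) (nat_lit 3)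 (nat_lit 15) (nat_lit 1) (nat_lit 17) (nat_lit 1) (nat_lit 168) (nat_lit 314) (nat_lit 238)) (XT.lf (nat_lit 84) (nat_lit 480579830) (nat_lit 0) (nat_lit 16914862264) (nat_lit 84) (nat_lit 16914862264) (nat_lit 15) (nat_lit 3) (nat_lit 14) (nat_lit 1) (nat_lit 15) (nat_lit 1) (nat_lit 169) (nat_lit 314) (nat_lit 237))) (XT.nd (nat_lit 94) (nat_lit 0) (nat_lit 0) (XT.lf (nat_lit 168) (nat_lit 23647390798) (nat_lit 0) (nat_lit 5048934695) (nat_lit 84) (nat_lit 5048934695) (nat_lit 14) (nat_lit 1) (nat_lit 12) (nat_lit 1) (nat_lit 13) (nat_lit 1) (nat_lit 170) (nat_lit 314) (nat_lit 236)) (XT.lf (nat_lit 0) (nat_lit 6330584805) (nat_lit 0) (nat_lit 20527135876) (nat_lit 168) (nat_lit 6330584805) (nat_lit 12) (nat_lit 3) (nat_lit 12) (nat_lit 1) (nat_lit 14) (nat_lit 1) (nat_lit 171) (nat_lit 314) (nat_lit 235))))) (XT.nd (nat_lit 282) (nat_lit 336) (nat_lit 0) (XT.nd (nat_lit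 94) (nat_lit 168) (nat_lit 0) (XT.lf (nat_lit 84) (nat_lit 1867018976) (nat_lit 0) (nat_lit 15387543806) (nat_lit 84) (nat_lit 15387543806) (nat_lit 12) (nat_lit 3) (nat_lit 11) (nat_lit 1) (nat_lit 12) (nat_lit 1) (nat_lit 172) (nat_lit 314) (nat_lit 234)) (XT.nd (nat_lit 94) (nat_lit 0) (nat_lit 0) (XT.lf (nat_lit 168) (nat_lit 23799622891) (nat_lit 0) (nat_lit 4153771069) (nat_lit 84) (nat_lit 4153771069) (nat_lit 11) (nat_lit 1) (nat_lit 9) (nat_lit 1) (nat_lit 10) (nat_lit 1) (nat_lit 173) (nat_lit 314) (nat_lit 233)) (XT.lf (nat_lit 0) (nat_lit 6632730723) (nat_lit 0) (nat_lit 18312268423) (nat_lit 168) (nat_lit 6632730723) (nat_lit 9) (nat_lit 3) (nat_lit 9) (nat_lit 1) (nat_lit 11) (nat_lit 1) (nat_lit 174) (nat_lit 314) (nat_lit 232)))) (XT.nd (nat_lit 188) (nat_lit 84) (nat_lit 0) (XT.nd (nat_lit 94) (nat_lit 168) (nat_lit 0) (XT.lf (nat_lit 84) (nat_lit 2937567570)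 (nat_lit 0) (nat_lit 14060936808) (nat_lit 84) (nat_lit 14060936808) (nat_lit 9) (nat_lit 3) (nat_lit 8) (nat_lit 1) (nat_lit 9) (nat_lit 1) (nat_lit 175) (nat_lit 314) (nat_lit 231)) (XT.lf (nat_lit 168) (nat_lit 23717966708) (nat_lit 0) (nat_lit 3417317738) (nat_lit 84) (nat_lit 3417317738) (nat_lit 8) (nat_lit 1) (nat_lit 6) (nat_lit 1) (nat_lit 7) (nat_lit 1) (nat_lit 176) (nat_lit 314) (nat_lit 230))) (XT.nd (nat_lit 94) (nat_lit 84) (nat_lit 0) (XT.lf (nat_lit 0) (nat_lit 6813471540) (nat_lit 0) (nat_lit 16422256110) (nat_lit 168) (nat_lit 6813471540) (nat_lit 6) (nat_lit 3) (nat_lit 6) (nat_lit 1) (nat_lit 8) (nat_lit 1) (nat_lit 177) (nat_lit 314) (nat_lit 229)) (XT.lf (nat_lit 84) (nat_lit 3751569289) (nat_lit 0) (nat_lit 12902792689) (nat_lit 84) (nat_lit 12902792689) (nat_lit 6) (nat_lit 3) (nat_lit 5) (nat_lit 1) (nat_lit 6) (nat_lit 1) (nat_lit 178) (nat_lit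 314) (nat_lit 228)))))) (XT.nd (nat_lit 658) (nat_lit 0) (nat_lit 0) (XT.nd (nat_lit 282) (nat_lit 168) (nat_lit 0) (XT.nd (nat_lit 94) (nat_lit 84) (nat_lit 0) (XT.lf (nat_lit 168) (nat_lit 23453742342) (nat_lit 0) (nat_lit 2811435760) (nat_lit 84) (nat_lit 2811435760) (nat_lit 5) (nat_lit 1) (nat_lit 3) (nat_lit 1) (nat_lit 4) (nat_lit 1) (nat_lit 179) (nat_lit 314) (nat_lit 227)) (XT.nd (nat_lit 94) (nat_lit 84) (nat_lit 0) (XT.lf (nat_lit 0) (nat_lit 6897562335) (nat_lit 0) (nat_lit 14802733181) (nat_lit 168) (nat_lit 6897562335) (nat_lit 3) (nat_lit 3) (nat_lit 3) (nat_lit 1) (nat_lit 5) (nat_lit 1) (nat_lit 180) (nat_lit 314) (nat_lit 226)) (XT.lf (nat_lit 84) (nat_lit 4357687414) (nat_lit 0) (nat_lit 11886421553) (nat_lit 84) (nat_lit 11886421553) (nat_lit 3) (nat_lit 3) (nat_lit 2) (nat_lit 1) (nat_lit 3) (nat_lit 1) (nat_lit 181) (nat_lit 314) (nat_lit 225)))) (XT.nd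 (nat_lit 188) (nat_lit 0) (nat_lit 0) (XT.nd (nat_lit 94) (nat_lit 0) (nat_lit 0) (XT.lf (nat_lit 0) (nat_lit 40202635419) (nat_lit 0) (nat_lit 0) (nat_lit 0) (nat_lit 0) (nat_lit 0) (nat_lit 0) (nat_lit 1) (nat_lit 0) (nat_lit 1) (nat_lit 0) (nat_lit 182) (nat_lit 314) (nat_lit 224)) (XT.lf (nat_lit 0) (nat_lit 40179211919) (nat_lit 0) (nat_lit 0) (nat_lit 0) (nat_lit 0) (nat_lit 0) (nat_lit 0) (nat_lit 1) (nat_lit 0) (nat_lit 1) (nat_lit 0) (nat_lit 183) (nat_lit 314) (nat_lit 223))) (XT.nd (nat_lit 94) (nat_lit 0) (nat_lit 0) (XT.lf (nat_lit 0) (nat_lit 40156903824) (nat_lit 0) (nat_lit 0) (nat_lit 0) (nat_lit 0) (nat_lit 0) (nat_lit 0) (nat_lit 1) (nat_lit 0) (nat_lit 1) (nat_lit 0) (nat_lit 184) (nat_lit 314) (nat_lit 222)) (XT.lf (nat_lit 0) (nat_lit 40135658019) (nat_lit 0) (nat_lit 0) (nat_lit 0) (nat_lit 0) (nat_lit 0) (nat_lit 0) (nat_lit 1) (nat_lit 0) (nat_lit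 1) (nat_lit 0) (nat_lit 185) (nat_lit 314) (nat_lit 221))))) (XT.nd (nat_lit 282) (nat_lit 0) (nat_lit 0) (XT.nd (nat_lit 94) (nat_lit 0) (nat_lit 0) (XT.lf (nat_lit 0) (nat_lit 40115423919) (nat_lit 0) (nat_lit 0) (nat_lit 0) (nat_lit 0) (nat_lit 0) (nat_lit 0) (nat_lit 1) (nat_lit 0) (nat_lit 1) (nat_lit 0) (nat_lit 186) (nat_lit 314) (nat_lit 220)) (XT.nd (nat_lit 94) (nat_lit 0) (nat_lit 0) (XT.lf (nat_lit 0) (nat_lit 40096153347) (nat_lit 0) (nat_lit 0) (nat_lit 0) (nat_lit 0) (nat_lit 0) (nat_lit 0) (nat_lit 1) (nat_lit 0) (nat_lit 1) (nat_lit 0) (nat_lit 187) (nat_lit 314) (nat_lit 219)) (XT.lf (nat_lit 0) (nat_lit 40077800422) (nat_lit 0) (nat_lit 0) (nat_lit 0) (nat_lit 0) (nat_lit 0) (nat_lit 0) (nat_lit 1) (nat_lit 0) (nat_lit 1) (nat_lit 0) (nat_lit 188) (nat_lit 314) (nat_lit 218)))) (XT.nd (nat_lit 2726) (nat_lit 0) (nat_lit 0) (XT.nd (nat_lit 2632) (nat_lit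 0) (nat_lit 0) (XT.lf (nat_lit 0) (nat_lit 40060321445) (nat_lit 0) (nat_lit 0) (nat_lit 0) (nat_lit 0) (nat_lit 0) (nat_lit 0) (nat_lit 1) (nat_lit 0) (nat_lit 1) (nat_lit 0) (nat_lit 189) (nat_lit 314) (nat_lit 217)) (XT.lf (nat_lit 0) (nat_lit 39799917431) (nat_lit 0) (nat_lit 0) (nat_lit 0) (nat_lit 0) (nat_lit 0) (nat_lit 0) (nat_lit 1) (nat_lit 0) (nat_lit 1) (nat_lit 0) (nat_lit 217) (nat_lit 314) (nat_lit 189))) (XT.nd (nat_lit 94) (nat_lit 0) (nat_lit 0) (XT.lf (nat_lit 0) (nat_lit 39795670978) (nat_lit 0) (nat_lit 0) (nat_lit 0) (nat_lit 0) (nat_lit 0) (nat_lit 0) (nat_lit 1) (nat_lit 0) (nat_lit 1) (nat_lit 0) (nat_lit 218) (nat_lit 314) (nat_lit 188)) (XT.lf (nat_lit 0) (nat_lit 39791626737) (nat_lit 0) (nat_lit 0) (nat_lit 0) (nat_lit 0) (nat_lit 0) (nat_lit 0) (nat_lit 1) (nat_lit 0) (nat_lit 1) (nat_lit 0) (nat_lit 219) (nat_lit 314) (nat_lit 187))))))))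
noncomputable def ec232 : XT := (XT.nd (nat_lit 2538) (nat_lit 0) (nat_lit 0) (XT.nd (nat_lit 1222) (nat_lit 0) (nat_lit 0) (XT.nd (nat_lit 564) (nat_lit 0) (nat_lit 0) (XT.nd (nat_lit 282) (nat_lit 0) (nat_lit 0) (XT.nd (nat_lit 94) (nat_lit 0) (nat_lit 0) (XT.lf (nat_lit 0) (nat_lit 39787775079) (nat_lit 0) (nat_lit 0) (nat_lit 0) (nat_lit 0) (nat_lit 0) (nat_lit 0) (nat_lit 1) (nat_lit 0) (nat_lit 1) (nat_lit 0) (nat_lit 220) (nat_lit 314) (nat_lit 186)) (XT.nd (nat_lit 94) (nat_lit 0) (nat_lit 0) (XT.lf (nat_lit 0) (nat_lit 39784106833) (nat_lit 0) (nat_lit 0) (nat_lit 0) (nat_lit 0) (nat_lit 0) (nat_lit 0) (nat_lit 1) (nat_lit 0) (nat_lit 1) (nat_lit 0) (nat_lit 221) (nat_lit 314) (nat_lit 185)) (XT.lf (nat_lit 0) (nat_lit 39780613266) (nat_lit 0) (nat_lit 0) (nat_lit 0) (nat_lit 0) (nat_lit 0) (nat_lit 0) (nat_lit 1) (nat_lit 0) (nat_lit 1) (nat_lit 0) (nat_lit 222)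 (nat_lit 314) (nat_lit 184)))) (XT.nd (nat_lit 94) (nat_lit 0) (nat_lit 0) (XT.lf (nat_lit 0) (nat_lit 39777286059) (nat_lit 0) (nat_lit 0) (nat_lit 0) (nat_lit 0) (nat_lit 0) (nat_lit 0) (nat_lit 1) (nat_lit 0) (nat_lit 1) (nat_lit 0) (nat_lit 223) (nat_lit 314) (nat_lit 183)) (XT.nd (nat_lit 94) (nat_lit 0) (nat_lit 0) (XT.lf (nat_lit 0) (nat_lit 39774117290) (nat_lit 0) (nat_lit 0) (nat_lit 0) (nat_lit 0) (nat_lit 0) (nat_lit 0) (nat_lit 1) (nat_lit 0) (nat_lit 1) (nat_lit 0) (nat_lit 224) (nat_lit 314) (nat_lit 182)) (XT.lf (nat_lit 0) (nat_lit 39771099415) (nat_lit 0) (nat_lit 0) (nat_lit 0) (nat_lit 0) (nat_lit 0) (nat_lit 0) (nat_lit 1) (nat_lit 0) (nat_lit 1) (nat_lit 0) (nat_lit 225) (nat_lit 314) (nat_lit 181))))) (XT.nd (nat_lit 282) (nat_lit 0) (nat_lit 0) (XT.nd (nat_lit 94) (nat_lit 0) (nat_lit 0) (XT.lf (nat_lit 0) (nat_lit 39768225249) (nat_lit 0) (nat_lit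 0) (nat_lit 0) (nat_lit 0) (nat_lit 0) (nat_lit 0) (nat_lit 1) (nat_lit 0) (nat_lit 1) (nat_lit 0) (nat_lit 226) (nat_lit 314) (nat_lit 180)) (XT.nd (nat_lit 94) (nat_lit 0) (nat_lit 0) (XT.lf (nat_lit 0) (nat_lit 39765487947) (nat_lit 0) (nat_lit 0) (nat_lit 0) (nat_lit 0) (nat_lit 0) (nat_lit 0) (nat_lit 1) (nat_lit 0) (nat_lit 1) (nat_lit 0) (nat_lit 227) (nat_lit 314) (nat_lit 179)) (XT.lf (nat_lit 0) (nat_lit 39762880993) (nat_lit 0) (nat_lit 0) (nat_lit 0) (nat_lit 0) (nat_lit 0) (nat_lit 0) (nat_lit 1) (nat_lit 0) (nat_lit 1) (nat_lit 0) (nat_lit 228) (nat_lit 314) (nat_lit 178)))) (XT.nd (nat_lit 188) (nat_lit 0) (nat_lit 0) (XT.nd (nat_lit 94) (nat_lit 0) (nat_lit 0) (XT.lf (nat_lit 0) (nat_lit 39760398180) (nat_lit 0) (nat_lit 0) (nat_lit 0) (nat_lit 0) (nat_lit 0) (nat_lit 0) (nat_lit 1) (nat_lit 0) (nat_lit 1) (nat_lit 0) (nat_lit 229) (nat_lit 314) (nat_lit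 177)) (XT.lf (nat_lit 0) (nat_lit 39758033596) (nat_lit 0) (nat_lit 0) (nat_lit 0) (nat_lit 0) (nat_lit 0) (nat_lit 0) (nat_lit 1) (nat_lit 0) (nat_lit 1) (nat_lit 0) (nat_lit 230) (nat_lit 314) (nat_lit 176))) (XT.nd (nat_lit 94) (nat_lit 0) (nat_lit 0) (XT.lf (nat_lit 0) (nat_lit 39755781612) (nat_lit 0) (nat_lit 0) (nat_lit 0) (nat_lit 0) (nat_lit 0) (nat_lit 0) (nat_lit 1) (nat_lit 0) (nat_lit 1) (nat_lit 0) (nat_lit 231) (nat_lit 314) (nat_lit 175)) (XT.lf (nat_lit 0) (nat_lit 39753636864) (nat_lit 0) (nat_lit 0) (nat_lit 0) (nat_lit 0) (nat_lit 0) (nat_lit 0) (nat_lit 1) (nat_lit 0) (nat_lit 1) (nat_lit 0) (nat_lit 232) (nat_lit 314) (nat_lit 174)))))) (XT.nd (nat_lit 658) (nat_lit 0) (nat_lit 0) (XT.nd (nat_lit 282) (nat_lit 0) (nat_lit 0) (XT.nd (nat_lit 94) (nat_lit 0) (nat_lit 0) (XT.lf (nat_lit 0) (nat_lit 39751594248) (nat_lit 0) (nat_lit 0) (nat_lit 0) (nat_lit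 0) (nat_lit 0) (nat_lit 0) (nat_lit 1) (nat_lit 0) (nat_lit 1) (nat_lit 0) (nat_lit 233) (nat_lit 314) (nat_lit 173)) (XT.nd (nat_lit 94) (nat_lit 0) (nat_lit 0) (XT.lf (nat_lit 0) (nat_lit 39749648899) (nat_lit 0) (nat_lit 0) (nat_lit 0) (nat_lit 0) (nat_lit 0) (nat_lit 0) (nat_lit 1) (nat_lit 0) (nat_lit 1) (nat_lit 0) (nat_lit 234) (nat_lit 314) (nat_lit 172)) (XT.lf (nat_lit 0) (nat_lit 39747796185) (nat_lit 0) (nat_lit 0) (nat_lit 0) (nat_lit 0) (nat_lit 0) (nat_lit 0) (nat_lit 1) (nat_lit 0) (nat_lit 1) (nat_lit 0) (nat_lit 235) (nat_lit 314) (nat_lit 171)))) (XT.nd (nat_lit 188) (nat_lit 0) (nat_lit 0) (XT.nd (nat_lit 94) (nat_lit 0) (nat_lit 0) (XT.lf (nat_lit 0) (nat_lit 39746031696) (nat_lit 0) (nat_lit 0) (nat_lit 0) (nat_lit 0) (nat_lit 0) (nat_lit 0) (nat_lit 1) (nat_lit 0) (nat_lit 1) (nat_lit 0) (nat_lit 236) (nat_lit 314) (nat_lit 170)) (XT.lf (nat_lit 0)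 (nat_lit 39744351231) (nat_lit 0) (nat_lit 0) (nat_lit 0) (nat_lit 0) (nat_lit 0) (nat_lit 0) (nat_lit 1) (nat_lit 0) (nat_lit 1) (nat_lit 0) (nat_lit 237) (nat_lit 314) (nat_lit 169))) (XT.nd (nat_lit 94) (nat_lit 0) (nat_lit 0) (XT.lf (nat_lit 0) (nat_lit 39742750787) (nat_lit 0) (nat_lit 0) (nat_lit 0) (nat_lit 0) (nat_lit 0) (nat_lit 0) (nat_lit 1) (nat_lit 0) (nat_lit 1) (nat_lit 0) (nat_lit 238) (nat_lit 314) (nat_lit 168)) (XT.lf (nat_lit 0) (nat_lit 39741226555) (nat_lit 0) (nat_lit 0) (nat_lit 0) (nat_lit 0) (nat_lit 0) (nat_lit 0) (nat_lit 1) (nat_lit 0) (nat_lit 1) (nat_lit 0) (nat_lit 239) (nat_lit 314) (nat_lit 167))))) (XT.nd (nat_lit 282) (nat_lit 0) (nat_lit 0) (XT.nd (nat_lit 94) (nat_lit 0) (nat_lit 0) (XT.lf (nat_lit 0) (nat_lit 39739774906) (nat_lit 0) (nat_lit 0) (nat_lit 0) (nat_lit 0) (nat_lit 0) (nat_lit 0) (nat_lit 1) (nat_lit 0) (nat_lit 1) (nat_lit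 0) (nat_lit 240) (nat_lit 314) (nat_lit 166)) (XT.nd (nat_lit 94) (nat_lit 0) (nat_lit 0) (XT.lf (nat_lit 0) (nat_lit 39738392383) (nat_lit 0) (nat_lit 0) (nat_lit 0) (nat_lit 0) (nat_lit 0) (nat_lit 0) (nat_lit 1) (nat_lit 0) (nat_lit 1) (nat_lit 0) (nat_lit 241) (nat_lit 314) (nat_lit 165)) (XT.lf (nat_lit 0) (nat_lit 39737075694) (nat_lit 0) (nat_lit 0) (nat_lit 0) (nat_lit 0) (nat_lit 0) (nat_lit 0) (nat_lit 1) (nat_lit 0) (nat_lit 1) (nat_lit 0) (nat_lit 242) (nat_lit 314) (nat_lit 164)))) (XT.nd (nat_lit 188) (nat_lit 0) (nat_lit 0) (XT.nd (nat_lit 94) (nat_lit 0) (nat_lit 0) (XT.lf (nat_lit 0) (nat_lit 39735821705) (nat_lit 0) (nat_lit 0) (nat_lit 0) (nat_lit 0) (nat_lit 0) (nat_lit 0) (nat_lit 1) (nat_lit 0) (nat_lit 1) (nat_lit 0) (nat_lit 243) (nat_lit 314) (nat_lit 163)) (XT.lf (nat_lit 0) (nat_lit 39734627429) (nat_lit 0) (nat_lit 0) (nat_lit 0) (nat_lit 0) (nat_lit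 0) (nat_lit 0) (nat_lit 1) (nat_lit 0) (nat_lit 1) (nat_lit 0) (nat_lit 244) (nat_lit 314) (nat_lit 162))) (XT.nd (nat_lit 94) (nat_lit 0) (nat_lit 0) (XT.lf (nat_lit 0) (nat_lit 39733490024) (nat_lit 0) (nat_lit 0) (nat_lit 0) (nat_lit 0) (nat_lit 0) (nat_lit 0) (nat_lit 1) (nat_lit 0) (nat_lit 1) (nat_lit 0) (nat_lit 245) (nat_lit 314) (nat_lit 161)) (XT.lf (nat_lit 0) (nat_lit 39732406781) (nat_lit 0) (nat_lit 0) (nat_lit 0) (nat_lit 0) (nat_lit 0) (nat_lit 0) (nat_lit 1) (nat_lit 0) (nat_lit 1) (nat_lit 0) (nat_lit 246) (nat_lit 314) (nat_lit 160))))))) (XT.nd (nat_lit 1222) (nat_lit 0) (nat_lit 0) (XT.nd (nat_lit 564) (nat_lit 0) (nat_lit 0) (XT.nd (nat_lit 282) (nat_lit 0) (nat_lit 0) (XT.nd (nat_lit 94) (nat_lit 0) (nat_lit 0) (XT.lf (nat_lit 0) (nat_lit 39731375120) (nat_lit 0) (nat_lit 0) (nat_lit 0) (nat_lit 0) (nat_lit 0) (nat_lit 0) (nat_lit 1) (nat_lit 0) (nat_lit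 1) (nat_lit 0) (nat_lit 247) (nat_lit 314) (nat_lit 159)) (XT.nd (nat_lit 94) (nat_lit 0) (nat_lit 0) (XT.lf (nat_lit 0) (nat_lit 39730392587) (nat_lit 0) (nat_lit 0) (nat_lit 0) (nat_lit 0) (nat_lit 0) (nat_lit 0) (nat_lit 1) (nat_lit 0) (nat_lit 1) (nat_lit 0) (nat_lit 248) (nat_lit 314) (nat_lit 158)) (XT.lf (nat_lit 0) (nat_lit 39729456841) (nat_lit 0) (nat_lit 0) (nat_lit 0) (nat_lit 0) (nat_lit 0) (nat_lit 0) (nat_lit 1) (nat_lit 0) (nat_lit 1) (nat_lit 0) (nat_lit 249) (nat_lit 314) (nat_lit 157)))) (XT.nd (nat_lit 94) (nat_lit 0) (nat_lit 0) (XT.lf (nat_lit 0) (nat_lit 39728565654) (nat_lit 0) (nat_lit 0) (nat_lit 0) (nat_lit 0) (nat_lit 0) (nat_lit 0) (nat_lit 1) (nat_lit 0) (nat_lit 1) (nat_lit 0) (nat_lit 250) (nat_lit 314) (nat_lit 156)) (XT.nd (nat_lit 94) (nat_lit 0) (nat_lit 0) (XT.lf (nat_lit 0) (nat_lit 39727716905) (nat_lit 0) (nat_lit 0) (nat_lit 0) (nat_lit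 0) (nat_lit 0) (nat_lit 0) (nat_lit 1) (nat_lit 0) (nat_lit 1) (nat_lit 0) (nat_lit 251) (nat_lit 314) (nat_lit 155)) (XT.lf (nat_lit 0) (nat_lit 39726908572) (nat_lit 0) (nat_lit 0) (nat_lit 0) (nat_lit 0) (nat_lit 0) (nat_lit 0) (nat_lit 1) (nat_lit 0) (nat_lit 1) (nat_lit 0) (nat_lit 252) (nat_lit 314) (nat_lit 154))))) (XT.nd (nat_lit 282) (nat_lit 0) (nat_lit 0) (XT.nd (nat_lit 94) (nat_lit 0) (nat_lit 0) (XT.lf (nat_lit 0) (nat_lit 39726138731) (nat_lit 0) (nat_lit 0) (nat_lit 0) (nat_lit 0) (nat_lit 0) (nat_lit 0) (nat_lit 1) (nat_lit 0) (nat_lit 1) (nat_lit 0) (nat_lit 253) (nat_lit 314) (nat_lit 153)) (XT.nd (nat_lit 94) (nat_lit 0) (nat_lit 0) (XT.lf (nat_lit 0) (nat_lit 39725405550) (nat_lit 0) (nat_lit 0) (nat_lit 0) (nat_lit 0) (nat_lit 0) (nat_lit 0) (nat_lit 1) (nat_lit 0) (nat_lit 1) (nat_lit 0) (nat_lit 254) (nat_lit 314) (nat_lit 152)) (XT.lf (nat_lit 0)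 (nat_lit 39724707282) (nat_lit 0) (nat_lit 0) (nat_lit 0) (nat_lit 0) (nat_lit 0) (nat_lit 0) (nat_lit 1) (nat_lit 0) (nat_lit 1) (nat_lit 0) (nat_lit 255) (nat_lit 314) (nat_lit 151)))) (XT.nd (nat_lit 188) (nat_lit 0) (nat_lit 0) (XT.nd (nat_lit 94) (nat_lit 0) (nat_lit 0) (XT.lf (nat_lit 0) (nat_lit 39724042264) (nat_lit 0) (nat_lit 0) (nat_lit 0) (nat_lit 0) (nat_lit 0) (nat_lit 0) (nat_lit 1) (nat_lit 0) (nat_lit 1) (nat_lit 0) (nat_lit 256) (nat_lit 314) (nat_lit 150)) (XT.lf (nat_lit 0) (nat_lit 39723408914) (nat_lit 0) (nat_lit 0) (nat_lit 0) (nat_lit 0) (nat_lit 0) (nat_lit 0) (nat_lit 1) (nat_lit 0) (nat_lit 1) (nat_lit 0) (nat_lit 257) (nat_lit 314) (nat_lit 149))) (XT.nd (nat_lit 94) (nat_lit 0) (nat_lit 0) (XT.lf (nat_lit 0) (nat_lit 39722805724) (nat_lit 0) (nat_lit 0) (nat_lit 0) (nat_lit 0) (nat_lit 0) (nat_lit 0) (nat_lit 1) (nat_lit 0) (nat_lit 1) (nat_lit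 0) (nat_lit 258) (nat_lit 314) (nat_lit 148)) (XT.lf (nat_lit 0) (nat_lit 39722231257) (nat_lit 0) (nat_lit 0) (nat_lit 0) (nat_lit 0) (nat_lit 0) (nat_lit 0) (nat_lit 1) (nat_lit 0) (nat_lit 1) (nat_lit 0) (nat_lit 259) (nat_lit 314) (nat_lit 147)))))) (XT.nd (nat_lit 658) (nat_lit 0) (nat_lit 0) (XT.nd (nat_lit 282) (nat_lit 0) (nat_lit 0) (XT.nd (nat_lit 94) (nat_lit 0) (nat_lit 0) (XT.lf (nat_lit 0) (nat_lit 39721684146) (nat_lit 0) (nat_lit 0) (nat_lit 0) (nat_lit 0) (nat_lit 0) (nat_lit 0) (nat_lit 1) (nat_lit 0) (nat_lit 1) (nat_lit 0) (nat_lit 260) (nat_lit 314) (nat_lit 146)) (XT.nd (nat_lit 94) (nat_lit 0) (nat_lit 0) (XT.lf (nat_lit 0) (nat_lit 39721163087) (nat_lit 0) (nat_lit 0) (nat_lit 0) (nat_lit 0) (nat_lit 0) (nat_lit 0) (nat_lit 1) (nat_lit 0) (nat_lit 1) (nat_lit 0) (nat_lit 261) (nat_lit 314) (nat_lit 145)) (XT.lf (nat_lit 0) (nat_lit 39720666841) (nat_lit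 0) (nat_lit 0) (nat_lit 0) (nat_lit 0) (nat_lit 0) (nat_lit 0) (nat_lit 1) (nat_lit 0) (nat_lit 1) (nat_lit 0) (nat_lit 262) (nat_lit 314) (nat_lit 144)))) (XT.nd (nat_lit 188) (nat_lit 0) (nat_lit 0) (XT.nd (nat_lit 94) (nat_lit 0) (nat_lit 0) (XT.lf (nat_lit 0) (nat_lit 39720194226) (nat_lit 0) (nat_lit 0) (nat_lit 0) (nat_lit 0) (nat_lit 0) (nat_lit 0) (nat_lit 1) (nat_lit 0) (nat_lit 1) (nat_lit 0) (nat_lit 263) (nat_lit 314) (nat_lit 143)) (XT.lf (nat_lit 0) (nat_lit 39719744116) (nat_lit 0) (nat_lit 0) (nat_lit 0) (nat_lit 0) (nat_lit 0) (nat_lit 0) (nat_lit 1) (nat_lit 0) (nat_lit 1) (nat_lit 0) (nat_lit 264) (nat_lit 314) (nat_lit 142))) (XT.nd (nat_lit 94) (nat_lit 0) (nat_lit 0) (XT.lf (nat_lit 0) (nat_lit 39719315440) (nat_lit 0) (nat_lit 0) (nat_lit 0) (nat_lit 0) (nat_lit 0) (nat_lit 0) (nat_lit 1) (nat_lit 0) (nat_lit 1) (nat_lit 0) (nat_lit 265) (nat_lit 314)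 (nat_lit 141)) (XT.lf (nat_lit 0) (nat_lit 39718907177) (nat_lit 0) (nat_lit 0) (nat_lit 0) (nat_lit 0) (nat_lit 0) (nat_lit 0) (nat_lit 1) (nat_lit 0) (nat_lit 1) (nat_lit 0) (nat_lit 266) (nat_lit 314) (nat_lit 140))))) (XT.nd (nat_lit 282) (nat_lit 0) (nat_lit 0) (XT.nd (nat_lit 94) (nat_lit 0) (nat_lit 0) (XT.lf (nat_lit 0) (nat_lit 39718518355) (nat_lit 0) (nat_lit 0) (nat_lit 0) (nat_lit 0) (nat_lit 0) (nat_lit 0) (nat_lit 1) (nat_lit 0) (nat_lit 1) (nat_lit 0) (nat_lit 267) (nat_lit 314) (nat_lit 139)) (XT.nd (nat_lit 94) (nat_lit 0) (nat_lit 0) (XT.lf (nat_lit 0) (nat_lit 39718148048) (nat_lit 0) (nat_lit 0) (nat_lit 0) (nat_lit 0) (nat_lit 0) (nat_lit 0) (nat_lit 1) (nat_lit 0) (nat_lit 1) (nat_lit 0) (nat_lit 268) (nat_lit 314) (nat_lit 138)) (XT.lf (nat_lit 0) (nat_lit 39717795375) (nat_lit 0) (nat_lit 0) (nat_lit 0) (nat_lit 0) (nat_lit 0) (nat_lit 0) (nat_lit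 1) (nat_lit 0) (nat_lit 1) (nat_lit 0) (nat_lit 269) (nat_lit 314) (nat_lit 137)))) (XT.nd (nat_lit 188) (nat_lit 0) (nat_lit 0) (XT.nd (nat_lit 94) (nat_lit 0) (nat_lit 0) (XT.lf (nat_lit 0) (nat_lit 39717459497) (nat_lit 0) (nat_lit 0) (nat_lit 0) (nat_lit 0) (nat_lit 0) (nat_lit 0) (nat_lit 1) (nat_lit 0) (nat_lit 1) (nat_lit 0) (nat_lit 270) (nat_lit 314) (nat_lit 136)) (XT.lf (nat_lit 0) (nat_lit 39717139612) (nat_lit 0) (nat_lit 0) (nat_lit 0) (nat_lit 0) (nat_lit 0) (nat_lit 0) (nat_lit 1) (nat_lit 0) (nat_lit 1) (nat_lit 0) (nat_lit 271) (nat_lit 314) (nat_lit 135))) (XT.nd (nat_lit 94) (nat_lit 0) (nat_lit 0) (XT.lf (nat_lit 0) (nat_lit 39716834960) (nat_lit 0) (nat_lit 0) (nat_lit 0) (nat_lit 0) (nat_lit 0) (nat_lit 0) (nat_lit 1) (nat_lit 0) (nat_lit 1) (nat_lit 0) (nat_lit 272) (nat_lit 314) (nat_lit 134)) (XT.lf (nat_lit 0) (nat_lit 39716544815) (nat_lit 0)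 (nat_lit 0) (nat_lit 0) (nat_lit 0) (nat_lit 0) (nat_lit 0) (nat_lit 1) (nat_lit 0) (nat_lit 1) (nat_lit 0) (nat_lit 273) (nat_lit 314) (nat_lit 133))))))))
noncomputable def ec233 : XT := (XT.nd (nat_lit 31678) (nat_lit 0) (nat_lit 2016) (XT.nd (nat_lit 3760) (nat_lit 0) (nat_lit 0) (XT.nd (nat_lit 3102) (nat_lit 0) (nat_lit 0) (XT.nd (nat_lit 282) (nat_lit 0) (nat_lit 0) (XT.nd (nat_lit 94) (nat_lit 0) (nat_lit 0) (XT.lf (nat_lit 0) (nat_lit 39716268486) (nat_lit 0) (nat_lit 0) (nat_lit 0) (nat_lit 0) (nat_lit 0) (nat_lit 0) (nat_lit 1) (nat_lit 0) (nat_lit 1) (nat_lit 0) (nat_lit 274) (nat_lit 314) (nat_lit 132)) (XT.nd (nat_lit 94) (nat_lit 0) (nat_lit 0) (XT.lf (nat_lit 0) (nat_lit 39716005316) (nat_lit 0) (nat_lit 0) (nat_lit 0) (nat_lit 0) (nat_lit 0) (nat_lit 0) (nat_lit 1) (nat_lit 0) (nat_lit 1) (nat_lit 0) (nat_lit 275) (nat_lit 314) (nat_lit 131)) (XT.lf (nat_lit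 0) (nat_lit 39715754678) (nat_lit 0) (nat_lit 0) (nat_lit 0) (nat_lit 0) (nat_lit 0) (nat_lit 0) (nat_lit 1) (nat_lit 0) (nat_lit 1) (nat_lit 0) (nat_lit 276) (nat_lit 314) (nat_lit 130)))) (XT.nd (nat_lit 94) (nat_lit 0) (nat_lit 0) (XT.lf (nat_lit 0) (nat_lit 39715515976) (nat_lit 0) (nat_lit 0) (nat_lit 0) (nat_lit 0) (nat_lit 0) (nat_lit 0) (nat_lit 1) (nat_lit 0) (nat_lit 1) (nat_lit 0) (nat_lit 277) (nat_lit 314) (nat_lit 129)) (XT.nd (nat_lit 2632) (nat_lit 0) (nat_lit 0) (XT.lf (nat_lit 0) (nat_lit 39715288639) (nat_lit 0) (nat_lit 0) (nat_lit 0) (nat_lit 0) (nat_lit 0) (nat_lit 0) (nat_lit 1) (nat_lit 0) (nat_lit 1) (nat_lit 0) (nat_lit 278) (nat_lit 314) (nat_lit 128)) (XT.lf (nat_lit 0) (nat_lit 39711901758) (nat_lit 0) (nat_lit 0) (nat_lit 0) (nat_lit 0) (nat_lit 0) (nat_lit 0) (nat_lit 1) (nat_lit 0) (nat_lit 1) (nat_lit 0) (nat_lit 306) (nat_lit 314) (nat_lit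 100))))) (XT.nd (nat_lit 282) (nat_lit 0) (nat_lit 0) (XT.nd (nat_lit 94) (nat_lit 0) (nat_lit 0) (XT.lf (nat_lit 0) (nat_lit 39711846527) (nat_lit 0) (nat_lit 0) (nat_lit 0) (nat_lit 0) (nat_lit 0) (nat_lit 0) (nat_lit 1) (nat_lit 0) (nat_lit 1) (nat_lit 0) (nat_lit 307) (nat_lit 314) (nat_lit 99)) (XT.nd (nat_lit 94) (nat_lit 0) (nat_lit 0) (XT.lf (nat_lit 0) (nat_lit 39711793927) (nat_lit 0) (nat_lit 0) (nat_lit 0) (nat_lit 0) (nat_lit 0) (nat_lit 0) (nat_lit 1) (nat_lit 0) (nat_lit 1) (nat_lit 0) (nat_lit 308) (nat_lit 314) (nat_lit 98)) (XT.lf (nat_lit 0) (nat_lit 39711743831) (nat_lit 0) (nat_lit 0) (nat_lit 0) (nat_lit 0) (nat_lit 0) (nat_lit 0) (nat_lit 1) (nat_lit 0) (nat_lit 1) (nat_lit 0) (nat_lit 309) (nat_lit 314) (nat_lit 97)))) (XT.nd (nat_lit 188) (nat_lit 0) (nat_lit 0) (XT.nd (nat_lit 94) (nat_lit 0) (nat_lit 0) (XT.lf (nat_lit 0) (nat_lit 39711696121)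 (nat_lit 0) (nat_lit 0) (nat_lit 0) (nat_lit 0) (nat_lit 0) (nat_lit 0) (nat_lit 1) (nat_lit 0) (nat_lit 1) (nat_lit 0) (nat_lit 310) (nat_lit 314) (nat_lit 96)) (XT.lf (nat_lit 0) (nat_lit 39711650683) (nat_lit 0) (nat_lit 0) (nat_lit 0) (nat_lit 0) (nat_lit 0) (nat_lit 0) (nat_lit 1) (nat_lit 0) (nat_lit 1) (nat_lit 0) (nat_lit 311) (nat_lit 314) (nat_lit 95))) (XT.nd (nat_lit 94) (nat_lit 0) (nat_lit 0) (XT.lf (nat_lit 0) (nat_lit 39711607408) (nat_lit 0) (nat_lit 0) (nat_lit 0) (nat_lit 0) (nat_lit 0) (nat_lit 0) (nat_lit 1) (nat_lit 0) (nat_lit 1) (nat_lit 0) (nat_lit 312) (nat_lit 314) (nat_lit 94)) (XT.lf (nat_lit 0) (nat_lit 39711566194) (nat_lit 0) (nat_lit 0) (nat_lit 0) (nat_lit 0) (nat_lit 0) (nat_lit 0) (nat_lit 1) (nat_lit 0) (nat_lit 1) (nat_lit 0) (nat_lit 313) (nat_lit 314) (nat_lit 93)))))) (XT.nd (nat_lit 24252) (nat_lit 0) (nat_lit 10752) (XT.nd (nat_lit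 282) (nat_lit 0) (nat_lit 0) (XT.nd (nat_lit 94) (nat_lit 0) (nat_lit 0) (XT.lf (nat_lit 0) (nat_lit 39711526943) (nat_lit 0) (nat_lit 0) (nat_lit 0) (nat_lit 0) (nat_lit 0) (nat_lit 0) (nat_lit 1) (nat_lit 0) (nat_lit 1) (nat_lit 0) (nat_lit 314) (nat_lit 314) (nat_lit 92)) (XT.nd (nat_lit 94) (nat_lit 0) (nat_lit 0) (XT.lf (nat_lit 0) (nat_lit 39711489561) (nat_lit 0) (nat_lit 0) (nat_lit 0) (nat_lit 0) (nat_lit 0) (nat_lit 0) (nat_lit 1) (nat_lit 0) (nat_lit 1) (nat_lit 0) (nat_lit 315) (nat_lit 314) (nat_lit 91)) (XT.lf (nat_lit 0) (nat_lit 39711453959) (nat_lit 0) (nat_lit 0) (nat_lit 0) (nat_lit 0) (nat_lit 0) (nat_lit 0) (nat_lit 1) (nat_lit 0) (nat_lit 1) (nat_lit 0) (nat_lit 316) (nat_lit 314) (nat_lit 90)))) (XT.nd (nat_lit 188) (nat_lit 0) (nat_lit 0) (XT.nd (nat_lit 94) (nat_lit 0) (nat_lit 0) (XT.lf (nat_lit 0) (nat_lit 39711420052) (nat_lit 0) (nat_lit 0) (nat_lit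 0) (nat_lit 0) (nat_lit 0) (nat_lit 0) (nat_lit 1) (nat_lit 0) (nat_lit 1) (nat_lit 0) (nat_lit 317) (nat_lit 314) (nat_lit 89)) (XT.lf (nat_lit 0) (nat_lit 39711387760) (nat_lit 0) (nat_lit 0) (nat_lit 0) (nat_lit 0) (nat_lit 0) (nat_lit 0) (nat_lit 1) (nat_lit 0) (nat_lit 1) (nat_lit 0) (nat_lit 318) (nat_lit 314) (nat_lit 88))) (XT.nd (nat_lit 23688) (nat_lit 0) (nat_lit 10752) (XT.lf (nat_lit 0) (nat_lit 39711357006) (nat_lit 0) (nat_lit 0) (nat_lit 0) (nat_lit 0) (nat_lit 0) (nat_lit 0) (nat_lit 1) (nat_lit 0) (nat_lit 1) (nat_lit 0) (nat_lit 319) (nat_lit 314) (nat_lit 87)) (XT.lf (nat_lit 924) (nat_lit 20866379861) (nat_lit 0) (nat_lit 37048209480) (nat_lit 924) (nat_lit 20866379861) (nat_lit 139) (nat_lit 1) (nat_lit 128) (nat_lit 0) (nat_lit 139) (nat_lit 0) (nat_lit 90) (nat_lit 315) (nat_lit 315))))) (XT.nd (nat_lit 282) (nat_lit 0) (nat_lit 168) (XT.nd (nat_lit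 94) (nat_lit 0) (nat_lit 84) (XT.lf (nat_lit 924) (nat_lit 80880693406) (nat_lit 84) (nat_lit 36450657714) (nat_lit 0) (nat_lit 36450657714) (nat_lit 139) (nat_lit 1) (nat_lit 129) (nat_lit 1) (nat_lit 128) (nat_lit 0) (nat_lit 91) (nat_lit 315) (nat_lit 314)) (XT.nd (nat_lit 94) (nat_lit 0) (nat_lit 0) (XT.lf (nat_lit 924) (nat_lit 38546520657) (nat_lit 0) (nat_lit 73025895881) (nat_lit 840) (nat_lit 38546520657) (nat_lit 140) (nat_lit 1) (nat_lit 129) (nat_lit 1) (nat_lit 139) (nat_lit 1) (nat_lit 92) (nat_lit 315) (nat_lit 313)) (XT.lf (nat_lit 924) (nat_lit 72307916580) (nat_lit 84) (nat_lit 37133146742) (nat_lit 0) (nat_lit 37133146742) (nat_lit 140) (nat_lit 1) (nat_lit 130) (nat_lit 1) (nat_lit 129) (nat_lit 1) (nat_lit 93) (nat_lit 315) (nat_lit 312)))) (XT.nd (nat_lit 188) (nat_lit 0) (nat_lit 84) (XT.nd (nat_lit 94) (nat_lit 0) (nat_lit 0) (XT.lf (nat_lit 924)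 (nat_lit 33282639622) (nat_lit 0) (nat_lit 76576553754) (nat_lit 840) (nat_lit 33282639622) (nat_lit 141) (nat_lit 1) (nat_lit 130) (nat_lit 1) (nat_lit 140) (nat_lit 1) (nat_lit 94) (nat_lit 315) (nat_lit 311)) (XT.lf (nat_lit 924) (nat_lit 59860995125) (nat_lit 84) (nat_lit 39976546390) (nat_lit 0) (nat_lit 39976546390) (nat_lit 141) (nat_lit 1) (nat_lit 131) (nat_lit 1) (nat_lit 130) (nat_lit 1) (nat_lit 95) (nat_lit 315) (nat_lit 310))) (XT.nd (nat_lit 94) (nat_lit 0) (nat_lit 0) (XT.lf (nat_lit 924) (nat_lit 26247317420) (nat_lit 0) (nat_lit 84103442126) (nat_lit 840) (nat_lit 26247317420) (nat_lit 142) (nat_lit 1) (nat_lit 131) (nat_lit 1) (nat_lit 141) (nat_lit 1) (nat_lit 96) (nat_lit 315) (nat_lit 309)) (XT.lf (nat_lit 924) (nat_lit 44122546487) (nat_lit 84) (nat_lit 44674033671) (nat_lit 0) (nat_lit 44674033671) (nat_lit 142) (nat_lit 1) (nat_lit 132) (nat_lit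 1) (nat_lit 131) (nat_lit 1) (nat_lit 97) (nat_lit 315) (nat_lit 308))))))) (XT.nd (nat_lit 1222) (nat_lit 1344) (nat_lit 0) (XT.nd (nat_lit 564) (nat_lit 840) (nat_lit 0) (XT.nd (nat_lit 282) (nat_lit 420) (nat_lit 0) (XT.nd (nat_lit 94) (nat_lit 168) (nat_lit 0) (XT.lf (nat_lit 84) (nat_lit 28984345995) (nat_lit 0) (nat_lit 10236235769) (nat_lit 252) (nat_lit 28984345995) (nat_lit 58) (nat_lit 1) (nat_lit 57) (nat_lit 1) (nat_lit 60) (nat_lit 1) (nat_lit 130) (nat_lit 315) (nat_lit 275)) (XT.nd (nat_lit 94) (nat_lit 0) (nat_lit 0) (XT.lf (nat_lit 252) (nat_lit 40249844359) (nat_lit 0) (nat_lit 13361857797) (nat_lit 168) (nat_lit 13361857797) (nat_lit 58) (nat_lit 1) (nat_lit 55) (nat_lit 1) (nat_lit 57) (nat_lit 1) (nat_lit 131) (nat_lit 315) (nat_lit 274)) (XT.lf (nat_lit 84) (nat_lit 11357458930) (nat_lit 0) (nat_lit 43054490203) (nat_lit 252) (nat_lit 11357458930) (nat_lit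 56) (nat_lit 1) (nat_lit 55) (nat_lit 1) (nat_lit 58) (nat_lit 1) (nat_lit 132) (nat_lit 315) (nat_lit 273)))) (XT.nd (nat_lit 94) (nat_lit 252) (nat_lit 0) (XT.lf (nat_lit 252) (nat_lit 5320560602) (nat_lit 0) (nat_lit 29634484087) (nat_lit 168) (nat_lit 29634484087) (nat_lit 56) (nat_lit 1) (nat_lit 53) (nat_lit 1) (nat_lit 55) (nat_lit 1) (nat_lit 133) (nat_lit 315) (nat_lit 272)) (XT.nd (nat_lit 94) (nat_lit 0) (nat_lit 0) (XT.lf (nat_lit 252) (nat_lit 52293906913) (nat_lit 0) (nat_lit 5574965244) (nat_lit 168) (nat_lit 5574965244) (nat_lit 53) (nat_lit 1) (nat_lit 50) (nat_lit 1) (nat_lit 52) (nat_lit 1) (nat_lit 134) (nat_lit 315) (nat_lit 271)) (XT.lf (nat_lit 84) (nat_lit 17408769760) (nat_lit 0) (nat_lit 27490384858) (nat_lit 252) (nat_lit 17408769760) (nat_lit 51) (nat_lit 1) (nat_lit 50) (nat_lit 1) (nat_lit 53) (nat_lit 1) (nat_lit 135) (nat_lit 315) (nat_lit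 270))))) (XT.nd (nat_lit 282) (nat_lit 504) (nat_lit 0) (XT.nd (nat_lit 94) (nat_lit 168) (nat_lit 0) (XT.lf (nat_lit 252) (nat_lit 17729986795) (nat_lit 0) (nat_lit 21737500845) (nat_lit 168) (nat_lit 21737500845) (nat_lit 51) (nat_lit 1) (nat_lit 48) (nat_lit 1) (nat_lit 50) (nat_lit 1) (nat_lit 136) (nat_lit 315) (nat_lit 269)) (XT.nd (nat_lit 94) (nat_lit 168) (nat_lit 0) (XT.lf (nat_lit 84) (nat_lit 582735767) (nat_lit 0) (nat_lit 58975261073) (nat_lit 252) (nat_lit 582735767) (nat_lit 49) (nat_lit 1) (nat_lit 48) (nat_lit 1) (nat_lit 51) (nat_lit 1) (nat_lit 137) (nat_lit 315) (nat_lit 268)) (XT.lf (nat_lit 84) (nat_lit 22003152432) (nat_lit 0) (nat_lit 15063406910) (nat_lit 168) (nat_lit 22003152432) (nat_lit 47) (nat_lit 1) (nat_lit 46) (nat_lit 1) (nat_lit 48) (nat_lit 1) (nat_lit 138) (nat_lit 315) (nat_lit 267)))) (XT.nd (nat_lit 188) (nat_lit 336) (nat_lit 0)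 (XT.nd (nat_lit 94) (nat_lit 0) (nat_lit 0) (XT.lf (nat_lit 252) (nat_lit 27303407272) (nat_lit 0) (nat_lit 15366483786) (nat_lit 168) (nat_lit 15366483786) (nat_lit 47) (nat_lit 1) (nat_lit 44) (nat_lit 1) (nat_lit 46) (nat_lit 1) (nat_lit 139) (nat_lit 315) (nat_lit 266)) (XT.lf (nat_lit 84) (nat_lit 5474144457) (nat_lit 0) (nat_lit 46082641383) (nat_lit 252) (nat_lit 5474144457) (nat_lit 45) (nat_lit 1) (nat_lit 44) (nat_lit 1) (nat_lit 47) (nat_lit 1) (nat_lit 140) (nat_lit 315) (nat_lit 265))) (XT.nd (nat_lit 94) (nat_lit 168) (nat_lit 0) (XT.lf (nat_lit 84) (nat_lit 25417204595) (nat_lit 0) (nat_lit 5199368101) (nat_lit 168) (nat_lit 25417204595) (nat_lit 43) (nat_lit 1) (nat_lit 42) (nat_lit 1) (nat_lit 44) (nat_lit 1) (nat_lit 141) (nat_lit 315) (nat_lit 264)) (XT.lf (nat_lit 252) (nat_lit 34573917169) (nat_lit 0) (nat_lit 10244889996) (nat_lit 168) (nat_lit 10244889996)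 (nat_lit 43) (nat_lit 1) (nat_lit 40) (nat_lit 1) (nat_lit 42) (nat_lit 1) (nat_lit 142) (nat_lit 315) (nat_lit 263)))))) (XT.nd (nat_lit 658) (nat_lit 672) (nat_lit 0) (XT.nd (nat_lit 282) (nat_lit 336) (nat_lit 0) (XT.nd (nat_lit 94) (nat_lit 336) (nat_lit 0) (XT.lf (nat_lit 84) (nat_lit 9260474382) (nat_lit 0) (nat_lit 35591872774) (nat_lit 252) (nat_lit 9260474382) (nat_lit 41) (nat_lit 1) (nat_lit 40) (nat_lit 1) (nat_lit 43) (nat_lit 1) (nat_lit 143) (nat_lit 315) (nat_lit 262)) (XT.nd (nat_lit 94) (nat_lit 252) (nat_lit 0) (XT.lf (nat_lit 168) (nat_lit 2658344963) (nat_lit 0) (nat_lit 25260772218) (nat_lit 84) (nat_lit 25260772218) (nat_lit 41) (nat_lit 1) (nat_lit 39) (nat_lit 1) (nat_lit 40) (nat_lit 1) (nat_lit 144) (nat_lit 315) (nat_lit 261)) (XT.lf (nat_lit 252) (nat_lit 39978653348) (nat_lit 0) (nat_lit 6145492313) (nat_lit 168) (nat_lit 6145492313) (nat_lit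 39) (nat_lit 1) (nat_lit 36) (nat_lit 1) (nat_lit 38) (nat_lit 1) (nat_lit 145) (nat_lit 315) (nat_lit 260)))) (XT.nd (nat_lit 188) (nat_lit 252) (nat_lit 0) (XT.nd (nat_lit 94) (nat_lit 84) (nat_lit 0) (XT.lf (nat_lit 84) (nat_lit 12148979182) (nat_lit 0) (nat_lit 27071588160) (nat_lit 252) (nat_lit 12148979182) (nat_lit 37) (nat_lit 1) (nat_lit 36) (nat_lit 1) (nat_lit 39) (nat_lit 1) (nat_lit 146) (nat_lit 315) (nat_lit 259)) (XT.lf (nat_lit 168) (nat_lit 8927324624) (nat_lit 0) (nat_lit 20782099819) (nat_lit 84) (nat_lit 20782099819) (nat_lit 37) (nat_lit 1) (nat_lit 35) (nat_lit 1) (nat_lit 36) (nat_lit 1) (nat_lit 147) (nat_lit 315) (nat_lit 258))) (XT.nd (nat_lit 94) (nat_lit 0) (nat_lit 0) (XT.lf (nat_lit 252) (nat_lit 43875876219) (nat_lit 0) (nat_lit 2881622172) (nat_lit 168) (nat_lit 2881622172) (nat_lit 35) (nat_lit 1) (nat_lit 32) (nat_lit 1) (nat_lit 34) (nat_lit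 1) (nat_lit 148) (nat_lit 315) (nat_lit 257)) (XT.lf (nat_lit 84) (nat_lit 14309627611) (nat_lit 0) (nat_lit 20167163858) (nat_lit 252) (nat_lit 14309627611) (nat_lit 33) (nat_lit 1) (nat_lit 32) (nat_lit 1) (nat_lit 35) (nat_lit 1) (nat_lit 149) (nat_lit 315) (nat_lit 256))))) (XT.nd (nat_lit 282) (nat_lit 336) (nat_lit 0) (XT.nd (nat_lit 94) (nat_lit 252) (nat_lit 0) (XT.lf (nat_lit 168) (nat_lit 13763863151) (nat_lit 0) (nat_lit 17097484952) (nat_lit 84) (nat_lit 17097484952) (nat_lit 33) (nat_lit 1) (nat_lit 31) (nat_lit 1) (nat_lit 32) (nat_lit 1) (nat_lit 150) (nat_lit 315) (nat_lit 255)) (XT.nd (nat_lit 94) (nat_lit 0) (nat_lit 0) (XT.lf (nat_lit 252) (nat_lit 46559019731) (nat_lit 0) (nat_lit 299965728) (nat_lit 168) (nat_lit 299965728) (nat_lit 31) (nat_lit 1) (nat_lit 28) (nat_lit 1) (nat_lit 30) (nat_lit 1) (nat_lit 151) (nat_lit 315) (nat_lit 254)) (XT.lf (nat_lit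 84) (nat_lit 15881739736) (nat_lit 0) (nat_lit 14587100646) (nat_lit 252) (nat_lit 15881739736) (nat_lit 29) (nat_lit 1) (nat_lit 28) (nat_lit 1) (nat_lit 31) (nat_lit 1) (nat_lit 152) (nat_lit 315) (nat_lit 253)))) (XT.nd (nat_lit 188) (nat_lit 252) (nat_lit 0) (XT.nd (nat_lit 94) (nat_lit 0) (nat_lit 0) (XT.lf (nat_lit 168) (nat_lit 17437212933) (nat_lit 0) (nat_lit 14066143183) (nat_lit 84) (nat_lit 14066143183) (nat_lit 29) (nat_lit 1) (nat_lit 27) (nat_lit 1) (nat_lit 28) (nat_lit 1) (nat_lit 153) (nat_lit 315) (nat_lit 252)) (XT.lf (nat_lit 0) (nat_lit 1753646806) (nat_lit 0) (nat_lit 41304707004) (nat_lit 168) (nat_lit 1753646806) (nat_lit 27) (nat_lit 3) (nat_lit 27) (nat_lit 1) (nat_lit 29) (nat_lit 1) (nat_lit 154) (nat_lit 315) (nat_lit 251))) (XT.nd (nat_lit 94) (nat_lit 84) (nat_lit 0) (XT.lf (nat_lit 84) (nat_lit 16979445335) (nat_lit 0) (nat_lit 10091820021)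 (nat_lit 168) (nat_lit 16979445335) (nat_lit 26) (nat_lit 1) (nat_lit 25) (nat_lit 1) (nat_lit 27) (nat_lit 1) (nat_lit 155) (nat_lit 315) (nat_lit 250)) (XT.lf (nat_lit 168) (nat_lit 20168160764) (nat_lit 0) (nat_lit 11572250807) (nat_lit 84) (nat_lit 11572250807) (nat_lit 26) (nat_lit 1) (nat_lit 24) (nat_lit 1) (nat_lit 25) (nat_lit 1) (nat_lit 156) (nat_lit 315) (nat_lit 249))))))))
noncomputable def ec234 : XT := (XT.nd (nat_lit 2538) (nat_lit 0) (nat_lit 0) (XT.nd (nat_lit 1222) (nat_lit 1008) (nat_lit 0) (XT.nd (nat_lit 564) (nat_lit 504) (nat_lit 0) (XT.nd (nat_lit 282) (nat_lit 252) (nat_lit 0) (XT.nd (nat_lit 94) (nat_lit 252) (nat_lit 0) (XT.lf (nat_lit 0) (nat_lit 3351753348) (nat_lit 0) (nat_lit 35890508453) (nat_lit 168) (nat_lit 3351753348) (nat_lit 24) (nat_lit 3) (nat_lit 24) (nat_lit 1) (nat_lit 26) (nat_lit 1) (nat_lit 157) (nat_lit 315) (nat_lit 248))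 (XT.nd (nat_lit 94) (nat_lit 84) (nat_lit 0) (XT.lf (nat_lit 84) (nat_lit 17696173364) (nat_lit 0) (nat_lit 6484447420) (nat_lit 168) (nat_lit 17696173364) (nat_lit 23) (nat_lit 1) (nat_lit 22) (nat_lit 1) (nat_lit 24) (nat_lit 1) (nat_lit 158) (nat_lit 315) (nat_lit 247)) (XT.lf (nat_lit 168) (nat_lit 22137655325) (nat_lit 0) (nat_lit 9520519378) (nat_lit 84) (nat_lit 9520519378) (nat_lit 23) (nat_lit 1) (nat_lit 21) (nat_lit 1) (nat_lit 22) (nat_lit 1) (nat_lit 159) (nat_lit 315) (nat_lit 246)))) (XT.nd (nat_lit 94) (nat_lit 252) (nat_lit 0) (XT.lf (nat_lit 0) (nat_lit 4575613660) (nat_lit 0) (nat_lit 31345328012) (nat_lit 168) (nat_lit 4575613660) (nat_lit 21) (nat_lit 3) (nat_lit 21) (nat_lit 1) (nat_lit 23) (nat_lit 1) (nat_lit 160) (nat_lit 315) (nat_lit 245)) (XT.nd (nat_lit 94) (nat_lit 84) (nat_lit 0) (XT.lf (nat_lit 84) (nat_lit 18108344351) (nat_lit 0) (nat_lit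 3603230096) (nat_lit 168) (nat_lit 18108344351) (nat_lit 20) (nat_lit 1) (nat_lit 19) (nat_lit 1) (nat_lit 21) (nat_lit 1) (nat_lit 161) (nat_lit 315) (nat_lit 244)) (XT.lf (nat_lit 168) (nat_lit 23493903396) (nat_lit 0) (nat_lit 7832554853) (nat_lit 84) (nat_lit 7832554853) (nat_lit 20) (nat_lit 1) (nat_lit 18) (nat_lit 1) (nat_lit 19) (nat_lit 1) (nat_lit 162) (nat_lit 315) (nat_lit 243))))) (XT.nd (nat_lit 282) (nat_lit 252) (nat_lit 0) (XT.nd (nat_lit 94) (nat_lit 252) (nat_lit 0) (XT.lf (nat_lit 0) (nat_lit 5495909526) (nat_lit 0) (nat_lit 27519419772) (nat_lit 168) (nat_lit 5495909526) (nat_lit 18) (nat_lit 3) (nat_lit 18) (nat_lit 1) (nat_lit 20) (nat_lit 1) (nat_lit 163) (nat_lit 315) (nat_lit 242)) (XT.nd (nat_lit 94) (nat_lit 84) (nat_lit 0) (XT.lf (nat_lit 84) (nat_lit 18278407074) (nat_lit 0) (nat_lit 1315299799) (nat_lit 168) (nat_lit 18278407074) (nat_lit 17)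 (nat_lit 1) (nat_lit 16) (nat_lit 1) (nat_lit 18) (nat_lit 1) (nat_lit 164) (nat_lit 315) (nat_lit 241)) (XT.lf (nat_lit 168) (nat_lit 24358206346) (nat_lit 0) (nat_lit 6443862262) (nat_lit 84) (nat_lit 6443862262) (nat_lit 17) (nat_lit 1) (nat_lit 15) (nat_lit 1) (nat_lit 16) (nat_lit 1) (nat_lit 165) (nat_lit 315) (nat_lit 240)))) (XT.nd (nat_lit 188) (nat_lit 168) (nat_lit 0) (XT.nd (nat_lit 94) (nat_lit 84) (nat_lit 0) (XT.lf (nat_lit 0) (nat_lit 6170584886) (nat_lit 0) (nat_lit 24289381269) (nat_lit 168) (nat_lit 6170584886) (nat_lit 15) (nat_lit 3) (nat_lit 15) (nat_lit 1) (nat_lit 17) (nat_lit 1) (nat_lit 166) (nat_lit 315) (nat_lit 239)) (XT.lf (nat_lit 84) (nat_lit 504608821) (nat_lit 0) (nat_lit 17760605377) (nat_lit 84) (nat_lit 17760605377) (nat_lit 15) (nat_lit 3) (nat_lit 14) (nat_lit 1) (nat_lit 15) (nat_lit 1) (nat_lit 167) (nat_lit 315) (nat_lit 238))) (XT.nd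 (nat_lit 94) (nat_lit 0) (nat_lit 0) (XT.lf (nat_lit 168) (nat_lit 24829760338) (nat_lit 0) (nat_lit 5301381430) (nat_lit 84) (nat_lit 5301381430) (nat_lit 14) (nat_lit 1) (nat_lit 12) (nat_lit 1) (nat_lit 13) (nat_lit 1) (nat_lit 168) (nat_lit 315) (nat_lit 237)) (XT.lf (nat_lit 0) (nat_lit 6647114045) (nat_lit 0) (nat_lit 21553492670) (nat_lit 168) (nat_lit 6647114045) (nat_lit 12) (nat_lit 3) (nat_lit 12) (nat_lit 1) (nat_lit 14) (nat_lit 1) (nat_lit 169) (nat_lit 315) (nat_lit 236)))))) (XT.nd (nat_lit 658) (nat_lit 420) (nat_lit 0) (XT.nd (nat_lit 282) (nat_lit 336) (nat_lit 0) (XT.nd (nat_lit 94) (nat_lit 168) (nat_lit 0) (XT.lf (nat_lit 84) (nat_lit 1960369925) (nat_lit 0) (nat_lit 16156920996) (nat_lit 84) (nat_lit 16156920996) (nat_lit 12) (nat_lit 3) (nat_lit 11) (nat_lit 1) (nat_lit 12) (nat_lit 1) (nat_lit 170) (nat_lit 315) (nat_lit 235)) (XT.nd (nat_lit 94)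 (nat_lit 0) (nat_lit 0) (XT.lf (nat_lit 168) (nat_lit 24989604035) (nat_lit 0) (nat_lit 4361459622) (nat_lit 84) (nat_lit 4361459622) (nat_lit 11) (nat_lit 1) (nat_lit 9) (nat_lit 1) (nat_lit 10) (nat_lit 1) (nat_lit 171) (nat_lit 315) (nat_lit 234)) (XT.lf (nat_lit 0) (nat_lit 6964367259) (nat_lit 0) (nat_lit 19227881844) (nat_lit 168) (nat_lit 6964367259) (nat_lit 9) (nat_lit 3) (nat_lit 9) (nat_lit 1) (nat_lit 11) (nat_lit 1) (nat_lit 172) (nat_lit 315) (nat_lit 233)))) (XT.nd (nat_lit 188) (nat_lit 84) (nat_lit 0) (XT.nd (nat_lit 94) (nat_lit 168) (nat_lit 0) (XT.lf (nat_lit 84) (nat_lit 3084445949) (nat_lit 0) (nat_lit 14763983649) (nat_lit 84) (nat_lit 14763983649) (nat_lit 9) (nat_lit 3) (nat_lit 8) (nat_lit 1) (nat_lit 9) (nat_lit 1) (nat_lit 173) (nat_lit 315) (nat_lit 232)) (XT.lf (nat_lit 168) (nat_lit 24903865043) (nat_lit 0) (nat_lit 3588183625) (nat_lit 84)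 (nat_lit 3588183625) (nat_lit 8) (nat_lit 1) (nat_lit 6) (nat_lit 1) (nat_lit 7) (nat_lit 1) (nat_lit 174) (nat_lit 315) (nat_lit 231))) (XT.nd (nat_lit 94) (nat_lit 84) (nat_lit 0) (XT.lf (nat_lit 0) (nat_lit 7154145117) (nat_lit 0) (nat_lit 17243368916) (nat_lit 168) (nat_lit 7154145117) (nat_lit 6) (nat_lit 3) (nat_lit 6) (nat_lit 1) (nat_lit 8) (nat_lit 1) (nat_lit 175) (nat_lit 315) (nat_lit 230)) (XT.lf (nat_lit 84) (nat_lit 3939147754) (nat_lit 0) (nat_lit 13547932324) (nat_lit 84) (nat_lit 13547932324) (nat_lit 6) (nat_lit 3) (nat_lit 5) (nat_lit 1) (nat_lit 6) (nat_lit 1) (nat_lit 176) (nat_lit 315) (nat_lit 229))))) (XT.nd (nat_lit 282) (nat_lit 168) (nat_lit 0) (XT.nd (nat_lit 94) (nat_lit 84) (nat_lit 0) (XT.lf (nat_lit 168) (nat_lit 24626429459) (nat_lit 0) (nat_lit 2952007548) (nat_lit 84) (nat_lit 2952007548) (nat_lit 5) (nat_lit 1) (nat_lit 3) (nat_lit 1)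 (nat_lit 4) (nat_lit 1) (nat_lit 177) (nat_lit 315) (nat_lit 228)) (XT.nd (nat_lit 94) (nat_lit 84) (nat_lit 0) (XT.lf (nat_lit 0) (nat_lit 7242440452) (nat_lit 0) (nat_lit 15542869840) (nat_lit 168) (nat_lit 7242440452) (nat_lit 3) (nat_lit 3) (nat_lit 3) (nat_lit 1) (nat_lit 5) (nat_lit 1) (nat_lit 178) (nat_lit 315) (nat_lit 227)) (XT.lf (nat_lit 84) (nat_lit 4575571785) (nat_lit 0) (nat_lit 12480742631) (nat_lit 84) (nat_lit 12480742631) (nat_lit 3) (nat_lit 3) (nat_lit 2) (nat_lit 1) (nat_lit 3) (nat_lit 1) (nat_lit 179) (nat_lit 315) (nat_lit 226)))) (XT.nd (nat_lit 188) (nat_lit 0) (nat_lit 0) (XT.nd (nat_lit 94) (nat_lit 0) (nat_lit 0) (XT.lf (nat_lit 0) (nat_lit 42212767190) (nat_lit 0) (nat_lit 0) (nat_lit 0) (nat_lit 0) (nat_lit 0) (nat_lit 0) (nat_lit 1) (nat_lit 0) (nat_lit 1) (nat_lit 0) (nat_lit 180) (nat_lit 315) (nat_lit 225)) (XT.lf (nat_lit 0) (nat_lit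 42188172515) (nat_lit 0) (nat_lit 0) (nat_lit 0) (nat_lit 0) (nat_lit 0) (nat_lit 0) (nat_lit 1) (nat_lit 0) (nat_lit 1) (nat_lit 0) (nat_lit 181) (nat_lit 315) (nat_lit 224))) (XT.nd (nat_lit 94) (nat_lit 0) (nat_lit 0) (XT.lf (nat_lit 0) (nat_lit 42164749015) (nat_lit 0) (nat_lit 0) (nat_lit 0) (nat_lit 0) (nat_lit 0) (nat_lit 0) (nat_lit 1) (nat_lit 0) (nat_lit 1) (nat_lit 0) (nat_lit 182) (nat_lit 315) (nat_lit 223)) (XT.lf (nat_lit 0) (nat_lit 42142440920) (nat_lit 0) (nat_lit 0) (nat_lit 0) (nat_lit 0) (nat_lit 0) (nat_lit 0) (nat_lit 1) (nat_lit 0) (nat_lit 1) (nat_lit 0) (nat_lit 183) (nat_lit 315) (nat_lit 222))))))) (XT.nd (nat_lit 4230) (nat_lit 0) (nat_lit 0) (XT.nd (nat_lit 3572) (nat_lit 0) (nat_lit 0) (XT.nd (nat_lit 3290) (nat_lit 0) (nat_lit 0) (XT.nd (nat_lit 94) (nat_lit 0) (nat_lit 0) (XT.lf (nat_lit 0) (nat_lit 42121195114) (nat_lit 0) (nat_lit 0) (nat_lit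 0) (nat_lit 0) (nat_lit 0) (nat_lit 0) (nat_lit 1) (nat_lit 0) (nat_lit 1) (nat_lit 0) (nat_lit 184) (nat_lit 315) (nat_lit 221)) (XT.nd (nat_lit 94) (nat_lit 0) (nat_lit 0) (XT.lf (nat_lit 0) (nat_lit 42100961014) (nat_lit 0) (nat_lit 0) (nat_lit 0) (nat_lit 0) (nat_lit 0) (nat_lit 0) (nat_lit 1) (nat_lit 0) (nat_lit 1) (nat_lit 0) (nat_lit 185) (nat_lit 315) (nat_lit 220)) (XT.lf (nat_lit 0) (nat_lit 42081690443) (nat_lit 0) (nat_lit 0) (nat_lit 0) (nat_lit 0) (nat_lit 0) (nat_lit 0) (nat_lit 1) (nat_lit 0) (nat_lit 1) (nat_lit 0) (nat_lit 186) (nat_lit 315) (nat_lit 219)))) (XT.nd (nat_lit 94) (nat_lit 0) (nat_lit 0) (XT.lf (nat_lit 0) (nat_lit 41773312175) (nat_lit 0) (nat_lit 0) (nat_lit 0) (nat_lit 0) (nat_lit 0) (nat_lit 0) (nat_lit 1) (nat_lit 0) (nat_lit 1) (nat_lit 0) (nat_lit 219) (nat_lit 315) (nat_lit 186)) (XT.nd (nat_lit 94) (nat_lit 0) (nat_lit 0) (XT.lf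 (nat_lit 0) (nat_lit 41769643929) (nat_lit 0) (nat_lit 0) (nat_lit 0) (nat_lit 0) (nat_lit 0) (nat_lit 0) (nat_lit 1) (nat_lit 0) (nat_lit 1) (nat_lit 0) (nat_lit 220) (nat_lit 315) (nat_lit 185)) (XT.lf (nat_lit 0) (nat_lit 41766150362) (nat_lit 0) (nat_lit 0) (nat_lit 0) (nat_lit 0) (nat_lit 0) (nat_lit 0) (nat_lit 1) (nat_lit 0) (nat_lit 1) (nat_lit 0) (nat_lit 221) (nat_lit 315) (nat_lit 184))))) (XT.nd (nat_lit 282) (nat_lit 0) (nat_lit 0) (XT.nd (nat_lit 94) (nat_lit 0) (nat_lit 0) (XT.lf (nat_lit 0) (nat_lit 41762823155) (nat_lit 0) (nat_lit 0) (nat_lit 0) (nat_lit 0) (nat_lit 0) (nat_lit 0) (nat_lit 1) (nat_lit 0) (nat_lit 1) (nat_lit 0) (nat_lit 222) (nat_lit 315) (nat_lit 183)) (XT.nd (nat_lit 94) (nat_lit 0) (nat_lit 0) (XT.lf (nat_lit 0) (nat_lit 41759654386) (nat_lit 0) (nat_lit 0) (nat_lit 0) (nat_lit 0) (nat_lit 0) (nat_lit 0) (nat_lit 1) (nat_lit 0) (nat_lit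 1) (nat_lit 0) (nat_lit 223) (nat_lit 315) (nat_lit 182)) (XT.lf (nat_lit 0) (nat_lit 41756636511) (nat_lit 0) (nat_lit 0) (nat_lit 0) (nat_lit 0) (nat_lit 0) (nat_lit 0) (nat_lit 1) (nat_lit 0) (nat_lit 1) (nat_lit 0) (nat_lit 224) (nat_lit 315) (nat_lit 181)))) (XT.nd (nat_lit 188) (nat_lit 0) (nat_lit 0) (XT.nd (nat_lit 94) (nat_lit 0) (nat_lit 0) (XT.lf (nat_lit 0) (nat_lit 41753762345) (nat_lit 0) (nat_lit 0) (nat_lit 0) (nat_lit 0) (nat_lit 0) (nat_lit 0) (nat_lit 1) (nat_lit 0) (nat_lit 1) (nat_lit 0) (nat_lit 225) (nat_lit 315) (nat_lit 180)) (XT.lf (nat_lit 0) (nat_lit 41751025043) (nat_lit 0) (nat_lit 0) (nat_lit 0) (nat_lit 0) (nat_lit 0) (nat_lit 0) (nat_lit 1) (nat_lit 0) (nat_lit 1) (nat_lit 0) (nat_lit 226) (nat_lit 315) (nat_lit 179))) (XT.nd (nat_lit 94) (nat_lit 0) (nat_lit 0) (XT.lf (nat_lit 0) (nat_lit 41748418089) (nat_lit 0) (nat_lit 0) (nat_lit 0)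 (nat_lit 0) (nat_lit 0) (nat_lit 0) (nat_lit 1) (nat_lit 0) (nat_lit 1) (nat_lit 0) (nat_lit 227) (nat_lit 315) (nat_lit 178)) (XT.lf (nat_lit 0) (nat_lit 41745935276) (nat_lit 0) (nat_lit 0) (nat_lit 0) (nat_lit 0) (nat_lit 0) (nat_lit 0) (nat_lit 1) (nat_lit 0) (nat_lit 1) (nat_lit 0) (nat_lit 228) (nat_lit 315) (nat_lit 177)))))) (XT.nd (nat_lit 658) (nat_lit 0) (nat_lit 0) (XT.nd (nat_lit 282) (nat_lit 0) (nat_lit 0) (XT.nd (nat_lit 94) (nat_lit 0) (nat_lit 0) (XT.lf (nat_lit 0) (nat_lit 41743570692) (nat_lit 0) (nat_lit 0) (nat_lit 0) (nat_lit 0) (nat_lit 0) (nat_lit 0) (nat_lit 1) (nat_lit 0) (nat_lit 1) (nat_lit 0) (nat_lit 229) (nat_lit 315) (nat_lit 176)) (XT.nd (nat_lit 94) (nat_lit 0) (nat_lit 0) (XT.lf (nat_lit 0) (nat_lit 41741318708) (nat_lit 0) (nat_lit 0) (nat_lit 0) (nat_lit 0) (nat_lit 0) (nat_lit 0) (nat_lit 1) (nat_lit 0) (nat_lit 1) (nat_lit 0) (nat_lit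 230) (nat_lit 315) (nat_lit 175)) (XT.lf (nat_lit 0) (nat_lit 41739173960) (nat_lit 0) (nat_lit 0) (nat_lit 0) (nat_lit 0) (nat_lit 0) (nat_lit 0) (nat_lit 1) (nat_lit 0) (nat_lit 1) (nat_lit 0) (nat_lit 231) (nat_lit 315) (nat_lit 174)))) (XT.nd (nat_lit 188) (nat_lit 0) (nat_lit 0) (XT.nd (nat_lit 94) (nat_lit 0) (nat_lit 0) (XT.lf (nat_lit 0) (nat_lit 41737131344) (nat_lit 0) (nat_lit 0) (nat_lit 0) (nat_lit 0) (nat_lit 0) (nat_lit 0) (nat_lit 1) (nat_lit 0) (nat_lit 1) (nat_lit 0) (nat_lit 232) (nat_lit 315) (nat_lit 173)) (XT.lf (nat_lit 0) (nat_lit 41735185995) (nat_lit 0) (nat_lit 0) (nat_lit 0) (nat_lit 0) (nat_lit 0) (nat_lit 0) (nat_lit 1) (nat_lit 0) (nat_lit 1) (nat_lit 0) (nat_lit 233) (nat_lit 315) (nat_lit 172))) (XT.nd (nat_lit 94) (nat_lit 0) (nat_lit 0) (XT.lf (nat_lit 0) (nat_lit 41733333281) (nat_lit 0) (nat_lit 0) (nat_lit 0) (nat_lit 0) (nat_lit 0)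 (nat_lit 0) (nat_lit 1) (nat_lit 0) (nat_lit 1) (nat_lit 0) (nat_lit 234) (nat_lit 315) (nat_lit 171)) (XT.lf (nat_lit 0) (nat_lit 41731568792) (nat_lit 0) (nat_lit 0) (nat_lit 0) (nat_lit 0) (nat_lit 0) (nat_lit 0) (nat_lit 1) (nat_lit 0) (nat_lit 1) (nat_lit 0) (nat_lit 235) (nat_lit 315) (nat_lit 170))))) (XT.nd (nat_lit 282) (nat_lit 0) (nat_lit 0) (XT.nd (nat_lit 94) (nat_lit 0) (nat_lit 0) (XT.lf (nat_lit 0) (nat_lit 41729888327) (nat_lit 0) (nat_lit 0) (nat_lit 0) (nat_lit 0) (nat_lit 0) (nat_lit 0) (nat_lit 1) (nat_lit 0) (nat_lit 1) (nat_lit 0) (nat_lit 236) (nat_lit 315) (nat_lit 169)) (XT.nd (nat_lit 94) (nat_lit 0) (nat_lit 0) (XT.lf (nat_lit 0) (nat_lit 41728287883) (nat_lit 0) (nat_lit 0) (nat_lit 0) (nat_lit 0) (nat_lit 0) (nat_lit 0) (nat_lit 1) (nat_lit 0) (nat_lit 1) (nat_lit 0) (nat_lit 237) (nat_lit 315) (nat_lit 168)) (XT.lf (nat_lit 0) (nat_lit 41726763651)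 (nat_lit 0) (nat_lit 0) (nat_lit 0) (nat_lit 0) (nat_lit 0) (nat_lit 0) (nat_lit 1) (nat_lit 0) (nat_lit 1) (nat_lit 0) (nat_lit 238) (nat_lit 315) (nat_lit 167)))) (XT.nd (nat_lit 188) (nat_lit 0) (nat_lit 0) (XT.nd (nat_lit 94) (nat_lit 0) (nat_lit 0) (XT.lf (nat_lit 0) (nat_lit 41725312002) (nat_lit 0) (nat_lit 0) (nat_lit 0) (nat_lit 0) (nat_lit 0) (nat_lit 0) (nat_lit 1) (nat_lit 0) (nat_lit 1) (nat_lit 0) (nat_lit 239) (nat_lit 315) (nat_lit 166)) (XT.lf (nat_lit 0) (nat_lit 41723929479) (nat_lit 0) (nat_lit 0) (nat_lit 0) (nat_lit 0) (nat_lit 0) (nat_lit 0) (nat_lit 1) (nat_lit 0) (nat_lit 1) (nat_lit 0) (nat_lit 240) (nat_lit 315) (nat_lit 165))) (XT.nd (nat_lit 94) (nat_lit 0) (nat_lit 0) (XT.lf (nat_lit 0) (nat_lit 41722612790) (nat_lit 0) (nat_lit 0) (nat_lit 0) (nat_lit 0) (nat_lit 0) (nat_lit 0) (nat_lit 1) (nat_lit 0) (nat_lit 1) (nat_lit 0) (nat_lit 241) (nat_lit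 315) (nat_lit 164)) (XT.lf (nat_lit 0) (nat_lit 41721358801) (nat_lit 0) (nat_lit 0) (nat_lit 0) (nat_lit 0) (nat_lit 0) (nat_lit 0) (nat_lit 1) (nat_lit 0) (nat_lit 1) (nat_lit 0) (nat_lit 242) (nat_lit 315) (nat_lit 163))))))))
noncomputable def ec235 : XT := (XT.nd (nat_lit 2538) (nat_lit 0) (nat_lit 0) (XT.nd (nat_lit 1222) (nat_lit 0) (nat_lit 0) (XT.nd (nat_lit 564) (nat_lit 0) (nat_lit 0) (XT.nd (nat_lit 282) (nat_lit 0) (nat_lit 0) (XT.nd (nat_lit 94) (nat_lit 0) (nat_lit 0) (XT.lf (nat_lit 0) (nat_lit 41720164525) (nat_lit 0) (nat_lit 0) (nat_lit 0) (nat_lit 0) (nat_lit 0) (nat_lit 0) (nat_lit 1) (nat_lit 0) (nat_lit 1) (nat_lit 0) (nat_lit 243) (nat_lit 315) (nat_lit 162)) (XT.nd (nat_lit 94) (nat_lit 0) (nat_lit 0) (XT.lf (nat_lit 0) (nat_lit 41719027120) (nat_lit 0) (nat_lit 0) (nat_lit 0) (nat_lit 0) (nat_lit 0) (nat_lit 0) (nat_lit 1) (nat_lit 0) (nat_lit 1)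 (nat_lit 0) (nat_lit 244) (nat_lit 315) (nat_lit 161)) (XT.lf (nat_lit 0) (nat_lit 41717943877) (nat_lit 0) (nat_lit 0) (nat_lit 0) (nat_lit 0) (nat_lit 0) (nat_lit 0) (nat_lit 1) (nat_lit 0) (nat_lit 1) (nat_lit 0) (nat_lit 245) (nat_lit 315) (nat_lit 160)))) (XT.nd (nat_lit 94) (nat_lit 0) (nat_lit 0) (XT.lf (nat_lit 0) (nat_lit 41716912216) (nat_lit 0) (nat_lit 0) (nat_lit 0) (nat_lit 0) (nat_lit 0) (nat_lit 0) (nat_lit 1) (nat_lit 0) (nat_lit 1) (nat_lit 0) (nat_lit 246) (nat_lit 315) (nat_lit 159)) (XT.nd (nat_lit 94) (nat_lit 0) (nat_lit 0) (XT.lf (nat_lit 0) (nat_lit 41715929683) (nat_lit 0) (nat_lit 0) (nat_lit 0) (nat_lit 0) (nat_lit 0) (nat_lit 0) (nat_lit 1) (nat_lit 0) (nat_lit 1) (nat_lit 0) (nat_lit 247) (nat_lit 315) (nat_lit 158)) (XT.lf (nat_lit 0) (nat_lit 41714993937) (nat_lit 0) (nat_lit 0) (nat_lit 0) (nat_lit 0) (nat_lit 0) (nat_lit 0) (nat_lit 1) (nat_lit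 0) (nat_lit 1) (nat_lit 0) (nat_lit 248) (nat_lit 315) (nat_lit 157))))) (XT.nd (nat_lit 282) (nat_lit 0) (nat_lit 0) (XT.nd (nat_lit 94) (nat_lit 0) (nat_lit 0) (XT.lf (nat_lit 0) (nat_lit 41714102750) (nat_lit 0) (nat_lit 0) (nat_lit 0) (nat_lit 0) (nat_lit 0) (nat_lit 0) (nat_lit 1) (nat_lit 0) (nat_lit 1) (nat_lit 0) (nat_lit 249) (nat_lit 315) (nat_lit 156)) (XT.nd (nat_lit 94) (nat_lit 0) (nat_lit 0) (XT.lf (nat_lit 0) (nat_lit 41713254001) (nat_lit 0) (nat_lit 0) (nat_lit 0) (nat_lit 0) (nat_lit 0) (nat_lit 0) (nat_lit 1) (nat_lit 0) (nat_lit 1) (nat_lit 0) (nat_lit 250) (nat_lit 315) (nat_lit 155)) (XT.lf (nat_lit 0) (nat_lit 41712445668) (nat_lit 0) (nat_lit 0) (nat_lit 0) (nat_lit 0) (nat_lit 0) (nat_lit 0) (nat_lit 1) (nat_lit 0) (nat_lit 1) (nat_lit 0) (nat_lit 251) (nat_lit 315) (nat_lit 154)))) (XT.nd (nat_lit 188) (nat_lit 0) (nat_lit 0) (XT.nd (nat_lit 94)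 (nat_lit 0) (nat_lit 0) (XT.lf (nat_lit 0) (nat_lit 41711675827) (nat_lit 0) (nat_lit 0) (nat_lit 0) (nat_lit 0) (nat_lit 0) (nat_lit 0) (nat_lit 1) (nat_lit 0) (nat_lit 1) (nat_lit 0) (nat_lit 252) (nat_lit 315) (nat_lit 153)) (XT.lf (nat_lit 0) (nat_lit 41710942646) (nat_lit 0) (nat_lit 0) (nat_lit 0) (nat_lit 0) (nat_lit 0) (nat_lit 0) (nat_lit 1) (nat_lit 0) (nat_lit 1) (nat_lit 0) (nat_lit 253) (nat_lit 315) (nat_lit 152))) (XT.nd (nat_lit 94) (nat_lit 0) (nat_lit 0) (XT.lf (nat_lit 0) (nat_lit 41710244377) (nat_lit 0) (nat_lit 0) (nat_lit 0) (nat_lit 0) (nat_lit 0) (nat_lit 0) (nat_lit 1) (nat_lit 0) (nat_lit 1) (nat_lit 0) (nat_lit 254) (nat_lit 315) (nat_lit 151)) (XT.lf (nat_lit 0) (nat_lit 41709579360) (nat_lit 0) (nat_lit 0) (nat_lit 0) (nat_lit 0) (nat_lit 0) (nat_lit 0) (nat_lit 1) (nat_lit 0) (nat_lit 1) (nat_lit 0) (nat_lit 255) (nat_lit 315) (nat_lit 150))))))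 (XT.nd (nat_lit 658) (nat_lit 0) (nat_lit 0) (XT.nd (nat_lit 282) (nat_lit 0) (nat_lit 0) (XT.nd (nat_lit 94) (nat_lit 0) (nat_lit 0) (XT.lf (nat_lit 0) (nat_lit 41708946010) (nat_lit 0) (nat_lit 0) (nat_lit 0) (nat_lit 0) (nat_lit 0) (nat_lit 0) (nat_lit 1) (nat_lit 0) (nat_lit 1) (nat_lit 0) (nat_lit 256) (nat_lit 315) (nat_lit 149)) (XT.nd (nat_lit 94) (nat_lit 0) (nat_lit 0) (XT.lf (nat_lit 0) (nat_lit 41708342820) (nat_lit 0) (nat_lit 0) (nat_lit 0) (nat_lit 0) (nat_lit 0) (nat_lit 0) (nat_lit 1) (nat_lit 0) (nat_lit 1) (nat_lit 0) (nat_lit 257) (nat_lit 315) (nat_lit 148)) (XT.lf (nat_lit 0) (nat_lit 41707768353) (nat_lit 0) (nat_lit 0) (nat_lit 0) (nat_lit 0) (nat_lit 0) (nat_lit 0) (nat_lit 1) (nat_lit 0) (nat_lit 1) (nat_lit 0) (nat_lit 258) (nat_lit 315) (nat_lit 147)))) (XT.nd (nat_lit 188) (nat_lit 0) (nat_lit 0) (XT.nd (nat_lit 94) (nat_lit 0) (nat_lit 0) (XT.lf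 (nat_lit 0) (nat_lit 41707221242) (nat_lit 0) (nat_lit 0) (nat_lit 0) (nat_lit 0) (nat_lit 0) (nat_lit 0) (nat_lit 1) (nat_lit 0) (nat_lit 1) (nat_lit 0) (nat_lit 259) (nat_lit 315) (nat_lit 146)) (XT.lf (nat_lit 0) (nat_lit 41706700183) (nat_lit 0) (nat_lit 0) (nat_lit 0) (nat_lit 0) (nat_lit 0) (nat_lit 0) (nat_lit 1) (nat_lit 0) (nat_lit 1) (nat_lit 0) (nat_lit 260) (nat_lit 315) (nat_lit 145))) (XT.nd (nat_lit 94) (nat_lit 0) (nat_lit 0) (XT.lf (nat_lit 0) (nat_lit 41706203937) (nat_lit 0) (nat_lit 0) (nat_lit 0) (nat_lit 0) (nat_lit 0) (nat_lit 0) (nat_lit 1) (nat_lit 0) (nat_lit 1) (nat_lit 0) (nat_lit 261) (nat_lit 315) (nat_lit 144)) (XT.lf (nat_lit 0) (nat_lit 41705731322) (nat_lit 0) (nat_lit 0) (nat_lit 0) (nat_lit 0) (nat_lit 0) (nat_lit 0) (nat_lit 1) (nat_lit 0) (nat_lit 1) (nat_lit 0) (nat_lit 262) (nat_lit 315) (nat_lit 143))))) (XT.nd (nat_lit 282) (nat_lit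 0) (nat_lit 0) (XT.nd (nat_lit 94) (nat_lit 0) (nat_lit 0) (XT.lf (nat_lit 0) (nat_lit 41705281212) (nat_lit 0) (nat_lit 0) (nat_lit 0) (nat_lit 0) (nat_lit 0) (nat_lit 0) (nat_lit 1) (nat_lit 0) (nat_lit 1) (nat_lit 0) (nat_lit 263) (nat_lit 315) (nat_lit 142)) (XT.nd (nat_lit 94) (nat_lit 0) (nat_lit 0) (XT.lf (nat_lit 0) (nat_lit 41704852536) (nat_lit 0) (nat_lit 0) (nat_lit 0) (nat_lit 0) (nat_lit 0) (nat_lit 0) (nat_lit 1) (nat_lit 0) (nat_lit 1) (nat_lit 0) (nat_lit 264) (nat_lit 315) (nat_lit 141)) (XT.lf (nat_lit 0) (nat_lit 41704444273) (nat_lit 0) (nat_lit 0) (nat_lit 0) (nat_lit 0) (nat_lit 0) (nat_lit 0) (nat_lit 1) (nat_lit 0) (nat_lit 1) (nat_lit 0) (nat_lit 265) (nat_lit 315) (nat_lit 140)))) (XT.nd (nat_lit 188) (nat_lit 0) (nat_lit 0) (XT.nd (nat_lit 94) (nat_lit 0) (nat_lit 0) (XT.lf (nat_lit 0) (nat_lit 41704055451) (nat_lit 0) (nat_lit 0) (nat_lit 0)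 (nat_lit 0) (nat_lit 0) (nat_lit 0) (nat_lit 1) (nat_lit 0) (nat_lit 1) (nat_lit 0) (nat_lit 266) (nat_lit 315) (nat_lit 139)) (XT.lf (nat_lit 0) (nat_lit 41703685144) (nat_lit 0) (nat_lit 0) (nat_lit 0) (nat_lit 0) (nat_lit 0) (nat_lit 0) (nat_lit 1) (nat_lit 0) (nat_lit 1) (nat_lit 0) (nat_lit 267) (nat_lit 315) (nat_lit 138))) (XT.nd (nat_lit 94) (nat_lit 0) (nat_lit 0) (XT.lf (nat_lit 0) (nat_lit 41703332471) (nat_lit 0) (nat_lit 0) (nat_lit 0) (nat_lit 0) (nat_lit 0) (nat_lit 0) (nat_lit 1) (nat_lit 0) (nat_lit 1) (nat_lit 0) (nat_lit 268) (nat_lit 315) (nat_lit 137)) (XT.lf (nat_lit 0) (nat_lit 41702996592) (nat_lit 0) (nat_lit 0) (nat_lit 0) (nat_lit 0) (nat_lit 0) (nat_lit 0) (nat_lit 1) (nat_lit 0) (nat_lit 1) (nat_lit 0) (nat_lit 269) (nat_lit 315) (nat_lit 136))))))) (XT.nd (nat_lit 4324) (nat_lit 0) (nat_lit 0) (XT.nd (nat_lit 3666) (nat_lit 0) (nat_lit 0) (XT.nd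 (nat_lit 282) (nat_lit 0) (nat_lit 0) (XT.nd (nat_lit 94) (nat_lit 0) (nat_lit 0) (XT.lf (nat_lit 0) (nat_lit 41702676708) (nat_lit 0) (nat_lit 0) (nat_lit 0) (nat_lit 0) (nat_lit 0) (nat_lit 0) (nat_lit 1) (nat_lit 0) (nat_lit 1) (nat_lit 0) (nat_lit 270) (nat_lit 315) (nat_lit 135)) (XT.nd (nat_lit 94) (nat_lit 0) (nat_lit 0) (XT.lf (nat_lit 0) (nat_lit 41702372056) (nat_lit 0) (nat_lit 0) (nat_lit 0) (nat_lit 0) (nat_lit 0) (nat_lit 0) (nat_lit 1) (nat_lit 0) (nat_lit 1) (nat_lit 0) (nat_lit 271) (nat_lit 315) (nat_lit 134)) (XT.lf (nat_lit 0) (nat_lit 41702081911) (nat_lit 0) (nat_lit 0) (nat_lit 0) (nat_lit 0) (nat_lit 0) (nat_lit 0) (nat_lit 1) (nat_lit 0) (nat_lit 1) (nat_lit 0) (nat_lit 272) (nat_lit 315) (nat_lit 133)))) (XT.nd (nat_lit 188) (nat_lit 0) (nat_lit 0) (XT.nd (nat_lit 94) (nat_lit 0) (nat_lit 0) (XT.lf (nat_lit 0) (nat_lit 41701805582) (nat_lit 0) (nat_lit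 0) (nat_lit 0) (nat_lit 0) (nat_lit 0) (nat_lit 0) (nat_lit 1) (nat_lit 0) (nat_lit 1) (nat_lit 0) (nat_lit 273) (nat_lit 315) (nat_lit 132)) (XT.lf (nat_lit 0) (nat_lit 41701542412) (nat_lit 0) (nat_lit 0) (nat_lit 0) (nat_lit 0) (nat_lit 0) (nat_lit 0) (nat_lit 1) (nat_lit 0) (nat_lit 1) (nat_lit 0) (nat_lit 274) (nat_lit 315) (nat_lit 131))) (XT.nd (nat_lit 3102) (nat_lit 0) (nat_lit 0) (XT.lf (nat_lit 0) (nat_lit 41701291774) (nat_lit 0) (nat_lit 0) (nat_lit 0) (nat_lit 0) (nat_lit 0) (nat_lit 0) (nat_lit 1) (nat_lit 0) (nat_lit 1) (nat_lit 0) (nat_lit 275) (nat_lit 315) (nat_lit 130)) (XT.lf (nat_lit 0) (nat_lit 41697280927) (nat_lit 0) (nat_lit 0) (nat_lit 0) (nat_lit 0) (nat_lit 0) (nat_lit 0) (nat_lit 1) (nat_lit 0) (nat_lit 1) (nat_lit 0) (nat_lit 308) (nat_lit 315) (nat_lit 97))))) (XT.nd (nat_lit 282) (nat_lit 0) (nat_lit 0) (XT.nd (nat_lit 94) (nat_lit 0) (nat_lit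 0) (XT.lf (nat_lit 0) (nat_lit 41697233217) (nat_lit 0) (nat_lit 0) (nat_lit 0) (nat_lit 0) (nat_lit 0) (nat_lit 0) (nat_lit 1) (nat_lit 0) (nat_lit 1) (nat_lit 0) (nat_lit 309) (nat_lit 315) (nat_lit 96)) (XT.nd (nat_lit 94) (nat_lit 0) (nat_lit 0) (XT.lf (nat_lit 0) (nat_lit 41697187778) (nat_lit 0) (nat_lit 0) (nat_lit 0) (nat_lit 0) (nat_lit 0) (nat_lit 0) (nat_lit 1) (nat_lit 0) (nat_lit 1) (nat_lit 0) (nat_lit 310) (nat_lit 315) (nat_lit 95)) (XT.lf (nat_lit 0) (nat_lit 41697144504) (nat_lit 0) (nat_lit 0) (nat_lit 0) (nat_lit 0) (nat_lit 0) (nat_lit 0) (nat_lit 1) (nat_lit 0) (nat_lit 1) (nat_lit 0) (nat_lit 311) (nat_lit 315) (nat_lit 94)))) (XT.nd (nat_lit 188) (nat_lit 0) (nat_lit 0) (XT.nd (nat_lit 94) (nat_lit 0) (nat_lit 0) (XT.lf (nat_lit 0) (nat_lit 41697103290) (nat_lit 0) (nat_lit 0) (nat_lit 0) (nat_lit 0) (nat_lit 0) (nat_lit 0) (nat_lit 1) (nat_lit 0)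 (nat_lit 1) (nat_lit 0) (nat_lit 312) (nat_lit 315) (nat_lit 93)) (XT.lf (nat_lit 0) (nat_lit 41697064039) (nat_lit 0) (nat_lit 0) (nat_lit 0) (nat_lit 0) (nat_lit 0) (nat_lit 0) (nat_lit 1) (nat_lit 0) (nat_lit 1) (nat_lit 0) (nat_lit 313) (nat_lit 315) (nat_lit 92))) (XT.nd (nat_lit 94) (nat_lit 0) (nat_lit 0) (XT.lf (nat_lit 0) (nat_lit 41697026657) (nat_lit 0) (nat_lit 0) (nat_lit 0) (nat_lit 0) (nat_lit 0) (nat_lit 0) (nat_lit 1) (nat_lit 0) (nat_lit 1) (nat_lit 0) (nat_lit 314) (nat_lit 315) (nat_lit 91)) (XT.lf (nat_lit 0) (nat_lit 41696991055) (nat_lit 0) (nat_lit 0) (nat_lit 0) (nat_lit 0) (nat_lit 0) (nat_lit 0) (nat_lit 1) (nat_lit 0) (nat_lit 1) (nat_lit 0) (nat_lit 315) (nat_lit 315) (nat_lit 90)))))) (XT.nd (nat_lit 23970) (nat_lit 0) (nat_lit 4200) (XT.nd (nat_lit 282) (nat_lit 0) (nat_lit 0) (XT.nd (nat_lit 94) (nat_lit 0) (nat_lit 0) (XT.lf (nat_lit 0) (nat_lit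 41696957148) (nat_lit 0) (nat_lit 0) (nat_lit 0) (nat_lit 0) (nat_lit 0) (nat_lit 0) (nat_lit 1) (nat_lit 0) (nat_lit 1) (nat_lit 0) (nat_lit 316) (nat_lit 315) (nat_lit 89)) (XT.nd (nat_lit 94) (nat_lit 0) (nat_lit 0) (XT.lf (nat_lit 0) (nat_lit 41696924856) (nat_lit 0) (nat_lit 0) (nat_lit 0) (nat_lit 0) (nat_lit 0) (nat_lit 0) (nat_lit 1) (nat_lit 0) (nat_lit 1) (nat_lit 0) (nat_lit 317) (nat_lit 315) (nat_lit 88)) (XT.lf (nat_lit 0) (nat_lit 41696894101) (nat_lit 0) (nat_lit 0) (nat_lit 0) (nat_lit 0) (nat_lit 0) (nat_lit 0) (nat_lit 1) (nat_lit 0) (nat_lit 1) (nat_lit 0) (nat_lit 318) (nat_lit 315) (nat_lit 87)))) (XT.nd (nat_lit 23500) (nat_lit 0) (nat_lit 10752) (XT.nd (nat_lit 94) (nat_lit 0) (nat_lit 0) (XT.lf (nat_lit 0) (nat_lit 41696864812) (nat_lit 0) (nat_lit 0) (nat_lit 0) (nat_lit 0) (nat_lit 0) (nat_lit 0) (nat_lit 1) (nat_lit 0) (nat_lit 1) (nat_lit 0)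 (nat_lit 319) (nat_lit 315) (nat_lit 86)) (XT.lf (nat_lit 0) (nat_lit 41696836916) (nat_lit 0) (nat_lit 0) (nat_lit 0) (nat_lit 0) (nat_lit 0) (nat_lit 0) (nat_lit 1) (nat_lit 0) (nat_lit 1) (nat_lit 0) (nat_lit 320) (nat_lit 315) (nat_lit 85))) (XT.nd (nat_lit 94) (nat_lit 0) (nat_lit 0) (XT.lf (nat_lit 924) (nat_lit 21909698854) (nat_lit 0) (nat_lit 38900619954) (nat_lit 924) (nat_lit 21909698854) (nat_lit 139) (nat_lit 1) (nat_lit 128) (nat_lit 0) (nat_lit 139) (nat_lit 0) (nat_lit 88) (nat_lit 316) (nat_lit 316)) (XT.lf (nat_lit 924) (nat_lit 84924728077) (nat_lit 84) (nat_lit 38273190600) (nat_lit 0) (nat_lit 38273190600) (nat_lit 139) (nat_lit 1) (nat_lit 129) (nat_lit 1) (nat_lit 128) (nat_lit 0) (nat_lit 89) (nat_lit 316) (nat_lit 315))))) (XT.nd (nat_lit 282) (nat_lit 6636) (nat_lit 0) (XT.nd (nat_lit 94) (nat_lit 0) (nat_lit 0) (XT.lf (nat_lit 924) (nat_lit 40473846690)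 (nat_lit 0) (nat_lit 76677190675) (nat_lit 840) (nat_lit 40473846690) (nat_lit 140) (nat_lit 1) (nat_lit 129) (nat_lit 1) (nat_lit 139) (nat_lit 1) (nat_lit 90) (nat_lit 316) (nat_lit 314)) (XT.nd (nat_lit 94) (nat_lit 0) (nat_lit 84) (XT.lf (nat_lit 924) (nat_lit 75923312409) (nat_lit 84) (nat_lit 38989804079) (nat_lit 0) (nat_lit 38989804079) (nat_lit 140) (nat_lit 1) (nat_lit 130) (nat_lit 1) (nat_lit 129) (nat_lit 1) (nat_lit 91) (nat_lit 316) (nat_lit 313)) (XT.lf (nat_lit 924) (nat_lit 34946771603) (nat_lit 0) (nat_lit 80405381442) (nat_lit 840) (nat_lit 34946771603) (nat_lit 141) (nat_lit 1) (nat_lit 130) (nat_lit 1) (nat_lit 140) (nat_lit 1) (nat_lit 92) (nat_lit 316) (nat_lit 312)))) (XT.nd (nat_lit 188) (nat_lit 6720) (nat_lit 0) (XT.nd (nat_lit 94) (nat_lit 0) (nat_lit 84) (XT.lf (nat_lit 924) (nat_lit 62854044881) (nat_lit 84) (nat_lit 41975373709) (nat_lit 0)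 (nat_lit 41975373709) (nat_lit 141) (nat_lit 1) (nat_lit 131) (nat_lit 1) (nat_lit 130) (nat_lit 1) (nat_lit 93) (nat_lit 316) (nat_lit 311)) (XT.lf (nat_lit 924) (nat_lit 27559683291) (nat_lit 0) (nat_lit 88308614233) (nat_lit 840) (nat_lit 27559683291) (nat_lit 142) (nat_lit 1) (nat_lit 131) (nat_lit 1) (nat_lit 141) (nat_lit 1) (nat_lit 94) (nat_lit 316) (nat_lit 310))) (XT.nd (nat_lit 3478) (nat_lit 6804) (nat_lit 0) (XT.lf (nat_lit 924) (nat_lit 46328673811) (nat_lit 84) (nat_lit 46907735355) (nat_lit 0) (nat_lit 46907735355) (nat_lit 142) (nat_lit 1) (nat_lit 132) (nat_lit 1) (nat_lit 131) (nat_lit 1) (nat_lit 95) (nat_lit 316) (nat_lit 309)) (XT.lf (nat_lit 252) (nat_lit 54908602259) (nat_lit 0) (nat_lit 5853713506) (nat_lit 168) (nat_lit 5853713506) (nat_lit 53) (nat_lit 1) (nat_lit 50) (nat_lit 1) (nat_lit 52) (nat_lit 1) (nat_lit 132) (nat_lit 316) (nat_lit 272))))))))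
noncomputable def ec236 : XT := (XT.nd (nat_lit 2538) (nat_lit 1596) (nat_lit 0) (XT.nd (nat_lit 1222) (nat_lit 1344) (nat_lit 0) (XT.nd (nat_lit 564) (nat_lit 756) (nat_lit 0) (XT.nd (nat_lit 282) (nat_lit 336) (nat_lit 0) (XT.nd (nat_lit 94) (nat_lit 168) (nat_lit 0) (XT.lf (nat_lit 84) (nat_lit 18279208248) (nat_lit 0) (nat_lit 28864904101) (nat_lit 252) (nat_lit 18279208248) (nat_lit 51) (nat_lit 1) (nat_lit 50) (nat_lit 1) (nat_lit 53) (nat_lit 1) (nat_lit 133) (nat_lit 316) (nat_lit 271)) (XT.nd (nat_lit 94) (nat_lit 0) (nat_lit 0) (XT.lf (nat_lit 252) (nat_lit 18616486135) (nat_lit 0) (nat_lit 22824375887) (nat_lit 168) (nat_lit 22824375887) (nat_lit 51) (nat_lit 1) (nat_lit 48) (nat_lit 1) (nat_lit 50) (nat_lit 1) (nat_lit 134) (nat_lit 316) (nat_lit 270)) (XT.lf (nat_lit 84) (nat_lit 611872556) (nat_lit 0) (nat_lit 61924024127) (nat_lit 252) (nat_lit 611872556)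 (nat_lit 49) (nat_lit 1) (nat_lit 48) (nat_lit 1) (nat_lit 51) (nat_lit 1) (nat_lit 135) (nat_lit 316) (nat_lit 269)))) (XT.nd (nat_lit 94) (nat_lit 168) (nat_lit 0) (XT.lf (nat_lit 84) (nat_lit 23103310054) (nat_lit 0) (nat_lit 15816577256) (nat_lit 168) (nat_lit 23103310054) (nat_lit 47) (nat_lit 1) (nat_lit 46) (nat_lit 1) (nat_lit 48) (nat_lit 1) (nat_lit 136) (nat_lit 316) (nat_lit 268)) (XT.nd (nat_lit 94) (nat_lit 0) (nat_lit 0) (XT.lf (nat_lit 252) (nat_lit 28668577636) (nat_lit 0) (nat_lit 16134807975) (nat_lit 168) (nat_lit 16134807975) (nat_lit 47) (nat_lit 1) (nat_lit 44) (nat_lit 1) (nat_lit 46) (nat_lit 1) (nat_lit 137) (nat_lit 316) (nat_lit 267)) (XT.lf (nat_lit 84) (nat_lit 5747851680) (nat_lit 0) (nat_lit 48386773452) (nat_lit 252) (nat_lit 5747851680) (nat_lit 45) (nat_lit 1) (nat_lit 44) (nat_lit 1) (nat_lit 47) (nat_lit 1) (nat_lit 138) (nat_lit 316)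 (nat_lit 266))))) (XT.nd (nat_lit 282) (nat_lit 420) (nat_lit 0) (XT.nd (nat_lit 94) (nat_lit 168) (nat_lit 0) (XT.lf (nat_lit 84) (nat_lit 26688064825) (nat_lit 0) (nat_lit 5459336506) (nat_lit 168) (nat_lit 26688064825) (nat_lit 43) (nat_lit 1) (nat_lit 42) (nat_lit 1) (nat_lit 44) (nat_lit 1) (nat_lit 139) (nat_lit 316) (nat_lit 265)) (XT.nd (nat_lit 94) (nat_lit 0) (nat_lit 0) (XT.lf (nat_lit 252) (nat_lit 36302613028) (nat_lit 0) (nat_lit 10757134496) (nat_lit 168) (nat_lit 10757134496) (nat_lit 43) (nat_lit 1) (nat_lit 40) (nat_lit 1) (nat_lit 42) (nat_lit 1) (nat_lit 140) (nat_lit 316) (nat_lit 264)) (XT.lf (nat_lit 84) (nat_lit 9723498101) (nat_lit 0) (nat_lit 37371466413) (nat_lit 252) (nat_lit 9723498101) (nat_lit 41) (nat_lit 1) (nat_lit 40) (nat_lit 1) (nat_lit 43) (nat_lit 1) (nat_lit 141) (nat_lit 316) (nat_lit 263)))) (XT.nd (nat_lit 188) (nat_lit 84) (nat_lit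 0) (XT.nd (nat_lit 94) (nat_lit 252) (nat_lit 0) (XT.lf (nat_lit 168) (nat_lit 2791262211) (nat_lit 0) (nat_lit 26523810829) (nat_lit 84) (nat_lit 26523810829) (nat_lit 41) (nat_lit 1) (nat_lit 39) (nat_lit 1) (nat_lit 40) (nat_lit 1) (nat_lit 142) (nat_lit 316) (nat_lit 262)) (XT.lf (nat_lit 252) (nat_lit 41977586015) (nat_lit 0) (nat_lit 6452766929) (nat_lit 168) (nat_lit 6452766929) (nat_lit 39) (nat_lit 1) (nat_lit 36) (nat_lit 1) (nat_lit 38) (nat_lit 1) (nat_lit 143) (nat_lit 316) (nat_lit 261))) (XT.nd (nat_lit 94) (nat_lit 84) (nat_lit 0) (XT.lf (nat_lit 84) (nat_lit 12756428141) (nat_lit 0) (nat_lit 28425167568) (nat_lit 252) (nat_lit 12756428141) (nat_lit 37) (nat_lit 1) (nat_lit 36) (nat_lit 1) (nat_lit 39) (nat_lit 1) (nat_lit 144) (nat_lit 316) (nat_lit 260)) (XT.lf (nat_lit 168) (nat_lit 9373690855) (nat_lit 0) (nat_lit 21821204810) (nat_lit 84) (nat_lit 21821204810)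 (nat_lit 37) (nat_lit 1) (nat_lit 35) (nat_lit 1) (nat_lit 36) (nat_lit 1) (nat_lit 145) (nat_lit 316) (nat_lit 259)))))) (XT.nd (nat_lit 658) (nat_lit 672) (nat_lit 0) (XT.nd (nat_lit 282) (nat_lit 336) (nat_lit 0) (XT.nd (nat_lit 94) (nat_lit 84) (nat_lit 0) (XT.lf (nat_lit 252) (nat_lit 46069670030) (nat_lit 0) (nat_lit 3025703281) (nat_lit 168) (nat_lit 3025703281) (nat_lit 35) (nat_lit 1) (nat_lit 32) (nat_lit 1) (nat_lit 34) (nat_lit 1) (nat_lit 146) (nat_lit 316) (nat_lit 258)) (XT.nd (nat_lit 94) (nat_lit 84) (nat_lit 0) (XT.lf (nat_lit 84) (nat_lit 15025108991) (nat_lit 0) (nat_lit 21175522051) (nat_lit 252) (nat_lit 15025108991) (nat_lit 33) (nat_lit 1) (nat_lit 32) (nat_lit 1) (nat_lit 35) (nat_lit 1) (nat_lit 147) (nat_lit 316) (nat_lit 257)) (XT.lf (nat_lit 168) (nat_lit 14452056308) (nat_lit 0) (nat_lit 17952359200) (nat_lit 84) (nat_lit 17952359200) (nat_lit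 33) (nat_lit 1) (nat_lit 31) (nat_lit 1) (nat_lit 32) (nat_lit 1) (nat_lit 148) (nat_lit 316) (nat_lit 256)))) (XT.nd (nat_lit 188) (nat_lit 84) (nat_lit 0) (XT.nd (nat_lit 94) (nat_lit 0) (nat_lit 0) (XT.lf (nat_lit 252) (nat_lit 48886970718) (nat_lit 0) (nat_lit 314964014) (nat_lit 168) (nat_lit 314964014) (nat_lit 31) (nat_lit 1) (nat_lit 28) (nat_lit 1) (nat_lit 30) (nat_lit 1) (nat_lit 149) (nat_lit 316) (nat_lit 255)) (XT.lf (nat_lit 84) (nat_lit 16675826723) (nat_lit 0) (nat_lit 15316455678) (nat_lit 252) (nat_lit 16675826723) (nat_lit 29) (nat_lit 1) (nat_lit 28) (nat_lit 1) (nat_lit 31) (nat_lit 1) (nat_lit 150) (nat_lit 316) (nat_lit 254))) (XT.nd (nat_lit 94) (nat_lit 0) (nat_lit 0) (XT.lf (nat_lit 168) (nat_lit 18309073580) (nat_lit 0) (nat_lit 14769450342) (nat_lit 84) (nat_lit 14769450342) (nat_lit 29) (nat_lit 1) (nat_lit 27) (nat_lit 1) (nat_lit 28) (nat_lit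 1) (nat_lit 151) (nat_lit 316) (nat_lit 253)) (XT.lf (nat_lit 0) (nat_lit 1841329147) (nat_lit 0) (nat_lit 43369942354) (nat_lit 168) (nat_lit 1841329147) (nat_lit 27) (nat_lit 3) (nat_lit 27) (nat_lit 1) (nat_lit 29) (nat_lit 1) (nat_lit 152) (nat_lit 316) (nat_lit 252))))) (XT.nd (nat_lit 282) (nat_lit 420) (nat_lit 0) (XT.nd (nat_lit 94) (nat_lit 84) (nat_lit 0) (XT.lf (nat_lit 84) (nat_lit 17828417601) (nat_lit 0) (nat_lit 10596411022) (nat_lit 168) (nat_lit 17828417601) (nat_lit 26) (nat_lit 1) (nat_lit 25) (nat_lit 1) (nat_lit 27) (nat_lit 1) (nat_lit 153) (nat_lit 316) (nat_lit 251)) (XT.nd (nat_lit 94) (nat_lit 0) (nat_lit 0) (XT.lf (nat_lit 168) (nat_lit 21176568802) (nat_lit 0) (nat_lit 12150863347) (nat_lit 84) (nat_lit 12150863347) (nat_lit 26) (nat_lit 1) (nat_lit 24) (nat_lit 1) (nat_lit 25) (nat_lit 1) (nat_lit 154) (nat_lit 316) (nat_lit 250)) (XT.lf (nat_lit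 0) (nat_lit 3519341015) (nat_lit 0) (nat_lit 37685033876) (nat_lit 168) (nat_lit 3519341015) (nat_lit 24) (nat_lit 3) (nat_lit 24) (nat_lit 1) (nat_lit 26) (nat_lit 1) (nat_lit 155) (nat_lit 316) (nat_lit 249)))) (XT.nd (nat_lit 188) (nat_lit 168) (nat_lit 0) (XT.nd (nat_lit 94) (nat_lit 84) (nat_lit 0) (XT.lf (nat_lit 84) (nat_lit 18580982032) (nat_lit 0) (nat_lit 6808669791) (nat_lit 168) (nat_lit 18580982032) (nat_lit 23) (nat_lit 1) (nat_lit 22) (nat_lit 1) (nat_lit 24) (nat_lit 1) (nat_lit 156) (nat_lit 316) (nat_lit 248)) (XT.lf (nat_lit 168) (nat_lit 23244538091) (nat_lit 0) (nat_lit 9996545347) (nat_lit 84) (nat_lit 9996545347) (nat_lit 23) (nat_lit 1) (nat_lit 21) (nat_lit 1) (nat_lit 22) (nat_lit 1) (nat_lit 157) (nat_lit 316) (nat_lit 247))) (XT.nd (nat_lit 94) (nat_lit 168) (nat_lit 0) (XT.lf (nat_lit 0) (nat_lit 4804394343) (nat_lit 0) (nat_lit 32912594412)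 (nat_lit 168) (nat_lit 4804394343) (nat_lit 21) (nat_lit 3) (nat_lit 21) (nat_lit 1) (nat_lit 23) (nat_lit 1) (nat_lit 158) (nat_lit 316) (nat_lit 246)) (XT.lf (nat_lit 84) (nat_lit 19013761568) (nat_lit 0) (nat_lit 3783391601) (nat_lit 168) (nat_lit 19013761568) (nat_lit 20) (nat_lit 1) (nat_lit 19) (nat_lit 1) (nat_lit 21) (nat_lit 1) (nat_lit 159) (nat_lit 316) (nat_lit 245))))))) (XT.nd (nat_lit 1222) (nat_lit 504) (nat_lit 0) (XT.nd (nat_lit 564) (nat_lit 672) (nat_lit 0) (XT.nd (nat_lit 282) (nat_lit 168) (nat_lit 0) (XT.nd (nat_lit 94) (nat_lit 168) (nat_lit 0) (XT.lf (nat_lit 168) (nat_lit 24668598566) (nat_lit 0) (nat_lit 8224182596) (nat_lit 84) (nat_lit 8224182596) (nat_lit 20) (nat_lit 1) (nat_lit 18) (nat_lit 1) (nat_lit 19) (nat_lit 1) (nat_lit 160) (nat_lit 316) (nat_lit 244)) (XT.nd (nat_lit 94) (nat_lit 168) (nat_lit 0) (XT.lf (nat_lit 0) (nat_lit 5770705002)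 (nat_lit 0) (nat_lit 28895390761) (nat_lit 168) (nat_lit 5770705002) (nat_lit 18) (nat_lit 3) (nat_lit 18) (nat_lit 1) (nat_lit 20) (nat_lit 1) (nat_lit 161) (nat_lit 316) (nat_lit 243)) (XT.lf (nat_lit 84) (nat_lit 19192327427) (nat_lit 0) (nat_lit 1381064789) (nat_lit 168) (nat_lit 19192327427) (nat_lit 17) (nat_lit 1) (nat_lit 16) (nat_lit 1) (nat_lit 18) (nat_lit 1) (nat_lit 162) (nat_lit 316) (nat_lit 242)))) (XT.nd (nat_lit 94) (nat_lit 84) (nat_lit 0) (XT.lf (nat_lit 168) (nat_lit 25576116663) (nat_lit 0) (nat_lit 6766055375) (nat_lit 84) (nat_lit 6766055375) (nat_lit 17) (nat_lit 1) (nat_lit 15) (nat_lit 1) (nat_lit 16) (nat_lit 1) (nat_lit 163) (nat_lit 316) (nat_lit 241)) (XT.nd (nat_lit 94) (nat_lit 84) (nat_lit 0) (XT.lf (nat_lit 0) (nat_lit 6479114130) (nat_lit 0) (nat_lit 25503850333) (nat_lit 168) (nat_lit 6479114130) (nat_lit 15) (nat_lit 3) (nat_lit 15)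 (nat_lit 1) (nat_lit 17) (nat_lit 1) (nat_lit 164) (nat_lit 316) (nat_lit 240)) (XT.lf (nat_lit 84) (nat_lit 529839262) (nat_lit 0) (nat_lit 18648635646) (nat_lit 84) (nat_lit 18648635646) (nat_lit 15) (nat_lit 3) (nat_lit 14) (nat_lit 1) (nat_lit 15) (nat_lit 1) (nat_lit 165) (nat_lit 316) (nat_lit 239))))) (XT.nd (nat_lit 282) (nat_lit 420) (nat_lit 0) (XT.nd (nat_lit 94) (nat_lit 84) (nat_lit 0) (XT.lf (nat_lit 168) (nat_lit 26071248354) (nat_lit 0) (nat_lit 5566450501) (nat_lit 84) (nat_lit 5566450501) (nat_lit 14) (nat_lit 1) (nat_lit 12) (nat_lit 1) (nat_lit 13) (nat_lit 1) (nat_lit 166) (nat_lit 316) (nat_lit 238)) (XT.nd (nat_lit 94) (nat_lit 84) (nat_lit 0) (XT.lf (nat_lit 0) (nat_lit 6979469747) (nat_lit 0) (nat_lit 22631167304) (nat_lit 168) (nat_lit 6979469747) (nat_lit 12) (nat_lit 3) (nat_lit 12) (nat_lit 1) (nat_lit 14) (nat_lit 1) (nat_lit 167) (nat_lit 316)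 (nat_lit 237)) (XT.lf (nat_lit 84) (nat_lit 2058388421) (nat_lit 0) (nat_lit 16964767046) (nat_lit 84) (nat_lit 16964767046) (nat_lit 12) (nat_lit 3) (nat_lit 11) (nat_lit 1) (nat_lit 12) (nat_lit 1) (nat_lit 168) (nat_lit 316) (nat_lit 236)))) (XT.nd (nat_lit 188) (nat_lit 252) (nat_lit 0) (XT.nd (nat_lit 94) (nat_lit 0) (nat_lit 0) (XT.lf (nat_lit 168) (nat_lit 26239084237) (nat_lit 0) (nat_lit 4579532603) (nat_lit 84) (nat_lit 4579532603) (nat_lit 11) (nat_lit 1) (nat_lit 9) (nat_lit 1) (nat_lit 10) (nat_lit 1) (nat_lit 169) (nat_lit 316) (nat_lit 235)) (XT.lf (nat_lit 0) (nat_lit 7312585622) (nat_lit 0) (nat_lit 20189275937) (nat_lit 168) (nat_lit 7312585622) (nat_lit 9) (nat_lit 3) (nat_lit 9) (nat_lit 1) (nat_lit 11) (nat_lit 1) (nat_lit 170) (nat_lit 316) (nat_lit 234))) (XT.nd (nat_lit 94) (nat_lit 168) (nat_lit 0) (XT.lf (nat_lit 84) (nat_lit 3238668246) (nat_lit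 0) (nat_lit 15502182831) (nat_lit 84) (nat_lit 15502182831) (nat_lit 9) (nat_lit 3) (nat_lit 8) (nat_lit 1) (nat_lit 9) (nat_lit 1) (nat_lit 171) (nat_lit 316) (nat_lit 233)) (XT.lf (nat_lit 168) (nat_lit 26149058295) (nat_lit 0) (nat_lit 3767592806) (nat_lit 84) (nat_lit 3767592806) (nat_lit 8) (nat_lit 1) (nat_lit 6) (nat_lit 1) (nat_lit 7) (nat_lit 1) (nat_lit 172) (nat_lit 316) (nat_lit 232)))))) (XT.nd (nat_lit 658) (nat_lit 0) (nat_lit 0) (XT.nd (nat_lit 282) (nat_lit 252) (nat_lit 0) (XT.nd (nat_lit 94) (nat_lit 252) (nat_lit 0) (XT.lf (nat_lit 0) (nat_lit 7511852373) (nat_lit 0) (nat_lit 18105537362) (nat_lit 168) (nat_lit 7511852373) (nat_lit 6) (nat_lit 3) (nat_lit 6) (nat_lit 1) (nat_lit 8) (nat_lit 1) (nat_lit 173) (nat_lit 316) (nat_lit 231)) (XT.nd (nat_lit 94) (nat_lit 168) (nat_lit 0) (XT.lf (nat_lit 84) (nat_lit 4136105142) (nat_lit 0) (nat_lit 14225328940)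 (nat_lit 84) (nat_lit 14225328940) (nat_lit 6) (nat_lit 3) (nat_lit 5) (nat_lit 1) (nat_lit 6) (nat_lit 1) (nat_lit 174) (nat_lit 316) (nat_lit 230)) (XT.lf (nat_lit 168) (nat_lit 25857750932) (nat_lit 0) (nat_lit 3099607925) (nat_lit 84) (nat_lit 3099607925) (nat_lit 5) (nat_lit 1) (nat_lit 3) (nat_lit 1) (nat_lit 4) (nat_lit 1) (nat_lit 175) (nat_lit 316) (nat_lit 229)))) (XT.nd (nat_lit 188) (nat_lit 168) (nat_lit 0) (XT.nd (nat_lit 94) (nat_lit 84) (nat_lit 0) (XT.lf (nat_lit 0) (nat_lit 7604562475) (nat_lit 0) (nat_lit 16320013332) (nat_lit 168) (nat_lit 7604562475) (nat_lit 3) (nat_lit 3) (nat_lit 3) (nat_lit 1) (nat_lit 5) (nat_lit 1) (nat_lit 176) (nat_lit 316) (nat_lit 228)) (XT.lf (nat_lit 84) (nat_lit 4804350374) (nat_lit 0) (nat_lit 13104779762) (nat_lit 84) (nat_lit 13104779762) (nat_lit 3) (nat_lit 3) (nat_lit 2) (nat_lit 1) (nat_lit 3) (nat_lit 1) (nat_lit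 177) (nat_lit 316) (nat_lit 227))) (XT.nd (nat_lit 94) (nat_lit 0) (nat_lit 0) (XT.lf (nat_lit 0) (nat_lit 44323405549) (nat_lit 0) (nat_lit 0) (nat_lit 0) (nat_lit 0) (nat_lit 0) (nat_lit 0) (nat_lit 1) (nat_lit 0) (nat_lit 1) (nat_lit 0) (nat_lit 178) (nat_lit 316) (nat_lit 226)) (XT.lf (nat_lit 0) (nat_lit 44297581141) (nat_lit 0) (nat_lit 0) (nat_lit 0) (nat_lit 0) (nat_lit 0) (nat_lit 0) (nat_lit 1) (nat_lit 0) (nat_lit 1) (nat_lit 0) (nat_lit 179) (nat_lit 316) (nat_lit 225))))) (XT.nd (nat_lit 282) (nat_lit 0) (nat_lit 0) (XT.nd (nat_lit 94) (nat_lit 0) (nat_lit 0) (XT.lf (nat_lit 0) (nat_lit 44272986466) (nat_lit 0) (nat_lit 0) (nat_lit 0) (nat_lit 0) (nat_lit 0) (nat_lit 0) (nat_lit 1) (nat_lit 0) (nat_lit 1) (nat_lit 0) (nat_lit 180) (nat_lit 316) (nat_lit 224)) (XT.nd (nat_lit 94) (nat_lit 0) (nat_lit 0) (XT.lf (nat_lit 0) (nat_lit 44249562966) (nat_lit 0) (nat_lit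 0) (nat_lit 0) (nat_lit 0) (nat_lit 0) (nat_lit 0) (nat_lit 1) (nat_lit 0) (nat_lit 1) (nat_lit 0) (nat_lit 181) (nat_lit 316) (nat_lit 223)) (XT.lf (nat_lit 0) (nat_lit 44227254870) (nat_lit 0) (nat_lit 0) (nat_lit 0) (nat_lit 0) (nat_lit 0) (nat_lit 0) (nat_lit 1) (nat_lit 0) (nat_lit 1) (nat_lit 0) (nat_lit 182) (nat_lit 316) (nat_lit 222)))) (XT.nd (nat_lit 3478) (nat_lit 0) (nat_lit 0) (XT.nd (nat_lit 94) (nat_lit 0) (nat_lit 0) (XT.lf (nat_lit 0) (nat_lit 44206009065) (nat_lit 0) (nat_lit 0) (nat_lit 0) (nat_lit 0) (nat_lit 0) (nat_lit 0) (nat_lit 1) (nat_lit 0) (nat_lit 1) (nat_lit 0) (nat_lit 183) (nat_lit 316) (nat_lit 221)) (XT.lf (nat_lit 0) (nat_lit 44185774965) (nat_lit 0) (nat_lit 0) (nat_lit 0) (nat_lit 0) (nat_lit 0) (nat_lit 0) (nat_lit 1) (nat_lit 0) (nat_lit 1) (nat_lit 0) (nat_lit 184) (nat_lit 316) (nat_lit 220))) (XT.nd (nat_lit 94) (nat_lit 0) (nat_lit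 0) (XT.lf (nat_lit 0) (nat_lit 43850964312) (nat_lit 0) (nat_lit 0) (nat_lit 0) (nat_lit 0) (nat_lit 0) (nat_lit 0) (nat_lit 1) (nat_lit 0) (nat_lit 1) (nat_lit 0) (nat_lit 220) (nat_lit 316) (nat_lit 184)) (XT.lf (nat_lit 0) (nat_lit 43847637105) (nat_lit 0) (nat_lit 0) (nat_lit 0) (nat_lit 0) (nat_lit 0) (nat_lit 0) (nat_lit 1) (nat_lit 0) (nat_lit 1) (nat_lit 0) (nat_lit 221) (nat_lit 316) (nat_lit 183))))))))
noncomputable def ec237 : XT := (XT.nd (nat_lit 2538) (nat_lit 0) (nat_lit 0) (XT.nd (nat_lit 1222) (nat_lit 0) (nat_lit 0) (XT.nd (nat_lit 564) (nat_lit 0) (nat_lit 0) (XT.nd (nat_lit 282) (nat_lit 0) (nat_lit 0) (XT.nd (nat_lit 94) (nat_lit 0) (nat_lit 0) (XT.lf (nat_lit 0) (nat_lit 43844468337) (nat_lit 0) (nat_lit 0) (nat_lit 0) (nat_lit 0) (nat_lit 0) (nat_lit 0) (nat_lit 1) (nat_lit 0) (nat_lit 1) (nat_lit 0) (nat_lit 222) (nat_lit 316) (nat_lit 182)) (XT.nd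 (nat_lit 94) (nat_lit 0) (nat_lit 0) (XT.lf (nat_lit 0) (nat_lit 43841450462) (nat_lit 0) (nat_lit 0) (nat_lit 0) (nat_lit 0) (nat_lit 0) (nat_lit 0) (nat_lit 1) (nat_lit 0) (nat_lit 1) (nat_lit 0) (nat_lit 223) (nat_lit 316) (nat_lit 181)) (XT.lf (nat_lit 0) (nat_lit 43838576295) (nat_lit 0) (nat_lit 0) (nat_lit 0) (nat_lit 0) (nat_lit 0) (nat_lit 0) (nat_lit 1) (nat_lit 0) (nat_lit 1) (nat_lit 0) (nat_lit 224) (nat_lit 316) (nat_lit 180)))) (XT.nd (nat_lit 94) (nat_lit 0) (nat_lit 0) (XT.lf (nat_lit 0) (nat_lit 43835838994) (nat_lit 0) (nat_lit 0) (nat_lit 0) (nat_lit 0) (nat_lit 0) (nat_lit 0) (nat_lit 1) (nat_lit 0) (nat_lit 1) (nat_lit 0) (nat_lit 225) (nat_lit 316) (nat_lit 179)) (XT.nd (nat_lit 94) (nat_lit 0) (nat_lit 0) (XT.lf (nat_lit 0) (nat_lit 43833232040) (nat_lit 0) (nat_lit 0) (nat_lit 0) (nat_lit 0) (nat_lit 0) (nat_lit 0) (nat_lit 1) (nat_lit 0) (nat_lit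 1) (nat_lit 0) (nat_lit 226) (nat_lit 316) (nat_lit 178)) (XT.lf (nat_lit 0) (nat_lit 43830749227) (nat_lit 0) (nat_lit 0) (nat_lit 0) (nat_lit 0) (nat_lit 0) (nat_lit 0) (nat_lit 1) (nat_lit 0) (nat_lit 1) (nat_lit 0) (nat_lit 227) (nat_lit 316) (nat_lit 177))))) (XT.nd (nat_lit 282) (nat_lit 0) (nat_lit 0) (XT.nd (nat_lit 94) (nat_lit 0) (nat_lit 0) (XT.lf (nat_lit 0) (nat_lit 43828384643) (nat_lit 0) (nat_lit 0) (nat_lit 0) (nat_lit 0) (nat_lit 0) (nat_lit 0) (nat_lit 1) (nat_lit 0) (nat_lit 1) (nat_lit 0) (nat_lit 228) (nat_lit 316) (nat_lit 176)) (XT.nd (nat_lit 94) (nat_lit 0) (nat_lit 0) (XT.lf (nat_lit 0) (nat_lit 43826132658) (nat_lit 0) (nat_lit 0) (nat_lit 0) (nat_lit 0) (nat_lit 0) (nat_lit 0) (nat_lit 1) (nat_lit 0) (nat_lit 1) (nat_lit 0) (nat_lit 229) (nat_lit 316) (nat_lit 175)) (XT.lf (nat_lit 0) (nat_lit 43823987911) (nat_lit 0) (nat_lit 0) (nat_lit 0)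 (nat_lit 0) (nat_lit 0) (nat_lit 0) (nat_lit 1) (nat_lit 0) (nat_lit 1) (nat_lit 0) (nat_lit 230) (nat_lit 316) (nat_lit 174)))) (XT.nd (nat_lit 188) (nat_lit 0) (nat_lit 0) (XT.nd (nat_lit 94) (nat_lit 0) (nat_lit 0) (XT.lf (nat_lit 0) (nat_lit 43821945294) (nat_lit 0) (nat_lit 0) (nat_lit 0) (nat_lit 0) (nat_lit 0) (nat_lit 0) (nat_lit 1) (nat_lit 0) (nat_lit 1) (nat_lit 0) (nat_lit 231) (nat_lit 316) (nat_lit 173)) (XT.lf (nat_lit 0) (nat_lit 43819999945) (nat_lit 0) (nat_lit 0) (nat_lit 0) (nat_lit 0) (nat_lit 0) (nat_lit 0) (nat_lit 1) (nat_lit 0) (nat_lit 1) (nat_lit 0) (nat_lit 232) (nat_lit 316) (nat_lit 172))) (XT.nd (nat_lit 94) (nat_lit 0) (nat_lit 0) (XT.lf (nat_lit 0) (nat_lit 43818147232) (nat_lit 0) (nat_lit 0) (nat_lit 0) (nat_lit 0) (nat_lit 0) (nat_lit 0) (nat_lit 1) (nat_lit 0) (nat_lit 1) (nat_lit 0) (nat_lit 233) (nat_lit 316) (nat_lit 171)) (XT.lf (nat_lit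 0) (nat_lit 43816382743) (nat_lit 0) (nat_lit 0) (nat_lit 0) (nat_lit 0) (nat_lit 0) (nat_lit 0) (nat_lit 1) (nat_lit 0) (nat_lit 1) (nat_lit 0) (nat_lit 234) (nat_lit 316) (nat_lit 170)))))) (XT.nd (nat_lit 658) (nat_lit 0) (nat_lit 0) (XT.nd (nat_lit 282) (nat_lit 0) (nat_lit 0) (XT.nd (nat_lit 94) (nat_lit 0) (nat_lit 0) (XT.lf (nat_lit 0) (nat_lit 43814702277) (nat_lit 0) (nat_lit 0) (nat_lit 0) (nat_lit 0) (nat_lit 0) (nat_lit 0) (nat_lit 1) (nat_lit 0) (nat_lit 1) (nat_lit 0) (nat_lit 235) (nat_lit 316) (nat_lit 169)) (XT.nd (nat_lit 94) (nat_lit 0) (nat_lit 0) (XT.lf (nat_lit 0) (nat_lit 43813101834) (nat_lit 0) (nat_lit 0) (nat_lit 0) (nat_lit 0) (nat_lit 0) (nat_lit 0) (nat_lit 1) (nat_lit 0) (nat_lit 1) (nat_lit 0) (nat_lit 236) (nat_lit 316) (nat_lit 168)) (XT.lf (nat_lit 0) (nat_lit 43811577602) (nat_lit 0) (nat_lit 0) (nat_lit 0) (nat_lit 0) (nat_lit 0) (nat_lit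 0) (nat_lit 1) (nat_lit 0) (nat_lit 1) (nat_lit 0) (nat_lit 237) (nat_lit 316) (nat_lit 167)))) (XT.nd (nat_lit 188) (nat_lit 0) (nat_lit 0) (XT.nd (nat_lit 94) (nat_lit 0) (nat_lit 0) (XT.lf (nat_lit 0) (nat_lit 43810125953) (nat_lit 0) (nat_lit 0) (nat_lit 0) (nat_lit 0) (nat_lit 0) (nat_lit 0) (nat_lit 1) (nat_lit 0) (nat_lit 1) (nat_lit 0) (nat_lit 238) (nat_lit 316) (nat_lit 166)) (XT.lf (nat_lit 0) (nat_lit 43808743429) (nat_lit 0) (nat_lit 0) (nat_lit 0) (nat_lit 0) (nat_lit 0) (nat_lit 0) (nat_lit 1) (nat_lit 0) (nat_lit 1) (nat_lit 0) (nat_lit 239) (nat_lit 316) (nat_lit 165))) (XT.nd (nat_lit 94) (nat_lit 0) (nat_lit 0) (XT.lf (nat_lit 0) (nat_lit 43807426741) (nat_lit 0) (nat_lit 0) (nat_lit 0) (nat_lit 0) (nat_lit 0) (nat_lit 0) (nat_lit 1) (nat_lit 0) (nat_lit 1) (nat_lit 0) (nat_lit 240) (nat_lit 316) (nat_lit 164)) (XT.lf (nat_lit 0) (nat_lit 43806172751)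 (nat_lit 0) (nat_lit 0) (nat_lit 0) (nat_lit 0) (nat_lit 0) (nat_lit 0) (nat_lit 1) (nat_lit 0) (nat_lit 1) (nat_lit 0) (nat_lit 241) (nat_lit 316) (nat_lit 163))))) (XT.nd (nat_lit 282) (nat_lit 0) (nat_lit 0) (XT.nd (nat_lit 94) (nat_lit 0) (nat_lit 0) (XT.lf (nat_lit 0) (nat_lit 43804978476) (nat_lit 0) (nat_lit 0) (nat_lit 0) (nat_lit 0) (nat_lit 0) (nat_lit 0) (nat_lit 1) (nat_lit 0) (nat_lit 1) (nat_lit 0) (nat_lit 242) (nat_lit 316) (nat_lit 162)) (XT.nd (nat_lit 94) (nat_lit 0) (nat_lit 0) (XT.lf (nat_lit 0) (nat_lit 43803841070) (nat_lit 0) (nat_lit 0) (nat_lit 0) (nat_lit 0) (nat_lit 0) (nat_lit 0) (nat_lit 1) (nat_lit 0) (nat_lit 1) (nat_lit 0) (nat_lit 243) (nat_lit 316) (nat_lit 161)) (XT.lf (nat_lit 0) (nat_lit 43802757827) (nat_lit 0) (nat_lit 0) (nat_lit 0) (nat_lit 0) (nat_lit 0) (nat_lit 0) (nat_lit 1) (nat_lit 0) (nat_lit 1) (nat_lit 0) (nat_lit 244) (nat_lit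 316) (nat_lit 160)))) (XT.nd (nat_lit 188) (nat_lit 0) (nat_lit 0) (XT.nd (nat_lit 94) (nat_lit 0) (nat_lit 0) (XT.lf (nat_lit 0) (nat_lit 43801726167) (nat_lit 0) (nat_lit 0) (nat_lit 0) (nat_lit 0) (nat_lit 0) (nat_lit 0) (nat_lit 1) (nat_lit 0) (nat_lit 1) (nat_lit 0) (nat_lit 245) (nat_lit 316) (nat_lit 159)) (XT.lf (nat_lit 0) (nat_lit 43800743634) (nat_lit 0) (nat_lit 0) (nat_lit 0) (nat_lit 0) (nat_lit 0) (nat_lit 0) (nat_lit 1) (nat_lit 0) (nat_lit 1) (nat_lit 0) (nat_lit 246) (nat_lit 316) (nat_lit 158))) (XT.nd (nat_lit 94) (nat_lit 0) (nat_lit 0) (XT.lf (nat_lit 0) (nat_lit 43799807887) (nat_lit 0) (nat_lit 0) (nat_lit 0) (nat_lit 0) (nat_lit 0) (nat_lit 0) (nat_lit 1) (nat_lit 0) (nat_lit 1) (nat_lit 0) (nat_lit 247) (nat_lit 316) (nat_lit 157)) (XT.lf (nat_lit 0) (nat_lit 43798916701) (nat_lit 0) (nat_lit 0) (nat_lit 0) (nat_lit 0) (nat_lit 0) (nat_lit 0) (nat_lit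 1) (nat_lit 0) (nat_lit 1) (nat_lit 0) (nat_lit 248) (nat_lit 316) (nat_lit 156))))))) (XT.nd (nat_lit 1316) (nat_lit 0) (nat_lit 0) (XT.nd (nat_lit 658) (nat_lit 0) (nat_lit 0) (XT.nd (nat_lit 282) (nat_lit 0) (nat_lit 0) (XT.nd (nat_lit 94) (nat_lit 0) (nat_lit 0) (XT.lf (nat_lit 0) (nat_lit 43798067951) (nat_lit 0) (nat_lit 0) (nat_lit 0) (nat_lit 0) (nat_lit 0) (nat_lit 0) (nat_lit 1) (nat_lit 0) (nat_lit 1) (nat_lit 0) (nat_lit 249) (nat_lit 316) (nat_lit 155)) (XT.nd (nat_lit 94) (nat_lit 0) (nat_lit 0) (XT.lf (nat_lit 0) (nat_lit 43797259619) (nat_lit 0) (nat_lit 0) (nat_lit 0) (nat_lit 0) (nat_lit 0) (nat_lit 0) (nat_lit 1) (nat_lit 0) (nat_lit 1) (nat_lit 0) (nat_lit 250) (nat_lit 316) (nat_lit 154)) (XT.lf (nat_lit 0) (nat_lit 43796489778) (nat_lit 0) (nat_lit 0) (nat_lit 0) (nat_lit 0) (nat_lit 0) (nat_lit 0) (nat_lit 1) (nat_lit 0) (nat_lit 1) (nat_lit 0) (nat_lit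 251) (nat_lit 316) (nat_lit 153)))) (XT.nd (nat_lit 188) (nat_lit 0) (nat_lit 0) (XT.nd (nat_lit 94) (nat_lit 0) (nat_lit 0) (XT.lf (nat_lit 0) (nat_lit 43795756596) (nat_lit 0) (nat_lit 0) (nat_lit 0) (nat_lit 0) (nat_lit 0) (nat_lit 0) (nat_lit 1) (nat_lit 0) (nat_lit 1) (nat_lit 0) (nat_lit 252) (nat_lit 316) (nat_lit 152)) (XT.lf (nat_lit 0) (nat_lit 43795058328) (nat_lit 0) (nat_lit 0) (nat_lit 0) (nat_lit 0) (nat_lit 0) (nat_lit 0) (nat_lit 1) (nat_lit 0) (nat_lit 1) (nat_lit 0) (nat_lit 253) (nat_lit 316) (nat_lit 151))) (XT.nd (nat_lit 94) (nat_lit 0) (nat_lit 0) (XT.lf (nat_lit 0) (nat_lit 43794393311) (nat_lit 0) (nat_lit 0) (nat_lit 0) (nat_lit 0) (nat_lit 0) (nat_lit 0) (nat_lit 1) (nat_lit 0) (nat_lit 1) (nat_lit 0) (nat_lit 254) (nat_lit 316) (nat_lit 150)) (XT.lf (nat_lit 0) (nat_lit 43793759961) (nat_lit 0) (nat_lit 0) (nat_lit 0) (nat_lit 0) (nat_lit 0)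 (nat_lit 0) (nat_lit 1) (nat_lit 0) (nat_lit 1) (nat_lit 0) (nat_lit 255) (nat_lit 316) (nat_lit 149))))) (XT.nd (nat_lit 282) (nat_lit 0) (nat_lit 0) (XT.nd (nat_lit 94) (nat_lit 0) (nat_lit 0) (XT.lf (nat_lit 0) (nat_lit 43793156771) (nat_lit 0) (nat_lit 0) (nat_lit 0) (nat_lit 0) (nat_lit 0) (nat_lit 0) (nat_lit 1) (nat_lit 0) (nat_lit 1) (nat_lit 0) (nat_lit 256) (nat_lit 316) (nat_lit 148)) (XT.nd (nat_lit 94) (nat_lit 0) (nat_lit 0) (XT.lf (nat_lit 0) (nat_lit 43792582304) (nat_lit 0) (nat_lit 0) (nat_lit 0) (nat_lit 0) (nat_lit 0) (nat_lit 0) (nat_lit 1) (nat_lit 0) (nat_lit 1) (nat_lit 0) (nat_lit 257) (nat_lit 316) (nat_lit 147)) (XT.lf (nat_lit 0) (nat_lit 43792035192) (nat_lit 0) (nat_lit 0) (nat_lit 0) (nat_lit 0) (nat_lit 0) (nat_lit 0) (nat_lit 1) (nat_lit 0) (nat_lit 1) (nat_lit 0) (nat_lit 258) (nat_lit 316) (nat_lit 146)))) (XT.nd (nat_lit 188) (nat_lit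 0) (nat_lit 0) (XT.nd (nat_lit 94) (nat_lit 0) (nat_lit 0) (XT.lf (nat_lit 0) (nat_lit 43791514134) (nat_lit 0) (nat_lit 0) (nat_lit 0) (nat_lit 0) (nat_lit 0) (nat_lit 0) (nat_lit 1) (nat_lit 0) (nat_lit 1) (nat_lit 0) (nat_lit 259) (nat_lit 316) (nat_lit 145)) (XT.lf (nat_lit 0) (nat_lit 43791017888) (nat_lit 0) (nat_lit 0) (nat_lit 0) (nat_lit 0) (nat_lit 0) (nat_lit 0) (nat_lit 1) (nat_lit 0) (nat_lit 1) (nat_lit 0) (nat_lit 260) (nat_lit 316) (nat_lit 144))) (XT.nd (nat_lit 94) (nat_lit 0) (nat_lit 0) (XT.lf (nat_lit 0) (nat_lit 43790545272) (nat_lit 0) (nat_lit 0) (nat_lit 0) (nat_lit 0) (nat_lit 0) (nat_lit 0) (nat_lit 1) (nat_lit 0) (nat_lit 1) (nat_lit 0) (nat_lit 261) (nat_lit 316) (nat_lit 143)) (XT.lf (nat_lit 0) (nat_lit 43790095162) (nat_lit 0) (nat_lit 0) (nat_lit 0) (nat_lit 0) (nat_lit 0) (nat_lit 0) (nat_lit 1) (nat_lit 0) (nat_lit 1) (nat_lit 0) (nat_lit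 262) (nat_lit 316) (nat_lit 142)))))) (XT.nd (nat_lit 658) (nat_lit 0) (nat_lit 0) (XT.nd (nat_lit 282) (nat_lit 0) (nat_lit 0) (XT.nd (nat_lit 94) (nat_lit 0) (nat_lit 0) (XT.lf (nat_lit 0) (nat_lit 43789666486) (nat_lit 0) (nat_lit 0) (nat_lit 0) (nat_lit 0) (nat_lit 0) (nat_lit 0) (nat_lit 1) (nat_lit 0) (nat_lit 1) (nat_lit 0) (nat_lit 263) (nat_lit 316) (nat_lit 141)) (XT.nd (nat_lit 94) (nat_lit 0) (nat_lit 0) (XT.lf (nat_lit 0) (nat_lit 43789258223) (nat_lit 0) (nat_lit 0) (nat_lit 0) (nat_lit 0) (nat_lit 0) (nat_lit 0) (nat_lit 1) (nat_lit 0) (nat_lit 1) (nat_lit 0) (nat_lit 264) (nat_lit 316) (nat_lit 140)) (XT.lf (nat_lit 0) (nat_lit 43788869401) (nat_lit 0) (nat_lit 0) (nat_lit 0) (nat_lit 0) (nat_lit 0) (nat_lit 0) (nat_lit 1) (nat_lit 0) (nat_lit 1) (nat_lit 0) (nat_lit 265) (nat_lit 316) (nat_lit 139)))) (XT.nd (nat_lit 188) (nat_lit 0) (nat_lit 0) (XT.nd (nat_lit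 94) (nat_lit 0) (nat_lit 0) (XT.lf (nat_lit 0) (nat_lit 43788499095) (nat_lit 0) (nat_lit 0) (nat_lit 0) (nat_lit 0) (nat_lit 0) (nat_lit 0) (nat_lit 1) (nat_lit 0) (nat_lit 1) (nat_lit 0) (nat_lit 266) (nat_lit 316) (nat_lit 138)) (XT.lf (nat_lit 0) (nat_lit 43788146422) (nat_lit 0) (nat_lit 0) (nat_lit 0) (nat_lit 0) (nat_lit 0) (nat_lit 0) (nat_lit 1) (nat_lit 0) (nat_lit 1) (nat_lit 0) (nat_lit 267) (nat_lit 316) (nat_lit 137))) (XT.nd (nat_lit 94) (nat_lit 0) (nat_lit 0) (XT.lf (nat_lit 0) (nat_lit 43787810543) (nat_lit 0) (nat_lit 0) (nat_lit 0) (nat_lit 0) (nat_lit 0) (nat_lit 0) (nat_lit 1) (nat_lit 0) (nat_lit 1) (nat_lit 0) (nat_lit 268) (nat_lit 316) (nat_lit 136)) (XT.lf (nat_lit 0) (nat_lit 43787490658) (nat_lit 0) (nat_lit 0) (nat_lit 0) (nat_lit 0) (nat_lit 0) (nat_lit 0) (nat_lit 1) (nat_lit 0) (nat_lit 1) (nat_lit 0) (nat_lit 269) (nat_lit 316) (nat_lit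 135))))) (XT.nd (nat_lit 3666) (nat_lit 0) (nat_lit 0) (XT.nd (nat_lit 94) (nat_lit 0) (nat_lit 0) (XT.lf (nat_lit 0) (nat_lit 43787186006) (nat_lit 0) (nat_lit 0) (nat_lit 0) (nat_lit 0) (nat_lit 0) (nat_lit 0) (nat_lit 1) (nat_lit 0) (nat_lit 1) (nat_lit 0) (nat_lit 270) (nat_lit 316) (nat_lit 134)) (XT.nd (nat_lit 94) (nat_lit 0) (nat_lit 0) (XT.lf (nat_lit 0) (nat_lit 43786895861) (nat_lit 0) (nat_lit 0) (nat_lit 0) (nat_lit 0) (nat_lit 0) (nat_lit 0) (nat_lit 1) (nat_lit 0) (nat_lit 1) (nat_lit 0) (nat_lit 271) (nat_lit 316) (nat_lit 133)) (XT.lf (nat_lit 0) (nat_lit 43786619533) (nat_lit 0) (nat_lit 0) (nat_lit 0) (nat_lit 0) (nat_lit 0) (nat_lit 0) (nat_lit 1) (nat_lit 0) (nat_lit 1) (nat_lit 0) (nat_lit 272) (nat_lit 316) (nat_lit 132)))) (XT.nd (nat_lit 188) (nat_lit 0) (nat_lit 0) (XT.nd (nat_lit 94) (nat_lit 0) (nat_lit 0) (XT.lf (nat_lit 0) (nat_lit 43782001729)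 (nat_lit 0) (nat_lit 0) (nat_lit 0) (nat_lit 0) (nat_lit 0) (nat_lit 0) (nat_lit 1) (nat_lit 0) (nat_lit 1) (nat_lit 0) (nat_lit 309) (nat_lit 316) (nat_lit 95)) (XT.lf (nat_lit 0) (nat_lit 43781958455) (nat_lit 0) (nat_lit 0) (nat_lit 0) (nat_lit 0) (nat_lit 0) (nat_lit 0) (nat_lit 1) (nat_lit 0) (nat_lit 1) (nat_lit 0) (nat_lit 310) (nat_lit 316) (nat_lit 94))) (XT.nd (nat_lit 94) (nat_lit 0) (nat_lit 0) (XT.lf (nat_lit 0) (nat_lit 43781917241) (nat_lit 0) (nat_lit 0) (nat_lit 0) (nat_lit 0) (nat_lit 0) (nat_lit 0) (nat_lit 1) (nat_lit 0) (nat_lit 1) (nat_lit 0) (nat_lit 311) (nat_lit 316) (nat_lit 93)) (XT.lf (nat_lit 0) (nat_lit 43781877990) (nat_lit 0) (nat_lit 0) (nat_lit 0) (nat_lit 0) (nat_lit 0) (nat_lit 0) (nat_lit 1) (nat_lit 0) (nat_lit 1) (nat_lit 0) (nat_lit 312) (nat_lit 316) (nat_lit 92))))))))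
noncomputable def ec238 : XT := (XT.nd (nat_lit 29328) (nat_lit 0) (nat_lit 504) (XT.nd (nat_lit 24252) (nat_lit 0) (nat_lit 2940) (XT.nd (nat_lit 564) (nat_lit 0) (nat_lit 0) (XT.nd (nat_lit 282) (nat_lit 0) (nat_lit 0) (XT.nd (nat_lit 94) (nat_lit 0) (nat_lit 0) (XT.lf (nat_lit 0) (nat_lit 43781840607) (nat_lit 0) (nat_lit 0) (nat_lit 0) (nat_lit 0) (nat_lit 0) (nat_lit 0) (nat_lit 1) (nat_lit 0) (nat_lit 1) (nat_lit 0) (nat_lit 313) (nat_lit 316) (nat_lit 91)) (XT.nd (nat_lit 94) (nat_lit 0) (nat_lit 0) (XT.lf (nat_lit 0) (nat_lit 43781805005) (nat_lit 0) (nat_lit 0) (nat_lit 0) (nat_lit 0) (nat_lit 0) (nat_lit 0) (nat_lit 1) (nat_lit 0) (nat_lit 1) (nat_lit 0) (nat_lit 314) (nat_lit 316) (nat_lit 90)) (XT.lf (nat_lit 0) (nat_lit 43781771099) (nat_lit 0) (nat_lit 0) (nat_lit 0) (nat_lit 0) (nat_lit 0) (nat_lit 0) (nat_lit 1) (nat_lit 0) (nat_lit 1) (nat_lit 0) (nat_lit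 315) (nat_lit 316) (nat_lit 89)))) (XT.nd (nat_lit 94) (nat_lit 0) (nat_lit 0) (XT.lf (nat_lit 0) (nat_lit 43781738807) (nat_lit 0) (nat_lit 0) (nat_lit 0) (nat_lit 0) (nat_lit 0) (nat_lit 0) (nat_lit 1) (nat_lit 0) (nat_lit 1) (nat_lit 0) (nat_lit 316) (nat_lit 316) (nat_lit 88)) (XT.nd (nat_lit 94) (nat_lit 0) (nat_lit 0) (XT.lf (nat_lit 0) (nat_lit 43781708052) (nat_lit 0) (nat_lit 0) (nat_lit 0) (nat_lit 0) (nat_lit 0) (nat_lit 0) (nat_lit 1) (nat_lit 0) (nat_lit 1) (nat_lit 0) (nat_lit 317) (nat_lit 316) (nat_lit 87)) (XT.lf (nat_lit 0) (nat_lit 43781678762) (nat_lit 0) (nat_lit 0) (nat_lit 0) (nat_lit 0) (nat_lit 0) (nat_lit 0) (nat_lit 1) (nat_lit 0) (nat_lit 1) (nat_lit 0) (nat_lit 318) (nat_lit 316) (nat_lit 86))))) (XT.nd (nat_lit 23312) (nat_lit 0) (nat_lit 10752) (XT.nd (nat_lit 94) (nat_lit 0) (nat_lit 0) (XT.lf (nat_lit 0) (nat_lit 43781650867) (nat_lit 0)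 (nat_lit 0) (nat_lit 0) (nat_lit 0) (nat_lit 0) (nat_lit 0) (nat_lit 1) (nat_lit 0) (nat_lit 1) (nat_lit 0) (nat_lit 319) (nat_lit 316) (nat_lit 85)) (XT.nd (nat_lit 94) (nat_lit 0) (nat_lit 0) (XT.lf (nat_lit 0) (nat_lit 43781624300) (nat_lit 0) (nat_lit 0) (nat_lit 0) (nat_lit 0) (nat_lit 0) (nat_lit 0) (nat_lit 1) (nat_lit 0) (nat_lit 1) (nat_lit 0) (nat_lit 320) (nat_lit 316) (nat_lit 84)) (XT.lf (nat_lit 0) (nat_lit 43781598999) (nat_lit 0) (nat_lit 0) (nat_lit 0) (nat_lit 0) (nat_lit 0) (nat_lit 0) (nat_lit 1) (nat_lit 0) (nat_lit 1) (nat_lit 0) (nat_lit 321) (nat_lit 316) (nat_lit 83)))) (XT.nd (nat_lit 188) (nat_lit 0) (nat_lit 84) (XT.nd (nat_lit 94) (nat_lit 0) (nat_lit 0) (XT.lf (nat_lit 924) (nat_lit 23005183797) (nat_lit 0) (nat_lit 40845650952) (nat_lit 924) (nat_lit 23005183797) (nat_lit 139) (nat_lit 1) (nat_lit 128) (nat_lit 0) (nat_lit 139) (nat_lit 0)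 (nat_lit 86) (nat_lit 317) (nat_lit 317)) (XT.lf (nat_lit 924) (nat_lit 89170964480) (nat_lit 84) (nat_lit 40186850130) (nat_lit 0) (nat_lit 40186850130) (nat_lit 139) (nat_lit 1) (nat_lit 129) (nat_lit 1) (nat_lit 128) (nat_lit 0) (nat_lit 87) (nat_lit 317) (nat_lit 316))) (XT.nd (nat_lit 94) (nat_lit 0) (nat_lit 0) (XT.lf (nat_lit 924) (nat_lit 42497539025) (nat_lit 0) (nat_lit 80511050209) (nat_lit 840) (nat_lit 42497539025) (nat_lit 140) (nat_lit 1) (nat_lit 129) (nat_lit 1) (nat_lit 139) (nat_lit 1) (nat_lit 88) (nat_lit 317) (nat_lit 315)) (XT.lf (nat_lit 924) (nat_lit 79719478029) (nat_lit 84) (nat_lit 40939294283) (nat_lit 0) (nat_lit 40939294283) (nat_lit 140) (nat_lit 1) (nat_lit 130) (nat_lit 1) (nat_lit 129) (nat_lit 1) (nat_lit 89) (nat_lit 317) (nat_lit 314)))))) (XT.nd (nat_lit 4418) (nat_lit 756) (nat_lit 0) (XT.nd (nat_lit 4042) (nat_lit 7224) (nat_lit 0)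 (XT.nd (nat_lit 94) (nat_lit 0) (nat_lit 0) (XT.lf (nat_lit 924) (nat_lit 36694110183) (nat_lit 0) (nat_lit 84425650514) (nat_lit 840) (nat_lit 36694110183) (nat_lit 141) (nat_lit 1) (nat_lit 130) (nat_lit 1) (nat_lit 140) (nat_lit 1) (nat_lit 90) (nat_lit 317) (nat_lit 313)) (XT.nd (nat_lit 94) (nat_lit 0) (nat_lit 84) (XT.lf (nat_lit 924) (nat_lit 65996747125) (nat_lit 84) (nat_lit 44074142395) (nat_lit 0) (nat_lit 44074142395) (nat_lit 141) (nat_lit 1) (nat_lit 131) (nat_lit 1) (nat_lit 130) (nat_lit 1) (nat_lit 91) (nat_lit 317) (nat_lit 312)) (XT.lf (nat_lit 924) (nat_lit 28937667456) (nat_lit 0) (nat_lit 92724044944) (nat_lit 840) (nat_lit 28937667456) (nat_lit 142) (nat_lit 1) (nat_lit 131) (nat_lit 1) (nat_lit 141) (nat_lit 1) (nat_lit 92) (nat_lit 317) (nat_lit 311)))) (XT.nd (nat_lit 188) (nat_lit 168) (nat_lit 0) (XT.nd (nat_lit 94) (nat_lit 168) (nat_lit 0) (XT.lf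 (nat_lit 84) (nat_lit 642466184) (nat_lit 0) (nat_lit 65020225333) (nat_lit 252) (nat_lit 642466184) (nat_lit 49) (nat_lit 1) (nat_lit 48) (nat_lit 1) (nat_lit 51) (nat_lit 1) (nat_lit 133) (nat_lit 317) (nat_lit 270)) (XT.lf (nat_lit 84) (nat_lit 24258475557) (nat_lit 0) (nat_lit 16607406119) (nat_lit 168) (nat_lit 24258475557) (nat_lit 47) (nat_lit 1) (nat_lit 46) (nat_lit 1) (nat_lit 48) (nat_lit 1) (nat_lit 134) (nat_lit 317) (nat_lit 269))) (XT.nd (nat_lit 94) (nat_lit 0) (nat_lit 0) (XT.lf (nat_lit 252) (nat_lit 30102006518) (nat_lit 0) (nat_lit 16941548374) (nat_lit 168) (nat_lit 16941548374) (nat_lit 47) (nat_lit 1) (nat_lit 44) (nat_lit 1) (nat_lit 46) (nat_lit 1) (nat_lit 135) (nat_lit 317) (nat_lit 268)) (XT.lf (nat_lit 84) (nat_lit 6035244264) (nat_lit 0) (nat_lit 50806112125) (nat_lit 252) (nat_lit 6035244264) (nat_lit 45) (nat_lit 1) (nat_lit 44) (nat_lit 1)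 (nat_lit 47) (nat_lit 1) (nat_lit 136) (nat_lit 317) (nat_lit 267))))) (XT.nd (nat_lit 282) (nat_lit 420) (nat_lit 0) (XT.nd (nat_lit 94) (nat_lit 168) (nat_lit 0) (XT.lf (nat_lit 84) (nat_lit 28022468066) (nat_lit 0) (nat_lit 5732303331) (nat_lit 168) (nat_lit 28022468066) (nat_lit 43) (nat_lit 1) (nat_lit 42) (nat_lit 1) (nat_lit 44) (nat_lit 1) (nat_lit 137) (nat_lit 317) (nat_lit 266)) (XT.nd (nat_lit 94) (nat_lit 0) (nat_lit 0) (XT.lf (nat_lit 252) (nat_lit 38117743679) (nat_lit 0) (nat_lit 11294991221) (nat_lit 168) (nat_lit 11294991221) (nat_lit 43) (nat_lit 1) (nat_lit 40) (nat_lit 1) (nat_lit 42) (nat_lit 1) (nat_lit 138) (nat_lit 317) (nat_lit 265)) (XT.lf (nat_lit 84) (nat_lit 10209673006) (nat_lit 0) (nat_lit 39240039734) (nat_lit 252) (nat_lit 10209673006) (nat_lit 41) (nat_lit 1) (nat_lit 40) (nat_lit 1) (nat_lit 43) (nat_lit 1) (nat_lit 139) (nat_lit 317)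 (nat_lit 264)))) (XT.nd (nat_lit 188) (nat_lit 84) (nat_lit 0) (XT.nd (nat_lit 94) (nat_lit 252) (nat_lit 0) (XT.lf (nat_lit 168) (nat_lit 2930825321) (nat_lit 0) (nat_lit 27850001370) (nat_lit 84) (nat_lit 27850001370) (nat_lit 41) (nat_lit 1) (nat_lit 39) (nat_lit 1) (nat_lit 40) (nat_lit 1) (nat_lit 140) (nat_lit 317) (nat_lit 263)) (XT.lf (nat_lit 252) (nat_lit 44076465316) (nat_lit 0) (nat_lit 6775405275) (nat_lit 168) (nat_lit 6775405275) (nat_lit 39) (nat_lit 1) (nat_lit 36) (nat_lit 1) (nat_lit 38) (nat_lit 1) (nat_lit 141) (nat_lit 317) (nat_lit 262))) (XT.nd (nat_lit 94) (nat_lit 84) (nat_lit 0) (XT.lf (nat_lit 84) (nat_lit 13394249548) (nat_lit 0) (nat_lit 29846425946) (nat_lit 252) (nat_lit 13394249548) (nat_lit 37) (nat_lit 1) (nat_lit 36) (nat_lit 1) (nat_lit 39) (nat_lit 1) (nat_lit 142) (nat_lit 317) (nat_lit 261)) (XT.lf (nat_lit 168) (nat_lit 9842375398)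 (nat_lit 0) (nat_lit 22912265050) (nat_lit 84) (nat_lit 22912265050) (nat_lit 37) (nat_lit 1) (nat_lit 35) (nat_lit 1) (nat_lit 36) (nat_lit 1) (nat_lit 143) (nat_lit 317) (nat_lit 260))))))) (XT.nd (nat_lit 1222) (nat_lit 1260) (nat_lit 0) (XT.nd (nat_lit 564) (nat_lit 504) (nat_lit 0) (XT.nd (nat_lit 282) (nat_lit 336) (nat_lit 0) (XT.nd (nat_lit 94) (nat_lit 84) (nat_lit 0) (XT.lf (nat_lit 252) (nat_lit 48373153532) (nat_lit 0) (nat_lit 3176988445) (nat_lit 168) (nat_lit 3176988445) (nat_lit 35) (nat_lit 1) (nat_lit 32) (nat_lit 1) (nat_lit 34) (nat_lit 1) (nat_lit 144) (nat_lit 317) (nat_lit 259)) (XT.nd (nat_lit 94) (nat_lit 84) (nat_lit 0) (XT.lf (nat_lit 84) (nat_lit 15776364441) (nat_lit 0) (nat_lit 22234298153) (nat_lit 252) (nat_lit 15776364441) (nat_lit 33) (nat_lit 1) (nat_lit 32) (nat_lit 1) (nat_lit 35) (nat_lit 1) (nat_lit 145) (nat_lit 317) (nat_lit 258))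 (XT.lf (nat_lit 168) (nat_lit 15174659124) (nat_lit 0) (nat_lit 18849977160) (nat_lit 84) (nat_lit 18849977160) (nat_lit 33) (nat_lit 1) (nat_lit 31) (nat_lit 1) (nat_lit 32) (nat_lit 1) (nat_lit 146) (nat_lit 317) (nat_lit 257)))) (XT.nd (nat_lit 94) (nat_lit 84) (nat_lit 0) (XT.lf (nat_lit 252) (nat_lit 51331319253) (nat_lit 0) (nat_lit 330712215) (nat_lit 168) (nat_lit 330712215) (nat_lit 31) (nat_lit 1) (nat_lit 28) (nat_lit 1) (nat_lit 30) (nat_lit 1) (nat_lit 147) (nat_lit 317) (nat_lit 256)) (XT.nd (nat_lit 94) (nat_lit 84) (nat_lit 0) (XT.lf (nat_lit 84) (nat_lit 17509618059) (nat_lit 0) (nat_lit 16082278462) (nat_lit 252) (nat_lit 17509618059) (nat_lit 29) (nat_lit 1) (nat_lit 28) (nat_lit 1) (nat_lit 31) (nat_lit 1) (nat_lit 148) (nat_lit 317) (nat_lit 255)) (XT.lf (nat_lit 168) (nat_lit 19224527259) (nat_lit 0) (nat_lit 15507922859) (nat_lit 84) (nat_lit 15507922859)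 (nat_lit 29) (nat_lit 1) (nat_lit 27) (nat_lit 1) (nat_lit 28) (nat_lit 1) (nat_lit 149) (nat_lit 317) (nat_lit 254))))) (XT.nd (nat_lit 282) (nat_lit 252) (nat_lit 0) (XT.nd (nat_lit 94) (nat_lit 252) (nat_lit 0) (XT.lf (nat_lit 0) (nat_lit 1933395604) (nat_lit 0) (nat_lit 45538439472) (nat_lit 168) (nat_lit 1933395604) (nat_lit 27) (nat_lit 3) (nat_lit 27) (nat_lit 1) (nat_lit 29) (nat_lit 1) (nat_lit 150) (nat_lit 317) (nat_lit 253)) (XT.nd (nat_lit 94) (nat_lit 84) (nat_lit 0) (XT.lf (nat_lit 84) (nat_lit 18719838481) (nat_lit 0) (nat_lit 11126231573) (nat_lit 168) (nat_lit 18719838481) (nat_lit 26) (nat_lit 1) (nat_lit 25) (nat_lit 1) (nat_lit 27) (nat_lit 1) (nat_lit 151) (nat_lit 317) (nat_lit 252)) (XT.lf (nat_lit 168) (nat_lit 22235397242) (nat_lit 0) (nat_lit 12758406515) (nat_lit 84) (nat_lit 12758406515) (nat_lit 26) (nat_lit 1) (nat_lit 24) (nat_lit 1) (nat_lit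 25) (nat_lit 1) (nat_lit 152) (nat_lit 317) (nat_lit 251)))) (XT.nd (nat_lit 188) (nat_lit 84) (nat_lit 0) (XT.nd (nat_lit 94) (nat_lit 168) (nat_lit 0) (XT.lf (nat_lit 0) (nat_lit 3695308066) (nat_lit 0) (nat_lit 39569285569) (nat_lit 168) (nat_lit 3695308066) (nat_lit 24) (nat_lit 3) (nat_lit 24) (nat_lit 1) (nat_lit 26) (nat_lit 1) (nat_lit 153) (nat_lit 317) (nat_lit 250)) (XT.lf (nat_lit 84) (nat_lit 19510031134) (nat_lit 0) (nat_lit 7149103281) (nat_lit 168) (nat_lit 19510031134) (nat_lit 23) (nat_lit 1) (nat_lit 22) (nat_lit 1) (nat_lit 24) (nat_lit 1) (nat_lit 154) (nat_lit 317) (nat_lit 249))) (XT.nd (nat_lit 94) (nat_lit 0) (nat_lit 0) (XT.lf (nat_lit 168) (nat_lit 24406764996) (nat_lit 0) (nat_lit 10496372614) (nat_lit 84) (nat_lit 10496372614) (nat_lit 23) (nat_lit 1) (nat_lit 21) (nat_lit 1) (nat_lit 22) (nat_lit 1) (nat_lit 155) (nat_lit 317) (nat_lit 248))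 (XT.lf (nat_lit 0) (nat_lit 5044614060) (nat_lit 0) (nat_lit 34558224133) (nat_lit 168) (nat_lit 5044614060) (nat_lit 21) (nat_lit 3) (nat_lit 21) (nat_lit 1) (nat_lit 23) (nat_lit 1) (nat_lit 156) (nat_lit 317) (nat_lit 247)))))) (XT.nd (nat_lit 658) (nat_lit 672) (nat_lit 0) (XT.nd (nat_lit 282) (nat_lit 336) (nat_lit 0) (XT.nd (nat_lit 94) (nat_lit 84) (nat_lit 0) (XT.lf (nat_lit 84) (nat_lit 19964449647) (nat_lit 0) (nat_lit 3972561181) (nat_lit 168) (nat_lit 19964449647) (nat_lit 20) (nat_lit 1) (nat_lit 19) (nat_lit 1) (nat_lit 21) (nat_lit 1) (nat_lit 157) (nat_lit 317) (nat_lit 246)) (XT.nd (nat_lit 94) (nat_lit 0) (nat_lit 0) (XT.lf (nat_lit 168) (nat_lit 25902028494) (nat_lit 0) (nat_lit 8635391726) (nat_lit 84) (nat_lit 8635391726) (nat_lit 20) (nat_lit 1) (nat_lit 18) (nat_lit 1) (nat_lit 19) (nat_lit 1) (nat_lit 158) (nat_lit 317) (nat_lit 245)) (XT.lf (nat_lit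 0) (nat_lit 6059240252) (nat_lit 0) (nat_lit 30340160299) (nat_lit 168) (nat_lit 6059240252) (nat_lit 18) (nat_lit 3) (nat_lit 18) (nat_lit 1) (nat_lit 20) (nat_lit 1) (nat_lit 159) (nat_lit 317) (nat_lit 244)))) (XT.nd (nat_lit 188) (nat_lit 84) (nat_lit 0) (XT.nd (nat_lit 94) (nat_lit 84) (nat_lit 0) (XT.lf (nat_lit 84) (nat_lit 20151943799) (nat_lit 0) (nat_lit 1450118029) (nat_lit 168) (nat_lit 20151943799) (nat_lit 17) (nat_lit 1) (nat_lit 16) (nat_lit 1) (nat_lit 18) (nat_lit 1) (nat_lit 160) (nat_lit 317) (nat_lit 243)) (XT.lf (nat_lit 168) (nat_lit 26854922497) (nat_lit 0) (nat_lit 7104358144) (nat_lit 84) (nat_lit 7104358144) (nat_lit 17) (nat_lit 1) (nat_lit 15) (nat_lit 1) (nat_lit 16) (nat_lit 1) (nat_lit 161) (nat_lit 317) (nat_lit 242))) (XT.nd (nat_lit 94) (nat_lit 84) (nat_lit 0) (XT.lf (nat_lit 0) (nat_lit 6803069837) (nat_lit 0) (nat_lit 26779042850) (nat_lit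 168) (nat_lit 6803069837) (nat_lit 15) (nat_lit 3) (nat_lit 15) (nat_lit 1) (nat_lit 17) (nat_lit 1) (nat_lit 162) (nat_lit 317) (nat_lit 241)) (XT.lf (nat_lit 84) (nat_lit 556331226) (nat_lit 0) (nat_lit 19581067428) (nat_lit 84) (nat_lit 19581067428) (nat_lit 15) (nat_lit 3) (nat_lit 14) (nat_lit 1) (nat_lit 15) (nat_lit 1) (nat_lit 163) (nat_lit 317) (nat_lit 240))))) (XT.nd (nat_lit 282) (nat_lit 420) (nat_lit 0) (XT.nd (nat_lit 94) (nat_lit 84) (nat_lit 0) (XT.lf (nat_lit 168) (nat_lit 27374810772) (nat_lit 0) (nat_lit 5844773026) (nat_lit 84) (nat_lit 5844773026) (nat_lit 14) (nat_lit 1) (nat_lit 12) (nat_lit 1) (nat_lit 13) (nat_lit 1) (nat_lit 164) (nat_lit 317) (nat_lit 239)) (XT.nd (nat_lit 94) (nat_lit 84) (nat_lit 0) (XT.lf (nat_lit 0) (nat_lit 7328443235) (nat_lit 0) (nat_lit 23762725669) (nat_lit 168) (nat_lit 7328443235) (nat_lit 12) (nat_lit 3) (nat_lit 12)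 (nat_lit 1) (nat_lit 14) (nat_lit 1) (nat_lit 165) (nat_lit 317) (nat_lit 238)) (XT.lf (nat_lit 84) (nat_lit 2161307842) (nat_lit 0) (nat_lit 17813005398) (nat_lit 84) (nat_lit 17813005398) (nat_lit 12) (nat_lit 3) (nat_lit 11) (nat_lit 1) (nat_lit 12) (nat_lit 1) (nat_lit 166) (nat_lit 317) (nat_lit 237)))) (XT.nd (nat_lit 188) (nat_lit 252) (nat_lit 0) (XT.nd (nat_lit 94) (nat_lit 0) (nat_lit 0) (XT.lf (nat_lit 168) (nat_lit 27551038449) (nat_lit 0) (nat_lit 4808509233) (nat_lit 84) (nat_lit 4808509233) (nat_lit 11) (nat_lit 1) (nat_lit 9) (nat_lit 1) (nat_lit 10) (nat_lit 1) (nat_lit 167) (nat_lit 317) (nat_lit 236)) (XT.lf (nat_lit 0) (nat_lit 7678214903) (nat_lit 0) (nat_lit 21198739733) (nat_lit 168) (nat_lit 7678214903) (nat_lit 9) (nat_lit 3) (nat_lit 9) (nat_lit 1) (nat_lit 11) (nat_lit 1) (nat_lit 168) (nat_lit 317) (nat_lit 235))) (XT.nd (nat_lit 94) (nat_lit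 168) (nat_lit 0) (XT.lf (nat_lit 84) (nat_lit 3400601659) (nat_lit 0) (nat_lit 16277291973) (nat_lit 84) (nat_lit 16277291973) (nat_lit 9) (nat_lit 3) (nat_lit 8) (nat_lit 1) (nat_lit 9) (nat_lit 1) (nat_lit 169) (nat_lit 317) (nat_lit 234)) (XT.lf (nat_lit 168) (nat_lit 27456511210) (nat_lit 0) (nat_lit 3955972446) (nat_lit 84) (nat_lit 3955972446) (nat_lit 8) (nat_lit 1) (nat_lit 6) (nat_lit 1) (nat_lit 7) (nat_lit 1) (nat_lit 170) (nat_lit 317) (nat_lit 233))))))))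
noncomputable def ec239 : XT := (XT.nd (nat_lit 6298) (nat_lit 0) (nat_lit 0) (XT.nd (nat_lit 4982) (nat_lit 0) (nat_lit 0) (XT.nd (nat_lit 564) (nat_lit 0) (nat_lit 0) (XT.nd (nat_lit 282) (nat_lit 252) (nat_lit 0) (XT.nd (nat_lit 94) (nat_lit 252) (nat_lit 0) (XT.lf (nat_lit 0) (nat_lit 7887444992) (nat_lit 0) (nat_lit 19010814230) (nat_lit 168) (nat_lit 7887444992) (nat_lit 6) (nat_lit 3) (nat_lit 6) (nat_lit 1) (nat_lit 8) (nat_lit 1) (nat_lit 171) (nat_lit 317) (nat_lit 232)) (XT.nd (nat_lit 94) (nat_lit 168) (nat_lit 0) (XT.lf (nat_lit 84) (nat_lit 4342910399) (nat_lit 0) (nat_lit 14936595387) (nat_lit 84) (nat_lit 14936595387) (nat_lit 6) (nat_lit 3) (nat_lit 5) (nat_lit 1) (nat_lit 6) (nat_lit 1) (nat_lit 172) (nat_lit 317) (nat_lit 231)) (XT.lf (nat_lit 168) (nat_lit 27150638479) (nat_lit 0) (nat_lit 3254588322) (nat_lit 84) (nat_lit 3254588322) (nat_lit 5) (nat_lit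 1) (nat_lit 3) (nat_lit 1) (nat_lit 4) (nat_lit 1) (nat_lit 173) (nat_lit 317) (nat_lit 230)))) (XT.nd (nat_lit 94) (nat_lit 252) (nat_lit 0) (XT.lf (nat_lit 0) (nat_lit 7984790599) (nat_lit 0) (nat_lit 17136013999) (nat_lit 168) (nat_lit 7984790599) (nat_lit 3) (nat_lit 3) (nat_lit 3) (nat_lit 1) (nat_lit 5) (nat_lit 1) (nat_lit 174) (nat_lit 317) (nat_lit 229)) (XT.nd (nat_lit 94) (nat_lit 168) (nat_lit 0) (XT.lf (nat_lit 84) (nat_lit 5044567893) (nat_lit 0) (nat_lit 13760018750) (nat_lit 84) (nat_lit 13760018750) (nat_lit 3) (nat_lit 3) (nat_lit 2) (nat_lit 1) (nat_lit 3) (nat_lit 1) (nat_lit 175) (nat_lit 317) (nat_lit 228)) (XT.lf (nat_lit 0) (nat_lit 46539575827) (nat_lit 0) (nat_lit 0) (nat_lit 0) (nat_lit 0) (nat_lit 0) (nat_lit 0) (nat_lit 1) (nat_lit 0) (nat_lit 1) (nat_lit 0) (nat_lit 176) (nat_lit 317) (nat_lit 227))))) (XT.nd (nat_lit 282) (nat_lit 0) (nat_lit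 0) (XT.nd (nat_lit 94) (nat_lit 0) (nat_lit 0) (XT.lf (nat_lit 0) (nat_lit 46512460198) (nat_lit 0) (nat_lit 0) (nat_lit 0) (nat_lit 0) (nat_lit 0) (nat_lit 0) (nat_lit 1) (nat_lit 0) (nat_lit 1) (nat_lit 0) (nat_lit 177) (nat_lit 317) (nat_lit 226)) (XT.nd (nat_lit 94) (nat_lit 0) (nat_lit 0) (XT.lf (nat_lit 0) (nat_lit 46486635789) (nat_lit 0) (nat_lit 0) (nat_lit 0) (nat_lit 0) (nat_lit 0) (nat_lit 0) (nat_lit 1) (nat_lit 0) (nat_lit 1) (nat_lit 0) (nat_lit 178) (nat_lit 317) (nat_lit 225)) (XT.lf (nat_lit 0) (nat_lit 46462041114) (nat_lit 0) (nat_lit 0) (nat_lit 0) (nat_lit 0) (nat_lit 0) (nat_lit 0) (nat_lit 1) (nat_lit 0) (nat_lit 1) (nat_lit 0) (nat_lit 179) (nat_lit 317) (nat_lit 224)))) (XT.nd (nat_lit 3948) (nat_lit 0) (nat_lit 0) (XT.nd (nat_lit 94) (nat_lit 0) (nat_lit 0) (XT.lf (nat_lit 0) (nat_lit 46438617614) (nat_lit 0) (nat_lit 0) (nat_lit 0) (nat_lit 0)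 (nat_lit 0) (nat_lit 0) (nat_lit 1) (nat_lit 0) (nat_lit 1) (nat_lit 0) (nat_lit 180) (nat_lit 317) (nat_lit 223)) (XT.lf (nat_lit 0) (nat_lit 46416309518) (nat_lit 0) (nat_lit 0) (nat_lit 0) (nat_lit 0) (nat_lit 0) (nat_lit 0) (nat_lit 1) (nat_lit 0) (nat_lit 1) (nat_lit 0) (nat_lit 181) (nat_lit 317) (nat_lit 222))) (XT.nd (nat_lit 94) (nat_lit 0) (nat_lit 0) (XT.lf (nat_lit 0) (nat_lit 46030505110) (nat_lit 0) (nat_lit 0) (nat_lit 0) (nat_lit 0) (nat_lit 0) (nat_lit 0) (nat_lit 1) (nat_lit 0) (nat_lit 1) (nat_lit 0) (nat_lit 222) (nat_lit 317) (nat_lit 181)) (XT.lf (nat_lit 0) (nat_lit 46027630944) (nat_lit 0) (nat_lit 0) (nat_lit 0) (nat_lit 0) (nat_lit 0) (nat_lit 0) (nat_lit 1) (nat_lit 0) (nat_lit 1) (nat_lit 0) (nat_lit 223) (nat_lit 317) (nat_lit 180)))))) (XT.nd (nat_lit 658) (nat_lit 0) (nat_lit 0) (XT.nd (nat_lit 282) (nat_lit 0) (nat_lit 0) (XT.nd (nat_lit 94)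 (nat_lit 0) (nat_lit 0) (XT.lf (nat_lit 0) (nat_lit 46024893642) (nat_lit 0) (nat_lit 0) (nat_lit 0) (nat_lit 0) (nat_lit 0) (nat_lit 0) (nat_lit 1) (nat_lit 0) (nat_lit 1) (nat_lit 0) (nat_lit 224) (nat_lit 317) (nat_lit 179)) (XT.nd (nat_lit 94) (nat_lit 0) (nat_lit 0) (XT.lf (nat_lit 0) (nat_lit 46022286688) (nat_lit 0) (nat_lit 0) (nat_lit 0) (nat_lit 0) (nat_lit 0) (nat_lit 0) (nat_lit 1) (nat_lit 0) (nat_lit 1) (nat_lit 0) (nat_lit 225) (nat_lit 317) (nat_lit 178)) (XT.lf (nat_lit 0) (nat_lit 46019803875) (nat_lit 0) (nat_lit 0) (nat_lit 0) (nat_lit 0) (nat_lit 0) (nat_lit 0) (nat_lit 1) (nat_lit 0) (nat_lit 1) (nat_lit 0) (nat_lit 226) (nat_lit 317) (nat_lit 177)))) (XT.nd (nat_lit 188) (nat_lit 0) (nat_lit 0) (XT.nd (nat_lit 94) (nat_lit 0) (nat_lit 0) (XT.lf (nat_lit 0) (nat_lit 46017439291) (nat_lit 0) (nat_lit 0) (nat_lit 0) (nat_lit 0) (nat_lit 0) (nat_lit 0)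 (nat_lit 1) (nat_lit 0) (nat_lit 1) (nat_lit 0) (nat_lit 227) (nat_lit 317) (nat_lit 176)) (XT.lf (nat_lit 0) (nat_lit 46015187307) (nat_lit 0) (nat_lit 0) (nat_lit 0) (nat_lit 0) (nat_lit 0) (nat_lit 0) (nat_lit 1) (nat_lit 0) (nat_lit 1) (nat_lit 0) (nat_lit 228) (nat_lit 317) (nat_lit 175))) (XT.nd (nat_lit 94) (nat_lit 0) (nat_lit 0) (XT.lf (nat_lit 0) (nat_lit 46013042559) (nat_lit 0) (nat_lit 0) (nat_lit 0) (nat_lit 0) (nat_lit 0) (nat_lit 0) (nat_lit 1) (nat_lit 0) (nat_lit 1) (nat_lit 0) (nat_lit 229) (nat_lit 317) (nat_lit 174)) (XT.lf (nat_lit 0) (nat_lit 46010999943) (nat_lit 0) (nat_lit 0) (nat_lit 0) (nat_lit 0) (nat_lit 0) (nat_lit 0) (nat_lit 1) (nat_lit 0) (nat_lit 1) (nat_lit 0) (nat_lit 230) (nat_lit 317) (nat_lit 173))))) (XT.nd (nat_lit 282) (nat_lit 0) (nat_lit 0) (XT.nd (nat_lit 94) (nat_lit 0) (nat_lit 0) (XT.lf (nat_lit 0) (nat_lit 46009054594) (nat_lit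 0) (nat_lit 0) (nat_lit 0) (nat_lit 0) (nat_lit 0) (nat_lit 0) (nat_lit 1) (nat_lit 0) (nat_lit 1) (nat_lit 0) (nat_lit 231) (nat_lit 317) (nat_lit 172)) (XT.nd (nat_lit 94) (nat_lit 0) (nat_lit 0) (XT.lf (nat_lit 0) (nat_lit 46007201880) (nat_lit 0) (nat_lit 0) (nat_lit 0) (nat_lit 0) (nat_lit 0) (nat_lit 0) (nat_lit 1) (nat_lit 0) (nat_lit 1) (nat_lit 0) (nat_lit 232) (nat_lit 317) (nat_lit 171)) (XT.lf (nat_lit 0) (nat_lit 46005437391) (nat_lit 0) (nat_lit 0) (nat_lit 0) (nat_lit 0) (nat_lit 0) (nat_lit 0) (nat_lit 1) (nat_lit 0) (nat_lit 1) (nat_lit 0) (nat_lit 233) (nat_lit 317) (nat_lit 170)))) (XT.nd (nat_lit 188) (nat_lit 0) (nat_lit 0) (XT.nd (nat_lit 94) (nat_lit 0) (nat_lit 0) (XT.lf (nat_lit 0) (nat_lit 46003756926) (nat_lit 0) (nat_lit 0) (nat_lit 0) (nat_lit 0) (nat_lit 0) (nat_lit 0) (nat_lit 1) (nat_lit 0) (nat_lit 1) (nat_lit 0) (nat_lit 234) (nat_lit 317)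 (nat_lit 169)) (XT.lf (nat_lit 0) (nat_lit 46002156482) (nat_lit 0) (nat_lit 0) (nat_lit 0) (nat_lit 0) (nat_lit 0) (nat_lit 0) (nat_lit 1) (nat_lit 0) (nat_lit 1) (nat_lit 0) (nat_lit 235) (nat_lit 317) (nat_lit 168))) (XT.nd (nat_lit 94) (nat_lit 0) (nat_lit 0) (XT.lf (nat_lit 0) (nat_lit 46000632250) (nat_lit 0) (nat_lit 0) (nat_lit 0) (nat_lit 0) (nat_lit 0) (nat_lit 0) (nat_lit 1) (nat_lit 0) (nat_lit 1) (nat_lit 0) (nat_lit 236) (nat_lit 317) (nat_lit 167)) (XT.lf (nat_lit 0) (nat_lit 45999180601) (nat_lit 0) (nat_lit 0) (nat_lit 0) (nat_lit 0) (nat_lit 0) (nat_lit 0) (nat_lit 1) (nat_lit 0) (nat_lit 1) (nat_lit 0) (nat_lit 237) (nat_lit 317) (nat_lit 166))))))) (XT.nd (nat_lit 1316) (nat_lit 0) (nat_lit 0) (XT.nd (nat_lit 658) (nat_lit 0) (nat_lit 0) (XT.nd (nat_lit 282) (nat_lit 0) (nat_lit 0) (XT.nd (nat_lit 94) (nat_lit 0) (nat_lit 0) (XT.lf (nat_lit 0) (nat_lit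 45997798078) (nat_lit 0) (nat_lit 0) (nat_lit 0) (nat_lit 0) (nat_lit 0) (nat_lit 0) (nat_lit 1) (nat_lit 0) (nat_lit 1) (nat_lit 0) (nat_lit 238) (nat_lit 317) (nat_lit 165)) (XT.nd (nat_lit 94) (nat_lit 0) (nat_lit 0) (XT.lf (nat_lit 0) (nat_lit 45996481389) (nat_lit 0) (nat_lit 0) (nat_lit 0) (nat_lit 0) (nat_lit 0) (nat_lit 0) (nat_lit 1) (nat_lit 0) (nat_lit 1) (nat_lit 0) (nat_lit 239) (nat_lit 317) (nat_lit 164)) (XT.lf (nat_lit 0) (nat_lit 45995227399) (nat_lit 0) (nat_lit 0) (nat_lit 0) (nat_lit 0) (nat_lit 0) (nat_lit 0) (nat_lit 1) (nat_lit 0) (nat_lit 1) (nat_lit 0) (nat_lit 240) (nat_lit 317) (nat_lit 163)))) (XT.nd (nat_lit 188) (nat_lit 0) (nat_lit 0) (XT.nd (nat_lit 94) (nat_lit 0) (nat_lit 0) (XT.lf (nat_lit 0) (nat_lit 45994033124) (nat_lit 0) (nat_lit 0) (nat_lit 0) (nat_lit 0) (nat_lit 0) (nat_lit 0) (nat_lit 1) (nat_lit 0) (nat_lit 1) (nat_lit 0) (nat_lit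 241) (nat_lit 317) (nat_lit 162)) (XT.lf (nat_lit 0) (nat_lit 45992895719) (nat_lit 0) (nat_lit 0) (nat_lit 0) (nat_lit 0) (nat_lit 0) (nat_lit 0) (nat_lit 1) (nat_lit 0) (nat_lit 1) (nat_lit 0) (nat_lit 242) (nat_lit 317) (nat_lit 161))) (XT.nd (nat_lit 94) (nat_lit 0) (nat_lit 0) (XT.lf (nat_lit 0) (nat_lit 45991812475) (nat_lit 0) (nat_lit 0) (nat_lit 0) (nat_lit 0) (nat_lit 0) (nat_lit 0) (nat_lit 1) (nat_lit 0) (nat_lit 1) (nat_lit 0) (nat_lit 243) (nat_lit 317) (nat_lit 160)) (XT.lf (nat_lit 0) (nat_lit 45990780815) (nat_lit 0) (nat_lit 0) (nat_lit 0) (nat_lit 0) (nat_lit 0) (nat_lit 0) (nat_lit 1) (nat_lit 0) (nat_lit 1) (nat_lit 0) (nat_lit 244) (nat_lit 317) (nat_lit 159))))) (XT.nd (nat_lit 282) (nat_lit 0) (nat_lit 0) (XT.nd (nat_lit 94) (nat_lit 0) (nat_lit 0) (XT.lf (nat_lit 0) (nat_lit 45989798282) (nat_lit 0) (nat_lit 0) (nat_lit 0) (nat_lit 0) (nat_lit 0)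 (nat_lit 0) (nat_lit 1) (nat_lit 0) (nat_lit 1) (nat_lit 0) (nat_lit 245) (nat_lit 317) (nat_lit 158)) (XT.nd (nat_lit 94) (nat_lit 0) (nat_lit 0) (XT.lf (nat_lit 0) (nat_lit 45988862536) (nat_lit 0) (nat_lit 0) (nat_lit 0) (nat_lit 0) (nat_lit 0) (nat_lit 0) (nat_lit 1) (nat_lit 0) (nat_lit 1) (nat_lit 0) (nat_lit 246) (nat_lit 317) (nat_lit 157)) (XT.lf (nat_lit 0) (nat_lit 45987971349) (nat_lit 0) (nat_lit 0) (nat_lit 0) (nat_lit 0) (nat_lit 0) (nat_lit 0) (nat_lit 1) (nat_lit 0) (nat_lit 1) (nat_lit 0) (nat_lit 247) (nat_lit 317) (nat_lit 156)))) (XT.nd (nat_lit 188) (nat_lit 0) (nat_lit 0) (XT.nd (nat_lit 94) (nat_lit 0) (nat_lit 0) (XT.lf (nat_lit 0) (nat_lit 45987122600) (nat_lit 0) (nat_lit 0) (nat_lit 0) (nat_lit 0) (nat_lit 0) (nat_lit 0) (nat_lit 1) (nat_lit 0) (nat_lit 1) (nat_lit 0) (nat_lit 248) (nat_lit 317) (nat_lit 155)) (XT.lf (nat_lit 0) (nat_lit 45986314267)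 (nat_lit 0) (nat_lit 0) (nat_lit 0) (nat_lit 0) (nat_lit 0) (nat_lit 0) (nat_lit 1) (nat_lit 0) (nat_lit 1) (nat_lit 0) (nat_lit 249) (nat_lit 317) (nat_lit 154))) (XT.nd (nat_lit 94) (nat_lit 0) (nat_lit 0) (XT.lf (nat_lit 0) (nat_lit 45985544426) (nat_lit 0) (nat_lit 0) (nat_lit 0) (nat_lit 0) (nat_lit 0) (nat_lit 0) (nat_lit 1) (nat_lit 0) (nat_lit 1) (nat_lit 0) (nat_lit 250) (nat_lit 317) (nat_lit 153)) (XT.lf (nat_lit 0) (nat_lit 45984811245) (nat_lit 0) (nat_lit 0) (nat_lit 0) (nat_lit 0) (nat_lit 0) (nat_lit 0) (nat_lit 1) (nat_lit 0) (nat_lit 1) (nat_lit 0) (nat_lit 251) (nat_lit 317) (nat_lit 152)))))) (XT.nd (nat_lit 658) (nat_lit 0) (nat_lit 0) (XT.nd (nat_lit 282) (nat_lit 0) (nat_lit 0) (XT.nd (nat_lit 94) (nat_lit 0) (nat_lit 0) (XT.lf (nat_lit 0) (nat_lit 45984112976) (nat_lit 0) (nat_lit 0) (nat_lit 0) (nat_lit 0) (nat_lit 0) (nat_lit 0) (nat_lit 1) (nat_lit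 0) (nat_lit 1) (nat_lit 0) (nat_lit 252) (nat_lit 317) (nat_lit 151)) (XT.nd (nat_lit 94) (nat_lit 0) (nat_lit 0) (XT.lf (nat_lit 0) (nat_lit 45983447959) (nat_lit 0) (nat_lit 0) (nat_lit 0) (nat_lit 0) (nat_lit 0) (nat_lit 0) (nat_lit 1) (nat_lit 0) (nat_lit 1) (nat_lit 0) (nat_lit 253) (nat_lit 317) (nat_lit 150)) (XT.lf (nat_lit 0) (nat_lit 45982814609) (nat_lit 0) (nat_lit 0) (nat_lit 0) (nat_lit 0) (nat_lit 0) (nat_lit 0) (nat_lit 1) (nat_lit 0) (nat_lit 1) (nat_lit 0) (nat_lit 254) (nat_lit 317) (nat_lit 149)))) (XT.nd (nat_lit 188) (nat_lit 0) (nat_lit 0) (XT.nd (nat_lit 94) (nat_lit 0) (nat_lit 0) (XT.lf (nat_lit 0) (nat_lit 45982211419) (nat_lit 0) (nat_lit 0) (nat_lit 0) (nat_lit 0) (nat_lit 0) (nat_lit 0) (nat_lit 1) (nat_lit 0) (nat_lit 1) (nat_lit 0) (nat_lit 255) (nat_lit 317) (nat_lit 148)) (XT.lf (nat_lit 0) (nat_lit 45981636952) (nat_lit 0) (nat_lit 0) (nat_lit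 0) (nat_lit 0) (nat_lit 0) (nat_lit 0) (nat_lit 1) (nat_lit 0) (nat_lit 1) (nat_lit 0) (nat_lit 256) (nat_lit 317) (nat_lit 147))) (XT.nd (nat_lit 94) (nat_lit 0) (nat_lit 0) (XT.lf (nat_lit 0) (nat_lit 45981089841) (nat_lit 0) (nat_lit 0) (nat_lit 0) (nat_lit 0) (nat_lit 0) (nat_lit 0) (nat_lit 1) (nat_lit 0) (nat_lit 1) (nat_lit 0) (nat_lit 257) (nat_lit 317) (nat_lit 146)) (XT.lf (nat_lit 0) (nat_lit 45980568782) (nat_lit 0) (nat_lit 0) (nat_lit 0) (nat_lit 0) (nat_lit 0) (nat_lit 0) (nat_lit 1) (nat_lit 0) (nat_lit 1) (nat_lit 0) (nat_lit 258) (nat_lit 317) (nat_lit 145))))) (XT.nd (nat_lit 282) (nat_lit 0) (nat_lit 0) (XT.nd (nat_lit 94) (nat_lit 0) (nat_lit 0) (XT.lf (nat_lit 0) (nat_lit 45980072536) (nat_lit 0) (nat_lit 0) (nat_lit 0) (nat_lit 0) (nat_lit 0) (nat_lit 0) (nat_lit 1) (nat_lit 0) (nat_lit 1) (nat_lit 0) (nat_lit 259) (nat_lit 317) (nat_lit 144)) (XT.nd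 (nat_lit 94) (nat_lit 0) (nat_lit 0) (XT.lf (nat_lit 0) (nat_lit 45979599921) (nat_lit 0) (nat_lit 0) (nat_lit 0) (nat_lit 0) (nat_lit 0) (nat_lit 0) (nat_lit 1) (nat_lit 0) (nat_lit 1) (nat_lit 0) (nat_lit 260) (nat_lit 317) (nat_lit 143)) (XT.lf (nat_lit 0) (nat_lit 45979149811) (nat_lit 0) (nat_lit 0) (nat_lit 0) (nat_lit 0) (nat_lit 0) (nat_lit 0) (nat_lit 1) (nat_lit 0) (nat_lit 1) (nat_lit 0) (nat_lit 261) (nat_lit 317) (nat_lit 142)))) (XT.nd (nat_lit 188) (nat_lit 0) (nat_lit 0) (XT.nd (nat_lit 94) (nat_lit 0) (nat_lit 0) (XT.lf (nat_lit 0) (nat_lit 45978721135) (nat_lit 0) (nat_lit 0) (nat_lit 0) (nat_lit 0) (nat_lit 0) (nat_lit 0) (nat_lit 1) (nat_lit 0) (nat_lit 1) (nat_lit 0) (nat_lit 262) (nat_lit 317) (nat_lit 141)) (XT.lf (nat_lit 0) (nat_lit 45978312872) (nat_lit 0) (nat_lit 0) (nat_lit 0) (nat_lit 0) (nat_lit 0) (nat_lit 0) (nat_lit 1) (nat_lit 0) (nat_lit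 1) (nat_lit 0) (nat_lit 263) (nat_lit 317) (nat_lit 140))) (XT.nd (nat_lit 94) (nat_lit 0) (nat_lit 0) (XT.lf (nat_lit 0) (nat_lit 45977924050) (nat_lit 0) (nat_lit 0) (nat_lit 0) (nat_lit 0) (nat_lit 0) (nat_lit 0) (nat_lit 1) (nat_lit 0) (nat_lit 1) (nat_lit 0) (nat_lit 264) (nat_lit 317) (nat_lit 139)) (XT.lf (nat_lit 0) (nat_lit 45977553743) (nat_lit 0) (nat_lit 0) (nat_lit 0) (nat_lit 0) (nat_lit 0) (nat_lit 0) (nat_lit 1) (nat_lit 0) (nat_lit 1) (nat_lit 0) (nat_lit 265) (nat_lit 317) (nat_lit 138))))))))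
noncomputable def ec240 : XT := (XT.nd (nat_lit 33182) (nat_lit 0) (nat_lit 924) (XT.nd (nat_lit 4982) (nat_lit 0) (nat_lit 0) (XT.nd (nat_lit 4324) (nat_lit 0) (nat_lit 0) (XT.nd (nat_lit 282) (nat_lit 0) (nat_lit 0) (XT.nd (nat_lit 94) (nat_lit 0) (nat_lit 0) (XT.lf (nat_lit 0) (nat_lit 45977201070) (nat_lit 0) (nat_lit 0) (nat_lit 0) (nat_lit 0) (nat_lit 0) (nat_lit 0) (nat_lit 1) (nat_lit 0) (nat_lit 1) (nat_lit 0) (nat_lit 266) (nat_lit 317) (nat_lit 137)) (XT.nd (nat_lit 94) (nat_lit 0) (nat_lit 0) (XT.lf (nat_lit 0) (nat_lit 45976865191) (nat_lit 0) (nat_lit 0) (nat_lit 0) (nat_lit 0) (nat_lit 0) (nat_lit 0) (nat_lit 1) (nat_lit 0) (nat_lit 1) (nat_lit 0) (nat_lit 267) (nat_lit 317) (nat_lit 136)) (XT.lf (nat_lit 0) (nat_lit 45976545307) (nat_lit 0) (nat_lit 0) (nat_lit 0) (nat_lit 0) (nat_lit 0) (nat_lit 0) (nat_lit 1) (nat_lit 0) (nat_lit 1) (nat_lit 0) (nat_lit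 268) (nat_lit 317) (nat_lit 135)))) (XT.nd (nat_lit 94) (nat_lit 0) (nat_lit 0) (XT.lf (nat_lit 0) (nat_lit 45976240655) (nat_lit 0) (nat_lit 0) (nat_lit 0) (nat_lit 0) (nat_lit 0) (nat_lit 0) (nat_lit 1) (nat_lit 0) (nat_lit 1) (nat_lit 0) (nat_lit 269) (nat_lit 317) (nat_lit 134)) (XT.nd (nat_lit 3854) (nat_lit 0) (nat_lit 0) (XT.lf (nat_lit 0) (nat_lit 45975950510) (nat_lit 0) (nat_lit 0) (nat_lit 0) (nat_lit 0) (nat_lit 0) (nat_lit 0) (nat_lit 1) (nat_lit 0) (nat_lit 1) (nat_lit 0) (nat_lit 270) (nat_lit 317) (nat_lit 133)) (XT.lf (nat_lit 0) (nat_lit 45970932638) (nat_lit 0) (nat_lit 0) (nat_lit 0) (nat_lit 0) (nat_lit 0) (nat_lit 0) (nat_lit 1) (nat_lit 0) (nat_lit 1) (nat_lit 0) (nat_lit 311) (nat_lit 317) (nat_lit 92))))) (XT.nd (nat_lit 282) (nat_lit 0) (nat_lit 0) (XT.nd (nat_lit 94) (nat_lit 0) (nat_lit 0) (XT.lf (nat_lit 0) (nat_lit 45970895256) (nat_lit 0) (nat_lit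 0) (nat_lit 0) (nat_lit 0) (nat_lit 0) (nat_lit 0) (nat_lit 1) (nat_lit 0) (nat_lit 1) (nat_lit 0) (nat_lit 312) (nat_lit 317) (nat_lit 91)) (XT.nd (nat_lit 94) (nat_lit 0) (nat_lit 0) (XT.lf (nat_lit 0) (nat_lit 45970859654) (nat_lit 0) (nat_lit 0) (nat_lit 0) (nat_lit 0) (nat_lit 0) (nat_lit 0) (nat_lit 1) (nat_lit 0) (nat_lit 1) (nat_lit 0) (nat_lit 313) (nat_lit 317) (nat_lit 90)) (XT.lf (nat_lit 0) (nat_lit 45970825747) (nat_lit 0) (nat_lit 0) (nat_lit 0) (nat_lit 0) (nat_lit 0) (nat_lit 0) (nat_lit 1) (nat_lit 0) (nat_lit 1) (nat_lit 0) (nat_lit 314) (nat_lit 317) (nat_lit 89)))) (XT.nd (nat_lit 188) (nat_lit 0) (nat_lit 0) (XT.nd (nat_lit 94) (nat_lit 0) (nat_lit 0) (XT.lf (nat_lit 0) (nat_lit 45970793455) (nat_lit 0) (nat_lit 0) (nat_lit 0) (nat_lit 0) (nat_lit 0) (nat_lit 0) (nat_lit 1) (nat_lit 0) (nat_lit 1) (nat_lit 0) (nat_lit 315) (nat_lit 317) (nat_lit 88))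 (XT.lf (nat_lit 0) (nat_lit 45970762700) (nat_lit 0) (nat_lit 0) (nat_lit 0) (nat_lit 0) (nat_lit 0) (nat_lit 0) (nat_lit 1) (nat_lit 0) (nat_lit 1) (nat_lit 0) (nat_lit 316) (nat_lit 317) (nat_lit 87))) (XT.nd (nat_lit 94) (nat_lit 0) (nat_lit 0) (XT.lf (nat_lit 0) (nat_lit 45970733411) (nat_lit 0) (nat_lit 0) (nat_lit 0) (nat_lit 0) (nat_lit 0) (nat_lit 0) (nat_lit 1) (nat_lit 0) (nat_lit 1) (nat_lit 0) (nat_lit 317) (nat_lit 317) (nat_lit 86)) (XT.lf (nat_lit 0) (nat_lit 45970705515) (nat_lit 0) (nat_lit 0) (nat_lit 0) (nat_lit 0) (nat_lit 0) (nat_lit 0) (nat_lit 1) (nat_lit 0) (nat_lit 1) (nat_lit 0) (nat_lit 318) (nat_lit 317) (nat_lit 85)))))) (XT.nd (nat_lit 23406) (nat_lit 0) (nat_lit 3360) (XT.nd (nat_lit 282) (nat_lit 0) (nat_lit 0) (XT.nd (nat_lit 94) (nat_lit 0) (nat_lit 0) (XT.lf (nat_lit 0) (nat_lit 45970678949) (nat_lit 0) (nat_lit 0) (nat_lit 0) (nat_lit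 0) (nat_lit 0) (nat_lit 0) (nat_lit 1) (nat_lit 0) (nat_lit 1) (nat_lit 0) (nat_lit 319) (nat_lit 317) (nat_lit 84)) (XT.nd (nat_lit 94) (nat_lit 0) (nat_lit 0) (XT.lf (nat_lit 0) (nat_lit 45970653647) (nat_lit 0) (nat_lit 0) (nat_lit 0) (nat_lit 0) (nat_lit 0) (nat_lit 0) (nat_lit 1) (nat_lit 0) (nat_lit 1) (nat_lit 0) (nat_lit 320) (nat_lit 317) (nat_lit 83)) (XT.lf (nat_lit 0) (nat_lit 45970629550) (nat_lit 0) (nat_lit 0) (nat_lit 0) (nat_lit 0) (nat_lit 0) (nat_lit 0) (nat_lit 1) (nat_lit 0) (nat_lit 1) (nat_lit 0) (nat_lit 321) (nat_lit 317) (nat_lit 82)))) (XT.nd (nat_lit 22936) (nat_lit 0) (nat_lit 10752) (XT.nd (nat_lit 22842) (nat_lit 0) (nat_lit 10752) (XT.lf (nat_lit 0) (nat_lit 45970606601) (nat_lit 0) (nat_lit 0) (nat_lit 0) (nat_lit 0) (nat_lit 0) (nat_lit 0) (nat_lit 1) (nat_lit 0) (nat_lit 1) (nat_lit 0) (nat_lit 322) (nat_lit 317) (nat_lit 81)) (XT.lf (nat_lit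 924) (nat_lit 24155442986) (nat_lit 0) (nat_lit 42887933499) (nat_lit 924) (nat_lit 24155442986) (nat_lit 139) (nat_lit 1) (nat_lit 128) (nat_lit 0) (nat_lit 139) (nat_lit 0) (nat_lit 84) (nat_lit 318) (nat_lit 318))) (XT.nd (nat_lit 94) (nat_lit 0) (nat_lit 84) (XT.lf (nat_lit 924) (nat_lit 93629512704) (nat_lit 84) (nat_lit 42196192636) (nat_lit 0) (nat_lit 42196192636) (nat_lit 139) (nat_lit 1) (nat_lit 129) (nat_lit 1) (nat_lit 128) (nat_lit 0) (nat_lit 85) (nat_lit 318) (nat_lit 317)) (XT.lf (nat_lit 924) (nat_lit 44622415976) (nat_lit 0) (nat_lit 84536602719) (nat_lit 840) (nat_lit 44622415976) (nat_lit 140) (nat_lit 1) (nat_lit 129) (nat_lit 1) (nat_lit 139) (nat_lit 1) (nat_lit 86) (nat_lit 318) (nat_lit 316))))) (XT.nd (nat_lit 282) (nat_lit 7476) (nat_lit 0) (XT.nd (nat_lit 94) (nat_lit 0) (nat_lit 84) (XT.lf (nat_lit 924) (nat_lit 83705451931) (nat_lit 84) (nat_lit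 42986258997) (nat_lit 0) (nat_lit 42986258997) (nat_lit 140) (nat_lit 1) (nat_lit 130) (nat_lit 1) (nat_lit 129) (nat_lit 1) (nat_lit 87) (nat_lit 318) (nat_lit 315)) (XT.nd (nat_lit 94) (nat_lit 0) (nat_lit 0) (XT.lf (nat_lit 924) (nat_lit 38528815693) (nat_lit 0) (nat_lit 88646933040) (nat_lit 840) (nat_lit 38528815693) (nat_lit 141) (nat_lit 1) (nat_lit 130) (nat_lit 1) (nat_lit 140) (nat_lit 1) (nat_lit 88) (nat_lit 318) (nat_lit 314)) (XT.lf (nat_lit 924) (nat_lit 69296584482) (nat_lit 84) (nat_lit 46277849514) (nat_lit 0) (nat_lit 46277849514) (nat_lit 141) (nat_lit 1) (nat_lit 131) (nat_lit 1) (nat_lit 130) (nat_lit 1) (nat_lit 89) (nat_lit 318) (nat_lit 313)))) (XT.nd (nat_lit 4324) (nat_lit 168) (nat_lit 0) (XT.nd (nat_lit 4230) (nat_lit 7476) (nat_lit 0) (XT.lf (nat_lit 924) (nat_lit 30384550829) (nat_lit 0) (nat_lit 97360247192) (nat_lit 840) (nat_lit 30384550829)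 (nat_lit 142) (nat_lit 1) (nat_lit 131) (nat_lit 1) (nat_lit 141) (nat_lit 1) (nat_lit 90) (nat_lit 318) (nat_lit 312)) (XT.lf (nat_lit 84) (nat_lit 29423591469) (nat_lit 0) (nat_lit 6018918498) (nat_lit 168) (nat_lit 29423591469) (nat_lit 43) (nat_lit 1) (nat_lit 42) (nat_lit 1) (nat_lit 44) (nat_lit 1) (nat_lit 135) (nat_lit 318) (nat_lit 267))) (XT.nd (nat_lit 94) (nat_lit 0) (nat_lit 0) (XT.lf (nat_lit 252) (nat_lit 40023630863) (nat_lit 0) (nat_lit 11859740782) (nat_lit 168) (nat_lit 11859740782) (nat_lit 43) (nat_lit 1) (nat_lit 40) (nat_lit 1) (nat_lit 42) (nat_lit 1) (nat_lit 136) (nat_lit 318) (nat_lit 266)) (XT.lf (nat_lit 84) (nat_lit 10720156657) (nat_lit 0) (nat_lit 41202041720) (nat_lit 252) (nat_lit 10720156657) (nat_lit 41) (nat_lit 1) (nat_lit 40) (nat_lit 1) (nat_lit 43) (nat_lit 1) (nat_lit 137) (nat_lit 318) (nat_lit 265))))))) (XT.nd (nat_lit 1222) (nat_lit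 1092) (nat_lit 0) (XT.nd (nat_lit 564) (nat_lit 672) (nat_lit 0) (XT.nd (nat_lit 282) (nat_lit 336) (nat_lit 0) (XT.nd (nat_lit 94) (nat_lit 252) (nat_lit 0) (XT.lf (nat_lit 168) (nat_lit 3077366587) (nat_lit 0) (nat_lit 29242501439) (nat_lit 84) (nat_lit 29242501439) (nat_lit 41) (nat_lit 1) (nat_lit 39) (nat_lit 1) (nat_lit 40) (nat_lit 1) (nat_lit 138) (nat_lit 318) (nat_lit 264)) (XT.nd (nat_lit 94) (nat_lit 0) (nat_lit 0) (XT.lf (nat_lit 252) (nat_lit 46280288582) (nat_lit 0) (nat_lit 7114175539) (nat_lit 168) (nat_lit 7114175539) (nat_lit 39) (nat_lit 1) (nat_lit 36) (nat_lit 1) (nat_lit 38) (nat_lit 1) (nat_lit 139) (nat_lit 318) (nat_lit 263)) (XT.lf (nat_lit 84) (nat_lit 14063962026) (nat_lit 0) (nat_lit 31338747244) (nat_lit 252) (nat_lit 14063962026) (nat_lit 37) (nat_lit 1) (nat_lit 36) (nat_lit 1) (nat_lit 39) (nat_lit 1) (nat_lit 140) (nat_lit 318) (nat_lit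 262)))) (XT.nd (nat_lit 94) (nat_lit 252) (nat_lit 0) (XT.lf (nat_lit 168) (nat_lit 10334494167) (nat_lit 0) (nat_lit 24057878303) (nat_lit 84) (nat_lit 24057878303) (nat_lit 37) (nat_lit 1) (nat_lit 35) (nat_lit 1) (nat_lit 36) (nat_lit 1) (nat_lit 141) (nat_lit 318) (nat_lit 261)) (XT.nd (nat_lit 94) (nat_lit 0) (nat_lit 0) (XT.lf (nat_lit 252) (nat_lit 50791811208) (nat_lit 0) (nat_lit 3335837867) (nat_lit 168) (nat_lit 3335837867) (nat_lit 35) (nat_lit 1) (nat_lit 32) (nat_lit 1) (nat_lit 34) (nat_lit 1) (nat_lit 142) (nat_lit 318) (nat_lit 260)) (XT.lf (nat_lit 84) (nat_lit 16565182663) (nat_lit 0) (nat_lit 23346013061) (nat_lit 252) (nat_lit 16565182663) (nat_lit 33) (nat_lit 1) (nat_lit 32) (nat_lit 1) (nat_lit 35) (nat_lit 1) (nat_lit 143) (nat_lit 318) (nat_lit 259))))) (XT.nd (nat_lit 282) (nat_lit 336) (nat_lit 0) (XT.nd (nat_lit 94) (nat_lit 252) (nat_lit 0)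 (XT.lf (nat_lit 168) (nat_lit 15933392080) (nat_lit 0) (nat_lit 19792476018) (nat_lit 84) (nat_lit 19792476018) (nat_lit 33) (nat_lit 1) (nat_lit 31) (nat_lit 1) (nat_lit 32) (nat_lit 1) (nat_lit 144) (nat_lit 318) (nat_lit 258)) (XT.nd (nat_lit 94) (nat_lit 0) (nat_lit 0) (XT.lf (nat_lit 252) (nat_lit 53897885216) (nat_lit 0) (nat_lit 347247826) (nat_lit 168) (nat_lit 347247826) (nat_lit 31) (nat_lit 1) (nat_lit 28) (nat_lit 1) (nat_lit 30) (nat_lit 1) (nat_lit 145) (nat_lit 318) (nat_lit 257)) (XT.lf (nat_lit 84) (nat_lit 18385098962) (nat_lit 0) (nat_lit 16886392385) (nat_lit 252) (nat_lit 18385098962) (nat_lit 29) (nat_lit 1) (nat_lit 28) (nat_lit 1) (nat_lit 31) (nat_lit 1) (nat_lit 146) (nat_lit 318) (nat_lit 256)))) (XT.nd (nat_lit 188) (nat_lit 252) (nat_lit 0) (XT.nd (nat_lit 94) (nat_lit 0) (nat_lit 0) (XT.lf (nat_lit 168) (nat_lit 20185753622) (nat_lit 0) (nat_lit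 16283319002) (nat_lit 84) (nat_lit 16283319002) (nat_lit 29) (nat_lit 1) (nat_lit 27) (nat_lit 1) (nat_lit 28) (nat_lit 1) (nat_lit 147) (nat_lit 318) (nat_lit 255)) (XT.lf (nat_lit 0) (nat_lit 2030065384) (nat_lit 0) (nat_lit 47815361445) (nat_lit 168) (nat_lit 2030065384) (nat_lit 27) (nat_lit 3) (nat_lit 27) (nat_lit 1) (nat_lit 29) (nat_lit 1) (nat_lit 148) (nat_lit 318) (nat_lit 254))) (XT.nd (nat_lit 94) (nat_lit 84) (nat_lit 0) (XT.lf (nat_lit 84) (nat_lit 19655830406) (nat_lit 0) (nat_lit 11682543152) (nat_lit 168) (nat_lit 19655830406) (nat_lit 26) (nat_lit 1) (nat_lit 25) (nat_lit 1) (nat_lit 27) (nat_lit 1) (nat_lit 149) (nat_lit 318) (nat_lit 253)) (XT.lf (nat_lit 168) (nat_lit 23347167104) (nat_lit 0) (nat_lit 13396326841) (nat_lit 84) (nat_lit 13396326841) (nat_lit 26) (nat_lit 1) (nat_lit 24) (nat_lit 1) (nat_lit 25) (nat_lit 1) (nat_lit 150) (nat_lit 318)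 (nat_lit 252)))))) (XT.nd (nat_lit 658) (nat_lit 588) (nat_lit 0) (XT.nd (nat_lit 282) (nat_lit 252) (nat_lit 0) (XT.nd (nat_lit 94) (nat_lit 252) (nat_lit 0) (XT.lf (nat_lit 0) (nat_lit 3880073469) (nat_lit 0) (nat_lit 41547749848) (nat_lit 168) (nat_lit 3880073469) (nat_lit 24) (nat_lit 3) (nat_lit 24) (nat_lit 1) (nat_lit 26) (nat_lit 1) (nat_lit 151) (nat_lit 318) (nat_lit 251)) (XT.nd (nat_lit 94) (nat_lit 84) (nat_lit 0) (XT.lf (nat_lit 84) (nat_lit 20485532690) (nat_lit 0) (nat_lit 7506558445) (nat_lit 168) (nat_lit 20485532690) (nat_lit 23) (nat_lit 1) (nat_lit 22) (nat_lit 1) (nat_lit 24) (nat_lit 1) (nat_lit 152) (nat_lit 318) (nat_lit 250)) (XT.lf (nat_lit 168) (nat_lit 25627103246) (nat_lit 0) (nat_lit 11021191245) (nat_lit 84) (nat_lit 11021191245) (nat_lit 23) (nat_lit 1) (nat_lit 21) (nat_lit 1) (nat_lit 22) (nat_lit 1) (nat_lit 153) (nat_lit 318) (nat_lit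 249)))) (XT.nd (nat_lit 188) (nat_lit 84) (nat_lit 0) (XT.nd (nat_lit 94) (nat_lit 168) (nat_lit 0) (XT.lf (nat_lit 0) (nat_lit 5296844763) (nat_lit 0) (nat_lit 36286135340) (nat_lit 168) (nat_lit 5296844763) (nat_lit 21) (nat_lit 3) (nat_lit 21) (nat_lit 1) (nat_lit 23) (nat_lit 1) (nat_lit 154) (nat_lit 318) (nat_lit 248)) (XT.lf (nat_lit 84) (nat_lit 20962672129) (nat_lit 0) (nat_lit 4171189240) (nat_lit 168) (nat_lit 20962672129) (nat_lit 20) (nat_lit 1) (nat_lit 19) (nat_lit 1) (nat_lit 21) (nat_lit 1) (nat_lit 155) (nat_lit 318) (nat_lit 247))) (XT.nd (nat_lit 94) (nat_lit 0) (nat_lit 0) (XT.lf (nat_lit 168) (nat_lit 27197129919) (nat_lit 0) (nat_lit 9067161312) (nat_lit 84) (nat_lit 9067161312) (nat_lit 20) (nat_lit 1) (nat_lit 18) (nat_lit 1) (nat_lit 19) (nat_lit 1) (nat_lit 156) (nat_lit 318) (nat_lit 246)) (XT.lf (nat_lit 0) (nat_lit 6362202265) (nat_lit 0) (nat_lit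 31857168314) (nat_lit 168) (nat_lit 6362202265) (nat_lit 18) (nat_lit 3) (nat_lit 18) (nat_lit 1) (nat_lit 20) (nat_lit 1) (nat_lit 157) (nat_lit 318) (nat_lit 245))))) (XT.nd (nat_lit 282) (nat_lit 336) (nat_lit 0) (XT.nd (nat_lit 94) (nat_lit 84) (nat_lit 0) (XT.lf (nat_lit 84) (nat_lit 21159540989) (nat_lit 0) (nat_lit 1522623930) (nat_lit 168) (nat_lit 21159540989) (nat_lit 17) (nat_lit 1) (nat_lit 16) (nat_lit 1) (nat_lit 18) (nat_lit 1) (nat_lit 158) (nat_lit 318) (nat_lit 244)) (XT.nd (nat_lit 94) (nat_lit 0) (nat_lit 0) (XT.lf (nat_lit 168) (nat_lit 28197668621) (nat_lit 0) (nat_lit 7459576051) (nat_lit 84) (nat_lit 7459576051) (nat_lit 17) (nat_lit 1) (nat_lit 15) (nat_lit 1) (nat_lit 16) (nat_lit 1) (nat_lit 159) (nat_lit 318) (nat_lit 243)) (XT.lf (nat_lit 0) (nat_lit 7143223329) (nat_lit 0) (nat_lit 28117994992) (nat_lit 168) (nat_lit 7143223329) (nat_lit 15)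 (nat_lit 3) (nat_lit 15) (nat_lit 1) (nat_lit 17) (nat_lit 1) (nat_lit 160) (nat_lit 318) (nat_lit 242)))) (XT.nd (nat_lit 188) (nat_lit 84) (nat_lit 0) (XT.nd (nat_lit 94) (nat_lit 168) (nat_lit 0) (XT.lf (nat_lit 84) (nat_lit 584147787) (nat_lit 0) (nat_lit 20560120800) (nat_lit 84) (nat_lit 20560120800) (nat_lit 15) (nat_lit 3) (nat_lit 14) (nat_lit 1) (nat_lit 15) (nat_lit 1) (nat_lit 161) (nat_lit 318) (nat_lit 241)) (XT.lf (nat_lit 168) (nat_lit 28743551311) (nat_lit 0) (nat_lit 6137011678) (nat_lit 84) (nat_lit 6137011678) (nat_lit 14) (nat_lit 1) (nat_lit 12) (nat_lit 1) (nat_lit 13) (nat_lit 1) (nat_lit 162) (nat_lit 318) (nat_lit 240))) (XT.nd (nat_lit 94) (nat_lit 84) (nat_lit 0) (XT.lf (nat_lit 0) (nat_lit 7694865396) (nat_lit 0) (nat_lit 24950861952) (nat_lit 168) (nat_lit 7694865396) (nat_lit 12) (nat_lit 3) (nat_lit 12) (nat_lit 1) (nat_lit 14) (nat_lit 1)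 (nat_lit 163) (nat_lit 318) (nat_lit 239)) (XT.lf (nat_lit 84) (nat_lit 2269373234) (nat_lit 0) (nat_lit 18703655668) (nat_lit 84) (nat_lit 18703655668) (nat_lit 12) (nat_lit 3) (nat_lit 11) (nat_lit 1) (nat_lit 12) (nat_lit 1) (nat_lit 164) (nat_lit 318) (nat_lit 238))))))))
noncomputable def ec241 : XT := (XT.nd (nat_lit 6580) (nat_lit 0) (nat_lit 0) (XT.nd (nat_lit 1222) (nat_lit 0) (nat_lit 0) (XT.nd (nat_lit 564) (nat_lit 420) (nat_lit 0) (XT.nd (nat_lit 282) (nat_lit 252) (nat_lit 0) (XT.nd (nat_lit 94) (nat_lit 84) (nat_lit 0) (XT.lf (nat_lit 168) (nat_lit 28928590372) (nat_lit 0) (nat_lit 5048934695) (nat_lit 84) (nat_lit 5048934695) (nat_lit 11) (nat_lit 1) (nat_lit 9) (nat_lit 1) (nat_lit 10) (nat_lit 1) (nat_lit 165) (nat_lit 318) (nat_lit 237)) (XT.nd (nat_lit 94) (nat_lit 84) (nat_lit 0) (XT.lf (nat_lit 0) (nat_lit 8062125649) (nat_lit 0) (nat_lit 22258676720)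 (nat_lit 168) (nat_lit 8062125649) (nat_lit 9) (nat_lit 3) (nat_lit 9) (nat_lit 1) (nat_lit 11) (nat_lit 1) (nat_lit 166) (nat_lit 318) (nat_lit 236)) (XT.lf (nat_lit 84) (nat_lit 3570631741) (nat_lit 0) (nat_lit 17091156571) (nat_lit 84) (nat_lit 17091156571) (nat_lit 9) (nat_lit 3) (nat_lit 8) (nat_lit 1) (nat_lit 9) (nat_lit 1) (nat_lit 167) (nat_lit 318) (nat_lit 235)))) (XT.nd (nat_lit 94) (nat_lit 84) (nat_lit 0) (XT.lf (nat_lit 168) (nat_lit 28829336771) (nat_lit 0) (nat_lit 4153771069) (nat_lit 84) (nat_lit 4153771069) (nat_lit 8) (nat_lit 1) (nat_lit 6) (nat_lit 1) (nat_lit 7) (nat_lit 1) (nat_lit 168) (nat_lit 318) (nat_lit 234)) (XT.nd (nat_lit 94) (nat_lit 84) (nat_lit 0) (XT.lf (nat_lit 0) (nat_lit 8281817241) (nat_lit 0) (nat_lit 19961354941) (nat_lit 168) (nat_lit 8281817241) (nat_lit 6) (nat_lit 3) (nat_lit 6) (nat_lit 1) (nat_lit 8) (nat_lit 1) (nat_lit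 169) (nat_lit 318) (nat_lit 233)) (XT.lf (nat_lit 84) (nat_lit 4560055919) (nat_lit 0) (nat_lit 15683425157) (nat_lit 84) (nat_lit 15683425157) (nat_lit 6) (nat_lit 3) (nat_lit 5) (nat_lit 1) (nat_lit 6) (nat_lit 1) (nat_lit 170) (nat_lit 318) (nat_lit 232))))) (XT.nd (nat_lit 282) (nat_lit 168) (nat_lit 0) (XT.nd (nat_lit 94) (nat_lit 84) (nat_lit 0) (XT.lf (nat_lit 168) (nat_lit 28508170403) (nat_lit 0) (nat_lit 3417317738) (nat_lit 84) (nat_lit 3417317738) (nat_lit 5) (nat_lit 1) (nat_lit 3) (nat_lit 1) (nat_lit 4) (nat_lit 1) (nat_lit 171) (nat_lit 318) (nat_lit 231)) (XT.nd (nat_lit 94) (nat_lit 84) (nat_lit 0) (XT.lf (nat_lit 0) (nat_lit 8384030129) (nat_lit 0) (nat_lit 17992814699) (nat_lit 168) (nat_lit 8384030129) (nat_lit 3) (nat_lit 3) (nat_lit 3) (nat_lit 1) (nat_lit 5) (nat_lit 1) (nat_lit 172) (nat_lit 318) (nat_lit 230)) (XT.lf (nat_lit 84) (nat_lit 5296796288)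 (nat_lit 0) (nat_lit 14448019688) (nat_lit 84) (nat_lit 14448019688) (nat_lit 3) (nat_lit 3) (nat_lit 2) (nat_lit 1) (nat_lit 3) (nat_lit 1) (nat_lit 173) (nat_lit 318) (nat_lit 229)))) (XT.nd (nat_lit 188) (nat_lit 0) (nat_lit 0) (XT.nd (nat_lit 94) (nat_lit 0) (nat_lit 0) (XT.lf (nat_lit 0) (nat_lit 48866554618) (nat_lit 0) (nat_lit 0) (nat_lit 0) (nat_lit 0) (nat_lit 0) (nat_lit 0) (nat_lit 1) (nat_lit 0) (nat_lit 1) (nat_lit 0) (nat_lit 174) (nat_lit 318) (nat_lit 228)) (XT.lf (nat_lit 0) (nat_lit 48838083208) (nat_lit 0) (nat_lit 0) (nat_lit 0) (nat_lit 0) (nat_lit 0) (nat_lit 0) (nat_lit 1) (nat_lit 0) (nat_lit 1) (nat_lit 0) (nat_lit 175) (nat_lit 318) (nat_lit 227))) (XT.nd (nat_lit 94) (nat_lit 0) (nat_lit 0) (XT.lf (nat_lit 0) (nat_lit 48810967578) (nat_lit 0) (nat_lit 0) (nat_lit 0) (nat_lit 0) (nat_lit 0) (nat_lit 0) (nat_lit 1) (nat_lit 0) (nat_lit 1) (nat_lit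 0) (nat_lit 176) (nat_lit 318) (nat_lit 226)) (XT.lf (nat_lit 0) (nat_lit 48785143170) (nat_lit 0) (nat_lit 0) (nat_lit 0) (nat_lit 0) (nat_lit 0) (nat_lit 0) (nat_lit 1) (nat_lit 0) (nat_lit 1) (nat_lit 0) (nat_lit 177) (nat_lit 318) (nat_lit 225)))))) (XT.nd (nat_lit 4700) (nat_lit 0) (nat_lit 0) (XT.nd (nat_lit 4324) (nat_lit 0) (nat_lit 0) (XT.nd (nat_lit 94) (nat_lit 0) (nat_lit 0) (XT.lf (nat_lit 0) (nat_lit 48760548494) (nat_lit 0) (nat_lit 0) (nat_lit 0) (nat_lit 0) (nat_lit 0) (nat_lit 0) (nat_lit 1) (nat_lit 0) (nat_lit 1) (nat_lit 0) (nat_lit 178) (nat_lit 318) (nat_lit 224)) (XT.nd (nat_lit 4136) (nat_lit 0) (nat_lit 0) (XT.lf (nat_lit 0) (nat_lit 48737124994) (nat_lit 0) (nat_lit 0) (nat_lit 0) (nat_lit 0) (nat_lit 0) (nat_lit 0) (nat_lit 1) (nat_lit 0) (nat_lit 1) (nat_lit 0) (nat_lit 179) (nat_lit 318) (nat_lit 223)) (XT.lf (nat_lit 0) (nat_lit 48323401023)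 (nat_lit 0) (nat_lit 0) (nat_lit 0) (nat_lit 0) (nat_lit 0) (nat_lit 0) (nat_lit 1) (nat_lit 0) (nat_lit 1) (nat_lit 0) (nat_lit 223) (nat_lit 318) (nat_lit 179)))) (XT.nd (nat_lit 188) (nat_lit 0) (nat_lit 0) (XT.nd (nat_lit 94) (nat_lit 0) (nat_lit 0) (XT.lf (nat_lit 0) (nat_lit 48320794069) (nat_lit 0) (nat_lit 0) (nat_lit 0) (nat_lit 0) (nat_lit 0) (nat_lit 0) (nat_lit 1) (nat_lit 0) (nat_lit 1) (nat_lit 0) (nat_lit 224) (nat_lit 318) (nat_lit 178)) (XT.lf (nat_lit 0) (nat_lit 48318311256) (nat_lit 0) (nat_lit 0) (nat_lit 0) (nat_lit 0) (nat_lit 0) (nat_lit 0) (nat_lit 1) (nat_lit 0) (nat_lit 1) (nat_lit 0) (nat_lit 225) (nat_lit 318) (nat_lit 177))) (XT.nd (nat_lit 94) (nat_lit 0) (nat_lit 0) (XT.lf (nat_lit 0) (nat_lit 48315946672) (nat_lit 0) (nat_lit 0) (nat_lit 0) (nat_lit 0) (nat_lit 0) (nat_lit 0) (nat_lit 1) (nat_lit 0) (nat_lit 1) (nat_lit 0) (nat_lit 226) (nat_lit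 318) (nat_lit 176)) (XT.lf (nat_lit 0) (nat_lit 48313694687) (nat_lit 0) (nat_lit 0) (nat_lit 0) (nat_lit 0) (nat_lit 0) (nat_lit 0) (nat_lit 1) (nat_lit 0) (nat_lit 1) (nat_lit 0) (nat_lit 227) (nat_lit 318) (nat_lit 175))))) (XT.nd (nat_lit 282) (nat_lit 0) (nat_lit 0) (XT.nd (nat_lit 94) (nat_lit 0) (nat_lit 0) (XT.lf (nat_lit 0) (nat_lit 48311549940) (nat_lit 0) (nat_lit 0) (nat_lit 0) (nat_lit 0) (nat_lit 0) (nat_lit 0) (nat_lit 1) (nat_lit 0) (nat_lit 1) (nat_lit 0) (nat_lit 228) (nat_lit 318) (nat_lit 174)) (XT.nd (nat_lit 94) (nat_lit 0) (nat_lit 0) (XT.lf (nat_lit 0) (nat_lit 48309507323) (nat_lit 0) (nat_lit 0) (nat_lit 0) (nat_lit 0) (nat_lit 0) (nat_lit 0) (nat_lit 1) (nat_lit 0) (nat_lit 1) (nat_lit 0) (nat_lit 229) (nat_lit 318) (nat_lit 173)) (XT.lf (nat_lit 0) (nat_lit 48307561974) (nat_lit 0) (nat_lit 0) (nat_lit 0) (nat_lit 0) (nat_lit 0) (nat_lit 0) (nat_lit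 1) (nat_lit 0) (nat_lit 1) (nat_lit 0) (nat_lit 230) (nat_lit 318) (nat_lit 172)))) (XT.nd (nat_lit 188) (nat_lit 0) (nat_lit 0) (XT.nd (nat_lit 94) (nat_lit 0) (nat_lit 0) (XT.lf (nat_lit 0) (nat_lit 48305709261) (nat_lit 0) (nat_lit 0) (nat_lit 0) (nat_lit 0) (nat_lit 0) (nat_lit 0) (nat_lit 1) (nat_lit 0) (nat_lit 1) (nat_lit 0) (nat_lit 231) (nat_lit 318) (nat_lit 171)) (XT.lf (nat_lit 0) (nat_lit 48303944772) (nat_lit 0) (nat_lit 0) (nat_lit 0) (nat_lit 0) (nat_lit 0) (nat_lit 0) (nat_lit 1) (nat_lit 0) (nat_lit 1) (nat_lit 0) (nat_lit 232) (nat_lit 318) (nat_lit 170))) (XT.nd (nat_lit 94) (nat_lit 0) (nat_lit 0) (XT.lf (nat_lit 0) (nat_lit 48302264306) (nat_lit 0) (nat_lit 0) (nat_lit 0) (nat_lit 0) (nat_lit 0) (nat_lit 0) (nat_lit 1) (nat_lit 0) (nat_lit 1) (nat_lit 0) (nat_lit 233) (nat_lit 318) (nat_lit 169)) (XT.lf (nat_lit 0) (nat_lit 48300663863) (nat_lit 0)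 (nat_lit 0) (nat_lit 0) (nat_lit 0) (nat_lit 0) (nat_lit 0) (nat_lit 1) (nat_lit 0) (nat_lit 1) (nat_lit 0) (nat_lit 234) (nat_lit 318) (nat_lit 168))))))) (XT.nd (nat_lit 1222) (nat_lit 0) (nat_lit 0) (XT.nd (nat_lit 564) (nat_lit 0) (nat_lit 0) (XT.nd (nat_lit 282) (nat_lit 0) (nat_lit 0) (XT.nd (nat_lit 94) (nat_lit 0) (nat_lit 0) (XT.lf (nat_lit 0) (nat_lit 48299139631) (nat_lit 0) (nat_lit 0) (nat_lit 0) (nat_lit 0) (nat_lit 0) (nat_lit 0) (nat_lit 1) (nat_lit 0) (nat_lit 1) (nat_lit 0) (nat_lit 235) (nat_lit 318) (nat_lit 167)) (XT.nd (nat_lit 94) (nat_lit 0) (nat_lit 0) (XT.lf (nat_lit 0) (nat_lit 48297687982) (nat_lit 0) (nat_lit 0) (nat_lit 0) (nat_lit 0) (nat_lit 0) (nat_lit 0) (nat_lit 1) (nat_lit 0) (nat_lit 1) (nat_lit 0) (nat_lit 236) (nat_lit 318) (nat_lit 166)) (XT.lf (nat_lit 0) (nat_lit 48296305458) (nat_lit 0) (nat_lit 0) (nat_lit 0) (nat_lit 0) (nat_lit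 0) (nat_lit 0) (nat_lit 1) (nat_lit 0) (nat_lit 1) (nat_lit 0) (nat_lit 237) (nat_lit 318) (nat_lit 165)))) (XT.nd (nat_lit 94) (nat_lit 0) (nat_lit 0) (XT.lf (nat_lit 0) (nat_lit 48294988769) (nat_lit 0) (nat_lit 0) (nat_lit 0) (nat_lit 0) (nat_lit 0) (nat_lit 0) (nat_lit 1) (nat_lit 0) (nat_lit 1) (nat_lit 0) (nat_lit 238) (nat_lit 318) (nat_lit 164)) (XT.nd (nat_lit 94) (nat_lit 0) (nat_lit 0) (XT.lf (nat_lit 0) (nat_lit 48293734780) (nat_lit 0) (nat_lit 0) (nat_lit 0) (nat_lit 0) (nat_lit 0) (nat_lit 0) (nat_lit 1) (nat_lit 0) (nat_lit 1) (nat_lit 0) (nat_lit 239) (nat_lit 318) (nat_lit 163)) (XT.lf (nat_lit 0) (nat_lit 48292540505) (nat_lit 0) (nat_lit 0) (nat_lit 0) (nat_lit 0) (nat_lit 0) (nat_lit 0) (nat_lit 1) (nat_lit 0) (nat_lit 1) (nat_lit 0) (nat_lit 240) (nat_lit 318) (nat_lit 162))))) (XT.nd (nat_lit 282) (nat_lit 0) (nat_lit 0) (XT.nd (nat_lit 94) (nat_lit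 0) (nat_lit 0) (XT.lf (nat_lit 0) (nat_lit 48291403099) (nat_lit 0) (nat_lit 0) (nat_lit 0) (nat_lit 0) (nat_lit 0) (nat_lit 0) (nat_lit 1) (nat_lit 0) (nat_lit 1) (nat_lit 0) (nat_lit 241) (nat_lit 318) (nat_lit 161)) (XT.nd (nat_lit 94) (nat_lit 0) (nat_lit 0) (XT.lf (nat_lit 0) (nat_lit 48290319856) (nat_lit 0) (nat_lit 0) (nat_lit 0) (nat_lit 0) (nat_lit 0) (nat_lit 0) (nat_lit 1) (nat_lit 0) (nat_lit 1) (nat_lit 0) (nat_lit 242) (nat_lit 318) (nat_lit 160)) (XT.lf (nat_lit 0) (nat_lit 48289288196) (nat_lit 0) (nat_lit 0) (nat_lit 0) (nat_lit 0) (nat_lit 0) (nat_lit 0) (nat_lit 1) (nat_lit 0) (nat_lit 1) (nat_lit 0) (nat_lit 243) (nat_lit 318) (nat_lit 159)))) (XT.nd (nat_lit 188) (nat_lit 0) (nat_lit 0) (XT.nd (nat_lit 94) (nat_lit 0) (nat_lit 0) (XT.lf (nat_lit 0) (nat_lit 48288305663) (nat_lit 0) (nat_lit 0) (nat_lit 0) (nat_lit 0) (nat_lit 0) (nat_lit 0) (nat_lit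 1) (nat_lit 0) (nat_lit 1) (nat_lit 0) (nat_lit 244) (nat_lit 318) (nat_lit 158)) (XT.lf (nat_lit 0) (nat_lit 48287369916) (nat_lit 0) (nat_lit 0) (nat_lit 0) (nat_lit 0) (nat_lit 0) (nat_lit 0) (nat_lit 1) (nat_lit 0) (nat_lit 1) (nat_lit 0) (nat_lit 245) (nat_lit 318) (nat_lit 157))) (XT.nd (nat_lit 94) (nat_lit 0) (nat_lit 0) (XT.lf (nat_lit 0) (nat_lit 48286478730) (nat_lit 0) (nat_lit 0) (nat_lit 0) (nat_lit 0) (nat_lit 0) (nat_lit 0) (nat_lit 1) (nat_lit 0) (nat_lit 1) (nat_lit 0) (nat_lit 246) (nat_lit 318) (nat_lit 156)) (XT.lf (nat_lit 0) (nat_lit 48285629980) (nat_lit 0) (nat_lit 0) (nat_lit 0) (nat_lit 0) (nat_lit 0) (nat_lit 0) (nat_lit 1) (nat_lit 0) (nat_lit 1) (nat_lit 0) (nat_lit 247) (nat_lit 318) (nat_lit 155)))))) (XT.nd (nat_lit 658) (nat_lit 0) (nat_lit 0) (XT.nd (nat_lit 282) (nat_lit 0) (nat_lit 0) (XT.nd (nat_lit 94) (nat_lit 0) (nat_lit 0) (XT.lf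 (nat_lit 0) (nat_lit 48284821648) (nat_lit 0) (nat_lit 0) (nat_lit 0) (nat_lit 0) (nat_lit 0) (nat_lit 0) (nat_lit 1) (nat_lit 0) (nat_lit 1) (nat_lit 0) (nat_lit 248) (nat_lit 318) (nat_lit 154)) (XT.nd (nat_lit 94) (nat_lit 0) (nat_lit 0) (XT.lf (nat_lit 0) (nat_lit 48284051807) (nat_lit 0) (nat_lit 0) (nat_lit 0) (nat_lit 0) (nat_lit 0) (nat_lit 0) (nat_lit 1) (nat_lit 0) (nat_lit 1) (nat_lit 0) (nat_lit 249) (nat_lit 318) (nat_lit 153)) (XT.lf (nat_lit 0) (nat_lit 48283318625) (nat_lit 0) (nat_lit 0) (nat_lit 0) (nat_lit 0) (nat_lit 0) (nat_lit 0) (nat_lit 1) (nat_lit 0) (nat_lit 1) (nat_lit 0) (nat_lit 250) (nat_lit 318) (nat_lit 152)))) (XT.nd (nat_lit 188) (nat_lit 0) (nat_lit 0) (XT.nd (nat_lit 94) (nat_lit 0) (nat_lit 0) (XT.lf (nat_lit 0) (nat_lit 48282620357) (nat_lit 0) (nat_lit 0) (nat_lit 0) (nat_lit 0) (nat_lit 0) (nat_lit 0) (nat_lit 1) (nat_lit 0) (nat_lit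 1) (nat_lit 0) (nat_lit 251) (nat_lit 318) (nat_lit 151)) (XT.lf (nat_lit 0) (nat_lit 48281955340) (nat_lit 0) (nat_lit 0) (nat_lit 0) (nat_lit 0) (nat_lit 0) (nat_lit 0) (nat_lit 1) (nat_lit 0) (nat_lit 1) (nat_lit 0) (nat_lit 252) (nat_lit 318) (nat_lit 150))) (XT.nd (nat_lit 94) (nat_lit 0) (nat_lit 0) (XT.lf (nat_lit 0) (nat_lit 48281321990) (nat_lit 0) (nat_lit 0) (nat_lit 0) (nat_lit 0) (nat_lit 0) (nat_lit 0) (nat_lit 1) (nat_lit 0) (nat_lit 1) (nat_lit 0) (nat_lit 253) (nat_lit 318) (nat_lit 149)) (XT.lf (nat_lit 0) (nat_lit 48280718800) (nat_lit 0) (nat_lit 0) (nat_lit 0) (nat_lit 0) (nat_lit 0) (nat_lit 0) (nat_lit 1) (nat_lit 0) (nat_lit 1) (nat_lit 0) (nat_lit 254) (nat_lit 318) (nat_lit 148))))) (XT.nd (nat_lit 282) (nat_lit 0) (nat_lit 0) (XT.nd (nat_lit 94) (nat_lit 0) (nat_lit 0) (XT.lf (nat_lit 0) (nat_lit 48280144333) (nat_lit 0) (nat_lit 0) (nat_lit 0)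 (nat_lit 0) (nat_lit 0) (nat_lit 0) (nat_lit 1) (nat_lit 0) (nat_lit 1) (nat_lit 0) (nat_lit 255) (nat_lit 318) (nat_lit 147)) (XT.nd (nat_lit 94) (nat_lit 0) (nat_lit 0) (XT.lf (nat_lit 0) (nat_lit 48279597221) (nat_lit 0) (nat_lit 0) (nat_lit 0) (nat_lit 0) (nat_lit 0) (nat_lit 0) (nat_lit 1) (nat_lit 0) (nat_lit 1) (nat_lit 0) (nat_lit 256) (nat_lit 318) (nat_lit 146)) (XT.lf (nat_lit 0) (nat_lit 48279076163) (nat_lit 0) (nat_lit 0) (nat_lit 0) (nat_lit 0) (nat_lit 0) (nat_lit 0) (nat_lit 1) (nat_lit 0) (nat_lit 1) (nat_lit 0) (nat_lit 257) (nat_lit 318) (nat_lit 145)))) (XT.nd (nat_lit 188) (nat_lit 0) (nat_lit 0) (XT.nd (nat_lit 94) (nat_lit 0) (nat_lit 0) (XT.lf (nat_lit 0) (nat_lit 48278579917) (nat_lit 0) (nat_lit 0) (nat_lit 0) (nat_lit 0) (nat_lit 0) (nat_lit 0) (nat_lit 1) (nat_lit 0) (nat_lit 1) (nat_lit 0) (nat_lit 258) (nat_lit 318) (nat_lit 144)) (XT.lf (nat_lit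 0) (nat_lit 48278107301) (nat_lit 0) (nat_lit 0) (nat_lit 0) (nat_lit 0) (nat_lit 0) (nat_lit 0) (nat_lit 1) (nat_lit 0) (nat_lit 1) (nat_lit 0) (nat_lit 259) (nat_lit 318) (nat_lit 143))) (XT.nd (nat_lit 94) (nat_lit 0) (nat_lit 0) (XT.lf (nat_lit 0) (nat_lit 48277657191) (nat_lit 0) (nat_lit 0) (nat_lit 0) (nat_lit 0) (nat_lit 0) (nat_lit 0) (nat_lit 1) (nat_lit 0) (nat_lit 1) (nat_lit 0) (nat_lit 260) (nat_lit 318) (nat_lit 142)) (XT.lf (nat_lit 0) (nat_lit 48277228515) (nat_lit 0) (nat_lit 0) (nat_lit 0) (nat_lit 0) (nat_lit 0) (nat_lit 0) (nat_lit 1) (nat_lit 0) (nat_lit 1) (nat_lit 0) (nat_lit 261) (nat_lit 318) (nat_lit 141))))))))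
noncomputable def ec242 : XT := (XT.nd (nat_lit 33558) (nat_lit 0) (nat_lit 756) (XT.nd (nat_lit 5358) (nat_lit 0) (nat_lit 0) (XT.nd (nat_lit 4700) (nat_lit 0) (nat_lit 0) (XT.nd (nat_lit 282) (nat_lit 0) (nat_lit 0) (XT.nd (nat_lit 94) (nat_lit 0) (nat_lit 0) (XT.lf (nat_lit 0) (nat_lit 48276820252) (nat_lit 0) (nat_lit 0) (nat_lit 0) (nat_lit 0) (nat_lit 0) (nat_lit 0) (nat_lit 1) (nat_lit 0) (nat_lit 1) (nat_lit 0) (nat_lit 262) (nat_lit 318) (nat_lit 140)) (XT.nd (nat_lit 94) (nat_lit 0) (nat_lit 0) (XT.lf (nat_lit 0) (nat_lit 48276431430) (nat_lit 0) (nat_lit 0) (nat_lit 0) (nat_lit 0) (nat_lit 0) (nat_lit 0) (nat_lit 1) (nat_lit 0) (nat_lit 1) (nat_lit 0) (nat_lit 263) (nat_lit 318) (nat_lit 139)) (XT.lf (nat_lit 0) (nat_lit 48276061124) (nat_lit 0) (nat_lit 0) (nat_lit 0) (nat_lit 0) (nat_lit 0) (nat_lit 0) (nat_lit 1) (nat_lit 0) (nat_lit 1) (nat_lit 0) (nat_lit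 264) (nat_lit 318) (nat_lit 138)))) (XT.nd (nat_lit 94) (nat_lit 0) (nat_lit 0) (XT.lf (nat_lit 0) (nat_lit 48275708451) (nat_lit 0) (nat_lit 0) (nat_lit 0) (nat_lit 0) (nat_lit 0) (nat_lit 0) (nat_lit 1) (nat_lit 0) (nat_lit 1) (nat_lit 0) (nat_lit 265) (nat_lit 318) (nat_lit 137)) (XT.nd (nat_lit 94) (nat_lit 0) (nat_lit 0) (XT.lf (nat_lit 0) (nat_lit 48275372572) (nat_lit 0) (nat_lit 0) (nat_lit 0) (nat_lit 0) (nat_lit 0) (nat_lit 0) (nat_lit 1) (nat_lit 0) (nat_lit 1) (nat_lit 0) (nat_lit 266) (nat_lit 318) (nat_lit 136)) (XT.lf (nat_lit 0) (nat_lit 48275052687) (nat_lit 0) (nat_lit 0) (nat_lit 0) (nat_lit 0) (nat_lit 0) (nat_lit 0) (nat_lit 1) (nat_lit 0) (nat_lit 1) (nat_lit 0) (nat_lit 267) (nat_lit 318) (nat_lit 135))))) (XT.nd (nat_lit 282) (nat_lit 0) (nat_lit 0) (XT.nd (nat_lit 94) (nat_lit 0) (nat_lit 0) (XT.lf (nat_lit 0) (nat_lit 48269367034) (nat_lit 0) (nat_lit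 0) (nat_lit 0) (nat_lit 0) (nat_lit 0) (nat_lit 0) (nat_lit 1) (nat_lit 0) (nat_lit 1) (nat_lit 0) (nat_lit 312) (nat_lit 318) (nat_lit 90)) (XT.nd (nat_lit 94) (nat_lit 0) (nat_lit 0) (XT.lf (nat_lit 0) (nat_lit 48269333128) (nat_lit 0) (nat_lit 0) (nat_lit 0) (nat_lit 0) (nat_lit 0) (nat_lit 0) (nat_lit 1) (nat_lit 0) (nat_lit 1) (nat_lit 0) (nat_lit 313) (nat_lit 318) (nat_lit 89)) (XT.lf (nat_lit 0) (nat_lit 48269300835) (nat_lit 0) (nat_lit 0) (nat_lit 0) (nat_lit 0) (nat_lit 0) (nat_lit 0) (nat_lit 1) (nat_lit 0) (nat_lit 1) (nat_lit 0) (nat_lit 314) (nat_lit 318) (nat_lit 88)))) (XT.nd (nat_lit 188) (nat_lit 0) (nat_lit 0) (XT.nd (nat_lit 94) (nat_lit 0) (nat_lit 0) (XT.lf (nat_lit 0) (nat_lit 48269270081) (nat_lit 0) (nat_lit 0) (nat_lit 0) (nat_lit 0) (nat_lit 0) (nat_lit 0) (nat_lit 1) (nat_lit 0) (nat_lit 1) (nat_lit 0) (nat_lit 315) (nat_lit 318) (nat_lit 87))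 (XT.lf (nat_lit 0) (nat_lit 48269240791) (nat_lit 0) (nat_lit 0) (nat_lit 0) (nat_lit 0) (nat_lit 0) (nat_lit 0) (nat_lit 1) (nat_lit 0) (nat_lit 1) (nat_lit 0) (nat_lit 316) (nat_lit 318) (nat_lit 86))) (XT.nd (nat_lit 94) (nat_lit 0) (nat_lit 0) (XT.lf (nat_lit 0) (nat_lit 48269212896) (nat_lit 0) (nat_lit 0) (nat_lit 0) (nat_lit 0) (nat_lit 0) (nat_lit 0) (nat_lit 1) (nat_lit 0) (nat_lit 1) (nat_lit 0) (nat_lit 317) (nat_lit 318) (nat_lit 85)) (XT.lf (nat_lit 0) (nat_lit 48269186329) (nat_lit 0) (nat_lit 0) (nat_lit 0) (nat_lit 0) (nat_lit 0) (nat_lit 0) (nat_lit 1) (nat_lit 0) (nat_lit 1) (nat_lit 0) (nat_lit 318) (nat_lit 318) (nat_lit 84)))))) (XT.nd (nat_lit 23124) (nat_lit 0) (nat_lit 3024) (XT.nd (nat_lit 282) (nat_lit 0) (nat_lit 0) (XT.nd (nat_lit 94) (nat_lit 0) (nat_lit 0) (XT.lf (nat_lit 0) (nat_lit 48269161028) (nat_lit 0) (nat_lit 0) (nat_lit 0) (nat_lit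 0) (nat_lit 0) (nat_lit 0) (nat_lit 1) (nat_lit 0) (nat_lit 1) (nat_lit 0) (nat_lit 319) (nat_lit 318) (nat_lit 83)) (XT.nd (nat_lit 94) (nat_lit 0) (nat_lit 0) (XT.lf (nat_lit 0) (nat_lit 48269136931) (nat_lit 0) (nat_lit 0) (nat_lit 0) (nat_lit 0) (nat_lit 0) (nat_lit 0) (nat_lit 1) (nat_lit 0) (nat_lit 1) (nat_lit 0) (nat_lit 320) (nat_lit 318) (nat_lit 82)) (XT.lf (nat_lit 0) (nat_lit 48269113981) (nat_lit 0) (nat_lit 0) (nat_lit 0) (nat_lit 0) (nat_lit 0) (nat_lit 0) (nat_lit 1) (nat_lit 0) (nat_lit 1) (nat_lit 0) (nat_lit 321) (nat_lit 318) (nat_lit 81)))) (XT.nd (nat_lit 22654) (nat_lit 0) (nat_lit 10752) (XT.nd (nat_lit 94) (nat_lit 0) (nat_lit 0) (XT.lf (nat_lit 0) (nat_lit 48269092125) (nat_lit 0) (nat_lit 0) (nat_lit 0) (nat_lit 0) (nat_lit 0) (nat_lit 0) (nat_lit 1) (nat_lit 0) (nat_lit 1) (nat_lit 0) (nat_lit 322) (nat_lit 318) (nat_lit 80)) (XT.lf (nat_lit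 0) (nat_lit 48269071309) (nat_lit 0) (nat_lit 0) (nat_lit 0) (nat_lit 0) (nat_lit 0) (nat_lit 0) (nat_lit 1) (nat_lit 0) (nat_lit 1) (nat_lit 0) (nat_lit 323) (nat_lit 318) (nat_lit 79))) (XT.nd (nat_lit 94) (nat_lit 0) (nat_lit 0) (XT.lf (nat_lit 924) (nat_lit 25363215136) (nat_lit 0) (nat_lit 45032330174) (nat_lit 924) (nat_lit 25363215136) (nat_lit 139) (nat_lit 1) (nat_lit 128) (nat_lit 0) (nat_lit 139) (nat_lit 0) (nat_lit 82) (nat_lit 319) (nat_lit 319)) (XT.lf (nat_lit 924) (nat_lit 98310988340) (nat_lit 84) (nat_lit 44306002268) (nat_lit 0) (nat_lit 44306002268) (nat_lit 139) (nat_lit 1) (nat_lit 129) (nat_lit 1) (nat_lit 128) (nat_lit 0) (nat_lit 83) (nat_lit 319) (nat_lit 318))))) (XT.nd (nat_lit 282) (nat_lit 7812) (nat_lit 0) (XT.nd (nat_lit 94) (nat_lit 0) (nat_lit 0) (XT.lf (nat_lit 924) (nat_lit 46853536775) (nat_lit 0) (nat_lit 88763432855) (nat_lit 840)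 (nat_lit 46853536775) (nat_lit 140) (nat_lit 1) (nat_lit 129) (nat_lit 1) (nat_lit 139) (nat_lit 1) (nat_lit 84) (nat_lit 319) (nat_lit 317)) (XT.nd (nat_lit 94) (nat_lit 0) (nat_lit 84) (XT.lf (nat_lit 924) (nat_lit 87890724527) (nat_lit 84) (nat_lit 45135571947) (nat_lit 0) (nat_lit 45135571947) (nat_lit 140) (nat_lit 1) (nat_lit 130) (nat_lit 1) (nat_lit 129) (nat_lit 1) (nat_lit 85) (nat_lit 319) (nat_lit 316)) (XT.lf (nat_lit 924) (nat_lit 40455256477) (nat_lit 0) (nat_lit 93079279692) (nat_lit 840) (nat_lit 40455256477) (nat_lit 141) (nat_lit 1) (nat_lit 130) (nat_lit 1) (nat_lit 140) (nat_lit 1) (nat_lit 86) (nat_lit 319) (nat_lit 315)))) (XT.nd (nat_lit 4606) (nat_lit 7896) (nat_lit 0) (XT.nd (nat_lit 94) (nat_lit 0) (nat_lit 84) (XT.lf (nat_lit 924) (nat_lit 72761413706) (nat_lit 84) (nat_lit 48591741990) (nat_lit 0) (nat_lit 48591741990) (nat_lit 141) (nat_lit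 1) (nat_lit 131) (nat_lit 1) (nat_lit 130) (nat_lit 1) (nat_lit 87) (nat_lit 319) (nat_lit 314)) (XT.lf (nat_lit 924) (nat_lit 31903778370) (nat_lit 0) (nat_lit 102228259551) (nat_lit 840) (nat_lit 31903778370) (nat_lit 142) (nat_lit 1) (nat_lit 131) (nat_lit 1) (nat_lit 141) (nat_lit 1) (nat_lit 88) (nat_lit 319) (nat_lit 313))) (XT.nd (nat_lit 94) (nat_lit 252) (nat_lit 0) (XT.lf (nat_lit 168) (nat_lit 3231234917) (nat_lit 0) (nat_lit 30704626511) (nat_lit 84) (nat_lit 30704626511) (nat_lit 41) (nat_lit 1) (nat_lit 39) (nat_lit 1) (nat_lit 40) (nat_lit 1) (nat_lit 136) (nat_lit 319) (nat_lit 265)) (XT.lf (nat_lit 252) (nat_lit 48594303011) (nat_lit 0) (nat_lit 7469884316) (nat_lit 168) (nat_lit 7469884316) (nat_lit 39) (nat_lit 1) (nat_lit 36) (nat_lit 1) (nat_lit 38) (nat_lit 1) (nat_lit 137) (nat_lit 319) (nat_lit 264))))))) (XT.nd (nat_lit 1222) (nat_lit 1092) (nat_lit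 0) (XT.nd (nat_lit 564) (nat_lit 504) (nat_lit 0) (XT.nd (nat_lit 282) (nat_lit 336) (nat_lit 0) (XT.nd (nat_lit 94) (nat_lit 336) (nat_lit 0) (XT.lf (nat_lit 84) (nat_lit 14767160127) (nat_lit 0) (nat_lit 32905684606) (nat_lit 252) (nat_lit 14767160127) (nat_lit 37) (nat_lit 1) (nat_lit 36) (nat_lit 1) (nat_lit 39) (nat_lit 1) (nat_lit 138) (nat_lit 319) (nat_lit 263)) (XT.nd (nat_lit 94) (nat_lit 252) (nat_lit 0) (XT.lf (nat_lit 168) (nat_lit 10851218876) (nat_lit 0) (nat_lit 25260772218) (nat_lit 84) (nat_lit 25260772218) (nat_lit 37) (nat_lit 1) (nat_lit 35) (nat_lit 1) (nat_lit 36) (nat_lit 1) (nat_lit 139) (nat_lit 319) (nat_lit 262)) (XT.lf (nat_lit 252) (nat_lit 53331401769) (nat_lit 0) (nat_lit 3502629761) (nat_lit 168) (nat_lit 3502629761) (nat_lit 35) (nat_lit 1) (nat_lit 32) (nat_lit 1) (nat_lit 34) (nat_lit 1) (nat_lit 140) (nat_lit 319) (nat_lit 261)))) (XT.nd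 (nat_lit 94) (nat_lit 336) (nat_lit 0) (XT.lf (nat_lit 84) (nat_lit 17393441796) (nat_lit 0) (nat_lit 24513313714) (nat_lit 252) (nat_lit 17393441796) (nat_lit 33) (nat_lit 1) (nat_lit 32) (nat_lit 1) (nat_lit 35) (nat_lit 1) (nat_lit 141) (nat_lit 319) (nat_lit 260)) (XT.nd (nat_lit 94) (nat_lit 252) (nat_lit 0) (XT.lf (nat_lit 168) (nat_lit 16730061684) (nat_lit 0) (nat_lit 20782099819) (nat_lit 84) (nat_lit 20782099819) (nat_lit 33) (nat_lit 1) (nat_lit 31) (nat_lit 1) (nat_lit 32) (nat_lit 1) (nat_lit 142) (nat_lit 319) (nat_lit 259)) (XT.lf (nat_lit 252) (nat_lit 56592779477) (nat_lit 0) (nat_lit 364610217) (nat_lit 168) (nat_lit 364610217) (nat_lit 31) (nat_lit 1) (nat_lit 28) (nat_lit 1) (nat_lit 30) (nat_lit 1) (nat_lit 143) (nat_lit 319) (nat_lit 258))))) (XT.nd (nat_lit 282) (nat_lit 420) (nat_lit 0) (XT.nd (nat_lit 94) (nat_lit 84) (nat_lit 0) (XT.lf (nat_lit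 84) (nat_lit 19304353910) (nat_lit 0) (nat_lit 17730712004) (nat_lit 252) (nat_lit 19304353910) (nat_lit 29) (nat_lit 1) (nat_lit 28) (nat_lit 1) (nat_lit 31) (nat_lit 1) (nat_lit 144) (nat_lit 319) (nat_lit 257)) (XT.nd (nat_lit 94) (nat_lit 0) (nat_lit 0) (XT.lf (nat_lit 168) (nat_lit 21195041303) (nat_lit 0) (nat_lit 17097484952) (nat_lit 84) (nat_lit 17097484952) (nat_lit 29) (nat_lit 1) (nat_lit 27) (nat_lit 1) (nat_lit 28) (nat_lit 1) (nat_lit 145) (nat_lit 319) (nat_lit 256)) (XT.lf (nat_lit 0) (nat_lit 2131568653) (nat_lit 0) (nat_lit 50206129518) (nat_lit 168) (nat_lit 2131568653) (nat_lit 27) (nat_lit 3) (nat_lit 27) (nat_lit 1) (nat_lit 29) (nat_lit 1) (nat_lit 146) (nat_lit 319) (nat_lit 255)))) (XT.nd (nat_lit 188) (nat_lit 168) (nat_lit 0) (XT.nd (nat_lit 94) (nat_lit 84) (nat_lit 0) (XT.lf (nat_lit 84) (nat_lit 20638621926) (nat_lit 0) (nat_lit 12266670309)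 (nat_lit 168) (nat_lit 20638621926) (nat_lit 26) (nat_lit 1) (nat_lit 25) (nat_lit 1) (nat_lit 27) (nat_lit 1) (nat_lit 147) (nat_lit 319) (nat_lit 254)) (XT.lf (nat_lit 168) (nat_lit 24514525460) (nat_lit 0) (nat_lit 14066143183) (nat_lit 84) (nat_lit 14066143183) (nat_lit 26) (nat_lit 1) (nat_lit 24) (nat_lit 1) (nat_lit 25) (nat_lit 1) (nat_lit 148) (nat_lit 319) (nat_lit 253))) (XT.nd (nat_lit 94) (nat_lit 168) (nat_lit 0) (XT.lf (nat_lit 0) (nat_lit 4074077143) (nat_lit 0) (nat_lit 43625137340) (nat_lit 168) (nat_lit 4074077143) (nat_lit 24) (nat_lit 3) (nat_lit 24) (nat_lit 1) (nat_lit 26) (nat_lit 1) (nat_lit 149) (nat_lit 319) (nat_lit 252)) (XT.lf (nat_lit 84) (nat_lit 21509809325) (nat_lit 0) (nat_lit 7881886367) (nat_lit 168) (nat_lit 21509809325) (nat_lit 23) (nat_lit 1) (nat_lit 22) (nat_lit 1) (nat_lit 24) (nat_lit 1) (nat_lit 150) (nat_lit 319) (nat_lit 251))))))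 (XT.nd (nat_lit 658) (nat_lit 504) (nat_lit 0) (XT.nd (nat_lit 282) (nat_lit 336) (nat_lit 0) (XT.nd (nat_lit 94) (nat_lit 168) (nat_lit 0) (XT.lf (nat_lit 168) (nat_lit 26908458408) (nat_lit 0) (nat_lit 11572250807) (nat_lit 84) (nat_lit 11572250807) (nat_lit 23) (nat_lit 1) (nat_lit 21) (nat_lit 1) (nat_lit 22) (nat_lit 1) (nat_lit 151) (nat_lit 319) (nat_lit 250)) (XT.nd (nat_lit 94) (nat_lit 168) (nat_lit 0) (XT.lf (nat_lit 0) (nat_lit 5561687002) (nat_lit 0) (nat_lit 38100442107) (nat_lit 168) (nat_lit 5561687002) (nat_lit 21) (nat_lit 3) (nat_lit 21) (nat_lit 1) (nat_lit 23) (nat_lit 1) (nat_lit 152) (nat_lit 319) (nat_lit 249)) (XT.lf (nat_lit 84) (nat_lit 22010805735) (nat_lit 0) (nat_lit 4379748702) (nat_lit 168) (nat_lit 22010805735) (nat_lit 20) (nat_lit 1) (nat_lit 19) (nat_lit 1) (nat_lit 21) (nat_lit 1) (nat_lit 153) (nat_lit 319) (nat_lit 248)))) (XT.nd (nat_lit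 188) (nat_lit 252) (nat_lit 0) (XT.nd (nat_lit 94) (nat_lit 0) (nat_lit 0) (XT.lf (nat_lit 168) (nat_lit 28556986415) (nat_lit 0) (nat_lit 9520519378) (nat_lit 84) (nat_lit 9520519378) (nat_lit 20) (nat_lit 1) (nat_lit 18) (nat_lit 1) (nat_lit 19) (nat_lit 1) (nat_lit 154) (nat_lit 319) (nat_lit 247)) (XT.lf (nat_lit 0) (nat_lit 6680312378) (nat_lit 0) (nat_lit 33450026730) (nat_lit 168) (nat_lit 6680312378) (nat_lit 18) (nat_lit 3) (nat_lit 18) (nat_lit 1) (nat_lit 20) (nat_lit 1) (nat_lit 155) (nat_lit 319) (nat_lit 246))) (XT.nd (nat_lit 94) (nat_lit 84) (nat_lit 0) (XT.lf (nat_lit 84) (nat_lit 22217518038) (nat_lit 0) (nat_lit 1598755127) (nat_lit 168) (nat_lit 22217518038) (nat_lit 17) (nat_lit 1) (nat_lit 16) (nat_lit 1) (nat_lit 18) (nat_lit 1) (nat_lit 156) (nat_lit 319) (nat_lit 245)) (XT.lf (nat_lit 168) (nat_lit 29607552053) (nat_lit 0) (nat_lit 7832554853) (nat_lit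 84) (nat_lit 7832554853) (nat_lit 17) (nat_lit 1) (nat_lit 15) (nat_lit 1) (nat_lit 16) (nat_lit 1) (nat_lit 157) (nat_lit 319) (nat_lit 244))))) (XT.nd (nat_lit 282) (nat_lit 252) (nat_lit 0) (XT.nd (nat_lit 94) (nat_lit 252) (nat_lit 0) (XT.lf (nat_lit 0) (nat_lit 7500384495) (nat_lit 0) (nat_lit 29523894742) (nat_lit 168) (nat_lit 7500384495) (nat_lit 15) (nat_lit 3) (nat_lit 15) (nat_lit 1) (nat_lit 17) (nat_lit 1) (nat_lit 158) (nat_lit 319) (nat_lit 243)) (XT.nd (nat_lit 94) (nat_lit 168) (nat_lit 0) (XT.lf (nat_lit 84) (nat_lit 613355176) (nat_lit 0) (nat_lit 21588126840) (nat_lit 84) (nat_lit 21588126840) (nat_lit 15) (nat_lit 3) (nat_lit 14) (nat_lit 1) (nat_lit 15) (nat_lit 1) (nat_lit 159) (nat_lit 319) (nat_lit 242)) (XT.lf (nat_lit 168) (nat_lit 30180728876) (nat_lit 0) (nat_lit 6443862262) (nat_lit 84) (nat_lit 6443862262) (nat_lit 14) (nat_lit 1) (nat_lit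 12) (nat_lit 1) (nat_lit 13) (nat_lit 1) (nat_lit 160) (nat_lit 319) (nat_lit 241)))) (XT.nd (nat_lit 188) (nat_lit 168) (nat_lit 0) (XT.nd (nat_lit 94) (nat_lit 84) (nat_lit 0) (XT.lf (nat_lit 0) (nat_lit 8079608666) (nat_lit 0) (nat_lit 26198405050) (nat_lit 168) (nat_lit 8079608666) (nat_lit 12) (nat_lit 3) (nat_lit 12) (nat_lit 1) (nat_lit 14) (nat_lit 1) (nat_lit 161) (nat_lit 319) (nat_lit 240)) (XT.lf (nat_lit 84) (nat_lit 2382841896) (nat_lit 0) (nat_lit 19638838451) (nat_lit 84) (nat_lit 19638838451) (nat_lit 12) (nat_lit 3) (nat_lit 11) (nat_lit 1) (nat_lit 12) (nat_lit 1) (nat_lit 162) (nat_lit 319) (nat_lit 239))) (XT.nd (nat_lit 94) (nat_lit 0) (nat_lit 0) (XT.lf (nat_lit 168) (nat_lit 30375019890) (nat_lit 0) (nat_lit 5301381430) (nat_lit 84) (nat_lit 5301381430) (nat_lit 11) (nat_lit 1) (nat_lit 9) (nat_lit 1) (nat_lit 10) (nat_lit 1) (nat_lit 163) (nat_lit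 319) (nat_lit 238)) (XT.lf (nat_lit 0) (nat_lit 8465231931) (nat_lit 0) (nat_lit 23371610556) (nat_lit 168) (nat_lit 8465231931) (nat_lit 9) (nat_lit 3) (nat_lit 9) (nat_lit 1) (nat_lit 11) (nat_lit 1) (nat_lit 164) (nat_lit 319) (nat_lit 237))))))))
noncomputable def ec243 : XT := (XT.nd (nat_lit 6862) (nat_lit 0) (nat_lit 0) (XT.nd (nat_lit 5546) (nat_lit 0) (nat_lit 0) (XT.nd (nat_lit 564) (nat_lit 252) (nat_lit 0) (XT.nd (nat_lit 282) (nat_lit 252) (nat_lit 0) (XT.nd (nat_lit 94) (nat_lit 168) (nat_lit 0) (XT.lf (nat_lit 84) (nat_lit 3749163329) (nat_lit 0) (nat_lit 17945714400) (nat_lit 84) (nat_lit 17945714400) (nat_lit 9) (nat_lit 3) (nat_lit 8) (nat_lit 1) (nat_lit 9) (nat_lit 1) (nat_lit 165) (nat_lit 319) (nat_lit 236)) (XT.nd (nat_lit 94) (nat_lit 0) (nat_lit 0) (XT.lf (nat_lit 168) (nat_lit 30270803609) (nat_lit 0) (nat_lit 4361459622) (nat_lit 84) (nat_lit 4361459622)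 (nat_lit 8) (nat_lit 1) (nat_lit 6) (nat_lit 1) (nat_lit 7) (nat_lit 1) (nat_lit 166) (nat_lit 319) (nat_lit 235)) (XT.lf (nat_lit 0) (nat_lit 8695908103) (nat_lit 0) (nat_lit 20959422688) (nat_lit 168) (nat_lit 8695908103) (nat_lit 6) (nat_lit 3) (nat_lit 6) (nat_lit 1) (nat_lit 8) (nat_lit 1) (nat_lit 167) (nat_lit 319) (nat_lit 234)))) (XT.nd (nat_lit 94) (nat_lit 168) (nat_lit 0) (XT.lf (nat_lit 84) (nat_lit 4788058715) (nat_lit 0) (nat_lit 16467596414) (nat_lit 84) (nat_lit 16467596414) (nat_lit 6) (nat_lit 3) (nat_lit 5) (nat_lit 1) (nat_lit 6) (nat_lit 1) (nat_lit 168) (nat_lit 319) (nat_lit 233)) (XT.nd (nat_lit 94) (nat_lit 0) (nat_lit 0) (XT.lf (nat_lit 168) (nat_lit 29933578923) (nat_lit 0) (nat_lit 3588183625) (nat_lit 84) (nat_lit 3588183625) (nat_lit 5) (nat_lit 1) (nat_lit 3) (nat_lit 1) (nat_lit 4) (nat_lit 1) (nat_lit 169) (nat_lit 319) (nat_lit 232)) (XT.lf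 (nat_lit 0) (nat_lit 8803231635) (nat_lit 0) (nat_lit 18892455434) (nat_lit 168) (nat_lit 8803231635) (nat_lit 3) (nat_lit 3) (nat_lit 3) (nat_lit 1) (nat_lit 5) (nat_lit 1) (nat_lit 170) (nat_lit 319) (nat_lit 231))))) (XT.nd (nat_lit 282) (nat_lit 0) (nat_lit 0) (XT.nd (nat_lit 94) (nat_lit 168) (nat_lit 0) (XT.lf (nat_lit 84) (nat_lit 5561636102) (nat_lit 0) (nat_lit 15170420672) (nat_lit 84) (nat_lit 15170420672) (nat_lit 3) (nat_lit 3) (nat_lit 2) (nat_lit 1) (nat_lit 3) (nat_lit 1) (nat_lit 171) (nat_lit 319) (nat_lit 230)) (XT.nd (nat_lit 94) (nat_lit 0) (nat_lit 0) (XT.lf (nat_lit 0) (nat_lit 51309882349) (nat_lit 0) (nat_lit 0) (nat_lit 0) (nat_lit 0) (nat_lit 0) (nat_lit 0) (nat_lit 1) (nat_lit 0) (nat_lit 1) (nat_lit 0) (nat_lit 172) (nat_lit 319) (nat_lit 229)) (XT.lf (nat_lit 0) (nat_lit 51279987368) (nat_lit 0) (nat_lit 0) (nat_lit 0) (nat_lit 0) (nat_lit 0)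 (nat_lit 0) (nat_lit 1) (nat_lit 0) (nat_lit 1) (nat_lit 0) (nat_lit 173) (nat_lit 319) (nat_lit 228)))) (XT.nd (nat_lit 188) (nat_lit 0) (nat_lit 0) (XT.nd (nat_lit 94) (nat_lit 0) (nat_lit 0) (XT.lf (nat_lit 0) (nat_lit 51251515957) (nat_lit 0) (nat_lit 0) (nat_lit 0) (nat_lit 0) (nat_lit 0) (nat_lit 0) (nat_lit 1) (nat_lit 0) (nat_lit 1) (nat_lit 0) (nat_lit 174) (nat_lit 319) (nat_lit 227)) (XT.lf (nat_lit 0) (nat_lit 51224400328) (nat_lit 0) (nat_lit 0) (nat_lit 0) (nat_lit 0) (nat_lit 0) (nat_lit 0) (nat_lit 1) (nat_lit 0) (nat_lit 1) (nat_lit 0) (nat_lit 175) (nat_lit 319) (nat_lit 226))) (XT.nd (nat_lit 94) (nat_lit 0) (nat_lit 0) (XT.lf (nat_lit 0) (nat_lit 51198575919) (nat_lit 0) (nat_lit 0) (nat_lit 0) (nat_lit 0) (nat_lit 0) (nat_lit 0) (nat_lit 1) (nat_lit 0) (nat_lit 1) (nat_lit 0) (nat_lit 176) (nat_lit 319) (nat_lit 225)) (XT.lf (nat_lit 0) (nat_lit 51173981244)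 (nat_lit 0) (nat_lit 0) (nat_lit 0) (nat_lit 0) (nat_lit 0) (nat_lit 0) (nat_lit 1) (nat_lit 0) (nat_lit 1) (nat_lit 0) (nat_lit 177) (nat_lit 319) (nat_lit 224)))))) (XT.nd (nat_lit 658) (nat_lit 0) (nat_lit 0) (XT.nd (nat_lit 282) (nat_lit 0) (nat_lit 0) (XT.nd (nat_lit 94) (nat_lit 0) (nat_lit 0) (XT.lf (nat_lit 0) (nat_lit 50731744006) (nat_lit 0) (nat_lit 0) (nat_lit 0) (nat_lit 0) (nat_lit 0) (nat_lit 0) (nat_lit 1) (nat_lit 0) (nat_lit 1) (nat_lit 0) (nat_lit 224) (nat_lit 319) (nat_lit 177)) (XT.nd (nat_lit 94) (nat_lit 0) (nat_lit 0) (XT.lf (nat_lit 0) (nat_lit 50729379422) (nat_lit 0) (nat_lit 0) (nat_lit 0) (nat_lit 0) (nat_lit 0) (nat_lit 0) (nat_lit 1) (nat_lit 0) (nat_lit 1) (nat_lit 0) (nat_lit 225) (nat_lit 319) (nat_lit 176)) (XT.lf (nat_lit 0) (nat_lit 50727127437) (nat_lit 0) (nat_lit 0) (nat_lit 0) (nat_lit 0) (nat_lit 0) (nat_lit 0) (nat_lit 1) (nat_lit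 0) (nat_lit 1) (nat_lit 0) (nat_lit 226) (nat_lit 319) (nat_lit 175)))) (XT.nd (nat_lit 188) (nat_lit 0) (nat_lit 0) (XT.nd (nat_lit 94) (nat_lit 0) (nat_lit 0) (XT.lf (nat_lit 0) (nat_lit 50724982690) (nat_lit 0) (nat_lit 0) (nat_lit 0) (nat_lit 0) (nat_lit 0) (nat_lit 0) (nat_lit 1) (nat_lit 0) (nat_lit 1) (nat_lit 0) (nat_lit 227) (nat_lit 319) (nat_lit 174)) (XT.lf (nat_lit 0) (nat_lit 50722940073) (nat_lit 0) (nat_lit 0) (nat_lit 0) (nat_lit 0) (nat_lit 0) (nat_lit 0) (nat_lit 1) (nat_lit 0) (nat_lit 1) (nat_lit 0) (nat_lit 228) (nat_lit 319) (nat_lit 173))) (XT.nd (nat_lit 94) (nat_lit 0) (nat_lit 0) (XT.lf (nat_lit 0) (nat_lit 50720994724) (nat_lit 0) (nat_lit 0) (nat_lit 0) (nat_lit 0) (nat_lit 0) (nat_lit 0) (nat_lit 1) (nat_lit 0) (nat_lit 1) (nat_lit 0) (nat_lit 229) (nat_lit 319) (nat_lit 172)) (XT.lf (nat_lit 0) (nat_lit 50719142011) (nat_lit 0) (nat_lit 0)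 (nat_lit 0) (nat_lit 0) (nat_lit 0) (nat_lit 0) (nat_lit 1) (nat_lit 0) (nat_lit 1) (nat_lit 0) (nat_lit 230) (nat_lit 319) (nat_lit 171))))) (XT.nd (nat_lit 282) (nat_lit 0) (nat_lit 0) (XT.nd (nat_lit 94) (nat_lit 0) (nat_lit 0) (XT.lf (nat_lit 0) (nat_lit 50717377522) (nat_lit 0) (nat_lit 0) (nat_lit 0) (nat_lit 0) (nat_lit 0) (nat_lit 0) (nat_lit 1) (nat_lit 0) (nat_lit 1) (nat_lit 0) (nat_lit 231) (nat_lit 319) (nat_lit 170)) (XT.nd (nat_lit 94) (nat_lit 0) (nat_lit 0) (XT.lf (nat_lit 0) (nat_lit 50715697056) (nat_lit 0) (nat_lit 0) (nat_lit 0) (nat_lit 0) (nat_lit 0) (nat_lit 0) (nat_lit 1) (nat_lit 0) (nat_lit 1) (nat_lit 0) (nat_lit 232) (nat_lit 319) (nat_lit 169)) (XT.lf (nat_lit 0) (nat_lit 50714096613) (nat_lit 0) (nat_lit 0) (nat_lit 0) (nat_lit 0) (nat_lit 0) (nat_lit 0) (nat_lit 1) (nat_lit 0) (nat_lit 1) (nat_lit 0) (nat_lit 233) (nat_lit 319) (nat_lit 168))))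 (XT.nd (nat_lit 188) (nat_lit 0) (nat_lit 0) (XT.nd (nat_lit 94) (nat_lit 0) (nat_lit 0) (XT.lf (nat_lit 0) (nat_lit 50712572381) (nat_lit 0) (nat_lit 0) (nat_lit 0) (nat_lit 0) (nat_lit 0) (nat_lit 0) (nat_lit 1) (nat_lit 0) (nat_lit 1) (nat_lit 0) (nat_lit 234) (nat_lit 319) (nat_lit 167)) (XT.lf (nat_lit 0) (nat_lit 50711120731) (nat_lit 0) (nat_lit 0) (nat_lit 0) (nat_lit 0) (nat_lit 0) (nat_lit 0) (nat_lit 1) (nat_lit 0) (nat_lit 1) (nat_lit 0) (nat_lit 235) (nat_lit 319) (nat_lit 166))) (XT.nd (nat_lit 94) (nat_lit 0) (nat_lit 0) (XT.lf (nat_lit 0) (nat_lit 50709738208) (nat_lit 0) (nat_lit 0) (nat_lit 0) (nat_lit 0) (nat_lit 0) (nat_lit 0) (nat_lit 1) (nat_lit 0) (nat_lit 1) (nat_lit 0) (nat_lit 236) (nat_lit 319) (nat_lit 165)) (XT.lf (nat_lit 0) (nat_lit 50708421519) (nat_lit 0) (nat_lit 0) (nat_lit 0) (nat_lit 0) (nat_lit 0) (nat_lit 0) (nat_lit 1) (nat_lit 0)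 (nat_lit 1) (nat_lit 0) (nat_lit 237) (nat_lit 319) (nat_lit 164))))))) (XT.nd (nat_lit 1316) (nat_lit 0) (nat_lit 0) (XT.nd (nat_lit 658) (nat_lit 0) (nat_lit 0) (XT.nd (nat_lit 282) (nat_lit 0) (nat_lit 0) (XT.nd (nat_lit 94) (nat_lit 0) (nat_lit 0) (XT.lf (nat_lit 0) (nat_lit 50707167530) (nat_lit 0) (nat_lit 0) (nat_lit 0) (nat_lit 0) (nat_lit 0) (nat_lit 0) (nat_lit 1) (nat_lit 0) (nat_lit 1) (nat_lit 0) (nat_lit 238) (nat_lit 319) (nat_lit 163)) (XT.nd (nat_lit 94) (nat_lit 0) (nat_lit 0) (XT.lf (nat_lit 0) (nat_lit 50705973254) (nat_lit 0) (nat_lit 0) (nat_lit 0) (nat_lit 0) (nat_lit 0) (nat_lit 0) (nat_lit 1) (nat_lit 0) (nat_lit 1) (nat_lit 0) (nat_lit 239) (nat_lit 319) (nat_lit 162)) (XT.lf (nat_lit 0) (nat_lit 50704835849) (nat_lit 0) (nat_lit 0) (nat_lit 0) (nat_lit 0) (nat_lit 0) (nat_lit 0) (nat_lit 1) (nat_lit 0) (nat_lit 1) (nat_lit 0) (nat_lit 240) (nat_lit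 319) (nat_lit 161)))) (XT.nd (nat_lit 188) (nat_lit 0) (nat_lit 0) (XT.nd (nat_lit 94) (nat_lit 0) (nat_lit 0) (XT.lf (nat_lit 0) (nat_lit 50703752606) (nat_lit 0) (nat_lit 0) (nat_lit 0) (nat_lit 0) (nat_lit 0) (nat_lit 0) (nat_lit 1) (nat_lit 0) (nat_lit 1) (nat_lit 0) (nat_lit 241) (nat_lit 319) (nat_lit 160)) (XT.lf (nat_lit 0) (nat_lit 50702720946) (nat_lit 0) (nat_lit 0) (nat_lit 0) (nat_lit 0) (nat_lit 0) (nat_lit 0) (nat_lit 1) (nat_lit 0) (nat_lit 1) (nat_lit 0) (nat_lit 242) (nat_lit 319) (nat_lit 159))) (XT.nd (nat_lit 94) (nat_lit 0) (nat_lit 0) (XT.lf (nat_lit 0) (nat_lit 50701738412) (nat_lit 0) (nat_lit 0) (nat_lit 0) (nat_lit 0) (nat_lit 0) (nat_lit 0) (nat_lit 1) (nat_lit 0) (nat_lit 1) (nat_lit 0) (nat_lit 243) (nat_lit 319) (nat_lit 158)) (XT.lf (nat_lit 0) (nat_lit 50700802666) (nat_lit 0) (nat_lit 0) (nat_lit 0) (nat_lit 0) (nat_lit 0) (nat_lit 0) (nat_lit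 1) (nat_lit 0) (nat_lit 1) (nat_lit 0) (nat_lit 244) (nat_lit 319) (nat_lit 157))))) (XT.nd (nat_lit 282) (nat_lit 0) (nat_lit 0) (XT.nd (nat_lit 94) (nat_lit 0) (nat_lit 0) (XT.lf (nat_lit 0) (nat_lit 50699911479) (nat_lit 0) (nat_lit 0) (nat_lit 0) (nat_lit 0) (nat_lit 0) (nat_lit 0) (nat_lit 1) (nat_lit 0) (nat_lit 1) (nat_lit 0) (nat_lit 245) (nat_lit 319) (nat_lit 156)) (XT.nd (nat_lit 94) (nat_lit 0) (nat_lit 0) (XT.lf (nat_lit 0) (nat_lit 50699062730) (nat_lit 0) (nat_lit 0) (nat_lit 0) (nat_lit 0) (nat_lit 0) (nat_lit 0) (nat_lit 1) (nat_lit 0) (nat_lit 1) (nat_lit 0) (nat_lit 246) (nat_lit 319) (nat_lit 155)) (XT.lf (nat_lit 0) (nat_lit 50698254397) (nat_lit 0) (nat_lit 0) (nat_lit 0) (nat_lit 0) (nat_lit 0) (nat_lit 0) (nat_lit 1) (nat_lit 0) (nat_lit 1) (nat_lit 0) (nat_lit 247) (nat_lit 319) (nat_lit 154)))) (XT.nd (nat_lit 188) (nat_lit 0) (nat_lit 0) (XT.nd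 (nat_lit 94) (nat_lit 0) (nat_lit 0) (XT.lf (nat_lit 0) (nat_lit 50697484557) (nat_lit 0) (nat_lit 0) (nat_lit 0) (nat_lit 0) (nat_lit 0) (nat_lit 0) (nat_lit 1) (nat_lit 0) (nat_lit 1) (nat_lit 0) (nat_lit 248) (nat_lit 319) (nat_lit 153)) (XT.lf (nat_lit 0) (nat_lit 50696751375) (nat_lit 0) (nat_lit 0) (nat_lit 0) (nat_lit 0) (nat_lit 0) (nat_lit 0) (nat_lit 1) (nat_lit 0) (nat_lit 1) (nat_lit 0) (nat_lit 249) (nat_lit 319) (nat_lit 152))) (XT.nd (nat_lit 94) (nat_lit 0) (nat_lit 0) (XT.lf (nat_lit 0) (nat_lit 50696053107) (nat_lit 0) (nat_lit 0) (nat_lit 0) (nat_lit 0) (nat_lit 0) (nat_lit 0) (nat_lit 1) (nat_lit 0) (nat_lit 1) (nat_lit 0) (nat_lit 250) (nat_lit 319) (nat_lit 151)) (XT.lf (nat_lit 0) (nat_lit 50695388089) (nat_lit 0) (nat_lit 0) (nat_lit 0) (nat_lit 0) (nat_lit 0) (nat_lit 0) (nat_lit 1) (nat_lit 0) (nat_lit 1) (nat_lit 0) (nat_lit 251) (nat_lit 319)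 (nat_lit 150)))))) (XT.nd (nat_lit 658) (nat_lit 0) (nat_lit 0) (XT.nd (nat_lit 282) (nat_lit 0) (nat_lit 0) (XT.nd (nat_lit 94) (nat_lit 0) (nat_lit 0) (XT.lf (nat_lit 0) (nat_lit 50694754740) (nat_lit 0) (nat_lit 0) (nat_lit 0) (nat_lit 0) (nat_lit 0) (nat_lit 0) (nat_lit 1) (nat_lit 0) (nat_lit 1) (nat_lit 0) (nat_lit 252) (nat_lit 319) (nat_lit 149)) (XT.nd (nat_lit 94) (nat_lit 0) (nat_lit 0) (XT.lf (nat_lit 0) (nat_lit 50694151549) (nat_lit 0) (nat_lit 0) (nat_lit 0) (nat_lit 0) (nat_lit 0) (nat_lit 0) (nat_lit 1) (nat_lit 0) (nat_lit 1) (nat_lit 0) (nat_lit 253) (nat_lit 319) (nat_lit 148)) (XT.lf (nat_lit 0) (nat_lit 50693577082) (nat_lit 0) (nat_lit 0) (nat_lit 0) (nat_lit 0) (nat_lit 0) (nat_lit 0) (nat_lit 1) (nat_lit 0) (nat_lit 1) (nat_lit 0) (nat_lit 254) (nat_lit 319) (nat_lit 147)))) (XT.nd (nat_lit 188) (nat_lit 0) (nat_lit 0) (XT.nd (nat_lit 94) (nat_lit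 0) (nat_lit 0) (XT.lf (nat_lit 0) (nat_lit 50693029971) (nat_lit 0) (nat_lit 0) (nat_lit 0) (nat_lit 0) (nat_lit 0) (nat_lit 0) (nat_lit 1) (nat_lit 0) (nat_lit 1) (nat_lit 0) (nat_lit 255) (nat_lit 319) (nat_lit 146)) (XT.lf (nat_lit 0) (nat_lit 50692508912) (nat_lit 0) (nat_lit 0) (nat_lit 0) (nat_lit 0) (nat_lit 0) (nat_lit 0) (nat_lit 1) (nat_lit 0) (nat_lit 1) (nat_lit 0) (nat_lit 256) (nat_lit 319) (nat_lit 145))) (XT.nd (nat_lit 94) (nat_lit 0) (nat_lit 0) (XT.lf (nat_lit 0) (nat_lit 50692012666) (nat_lit 0) (nat_lit 0) (nat_lit 0) (nat_lit 0) (nat_lit 0) (nat_lit 0) (nat_lit 1) (nat_lit 0) (nat_lit 1) (nat_lit 0) (nat_lit 257) (nat_lit 319) (nat_lit 144)) (XT.lf (nat_lit 0) (nat_lit 50691540051) (nat_lit 0) (nat_lit 0) (nat_lit 0) (nat_lit 0) (nat_lit 0) (nat_lit 0) (nat_lit 1) (nat_lit 0) (nat_lit 1) (nat_lit 0) (nat_lit 258) (nat_lit 319) (nat_lit 143))))) (XT.nd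 (nat_lit 282) (nat_lit 0) (nat_lit 0) (XT.nd (nat_lit 94) (nat_lit 0) (nat_lit 0) (XT.lf (nat_lit 0) (nat_lit 50691089941) (nat_lit 0) (nat_lit 0) (nat_lit 0) (nat_lit 0) (nat_lit 0) (nat_lit 0) (nat_lit 1) (nat_lit 0) (nat_lit 1) (nat_lit 0) (nat_lit 259) (nat_lit 319) (nat_lit 142)) (XT.nd (nat_lit 94) (nat_lit 0) (nat_lit 0) (XT.lf (nat_lit 0) (nat_lit 50690661265) (nat_lit 0) (nat_lit 0) (nat_lit 0) (nat_lit 0) (nat_lit 0) (nat_lit 0) (nat_lit 1) (nat_lit 0) (nat_lit 1) (nat_lit 0) (nat_lit 260) (nat_lit 319) (nat_lit 141)) (XT.lf (nat_lit 0) (nat_lit 50690253002) (nat_lit 0) (nat_lit 0) (nat_lit 0) (nat_lit 0) (nat_lit 0) (nat_lit 0) (nat_lit 1) (nat_lit 0) (nat_lit 1) (nat_lit 0) (nat_lit 261) (nat_lit 319) (nat_lit 140)))) (XT.nd (nat_lit 188) (nat_lit 0) (nat_lit 0) (XT.nd (nat_lit 94) (nat_lit 0) (nat_lit 0) (XT.lf (nat_lit 0) (nat_lit 50689864180) (nat_lit 0) (nat_lit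 0) (nat_lit 0) (nat_lit 0) (nat_lit 0) (nat_lit 0) (nat_lit 1) (nat_lit 0) (nat_lit 1) (nat_lit 0) (nat_lit 262) (nat_lit 319) (nat_lit 139)) (XT.lf (nat_lit 0) (nat_lit 50689493874) (nat_lit 0) (nat_lit 0) (nat_lit 0) (nat_lit 0) (nat_lit 0) (nat_lit 0) (nat_lit 1) (nat_lit 0) (nat_lit 1) (nat_lit 0) (nat_lit 263) (nat_lit 319) (nat_lit 138))) (XT.nd (nat_lit 94) (nat_lit 0) (nat_lit 0) (XT.lf (nat_lit 0) (nat_lit 50689141201) (nat_lit 0) (nat_lit 0) (nat_lit 0) (nat_lit 0) (nat_lit 0) (nat_lit 0) (nat_lit 1) (nat_lit 0) (nat_lit 1) (nat_lit 0) (nat_lit 264) (nat_lit 319) (nat_lit 137)) (XT.lf (nat_lit 0) (nat_lit 50688805322) (nat_lit 0) (nat_lit 0) (nat_lit 0) (nat_lit 0) (nat_lit 0) (nat_lit 0) (nat_lit 1) (nat_lit 0) (nat_lit 1) (nat_lit 0) (nat_lit 265) (nat_lit 319) (nat_lit 136))))))))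
noncomputable def ec244 : XT := (XT.nd (nat_lit 29422) (nat_lit 0) (nat_lit 0) (XT.nd (nat_lit 23406) (nat_lit 0) (nat_lit 2268) (XT.nd (nat_lit 564) (nat_lit 0) (nat_lit 0) (XT.nd (nat_lit 282) (nat_lit 0) (nat_lit 0) (XT.nd (nat_lit 94) (nat_lit 0) (nat_lit 0) (XT.lf (nat_lit 0) (nat_lit 50682733585) (nat_lit 0) (nat_lit 0) (nat_lit 0) (nat_lit 0) (nat_lit 0) (nat_lit 0) (nat_lit 1) (nat_lit 0) (nat_lit 1) (nat_lit 0) (nat_lit 313) (nat_lit 319) (nat_lit 88)) (XT.nd (nat_lit 94) (nat_lit 0) (nat_lit 0) (XT.lf (nat_lit 0) (nat_lit 50682702831) (nat_lit 0) (nat_lit 0) (nat_lit 0) (nat_lit 0) (nat_lit 0) (nat_lit 0) (nat_lit 1) (nat_lit 0) (nat_lit 1) (nat_lit 0) (nat_lit 314) (nat_lit 319) (nat_lit 87)) (XT.lf (nat_lit 0) (nat_lit 50682673541) (nat_lit 0) (nat_lit 0) (nat_lit 0) (nat_lit 0) (nat_lit 0) (nat_lit 0) (nat_lit 1) (nat_lit 0) (nat_lit 1) (nat_lit 0) (nat_lit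 315) (nat_lit 319) (nat_lit 86)))) (XT.nd (nat_lit 94) (nat_lit 0) (nat_lit 0) (XT.lf (nat_lit 0) (nat_lit 50682645646) (nat_lit 0) (nat_lit 0) (nat_lit 0) (nat_lit 0) (nat_lit 0) (nat_lit 0) (nat_lit 1) (nat_lit 0) (nat_lit 1) (nat_lit 0) (nat_lit 316) (nat_lit 319) (nat_lit 85)) (XT.nd (nat_lit 94) (nat_lit 0) (nat_lit 0) (XT.lf (nat_lit 0) (nat_lit 50682619079) (nat_lit 0) (nat_lit 0) (nat_lit 0) (nat_lit 0) (nat_lit 0) (nat_lit 0) (nat_lit 1) (nat_lit 0) (nat_lit 1) (nat_lit 0) (nat_lit 317) (nat_lit 319) (nat_lit 84)) (XT.lf (nat_lit 0) (nat_lit 50682593777) (nat_lit 0) (nat_lit 0) (nat_lit 0) (nat_lit 0) (nat_lit 0) (nat_lit 0) (nat_lit 1) (nat_lit 0) (nat_lit 1) (nat_lit 0) (nat_lit 318) (nat_lit 319) (nat_lit 83))))) (XT.nd (nat_lit 282) (nat_lit 0) (nat_lit 0) (XT.nd (nat_lit 94) (nat_lit 0) (nat_lit 0) (XT.lf (nat_lit 0) (nat_lit 50682569680) (nat_lit 0) (nat_lit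 0) (nat_lit 0) (nat_lit 0) (nat_lit 0) (nat_lit 0) (nat_lit 1) (nat_lit 0) (nat_lit 1) (nat_lit 0) (nat_lit 319) (nat_lit 319) (nat_lit 82)) (XT.nd (nat_lit 94) (nat_lit 0) (nat_lit 0) (XT.lf (nat_lit 0) (nat_lit 50682546731) (nat_lit 0) (nat_lit 0) (nat_lit 0) (nat_lit 0) (nat_lit 0) (nat_lit 0) (nat_lit 1) (nat_lit 0) (nat_lit 1) (nat_lit 0) (nat_lit 320) (nat_lit 319) (nat_lit 81)) (XT.lf (nat_lit 0) (nat_lit 50682524874) (nat_lit 0) (nat_lit 0) (nat_lit 0) (nat_lit 0) (nat_lit 0) (nat_lit 0) (nat_lit 1) (nat_lit 0) (nat_lit 1) (nat_lit 0) (nat_lit 321) (nat_lit 319) (nat_lit 80)))) (XT.nd (nat_lit 188) (nat_lit 0) (nat_lit 0) (XT.nd (nat_lit 94) (nat_lit 0) (nat_lit 0) (XT.lf (nat_lit 0) (nat_lit 50682504059) (nat_lit 0) (nat_lit 0) (nat_lit 0) (nat_lit 0) (nat_lit 0) (nat_lit 0) (nat_lit 1) (nat_lit 0) (nat_lit 1) (nat_lit 0) (nat_lit 322) (nat_lit 319) (nat_lit 79))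 (XT.lf (nat_lit 0) (nat_lit 50682484234) (nat_lit 0) (nat_lit 0) (nat_lit 0) (nat_lit 0) (nat_lit 0) (nat_lit 0) (nat_lit 1) (nat_lit 0) (nat_lit 1) (nat_lit 0) (nat_lit 323) (nat_lit 319) (nat_lit 78))) (XT.nd (nat_lit 22278) (nat_lit 0) (nat_lit 10752) (XT.lf (nat_lit 0) (nat_lit 50682465354) (nat_lit 0) (nat_lit 0) (nat_lit 0) (nat_lit 0) (nat_lit 0) (nat_lit 0) (nat_lit 1) (nat_lit 0) (nat_lit 1) (nat_lit 0) (nat_lit 324) (nat_lit 319) (nat_lit 77)) (XT.lf (nat_lit 924) (nat_lit 26631375893) (nat_lit 0) (nat_lit 47283946683) (nat_lit 924) (nat_lit 26631375893) (nat_lit 139) (nat_lit 1) (nat_lit 128) (nat_lit 0) (nat_lit 139) (nat_lit 0) (nat_lit 80) (nat_lit 320) (nat_lit 320)))))) (XT.nd (nat_lit 5358) (nat_lit 672) (nat_lit 0) (XT.nd (nat_lit 282) (nat_lit 7812) (nat_lit 0) (XT.nd (nat_lit 94) (nat_lit 0) (nat_lit 84) (XT.lf (nat_lit 924) (nat_lit 103226537757) (nat_lit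 84) (nat_lit 46521302382) (nat_lit 0) (nat_lit 46521302382) (nat_lit 139) (nat_lit 1) (nat_lit 129) (nat_lit 1) (nat_lit 128) (nat_lit 0) (nat_lit 81) (nat_lit 320) (nat_lit 319)) (XT.nd (nat_lit 94) (nat_lit 0) (nat_lit 0) (XT.lf (nat_lit 924) (nat_lit 49196213614) (nat_lit 0) (nat_lit 93201604498) (nat_lit 840) (nat_lit 49196213614) (nat_lit 140) (nat_lit 1) (nat_lit 129) (nat_lit 1) (nat_lit 139) (nat_lit 1) (nat_lit 82) (nat_lit 320) (nat_lit 318)) (XT.lf (nat_lit 924) (nat_lit 92285260753) (nat_lit 84) (nat_lit 47392350544) (nat_lit 0) (nat_lit 47392350544) (nat_lit 140) (nat_lit 1) (nat_lit 130) (nat_lit 1) (nat_lit 129) (nat_lit 1) (nat_lit 83) (nat_lit 320) (nat_lit 317)))) (XT.nd (nat_lit 188) (nat_lit 7980) (nat_lit 0) (XT.nd (nat_lit 94) (nat_lit 0) (nat_lit 0) (XT.lf (nat_lit 924) (nat_lit 42478019301) (nat_lit 0) (nat_lit 97733243677) (nat_lit 840) (nat_lit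 42478019301) (nat_lit 141) (nat_lit 1) (nat_lit 130) (nat_lit 1) (nat_lit 140) (nat_lit 1) (nat_lit 84) (nat_lit 320) (nat_lit 316)) (XT.lf (nat_lit 924) (nat_lit 76399484391) (nat_lit 84) (nat_lit 51021329090) (nat_lit 0) (nat_lit 51021329090) (nat_lit 141) (nat_lit 1) (nat_lit 131) (nat_lit 1) (nat_lit 130) (nat_lit 1) (nat_lit 85) (nat_lit 320) (nat_lit 315))) (XT.nd (nat_lit 4794) (nat_lit 8064) (nat_lit 0) (XT.lf (nat_lit 924) (nat_lit 33498967289) (nat_lit 0) (nat_lit 107339672529) (nat_lit 840) (nat_lit 33498967289) (nat_lit 142) (nat_lit 1) (nat_lit 131) (nat_lit 1) (nat_lit 141) (nat_lit 1) (nat_lit 86) (nat_lit 320) (nat_lit 314)) (XT.lf (nat_lit 168) (nat_lit 11393779820) (nat_lit 0) (nat_lit 26523810829) (nat_lit 84) (nat_lit 26523810829) (nat_lit 37) (nat_lit 1) (nat_lit 35) (nat_lit 1) (nat_lit 36) (nat_lit 1) (nat_lit 137) (nat_lit 320) (nat_lit 263))))) (XT.nd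 (nat_lit 282) (nat_lit 336) (nat_lit 0) (XT.nd (nat_lit 94) (nat_lit 84) (nat_lit 0) (XT.lf (nat_lit 252) (nat_lit 55997971857) (nat_lit 0) (nat_lit 3677761249) (nat_lit 168) (nat_lit 3677761249) (nat_lit 35) (nat_lit 1) (nat_lit 32) (nat_lit 1) (nat_lit 34) (nat_lit 1) (nat_lit 138) (nat_lit 320) (nat_lit 262)) (XT.nd (nat_lit 94) (nat_lit 84) (nat_lit 0) (XT.lf (nat_lit 84) (nat_lit 18263113886) (nat_lit 0) (nat_lit 25738979400) (nat_lit 252) (nat_lit 18263113886) (nat_lit 33) (nat_lit 1) (nat_lit 32) (nat_lit 1) (nat_lit 35) (nat_lit 1) (nat_lit 139) (nat_lit 320) (nat_lit 261)) (XT.lf (nat_lit 168) (nat_lit 17566564768) (nat_lit 0) (nat_lit 21821204810) (nat_lit 84) (nat_lit 21821204810) (nat_lit 33) (nat_lit 1) (nat_lit 31) (nat_lit 1) (nat_lit 32) (nat_lit 1) (nat_lit 140) (nat_lit 320) (nat_lit 260)))) (XT.nd (nat_lit 188) (nat_lit 84) (nat_lit 0) (XT.nd (nat_lit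 94) (nat_lit 0) (nat_lit 0) (XT.lf (nat_lit 252) (nat_lit 59422418451) (nat_lit 0) (nat_lit 382840728) (nat_lit 168) (nat_lit 382840728) (nat_lit 31) (nat_lit 1) (nat_lit 28) (nat_lit 1) (nat_lit 30) (nat_lit 1) (nat_lit 141) (nat_lit 320) (nat_lit 259)) (XT.lf (nat_lit 84) (nat_lit 20269571606) (nat_lit 0) (nat_lit 18617247605) (nat_lit 252) (nat_lit 20269571606) (nat_lit 29) (nat_lit 1) (nat_lit 28) (nat_lit 1) (nat_lit 31) (nat_lit 1) (nat_lit 142) (nat_lit 320) (nat_lit 258))) (XT.nd (nat_lit 94) (nat_lit 0) (nat_lit 0) (XT.lf (nat_lit 168) (nat_lit 22254793368) (nat_lit 0) (nat_lit 17952359200) (nat_lit 84) (nat_lit 17952359200) (nat_lit 29) (nat_lit 1) (nat_lit 27) (nat_lit 1) (nat_lit 28) (nat_lit 1) (nat_lit 143) (nat_lit 320) (nat_lit 257)) (XT.lf (nat_lit 0) (nat_lit 2238147086) (nat_lit 0) (nat_lit 52716435994) (nat_lit 168) (nat_lit 2238147086) (nat_lit 27) (nat_lit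 3) (nat_lit 27) (nat_lit 1) (nat_lit 29) (nat_lit 1) (nat_lit 144) (nat_lit 320) (nat_lit 256))))))) (XT.nd (nat_lit 1222) (nat_lit 1176) (nat_lit 0) (XT.nd (nat_lit 564) (nat_lit 588) (nat_lit 0) (XT.nd (nat_lit 282) (nat_lit 252) (nat_lit 0) (XT.nd (nat_lit 94) (nat_lit 84) (nat_lit 0) (XT.lf (nat_lit 84) (nat_lit 21670553022) (nat_lit 0) (nat_lit 12880003825) (nat_lit 168) (nat_lit 21670553022) (nat_lit 26) (nat_lit 1) (nat_lit 25) (nat_lit 1) (nat_lit 27) (nat_lit 1) (nat_lit 145) (nat_lit 320) (nat_lit 255)) (XT.nd (nat_lit 94) (nat_lit 0) (nat_lit 0) (XT.lf (nat_lit 168) (nat_lit 25740251733) (nat_lit 0) (nat_lit 14769450342) (nat_lit 84) (nat_lit 14769450342) (nat_lit 26) (nat_lit 1) (nat_lit 24) (nat_lit 1) (nat_lit 25) (nat_lit 1) (nat_lit 146) (nat_lit 320) (nat_lit 254)) (XT.lf (nat_lit 0) (nat_lit 4277781000) (nat_lit 0) (nat_lit 45806394207) (nat_lit 168) (nat_lit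 4277781000) (nat_lit 24) (nat_lit 3) (nat_lit 24) (nat_lit 1) (nat_lit 26) (nat_lit 1) (nat_lit 147) (nat_lit 320) (nat_lit 253)))) (XT.nd (nat_lit 94) (nat_lit 84) (nat_lit 0) (XT.lf (nat_lit 84) (nat_lit 22585299791) (nat_lit 0) (nat_lit 8275980685) (nat_lit 168) (nat_lit 22585299791) (nat_lit 23) (nat_lit 1) (nat_lit 22) (nat_lit 1) (nat_lit 24) (nat_lit 1) (nat_lit 148) (nat_lit 320) (nat_lit 252)) (XT.nd (nat_lit 94) (nat_lit 0) (nat_lit 0) (XT.lf (nat_lit 168) (nat_lit 28253881328) (nat_lit 0) (nat_lit 12150863347) (nat_lit 84) (nat_lit 12150863347) (nat_lit 23) (nat_lit 1) (nat_lit 21) (nat_lit 1) (nat_lit 22) (nat_lit 1) (nat_lit 149) (nat_lit 320) (nat_lit 251)) (XT.lf (nat_lit 0) (nat_lit 5839771352) (nat_lit 0) (nat_lit 40005464212) (nat_lit 168) (nat_lit 5839771352) (nat_lit 21) (nat_lit 3) (nat_lit 21) (nat_lit 1) (nat_lit 23) (nat_lit 1) (nat_lit 150) (nat_lit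 320) (nat_lit 250))))) (XT.nd (nat_lit 282) (nat_lit 336) (nat_lit 0) (XT.nd (nat_lit 94) (nat_lit 84) (nat_lit 0) (XT.lf (nat_lit 84) (nat_lit 23111346022) (nat_lit 0) (nat_lit 4598736137) (nat_lit 168) (nat_lit 23111346022) (nat_lit 20) (nat_lit 1) (nat_lit 19) (nat_lit 1) (nat_lit 21) (nat_lit 1) (nat_lit 151) (nat_lit 320) (nat_lit 249)) (XT.nd (nat_lit 94) (nat_lit 0) (nat_lit 0) (XT.lf (nat_lit 168) (nat_lit 29984835735) (nat_lit 0) (nat_lit 9996545347) (nat_lit 84) (nat_lit 9996545347) (nat_lit 20) (nat_lit 1) (nat_lit 18) (nat_lit 1) (nat_lit 19) (nat_lit 1) (nat_lit 152) (nat_lit 320) (nat_lit 248)) (XT.lf (nat_lit 0) (nat_lit 7014327997) (nat_lit 0) (nat_lit 35122528066) (nat_lit 168) (nat_lit 7014327997) (nat_lit 18) (nat_lit 3) (nat_lit 18) (nat_lit 1) (nat_lit 20) (nat_lit 1) (nat_lit 153) (nat_lit 320) (nat_lit 247)))) (XT.nd (nat_lit 188) (nat_lit 84) (nat_lit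 0) (XT.nd (nat_lit 94) (nat_lit 84) (nat_lit 0) (XT.lf (nat_lit 84) (nat_lit 23328393940) (nat_lit 0) (nat_lit 1678692883) (nat_lit 168) (nat_lit 23328393940) (nat_lit 17) (nat_lit 1) (nat_lit 16) (nat_lit 1) (nat_lit 18) (nat_lit 1) (nat_lit 154) (nat_lit 320) (nat_lit 246)) (XT.lf (nat_lit 168) (nat_lit 31087929655) (nat_lit 0) (nat_lit 8224182596) (nat_lit 84) (nat_lit 8224182596) (nat_lit 17) (nat_lit 1) (nat_lit 15) (nat_lit 1) (nat_lit 16) (nat_lit 1) (nat_lit 155) (nat_lit 320) (nat_lit 245))) (XT.nd (nat_lit 94) (nat_lit 84) (nat_lit 0) (XT.lf (nat_lit 0) (nat_lit 7875403720) (nat_lit 0) (nat_lit 31000089479) (nat_lit 168) (nat_lit 7875403720) (nat_lit 15) (nat_lit 3) (nat_lit 15) (nat_lit 1) (nat_lit 17) (nat_lit 1) (nat_lit 156) (nat_lit 320) (nat_lit 244)) (XT.lf (nat_lit 84) (nat_lit 644022935) (nat_lit 0) (nat_lit 22667533182) (nat_lit 84) (nat_lit 22667533182)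 (nat_lit 15) (nat_lit 3) (nat_lit 14) (nat_lit 1) (nat_lit 15) (nat_lit 1) (nat_lit 157) (nat_lit 320) (nat_lit 243)))))) (XT.nd (nat_lit 658) (nat_lit 504) (nat_lit 0) (XT.nd (nat_lit 282) (nat_lit 420) (nat_lit 0) (XT.nd (nat_lit 94) (nat_lit 84) (nat_lit 0) (XT.lf (nat_lit 168) (nat_lit 31689765320) (nat_lit 0) (nat_lit 6766055375) (nat_lit 84) (nat_lit 6766055375) (nat_lit 14) (nat_lit 1) (nat_lit 12) (nat_lit 1) (nat_lit 13) (nat_lit 1) (nat_lit 158) (nat_lit 320) (nat_lit 242)) (XT.nd (nat_lit 94) (nat_lit 84) (nat_lit 0) (XT.lf (nat_lit 0) (nat_lit 8483589100) (nat_lit 0) (nat_lit 27508325302) (nat_lit 168) (nat_lit 8483589100) (nat_lit 12) (nat_lit 3) (nat_lit 12) (nat_lit 1) (nat_lit 14) (nat_lit 1) (nat_lit 159) (nat_lit 320) (nat_lit 241)) (XT.lf (nat_lit 84) (nat_lit 2501983990) (nat_lit 0) (nat_lit 20620780374) (nat_lit 84) (nat_lit 20620780374) (nat_lit 12)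 (nat_lit 3) (nat_lit 11) (nat_lit 1) (nat_lit 12) (nat_lit 1) (nat_lit 160) (nat_lit 320) (nat_lit 240)))) (XT.nd (nat_lit 188) (nat_lit 252) (nat_lit 0) (XT.nd (nat_lit 94) (nat_lit 0) (nat_lit 0) (XT.lf (nat_lit 168) (nat_lit 31893770885) (nat_lit 0) (nat_lit 5566450501) (nat_lit 84) (nat_lit 5566450501) (nat_lit 11) (nat_lit 1) (nat_lit 9) (nat_lit 1) (nat_lit 10) (nat_lit 1) (nat_lit 161) (nat_lit 320) (nat_lit 239)) (XT.lf (nat_lit 0) (nat_lit 8888493528) (nat_lit 0) (nat_lit 24540191084) (nat_lit 168) (nat_lit 8888493528) (nat_lit 9) (nat_lit 3) (nat_lit 9) (nat_lit 1) (nat_lit 11) (nat_lit 1) (nat_lit 162) (nat_lit 320) (nat_lit 238))) (XT.nd (nat_lit 94) (nat_lit 168) (nat_lit 0) (XT.lf (nat_lit 84) (nat_lit 3936621495) (nat_lit 0) (nat_lit 18843000120) (nat_lit 84) (nat_lit 18843000120) (nat_lit 9) (nat_lit 3) (nat_lit 8) (nat_lit 1) (nat_lit 9) (nat_lit 1) (nat_lit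 163) (nat_lit 320) (nat_lit 237)) (XT.lf (nat_lit 168) (nat_lit 31784343790) (nat_lit 0) (nat_lit 4579532603) (nat_lit 84) (nat_lit 4579532603) (nat_lit 8) (nat_lit 1) (nat_lit 6) (nat_lit 1) (nat_lit 7) (nat_lit 1) (nat_lit 164) (nat_lit 320) (nat_lit 236))))) (XT.nd (nat_lit 282) (nat_lit 252) (nat_lit 0) (XT.nd (nat_lit 94) (nat_lit 252) (nat_lit 0) (XT.lf (nat_lit 0) (nat_lit 9130703508) (nat_lit 0) (nat_lit 22007393823) (nat_lit 168) (nat_lit 9130703508) (nat_lit 6) (nat_lit 3) (nat_lit 6) (nat_lit 1) (nat_lit 8) (nat_lit 1) (nat_lit 165) (nat_lit 320) (nat_lit 235)) (XT.nd (nat_lit 94) (nat_lit 168) (nat_lit 0) (XT.lf (nat_lit 84) (nat_lit 5027461650) (nat_lit 0) (nat_lit 17290976235) (nat_lit 84) (nat_lit 17290976235) (nat_lit 6) (nat_lit 3) (nat_lit 5) (nat_lit 1) (nat_lit 6) (nat_lit 1) (nat_lit 166) (nat_lit 320) (nat_lit 234)) (XT.lf (nat_lit 168) (nat_lit 31430257869)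 (nat_lit 0) (nat_lit 3767592806) (nat_lit 84) (nat_lit 3767592806) (nat_lit 5) (nat_lit 1) (nat_lit 3) (nat_lit 1) (nat_lit 4) (nat_lit 1) (nat_lit 167) (nat_lit 320) (nat_lit 233)))) (XT.nd (nat_lit 188) (nat_lit 168) (nat_lit 0) (XT.nd (nat_lit 94) (nat_lit 84) (nat_lit 0) (XT.lf (nat_lit 0) (nat_lit 9243393217) (nat_lit 0) (nat_lit 19837078205) (nat_lit 168) (nat_lit 9243393217) (nat_lit 3) (nat_lit 3) (nat_lit 3) (nat_lit 1) (nat_lit 5) (nat_lit 1) (nat_lit 168) (nat_lit 320) (nat_lit 232)) (XT.lf (nat_lit 84) (nat_lit 5839717907) (nat_lit 0) (nat_lit 15928941706) (nat_lit 84) (nat_lit 15928941706) (nat_lit 3) (nat_lit 3) (nat_lit 2) (nat_lit 1) (nat_lit 3) (nat_lit 1) (nat_lit 169) (nat_lit 320) (nat_lit 231))) (XT.nd (nat_lit 94) (nat_lit 0) (nat_lit 0) (XT.lf (nat_lit 0) (nat_lit 53875376467) (nat_lit 0) (nat_lit 0) (nat_lit 0) (nat_lit 0) (nat_lit 0) (nat_lit 0)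 (nat_lit 1) (nat_lit 0) (nat_lit 1) (nat_lit 0) (nat_lit 170) (nat_lit 320) (nat_lit 230)) (XT.lf (nat_lit 0) (nat_lit 53843986736) (nat_lit 0) (nat_lit 0) (nat_lit 0) (nat_lit 0) (nat_lit 0) (nat_lit 0) (nat_lit 1) (nat_lit 0) (nat_lit 1) (nat_lit 0) (nat_lit 171) (nat_lit 320) (nat_lit 229))))))))
noncomputable def ec245 : XT := (XT.nd (nat_lit 7332) (nat_lit 0) (nat_lit 0) (XT.nd (nat_lit 6016) (nat_lit 0) (nat_lit 0) (XT.nd (nat_lit 5358) (nat_lit 0) (nat_lit 0) (XT.nd (nat_lit 5076) (nat_lit 0) (nat_lit 0) (XT.nd (nat_lit 94) (nat_lit 0) (nat_lit 0) (XT.lf (nat_lit 0) (nat_lit 53814091755) (nat_lit 0) (nat_lit 0) (nat_lit 0) (nat_lit 0) (nat_lit 0) (nat_lit 0) (nat_lit 1) (nat_lit 0) (nat_lit 1) (nat_lit 0) (nat_lit 172) (nat_lit 320) (nat_lit 228)) (XT.nd (nat_lit 94) (nat_lit 0) (nat_lit 0) (XT.lf (nat_lit 0) (nat_lit 53785620344) (nat_lit 0) (nat_lit 0) (nat_lit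 0) (nat_lit 0) (nat_lit 0) (nat_lit 0) (nat_lit 1) (nat_lit 0) (nat_lit 1) (nat_lit 0) (nat_lit 173) (nat_lit 320) (nat_lit 227)) (XT.lf (nat_lit 0) (nat_lit 53758504715) (nat_lit 0) (nat_lit 0) (nat_lit 0) (nat_lit 0) (nat_lit 0) (nat_lit 0) (nat_lit 1) (nat_lit 0) (nat_lit 1) (nat_lit 0) (nat_lit 174) (nat_lit 320) (nat_lit 226)))) (XT.nd (nat_lit 94) (nat_lit 0) (nat_lit 0) (XT.lf (nat_lit 0) (nat_lit 53259087077) (nat_lit 0) (nat_lit 0) (nat_lit 0) (nat_lit 0) (nat_lit 0) (nat_lit 0) (nat_lit 1) (nat_lit 0) (nat_lit 1) (nat_lit 0) (nat_lit 226) (nat_lit 320) (nat_lit 174)) (XT.nd (nat_lit 94) (nat_lit 0) (nat_lit 0) (XT.lf (nat_lit 0) (nat_lit 53257044460) (nat_lit 0) (nat_lit 0) (nat_lit 0) (nat_lit 0) (nat_lit 0) (nat_lit 0) (nat_lit 1) (nat_lit 0) (nat_lit 1) (nat_lit 0) (nat_lit 227) (nat_lit 320) (nat_lit 173)) (XT.lf (nat_lit 0) (nat_lit 53255099111) (nat_lit 0)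 (nat_lit 0) (nat_lit 0) (nat_lit 0) (nat_lit 0) (nat_lit 0) (nat_lit 1) (nat_lit 0) (nat_lit 1) (nat_lit 0) (nat_lit 228) (nat_lit 320) (nat_lit 172))))) (XT.nd (nat_lit 282) (nat_lit 0) (nat_lit 0) (XT.nd (nat_lit 94) (nat_lit 0) (nat_lit 0) (XT.lf (nat_lit 0) (nat_lit 53253246398) (nat_lit 0) (nat_lit 0) (nat_lit 0) (nat_lit 0) (nat_lit 0) (nat_lit 0) (nat_lit 1) (nat_lit 0) (nat_lit 1) (nat_lit 0) (nat_lit 229) (nat_lit 320) (nat_lit 171)) (XT.nd (nat_lit 94) (nat_lit 0) (nat_lit 0) (XT.lf (nat_lit 0) (nat_lit 53251481909) (nat_lit 0) (nat_lit 0) (nat_lit 0) (nat_lit 0) (nat_lit 0) (nat_lit 0) (nat_lit 1) (nat_lit 0) (nat_lit 1) (nat_lit 0) (nat_lit 230) (nat_lit 320) (nat_lit 170)) (XT.lf (nat_lit 0) (nat_lit 53249801443) (nat_lit 0) (nat_lit 0) (nat_lit 0) (nat_lit 0) (nat_lit 0) (nat_lit 0) (nat_lit 1) (nat_lit 0) (nat_lit 1) (nat_lit 0) (nat_lit 231) (nat_lit 320)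 (nat_lit 169)))) (XT.nd (nat_lit 188) (nat_lit 0) (nat_lit 0) (XT.nd (nat_lit 94) (nat_lit 0) (nat_lit 0) (XT.lf (nat_lit 0) (nat_lit 53248201000) (nat_lit 0) (nat_lit 0) (nat_lit 0) (nat_lit 0) (nat_lit 0) (nat_lit 0) (nat_lit 1) (nat_lit 0) (nat_lit 1) (nat_lit 0) (nat_lit 232) (nat_lit 320) (nat_lit 168)) (XT.lf (nat_lit 0) (nat_lit 53246676768) (nat_lit 0) (nat_lit 0) (nat_lit 0) (nat_lit 0) (nat_lit 0) (nat_lit 0) (nat_lit 1) (nat_lit 0) (nat_lit 1) (nat_lit 0) (nat_lit 233) (nat_lit 320) (nat_lit 167))) (XT.nd (nat_lit 94) (nat_lit 0) (nat_lit 0) (XT.lf (nat_lit 0) (nat_lit 53245225118) (nat_lit 0) (nat_lit 0) (nat_lit 0) (nat_lit 0) (nat_lit 0) (nat_lit 0) (nat_lit 1) (nat_lit 0) (nat_lit 1) (nat_lit 0) (nat_lit 234) (nat_lit 320) (nat_lit 166)) (XT.lf (nat_lit 0) (nat_lit 53243842595) (nat_lit 0) (nat_lit 0) (nat_lit 0) (nat_lit 0) (nat_lit 0) (nat_lit 0) (nat_lit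 1) (nat_lit 0) (nat_lit 1) (nat_lit 0) (nat_lit 235) (nat_lit 320) (nat_lit 165)))))) (XT.nd (nat_lit 658) (nat_lit 0) (nat_lit 0) (XT.nd (nat_lit 282) (nat_lit 0) (nat_lit 0) (XT.nd (nat_lit 94) (nat_lit 0) (nat_lit 0) (XT.lf (nat_lit 0) (nat_lit 53242525906) (nat_lit 0) (nat_lit 0) (nat_lit 0) (nat_lit 0) (nat_lit 0) (nat_lit 0) (nat_lit 1) (nat_lit 0) (nat_lit 1) (nat_lit 0) (nat_lit 236) (nat_lit 320) (nat_lit 164)) (XT.nd (nat_lit 94) (nat_lit 0) (nat_lit 0) (XT.lf (nat_lit 0) (nat_lit 53241271917) (nat_lit 0) (nat_lit 0) (nat_lit 0) (nat_lit 0) (nat_lit 0) (nat_lit 0) (nat_lit 1) (nat_lit 0) (nat_lit 1) (nat_lit 0) (nat_lit 237) (nat_lit 320) (nat_lit 163)) (XT.lf (nat_lit 0) (nat_lit 53240077641) (nat_lit 0) (nat_lit 0) (nat_lit 0) (nat_lit 0) (nat_lit 0) (nat_lit 0) (nat_lit 1) (nat_lit 0) (nat_lit 1) (nat_lit 0) (nat_lit 238) (nat_lit 320) (nat_lit 162)))) (XT.nd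 (nat_lit 188) (nat_lit 0) (nat_lit 0) (XT.nd (nat_lit 94) (nat_lit 0) (nat_lit 0) (XT.lf (nat_lit 0) (nat_lit 53238940236) (nat_lit 0) (nat_lit 0) (nat_lit 0) (nat_lit 0) (nat_lit 0) (nat_lit 0) (nat_lit 1) (nat_lit 0) (nat_lit 1) (nat_lit 0) (nat_lit 239) (nat_lit 320) (nat_lit 161)) (XT.lf (nat_lit 0) (nat_lit 53237856993) (nat_lit 0) (nat_lit 0) (nat_lit 0) (nat_lit 0) (nat_lit 0) (nat_lit 0) (nat_lit 1) (nat_lit 0) (nat_lit 1) (nat_lit 0) (nat_lit 240) (nat_lit 320) (nat_lit 160))) (XT.nd (nat_lit 94) (nat_lit 0) (nat_lit 0) (XT.lf (nat_lit 0) (nat_lit 53236825333) (nat_lit 0) (nat_lit 0) (nat_lit 0) (nat_lit 0) (nat_lit 0) (nat_lit 0) (nat_lit 1) (nat_lit 0) (nat_lit 1) (nat_lit 0) (nat_lit 241) (nat_lit 320) (nat_lit 159)) (XT.lf (nat_lit 0) (nat_lit 53235842799) (nat_lit 0) (nat_lit 0) (nat_lit 0) (nat_lit 0) (nat_lit 0) (nat_lit 0) (nat_lit 1) (nat_lit 0) (nat_lit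 1) (nat_lit 0) (nat_lit 242) (nat_lit 320) (nat_lit 158))))) (XT.nd (nat_lit 282) (nat_lit 0) (nat_lit 0) (XT.nd (nat_lit 94) (nat_lit 0) (nat_lit 0) (XT.lf (nat_lit 0) (nat_lit 53234907053) (nat_lit 0) (nat_lit 0) (nat_lit 0) (nat_lit 0) (nat_lit 0) (nat_lit 0) (nat_lit 1) (nat_lit 0) (nat_lit 1) (nat_lit 0) (nat_lit 243) (nat_lit 320) (nat_lit 157)) (XT.nd (nat_lit 94) (nat_lit 0) (nat_lit 0) (XT.lf (nat_lit 0) (nat_lit 53234015866) (nat_lit 0) (nat_lit 0) (nat_lit 0) (nat_lit 0) (nat_lit 0) (nat_lit 0) (nat_lit 1) (nat_lit 0) (nat_lit 1) (nat_lit 0) (nat_lit 244) (nat_lit 320) (nat_lit 156)) (XT.lf (nat_lit 0) (nat_lit 53233167117) (nat_lit 0) (nat_lit 0) (nat_lit 0) (nat_lit 0) (nat_lit 0) (nat_lit 0) (nat_lit 1) (nat_lit 0) (nat_lit 1) (nat_lit 0) (nat_lit 245) (nat_lit 320) (nat_lit 155)))) (XT.nd (nat_lit 188) (nat_lit 0) (nat_lit 0) (XT.nd (nat_lit 94) (nat_lit 0)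 (nat_lit 0) (XT.lf (nat_lit 0) (nat_lit 53232358784) (nat_lit 0) (nat_lit 0) (nat_lit 0) (nat_lit 0) (nat_lit 0) (nat_lit 0) (nat_lit 1) (nat_lit 0) (nat_lit 1) (nat_lit 0) (nat_lit 246) (nat_lit 320) (nat_lit 154)) (XT.lf (nat_lit 0) (nat_lit 53231588944) (nat_lit 0) (nat_lit 0) (nat_lit 0) (nat_lit 0) (nat_lit 0) (nat_lit 0) (nat_lit 1) (nat_lit 0) (nat_lit 1) (nat_lit 0) (nat_lit 247) (nat_lit 320) (nat_lit 153))) (XT.nd (nat_lit 94) (nat_lit 0) (nat_lit 0) (XT.lf (nat_lit 0) (nat_lit 53230855762) (nat_lit 0) (nat_lit 0) (nat_lit 0) (nat_lit 0) (nat_lit 0) (nat_lit 0) (nat_lit 1) (nat_lit 0) (nat_lit 1) (nat_lit 0) (nat_lit 248) (nat_lit 320) (nat_lit 152)) (XT.lf (nat_lit 0) (nat_lit 53230157494) (nat_lit 0) (nat_lit 0) (nat_lit 0) (nat_lit 0) (nat_lit 0) (nat_lit 0) (nat_lit 1) (nat_lit 0) (nat_lit 1) (nat_lit 0) (nat_lit 249) (nat_lit 320) (nat_lit 151))))))) (XT.nd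 (nat_lit 6110) (nat_lit 0) (nat_lit 0) (XT.nd (nat_lit 658) (nat_lit 0) (nat_lit 0) (XT.nd (nat_lit 282) (nat_lit 0) (nat_lit 0) (XT.nd (nat_lit 94) (nat_lit 0) (nat_lit 0) (XT.lf (nat_lit 0) (nat_lit 53229492477) (nat_lit 0) (nat_lit 0) (nat_lit 0) (nat_lit 0) (nat_lit 0) (nat_lit 0) (nat_lit 1) (nat_lit 0) (nat_lit 1) (nat_lit 0) (nat_lit 250) (nat_lit 320) (nat_lit 150)) (XT.nd (nat_lit 94) (nat_lit 0) (nat_lit 0) (XT.lf (nat_lit 0) (nat_lit 53228859127) (nat_lit 0) (nat_lit 0) (nat_lit 0) (nat_lit 0) (nat_lit 0) (nat_lit 0) (nat_lit 1) (nat_lit 0) (nat_lit 1) (nat_lit 0) (nat_lit 251) (nat_lit 320) (nat_lit 149)) (XT.lf (nat_lit 0) (nat_lit 53228255936) (nat_lit 0) (nat_lit 0) (nat_lit 0) (nat_lit 0) (nat_lit 0) (nat_lit 0) (nat_lit 1) (nat_lit 0) (nat_lit 1) (nat_lit 0) (nat_lit 252) (nat_lit 320) (nat_lit 148)))) (XT.nd (nat_lit 188) (nat_lit 0) (nat_lit 0) (XT.nd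 (nat_lit 94) (nat_lit 0) (nat_lit 0) (XT.lf (nat_lit 0) (nat_lit 53227681469) (nat_lit 0) (nat_lit 0) (nat_lit 0) (nat_lit 0) (nat_lit 0) (nat_lit 0) (nat_lit 1) (nat_lit 0) (nat_lit 1) (nat_lit 0) (nat_lit 253) (nat_lit 320) (nat_lit 147)) (XT.lf (nat_lit 0) (nat_lit 53227134358) (nat_lit 0) (nat_lit 0) (nat_lit 0) (nat_lit 0) (nat_lit 0) (nat_lit 0) (nat_lit 1) (nat_lit 0) (nat_lit 1) (nat_lit 0) (nat_lit 254) (nat_lit 320) (nat_lit 146))) (XT.nd (nat_lit 94) (nat_lit 0) (nat_lit 0) (XT.lf (nat_lit 0) (nat_lit 53226613300) (nat_lit 0) (nat_lit 0) (nat_lit 0) (nat_lit 0) (nat_lit 0) (nat_lit 0) (nat_lit 1) (nat_lit 0) (nat_lit 1) (nat_lit 0) (nat_lit 255) (nat_lit 320) (nat_lit 145)) (XT.lf (nat_lit 0) (nat_lit 53226117053) (nat_lit 0) (nat_lit 0) (nat_lit 0) (nat_lit 0) (nat_lit 0) (nat_lit 0) (nat_lit 1) (nat_lit 0) (nat_lit 1) (nat_lit 0) (nat_lit 256) (nat_lit 320)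 (nat_lit 144))))) (XT.nd (nat_lit 282) (nat_lit 0) (nat_lit 0) (XT.nd (nat_lit 94) (nat_lit 0) (nat_lit 0) (XT.lf (nat_lit 0) (nat_lit 53225644438) (nat_lit 0) (nat_lit 0) (nat_lit 0) (nat_lit 0) (nat_lit 0) (nat_lit 0) (nat_lit 1) (nat_lit 0) (nat_lit 1) (nat_lit 0) (nat_lit 257) (nat_lit 320) (nat_lit 143)) (XT.nd (nat_lit 94) (nat_lit 0) (nat_lit 0) (XT.lf (nat_lit 0) (nat_lit 53225194328) (nat_lit 0) (nat_lit 0) (nat_lit 0) (nat_lit 0) (nat_lit 0) (nat_lit 0) (nat_lit 1) (nat_lit 0) (nat_lit 1) (nat_lit 0) (nat_lit 258) (nat_lit 320) (nat_lit 142)) (XT.lf (nat_lit 0) (nat_lit 53224765652) (nat_lit 0) (nat_lit 0) (nat_lit 0) (nat_lit 0) (nat_lit 0) (nat_lit 0) (nat_lit 1) (nat_lit 0) (nat_lit 1) (nat_lit 0) (nat_lit 259) (nat_lit 320) (nat_lit 141)))) (XT.nd (nat_lit 188) (nat_lit 0) (nat_lit 0) (XT.nd (nat_lit 94) (nat_lit 0) (nat_lit 0) (XT.lf (nat_lit 0) (nat_lit 53224357389)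 (nat_lit 0) (nat_lit 0) (nat_lit 0) (nat_lit 0) (nat_lit 0) (nat_lit 0) (nat_lit 1) (nat_lit 0) (nat_lit 1) (nat_lit 0) (nat_lit 260) (nat_lit 320) (nat_lit 140)) (XT.lf (nat_lit 0) (nat_lit 53223968567) (nat_lit 0) (nat_lit 0) (nat_lit 0) (nat_lit 0) (nat_lit 0) (nat_lit 0) (nat_lit 1) (nat_lit 0) (nat_lit 1) (nat_lit 0) (nat_lit 261) (nat_lit 320) (nat_lit 139))) (XT.nd (nat_lit 94) (nat_lit 0) (nat_lit 0) (XT.lf (nat_lit 0) (nat_lit 53223598261) (nat_lit 0) (nat_lit 0) (nat_lit 0) (nat_lit 0) (nat_lit 0) (nat_lit 0) (nat_lit 1) (nat_lit 0) (nat_lit 1) (nat_lit 0) (nat_lit 262) (nat_lit 320) (nat_lit 138)) (XT.lf (nat_lit 0) (nat_lit 53223245588) (nat_lit 0) (nat_lit 0) (nat_lit 0) (nat_lit 0) (nat_lit 0) (nat_lit 0) (nat_lit 1) (nat_lit 0) (nat_lit 1) (nat_lit 0) (nat_lit 263) (nat_lit 320) (nat_lit 137)))))) (XT.nd (nat_lit 658) (nat_lit 0) (nat_lit 0) (XT.nd (nat_lit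 282) (nat_lit 0) (nat_lit 0) (XT.nd (nat_lit 94) (nat_lit 0) (nat_lit 0) (XT.lf (nat_lit 0) (nat_lit 53216750033) (nat_lit 0) (nat_lit 0) (nat_lit 0) (nat_lit 0) (nat_lit 0) (nat_lit 0) (nat_lit 1) (nat_lit 0) (nat_lit 1) (nat_lit 0) (nat_lit 315) (nat_lit 320) (nat_lit 85)) (XT.nd (nat_lit 94) (nat_lit 0) (nat_lit 0) (XT.lf (nat_lit 0) (nat_lit 53216723466) (nat_lit 0) (nat_lit 0) (nat_lit 0) (nat_lit 0) (nat_lit 0) (nat_lit 0) (nat_lit 1) (nat_lit 0) (nat_lit 1) (nat_lit 0) (nat_lit 316) (nat_lit 320) (nat_lit 84)) (XT.lf (nat_lit 0) (nat_lit 53216698164) (nat_lit 0) (nat_lit 0) (nat_lit 0) (nat_lit 0) (nat_lit 0) (nat_lit 0) (nat_lit 1) (nat_lit 0) (nat_lit 1) (nat_lit 0) (nat_lit 317) (nat_lit 320) (nat_lit 83)))) (XT.nd (nat_lit 188) (nat_lit 0) (nat_lit 0) (XT.nd (nat_lit 94) (nat_lit 0) (nat_lit 0) (XT.lf (nat_lit 0) (nat_lit 53216674068) (nat_lit 0) (nat_lit 0) (nat_lit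 0) (nat_lit 0) (nat_lit 0) (nat_lit 0) (nat_lit 1) (nat_lit 0) (nat_lit 1) (nat_lit 0) (nat_lit 318) (nat_lit 320) (nat_lit 82)) (XT.lf (nat_lit 0) (nat_lit 53216651118) (nat_lit 0) (nat_lit 0) (nat_lit 0) (nat_lit 0) (nat_lit 0) (nat_lit 0) (nat_lit 1) (nat_lit 0) (nat_lit 1) (nat_lit 0) (nat_lit 319) (nat_lit 320) (nat_lit 81))) (XT.nd (nat_lit 94) (nat_lit 0) (nat_lit 0) (XT.lf (nat_lit 0) (nat_lit 53216629262) (nat_lit 0) (nat_lit 0) (nat_lit 0) (nat_lit 0) (nat_lit 0) (nat_lit 0) (nat_lit 1) (nat_lit 0) (nat_lit 1) (nat_lit 0) (nat_lit 320) (nat_lit 320) (nat_lit 80)) (XT.lf (nat_lit 0) (nat_lit 53216608446) (nat_lit 0) (nat_lit 0) (nat_lit 0) (nat_lit 0) (nat_lit 0) (nat_lit 0) (nat_lit 1) (nat_lit 0) (nat_lit 1) (nat_lit 0) (nat_lit 321) (nat_lit 320) (nat_lit 79))))) (XT.nd (nat_lit 282) (nat_lit 0) (nat_lit 0) (XT.nd (nat_lit 94) (nat_lit 0) (nat_lit 0) (XT.lf (nat_lit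 0) (nat_lit 53216588621) (nat_lit 0) (nat_lit 0) (nat_lit 0) (nat_lit 0) (nat_lit 0) (nat_lit 0) (nat_lit 1) (nat_lit 0) (nat_lit 1) (nat_lit 0) (nat_lit 322) (nat_lit 320) (nat_lit 78)) (XT.nd (nat_lit 94) (nat_lit 0) (nat_lit 0) (XT.lf (nat_lit 0) (nat_lit 53216569741) (nat_lit 0) (nat_lit 0) (nat_lit 0) (nat_lit 0) (nat_lit 0) (nat_lit 0) (nat_lit 1) (nat_lit 0) (nat_lit 1) (nat_lit 0) (nat_lit 323) (nat_lit 320) (nat_lit 77)) (XT.lf (nat_lit 0) (nat_lit 53216551759) (nat_lit 0) (nat_lit 0) (nat_lit 0) (nat_lit 0) (nat_lit 0) (nat_lit 0) (nat_lit 1) (nat_lit 0) (nat_lit 1) (nat_lit 0) (nat_lit 324) (nat_lit 320) (nat_lit 76)))) (XT.nd (nat_lit 22090) (nat_lit 0) (nat_lit 10752) (XT.nd (nat_lit 21996) (nat_lit 0) (nat_lit 10752) (XT.lf (nat_lit 0) (nat_lit 53216534634) (nat_lit 0) (nat_lit 0) (nat_lit 0) (nat_lit 0) (nat_lit 0) (nat_lit 0) (nat_lit 1) (nat_lit 0) (nat_lit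 1) (nat_lit 0) (nat_lit 325) (nat_lit 320) (nat_lit 75)) (XT.lf (nat_lit 924) (nat_lit 27962944687) (nat_lit 0) (nat_lit 49648144017) (nat_lit 924) (nat_lit 27962944687) (nat_lit 139) (nat_lit 1) (nat_lit 128) (nat_lit 0) (nat_lit 139) (nat_lit 0) (nat_lit 78) (nat_lit 321) (nat_lit 321))) (XT.nd (nat_lit 94) (nat_lit 0) (nat_lit 84) (XT.lf (nat_lit 924) (nat_lit 108387864645) (nat_lit 84) (nat_lit 48847367501) (nat_lit 0) (nat_lit 48847367501) (nat_lit 139) (nat_lit 1) (nat_lit 129) (nat_lit 1) (nat_lit 128) (nat_lit 0) (nat_lit 79) (nat_lit 321) (nat_lit 320)) (XT.lf (nat_lit 924) (nat_lit 51656024295) (nat_lit 0) (nat_lit 97861684723) (nat_lit 840) (nat_lit 51656024295) (nat_lit 140) (nat_lit 1) (nat_lit 129) (nat_lit 1) (nat_lit 139) (nat_lit 1) (nat_lit 80) (nat_lit 321) (nat_lit 319))))))))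
noncomputable def ec246 : XT := (XT.nd (nat_lit 7708) (nat_lit 504) (nat_lit 0) (XT.nd (nat_lit 6392) (nat_lit 1260) (nat_lit 0) (XT.nd (nat_lit 5734) (nat_lit 504) (nat_lit 0) (XT.nd (nat_lit 5452) (nat_lit 8568) (nat_lit 0) (XT.nd (nat_lit 94) (nat_lit 0) (nat_lit 84) (XT.lf (nat_lit 924) (nat_lit 96899523791) (nat_lit 84) (nat_lit 49761968071) (nat_lit 0) (nat_lit 49761968071) (nat_lit 140) (nat_lit 1) (nat_lit 130) (nat_lit 1) (nat_lit 129) (nat_lit 1) (nat_lit 81) (nat_lit 321) (nat_lit 318)) (XT.nd (nat_lit 94) (nat_lit 0) (nat_lit 0) (XT.lf (nat_lit 924) (nat_lit 44601920266) (nat_lit 0) (nat_lit 102619905861) (nat_lit 840) (nat_lit 44601920266) (nat_lit 141) (nat_lit 1) (nat_lit 130) (nat_lit 1) (nat_lit 140) (nat_lit 1) (nat_lit 82) (nat_lit 321) (nat_lit 317)) (XT.lf (nat_lit 924) (nat_lit 80219458611) (nat_lit 84) (nat_lit 53572395544) (nat_lit 0) (nat_lit 53572395544)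 (nat_lit 141) (nat_lit 1) (nat_lit 131) (nat_lit 1) (nat_lit 130) (nat_lit 1) (nat_lit 83) (nat_lit 321) (nat_lit 316)))) (XT.nd (nat_lit 94) (nat_lit 84) (nat_lit 0) (XT.lf (nat_lit 252) (nat_lit 62393539373) (nat_lit 0) (nat_lit 401982765) (nat_lit 168) (nat_lit 401982765) (nat_lit 31) (nat_lit 1) (nat_lit 28) (nat_lit 1) (nat_lit 30) (nat_lit 1) (nat_lit 139) (nat_lit 321) (nat_lit 260)) (XT.nd (nat_lit 94) (nat_lit 84) (nat_lit 0) (XT.lf (nat_lit 84) (nat_lit 21283050186) (nat_lit 0) (nat_lit 19548109985) (nat_lit 252) (nat_lit 21283050186) (nat_lit 29) (nat_lit 1) (nat_lit 28) (nat_lit 1) (nat_lit 31) (nat_lit 1) (nat_lit 140) (nat_lit 321) (nat_lit 259)) (XT.lf (nat_lit 168) (nat_lit 23367533037) (nat_lit 0) (nat_lit 18849977160) (nat_lit 84) (nat_lit 18849977160) (nat_lit 29) (nat_lit 1) (nat_lit 27) (nat_lit 1) (nat_lit 28) (nat_lit 1) (nat_lit 141) (nat_lit 321)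 (nat_lit 258))))) (XT.nd (nat_lit 282) (nat_lit 252) (nat_lit 0) (XT.nd (nat_lit 94) (nat_lit 252) (nat_lit 0) (XT.lf (nat_lit 0) (nat_lit 2350054440) (nat_lit 0) (nat_lit 55352257793) (nat_lit 168) (nat_lit 2350054440) (nat_lit 27) (nat_lit 3) (nat_lit 27) (nat_lit 1) (nat_lit 29) (nat_lit 1) (nat_lit 142) (nat_lit 321) (nat_lit 257)) (XT.nd (nat_lit 94) (nat_lit 84) (nat_lit 0) (XT.lf (nat_lit 84) (nat_lit 22754080673) (nat_lit 0) (nat_lit 13524004016) (nat_lit 168) (nat_lit 22754080673) (nat_lit 26) (nat_lit 1) (nat_lit 25) (nat_lit 1) (nat_lit 27) (nat_lit 1) (nat_lit 143) (nat_lit 321) (nat_lit 256)) (XT.lf (nat_lit 168) (nat_lit 27027264319) (nat_lit 0) (nat_lit 15507922859) (nat_lit 84) (nat_lit 15507922859) (nat_lit 26) (nat_lit 1) (nat_lit 24) (nat_lit 1) (nat_lit 25) (nat_lit 1) (nat_lit 144) (nat_lit 321) (nat_lit 255)))) (XT.nd (nat_lit 188) (nat_lit 84) (nat_lit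 0) (XT.nd (nat_lit 94) (nat_lit 168) (nat_lit 0) (XT.lf (nat_lit 0) (nat_lit 4491670050) (nat_lit 0) (nat_lit 48096713918) (nat_lit 168) (nat_lit 4491670050) (nat_lit 24) (nat_lit 3) (nat_lit 24) (nat_lit 1) (nat_lit 26) (nat_lit 1) (nat_lit 145) (nat_lit 321) (nat_lit 254)) (XT.lf (nat_lit 84) (nat_lit 23714564781) (nat_lit 0) (nat_lit 8689779720) (nat_lit 168) (nat_lit 23714564781) (nat_lit 23) (nat_lit 1) (nat_lit 22) (nat_lit 1) (nat_lit 24) (nat_lit 1) (nat_lit 146) (nat_lit 321) (nat_lit 253))) (XT.nd (nat_lit 94) (nat_lit 0) (nat_lit 0) (XT.lf (nat_lit 168) (nat_lit 29666575395) (nat_lit 0) (nat_lit 12758406515) (nat_lit 84) (nat_lit 12758406515) (nat_lit 23) (nat_lit 1) (nat_lit 21) (nat_lit 1) (nat_lit 22) (nat_lit 1) (nat_lit 147) (nat_lit 321) (nat_lit 252)) (XT.lf (nat_lit 0) (nat_lit 6131759919) (nat_lit 0) (nat_lit 42005737423) (nat_lit 168) (nat_lit 6131759919)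 (nat_lit 21) (nat_lit 3) (nat_lit 21) (nat_lit 1) (nat_lit 23) (nat_lit 1) (nat_lit 148) (nat_lit 321) (nat_lit 251)))))) (XT.nd (nat_lit 658) (nat_lit 672) (nat_lit 0) (XT.nd (nat_lit 282) (nat_lit 336) (nat_lit 0) (XT.nd (nat_lit 94) (nat_lit 84) (nat_lit 0) (XT.lf (nat_lit 84) (nat_lit 24266913323) (nat_lit 0) (nat_lit 4828672944) (nat_lit 168) (nat_lit 24266913323) (nat_lit 20) (nat_lit 1) (nat_lit 19) (nat_lit 1) (nat_lit 21) (nat_lit 1) (nat_lit 149) (nat_lit 321) (nat_lit 250)) (XT.nd (nat_lit 94) (nat_lit 0) (nat_lit 0) (XT.lf (nat_lit 168) (nat_lit 31484077522) (nat_lit 0) (nat_lit 10496372614) (nat_lit 84) (nat_lit 10496372614) (nat_lit 20) (nat_lit 1) (nat_lit 18) (nat_lit 1) (nat_lit 19) (nat_lit 1) (nat_lit 150) (nat_lit 321) (nat_lit 249)) (XT.lf (nat_lit 0) (nat_lit 7365044397) (nat_lit 0) (nat_lit 36878654470) (nat_lit 168) (nat_lit 7365044397) (nat_lit 18)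 (nat_lit 3) (nat_lit 18) (nat_lit 1) (nat_lit 20) (nat_lit 1) (nat_lit 151) (nat_lit 321) (nat_lit 248)))) (XT.nd (nat_lit 188) (nat_lit 84) (nat_lit 0) (XT.nd (nat_lit 94) (nat_lit 84) (nat_lit 0) (XT.lf (nat_lit 84) (nat_lit 24494813637) (nat_lit 0) (nat_lit 1762627527) (nat_lit 168) (nat_lit 24494813637) (nat_lit 17) (nat_lit 1) (nat_lit 16) (nat_lit 1) (nat_lit 18) (nat_lit 1) (nat_lit 152) (nat_lit 321) (nat_lit 247)) (XT.lf (nat_lit 168) (nat_lit 32642326138) (nat_lit 0) (nat_lit 8635391726) (nat_lit 84) (nat_lit 8635391726) (nat_lit 17) (nat_lit 1) (nat_lit 15) (nat_lit 1) (nat_lit 16) (nat_lit 1) (nat_lit 153) (nat_lit 321) (nat_lit 246))) (XT.nd (nat_lit 94) (nat_lit 84) (nat_lit 0) (XT.lf (nat_lit 0) (nat_lit 8269173906) (nat_lit 0) (nat_lit 32550093953) (nat_lit 168) (nat_lit 8269173906) (nat_lit 15) (nat_lit 3) (nat_lit 15) (nat_lit 1) (nat_lit 17) (nat_lit 1)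 (nat_lit 154) (nat_lit 321) (nat_lit 245)) (XT.lf (nat_lit 84) (nat_lit 676224082) (nat_lit 0) (nat_lit 23800909841) (nat_lit 84) (nat_lit 23800909841) (nat_lit 15) (nat_lit 3) (nat_lit 14) (nat_lit 1) (nat_lit 15) (nat_lit 1) (nat_lit 155) (nat_lit 321) (nat_lit 244))))) (XT.nd (nat_lit 282) (nat_lit 420) (nat_lit 0) (XT.nd (nat_lit 94) (nat_lit 84) (nat_lit 0) (XT.lf (nat_lit 168) (nat_lit 33274253586) (nat_lit 0) (nat_lit 7104358144) (nat_lit 84) (nat_lit 7104358144) (nat_lit 14) (nat_lit 1) (nat_lit 12) (nat_lit 1) (nat_lit 13) (nat_lit 1) (nat_lit 156) (nat_lit 321) (nat_lit 243)) (XT.nd (nat_lit 94) (nat_lit 84) (nat_lit 0) (XT.lf (nat_lit 0) (nat_lit 8907768555) (nat_lit 0) (nat_lit 28883741568) (nat_lit 168) (nat_lit 8907768555) (nat_lit 12) (nat_lit 3) (nat_lit 12) (nat_lit 1) (nat_lit 14) (nat_lit 1) (nat_lit 157) (nat_lit 321) (nat_lit 242)) (XT.lf (nat_lit 84)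 (nat_lit 2627083190) (nat_lit 0) (nat_lit 21651819393) (nat_lit 84) (nat_lit 21651819393) (nat_lit 12) (nat_lit 3) (nat_lit 11) (nat_lit 1) (nat_lit 12) (nat_lit 1) (nat_lit 158) (nat_lit 321) (nat_lit 241)))) (XT.nd (nat_lit 188) (nat_lit 252) (nat_lit 0) (XT.nd (nat_lit 94) (nat_lit 0) (nat_lit 0) (XT.lf (nat_lit 168) (nat_lit 33488459429) (nat_lit 0) (nat_lit 5844773026) (nat_lit 84) (nat_lit 5844773026) (nat_lit 11) (nat_lit 1) (nat_lit 9) (nat_lit 1) (nat_lit 10) (nat_lit 1) (nat_lit 159) (nat_lit 321) (nat_lit 240)) (XT.lf (nat_lit 0) (nat_lit 9332918204) (nat_lit 0) (nat_lit 25767200638) (nat_lit 168) (nat_lit 9332918204) (nat_lit 9) (nat_lit 3) (nat_lit 9) (nat_lit 1) (nat_lit 11) (nat_lit 1) (nat_lit 160) (nat_lit 321) (nat_lit 239))) (XT.nd (nat_lit 94) (nat_lit 168) (nat_lit 0) (XT.lf (nat_lit 84) (nat_lit 4133452570) (nat_lit 0) (nat_lit 19785150126) (nat_lit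 84) (nat_lit 19785150126) (nat_lit 9) (nat_lit 3) (nat_lit 8) (nat_lit 1) (nat_lit 9) (nat_lit 1) (nat_lit 161) (nat_lit 321) (nat_lit 238)) (XT.lf (nat_lit 168) (nat_lit 33373560979) (nat_lit 0) (nat_lit 4808509233) (nat_lit 84) (nat_lit 4808509233) (nat_lit 8) (nat_lit 1) (nat_lit 6) (nat_lit 1) (nat_lit 7) (nat_lit 1) (nat_lit 162) (nat_lit 321) (nat_lit 237))))))) (XT.nd (nat_lit 6298) (nat_lit 0) (nat_lit 0) (XT.nd (nat_lit 564) (nat_lit 0) (nat_lit 0) (XT.nd (nat_lit 282) (nat_lit 252) (nat_lit 0) (XT.nd (nat_lit 94) (nat_lit 252) (nat_lit 0) (XT.lf (nat_lit 0) (nat_lit 9587238684) (nat_lit 0) (nat_lit 23107763514) (nat_lit 168) (nat_lit 9587238684) (nat_lit 6) (nat_lit 3) (nat_lit 6) (nat_lit 1) (nat_lit 8) (nat_lit 1) (nat_lit 163) (nat_lit 321) (nat_lit 236)) (XT.nd (nat_lit 94) (nat_lit 168) (nat_lit 0) (XT.lf (nat_lit 84) (nat_lit 5278834733) (nat_lit 0) (nat_lit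 18155525047) (nat_lit 84) (nat_lit 18155525047) (nat_lit 6) (nat_lit 3) (nat_lit 5) (nat_lit 1) (nat_lit 6) (nat_lit 1) (nat_lit 164) (nat_lit 321) (nat_lit 235)) (XT.lf (nat_lit 168) (nat_lit 33001770763) (nat_lit 0) (nat_lit 3955972446) (nat_lit 84) (nat_lit 3955972446) (nat_lit 5) (nat_lit 1) (nat_lit 3) (nat_lit 1) (nat_lit 4) (nat_lit 1) (nat_lit 165) (nat_lit 321) (nat_lit 234)))) (XT.nd (nat_lit 94) (nat_lit 252) (nat_lit 0) (XT.lf (nat_lit 0) (nat_lit 9705562878) (nat_lit 0) (nat_lit 20828932116) (nat_lit 168) (nat_lit 9705562878) (nat_lit 3) (nat_lit 3) (nat_lit 3) (nat_lit 1) (nat_lit 5) (nat_lit 1) (nat_lit 166) (nat_lit 321) (nat_lit 233)) (XT.nd (nat_lit 94) (nat_lit 168) (nat_lit 0) (XT.lf (nat_lit 84) (nat_lit 6131703803) (nat_lit 0) (nat_lit 16725388791) (nat_lit 84) (nat_lit 16725388791) (nat_lit 3) (nat_lit 3) (nat_lit 2) (nat_lit 1) (nat_lit 3) (nat_lit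 1) (nat_lit 167) (nat_lit 321) (nat_lit 232)) (XT.lf (nat_lit 0) (nat_lit 56569145290) (nat_lit 0) (nat_lit 0) (nat_lit 0) (nat_lit 0) (nat_lit 0) (nat_lit 0) (nat_lit 1) (nat_lit 0) (nat_lit 1) (nat_lit 0) (nat_lit 168) (nat_lit 321) (nat_lit 231))))) (XT.nd (nat_lit 282) (nat_lit 0) (nat_lit 0) (XT.nd (nat_lit 94) (nat_lit 0) (nat_lit 0) (XT.lf (nat_lit 0) (nat_lit 56536186073) (nat_lit 0) (nat_lit 0) (nat_lit 0) (nat_lit 0) (nat_lit 0) (nat_lit 0) (nat_lit 1) (nat_lit 0) (nat_lit 1) (nat_lit 0) (nat_lit 169) (nat_lit 321) (nat_lit 230)) (XT.nd (nat_lit 94) (nat_lit 0) (nat_lit 0) (XT.lf (nat_lit 0) (nat_lit 56504796343) (nat_lit 0) (nat_lit 0) (nat_lit 0) (nat_lit 0) (nat_lit 0) (nat_lit 0) (nat_lit 1) (nat_lit 0) (nat_lit 1) (nat_lit 0) (nat_lit 170) (nat_lit 321) (nat_lit 229)) (XT.lf (nat_lit 0) (nat_lit 56474901362) (nat_lit 0) (nat_lit 0) (nat_lit 0) (nat_lit 0)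 (nat_lit 0) (nat_lit 0) (nat_lit 1) (nat_lit 0) (nat_lit 1) (nat_lit 0) (nat_lit 171) (nat_lit 321) (nat_lit 228)))) (XT.nd (nat_lit 5264) (nat_lit 0) (nat_lit 0) (XT.nd (nat_lit 5170) (nat_lit 0) (nat_lit 0) (XT.lf (nat_lit 0) (nat_lit 56446429951) (nat_lit 0) (nat_lit 0) (nat_lit 0) (nat_lit 0) (nat_lit 0) (nat_lit 0) (nat_lit 1) (nat_lit 0) (nat_lit 1) (nat_lit 0) (nat_lit 172) (nat_lit 321) (nat_lit 227)) (XT.lf (nat_lit 0) (nat_lit 55915908718) (nat_lit 0) (nat_lit 0) (nat_lit 0) (nat_lit 0) (nat_lit 0) (nat_lit 0) (nat_lit 1) (nat_lit 0) (nat_lit 1) (nat_lit 0) (nat_lit 227) (nat_lit 321) (nat_lit 172))) (XT.nd (nat_lit 94) (nat_lit 0) (nat_lit 0) (XT.lf (nat_lit 0) (nat_lit 55914056004) (nat_lit 0) (nat_lit 0) (nat_lit 0) (nat_lit 0) (nat_lit 0) (nat_lit 0) (nat_lit 1) (nat_lit 0) (nat_lit 1) (nat_lit 0) (nat_lit 228) (nat_lit 321) (nat_lit 171)) (XT.lf (nat_lit 0)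 (nat_lit 55912291515) (nat_lit 0) (nat_lit 0) (nat_lit 0) (nat_lit 0) (nat_lit 0) (nat_lit 0) (nat_lit 1) (nat_lit 0) (nat_lit 1) (nat_lit 0) (nat_lit 229) (nat_lit 321) (nat_lit 170)))))) (XT.nd (nat_lit 658) (nat_lit 0) (nat_lit 0) (XT.nd (nat_lit 282) (nat_lit 0) (nat_lit 0) (XT.nd (nat_lit 94) (nat_lit 0) (nat_lit 0) (XT.lf (nat_lit 0) (nat_lit 55910611050) (nat_lit 0) (nat_lit 0) (nat_lit 0) (nat_lit 0) (nat_lit 0) (nat_lit 0) (nat_lit 1) (nat_lit 0) (nat_lit 1) (nat_lit 0) (nat_lit 230) (nat_lit 321) (nat_lit 169)) (XT.nd (nat_lit 94) (nat_lit 0) (nat_lit 0) (XT.lf (nat_lit 0) (nat_lit 55909010606) (nat_lit 0) (nat_lit 0) (nat_lit 0) (nat_lit 0) (nat_lit 0) (nat_lit 0) (nat_lit 1) (nat_lit 0) (nat_lit 1) (nat_lit 0) (nat_lit 231) (nat_lit 321) (nat_lit 168)) (XT.lf (nat_lit 0) (nat_lit 55907486374) (nat_lit 0) (nat_lit 0) (nat_lit 0) (nat_lit 0) (nat_lit 0) (nat_lit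 0) (nat_lit 1) (nat_lit 0) (nat_lit 1) (nat_lit 0) (nat_lit 232) (nat_lit 321) (nat_lit 167)))) (XT.nd (nat_lit 188) (nat_lit 0) (nat_lit 0) (XT.nd (nat_lit 94) (nat_lit 0) (nat_lit 0) (XT.lf (nat_lit 0) (nat_lit 55906034725) (nat_lit 0) (nat_lit 0) (nat_lit 0) (nat_lit 0) (nat_lit 0) (nat_lit 0) (nat_lit 1) (nat_lit 0) (nat_lit 1) (nat_lit 0) (nat_lit 233) (nat_lit 321) (nat_lit 166)) (XT.lf (nat_lit 0) (nat_lit 55904652202) (nat_lit 0) (nat_lit 0) (nat_lit 0) (nat_lit 0) (nat_lit 0) (nat_lit 0) (nat_lit 1) (nat_lit 0) (nat_lit 1) (nat_lit 0) (nat_lit 234) (nat_lit 321) (nat_lit 165))) (XT.nd (nat_lit 94) (nat_lit 0) (nat_lit 0) (XT.lf (nat_lit 0) (nat_lit 55903335513) (nat_lit 0) (nat_lit 0) (nat_lit 0) (nat_lit 0) (nat_lit 0) (nat_lit 0) (nat_lit 1) (nat_lit 0) (nat_lit 1) (nat_lit 0) (nat_lit 235) (nat_lit 321) (nat_lit 164)) (XT.lf (nat_lit 0) (nat_lit 55902081524)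 (nat_lit 0) (nat_lit 0) (nat_lit 0) (nat_lit 0) (nat_lit 0) (nat_lit 0) (nat_lit 1) (nat_lit 0) (nat_lit 1) (nat_lit 0) (nat_lit 236) (nat_lit 321) (nat_lit 163))))) (XT.nd (nat_lit 282) (nat_lit 0) (nat_lit 0) (XT.nd (nat_lit 94) (nat_lit 0) (nat_lit 0) (XT.lf (nat_lit 0) (nat_lit 55900887248) (nat_lit 0) (nat_lit 0) (nat_lit 0) (nat_lit 0) (nat_lit 0) (nat_lit 0) (nat_lit 1) (nat_lit 0) (nat_lit 1) (nat_lit 0) (nat_lit 237) (nat_lit 321) (nat_lit 162)) (XT.nd (nat_lit 94) (nat_lit 0) (nat_lit 0) (XT.lf (nat_lit 0) (nat_lit 55899749843) (nat_lit 0) (nat_lit 0) (nat_lit 0) (nat_lit 0) (nat_lit 0) (nat_lit 0) (nat_lit 1) (nat_lit 0) (nat_lit 1) (nat_lit 0) (nat_lit 238) (nat_lit 321) (nat_lit 161)) (XT.lf (nat_lit 0) (nat_lit 55898666600) (nat_lit 0) (nat_lit 0) (nat_lit 0) (nat_lit 0) (nat_lit 0) (nat_lit 0) (nat_lit 1) (nat_lit 0) (nat_lit 1) (nat_lit 0) (nat_lit 239) (nat_lit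 321) (nat_lit 160)))) (XT.nd (nat_lit 188) (nat_lit 0) (nat_lit 0) (XT.nd (nat_lit 94) (nat_lit 0) (nat_lit 0) (XT.lf (nat_lit 0) (nat_lit 55897634939) (nat_lit 0) (nat_lit 0) (nat_lit 0) (nat_lit 0) (nat_lit 0) (nat_lit 0) (nat_lit 1) (nat_lit 0) (nat_lit 1) (nat_lit 0) (nat_lit 240) (nat_lit 321) (nat_lit 159)) (XT.lf (nat_lit 0) (nat_lit 55896652406) (nat_lit 0) (nat_lit 0) (nat_lit 0) (nat_lit 0) (nat_lit 0) (nat_lit 0) (nat_lit 1) (nat_lit 0) (nat_lit 1) (nat_lit 0) (nat_lit 241) (nat_lit 321) (nat_lit 158))) (XT.nd (nat_lit 94) (nat_lit 0) (nat_lit 0) (XT.lf (nat_lit 0) (nat_lit 55895716660) (nat_lit 0) (nat_lit 0) (nat_lit 0) (nat_lit 0) (nat_lit 0) (nat_lit 0) (nat_lit 1) (nat_lit 0) (nat_lit 1) (nat_lit 0) (nat_lit 242) (nat_lit 321) (nat_lit 157)) (XT.lf (nat_lit 0) (nat_lit 55894825473) (nat_lit 0) (nat_lit 0) (nat_lit 0) (nat_lit 0) (nat_lit 0) (nat_lit 0) (nat_lit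 1) (nat_lit 0) (nat_lit 1) (nat_lit 0) (nat_lit 243) (nat_lit 321) (nat_lit 156))))))))
noncomputable def ec247 : XT := (XT.nd (nat_lit 29422) (nat_lit 0) (nat_lit 504) (XT.nd (nat_lit 1222) (nat_lit 0) (nat_lit 0) (XT.nd (nat_lit 564) (nat_lit 0) (nat_lit 0) (XT.nd (nat_lit 282) (nat_lit 0) (nat_lit 0) (XT.nd (nat_lit 94) (nat_lit 0) (nat_lit 0) (XT.lf (nat_lit 0) (nat_lit 55893976724) (nat_lit 0) (nat_lit 0) (nat_lit 0) (nat_lit 0) (nat_lit 0) (nat_lit 0) (nat_lit 1) (nat_lit 0) (nat_lit 1) (nat_lit 0) (nat_lit 244) (nat_lit 321) (nat_lit 155)) (XT.nd (nat_lit 94) (nat_lit 0) (nat_lit 0) (XT.lf (nat_lit 0) (nat_lit 55893168391) (nat_lit 0) (nat_lit 0) (nat_lit 0) (nat_lit 0) (nat_lit 0) (nat_lit 0) (nat_lit 1) (nat_lit 0) (nat_lit 1) (nat_lit 0) (nat_lit 245) (nat_lit 321) (nat_lit 154)) (XT.lf (nat_lit 0) (nat_lit 55892398550) (nat_lit 0) (nat_lit 0) (nat_lit 0) (nat_lit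 0) (nat_lit 0) (nat_lit 0) (nat_lit 1) (nat_lit 0) (nat_lit 1) (nat_lit 0) (nat_lit 246) (nat_lit 321) (nat_lit 153)))) (XT.nd (nat_lit 94) (nat_lit 0) (nat_lit 0) (XT.lf (nat_lit 0) (nat_lit 55891665369) (nat_lit 0) (nat_lit 0) (nat_lit 0) (nat_lit 0) (nat_lit 0) (nat_lit 0) (nat_lit 1) (nat_lit 0) (nat_lit 1) (nat_lit 0) (nat_lit 247) (nat_lit 321) (nat_lit 152)) (XT.nd (nat_lit 94) (nat_lit 0) (nat_lit 0) (XT.lf (nat_lit 0) (nat_lit 55890967100) (nat_lit 0) (nat_lit 0) (nat_lit 0) (nat_lit 0) (nat_lit 0) (nat_lit 0) (nat_lit 1) (nat_lit 0) (nat_lit 1) (nat_lit 0) (nat_lit 248) (nat_lit 321) (nat_lit 151)) (XT.lf (nat_lit 0) (nat_lit 55890302083) (nat_lit 0) (nat_lit 0) (nat_lit 0) (nat_lit 0) (nat_lit 0) (nat_lit 0) (nat_lit 1) (nat_lit 0) (nat_lit 1) (nat_lit 0) (nat_lit 249) (nat_lit 321) (nat_lit 150))))) (XT.nd (nat_lit 282) (nat_lit 0) (nat_lit 0) (XT.nd (nat_lit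 94) (nat_lit 0) (nat_lit 0) (XT.lf (nat_lit 0) (nat_lit 55889668733) (nat_lit 0) (nat_lit 0) (nat_lit 0) (nat_lit 0) (nat_lit 0) (nat_lit 0) (nat_lit 1) (nat_lit 0) (nat_lit 1) (nat_lit 0) (nat_lit 250) (nat_lit 321) (nat_lit 149)) (XT.nd (nat_lit 94) (nat_lit 0) (nat_lit 0) (XT.lf (nat_lit 0) (nat_lit 55889065543) (nat_lit 0) (nat_lit 0) (nat_lit 0) (nat_lit 0) (nat_lit 0) (nat_lit 0) (nat_lit 1) (nat_lit 0) (nat_lit 1) (nat_lit 0) (nat_lit 251) (nat_lit 321) (nat_lit 148)) (XT.lf (nat_lit 0) (nat_lit 55888491076) (nat_lit 0) (nat_lit 0) (nat_lit 0) (nat_lit 0) (nat_lit 0) (nat_lit 0) (nat_lit 1) (nat_lit 0) (nat_lit 1) (nat_lit 0) (nat_lit 252) (nat_lit 321) (nat_lit 147)))) (XT.nd (nat_lit 188) (nat_lit 0) (nat_lit 0) (XT.nd (nat_lit 94) (nat_lit 0) (nat_lit 0) (XT.lf (nat_lit 0) (nat_lit 55887943965) (nat_lit 0) (nat_lit 0) (nat_lit 0) (nat_lit 0) (nat_lit 0) (nat_lit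 0) (nat_lit 1) (nat_lit 0) (nat_lit 1) (nat_lit 0) (nat_lit 253) (nat_lit 321) (nat_lit 146)) (XT.lf (nat_lit 0) (nat_lit 55887422906) (nat_lit 0) (nat_lit 0) (nat_lit 0) (nat_lit 0) (nat_lit 0) (nat_lit 0) (nat_lit 1) (nat_lit 0) (nat_lit 1) (nat_lit 0) (nat_lit 254) (nat_lit 321) (nat_lit 145))) (XT.nd (nat_lit 94) (nat_lit 0) (nat_lit 0) (XT.lf (nat_lit 0) (nat_lit 55886926660) (nat_lit 0) (nat_lit 0) (nat_lit 0) (nat_lit 0) (nat_lit 0) (nat_lit 0) (nat_lit 1) (nat_lit 0) (nat_lit 1) (nat_lit 0) (nat_lit 255) (nat_lit 321) (nat_lit 144)) (XT.lf (nat_lit 0) (nat_lit 55886454045) (nat_lit 0) (nat_lit 0) (nat_lit 0) (nat_lit 0) (nat_lit 0) (nat_lit 0) (nat_lit 1) (nat_lit 0) (nat_lit 1) (nat_lit 0) (nat_lit 256) (nat_lit 321) (nat_lit 143)))))) (XT.nd (nat_lit 5828) (nat_lit 0) (nat_lit 0) (XT.nd (nat_lit 282) (nat_lit 0) (nat_lit 0) (XT.nd (nat_lit 94) (nat_lit 0) (nat_lit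 0) (XT.lf (nat_lit 0) (nat_lit 55886003935) (nat_lit 0) (nat_lit 0) (nat_lit 0) (nat_lit 0) (nat_lit 0) (nat_lit 0) (nat_lit 1) (nat_lit 0) (nat_lit 1) (nat_lit 0) (nat_lit 257) (nat_lit 321) (nat_lit 142)) (XT.nd (nat_lit 94) (nat_lit 0) (nat_lit 0) (XT.lf (nat_lit 0) (nat_lit 55885575259) (nat_lit 0) (nat_lit 0) (nat_lit 0) (nat_lit 0) (nat_lit 0) (nat_lit 0) (nat_lit 1) (nat_lit 0) (nat_lit 1) (nat_lit 0) (nat_lit 258) (nat_lit 321) (nat_lit 141)) (XT.lf (nat_lit 0) (nat_lit 55885166996) (nat_lit 0) (nat_lit 0) (nat_lit 0) (nat_lit 0) (nat_lit 0) (nat_lit 0) (nat_lit 1) (nat_lit 0) (nat_lit 1) (nat_lit 0) (nat_lit 259) (nat_lit 321) (nat_lit 140)))) (XT.nd (nat_lit 5358) (nat_lit 0) (nat_lit 0) (XT.nd (nat_lit 5264) (nat_lit 0) (nat_lit 0) (XT.lf (nat_lit 0) (nat_lit 55884778174) (nat_lit 0) (nat_lit 0) (nat_lit 0) (nat_lit 0) (nat_lit 0) (nat_lit 0) (nat_lit 1) (nat_lit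 0) (nat_lit 1) (nat_lit 0) (nat_lit 260) (nat_lit 321) (nat_lit 139)) (XT.lf (nat_lit 0) (nat_lit 55877507771) (nat_lit 0) (nat_lit 0) (nat_lit 0) (nat_lit 0) (nat_lit 0) (nat_lit 0) (nat_lit 1) (nat_lit 0) (nat_lit 1) (nat_lit 0) (nat_lit 316) (nat_lit 321) (nat_lit 83))) (XT.nd (nat_lit 94) (nat_lit 0) (nat_lit 0) (XT.lf (nat_lit 0) (nat_lit 55877483674) (nat_lit 0) (nat_lit 0) (nat_lit 0) (nat_lit 0) (nat_lit 0) (nat_lit 0) (nat_lit 1) (nat_lit 0) (nat_lit 1) (nat_lit 0) (nat_lit 317) (nat_lit 321) (nat_lit 82)) (XT.lf (nat_lit 0) (nat_lit 55877460725) (nat_lit 0) (nat_lit 0) (nat_lit 0) (nat_lit 0) (nat_lit 0) (nat_lit 0) (nat_lit 1) (nat_lit 0) (nat_lit 1) (nat_lit 0) (nat_lit 318) (nat_lit 321) (nat_lit 81))))) (XT.nd (nat_lit 282) (nat_lit 0) (nat_lit 0) (XT.nd (nat_lit 94) (nat_lit 0) (nat_lit 0) (XT.lf (nat_lit 0) (nat_lit 55877438868) (nat_lit 0) (nat_lit 0) (nat_lit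 0) (nat_lit 0) (nat_lit 0) (nat_lit 0) (nat_lit 1) (nat_lit 0) (nat_lit 1) (nat_lit 0) (nat_lit 319) (nat_lit 321) (nat_lit 80)) (XT.nd (nat_lit 94) (nat_lit 0) (nat_lit 0) (XT.lf (nat_lit 0) (nat_lit 55877418052) (nat_lit 0) (nat_lit 0) (nat_lit 0) (nat_lit 0) (nat_lit 0) (nat_lit 0) (nat_lit 1) (nat_lit 0) (nat_lit 1) (nat_lit 0) (nat_lit 320) (nat_lit 321) (nat_lit 79)) (XT.lf (nat_lit 0) (nat_lit 55877398228) (nat_lit 0) (nat_lit 0) (nat_lit 0) (nat_lit 0) (nat_lit 0) (nat_lit 0) (nat_lit 1) (nat_lit 0) (nat_lit 1) (nat_lit 0) (nat_lit 321) (nat_lit 321) (nat_lit 78)))) (XT.nd (nat_lit 188) (nat_lit 0) (nat_lit 0) (XT.nd (nat_lit 94) (nat_lit 0) (nat_lit 0) (XT.lf (nat_lit 0) (nat_lit 55877379347) (nat_lit 0) (nat_lit 0) (nat_lit 0) (nat_lit 0) (nat_lit 0) (nat_lit 0) (nat_lit 1) (nat_lit 0) (nat_lit 1) (nat_lit 0) (nat_lit 322) (nat_lit 321) (nat_lit 77)) (XT.lf (nat_lit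 0) (nat_lit 55877361366) (nat_lit 0) (nat_lit 0) (nat_lit 0) (nat_lit 0) (nat_lit 0) (nat_lit 0) (nat_lit 1) (nat_lit 0) (nat_lit 1) (nat_lit 0) (nat_lit 323) (nat_lit 321) (nat_lit 76))) (XT.nd (nat_lit 94) (nat_lit 0) (nat_lit 0) (XT.lf (nat_lit 0) (nat_lit 55877344241) (nat_lit 0) (nat_lit 0) (nat_lit 0) (nat_lit 0) (nat_lit 0) (nat_lit 0) (nat_lit 1) (nat_lit 0) (nat_lit 1) (nat_lit 0) (nat_lit 324) (nat_lit 321) (nat_lit 75)) (XT.lf (nat_lit 0) (nat_lit 55877327931) (nat_lit 0) (nat_lit 0) (nat_lit 0) (nat_lit 0) (nat_lit 0) (nat_lit 0) (nat_lit 1) (nat_lit 0) (nat_lit 1) (nat_lit 0) (nat_lit 325) (nat_lit 321) (nat_lit 74))))))) (XT.nd (nat_lit 6768) (nat_lit 1092) (nat_lit 0) (XT.nd (nat_lit 6110) (nat_lit 672) (nat_lit 0) (XT.nd (nat_lit 282) (nat_lit 8484) (nat_lit 0) (XT.nd (nat_lit 94) (nat_lit 0) (nat_lit 0) (XT.lf (nat_lit 924) (nat_lit 29361091922) (nat_lit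 0) (nat_lit 52130551218) (nat_lit 924) (nat_lit 29361091922) (nat_lit 139) (nat_lit 1) (nat_lit 128) (nat_lit 0) (nat_lit 139) (nat_lit 0) (nat_lit 76) (nat_lit 322) (nat_lit 322)) (XT.nd (nat_lit 94) (nat_lit 0) (nat_lit 84) (XT.lf (nat_lit 924) (nat_lit 113807257877) (nat_lit 84) (nat_lit 51289735876) (nat_lit 0) (nat_lit 51289735876) (nat_lit 139) (nat_lit 1) (nat_lit 129) (nat_lit 1) (nat_lit 128) (nat_lit 0) (nat_lit 77) (nat_lit 322) (nat_lit 321)) (XT.lf (nat_lit 924) (nat_lit 54238825509) (nat_lit 0) (nat_lit 102754768959) (nat_lit 840) (nat_lit 54238825509) (nat_lit 140) (nat_lit 1) (nat_lit 129) (nat_lit 1) (nat_lit 139) (nat_lit 1) (nat_lit 78) (nat_lit 322) (nat_lit 320)))) (XT.nd (nat_lit 188) (nat_lit 8568) (nat_lit 0) (XT.nd (nat_lit 94) (nat_lit 0) (nat_lit 84) (XT.lf (nat_lit 924) (nat_lit 101744499981) (nat_lit 84) (nat_lit 52250066475) (nat_lit 0) (nat_lit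 52250066475) (nat_lit 140) (nat_lit 1) (nat_lit 130) (nat_lit 1) (nat_lit 129) (nat_lit 1) (nat_lit 79) (nat_lit 322) (nat_lit 319)) (XT.lf (nat_lit 924) (nat_lit 46832016280) (nat_lit 0) (nat_lit 107750901154) (nat_lit 840) (nat_lit 46832016280) (nat_lit 141) (nat_lit 1) (nat_lit 130) (nat_lit 1) (nat_lit 140) (nat_lit 1) (nat_lit 80) (nat_lit 322) (nat_lit 318))) (XT.nd (nat_lit 5546) (nat_lit 8652) (nat_lit 0) (XT.lf (nat_lit 924) (nat_lit 84230431541) (nat_lit 84) (nat_lit 56251015321) (nat_lit 0) (nat_lit 56251015321) (nat_lit 141) (nat_lit 1) (nat_lit 131) (nat_lit 1) (nat_lit 130) (nat_lit 1) (nat_lit 81) (nat_lit 322) (nat_lit 317)) (XT.lf (nat_lit 0) (nat_lit 2467557162) (nat_lit 0) (nat_lit 58119870683) (nat_lit 168) (nat_lit 2467557162) (nat_lit 27) (nat_lit 3) (nat_lit 27) (nat_lit 1) (nat_lit 29) (nat_lit 1) (nat_lit 140) (nat_lit 322) (nat_lit 258))))) (XT.nd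 (nat_lit 282) (nat_lit 420) (nat_lit 0) (XT.nd (nat_lit 94) (nat_lit 84) (nat_lit 0) (XT.lf (nat_lit 84) (nat_lit 23891784707) (nat_lit 0) (nat_lit 14200204217) (nat_lit 168) (nat_lit 23891784707) (nat_lit 26) (nat_lit 1) (nat_lit 25) (nat_lit 1) (nat_lit 27) (nat_lit 1) (nat_lit 141) (nat_lit 322) (nat_lit 257)) (XT.nd (nat_lit 94) (nat_lit 0) (nat_lit 0) (XT.lf (nat_lit 168) (nat_lit 28378627535) (nat_lit 0) (nat_lit 16283319002) (nat_lit 84) (nat_lit 16283319002) (nat_lit 26) (nat_lit 1) (nat_lit 24) (nat_lit 1) (nat_lit 25) (nat_lit 1) (nat_lit 142) (nat_lit 322) (nat_lit 256)) (XT.lf (nat_lit 0) (nat_lit 4716253552) (nat_lit 0) (nat_lit 50501549614) (nat_lit 168) (nat_lit 4716253552) (nat_lit 24) (nat_lit 3) (nat_lit 24) (nat_lit 1) (nat_lit 26) (nat_lit 1) (nat_lit 143) (nat_lit 322) (nat_lit 255)))) (XT.nd (nat_lit 188) (nat_lit 168) (nat_lit 0) (XT.nd (nat_lit 94)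 (nat_lit 84) (nat_lit 0) (XT.lf (nat_lit 84) (nat_lit 24900293020) (nat_lit 0) (nat_lit 9124268706) (nat_lit 168) (nat_lit 24900293020) (nat_lit 23) (nat_lit 1) (nat_lit 22) (nat_lit 1) (nat_lit 24) (nat_lit 1) (nat_lit 144) (nat_lit 322) (nat_lit 254)) (XT.lf (nat_lit 168) (nat_lit 31149904165) (nat_lit 0) (nat_lit 13396326841) (nat_lit 84) (nat_lit 13396326841) (nat_lit 23) (nat_lit 1) (nat_lit 21) (nat_lit 1) (nat_lit 22) (nat_lit 1) (nat_lit 145) (nat_lit 322) (nat_lit 253))) (XT.nd (nat_lit 94) (nat_lit 168) (nat_lit 0) (XT.lf (nat_lit 0) (nat_lit 6438347915) (nat_lit 0) (nat_lit 44106024294) (nat_lit 168) (nat_lit 6438347915) (nat_lit 21) (nat_lit 3) (nat_lit 21) (nat_lit 1) (nat_lit 23) (nat_lit 1) (nat_lit 146) (nat_lit 322) (nat_lit 252)) (XT.lf (nat_lit 84) (nat_lit 25480258990) (nat_lit 0) (nat_lit 5070106591) (nat_lit 168) (nat_lit 25480258990) (nat_lit 20) (nat_lit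 1) (nat_lit 19) (nat_lit 1) (nat_lit 21) (nat_lit 1) (nat_lit 147) (nat_lit 322) (nat_lit 251)))))) (XT.nd (nat_lit 658) (nat_lit 504) (nat_lit 0) (XT.nd (nat_lit 282) (nat_lit 336) (nat_lit 0) (XT.nd (nat_lit 94) (nat_lit 168) (nat_lit 0) (XT.lf (nat_lit 168) (nat_lit 33058281398) (nat_lit 0) (nat_lit 11021191245) (nat_lit 84) (nat_lit 11021191245) (nat_lit 20) (nat_lit 1) (nat_lit 18) (nat_lit 1) (nat_lit 19) (nat_lit 1) (nat_lit 148) (nat_lit 322) (nat_lit 250)) (XT.nd (nat_lit 94) (nat_lit 168) (nat_lit 0) (XT.lf (nat_lit 0) (nat_lit 7733296617) (nat_lit 0) (nat_lit 38722587193) (nat_lit 168) (nat_lit 7733296617) (nat_lit 18) (nat_lit 3) (nat_lit 18) (nat_lit 1) (nat_lit 20) (nat_lit 1) (nat_lit 149) (nat_lit 322) (nat_lit 249)) (XT.lf (nat_lit 84) (nat_lit 25719554319) (nat_lit 0) (nat_lit 1850758904) (nat_lit 168) (nat_lit 25719554319) (nat_lit 17) (nat_lit 1) (nat_lit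 16) (nat_lit 1) (nat_lit 18) (nat_lit 1) (nat_lit 150) (nat_lit 322) (nat_lit 248)))) (XT.nd (nat_lit 188) (nat_lit 252) (nat_lit 0) (XT.nd (nat_lit 94) (nat_lit 0) (nat_lit 0) (XT.lf (nat_lit 168) (nat_lit 34274442445) (nat_lit 0) (nat_lit 9067161312) (nat_lit 84) (nat_lit 9067161312) (nat_lit 17) (nat_lit 1) (nat_lit 15) (nat_lit 1) (nat_lit 16) (nat_lit 1) (nat_lit 151) (nat_lit 322) (nat_lit 247)) (XT.lf (nat_lit 0) (nat_lit 8682632601) (nat_lit 0) (nat_lit 34177598651) (nat_lit 168) (nat_lit 8682632601) (nat_lit 15) (nat_lit 3) (nat_lit 15) (nat_lit 1) (nat_lit 17) (nat_lit 1) (nat_lit 152) (nat_lit 322) (nat_lit 246))) (XT.nd (nat_lit 94) (nat_lit 168) (nat_lit 0) (XT.lf (nat_lit 84) (nat_lit 710035286) (nat_lit 0) (nat_lit 24990955333) (nat_lit 84) (nat_lit 24990955333) (nat_lit 15) (nat_lit 3) (nat_lit 14) (nat_lit 1) (nat_lit 15) (nat_lit 1) (nat_lit 153) (nat_lit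 322) (nat_lit 245)) (XT.lf (nat_lit 168) (nat_lit 34937966266) (nat_lit 0) (nat_lit 7459576051) (nat_lit 84) (nat_lit 7459576051) (nat_lit 14) (nat_lit 1) (nat_lit 12) (nat_lit 1) (nat_lit 13) (nat_lit 1) (nat_lit 154) (nat_lit 322) (nat_lit 244))))) (XT.nd (nat_lit 282) (nat_lit 252) (nat_lit 0) (XT.nd (nat_lit 94) (nat_lit 252) (nat_lit 0) (XT.lf (nat_lit 0) (nat_lit 9353156982) (nat_lit 0) (nat_lit 30327928646) (nat_lit 168) (nat_lit 9353156982) (nat_lit 12) (nat_lit 3) (nat_lit 12) (nat_lit 1) (nat_lit 14) (nat_lit 1) (nat_lit 155) (nat_lit 322) (nat_lit 243)) (XT.nd (nat_lit 94) (nat_lit 168) (nat_lit 0) (XT.lf (nat_lit 84) (nat_lit 2758437350) (nat_lit 0) (nat_lit 22734410362) (nat_lit 84) (nat_lit 22734410362) (nat_lit 12) (nat_lit 3) (nat_lit 11) (nat_lit 1) (nat_lit 12) (nat_lit 1) (nat_lit 156) (nat_lit 322) (nat_lit 242)) (XT.lf (nat_lit 168) (nat_lit 35162882400)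 (nat_lit 0) (nat_lit 6137011678) (nat_lit 84) (nat_lit 6137011678) (nat_lit 11) (nat_lit 1) (nat_lit 9) (nat_lit 1) (nat_lit 10) (nat_lit 1) (nat_lit 157) (nat_lit 322) (nat_lit 241)))) (XT.nd (nat_lit 188) (nat_lit 168) (nat_lit 0) (XT.nd (nat_lit 94) (nat_lit 84) (nat_lit 0) (XT.lf (nat_lit 0) (nat_lit 9799564114) (nat_lit 0) (nat_lit 27055560670) (nat_lit 168) (nat_lit 9799564114) (nat_lit 9) (nat_lit 3) (nat_lit 9) (nat_lit 1) (nat_lit 11) (nat_lit 1) (nat_lit 158) (nat_lit 322) (nat_lit 240)) (XT.lf (nat_lit 84) (nat_lit 4340125198) (nat_lit 0) (nat_lit 20774407632) (nat_lit 84) (nat_lit 20774407632) (nat_lit 9) (nat_lit 3) (nat_lit 8) (nat_lit 1) (nat_lit 9) (nat_lit 1) (nat_lit 159) (nat_lit 322) (nat_lit 239))) (XT.nd (nat_lit 94) (nat_lit 0) (nat_lit 0) (XT.lf (nat_lit 168) (nat_lit 35042239028) (nat_lit 0) (nat_lit 5048934695) (nat_lit 84) (nat_lit 5048934695)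 (nat_lit 8) (nat_lit 1) (nat_lit 6) (nat_lit 1) (nat_lit 7) (nat_lit 1) (nat_lit 160) (nat_lit 322) (nat_lit 238)) (XT.lf (nat_lit 0) (nat_lit 10066600618) (nat_lit 0) (nat_lit 24263151690) (nat_lit 168) (nat_lit 10066600618) (nat_lit 6) (nat_lit 3) (nat_lit 6) (nat_lit 1) (nat_lit 8) (nat_lit 1) (nat_lit 161) (nat_lit 322) (nat_lit 237))))))))
noncomputable def ec248 : XT := (XT.nd (nat_lit 7896) (nat_lit 0) (nat_lit 0) (XT.nd (nat_lit 6580) (nat_lit 0) (nat_lit 0) (XT.nd (nat_lit 564) (nat_lit 0) (nat_lit 0) (XT.nd (nat_lit 282) (nat_lit 252) (nat_lit 0) (XT.nd (nat_lit 94) (nat_lit 168) (nat_lit 0) (XT.lf (nat_lit 84) (nat_lit 5542776469) (nat_lit 0) (nat_lit 19063301299) (nat_lit 84) (nat_lit 19063301299) (nat_lit 6) (nat_lit 3) (nat_lit 5) (nat_lit 1) (nat_lit 6) (nat_lit 1) (nat_lit 162) (nat_lit 322) (nat_lit 236)) (XT.nd (nat_lit 94) (nat_lit 0) (nat_lit 0) (XT.lf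 (nat_lit 168) (nat_lit 34651859301) (nat_lit 0) (nat_lit 4153771069) (nat_lit 84) (nat_lit 4153771069) (nat_lit 5) (nat_lit 1) (nat_lit 3) (nat_lit 1) (nat_lit 4) (nat_lit 1) (nat_lit 163) (nat_lit 322) (nat_lit 235)) (XT.lf (nat_lit 0) (nat_lit 10190841022) (nat_lit 0) (nat_lit 21870378722) (nat_lit 168) (nat_lit 10190841022) (nat_lit 3) (nat_lit 3) (nat_lit 3) (nat_lit 1) (nat_lit 5) (nat_lit 1) (nat_lit 164) (nat_lit 322) (nat_lit 234)))) (XT.nd (nat_lit 94) (nat_lit 168) (nat_lit 0) (XT.lf (nat_lit 84) (nat_lit 6438288993) (nat_lit 0) (nat_lit 17561658231) (nat_lit 84) (nat_lit 17561658231) (nat_lit 3) (nat_lit 3) (nat_lit 2) (nat_lit 1) (nat_lit 3) (nat_lit 1) (nat_lit 165) (nat_lit 322) (nat_lit 233)) (XT.nd (nat_lit 94) (nat_lit 0) (nat_lit 0) (XT.lf (nat_lit 0) (nat_lit 59397602555) (nat_lit 0) (nat_lit 0) (nat_lit 0) (nat_lit 0) (nat_lit 0) (nat_lit 0) (nat_lit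 1) (nat_lit 0) (nat_lit 1) (nat_lit 0) (nat_lit 166) (nat_lit 322) (nat_lit 232)) (XT.lf (nat_lit 0) (nat_lit 59362995377) (nat_lit 0) (nat_lit 0) (nat_lit 0) (nat_lit 0) (nat_lit 0) (nat_lit 0) (nat_lit 1) (nat_lit 0) (nat_lit 1) (nat_lit 0) (nat_lit 167) (nat_lit 322) (nat_lit 231))))) (XT.nd (nat_lit 5640) (nat_lit 0) (nat_lit 0) (XT.nd (nat_lit 94) (nat_lit 0) (nat_lit 0) (XT.lf (nat_lit 0) (nat_lit 59330036160) (nat_lit 0) (nat_lit 0) (nat_lit 0) (nat_lit 0) (nat_lit 0) (nat_lit 0) (nat_lit 1) (nat_lit 0) (nat_lit 1) (nat_lit 0) (nat_lit 168) (nat_lit 322) (nat_lit 230)) (XT.nd (nat_lit 94) (nat_lit 0) (nat_lit 0) (XT.lf (nat_lit 0) (nat_lit 59298646430) (nat_lit 0) (nat_lit 0) (nat_lit 0) (nat_lit 0) (nat_lit 0) (nat_lit 0) (nat_lit 1) (nat_lit 0) (nat_lit 1) (nat_lit 0) (nat_lit 169) (nat_lit 322) (nat_lit 229)) (XT.lf (nat_lit 0) (nat_lit 59268751449) (nat_lit 0)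 (nat_lit 0) (nat_lit 0) (nat_lit 0) (nat_lit 0) (nat_lit 0) (nat_lit 1) (nat_lit 0) (nat_lit 1) (nat_lit 0) (nat_lit 170) (nat_lit 322) (nat_lit 228)))) (XT.nd (nat_lit 188) (nat_lit 0) (nat_lit 0) (XT.nd (nat_lit 94) (nat_lit 0) (nat_lit 0) (XT.lf (nat_lit 0) (nat_lit 58706141602) (nat_lit 0) (nat_lit 0) (nat_lit 0) (nat_lit 0) (nat_lit 0) (nat_lit 0) (nat_lit 1) (nat_lit 0) (nat_lit 1) (nat_lit 0) (nat_lit 228) (nat_lit 322) (nat_lit 170)) (XT.lf (nat_lit 0) (nat_lit 58704461137) (nat_lit 0) (nat_lit 0) (nat_lit 0) (nat_lit 0) (nat_lit 0) (nat_lit 0) (nat_lit 1) (nat_lit 0) (nat_lit 1) (nat_lit 0) (nat_lit 229) (nat_lit 322) (nat_lit 169))) (XT.nd (nat_lit 94) (nat_lit 0) (nat_lit 0) (XT.lf (nat_lit 0) (nat_lit 58702860693) (nat_lit 0) (nat_lit 0) (nat_lit 0) (nat_lit 0) (nat_lit 0) (nat_lit 0) (nat_lit 1) (nat_lit 0) (nat_lit 1) (nat_lit 0) (nat_lit 230) (nat_lit 322)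 (nat_lit 168)) (XT.lf (nat_lit 0) (nat_lit 58701336461) (nat_lit 0) (nat_lit 0) (nat_lit 0) (nat_lit 0) (nat_lit 0) (nat_lit 0) (nat_lit 1) (nat_lit 0) (nat_lit 1) (nat_lit 0) (nat_lit 231) (nat_lit 322) (nat_lit 167)))))) (XT.nd (nat_lit 658) (nat_lit 0) (nat_lit 0) (XT.nd (nat_lit 282) (nat_lit 0) (nat_lit 0) (XT.nd (nat_lit 94) (nat_lit 0) (nat_lit 0) (XT.lf (nat_lit 0) (nat_lit 58699884812) (nat_lit 0) (nat_lit 0) (nat_lit 0) (nat_lit 0) (nat_lit 0) (nat_lit 0) (nat_lit 1) (nat_lit 0) (nat_lit 1) (nat_lit 0) (nat_lit 232) (nat_lit 322) (nat_lit 166)) (XT.nd (nat_lit 94) (nat_lit 0) (nat_lit 0) (XT.lf (nat_lit 0) (nat_lit 58698502289) (nat_lit 0) (nat_lit 0) (nat_lit 0) (nat_lit 0) (nat_lit 0) (nat_lit 0) (nat_lit 1) (nat_lit 0) (nat_lit 1) (nat_lit 0) (nat_lit 233) (nat_lit 322) (nat_lit 165)) (XT.lf (nat_lit 0) (nat_lit 58697185600) (nat_lit 0) (nat_lit 0) (nat_lit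 0) (nat_lit 0) (nat_lit 0) (nat_lit 0) (nat_lit 1) (nat_lit 0) (nat_lit 1) (nat_lit 0) (nat_lit 234) (nat_lit 322) (nat_lit 164)))) (XT.nd (nat_lit 188) (nat_lit 0) (nat_lit 0) (XT.nd (nat_lit 94) (nat_lit 0) (nat_lit 0) (XT.lf (nat_lit 0) (nat_lit 58695931610) (nat_lit 0) (nat_lit 0) (nat_lit 0) (nat_lit 0) (nat_lit 0) (nat_lit 0) (nat_lit 1) (nat_lit 0) (nat_lit 1) (nat_lit 0) (nat_lit 235) (nat_lit 322) (nat_lit 163)) (XT.lf (nat_lit 0) (nat_lit 58694737335) (nat_lit 0) (nat_lit 0) (nat_lit 0) (nat_lit 0) (nat_lit 0) (nat_lit 0) (nat_lit 1) (nat_lit 0) (nat_lit 1) (nat_lit 0) (nat_lit 236) (nat_lit 322) (nat_lit 162))) (XT.nd (nat_lit 94) (nat_lit 0) (nat_lit 0) (XT.lf (nat_lit 0) (nat_lit 58693599930) (nat_lit 0) (nat_lit 0) (nat_lit 0) (nat_lit 0) (nat_lit 0) (nat_lit 0) (nat_lit 1) (nat_lit 0) (nat_lit 1) (nat_lit 0) (nat_lit 237) (nat_lit 322) (nat_lit 161)) (XT.lf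 (nat_lit 0) (nat_lit 58692516686) (nat_lit 0) (nat_lit 0) (nat_lit 0) (nat_lit 0) (nat_lit 0) (nat_lit 0) (nat_lit 1) (nat_lit 0) (nat_lit 1) (nat_lit 0) (nat_lit 238) (nat_lit 322) (nat_lit 160))))) (XT.nd (nat_lit 282) (nat_lit 0) (nat_lit 0) (XT.nd (nat_lit 94) (nat_lit 0) (nat_lit 0) (XT.lf (nat_lit 0) (nat_lit 58691485026) (nat_lit 0) (nat_lit 0) (nat_lit 0) (nat_lit 0) (nat_lit 0) (nat_lit 0) (nat_lit 1) (nat_lit 0) (nat_lit 1) (nat_lit 0) (nat_lit 239) (nat_lit 322) (nat_lit 159)) (XT.nd (nat_lit 94) (nat_lit 0) (nat_lit 0) (XT.lf (nat_lit 0) (nat_lit 58690502493) (nat_lit 0) (nat_lit 0) (nat_lit 0) (nat_lit 0) (nat_lit 0) (nat_lit 0) (nat_lit 1) (nat_lit 0) (nat_lit 1) (nat_lit 0) (nat_lit 240) (nat_lit 322) (nat_lit 158)) (XT.lf (nat_lit 0) (nat_lit 58689566747) (nat_lit 0) (nat_lit 0) (nat_lit 0) (nat_lit 0) (nat_lit 0) (nat_lit 0) (nat_lit 1) (nat_lit 0) (nat_lit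 1) (nat_lit 0) (nat_lit 241) (nat_lit 322) (nat_lit 157)))) (XT.nd (nat_lit 188) (nat_lit 0) (nat_lit 0) (XT.nd (nat_lit 94) (nat_lit 0) (nat_lit 0) (XT.lf (nat_lit 0) (nat_lit 58688675560) (nat_lit 0) (nat_lit 0) (nat_lit 0) (nat_lit 0) (nat_lit 0) (nat_lit 0) (nat_lit 1) (nat_lit 0) (nat_lit 1) (nat_lit 0) (nat_lit 242) (nat_lit 322) (nat_lit 156)) (XT.lf (nat_lit 0) (nat_lit 58687826810) (nat_lit 0) (nat_lit 0) (nat_lit 0) (nat_lit 0) (nat_lit 0) (nat_lit 0) (nat_lit 1) (nat_lit 0) (nat_lit 1) (nat_lit 0) (nat_lit 243) (nat_lit 322) (nat_lit 155))) (XT.nd (nat_lit 94) (nat_lit 0) (nat_lit 0) (XT.lf (nat_lit 0) (nat_lit 58687018478) (nat_lit 0) (nat_lit 0) (nat_lit 0) (nat_lit 0) (nat_lit 0) (nat_lit 0) (nat_lit 1) (nat_lit 0) (nat_lit 1) (nat_lit 0) (nat_lit 244) (nat_lit 322) (nat_lit 154)) (XT.lf (nat_lit 0) (nat_lit 58686248637) (nat_lit 0) (nat_lit 0) (nat_lit 0)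 (nat_lit 0) (nat_lit 0) (nat_lit 0) (nat_lit 1) (nat_lit 0) (nat_lit 1) (nat_lit 0) (nat_lit 245) (nat_lit 322) (nat_lit 153))))))) (XT.nd (nat_lit 6674) (nat_lit 0) (nat_lit 0) (XT.nd (nat_lit 564) (nat_lit 0) (nat_lit 0) (XT.nd (nat_lit 282) (nat_lit 0) (nat_lit 0) (XT.nd (nat_lit 94) (nat_lit 0) (nat_lit 0) (XT.lf (nat_lit 0) (nat_lit 58685515455) (nat_lit 0) (nat_lit 0) (nat_lit 0) (nat_lit 0) (nat_lit 0) (nat_lit 0) (nat_lit 1) (nat_lit 0) (nat_lit 1) (nat_lit 0) (nat_lit 246) (nat_lit 322) (nat_lit 152)) (XT.nd (nat_lit 94) (nat_lit 0) (nat_lit 0) (XT.lf (nat_lit 0) (nat_lit 58684817187) (nat_lit 0) (nat_lit 0) (nat_lit 0) (nat_lit 0) (nat_lit 0) (nat_lit 0) (nat_lit 1) (nat_lit 0) (nat_lit 1) (nat_lit 0) (nat_lit 247) (nat_lit 322) (nat_lit 151)) (XT.lf (nat_lit 0) (nat_lit 58684152170) (nat_lit 0) (nat_lit 0) (nat_lit 0) (nat_lit 0) (nat_lit 0) (nat_lit 0) (nat_lit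 1) (nat_lit 0) (nat_lit 1) (nat_lit 0) (nat_lit 248) (nat_lit 322) (nat_lit 150)))) (XT.nd (nat_lit 94) (nat_lit 0) (nat_lit 0) (XT.lf (nat_lit 0) (nat_lit 58683518820) (nat_lit 0) (nat_lit 0) (nat_lit 0) (nat_lit 0) (nat_lit 0) (nat_lit 0) (nat_lit 1) (nat_lit 0) (nat_lit 1) (nat_lit 0) (nat_lit 249) (nat_lit 322) (nat_lit 149)) (XT.nd (nat_lit 94) (nat_lit 0) (nat_lit 0) (XT.lf (nat_lit 0) (nat_lit 58682915630) (nat_lit 0) (nat_lit 0) (nat_lit 0) (nat_lit 0) (nat_lit 0) (nat_lit 0) (nat_lit 1) (nat_lit 0) (nat_lit 1) (nat_lit 0) (nat_lit 250) (nat_lit 322) (nat_lit 148)) (XT.lf (nat_lit 0) (nat_lit 58682341163) (nat_lit 0) (nat_lit 0) (nat_lit 0) (nat_lit 0) (nat_lit 0) (nat_lit 0) (nat_lit 1) (nat_lit 0) (nat_lit 1) (nat_lit 0) (nat_lit 251) (nat_lit 322) (nat_lit 147))))) (XT.nd (nat_lit 282) (nat_lit 0) (nat_lit 0) (XT.nd (nat_lit 94) (nat_lit 0) (nat_lit 0) (XT.lf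 (nat_lit 0) (nat_lit 58681794051) (nat_lit 0) (nat_lit 0) (nat_lit 0) (nat_lit 0) (nat_lit 0) (nat_lit 0) (nat_lit 1) (nat_lit 0) (nat_lit 1) (nat_lit 0) (nat_lit 252) (nat_lit 322) (nat_lit 146)) (XT.nd (nat_lit 94) (nat_lit 0) (nat_lit 0) (XT.lf (nat_lit 0) (nat_lit 58681272993) (nat_lit 0) (nat_lit 0) (nat_lit 0) (nat_lit 0) (nat_lit 0) (nat_lit 0) (nat_lit 1) (nat_lit 0) (nat_lit 1) (nat_lit 0) (nat_lit 253) (nat_lit 322) (nat_lit 145)) (XT.lf (nat_lit 0) (nat_lit 58680776747) (nat_lit 0) (nat_lit 0) (nat_lit 0) (nat_lit 0) (nat_lit 0) (nat_lit 0) (nat_lit 1) (nat_lit 0) (nat_lit 1) (nat_lit 0) (nat_lit 254) (nat_lit 322) (nat_lit 144)))) (XT.nd (nat_lit 188) (nat_lit 0) (nat_lit 0) (XT.nd (nat_lit 94) (nat_lit 0) (nat_lit 0) (XT.lf (nat_lit 0) (nat_lit 58680304131) (nat_lit 0) (nat_lit 0) (nat_lit 0) (nat_lit 0) (nat_lit 0) (nat_lit 0) (nat_lit 1) (nat_lit 0) (nat_lit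 1) (nat_lit 0) (nat_lit 255) (nat_lit 322) (nat_lit 143)) (XT.lf (nat_lit 0) (nat_lit 58679854022) (nat_lit 0) (nat_lit 0) (nat_lit 0) (nat_lit 0) (nat_lit 0) (nat_lit 0) (nat_lit 1) (nat_lit 0) (nat_lit 1) (nat_lit 0) (nat_lit 256) (nat_lit 322) (nat_lit 142))) (XT.nd (nat_lit 94) (nat_lit 0) (nat_lit 0) (XT.lf (nat_lit 0) (nat_lit 58679425345) (nat_lit 0) (nat_lit 0) (nat_lit 0) (nat_lit 0) (nat_lit 0) (nat_lit 0) (nat_lit 1) (nat_lit 0) (nat_lit 1) (nat_lit 0) (nat_lit 257) (nat_lit 322) (nat_lit 141)) (XT.lf (nat_lit 0) (nat_lit 58679017083) (nat_lit 0) (nat_lit 0) (nat_lit 0) (nat_lit 0) (nat_lit 0) (nat_lit 0) (nat_lit 1) (nat_lit 0) (nat_lit 1) (nat_lit 0) (nat_lit 258) (nat_lit 322) (nat_lit 140)))))) (XT.nd (nat_lit 658) (nat_lit 0) (nat_lit 0) (XT.nd (nat_lit 282) (nat_lit 0) (nat_lit 0) (XT.nd (nat_lit 94) (nat_lit 0) (nat_lit 0) (XT.lf (nat_lit 0) (nat_lit 58671310812)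 (nat_lit 0) (nat_lit 0) (nat_lit 0) (nat_lit 0) (nat_lit 0) (nat_lit 0) (nat_lit 1) (nat_lit 0) (nat_lit 1) (nat_lit 0) (nat_lit 317) (nat_lit 322) (nat_lit 81)) (XT.nd (nat_lit 94) (nat_lit 0) (nat_lit 0) (XT.lf (nat_lit 0) (nat_lit 58671288955) (nat_lit 0) (nat_lit 0) (nat_lit 0) (nat_lit 0) (nat_lit 0) (nat_lit 0) (nat_lit 1) (nat_lit 0) (nat_lit 1) (nat_lit 0) (nat_lit 318) (nat_lit 322) (nat_lit 80)) (XT.lf (nat_lit 0) (nat_lit 58671268139) (nat_lit 0) (nat_lit 0) (nat_lit 0) (nat_lit 0) (nat_lit 0) (nat_lit 0) (nat_lit 1) (nat_lit 0) (nat_lit 1) (nat_lit 0) (nat_lit 319) (nat_lit 322) (nat_lit 79)))) (XT.nd (nat_lit 188) (nat_lit 0) (nat_lit 0) (XT.nd (nat_lit 94) (nat_lit 0) (nat_lit 0) (XT.lf (nat_lit 0) (nat_lit 58671248315) (nat_lit 0) (nat_lit 0) (nat_lit 0) (nat_lit 0) (nat_lit 0) (nat_lit 0) (nat_lit 1) (nat_lit 0) (nat_lit 1) (nat_lit 0) (nat_lit 320) (nat_lit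 322) (nat_lit 78)) (XT.lf (nat_lit 0) (nat_lit 58671229434) (nat_lit 0) (nat_lit 0) (nat_lit 0) (nat_lit 0) (nat_lit 0) (nat_lit 0) (nat_lit 1) (nat_lit 0) (nat_lit 1) (nat_lit 0) (nat_lit 321) (nat_lit 322) (nat_lit 77))) (XT.nd (nat_lit 94) (nat_lit 0) (nat_lit 0) (XT.lf (nat_lit 0) (nat_lit 58671211453) (nat_lit 0) (nat_lit 0) (nat_lit 0) (nat_lit 0) (nat_lit 0) (nat_lit 0) (nat_lit 1) (nat_lit 0) (nat_lit 1) (nat_lit 0) (nat_lit 322) (nat_lit 322) (nat_lit 76)) (XT.lf (nat_lit 0) (nat_lit 58671194327) (nat_lit 0) (nat_lit 0) (nat_lit 0) (nat_lit 0) (nat_lit 0) (nat_lit 0) (nat_lit 1) (nat_lit 0) (nat_lit 1) (nat_lit 0) (nat_lit 323) (nat_lit 322) (nat_lit 75))))) (XT.nd (nat_lit 21714) (nat_lit 0) (nat_lit 10752) (XT.nd (nat_lit 94) (nat_lit 0) (nat_lit 0) (XT.lf (nat_lit 0) (nat_lit 58671178018) (nat_lit 0) (nat_lit 0) (nat_lit 0) (nat_lit 0) (nat_lit 0) (nat_lit 0)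 (nat_lit 1) (nat_lit 0) (nat_lit 1) (nat_lit 0) (nat_lit 324) (nat_lit 322) (nat_lit 74)) (XT.nd (nat_lit 94) (nat_lit 0) (nat_lit 0) (XT.lf (nat_lit 0) (nat_lit 58671162485) (nat_lit 0) (nat_lit 0) (nat_lit 0) (nat_lit 0) (nat_lit 0) (nat_lit 0) (nat_lit 1) (nat_lit 0) (nat_lit 1) (nat_lit 0) (nat_lit 325) (nat_lit 322) (nat_lit 73)) (XT.lf (nat_lit 0) (nat_lit 58671147691) (nat_lit 0) (nat_lit 0) (nat_lit 0) (nat_lit 0) (nat_lit 0) (nat_lit 0) (nat_lit 1) (nat_lit 0) (nat_lit 1) (nat_lit 0) (nat_lit 326) (nat_lit 322) (nat_lit 72)))) (XT.nd (nat_lit 188) (nat_lit 0) (nat_lit 84) (XT.nd (nat_lit 94) (nat_lit 0) (nat_lit 0) (XT.lf (nat_lit 924) (nat_lit 30829146518) (nat_lit 0) (nat_lit 54737078779) (nat_lit 924) (nat_lit 30829146518) (nat_lit 139) (nat_lit 1) (nat_lit 128) (nat_lit 0) (nat_lit 139) (nat_lit 0) (nat_lit 74) (nat_lit 323) (nat_lit 323)) (XT.lf (nat_lit 924)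 (nat_lit 119497620771) (nat_lit 84) (nat_lit 53854222670) (nat_lit 0) (nat_lit 53854222670) (nat_lit 139) (nat_lit 1) (nat_lit 129) (nat_lit 1) (nat_lit 128) (nat_lit 0) (nat_lit 75) (nat_lit 323) (nat_lit 322))) (XT.nd (nat_lit 94) (nat_lit 0) (nat_lit 0) (XT.lf (nat_lit 924) (nat_lit 56950766785) (nat_lit 0) (nat_lit 107892507407) (nat_lit 840) (nat_lit 56950766785) (nat_lit 140) (nat_lit 1) (nat_lit 129) (nat_lit 1) (nat_lit 139) (nat_lit 1) (nat_lit 76) (nat_lit 323) (nat_lit 321)) (XT.lf (nat_lit 924) (nat_lit 106831724980) (nat_lit 84) (nat_lit 54862569799) (nat_lit 0) (nat_lit 54862569799) (nat_lit 140) (nat_lit 1) (nat_lit 130) (nat_lit 1) (nat_lit 129) (nat_lit 1) (nat_lit 77) (nat_lit 323) (nat_lit 320))))))))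
noncomputable def ec249 : XT := (XT.nd (nat_lit 8272) (nat_lit 0) (nat_lit 0) (XT.nd (nat_lit 6956) (nat_lit 1176) (nat_lit 0) (XT.nd (nat_lit 6298) (nat_lit 588) (nat_lit 0) (XT.nd (nat_lit 6016) (nat_lit 252) (nat_lit 0) (XT.nd (nat_lit 94) (nat_lit 8904) (nat_lit 0) (XT.lf (nat_lit 924) (nat_lit 49173617094) (nat_lit 0) (nat_lit 113138446211) (nat_lit 840) (nat_lit 49173617094) (nat_lit 141) (nat_lit 1) (nat_lit 130) (nat_lit 1) (nat_lit 140) (nat_lit 1) (nat_lit 78) (nat_lit 323) (nat_lit 319)) (XT.nd (nat_lit 5828) (nat_lit 8904) (nat_lit 0) (XT.lf (nat_lit 924) (nat_lit 88441953118) (nat_lit 84) (nat_lit 59063566087) (nat_lit 0) (nat_lit 59063566087) (nat_lit 141) (nat_lit 1) (nat_lit 131) (nat_lit 1) (nat_lit 130) (nat_lit 1) (nat_lit 79) (nat_lit 323) (nat_lit 318)) (XT.lf (nat_lit 0) (nat_lit 4952066230) (nat_lit 0) (nat_lit 53026627094) (nat_lit 168) (nat_lit 4952066230)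 (nat_lit 24) (nat_lit 3) (nat_lit 24) (nat_lit 1) (nat_lit 26) (nat_lit 1) (nat_lit 141) (nat_lit 323) (nat_lit 256)))) (XT.nd (nat_lit 94) (nat_lit 84) (nat_lit 0) (XT.lf (nat_lit 84) (nat_lit 26145307671) (nat_lit 0) (nat_lit 9580482141) (nat_lit 168) (nat_lit 26145307671) (nat_lit 23) (nat_lit 1) (nat_lit 22) (nat_lit 1) (nat_lit 24) (nat_lit 1) (nat_lit 142) (nat_lit 323) (nat_lit 255)) (XT.nd (nat_lit 94) (nat_lit 0) (nat_lit 0) (XT.lf (nat_lit 168) (nat_lit 32707399373) (nat_lit 0) (nat_lit 14066143183) (nat_lit 84) (nat_lit 14066143183) (nat_lit 23) (nat_lit 1) (nat_lit 21) (nat_lit 1) (nat_lit 22) (nat_lit 1) (nat_lit 143) (nat_lit 323) (nat_lit 254)) (XT.lf (nat_lit 0) (nat_lit 6760265311) (nat_lit 0) (nat_lit 46311325509) (nat_lit 168) (nat_lit 6760265311) (nat_lit 21) (nat_lit 3) (nat_lit 21) (nat_lit 1) (nat_lit 23) (nat_lit 1) (nat_lit 144) (nat_lit 323) (nat_lit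 253))))) (XT.nd (nat_lit 282) (nat_lit 336) (nat_lit 0) (XT.nd (nat_lit 94) (nat_lit 84) (nat_lit 0) (XT.lf (nat_lit 84) (nat_lit 26754271939) (nat_lit 0) (nat_lit 5323611921) (nat_lit 168) (nat_lit 26754271939) (nat_lit 20) (nat_lit 1) (nat_lit 19) (nat_lit 1) (nat_lit 21) (nat_lit 1) (nat_lit 145) (nat_lit 323) (nat_lit 252)) (XT.nd (nat_lit 94) (nat_lit 0) (nat_lit 0) (XT.lf (nat_lit 168) (nat_lit 34711195468) (nat_lit 0) (nat_lit 11572250807) (nat_lit 84) (nat_lit 11572250807) (nat_lit 20) (nat_lit 1) (nat_lit 18) (nat_lit 1) (nat_lit 19) (nat_lit 1) (nat_lit 146) (nat_lit 323) (nat_lit 251)) (XT.lf (nat_lit 0) (nat_lit 8119961448) (nat_lit 0) (nat_lit 40658716553) (nat_lit 168) (nat_lit 8119961448) (nat_lit 18) (nat_lit 3) (nat_lit 18) (nat_lit 1) (nat_lit 20) (nat_lit 1) (nat_lit 147) (nat_lit 323) (nat_lit 250)))) (XT.nd (nat_lit 188) (nat_lit 84) (nat_lit 0) (XT.nd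 (nat_lit 94) (nat_lit 84) (nat_lit 0) (XT.lf (nat_lit 84) (nat_lit 27005532035) (nat_lit 0) (nat_lit 1943296849) (nat_lit 168) (nat_lit 27005532035) (nat_lit 17) (nat_lit 1) (nat_lit 16) (nat_lit 1) (nat_lit 18) (nat_lit 1) (nat_lit 148) (nat_lit 323) (nat_lit 249)) (XT.lf (nat_lit 168) (nat_lit 35988164567) (nat_lit 0) (nat_lit 9520519378) (nat_lit 84) (nat_lit 9520519378) (nat_lit 17) (nat_lit 1) (nat_lit 15) (nat_lit 1) (nat_lit 16) (nat_lit 1) (nat_lit 149) (nat_lit 323) (nat_lit 248))) (XT.nd (nat_lit 94) (nat_lit 84) (nat_lit 0) (XT.lf (nat_lit 0) (nat_lit 9116764231) (nat_lit 0) (nat_lit 35886478583) (nat_lit 168) (nat_lit 9116764231) (nat_lit 15) (nat_lit 3) (nat_lit 15) (nat_lit 1) (nat_lit 17) (nat_lit 1) (nat_lit 150) (nat_lit 323) (nat_lit 247)) (XT.lf (nat_lit 84) (nat_lit 745537050) (nat_lit 0) (nat_lit 26240503100) (nat_lit 84) (nat_lit 26240503100) (nat_lit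 15) (nat_lit 3) (nat_lit 14) (nat_lit 1) (nat_lit 15) (nat_lit 1) (nat_lit 151) (nat_lit 323) (nat_lit 246)))))) (XT.nd (nat_lit 658) (nat_lit 504) (nat_lit 0) (XT.nd (nat_lit 282) (nat_lit 420) (nat_lit 0) (XT.nd (nat_lit 94) (nat_lit 84) (nat_lit 0) (XT.lf (nat_lit 168) (nat_lit 36684864579) (nat_lit 0) (nat_lit 7832554853) (nat_lit 84) (nat_lit 7832554853) (nat_lit 14) (nat_lit 1) (nat_lit 12) (nat_lit 1) (nat_lit 13) (nat_lit 1) (nat_lit 152) (nat_lit 323) (nat_lit 245)) (XT.nd (nat_lit 94) (nat_lit 84) (nat_lit 0) (XT.lf (nat_lit 0) (nat_lit 9820814832) (nat_lit 0) (nat_lit 31844325078) (nat_lit 168) (nat_lit 9820814832) (nat_lit 12) (nat_lit 3) (nat_lit 12) (nat_lit 1) (nat_lit 14) (nat_lit 1) (nat_lit 153) (nat_lit 323) (nat_lit 244)) (XT.lf (nat_lit 84) (nat_lit 2896359217) (nat_lit 0) (nat_lit 23871130881) (nat_lit 84) (nat_lit 23871130881) (nat_lit 12) (nat_lit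 3) (nat_lit 11) (nat_lit 1) (nat_lit 12) (nat_lit 1) (nat_lit 154) (nat_lit 323) (nat_lit 243)))) (XT.nd (nat_lit 188) (nat_lit 252) (nat_lit 0) (XT.nd (nat_lit 94) (nat_lit 0) (nat_lit 0) (XT.lf (nat_lit 168) (nat_lit 36921026520) (nat_lit 0) (nat_lit 6443862262) (nat_lit 84) (nat_lit 6443862262) (nat_lit 11) (nat_lit 1) (nat_lit 9) (nat_lit 1) (nat_lit 10) (nat_lit 1) (nat_lit 155) (nat_lit 323) (nat_lit 242)) (XT.lf (nat_lit 0) (nat_lit 10289542320) (nat_lit 0) (nat_lit 28408338704) (nat_lit 168) (nat_lit 10289542320) (nat_lit 9) (nat_lit 3) (nat_lit 9) (nat_lit 1) (nat_lit 11) (nat_lit 1) (nat_lit 156) (nat_lit 323) (nat_lit 241))) (XT.nd (nat_lit 94) (nat_lit 168) (nat_lit 0) (XT.lf (nat_lit 84) (nat_lit 4557131458) (nat_lit 0) (nat_lit 21813128014) (nat_lit 84) (nat_lit 21813128014) (nat_lit 9) (nat_lit 3) (nat_lit 8) (nat_lit 1) (nat_lit 9) (nat_lit 1) (nat_lit 157)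 (nat_lit 323) (nat_lit 240)) (XT.lf (nat_lit 168) (nat_lit 36794350980) (nat_lit 0) (nat_lit 5301381430) (nat_lit 84) (nat_lit 5301381430) (nat_lit 8) (nat_lit 1) (nat_lit 6) (nat_lit 1) (nat_lit 7) (nat_lit 1) (nat_lit 158) (nat_lit 323) (nat_lit 239))))) (XT.nd (nat_lit 282) (nat_lit 252) (nat_lit 0) (XT.nd (nat_lit 94) (nat_lit 252) (nat_lit 0) (XT.lf (nat_lit 0) (nat_lit 10569930649) (nat_lit 0) (nat_lit 25476309274) (nat_lit 168) (nat_lit 10569930649) (nat_lit 6) (nat_lit 3) (nat_lit 6) (nat_lit 1) (nat_lit 8) (nat_lit 1) (nat_lit 159) (nat_lit 323) (nat_lit 238)) (XT.nd (nat_lit 94) (nat_lit 168) (nat_lit 0) (XT.lf (nat_lit 84) (nat_lit 5819915293) (nat_lit 0) (nat_lit 20016466364) (nat_lit 84) (nat_lit 20016466364) (nat_lit 6) (nat_lit 3) (nat_lit 5) (nat_lit 1) (nat_lit 6) (nat_lit 1) (nat_lit 160) (nat_lit 323) (nat_lit 237)) (XT.lf (nat_lit 168) (nat_lit 36384452266)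 (nat_lit 0) (nat_lit 4361459622) (nat_lit 84) (nat_lit 4361459622) (nat_lit 5) (nat_lit 1) (nat_lit 3) (nat_lit 1) (nat_lit 4) (nat_lit 1) (nat_lit 161) (nat_lit 323) (nat_lit 236)))) (XT.nd (nat_lit 188) (nat_lit 168) (nat_lit 0) (XT.nd (nat_lit 94) (nat_lit 84) (nat_lit 0) (XT.lf (nat_lit 0) (nat_lit 10700383073) (nat_lit 0) (nat_lit 22963897658) (nat_lit 168) (nat_lit 10700383073) (nat_lit 3) (nat_lit 3) (nat_lit 3) (nat_lit 1) (nat_lit 5) (nat_lit 1) (nat_lit 162) (nat_lit 323) (nat_lit 235)) (XT.lf (nat_lit 84) (nat_lit 6760203443) (nat_lit 0) (nat_lit 18439741142) (nat_lit 84) (nat_lit 18439741142) (nat_lit 3) (nat_lit 3) (nat_lit 2) (nat_lit 1) (nat_lit 3) (nat_lit 1) (nat_lit 163) (nat_lit 323) (nat_lit 234))) (XT.nd (nat_lit 94) (nat_lit 0) (nat_lit 0) (XT.lf (nat_lit 0) (nat_lit 62367482682) (nat_lit 0) (nat_lit 0) (nat_lit 0) (nat_lit 0) (nat_lit 0) (nat_lit 0)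 (nat_lit 1) (nat_lit 0) (nat_lit 1) (nat_lit 0) (nat_lit 164) (nat_lit 323) (nat_lit 233)) (XT.lf (nat_lit 0) (nat_lit 62331145146) (nat_lit 0) (nat_lit 0) (nat_lit 0) (nat_lit 0) (nat_lit 0) (nat_lit 0) (nat_lit 1) (nat_lit 0) (nat_lit 1) (nat_lit 0) (nat_lit 165) (nat_lit 323) (nat_lit 232))))))) (XT.nd (nat_lit 6956) (nat_lit 0) (nat_lit 0) (XT.nd (nat_lit 6298) (nat_lit 0) (nat_lit 0) (XT.nd (nat_lit 5922) (nat_lit 0) (nat_lit 0) (XT.nd (nat_lit 94) (nat_lit 0) (nat_lit 0) (XT.lf (nat_lit 0) (nat_lit 62296537968) (nat_lit 0) (nat_lit 0) (nat_lit 0) (nat_lit 0) (nat_lit 0) (nat_lit 0) (nat_lit 1) (nat_lit 0) (nat_lit 1) (nat_lit 0) (nat_lit 166) (nat_lit 323) (nat_lit 231)) (XT.nd (nat_lit 94) (nat_lit 0) (nat_lit 0) (XT.lf (nat_lit 0) (nat_lit 62263578751) (nat_lit 0) (nat_lit 0) (nat_lit 0) (nat_lit 0) (nat_lit 0) (nat_lit 0) (nat_lit 1) (nat_lit 0) (nat_lit 1) (nat_lit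 0) (nat_lit 167) (nat_lit 323) (nat_lit 230)) (XT.lf (nat_lit 0) (nat_lit 62232189021) (nat_lit 0) (nat_lit 0) (nat_lit 0) (nat_lit 0) (nat_lit 0) (nat_lit 0) (nat_lit 1) (nat_lit 0) (nat_lit 1) (nat_lit 0) (nat_lit 168) (nat_lit 323) (nat_lit 229)))) (XT.nd (nat_lit 188) (nat_lit 0) (nat_lit 0) (XT.nd (nat_lit 94) (nat_lit 0) (nat_lit 0) (XT.lf (nat_lit 0) (nat_lit 61636403284) (nat_lit 0) (nat_lit 0) (nat_lit 0) (nat_lit 0) (nat_lit 0) (nat_lit 0) (nat_lit 1) (nat_lit 0) (nat_lit 1) (nat_lit 0) (nat_lit 229) (nat_lit 323) (nat_lit 168)) (XT.lf (nat_lit 0) (nat_lit 61634879052) (nat_lit 0) (nat_lit 0) (nat_lit 0) (nat_lit 0) (nat_lit 0) (nat_lit 0) (nat_lit 1) (nat_lit 0) (nat_lit 1) (nat_lit 0) (nat_lit 230) (nat_lit 323) (nat_lit 167))) (XT.nd (nat_lit 94) (nat_lit 0) (nat_lit 0) (XT.lf (nat_lit 0) (nat_lit 61633427403) (nat_lit 0) (nat_lit 0) (nat_lit 0) (nat_lit 0)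 (nat_lit 0) (nat_lit 0) (nat_lit 1) (nat_lit 0) (nat_lit 1) (nat_lit 0) (nat_lit 231) (nat_lit 323) (nat_lit 166)) (XT.lf (nat_lit 0) (nat_lit 61632044880) (nat_lit 0) (nat_lit 0) (nat_lit 0) (nat_lit 0) (nat_lit 0) (nat_lit 0) (nat_lit 1) (nat_lit 0) (nat_lit 1) (nat_lit 0) (nat_lit 232) (nat_lit 323) (nat_lit 165))))) (XT.nd (nat_lit 282) (nat_lit 0) (nat_lit 0) (XT.nd (nat_lit 94) (nat_lit 0) (nat_lit 0) (XT.lf (nat_lit 0) (nat_lit 61630728191) (nat_lit 0) (nat_lit 0) (nat_lit 0) (nat_lit 0) (nat_lit 0) (nat_lit 0) (nat_lit 1) (nat_lit 0) (nat_lit 1) (nat_lit 0) (nat_lit 233) (nat_lit 323) (nat_lit 164)) (XT.nd (nat_lit 94) (nat_lit 0) (nat_lit 0) (XT.lf (nat_lit 0) (nat_lit 61629474202) (nat_lit 0) (nat_lit 0) (nat_lit 0) (nat_lit 0) (nat_lit 0) (nat_lit 0) (nat_lit 1) (nat_lit 0) (nat_lit 1) (nat_lit 0) (nat_lit 234) (nat_lit 323) (nat_lit 163)) (XT.lf (nat_lit 0) (nat_lit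 61628279926) (nat_lit 0) (nat_lit 0) (nat_lit 0) (nat_lit 0) (nat_lit 0) (nat_lit 0) (nat_lit 1) (nat_lit 0) (nat_lit 1) (nat_lit 0) (nat_lit 235) (nat_lit 323) (nat_lit 162)))) (XT.nd (nat_lit 188) (nat_lit 0) (nat_lit 0) (XT.nd (nat_lit 94) (nat_lit 0) (nat_lit 0) (XT.lf (nat_lit 0) (nat_lit 61627142521) (nat_lit 0) (nat_lit 0) (nat_lit 0) (nat_lit 0) (nat_lit 0) (nat_lit 0) (nat_lit 1) (nat_lit 0) (nat_lit 1) (nat_lit 0) (nat_lit 236) (nat_lit 323) (nat_lit 161)) (XT.lf (nat_lit 0) (nat_lit 61626059278) (nat_lit 0) (nat_lit 0) (nat_lit 0) (nat_lit 0) (nat_lit 0) (nat_lit 0) (nat_lit 1) (nat_lit 0) (nat_lit 1) (nat_lit 0) (nat_lit 237) (nat_lit 323) (nat_lit 160))) (XT.nd (nat_lit 94) (nat_lit 0) (nat_lit 0) (XT.lf (nat_lit 0) (nat_lit 61625027617) (nat_lit 0) (nat_lit 0) (nat_lit 0) (nat_lit 0) (nat_lit 0) (nat_lit 0) (nat_lit 1) (nat_lit 0) (nat_lit 1) (nat_lit 0) (nat_lit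 238) (nat_lit 323) (nat_lit 159)) (XT.lf (nat_lit 0) (nat_lit 61624045084) (nat_lit 0) (nat_lit 0) (nat_lit 0) (nat_lit 0) (nat_lit 0) (nat_lit 0) (nat_lit 1) (nat_lit 0) (nat_lit 1) (nat_lit 0) (nat_lit 239) (nat_lit 323) (nat_lit 158)))))) (XT.nd (nat_lit 658) (nat_lit 0) (nat_lit 0) (XT.nd (nat_lit 282) (nat_lit 0) (nat_lit 0) (XT.nd (nat_lit 94) (nat_lit 0) (nat_lit 0) (XT.lf (nat_lit 0) (nat_lit 61623109338) (nat_lit 0) (nat_lit 0) (nat_lit 0) (nat_lit 0) (nat_lit 0) (nat_lit 0) (nat_lit 1) (nat_lit 0) (nat_lit 1) (nat_lit 0) (nat_lit 240) (nat_lit 323) (nat_lit 157)) (XT.nd (nat_lit 94) (nat_lit 0) (nat_lit 0) (XT.lf (nat_lit 0) (nat_lit 61622218151) (nat_lit 0) (nat_lit 0) (nat_lit 0) (nat_lit 0) (nat_lit 0) (nat_lit 0) (nat_lit 1) (nat_lit 0) (nat_lit 1) (nat_lit 0) (nat_lit 241) (nat_lit 323) (nat_lit 156)) (XT.lf (nat_lit 0) (nat_lit 61621369402) (nat_lit 0) (nat_lit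 0) (nat_lit 0) (nat_lit 0) (nat_lit 0) (nat_lit 0) (nat_lit 1) (nat_lit 0) (nat_lit 1) (nat_lit 0) (nat_lit 242) (nat_lit 323) (nat_lit 155)))) (XT.nd (nat_lit 188) (nat_lit 0) (nat_lit 0) (XT.nd (nat_lit 94) (nat_lit 0) (nat_lit 0) (XT.lf (nat_lit 0) (nat_lit 61620561069) (nat_lit 0) (nat_lit 0) (nat_lit 0) (nat_lit 0) (nat_lit 0) (nat_lit 0) (nat_lit 1) (nat_lit 0) (nat_lit 1) (nat_lit 0) (nat_lit 243) (nat_lit 323) (nat_lit 154)) (XT.lf (nat_lit 0) (nat_lit 61619791228) (nat_lit 0) (nat_lit 0) (nat_lit 0) (nat_lit 0) (nat_lit 0) (nat_lit 0) (nat_lit 1) (nat_lit 0) (nat_lit 1) (nat_lit 0) (nat_lit 244) (nat_lit 323) (nat_lit 153))) (XT.nd (nat_lit 94) (nat_lit 0) (nat_lit 0) (XT.lf (nat_lit 0) (nat_lit 61619058047) (nat_lit 0) (nat_lit 0) (nat_lit 0) (nat_lit 0) (nat_lit 0) (nat_lit 0) (nat_lit 1) (nat_lit 0) (nat_lit 1) (nat_lit 0) (nat_lit 245) (nat_lit 323) (nat_lit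 152)) (XT.lf (nat_lit 0) (nat_lit 61618359779) (nat_lit 0) (nat_lit 0) (nat_lit 0) (nat_lit 0) (nat_lit 0) (nat_lit 0) (nat_lit 1) (nat_lit 0) (nat_lit 1) (nat_lit 0) (nat_lit 246) (nat_lit 323) (nat_lit 151))))) (XT.nd (nat_lit 282) (nat_lit 0) (nat_lit 0) (XT.nd (nat_lit 94) (nat_lit 0) (nat_lit 0) (XT.lf (nat_lit 0) (nat_lit 61617694761) (nat_lit 0) (nat_lit 0) (nat_lit 0) (nat_lit 0) (nat_lit 0) (nat_lit 0) (nat_lit 1) (nat_lit 0) (nat_lit 1) (nat_lit 0) (nat_lit 247) (nat_lit 323) (nat_lit 150)) (XT.nd (nat_lit 94) (nat_lit 0) (nat_lit 0) (XT.lf (nat_lit 0) (nat_lit 61617061411) (nat_lit 0) (nat_lit 0) (nat_lit 0) (nat_lit 0) (nat_lit 0) (nat_lit 0) (nat_lit 1) (nat_lit 0) (nat_lit 1) (nat_lit 0) (nat_lit 248) (nat_lit 323) (nat_lit 149)) (XT.lf (nat_lit 0) (nat_lit 61616458221) (nat_lit 0) (nat_lit 0) (nat_lit 0) (nat_lit 0) (nat_lit 0) (nat_lit 0) (nat_lit 1) (nat_lit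 0) (nat_lit 1) (nat_lit 0) (nat_lit 249) (nat_lit 323) (nat_lit 148)))) (XT.nd (nat_lit 188) (nat_lit 0) (nat_lit 0) (XT.nd (nat_lit 94) (nat_lit 0) (nat_lit 0) (XT.lf (nat_lit 0) (nat_lit 61615883754) (nat_lit 0) (nat_lit 0) (nat_lit 0) (nat_lit 0) (nat_lit 0) (nat_lit 0) (nat_lit 1) (nat_lit 0) (nat_lit 1) (nat_lit 0) (nat_lit 250) (nat_lit 323) (nat_lit 147)) (XT.lf (nat_lit 0) (nat_lit 61615336643) (nat_lit 0) (nat_lit 0) (nat_lit 0) (nat_lit 0) (nat_lit 0) (nat_lit 0) (nat_lit 1) (nat_lit 0) (nat_lit 1) (nat_lit 0) (nat_lit 251) (nat_lit 323) (nat_lit 146))) (XT.nd (nat_lit 94) (nat_lit 0) (nat_lit 0) (XT.lf (nat_lit 0) (nat_lit 61614815584) (nat_lit 0) (nat_lit 0) (nat_lit 0) (nat_lit 0) (nat_lit 0) (nat_lit 0) (nat_lit 1) (nat_lit 0) (nat_lit 1) (nat_lit 0) (nat_lit 252) (nat_lit 323) (nat_lit 145)) (XT.lf (nat_lit 0) (nat_lit 61614319338) (nat_lit 0) (nat_lit 0)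 (nat_lit 0) (nat_lit 0) (nat_lit 0) (nat_lit 0) (nat_lit 1) (nat_lit 0) (nat_lit 1) (nat_lit 0) (nat_lit 253) (nat_lit 323) (nat_lit 144))))))))
noncomputable def ec250 : XT := (XT.nd (nat_lit 35438) (nat_lit 0) (nat_lit 0) (XT.nd (nat_lit 28106) (nat_lit 0) (nat_lit 1176) (XT.nd (nat_lit 6298) (nat_lit 0) (nat_lit 0) (XT.nd (nat_lit 6016) (nat_lit 0) (nat_lit 0) (XT.nd (nat_lit 94) (nat_lit 0) (nat_lit 0) (XT.lf (nat_lit 0) (nat_lit 61613846723) (nat_lit 0) (nat_lit 0) (nat_lit 0) (nat_lit 0) (nat_lit 0) (nat_lit 0) (nat_lit 1) (nat_lit 0) (nat_lit 1) (nat_lit 0) (nat_lit 254) (nat_lit 323) (nat_lit 143)) (XT.nd (nat_lit 94) (nat_lit 0) (nat_lit 0) (XT.lf (nat_lit 0) (nat_lit 61613396613) (nat_lit 0) (nat_lit 0) (nat_lit 0) (nat_lit 0) (nat_lit 0) (nat_lit 0) (nat_lit 1) (nat_lit 0) (nat_lit 1) (nat_lit 0) (nat_lit 255) (nat_lit 323) (nat_lit 142)) (XT.lf (nat_lit 0) (nat_lit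 61612967937) (nat_lit 0) (nat_lit 0) (nat_lit 0) (nat_lit 0) (nat_lit 0) (nat_lit 0) (nat_lit 1) (nat_lit 0) (nat_lit 1) (nat_lit 0) (nat_lit 256) (nat_lit 323) (nat_lit 141)))) (XT.nd (nat_lit 94) (nat_lit 0) (nat_lit 0) (XT.lf (nat_lit 0) (nat_lit 61604810730) (nat_lit 0) (nat_lit 0) (nat_lit 0) (nat_lit 0) (nat_lit 0) (nat_lit 0) (nat_lit 1) (nat_lit 0) (nat_lit 1) (nat_lit 0) (nat_lit 318) (nat_lit 323) (nat_lit 79)) (XT.nd (nat_lit 94) (nat_lit 0) (nat_lit 0) (XT.lf (nat_lit 0) (nat_lit 61604790906) (nat_lit 0) (nat_lit 0) (nat_lit 0) (nat_lit 0) (nat_lit 0) (nat_lit 0) (nat_lit 1) (nat_lit 0) (nat_lit 1) (nat_lit 0) (nat_lit 319) (nat_lit 323) (nat_lit 78)) (XT.lf (nat_lit 0) (nat_lit 61604772025) (nat_lit 0) (nat_lit 0) (nat_lit 0) (nat_lit 0) (nat_lit 0) (nat_lit 0) (nat_lit 1) (nat_lit 0) (nat_lit 1) (nat_lit 0) (nat_lit 320) (nat_lit 323) (nat_lit 77))))) (XT.nd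 (nat_lit 282) (nat_lit 0) (nat_lit 0) (XT.nd (nat_lit 94) (nat_lit 0) (nat_lit 0) (XT.lf (nat_lit 0) (nat_lit 61604754044) (nat_lit 0) (nat_lit 0) (nat_lit 0) (nat_lit 0) (nat_lit 0) (nat_lit 0) (nat_lit 1) (nat_lit 0) (nat_lit 1) (nat_lit 0) (nat_lit 321) (nat_lit 323) (nat_lit 76)) (XT.nd (nat_lit 94) (nat_lit 0) (nat_lit 0) (XT.lf (nat_lit 0) (nat_lit 61604736919) (nat_lit 0) (nat_lit 0) (nat_lit 0) (nat_lit 0) (nat_lit 0) (nat_lit 0) (nat_lit 1) (nat_lit 0) (nat_lit 1) (nat_lit 0) (nat_lit 322) (nat_lit 323) (nat_lit 75)) (XT.lf (nat_lit 0) (nat_lit 61604720609) (nat_lit 0) (nat_lit 0) (nat_lit 0) (nat_lit 0) (nat_lit 0) (nat_lit 0) (nat_lit 1) (nat_lit 0) (nat_lit 1) (nat_lit 0) (nat_lit 323) (nat_lit 323) (nat_lit 74)))) (XT.nd (nat_lit 188) (nat_lit 0) (nat_lit 0) (XT.nd (nat_lit 94) (nat_lit 0) (nat_lit 0) (XT.lf (nat_lit 0) (nat_lit 61604705076) (nat_lit 0) (nat_lit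 0) (nat_lit 0) (nat_lit 0) (nat_lit 0) (nat_lit 0) (nat_lit 1) (nat_lit 0) (nat_lit 1) (nat_lit 0) (nat_lit 324) (nat_lit 323) (nat_lit 73)) (XT.lf (nat_lit 0) (nat_lit 61604690282) (nat_lit 0) (nat_lit 0) (nat_lit 0) (nat_lit 0) (nat_lit 0) (nat_lit 0) (nat_lit 1) (nat_lit 0) (nat_lit 1) (nat_lit 0) (nat_lit 325) (nat_lit 323) (nat_lit 72))) (XT.nd (nat_lit 94) (nat_lit 0) (nat_lit 0) (XT.lf (nat_lit 0) (nat_lit 61604676194) (nat_lit 0) (nat_lit 0) (nat_lit 0) (nat_lit 0) (nat_lit 0) (nat_lit 0) (nat_lit 1) (nat_lit 0) (nat_lit 1) (nat_lit 0) (nat_lit 326) (nat_lit 323) (nat_lit 71)) (XT.lf (nat_lit 0) (nat_lit 61604662776) (nat_lit 0) (nat_lit 0) (nat_lit 0) (nat_lit 0) (nat_lit 0) (nat_lit 0) (nat_lit 1) (nat_lit 0) (nat_lit 1) (nat_lit 0) (nat_lit 327) (nat_lit 323) (nat_lit 70)))))) (XT.nd (nat_lit 6674) (nat_lit 588) (nat_lit 0) (XT.nd (nat_lit 282) (nat_lit 8988)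 (nat_lit 0) (XT.nd (nat_lit 94) (nat_lit 0) (nat_lit 0) (XT.lf (nat_lit 924) (nat_lit 32370603844) (nat_lit 0) (nat_lit 57473932718) (nat_lit 924) (nat_lit 32370603844) (nat_lit 139) (nat_lit 1) (nat_lit 128) (nat_lit 0) (nat_lit 139) (nat_lit 0) (nat_lit 72) (nat_lit 324) (nat_lit 324)) (XT.nd (nat_lit 94) (nat_lit 0) (nat_lit 84) (XT.lf (nat_lit 924) (nat_lit 125472501809) (nat_lit 84) (nat_lit 56546933803) (nat_lit 0) (nat_lit 56546933803) (nat_lit 139) (nat_lit 1) (nat_lit 129) (nat_lit 1) (nat_lit 128) (nat_lit 0) (nat_lit 73) (nat_lit 324) (nat_lit 323)) (XT.lf (nat_lit 924) (nat_lit 59798305124) (nat_lit 0) (nat_lit 113287132778) (nat_lit 840) (nat_lit 59798305124) (nat_lit 140) (nat_lit 1) (nat_lit 129) (nat_lit 1) (nat_lit 139) (nat_lit 1) (nat_lit 74) (nat_lit 324) (nat_lit 322)))) (XT.nd (nat_lit 188) (nat_lit 9072) (nat_lit 0) (XT.nd (nat_lit 94) (nat_lit 0)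 (nat_lit 84) (XT.lf (nat_lit 924) (nat_lit 112173311229) (nat_lit 84) (nat_lit 57605698289) (nat_lit 0) (nat_lit 57605698289) (nat_lit 140) (nat_lit 1) (nat_lit 130) (nat_lit 1) (nat_lit 129) (nat_lit 1) (nat_lit 75) (nat_lit 324) (nat_lit 321)) (XT.lf (nat_lit 924) (nat_lit 51632297948) (nat_lit 0) (nat_lit 118795368522) (nat_lit 840) (nat_lit 51632297948) (nat_lit 141) (nat_lit 1) (nat_lit 130) (nat_lit 1) (nat_lit 140) (nat_lit 1) (nat_lit 76) (nat_lit 324) (nat_lit 320))) (XT.nd (nat_lit 6110) (nat_lit 9156) (nat_lit 0) (XT.lf (nat_lit 924) (nat_lit 92864050774) (nat_lit 84) (nat_lit 62016744392) (nat_lit 0) (nat_lit 62016744392) (nat_lit 141) (nat_lit 1) (nat_lit 131) (nat_lit 1) (nat_lit 130) (nat_lit 1) (nat_lit 77) (nat_lit 324) (nat_lit 319)) (XT.lf (nat_lit 0) (nat_lit 7098278577) (nat_lit 0) (nat_lit 48626891784) (nat_lit 168) (nat_lit 7098278577) (nat_lit 21)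 (nat_lit 3) (nat_lit 21) (nat_lit 1) (nat_lit 23) (nat_lit 1) (nat_lit 142) (nat_lit 324) (nat_lit 254))))) (XT.nd (nat_lit 282) (nat_lit 336) (nat_lit 0) (XT.nd (nat_lit 94) (nat_lit 84) (nat_lit 0) (XT.lf (nat_lit 84) (nat_lit 28091985536) (nat_lit 0) (nat_lit 5589792517) (nat_lit 168) (nat_lit 28091985536) (nat_lit 20) (nat_lit 1) (nat_lit 19) (nat_lit 1) (nat_lit 21) (nat_lit 1) (nat_lit 143) (nat_lit 324) (nat_lit 253)) (XT.nd (nat_lit 94) (nat_lit 0) (nat_lit 0) (XT.lf (nat_lit 168) (nat_lit 36446755242) (nat_lit 0) (nat_lit 12150863347) (nat_lit 84) (nat_lit 12150863347) (nat_lit 20) (nat_lit 1) (nat_lit 18) (nat_lit 1) (nat_lit 19) (nat_lit 1) (nat_lit 144) (nat_lit 324) (nat_lit 252)) (XT.lf (nat_lit 0) (nat_lit 8525959520) (nat_lit 0) (nat_lit 42691652380) (nat_lit 168) (nat_lit 8525959520) (nat_lit 18) (nat_lit 3) (nat_lit 18) (nat_lit 1) (nat_lit 20) (nat_lit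 1) (nat_lit 145) (nat_lit 324) (nat_lit 251)))) (XT.nd (nat_lit 188) (nat_lit 84) (nat_lit 0) (XT.nd (nat_lit 94) (nat_lit 84) (nat_lit 0) (XT.lf (nat_lit 84) (nat_lit 28355808637) (nat_lit 0) (nat_lit 2040461691) (nat_lit 168) (nat_lit 28355808637) (nat_lit 17) (nat_lit 1) (nat_lit 16) (nat_lit 1) (nat_lit 18) (nat_lit 1) (nat_lit 146) (nat_lit 324) (nat_lit 250)) (XT.lf (nat_lit 168) (nat_lit 37787572796) (nat_lit 0) (nat_lit 9996545347) (nat_lit 84) (nat_lit 9996545347) (nat_lit 17) (nat_lit 1) (nat_lit 15) (nat_lit 1) (nat_lit 16) (nat_lit 1) (nat_lit 147) (nat_lit 324) (nat_lit 249))) (XT.nd (nat_lit 94) (nat_lit 84) (nat_lit 0) (XT.lf (nat_lit 0) (nat_lit 9572602443) (nat_lit 0) (nat_lit 37680802512) (nat_lit 168) (nat_lit 9572602443) (nat_lit 15) (nat_lit 3) (nat_lit 15) (nat_lit 1) (nat_lit 17) (nat_lit 1) (nat_lit 148) (nat_lit 324) (nat_lit 248)) (XT.lf (nat_lit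 84) (nat_lit 782813903) (nat_lit 0) (nat_lit 27552528255) (nat_lit 84) (nat_lit 27552528255) (nat_lit 15) (nat_lit 3) (nat_lit 14) (nat_lit 1) (nat_lit 15) (nat_lit 1) (nat_lit 149) (nat_lit 324) (nat_lit 247))))))) (XT.nd (nat_lit 1222) (nat_lit 0) (nat_lit 0) (XT.nd (nat_lit 564) (nat_lit 672) (nat_lit 0) (XT.nd (nat_lit 282) (nat_lit 252) (nat_lit 0) (XT.nd (nat_lit 94) (nat_lit 84) (nat_lit 0) (XT.lf (nat_lit 168) (nat_lit 38519107808) (nat_lit 0) (nat_lit 8224182596) (nat_lit 84) (nat_lit 8224182596) (nat_lit 14) (nat_lit 1) (nat_lit 12) (nat_lit 1) (nat_lit 13) (nat_lit 1) (nat_lit 150) (nat_lit 324) (nat_lit 246)) (XT.nd (nat_lit 94) (nat_lit 84) (nat_lit 0) (XT.lf (nat_lit 0) (nat_lit 10311855573) (nat_lit 0) (nat_lit 33436541332) (nat_lit 168) (nat_lit 10311855573) (nat_lit 12) (nat_lit 3) (nat_lit 12) (nat_lit 1) (nat_lit 14) (nat_lit 1) (nat_lit 151) (nat_lit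 324) (nat_lit 245)) (XT.lf (nat_lit 84) (nat_lit 3041177178) (nat_lit 0) (nat_lit 25064687425) (nat_lit 84) (nat_lit 25064687425) (nat_lit 12) (nat_lit 3) (nat_lit 11) (nat_lit 1) (nat_lit 12) (nat_lit 1) (nat_lit 152) (nat_lit 324) (nat_lit 244)))) (XT.nd (nat_lit 94) (nat_lit 84) (nat_lit 0) (XT.lf (nat_lit 168) (nat_lit 38767077846) (nat_lit 0) (nat_lit 6766055375) (nat_lit 84) (nat_lit 6766055375) (nat_lit 11) (nat_lit 1) (nat_lit 9) (nat_lit 1) (nat_lit 10) (nat_lit 1) (nat_lit 153) (nat_lit 324) (nat_lit 243)) (XT.nd (nat_lit 94) (nat_lit 84) (nat_lit 0) (XT.lf (nat_lit 0) (nat_lit 10804019436) (nat_lit 0) (nat_lit 29828755639) (nat_lit 168) (nat_lit 10804019436) (nat_lit 9) (nat_lit 3) (nat_lit 9) (nat_lit 1) (nat_lit 11) (nat_lit 1) (nat_lit 154) (nat_lit 324) (nat_lit 242)) (XT.lf (nat_lit 84) (nat_lit 4784988031) (nat_lit 0) (nat_lit 22903784415) (nat_lit 84) (nat_lit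 22903784415) (nat_lit 9) (nat_lit 3) (nat_lit 8) (nat_lit 1) (nat_lit 9) (nat_lit 1) (nat_lit 155) (nat_lit 324) (nat_lit 241))))) (XT.nd (nat_lit 282) (nat_lit 420) (nat_lit 0) (XT.nd (nat_lit 94) (nat_lit 84) (nat_lit 0) (XT.lf (nat_lit 168) (nat_lit 38634068529) (nat_lit 0) (nat_lit 5566450501) (nat_lit 84) (nat_lit 5566450501) (nat_lit 8) (nat_lit 1) (nat_lit 6) (nat_lit 1) (nat_lit 7) (nat_lit 1) (nat_lit 156) (nat_lit 324) (nat_lit 240)) (XT.nd (nat_lit 94) (nat_lit 84) (nat_lit 0) (XT.lf (nat_lit 0) (nat_lit 11098427182) (nat_lit 0) (nat_lit 26750124738) (nat_lit 168) (nat_lit 11098427182) (nat_lit 6) (nat_lit 3) (nat_lit 6) (nat_lit 1) (nat_lit 8) (nat_lit 1) (nat_lit 157) (nat_lit 324) (nat_lit 239)) (XT.lf (nat_lit 84) (nat_lit 6110911058) (nat_lit 0) (nat_lit 21017289683) (nat_lit 84) (nat_lit 21017289683) (nat_lit 6) (nat_lit 3) (nat_lit 5) (nat_lit 1) (nat_lit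 6) (nat_lit 1) (nat_lit 158) (nat_lit 324) (nat_lit 238)))) (XT.nd (nat_lit 188) (nat_lit 252) (nat_lit 0) (XT.nd (nat_lit 94) (nat_lit 0) (nat_lit 0) (XT.lf (nat_lit 168) (nat_lit 38203674879) (nat_lit 0) (nat_lit 4579532603) (nat_lit 84) (nat_lit 4579532603) (nat_lit 5) (nat_lit 1) (nat_lit 3) (nat_lit 1) (nat_lit 4) (nat_lit 1) (nat_lit 159) (nat_lit 324) (nat_lit 237)) (XT.lf (nat_lit 0) (nat_lit 11235402226) (nat_lit 0) (nat_lit 24112092541) (nat_lit 168) (nat_lit 11235402226) (nat_lit 3) (nat_lit 3) (nat_lit 3) (nat_lit 1) (nat_lit 5) (nat_lit 1) (nat_lit 160) (nat_lit 324) (nat_lit 236))) (XT.nd (nat_lit 94) (nat_lit 168) (nat_lit 0) (XT.lf (nat_lit 84) (nat_lit 7098213615) (nat_lit 0) (nat_lit 19361728200) (nat_lit 84) (nat_lit 19361728200) (nat_lit 3) (nat_lit 3) (nat_lit 2) (nat_lit 1) (nat_lit 3) (nat_lit 1) (nat_lit 161) (nat_lit 324) (nat_lit 235)) (XT.lf (nat_lit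 0) (nat_lit 65485856817) (nat_lit 0) (nat_lit 0) (nat_lit 0) (nat_lit 0) (nat_lit 0) (nat_lit 0) (nat_lit 1) (nat_lit 0) (nat_lit 1) (nat_lit 0) (nat_lit 162) (nat_lit 324) (nat_lit 234)))))) (XT.nd (nat_lit 6580) (nat_lit 0) (nat_lit 0) (XT.nd (nat_lit 282) (nat_lit 0) (nat_lit 0) (XT.nd (nat_lit 94) (nat_lit 0) (nat_lit 0) (XT.lf (nat_lit 0) (nat_lit 65447702403) (nat_lit 0) (nat_lit 0) (nat_lit 0) (nat_lit 0) (nat_lit 0) (nat_lit 0) (nat_lit 1) (nat_lit 0) (nat_lit 1) (nat_lit 0) (nat_lit 163) (nat_lit 324) (nat_lit 233)) (XT.nd (nat_lit 94) (nat_lit 0) (nat_lit 0) (XT.lf (nat_lit 0) (nat_lit 65411364867) (nat_lit 0) (nat_lit 0) (nat_lit 0) (nat_lit 0) (nat_lit 0) (nat_lit 0) (nat_lit 1) (nat_lit 0) (nat_lit 1) (nat_lit 0) (nat_lit 164) (nat_lit 324) (nat_lit 232)) (XT.lf (nat_lit 0) (nat_lit 65376757689) (nat_lit 0) (nat_lit 0) (nat_lit 0) (nat_lit 0) (nat_lit 0) (nat_lit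 0) (nat_lit 1) (nat_lit 0) (nat_lit 1) (nat_lit 0) (nat_lit 165) (nat_lit 324) (nat_lit 231)))) (XT.nd (nat_lit 6110) (nat_lit 0) (nat_lit 0) (XT.nd (nat_lit 6016) (nat_lit 0) (nat_lit 0) (XT.lf (nat_lit 0) (nat_lit 65343798472) (nat_lit 0) (nat_lit 0) (nat_lit 0) (nat_lit 0) (nat_lit 0) (nat_lit 0) (nat_lit 1) (nat_lit 0) (nat_lit 1) (nat_lit 0) (nat_lit 166) (nat_lit 324) (nat_lit 230)) (XT.lf (nat_lit 0) (nat_lit 64713647124) (nat_lit 0) (nat_lit 0) (nat_lit 0) (nat_lit 0) (nat_lit 0) (nat_lit 0) (nat_lit 1) (nat_lit 0) (nat_lit 1) (nat_lit 0) (nat_lit 230) (nat_lit 324) (nat_lit 166))) (XT.nd (nat_lit 94) (nat_lit 0) (nat_lit 0) (XT.lf (nat_lit 0) (nat_lit 64712264601) (nat_lit 0) (nat_lit 0) (nat_lit 0) (nat_lit 0) (nat_lit 0) (nat_lit 0) (nat_lit 1) (nat_lit 0) (nat_lit 1) (nat_lit 0) (nat_lit 231) (nat_lit 324) (nat_lit 165)) (XT.lf (nat_lit 0) (nat_lit 64710947912)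 (nat_lit 0) (nat_lit 0) (nat_lit 0) (nat_lit 0) (nat_lit 0) (nat_lit 0) (nat_lit 1) (nat_lit 0) (nat_lit 1) (nat_lit 0) (nat_lit 232) (nat_lit 324) (nat_lit 164))))) (XT.nd (nat_lit 282) (nat_lit 0) (nat_lit 0) (XT.nd (nat_lit 94) (nat_lit 0) (nat_lit 0) (XT.lf (nat_lit 0) (nat_lit 64709693922) (nat_lit 0) (nat_lit 0) (nat_lit 0) (nat_lit 0) (nat_lit 0) (nat_lit 0) (nat_lit 1) (nat_lit 0) (nat_lit 1) (nat_lit 0) (nat_lit 233) (nat_lit 324) (nat_lit 163)) (XT.nd (nat_lit 94) (nat_lit 0) (nat_lit 0) (XT.lf (nat_lit 0) (nat_lit 64708499647) (nat_lit 0) (nat_lit 0) (nat_lit 0) (nat_lit 0) (nat_lit 0) (nat_lit 0) (nat_lit 1) (nat_lit 0) (nat_lit 1) (nat_lit 0) (nat_lit 234) (nat_lit 324) (nat_lit 162)) (XT.lf (nat_lit 0) (nat_lit 64707362242) (nat_lit 0) (nat_lit 0) (nat_lit 0) (nat_lit 0) (nat_lit 0) (nat_lit 0) (nat_lit 1) (nat_lit 0) (nat_lit 1) (nat_lit 0) (nat_lit 235) (nat_lit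 324) (nat_lit 161)))) (XT.nd (nat_lit 188) (nat_lit 0) (nat_lit 0) (XT.nd (nat_lit 94) (nat_lit 0) (nat_lit 0) (XT.lf (nat_lit 0) (nat_lit 64706278998) (nat_lit 0) (nat_lit 0) (nat_lit 0) (nat_lit 0) (nat_lit 0) (nat_lit 0) (nat_lit 1) (nat_lit 0) (nat_lit 1) (nat_lit 0) (nat_lit 236) (nat_lit 324) (nat_lit 160)) (XT.lf (nat_lit 0) (nat_lit 64705247338) (nat_lit 0) (nat_lit 0) (nat_lit 0) (nat_lit 0) (nat_lit 0) (nat_lit 0) (nat_lit 1) (nat_lit 0) (nat_lit 1) (nat_lit 0) (nat_lit 237) (nat_lit 324) (nat_lit 159))) (XT.nd (nat_lit 94) (nat_lit 0) (nat_lit 0) (XT.lf (nat_lit 0) (nat_lit 64704264805) (nat_lit 0) (nat_lit 0) (nat_lit 0) (nat_lit 0) (nat_lit 0) (nat_lit 0) (nat_lit 1) (nat_lit 0) (nat_lit 1) (nat_lit 0) (nat_lit 238) (nat_lit 324) (nat_lit 158)) (XT.lf (nat_lit 0) (nat_lit 64703329059) (nat_lit 0) (nat_lit 0) (nat_lit 0) (nat_lit 0) (nat_lit 0) (nat_lit 0) (nat_lit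 1) (nat_lit 0) (nat_lit 1) (nat_lit 0) (nat_lit 239) (nat_lit 324) (nat_lit 157))))))))
noncomputable def ec251 : XT := (XT.nd (nat_lit 29422) (nat_lit 0) (nat_lit 0) (XT.nd (nat_lit 1222) (nat_lit 0) (nat_lit 0) (XT.nd (nat_lit 564) (nat_lit 0) (nat_lit 0) (XT.nd (nat_lit 282) (nat_lit 0) (nat_lit 0) (XT.nd (nat_lit 94) (nat_lit 0) (nat_lit 0) (XT.lf (nat_lit 0) (nat_lit 64702437872) (nat_lit 0) (nat_lit 0) (nat_lit 0) (nat_lit 0) (nat_lit 0) (nat_lit 0) (nat_lit 1) (nat_lit 0) (nat_lit 1) (nat_lit 0) (nat_lit 240) (nat_lit 324) (nat_lit 156)) (XT.nd (nat_lit 94) (nat_lit 0) (nat_lit 0) (XT.lf (nat_lit 0) (nat_lit 64701589122) (nat_lit 0) (nat_lit 0) (nat_lit 0) (nat_lit 0) (nat_lit 0) (nat_lit 0) (nat_lit 1) (nat_lit 0) (nat_lit 1) (nat_lit 0) (nat_lit 241) (nat_lit 324) (nat_lit 155)) (XT.lf (nat_lit 0) (nat_lit 64700780790) (nat_lit 0) (nat_lit 0) (nat_lit 0) (nat_lit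 0) (nat_lit 0) (nat_lit 0) (nat_lit 1) (nat_lit 0) (nat_lit 1) (nat_lit 0) (nat_lit 242) (nat_lit 324) (nat_lit 154)))) (XT.nd (nat_lit 94) (nat_lit 0) (nat_lit 0) (XT.lf (nat_lit 0) (nat_lit 64700010949) (nat_lit 0) (nat_lit 0) (nat_lit 0) (nat_lit 0) (nat_lit 0) (nat_lit 0) (nat_lit 1) (nat_lit 0) (nat_lit 1) (nat_lit 0) (nat_lit 243) (nat_lit 324) (nat_lit 153)) (XT.nd (nat_lit 94) (nat_lit 0) (nat_lit 0) (XT.lf (nat_lit 0) (nat_lit 64699277767) (nat_lit 0) (nat_lit 0) (nat_lit 0) (nat_lit 0) (nat_lit 0) (nat_lit 0) (nat_lit 1) (nat_lit 0) (nat_lit 1) (nat_lit 0) (nat_lit 244) (nat_lit 324) (nat_lit 152)) (XT.lf (nat_lit 0) (nat_lit 64698579499) (nat_lit 0) (nat_lit 0) (nat_lit 0) (nat_lit 0) (nat_lit 0) (nat_lit 0) (nat_lit 1) (nat_lit 0) (nat_lit 1) (nat_lit 0) (nat_lit 245) (nat_lit 324) (nat_lit 151))))) (XT.nd (nat_lit 282) (nat_lit 0) (nat_lit 0) (XT.nd (nat_lit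 94) (nat_lit 0) (nat_lit 0) (XT.lf (nat_lit 0) (nat_lit 64697914482) (nat_lit 0) (nat_lit 0) (nat_lit 0) (nat_lit 0) (nat_lit 0) (nat_lit 0) (nat_lit 1) (nat_lit 0) (nat_lit 1) (nat_lit 0) (nat_lit 246) (nat_lit 324) (nat_lit 150)) (XT.nd (nat_lit 94) (nat_lit 0) (nat_lit 0) (XT.lf (nat_lit 0) (nat_lit 64697281132) (nat_lit 0) (nat_lit 0) (nat_lit 0) (nat_lit 0) (nat_lit 0) (nat_lit 0) (nat_lit 1) (nat_lit 0) (nat_lit 1) (nat_lit 0) (nat_lit 247) (nat_lit 324) (nat_lit 149)) (XT.lf (nat_lit 0) (nat_lit 64696677942) (nat_lit 0) (nat_lit 0) (nat_lit 0) (nat_lit 0) (nat_lit 0) (nat_lit 0) (nat_lit 1) (nat_lit 0) (nat_lit 1) (nat_lit 0) (nat_lit 248) (nat_lit 324) (nat_lit 148)))) (XT.nd (nat_lit 188) (nat_lit 0) (nat_lit 0) (XT.nd (nat_lit 94) (nat_lit 0) (nat_lit 0) (XT.lf (nat_lit 0) (nat_lit 64696103475) (nat_lit 0) (nat_lit 0) (nat_lit 0) (nat_lit 0) (nat_lit 0) (nat_lit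 0) (nat_lit 1) (nat_lit 0) (nat_lit 1) (nat_lit 0) (nat_lit 249) (nat_lit 324) (nat_lit 147)) (XT.lf (nat_lit 0) (nat_lit 64695556363) (nat_lit 0) (nat_lit 0) (nat_lit 0) (nat_lit 0) (nat_lit 0) (nat_lit 0) (nat_lit 1) (nat_lit 0) (nat_lit 1) (nat_lit 0) (nat_lit 250) (nat_lit 324) (nat_lit 146))) (XT.nd (nat_lit 94) (nat_lit 0) (nat_lit 0) (XT.lf (nat_lit 0) (nat_lit 64695035305) (nat_lit 0) (nat_lit 0) (nat_lit 0) (nat_lit 0) (nat_lit 0) (nat_lit 0) (nat_lit 1) (nat_lit 0) (nat_lit 1) (nat_lit 0) (nat_lit 251) (nat_lit 324) (nat_lit 145)) (XT.lf (nat_lit 0) (nat_lit 64694539059) (nat_lit 0) (nat_lit 0) (nat_lit 0) (nat_lit 0) (nat_lit 0) (nat_lit 0) (nat_lit 1) (nat_lit 0) (nat_lit 1) (nat_lit 0) (nat_lit 252) (nat_lit 324) (nat_lit 144)))))) (XT.nd (nat_lit 6674) (nat_lit 0) (nat_lit 0) (XT.nd (nat_lit 6298) (nat_lit 0) (nat_lit 0) (XT.nd (nat_lit 94) (nat_lit 0) (nat_lit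 0) (XT.lf (nat_lit 0) (nat_lit 64694066443) (nat_lit 0) (nat_lit 0) (nat_lit 0) (nat_lit 0) (nat_lit 0) (nat_lit 0) (nat_lit 1) (nat_lit 0) (nat_lit 1) (nat_lit 0) (nat_lit 253) (nat_lit 324) (nat_lit 143)) (XT.nd (nat_lit 6110) (nat_lit 0) (nat_lit 0) (XT.lf (nat_lit 0) (nat_lit 64693616334) (nat_lit 0) (nat_lit 0) (nat_lit 0) (nat_lit 0) (nat_lit 0) (nat_lit 0) (nat_lit 1) (nat_lit 0) (nat_lit 1) (nat_lit 0) (nat_lit 254) (nat_lit 324) (nat_lit 142)) (XT.lf (nat_lit 0) (nat_lit 64684991746) (nat_lit 0) (nat_lit 0) (nat_lit 0) (nat_lit 0) (nat_lit 0) (nat_lit 0) (nat_lit 1) (nat_lit 0) (nat_lit 1) (nat_lit 0) (nat_lit 319) (nat_lit 324) (nat_lit 77)))) (XT.nd (nat_lit 188) (nat_lit 0) (nat_lit 0) (XT.nd (nat_lit 94) (nat_lit 0) (nat_lit 0) (XT.lf (nat_lit 0) (nat_lit 64684973765) (nat_lit 0) (nat_lit 0) (nat_lit 0) (nat_lit 0) (nat_lit 0) (nat_lit 0) (nat_lit 1) (nat_lit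 0) (nat_lit 1) (nat_lit 0) (nat_lit 320) (nat_lit 324) (nat_lit 76)) (XT.lf (nat_lit 0) (nat_lit 64684956639) (nat_lit 0) (nat_lit 0) (nat_lit 0) (nat_lit 0) (nat_lit 0) (nat_lit 0) (nat_lit 1) (nat_lit 0) (nat_lit 1) (nat_lit 0) (nat_lit 321) (nat_lit 324) (nat_lit 75))) (XT.nd (nat_lit 94) (nat_lit 0) (nat_lit 0) (XT.lf (nat_lit 0) (nat_lit 64684940330) (nat_lit 0) (nat_lit 0) (nat_lit 0) (nat_lit 0) (nat_lit 0) (nat_lit 0) (nat_lit 1) (nat_lit 0) (nat_lit 1) (nat_lit 0) (nat_lit 322) (nat_lit 324) (nat_lit 74)) (XT.lf (nat_lit 0) (nat_lit 64684924797) (nat_lit 0) (nat_lit 0) (nat_lit 0) (nat_lit 0) (nat_lit 0) (nat_lit 0) (nat_lit 1) (nat_lit 0) (nat_lit 1) (nat_lit 0) (nat_lit 323) (nat_lit 324) (nat_lit 73))))) (XT.nd (nat_lit 282) (nat_lit 0) (nat_lit 0) (XT.nd (nat_lit 94) (nat_lit 0) (nat_lit 0) (XT.lf (nat_lit 0) (nat_lit 64684910003) (nat_lit 0) (nat_lit 0) (nat_lit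 0) (nat_lit 0) (nat_lit 0) (nat_lit 0) (nat_lit 1) (nat_lit 0) (nat_lit 1) (nat_lit 0) (nat_lit 324) (nat_lit 324) (nat_lit 72)) (XT.nd (nat_lit 94) (nat_lit 0) (nat_lit 0) (XT.lf (nat_lit 0) (nat_lit 64684895914) (nat_lit 0) (nat_lit 0) (nat_lit 0) (nat_lit 0) (nat_lit 0) (nat_lit 0) (nat_lit 1) (nat_lit 0) (nat_lit 1) (nat_lit 0) (nat_lit 325) (nat_lit 324) (nat_lit 71)) (XT.lf (nat_lit 0) (nat_lit 64684882496) (nat_lit 0) (nat_lit 0) (nat_lit 0) (nat_lit 0) (nat_lit 0) (nat_lit 0) (nat_lit 1) (nat_lit 0) (nat_lit 1) (nat_lit 0) (nat_lit 326) (nat_lit 324) (nat_lit 70)))) (XT.nd (nat_lit 21056) (nat_lit 0) (nat_lit 10752) (XT.nd (nat_lit 94) (nat_lit 0) (nat_lit 0) (XT.lf (nat_lit 0) (nat_lit 64684869717) (nat_lit 0) (nat_lit 0) (nat_lit 0) (nat_lit 0) (nat_lit 0) (nat_lit 0) (nat_lit 1) (nat_lit 0) (nat_lit 1) (nat_lit 0) (nat_lit 327) (nat_lit 324) (nat_lit 69)) (XT.lf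 (nat_lit 0) (nat_lit 64684857547) (nat_lit 0) (nat_lit 0) (nat_lit 0) (nat_lit 0) (nat_lit 0) (nat_lit 0) (nat_lit 1) (nat_lit 0) (nat_lit 1) (nat_lit 0) (nat_lit 328) (nat_lit 324) (nat_lit 68))) (XT.nd (nat_lit 94) (nat_lit 0) (nat_lit 0) (XT.lf (nat_lit 924) (nat_lit 33989134036) (nat_lit 0) (nat_lit 60347629354) (nat_lit 924) (nat_lit 33989134036) (nat_lit 139) (nat_lit 1) (nat_lit 128) (nat_lit 0) (nat_lit 139) (nat_lit 0) (nat_lit 70) (nat_lit 325) (nat_lit 325)) (XT.lf (nat_lit 924) (nat_lit 131746126900) (nat_lit 84) (nat_lit 59374280493) (nat_lit 0) (nat_lit 59374280493) (nat_lit 139) (nat_lit 1) (nat_lit 129) (nat_lit 1) (nat_lit 128) (nat_lit 0) (nat_lit 71) (nat_lit 325) (nat_lit 324))))))) (XT.nd (nat_lit 7614) (nat_lit 756) (nat_lit 0) (XT.nd (nat_lit 6956) (nat_lit 504) (nat_lit 0) (XT.nd (nat_lit 282) (nat_lit 9576) (nat_lit 0) (XT.nd (nat_lit 94) (nat_lit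 0) (nat_lit 0) (XT.lf (nat_lit 924) (nat_lit 62788220380) (nat_lit 0) (nat_lit 118951489417) (nat_lit 840) (nat_lit 62788220380) (nat_lit 140) (nat_lit 1) (nat_lit 129) (nat_lit 1) (nat_lit 139) (nat_lit 1) (nat_lit 72) (nat_lit 325) (nat_lit 323)) (XT.nd (nat_lit 94) (nat_lit 0) (nat_lit 84) (XT.lf (nat_lit 924) (nat_lit 117781976790) (nat_lit 84) (nat_lit 60485983203) (nat_lit 0) (nat_lit 60485983203) (nat_lit 140) (nat_lit 1) (nat_lit 130) (nat_lit 1) (nat_lit 129) (nat_lit 1) (nat_lit 73) (nat_lit 325) (nat_lit 322)) (XT.lf (nat_lit 924) (nat_lit 54213912846) (nat_lit 0) (nat_lit 124735136948) (nat_lit 840) (nat_lit 54213912846) (nat_lit 141) (nat_lit 1) (nat_lit 130) (nat_lit 1) (nat_lit 140) (nat_lit 1) (nat_lit 74) (nat_lit 325) (nat_lit 321)))) (XT.nd (nat_lit 6486) (nat_lit 252) (nat_lit 0) (XT.nd (nat_lit 6392) (nat_lit 9408) (nat_lit 0) (XT.lf (nat_lit 924) (nat_lit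 97507253313) (nat_lit 84) (nat_lit 65117581611) (nat_lit 0) (nat_lit 65117581611) (nat_lit 141) (nat_lit 1) (nat_lit 131) (nat_lit 1) (nat_lit 130) (nat_lit 1) (nat_lit 75) (nat_lit 325) (nat_lit 320)) (XT.lf (nat_lit 0) (nat_lit 8952257496) (nat_lit 0) (nat_lit 44826234999) (nat_lit 168) (nat_lit 8952257496) (nat_lit 18) (nat_lit 3) (nat_lit 18) (nat_lit 1) (nat_lit 20) (nat_lit 1) (nat_lit 143) (nat_lit 325) (nat_lit 252))) (XT.nd (nat_lit 94) (nat_lit 84) (nat_lit 0) (XT.lf (nat_lit 84) (nat_lit 29773599068) (nat_lit 0) (nat_lit 2142484776) (nat_lit 168) (nat_lit 29773599068) (nat_lit 17) (nat_lit 1) (nat_lit 16) (nat_lit 1) (nat_lit 18) (nat_lit 1) (nat_lit 144) (nat_lit 325) (nat_lit 251)) (XT.lf (nat_lit 168) (nat_lit 39676951435) (nat_lit 0) (nat_lit 10496372614) (nat_lit 84) (nat_lit 10496372614) (nat_lit 17) (nat_lit 1) (nat_lit 15) (nat_lit 1) (nat_lit 16) (nat_lit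 1) (nat_lit 145) (nat_lit 325) (nat_lit 250))))) (XT.nd (nat_lit 282) (nat_lit 252) (nat_lit 0) (XT.nd (nat_lit 94) (nat_lit 252) (nat_lit 0) (XT.lf (nat_lit 0) (nat_lit 10051232565) (nat_lit 0) (nat_lit 39564842638) (nat_lit 168) (nat_lit 10051232565) (nat_lit 15) (nat_lit 3) (nat_lit 15) (nat_lit 1) (nat_lit 17) (nat_lit 1) (nat_lit 146) (nat_lit 325) (nat_lit 249)) (XT.nd (nat_lit 94) (nat_lit 168) (nat_lit 0) (XT.lf (nat_lit 84) (nat_lit 821954598) (nat_lit 0) (nat_lit 28930154667) (nat_lit 84) (nat_lit 28930154667) (nat_lit 15) (nat_lit 3) (nat_lit 14) (nat_lit 1) (nat_lit 15) (nat_lit 1) (nat_lit 147) (nat_lit 325) (nat_lit 248)) (XT.lf (nat_lit 168) (nat_lit 40445063198) (nat_lit 0) (nat_lit 8635391726) (nat_lit 84) (nat_lit 8635391726) (nat_lit 14) (nat_lit 1) (nat_lit 12) (nat_lit 1) (nat_lit 13) (nat_lit 1) (nat_lit 148) (nat_lit 325) (nat_lit 247)))) (XT.nd (nat_lit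 188) (nat_lit 168) (nat_lit 0) (XT.nd (nat_lit 94) (nat_lit 84) (nat_lit 0) (XT.lf (nat_lit 0) (nat_lit 10827448352) (nat_lit 0) (nat_lit 35108368399) (nat_lit 168) (nat_lit 10827448352) (nat_lit 12) (nat_lit 3) (nat_lit 12) (nat_lit 1) (nat_lit 14) (nat_lit 1) (nat_lit 149) (nat_lit 325) (nat_lit 246)) (XT.lf (nat_lit 84) (nat_lit 3193236037) (nat_lit 0) (nat_lit 26317921796) (nat_lit 84) (nat_lit 26317921796) (nat_lit 12) (nat_lit 3) (nat_lit 11) (nat_lit 1) (nat_lit 12) (nat_lit 1) (nat_lit 150) (nat_lit 325) (nat_lit 245))) (XT.nd (nat_lit 94) (nat_lit 0) (nat_lit 0) (XT.lf (nat_lit 168) (nat_lit 40705431739) (nat_lit 0) (nat_lit 7104358144) (nat_lit 84) (nat_lit 7104358144) (nat_lit 11) (nat_lit 1) (nat_lit 9) (nat_lit 1) (nat_lit 10) (nat_lit 1) (nat_lit 151) (nat_lit 325) (nat_lit 244)) (XT.lf (nat_lit 0) (nat_lit 11344220408) (nat_lit 0) (nat_lit 31320193421) (nat_lit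 168) (nat_lit 11344220408) (nat_lit 9) (nat_lit 3) (nat_lit 9) (nat_lit 1) (nat_lit 11) (nat_lit 1) (nat_lit 152) (nat_lit 325) (nat_lit 243)))))) (XT.nd (nat_lit 658) (nat_lit 168) (nat_lit 0) (XT.nd (nat_lit 282) (nat_lit 336) (nat_lit 0) (XT.nd (nat_lit 94) (nat_lit 168) (nat_lit 0) (XT.lf (nat_lit 84) (nat_lit 5024237433) (nat_lit 0) (nat_lit 24048973635) (nat_lit 84) (nat_lit 24048973635) (nat_lit 9) (nat_lit 3) (nat_lit 8) (nat_lit 1) (nat_lit 9) (nat_lit 1) (nat_lit 153) (nat_lit 325) (nat_lit 242)) (XT.nd (nat_lit 94) (nat_lit 0) (nat_lit 0) (XT.lf (nat_lit 168) (nat_lit 40565771955) (nat_lit 0) (nat_lit 5844773026) (nat_lit 84) (nat_lit 5844773026) (nat_lit 8) (nat_lit 1) (nat_lit 6) (nat_lit 1) (nat_lit 7) (nat_lit 1) (nat_lit 154) (nat_lit 325) (nat_lit 241)) (XT.lf (nat_lit 0) (nat_lit 11653348541) (nat_lit 0) (nat_lit 28087630975) (nat_lit 168) (nat_lit 11653348541)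 (nat_lit 6) (nat_lit 3) (nat_lit 6) (nat_lit 1) (nat_lit 8) (nat_lit 1) (nat_lit 155) (nat_lit 325) (nat_lit 240)))) (XT.nd (nat_lit 188) (nat_lit 84) (nat_lit 0) (XT.nd (nat_lit 94) (nat_lit 168) (nat_lit 0) (XT.lf (nat_lit 84) (nat_lit 6416456611) (nat_lit 0) (nat_lit 22068154167) (nat_lit 84) (nat_lit 22068154167) (nat_lit 6) (nat_lit 3) (nat_lit 5) (nat_lit 1) (nat_lit 6) (nat_lit 1) (nat_lit 156) (nat_lit 325) (nat_lit 239)) (XT.lf (nat_lit 168) (nat_lit 40113858623) (nat_lit 0) (nat_lit 4808509233) (nat_lit 84) (nat_lit 4808509233) (nat_lit 5) (nat_lit 1) (nat_lit 3) (nat_lit 1) (nat_lit 4) (nat_lit 1) (nat_lit 157) (nat_lit 325) (nat_lit 238))) (XT.nd (nat_lit 94) (nat_lit 84) (nat_lit 0) (XT.lf (nat_lit 0) (nat_lit 11797172338) (nat_lit 0) (nat_lit 25317697168) (nat_lit 168) (nat_lit 11797172338) (nat_lit 3) (nat_lit 3) (nat_lit 3) (nat_lit 1) (nat_lit 5) (nat_lit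 1) (nat_lit 158) (nat_lit 325) (nat_lit 237)) (XT.lf (nat_lit 84) (nat_lit 7453124295) (nat_lit 0) (nat_lit 20329814610) (nat_lit 84) (nat_lit 20329814610) (nat_lit 3) (nat_lit 3) (nat_lit 2) (nat_lit 1) (nat_lit 3) (nat_lit 1) (nat_lit 159) (nat_lit 325) (nat_lit 236))))) (XT.nd (nat_lit 282) (nat_lit 0) (nat_lit 0) (XT.nd (nat_lit 94) (nat_lit 0) (nat_lit 0) (XT.lf (nat_lit 0) (nat_lit 68760149657) (nat_lit 0) (nat_lit 0) (nat_lit 0) (nat_lit 0) (nat_lit 0) (nat_lit 0) (nat_lit 1) (nat_lit 0) (nat_lit 1) (nat_lit 0) (nat_lit 160) (nat_lit 325) (nat_lit 235)) (XT.nd (nat_lit 94) (nat_lit 0) (nat_lit 0) (XT.lf (nat_lit 0) (nat_lit 68720087523) (nat_lit 0) (nat_lit 0) (nat_lit 0) (nat_lit 0) (nat_lit 0) (nat_lit 0) (nat_lit 1) (nat_lit 0) (nat_lit 1) (nat_lit 0) (nat_lit 161) (nat_lit 325) (nat_lit 234)) (XT.lf (nat_lit 0) (nat_lit 68681933110) (nat_lit 0) (nat_lit 0) (nat_lit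 0) (nat_lit 0) (nat_lit 0) (nat_lit 0) (nat_lit 1) (nat_lit 0) (nat_lit 1) (nat_lit 0) (nat_lit 162) (nat_lit 325) (nat_lit 233)))) (XT.nd (nat_lit 6392) (nat_lit 0) (nat_lit 0) (XT.nd (nat_lit 94) (nat_lit 0) (nat_lit 0) (XT.lf (nat_lit 0) (nat_lit 68645595573) (nat_lit 0) (nat_lit 0) (nat_lit 0) (nat_lit 0) (nat_lit 0) (nat_lit 0) (nat_lit 1) (nat_lit 0) (nat_lit 1) (nat_lit 0) (nat_lit 163) (nat_lit 325) (nat_lit 232)) (XT.lf (nat_lit 0) (nat_lit 68610988396) (nat_lit 0) (nat_lit 0) (nat_lit 0) (nat_lit 0) (nat_lit 0) (nat_lit 0) (nat_lit 1) (nat_lit 0) (nat_lit 1) (nat_lit 0) (nat_lit 164) (nat_lit 325) (nat_lit 231))) (XT.nd (nat_lit 94) (nat_lit 0) (nat_lit 0) (XT.lf (nat_lit 0) (nat_lit 67945178619) (nat_lit 0) (nat_lit 0) (nat_lit 0) (nat_lit 0) (nat_lit 0) (nat_lit 0) (nat_lit 1) (nat_lit 0) (nat_lit 1) (nat_lit 0) (nat_lit 231) (nat_lit 325) (nat_lit 164)) (XT.lf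 (nat_lit 0) (nat_lit 67943924629) (nat_lit 0) (nat_lit 0) (nat_lit 0) (nat_lit 0) (nat_lit 0) (nat_lit 0) (nat_lit 1) (nat_lit 0) (nat_lit 1) (nat_lit 0) (nat_lit 232) (nat_lit 325) (nat_lit 163))))))))
noncomputable def ec252 : XT := (XT.nd (nat_lit 8836) (nat_lit 0) (nat_lit 0) (XT.nd (nat_lit 1222) (nat_lit 0) (nat_lit 0) (XT.nd (nat_lit 564) (nat_lit 0) (nat_lit 0) (XT.nd (nat_lit 282) (nat_lit 0) (nat_lit 0) (XT.nd (nat_lit 94) (nat_lit 0) (nat_lit 0) (XT.lf (nat_lit 0) (nat_lit 67942730354) (nat_lit 0) (nat_lit 0) (nat_lit 0) (nat_lit 0) (nat_lit 0) (nat_lit 0) (nat_lit 1) (nat_lit 0) (nat_lit 1) (nat_lit 0) (nat_lit 233) (nat_lit 325) (nat_lit 162)) (XT.nd (nat_lit 94) (nat_lit 0) (nat_lit 0) (XT.lf (nat_lit 0) (nat_lit 67941592948) (nat_lit 0) (nat_lit 0) (nat_lit 0) (nat_lit 0) (nat_lit 0) (nat_lit 0) (nat_lit 1) (nat_lit 0) (nat_lit 1) (nat_lit 0) (nat_lit 234)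 (nat_lit 325) (nat_lit 161)) (XT.lf (nat_lit 0) (nat_lit 67940509705) (nat_lit 0) (nat_lit 0) (nat_lit 0) (nat_lit 0) (nat_lit 0) (nat_lit 0) (nat_lit 1) (nat_lit 0) (nat_lit 1) (nat_lit 0) (nat_lit 235) (nat_lit 325) (nat_lit 160)))) (XT.nd (nat_lit 94) (nat_lit 0) (nat_lit 0) (XT.lf (nat_lit 0) (nat_lit 67939478045) (nat_lit 0) (nat_lit 0) (nat_lit 0) (nat_lit 0) (nat_lit 0) (nat_lit 0) (nat_lit 1) (nat_lit 0) (nat_lit 1) (nat_lit 0) (nat_lit 236) (nat_lit 325) (nat_lit 159)) (XT.nd (nat_lit 94) (nat_lit 0) (nat_lit 0) (XT.lf (nat_lit 0) (nat_lit 67938495512) (nat_lit 0) (nat_lit 0) (nat_lit 0) (nat_lit 0) (nat_lit 0) (nat_lit 0) (nat_lit 1) (nat_lit 0) (nat_lit 1) (nat_lit 0) (nat_lit 237) (nat_lit 325) (nat_lit 158)) (XT.lf (nat_lit 0) (nat_lit 67937559765) (nat_lit 0) (nat_lit 0) (nat_lit 0) (nat_lit 0) (nat_lit 0) (nat_lit 0) (nat_lit 1) (nat_lit 0) (nat_lit 1) (nat_lit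 0) (nat_lit 238) (nat_lit 325) (nat_lit 157))))) (XT.nd (nat_lit 282) (nat_lit 0) (nat_lit 0) (XT.nd (nat_lit 94) (nat_lit 0) (nat_lit 0) (XT.lf (nat_lit 0) (nat_lit 67936668579) (nat_lit 0) (nat_lit 0) (nat_lit 0) (nat_lit 0) (nat_lit 0) (nat_lit 0) (nat_lit 1) (nat_lit 0) (nat_lit 1) (nat_lit 0) (nat_lit 239) (nat_lit 325) (nat_lit 156)) (XT.nd (nat_lit 94) (nat_lit 0) (nat_lit 0) (XT.lf (nat_lit 0) (nat_lit 67935819829) (nat_lit 0) (nat_lit 0) (nat_lit 0) (nat_lit 0) (nat_lit 0) (nat_lit 0) (nat_lit 1) (nat_lit 0) (nat_lit 1) (nat_lit 0) (nat_lit 240) (nat_lit 325) (nat_lit 155)) (XT.lf (nat_lit 0) (nat_lit 67935011497) (nat_lit 0) (nat_lit 0) (nat_lit 0) (nat_lit 0) (nat_lit 0) (nat_lit 0) (nat_lit 1) (nat_lit 0) (nat_lit 1) (nat_lit 0) (nat_lit 241) (nat_lit 325) (nat_lit 154)))) (XT.nd (nat_lit 188) (nat_lit 0) (nat_lit 0) (XT.nd (nat_lit 94) (nat_lit 0) (nat_lit 0)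 (XT.lf (nat_lit 0) (nat_lit 67934241656) (nat_lit 0) (nat_lit 0) (nat_lit 0) (nat_lit 0) (nat_lit 0) (nat_lit 0) (nat_lit 1) (nat_lit 0) (nat_lit 1) (nat_lit 0) (nat_lit 242) (nat_lit 325) (nat_lit 153)) (XT.lf (nat_lit 0) (nat_lit 67933508474) (nat_lit 0) (nat_lit 0) (nat_lit 0) (nat_lit 0) (nat_lit 0) (nat_lit 0) (nat_lit 1) (nat_lit 0) (nat_lit 1) (nat_lit 0) (nat_lit 243) (nat_lit 325) (nat_lit 152))) (XT.nd (nat_lit 94) (nat_lit 0) (nat_lit 0) (XT.lf (nat_lit 0) (nat_lit 67932810206) (nat_lit 0) (nat_lit 0) (nat_lit 0) (nat_lit 0) (nat_lit 0) (nat_lit 0) (nat_lit 1) (nat_lit 0) (nat_lit 1) (nat_lit 0) (nat_lit 244) (nat_lit 325) (nat_lit 151)) (XT.lf (nat_lit 0) (nat_lit 67932145189) (nat_lit 0) (nat_lit 0) (nat_lit 0) (nat_lit 0) (nat_lit 0) (nat_lit 0) (nat_lit 1) (nat_lit 0) (nat_lit 1) (nat_lit 0) (nat_lit 245) (nat_lit 325) (nat_lit 150)))))) (XT.nd (nat_lit 6956)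 (nat_lit 0) (nat_lit 0) (XT.nd (nat_lit 282) (nat_lit 0) (nat_lit 0) (XT.nd (nat_lit 94) (nat_lit 0) (nat_lit 0) (XT.lf (nat_lit 0) (nat_lit 67931511839) (nat_lit 0) (nat_lit 0) (nat_lit 0) (nat_lit 0) (nat_lit 0) (nat_lit 0) (nat_lit 1) (nat_lit 0) (nat_lit 1) (nat_lit 0) (nat_lit 246) (nat_lit 325) (nat_lit 149)) (XT.nd (nat_lit 94) (nat_lit 0) (nat_lit 0) (XT.lf (nat_lit 0) (nat_lit 67930908649) (nat_lit 0) (nat_lit 0) (nat_lit 0) (nat_lit 0) (nat_lit 0) (nat_lit 0) (nat_lit 1) (nat_lit 0) (nat_lit 1) (nat_lit 0) (nat_lit 247) (nat_lit 325) (nat_lit 148)) (XT.lf (nat_lit 0) (nat_lit 67930334182) (nat_lit 0) (nat_lit 0) (nat_lit 0) (nat_lit 0) (nat_lit 0) (nat_lit 0) (nat_lit 1) (nat_lit 0) (nat_lit 1) (nat_lit 0) (nat_lit 248) (nat_lit 325) (nat_lit 147)))) (XT.nd (nat_lit 188) (nat_lit 0) (nat_lit 0) (XT.nd (nat_lit 94) (nat_lit 0) (nat_lit 0) (XT.lf (nat_lit 0) (nat_lit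 67929787070) (nat_lit 0) (nat_lit 0) (nat_lit 0) (nat_lit 0) (nat_lit 0) (nat_lit 0) (nat_lit 1) (nat_lit 0) (nat_lit 1) (nat_lit 0) (nat_lit 249) (nat_lit 325) (nat_lit 146)) (XT.lf (nat_lit 0) (nat_lit 67929266012) (nat_lit 0) (nat_lit 0) (nat_lit 0) (nat_lit 0) (nat_lit 0) (nat_lit 0) (nat_lit 1) (nat_lit 0) (nat_lit 1) (nat_lit 0) (nat_lit 250) (nat_lit 325) (nat_lit 145))) (XT.nd (nat_lit 94) (nat_lit 0) (nat_lit 0) (XT.lf (nat_lit 0) (nat_lit 67928769766) (nat_lit 0) (nat_lit 0) (nat_lit 0) (nat_lit 0) (nat_lit 0) (nat_lit 0) (nat_lit 1) (nat_lit 0) (nat_lit 1) (nat_lit 0) (nat_lit 251) (nat_lit 325) (nat_lit 144)) (XT.lf (nat_lit 0) (nat_lit 67928297150) (nat_lit 0) (nat_lit 0) (nat_lit 0) (nat_lit 0) (nat_lit 0) (nat_lit 0) (nat_lit 1) (nat_lit 0) (nat_lit 1) (nat_lit 0) (nat_lit 252) (nat_lit 325) (nat_lit 143))))) (XT.nd (nat_lit 282) (nat_lit 0) (nat_lit 0) (XT.nd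 (nat_lit 94) (nat_lit 0) (nat_lit 0) (XT.lf (nat_lit 0) (nat_lit 67919187346) (nat_lit 0) (nat_lit 0) (nat_lit 0) (nat_lit 0) (nat_lit 0) (nat_lit 0) (nat_lit 1) (nat_lit 0) (nat_lit 1) (nat_lit 0) (nat_lit 320) (nat_lit 325) (nat_lit 75)) (XT.nd (nat_lit 94) (nat_lit 0) (nat_lit 0) (XT.lf (nat_lit 0) (nat_lit 67919171036) (nat_lit 0) (nat_lit 0) (nat_lit 0) (nat_lit 0) (nat_lit 0) (nat_lit 0) (nat_lit 1) (nat_lit 0) (nat_lit 1) (nat_lit 0) (nat_lit 321) (nat_lit 325) (nat_lit 74)) (XT.lf (nat_lit 0) (nat_lit 67919155503) (nat_lit 0) (nat_lit 0) (nat_lit 0) (nat_lit 0) (nat_lit 0) (nat_lit 0) (nat_lit 1) (nat_lit 0) (nat_lit 1) (nat_lit 0) (nat_lit 322) (nat_lit 325) (nat_lit 73)))) (XT.nd (nat_lit 188) (nat_lit 0) (nat_lit 0) (XT.nd (nat_lit 94) (nat_lit 0) (nat_lit 0) (XT.lf (nat_lit 0) (nat_lit 67919140710) (nat_lit 0) (nat_lit 0) (nat_lit 0) (nat_lit 0) (nat_lit 0) (nat_lit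 0) (nat_lit 1) (nat_lit 0) (nat_lit 1) (nat_lit 0) (nat_lit 323) (nat_lit 325) (nat_lit 72)) (XT.lf (nat_lit 0) (nat_lit 67919126621) (nat_lit 0) (nat_lit 0) (nat_lit 0) (nat_lit 0) (nat_lit 0) (nat_lit 0) (nat_lit 1) (nat_lit 0) (nat_lit 1) (nat_lit 0) (nat_lit 324) (nat_lit 325) (nat_lit 71))) (XT.nd (nat_lit 94) (nat_lit 0) (nat_lit 0) (XT.lf (nat_lit 0) (nat_lit 67919113203) (nat_lit 0) (nat_lit 0) (nat_lit 0) (nat_lit 0) (nat_lit 0) (nat_lit 0) (nat_lit 1) (nat_lit 0) (nat_lit 1) (nat_lit 0) (nat_lit 325) (nat_lit 325) (nat_lit 70)) (XT.lf (nat_lit 0) (nat_lit 67919100424) (nat_lit 0) (nat_lit 0) (nat_lit 0) (nat_lit 0) (nat_lit 0) (nat_lit 0) (nat_lit 1) (nat_lit 0) (nat_lit 1) (nat_lit 0) (nat_lit 326) (nat_lit 325) (nat_lit 69))))))) (XT.nd (nat_lit 28388) (nat_lit 0) (nat_lit 0) (XT.nd (nat_lit 21150) (nat_lit 0) (nat_lit 1008) (XT.nd (nat_lit 20868) (nat_lit 0)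 (nat_lit 10752) (XT.nd (nat_lit 94) (nat_lit 0) (nat_lit 0) (XT.lf (nat_lit 0) (nat_lit 67919088253) (nat_lit 0) (nat_lit 0) (nat_lit 0) (nat_lit 0) (nat_lit 0) (nat_lit 0) (nat_lit 1) (nat_lit 0) (nat_lit 1) (nat_lit 0) (nat_lit 327) (nat_lit 325) (nat_lit 68)) (XT.nd (nat_lit 94) (nat_lit 0) (nat_lit 0) (XT.lf (nat_lit 0) (nat_lit 67919076662) (nat_lit 0) (nat_lit 0) (nat_lit 0) (nat_lit 0) (nat_lit 0) (nat_lit 0) (nat_lit 1) (nat_lit 0) (nat_lit 1) (nat_lit 0) (nat_lit 328) (nat_lit 325) (nat_lit 67)) (XT.lf (nat_lit 0) (nat_lit 67919065623) (nat_lit 0) (nat_lit 0) (nat_lit 0) (nat_lit 0) (nat_lit 0) (nat_lit 0) (nat_lit 1) (nat_lit 0) (nat_lit 1) (nat_lit 0) (nat_lit 329) (nat_lit 325) (nat_lit 66)))) (XT.nd (nat_lit 94) (nat_lit 0) (nat_lit 0) (XT.lf (nat_lit 924) (nat_lit 35688590738) (nat_lit 0) (nat_lit 63365010822) (nat_lit 924) (nat_lit 35688590738) (nat_lit 139)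 (nat_lit 1) (nat_lit 128) (nat_lit 0) (nat_lit 139) (nat_lit 0) (nat_lit 68) (nat_lit 326) (nat_lit 326)) (XT.nd (nat_lit 94) (nat_lit 0) (nat_lit 84) (XT.lf (nat_lit 924) (nat_lit 138333433245) (nat_lit 84) (nat_lit 62342994518) (nat_lit 0) (nat_lit 62342994518) (nat_lit 139) (nat_lit 1) (nat_lit 129) (nat_lit 1) (nat_lit 128) (nat_lit 0) (nat_lit 69) (nat_lit 326) (nat_lit 325)) (XT.lf (nat_lit 924) (nat_lit 65927631399) (nat_lit 0) (nat_lit 124899063887) (nat_lit 840) (nat_lit 65927631399) (nat_lit 140) (nat_lit 1) (nat_lit 129) (nat_lit 1) (nat_lit 139) (nat_lit 1) (nat_lit 70) (nat_lit 326) (nat_lit 324))))) (XT.nd (nat_lit 6862) (nat_lit 9828) (nat_lit 0) (XT.nd (nat_lit 94) (nat_lit 0) (nat_lit 84) (XT.lf (nat_lit 924) (nat_lit 123671075630) (nat_lit 84) (nat_lit 63510282363) (nat_lit 0) (nat_lit 63510282363) (nat_lit 140) (nat_lit 1) (nat_lit 130) (nat_lit 1) (nat_lit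 129) (nat_lit 1) (nat_lit 71) (nat_lit 326) (nat_lit 323)) (XT.nd (nat_lit 94) (nat_lit 0) (nat_lit 0) (XT.lf (nat_lit 924) (nat_lit 56924608488) (nat_lit 0) (nat_lit 130971893795) (nat_lit 840) (nat_lit 56924608488) (nat_lit 141) (nat_lit 1) (nat_lit 130) (nat_lit 1) (nat_lit 140) (nat_lit 1) (nat_lit 72) (nat_lit 326) (nat_lit 322)) (XT.lf (nat_lit 924) (nat_lit 102382615979) (nat_lit 84) (nat_lit 68373460692) (nat_lit 0) (nat_lit 68373460692) (nat_lit 141) (nat_lit 1) (nat_lit 131) (nat_lit 1) (nat_lit 130) (nat_lit 1) (nat_lit 73) (nat_lit 326) (nat_lit 321)))) (XT.nd (nat_lit 188) (nat_lit 168) (nat_lit 0) (XT.nd (nat_lit 94) (nat_lit 84) (nat_lit 0) (XT.lf (nat_lit 0) (nat_lit 10553794193) (nat_lit 0) (nat_lit 41543084770) (nat_lit 168) (nat_lit 10553794193) (nat_lit 15) (nat_lit 3) (nat_lit 15) (nat_lit 1) (nat_lit 17) (nat_lit 1) (nat_lit 144) (nat_lit 326) (nat_lit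 250)) (XT.lf (nat_lit 84) (nat_lit 863052328) (nat_lit 0) (nat_lit 30376662401) (nat_lit 84) (nat_lit 30376662401) (nat_lit 15) (nat_lit 3) (nat_lit 14) (nat_lit 1) (nat_lit 15) (nat_lit 1) (nat_lit 145) (nat_lit 326) (nat_lit 249))) (XT.nd (nat_lit 94) (nat_lit 0) (nat_lit 0) (XT.lf (nat_lit 168) (nat_lit 42467316358) (nat_lit 0) (nat_lit 9067161312) (nat_lit 84) (nat_lit 9067161312) (nat_lit 14) (nat_lit 1) (nat_lit 12) (nat_lit 1) (nat_lit 13) (nat_lit 1) (nat_lit 146) (nat_lit 326) (nat_lit 248)) (XT.lf (nat_lit 0) (nat_lit 11368820769) (nat_lit 0) (nat_lit 36863786819) (nat_lit 168) (nat_lit 11368820769) (nat_lit 12) (nat_lit 3) (nat_lit 12) (nat_lit 1) (nat_lit 14) (nat_lit 1) (nat_lit 147) (nat_lit 326) (nat_lit 247)))))) (XT.nd (nat_lit 658) (nat_lit 420) (nat_lit 0) (XT.nd (nat_lit 282) (nat_lit 336) (nat_lit 0) (XT.nd (nat_lit 94) (nat_lit 168) (nat_lit 0) (XT.lf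 (nat_lit 84) (nat_lit 3352897839) (nat_lit 0) (nat_lit 27633817886) (nat_lit 84) (nat_lit 27633817886) (nat_lit 12) (nat_lit 3) (nat_lit 11) (nat_lit 1) (nat_lit 12) (nat_lit 1) (nat_lit 148) (nat_lit 326) (nat_lit 246)) (XT.nd (nat_lit 94) (nat_lit 0) (nat_lit 0) (XT.lf (nat_lit 168) (nat_lit 42740703326) (nat_lit 0) (nat_lit 7459576051) (nat_lit 84) (nat_lit 7459576051) (nat_lit 11) (nat_lit 1) (nat_lit 9) (nat_lit 1) (nat_lit 10) (nat_lit 1) (nat_lit 149) (nat_lit 326) (nat_lit 245)) (XT.lf (nat_lit 0) (nat_lit 11911431428) (nat_lit 0) (nat_lit 32886203092) (nat_lit 168) (nat_lit 11911431428) (nat_lit 9) (nat_lit 3) (nat_lit 9) (nat_lit 1) (nat_lit 11) (nat_lit 1) (nat_lit 150) (nat_lit 326) (nat_lit 244)))) (XT.nd (nat_lit 188) (nat_lit 84) (nat_lit 0) (XT.nd (nat_lit 94) (nat_lit 168) (nat_lit 0) (XT.lf (nat_lit 84) (nat_lit 5275449304) (nat_lit 0) (nat_lit 25251422317)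 (nat_lit 84) (nat_lit 25251422317) (nat_lit 9) (nat_lit 3) (nat_lit 8) (nat_lit 1) (nat_lit 9) (nat_lit 1) (nat_lit 151) (nat_lit 326) (nat_lit 243)) (XT.lf (nat_lit 168) (nat_lit 42594060553) (nat_lit 0) (nat_lit 6137011678) (nat_lit 84) (nat_lit 6137011678) (nat_lit 8) (nat_lit 1) (nat_lit 6) (nat_lit 1) (nat_lit 7) (nat_lit 1) (nat_lit 152) (nat_lit 326) (nat_lit 242))) (XT.nd (nat_lit 94) (nat_lit 84) (nat_lit 0) (XT.lf (nat_lit 0) (nat_lit 12236015968) (nat_lit 0) (nat_lit 29492012523) (nat_lit 168) (nat_lit 12236015968) (nat_lit 6) (nat_lit 3) (nat_lit 6) (nat_lit 1) (nat_lit 8) (nat_lit 1) (nat_lit 153) (nat_lit 326) (nat_lit 241)) (XT.lf (nat_lit 84) (nat_lit 6737279441) (nat_lit 0) (nat_lit 23171561875) (nat_lit 84) (nat_lit 23171561875) (nat_lit 6) (nat_lit 3) (nat_lit 5) (nat_lit 1) (nat_lit 6) (nat_lit 1) (nat_lit 154) (nat_lit 326) (nat_lit 240))))) (XT.nd (nat_lit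 282) (nat_lit 168) (nat_lit 0) (XT.nd (nat_lit 94) (nat_lit 84) (nat_lit 0) (XT.lf (nat_lit 168) (nat_lit 42119551555) (nat_lit 0) (nat_lit 5048934695) (nat_lit 84) (nat_lit 5048934695) (nat_lit 5) (nat_lit 1) (nat_lit 3) (nat_lit 1) (nat_lit 4) (nat_lit 1) (nat_lit 155) (nat_lit 326) (nat_lit 239)) (XT.nd (nat_lit 94) (nat_lit 84) (nat_lit 0) (XT.lf (nat_lit 0) (nat_lit 12387030955) (nat_lit 0) (nat_lit 26583582026) (nat_lit 168) (nat_lit 12387030955) (nat_lit 3) (nat_lit 3) (nat_lit 3) (nat_lit 1) (nat_lit 5) (nat_lit 1) (nat_lit 156) (nat_lit 326) (nat_lit 238)) (XT.lf (nat_lit 84) (nat_lit 7825780510) (nat_lit 0) (nat_lit 21346305340) (nat_lit 84) (nat_lit 21346305340) (nat_lit 3) (nat_lit 3) (nat_lit 2) (nat_lit 1) (nat_lit 3) (nat_lit 1) (nat_lit 157) (nat_lit 326) (nat_lit 237)))) (XT.nd (nat_lit 188) (nat_lit 0) (nat_lit 0) (XT.nd (nat_lit 94) (nat_lit 0) (nat_lit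 0) (XT.lf (nat_lit 0) (nat_lit 72198157140) (nat_lit 0) (nat_lit 0) (nat_lit 0) (nat_lit 0) (nat_lit 0) (nat_lit 0) (nat_lit 1) (nat_lit 0) (nat_lit 1) (nat_lit 0) (nat_lit 158) (nat_lit 326) (nat_lit 236)) (XT.lf (nat_lit 0) (nat_lit 72156091900) (nat_lit 0) (nat_lit 0) (nat_lit 0) (nat_lit 0) (nat_lit 0) (nat_lit 0) (nat_lit 1) (nat_lit 0) (nat_lit 1) (nat_lit 0) (nat_lit 159) (nat_lit 326) (nat_lit 235))) (XT.nd (nat_lit 94) (nat_lit 0) (nat_lit 0) (XT.lf (nat_lit 0) (nat_lit 72116029766) (nat_lit 0) (nat_lit 0) (nat_lit 0) (nat_lit 0) (nat_lit 0) (nat_lit 0) (nat_lit 1) (nat_lit 0) (nat_lit 1) (nat_lit 0) (nat_lit 160) (nat_lit 326) (nat_lit 234)) (XT.lf (nat_lit 0) (nat_lit 72077875352) (nat_lit 0) (nat_lit 0) (nat_lit 0) (nat_lit 0) (nat_lit 0) (nat_lit 0) (nat_lit 1) (nat_lit 0) (nat_lit 1) (nat_lit 0) (nat_lit 161) (nat_lit 326) (nat_lit 233))))))))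
noncomputable def ec253 : XT := (XT.nd (nat_lit 29516) (nat_lit 0) (nat_lit 0) (XT.nd (nat_lit 1222) (nat_lit 0) (nat_lit 0) (XT.nd (nat_lit 564) (nat_lit 0) (nat_lit 0) (XT.nd (nat_lit 282) (nat_lit 0) (nat_lit 0) (XT.nd (nat_lit 94) (nat_lit 0) (nat_lit 0) (XT.lf (nat_lit 0) (nat_lit 71337535190) (nat_lit 0) (nat_lit 0) (nat_lit 0) (nat_lit 0) (nat_lit 0) (nat_lit 0) (nat_lit 1) (nat_lit 0) (nat_lit 1) (nat_lit 0) (nat_lit 233) (nat_lit 326) (nat_lit 161)) (XT.nd (nat_lit 94) (nat_lit 0) (nat_lit 0) (XT.lf (nat_lit 0) (nat_lit 71336451947) (nat_lit 0) (nat_lit 0) (nat_lit 0) (nat_lit 0) (nat_lit 0) (nat_lit 0) (nat_lit 1) (nat_lit 0) (nat_lit 1) (nat_lit 0) (nat_lit 234) (nat_lit 326) (nat_lit 160)) (XT.lf (nat_lit 0) (nat_lit 71335420287) (nat_lit 0) (nat_lit 0) (nat_lit 0) (nat_lit 0) (nat_lit 0) (nat_lit 0) (nat_lit 1) (nat_lit 0) (nat_lit 1) (nat_lit 0) (nat_lit 235)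 (nat_lit 326) (nat_lit 159)))) (XT.nd (nat_lit 94) (nat_lit 0) (nat_lit 0) (XT.lf (nat_lit 0) (nat_lit 71334437754) (nat_lit 0) (nat_lit 0) (nat_lit 0) (nat_lit 0) (nat_lit 0) (nat_lit 0) (nat_lit 1) (nat_lit 0) (nat_lit 1) (nat_lit 0) (nat_lit 236) (nat_lit 326) (nat_lit 158)) (XT.nd (nat_lit 94) (nat_lit 0) (nat_lit 0) (XT.lf (nat_lit 0) (nat_lit 71333502008) (nat_lit 0) (nat_lit 0) (nat_lit 0) (nat_lit 0) (nat_lit 0) (nat_lit 0) (nat_lit 1) (nat_lit 0) (nat_lit 1) (nat_lit 0) (nat_lit 237) (nat_lit 326) (nat_lit 157)) (XT.lf (nat_lit 0) (nat_lit 71332610821) (nat_lit 0) (nat_lit 0) (nat_lit 0) (nat_lit 0) (nat_lit 0) (nat_lit 0) (nat_lit 1) (nat_lit 0) (nat_lit 1) (nat_lit 0) (nat_lit 238) (nat_lit 326) (nat_lit 156))))) (XT.nd (nat_lit 282) (nat_lit 0) (nat_lit 0) (XT.nd (nat_lit 94) (nat_lit 0) (nat_lit 0) (XT.lf (nat_lit 0) (nat_lit 71331762071) (nat_lit 0) (nat_lit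 0) (nat_lit 0) (nat_lit 0) (nat_lit 0) (nat_lit 0) (nat_lit 1) (nat_lit 0) (nat_lit 1) (nat_lit 0) (nat_lit 239) (nat_lit 326) (nat_lit 155)) (XT.nd (nat_lit 94) (nat_lit 0) (nat_lit 0) (XT.lf (nat_lit 0) (nat_lit 71330953739) (nat_lit 0) (nat_lit 0) (nat_lit 0) (nat_lit 0) (nat_lit 0) (nat_lit 0) (nat_lit 1) (nat_lit 0) (nat_lit 1) (nat_lit 0) (nat_lit 240) (nat_lit 326) (nat_lit 154)) (XT.lf (nat_lit 0) (nat_lit 71330183898) (nat_lit 0) (nat_lit 0) (nat_lit 0) (nat_lit 0) (nat_lit 0) (nat_lit 0) (nat_lit 1) (nat_lit 0) (nat_lit 1) (nat_lit 0) (nat_lit 241) (nat_lit 326) (nat_lit 153)))) (XT.nd (nat_lit 188) (nat_lit 0) (nat_lit 0) (XT.nd (nat_lit 94) (nat_lit 0) (nat_lit 0) (XT.lf (nat_lit 0) (nat_lit 71329450716) (nat_lit 0) (nat_lit 0) (nat_lit 0) (nat_lit 0) (nat_lit 0) (nat_lit 0) (nat_lit 1) (nat_lit 0) (nat_lit 1) (nat_lit 0) (nat_lit 242) (nat_lit 326) (nat_lit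 152)) (XT.lf (nat_lit 0) (nat_lit 71328752448) (nat_lit 0) (nat_lit 0) (nat_lit 0) (nat_lit 0) (nat_lit 0) (nat_lit 0) (nat_lit 1) (nat_lit 0) (nat_lit 1) (nat_lit 0) (nat_lit 243) (nat_lit 326) (nat_lit 151))) (XT.nd (nat_lit 94) (nat_lit 0) (nat_lit 0) (XT.lf (nat_lit 0) (nat_lit 71328087431) (nat_lit 0) (nat_lit 0) (nat_lit 0) (nat_lit 0) (nat_lit 0) (nat_lit 0) (nat_lit 1) (nat_lit 0) (nat_lit 1) (nat_lit 0) (nat_lit 244) (nat_lit 326) (nat_lit 150)) (XT.lf (nat_lit 0) (nat_lit 71327454081) (nat_lit 0) (nat_lit 0) (nat_lit 0) (nat_lit 0) (nat_lit 0) (nat_lit 0) (nat_lit 1) (nat_lit 0) (nat_lit 1) (nat_lit 0) (nat_lit 245) (nat_lit 326) (nat_lit 149)))))) (XT.nd (nat_lit 7332) (nat_lit 0) (nat_lit 0) (XT.nd (nat_lit 282) (nat_lit 0) (nat_lit 0) (XT.nd (nat_lit 94) (nat_lit 0) (nat_lit 0) (XT.lf (nat_lit 0) (nat_lit 71326850891) (nat_lit 0) (nat_lit 0) (nat_lit 0) (nat_lit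 0) (nat_lit 0) (nat_lit 0) (nat_lit 1) (nat_lit 0) (nat_lit 1) (nat_lit 0) (nat_lit 246) (nat_lit 326) (nat_lit 148)) (XT.nd (nat_lit 94) (nat_lit 0) (nat_lit 0) (XT.lf (nat_lit 0) (nat_lit 71326276424) (nat_lit 0) (nat_lit 0) (nat_lit 0) (nat_lit 0) (nat_lit 0) (nat_lit 0) (nat_lit 1) (nat_lit 0) (nat_lit 1) (nat_lit 0) (nat_lit 247) (nat_lit 326) (nat_lit 147)) (XT.lf (nat_lit 0) (nat_lit 71325729312) (nat_lit 0) (nat_lit 0) (nat_lit 0) (nat_lit 0) (nat_lit 0) (nat_lit 0) (nat_lit 1) (nat_lit 0) (nat_lit 1) (nat_lit 0) (nat_lit 248) (nat_lit 326) (nat_lit 146)))) (XT.nd (nat_lit 6862) (nat_lit 0) (nat_lit 0) (XT.nd (nat_lit 94) (nat_lit 0) (nat_lit 0) (XT.lf (nat_lit 0) (nat_lit 71325208254) (nat_lit 0) (nat_lit 0) (nat_lit 0) (nat_lit 0) (nat_lit 0) (nat_lit 0) (nat_lit 1) (nat_lit 0) (nat_lit 1) (nat_lit 0) (nat_lit 249) (nat_lit 326) (nat_lit 145)) (XT.lf (nat_lit 0)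 (nat_lit 71324712008) (nat_lit 0) (nat_lit 0) (nat_lit 0) (nat_lit 0) (nat_lit 0) (nat_lit 0) (nat_lit 1) (nat_lit 0) (nat_lit 1) (nat_lit 0) (nat_lit 250) (nat_lit 326) (nat_lit 144))) (XT.nd (nat_lit 94) (nat_lit 0) (nat_lit 0) (XT.lf (nat_lit 0) (nat_lit 71315082952) (nat_lit 0) (nat_lit 0) (nat_lit 0) (nat_lit 0) (nat_lit 0) (nat_lit 0) (nat_lit 1) (nat_lit 0) (nat_lit 1) (nat_lit 0) (nat_lit 322) (nat_lit 326) (nat_lit 72)) (XT.lf (nat_lit 0) (nat_lit 71315068863) (nat_lit 0) (nat_lit 0) (nat_lit 0) (nat_lit 0) (nat_lit 0) (nat_lit 0) (nat_lit 1) (nat_lit 0) (nat_lit 1) (nat_lit 0) (nat_lit 323) (nat_lit 326) (nat_lit 71))))) (XT.nd (nat_lit 282) (nat_lit 0) (nat_lit 0) (XT.nd (nat_lit 94) (nat_lit 0) (nat_lit 0) (XT.lf (nat_lit 0) (nat_lit 71315055445) (nat_lit 0) (nat_lit 0) (nat_lit 0) (nat_lit 0) (nat_lit 0) (nat_lit 0) (nat_lit 1) (nat_lit 0) (nat_lit 1) (nat_lit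 0) (nat_lit 324) (nat_lit 326) (nat_lit 70)) (XT.nd (nat_lit 94) (nat_lit 0) (nat_lit 0) (XT.lf (nat_lit 0) (nat_lit 71315042666) (nat_lit 0) (nat_lit 0) (nat_lit 0) (nat_lit 0) (nat_lit 0) (nat_lit 0) (nat_lit 1) (nat_lit 0) (nat_lit 1) (nat_lit 0) (nat_lit 325) (nat_lit 326) (nat_lit 69)) (XT.lf (nat_lit 0) (nat_lit 71315030496) (nat_lit 0) (nat_lit 0) (nat_lit 0) (nat_lit 0) (nat_lit 0) (nat_lit 0) (nat_lit 1) (nat_lit 0) (nat_lit 1) (nat_lit 0) (nat_lit 326) (nat_lit 326) (nat_lit 68)))) (XT.nd (nat_lit 188) (nat_lit 0) (nat_lit 0) (XT.nd (nat_lit 94) (nat_lit 0) (nat_lit 0) (XT.lf (nat_lit 0) (nat_lit 71315018905) (nat_lit 0) (nat_lit 0) (nat_lit 0) (nat_lit 0) (nat_lit 0) (nat_lit 0) (nat_lit 1) (nat_lit 0) (nat_lit 1) (nat_lit 0) (nat_lit 327) (nat_lit 326) (nat_lit 67)) (XT.lf (nat_lit 0) (nat_lit 71315007866) (nat_lit 0) (nat_lit 0) (nat_lit 0) (nat_lit 0) (nat_lit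 0) (nat_lit 0) (nat_lit 1) (nat_lit 0) (nat_lit 1) (nat_lit 0) (nat_lit 328) (nat_lit 326) (nat_lit 66))) (XT.nd (nat_lit 94) (nat_lit 0) (nat_lit 0) (XT.lf (nat_lit 0) (nat_lit 71314997352) (nat_lit 0) (nat_lit 0) (nat_lit 0) (nat_lit 0) (nat_lit 0) (nat_lit 0) (nat_lit 1) (nat_lit 0) (nat_lit 1) (nat_lit 0) (nat_lit 329) (nat_lit 326) (nat_lit 65)) (XT.lf (nat_lit 0) (nat_lit 71314987339) (nat_lit 0) (nat_lit 0) (nat_lit 0) (nat_lit 0) (nat_lit 0) (nat_lit 0) (nat_lit 1) (nat_lit 0) (nat_lit 1) (nat_lit 0) (nat_lit 330) (nat_lit 326) (nat_lit 64))))))) (XT.nd (nat_lit 8272) (nat_lit 252) (nat_lit 0) (XT.nd (nat_lit 7614) (nat_lit 672) (nat_lit 0) (XT.nd (nat_lit 282) (nat_lit 9828) (nat_lit 0) (XT.nd (nat_lit 94) (nat_lit 0) (nat_lit 0) (XT.lf (nat_lit 924) (nat_lit 37473020275) (nat_lit 0) (nat_lit 66533261363) (nat_lit 924) (nat_lit 37473020275) (nat_lit 139) (nat_lit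 1) (nat_lit 128) (nat_lit 0) (nat_lit 139) (nat_lit 0) (nat_lit 66) (nat_lit 327) (nat_lit 327)) (XT.nd (nat_lit 94) (nat_lit 0) (nat_lit 84) (XT.lf (nat_lit 924) (nat_lit 145250104907) (nat_lit 84) (nat_lit 65460144244) (nat_lit 0) (nat_lit 65460144244) (nat_lit 139) (nat_lit 1) (nat_lit 129) (nat_lit 1) (nat_lit 128) (nat_lit 0) (nat_lit 67) (nat_lit 327) (nat_lit 326)) (XT.lf (nat_lit 924) (nat_lit 69224012969) (nat_lit 0) (nat_lit 131144017082) (nat_lit 840) (nat_lit 69224012969) (nat_lit 140) (nat_lit 1) (nat_lit 129) (nat_lit 1) (nat_lit 139) (nat_lit 1) (nat_lit 68) (nat_lit 327) (nat_lit 325)))) (XT.nd (nat_lit 7144) (nat_lit 9912) (nat_lit 0) (XT.nd (nat_lit 94) (nat_lit 0) (nat_lit 84) (XT.lf (nat_lit 924) (nat_lit 129854629411) (nat_lit 84) (nat_lit 66685796481) (nat_lit 0) (nat_lit 66685796481) (nat_lit 140) (nat_lit 1) (nat_lit 130) (nat_lit 1) (nat_lit 129)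 (nat_lit 1) (nat_lit 69) (nat_lit 327) (nat_lit 324)) (XT.lf (nat_lit 924) (nat_lit 59770838913) (nat_lit 0) (nat_lit 137520488485) (nat_lit 840) (nat_lit 59770838913) (nat_lit 141) (nat_lit 1) (nat_lit 130) (nat_lit 1) (nat_lit 140) (nat_lit 1) (nat_lit 70) (nat_lit 327) (nat_lit 323))) (XT.nd (nat_lit 94) (nat_lit 84) (nat_lit 0) (XT.lf (nat_lit 0) (nat_lit 11937261808) (nat_lit 0) (nat_lit 38706976160) (nat_lit 168) (nat_lit 11937261808) (nat_lit 12) (nat_lit 3) (nat_lit 12) (nat_lit 1) (nat_lit 14) (nat_lit 1) (nat_lit 145) (nat_lit 327) (nat_lit 248)) (XT.lf (nat_lit 84) (nat_lit 3520542731) (nat_lit 0) (nat_lit 29015508780) (nat_lit 84) (nat_lit 29015508780) (nat_lit 12) (nat_lit 3) (nat_lit 11) (nat_lit 1) (nat_lit 12) (nat_lit 1) (nat_lit 146) (nat_lit 327) (nat_lit 247))))) (XT.nd (nat_lit 282) (nat_lit 420) (nat_lit 0) (XT.nd (nat_lit 94) (nat_lit 84) (nat_lit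 0) (XT.lf (nat_lit 168) (nat_lit 44877738492) (nat_lit 0) (nat_lit 7832554853) (nat_lit 84) (nat_lit 7832554853) (nat_lit 11) (nat_lit 1) (nat_lit 9) (nat_lit 1) (nat_lit 10) (nat_lit 1) (nat_lit 147) (nat_lit 327) (nat_lit 246)) (XT.nd (nat_lit 94) (nat_lit 84) (nat_lit 0) (XT.lf (nat_lit 0) (nat_lit 12507003000) (nat_lit 0) (nat_lit 34530513247) (nat_lit 168) (nat_lit 12507003000) (nat_lit 9) (nat_lit 3) (nat_lit 9) (nat_lit 1) (nat_lit 11) (nat_lit 1) (nat_lit 148) (nat_lit 327) (nat_lit 245)) (XT.lf (nat_lit 84) (nat_lit 5539221770) (nat_lit 0) (nat_lit 26513993433) (nat_lit 84) (nat_lit 26513993433) (nat_lit 9) (nat_lit 3) (nat_lit 8) (nat_lit 1) (nat_lit 9) (nat_lit 1) (nat_lit 149) (nat_lit 327) (nat_lit 244)))) (XT.nd (nat_lit 188) (nat_lit 252) (nat_lit 0) (XT.nd (nat_lit 94) (nat_lit 0) (nat_lit 0) (XT.lf (nat_lit 168) (nat_lit 44723763581) (nat_lit 0) (nat_lit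 6443862262) (nat_lit 84) (nat_lit 6443862262) (nat_lit 8) (nat_lit 1) (nat_lit 6) (nat_lit 1) (nat_lit 7) (nat_lit 1) (nat_lit 150) (nat_lit 327) (nat_lit 243)) (XT.lf (nat_lit 0) (nat_lit 12847816766) (nat_lit 0) (nat_lit 30966613150) (nat_lit 168) (nat_lit 12847816766) (nat_lit 6) (nat_lit 3) (nat_lit 6) (nat_lit 1) (nat_lit 8) (nat_lit 1) (nat_lit 151) (nat_lit 327) (nat_lit 242))) (XT.nd (nat_lit 94) (nat_lit 168) (nat_lit 0) (XT.lf (nat_lit 84) (nat_lit 7074143413) (nat_lit 0) (nat_lit 24330139969) (nat_lit 84) (nat_lit 24330139969) (nat_lit 6) (nat_lit 3) (nat_lit 5) (nat_lit 1) (nat_lit 6) (nat_lit 1) (nat_lit 152) (nat_lit 327) (nat_lit 241)) (XT.lf (nat_lit 168) (nat_lit 44225529132) (nat_lit 0) (nat_lit 5301381430) (nat_lit 84) (nat_lit 5301381430) (nat_lit 5) (nat_lit 1) (nat_lit 3) (nat_lit 1) (nat_lit 4) (nat_lit 1) (nat_lit 153) (nat_lit 327) (nat_lit 240))))))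 (XT.nd (nat_lit 7614) (nat_lit 0) (nat_lit 0) (XT.nd (nat_lit 282) (nat_lit 0) (nat_lit 0) (XT.nd (nat_lit 94) (nat_lit 252) (nat_lit 0) (XT.lf (nat_lit 0) (nat_lit 13006382502) (nat_lit 0) (nat_lit 27912761127) (nat_lit 168) (nat_lit 13006382502) (nat_lit 3) (nat_lit 3) (nat_lit 3) (nat_lit 1) (nat_lit 5) (nat_lit 1) (nat_lit 154) (nat_lit 327) (nat_lit 239)) (XT.nd (nat_lit 94) (nat_lit 168) (nat_lit 0) (XT.lf (nat_lit 84) (nat_lit 8217069536) (nat_lit 0) (nat_lit 22413620607) (nat_lit 84) (nat_lit 22413620607) (nat_lit 3) (nat_lit 3) (nat_lit 2) (nat_lit 1) (nat_lit 3) (nat_lit 1) (nat_lit 155) (nat_lit 327) (nat_lit 238)) (XT.lf (nat_lit 0) (nat_lit 75808064997) (nat_lit 0) (nat_lit 0) (nat_lit 0) (nat_lit 0) (nat_lit 0) (nat_lit 0) (nat_lit 1) (nat_lit 0) (nat_lit 1) (nat_lit 0) (nat_lit 156) (nat_lit 327) (nat_lit 237)))) (XT.nd (nat_lit 188) (nat_lit 0) (nat_lit 0)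 (XT.nd (nat_lit 94) (nat_lit 0) (nat_lit 0) (XT.lf (nat_lit 0) (nat_lit 75763896495) (nat_lit 0) (nat_lit 0) (nat_lit 0) (nat_lit 0) (nat_lit 0) (nat_lit 0) (nat_lit 1) (nat_lit 0) (nat_lit 1) (nat_lit 0) (nat_lit 157) (nat_lit 327) (nat_lit 236)) (XT.lf (nat_lit 0) (nat_lit 75721831254) (nat_lit 0) (nat_lit 0) (nat_lit 0) (nat_lit 0) (nat_lit 0) (nat_lit 0) (nat_lit 1) (nat_lit 0) (nat_lit 1) (nat_lit 0) (nat_lit 158) (nat_lit 327) (nat_lit 235))) (XT.nd (nat_lit 7050) (nat_lit 0) (nat_lit 0) (XT.lf (nat_lit 0) (nat_lit 75681769120) (nat_lit 0) (nat_lit 0) (nat_lit 0) (nat_lit 0) (nat_lit 0) (nat_lit 0) (nat_lit 1) (nat_lit 0) (nat_lit 1) (nat_lit 0) (nat_lit 159) (nat_lit 327) (nat_lit 234)) (XT.lf (nat_lit 0) (nat_lit 74901159641) (nat_lit 0) (nat_lit 0) (nat_lit 0) (nat_lit 0) (nat_lit 0) (nat_lit 0) (nat_lit 1) (nat_lit 0) (nat_lit 1) (nat_lit 0) (nat_lit 234) (nat_lit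 327) (nat_lit 159))))) (XT.nd (nat_lit 282) (nat_lit 0) (nat_lit 0) (XT.nd (nat_lit 94) (nat_lit 0) (nat_lit 0) (XT.lf (nat_lit 0) (nat_lit 74900177108) (nat_lit 0) (nat_lit 0) (nat_lit 0) (nat_lit 0) (nat_lit 0) (nat_lit 0) (nat_lit 1) (nat_lit 0) (nat_lit 1) (nat_lit 0) (nat_lit 235) (nat_lit 327) (nat_lit 158)) (XT.nd (nat_lit 94) (nat_lit 0) (nat_lit 0) (XT.lf (nat_lit 0) (nat_lit 74899241362) (nat_lit 0) (nat_lit 0) (nat_lit 0) (nat_lit 0) (nat_lit 0) (nat_lit 0) (nat_lit 1) (nat_lit 0) (nat_lit 1) (nat_lit 0) (nat_lit 236) (nat_lit 327) (nat_lit 157)) (XT.lf (nat_lit 0) (nat_lit 74898350175) (nat_lit 0) (nat_lit 0) (nat_lit 0) (nat_lit 0) (nat_lit 0) (nat_lit 0) (nat_lit 1) (nat_lit 0) (nat_lit 1) (nat_lit 0) (nat_lit 237) (nat_lit 327) (nat_lit 156)))) (XT.nd (nat_lit 188) (nat_lit 0) (nat_lit 0) (XT.nd (nat_lit 94) (nat_lit 0) (nat_lit 0) (XT.lf (nat_lit 0) (nat_lit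 74897501426) (nat_lit 0) (nat_lit 0) (nat_lit 0) (nat_lit 0) (nat_lit 0) (nat_lit 0) (nat_lit 1) (nat_lit 0) (nat_lit 1) (nat_lit 0) (nat_lit 238) (nat_lit 327) (nat_lit 155)) (XT.lf (nat_lit 0) (nat_lit 74896693093) (nat_lit 0) (nat_lit 0) (nat_lit 0) (nat_lit 0) (nat_lit 0) (nat_lit 0) (nat_lit 1) (nat_lit 0) (nat_lit 1) (nat_lit 0) (nat_lit 239) (nat_lit 327) (nat_lit 154))) (XT.nd (nat_lit 94) (nat_lit 0) (nat_lit 0) (XT.lf (nat_lit 0) (nat_lit 74895923252) (nat_lit 0) (nat_lit 0) (nat_lit 0) (nat_lit 0) (nat_lit 0) (nat_lit 0) (nat_lit 1) (nat_lit 0) (nat_lit 1) (nat_lit 0) (nat_lit 240) (nat_lit 327) (nat_lit 153)) (XT.lf (nat_lit 0) (nat_lit 74895190071) (nat_lit 0) (nat_lit 0) (nat_lit 0) (nat_lit 0) (nat_lit 0) (nat_lit 0) (nat_lit 1) (nat_lit 0) (nat_lit 1) (nat_lit 0) (nat_lit 241) (nat_lit 327) (nat_lit 152))))))))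
noncomputable def ec254 : XT := (XT.nd (nat_lit 36848) (nat_lit 0) (nat_lit 0) (XT.nd (nat_lit 8178) (nat_lit 0) (nat_lit 0) (XT.nd (nat_lit 564) (nat_lit 0) (nat_lit 0) (XT.nd (nat_lit 282) (nat_lit 0) (nat_lit 0) (XT.nd (nat_lit 94) (nat_lit 0) (nat_lit 0) (XT.lf (nat_lit 0) (nat_lit 74894491802) (nat_lit 0) (nat_lit 0) (nat_lit 0) (nat_lit 0) (nat_lit 0) (nat_lit 0) (nat_lit 1) (nat_lit 0) (nat_lit 1) (nat_lit 0) (nat_lit 242) (nat_lit 327) (nat_lit 151)) (XT.nd (nat_lit 94) (nat_lit 0) (nat_lit 0) (XT.lf (nat_lit 0) (nat_lit 74893826785) (nat_lit 0) (nat_lit 0) (nat_lit 0) (nat_lit 0) (nat_lit 0) (nat_lit 0) (nat_lit 1) (nat_lit 0) (nat_lit 1) (nat_lit 0) (nat_lit 243) (nat_lit 327) (nat_lit 150)) (XT.lf (nat_lit 0) (nat_lit 74893193435) (nat_lit 0) (nat_lit 0) (nat_lit 0) (nat_lit 0) (nat_lit 0) (nat_lit 0) (nat_lit 1) (nat_lit 0) (nat_lit 1) (nat_lit 0) (nat_lit 244)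 (nat_lit 327) (nat_lit 149)))) (XT.nd (nat_lit 94) (nat_lit 0) (nat_lit 0) (XT.lf (nat_lit 0) (nat_lit 74892590245) (nat_lit 0) (nat_lit 0) (nat_lit 0) (nat_lit 0) (nat_lit 0) (nat_lit 0) (nat_lit 1) (nat_lit 0) (nat_lit 1) (nat_lit 0) (nat_lit 245) (nat_lit 327) (nat_lit 148)) (XT.nd (nat_lit 94) (nat_lit 0) (nat_lit 0) (XT.lf (nat_lit 0) (nat_lit 74892015778) (nat_lit 0) (nat_lit 0) (nat_lit 0) (nat_lit 0) (nat_lit 0) (nat_lit 0) (nat_lit 1) (nat_lit 0) (nat_lit 1) (nat_lit 0) (nat_lit 246) (nat_lit 327) (nat_lit 147)) (XT.lf (nat_lit 0) (nat_lit 74891468667) (nat_lit 0) (nat_lit 0) (nat_lit 0) (nat_lit 0) (nat_lit 0) (nat_lit 0) (nat_lit 1) (nat_lit 0) (nat_lit 1) (nat_lit 0) (nat_lit 247) (nat_lit 327) (nat_lit 146))))) (XT.nd (nat_lit 7238) (nat_lit 0) (nat_lit 0) (XT.nd (nat_lit 7050) (nat_lit 0) (nat_lit 0) (XT.lf (nat_lit 0) (nat_lit 74890947608) (nat_lit 0) (nat_lit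 0) (nat_lit 0) (nat_lit 0) (nat_lit 0) (nat_lit 0) (nat_lit 1) (nat_lit 0) (nat_lit 1) (nat_lit 0) (nat_lit 248) (nat_lit 327) (nat_lit 145)) (XT.nd (nat_lit 94) (nat_lit 0) (nat_lit 0) (XT.lf (nat_lit 0) (nat_lit 74880794799) (nat_lit 0) (nat_lit 0) (nat_lit 0) (nat_lit 0) (nat_lit 0) (nat_lit 0) (nat_lit 1) (nat_lit 0) (nat_lit 1) (nat_lit 0) (nat_lit 323) (nat_lit 327) (nat_lit 70)) (XT.lf (nat_lit 0) (nat_lit 74880782020) (nat_lit 0) (nat_lit 0) (nat_lit 0) (nat_lit 0) (nat_lit 0) (nat_lit 0) (nat_lit 1) (nat_lit 0) (nat_lit 1) (nat_lit 0) (nat_lit 324) (nat_lit 327) (nat_lit 69)))) (XT.nd (nat_lit 188) (nat_lit 0) (nat_lit 0) (XT.nd (nat_lit 94) (nat_lit 0) (nat_lit 0) (XT.lf (nat_lit 0) (nat_lit 74880769850) (nat_lit 0) (nat_lit 0) (nat_lit 0) (nat_lit 0) (nat_lit 0) (nat_lit 0) (nat_lit 1) (nat_lit 0) (nat_lit 1) (nat_lit 0) (nat_lit 325) (nat_lit 327) (nat_lit 68))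 (XT.lf (nat_lit 0) (nat_lit 74880758259) (nat_lit 0) (nat_lit 0) (nat_lit 0) (nat_lit 0) (nat_lit 0) (nat_lit 0) (nat_lit 1) (nat_lit 0) (nat_lit 1) (nat_lit 0) (nat_lit 326) (nat_lit 327) (nat_lit 67))) (XT.nd (nat_lit 94) (nat_lit 0) (nat_lit 0) (XT.lf (nat_lit 0) (nat_lit 74880747220) (nat_lit 0) (nat_lit 0) (nat_lit 0) (nat_lit 0) (nat_lit 0) (nat_lit 0) (nat_lit 1) (nat_lit 0) (nat_lit 1) (nat_lit 0) (nat_lit 327) (nat_lit 327) (nat_lit 66)) (XT.lf (nat_lit 0) (nat_lit 74880736706) (nat_lit 0) (nat_lit 0) (nat_lit 0) (nat_lit 0) (nat_lit 0) (nat_lit 0) (nat_lit 1) (nat_lit 0) (nat_lit 1) (nat_lit 0) (nat_lit 328) (nat_lit 327) (nat_lit 65)))))) (XT.nd (nat_lit 28012) (nat_lit 0) (nat_lit 252) (XT.nd (nat_lit 20398) (nat_lit 0) (nat_lit 10752) (XT.nd (nat_lit 94) (nat_lit 0) (nat_lit 0) (XT.lf (nat_lit 0) (nat_lit 74880726694) (nat_lit 0) (nat_lit 0) (nat_lit 0) (nat_lit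 0) (nat_lit 0) (nat_lit 0) (nat_lit 1) (nat_lit 0) (nat_lit 1) (nat_lit 0) (nat_lit 329) (nat_lit 327) (nat_lit 64)) (XT.nd (nat_lit 20210) (nat_lit 0) (nat_lit 10752) (XT.lf (nat_lit 0) (nat_lit 74880717158) (nat_lit 0) (nat_lit 0) (nat_lit 0) (nat_lit 0) (nat_lit 0) (nat_lit 0) (nat_lit 1) (nat_lit 0) (nat_lit 1) (nat_lit 0) (nat_lit 330) (nat_lit 327) (nat_lit 63)) (XT.lf (nat_lit 924) (nat_lit 39346671288) (nat_lit 0) (nat_lit 69859924431) (nat_lit 924) (nat_lit 39346671288) (nat_lit 139) (nat_lit 1) (nat_lit 128) (nat_lit 0) (nat_lit 139) (nat_lit 0) (nat_lit 64) (nat_lit 328) (nat_lit 328)))) (XT.nd (nat_lit 188) (nat_lit 0) (nat_lit 84) (XT.nd (nat_lit 94) (nat_lit 0) (nat_lit 84) (XT.lf (nat_lit 924) (nat_lit 152512610152) (nat_lit 84) (nat_lit 68733151456) (nat_lit 0) (nat_lit 68733151456) (nat_lit 139) (nat_lit 1) (nat_lit 129) (nat_lit 1) (nat_lit 128) (nat_lit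 0) (nat_lit 65) (nat_lit 328) (nat_lit 327)) (XT.lf (nat_lit 924) (nat_lit 72685213618) (nat_lit 0) (nat_lit 137701217936) (nat_lit 840) (nat_lit 72685213618) (nat_lit 140) (nat_lit 1) (nat_lit 129) (nat_lit 1) (nat_lit 139) (nat_lit 1) (nat_lit 66) (nat_lit 328) (nat_lit 326))) (XT.nd (nat_lit 94) (nat_lit 0) (nat_lit 84) (XT.lf (nat_lit 924) (nat_lit 136347360882) (nat_lit 84) (nat_lit 70020086305) (nat_lit 0) (nat_lit 70020086305) (nat_lit 140) (nat_lit 1) (nat_lit 130) (nat_lit 1) (nat_lit 129) (nat_lit 1) (nat_lit 67) (nat_lit 328) (nat_lit 325)) (XT.lf (nat_lit 924) (nat_lit 62759380858) (nat_lit 0) (nat_lit 144396512910) (nat_lit 840) (nat_lit 62759380858) (nat_lit 141) (nat_lit 1) (nat_lit 130) (nat_lit 1) (nat_lit 140) (nat_lit 1) (nat_lit 68) (nat_lit 328) (nat_lit 324))))) (XT.nd (nat_lit 282) (nat_lit 252) (nat_lit 0) (XT.nd (nat_lit 94) (nat_lit 252) (nat_lit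 0) (XT.lf (nat_lit 0) (nat_lit 13132353150) (nat_lit 0) (nat_lit 36257038909) (nat_lit 168) (nat_lit 13132353150) (nat_lit 9) (nat_lit 3) (nat_lit 9) (nat_lit 1) (nat_lit 11) (nat_lit 1) (nat_lit 146) (nat_lit 328) (nat_lit 246)) (XT.nd (nat_lit 94) (nat_lit 168) (nat_lit 0) (XT.lf (nat_lit 84) (nat_lit 5816182858) (nat_lit 0) (nat_lit 27839693105) (nat_lit 84) (nat_lit 27839693105) (nat_lit 9) (nat_lit 3) (nat_lit 8) (nat_lit 1) (nat_lit 9) (nat_lit 1) (nat_lit 147) (nat_lit 328) (nat_lit 245)) (XT.lf (nat_lit 168) (nat_lit 46959951760) (nat_lit 0) (nat_lit 6766055375) (nat_lit 84) (nat_lit 6766055375) (nat_lit 8) (nat_lit 1) (nat_lit 6) (nat_lit 1) (nat_lit 7) (nat_lit 1) (nat_lit 148) (nat_lit 328) (nat_lit 244)))) (XT.nd (nat_lit 188) (nat_lit 168) (nat_lit 0) (XT.nd (nat_lit 94) (nat_lit 84) (nat_lit 0) (XT.lf (nat_lit 0) (nat_lit 13490207604) (nat_lit 0) (nat_lit 32514943807)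 (nat_lit 168) (nat_lit 13490207604) (nat_lit 6) (nat_lit 3) (nat_lit 6) (nat_lit 1) (nat_lit 8) (nat_lit 1) (nat_lit 149) (nat_lit 328) (nat_lit 243)) (XT.lf (nat_lit 84) (nat_lit 7427850584) (nat_lit 0) (nat_lit 25546646967) (nat_lit 84) (nat_lit 25546646967) (nat_lit 6) (nat_lit 3) (nat_lit 5) (nat_lit 1) (nat_lit 6) (nat_lit 1) (nat_lit 150) (nat_lit 328) (nat_lit 242))) (XT.nd (nat_lit 94) (nat_lit 0) (nat_lit 0) (XT.lf (nat_lit 168) (nat_lit 46436805589) (nat_lit 0) (nat_lit 5566450501) (nat_lit 84) (nat_lit 5566450501) (nat_lit 5) (nat_lit 1) (nat_lit 3) (nat_lit 1) (nat_lit 4) (nat_lit 1) (nat_lit 151) (nat_lit 328) (nat_lit 241)) (XT.lf (nat_lit 0) (nat_lit 13656701628) (nat_lit 0) (nat_lit 29308399184) (nat_lit 168) (nat_lit 13656701628) (nat_lit 3) (nat_lit 3) (nat_lit 3) (nat_lit 1) (nat_lit 5) (nat_lit 1) (nat_lit 152) (nat_lit 328) (nat_lit 240))))))) (XT.nd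 (nat_lit 8460) (nat_lit 0) (nat_lit 0) (XT.nd (nat_lit 7802) (nat_lit 0) (nat_lit 0) (XT.nd (nat_lit 282) (nat_lit 0) (nat_lit 0) (XT.nd (nat_lit 94) (nat_lit 168) (nat_lit 0) (XT.lf (nat_lit 84) (nat_lit 8627923013) (nat_lit 0) (nat_lit 23534301638) (nat_lit 84) (nat_lit 23534301638) (nat_lit 3) (nat_lit 3) (nat_lit 2) (nat_lit 1) (nat_lit 3) (nat_lit 1) (nat_lit 153) (nat_lit 328) (nat_lit 239)) (XT.nd (nat_lit 94) (nat_lit 0) (nat_lit 0) (XT.lf (nat_lit 0) (nat_lit 79598468247) (nat_lit 0) (nat_lit 0) (nat_lit 0) (nat_lit 0) (nat_lit 0) (nat_lit 0) (nat_lit 1) (nat_lit 0) (nat_lit 1) (nat_lit 0) (nat_lit 154) (nat_lit 328) (nat_lit 238)) (XT.lf (nat_lit 0) (nat_lit 79552091319) (nat_lit 0) (nat_lit 0) (nat_lit 0) (nat_lit 0) (nat_lit 0) (nat_lit 0) (nat_lit 1) (nat_lit 0) (nat_lit 1) (nat_lit 0) (nat_lit 155) (nat_lit 328) (nat_lit 237)))) (XT.nd (nat_lit 94) (nat_lit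 0) (nat_lit 0) (XT.lf (nat_lit 0) (nat_lit 79507922817) (nat_lit 0) (nat_lit 0) (nat_lit 0) (nat_lit 0) (nat_lit 0) (nat_lit 0) (nat_lit 1) (nat_lit 0) (nat_lit 1) (nat_lit 0) (nat_lit 156) (nat_lit 328) (nat_lit 236)) (XT.nd (nat_lit 7332) (nat_lit 0) (nat_lit 0) (XT.lf (nat_lit 0) (nat_lit 79465857576) (nat_lit 0) (nat_lit 0) (nat_lit 0) (nat_lit 0) (nat_lit 0) (nat_lit 0) (nat_lit 1) (nat_lit 0) (nat_lit 1) (nat_lit 0) (nat_lit 157) (nat_lit 328) (nat_lit 235)) (XT.lf (nat_lit 0) (nat_lit 78643267684) (nat_lit 0) (nat_lit 0) (nat_lit 0) (nat_lit 0) (nat_lit 0) (nat_lit 0) (nat_lit 1) (nat_lit 0) (nat_lit 1) (nat_lit 0) (nat_lit 235) (nat_lit 328) (nat_lit 157))))) (XT.nd (nat_lit 282) (nat_lit 0) (nat_lit 0) (XT.nd (nat_lit 94) (nat_lit 0) (nat_lit 0) (XT.lf (nat_lit 0) (nat_lit 78642376497) (nat_lit 0) (nat_lit 0) (nat_lit 0) (nat_lit 0) (nat_lit 0) (nat_lit 0) (nat_lit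 1) (nat_lit 0) (nat_lit 1) (nat_lit 0) (nat_lit 236) (nat_lit 328) (nat_lit 156)) (XT.nd (nat_lit 94) (nat_lit 0) (nat_lit 0) (XT.lf (nat_lit 0) (nat_lit 78641527748) (nat_lit 0) (nat_lit 0) (nat_lit 0) (nat_lit 0) (nat_lit 0) (nat_lit 0) (nat_lit 1) (nat_lit 0) (nat_lit 1) (nat_lit 0) (nat_lit 237) (nat_lit 328) (nat_lit 155)) (XT.lf (nat_lit 0) (nat_lit 78640719415) (nat_lit 0) (nat_lit 0) (nat_lit 0) (nat_lit 0) (nat_lit 0) (nat_lit 0) (nat_lit 1) (nat_lit 0) (nat_lit 1) (nat_lit 0) (nat_lit 238) (nat_lit 328) (nat_lit 154)))) (XT.nd (nat_lit 188) (nat_lit 0) (nat_lit 0) (XT.nd (nat_lit 94) (nat_lit 0) (nat_lit 0) (XT.lf (nat_lit 0) (nat_lit 78639949574) (nat_lit 0) (nat_lit 0) (nat_lit 0) (nat_lit 0) (nat_lit 0) (nat_lit 0) (nat_lit 1) (nat_lit 0) (nat_lit 1) (nat_lit 0) (nat_lit 239) (nat_lit 328) (nat_lit 153)) (XT.lf (nat_lit 0) (nat_lit 78639216393) (nat_lit 0) (nat_lit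 0) (nat_lit 0) (nat_lit 0) (nat_lit 0) (nat_lit 0) (nat_lit 1) (nat_lit 0) (nat_lit 1) (nat_lit 0) (nat_lit 240) (nat_lit 328) (nat_lit 152))) (XT.nd (nat_lit 94) (nat_lit 0) (nat_lit 0) (XT.lf (nat_lit 0) (nat_lit 78638518124) (nat_lit 0) (nat_lit 0) (nat_lit 0) (nat_lit 0) (nat_lit 0) (nat_lit 0) (nat_lit 1) (nat_lit 0) (nat_lit 1) (nat_lit 0) (nat_lit 241) (nat_lit 328) (nat_lit 151)) (XT.lf (nat_lit 0) (nat_lit 78637853107) (nat_lit 0) (nat_lit 0) (nat_lit 0) (nat_lit 0) (nat_lit 0) (nat_lit 0) (nat_lit 1) (nat_lit 0) (nat_lit 1) (nat_lit 0) (nat_lit 242) (nat_lit 328) (nat_lit 150)))))) (XT.nd (nat_lit 7896) (nat_lit 0) (nat_lit 0) (XT.nd (nat_lit 282) (nat_lit 0) (nat_lit 0) (XT.nd (nat_lit 94) (nat_lit 0) (nat_lit 0) (XT.lf (nat_lit 0) (nat_lit 78637219757) (nat_lit 0) (nat_lit 0) (nat_lit 0) (nat_lit 0) (nat_lit 0) (nat_lit 0) (nat_lit 1) (nat_lit 0) (nat_lit 1)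 (nat_lit 0) (nat_lit 243) (nat_lit 328) (nat_lit 149)) (XT.nd (nat_lit 94) (nat_lit 0) (nat_lit 0) (XT.lf (nat_lit 0) (nat_lit 78636616567) (nat_lit 0) (nat_lit 0) (nat_lit 0) (nat_lit 0) (nat_lit 0) (nat_lit 0) (nat_lit 1) (nat_lit 0) (nat_lit 1) (nat_lit 0) (nat_lit 244) (nat_lit 328) (nat_lit 148)) (XT.lf (nat_lit 0) (nat_lit 78636042100) (nat_lit 0) (nat_lit 0) (nat_lit 0) (nat_lit 0) (nat_lit 0) (nat_lit 0) (nat_lit 1) (nat_lit 0) (nat_lit 1) (nat_lit 0) (nat_lit 245) (nat_lit 328) (nat_lit 147)))) (XT.nd (nat_lit 7426) (nat_lit 0) (nat_lit 0) (XT.nd (nat_lit 7332) (nat_lit 0) (nat_lit 0) (XT.lf (nat_lit 0) (nat_lit 78635494989) (nat_lit 0) (nat_lit 0) (nat_lit 0) (nat_lit 0) (nat_lit 0) (nat_lit 0) (nat_lit 1) (nat_lit 0) (nat_lit 1) (nat_lit 0) (nat_lit 246) (nat_lit 328) (nat_lit 146)) (XT.lf (nat_lit 0) (nat_lit 78624796172) (nat_lit 0) (nat_lit 0) (nat_lit 0) (nat_lit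 0) (nat_lit 0) (nat_lit 0) (nat_lit 1) (nat_lit 0) (nat_lit 1) (nat_lit 0) (nat_lit 324) (nat_lit 328) (nat_lit 68))) (XT.nd (nat_lit 94) (nat_lit 0) (nat_lit 0) (XT.lf (nat_lit 0) (nat_lit 78624784581) (nat_lit 0) (nat_lit 0) (nat_lit 0) (nat_lit 0) (nat_lit 0) (nat_lit 0) (nat_lit 1) (nat_lit 0) (nat_lit 1) (nat_lit 0) (nat_lit 325) (nat_lit 328) (nat_lit 67)) (XT.lf (nat_lit 0) (nat_lit 78624773542) (nat_lit 0) (nat_lit 0) (nat_lit 0) (nat_lit 0) (nat_lit 0) (nat_lit 0) (nat_lit 1) (nat_lit 0) (nat_lit 1) (nat_lit 0) (nat_lit 326) (nat_lit 328) (nat_lit 66))))) (XT.nd (nat_lit 282) (nat_lit 0) (nat_lit 0) (XT.nd (nat_lit 94) (nat_lit 0) (nat_lit 0) (XT.lf (nat_lit 0) (nat_lit 78624763028) (nat_lit 0) (nat_lit 0) (nat_lit 0) (nat_lit 0) (nat_lit 0) (nat_lit 0) (nat_lit 1) (nat_lit 0) (nat_lit 1) (nat_lit 0) (nat_lit 327) (nat_lit 328) (nat_lit 65)) (XT.nd (nat_lit 94)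 (nat_lit 0) (nat_lit 0) (XT.lf (nat_lit 0) (nat_lit 78624753016) (nat_lit 0) (nat_lit 0) (nat_lit 0) (nat_lit 0) (nat_lit 0) (nat_lit 0) (nat_lit 1) (nat_lit 0) (nat_lit 1) (nat_lit 0) (nat_lit 328) (nat_lit 328) (nat_lit 64)) (XT.lf (nat_lit 0) (nat_lit 78624743480) (nat_lit 0) (nat_lit 0) (nat_lit 0) (nat_lit 0) (nat_lit 0) (nat_lit 0) (nat_lit 1) (nat_lit 0) (nat_lit 1) (nat_lit 0) (nat_lit 329) (nat_lit 328) (nat_lit 63)))) (XT.nd (nat_lit 20116) (nat_lit 0) (nat_lit 10752) (XT.nd (nat_lit 20022) (nat_lit 0) (nat_lit 10752) (XT.lf (nat_lit 0) (nat_lit 78624734398) (nat_lit 0) (nat_lit 0) (nat_lit 0) (nat_lit 0) (nat_lit 0) (nat_lit 0) (nat_lit 1) (nat_lit 0) (nat_lit 1) (nat_lit 0) (nat_lit 330) (nat_lit 328) (nat_lit 62)) (XT.lf (nat_lit 924) (nat_lit 41314004853) (nat_lit 0) (nat_lit 73352920652) (nat_lit 924) (nat_lit 41314004853) (nat_lit 139) (nat_lit 1) (nat_lit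 128) (nat_lit 0) (nat_lit 139) (nat_lit 0) (nat_lit 62) (nat_lit 329) (nat_lit 329))) (XT.nd (nat_lit 94) (nat_lit 0) (nat_lit 84) (XT.lf (nat_lit 924) (nat_lit 160138240660) (nat_lit 84) (nat_lit 72169809029) (nat_lit 0) (nat_lit 72169809029) (nat_lit 139) (nat_lit 1) (nat_lit 129) (nat_lit 1) (nat_lit 128) (nat_lit 0) (nat_lit 63) (nat_lit 329) (nat_lit 328)) (XT.lf (nat_lit 924) (nat_lit 76319474299) (nat_lit 0) (nat_lit 144586278833) (nat_lit 840) (nat_lit 76319474299) (nat_lit 140) (nat_lit 1) (nat_lit 129) (nat_lit 1) (nat_lit 139) (nat_lit 1) (nat_lit 64) (nat_lit 329) (nat_lit 327))))))))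
noncomputable def ec255 : XT := (XT.nd (nat_lit 44838) (nat_lit 0) (nat_lit 0) (XT.nd (nat_lit 16262) (nat_lit 0) (nat_lit 0) (XT.nd (nat_lit 8084) (nat_lit 252) (nat_lit 0) (XT.nd (nat_lit 7802) (nat_lit 252) (nat_lit 0) (XT.nd (nat_lit 94) (nat_lit 10332) (nat_lit 0) (XT.lf (nat_lit 924) (nat_lit 143164728926) (nat_lit 84) (nat_lit 73521090621) (nat_lit 0) (nat_lit 73521090621) (nat_lit 140) (nat_lit 1) (nat_lit 130) (nat_lit 1) (nat_lit 129) (nat_lit 1) (nat_lit 65) (nat_lit 329) (nat_lit 326)) (XT.nd (nat_lit 7614) (nat_lit 10416) (nat_lit 0) (XT.lf (nat_lit 924) (nat_lit 65897349901) (nat_lit 0) (nat_lit 151616338555) (nat_lit 840) (nat_lit 65897349901) (nat_lit 141) (nat_lit 1) (nat_lit 130) (nat_lit 1) (nat_lit 140) (nat_lit 1) (nat_lit 66) (nat_lit 329) (nat_lit 325)) (XT.lf (nat_lit 0) (nat_lit 14164717985) (nat_lit 0) (nat_lit 34140690998) (nat_lit 168) (nat_lit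 14164717985) (nat_lit 6) (nat_lit 3) (nat_lit 6) (nat_lit 1) (nat_lit 8) (nat_lit 1) (nat_lit 147) (nat_lit 329) (nat_lit 244)))) (XT.nd (nat_lit 94) (nat_lit 168) (nat_lit 0) (XT.lf (nat_lit 84) (nat_lit 7799243113) (nat_lit 0) (nat_lit 26823979316) (nat_lit 84) (nat_lit 26823979316) (nat_lit 6) (nat_lit 3) (nat_lit 5) (nat_lit 1) (nat_lit 6) (nat_lit 1) (nat_lit 148) (nat_lit 329) (nat_lit 243)) (XT.nd (nat_lit 94) (nat_lit 0) (nat_lit 0) (XT.lf (nat_lit 168) (nat_lit 48758645868) (nat_lit 0) (nat_lit 5844773026) (nat_lit 84) (nat_lit 5844773026) (nat_lit 5) (nat_lit 1) (nat_lit 3) (nat_lit 1) (nat_lit 4) (nat_lit 1) (nat_lit 149) (nat_lit 329) (nat_lit 242)) (XT.lf (nat_lit 0) (nat_lit 14339536709) (nat_lit 0) (nat_lit 30773819143) (nat_lit 168) (nat_lit 14339536709) (nat_lit 3) (nat_lit 3) (nat_lit 3) (nat_lit 1) (nat_lit 5) (nat_lit 1) (nat_lit 150) (nat_lit 329) (nat_lit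 241))))) (XT.nd (nat_lit 282) (nat_lit 0) (nat_lit 0) (XT.nd (nat_lit 94) (nat_lit 168) (nat_lit 0) (XT.lf (nat_lit 84) (nat_lit 9059319163) (nat_lit 0) (nat_lit 24711016719) (nat_lit 84) (nat_lit 24711016719) (nat_lit 3) (nat_lit 3) (nat_lit 2) (nat_lit 1) (nat_lit 3) (nat_lit 1) (nat_lit 151) (nat_lit 329) (nat_lit 240)) (XT.nd (nat_lit 94) (nat_lit 0) (nat_lit 0) (XT.lf (nat_lit 0) (nat_lit 83578391660) (nat_lit 0) (nat_lit 0) (nat_lit 0) (nat_lit 0) (nat_lit 0) (nat_lit 0) (nat_lit 1) (nat_lit 0) (nat_lit 1) (nat_lit 0) (nat_lit 152) (nat_lit 329) (nat_lit 239)) (XT.lf (nat_lit 0) (nat_lit 83529695885) (nat_lit 0) (nat_lit 0) (nat_lit 0) (nat_lit 0) (nat_lit 0) (nat_lit 0) (nat_lit 1) (nat_lit 0) (nat_lit 1) (nat_lit 0) (nat_lit 153) (nat_lit 329) (nat_lit 238)))) (XT.nd (nat_lit 7708) (nat_lit 0) (nat_lit 0) (XT.nd (nat_lit 94) (nat_lit 0) (nat_lit 0) (XT.lf (nat_lit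 0) (nat_lit 83483318957) (nat_lit 0) (nat_lit 0) (nat_lit 0) (nat_lit 0) (nat_lit 0) (nat_lit 0) (nat_lit 1) (nat_lit 0) (nat_lit 1) (nat_lit 0) (nat_lit 154) (nat_lit 329) (nat_lit 237)) (XT.lf (nat_lit 0) (nat_lit 83439150455) (nat_lit 0) (nat_lit 0) (nat_lit 0) (nat_lit 0) (nat_lit 0) (nat_lit 0) (nat_lit 1) (nat_lit 0) (nat_lit 1) (nat_lit 0) (nat_lit 155) (nat_lit 329) (nat_lit 236))) (XT.nd (nat_lit 94) (nat_lit 0) (nat_lit 0) (XT.lf (nat_lit 0) (nat_lit 82572755386) (nat_lit 0) (nat_lit 0) (nat_lit 0) (nat_lit 0) (nat_lit 0) (nat_lit 0) (nat_lit 1) (nat_lit 0) (nat_lit 1) (nat_lit 0) (nat_lit 236) (nat_lit 329) (nat_lit 155)) (XT.lf (nat_lit 0) (nat_lit 82571947053) (nat_lit 0) (nat_lit 0) (nat_lit 0) (nat_lit 0) (nat_lit 0) (nat_lit 0) (nat_lit 1) (nat_lit 0) (nat_lit 1) (nat_lit 0) (nat_lit 237) (nat_lit 329) (nat_lit 154)))))) (XT.nd (nat_lit 8178) (nat_lit 0)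 (nat_lit 0) (XT.nd (nat_lit 282) (nat_lit 0) (nat_lit 0) (XT.nd (nat_lit 94) (nat_lit 0) (nat_lit 0) (XT.lf (nat_lit 0) (nat_lit 82571177212) (nat_lit 0) (nat_lit 0) (nat_lit 0) (nat_lit 0) (nat_lit 0) (nat_lit 0) (nat_lit 1) (nat_lit 0) (nat_lit 1) (nat_lit 0) (nat_lit 238) (nat_lit 329) (nat_lit 153)) (XT.nd (nat_lit 94) (nat_lit 0) (nat_lit 0) (XT.lf (nat_lit 0) (nat_lit 82570444031) (nat_lit 0) (nat_lit 0) (nat_lit 0) (nat_lit 0) (nat_lit 0) (nat_lit 0) (nat_lit 1) (nat_lit 0) (nat_lit 1) (nat_lit 0) (nat_lit 239) (nat_lit 329) (nat_lit 152)) (XT.lf (nat_lit 0) (nat_lit 82569745762) (nat_lit 0) (nat_lit 0) (nat_lit 0) (nat_lit 0) (nat_lit 0) (nat_lit 0) (nat_lit 1) (nat_lit 0) (nat_lit 1) (nat_lit 0) (nat_lit 240) (nat_lit 329) (nat_lit 151)))) (XT.nd (nat_lit 188) (nat_lit 0) (nat_lit 0) (XT.nd (nat_lit 94) (nat_lit 0) (nat_lit 0) (XT.lf (nat_lit 0) (nat_lit 82569080745)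 (nat_lit 0) (nat_lit 0) (nat_lit 0) (nat_lit 0) (nat_lit 0) (nat_lit 0) (nat_lit 1) (nat_lit 0) (nat_lit 1) (nat_lit 0) (nat_lit 241) (nat_lit 329) (nat_lit 150)) (XT.lf (nat_lit 0) (nat_lit 82568447395) (nat_lit 0) (nat_lit 0) (nat_lit 0) (nat_lit 0) (nat_lit 0) (nat_lit 0) (nat_lit 1) (nat_lit 0) (nat_lit 1) (nat_lit 0) (nat_lit 242) (nat_lit 329) (nat_lit 149))) (XT.nd (nat_lit 94) (nat_lit 0) (nat_lit 0) (XT.lf (nat_lit 0) (nat_lit 82567844205) (nat_lit 0) (nat_lit 0) (nat_lit 0) (nat_lit 0) (nat_lit 0) (nat_lit 0) (nat_lit 1) (nat_lit 0) (nat_lit 1) (nat_lit 0) (nat_lit 243) (nat_lit 329) (nat_lit 148)) (XT.lf (nat_lit 0) (nat_lit 82567269738) (nat_lit 0) (nat_lit 0) (nat_lit 0) (nat_lit 0) (nat_lit 0) (nat_lit 0) (nat_lit 1) (nat_lit 0) (nat_lit 1) (nat_lit 0) (nat_lit 244) (nat_lit 329) (nat_lit 147))))) (XT.nd (nat_lit 282) (nat_lit 0) (nat_lit 0) (XT.nd (nat_lit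 94) (nat_lit 0) (nat_lit 0) (XT.lf (nat_lit 0) (nat_lit 82556001180) (nat_lit 0) (nat_lit 0) (nat_lit 0) (nat_lit 0) (nat_lit 0) (nat_lit 0) (nat_lit 1) (nat_lit 0) (nat_lit 1) (nat_lit 0) (nat_lit 325) (nat_lit 329) (nat_lit 66)) (XT.nd (nat_lit 94) (nat_lit 0) (nat_lit 0) (XT.lf (nat_lit 0) (nat_lit 82555990666) (nat_lit 0) (nat_lit 0) (nat_lit 0) (nat_lit 0) (nat_lit 0) (nat_lit 0) (nat_lit 1) (nat_lit 0) (nat_lit 1) (nat_lit 0) (nat_lit 326) (nat_lit 329) (nat_lit 65)) (XT.lf (nat_lit 0) (nat_lit 82555980654) (nat_lit 0) (nat_lit 0) (nat_lit 0) (nat_lit 0) (nat_lit 0) (nat_lit 0) (nat_lit 1) (nat_lit 0) (nat_lit 1) (nat_lit 0) (nat_lit 327) (nat_lit 329) (nat_lit 64)))) (XT.nd (nat_lit 188) (nat_lit 0) (nat_lit 0) (XT.nd (nat_lit 94) (nat_lit 0) (nat_lit 0) (XT.lf (nat_lit 0) (nat_lit 82555971118) (nat_lit 0) (nat_lit 0) (nat_lit 0) (nat_lit 0) (nat_lit 0) (nat_lit 0)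 (nat_lit 1) (nat_lit 0) (nat_lit 1) (nat_lit 0) (nat_lit 328) (nat_lit 329) (nat_lit 63)) (XT.lf (nat_lit 0) (nat_lit 82555962036) (nat_lit 0) (nat_lit 0) (nat_lit 0) (nat_lit 0) (nat_lit 0) (nat_lit 0) (nat_lit 1) (nat_lit 0) (nat_lit 1) (nat_lit 0) (nat_lit 329) (nat_lit 329) (nat_lit 62))) (XT.nd (nat_lit 19834) (nat_lit 0) (nat_lit 10752) (XT.lf (nat_lit 0) (nat_lit 82555953386) (nat_lit 0) (nat_lit 0) (nat_lit 0) (nat_lit 0) (nat_lit 0) (nat_lit 0) (nat_lit 1) (nat_lit 0) (nat_lit 1) (nat_lit 0) (nat_lit 330) (nat_lit 329) (nat_lit 61)) (XT.lf (nat_lit 924) (nat_lit 43379705095) (nat_lit 0) (nat_lit 77020566685) (nat_lit 924) (nat_lit 43379705095) (nat_lit 139) (nat_lit 1) (nat_lit 128) (nat_lit 0) (nat_lit 139) (nat_lit 0) (nat_lit 60) (nat_lit 330) (nat_lit 330))))))) (XT.nd (nat_lit 16920) (nat_lit 0) (nat_lit 0) (XT.nd (nat_lit 8460) (nat_lit 0) (nat_lit 0) (XT.nd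 (nat_lit 282) (nat_lit 10752) (nat_lit 0) (XT.nd (nat_lit 94) (nat_lit 0) (nat_lit 84) (XT.lf (nat_lit 924) (nat_lit 168145152693) (nat_lit 84) (nat_lit 75778299480) (nat_lit 0) (nat_lit 75778299480) (nat_lit 139) (nat_lit 1) (nat_lit 129) (nat_lit 1) (nat_lit 128) (nat_lit 0) (nat_lit 61) (nat_lit 330) (nat_lit 329)) (XT.nd (nat_lit 94) (nat_lit 0) (nat_lit 0) (XT.lf (nat_lit 924) (nat_lit 80135448014) (nat_lit 0) (nat_lit 151815592774) (nat_lit 840) (nat_lit 80135448014) (nat_lit 140) (nat_lit 1) (nat_lit 129) (nat_lit 1) (nat_lit 139) (nat_lit 1) (nat_lit 62) (nat_lit 330) (nat_lit 328)) (XT.lf (nat_lit 924) (nat_lit 150322965372) (nat_lit 84) (nat_lit 77197145152) (nat_lit 0) (nat_lit 77197145152) (nat_lit 140) (nat_lit 1) (nat_lit 130) (nat_lit 1) (nat_lit 129) (nat_lit 1) (nat_lit 63) (nat_lit 330) (nat_lit 327)))) (XT.nd (nat_lit 7990) (nat_lit 252) (nat_lit 0) (XT.nd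 (nat_lit 7896) (nat_lit 10668) (nat_lit 0) (XT.lf (nat_lit 924) (nat_lit 69192217396) (nat_lit 0) (nat_lit 159197155483) (nat_lit 840) (nat_lit 69192217396) (nat_lit 141) (nat_lit 1) (nat_lit 130) (nat_lit 1) (nat_lit 140) (nat_lit 1) (nat_lit 64) (nat_lit 330) (nat_lit 326)) (XT.lf (nat_lit 0) (nat_lit 15056513544) (nat_lit 0) (nat_lit 32312510100) (nat_lit 168) (nat_lit 15056513544) (nat_lit 3) (nat_lit 3) (nat_lit 3) (nat_lit 1) (nat_lit 5) (nat_lit 1) (nat_lit 148) (nat_lit 330) (nat_lit 242))) (XT.nd (nat_lit 94) (nat_lit 168) (nat_lit 0) (XT.lf (nat_lit 84) (nat_lit 9512285121) (nat_lit 0) (nat_lit 25946567555) (nat_lit 84) (nat_lit 25946567555) (nat_lit 3) (nat_lit 3) (nat_lit 2) (nat_lit 1) (nat_lit 3) (nat_lit 1) (nat_lit 149) (nat_lit 330) (nat_lit 241)) (XT.lf (nat_lit 0) (nat_lit 87757311243) (nat_lit 0) (nat_lit 0) (nat_lit 0) (nat_lit 0) (nat_lit 0) (nat_lit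 0) (nat_lit 1) (nat_lit 0) (nat_lit 1) (nat_lit 0) (nat_lit 150) (nat_lit 330) (nat_lit 240))))) (XT.nd (nat_lit 8084) (nat_lit 0) (nat_lit 0) (XT.nd (nat_lit 94) (nat_lit 0) (nat_lit 0) (XT.lf (nat_lit 0) (nat_lit 87706180680) (nat_lit 0) (nat_lit 0) (nat_lit 0) (nat_lit 0) (nat_lit 0) (nat_lit 0) (nat_lit 1) (nat_lit 0) (nat_lit 1) (nat_lit 0) (nat_lit 151) (nat_lit 330) (nat_lit 239)) (XT.nd (nat_lit 94) (nat_lit 0) (nat_lit 0) (XT.lf (nat_lit 0) (nat_lit 87657484905) (nat_lit 0) (nat_lit 0) (nat_lit 0) (nat_lit 0) (nat_lit 0) (nat_lit 0) (nat_lit 1) (nat_lit 0) (nat_lit 1) (nat_lit 0) (nat_lit 152) (nat_lit 330) (nat_lit 238)) (XT.lf (nat_lit 0) (nat_lit 87611107977) (nat_lit 0) (nat_lit 0) (nat_lit 0) (nat_lit 0) (nat_lit 0) (nat_lit 0) (nat_lit 1) (nat_lit 0) (nat_lit 1) (nat_lit 0) (nat_lit 153) (nat_lit 330) (nat_lit 237)))) (XT.nd (nat_lit 188) (nat_lit 0) (nat_lit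 0) (XT.nd (nat_lit 94) (nat_lit 0) (nat_lit 0) (XT.lf (nat_lit 0) (nat_lit 86698966232) (nat_lit 0) (nat_lit 0) (nat_lit 0) (nat_lit 0) (nat_lit 0) (nat_lit 0) (nat_lit 1) (nat_lit 0) (nat_lit 1) (nat_lit 0) (nat_lit 237) (nat_lit 330) (nat_lit 153)) (XT.lf (nat_lit 0) (nat_lit 86698233051) (nat_lit 0) (nat_lit 0) (nat_lit 0) (nat_lit 0) (nat_lit 0) (nat_lit 0) (nat_lit 1) (nat_lit 0) (nat_lit 1) (nat_lit 0) (nat_lit 238) (nat_lit 330) (nat_lit 152))) (XT.nd (nat_lit 94) (nat_lit 0) (nat_lit 0) (XT.lf (nat_lit 0) (nat_lit 86697534782) (nat_lit 0) (nat_lit 0) (nat_lit 0) (nat_lit 0) (nat_lit 0) (nat_lit 0) (nat_lit 1) (nat_lit 0) (nat_lit 1) (nat_lit 0) (nat_lit 239) (nat_lit 330) (nat_lit 151)) (XT.lf (nat_lit 0) (nat_lit 86696869765) (nat_lit 0) (nat_lit 0) (nat_lit 0) (nat_lit 0) (nat_lit 0) (nat_lit 0) (nat_lit 1) (nat_lit 0) (nat_lit 1) (nat_lit 0) (nat_lit 240) (nat_lit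 330) (nat_lit 150)))))) (XT.nd (nat_lit 28294) (nat_lit 0) (nat_lit 0) (XT.nd (nat_lit 8084) (nat_lit 0) (nat_lit 0) (XT.nd (nat_lit 94) (nat_lit 0) (nat_lit 0) (XT.lf (nat_lit 0) (nat_lit 86696236415) (nat_lit 0) (nat_lit 0) (nat_lit 0) (nat_lit 0) (nat_lit 0) (nat_lit 0) (nat_lit 1) (nat_lit 0) (nat_lit 1) (nat_lit 0) (nat_lit 241) (nat_lit 330) (nat_lit 149)) (XT.nd (nat_lit 7896) (nat_lit 0) (nat_lit 0) (XT.lf (nat_lit 0) (nat_lit 86695633225) (nat_lit 0) (nat_lit 0) (nat_lit 0) (nat_lit 0) (nat_lit 0) (nat_lit 0) (nat_lit 1) (nat_lit 0) (nat_lit 1) (nat_lit 0) (nat_lit 242) (nat_lit 330) (nat_lit 148)) (XT.lf (nat_lit 0) (nat_lit 86683769674) (nat_lit 0) (nat_lit 0) (nat_lit 0) (nat_lit 0) (nat_lit 0) (nat_lit 0) (nat_lit 1) (nat_lit 0) (nat_lit 1) (nat_lit 0) (nat_lit 326) (nat_lit 330) (nat_lit 64)))) (XT.nd (nat_lit 188) (nat_lit 0) (nat_lit 0) (XT.nd (nat_lit 94)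 (nat_lit 0) (nat_lit 0) (XT.lf (nat_lit 0) (nat_lit 86683760138) (nat_lit 0) (nat_lit 0) (nat_lit 0) (nat_lit 0) (nat_lit 0) (nat_lit 0) (nat_lit 1) (nat_lit 0) (nat_lit 1) (nat_lit 0) (nat_lit 327) (nat_lit 330) (nat_lit 63)) (XT.lf (nat_lit 0) (nat_lit 86683751056) (nat_lit 0) (nat_lit 0) (nat_lit 0) (nat_lit 0) (nat_lit 0) (nat_lit 0) (nat_lit 1) (nat_lit 0) (nat_lit 1) (nat_lit 0) (nat_lit 328) (nat_lit 330) (nat_lit 62))) (XT.nd (nat_lit 94) (nat_lit 0) (nat_lit 0) (XT.lf (nat_lit 0) (nat_lit 86683742406) (nat_lit 0) (nat_lit 0) (nat_lit 0) (nat_lit 0) (nat_lit 0) (nat_lit 0) (nat_lit 1) (nat_lit 0) (nat_lit 1) (nat_lit 0) (nat_lit 329) (nat_lit 330) (nat_lit 61)) (XT.lf (nat_lit 0) (nat_lit 86683734169) (nat_lit 0) (nat_lit 0) (nat_lit 0) (nat_lit 0) (nat_lit 0) (nat_lit 0) (nat_lit 1) (nat_lit 0) (nat_lit 1) (nat_lit 0) (nat_lit 330) (nat_lit 330) (nat_lit 60)))))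 (XT.nd (nat_lit 8460) (nat_lit 0) (nat_lit 0) (XT.nd (nat_lit 8272) (nat_lit 10836) (nat_lit 0) (XT.lf (nat_lit 924) (nat_lit 157839113641) (nat_lit 84) (nat_lit 81057002409) (nat_lit 0) (nat_lit 81057002409) (nat_lit 140) (nat_lit 1) (nat_lit 130) (nat_lit 1) (nat_lit 129) (nat_lit 1) (nat_lit 61) (nat_lit 331) (nat_lit 328)) (XT.nd (nat_lit 94) (nat_lit 0) (nat_lit 0) (XT.lf (nat_lit 0) (nat_lit 92091489714) (nat_lit 0) (nat_lit 0) (nat_lit 0) (nat_lit 0) (nat_lit 0) (nat_lit 0) (nat_lit 1) (nat_lit 0) (nat_lit 1) (nat_lit 0) (nat_lit 149) (nat_lit 331) (nat_lit 240)) (XT.lf (nat_lit 0) (nat_lit 92040359151) (nat_lit 0) (nat_lit 0) (nat_lit 0) (nat_lit 0) (nat_lit 0) (nat_lit 0) (nat_lit 1) (nat_lit 0) (nat_lit 1) (nat_lit 0) (nat_lit 150) (nat_lit 331) (nat_lit 239)))) (XT.nd (nat_lit 8272) (nat_lit 0) (nat_lit 0) (XT.nd (nat_lit 8178) (nat_lit 0) (nat_lit 0) (XT.lf (nat_lit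 0) (nat_lit 91991663376) (nat_lit 0) (nat_lit 0) (nat_lit 0) (nat_lit 0) (nat_lit 0) (nat_lit 0) (nat_lit 1) (nat_lit 0) (nat_lit 1) (nat_lit 0) (nat_lit 151) (nat_lit 331) (nat_lit 238)) (XT.lf (nat_lit 0) (nat_lit 91031713253) (nat_lit 0) (nat_lit 0) (nat_lit 0) (nat_lit 0) (nat_lit 0) (nat_lit 0) (nat_lit 1) (nat_lit 0) (nat_lit 1) (nat_lit 0) (nat_lit 238) (nat_lit 331) (nat_lit 151))) (XT.nd (nat_lit 94) (nat_lit 0) (nat_lit 0) (XT.lf (nat_lit 0) (nat_lit 91031048236) (nat_lit 0) (nat_lit 0) (nat_lit 0) (nat_lit 0) (nat_lit 0) (nat_lit 0) (nat_lit 1) (nat_lit 0) (nat_lit 1) (nat_lit 0) (nat_lit 239) (nat_lit 331) (nat_lit 150)) (XT.lf (nat_lit 0) (nat_lit 91030414886) (nat_lit 0) (nat_lit 0) (nat_lit 0) (nat_lit 0) (nat_lit 0) (nat_lit 0) (nat_lit 1) (nat_lit 0) (nat_lit 1) (nat_lit 0) (nat_lit 240) (nat_lit 331) (nat_lit 149))))))))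

set_option maxRecDepth 10000000 in
noncomputable def Tp : PT := (PT.nd (nat_lit 2900370) (PT.nd (nat_lit 2356768) (PT.nd (nat_lit 1724524) (PT.nd (nat_lit 1047254) pc0 pc1) (PT.nd (nat_lit 361524) pc2 pc3)) (PT.nd (nat_lit 317250) (PT.nd (nat_lit 180950) pc4 pc5) (PT.nd (nat_lit 134984) pc6 pc7))) (PT.nd (nat_lit 358704) (PT.nd (nat_lit 180386) (PT.nd (nat_lit 90522) pc8 pc9) (PT.nd (nat_lit 89018) pc10 pc11)) (PT.nd (nat_lit 314618) (PT.nd (nat_lit 134514) pc12 pc13) (PT.nd (nat_lit 225600) pc14 pc15))))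

set_option maxRecDepth 10000000 in
noncomputable def Tx : XT := (XT.nd (nat_lit 8262412) (nat_lit 0) (nat_lit 0) XT.nil (XT.nd (nat_lit 7867424) (nat_lit 0) (nat_lit 0) (XT.nd (nat_lit 3295922) (nat_lit 0) (nat_lit 0) (XT.nd (nat_lit 2257974) (nat_lit 0) (nat_lit 0) (XT.nd (nat_lit 1579482) (nat_lit 0) (nat_lit 0) (XT.nd (nat_lit 1083444) (nat_lit 0) (nat_lit 0) (XT.nd (nat_lit 765536) (nat_lit 0) (nat_lit 0) (XT.nd (nat_lit 496508) (nat_lit 0) (nat_lit 0) (XT.nd (nat_lit 316216) (nat_lit 0) (nat_lit 0) (XT.nd (nat_lit 225224) (nat_lit 0) (nat_lit 0) xc0 xc1) (XT.nd (nat_lit 90428) (nat_lit 0) (nat_lit 0) xc2 xc3)) (XT.nd (nat_lit 135078) (nat_lit 0) (nat_lit 0) (XT.nd (nat_lit 89112) (nat_lit 0) (nat_lit 0) xc4 xc5) (XT.nd (nat_lit 45872) (nat_lit 0) (nat_lit 0) xc6 xc7))) (XT.nd (nat_lit 180762) (nat_lit 0) (nat_lit 0) (XT.nd (nat_lit 90616) (nat_lit 0) (nat_lit 0) (XT.nd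 (nat_lit 45308) (nat_lit 0) (nat_lit 0) xc8 xc9) (XT.nd (nat_lit 45120) (nat_lit 0) (nat_lit 0) xc10 xc11)) (XT.nd (nat_lit 89394) (nat_lit 0) (nat_lit 0) (XT.nd (nat_lit 44744) (nat_lit 0) (nat_lit 0) xc12 xc13) (XT.nd (nat_lit 3196) (nat_lit 0) (nat_lit 0) xc14 xc15)))) (XT.nd (nat_lit 270438) (nat_lit 0) (nat_lit 0) (XT.nd (nat_lit 135830) (nat_lit 0) (nat_lit 0) (XT.nd (nat_lit 88548) (nat_lit 0) (nat_lit 0) (XT.nd (nat_lit 44274) (nat_lit 0) (nat_lit 0) xc16 xc17) (XT.nd (nat_lit 44086) (nat_lit 0) (nat_lit 0) xc18 xc19)) (XT.nd (nat_lit 87702) (nat_lit 0) (nat_lit 0) (XT.nd (nat_lit 43898) (nat_lit 0) (nat_lit 0) xc20 xc21) (XT.nd (nat_lit 3196) (nat_lit 0) (nat_lit 0) xc22 xc23))) (XT.nd (nat_lit 133198) (nat_lit 0) (nat_lit 0) (XT.nd (nat_lit 46624) (nat_lit 0) (nat_lit 0) (XT.nd (nat_lit 43428) (nat_lit 0) (nat_lit 0) xc24 xc25) (XT.nd (nat_lit 43334) (nat_lit 0)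 (nat_lit 0) xc26 xc27)) (XT.nd (nat_lit 46248) (nat_lit 0) (nat_lit 0) (XT.nd (nat_lit 3196) (nat_lit 0) (nat_lit 0) xc28 xc29) (XT.nd (nat_lit 42958) (nat_lit 0) (nat_lit 0) xc30 xc31))))) (XT.nd (nat_lit 362934) (nat_lit 0) (nat_lit 0) (XT.nd (nat_lit 221652) (nat_lit 0) (nat_lit 0) (XT.nd (nat_lit 91650) (nat_lit 0) (nat_lit 0) (XT.nd (nat_lit 45872) (nat_lit 0) (nat_lit 0) (XT.nd (nat_lit 42676) (nat_lit 0) (nat_lit 0) xc32 xc33) (XT.nd (nat_lit 42582) (nat_lit 0) (nat_lit 0) xc34 xc35)) (XT.nd (nat_lit 45590) (nat_lit 0) (nat_lit 0) (XT.nd (nat_lit 42394) (nat_lit 0) (nat_lit 0) xc36 xc37) (XT.nd (nat_lit 42300) (nat_lit 0) (nat_lit 0) xc38 xc39))) (XT.nd (nat_lit 90146) (nat_lit 0) (nat_lit 0) (XT.nd (nat_lit 45120) (nat_lit 0) (nat_lit 0) (XT.nd (nat_lit 3102) (nat_lit 672) (nat_lit 0) xc40 xc41) (XT.nd (nat_lit 3196) (nat_lit 672) (nat_lit 0) xc42 xc43)) (XT.nd (nat_lit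 6298) (nat_lit 0) (nat_lit 0) (XT.nd (nat_lit 3102) (nat_lit 1008) (nat_lit 0) xc44 xc45) (XT.nd (nat_lit 41642) (nat_lit 0) (nat_lit 0) xc46 xc47)))) (XT.nd (nat_lit 177660) (nat_lit 0) (nat_lit 0) (XT.nd (nat_lit 89206) (nat_lit 0) (nat_lit 0) (XT.nd (nat_lit 44650) (nat_lit 0) (nat_lit 0) (XT.nd (nat_lit 41454) (nat_lit 0) (nat_lit 0) xc48 xc49) (XT.nd (nat_lit 41360) (nat_lit 0) (nat_lit 0) xc50 xc51)) (XT.nd (nat_lit 44274) (nat_lit 0) (nat_lit 0) (XT.nd (nat_lit 41078) (nat_lit 0) (nat_lit 672) xc52 xc53) (XT.nd (nat_lit 40984) (nat_lit 0) (nat_lit 1680) xc54 xc55))) (XT.nd (nat_lit 87796) (nat_lit 0) (nat_lit 0) (XT.nd (nat_lit 43898) (nat_lit 0) (nat_lit 0) (XT.nd (nat_lit 3102) (nat_lit 0) (nat_lit 0) xc56 xc57) (XT.nd (nat_lit 3196) (nat_lit 0) (nat_lit 0) xc58 xc59)) (XT.nd (nat_lit 43710) (nat_lit 0) (nat_lit 0) (XT.nd (nat_lit 3196) (nat_lit 1260) (nat_lit 0)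 xc60 xc61) (XT.nd (nat_lit 3196) (nat_lit 2940) (nat_lit 0) xc62 xc63)))))) (XT.nd (nat_lit 537116) (nat_lit 0) (nat_lit 0) (XT.nd (nat_lit 270720) (nat_lit 0) (nat_lit 0) (XT.nd (nat_lit 136206) (nat_lit 0) (nat_lit 0) (XT.nd (nat_lit 86762) (nat_lit 0) (nat_lit 0) (XT.nd (nat_lit 43428) (nat_lit 0) (nat_lit 0) (XT.nd (nat_lit 40232) (nat_lit 0) (nat_lit 1512) xc64 xc65) (XT.nd (nat_lit 40138) (nat_lit 0) (nat_lit 3696) xc66 xc67)) (XT.nd (nat_lit 43052) (nat_lit 0) (nat_lit 0) (XT.nd (nat_lit 3102) (nat_lit 504) (nat_lit 0) xc68 xc69) (XT.nd (nat_lit 3196) (nat_lit 2436) (nat_lit 0) xc70 xc71))) (XT.nd (nat_lit 85634) (nat_lit 0) (nat_lit 0) (XT.nd (nat_lit 42864) (nat_lit 0) (nat_lit 0) (XT.nd (nat_lit 39668) (nat_lit 0) (nat_lit 1764) xc72 xc73) (XT.nd (nat_lit 39574) (nat_lit 0) (nat_lit 4872) xc74 xc75)) (XT.nd (nat_lit 42488) (nat_lit 0) (nat_lit 756) (XT.nd (nat_lit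 3102) (nat_lit 1176) (nat_lit 0) xc76 xc77) (XT.nd (nat_lit 3196) (nat_lit 3276) (nat_lit 0) xc78 xc79)))) (XT.nd (nat_lit 133010) (nat_lit 0) (nat_lit 0) (XT.nd (nat_lit 84506) (nat_lit 0) (nat_lit 0) (XT.nd (nat_lit 42300) (nat_lit 0) (nat_lit 0) (XT.nd (nat_lit 39104) (nat_lit 0) (nat_lit 3864) xc80 xc81) (XT.nd (nat_lit 3196) (nat_lit 588) (nat_lit 0) xc82 xc83)) (XT.nd (nat_lit 6298) (nat_lit 588) (nat_lit 0) (XT.nd (nat_lit 3102) (nat_lit 3276) (nat_lit 0) xc84 xc85) (XT.nd (nat_lit 39010) (nat_lit 0) (nat_lit 3696) xc86 xc87))) (XT.nd (nat_lit 48598) (nat_lit 0) (nat_lit 0) (XT.nd (nat_lit 42206) (nat_lit 0) (nat_lit 420) (XT.nd (nat_lit 3102) (nat_lit 588) (nat_lit 0) xc88 xc89) (XT.nd (nat_lit 3196) (nat_lit 3192) (nat_lit 0) xc90 xc91)) (XT.nd (nat_lit 42394) (nat_lit 0) (nat_lit 0) (XT.nd (nat_lit 39198) (nat_lit 0) (nat_lit 3276) xc92 xc93) (XT.nd (nat_lit 3196)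 (nat_lit 168) (nat_lit 0) xc94 xc95))))) (XT.nd (nat_lit 231898) (nat_lit 0) (nat_lit 0) (XT.nd (nat_lit 133856) (nat_lit 0) (nat_lit 0) (XT.nd (nat_lit 48786) (nat_lit 0) (nat_lit 0) (XT.nd (nat_lit 6298) (nat_lit 0) (nat_lit 0) (XT.nd (nat_lit 3102) (nat_lit 3024) (nat_lit 0) xc96 xc97) (XT.nd (nat_lit 39292) (nat_lit 0) (nat_lit 2604) xc98 xc99)) (XT.nd (nat_lit 42488) (nat_lit 0) (nat_lit 0) (XT.nd (nat_lit 3102) (nat_lit 0) (nat_lit 0) xc100 xc101) (XT.nd (nat_lit 3196) (nat_lit 2100) (nat_lit 0) xc102 xc103))) (XT.nd (nat_lit 48974) (nat_lit 0) (nat_lit 0) (XT.nd (nat_lit 6298) (nat_lit 1764) (nat_lit 0) (XT.nd (nat_lit 3102) (nat_lit 3948) (nat_lit 0) xc104 xc105) (XT.nd (nat_lit 39480) (nat_lit 0) (nat_lit 4788) xc106 xc107)) (XT.nd (nat_lit 42676) (nat_lit 0) (nat_lit 756) (XT.nd (nat_lit 3196) (nat_lit 1260) (nat_lit 0) xc108 xc109) (XT.nd (nat_lit 3196) (nat_lit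 3276) (nat_lit 0) xc110 xc111)))) (XT.nd (nat_lit 134326) (nat_lit 0) (nat_lit 0) (XT.nd (nat_lit 85258) (nat_lit 0) (nat_lit 0) (XT.nd (nat_lit 42582) (nat_lit 0) (nat_lit 0) (XT.nd (nat_lit 39386) (nat_lit 0) (nat_lit 3528) xc112 xc113) (XT.nd (nat_lit 3196) (nat_lit 420) (nat_lit 0) xc114 xc115)) (XT.nd (nat_lit 6298) (nat_lit 0) (nat_lit 0) (XT.nd (nat_lit 3102) (nat_lit 2940) (nat_lit 0) xc116 xc117) (XT.nd (nat_lit 39574) (nat_lit 0) (nat_lit 2268) xc118 xc119))) (XT.nd (nat_lit 85446) (nat_lit 0) (nat_lit 0) (XT.nd (nat_lit 42676) (nat_lit 0) (nat_lit 0) (XT.nd (nat_lit 39480) (nat_lit 0) (nat_lit 5544) xc120 xc121) (XT.nd (nat_lit 3196) (nat_lit 1764) (nat_lit 0) xc122 xc123)) (XT.nd (nat_lit 6392) (nat_lit 1176) (nat_lit 0) (XT.nd (nat_lit 3196) (nat_lit 3276) (nat_lit 0) xc124 xc125) (XT.nd (nat_lit 39574) (nat_lit 0) (nat_lit 3696) xc126 xc127))))))) (XT.nd (nat_lit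 1127906) (nat_lit 0) (nat_lit 1512) (XT.nd (nat_lit 540030) (nat_lit 0) (nat_lit 0) (XT.nd (nat_lit 269592) (nat_lit 0) (nat_lit 0) (XT.nd (nat_lit 134796) (nat_lit 0) (nat_lit 0) (XT.nd (nat_lit 49162) (nat_lit 0) (nat_lit 0) (XT.nd (nat_lit 42770) (nat_lit 0) (nat_lit 0) (XT.nd (nat_lit 3102) (nat_lit 672) (nat_lit 0) xc128 xc129) (XT.nd (nat_lit 3196) (nat_lit 2940) (nat_lit 0) xc130 xc131)) (XT.nd (nat_lit 42770) (nat_lit 0) (nat_lit 0) (XT.nd (nat_lit 39574) (nat_lit 0) (nat_lit 2268) xc132 xc133) (XT.nd (nat_lit 39668) (nat_lit 0) (nat_lit 5040) xc134 xc135))) (XT.nd (nat_lit 49162) (nat_lit 0) (nat_lit 0) (XT.nd (nat_lit 42770) (nat_lit 0) (nat_lit 1008) (XT.nd (nat_lit 3102) (nat_lit 1596) (nat_lit 0) xc136 xc137) (XT.nd (nat_lit 3196) (nat_lit 3192) (nat_lit 0) xc138 xc139)) (XT.nd (nat_lit 42770) (nat_lit 0) (nat_lit 0) (XT.nd (nat_lit 39574) (nat_lit 0) (nat_lit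 3360) xc140 xc141) (XT.nd (nat_lit 3196) (nat_lit 420) (nat_lit 0) xc142 xc143)))) (XT.nd (nat_lit 135078) (nat_lit 0) (nat_lit 0) (XT.nd (nat_lit 49256) (nat_lit 0) (nat_lit 0) (XT.nd (nat_lit 42864) (nat_lit 0) (nat_lit 1848) (XT.nd (nat_lit 3102) (nat_lit 2688) (nat_lit 0) xc144 xc145) (XT.nd (nat_lit 3196) (nat_lit 3864) (nat_lit 0) xc146 xc147)) (XT.nd (nat_lit 42864) (nat_lit 0) (nat_lit 0) (XT.nd (nat_lit 39668) (nat_lit 0) (nat_lit 4620) xc148 xc149) (XT.nd (nat_lit 3196) (nat_lit 1260) (nat_lit 0) xc150 xc151))) (XT.nd (nat_lit 49256) (nat_lit 0) (nat_lit 0) (XT.nd (nat_lit 6298) (nat_lit 504) (nat_lit 0) (XT.nd (nat_lit 3102) (nat_lit 3192) (nat_lit 0) xc152 xc153) (XT.nd (nat_lit 39762) (nat_lit 0) (nat_lit 2688) xc154 xc155)) (XT.nd (nat_lit 43052) (nat_lit 0) (nat_lit 0) (XT.nd (nat_lit 39856) (nat_lit 0) (nat_lit 5544) xc156 xc157) (XT.nd (nat_lit 3196) (nat_lit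 1764) (nat_lit 0) xc158 xc159))))) (XT.nd (nat_lit 272318) (nat_lit 0) (nat_lit 672) (XT.nd (nat_lit 135642) (nat_lit 0) (nat_lit 252) (XT.nd (nat_lit 49350) (nat_lit 0) (nat_lit 0) (XT.nd (nat_lit 6298) (nat_lit 1008) (nat_lit 0) (XT.nd (nat_lit 3102) (nat_lit 3192) (nat_lit 0) xc160 xc161) (XT.nd (nat_lit 39856) (nat_lit 0) (nat_lit 3276) xc162 xc163)) (XT.nd (nat_lit 43052) (nat_lit 0) (nat_lit 168) (XT.nd (nat_lit 3102) (nat_lit 252) (nat_lit 0) xc164 xc165) (XT.nd (nat_lit 3196) (nat_lit 2100) (nat_lit 0) xc166 xc167))) (XT.nd (nat_lit 49632) (nat_lit 0) (nat_lit 168) (XT.nd (nat_lit 6298) (nat_lit 1008) (nat_lit 0) (XT.nd (nat_lit 3102) (nat_lit 3360) (nat_lit 0) xc168 xc169) (XT.nd (nat_lit 40138) (nat_lit 0) (nat_lit 3024) xc170 xc171)) (XT.nd (nat_lit 43428) (nat_lit 0) (nat_lit 84) (XT.nd (nat_lit 40232) (nat_lit 0) (nat_lit 5292) xc172 xc173) (XT.nd (nat_lit 3196)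 (nat_lit 1344) (nat_lit 0) xc174 xc175)))) (XT.nd (nat_lit 137992) (nat_lit 0) (nat_lit 336) (XT.nd (nat_lit 50102) (nat_lit 0) (nat_lit 84) (XT.nd (nat_lit 43710) (nat_lit 0) (nat_lit 1344) (XT.nd (nat_lit 3102) (nat_lit 3024) (nat_lit 0) xc176 xc177) (XT.nd (nat_lit 3196) (nat_lit 3696) (nat_lit 0) xc178 xc179)) (XT.nd (nat_lit 43804) (nat_lit 0) (nat_lit 168) (XT.nd (nat_lit 40608) (nat_lit 0) (nat_lit 2772) xc180 xc181) (XT.nd (nat_lit 40890) (nat_lit 0) (nat_lit 4116) xc182 xc183))) (XT.nd (nat_lit 88454) (nat_lit 0) (nat_lit 252) (XT.nd (nat_lit 44086) (nat_lit 0) (nat_lit 168) (XT.nd (nat_lit 3102) (nat_lit 588) (nat_lit 0) xc184 xc185) (XT.nd (nat_lit 3196) (nat_lit 1512) (nat_lit 0) xc186 xc187)) (XT.nd (nat_lit 44462) (nat_lit 0) (nat_lit 84) (XT.nd (nat_lit 3196) (nat_lit 2436) (nat_lit 0) xc188 xc189) (XT.nd (nat_lit 3196) (nat_lit 3444) (nat_lit 0) xc190 xc191))))))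 (XT.nd (nat_lit 772774) (nat_lit 0) (nat_lit 2352) (XT.nd (nat_lit 322326) (nat_lit 0) (nat_lit 840) (XT.nd (nat_lit 140906) (nat_lit 0) (nat_lit 336) (XT.nd (nat_lit 51042) (nat_lit 0) (nat_lit 84) (XT.nd (nat_lit 6298) (nat_lit 504) (nat_lit 0) (XT.nd (nat_lit 3102) (nat_lit 3948) (nat_lit 0) xc192 xc193) (XT.nd (nat_lit 41548) (nat_lit 0) (nat_lit 1092) xc194 xc195)) (XT.nd (nat_lit 44838) (nat_lit 0) (nat_lit 168) (XT.nd (nat_lit 41642) (nat_lit 0) (nat_lit 1428) xc196 xc197) (XT.nd (nat_lit 41830) (nat_lit 0) (nat_lit 1596) xc198 xc199))) (XT.nd (nat_lit 90428) (nat_lit 0) (nat_lit 252) (XT.nd (nat_lit 45120) (nat_lit 0) (nat_lit 168) (XT.nd (nat_lit 41924) (nat_lit 0) (nat_lit 1848) xc200 xc201) (XT.nd (nat_lit 42112) (nat_lit 0) (nat_lit 1680) xc202 xc203)) (XT.nd (nat_lit 45402) (nat_lit 0) (nat_lit 168) (XT.nd (nat_lit 42206) (nat_lit 0) (nat_lit 1428) xc204 xc205)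 (XT.nd (nat_lit 42394) (nat_lit 0) (nat_lit 1008) xc206 xc207)))) (XT.nd (nat_lit 223438) (nat_lit 0) (nat_lit 672) (XT.nd (nat_lit 131130) (nat_lit 0) (nat_lit 336) (XT.nd (nat_lit 45684) (nat_lit 0) (nat_lit 0) (XT.nd (nat_lit 42488) (nat_lit 0) (nat_lit 336) xc208 xc209) (XT.nd (nat_lit 42676) (nat_lit 0) (nat_lit 252) xc210 xc211)) (XT.nd (nat_lit 46060) (nat_lit 0) (nat_lit 252) (XT.nd (nat_lit 3102) (nat_lit 2520) (nat_lit 0) xc212 xc213) (XT.nd (nat_lit 3196) (nat_lit 1260) (nat_lit 0) xc214 xc215))) (XT.nd (nat_lit 92872) (nat_lit 0) (nat_lit 336) (XT.nd (nat_lit 46342) (nat_lit 0) (nat_lit 252) (XT.nd (nat_lit 3102) (nat_lit 252) (nat_lit 0) xc216 xc217) (XT.nd (nat_lit 43334) (nat_lit 0) (nat_lit 924) xc218 xc219)) (XT.nd (nat_lit 87138) (nat_lit 0) (nat_lit 336) (XT.nd (nat_lit 43522) (nat_lit 0) (nat_lit 168) xc220 xc221) (XT.nd (nat_lit 3196) (nat_lit 924) (nat_lit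 0) xc222 xc223))))) (XT.nd (nat_lit 632432) (nat_lit 0) (nat_lit 2688) (XT.nd (nat_lit 271566) (nat_lit 0) (nat_lit 924) (XT.nd (nat_lit 135172) (nat_lit 0) (nat_lit 336) (XT.nd (nat_lit 47000) (nat_lit 0) (nat_lit 168) (XT.nd (nat_lit 43804) (nat_lit 0) (nat_lit 336) xc224 xc225) (XT.nd (nat_lit 43992) (nat_lit 0) (nat_lit 168) xc226 xc227)) (XT.nd (nat_lit 47376) (nat_lit 0) (nat_lit 420) (XT.nd (nat_lit 44180) (nat_lit 0) (nat_lit 588) xc228 xc229) (XT.nd (nat_lit 44462) (nat_lit 0) (nat_lit 0) xc230 xc231))) (XT.nd (nat_lit 179352) (nat_lit 0) (nat_lit 924) (XT.nd (nat_lit 89394) (nat_lit 0) (nat_lit 420) (XT.nd (nat_lit 44556) (nat_lit 0) (nat_lit 252) xc232 xc233) (XT.nd (nat_lit 44932) (nat_lit 0) (nat_lit 0) xc234 xc235)) (XT.nd (nat_lit 90522) (nat_lit 0) (nat_lit 252) (XT.nd (nat_lit 45214) (nat_lit 0) (nat_lit 0) xc236 xc237) (XT.nd (nat_lit 45402) (nat_lit 0)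 (nat_lit 336) xc238 xc239)))) (XT.nd (nat_lit 498576) (nat_lit 0) (nat_lit 2352) (XT.nd (nat_lit 226164) (nat_lit 0) (nat_lit 924) (XT.nd (nat_lit 91368) (nat_lit 0) (nat_lit 252) (XT.nd (nat_lit 45590) (nat_lit 0) (nat_lit 0) xc240 xc241) (XT.nd (nat_lit 45872) (nat_lit 0) (nat_lit 0) xc242 xc243)) (XT.nd (nat_lit 135736) (nat_lit 0) (nat_lit 672) (XT.nd (nat_lit 46154) (nat_lit 0) (nat_lit 336) xc244 xc245) (XT.nd (nat_lit 46530) (nat_lit 0) (nat_lit 420) xc246 xc247))) (XT.nd (nat_lit 452892) (nat_lit 0) (nat_lit 1848) (XT.nd (nat_lit 181326) (nat_lit 0) (nat_lit 840) (XT.nd (nat_lit 90428) (nat_lit 0) (nat_lit 420) xc248 xc249) (XT.nd (nat_lit 135454) (nat_lit 0) (nat_lit 1008) xc250 xc251)) (XT.nd (nat_lit 452422) (nat_lit 0) (nat_lit 0) (XT.nd (nat_lit 181232) (nat_lit 0) (nat_lit 0) xc252 xc253) (XT.nd (nat_lit 271942) (nat_lit 0) (nat_lit 0) xc254 xc255)))))))) XT.nil))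

set_option maxRecDepth 10000000 in
noncomputable def Te : XT := (XT.nd (nat_lit 9298010) (nat_lit 0) (nat_lit 0) XT.nil (XT.nd (nat_lit 5690478) (nat_lit 0) (nat_lit 0) (XT.nd (nat_lit 3559592) (nat_lit 0) (nat_lit 0) (XT.nd (nat_lit 2433378) (nat_lit 0) (nat_lit 0) (XT.nd (nat_lit 1673482) (nat_lit 0) (nat_lit 0) (XT.nd (nat_lit 1217864) (nat_lit 2100) (nat_lit 0) (XT.nd (nat_lit 858878) (nat_lit 2520) (nat_lit 0) (XT.nd (nat_lit 631116) (nat_lit 1932) (nat_lit 0) (XT.nd (nat_lit 450730) (nat_lit 2016) (nat_lit 0) (XT.nd (nat_lit 315652) (nat_lit 1176) (nat_lit 0) ec0 ec1) (XT.nd (nat_lit 90616) (nat_lit 924) (nat_lit 0) ec2 ec3)) (XT.nd (nat_lit 135360) (nat_lit 588) (nat_lit 0) (XT.nd (nat_lit 47000) (nat_lit 756) (nat_lit 0) ec4 ec5) (XT.nd (nat_lit 46248) (nat_lit 168) (nat_lit 0) ec6 ec7))) (XT.nd (nat_lit 181514) (nat_lit 1176) (nat_lit 0) (XT.nd (nat_lit 91274)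 (nat_lit 588) (nat_lit 0) (XT.nd (nat_lit 45778) (nat_lit 336) (nat_lit 0) ec8 ec9) (XT.nd (nat_lit 45214) (nat_lit 252) (nat_lit 0) ec10 ec11)) (XT.nd (nat_lit 89300) (nat_lit 588) (nat_lit 0) (XT.nd (nat_lit 44744) (nat_lit 336) (nat_lit 0) ec12 ec13) (XT.nd (nat_lit 44180) (nat_lit 252) (nat_lit 0) ec14 ec15)))) (XT.nd (nat_lit 268088) (nat_lit 756) (nat_lit 0) (XT.nd (nat_lit 135172) (nat_lit 588) (nat_lit 0) (XT.nd (nat_lit 48692) (nat_lit 504) (nat_lit 0) (XT.nd (nat_lit 43616) (nat_lit 0) (nat_lit 504) ec16 ec17) (XT.nd (nat_lit 43334) (nat_lit 252) (nat_lit 0) ec18 ec19)) (XT.nd (nat_lit 47940) (nat_lit 420) (nat_lit 0) (XT.nd (nat_lit 42770) (nat_lit 0) (nat_lit 2100) ec20 ec21) (XT.nd (nat_lit 42582) (nat_lit 252) (nat_lit 0) ec22 ec23))) (XT.nd (nat_lit 94094) (nat_lit 252) (nat_lit 0) (XT.nd (nat_lit 47094) (nat_lit 252) (nat_lit 0) (XT.nd (nat_lit 5076) (nat_lit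 2772) (nat_lit 0) ec24 ec25) (XT.nd (nat_lit 5076) (nat_lit 1008) (nat_lit 0) ec26 ec27)) (XT.nd (nat_lit 46812) (nat_lit 168) (nat_lit 0) (XT.nd (nat_lit 41642) (nat_lit 0) (nat_lit 2184) ec28 ec29) (XT.nd (nat_lit 41454) (nat_lit 0) (nat_lit 1008) ec30 ec31))))) (XT.nd (nat_lit 402696) (nat_lit 0) (nat_lit 0) (XT.nd (nat_lit 220618) (nat_lit 0) (nat_lit 0) (XT.nd (nat_lit 128686) (nat_lit 0) (nat_lit 0) (XT.nd (nat_lit 82532) (nat_lit 0) (nat_lit 0) (XT.nd (nat_lit 41360) (nat_lit 0) (nat_lit 0) ec32 ec33) (XT.nd (nat_lit 5076) (nat_lit 3360) (nat_lit 0) ec34 ec35)) (XT.nd (nat_lit 46060) (nat_lit 0) (nat_lit 0) (XT.nd (nat_lit 5076) (nat_lit 2100) (nat_lit 0) ec36 ec37) (XT.nd (nat_lit 5076) (nat_lit 1260) (nat_lit 0) ec38 ec39))) (XT.nd (nat_lit 91274) (nat_lit 0) (nat_lit 0) (XT.nd (nat_lit 45684) (nat_lit 0) (nat_lit 0) (XT.nd (nat_lit 5076) (nat_lit 504) (nat_lit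 0) ec40 ec41) (XT.nd (nat_lit 5076) (nat_lit 0) (nat_lit 0) ec42 ec43)) (XT.nd (nat_lit 45496) (nat_lit 0) (nat_lit 0) (XT.nd (nat_lit 5076) (nat_lit 0) (nat_lit 0) ec44 ec45) (XT.nd (nat_lit 5076) (nat_lit 0) (nat_lit 0) ec46 ec47)))) (XT.nd (nat_lit 179822) (nat_lit 0) (nat_lit 0) (XT.nd (nat_lit 90146) (nat_lit 0) (nat_lit 0) (XT.nd (nat_lit 45120) (nat_lit 0) (nat_lit 0) (XT.nd (nat_lit 40044) (nat_lit 0) (nat_lit 3360) ec48 ec49) (XT.nd (nat_lit 5076) (nat_lit 0) (nat_lit 0) ec50 ec51)) (XT.nd (nat_lit 44932) (nat_lit 0) (nat_lit 0) (XT.nd (nat_lit 5076) (nat_lit 0) (nat_lit 0) ec52 ec53) (XT.nd (nat_lit 5076) (nat_lit 0) (nat_lit 0) ec54 ec55))) (XT.nd (nat_lit 88924) (nat_lit 0) (nat_lit 0) (XT.nd (nat_lit 44462) (nat_lit 0) (nat_lit 0) (XT.nd (nat_lit 5076) (nat_lit 0) (nat_lit 0) ec56 ec57) (XT.nd (nat_lit 5076) (nat_lit 0) (nat_lit 0) ec58 ec59)) (XT.nd (nat_lit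 44274) (nat_lit 0) (nat_lit 0) (XT.nd (nat_lit 5076) (nat_lit 0) (nat_lit 0) ec60 ec61) (XT.nd (nat_lit 5076) (nat_lit 672) (nat_lit 0) ec62 ec63)))))) (XT.nd (nat_lit 590884) (nat_lit 0) (nat_lit 0) (XT.nd (nat_lit 314994) (nat_lit 0) (nat_lit 0) (XT.nd (nat_lit 141752) (nat_lit 0) (nat_lit 0) (XT.nd (nat_lit 54144) (nat_lit 0) (nat_lit 0) (XT.nd (nat_lit 43898) (nat_lit 0) (nat_lit 0) (XT.nd (nat_lit 5076) (nat_lit 1344) (nat_lit 0) ec64 ec65) (XT.nd (nat_lit 5076) (nat_lit 2352) (nat_lit 0) ec66 ec67)) (XT.nd (nat_lit 43898) (nat_lit 0) (nat_lit 0) (XT.nd (nat_lit 38728) (nat_lit 0) (nat_lit 0) ec68 ec69) (XT.nd (nat_lit 38540) (nat_lit 0) (nat_lit 0) ec70 ec71))) (XT.nd (nat_lit 86856) (nat_lit 0) (nat_lit 0) (XT.nd (nat_lit 43428) (nat_lit 0) (nat_lit 0) (XT.nd (nat_lit 38352) (nat_lit 0) (nat_lit 1344) ec72 ec73) (XT.nd (nat_lit 38258) (nat_lit 0) (nat_lit 2940) ec74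 ec75)) (XT.nd (nat_lit 43240) (nat_lit 0) (nat_lit 0) (XT.nd (nat_lit 5076) (nat_lit 0) (nat_lit 0) ec76 ec77) (XT.nd (nat_lit 5076) (nat_lit 0) (nat_lit 0) ec78 ec79)))) (XT.nd (nat_lit 138650) (nat_lit 0) (nat_lit 0) (XT.nd (nat_lit 53110) (nat_lit 0) (nat_lit 0) (XT.nd (nat_lit 10152) (nat_lit 0) (nat_lit 0) (XT.nd (nat_lit 5076) (nat_lit 1512) (nat_lit 0) ec80 ec81) (XT.nd (nat_lit 37788) (nat_lit 0) (nat_lit 0) ec82 ec83)) (XT.nd (nat_lit 42864) (nat_lit 0) (nat_lit 0) (XT.nd (nat_lit 37694) (nat_lit 0) (nat_lit 756) ec84 ec85) (XT.nd (nat_lit 37506) (nat_lit 0) (nat_lit 3024) ec86 ec87))) (XT.nd (nat_lit 84788) (nat_lit 0) (nat_lit 0) (XT.nd (nat_lit 42394) (nat_lit 0) (nat_lit 0) (XT.nd (nat_lit 5076) (nat_lit 0) (nat_lit 0) ec88 ec89) (XT.nd (nat_lit 5076) (nat_lit 756) (nat_lit 0) ec90 ec91)) (XT.nd (nat_lit 10246) (nat_lit 0) (nat_lit 0) (XT.nd (nat_lit 5076) (nat_lit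 3276) (nat_lit 0) ec92 ec93) (XT.nd (nat_lit 37036) (nat_lit 0) (nat_lit 1008) ec94 ec95))))) (XT.nd (nat_lit 270438) (nat_lit 0) (nat_lit 0) (XT.nd (nat_lit 135924) (nat_lit 0) (nat_lit 0) (XT.nd (nat_lit 83942) (nat_lit 0) (nat_lit 0) (XT.nd (nat_lit 42018) (nat_lit 0) (nat_lit 0) (XT.nd (nat_lit 5076) (nat_lit 0) (nat_lit 0) ec96 ec97) (XT.nd (nat_lit 5076) (nat_lit 0) (nat_lit 0) ec98 ec99)) (XT.nd (nat_lit 10246) (nat_lit 0) (nat_lit 0) (XT.nd (nat_lit 5076) (nat_lit 1848) (nat_lit 0) ec100 ec101) (XT.nd (nat_lit 36566) (nat_lit 0) (nat_lit 252) ec102 ec103))) (XT.nd (nat_lit 83002) (nat_lit 0) (nat_lit 0) (XT.nd (nat_lit 41548) (nat_lit 0) (nat_lit 0) (XT.nd (nat_lit 5076) (nat_lit 0) (nat_lit 0) ec104 ec105) (XT.nd (nat_lit 5076) (nat_lit 0) (nat_lit 0) ec106 ec107)) (XT.nd (nat_lit 10246) (nat_lit 0) (nat_lit 0) (XT.nd (nat_lit 5076) (nat_lit 2016) (nat_lit 0) ec108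 ec109) (XT.nd (nat_lit 36096) (nat_lit 0) (nat_lit 756) ec110 ec111)))) (XT.nd (nat_lit 133104) (nat_lit 0) (nat_lit 0) (XT.nd (nat_lit 51324) (nat_lit 0) (nat_lit 0) (XT.nd (nat_lit 41078) (nat_lit 0) (nat_lit 0) (XT.nd (nat_lit 5076) (nat_lit 0) (nat_lit 0) ec112 ec113) (XT.nd (nat_lit 5076) (nat_lit 0) (nat_lit 0) ec114 ec115)) (XT.nd (nat_lit 40984) (nat_lit 0) (nat_lit 0) (XT.nd (nat_lit 35814) (nat_lit 0) (nat_lit 0) ec116 ec117) (XT.nd (nat_lit 35626) (nat_lit 0) (nat_lit 2352) ec118 ec119))) (XT.nd (nat_lit 50948) (nat_lit 0) (nat_lit 0) (XT.nd (nat_lit 40702) (nat_lit 0) (nat_lit 0) (XT.nd (nat_lit 5076) (nat_lit 0) (nat_lit 0) ec120 ec121) (XT.nd (nat_lit 5076) (nat_lit 1764) (nat_lit 0) ec122 ec123)) (XT.nd (nat_lit 40514) (nat_lit 0) (nat_lit 0) (XT.nd (nat_lit 35344) (nat_lit 0) (nat_lit 1260) ec124 ec125) (XT.nd (nat_lit 5076) (nat_lit 0) (nat_lit 0) ec126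 ec127))))))) (XT.nd (nat_lit 864988) (nat_lit 0) (nat_lit 0) (XT.nd (nat_lit 455242) (nat_lit 0) (nat_lit 0) (XT.nd (nat_lit 229736) (nat_lit 0) (nat_lit 0) (XT.nd (nat_lit 100580) (nat_lit 0) (nat_lit 0) (XT.nd (nat_lit 50290) (nat_lit 0) (nat_lit 0) (XT.nd (nat_lit 10152) (nat_lit 0) (nat_lit 0) (XT.nd (nat_lit 5076) (nat_lit 924) (nat_lit 0) ec128 ec129) (XT.nd (nat_lit 34968) (nat_lit 0) (nat_lit 756) ec130 ec131)) (XT.nd (nat_lit 40044) (nat_lit 0) (nat_lit 0) (XT.nd (nat_lit 5076) (nat_lit 0) (nat_lit 0) ec132 ec133) (XT.nd (nat_lit 5076) (nat_lit 672) (nat_lit 0) ec134 ec135))) (XT.nd (nat_lit 79430) (nat_lit 0) (nat_lit 0) (XT.nd (nat_lit 39762) (nat_lit 0) (nat_lit 0) (XT.nd (nat_lit 34686) (nat_lit 0) (nat_lit 756) ec136 ec137) (XT.nd (nat_lit 5076) (nat_lit 0) (nat_lit 0) ec138 ec139)) (XT.nd (nat_lit 10246) (nat_lit 0) (nat_lit 0) (XT.nd (nat_lit 5076) (nat_lit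 1008) (nat_lit 0) ec140 ec141) (XT.nd (nat_lit 34310) (nat_lit 0) (nat_lit 1260) ec142 ec143)))) (XT.nd (nat_lit 98888) (nat_lit 0) (nat_lit 0) (XT.nd (nat_lit 49444) (nat_lit 0) (nat_lit 0) (XT.nd (nat_lit 39198) (nat_lit 0) (nat_lit 0) (XT.nd (nat_lit 5076) (nat_lit 0) (nat_lit 0) ec144 ec145) (XT.nd (nat_lit 5076) (nat_lit 2016) (nat_lit 0) ec146 ec147)) (XT.nd (nat_lit 39198) (nat_lit 0) (nat_lit 0) (XT.nd (nat_lit 34028) (nat_lit 0) (nat_lit 2604) ec148 ec149) (XT.nd (nat_lit 5076) (nat_lit 0) (nat_lit 0) ec150 ec151))) (XT.nd (nat_lit 77738) (nat_lit 0) (nat_lit 0) (XT.nd (nat_lit 38916) (nat_lit 0) (nat_lit 0) (XT.nd (nat_lit 33840) (nat_lit 0) (nat_lit 0) ec152 ec153) (XT.nd (nat_lit 5076) (nat_lit 0) (nat_lit 0) ec154 ec155)) (XT.nd (nat_lit 10246) (nat_lit 0) (nat_lit 0) (XT.nd (nat_lit 5076) (nat_lit 0) (nat_lit 0) ec156 ec157) (XT.nd (nat_lit 33464) (nat_lit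 0) (nat_lit 1008) ec158 ec159))))) (XT.nd (nat_lit 220524) (nat_lit 0) (nat_lit 0) (XT.nd (nat_lit 97008) (nat_lit 0) (nat_lit 0) (XT.nd (nat_lit 48598) (nat_lit 0) (nat_lit 0) (XT.nd (nat_lit 38352) (nat_lit 0) (nat_lit 0) (XT.nd (nat_lit 5076) (nat_lit 0) (nat_lit 0) ec160 ec161) (XT.nd (nat_lit 5076) (nat_lit 2352) (nat_lit 0) ec162 ec163)) (XT.nd (nat_lit 38164) (nat_lit 0) (nat_lit 0) (XT.nd (nat_lit 5076) (nat_lit 0) (nat_lit 0) ec164 ec165) (XT.nd (nat_lit 5076) (nat_lit 0) (nat_lit 0) ec166 ec167))) (XT.nd (nat_lit 75670) (nat_lit 0) (nat_lit 0) (XT.nd (nat_lit 37882) (nat_lit 0) (nat_lit 0) (XT.nd (nat_lit 32806) (nat_lit 0) (nat_lit 1176) ec168 ec169) (XT.nd (nat_lit 5076) (nat_lit 0) (nat_lit 0) ec170 ec171)) (XT.nd (nat_lit 10246) (nat_lit 0) (nat_lit 0) (XT.nd (nat_lit 5076) (nat_lit 3276) (nat_lit 0) ec172 ec173) (XT.nd (nat_lit 5076) (nat_lit 0) (nat_lit 0)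 ec174 ec175)))) (XT.nd (nat_lit 95034) (nat_lit 0) (nat_lit 0) (XT.nd (nat_lit 47564) (nat_lit 0) (nat_lit 0) (XT.nd (nat_lit 10152) (nat_lit 0) (nat_lit 0) (XT.nd (nat_lit 5076) (nat_lit 504) (nat_lit 0) ec176 ec177) (XT.nd (nat_lit 32242) (nat_lit 0) (nat_lit 2940) ec178 ec179)) (XT.nd (nat_lit 10246) (nat_lit 0) (nat_lit 0) (XT.nd (nat_lit 5076) (nat_lit 0) (nat_lit 0) ec180 ec181) (XT.nd (nat_lit 32054) (nat_lit 0) (nat_lit 672) ec182 ec183))) (XT.nd (nat_lit 47188) (nat_lit 0) (nat_lit 0) (XT.nd (nat_lit 10246) (nat_lit 0) (nat_lit 0) (XT.nd (nat_lit 5076) (nat_lit 0) (nat_lit 0) ec184 ec185) (XT.nd (nat_lit 31772) (nat_lit 0) (nat_lit 0) ec186 ec187)) (XT.nd (nat_lit 36754) (nat_lit 0) (nat_lit 0) (XT.nd (nat_lit 5076) (nat_lit 0) (nat_lit 0) ec188 ec189) (XT.nd (nat_lit 5076) (nat_lit 1512) (nat_lit 0) ec190 ec191)))))) (XT.nd (nat_lit 367258) (nat_lit 0) (nat_lit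 0) (XT.nd (nat_lit 185556) (nat_lit 0) (nat_lit 0) (XT.nd (nat_lit 93248) (nat_lit 0) (nat_lit 0) (XT.nd (nat_lit 46718) (nat_lit 0) (nat_lit 0) (XT.nd (nat_lit 36472) (nat_lit 0) (nat_lit 0) (XT.nd (nat_lit 5076) (nat_lit 0) (nat_lit 0) ec192 ec193) (XT.nd (nat_lit 5076) (nat_lit 0) (nat_lit 0) ec194 ec195)) (XT.nd (nat_lit 36284) (nat_lit 0) (nat_lit 0) (XT.nd (nat_lit 5076) (nat_lit 0) (nat_lit 0) ec196 ec197) (XT.nd (nat_lit 5076) (nat_lit 0) (nat_lit 0) ec198 ec199))) (XT.nd (nat_lit 46248) (nat_lit 0) (nat_lit 0) (XT.nd (nat_lit 36002) (nat_lit 0) (nat_lit 0) (XT.nd (nat_lit 30926) (nat_lit 0) (nat_lit 2100) ec200 ec201) (XT.nd (nat_lit 5076) (nat_lit 0) (nat_lit 0) ec202 ec203)) (XT.nd (nat_lit 35814) (nat_lit 0) (nat_lit 0) (XT.nd (nat_lit 30644) (nat_lit 0) (nat_lit 1260) ec204 ec205) (XT.nd (nat_lit 5076) (nat_lit 0) (nat_lit 0) ec206 ec207)))) (XT.nd (nat_lit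 91368) (nat_lit 0) (nat_lit 0) (XT.nd (nat_lit 45778) (nat_lit 0) (nat_lit 0) (XT.nd (nat_lit 35532) (nat_lit 0) (nat_lit 0) (XT.nd (nat_lit 30456) (nat_lit 0) (nat_lit 504) ec208 ec209) (XT.nd (nat_lit 5076) (nat_lit 0) (nat_lit 0) ec210 ec211)) (XT.nd (nat_lit 35344) (nat_lit 0) (nat_lit 0) (XT.nd (nat_lit 30174) (nat_lit 0) (nat_lit 0) ec212 ec213) (XT.nd (nat_lit 5076) (nat_lit 0) (nat_lit 0) ec214 ec215))) (XT.nd (nat_lit 45214) (nat_lit 0) (nat_lit 0) (XT.nd (nat_lit 34968) (nat_lit 0) (nat_lit 0) (XT.nd (nat_lit 29892) (nat_lit 0) (nat_lit 0) ec216 ec217) (XT.nd (nat_lit 5076) (nat_lit 0) (nat_lit 0) ec218 ec219)) (XT.nd (nat_lit 34874) (nat_lit 0) (nat_lit 0) (XT.nd (nat_lit 29704) (nat_lit 0) (nat_lit 0) ec220 ec221) (XT.nd (nat_lit 5076) (nat_lit 0) (nat_lit 0) ec222 ec223))))) (XT.nd (nat_lit 267994) (nat_lit 0) (nat_lit 0) (XT.nd (nat_lit 128028) (nat_lit 0)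 (nat_lit 0) (XT.nd (nat_lit 74730) (nat_lit 0) (nat_lit 0) (XT.nd (nat_lit 36942) (nat_lit 0) (nat_lit 0) (XT.nd (nat_lit 30644) (nat_lit 0) (nat_lit 0) ec224 ec225) (XT.nd (nat_lit 5076) (nat_lit 0) (nat_lit 0) ec226 ec227)) (XT.nd (nat_lit 12126) (nat_lit 0) (nat_lit 0) (XT.nd (nat_lit 5076) (nat_lit 0) (nat_lit 0) ec228 ec229) (XT.nd (nat_lit 33464) (nat_lit 0) (nat_lit 0) ec230 ec231))) (XT.nd (nat_lit 82250) (nat_lit 0) (nat_lit 0) (XT.nd (nat_lit 39292) (nat_lit 0) (nat_lit 0) (XT.nd (nat_lit 5076) (nat_lit 0) (nat_lit 0) ec232 ec233) (XT.nd (nat_lit 8084) (nat_lit 0) (nat_lit 0) ec234 ec235)) (XT.nd (nat_lit 16920) (nat_lit 0) (nat_lit 0) (XT.nd (nat_lit 8366) (nat_lit 0) (nat_lit 0) ec236 ec237) (XT.nd (nat_lit 31866) (nat_lit 0) (nat_lit 0) ec238 ec239)))) (XT.nd (nat_lit 216294) (nat_lit 0) (nat_lit 0) (XT.nd (nat_lit 94846) (nat_lit 0) (nat_lit 0) (XT.nd (nat_lit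 44838) (nat_lit 0) (nat_lit 0) (XT.nd (nat_lit 35720) (nat_lit 0) (nat_lit 0) ec240 ec241) (XT.nd (nat_lit 36096) (nat_lit 0) (nat_lit 0) ec242 ec243)) (XT.nd (nat_lit 68620) (nat_lit 0) (nat_lit 0) (XT.nd (nat_lit 31960) (nat_lit 0) (nat_lit 0) ec244 ec245) (XT.nd (nat_lit 15322) (nat_lit 0) (nat_lit 0) ec246 ec247))) (XT.nd (nat_lit 142316) (nat_lit 0) (nat_lit 0) (XT.nd (nat_lit 53862) (nat_lit 0) (nat_lit 0) (XT.nd (nat_lit 37318) (nat_lit 0) (nat_lit 0) ec248 ec249) (XT.nd (nat_lit 43898) (nat_lit 0) (nat_lit 0) ec250 ec251)) (XT.nd (nat_lit 91274) (nat_lit 0) (nat_lit 0) (XT.nd (nat_lit 45214) (nat_lit 0) (nat_lit 0) ec252 ec253) (XT.nd (nat_lit 73790) (nat_lit 0) (nat_lit 0) ec254 ec255)))))))) XT.nil))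

set_option maxRecDepth 10000000 in
noncomputable def Tz : ZL := (ZL.cons (nat_lit 84) (nat_lit 6) (nat_lit 321257818293209243906) (ZL.cons (nat_lit 168) (nat_lit 3) (nat_lit 160439085896852896576) (ZL.cons (nat_lit 252) (nat_lit 6) (nat_lit 313383997414177136134) (ZL.cons (nat_lit 336) (nat_lit 6) (nat_lit 306256328909940688210) (ZL.cons (nat_lit 420) (nat_lit 3) (nat_lit 152947380407587748509) (ZL.cons (nat_lit 504) (nat_lit 6) (nat_lit 298772276980492417892) (ZL.cons (nat_lit 588) (nat_lit 6) (nat_lit 291999587615283415234) (ZL.cons (nat_lit 672) (nat_lit 3) (nat_lit 145827618524420188001) (ZL.cons (nat_lit 756) (nat_lit 6) (nat_lit 284888263781813962442) (ZL.cons (nat_lit 840) (nat_lit 6) (nat_lit 278455245338301209562) (ZL.cons (nat_lit 924) (nat_lit 3) (nat_lit 139063646208939633718) (ZL.cons (nat_lit 1008) (nat_lit 6) (nat_lit 271700575972612819038) (ZL.cons (nat_lit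 1092) (nat_lit 6) (nat_lit 265592812740192554274) (ZL.cons (nat_lit 1176) (nat_lit 3) (nat_lit 132640238312752495173) (ZL.cons (nat_lit 1260) (nat_lit 6) (nat_lit 259179661346151276272) (ZL.cons (nat_lit 1344) (nat_lit 6) (nat_lit 253383604383886548926) (ZL.cons (nat_lit 1428) (nat_lit 3) (nat_lit 126543070708758720211) (ZL.cons (nat_lit 1512) (nat_lit 6) (nat_lit 247297744573508585214) (ZL.cons (nat_lit 1596) (nat_lit 6) (nat_lit 241800688916877070514) (ZL.cons (nat_lit 1680) (nat_lit 3) (nat_lit 120758695426834197874) (ZL.cons (nat_lit 1764) (nat_lit 6) (nat_lit 236028780477413980080) (ZL.cons (nat_lit 1848) (nat_lit 6) (nat_lit 230818845324801875310) (ZL.cons (nat_lit 1932) (nat_lit 3) (nat_lit 115274518822777759196) (ZL.cons (nat_lit 2016) (nat_lit 6) (nat_lit 225348413414559165306) (ZL.cons (nat_lit 2100) (nat_lit 6) (nat_lit 220414525345779691406) (ZL.cons (nat_lit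 2184) (nat_lit 3) (nat_lit 110078782825629675741) (ZL.cons (nat_lit 2268) (nat_lit 6) (nat_lit 215233942873561243812) (ZL.cons (nat_lit 2352) (nat_lit 6) (nat_lit 210565822170089370610) (ZL.cons (nat_lit 2436) (nat_lit 3) (nat_lit 105160549325749285341) (ZL.cons (nat_lit 2520) (nat_lit 6) (nat_lit 206142088967740227412) (ZL.cons (nat_lit 2604) (nat_lit 6) (nat_lit 205664295431443903746) (ZL.cons (nat_lit 2688) (nat_lit 6) (nat_lit 201252445586682827128) (ZL.cons (nat_lit 2772) (nat_lit 3) (nat_lit 100509687784488651695) (ZL.cons (nat_lit 2856) (nat_lit 6) (nat_lit 197075044712823052554) (ZL.cons (nat_lit 2940) (nat_lit 6) (nat_lit 196620003249683696682) (ZL.cons (nat_lit 3024) (nat_lit 6) (nat_lit 192455703777564765512) (ZL.cons (nat_lit 3108) (nat_lit 3) (nat_lit 96116866166065466689) (ZL.cons (nat_lit 3192) (nat_lit 6) (nat_lit 188516562153877369568) (ZL.cons (nat_lit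 3276) (nat_lit 6) (nat_lit 188083189331839887782) (ZL.cons (nat_lit 3360) (nat_lit 6) (nat_lit 184158492003571771692) (ZL.cons (nat_lit 3444) (nat_lit 3) (nat_lit 91973545313484061020) (ZL.cons (nat_lit 3528) (nat_lit 6) (nat_lit 180450295829878327688) (ZL.cons (nat_lit 3612) (nat_lit 6) (nat_lit 180037559808890249798) (ZL.cons (nat_lit 3696) (nat_lit 6) (nat_lit 176345288470896561830) (ZL.cons (nat_lit 3780) (nat_lit 3) (nat_lit 88071976913256066796) (ZL.cons (nat_lit 3864) (nat_lit 6) (nat_lit 172861485490753739836) (ZL.cons (nat_lit 3948) (nat_lit 6) (nat_lit 172468403566003189466) (ZL.cons (nat_lit 4032) (nat_lit 6) (nat_lit 169002157717219348504) (ZL.cons (nat_lit 4116) (nat_lit 3) (nat_lit 84405205218426613186) (ZL.cons (nat_lit 4200) (nat_lit 6) (nat_lit 165736963313853982514) (ZL.cons (nat_lit 4284) (nat_lit 6) (nat_lit 165362599575996315494) (ZL.cons (nat_lit 4368)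 (nat_lit 6) (nat_lit 162665046083518126338) (ZL.cons (nat_lit 4452) (nat_lit 6) (nat_lit 162116761909954226092) (ZL.cons (nat_lit 4536) (nat_lit 3) (nat_lit 80967072726231340602) (ZL.cons (nat_lit 4620) (nat_lit 6) (nat_lit 159065169253807810334) (ZL.cons (nat_lit 4704) (nat_lit 6) (nat_lit 158708632360610032220) (ZL.cons (nat_lit 4788) (nat_lit 6) (nat_lit 156200555910756719614) (ZL.cons (nat_lit 4872) (nat_lit 6) (nat_lit 155678380507362528902) (ZL.cons (nat_lit 4956) (nat_lit 3) (nat_lit 77752230035828147838) (ZL.cons (nat_lit 5040) (nat_lit 6) (nat_lit 152836175007355296240) (ZL.cons (nat_lit 5124) (nat_lit 6) (nat_lit 152496616061452650416) (ZL.cons (nat_lit 5208) (nat_lit 6) (nat_lit 150175248704635936062) (ZL.cons (nat_lit 5292) (nat_lit 6) (nat_lit 149677938796641468720) (ZL.cons (nat_lit 5376) (nat_lit 3) (nat_lit 74756150143222528061) (ZL.cons (nat_lit 5460) (nat_lit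 6) (nat_lit 147689266060388449892) (ZL.cons (nat_lit 5544) (nat_lit 6) (nat_lit 147041717140877962052) (ZL.cons (nat_lit 5628) (nat_lit 6) (nat_lit 146718327668589727936) (ZL.cons (nat_lit 5712) (nat_lit 6) (nat_lit 144581674375934122070) (ZL.cons (nat_lit 5796) (nat_lit 6) (nat_lit 144108045892129867456) (ZL.cons (nat_lit 5880) (nat_lit 3) (nat_lit 71975147465019022969) (ZL.cons (nat_lit 5964) (nat_lit 6) (nat_lit 142291953257131511056) (ZL.cons (nat_lit 6048) (nat_lit 6) (nat_lit 141675240000454855970) (ZL.cons (nat_lit 6132) (nat_lit 6) (nat_lit 141367250026847013954) (ZL.cons (nat_lit 6216) (nat_lit 6) (nat_lit 140167102067520598986) (ZL.cons (nat_lit 6300) (nat_lit 6) (nat_lit 139414117598584514880) (ZL.cons (nat_lit 6384) (nat_lit 6) (nat_lit 138963042852104272392) (ZL.cons (nat_lit 6468) (nat_lit 3) (nat_lit 69406401920294125947) (ZL.cons (nat_lit 6552) (nat_lit 6)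 (nat_lit 137319295061752486226) (ZL.cons (nat_lit 6636) (nat_lit 6) (nat_lit 136731949103012814718) (ZL.cons (nat_lit 6720) (nat_lit 6) (nat_lit 136438625318624393748) (ZL.cons (nat_lit 6804) (nat_lit 6) (nat_lit 135385784717252027086) (ZL.cons (nat_lit 6888) (nat_lit 6) (nat_lit 134668656651598613652) (ZL.cons (nat_lit 6972) (nat_lit 6) (nat_lit 134239061654950763662) (ZL.cons (nat_lit 7056) (nat_lit 3) (nat_lit 67047988441039181595) (ZL.cons (nat_lit 7140) (nat_lit 6) (nat_lit 133608982969024803034) (ZL.cons (nat_lit 7224) (nat_lit 6) (nat_lit 132768252896786873480) (ZL.cons (nat_lit 7308) (nat_lit 6) (nat_lit 132208875793225281564) (ZL.cons (nat_lit 7392) (nat_lit 6) (nat_lit 131929519808093452072) (ZL.cons (nat_lit 7476) (nat_lit 6) (nat_lit 131026213067732804344) (ZL.cons (nat_lit 7560) (nat_lit 6) (nat_lit 130343233957586696308) (ZL.cons (nat_lit 7644) (nat_lit 6)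 (nat_lit 129934095865541124890) (ZL.cons (nat_lit 7728) (nat_lit 3) (nat_lit 64898912326640847935) (ZL.cons (nat_lit 7812) (nat_lit 6) (nat_lit 129438389450557706076) (ZL.cons (nat_lit 7896) (nat_lit 6) (nat_lit 128637694143664439834) (ZL.cons (nat_lit 7980) (nat_lit 6) (nat_lit 128104954045034352296) (ZL.cons (nat_lit 8064) (nat_lit 6) (nat_lit 127838900725861181350) (ZL.cons (nat_lit 8148) (nat_lit 6) (nat_lit 128001001512839733208) (ZL.cons (nat_lit 8232) (nat_lit 6) (nat_lit 127088195542377744862) (ZL.cons (nat_lit 8316) (nat_lit 6) (nat_lit 126437739247000499118) (ZL.cons (nat_lit 8400) (nat_lit 6) (nat_lit 126048083921242812052) (ZL.cons (nat_lit 8484) (nat_lit 3) (nat_lit 62959150907164535063) (ZL.cons (nat_lit 8568) (nat_lit 6) (nat_lit 125691048871342595454) (ZL.cons (nat_lit 8652) (nat_lit 6) (nat_lit 124928481912396627606) (ZL.cons (nat_lit 8736) (nat_lit 6) (nat_lit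 124421110389891782334) (ZL.cons (nat_lit 8820) (nat_lit 6) (nat_lit 124167726276393524288) (ZL.cons (nat_lit 8904) (nat_lit 6) (nat_lit 124442927590866050780) (ZL.cons (nat_lit 8988) (nat_lit 6) (nat_lit 123573588571378442832) (ZL.cons (nat_lit 9072) (nat_lit 6) (nat_lit 122954106385304875456) (ZL.cons (nat_lit 9156) (nat_lit 6) (nat_lit 122583006075059459204) (ZL.cons (nat_lit 9240) (nat_lit 3) (nat_lit 61229702034237471542) (ZL.cons (nat_lit 9324) (nat_lit 6) (nat_lit 123340859983613642870) (ZL.cons (nat_lit 9408) (nat_lit 6) (nat_lit 122369833287419711020) (ZL.cons (nat_lit 9492) (nat_lit 6) (nat_lit 121643579040804503544) (ZL.cons (nat_lit 9576) (nat_lit 6) (nat_lit 121160368066990365188) (ZL.cons (nat_lit 9660) (nat_lit 6) (nat_lit 120919049863658690862) (ZL.cons (nat_lit 9744) (nat_lit 6) (nat_lit 122382222079091913616) (ZL.cons (nat_lit 9828) (nat_lit 6) (nat_lit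 121314349976511006620) (ZL.cons (nat_lit 9912) (nat_lit 6) (nat_lit 120486408053189475242) (ZL.cons (nat_lit 9996) (nat_lit 6) (nat_lit 119896425018833696786) (ZL.cons (nat_lit 10080) (nat_lit 6) (nat_lit 119542996151933300356) (ZL.cons (nat_lit 10164) (nat_lit 3) (nat_lit 59712639977593071075) (ZL.cons (nat_lit 10248) (nat_lit 6) (nat_lit 121564731406099620804) (ZL.cons (nat_lit 10332) (nat_lit 6) (nat_lit 120404625583150166048) (ZL.cons (nat_lit 10416) (nat_lit 6) (nat_lit 119479838253441659524) (ZL.cons (nat_lit 10500) (nat_lit 6) (nat_lit 118788167542379557166) (ZL.cons (nat_lit 10584) (nat_lit 6) (nat_lit 118327966614937520636) (ZL.cons (nat_lit 10668) (nat_lit 6) (nat_lit 118098139754621640326) (ZL.cons (nat_lit 10752) (nat_lit 3) (nat_lit 58954815639000919652) (ZL.cons (nat_lit 10836) (nat_lit 6) (nat_lit 117978457500229926972) (ZL.cons (nat_lit 10920) (nat_lit 6)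 (nat_lit 118185100038871875900) (ZL.cons (nat_lit 11004) (nat_lit 6) (nat_lit 118530050899972071678) (ZL.cons (nat_lit 11088) (nat_lit 6) (nat_lit 119014131395104562392) (ZL.cons (nat_lit 11172) (nat_lit 6) (nat_lit 119638494096876806356) (ZL.cons (nat_lit 11256) (nat_lit 6) (nat_lit 118621473046799752072) (ZL.cons (nat_lit 11340) (nat_lit 6) (nat_lit 117832956929350674568) (ZL.cons (nat_lit 11424) (nat_lit 6) (nat_lit 117271068325202314136) (ZL.cons (nat_lit 11508) (nat_lit 6) (nat_lit 116934469404344793726) (ZL.cons (nat_lit 11592) (nat_lit 3) (nat_lit 58411179370388035811) (ZL.cons (nat_lit 11676) (nat_lit 6) (nat_lit 116493286487343670884) (ZL.cons (nat_lit 11760) (nat_lit 6) (nat_lit 116634380242911250604) (ZL.cons (nat_lit 11844) (nat_lit 6) (nat_lit 116916903691559666186) (ZL.cons (nat_lit 11928) (nat_lit 6) (nat_lit 117341529508166651950) (ZL.cons (nat_lit 12012)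 (nat_lit 6) (nat_lit 117909268706581272150) (ZL.cons (nat_lit 12096) (nat_lit 6) (nat_lit 117028518868763646886) (ZL.cons (nat_lit 12180) (nat_lit 6) (nat_lit 116369784858228311308) (ZL.cons (nat_lit 12264) (nat_lit 6) (nat_lit 115931498260664466996) (ZL.cons (nat_lit 12348) (nat_lit 6) (nat_lit 115712615536554104792) (ZL.cons (nat_lit 12432) (nat_lit 3) (nat_lit 57606606454472465742) (ZL.cons (nat_lit 12516) (nat_lit 6) (nat_lit 115285480442284423536) (ZL.cons (nat_lit 12600) (nat_lit 6) (nat_lit 115502455107858469910) (ZL.cons (nat_lit 12684) (nat_lit 6) (nat_lit 115864653512013675478) (ZL.cons (nat_lit 12768) (nat_lit 6) (nat_lit 116372938031902790728) (ZL.cons (nat_lit 12852) (nat_lit 6) (nat_lit 115621970300998907390) (ZL.cons (nat_lit 12936) (nat_lit 6) (nat_lit 115086838297048087932) (ZL.cons (nat_lit 13020) (nat_lit 6) (nat_lit 114766267896231401826) (ZL.cons (nat_lit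 13104) (nat_lit 3) (nat_lit 57329747917844880863) (ZL.cons (nat_lit 13188) (nat_lit 6) (nat_lit 114135188970799426062) (ZL.cons (nat_lit 13272) (nat_lit 6) (nat_lit 114283337414145384768) (ZL.cons (nat_lit 13356) (nat_lit 6) (nat_lit 114579987035226221128) (ZL.cons (nat_lit 13440) (nat_lit 6) (nat_lit 115025844142663556182) (ZL.cons (nat_lit 13524) (nat_lit 6) (nat_lit 114398478418344188964) (ZL.cons (nat_lit 13608) (nat_lit 6) (nat_lit 113981062611140527712) (ZL.cons (nat_lit 13692) (nat_lit 6) (nat_lit 113772602873892563710) (ZL.cons (nat_lit 13776) (nat_lit 3) (nat_lit 56590383519619218380) (ZL.cons (nat_lit 13860) (nat_lit 6) (nat_lit 113256647949244903414) (ZL.cons (nat_lit 13944) (nat_lit 6) (nat_lit 113484471348097652106) (ZL.cons (nat_lit 14028) (nat_lit 6) (nat_lit 113864779672460617952) (ZL.cons (nat_lit 14112) (nat_lit 6) (nat_lit 113355130144888408940) (ZL.cons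 (nat_lit 14196) (nat_lit 6) (nat_lit 113049825001253469792) (ZL.cons (nat_lit 14280) (nat_lit 3) (nat_lit 56474068662273572945) (ZL.cons (nat_lit 14364) (nat_lit 6) (nat_lit 112419942214431072318) (ZL.cons (nat_lit 14448) (nat_lit 6) (nat_lit 112575498079944328958) (ZL.cons (nat_lit 14532) (nat_lit 6) (nat_lit 112886980182079207136) (ZL.cons (nat_lit 14616) (nat_lit 6) (nat_lit 112489441318075720228) (ZL.cons (nat_lit 14700) (nat_lit 6) (nat_lit 112290908234982421180) (ZL.cons (nat_lit 14784) (nat_lit 3) (nat_lit 55885614026596214990) (ZL.cons (nat_lit 14868) (nat_lit 6) (nat_lit 111850903008699219966) (ZL.cons (nat_lit 14952) (nat_lit 6) (nat_lit 112090117577494606092) (ZL.cons (nat_lit 15036) (nat_lit 6) (nat_lit 111799350774032759284) (ZL.cons (nat_lit 15120) (nat_lit 3) (nat_lit 55851252683822892069) (ZL.cons (nat_lit 15204) (nat_lit 6) (nat_lit 111308960908002217728)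 (ZL.cons (nat_lit 15288) (nat_lit 6) (nat_lit 111472294566791137200) (ZL.cons (nat_lit 15372) (nat_lit 6) (nat_lit 111283215440035614294) (ZL.cons (nat_lit 15456) (nat_lit 3) (nat_lit 55474190719759164689) (ZL.cons (nat_lit 15540) (nat_lit 6) (nat_lit 111032040142800458864) (ZL.cons (nat_lit 15624) (nat_lit 3) (nat_lit 55469903211215955552) (ZL.cons (nat_lit 15708) (nat_lit 6) (nat_lit 110768306080703545660) (ZL.cons (nat_lit 15792) (nat_lit 1) (nat_lit 18446744073709551617) ZL.nil))))))))))))))))))))))))))))))))))))))))))))))))))))))))))))))))))))))))))))))))))))))))))))))))))))))))))))))))))))))))))))))))))))))))))))))))))))))))))))))))))))))))))))))))))))))))))))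

noncomputable def vl : XL := ⟨(nat_lit 0), (nat_lit 0), (nat_lit 536870912), (nat_lit 0), (nat_lit 0), (nat_lit 0), (nat_lit 0), (nat_lit 0), (nat_lit 0), (nat_lit 1), (nat_lit 0), (nat_lit 1), (nat_lit 0), (nat_lit 0), (nat_lit 0), (nat_lit 0)⟩

noncomputable def cp0 : Nat := (nat_lit 403169986295669962947695057201499388295412099883190814272451467599826479474936674737629086947828549207939809964252741476580679943901758000651141195280000881423222568661943351477602555127192863388803976766674499398443932446404435112794037020451300525746132022951702624735013064372963126969981958168879754587757876130631612399537361050109324818563320018718023278103184809307288661895081090596996276178165439527736869096890825722336698420281480797326095238365793457387896955039657171190645065656758662622695202576575603048103733798500936829315908214433002674209763859001726866062916998211584230054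7690019571941731173030289547900003892226661893312910589228316510848255802195113939191647188224528665637461499753413577647072551838702910251011191030572365299641574661975002537306773277593626311007514962349478357054042657744038848524311279374394363359934654010202796054246803752817304311812177520098773843996480153471309351048482634448940710401861827444998759925261190565292747905444625085537215673664504838115957470719568418155031070252790575505621960567003284600524515058897861926305276302104638029762652451870141560159193316938279623048509646151513228606743155351601466685548937920625309235497477331922746257422004592405997571390410984707545902997671479392352061251744331423329934891787579949523954062834213040759154739171284828442801640605243530828031876644485946430299298172066846550140042764382476620698205775659530000597839178442285396710033739300963270146146520966694134672611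6133031346504173403068738280629993772539764601158044350827482111576144734929939924373735958489146745327666416059065310333227073911744402422418949377521053323723631694937279079603086476826089916995296745467567557993627238161826596649559327428005449968658793800623503539142973835449584516238935554571250623052296334676933897756301412525786965200292708430361027848830406238723426919744047057904996729121038231047324375775291588619464972596972222075530017351772595708803149454023548539986244659716674760666960015688373855249348048955706573813806019078658727179067690255710850202650400166523805048613499867341612349833865813179209894577804359560789322074876094266383613804608988563812968375396457964780387652788083976896804431957215337491425274137330537773911075197077864788598273475502888826247867474862376011102445998719035631834476136595536838917491524137200669013349516008293679967945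2182619417286796899410044583437743012382491693781218152998649367577747485900591015720982629478832243282656191770114954553969252818017756843135556815633857419016452368351016019311176605757415631316701687551319663946761505799895817507940899730358789259129077608820523259579848784058288114966882842678117053146909881317942747008158024385560578275213734541828234161300675793703687209411658921821291965867397033421728307247463954944196994259586134216136607675157907372125288147873137985239010954414204589941540229949439701844981014018177376600992528783482559903824948388114587450558155797382671238887261082339498076781582967881715191570606991956658163266465674318754577392776911291385636539346914890205838929182126818758276174855525674587220039113152882988582180682045103090799894282170392594889062643281956270898076111391514834414383218676208278370189193085238321284935561422108709607549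8741846071894765760839448895762813780776625876288395154385612984596968445814167298387458143986714966473131813168226659545497822117430105025440352382134460097860793622951185416946460630951436943325383747128499774186746444992169955735112851127830933588608996795029215710255662245973508703409820897323602638189620394291551604063416993569694793074473556944926717793950998998598293179597287577884802363927357080748177678214472554942198122845161322839795684478183416325657348346286737459640803190453987833858641796690287665508952620597256444296092888247742729341783444545742805840942166370148442349968580981609288867528659447202926431303653389822823637469348670120416960892278167604296263636982482800715500320067363257295330297036285551752974394533258701368495242397413229547327944077230014626825507674313069409091220917448638543142923617213295295114250317189496427289275753263215476365467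94935707548949973160578212691442199203004190578933791503002728157904623578411865817003887037876568975233806627394842401740429067762767166151046782811499836978324292398984269320361611325453205024540452164271363781142905084779359376974604948404084567895873138408141076438345193174366237100087386976749705918968587760920173669557542825053499866008530808567785136033025362086458691274156017066262602284046748995691495644358801005586674770206491936255463633323013030959836768747657483692798976676109672491041019675260446375725760814537060205410808718240951106681768535334088308178874892703856866785471448859956260961491139183372274486609164760708304722)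

noncomputable def cp1 : Nat := (nat_lit 1356053912754800477571338030772766479812650500288329676585127651216644338835278614355358070415641461986155501297040234712109489575568907744893324616216140043597513711294594367638073927398289348914481407325982271824288028587079407577154088189320340050908079381147562962847293113446246014653957742429931500962511277296367540274070982857835876871533920562118849063202618624143911201728615775026620274778469387370105778434286232357677713321339271369959753731499357505022099805925544467539940735874331726082937819782331361048078611085667632888821122920674546780085601444369547387946482475999713380401698342608223700223804325398678453626000253814309656620375231711981639975637429071118550294845967629247041088661502654461965919642046262754448901915568907425679782245525850150614851345597614158570080145083969583025000357831676107475527027954547651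1377831633595758540711059254415696929858722083452951189201231757451611092029926274467470231123135199238696223499791723552160221312701341857771052216936422120732876443605182608568428624763673228806675976525031915792726071402676350458534446172491079320145914026724071045361579562826335745634435441851420559946381886285082629667157727048083732356568318297673807915520338853713229767969633006858046445342075061937638242644451470523529503807156691157891987660111098228996307161898637322321955092577101303448953456797838398030842098489734054510221556102917953202326787671366456486720979555449811007773165217408028871919121733617676165412955432840337123602039301763694015805628413084854398001035927280730274520297537782686703013377741100322243013599782540013207612737092753537259485939177800104464967023936097941471292126375816214144318900535225767105802606915246033896851353808172362398337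4847974188040209165698617452967076372795996667890744908161965447790132366792164094815309576290634722132426129816992404290814679114152507052795848960166428408835679518624236680463072048822833507971071537631864746022335905465217724500907457471500784543418331857065479330513074389714916191816073518529518087052877242131739914561842860041250119579443452296809682177940824589119156229049094160953032678620536608575752278331907643097705056051533832087988908032217263373553262368659765197397655237827952820863233680457609228143160625891109615725285947335665599037976864427371801165269293042631151626423823159939358929368382440277648483671818592717734468166299864696254339431532754726304852450107966086473888955454156351957778552006184304291811129339965237468822975916184509692484815031327490553598588438650352311678180207876989307543864420579161613011579264926559148504456641569778059654190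0686555286789137980492568760963538921402112096415817780690254490423585527831056037940427738562091403757025427210345628632240462303034756373852220635489573810118990165382910314075867050536012608058021447664008283074759906144717294609763870177173625085234937643885847331877358856161217833871551418931939731645562009812395982089010758046824873576449544063504533248444502123310151722450132362419688097984383857032495520578647576525779051132352327968101383586859468087232893038014172011955888179398094347477076754402336229957390258419841873185086091359106164489919981303726350126364280022247701710482895512939606401938416961936743265835078624620941201678583354471134524004962700205228763744384776563682488591550640496494161801934881598625221448241434813755140680126116443068008166530839739453119658208756596110195234669064677665831236423090625617452581855332743594816061958251347607067656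934461467881225690072129084568423246781245327053369214794190329749002479308991009532207830779957669644287397772693440536975821679795671455458129432063902684806103546448734151581326151691123457500189779375045988326793434666594811586528792785504286836452856963577319645916933445750761203288484395079601827261832150962890670755533447526842627469771246578566725484003779402765837996462580235418689163625299900957770635360590204968169072577404532666147907775800932641659660889016023321988354280427581231828816565391981784022963428701947540030951770503018849064776520876474803389003217384126143745377817949215360971036909122232265631220007507008440864001904760742179796693447822496010141134865372884545267653587512151124551037147735426310860722021631989139710417002670025168909371710037465264720725790173141061042956802613697472487013099106058577345151404044964736637052717303884490065634208138795209006839456575077422982175685592278087641538528925077131500137336254384634667135448416914834366473077784074975873731486676885911132268656841580864753733189889105006828657888367037321421412497236707060768476366430552474154854354705886094060313970254136281192335623505823606330380445417447340673188539718428301439140102340314151519949445976527930252275931480402815691194668765300143986892109785)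

noncomputable def rc0 : Nat := (nat_lit 6696840044950646490859546820791022709549334192916869384011768206261203557132291905119401628704254474358603455216314367160992911837671793950344802523254329911590516789767054936467932998704365090451910729934515189626109767965081562311899429810859737037731732023550274418358383267442998051795127808211408310754954522683391066373427528144077676874346508352993390100440660821644035483157594150607309218304404226889224753157765531091905464686572354321448829498184397503129007657112625020946645811745117597986022659316320445669821043897308865453602708063142833257584281764686517681837128591895133086839901752767825563464560585478192051520320193015076998632264020749317461920460867772168930522373312067052769841215658465565983371516197425618140591011976436237688169106602911696567250374083206102189747152601435836369091614191157545242470074896268449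6898736461616854482187657915292225275100861287164243952550739019721327598847998808733176898546819000922863456603792410680262230463016411789420809164252980047364370858774791315933961128436913380728261463713014677423442770410039770495529726888844325129955832611241455131513264444030023525079049629014545501586686994487966772043278467972007755926326815296658843741949957330272654666394544422885888233798545977495049942524526952871784691482995302099056796311355480251035276387494324874068062397141721558503244119299119987086345060699081963186103370502432502270399371887266660078590027487792478356482455813383693904359088688029167031478148197314543096081752703375270544544812694147349735827594049690003418447798893716562317350420674269200759727114469119804883093687760604592595541689957404714736002135269368229610159869080987351127952382222357237098666246870133240862066054097062152814567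5874242038489705657755424163044001358022835902332933313574818048358364643410991363397106056990454690740346736877943856340174157222555404891464308556677273769708534487029411947227043834569588583002824120978535136065041760392794131731319653707589691496869389286251715722748933504956352418721620745070207090772428596781789916489281229403555113190211386170929709537113348236460126314732667043847304388653088392732422131249486783562991664498857523034099219042202938059987135758384876317653579726048520746292953035360319606969182677516358657641973794175474609105448422374396001514543631583213175258065850472823361112150360291123916716488102164011178378698681657220906529349140035401115112396357735838246144904721686146775034076662613924006210948849690242642016066368940345746769866886766562483187811734852986640495552157439780068681810036452335589608099701743672489841560803763159167390028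3348200870337943448589268408130375304954307741740508909276304500434505736389899044456530820310101127894585256756971291354316969235179855057367776161468828324770768421548515227476426033003871586622225003160009481341271180595440472323272904037448814721317238975791191630515317023823904093250391683232889250902075229671130261599005644982135354295568862836982722163455675808020661374140563601709851173663606512726778493163444003438715048368371790969992888266459770787651868399249608288168178215920495264841519569287940476965389495049829039613385573384223554214300605055349154912940197124032115477834512027199923432990164312879802184060023332559566795868250721815167166668270569049609029520853327503461349828792209600922255659126618171455071897042188931891917901603111340474572594414461183238651661073441307802555123503638890535636576727663596123201961069772281744040487899767442484373962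08752275509292384379189206713284419256006450228014640306247277800053501307209813767073855120168905795285659506353173254978812738424619344035732848837033244329247110772447021263235760411799715910572630161557128357386746302292888775537901932108886295373526385101084600864071585895764388182574904653403840196720452741672771140376574288551150548145729525485419460723330694982818291020384866325590441558194338706401111746391109468717134086766672075350980146013602238388410903136460612462084672839418575718308943940937167750245953723695621829069558118025593156076246924623666948148842084162312051040211831978965218025565185469475424520378331580169171850736179354978344144245051263628837487275233529896476251097952689190174183291252099368223068085606652705657842223270831295982627491962891954374800835197754207876206093284283856343664651761241318263959848632806021093054432046710881651092097460902153528091311013713160520410498116099873879400830136877510382736655512962567632356734237107687696190579838050971446002599321287521879695111014916987460631174872653673834212999421139365323873230462046896247920373308627191147993939085209015796986167725883839348394488195325363315769344487918260940669084342367755563990762493853672281894156201433735586977550651950392323435309757620559215172095672)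

noncomputable def rc1 : Nat := (nat_lit 1356053912754800477571338030772766479812650500288329676585127651216644338835278614355358070415641461986155501297040234712109489575568907744893324616216140043597513711294594367638073927398289348914481407325982271824288028587079407577154088189320340050908079381147562962847293113446246014653957742429931500962511277296367540274070982857835876871533920562118849063202618624143911201728615775026620274778469387370105778434286232357677713321339271369959753731499357505022099805925544467539940735874331726082937819782331361048078611085667632888821122920674546780085601444369547387946482475999713380401698342608223700223804325398678453626000253814309656620375231711981639975637429071118550294845967629247041088661502654461965919642046262754448901915568907425679782245525850150614851345597614158570080145083969583025000357831676107475527027954547651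1377831633595758540711059254415696929858722083452951189201231757451611092029926274467470231123135199238696223499791723552160221312701341857771052216936422120732876443605182608568428624763673228806675976525031915792726071402676350458534446172491079320145914026724071045361579562826335745634435441851420559946381886285082629667157727048083732356568318297673807915520338853713229767969633006858046445342075061937638242644451470523529503807156691157891987660111098228996307161898637322321955092577101303448953456797838398030842098489734054510221556102917953202326787671366456486720979555449811007773165217408028871919121733617676165412955432840337123602039301763694015805628413084854398001035927280730274520297537782686703013377741100322243013599782540013207612737092753537259485939177800104464967023936097941471292126375816214144318900535225767105802606915246033896851353808172362398337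4847974188040209165698617452967076372795996667890744908161965447790132366792164094815309576290634722132426129816992404290814679114152507052795848960166428408835679518624236680463072048822833507971071537631864746022335905465217724500907457471500784543418331857065479330513074389714916191816073518529518087052877242131739914561842860041250119579443452296809682177940824589119156229049094160953032678620536608575752278331907643097705056051533832087988908032217263373553262368659765197397655237827952820863233680457609228143160625891109615725285947335665599037976864427371801165269293042631151626423823159939358929368382440277648483671818592717734468166299864696254339431532754726304852450107966086473888955454156351957778552006184304291811129339965237468822975916184509692484815031327490553598588438650352311678180207876989307543864420579161613011579264926559148504456641569778059654190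0686555286789137980492568760963538921402112096415817780690254490423585527831056037940427738562091403757025427210345628632240462303034756373852220635489573810118990165382910314075867050536012608058021447664008283074759906144717294609763870177173625085234937643885847331877358856161217833871551418931939731645562009812395982089010758046824873576449544063504533248444502123310151722450132362419688097984383857032495520578647576525779051132352327968101383586859468087232893038014172011955888179398094347477076754402336229957390258419841873185086091359106164489919981303726350126364280022247701710482895512939606401938416961936743265835078624620941201678583354471134524004962700205228763744384776563682488591550640496494161801934881598625221448241434813755140680126116443068008166530839739453119658208756596110195234669064677665831236423090625617452581855332743594816061958251347607067656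934461467881225690072129084568423246781245327053369214794190329749002479308991009532207830779957669644287397772693440536975821679795671455458129432063902684806103546448734151581326151691123457500189779375045988326793434666594811586528792785504286836452856963577319645916933445750761203288484395079601827261832150962890670755533447526842627469771246578566725484003779402765837996462580235418689163625299900957770635360590204968169072577404532666147907775800932641659660889016023321988354280427581231828816565391981784022963428701947540030951770503018849064776520876474803389003217384126143745377817949215360971036909122232265631220007507008440864001904760742179796693447822496010141134865372884545267653587512151124551037147735426310860722021631989139710417002670025168909371710037465264720725790173141061042956802613697472487013099106058577345151404044964736637052717303884490065634208138795209006839456575077422982175685592278087641538528925077131500137336254384634667135448416914834366473077784074975873731486676885911132268656841580864753733189889105006828657888367037321421412497236707060768476366430552474154854354705886094060313970254136281192335623505823606330380445417447340673188539718428301439140102340314151519949445976527930252275931480402815691194668765300143986892109785)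

end Vale.Agent.Lib.P154.Chain.D4.S2
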