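import Vale.Agent.Lib.P154.Chain.D4.R3_2

set_option linter.all false

namespace Vale.Agent.Lib.P154.Chain.D4.S4

noncomputable def pc0 : PT := (PT.nd (nat_lit 1092374) (PT.nd (nat_lit 911706) (PT.nd (nat_lit 821372) (PT.nd (nat_lit 731132) (PT.nd (nat_lit 686012) (PT.nd (nat_lit 685918) PT.nil (PT.lf (nat_lit 2016) (nat_lit 6) (nat_lit 24) (nat_lit 3) (nat_lit 82) (nat_lit 15) (nat_lit 83))) (PT.nd (nat_lit 45026) (PT.lf (nat_lit 2016) (nat_lit 6) (nat_lit 24) (nat_lit 1) (nat_lit 83) (nat_lit 15) (nat_lit 82)) (PT.lf (nat_lit 2100) (nat_lit 6) (nat_lit 25) (nat_lit 3) (nat_lit 81) (nat_lit 16) (nat_lit 83)))) (PT.nd (nat_lit 45120) (PT.nd (nat_lit 94) (PT.lf (nat_lit 2184) (nat_lit 3) (nat_lit 26) (nat_lit 1) (nat_lit 82) (nat_lit 16) (nat_lit 82)) (PT.lf (nat_lit 2100) (nat_lit 6) (nat_lit 25) (nat_lit 1) (nat_lit 83) (nat_lit 16) (nat_lit 81))) (PT.nd (nat_lit 94) (PT.lf (nat_lit 2268)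 (nat_lit 6) (nat_lit 27) (nat_lit 3) (nat_lit 81) (nat_lit 17) (nat_lit 82)) (PT.lf (nat_lit 2268) (nat_lit 6) (nat_lit 27) (nat_lit 1) (nat_lit 82) (nat_lit 17) (nat_lit 81))))) (PT.nd (nat_lit 45120) (PT.nd (nat_lit 94) (PT.lf (nat_lit 2352) (nat_lit 6) (nat_lit 28) (nat_lit 3) (nat_lit 80) (nat_lit 18) (nat_lit 82)) (PT.nd (nat_lit 94) (PT.lf (nat_lit 2436) (nat_lit 3) (nat_lit 29) (nat_lit 1) (nat_lit 81) (nat_lit 18) (nat_lit 81)) (PT.lf (nat_lit 2352) (nat_lit 6) (nat_lit 28) (nat_lit 1) (nat_lit 82) (nat_lit 18) (nat_lit 80)))) (PT.nd (nat_lit 188) (PT.nd (nat_lit 94) (PT.lf (nat_lit 2520) (nat_lit 6) (nat_lit 30) (nat_lit 3) (nat_lit 79) (nat_lit 19) (nat_lit 82)) (PT.lf (nat_lit 2604) (nat_lit 6) (nat_lit 31) (nat_lit 3) (nat_lit 80) (nat_lit 19) (nat_lit 81))) (PT.nd (nat_lit 94) (PT.lf (nat_lit 2604) (nat_lit 6) (nat_lit 31) (nat_lit 1) (nat_lit 81) (nat_lit 19) (nat_lit 80)) (PT.lf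 (nat_lit 2520) (nat_lit 6) (nat_lit 30) (nat_lit 1) (nat_lit 82) (nat_lit 19) (nat_lit 79)))))) (PT.nd (nat_lit 90334) (PT.nd (nat_lit 45120) (PT.nd (nat_lit 94) (PT.lf (nat_lit 2688) (nat_lit 6) (nat_lit 32) (nat_lit 3) (nat_lit 79) (nat_lit 20) (nat_lit 81)) (PT.nd (nat_lit 94) (PT.lf (nat_lit 2772) (nat_lit 3) (nat_lit 33) (nat_lit 1) (nat_lit 80) (nat_lit 20) (nat_lit 80)) (PT.lf (nat_lit 2688) (nat_lit 6) (nat_lit 32) (nat_lit 1) (nat_lit 81) (nat_lit 20) (nat_lit 79)))) (PT.nd (nat_lit 188) (PT.nd (nat_lit 94) (PT.lf (nat_lit 2856) (nat_lit 6) (nat_lit 34) (nat_lit 3) (nat_lit 78) (nat_lit 21) (nat_lit 81)) (PT.lf (nat_lit 2940) (nat_lit 6) (nat_lit 35) (nat_lit 3) (nat_lit 79) (nat_lit 21) (nat_lit 80))) (PT.nd (nat_lit 94) (PT.lf (nat_lit 2940) (nat_lit 6) (nat_lit 35) (nat_lit 1) (nat_lit 80) (nat_lit 21) (nat_lit 79)) (PT.lf (nat_lit 2856) (nat_lit 6) (nat_lit 34) (nat_lit 1) (nat_lit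 81) (nat_lit 21) (nat_lit 78))))) (PT.nd (nat_lit 45120) (PT.nd (nat_lit 94) (PT.lf (nat_lit 3024) (nat_lit 6) (nat_lit 36) (nat_lit 3) (nat_lit 78) (nat_lit 22) (nat_lit 80)) (PT.nd (nat_lit 94) (PT.lf (nat_lit 3108) (nat_lit 3) (nat_lit 37) (nat_lit 1) (nat_lit 79) (nat_lit 22) (nat_lit 79)) (PT.lf (nat_lit 3024) (nat_lit 6) (nat_lit 36) (nat_lit 1) (nat_lit 80) (nat_lit 22) (nat_lit 78)))) (PT.nd (nat_lit 188) (PT.nd (nat_lit 94) (PT.lf (nat_lit 3192) (nat_lit 6) (nat_lit 38) (nat_lit 3) (nat_lit 77) (nat_lit 23) (nat_lit 80)) (PT.lf (nat_lit 3276) (nat_lit 6) (nat_lit 39) (nat_lit 3) (nat_lit 78) (nat_lit 23) (nat_lit 79))) (PT.nd (nat_lit 94) (PT.lf (nat_lit 3276) (nat_lit 6) (nat_lit 39) (nat_lit 1) (nat_lit 79) (nat_lit 23) (nat_lit 78)) (PT.lf (nat_lit 3192) (nat_lit 6) (nat_lit 38) (nat_lit 1) (nat_lit 80) (nat_lit 23) (nat_lit 77))))))) (PT.nd (nat_lit 180668) (PT.nd (nat_lit 90334)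 (PT.nd (nat_lit 45120) (PT.nd (nat_lit 94) (PT.lf (nat_lit 3360) (nat_lit 6) (nat_lit 40) (nat_lit 3) (nat_lit 77) (nat_lit 24) (nat_lit 79)) (PT.nd (nat_lit 94) (PT.lf (nat_lit 3444) (nat_lit 3) (nat_lit 41) (nat_lit 1) (nat_lit 78) (nat_lit 24) (nat_lit 78)) (PT.lf (nat_lit 3360) (nat_lit 6) (nat_lit 40) (nat_lit 1) (nat_lit 79) (nat_lit 24) (nat_lit 77)))) (PT.nd (nat_lit 188) (PT.nd (nat_lit 94) (PT.lf (nat_lit 3528) (nat_lit 6) (nat_lit 42) (nat_lit 3) (nat_lit 76) (nat_lit 25) (nat_lit 79)) (PT.lf (nat_lit 3612) (nat_lit 6) (nat_lit 43) (nat_lit 3) (nat_lit 77) (nat_lit 25) (nat_lit 78))) (PT.nd (nat_lit 94) (PT.lf (nat_lit 3612) (nat_lit 6) (nat_lit 43) (nat_lit 1) (nat_lit 78) (nat_lit 25) (nat_lit 77)) (PT.lf (nat_lit 3528) (nat_lit 6) (nat_lit 42) (nat_lit 1) (nat_lit 79) (nat_lit 25) (nat_lit 76))))) (PT.nd (nat_lit 45120) (PT.nd (nat_lit 94) (PT.lf (nat_lit 3696) (nat_lit 6) (nat_lit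 44) (nat_lit 3) (nat_lit 76) (nat_lit 26) (nat_lit 78)) (PT.nd (nat_lit 94) (PT.lf (nat_lit 3780) (nat_lit 3) (nat_lit 45) (nat_lit 1) (nat_lit 77) (nat_lit 26) (nat_lit 77)) (PT.lf (nat_lit 3696) (nat_lit 6) (nat_lit 44) (nat_lit 1) (nat_lit 78) (nat_lit 26) (nat_lit 76)))) (PT.nd (nat_lit 188) (PT.nd (nat_lit 94) (PT.lf (nat_lit 3864) (nat_lit 6) (nat_lit 46) (nat_lit 3) (nat_lit 75) (nat_lit 27) (nat_lit 78)) (PT.lf (nat_lit 3948) (nat_lit 6) (nat_lit 47) (nat_lit 3) (nat_lit 76) (nat_lit 27) (nat_lit 77))) (PT.nd (nat_lit 94) (PT.lf (nat_lit 3948) (nat_lit 6) (nat_lit 47) (nat_lit 1) (nat_lit 77) (nat_lit 27) (nat_lit 76)) (PT.lf (nat_lit 3864) (nat_lit 6) (nat_lit 46) (nat_lit 1) (nat_lit 78) (nat_lit 27) (nat_lit 75)))))) (PT.nd (nat_lit 90240) (PT.nd (nat_lit 45120) (PT.nd (nat_lit 94) (PT.lf (nat_lit 4032) (nat_lit 6) (nat_lit 48) (nat_lit 3) (nat_lit 75) (nat_lit 28) (nat_lit 77))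 (PT.nd (nat_lit 94) (PT.lf (nat_lit 4116) (nat_lit 3) (nat_lit 49) (nat_lit 1) (nat_lit 76) (nat_lit 28) (nat_lit 76)) (PT.lf (nat_lit 4032) (nat_lit 6) (nat_lit 48) (nat_lit 1) (nat_lit 77) (nat_lit 28) (nat_lit 75)))) (PT.nd (nat_lit 188) (PT.nd (nat_lit 94) (PT.lf (nat_lit 4200) (nat_lit 6) (nat_lit 50) (nat_lit 3) (nat_lit 74) (nat_lit 29) (nat_lit 77)) (PT.lf (nat_lit 4284) (nat_lit 6) (nat_lit 51) (nat_lit 3) (nat_lit 75) (nat_lit 29) (nat_lit 76))) (PT.nd (nat_lit 94) (PT.lf (nat_lit 4284) (nat_lit 6) (nat_lit 51) (nat_lit 1) (nat_lit 76) (nat_lit 29) (nat_lit 75)) (PT.lf (nat_lit 4200) (nat_lit 6) (nat_lit 50) (nat_lit 1) (nat_lit 77) (nat_lit 29) (nat_lit 74))))) (PT.nd (nat_lit 282) (PT.nd (nat_lit 94) (PT.lf (nat_lit 4368) (nat_lit 6) (nat_lit 52) (nat_lit 3) (nat_lit 73) (nat_lit 30) (nat_lit 77)) (PT.nd (nat_lit 94) (PT.lf (nat_lit 4452) (nat_lit 6) (nat_lit 53) (nat_lit 3) (nat_lit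 74) (nat_lit 30) (nat_lit 76)) (PT.lf (nat_lit 4536) (nat_lit 3) (nat_lit 54) (nat_lit 1) (nat_lit 75) (nat_lit 30) (nat_lit 75)))) (PT.nd (nat_lit 44932) (PT.nd (nat_lit 94) (PT.lf (nat_lit 4452) (nat_lit 6) (nat_lit 53) (nat_lit 1) (nat_lit 76) (nat_lit 30) (nat_lit 74)) (PT.lf (nat_lit 4368) (nat_lit 6) (nat_lit 52) (nat_lit 1) (nat_lit 77) (nat_lit 30) (nat_lit 73))) (PT.nd (nat_lit 94) (PT.lf (nat_lit 4620) (nat_lit 6) (nat_lit 55) (nat_lit 3) (nat_lit 73) (nat_lit 31) (nat_lit 76)) (PT.lf (nat_lit 4704) (nat_lit 6) (nat_lit 56) (nat_lit 3) (nat_lit 74) (nat_lit 31) (nat_lit 75))))))))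
noncomputable def pc1 : PT := (PT.nd (nat_lit 270814) (PT.nd (nat_lit 135548) (PT.nd (nat_lit 90146) (PT.nd (nat_lit 45026) (PT.nd (nat_lit 94) (PT.lf (nat_lit 4704) (nat_lit 6) (nat_lit 56) (nat_lit 1) (nat_lit 75) (nat_lit 31) (nat_lit 74)) (PT.nd (nat_lit 44838) (PT.lf (nat_lit 4620) (nat_lit 6) (nat_lit 55) (nat_lit 1) (nat_lit 76) (nat_lit 31) (nat_lit 73)) (PT.lf (nat_lit 4788) (nat_lit 6) (nat_lit 57) (nat_lit 3) (nat_lit 72) (nat_lit 32) (nat_lit 76)))) (PT.nd (nat_lit 188) (PT.nd (nat_lit 94) (PT.lf (nat_lit 4872) (nat_lit 6) (nat_lit 58) (nat_lit 3) (nat_lit 73) (nat_lit 32) (nat_lit 75)) (PT.lf (nat_lit 4956) (nat_lit 3) (nat_lit 59) (nat_lit 1) (nat_lit 74) (nat_lit 32) (nat_lit 74))) (PT.nd (nat_lit 94) (PT.lf (nat_lit 4872) (nat_lit 6) (nat_lit 58) (nat_lit 1) (nat_lit 75) (nat_lit 32) (nat_lit 73)) (PT.lf (nat_lit 4788) (nat_lit 6) (nat_lit 57) (nat_lit 1) (nat_lit 76) (nat_lit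 32) (nat_lit 72))))) (PT.nd (nat_lit 282) (PT.nd (nat_lit 94) (PT.lf (nat_lit 5040) (nat_lit 6) (nat_lit 60) (nat_lit 3) (nat_lit 72) (nat_lit 33) (nat_lit 75)) (PT.nd (nat_lit 94) (PT.lf (nat_lit 5124) (nat_lit 6) (nat_lit 61) (nat_lit 3) (nat_lit 73) (nat_lit 33) (nat_lit 74)) (PT.lf (nat_lit 5124) (nat_lit 6) (nat_lit 61) (nat_lit 1) (nat_lit 74) (nat_lit 33) (nat_lit 73)))) (PT.nd (nat_lit 44932) (PT.nd (nat_lit 44838) (PT.lf (nat_lit 5040) (nat_lit 6) (nat_lit 60) (nat_lit 1) (nat_lit 75) (nat_lit 33) (nat_lit 72)) (PT.lf (nat_lit 5208) (nat_lit 6) (nat_lit 62) (nat_lit 3) (nat_lit 71) (nat_lit 34) (nat_lit 75))) (PT.nd (nat_lit 94) (PT.lf (nat_lit 5292) (nat_lit 6) (nat_lit 63) (nat_lit 3) (nat_lit 72) (nat_lit 34) (nat_lit 74)) (PT.lf (nat_lit 5376) (nat_lit 3) (nat_lit 64) (nat_lit 1) (nat_lit 73) (nat_lit 34) (nat_lit 73)))))) (PT.nd (nat_lit 45308) (PT.nd (nat_lit 44932) (PT.nd (nat_lit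 94) (PT.lf (nat_lit 5292) (nat_lit 6) (nat_lit 63) (nat_lit 1) (nat_lit 74) (nat_lit 34) (nat_lit 72)) (PT.nd (nat_lit 44744) (PT.lf (nat_lit 5208) (nat_lit 6) (nat_lit 62) (nat_lit 1) (nat_lit 75) (nat_lit 34) (nat_lit 71)) (PT.lf (nat_lit 5460) (nat_lit 6) (nat_lit 65) (nat_lit 3) (nat_lit 70) (nat_lit 35) (nat_lit 75)))) (PT.nd (nat_lit 188) (PT.nd (nat_lit 94) (PT.lf (nat_lit 5544) (nat_lit 6) (nat_lit 66) (nat_lit 3) (nat_lit 71) (nat_lit 35) (nat_lit 74)) (PT.lf (nat_lit 5628) (nat_lit 6) (nat_lit 67) (nat_lit 3) (nat_lit 72) (nat_lit 35) (nat_lit 73))) (PT.nd (nat_lit 94) (PT.lf (nat_lit 5628) (nat_lit 6) (nat_lit 67) (nat_lit 1) (nat_lit 73) (nat_lit 35) (nat_lit 72)) (PT.lf (nat_lit 5544) (nat_lit 6) (nat_lit 66) (nat_lit 1) (nat_lit 74) (nat_lit 35) (nat_lit 71))))) (PT.nd (nat_lit 44932) (PT.nd (nat_lit 44744) (PT.lf (nat_lit 5460) (nat_lit 6) (nat_lit 65) (nat_lit 1) (nat_lit 75)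 (nat_lit 35) (nat_lit 70)) (PT.nd (nat_lit 94) (PT.lf (nat_lit 5712) (nat_lit 6) (nat_lit 68) (nat_lit 3) (nat_lit 70) (nat_lit 36) (nat_lit 74)) (PT.lf (nat_lit 5796) (nat_lit 6) (nat_lit 69) (nat_lit 3) (nat_lit 71) (nat_lit 36) (nat_lit 73)))) (PT.nd (nat_lit 188) (PT.nd (nat_lit 94) (PT.lf (nat_lit 5880) (nat_lit 3) (nat_lit 70) (nat_lit 1) (nat_lit 72) (nat_lit 36) (nat_lit 72)) (PT.lf (nat_lit 5796) (nat_lit 6) (nat_lit 69) (nat_lit 1) (nat_lit 73) (nat_lit 36) (nat_lit 71))) (PT.nd (nat_lit 44744) (PT.lf (nat_lit 5712) (nat_lit 6) (nat_lit 68) (nat_lit 1) (nat_lit 74) (nat_lit 36) (nat_lit 70)) (PT.lf (nat_lit 5964) (nat_lit 6) (nat_lit 71) (nat_lit 3) (nat_lit 69) (nat_lit 37) (nat_lit 74))))))) (PT.nd (nat_lit 90428) (PT.nd (nat_lit 45214) (PT.nd (nat_lit 282) (PT.nd (nat_lit 94) (PT.lf (nat_lit 6048) (nat_lit 6) (nat_lit 72) (nat_lit 3) (nat_lit 70) (nat_lit 37) (nat_lit 73)) (PT.nd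 (nat_lit 94) (PT.lf (nat_lit 6132) (nat_lit 6) (nat_lit 73) (nat_lit 3) (nat_lit 71) (nat_lit 37) (nat_lit 72)) (PT.lf (nat_lit 6132) (nat_lit 6) (nat_lit 73) (nat_lit 1) (nat_lit 72) (nat_lit 37) (nat_lit 71)))) (PT.nd (nat_lit 44744) (PT.nd (nat_lit 94) (PT.lf (nat_lit 6048) (nat_lit 6) (nat_lit 72) (nat_lit 1) (nat_lit 73) (nat_lit 37) (nat_lit 70)) (PT.lf (nat_lit 5964) (nat_lit 6) (nat_lit 71) (nat_lit 1) (nat_lit 74) (nat_lit 37) (nat_lit 69))) (PT.nd (nat_lit 94) (PT.lf (nat_lit 6216) (nat_lit 6) (nat_lit 74) (nat_lit 3) (nat_lit 68) (nat_lit 38) (nat_lit 74)) (PT.lf (nat_lit 6300) (nat_lit 6) (nat_lit 75) (nat_lit 3) (nat_lit 69) (nat_lit 38) (nat_lit 73))))) (PT.nd (nat_lit 282) (PT.nd (nat_lit 94) (PT.lf (nat_lit 6384) (nat_lit 6) (nat_lit 76) (nat_lit 3) (nat_lit 70) (nat_lit 38) (nat_lit 72)) (PT.nd (nat_lit 94) (PT.lf (nat_lit 6468) (nat_lit 3) (nat_lit 77) (nat_lit 1) (nat_lit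 71) (nat_lit 38) (nat_lit 71)) (PT.lf (nat_lit 6384) (nat_lit 6) (nat_lit 76) (nat_lit 1) (nat_lit 72) (nat_lit 38) (nat_lit 70)))) (PT.nd (nat_lit 44744) (PT.nd (nat_lit 94) (PT.lf (nat_lit 6300) (nat_lit 6) (nat_lit 75) (nat_lit 1) (nat_lit 73) (nat_lit 38) (nat_lit 69)) (PT.lf (nat_lit 6216) (nat_lit 6) (nat_lit 74) (nat_lit 1) (nat_lit 74) (nat_lit 38) (nat_lit 68))) (PT.nd (nat_lit 94) (PT.lf (nat_lit 6552) (nat_lit 6) (nat_lit 78) (nat_lit 3) (nat_lit 68) (nat_lit 39) (nat_lit 73)) (PT.lf (nat_lit 6636) (nat_lit 6) (nat_lit 79) (nat_lit 3) (nat_lit 69) (nat_lit 39) (nat_lit 72)))))) (PT.nd (nat_lit 45214) (PT.nd (nat_lit 282) (PT.nd (nat_lit 94) (PT.lf (nat_lit 6720) (nat_lit 6) (nat_lit 80) (nat_lit 3) (nat_lit 70) (nat_lit 39) (nat_lit 71)) (PT.nd (nat_lit 94) (PT.lf (nat_lit 6720) (nat_lit 6) (nat_lit 80) (nat_lit 1) (nat_lit 71) (nat_lit 39) (nat_lit 70)) (PT.lf (nat_lit 6636) (nat_lit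 6) (nat_lit 79) (nat_lit 1) (nat_lit 72) (nat_lit 39) (nat_lit 69)))) (PT.nd (nat_lit 44744) (PT.nd (nat_lit 44650) (PT.lf (nat_lit 6552) (nat_lit 6) (nat_lit 78) (nat_lit 1) (nat_lit 73) (nat_lit 39) (nat_lit 68)) (PT.lf (nat_lit 6804) (nat_lit 6) (nat_lit 81) (nat_lit 3) (nat_lit 67) (nat_lit 40) (nat_lit 73))) (PT.nd (nat_lit 94) (PT.lf (nat_lit 6888) (nat_lit 6) (nat_lit 82) (nat_lit 3) (nat_lit 68) (nat_lit 40) (nat_lit 72)) (PT.lf (nat_lit 6972) (nat_lit 6) (nat_lit 83) (nat_lit 3) (nat_lit 69) (nat_lit 40) (nat_lit 71))))) (PT.nd (nat_lit 44838) (PT.nd (nat_lit 188) (PT.nd (nat_lit 94) (PT.lf (nat_lit 7056) (nat_lit 3) (nat_lit 84) (nat_lit 1) (nat_lit 70) (nat_lit 40) (nat_lit 70)) (PT.lf (nat_lit 6972) (nat_lit 6) (nat_lit 83) (nat_lit 1) (nat_lit 71) (nat_lit 40) (nat_lit 69))) (PT.nd (nat_lit 94) (PT.lf (nat_lit 6888) (nat_lit 6) (nat_lit 82) (nat_lit 1) (nat_lit 72) (nat_lit 40)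 (nat_lit 68)) (PT.lf (nat_lit 6804) (nat_lit 6) (nat_lit 81) (nat_lit 1) (nat_lit 73) (nat_lit 40) (nat_lit 67)))) (PT.nd (nat_lit 188) (PT.nd (nat_lit 94) (PT.lf (nat_lit 7140) (nat_lit 6) (nat_lit 85) (nat_lit 3) (nat_lit 66) (nat_lit 41) (nat_lit 73)) (PT.lf (nat_lit 7224) (nat_lit 6) (nat_lit 86) (nat_lit 3) (nat_lit 67) (nat_lit 41) (nat_lit 72))) (PT.nd (nat_lit 94) (PT.lf (nat_lit 7308) (nat_lit 6) (nat_lit 87) (nat_lit 3) (nat_lit 68) (nat_lit 41) (nat_lit 71)) (PT.lf (nat_lit 7392) (nat_lit 6) (nat_lit 88) (nat_lit 3) (nat_lit 69) (nat_lit 41) (nat_lit 70))))))))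
noncomputable def pc2 : PT := (PT.nd (nat_lit 180292) (PT.nd (nat_lit 90240) (PT.nd (nat_lit 45120) (PT.nd (nat_lit 282) (PT.nd (nat_lit 94) (PT.lf (nat_lit 7392) (nat_lit 6) (nat_lit 88) (nat_lit 1) (nat_lit 70) (nat_lit 41) (nat_lit 69)) (PT.nd (nat_lit 94) (PT.lf (nat_lit 7308) (nat_lit 6) (nat_lit 87) (nat_lit 1) (nat_lit 71) (nat_lit 41) (nat_lit 68)) (PT.lf (nat_lit 7224) (nat_lit 6) (nat_lit 86) (nat_lit 1) (nat_lit 72) (nat_lit 41) (nat_lit 67)))) (PT.nd (nat_lit 44650) (PT.nd (nat_lit 44556) (PT.lf (nat_lit 7140) (nat_lit 6) (nat_lit 85) (nat_lit 1) (nat_lit 73) (nat_lit 41) (nat_lit 66)) (PT.lf (nat_lit 7476) (nat_lit 6) (nat_lit 89) (nat_lit 3) (nat_lit 66) (nat_lit 42) (nat_lit 72))) (PT.nd (nat_lit 94) (PT.lf (nat_lit 7560) (nat_lit 6) (nat_lit 90) (nat_lit 3) (nat_lit 67) (nat_lit 42) (nat_lit 71)) (PT.lf (nat_lit 7644) (nat_lit 6) (nat_lit 91) (nat_lit 3) (nat_lit 68) (nat_lit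 42) (nat_lit 70))))) (PT.nd (nat_lit 282) (PT.nd (nat_lit 94) (PT.lf (nat_lit 7728) (nat_lit 3) (nat_lit 92) (nat_lit 1) (nat_lit 69) (nat_lit 42) (nat_lit 69)) (PT.nd (nat_lit 94) (PT.lf (nat_lit 7644) (nat_lit 6) (nat_lit 91) (nat_lit 1) (nat_lit 70) (nat_lit 42) (nat_lit 68)) (PT.lf (nat_lit 7560) (nat_lit 6) (nat_lit 90) (nat_lit 1) (nat_lit 71) (nat_lit 42) (nat_lit 67)))) (PT.nd (nat_lit 44650) (PT.nd (nat_lit 44556) (PT.lf (nat_lit 7476) (nat_lit 6) (nat_lit 89) (nat_lit 1) (nat_lit 72) (nat_lit 42) (nat_lit 66)) (PT.lf (nat_lit 7812) (nat_lit 6) (nat_lit 93) (nat_lit 3) (nat_lit 65) (nat_lit 43) (nat_lit 72))) (PT.nd (nat_lit 94) (PT.lf (nat_lit 7896) (nat_lit 6) (nat_lit 94) (nat_lit 3) (nat_lit 66) (nat_lit 43) (nat_lit 71)) (PT.lf (nat_lit 7980) (nat_lit 6) (nat_lit 95) (nat_lit 3) (nat_lit 67) (nat_lit 43) (nat_lit 70)))))) (PT.nd (nat_lit 45026) (PT.nd (nat_lit 282) (PT.nd (nat_lit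 94) (PT.lf (nat_lit 8064) (nat_lit 6) (nat_lit 96) (nat_lit 3) (nat_lit 68) (nat_lit 43) (nat_lit 69)) (PT.nd (nat_lit 94) (PT.lf (nat_lit 8064) (nat_lit 6) (nat_lit 96) (nat_lit 1) (nat_lit 69) (nat_lit 43) (nat_lit 68)) (PT.lf (nat_lit 7980) (nat_lit 6) (nat_lit 95) (nat_lit 1) (nat_lit 70) (nat_lit 43) (nat_lit 67)))) (PT.nd (nat_lit 44556) (PT.nd (nat_lit 94) (PT.lf (nat_lit 7896) (nat_lit 6) (nat_lit 94) (nat_lit 1) (nat_lit 71) (nat_lit 43) (nat_lit 66)) (PT.lf (nat_lit 7812) (nat_lit 6) (nat_lit 93) (nat_lit 1) (nat_lit 72) (nat_lit 43) (nat_lit 65))) (PT.nd (nat_lit 94) (PT.lf (nat_lit 8148) (nat_lit 6) (nat_lit 97) (nat_lit 3) (nat_lit 64) (nat_lit 44) (nat_lit 72)) (PT.lf (nat_lit 8232) (nat_lit 6) (nat_lit 98) (nat_lit 3) (nat_lit 65) (nat_lit 44) (nat_lit 71))))) (PT.nd (nat_lit 282) (PT.nd (nat_lit 94) (PT.lf (nat_lit 8316) (nat_lit 6) (nat_lit 99) (nat_lit 3) (nat_lit 66) (nat_lit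 44) (nat_lit 70)) (PT.nd (nat_lit 94) (PT.lf (nat_lit 8400) (nat_lit 6) (nat_lit 100) (nat_lit 3) (nat_lit 67) (nat_lit 44) (nat_lit 69)) (PT.lf (nat_lit 8484) (nat_lit 3) (nat_lit 101) (nat_lit 1) (nat_lit 68) (nat_lit 44) (nat_lit 68)))) (PT.nd (nat_lit 188) (PT.nd (nat_lit 94) (PT.lf (nat_lit 8400) (nat_lit 6) (nat_lit 100) (nat_lit 1) (nat_lit 69) (nat_lit 44) (nat_lit 67)) (PT.lf (nat_lit 8316) (nat_lit 6) (nat_lit 99) (nat_lit 1) (nat_lit 70) (nat_lit 44) (nat_lit 66))) (PT.nd (nat_lit 94) (PT.lf (nat_lit 8232) (nat_lit 6) (nat_lit 98) (nat_lit 1) (nat_lit 71) (nat_lit 44) (nat_lit 65)) (PT.lf (nat_lit 8148) (nat_lit 6) (nat_lit 97) (nat_lit 1) (nat_lit 72) (nat_lit 44) (nat_lit 64))))))) (PT.nd (nat_lit 45684) (PT.nd (nat_lit 658) (PT.nd (nat_lit 282) (PT.nd (nat_lit 94) (PT.lf (nat_lit 8568) (nat_lit 6) (nat_lit 102) (nat_lit 3) (nat_lit 64) (nat_lit 45) (nat_lit 71)) (PT.nd (nat_lit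 94) (PT.lf (nat_lit 8652) (nat_lit 6) (nat_lit 103) (nat_lit 3) (nat_lit 65) (nat_lit 45) (nat_lit 70)) (PT.lf (nat_lit 8736) (nat_lit 6) (nat_lit 104) (nat_lit 3) (nat_lit 66) (nat_lit 45) (nat_lit 69)))) (PT.nd (nat_lit 188) (PT.nd (nat_lit 94) (PT.lf (nat_lit 8820) (nat_lit 6) (nat_lit 105) (nat_lit 3) (nat_lit 67) (nat_lit 45) (nat_lit 68)) (PT.lf (nat_lit 8820) (nat_lit 6) (nat_lit 105) (nat_lit 1) (nat_lit 68) (nat_lit 45) (nat_lit 67))) (PT.nd (nat_lit 94) (PT.lf (nat_lit 8736) (nat_lit 6) (nat_lit 104) (nat_lit 1) (nat_lit 69) (nat_lit 45) (nat_lit 66)) (PT.lf (nat_lit 8652) (nat_lit 6) (nat_lit 103) (nat_lit 1) (nat_lit 70) (nat_lit 45) (nat_lit 65))))) (PT.nd (nat_lit 44650) (PT.nd (nat_lit 44462) (PT.lf (nat_lit 8568) (nat_lit 6) (nat_lit 102) (nat_lit 1) (nat_lit 71) (nat_lit 45) (nat_lit 64)) (PT.nd (nat_lit 94) (PT.lf (nat_lit 8904) (nat_lit 6) (nat_lit 106) (nat_lit 3) (nat_lit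 63) (nat_lit 46) (nat_lit 71)) (PT.lf (nat_lit 8988) (nat_lit 6) (nat_lit 107) (nat_lit 3) (nat_lit 64) (nat_lit 46) (nat_lit 70)))) (PT.nd (nat_lit 188) (PT.nd (nat_lit 94) (PT.lf (nat_lit 9072) (nat_lit 6) (nat_lit 108) (nat_lit 3) (nat_lit 65) (nat_lit 46) (nat_lit 69)) (PT.lf (nat_lit 9156) (nat_lit 6) (nat_lit 109) (nat_lit 3) (nat_lit 66) (nat_lit 46) (nat_lit 68))) (PT.nd (nat_lit 94) (PT.lf (nat_lit 9240) (nat_lit 3) (nat_lit 110) (nat_lit 1) (nat_lit 67) (nat_lit 46) (nat_lit 67)) (PT.lf (nat_lit 9156) (nat_lit 6) (nat_lit 109) (nat_lit 1) (nat_lit 68) (nat_lit 46) (nat_lit 66)))))) (PT.nd (nat_lit 44932) (PT.nd (nat_lit 44556) (PT.nd (nat_lit 94) (PT.lf (nat_lit 9072) (nat_lit 6) (nat_lit 108) (nat_lit 1) (nat_lit 69) (nat_lit 46) (nat_lit 65)) (PT.nd (nat_lit 94) (PT.lf (nat_lit 8988) (nat_lit 6) (nat_lit 107) (nat_lit 1) (nat_lit 70) (nat_lit 46) (nat_lit 64)) (PT.lf (nat_lit 8904)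 (nat_lit 6) (nat_lit 106) (nat_lit 1) (nat_lit 71) (nat_lit 46) (nat_lit 63)))) (PT.nd (nat_lit 188) (PT.nd (nat_lit 94) (PT.lf (nat_lit 9324) (nat_lit 6) (nat_lit 111) (nat_lit 3) (nat_lit 62) (nat_lit 47) (nat_lit 71)) (PT.lf (nat_lit 9408) (nat_lit 6) (nat_lit 112) (nat_lit 3) (nat_lit 63) (nat_lit 47) (nat_lit 70))) (PT.nd (nat_lit 94) (PT.lf (nat_lit 9492) (nat_lit 6) (nat_lit 113) (nat_lit 3) (nat_lit 64) (nat_lit 47) (nat_lit 69)) (PT.lf (nat_lit 9576) (nat_lit 6) (nat_lit 114) (nat_lit 3) (nat_lit 65) (nat_lit 47) (nat_lit 68))))) (PT.nd (nat_lit 282) (PT.nd (nat_lit 94) (PT.lf (nat_lit 9660) (nat_lit 6) (nat_lit 115) (nat_lit 3) (nat_lit 66) (nat_lit 47) (nat_lit 67)) (PT.nd (nat_lit 94) (PT.lf (nat_lit 9660) (nat_lit 6) (nat_lit 115) (nat_lit 1) (nat_lit 67) (nat_lit 47) (nat_lit 66)) (PT.lf (nat_lit 9576) (nat_lit 6) (nat_lit 114) (nat_lit 1) (nat_lit 68) (nat_lit 47) (nat_lit 65))))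 (PT.nd (nat_lit 188) (PT.nd (nat_lit 94) (PT.lf (nat_lit 9492) (nat_lit 6) (nat_lit 113) (nat_lit 1) (nat_lit 69) (nat_lit 47) (nat_lit 64)) (PT.lf (nat_lit 9408) (nat_lit 6) (nat_lit 112) (nat_lit 1) (nat_lit 70) (nat_lit 47) (nat_lit 63))) (PT.nd (nat_lit 44274) (PT.lf (nat_lit 9324) (nat_lit 6) (nat_lit 111) (nat_lit 1) (nat_lit 71) (nat_lit 47) (nat_lit 62)) (PT.lf (nat_lit 9744) (nat_lit 6) (nat_lit 116) (nat_lit 3) (nat_lit 61) (nat_lit 48) (nat_lit 71))))))))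
noncomputable def pc3 : PT := (PT.nd (nat_lit 90804) (PT.nd (nat_lit 45402) (PT.nd (nat_lit 658) (PT.nd (nat_lit 282) (PT.nd (nat_lit 94) (PT.lf (nat_lit 9828) (nat_lit 6) (nat_lit 117) (nat_lit 3) (nat_lit 62) (nat_lit 48) (nat_lit 70)) (PT.nd (nat_lit 94) (PT.lf (nat_lit 9912) (nat_lit 6) (nat_lit 118) (nat_lit 3) (nat_lit 63) (nat_lit 48) (nat_lit 69)) (PT.lf (nat_lit 9996) (nat_lit 6) (nat_lit 119) (nat_lit 3) (nat_lit 64) (nat_lit 48) (nat_lit 68)))) (PT.nd (nat_lit 188) (PT.nd (nat_lit 94) (PT.lf (nat_lit 10080) (nat_lit 6) (nat_lit 120) (nat_lit 3) (nat_lit 65) (nat_lit 48) (nat_lit 67)) (PT.lf (nat_lit 10164) (nat_lit 3) (nat_lit 121) (nat_lit 1) (nat_lit 66) (nat_lit 48) (nat_lit 66))) (PT.nd (nat_lit 94) (PT.lf (nat_lit 10080) (nat_lit 6) (nat_lit 120) (nat_lit 1) (nat_lit 67) (nat_lit 48) (nat_lit 65)) (PT.lf (nat_lit 9996) (nat_lit 6) (nat_lit 119) (nat_lit 1) (nat_lit 68) (nat_lit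 48) (nat_lit 64))))) (PT.nd (nat_lit 44368) (PT.nd (nat_lit 94) (PT.lf (nat_lit 9912) (nat_lit 6) (nat_lit 118) (nat_lit 1) (nat_lit 69) (nat_lit 48) (nat_lit 63)) (PT.nd (nat_lit 94) (PT.lf (nat_lit 9828) (nat_lit 6) (nat_lit 117) (nat_lit 1) (nat_lit 70) (nat_lit 48) (nat_lit 62)) (PT.lf (nat_lit 9744) (nat_lit 6) (nat_lit 116) (nat_lit 1) (nat_lit 71) (nat_lit 48) (nat_lit 61)))) (PT.nd (nat_lit 188) (PT.nd (nat_lit 94) (PT.lf (nat_lit 10248) (nat_lit 6) (nat_lit 122) (nat_lit 3) (nat_lit 60) (nat_lit 49) (nat_lit 71)) (PT.lf (nat_lit 10332) (nat_lit 6) (nat_lit 123) (nat_lit 3) (nat_lit 61) (nat_lit 49) (nat_lit 70))) (PT.nd (nat_lit 94) (PT.lf (nat_lit 10416) (nat_lit 6) (nat_lit 124) (nat_lit 3) (nat_lit 62) (nat_lit 49) (nat_lit 69)) (PT.lf (nat_lit 10500) (nat_lit 6) (nat_lit 125) (nat_lit 3) (nat_lit 63) (nat_lit 49) (nat_lit 68)))))) (PT.nd (nat_lit 658) (PT.nd (nat_lit 282) (PT.nd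 (nat_lit 94) (PT.lf (nat_lit 10584) (nat_lit 6) (nat_lit 126) (nat_lit 3) (nat_lit 64) (nat_lit 49) (nat_lit 67)) (PT.nd (nat_lit 94) (PT.lf (nat_lit 10668) (nat_lit 6) (nat_lit 127) (nat_lit 3) (nat_lit 65) (nat_lit 49) (nat_lit 66)) (PT.lf (nat_lit 10668) (nat_lit 6) (nat_lit 127) (nat_lit 1) (nat_lit 66) (nat_lit 49) (nat_lit 65)))) (PT.nd (nat_lit 188) (PT.nd (nat_lit 94) (PT.lf (nat_lit 10584) (nat_lit 6) (nat_lit 126) (nat_lit 1) (nat_lit 67) (nat_lit 49) (nat_lit 64)) (PT.lf (nat_lit 10500) (nat_lit 6) (nat_lit 125) (nat_lit 1) (nat_lit 68) (nat_lit 49) (nat_lit 63))) (PT.nd (nat_lit 94) (PT.lf (nat_lit 10416) (nat_lit 6) (nat_lit 124) (nat_lit 1) (nat_lit 69) (nat_lit 49) (nat_lit 62)) (PT.lf (nat_lit 10332) (nat_lit 6) (nat_lit 123) (nat_lit 1) (nat_lit 70) (nat_lit 49) (nat_lit 61))))) (PT.nd (nat_lit 44368) (PT.nd (nat_lit 44180) (PT.lf (nat_lit 10248) (nat_lit 6) (nat_lit 122)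 (nat_lit 1) (nat_lit 71) (nat_lit 49) (nat_lit 60)) (PT.nd (nat_lit 94) (PT.lf (nat_lit 11172) (nat_lit 6) (nat_lit 133) (nat_lit 3) (nat_lit 60) (nat_lit 50) (nat_lit 70)) (PT.lf (nat_lit 11256) (nat_lit 6) (nat_lit 134) (nat_lit 3) (nat_lit 61) (nat_lit 50) (nat_lit 69)))) (PT.nd (nat_lit 188) (PT.nd (nat_lit 94) (PT.lf (nat_lit 11340) (nat_lit 6) (nat_lit 135) (nat_lit 3) (nat_lit 62) (nat_lit 50) (nat_lit 68)) (PT.lf (nat_lit 11424) (nat_lit 6) (nat_lit 136) (nat_lit 3) (nat_lit 63) (nat_lit 50) (nat_lit 67))) (PT.nd (nat_lit 94) (PT.lf (nat_lit 11508) (nat_lit 6) (nat_lit 137) (nat_lit 3) (nat_lit 64) (nat_lit 50) (nat_lit 66)) (PT.lf (nat_lit 11592) (nat_lit 3) (nat_lit 138) (nat_lit 1) (nat_lit 65) (nat_lit 50) (nat_lit 65))))))) (PT.nd (nat_lit 45402) (PT.nd (nat_lit 44744) (PT.nd (nat_lit 282) (PT.nd (nat_lit 94) (PT.lf (nat_lit 11508) (nat_lit 6) (nat_lit 137) (nat_lit 1) (nat_lit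 66) (nat_lit 50) (nat_lit 64)) (PT.nd (nat_lit 94) (PT.lf (nat_lit 11424) (nat_lit 6) (nat_lit 136) (nat_lit 1) (nat_lit 67) (nat_lit 50) (nat_lit 63)) (PT.lf (nat_lit 11340) (nat_lit 6) (nat_lit 135) (nat_lit 1) (nat_lit 68) (nat_lit 50) (nat_lit 62)))) (PT.nd (nat_lit 44274) (PT.nd (nat_lit 94) (PT.lf (nat_lit 11256) (nat_lit 6) (nat_lit 134) (nat_lit 1) (nat_lit 69) (nat_lit 50) (nat_lit 61)) (PT.lf (nat_lit 11172) (nat_lit 6) (nat_lit 133) (nat_lit 1) (nat_lit 70) (nat_lit 50) (nat_lit 60))) (PT.nd (nat_lit 94) (PT.lf (nat_lit 11088) (nat_lit 6) (nat_lit 132) (nat_lit 3) (nat_lit 59) (nat_lit 51) (nat_lit 70)) (PT.lf (nat_lit 12012) (nat_lit 6) (nat_lit 143) (nat_lit 3) (nat_lit 60) (nat_lit 51) (nat_lit 69))))) (PT.nd (nat_lit 282) (PT.nd (nat_lit 94) (PT.lf (nat_lit 12096) (nat_lit 6) (nat_lit 144) (nat_lit 3) (nat_lit 61) (nat_lit 51) (nat_lit 68)) (PT.nd (nat_lit 94) (PT.lf (nat_lit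 12180) (nat_lit 6) (nat_lit 145) (nat_lit 3) (nat_lit 62) (nat_lit 51) (nat_lit 67)) (PT.lf (nat_lit 12264) (nat_lit 6) (nat_lit 146) (nat_lit 3) (nat_lit 63) (nat_lit 51) (nat_lit 66)))) (PT.nd (nat_lit 188) (PT.nd (nat_lit 94) (PT.lf (nat_lit 12348) (nat_lit 6) (nat_lit 147) (nat_lit 3) (nat_lit 64) (nat_lit 51) (nat_lit 65)) (PT.lf (nat_lit 12348) (nat_lit 6) (nat_lit 147) (nat_lit 1) (nat_lit 65) (nat_lit 51) (nat_lit 64))) (PT.nd (nat_lit 94) (PT.lf (nat_lit 12264) (nat_lit 6) (nat_lit 146) (nat_lit 1) (nat_lit 66) (nat_lit 51) (nat_lit 63)) (PT.lf (nat_lit 12180) (nat_lit 6) (nat_lit 145) (nat_lit 1) (nat_lit 67) (nat_lit 51) (nat_lit 62)))))) (PT.nd (nat_lit 44650) (PT.nd (nat_lit 44274) (PT.nd (nat_lit 94) (PT.lf (nat_lit 12096) (nat_lit 6) (nat_lit 144) (nat_lit 1) (nat_lit 68) (nat_lit 51) (nat_lit 61)) (PT.nd (nat_lit 94) (PT.lf (nat_lit 12012) (nat_lit 6) (nat_lit 143) (nat_lit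 1) (nat_lit 69) (nat_lit 51) (nat_lit 60)) (PT.lf (nat_lit 11088) (nat_lit 6) (nat_lit 132) (nat_lit 1) (nat_lit 70) (nat_lit 51) (nat_lit 59)))) (PT.nd (nat_lit 188) (PT.nd (nat_lit 94) (PT.lf (nat_lit 11004) (nat_lit 6) (nat_lit 131) (nat_lit 3) (nat_lit 58) (nat_lit 52) (nat_lit 70)) (PT.lf (nat_lit 11928) (nat_lit 6) (nat_lit 142) (nat_lit 3) (nat_lit 59) (nat_lit 52) (nat_lit 69))) (PT.nd (nat_lit 94) (PT.lf (nat_lit 12768) (nat_lit 6) (nat_lit 152) (nat_lit 3) (nat_lit 60) (nat_lit 52) (nat_lit 68)) (PT.lf (nat_lit 12852) (nat_lit 6) (nat_lit 153) (nat_lit 3) (nat_lit 61) (nat_lit 52) (nat_lit 67))))) (PT.nd (nat_lit 376) (PT.nd (nat_lit 188) (PT.nd (nat_lit 94) (PT.lf (nat_lit 12936) (nat_lit 6) (nat_lit 154) (nat_lit 3) (nat_lit 62) (nat_lit 52) (nat_lit 66)) (PT.lf (nat_lit 13020) (nat_lit 6) (nat_lit 155) (nat_lit 3) (nat_lit 63) (nat_lit 52) (nat_lit 65))) (PT.nd (nat_lit 94) (PT.lf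 (nat_lit 13104) (nat_lit 3) (nat_lit 156) (nat_lit 1) (nat_lit 64) (nat_lit 52) (nat_lit 64)) (PT.lf (nat_lit 13020) (nat_lit 6) (nat_lit 155) (nat_lit 1) (nat_lit 65) (nat_lit 52) (nat_lit 63)))) (PT.nd (nat_lit 188) (PT.nd (nat_lit 94) (PT.lf (nat_lit 12936) (nat_lit 6) (nat_lit 154) (nat_lit 1) (nat_lit 66) (nat_lit 52) (nat_lit 62)) (PT.lf (nat_lit 12852) (nat_lit 6) (nat_lit 153) (nat_lit 1) (nat_lit 67) (nat_lit 52) (nat_lit 61))) (PT.nd (nat_lit 94) (PT.lf (nat_lit 12768) (nat_lit 6) (nat_lit 152) (nat_lit 1) (nat_lit 68) (nat_lit 52) (nat_lit 60)) (PT.lf (nat_lit 11928) (nat_lit 6) (nat_lit 142) (nat_lit 1) (nat_lit 69) (nat_lit 52) (nat_lit 59))))))))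
noncomputable def pc4 : PT := (PT.nd (nat_lit 90334) (PT.nd (nat_lit 45214) (PT.nd (nat_lit 44556) (PT.nd (nat_lit 44180) (PT.nd (nat_lit 43992) (PT.lf (nat_lit 11004) (nat_lit 6) (nat_lit 131) (nat_lit 1) (nat_lit 70) (nat_lit 52) (nat_lit 58)) (PT.nd (nat_lit 94) (PT.lf (nat_lit 10920) (nat_lit 6) (nat_lit 130) (nat_lit 3) (nat_lit 57) (nat_lit 53) (nat_lit 70)) (PT.lf (nat_lit 11844) (nat_lit 6) (nat_lit 141) (nat_lit 3) (nat_lit 58) (nat_lit 53) (nat_lit 69)))) (PT.nd (nat_lit 188) (PT.nd (nat_lit 94) (PT.lf (nat_lit 12684) (nat_lit 6) (nat_lit 151) (nat_lit 3) (nat_lit 59) (nat_lit 53) (nat_lit 68)) (PT.lf (nat_lit 13440) (nat_lit 6) (nat_lit 160) (nat_lit 3) (nat_lit 60) (nat_lit 53) (nat_lit 67))) (PT.nd (nat_lit 94) (PT.lf (nat_lit 13524) (nat_lit 6) (nat_lit 161) (nat_lit 3) (nat_lit 61) (nat_lit 53) (nat_lit 66)) (PT.lf (nat_lit 13608) (nat_lit 6) (nat_lit 162) (nat_lit 3) (nat_lit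 62) (nat_lit 53) (nat_lit 65))))) (PT.nd (nat_lit 282) (PT.nd (nat_lit 94) (PT.lf (nat_lit 13692) (nat_lit 6) (nat_lit 163) (nat_lit 3) (nat_lit 63) (nat_lit 53) (nat_lit 64)) (PT.nd (nat_lit 94) (PT.lf (nat_lit 13692) (nat_lit 6) (nat_lit 163) (nat_lit 1) (nat_lit 64) (nat_lit 53) (nat_lit 63)) (PT.lf (nat_lit 13608) (nat_lit 6) (nat_lit 162) (nat_lit 1) (nat_lit 65) (nat_lit 53) (nat_lit 62)))) (PT.nd (nat_lit 188) (PT.nd (nat_lit 94) (PT.lf (nat_lit 13524) (nat_lit 6) (nat_lit 161) (nat_lit 1) (nat_lit 66) (nat_lit 53) (nat_lit 61)) (PT.lf (nat_lit 13440) (nat_lit 6) (nat_lit 160) (nat_lit 1) (nat_lit 67) (nat_lit 53) (nat_lit 60))) (PT.nd (nat_lit 94) (PT.lf (nat_lit 12684) (nat_lit 6) (nat_lit 151) (nat_lit 1) (nat_lit 68) (nat_lit 53) (nat_lit 59)) (PT.lf (nat_lit 11844) (nat_lit 6) (nat_lit 141) (nat_lit 1) (nat_lit 69) (nat_lit 53) (nat_lit 58)))))) (PT.nd (nat_lit 44462) (PT.nd (nat_lit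 44086) (PT.nd (nat_lit 43898) (PT.lf (nat_lit 10920) (nat_lit 6) (nat_lit 130) (nat_lit 1) (nat_lit 70) (nat_lit 53) (nat_lit 57)) (PT.nd (nat_lit 94) (PT.lf (nat_lit 10836) (nat_lit 6) (nat_lit 129) (nat_lit 3) (nat_lit 56) (nat_lit 54) (nat_lit 70)) (PT.lf (nat_lit 11760) (nat_lit 6) (nat_lit 140) (nat_lit 3) (nat_lit 57) (nat_lit 54) (nat_lit 69)))) (PT.nd (nat_lit 188) (PT.nd (nat_lit 94) (PT.lf (nat_lit 12600) (nat_lit 6) (nat_lit 150) (nat_lit 3) (nat_lit 58) (nat_lit 54) (nat_lit 68)) (PT.lf (nat_lit 13356) (nat_lit 6) (nat_lit 159) (nat_lit 3) (nat_lit 59) (nat_lit 54) (nat_lit 67))) (PT.nd (nat_lit 94) (PT.lf (nat_lit 14028) (nat_lit 6) (nat_lit 167) (nat_lit 3) (nat_lit 60) (nat_lit 54) (nat_lit 66)) (PT.lf (nat_lit 14112) (nat_lit 6) (nat_lit 168) (nat_lit 3) (nat_lit 61) (nat_lit 54) (nat_lit 65))))) (PT.nd (nat_lit 282) (PT.nd (nat_lit 94) (PT.lf (nat_lit 14196) (nat_lit 6) (nat_lit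 169) (nat_lit 3) (nat_lit 62) (nat_lit 54) (nat_lit 64)) (PT.nd (nat_lit 94) (PT.lf (nat_lit 14280) (nat_lit 3) (nat_lit 170) (nat_lit 1) (nat_lit 63) (nat_lit 54) (nat_lit 63)) (PT.lf (nat_lit 14196) (nat_lit 6) (nat_lit 169) (nat_lit 1) (nat_lit 64) (nat_lit 54) (nat_lit 62)))) (PT.nd (nat_lit 188) (PT.nd (nat_lit 94) (PT.lf (nat_lit 14112) (nat_lit 6) (nat_lit 168) (nat_lit 1) (nat_lit 65) (nat_lit 54) (nat_lit 61)) (PT.lf (nat_lit 14028) (nat_lit 6) (nat_lit 167) (nat_lit 1) (nat_lit 66) (nat_lit 54) (nat_lit 60))) (PT.nd (nat_lit 94) (PT.lf (nat_lit 13356) (nat_lit 6) (nat_lit 159) (nat_lit 1) (nat_lit 67) (nat_lit 54) (nat_lit 59)) (PT.lf (nat_lit 12600) (nat_lit 6) (nat_lit 150) (nat_lit 1) (nat_lit 68) (nat_lit 54) (nat_lit 58))))))) (PT.nd (nat_lit 45026) (PT.nd (nat_lit 44368) (PT.nd (nat_lit 43992) (PT.nd (nat_lit 94) (PT.lf (nat_lit 11760) (nat_lit 6) (nat_lit 140) (nat_lit 1)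 (nat_lit 69) (nat_lit 54) (nat_lit 57)) (PT.nd (nat_lit 43804) (PT.lf (nat_lit 10836) (nat_lit 6) (nat_lit 129) (nat_lit 1) (nat_lit 70) (nat_lit 54) (nat_lit 56)) (PT.lf (nat_lit 10752) (nat_lit 3) (nat_lit 128) (nat_lit 3) (nat_lit 55) (nat_lit 55) (nat_lit 70)))) (PT.nd (nat_lit 188) (PT.nd (nat_lit 94) (PT.lf (nat_lit 11676) (nat_lit 6) (nat_lit 139) (nat_lit 3) (nat_lit 56) (nat_lit 55) (nat_lit 69)) (PT.lf (nat_lit 12516) (nat_lit 6) (nat_lit 149) (nat_lit 3) (nat_lit 57) (nat_lit 55) (nat_lit 68))) (PT.nd (nat_lit 94) (PT.lf (nat_lit 13272) (nat_lit 6) (nat_lit 158) (nat_lit 3) (nat_lit 58) (nat_lit 55) (nat_lit 67)) (PT.lf (nat_lit 13944) (nat_lit 6) (nat_lit 166) (nat_lit 3) (nat_lit 59) (nat_lit 55) (nat_lit 66))))) (PT.nd (nat_lit 282) (PT.nd (nat_lit 94) (PT.lf (nat_lit 14532) (nat_lit 6) (nat_lit 173) (nat_lit 3) (nat_lit 60) (nat_lit 55) (nat_lit 65)) (PT.nd (nat_lit 94) (PT.lf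 (nat_lit 14616) (nat_lit 6) (nat_lit 174) (nat_lit 3) (nat_lit 61) (nat_lit 55) (nat_lit 64)) (PT.lf (nat_lit 14700) (nat_lit 6) (nat_lit 175) (nat_lit 3) (nat_lit 62) (nat_lit 55) (nat_lit 63)))) (PT.nd (nat_lit 188) (PT.nd (nat_lit 94) (PT.lf (nat_lit 14700) (nat_lit 6) (nat_lit 175) (nat_lit 1) (nat_lit 63) (nat_lit 55) (nat_lit 62)) (PT.lf (nat_lit 14616) (nat_lit 6) (nat_lit 174) (nat_lit 1) (nat_lit 64) (nat_lit 55) (nat_lit 61))) (PT.nd (nat_lit 94) (PT.lf (nat_lit 14532) (nat_lit 6) (nat_lit 173) (nat_lit 1) (nat_lit 65) (nat_lit 55) (nat_lit 60)) (PT.lf (nat_lit 13944) (nat_lit 6) (nat_lit 166) (nat_lit 1) (nat_lit 66) (nat_lit 55) (nat_lit 59)))))) (PT.nd (nat_lit 44274) (PT.nd (nat_lit 282) (PT.nd (nat_lit 94) (PT.lf (nat_lit 13272) (nat_lit 6) (nat_lit 158) (nat_lit 1) (nat_lit 67) (nat_lit 55) (nat_lit 58)) (PT.nd (nat_lit 94) (PT.lf (nat_lit 12516) (nat_lit 6) (nat_lit 149) (nat_lit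 1) (nat_lit 68) (nat_lit 55) (nat_lit 57)) (PT.lf (nat_lit 11676) (nat_lit 6) (nat_lit 139) (nat_lit 1) (nat_lit 69) (nat_lit 55) (nat_lit 56)))) (PT.nd (nat_lit 43804) (PT.nd (nat_lit 43710) (PT.lf (nat_lit 10752) (nat_lit 3) (nat_lit 128) (nat_lit 0) (nat_lit 70) (nat_lit 55) (nat_lit 55)) (PT.lf (nat_lit 10836) (nat_lit 6) (nat_lit 129) (nat_lit 5) (nat_lit 54) (nat_lit 56) (nat_lit 70))) (PT.nd (nat_lit 94) (PT.lf (nat_lit 11676) (nat_lit 6) (nat_lit 139) (nat_lit 5) (nat_lit 55) (nat_lit 56) (nat_lit 69)) (PT.lf (nat_lit 12432) (nat_lit 3) (nat_lit 148) (nat_lit 3) (nat_lit 56) (nat_lit 56) (nat_lit 68))))) (PT.nd (nat_lit 282) (PT.nd (nat_lit 94) (PT.lf (nat_lit 13188) (nat_lit 6) (nat_lit 157) (nat_lit 3) (nat_lit 57) (nat_lit 56) (nat_lit 67)) (PT.nd (nat_lit 94) (PT.lf (nat_lit 13860) (nat_lit 6) (nat_lit 165) (nat_lit 3) (nat_lit 58) (nat_lit 56) (nat_lit 66)) (PT.lf (nat_lit 14448)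 (nat_lit 6) (nat_lit 172) (nat_lit 3) (nat_lit 59) (nat_lit 56) (nat_lit 65)))) (PT.nd (nat_lit 188) (PT.nd (nat_lit 94) (PT.lf (nat_lit 14952) (nat_lit 6) (nat_lit 178) (nat_lit 3) (nat_lit 60) (nat_lit 56) (nat_lit 64)) (PT.lf (nat_lit 15036) (nat_lit 6) (nat_lit 179) (nat_lit 3) (nat_lit 61) (nat_lit 56) (nat_lit 63))) (PT.nd (nat_lit 94) (PT.lf (nat_lit 15120) (nat_lit 3) (nat_lit 180) (nat_lit 1) (nat_lit 62) (nat_lit 56) (nat_lit 62)) (PT.lf (nat_lit 15036) (nat_lit 6) (nat_lit 179) (nat_lit 1) (nat_lit 63) (nat_lit 56) (nat_lit 61))))))))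
noncomputable def pc5 : PT := (PT.nd (nat_lit 89582) (PT.nd (nat_lit 44838) (PT.nd (nat_lit 44180) (PT.nd (nat_lit 282) (PT.nd (nat_lit 94) (PT.lf (nat_lit 14952) (nat_lit 6) (nat_lit 178) (nat_lit 1) (nat_lit 64) (nat_lit 56) (nat_lit 60)) (PT.nd (nat_lit 94) (PT.lf (nat_lit 14448) (nat_lit 6) (nat_lit 172) (nat_lit 1) (nat_lit 65) (nat_lit 56) (nat_lit 59)) (PT.lf (nat_lit 13860) (nat_lit 6) (nat_lit 165) (nat_lit 1) (nat_lit 66) (nat_lit 56) (nat_lit 58)))) (PT.nd (nat_lit 188) (PT.nd (nat_lit 94) (PT.lf (nat_lit 13188) (nat_lit 6) (nat_lit 157) (nat_lit 1) (nat_lit 67) (nat_lit 56) (nat_lit 57)) (PT.lf (nat_lit 12432) (nat_lit 3) (nat_lit 148) (nat_lit 0) (nat_lit 68) (nat_lit 56) (nat_lit 56))) (PT.nd (nat_lit 94) (PT.lf (nat_lit 11676) (nat_lit 6) (nat_lit 139) (nat_lit 0) (nat_lit 69) (nat_lit 56) (nat_lit 55)) (PT.lf (nat_lit 10836) (nat_lit 6) (nat_lit 129) (nat_lit 0) (nat_lit 70)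 (nat_lit 56) (nat_lit 54))))) (PT.nd (nat_lit 282) (PT.nd (nat_lit 94) (PT.lf (nat_lit 10920) (nat_lit 6) (nat_lit 130) (nat_lit 5) (nat_lit 53) (nat_lit 57) (nat_lit 70)) (PT.nd (nat_lit 94) (PT.lf (nat_lit 11760) (nat_lit 6) (nat_lit 140) (nat_lit 5) (nat_lit 54) (nat_lit 57) (nat_lit 69)) (PT.lf (nat_lit 12516) (nat_lit 6) (nat_lit 149) (nat_lit 5) (nat_lit 55) (nat_lit 57) (nat_lit 68)))) (PT.nd (nat_lit 188) (PT.nd (nat_lit 94) (PT.lf (nat_lit 13188) (nat_lit 6) (nat_lit 157) (nat_lit 5) (nat_lit 56) (nat_lit 57) (nat_lit 67)) (PT.lf (nat_lit 13776) (nat_lit 3) (nat_lit 164) (nat_lit 3) (nat_lit 57) (nat_lit 57) (nat_lit 66))) (PT.nd (nat_lit 94) (PT.lf (nat_lit 14364) (nat_lit 6) (nat_lit 171) (nat_lit 3) (nat_lit 58) (nat_lit 57) (nat_lit 65)) (PT.lf (nat_lit 14868) (nat_lit 6) (nat_lit 177) (nat_lit 3) (nat_lit 59) (nat_lit 57) (nat_lit 64)))))) (PT.nd (nat_lit 658) (PT.nd (nat_lit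 282) (PT.nd (nat_lit 94) (PT.lf (nat_lit 15288) (nat_lit 6) (nat_lit 182) (nat_lit 3) (nat_lit 60) (nat_lit 57) (nat_lit 63)) (PT.nd (nat_lit 94) (PT.lf (nat_lit 15372) (nat_lit 6) (nat_lit 183) (nat_lit 3) (nat_lit 61) (nat_lit 57) (nat_lit 62)) (PT.lf (nat_lit 15372) (nat_lit 6) (nat_lit 183) (nat_lit 1) (nat_lit 62) (nat_lit 57) (nat_lit 61)))) (PT.nd (nat_lit 188) (PT.nd (nat_lit 94) (PT.lf (nat_lit 15288) (nat_lit 6) (nat_lit 182) (nat_lit 1) (nat_lit 63) (nat_lit 57) (nat_lit 60)) (PT.lf (nat_lit 14868) (nat_lit 6) (nat_lit 177) (nat_lit 1) (nat_lit 64) (nat_lit 57) (nat_lit 59))) (PT.nd (nat_lit 94) (PT.lf (nat_lit 14364) (nat_lit 6) (nat_lit 171) (nat_lit 1) (nat_lit 65) (nat_lit 57) (nat_lit 58)) (PT.lf (nat_lit 13776) (nat_lit 3) (nat_lit 164) (nat_lit 0) (nat_lit 66) (nat_lit 57) (nat_lit 57))))) (PT.nd (nat_lit 282) (PT.nd (nat_lit 94) (PT.lf (nat_lit 13188) (nat_lit 6) (nat_lit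 157) (nat_lit 0) (nat_lit 67) (nat_lit 57) (nat_lit 56)) (PT.nd (nat_lit 94) (PT.lf (nat_lit 12516) (nat_lit 6) (nat_lit 149) (nat_lit 0) (nat_lit 68) (nat_lit 57) (nat_lit 55)) (PT.lf (nat_lit 11760) (nat_lit 6) (nat_lit 140) (nat_lit 0) (nat_lit 69) (nat_lit 57) (nat_lit 54)))) (PT.nd (nat_lit 43616) (PT.nd (nat_lit 43522) (PT.lf (nat_lit 10920) (nat_lit 6) (nat_lit 130) (nat_lit 0) (nat_lit 70) (nat_lit 57) (nat_lit 53)) (PT.lf (nat_lit 11004) (nat_lit 6) (nat_lit 131) (nat_lit 5) (nat_lit 52) (nat_lit 58) (nat_lit 70))) (PT.nd (nat_lit 94) (PT.lf (nat_lit 11844) (nat_lit 6) (nat_lit 141) (nat_lit 5) (nat_lit 53) (nat_lit 58) (nat_lit 69)) (PT.lf (nat_lit 12600) (nat_lit 6) (nat_lit 150) (nat_lit 5) (nat_lit 54) (nat_lit 58) (nat_lit 68))))))) (PT.nd (nat_lit 1316) (PT.nd (nat_lit 658) (PT.nd (nat_lit 282) (PT.nd (nat_lit 94) (PT.lf (nat_lit 13272) (nat_lit 6) (nat_lit 158) (nat_lit 5)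 (nat_lit 55) (nat_lit 58) (nat_lit 67)) (PT.nd (nat_lit 94) (PT.lf (nat_lit 13860) (nat_lit 6) (nat_lit 165) (nat_lit 5) (nat_lit 56) (nat_lit 58) (nat_lit 66)) (PT.lf (nat_lit 14364) (nat_lit 6) (nat_lit 171) (nat_lit 5) (nat_lit 57) (nat_lit 58) (nat_lit 65)))) (PT.nd (nat_lit 188) (PT.nd (nat_lit 94) (PT.lf (nat_lit 14784) (nat_lit 3) (nat_lit 176) (nat_lit 3) (nat_lit 58) (nat_lit 58) (nat_lit 64)) (PT.lf (nat_lit 15204) (nat_lit 6) (nat_lit 181) (nat_lit 3) (nat_lit 59) (nat_lit 58) (nat_lit 63))) (PT.nd (nat_lit 94) (PT.lf (nat_lit 15540) (nat_lit 6) (nat_lit 185) (nat_lit 3) (nat_lit 60) (nat_lit 58) (nat_lit 62)) (PT.lf (nat_lit 15624) (nat_lit 3) (nat_lit 186) (nat_lit 1) (nat_lit 61) (nat_lit 58) (nat_lit 61))))) (PT.nd (nat_lit 282) (PT.nd (nat_lit 94) (PT.lf (nat_lit 15540) (nat_lit 6) (nat_lit 185) (nat_lit 1) (nat_lit 62) (nat_lit 58) (nat_lit 60)) (PT.nd (nat_lit 94) (PT.lf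 (nat_lit 15204) (nat_lit 6) (nat_lit 181) (nat_lit 1) (nat_lit 63) (nat_lit 58) (nat_lit 59)) (PT.lf (nat_lit 14784) (nat_lit 3) (nat_lit 176) (nat_lit 0) (nat_lit 64) (nat_lit 58) (nat_lit 58)))) (PT.nd (nat_lit 188) (PT.nd (nat_lit 94) (PT.lf (nat_lit 14364) (nat_lit 6) (nat_lit 171) (nat_lit 0) (nat_lit 65) (nat_lit 58) (nat_lit 57)) (PT.lf (nat_lit 13860) (nat_lit 6) (nat_lit 165) (nat_lit 0) (nat_lit 66) (nat_lit 58) (nat_lit 56))) (PT.nd (nat_lit 94) (PT.lf (nat_lit 13272) (nat_lit 6) (nat_lit 158) (nat_lit 0) (nat_lit 67) (nat_lit 58) (nat_lit 55)) (PT.lf (nat_lit 12600) (nat_lit 6) (nat_lit 150) (nat_lit 0) (nat_lit 68) (nat_lit 58) (nat_lit 54)))))) (PT.nd (nat_lit 43992) (PT.nd (nat_lit 43616) (PT.nd (nat_lit 94) (PT.lf (nat_lit 11844) (nat_lit 6) (nat_lit 141) (nat_lit 0) (nat_lit 69) (nat_lit 58) (nat_lit 53)) (PT.nd (nat_lit 43428) (PT.lf (nat_lit 11004) (nat_lit 6) (nat_lit 131)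 (nat_lit 0) (nat_lit 70) (nat_lit 58) (nat_lit 52)) (PT.lf (nat_lit 11088) (nat_lit 6) (nat_lit 132) (nat_lit 5) (nat_lit 51) (nat_lit 59) (nat_lit 70)))) (PT.nd (nat_lit 188) (PT.nd (nat_lit 94) (PT.lf (nat_lit 11928) (nat_lit 6) (nat_lit 142) (nat_lit 5) (nat_lit 52) (nat_lit 59) (nat_lit 69)) (PT.lf (nat_lit 12684) (nat_lit 6) (nat_lit 151) (nat_lit 5) (nat_lit 53) (nat_lit 59) (nat_lit 68))) (PT.nd (nat_lit 94) (PT.lf (nat_lit 13356) (nat_lit 6) (nat_lit 159) (nat_lit 5) (nat_lit 54) (nat_lit 59) (nat_lit 67)) (PT.lf (nat_lit 13944) (nat_lit 6) (nat_lit 166) (nat_lit 5) (nat_lit 55) (nat_lit 59) (nat_lit 66))))) (PT.nd (nat_lit 376) (PT.nd (nat_lit 188) (PT.nd (nat_lit 94) (PT.lf (nat_lit 14448) (nat_lit 6) (nat_lit 172) (nat_lit 5) (nat_lit 56) (nat_lit 59) (nat_lit 65)) (PT.lf (nat_lit 14868) (nat_lit 6) (nat_lit 177) (nat_lit 5) (nat_lit 57) (nat_lit 59) (nat_lit 64))) (PT.nd (nat_lit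 94) (PT.lf (nat_lit 15204) (nat_lit 6) (nat_lit 181) (nat_lit 5) (nat_lit 58) (nat_lit 59) (nat_lit 63)) (PT.lf (nat_lit 15456) (nat_lit 3) (nat_lit 184) (nat_lit 3) (nat_lit 59) (nat_lit 59) (nat_lit 62)))) (PT.nd (nat_lit 188) (PT.nd (nat_lit 94) (PT.lf (nat_lit 15708) (nat_lit 6) (nat_lit 187) (nat_lit 3) (nat_lit 60) (nat_lit 59) (nat_lit 61)) (PT.lf (nat_lit 15708) (nat_lit 6) (nat_lit 187) (nat_lit 1) (nat_lit 61) (nat_lit 59) (nat_lit 60))) (PT.nd (nat_lit 94) (PT.lf (nat_lit 15456) (nat_lit 3) (nat_lit 184) (nat_lit 0) (nat_lit 62) (nat_lit 59) (nat_lit 59)) (PT.lf (nat_lit 15204) (nat_lit 6) (nat_lit 181) (nat_lit 0) (nat_lit 63) (nat_lit 59) (nat_lit 58))))))))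
noncomputable def pc6 : PT := (PT.nd (nat_lit 45778) (PT.nd (nat_lit 44462) (PT.nd (nat_lit 43804) (PT.nd (nat_lit 282) (PT.nd (nat_lit 94) (PT.lf (nat_lit 14868) (nat_lit 6) (nat_lit 177) (nat_lit 0) (nat_lit 64) (nat_lit 59) (nat_lit 57)) (PT.nd (nat_lit 94) (PT.lf (nat_lit 14448) (nat_lit 6) (nat_lit 172) (nat_lit 0) (nat_lit 65) (nat_lit 59) (nat_lit 56)) (PT.lf (nat_lit 13944) (nat_lit 6) (nat_lit 166) (nat_lit 0) (nat_lit 66) (nat_lit 59) (nat_lit 55)))) (PT.nd (nat_lit 188) (PT.nd (nat_lit 94) (PT.lf (nat_lit 13356) (nat_lit 6) (nat_lit 159) (nat_lit 0) (nat_lit 67) (nat_lit 59) (nat_lit 54)) (PT.lf (nat_lit 12684) (nat_lit 6) (nat_lit 151) (nat_lit 0) (nat_lit 68) (nat_lit 59) (nat_lit 53))) (PT.nd (nat_lit 94) (PT.lf (nat_lit 11928) (nat_lit 6) (nat_lit 142) (nat_lit 0) (nat_lit 69) (nat_lit 59) (nat_lit 52)) (PT.lf (nat_lit 11088) (nat_lit 6) (nat_lit 132) (nat_lit 0) (nat_lit 70)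 (nat_lit 59) (nat_lit 51))))) (PT.nd (nat_lit 282) (PT.nd (nat_lit 94) (PT.lf (nat_lit 10248) (nat_lit 6) (nat_lit 122) (nat_lit 5) (nat_lit 49) (nat_lit 60) (nat_lit 71)) (PT.nd (nat_lit 94) (PT.lf (nat_lit 11172) (nat_lit 6) (nat_lit 133) (nat_lit 5) (nat_lit 50) (nat_lit 60) (nat_lit 70)) (PT.lf (nat_lit 12012) (nat_lit 6) (nat_lit 143) (nat_lit 5) (nat_lit 51) (nat_lit 60) (nat_lit 69)))) (PT.nd (nat_lit 188) (PT.nd (nat_lit 94) (PT.lf (nat_lit 12768) (nat_lit 6) (nat_lit 152) (nat_lit 5) (nat_lit 52) (nat_lit 60) (nat_lit 68)) (PT.lf (nat_lit 13440) (nat_lit 6) (nat_lit 160) (nat_lit 5) (nat_lit 53) (nat_lit 60) (nat_lit 67))) (PT.nd (nat_lit 94) (PT.lf (nat_lit 14028) (nat_lit 6) (nat_lit 167) (nat_lit 5) (nat_lit 54) (nat_lit 60) (nat_lit 66)) (PT.lf (nat_lit 14532) (nat_lit 6) (nat_lit 173) (nat_lit 5) (nat_lit 55) (nat_lit 60) (nat_lit 65)))))) (PT.nd (nat_lit 658) (PT.nd (nat_lit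 282) (PT.nd (nat_lit 94) (PT.lf (nat_lit 14952) (nat_lit 6) (nat_lit 178) (nat_lit 5) (nat_lit 56) (nat_lit 60) (nat_lit 64)) (PT.nd (nat_lit 94) (PT.lf (nat_lit 15288) (nat_lit 6) (nat_lit 182) (nat_lit 5) (nat_lit 57) (nat_lit 60) (nat_lit 63)) (PT.lf (nat_lit 15540) (nat_lit 6) (nat_lit 185) (nat_lit 5) (nat_lit 58) (nat_lit 60) (nat_lit 62)))) (PT.nd (nat_lit 188) (PT.nd (nat_lit 94) (PT.lf (nat_lit 15708) (nat_lit 6) (nat_lit 187) (nat_lit 5) (nat_lit 59) (nat_lit 60) (nat_lit 61)) (PT.lf (nat_lit 15792) (nat_lit 1) (nat_lit 188) (nat_lit 0) (nat_lit 60) (nat_lit 60) (nat_lit 60))) (PT.nd (nat_lit 94) (PT.lf (nat_lit 15708) (nat_lit 6) (nat_lit 187) (nat_lit 0) (nat_lit 61) (nat_lit 60) (nat_lit 59)) (PT.lf (nat_lit 15540) (nat_lit 6) (nat_lit 185) (nat_lit 0) (nat_lit 62) (nat_lit 60) (nat_lit 58))))) (PT.nd (nat_lit 282) (PT.nd (nat_lit 94) (PT.lf (nat_lit 15288) (nat_lit 6) (nat_lit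 182) (nat_lit 0) (nat_lit 63) (nat_lit 60) (nat_lit 57)) (PT.nd (nat_lit 94) (PT.lf (nat_lit 14952) (nat_lit 6) (nat_lit 178) (nat_lit 0) (nat_lit 64) (nat_lit 60) (nat_lit 56)) (PT.lf (nat_lit 14532) (nat_lit 6) (nat_lit 173) (nat_lit 0) (nat_lit 65) (nat_lit 60) (nat_lit 55)))) (PT.nd (nat_lit 188) (PT.nd (nat_lit 94) (PT.lf (nat_lit 14028) (nat_lit 6) (nat_lit 167) (nat_lit 0) (nat_lit 66) (nat_lit 60) (nat_lit 54)) (PT.lf (nat_lit 13440) (nat_lit 6) (nat_lit 160) (nat_lit 0) (nat_lit 67) (nat_lit 60) (nat_lit 53))) (PT.nd (nat_lit 94) (PT.lf (nat_lit 12768) (nat_lit 6) (nat_lit 152) (nat_lit 0) (nat_lit 68) (nat_lit 60) (nat_lit 52)) (PT.lf (nat_lit 12012) (nat_lit 6) (nat_lit 143) (nat_lit 0) (nat_lit 69) (nat_lit 60) (nat_lit 51))))))) (PT.nd (nat_lit 44274) (PT.nd (nat_lit 43616) (PT.nd (nat_lit 43240) (PT.nd (nat_lit 94) (PT.lf (nat_lit 11172) (nat_lit 6) (nat_lit 133) (nat_lit 0)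 (nat_lit 70) (nat_lit 60) (nat_lit 50)) (PT.nd (nat_lit 43052) (PT.lf (nat_lit 10248) (nat_lit 6) (nat_lit 122) (nat_lit 0) (nat_lit 71) (nat_lit 60) (nat_lit 49)) (PT.lf (nat_lit 9744) (nat_lit 6) (nat_lit 116) (nat_lit 5) (nat_lit 48) (nat_lit 61) (nat_lit 71)))) (PT.nd (nat_lit 188) (PT.nd (nat_lit 94) (PT.lf (nat_lit 10332) (nat_lit 6) (nat_lit 123) (nat_lit 5) (nat_lit 49) (nat_lit 61) (nat_lit 70)) (PT.lf (nat_lit 11256) (nat_lit 6) (nat_lit 134) (nat_lit 5) (nat_lit 50) (nat_lit 61) (nat_lit 69))) (PT.nd (nat_lit 94) (PT.lf (nat_lit 12096) (nat_lit 6) (nat_lit 144) (nat_lit 5) (nat_lit 51) (nat_lit 61) (nat_lit 68)) (PT.lf (nat_lit 12852) (nat_lit 6) (nat_lit 153) (nat_lit 5) (nat_lit 52) (nat_lit 61) (nat_lit 67))))) (PT.nd (nat_lit 282) (PT.nd (nat_lit 94) (PT.lf (nat_lit 13524) (nat_lit 6) (nat_lit 161) (nat_lit 5) (nat_lit 53) (nat_lit 61) (nat_lit 66)) (PT.nd (nat_lit 94) (PT.lf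 (nat_lit 14112) (nat_lit 6) (nat_lit 168) (nat_lit 5) (nat_lit 54) (nat_lit 61) (nat_lit 65)) (PT.lf (nat_lit 14616) (nat_lit 6) (nat_lit 174) (nat_lit 5) (nat_lit 55) (nat_lit 61) (nat_lit 64)))) (PT.nd (nat_lit 188) (PT.nd (nat_lit 94) (PT.lf (nat_lit 15036) (nat_lit 6) (nat_lit 179) (nat_lit 5) (nat_lit 56) (nat_lit 61) (nat_lit 63)) (PT.lf (nat_lit 15372) (nat_lit 6) (nat_lit 183) (nat_lit 5) (nat_lit 57) (nat_lit 61) (nat_lit 62))) (PT.nd (nat_lit 94) (PT.lf (nat_lit 15624) (nat_lit 3) (nat_lit 186) (nat_lit 4) (nat_lit 58) (nat_lit 61) (nat_lit 61)) (PT.lf (nat_lit 15708) (nat_lit 6) (nat_lit 187) (nat_lit 4) (nat_lit 59) (nat_lit 61) (nat_lit 60)))))) (PT.nd (nat_lit 658) (PT.nd (nat_lit 282) (PT.nd (nat_lit 94) (PT.lf (nat_lit 15708) (nat_lit 6) (nat_lit 187) (nat_lit 2) (nat_lit 60) (nat_lit 61) (nat_lit 59)) (PT.nd (nat_lit 94) (PT.lf (nat_lit 15624) (nat_lit 3) (nat_lit 186) (nat_lit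 0) (nat_lit 61) (nat_lit 61) (nat_lit 58)) (PT.lf (nat_lit 15372) (nat_lit 6) (nat_lit 183) (nat_lit 0) (nat_lit 62) (nat_lit 61) (nat_lit 57)))) (PT.nd (nat_lit 188) (PT.nd (nat_lit 94) (PT.lf (nat_lit 15036) (nat_lit 6) (nat_lit 179) (nat_lit 0) (nat_lit 63) (nat_lit 61) (nat_lit 56)) (PT.lf (nat_lit 14616) (nat_lit 6) (nat_lit 174) (nat_lit 0) (nat_lit 64) (nat_lit 61) (nat_lit 55))) (PT.nd (nat_lit 94) (PT.lf (nat_lit 14112) (nat_lit 6) (nat_lit 168) (nat_lit 0) (nat_lit 65) (nat_lit 61) (nat_lit 54)) (PT.lf (nat_lit 13524) (nat_lit 6) (nat_lit 161) (nat_lit 0) (nat_lit 66) (nat_lit 61) (nat_lit 53))))) (PT.nd (nat_lit 282) (PT.nd (nat_lit 94) (PT.lf (nat_lit 12852) (nat_lit 6) (nat_lit 153) (nat_lit 0) (nat_lit 67) (nat_lit 61) (nat_lit 52)) (PT.nd (nat_lit 94) (PT.lf (nat_lit 12096) (nat_lit 6) (nat_lit 144) (nat_lit 0) (nat_lit 68) (nat_lit 61) (nat_lit 51)) (PT.lf (nat_lit 11256) (nat_lit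 6) (nat_lit 134) (nat_lit 0) (nat_lit 69) (nat_lit 61) (nat_lit 50)))) (PT.nd (nat_lit 43052) (PT.nd (nat_lit 94) (PT.lf (nat_lit 10332) (nat_lit 6) (nat_lit 123) (nat_lit 0) (nat_lit 70) (nat_lit 61) (nat_lit 49)) (PT.lf (nat_lit 9744) (nat_lit 6) (nat_lit 116) (nat_lit 0) (nat_lit 71) (nat_lit 61) (nat_lit 48))) (PT.nd (nat_lit 94) (PT.lf (nat_lit 9324) (nat_lit 6) (nat_lit 111) (nat_lit 5) (nat_lit 47) (nat_lit 62) (nat_lit 71)) (PT.lf (nat_lit 9828) (nat_lit 6) (nat_lit 117) (nat_lit 5) (nat_lit 48) (nat_lit 62) (nat_lit 70))))))))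
noncomputable def pc7 : PT := (PT.nd (nat_lit 45402) (PT.nd (nat_lit 1316) (PT.nd (nat_lit 658) (PT.nd (nat_lit 282) (PT.nd (nat_lit 94) (PT.lf (nat_lit 10416) (nat_lit 6) (nat_lit 124) (nat_lit 5) (nat_lit 49) (nat_lit 62) (nat_lit 69)) (PT.nd (nat_lit 94) (PT.lf (nat_lit 11340) (nat_lit 6) (nat_lit 135) (nat_lit 5) (nat_lit 50) (nat_lit 62) (nat_lit 68)) (PT.lf (nat_lit 12180) (nat_lit 6) (nat_lit 145) (nat_lit 5) (nat_lit 51) (nat_lit 62) (nat_lit 67)))) (PT.nd (nat_lit 188) (PT.nd (nat_lit 94) (PT.lf (nat_lit 12936) (nat_lit 6) (nat_lit 154) (nat_lit 5) (nat_lit 52) (nat_lit 62) (nat_lit 66)) (PT.lf (nat_lit 13608) (nat_lit 6) (nat_lit 162) (nat_lit 5) (nat_lit 53) (nat_lit 62) (nat_lit 65))) (PT.nd (nat_lit 94) (PT.lf (nat_lit 14196) (nat_lit 6) (nat_lit 169) (nat_lit 5) (nat_lit 54) (nat_lit 62) (nat_lit 64)) (PT.lf (nat_lit 14700) (nat_lit 6) (nat_lit 175) (nat_lit 5) (nat_lit 55) (nat_lit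 62) (nat_lit 63))))) (PT.nd (nat_lit 282) (PT.nd (nat_lit 94) (PT.lf (nat_lit 15120) (nat_lit 3) (nat_lit 180) (nat_lit 4) (nat_lit 56) (nat_lit 62) (nat_lit 62)) (PT.nd (nat_lit 94) (PT.lf (nat_lit 15372) (nat_lit 6) (nat_lit 183) (nat_lit 4) (nat_lit 57) (nat_lit 62) (nat_lit 61)) (PT.lf (nat_lit 15540) (nat_lit 6) (nat_lit 185) (nat_lit 4) (nat_lit 58) (nat_lit 62) (nat_lit 60)))) (PT.nd (nat_lit 188) (PT.nd (nat_lit 94) (PT.lf (nat_lit 15456) (nat_lit 3) (nat_lit 184) (nat_lit 2) (nat_lit 59) (nat_lit 62) (nat_lit 59)) (PT.lf (nat_lit 15540) (nat_lit 6) (nat_lit 185) (nat_lit 2) (nat_lit 60) (nat_lit 62) (nat_lit 58))) (PT.nd (nat_lit 94) (PT.lf (nat_lit 15372) (nat_lit 6) (nat_lit 183) (nat_lit 2) (nat_lit 61) (nat_lit 62) (nat_lit 57)) (PT.lf (nat_lit 15120) (nat_lit 3) (nat_lit 180) (nat_lit 0) (nat_lit 62) (nat_lit 62) (nat_lit 56)))))) (PT.nd (nat_lit 658) (PT.nd (nat_lit 282) (PT.nd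 (nat_lit 94) (PT.lf (nat_lit 14700) (nat_lit 6) (nat_lit 175) (nat_lit 0) (nat_lit 63) (nat_lit 62) (nat_lit 55)) (PT.nd (nat_lit 94) (PT.lf (nat_lit 14196) (nat_lit 6) (nat_lit 169) (nat_lit 0) (nat_lit 64) (nat_lit 62) (nat_lit 54)) (PT.lf (nat_lit 13608) (nat_lit 6) (nat_lit 162) (nat_lit 0) (nat_lit 65) (nat_lit 62) (nat_lit 53)))) (PT.nd (nat_lit 188) (PT.nd (nat_lit 94) (PT.lf (nat_lit 12936) (nat_lit 6) (nat_lit 154) (nat_lit 0) (nat_lit 66) (nat_lit 62) (nat_lit 52)) (PT.lf (nat_lit 12180) (nat_lit 6) (nat_lit 145) (nat_lit 0) (nat_lit 67) (nat_lit 62) (nat_lit 51))) (PT.nd (nat_lit 94) (PT.lf (nat_lit 11340) (nat_lit 6) (nat_lit 135) (nat_lit 0) (nat_lit 68) (nat_lit 62) (nat_lit 50)) (PT.lf (nat_lit 10416) (nat_lit 6) (nat_lit 124) (nat_lit 0) (nat_lit 69) (nat_lit 62) (nat_lit 49))))) (PT.nd (nat_lit 43052) (PT.nd (nat_lit 94) (PT.lf (nat_lit 9828) (nat_lit 6) (nat_lit 117) (nat_lit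 0) (nat_lit 70) (nat_lit 62) (nat_lit 48)) (PT.nd (nat_lit 42864) (PT.lf (nat_lit 9324) (nat_lit 6) (nat_lit 111) (nat_lit 0) (nat_lit 71) (nat_lit 62) (nat_lit 47)) (PT.lf (nat_lit 8904) (nat_lit 6) (nat_lit 106) (nat_lit 5) (nat_lit 46) (nat_lit 63) (nat_lit 71)))) (PT.nd (nat_lit 188) (PT.nd (nat_lit 94) (PT.lf (nat_lit 9408) (nat_lit 6) (nat_lit 112) (nat_lit 5) (nat_lit 47) (nat_lit 63) (nat_lit 70)) (PT.lf (nat_lit 9912) (nat_lit 6) (nat_lit 118) (nat_lit 5) (nat_lit 48) (nat_lit 63) (nat_lit 69))) (PT.nd (nat_lit 94) (PT.lf (nat_lit 10500) (nat_lit 6) (nat_lit 125) (nat_lit 5) (nat_lit 49) (nat_lit 63) (nat_lit 68)) (PT.lf (nat_lit 11424) (nat_lit 6) (nat_lit 136) (nat_lit 5) (nat_lit 50) (nat_lit 63) (nat_lit 67))))))) (PT.nd (nat_lit 1316) (PT.nd (nat_lit 658) (PT.nd (nat_lit 282) (PT.nd (nat_lit 94) (PT.lf (nat_lit 12264) (nat_lit 6) (nat_lit 146) (nat_lit 5) (nat_lit 51) (nat_lit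 63) (nat_lit 66)) (PT.nd (nat_lit 94) (PT.lf (nat_lit 13020) (nat_lit 6) (nat_lit 155) (nat_lit 5) (nat_lit 52) (nat_lit 63) (nat_lit 65)) (PT.lf (nat_lit 13692) (nat_lit 6) (nat_lit 163) (nat_lit 5) (nat_lit 53) (nat_lit 63) (nat_lit 64)))) (PT.nd (nat_lit 188) (PT.nd (nat_lit 94) (PT.lf (nat_lit 14280) (nat_lit 3) (nat_lit 170) (nat_lit 4) (nat_lit 54) (nat_lit 63) (nat_lit 63)) (PT.lf (nat_lit 14700) (nat_lit 6) (nat_lit 175) (nat_lit 4) (nat_lit 55) (nat_lit 63) (nat_lit 62))) (PT.nd (nat_lit 94) (PT.lf (nat_lit 15036) (nat_lit 6) (nat_lit 179) (nat_lit 4) (nat_lit 56) (nat_lit 63) (nat_lit 61)) (PT.lf (nat_lit 15288) (nat_lit 6) (nat_lit 182) (nat_lit 4) (nat_lit 57) (nat_lit 63) (nat_lit 60))))) (PT.nd (nat_lit 282) (PT.nd (nat_lit 94) (PT.lf (nat_lit 15204) (nat_lit 6) (nat_lit 181) (nat_lit 4) (nat_lit 58) (nat_lit 63) (nat_lit 59)) (PT.nd (nat_lit 94) (PT.lf (nat_lit 15204) (nat_lit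 6) (nat_lit 181) (nat_lit 2) (nat_lit 59) (nat_lit 63) (nat_lit 58)) (PT.lf (nat_lit 15288) (nat_lit 6) (nat_lit 182) (nat_lit 2) (nat_lit 60) (nat_lit 63) (nat_lit 57)))) (PT.nd (nat_lit 188) (PT.nd (nat_lit 94) (PT.lf (nat_lit 15036) (nat_lit 6) (nat_lit 179) (nat_lit 2) (nat_lit 61) (nat_lit 63) (nat_lit 56)) (PT.lf (nat_lit 14700) (nat_lit 6) (nat_lit 175) (nat_lit 2) (nat_lit 62) (nat_lit 63) (nat_lit 55))) (PT.nd (nat_lit 94) (PT.lf (nat_lit 14280) (nat_lit 3) (nat_lit 170) (nat_lit 0) (nat_lit 63) (nat_lit 63) (nat_lit 54)) (PT.lf (nat_lit 13692) (nat_lit 6) (nat_lit 163) (nat_lit 0) (nat_lit 64) (nat_lit 63) (nat_lit 53)))))) (PT.nd (nat_lit 43240) (PT.nd (nat_lit 282) (PT.nd (nat_lit 94) (PT.lf (nat_lit 13020) (nat_lit 6) (nat_lit 155) (nat_lit 0) (nat_lit 65) (nat_lit 63) (nat_lit 52)) (PT.nd (nat_lit 94) (PT.lf (nat_lit 12264) (nat_lit 6) (nat_lit 146) (nat_lit 0) (nat_lit 66) (nat_lit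 63) (nat_lit 51)) (PT.lf (nat_lit 11424) (nat_lit 6) (nat_lit 136) (nat_lit 0) (nat_lit 67) (nat_lit 63) (nat_lit 50)))) (PT.nd (nat_lit 188) (PT.nd (nat_lit 94) (PT.lf (nat_lit 10500) (nat_lit 6) (nat_lit 125) (nat_lit 0) (nat_lit 68) (nat_lit 63) (nat_lit 49)) (PT.lf (nat_lit 9912) (nat_lit 6) (nat_lit 118) (nat_lit 0) (nat_lit 69) (nat_lit 63) (nat_lit 48))) (PT.nd (nat_lit 94) (PT.lf (nat_lit 9408) (nat_lit 6) (nat_lit 112) (nat_lit 0) (nat_lit 70) (nat_lit 63) (nat_lit 47)) (PT.lf (nat_lit 8904) (nat_lit 6) (nat_lit 106) (nat_lit 0) (nat_lit 71) (nat_lit 63) (nat_lit 46))))) (PT.nd (nat_lit 376) (PT.nd (nat_lit 188) (PT.nd (nat_lit 94) (PT.lf (nat_lit 8148) (nat_lit 6) (nat_lit 97) (nat_lit 5) (nat_lit 44) (nat_lit 64) (nat_lit 72)) (PT.lf (nat_lit 8568) (nat_lit 6) (nat_lit 102) (nat_lit 5) (nat_lit 45) (nat_lit 64) (nat_lit 71))) (PT.nd (nat_lit 94) (PT.lf (nat_lit 8988) (nat_lit 6)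 (nat_lit 107) (nat_lit 5) (nat_lit 46) (nat_lit 64) (nat_lit 70)) (PT.lf (nat_lit 9492) (nat_lit 6) (nat_lit 113) (nat_lit 5) (nat_lit 47) (nat_lit 64) (nat_lit 69)))) (PT.nd (nat_lit 188) (PT.nd (nat_lit 94) (PT.lf (nat_lit 9996) (nat_lit 6) (nat_lit 119) (nat_lit 5) (nat_lit 48) (nat_lit 64) (nat_lit 68)) (PT.lf (nat_lit 10584) (nat_lit 6) (nat_lit 126) (nat_lit 5) (nat_lit 49) (nat_lit 64) (nat_lit 67))) (PT.nd (nat_lit 94) (PT.lf (nat_lit 11508) (nat_lit 6) (nat_lit 137) (nat_lit 5) (nat_lit 50) (nat_lit 64) (nat_lit 66)) (PT.lf (nat_lit 12348) (nat_lit 6) (nat_lit 147) (nat_lit 5) (nat_lit 51) (nat_lit 64) (nat_lit 65))))))))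
noncomputable def pc8 : PT := (PT.nd (nat_lit 45026) (PT.nd (nat_lit 1316) (PT.nd (nat_lit 658) (PT.nd (nat_lit 282) (PT.nd (nat_lit 94) (PT.lf (nat_lit 13104) (nat_lit 3) (nat_lit 156) (nat_lit 4) (nat_lit 52) (nat_lit 64) (nat_lit 64)) (PT.nd (nat_lit 94) (PT.lf (nat_lit 13692) (nat_lit 6) (nat_lit 163) (nat_lit 4) (nat_lit 53) (nat_lit 64) (nat_lit 63)) (PT.lf (nat_lit 14196) (nat_lit 6) (nat_lit 169) (nat_lit 4) (nat_lit 54) (nat_lit 64) (nat_lit 62)))) (PT.nd (nat_lit 188) (PT.nd (nat_lit 94) (PT.lf (nat_lit 14616) (nat_lit 6) (nat_lit 174) (nat_lit 4) (nat_lit 55) (nat_lit 64) (nat_lit 61)) (PT.lf (nat_lit 14952) (nat_lit 6) (nat_lit 178) (nat_lit 4) (nat_lit 56) (nat_lit 64) (nat_lit 60))) (PT.nd (nat_lit 94) (PT.lf (nat_lit 14868) (nat_lit 6) (nat_lit 177) (nat_lit 4) (nat_lit 57) (nat_lit 64) (nat_lit 59)) (PT.lf (nat_lit 14784) (nat_lit 3) (nat_lit 176) (nat_lit 2) (nat_lit 58) (nat_lit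 64) (nat_lit 58))))) (PT.nd (nat_lit 282) (PT.nd (nat_lit 94) (PT.lf (nat_lit 14868) (nat_lit 6) (nat_lit 177) (nat_lit 2) (nat_lit 59) (nat_lit 64) (nat_lit 57)) (PT.nd (nat_lit 94) (PT.lf (nat_lit 14952) (nat_lit 6) (nat_lit 178) (nat_lit 2) (nat_lit 60) (nat_lit 64) (nat_lit 56)) (PT.lf (nat_lit 14616) (nat_lit 6) (nat_lit 174) (nat_lit 2) (nat_lit 61) (nat_lit 64) (nat_lit 55)))) (PT.nd (nat_lit 188) (PT.nd (nat_lit 94) (PT.lf (nat_lit 14196) (nat_lit 6) (nat_lit 169) (nat_lit 2) (nat_lit 62) (nat_lit 64) (nat_lit 54)) (PT.lf (nat_lit 13692) (nat_lit 6) (nat_lit 163) (nat_lit 2) (nat_lit 63) (nat_lit 64) (nat_lit 53))) (PT.nd (nat_lit 94) (PT.lf (nat_lit 13104) (nat_lit 3) (nat_lit 156) (nat_lit 0) (nat_lit 64) (nat_lit 64) (nat_lit 52)) (PT.lf (nat_lit 12348) (nat_lit 6) (nat_lit 147) (nat_lit 0) (nat_lit 65) (nat_lit 64) (nat_lit 51)))))) (PT.nd (nat_lit 43052) (PT.nd (nat_lit 282) (PT.nd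 (nat_lit 94) (PT.lf (nat_lit 11508) (nat_lit 6) (nat_lit 137) (nat_lit 0) (nat_lit 66) (nat_lit 64) (nat_lit 50)) (PT.nd (nat_lit 94) (PT.lf (nat_lit 10584) (nat_lit 6) (nat_lit 126) (nat_lit 0) (nat_lit 67) (nat_lit 64) (nat_lit 49)) (PT.lf (nat_lit 9996) (nat_lit 6) (nat_lit 119) (nat_lit 0) (nat_lit 68) (nat_lit 64) (nat_lit 48)))) (PT.nd (nat_lit 188) (PT.nd (nat_lit 94) (PT.lf (nat_lit 9492) (nat_lit 6) (nat_lit 113) (nat_lit 0) (nat_lit 69) (nat_lit 64) (nat_lit 47)) (PT.lf (nat_lit 8988) (nat_lit 6) (nat_lit 107) (nat_lit 0) (nat_lit 70) (nat_lit 64) (nat_lit 46))) (PT.nd (nat_lit 94) (PT.lf (nat_lit 8568) (nat_lit 6) (nat_lit 102) (nat_lit 0) (nat_lit 71) (nat_lit 64) (nat_lit 45)) (PT.lf (nat_lit 8148) (nat_lit 6) (nat_lit 97) (nat_lit 0) (nat_lit 72) (nat_lit 64) (nat_lit 44))))) (PT.nd (nat_lit 282) (PT.nd (nat_lit 94) (PT.lf (nat_lit 7812) (nat_lit 6) (nat_lit 93) (nat_lit 5) (nat_lit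 43) (nat_lit 65) (nat_lit 72)) (PT.nd (nat_lit 94) (PT.lf (nat_lit 8232) (nat_lit 6) (nat_lit 98) (nat_lit 5) (nat_lit 44) (nat_lit 65) (nat_lit 71)) (PT.lf (nat_lit 8652) (nat_lit 6) (nat_lit 103) (nat_lit 5) (nat_lit 45) (nat_lit 65) (nat_lit 70)))) (PT.nd (nat_lit 188) (PT.nd (nat_lit 94) (PT.lf (nat_lit 9072) (nat_lit 6) (nat_lit 108) (nat_lit 5) (nat_lit 46) (nat_lit 65) (nat_lit 69)) (PT.lf (nat_lit 9576) (nat_lit 6) (nat_lit 114) (nat_lit 5) (nat_lit 47) (nat_lit 65) (nat_lit 68))) (PT.nd (nat_lit 94) (PT.lf (nat_lit 10080) (nat_lit 6) (nat_lit 120) (nat_lit 5) (nat_lit 48) (nat_lit 65) (nat_lit 67)) (PT.lf (nat_lit 10668) (nat_lit 6) (nat_lit 127) (nat_lit 5) (nat_lit 49) (nat_lit 65) (nat_lit 66))))))) (PT.nd (nat_lit 1316) (PT.nd (nat_lit 658) (PT.nd (nat_lit 282) (PT.nd (nat_lit 94) (PT.lf (nat_lit 11592) (nat_lit 3) (nat_lit 138) (nat_lit 4) (nat_lit 50) (nat_lit 65) (nat_lit 65))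 (PT.nd (nat_lit 94) (PT.lf (nat_lit 12348) (nat_lit 6) (nat_lit 147) (nat_lit 4) (nat_lit 51) (nat_lit 65) (nat_lit 64)) (PT.lf (nat_lit 13020) (nat_lit 6) (nat_lit 155) (nat_lit 4) (nat_lit 52) (nat_lit 65) (nat_lit 63)))) (PT.nd (nat_lit 188) (PT.nd (nat_lit 94) (PT.lf (nat_lit 13608) (nat_lit 6) (nat_lit 162) (nat_lit 4) (nat_lit 53) (nat_lit 65) (nat_lit 62)) (PT.lf (nat_lit 14112) (nat_lit 6) (nat_lit 168) (nat_lit 4) (nat_lit 54) (nat_lit 65) (nat_lit 61))) (PT.nd (nat_lit 94) (PT.lf (nat_lit 14532) (nat_lit 6) (nat_lit 173) (nat_lit 4) (nat_lit 55) (nat_lit 65) (nat_lit 60)) (PT.lf (nat_lit 14448) (nat_lit 6) (nat_lit 172) (nat_lit 4) (nat_lit 56) (nat_lit 65) (nat_lit 59))))) (PT.nd (nat_lit 282) (PT.nd (nat_lit 94) (PT.lf (nat_lit 14364) (nat_lit 6) (nat_lit 171) (nat_lit 4) (nat_lit 57) (nat_lit 65) (nat_lit 58)) (PT.nd (nat_lit 94) (PT.lf (nat_lit 14364) (nat_lit 6) (nat_lit 171)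 (nat_lit 2) (nat_lit 58) (nat_lit 65) (nat_lit 57)) (PT.lf (nat_lit 14448) (nat_lit 6) (nat_lit 172) (nat_lit 2) (nat_lit 59) (nat_lit 65) (nat_lit 56)))) (PT.nd (nat_lit 188) (PT.nd (nat_lit 94) (PT.lf (nat_lit 14532) (nat_lit 6) (nat_lit 173) (nat_lit 2) (nat_lit 60) (nat_lit 65) (nat_lit 55)) (PT.lf (nat_lit 14112) (nat_lit 6) (nat_lit 168) (nat_lit 2) (nat_lit 61) (nat_lit 65) (nat_lit 54))) (PT.nd (nat_lit 94) (PT.lf (nat_lit 13608) (nat_lit 6) (nat_lit 162) (nat_lit 2) (nat_lit 62) (nat_lit 65) (nat_lit 53)) (PT.lf (nat_lit 13020) (nat_lit 6) (nat_lit 155) (nat_lit 2) (nat_lit 63) (nat_lit 65) (nat_lit 52)))))) (PT.nd (nat_lit 658) (PT.nd (nat_lit 282) (PT.nd (nat_lit 94) (PT.lf (nat_lit 12348) (nat_lit 6) (nat_lit 147) (nat_lit 2) (nat_lit 64) (nat_lit 65) (nat_lit 51)) (PT.nd (nat_lit 94) (PT.lf (nat_lit 11592) (nat_lit 3) (nat_lit 138) (nat_lit 0) (nat_lit 65) (nat_lit 65) (nat_lit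 50)) (PT.lf (nat_lit 10668) (nat_lit 6) (nat_lit 127) (nat_lit 0) (nat_lit 66) (nat_lit 65) (nat_lit 49)))) (PT.nd (nat_lit 188) (PT.nd (nat_lit 94) (PT.lf (nat_lit 10080) (nat_lit 6) (nat_lit 120) (nat_lit 0) (nat_lit 67) (nat_lit 65) (nat_lit 48)) (PT.lf (nat_lit 9576) (nat_lit 6) (nat_lit 114) (nat_lit 0) (nat_lit 68) (nat_lit 65) (nat_lit 47))) (PT.nd (nat_lit 94) (PT.lf (nat_lit 9072) (nat_lit 6) (nat_lit 108) (nat_lit 0) (nat_lit 69) (nat_lit 65) (nat_lit 46)) (PT.lf (nat_lit 8652) (nat_lit 6) (nat_lit 103) (nat_lit 0) (nat_lit 70) (nat_lit 65) (nat_lit 45))))) (PT.nd (nat_lit 42488) (PT.nd (nat_lit 94) (PT.lf (nat_lit 8232) (nat_lit 6) (nat_lit 98) (nat_lit 0) (nat_lit 71) (nat_lit 65) (nat_lit 44)) (PT.nd (nat_lit 42300) (PT.lf (nat_lit 7812) (nat_lit 6) (nat_lit 93) (nat_lit 0) (nat_lit 72) (nat_lit 65) (nat_lit 43)) (PT.lf (nat_lit 7140) (nat_lit 6) (nat_lit 85) (nat_lit 5) (nat_lit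 41) (nat_lit 66) (nat_lit 73)))) (PT.nd (nat_lit 188) (PT.nd (nat_lit 94) (PT.lf (nat_lit 7476) (nat_lit 6) (nat_lit 89) (nat_lit 5) (nat_lit 42) (nat_lit 66) (nat_lit 72)) (PT.lf (nat_lit 7896) (nat_lit 6) (nat_lit 94) (nat_lit 5) (nat_lit 43) (nat_lit 66) (nat_lit 71))) (PT.nd (nat_lit 94) (PT.lf (nat_lit 8316) (nat_lit 6) (nat_lit 99) (nat_lit 5) (nat_lit 44) (nat_lit 66) (nat_lit 70)) (PT.lf (nat_lit 8736) (nat_lit 6) (nat_lit 104) (nat_lit 5) (nat_lit 45) (nat_lit 66) (nat_lit 69))))))))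
noncomputable def pc9 : PT := (PT.nd (nat_lit 44650) (PT.nd (nat_lit 1316) (PT.nd (nat_lit 658) (PT.nd (nat_lit 282) (PT.nd (nat_lit 94) (PT.lf (nat_lit 9156) (nat_lit 6) (nat_lit 109) (nat_lit 5) (nat_lit 46) (nat_lit 66) (nat_lit 68)) (PT.nd (nat_lit 94) (PT.lf (nat_lit 9660) (nat_lit 6) (nat_lit 115) (nat_lit 5) (nat_lit 47) (nat_lit 66) (nat_lit 67)) (PT.lf (nat_lit 10164) (nat_lit 3) (nat_lit 121) (nat_lit 4) (nat_lit 48) (nat_lit 66) (nat_lit 66)))) (PT.nd (nat_lit 188) (PT.nd (nat_lit 94) (PT.lf (nat_lit 10668) (nat_lit 6) (nat_lit 127) (nat_lit 4) (nat_lit 49) (nat_lit 66) (nat_lit 65)) (PT.lf (nat_lit 11508) (nat_lit 6) (nat_lit 137) (nat_lit 4) (nat_lit 50) (nat_lit 66) (nat_lit 64))) (PT.nd (nat_lit 94) (PT.lf (nat_lit 12264) (nat_lit 6) (nat_lit 146) (nat_lit 4) (nat_lit 51) (nat_lit 66) (nat_lit 63)) (PT.lf (nat_lit 12936) (nat_lit 6) (nat_lit 154) (nat_lit 4) (nat_lit 52) (nat_lit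 66) (nat_lit 62))))) (PT.nd (nat_lit 282) (PT.nd (nat_lit 94) (PT.lf (nat_lit 13524) (nat_lit 6) (nat_lit 161) (nat_lit 4) (nat_lit 53) (nat_lit 66) (nat_lit 61)) (PT.nd (nat_lit 94) (PT.lf (nat_lit 14028) (nat_lit 6) (nat_lit 167) (nat_lit 4) (nat_lit 54) (nat_lit 66) (nat_lit 60)) (PT.lf (nat_lit 13944) (nat_lit 6) (nat_lit 166) (nat_lit 4) (nat_lit 55) (nat_lit 66) (nat_lit 59)))) (PT.nd (nat_lit 188) (PT.nd (nat_lit 94) (PT.lf (nat_lit 13860) (nat_lit 6) (nat_lit 165) (nat_lit 4) (nat_lit 56) (nat_lit 66) (nat_lit 58)) (PT.lf (nat_lit 13776) (nat_lit 3) (nat_lit 164) (nat_lit 2) (nat_lit 57) (nat_lit 66) (nat_lit 57))) (PT.nd (nat_lit 94) (PT.lf (nat_lit 13860) (nat_lit 6) (nat_lit 165) (nat_lit 2) (nat_lit 58) (nat_lit 66) (nat_lit 56)) (PT.lf (nat_lit 13944) (nat_lit 6) (nat_lit 166) (nat_lit 2) (nat_lit 59) (nat_lit 66) (nat_lit 55)))))) (PT.nd (nat_lit 658) (PT.nd (nat_lit 282) (PT.nd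 (nat_lit 94) (PT.lf (nat_lit 14028) (nat_lit 6) (nat_lit 167) (nat_lit 2) (nat_lit 60) (nat_lit 66) (nat_lit 54)) (PT.nd (nat_lit 94) (PT.lf (nat_lit 13524) (nat_lit 6) (nat_lit 161) (nat_lit 2) (nat_lit 61) (nat_lit 66) (nat_lit 53)) (PT.lf (nat_lit 12936) (nat_lit 6) (nat_lit 154) (nat_lit 2) (nat_lit 62) (nat_lit 66) (nat_lit 52)))) (PT.nd (nat_lit 188) (PT.nd (nat_lit 94) (PT.lf (nat_lit 12264) (nat_lit 6) (nat_lit 146) (nat_lit 2) (nat_lit 63) (nat_lit 66) (nat_lit 51)) (PT.lf (nat_lit 11508) (nat_lit 6) (nat_lit 137) (nat_lit 2) (nat_lit 64) (nat_lit 66) (nat_lit 50))) (PT.nd (nat_lit 94) (PT.lf (nat_lit 10668) (nat_lit 6) (nat_lit 127) (nat_lit 2) (nat_lit 65) (nat_lit 66) (nat_lit 49)) (PT.lf (nat_lit 10164) (nat_lit 3) (nat_lit 121) (nat_lit 0) (nat_lit 66) (nat_lit 66) (nat_lit 48))))) (PT.nd (nat_lit 282) (PT.nd (nat_lit 94) (PT.lf (nat_lit 9660) (nat_lit 6) (nat_lit 115) (nat_lit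 0) (nat_lit 67) (nat_lit 66) (nat_lit 47)) (PT.nd (nat_lit 94) (PT.lf (nat_lit 9156) (nat_lit 6) (nat_lit 109) (nat_lit 0) (nat_lit 68) (nat_lit 66) (nat_lit 46)) (PT.lf (nat_lit 8736) (nat_lit 6) (nat_lit 104) (nat_lit 0) (nat_lit 69) (nat_lit 66) (nat_lit 45)))) (PT.nd (nat_lit 188) (PT.nd (nat_lit 94) (PT.lf (nat_lit 8316) (nat_lit 6) (nat_lit 99) (nat_lit 0) (nat_lit 70) (nat_lit 66) (nat_lit 44)) (PT.lf (nat_lit 7896) (nat_lit 6) (nat_lit 94) (nat_lit 0) (nat_lit 71) (nat_lit 66) (nat_lit 43))) (PT.nd (nat_lit 94) (PT.lf (nat_lit 7476) (nat_lit 6) (nat_lit 89) (nat_lit 0) (nat_lit 72) (nat_lit 66) (nat_lit 42)) (PT.lf (nat_lit 7140) (nat_lit 6) (nat_lit 85) (nat_lit 0) (nat_lit 73) (nat_lit 66) (nat_lit 41))))))) (PT.nd (nat_lit 1316) (PT.nd (nat_lit 658) (PT.nd (nat_lit 282) (PT.nd (nat_lit 94) (PT.lf (nat_lit 6804) (nat_lit 6) (nat_lit 81) (nat_lit 5) (nat_lit 40) (nat_lit 67) (nat_lit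 73)) (PT.nd (nat_lit 94) (PT.lf (nat_lit 7224) (nat_lit 6) (nat_lit 86) (nat_lit 5) (nat_lit 41) (nat_lit 67) (nat_lit 72)) (PT.lf (nat_lit 7560) (nat_lit 6) (nat_lit 90) (nat_lit 5) (nat_lit 42) (nat_lit 67) (nat_lit 71)))) (PT.nd (nat_lit 188) (PT.nd (nat_lit 94) (PT.lf (nat_lit 7980) (nat_lit 6) (nat_lit 95) (nat_lit 5) (nat_lit 43) (nat_lit 67) (nat_lit 70)) (PT.lf (nat_lit 8400) (nat_lit 6) (nat_lit 100) (nat_lit 5) (nat_lit 44) (nat_lit 67) (nat_lit 69))) (PT.nd (nat_lit 94) (PT.lf (nat_lit 8820) (nat_lit 6) (nat_lit 105) (nat_lit 5) (nat_lit 45) (nat_lit 67) (nat_lit 68)) (PT.lf (nat_lit 9240) (nat_lit 3) (nat_lit 110) (nat_lit 4) (nat_lit 46) (nat_lit 67) (nat_lit 67))))) (PT.nd (nat_lit 282) (PT.nd (nat_lit 94) (PT.lf (nat_lit 9660) (nat_lit 6) (nat_lit 115) (nat_lit 4) (nat_lit 47) (nat_lit 67) (nat_lit 66)) (PT.nd (nat_lit 94) (PT.lf (nat_lit 10080) (nat_lit 6) (nat_lit 120) (nat_lit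 4) (nat_lit 48) (nat_lit 67) (nat_lit 65)) (PT.lf (nat_lit 10584) (nat_lit 6) (nat_lit 126) (nat_lit 4) (nat_lit 49) (nat_lit 67) (nat_lit 64)))) (PT.nd (nat_lit 188) (PT.nd (nat_lit 94) (PT.lf (nat_lit 11424) (nat_lit 6) (nat_lit 136) (nat_lit 4) (nat_lit 50) (nat_lit 67) (nat_lit 63)) (PT.lf (nat_lit 12180) (nat_lit 6) (nat_lit 145) (nat_lit 4) (nat_lit 51) (nat_lit 67) (nat_lit 62))) (PT.nd (nat_lit 94) (PT.lf (nat_lit 12852) (nat_lit 6) (nat_lit 153) (nat_lit 4) (nat_lit 52) (nat_lit 67) (nat_lit 61)) (PT.lf (nat_lit 13440) (nat_lit 6) (nat_lit 160) (nat_lit 4) (nat_lit 53) (nat_lit 67) (nat_lit 60)))))) (PT.nd (nat_lit 658) (PT.nd (nat_lit 282) (PT.nd (nat_lit 94) (PT.lf (nat_lit 13356) (nat_lit 6) (nat_lit 159) (nat_lit 4) (nat_lit 54) (nat_lit 67) (nat_lit 59)) (PT.nd (nat_lit 94) (PT.lf (nat_lit 13272) (nat_lit 6) (nat_lit 158) (nat_lit 4) (nat_lit 55) (nat_lit 67) (nat_lit 58)) (PT.lf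 (nat_lit 13188) (nat_lit 6) (nat_lit 157) (nat_lit 4) (nat_lit 56) (nat_lit 67) (nat_lit 57)))) (PT.nd (nat_lit 188) (PT.nd (nat_lit 94) (PT.lf (nat_lit 13188) (nat_lit 6) (nat_lit 157) (nat_lit 2) (nat_lit 57) (nat_lit 67) (nat_lit 56)) (PT.lf (nat_lit 13272) (nat_lit 6) (nat_lit 158) (nat_lit 2) (nat_lit 58) (nat_lit 67) (nat_lit 55))) (PT.nd (nat_lit 94) (PT.lf (nat_lit 13356) (nat_lit 6) (nat_lit 159) (nat_lit 2) (nat_lit 59) (nat_lit 67) (nat_lit 54)) (PT.lf (nat_lit 13440) (nat_lit 6) (nat_lit 160) (nat_lit 2) (nat_lit 60) (nat_lit 67) (nat_lit 53))))) (PT.nd (nat_lit 376) (PT.nd (nat_lit 188) (PT.nd (nat_lit 94) (PT.lf (nat_lit 12852) (nat_lit 6) (nat_lit 153) (nat_lit 2) (nat_lit 61) (nat_lit 67) (nat_lit 52)) (PT.lf (nat_lit 12180) (nat_lit 6) (nat_lit 145) (nat_lit 2) (nat_lit 62) (nat_lit 67) (nat_lit 51))) (PT.nd (nat_lit 94) (PT.lf (nat_lit 11424) (nat_lit 6) (nat_lit 136) (nat_lit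 2) (nat_lit 63) (nat_lit 67) (nat_lit 50)) (PT.lf (nat_lit 10584) (nat_lit 6) (nat_lit 126) (nat_lit 2) (nat_lit 64) (nat_lit 67) (nat_lit 49)))) (PT.nd (nat_lit 188) (PT.nd (nat_lit 94) (PT.lf (nat_lit 10080) (nat_lit 6) (nat_lit 120) (nat_lit 2) (nat_lit 65) (nat_lit 67) (nat_lit 48)) (PT.lf (nat_lit 9660) (nat_lit 6) (nat_lit 115) (nat_lit 2) (nat_lit 66) (nat_lit 67) (nat_lit 47))) (PT.nd (nat_lit 94) (PT.lf (nat_lit 9240) (nat_lit 3) (nat_lit 110) (nat_lit 0) (nat_lit 67) (nat_lit 67) (nat_lit 46)) (PT.lf (nat_lit 8820) (nat_lit 6) (nat_lit 105) (nat_lit 0) (nat_lit 68) (nat_lit 67) (nat_lit 45))))))))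
noncomputable def pc10 : PT := (PT.nd (nat_lit 44462) (PT.nd (nat_lit 43146) (PT.nd (nat_lit 42488) (PT.nd (nat_lit 282) (PT.nd (nat_lit 94) (PT.lf (nat_lit 8400) (nat_lit 6) (nat_lit 100) (nat_lit 0) (nat_lit 69) (nat_lit 67) (nat_lit 44)) (PT.nd (nat_lit 94) (PT.lf (nat_lit 7980) (nat_lit 6) (nat_lit 95) (nat_lit 0) (nat_lit 70) (nat_lit 67) (nat_lit 43)) (PT.lf (nat_lit 7560) (nat_lit 6) (nat_lit 90) (nat_lit 0) (nat_lit 71) (nat_lit 67) (nat_lit 42)))) (PT.nd (nat_lit 42018) (PT.nd (nat_lit 94) (PT.lf (nat_lit 7224) (nat_lit 6) (nat_lit 86) (nat_lit 0) (nat_lit 72) (nat_lit 67) (nat_lit 41)) (PT.lf (nat_lit 6804) (nat_lit 6) (nat_lit 81) (nat_lit 0) (nat_lit 73) (nat_lit 67) (nat_lit 40))) (PT.nd (nat_lit 94) (PT.lf (nat_lit 6216) (nat_lit 6) (nat_lit 74) (nat_lit 5) (nat_lit 38) (nat_lit 68) (nat_lit 74)) (PT.lf (nat_lit 6552) (nat_lit 6) (nat_lit 78) (nat_lit 5) (nat_lit 39) (nat_lit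 68) (nat_lit 73))))) (PT.nd (nat_lit 282) (PT.nd (nat_lit 94) (PT.lf (nat_lit 6888) (nat_lit 6) (nat_lit 82) (nat_lit 5) (nat_lit 40) (nat_lit 68) (nat_lit 72)) (PT.nd (nat_lit 94) (PT.lf (nat_lit 7308) (nat_lit 6) (nat_lit 87) (nat_lit 5) (nat_lit 41) (nat_lit 68) (nat_lit 71)) (PT.lf (nat_lit 7644) (nat_lit 6) (nat_lit 91) (nat_lit 5) (nat_lit 42) (nat_lit 68) (nat_lit 70)))) (PT.nd (nat_lit 188) (PT.nd (nat_lit 94) (PT.lf (nat_lit 8064) (nat_lit 6) (nat_lit 96) (nat_lit 5) (nat_lit 43) (nat_lit 68) (nat_lit 69)) (PT.lf (nat_lit 8484) (nat_lit 3) (nat_lit 101) (nat_lit 4) (nat_lit 44) (nat_lit 68) (nat_lit 68))) (PT.nd (nat_lit 94) (PT.lf (nat_lit 8820) (nat_lit 6) (nat_lit 105) (nat_lit 4) (nat_lit 45) (nat_lit 68) (nat_lit 67)) (PT.lf (nat_lit 9156) (nat_lit 6) (nat_lit 109) (nat_lit 4) (nat_lit 46) (nat_lit 68) (nat_lit 66)))))) (PT.nd (nat_lit 658) (PT.nd (nat_lit 282) (PT.nd (nat_lit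 94) (PT.lf (nat_lit 9576) (nat_lit 6) (nat_lit 114) (nat_lit 4) (nat_lit 47) (nat_lit 68) (nat_lit 65)) (PT.nd (nat_lit 94) (PT.lf (nat_lit 9996) (nat_lit 6) (nat_lit 119) (nat_lit 4) (nat_lit 48) (nat_lit 68) (nat_lit 64)) (PT.lf (nat_lit 10500) (nat_lit 6) (nat_lit 125) (nat_lit 4) (nat_lit 49) (nat_lit 68) (nat_lit 63)))) (PT.nd (nat_lit 188) (PT.nd (nat_lit 94) (PT.lf (nat_lit 11340) (nat_lit 6) (nat_lit 135) (nat_lit 4) (nat_lit 50) (nat_lit 68) (nat_lit 62)) (PT.lf (nat_lit 12096) (nat_lit 6) (nat_lit 144) (nat_lit 4) (nat_lit 51) (nat_lit 68) (nat_lit 61))) (PT.nd (nat_lit 94) (PT.lf (nat_lit 12768) (nat_lit 6) (nat_lit 152) (nat_lit 4) (nat_lit 52) (nat_lit 68) (nat_lit 60)) (PT.lf (nat_lit 12684) (nat_lit 6) (nat_lit 151) (nat_lit 4) (nat_lit 53) (nat_lit 68) (nat_lit 59))))) (PT.nd (nat_lit 282) (PT.nd (nat_lit 94) (PT.lf (nat_lit 12600) (nat_lit 6) (nat_lit 150) (nat_lit 4) (nat_lit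 54) (nat_lit 68) (nat_lit 58)) (PT.nd (nat_lit 94) (PT.lf (nat_lit 12516) (nat_lit 6) (nat_lit 149) (nat_lit 4) (nat_lit 55) (nat_lit 68) (nat_lit 57)) (PT.lf (nat_lit 12432) (nat_lit 3) (nat_lit 148) (nat_lit 2) (nat_lit 56) (nat_lit 68) (nat_lit 56)))) (PT.nd (nat_lit 188) (PT.nd (nat_lit 94) (PT.lf (nat_lit 12516) (nat_lit 6) (nat_lit 149) (nat_lit 2) (nat_lit 57) (nat_lit 68) (nat_lit 55)) (PT.lf (nat_lit 12600) (nat_lit 6) (nat_lit 150) (nat_lit 2) (nat_lit 58) (nat_lit 68) (nat_lit 54))) (PT.nd (nat_lit 94) (PT.lf (nat_lit 12684) (nat_lit 6) (nat_lit 151) (nat_lit 2) (nat_lit 59) (nat_lit 68) (nat_lit 53)) (PT.lf (nat_lit 12768) (nat_lit 6) (nat_lit 152) (nat_lit 2) (nat_lit 60) (nat_lit 68) (nat_lit 52))))))) (PT.nd (nat_lit 42958) (PT.nd (nat_lit 658) (PT.nd (nat_lit 282) (PT.nd (nat_lit 94) (PT.lf (nat_lit 12096) (nat_lit 6) (nat_lit 144) (nat_lit 2) (nat_lit 61) (nat_lit 68) (nat_lit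 51)) (PT.nd (nat_lit 94) (PT.lf (nat_lit 11340) (nat_lit 6) (nat_lit 135) (nat_lit 2) (nat_lit 62) (nat_lit 68) (nat_lit 50)) (PT.lf (nat_lit 10500) (nat_lit 6) (nat_lit 125) (nat_lit 2) (nat_lit 63) (nat_lit 68) (nat_lit 49)))) (PT.nd (nat_lit 188) (PT.nd (nat_lit 94) (PT.lf (nat_lit 9996) (nat_lit 6) (nat_lit 119) (nat_lit 2) (nat_lit 64) (nat_lit 68) (nat_lit 48)) (PT.lf (nat_lit 9576) (nat_lit 6) (nat_lit 114) (nat_lit 2) (nat_lit 65) (nat_lit 68) (nat_lit 47))) (PT.nd (nat_lit 94) (PT.lf (nat_lit 9156) (nat_lit 6) (nat_lit 109) (nat_lit 2) (nat_lit 66) (nat_lit 68) (nat_lit 46)) (PT.lf (nat_lit 8820) (nat_lit 6) (nat_lit 105) (nat_lit 2) (nat_lit 67) (nat_lit 68) (nat_lit 45))))) (PT.nd (nat_lit 282) (PT.nd (nat_lit 94) (PT.lf (nat_lit 8484) (nat_lit 3) (nat_lit 101) (nat_lit 0) (nat_lit 68) (nat_lit 68) (nat_lit 44)) (PT.nd (nat_lit 94) (PT.lf (nat_lit 8064) (nat_lit 6) (nat_lit 96)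 (nat_lit 0) (nat_lit 69) (nat_lit 68) (nat_lit 43)) (PT.lf (nat_lit 7644) (nat_lit 6) (nat_lit 91) (nat_lit 0) (nat_lit 70) (nat_lit 68) (nat_lit 42)))) (PT.nd (nat_lit 188) (PT.nd (nat_lit 94) (PT.lf (nat_lit 7308) (nat_lit 6) (nat_lit 87) (nat_lit 0) (nat_lit 71) (nat_lit 68) (nat_lit 41)) (PT.lf (nat_lit 6888) (nat_lit 6) (nat_lit 82) (nat_lit 0) (nat_lit 72) (nat_lit 68) (nat_lit 40))) (PT.nd (nat_lit 94) (PT.lf (nat_lit 6552) (nat_lit 6) (nat_lit 78) (nat_lit 0) (nat_lit 73) (nat_lit 68) (nat_lit 39)) (PT.lf (nat_lit 6216) (nat_lit 6) (nat_lit 74) (nat_lit 0) (nat_lit 74) (nat_lit 68) (nat_lit 38)))))) (PT.nd (nat_lit 658) (PT.nd (nat_lit 282) (PT.nd (nat_lit 94) (PT.lf (nat_lit 5964) (nat_lit 6) (nat_lit 71) (nat_lit 5) (nat_lit 37) (nat_lit 69) (nat_lit 74)) (PT.nd (nat_lit 94) (PT.lf (nat_lit 6300) (nat_lit 6) (nat_lit 75) (nat_lit 5) (nat_lit 38) (nat_lit 69) (nat_lit 73)) (PT.lf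 (nat_lit 6636) (nat_lit 6) (nat_lit 79) (nat_lit 5) (nat_lit 39) (nat_lit 69) (nat_lit 72)))) (PT.nd (nat_lit 188) (PT.nd (nat_lit 94) (PT.lf (nat_lit 6972) (nat_lit 6) (nat_lit 83) (nat_lit 5) (nat_lit 40) (nat_lit 69) (nat_lit 71)) (PT.lf (nat_lit 7392) (nat_lit 6) (nat_lit 88) (nat_lit 5) (nat_lit 41) (nat_lit 69) (nat_lit 70))) (PT.nd (nat_lit 94) (PT.lf (nat_lit 7728) (nat_lit 3) (nat_lit 92) (nat_lit 4) (nat_lit 42) (nat_lit 69) (nat_lit 69)) (PT.lf (nat_lit 8064) (nat_lit 6) (nat_lit 96) (nat_lit 4) (nat_lit 43) (nat_lit 69) (nat_lit 68))))) (PT.nd (nat_lit 282) (PT.nd (nat_lit 94) (PT.lf (nat_lit 8400) (nat_lit 6) (nat_lit 100) (nat_lit 4) (nat_lit 44) (nat_lit 69) (nat_lit 67)) (PT.nd (nat_lit 94) (PT.lf (nat_lit 8736) (nat_lit 6) (nat_lit 104) (nat_lit 4) (nat_lit 45) (nat_lit 69) (nat_lit 66)) (PT.lf (nat_lit 9072) (nat_lit 6) (nat_lit 108) (nat_lit 4) (nat_lit 46) (nat_lit 69)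 (nat_lit 65)))) (PT.nd (nat_lit 188) (PT.nd (nat_lit 94) (PT.lf (nat_lit 9492) (nat_lit 6) (nat_lit 113) (nat_lit 4) (nat_lit 47) (nat_lit 69) (nat_lit 64)) (PT.lf (nat_lit 9912) (nat_lit 6) (nat_lit 118) (nat_lit 4) (nat_lit 48) (nat_lit 69) (nat_lit 63))) (PT.nd (nat_lit 94) (PT.lf (nat_lit 10416) (nat_lit 6) (nat_lit 124) (nat_lit 4) (nat_lit 49) (nat_lit 69) (nat_lit 62)) (PT.lf (nat_lit 11256) (nat_lit 6) (nat_lit 134) (nat_lit 4) (nat_lit 50) (nat_lit 69) (nat_lit 61))))))))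
noncomputable def pc11 : PT := (PT.nd (nat_lit 44086) (PT.nd (nat_lit 1316) (PT.nd (nat_lit 658) (PT.nd (nat_lit 282) (PT.nd (nat_lit 94) (PT.lf (nat_lit 12012) (nat_lit 6) (nat_lit 143) (nat_lit 4) (nat_lit 51) (nat_lit 69) (nat_lit 60)) (PT.nd (nat_lit 94) (PT.lf (nat_lit 11928) (nat_lit 6) (nat_lit 142) (nat_lit 4) (nat_lit 52) (nat_lit 69) (nat_lit 59)) (PT.lf (nat_lit 11844) (nat_lit 6) (nat_lit 141) (nat_lit 4) (nat_lit 53) (nat_lit 69) (nat_lit 58)))) (PT.nd (nat_lit 188) (PT.nd (nat_lit 94) (PT.lf (nat_lit 11760) (nat_lit 6) (nat_lit 140) (nat_lit 4) (nat_lit 54) (nat_lit 69) (nat_lit 57)) (PT.lf (nat_lit 11676) (nat_lit 6) (nat_lit 139) (nat_lit 4) (nat_lit 55) (nat_lit 69) (nat_lit 56))) (PT.nd (nat_lit 94) (PT.lf (nat_lit 11676) (nat_lit 6) (nat_lit 139) (nat_lit 2) (nat_lit 56) (nat_lit 69) (nat_lit 55)) (PT.lf (nat_lit 11760) (nat_lit 6) (nat_lit 140) (nat_lit 2) (nat_lit 57)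 (nat_lit 69) (nat_lit 54))))) (PT.nd (nat_lit 282) (PT.nd (nat_lit 94) (PT.lf (nat_lit 11844) (nat_lit 6) (nat_lit 141) (nat_lit 2) (nat_lit 58) (nat_lit 69) (nat_lit 53)) (PT.nd (nat_lit 94) (PT.lf (nat_lit 11928) (nat_lit 6) (nat_lit 142) (nat_lit 2) (nat_lit 59) (nat_lit 69) (nat_lit 52)) (PT.lf (nat_lit 12012) (nat_lit 6) (nat_lit 143) (nat_lit 2) (nat_lit 60) (nat_lit 69) (nat_lit 51)))) (PT.nd (nat_lit 188) (PT.nd (nat_lit 94) (PT.lf (nat_lit 11256) (nat_lit 6) (nat_lit 134) (nat_lit 2) (nat_lit 61) (nat_lit 69) (nat_lit 50)) (PT.lf (nat_lit 10416) (nat_lit 6) (nat_lit 124) (nat_lit 2) (nat_lit 62) (nat_lit 69) (nat_lit 49))) (PT.nd (nat_lit 94) (PT.lf (nat_lit 9912) (nat_lit 6) (nat_lit 118) (nat_lit 2) (nat_lit 63) (nat_lit 69) (nat_lit 48)) (PT.lf (nat_lit 9492) (nat_lit 6) (nat_lit 113) (nat_lit 2) (nat_lit 64) (nat_lit 69) (nat_lit 47)))))) (PT.nd (nat_lit 658) (PT.nd (nat_lit 282)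 (PT.nd (nat_lit 94) (PT.lf (nat_lit 9072) (nat_lit 6) (nat_lit 108) (nat_lit 2) (nat_lit 65) (nat_lit 69) (nat_lit 46)) (PT.nd (nat_lit 94) (PT.lf (nat_lit 8736) (nat_lit 6) (nat_lit 104) (nat_lit 2) (nat_lit 66) (nat_lit 69) (nat_lit 45)) (PT.lf (nat_lit 8400) (nat_lit 6) (nat_lit 100) (nat_lit 2) (nat_lit 67) (nat_lit 69) (nat_lit 44)))) (PT.nd (nat_lit 188) (PT.nd (nat_lit 94) (PT.lf (nat_lit 8064) (nat_lit 6) (nat_lit 96) (nat_lit 2) (nat_lit 68) (nat_lit 69) (nat_lit 43)) (PT.lf (nat_lit 7728) (nat_lit 3) (nat_lit 92) (nat_lit 0) (nat_lit 69) (nat_lit 69) (nat_lit 42))) (PT.nd (nat_lit 94) (PT.lf (nat_lit 7392) (nat_lit 6) (nat_lit 88) (nat_lit 0) (nat_lit 70) (nat_lit 69) (nat_lit 41)) (PT.lf (nat_lit 6972) (nat_lit 6) (nat_lit 83) (nat_lit 0) (nat_lit 71) (nat_lit 69) (nat_lit 40))))) (PT.nd (nat_lit 41736) (PT.nd (nat_lit 94) (PT.lf (nat_lit 6636) (nat_lit 6) (nat_lit 79) (nat_lit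 0) (nat_lit 72) (nat_lit 69) (nat_lit 39)) (PT.nd (nat_lit 94) (PT.lf (nat_lit 6300) (nat_lit 6) (nat_lit 75) (nat_lit 0) (nat_lit 73) (nat_lit 69) (nat_lit 38)) (PT.lf (nat_lit 5964) (nat_lit 6) (nat_lit 71) (nat_lit 0) (nat_lit 74) (nat_lit 69) (nat_lit 37)))) (PT.nd (nat_lit 188) (PT.nd (nat_lit 94) (PT.lf (nat_lit 5460) (nat_lit 6) (nat_lit 65) (nat_lit 5) (nat_lit 35) (nat_lit 70) (nat_lit 75)) (PT.lf (nat_lit 5712) (nat_lit 6) (nat_lit 68) (nat_lit 5) (nat_lit 36) (nat_lit 70) (nat_lit 74))) (PT.nd (nat_lit 94) (PT.lf (nat_lit 6048) (nat_lit 6) (nat_lit 72) (nat_lit 5) (nat_lit 37) (nat_lit 70) (nat_lit 73)) (PT.lf (nat_lit 6384) (nat_lit 6) (nat_lit 76) (nat_lit 5) (nat_lit 38) (nat_lit 70) (nat_lit 72))))))) (PT.nd (nat_lit 1316) (PT.nd (nat_lit 658) (PT.nd (nat_lit 282) (PT.nd (nat_lit 94) (PT.lf (nat_lit 6720) (nat_lit 6) (nat_lit 80) (nat_lit 5) (nat_lit 39) (nat_lit 70) (nat_lit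 71)) (PT.nd (nat_lit 94) (PT.lf (nat_lit 7056) (nat_lit 3) (nat_lit 84) (nat_lit 4) (nat_lit 40) (nat_lit 70) (nat_lit 70)) (PT.lf (nat_lit 7392) (nat_lit 6) (nat_lit 88) (nat_lit 4) (nat_lit 41) (nat_lit 70) (nat_lit 69)))) (PT.nd (nat_lit 188) (PT.nd (nat_lit 94) (PT.lf (nat_lit 7644) (nat_lit 6) (nat_lit 91) (nat_lit 4) (nat_lit 42) (nat_lit 70) (nat_lit 68)) (PT.lf (nat_lit 7980) (nat_lit 6) (nat_lit 95) (nat_lit 4) (nat_lit 43) (nat_lit 70) (nat_lit 67))) (PT.nd (nat_lit 94) (PT.lf (nat_lit 8316) (nat_lit 6) (nat_lit 99) (nat_lit 4) (nat_lit 44) (nat_lit 70) (nat_lit 66)) (PT.lf (nat_lit 8652) (nat_lit 6) (nat_lit 103) (nat_lit 4) (nat_lit 45) (nat_lit 70) (nat_lit 65))))) (PT.nd (nat_lit 282) (PT.nd (nat_lit 94) (PT.lf (nat_lit 8988) (nat_lit 6) (nat_lit 107) (nat_lit 4) (nat_lit 46) (nat_lit 70) (nat_lit 64)) (PT.nd (nat_lit 94) (PT.lf (nat_lit 9408) (nat_lit 6) (nat_lit 112) (nat_lit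 4) (nat_lit 47) (nat_lit 70) (nat_lit 63)) (PT.lf (nat_lit 9828) (nat_lit 6) (nat_lit 117) (nat_lit 4) (nat_lit 48) (nat_lit 70) (nat_lit 62)))) (PT.nd (nat_lit 188) (PT.nd (nat_lit 94) (PT.lf (nat_lit 10332) (nat_lit 6) (nat_lit 123) (nat_lit 4) (nat_lit 49) (nat_lit 70) (nat_lit 61)) (PT.lf (nat_lit 11172) (nat_lit 6) (nat_lit 133) (nat_lit 4) (nat_lit 50) (nat_lit 70) (nat_lit 60))) (PT.nd (nat_lit 94) (PT.lf (nat_lit 11088) (nat_lit 6) (nat_lit 132) (nat_lit 4) (nat_lit 51) (nat_lit 70) (nat_lit 59)) (PT.lf (nat_lit 11004) (nat_lit 6) (nat_lit 131) (nat_lit 4) (nat_lit 52) (nat_lit 70) (nat_lit 58)))))) (PT.nd (nat_lit 658) (PT.nd (nat_lit 282) (PT.nd (nat_lit 94) (PT.lf (nat_lit 10920) (nat_lit 6) (nat_lit 130) (nat_lit 4) (nat_lit 53) (nat_lit 70) (nat_lit 57)) (PT.nd (nat_lit 94) (PT.lf (nat_lit 10836) (nat_lit 6) (nat_lit 129) (nat_lit 4) (nat_lit 54) (nat_lit 70) (nat_lit 56)) (PT.lf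 (nat_lit 10752) (nat_lit 3) (nat_lit 128) (nat_lit 2) (nat_lit 55) (nat_lit 70) (nat_lit 55)))) (PT.nd (nat_lit 188) (PT.nd (nat_lit 94) (PT.lf (nat_lit 10836) (nat_lit 6) (nat_lit 129) (nat_lit 2) (nat_lit 56) (nat_lit 70) (nat_lit 54)) (PT.lf (nat_lit 10920) (nat_lit 6) (nat_lit 130) (nat_lit 2) (nat_lit 57) (nat_lit 70) (nat_lit 53))) (PT.nd (nat_lit 94) (PT.lf (nat_lit 11004) (nat_lit 6) (nat_lit 131) (nat_lit 2) (nat_lit 58) (nat_lit 70) (nat_lit 52)) (PT.lf (nat_lit 11088) (nat_lit 6) (nat_lit 132) (nat_lit 2) (nat_lit 59) (nat_lit 70) (nat_lit 51))))) (PT.nd (nat_lit 376) (PT.nd (nat_lit 188) (PT.nd (nat_lit 94) (PT.lf (nat_lit 11172) (nat_lit 6) (nat_lit 133) (nat_lit 2) (nat_lit 60) (nat_lit 70) (nat_lit 50)) (PT.lf (nat_lit 10332) (nat_lit 6) (nat_lit 123) (nat_lit 2) (nat_lit 61) (nat_lit 70) (nat_lit 49))) (PT.nd (nat_lit 94) (PT.lf (nat_lit 9828) (nat_lit 6) (nat_lit 117) (nat_lit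 2) (nat_lit 62) (nat_lit 70) (nat_lit 48)) (PT.lf (nat_lit 9408) (nat_lit 6) (nat_lit 112) (nat_lit 2) (nat_lit 63) (nat_lit 70) (nat_lit 47)))) (PT.nd (nat_lit 188) (PT.nd (nat_lit 94) (PT.lf (nat_lit 8988) (nat_lit 6) (nat_lit 107) (nat_lit 2) (nat_lit 64) (nat_lit 70) (nat_lit 46)) (PT.lf (nat_lit 8652) (nat_lit 6) (nat_lit 103) (nat_lit 2) (nat_lit 65) (nat_lit 70) (nat_lit 45))) (PT.nd (nat_lit 94) (PT.lf (nat_lit 8316) (nat_lit 6) (nat_lit 99) (nat_lit 2) (nat_lit 66) (nat_lit 70) (nat_lit 44)) (PT.lf (nat_lit 7980) (nat_lit 6) (nat_lit 95) (nat_lit 2) (nat_lit 67) (nat_lit 70) (nat_lit 43))))))))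
noncomputable def pc12 : PT := (PT.nd (nat_lit 44838) (PT.nd (nat_lit 42582) (PT.nd (nat_lit 658) (PT.nd (nat_lit 282) (PT.nd (nat_lit 94) (PT.lf (nat_lit 7644) (nat_lit 6) (nat_lit 91) (nat_lit 2) (nat_lit 68) (nat_lit 70) (nat_lit 42)) (PT.nd (nat_lit 94) (PT.lf (nat_lit 7392) (nat_lit 6) (nat_lit 88) (nat_lit 2) (nat_lit 69) (nat_lit 70) (nat_lit 41)) (PT.lf (nat_lit 7056) (nat_lit 3) (nat_lit 84) (nat_lit 0) (nat_lit 70) (nat_lit 70) (nat_lit 40)))) (PT.nd (nat_lit 188) (PT.nd (nat_lit 94) (PT.lf (nat_lit 6720) (nat_lit 6) (nat_lit 80) (nat_lit 0) (nat_lit 71) (nat_lit 70) (nat_lit 39)) (PT.lf (nat_lit 6384) (nat_lit 6) (nat_lit 76) (nat_lit 0) (nat_lit 72) (nat_lit 70) (nat_lit 38))) (PT.nd (nat_lit 94) (PT.lf (nat_lit 6048) (nat_lit 6) (nat_lit 72) (nat_lit 0) (nat_lit 73) (nat_lit 70) (nat_lit 37)) (PT.lf (nat_lit 5712) (nat_lit 6) (nat_lit 68) (nat_lit 0) (nat_lit 74) (nat_lit 70)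 (nat_lit 36))))) (PT.nd (nat_lit 41548) (PT.nd (nat_lit 41360) (PT.lf (nat_lit 5460) (nat_lit 6) (nat_lit 65) (nat_lit 0) (nat_lit 75) (nat_lit 70) (nat_lit 35)) (PT.nd (nat_lit 94) (PT.lf (nat_lit 5208) (nat_lit 6) (nat_lit 62) (nat_lit 5) (nat_lit 34) (nat_lit 71) (nat_lit 75)) (PT.lf (nat_lit 5544) (nat_lit 6) (nat_lit 66) (nat_lit 5) (nat_lit 35) (nat_lit 71) (nat_lit 74)))) (PT.nd (nat_lit 188) (PT.nd (nat_lit 94) (PT.lf (nat_lit 5796) (nat_lit 6) (nat_lit 69) (nat_lit 5) (nat_lit 36) (nat_lit 71) (nat_lit 73)) (PT.lf (nat_lit 6132) (nat_lit 6) (nat_lit 73) (nat_lit 5) (nat_lit 37) (nat_lit 71) (nat_lit 72))) (PT.nd (nat_lit 94) (PT.lf (nat_lit 6468) (nat_lit 3) (nat_lit 77) (nat_lit 4) (nat_lit 38) (nat_lit 71) (nat_lit 71)) (PT.lf (nat_lit 6720) (nat_lit 6) (nat_lit 80) (nat_lit 4) (nat_lit 39) (nat_lit 71) (nat_lit 70)))))) (PT.nd (nat_lit 658) (PT.nd (nat_lit 282) (PT.nd (nat_lit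 94) (PT.lf (nat_lit 6972) (nat_lit 6) (nat_lit 83) (nat_lit 4) (nat_lit 40) (nat_lit 71) (nat_lit 69)) (PT.nd (nat_lit 94) (PT.lf (nat_lit 7308) (nat_lit 6) (nat_lit 87) (nat_lit 4) (nat_lit 41) (nat_lit 71) (nat_lit 68)) (PT.lf (nat_lit 7560) (nat_lit 6) (nat_lit 90) (nat_lit 4) (nat_lit 42) (nat_lit 71) (nat_lit 67)))) (PT.nd (nat_lit 188) (PT.nd (nat_lit 94) (PT.lf (nat_lit 7896) (nat_lit 6) (nat_lit 94) (nat_lit 4) (nat_lit 43) (nat_lit 71) (nat_lit 66)) (PT.lf (nat_lit 8232) (nat_lit 6) (nat_lit 98) (nat_lit 4) (nat_lit 44) (nat_lit 71) (nat_lit 65))) (PT.nd (nat_lit 94) (PT.lf (nat_lit 8568) (nat_lit 6) (nat_lit 102) (nat_lit 4) (nat_lit 45) (nat_lit 71) (nat_lit 64)) (PT.lf (nat_lit 8904) (nat_lit 6) (nat_lit 106) (nat_lit 4) (nat_lit 46) (nat_lit 71) (nat_lit 63))))) (PT.nd (nat_lit 1222) (PT.nd (nat_lit 94) (PT.lf (nat_lit 9324) (nat_lit 6) (nat_lit 111) (nat_lit 4) (nat_lit 47) (nat_lit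 71) (nat_lit 62)) (PT.nd (nat_lit 94) (PT.lf (nat_lit 9744) (nat_lit 6) (nat_lit 116) (nat_lit 4) (nat_lit 48) (nat_lit 71) (nat_lit 61)) (PT.lf (nat_lit 10248) (nat_lit 6) (nat_lit 122) (nat_lit 4) (nat_lit 49) (nat_lit 71) (nat_lit 60)))) (PT.nd (nat_lit 188) (PT.nd (nat_lit 94) (PT.lf (nat_lit 10248) (nat_lit 6) (nat_lit 122) (nat_lit 2) (nat_lit 60) (nat_lit 71) (nat_lit 49)) (PT.lf (nat_lit 9744) (nat_lit 6) (nat_lit 116) (nat_lit 2) (nat_lit 61) (nat_lit 71) (nat_lit 48))) (PT.nd (nat_lit 94) (PT.lf (nat_lit 9324) (nat_lit 6) (nat_lit 111) (nat_lit 2) (nat_lit 62) (nat_lit 71) (nat_lit 47)) (PT.lf (nat_lit 8904) (nat_lit 6) (nat_lit 106) (nat_lit 2) (nat_lit 63) (nat_lit 71) (nat_lit 46))))))) (PT.nd (nat_lit 42394) (PT.nd (nat_lit 658) (PT.nd (nat_lit 282) (PT.nd (nat_lit 94) (PT.lf (nat_lit 8568) (nat_lit 6) (nat_lit 102) (nat_lit 2) (nat_lit 64) (nat_lit 71) (nat_lit 45)) (PT.nd (nat_lit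 94) (PT.lf (nat_lit 8232) (nat_lit 6) (nat_lit 98) (nat_lit 2) (nat_lit 65) (nat_lit 71) (nat_lit 44)) (PT.lf (nat_lit 7896) (nat_lit 6) (nat_lit 94) (nat_lit 2) (nat_lit 66) (nat_lit 71) (nat_lit 43)))) (PT.nd (nat_lit 188) (PT.nd (nat_lit 94) (PT.lf (nat_lit 7560) (nat_lit 6) (nat_lit 90) (nat_lit 2) (nat_lit 67) (nat_lit 71) (nat_lit 42)) (PT.lf (nat_lit 7308) (nat_lit 6) (nat_lit 87) (nat_lit 2) (nat_lit 68) (nat_lit 71) (nat_lit 41))) (PT.nd (nat_lit 94) (PT.lf (nat_lit 6972) (nat_lit 6) (nat_lit 83) (nat_lit 2) (nat_lit 69) (nat_lit 71) (nat_lit 40)) (PT.lf (nat_lit 6720) (nat_lit 6) (nat_lit 80) (nat_lit 2) (nat_lit 70) (nat_lit 71) (nat_lit 39))))) (PT.nd (nat_lit 282) (PT.nd (nat_lit 94) (PT.lf (nat_lit 6468) (nat_lit 3) (nat_lit 77) (nat_lit 0) (nat_lit 71) (nat_lit 71) (nat_lit 38)) (PT.nd (nat_lit 94) (PT.lf (nat_lit 6132) (nat_lit 6) (nat_lit 73) (nat_lit 0) (nat_lit 72) (nat_lit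 71) (nat_lit 37)) (PT.lf (nat_lit 5796) (nat_lit 6) (nat_lit 69) (nat_lit 0) (nat_lit 73) (nat_lit 71) (nat_lit 36)))) (PT.nd (nat_lit 41266) (PT.nd (nat_lit 94) (PT.lf (nat_lit 5544) (nat_lit 6) (nat_lit 66) (nat_lit 0) (nat_lit 74) (nat_lit 71) (nat_lit 35)) (PT.lf (nat_lit 5208) (nat_lit 6) (nat_lit 62) (nat_lit 0) (nat_lit 75) (nat_lit 71) (nat_lit 34))) (PT.nd (nat_lit 94) (PT.lf (nat_lit 4788) (nat_lit 6) (nat_lit 57) (nat_lit 5) (nat_lit 32) (nat_lit 72) (nat_lit 76)) (PT.lf (nat_lit 5040) (nat_lit 6) (nat_lit 60) (nat_lit 5) (nat_lit 33) (nat_lit 72) (nat_lit 75)))))) (PT.nd (nat_lit 658) (PT.nd (nat_lit 282) (PT.nd (nat_lit 94) (PT.lf (nat_lit 5292) (nat_lit 6) (nat_lit 63) (nat_lit 5) (nat_lit 34) (nat_lit 72) (nat_lit 74)) (PT.nd (nat_lit 94) (PT.lf (nat_lit 5628) (nat_lit 6) (nat_lit 67) (nat_lit 5) (nat_lit 35) (nat_lit 72) (nat_lit 73)) (PT.lf (nat_lit 5880) (nat_lit 3) (nat_lit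 70) (nat_lit 4) (nat_lit 36) (nat_lit 72) (nat_lit 72)))) (PT.nd (nat_lit 188) (PT.nd (nat_lit 94) (PT.lf (nat_lit 6132) (nat_lit 6) (nat_lit 73) (nat_lit 4) (nat_lit 37) (nat_lit 72) (nat_lit 71)) (PT.lf (nat_lit 6384) (nat_lit 6) (nat_lit 76) (nat_lit 4) (nat_lit 38) (nat_lit 72) (nat_lit 70))) (PT.nd (nat_lit 94) (PT.lf (nat_lit 6636) (nat_lit 6) (nat_lit 79) (nat_lit 4) (nat_lit 39) (nat_lit 72) (nat_lit 69)) (PT.lf (nat_lit 6888) (nat_lit 6) (nat_lit 82) (nat_lit 4) (nat_lit 40) (nat_lit 72) (nat_lit 68))))) (PT.nd (nat_lit 282) (PT.nd (nat_lit 94) (PT.lf (nat_lit 7224) (nat_lit 6) (nat_lit 86) (nat_lit 4) (nat_lit 41) (nat_lit 72) (nat_lit 67)) (PT.nd (nat_lit 94) (PT.lf (nat_lit 7476) (nat_lit 6) (nat_lit 89) (nat_lit 4) (nat_lit 42) (nat_lit 72) (nat_lit 66)) (PT.lf (nat_lit 7812) (nat_lit 6) (nat_lit 93) (nat_lit 4) (nat_lit 43) (nat_lit 72) (nat_lit 65)))) (PT.nd (nat_lit 1974) (PT.nd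 (nat_lit 1880) (PT.lf (nat_lit 8148) (nat_lit 6) (nat_lit 97) (nat_lit 4) (nat_lit 44) (nat_lit 72) (nat_lit 64)) (PT.lf (nat_lit 8148) (nat_lit 6) (nat_lit 97) (nat_lit 2) (nat_lit 64) (nat_lit 72) (nat_lit 44))) (PT.nd (nat_lit 94) (PT.lf (nat_lit 7812) (nat_lit 6) (nat_lit 93) (nat_lit 2) (nat_lit 65) (nat_lit 72) (nat_lit 43)) (PT.lf (nat_lit 7476) (nat_lit 6) (nat_lit 89) (nat_lit 2) (nat_lit 66) (nat_lit 72) (nat_lit 42))))))))
noncomputable def pc13 : PT := (PT.nd (nat_lit 45684) (PT.nd (nat_lit 42112) (PT.nd (nat_lit 658) (PT.nd (nat_lit 282) (PT.nd (nat_lit 94) (PT.lf (nat_lit 7224) (nat_lit 6) (nat_lit 86) (nat_lit 2) (nat_lit 67) (nat_lit 72) (nat_lit 41)) (PT.nd (nat_lit 94) (PT.lf (nat_lit 6888) (nat_lit 6) (nat_lit 82) (nat_lit 2) (nat_lit 68) (nat_lit 72) (nat_lit 40)) (PT.lf (nat_lit 6636) (nat_lit 6) (nat_lit 79) (nat_lit 2) (nat_lit 69) (nat_lit 72) (nat_lit 39)))) (PT.nd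 (nat_lit 188) (PT.nd (nat_lit 94) (PT.lf (nat_lit 6384) (nat_lit 6) (nat_lit 76) (nat_lit 2) (nat_lit 70) (nat_lit 72) (nat_lit 38)) (PT.lf (nat_lit 6132) (nat_lit 6) (nat_lit 73) (nat_lit 2) (nat_lit 71) (nat_lit 72) (nat_lit 37))) (PT.nd (nat_lit 94) (PT.lf (nat_lit 5880) (nat_lit 3) (nat_lit 70) (nat_lit 0) (nat_lit 72) (nat_lit 72) (nat_lit 36)) (PT.lf (nat_lit 5628) (nat_lit 6) (nat_lit 67) (nat_lit 0) (nat_lit 73) (nat_lit 72) (nat_lit 35))))) (PT.nd (nat_lit 41078) (PT.nd (nat_lit 94) (PT.lf (nat_lit 5292) (nat_lit 6) (nat_lit 63) (nat_lit 0) (nat_lit 74) (nat_lit 72) (nat_lit 34)) (PT.nd (nat_lit 94) (PT.lf (nat_lit 5040) (nat_lit 6) (nat_lit 60) (nat_lit 0) (nat_lit 75) (nat_lit 72) (nat_lit 33)) (PT.lf (nat_lit 4788) (nat_lit 6) (nat_lit 57) (nat_lit 0) (nat_lit 76) (nat_lit 72) (nat_lit 32)))) (PT.nd (nat_lit 188) (PT.nd (nat_lit 94) (PT.lf (nat_lit 4368) (nat_lit 6) (nat_lit 52)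 (nat_lit 5) (nat_lit 30) (nat_lit 73) (nat_lit 77)) (PT.lf (nat_lit 4620) (nat_lit 6) (nat_lit 55) (nat_lit 5) (nat_lit 31) (nat_lit 73) (nat_lit 76))) (PT.nd (nat_lit 94) (PT.lf (nat_lit 4872) (nat_lit 6) (nat_lit 58) (nat_lit 5) (nat_lit 32) (nat_lit 73) (nat_lit 75)) (PT.lf (nat_lit 5124) (nat_lit 6) (nat_lit 61) (nat_lit 5) (nat_lit 33) (nat_lit 73) (nat_lit 74)))))) (PT.nd (nat_lit 658) (PT.nd (nat_lit 282) (PT.nd (nat_lit 94) (PT.lf (nat_lit 5376) (nat_lit 3) (nat_lit 64) (nat_lit 4) (nat_lit 34) (nat_lit 73) (nat_lit 73)) (PT.nd (nat_lit 94) (PT.lf (nat_lit 5628) (nat_lit 6) (nat_lit 67) (nat_lit 4) (nat_lit 35) (nat_lit 73) (nat_lit 72)) (PT.lf (nat_lit 5796) (nat_lit 6) (nat_lit 69) (nat_lit 4) (nat_lit 36) (nat_lit 73) (nat_lit 71)))) (PT.nd (nat_lit 188) (PT.nd (nat_lit 94) (PT.lf (nat_lit 6048) (nat_lit 6) (nat_lit 72) (nat_lit 4) (nat_lit 37) (nat_lit 73) (nat_lit 70)) (PT.lf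 (nat_lit 6300) (nat_lit 6) (nat_lit 75) (nat_lit 4) (nat_lit 38) (nat_lit 73) (nat_lit 69))) (PT.nd (nat_lit 94) (PT.lf (nat_lit 6552) (nat_lit 6) (nat_lit 78) (nat_lit 4) (nat_lit 39) (nat_lit 73) (nat_lit 68)) (PT.lf (nat_lit 6804) (nat_lit 6) (nat_lit 81) (nat_lit 4) (nat_lit 40) (nat_lit 73) (nat_lit 67))))) (PT.nd (nat_lit 2538) (PT.nd (nat_lit 2350) (PT.lf (nat_lit 7140) (nat_lit 6) (nat_lit 85) (nat_lit 4) (nat_lit 41) (nat_lit 73) (nat_lit 66)) (PT.nd (nat_lit 94) (PT.lf (nat_lit 7140) (nat_lit 6) (nat_lit 85) (nat_lit 2) (nat_lit 66) (nat_lit 73) (nat_lit 41)) (PT.lf (nat_lit 6804) (nat_lit 6) (nat_lit 81) (nat_lit 2) (nat_lit 67) (nat_lit 73) (nat_lit 40)))) (PT.nd (nat_lit 188) (PT.nd (nat_lit 94) (PT.lf (nat_lit 6552) (nat_lit 6) (nat_lit 78) (nat_lit 2) (nat_lit 68) (nat_lit 73) (nat_lit 39)) (PT.lf (nat_lit 6300) (nat_lit 6) (nat_lit 75) (nat_lit 2) (nat_lit 69) (nat_lit 73)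 (nat_lit 38))) (PT.nd (nat_lit 94) (PT.lf (nat_lit 6048) (nat_lit 6) (nat_lit 72) (nat_lit 2) (nat_lit 70) (nat_lit 73) (nat_lit 37)) (PT.lf (nat_lit 5796) (nat_lit 6) (nat_lit 69) (nat_lit 2) (nat_lit 71) (nat_lit 73) (nat_lit 36))))))) (PT.nd (nat_lit 41924) (PT.nd (nat_lit 41266) (PT.nd (nat_lit 282) (PT.nd (nat_lit 94) (PT.lf (nat_lit 5628) (nat_lit 6) (nat_lit 67) (nat_lit 2) (nat_lit 72) (nat_lit 73) (nat_lit 35)) (PT.nd (nat_lit 94) (PT.lf (nat_lit 5376) (nat_lit 3) (nat_lit 64) (nat_lit 0) (nat_lit 73) (nat_lit 73) (nat_lit 34)) (PT.lf (nat_lit 5124) (nat_lit 6) (nat_lit 61) (nat_lit 0) (nat_lit 74) (nat_lit 73) (nat_lit 33)))) (PT.nd (nat_lit 188) (PT.nd (nat_lit 94) (PT.lf (nat_lit 4872) (nat_lit 6) (nat_lit 58) (nat_lit 0) (nat_lit 75) (nat_lit 73) (nat_lit 32)) (PT.lf (nat_lit 4620) (nat_lit 6) (nat_lit 55) (nat_lit 0) (nat_lit 76) (nat_lit 73) (nat_lit 31))) (PT.nd (nat_lit 40702)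 (PT.lf (nat_lit 4368) (nat_lit 6) (nat_lit 52) (nat_lit 0) (nat_lit 77) (nat_lit 73) (nat_lit 30)) (PT.lf (nat_lit 4200) (nat_lit 6) (nat_lit 50) (nat_lit 5) (nat_lit 29) (nat_lit 74) (nat_lit 77))))) (PT.nd (nat_lit 282) (PT.nd (nat_lit 94) (PT.lf (nat_lit 4452) (nat_lit 6) (nat_lit 53) (nat_lit 5) (nat_lit 30) (nat_lit 74) (nat_lit 76)) (PT.nd (nat_lit 94) (PT.lf (nat_lit 4704) (nat_lit 6) (nat_lit 56) (nat_lit 5) (nat_lit 31) (nat_lit 74) (nat_lit 75)) (PT.lf (nat_lit 4956) (nat_lit 3) (nat_lit 59) (nat_lit 4) (nat_lit 32) (nat_lit 74) (nat_lit 74)))) (PT.nd (nat_lit 188) (PT.nd (nat_lit 94) (PT.lf (nat_lit 5124) (nat_lit 6) (nat_lit 61) (nat_lit 4) (nat_lit 33) (nat_lit 74) (nat_lit 73)) (PT.lf (nat_lit 5292) (nat_lit 6) (nat_lit 63) (nat_lit 4) (nat_lit 34) (nat_lit 74) (nat_lit 72))) (PT.nd (nat_lit 94) (PT.lf (nat_lit 5544) (nat_lit 6) (nat_lit 66) (nat_lit 4) (nat_lit 35) (nat_lit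 74) (nat_lit 71)) (PT.lf (nat_lit 5712) (nat_lit 6) (nat_lit 68) (nat_lit 4) (nat_lit 36) (nat_lit 74) (nat_lit 70)))))) (PT.nd (nat_lit 3384) (PT.nd (nat_lit 3008) (PT.nd (nat_lit 94) (PT.lf (nat_lit 5964) (nat_lit 6) (nat_lit 71) (nat_lit 4) (nat_lit 37) (nat_lit 74) (nat_lit 69)) (PT.nd (nat_lit 2820) (PT.lf (nat_lit 6216) (nat_lit 6) (nat_lit 74) (nat_lit 4) (nat_lit 38) (nat_lit 74) (nat_lit 68)) (PT.lf (nat_lit 6216) (nat_lit 6) (nat_lit 74) (nat_lit 2) (nat_lit 68) (nat_lit 74) (nat_lit 38)))) (PT.nd (nat_lit 188) (PT.nd (nat_lit 94) (PT.lf (nat_lit 5964) (nat_lit 6) (nat_lit 71) (nat_lit 2) (nat_lit 69) (nat_lit 74) (nat_lit 37)) (PT.lf (nat_lit 5712) (nat_lit 6) (nat_lit 68) (nat_lit 2) (nat_lit 70) (nat_lit 74) (nat_lit 36))) (PT.nd (nat_lit 94) (PT.lf (nat_lit 5544) (nat_lit 6) (nat_lit 66) (nat_lit 2) (nat_lit 71) (nat_lit 74) (nat_lit 35)) (PT.lf (nat_lit 5292) (nat_lit 6) (nat_lit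 63) (nat_lit 2) (nat_lit 72) (nat_lit 74) (nat_lit 34))))) (PT.nd (nat_lit 376) (PT.nd (nat_lit 188) (PT.nd (nat_lit 94) (PT.lf (nat_lit 5124) (nat_lit 6) (nat_lit 61) (nat_lit 2) (nat_lit 73) (nat_lit 74) (nat_lit 33)) (PT.lf (nat_lit 4956) (nat_lit 3) (nat_lit 59) (nat_lit 0) (nat_lit 74) (nat_lit 74) (nat_lit 32))) (PT.nd (nat_lit 94) (PT.lf (nat_lit 4704) (nat_lit 6) (nat_lit 56) (nat_lit 0) (nat_lit 75) (nat_lit 74) (nat_lit 31)) (PT.lf (nat_lit 4452) (nat_lit 6) (nat_lit 53) (nat_lit 0) (nat_lit 76) (nat_lit 74) (nat_lit 30)))) (PT.nd (nat_lit 40608) (PT.nd (nat_lit 40514) (PT.lf (nat_lit 4200) (nat_lit 6) (nat_lit 50) (nat_lit 0) (nat_lit 77) (nat_lit 74) (nat_lit 29)) (PT.lf (nat_lit 3864) (nat_lit 6) (nat_lit 46) (nat_lit 5) (nat_lit 27) (nat_lit 75) (nat_lit 78))) (PT.nd (nat_lit 94) (PT.lf (nat_lit 4032) (nat_lit 6) (nat_lit 48) (nat_lit 5) (nat_lit 28) (nat_lit 75) (nat_lit 77))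 (PT.lf (nat_lit 4284) (nat_lit 6) (nat_lit 51) (nat_lit 5) (nat_lit 29) (nat_lit 75) (nat_lit 76))))))))
noncomputable def pc14 : PT := (PT.nd (nat_lit 49632) (PT.nd (nat_lit 4512) (PT.nd (nat_lit 3854) (PT.nd (nat_lit 282) (PT.nd (nat_lit 94) (PT.lf (nat_lit 4536) (nat_lit 3) (nat_lit 54) (nat_lit 4) (nat_lit 30) (nat_lit 75) (nat_lit 75)) (PT.nd (nat_lit 94) (PT.lf (nat_lit 4704) (nat_lit 6) (nat_lit 56) (nat_lit 4) (nat_lit 31) (nat_lit 75) (nat_lit 74)) (PT.lf (nat_lit 4872) (nat_lit 6) (nat_lit 58) (nat_lit 4) (nat_lit 32) (nat_lit 75) (nat_lit 73)))) (PT.nd (nat_lit 188) (PT.nd (nat_lit 94) (PT.lf (nat_lit 5040) (nat_lit 6) (nat_lit 60) (nat_lit 4) (nat_lit 33) (nat_lit 75) (nat_lit 72)) (PT.lf (nat_lit 5208) (nat_lit 6) (nat_lit 62) (nat_lit 4) (nat_lit 34) (nat_lit 75) (nat_lit 71))) (PT.nd (nat_lit 3290) (PT.lf (nat_lit 5460) (nat_lit 6) (nat_lit 65) (nat_lit 4) (nat_lit 35) (nat_lit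 75) (nat_lit 70)) (PT.lf (nat_lit 5460) (nat_lit 6) (nat_lit 65) (nat_lit 2) (nat_lit 70) (nat_lit 75) (nat_lit 35))))) (PT.nd (nat_lit 282) (PT.nd (nat_lit 94) (PT.lf (nat_lit 5208) (nat_lit 6) (nat_lit 62) (nat_lit 2) (nat_lit 71) (nat_lit 75) (nat_lit 34)) (PT.nd (nat_lit 94) (PT.lf (nat_lit 5040) (nat_lit 6) (nat_lit 60) (nat_lit 2) (nat_lit 72) (nat_lit 75) (nat_lit 33)) (PT.lf (nat_lit 4872) (nat_lit 6) (nat_lit 58) (nat_lit 2) (nat_lit 73) (nat_lit 75) (nat_lit 32)))) (PT.nd (nat_lit 188) (PT.nd (nat_lit 94) (PT.lf (nat_lit 4704) (nat_lit 6) (nat_lit 56) (nat_lit 2) (nat_lit 74) (nat_lit 75) (nat_lit 31)) (PT.lf (nat_lit 4536) (nat_lit 3) (nat_lit 54) (nat_lit 0) (nat_lit 75) (nat_lit 75) (nat_lit 30))) (PT.nd (nat_lit 94) (PT.lf (nat_lit 4284) (nat_lit 6) (nat_lit 51) (nat_lit 0) (nat_lit 76) (nat_lit 75) (nat_lit 29)) (PT.lf (nat_lit 4032) (nat_lit 6) (nat_lit 48) (nat_lit 0) (nat_lit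 77) (nat_lit 75) (nat_lit 28)))))) (PT.nd (nat_lit 40796) (PT.nd (nat_lit 40420) (PT.nd (nat_lit 40232) (PT.lf (nat_lit 3864) (nat_lit 6) (nat_lit 46) (nat_lit 0) (nat_lit 78) (nat_lit 75) (nat_lit 27)) (PT.nd (nat_lit 94) (PT.lf (nat_lit 3528) (nat_lit 6) (nat_lit 42) (nat_lit 5) (nat_lit 25) (nat_lit 76) (nat_lit 79)) (PT.lf (nat_lit 3696) (nat_lit 6) (nat_lit 44) (nat_lit 5) (nat_lit 26) (nat_lit 76) (nat_lit 78)))) (PT.nd (nat_lit 188) (PT.nd (nat_lit 94) (PT.lf (nat_lit 3948) (nat_lit 6) (nat_lit 47) (nat_lit 5) (nat_lit 27) (nat_lit 76) (nat_lit 77)) (PT.lf (nat_lit 4116) (nat_lit 3) (nat_lit 49) (nat_lit 4) (nat_lit 28) (nat_lit 76) (nat_lit 76))) (PT.nd (nat_lit 94) (PT.lf (nat_lit 4284) (nat_lit 6) (nat_lit 51) (nat_lit 4) (nat_lit 29) (nat_lit 76) (nat_lit 75)) (PT.lf (nat_lit 4452) (nat_lit 6) (nat_lit 53) (nat_lit 4) (nat_lit 30) (nat_lit 76) (nat_lit 74))))) (PT.nd (nat_lit 3948)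 (PT.nd (nat_lit 94) (PT.lf (nat_lit 4620) (nat_lit 6) (nat_lit 55) (nat_lit 4) (nat_lit 31) (nat_lit 76) (nat_lit 73)) (PT.nd (nat_lit 3760) (PT.lf (nat_lit 4788) (nat_lit 6) (nat_lit 57) (nat_lit 4) (nat_lit 32) (nat_lit 76) (nat_lit 72)) (PT.lf (nat_lit 4788) (nat_lit 6) (nat_lit 57) (nat_lit 2) (nat_lit 72) (nat_lit 76) (nat_lit 32)))) (PT.nd (nat_lit 188) (PT.nd (nat_lit 94) (PT.lf (nat_lit 4620) (nat_lit 6) (nat_lit 55) (nat_lit 2) (nat_lit 73) (nat_lit 76) (nat_lit 31)) (PT.lf (nat_lit 4452) (nat_lit 6) (nat_lit 53) (nat_lit 2) (nat_lit 74) (nat_lit 76) (nat_lit 30))) (PT.nd (nat_lit 94) (PT.lf (nat_lit 4284) (nat_lit 6) (nat_lit 51) (nat_lit 2) (nat_lit 75) (nat_lit 76) (nat_lit 29)) (PT.lf (nat_lit 4116) (nat_lit 3) (nat_lit 49) (nat_lit 0) (nat_lit 76) (nat_lit 76) (nat_lit 28))))))) (PT.nd (nat_lit 45120) (PT.nd (nat_lit 40514) (PT.nd (nat_lit 40138) (PT.nd (nat_lit 94) (PT.lf (nat_lit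 3948) (nat_lit 6) (nat_lit 47) (nat_lit 0) (nat_lit 77) (nat_lit 76) (nat_lit 27)) (PT.nd (nat_lit 94) (PT.lf (nat_lit 3696) (nat_lit 6) (nat_lit 44) (nat_lit 0) (nat_lit 78) (nat_lit 76) (nat_lit 26)) (PT.lf (nat_lit 3528) (nat_lit 6) (nat_lit 42) (nat_lit 0) (nat_lit 79) (nat_lit 76) (nat_lit 25)))) (PT.nd (nat_lit 188) (PT.nd (nat_lit 94) (PT.lf (nat_lit 3192) (nat_lit 6) (nat_lit 38) (nat_lit 5) (nat_lit 23) (nat_lit 77) (nat_lit 80)) (PT.lf (nat_lit 3360) (nat_lit 6) (nat_lit 40) (nat_lit 5) (nat_lit 24) (nat_lit 77) (nat_lit 79))) (PT.nd (nat_lit 94) (PT.lf (nat_lit 3612) (nat_lit 6) (nat_lit 43) (nat_lit 5) (nat_lit 25) (nat_lit 77) (nat_lit 78)) (PT.lf (nat_lit 3780) (nat_lit 3) (nat_lit 45) (nat_lit 4) (nat_lit 26) (nat_lit 77) (nat_lit 77))))) (PT.nd (nat_lit 282) (PT.nd (nat_lit 94) (PT.lf (nat_lit 3948) (nat_lit 6) (nat_lit 47) (nat_lit 4) (nat_lit 27) (nat_lit 77) (nat_lit 76))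 (PT.nd (nat_lit 94) (PT.lf (nat_lit 4032) (nat_lit 6) (nat_lit 48) (nat_lit 4) (nat_lit 28) (nat_lit 77) (nat_lit 75)) (PT.lf (nat_lit 4200) (nat_lit 6) (nat_lit 50) (nat_lit 4) (nat_lit 29) (nat_lit 77) (nat_lit 74)))) (PT.nd (nat_lit 4136) (PT.nd (nat_lit 4042) (PT.lf (nat_lit 4368) (nat_lit 6) (nat_lit 52) (nat_lit 4) (nat_lit 30) (nat_lit 77) (nat_lit 73)) (PT.lf (nat_lit 4368) (nat_lit 6) (nat_lit 52) (nat_lit 2) (nat_lit 73) (nat_lit 77) (nat_lit 30))) (PT.nd (nat_lit 94) (PT.lf (nat_lit 4200) (nat_lit 6) (nat_lit 50) (nat_lit 2) (nat_lit 74) (nat_lit 77) (nat_lit 29)) (PT.lf (nat_lit 4032) (nat_lit 6) (nat_lit 48) (nat_lit 2) (nat_lit 75) (nat_lit 77) (nat_lit 28)))))) (PT.nd (nat_lit 40232) (PT.nd (nat_lit 282) (PT.nd (nat_lit 94) (PT.lf (nat_lit 3948) (nat_lit 6) (nat_lit 47) (nat_lit 2) (nat_lit 76) (nat_lit 77) (nat_lit 27)) (PT.nd (nat_lit 94) (PT.lf (nat_lit 3780) (nat_lit 3)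 (nat_lit 45) (nat_lit 0) (nat_lit 77) (nat_lit 77) (nat_lit 26)) (PT.lf (nat_lit 3612) (nat_lit 6) (nat_lit 43) (nat_lit 0) (nat_lit 78) (nat_lit 77) (nat_lit 25)))) (PT.nd (nat_lit 39762) (PT.nd (nat_lit 94) (PT.lf (nat_lit 3360) (nat_lit 6) (nat_lit 40) (nat_lit 0) (nat_lit 79) (nat_lit 77) (nat_lit 24)) (PT.lf (nat_lit 3192) (nat_lit 6) (nat_lit 38) (nat_lit 0) (nat_lit 80) (nat_lit 77) (nat_lit 23))) (PT.nd (nat_lit 94) (PT.lf (nat_lit 2856) (nat_lit 6) (nat_lit 34) (nat_lit 5) (nat_lit 21) (nat_lit 78) (nat_lit 81)) (PT.lf (nat_lit 3024) (nat_lit 6) (nat_lit 36) (nat_lit 5) (nat_lit 22) (nat_lit 78) (nat_lit 80))))) (PT.nd (nat_lit 282) (PT.nd (nat_lit 94) (PT.lf (nat_lit 3276) (nat_lit 6) (nat_lit 39) (nat_lit 5) (nat_lit 23) (nat_lit 78) (nat_lit 79)) (PT.nd (nat_lit 94) (PT.lf (nat_lit 3444) (nat_lit 3) (nat_lit 41) (nat_lit 4) (nat_lit 24) (nat_lit 78) (nat_lit 78)) (PT.lf (nat_lit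 3612) (nat_lit 6) (nat_lit 43) (nat_lit 4) (nat_lit 25) (nat_lit 78) (nat_lit 77)))) (PT.nd (nat_lit 4606) (PT.nd (nat_lit 94) (PT.lf (nat_lit 3696) (nat_lit 6) (nat_lit 44) (nat_lit 4) (nat_lit 26) (nat_lit 78) (nat_lit 76)) (PT.lf (nat_lit 3864) (nat_lit 6) (nat_lit 46) (nat_lit 4) (nat_lit 27) (nat_lit 78) (nat_lit 75))) (PT.nd (nat_lit 94) (PT.lf (nat_lit 3864) (nat_lit 6) (nat_lit 46) (nat_lit 2) (nat_lit 75) (nat_lit 78) (nat_lit 27)) (PT.lf (nat_lit 3696) (nat_lit 6) (nat_lit 44) (nat_lit 2) (nat_lit 76) (nat_lit 78) (nat_lit 26))))))))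
noncomputable def pc15 : PT := (PT.nd (nat_lit 90710) (PT.nd (nat_lit 45308) (PT.nd (nat_lit 39950) (PT.nd (nat_lit 282) (PT.nd (nat_lit 94) (PT.lf (nat_lit 3612) (nat_lit 6) (nat_lit 43) (nat_lit 2) (nat_lit 77) (nat_lit 78) (nat_lit 25)) (PT.nd (nat_lit 94) (PT.lf (nat_lit 3444) (nat_lit 3) (nat_lit 41) (nat_lit 0) (nat_lit 78) (nat_lit 78) (nat_lit 24)) (PT.lf (nat_lit 3276) (nat_lit 6) (nat_lit 39) (nat_lit 0) (nat_lit 79) (nat_lit 78) (nat_lit 23)))) (PT.nd (nat_lit 39480) (PT.nd (nat_lit 94) (PT.lf (nat_lit 3024) (nat_lit 6) (nat_lit 36) (nat_lit 0) (nat_lit 80) (nat_lit 78) (nat_lit 22)) (PT.lf (nat_lit 2856) (nat_lit 6) (nat_lit 34) (nat_lit 0) (nat_lit 81) (nat_lit 78) (nat_lit 21))) (PT.nd (nat_lit 94) (PT.lf (nat_lit 2520) (nat_lit 6) (nat_lit 30) (nat_lit 5) (nat_lit 19) (nat_lit 79) (nat_lit 82)) (PT.lf (nat_lit 2688) (nat_lit 6) (nat_lit 32) (nat_lit 5) (nat_lit 20) (nat_lit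 79) (nat_lit 81))))) (PT.nd (nat_lit 282) (PT.nd (nat_lit 94) (PT.lf (nat_lit 2940) (nat_lit 6) (nat_lit 35) (nat_lit 5) (nat_lit 21) (nat_lit 79) (nat_lit 80)) (PT.nd (nat_lit 94) (PT.lf (nat_lit 3108) (nat_lit 3) (nat_lit 37) (nat_lit 4) (nat_lit 22) (nat_lit 79) (nat_lit 79)) (PT.lf (nat_lit 3276) (nat_lit 6) (nat_lit 39) (nat_lit 4) (nat_lit 23) (nat_lit 79) (nat_lit 78)))) (PT.nd (nat_lit 4888) (PT.nd (nat_lit 94) (PT.lf (nat_lit 3360) (nat_lit 6) (nat_lit 40) (nat_lit 4) (nat_lit 24) (nat_lit 79) (nat_lit 77)) (PT.lf (nat_lit 3528) (nat_lit 6) (nat_lit 42) (nat_lit 4) (nat_lit 25) (nat_lit 79) (nat_lit 76))) (PT.nd (nat_lit 94) (PT.lf (nat_lit 3528) (nat_lit 6) (nat_lit 42) (nat_lit 2) (nat_lit 76) (nat_lit 79) (nat_lit 25)) (PT.lf (nat_lit 3360) (nat_lit 6) (nat_lit 40) (nat_lit 2) (nat_lit 77) (nat_lit 79) (nat_lit 24)))))) (PT.nd (nat_lit 39762) (PT.nd (nat_lit 282) (PT.nd (nat_lit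 94) (PT.lf (nat_lit 3276) (nat_lit 6) (nat_lit 39) (nat_lit 2) (nat_lit 78) (nat_lit 79) (nat_lit 23)) (PT.nd (nat_lit 94) (PT.lf (nat_lit 3108) (nat_lit 3) (nat_lit 37) (nat_lit 0) (nat_lit 79) (nat_lit 79) (nat_lit 22)) (PT.lf (nat_lit 2940) (nat_lit 6) (nat_lit 35) (nat_lit 0) (nat_lit 80) (nat_lit 79) (nat_lit 21)))) (PT.nd (nat_lit 39292) (PT.nd (nat_lit 94) (PT.lf (nat_lit 2688) (nat_lit 6) (nat_lit 32) (nat_lit 0) (nat_lit 81) (nat_lit 79) (nat_lit 20)) (PT.lf (nat_lit 2520) (nat_lit 6) (nat_lit 30) (nat_lit 0) (nat_lit 82) (nat_lit 79) (nat_lit 19))) (PT.nd (nat_lit 94) (PT.lf (nat_lit 2352) (nat_lit 6) (nat_lit 28) (nat_lit 5) (nat_lit 18) (nat_lit 80) (nat_lit 82)) (PT.lf (nat_lit 2604) (nat_lit 6) (nat_lit 31) (nat_lit 5) (nat_lit 19) (nat_lit 80) (nat_lit 81))))) (PT.nd (nat_lit 282) (PT.nd (nat_lit 94) (PT.lf (nat_lit 2772) (nat_lit 3) (nat_lit 33) (nat_lit 4) (nat_lit 20) (nat_lit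 80) (nat_lit 80)) (PT.nd (nat_lit 94) (PT.lf (nat_lit 2940) (nat_lit 6) (nat_lit 35) (nat_lit 4) (nat_lit 21) (nat_lit 80) (nat_lit 79)) (PT.lf (nat_lit 3024) (nat_lit 6) (nat_lit 36) (nat_lit 4) (nat_lit 22) (nat_lit 80) (nat_lit 78)))) (PT.nd (nat_lit 5170) (PT.nd (nat_lit 5076) (PT.lf (nat_lit 3192) (nat_lit 6) (nat_lit 38) (nat_lit 4) (nat_lit 23) (nat_lit 80) (nat_lit 77)) (PT.lf (nat_lit 3192) (nat_lit 6) (nat_lit 38) (nat_lit 2) (nat_lit 77) (nat_lit 80) (nat_lit 23))) (PT.nd (nat_lit 94) (PT.lf (nat_lit 3024) (nat_lit 6) (nat_lit 36) (nat_lit 2) (nat_lit 78) (nat_lit 80) (nat_lit 22)) (PT.lf (nat_lit 2940) (nat_lit 6) (nat_lit 35) (nat_lit 2) (nat_lit 79) (nat_lit 80) (nat_lit 21))))))) (PT.nd (nat_lit 45496) (PT.nd (nat_lit 39574) (PT.nd (nat_lit 39198) (PT.nd (nat_lit 94) (PT.lf (nat_lit 2772) (nat_lit 3) (nat_lit 33) (nat_lit 0) (nat_lit 80) (nat_lit 80) (nat_lit 20)) (PT.nd (nat_lit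 94) (PT.lf (nat_lit 2604) (nat_lit 6) (nat_lit 31) (nat_lit 0) (nat_lit 81) (nat_lit 80) (nat_lit 19)) (PT.lf (nat_lit 2352) (nat_lit 6) (nat_lit 28) (nat_lit 0) (nat_lit 82) (nat_lit 80) (nat_lit 18)))) (PT.nd (nat_lit 188) (PT.nd (nat_lit 94) (PT.lf (nat_lit 2100) (nat_lit 6) (nat_lit 25) (nat_lit 5) (nat_lit 16) (nat_lit 81) (nat_lit 83)) (PT.lf (nat_lit 2268) (nat_lit 6) (nat_lit 27) (nat_lit 5) (nat_lit 17) (nat_lit 81) (nat_lit 82))) (PT.nd (nat_lit 94) (PT.lf (nat_lit 2436) (nat_lit 3) (nat_lit 29) (nat_lit 4) (nat_lit 18) (nat_lit 81) (nat_lit 81)) (PT.lf (nat_lit 2604) (nat_lit 6) (nat_lit 31) (nat_lit 4) (nat_lit 19) (nat_lit 81) (nat_lit 80))))) (PT.nd (nat_lit 5546) (PT.nd (nat_lit 94) (PT.lf (nat_lit 2688) (nat_lit 6) (nat_lit 32) (nat_lit 4) (nat_lit 20) (nat_lit 81) (nat_lit 79)) (PT.nd (nat_lit 5358) (PT.lf (nat_lit 2856) (nat_lit 6) (nat_lit 34) (nat_lit 4) (nat_lit 21) (nat_lit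 81) (nat_lit 78)) (PT.lf (nat_lit 2856) (nat_lit 6) (nat_lit 34) (nat_lit 2) (nat_lit 78) (nat_lit 81) (nat_lit 21)))) (PT.nd (nat_lit 188) (PT.nd (nat_lit 94) (PT.lf (nat_lit 2688) (nat_lit 6) (nat_lit 32) (nat_lit 2) (nat_lit 79) (nat_lit 81) (nat_lit 20)) (PT.lf (nat_lit 2604) (nat_lit 6) (nat_lit 31) (nat_lit 2) (nat_lit 80) (nat_lit 81) (nat_lit 19))) (PT.nd (nat_lit 94) (PT.lf (nat_lit 2436) (nat_lit 3) (nat_lit 29) (nat_lit 0) (nat_lit 81) (nat_lit 81) (nat_lit 18)) (PT.lf (nat_lit 2268) (nat_lit 6) (nat_lit 27) (nat_lit 0) (nat_lit 82) (nat_lit 81) (nat_lit 17)))))) (PT.nd (nat_lit 44932) (PT.nd (nat_lit 39010) (PT.nd (nat_lit 38822) (PT.lf (nat_lit 2100) (nat_lit 6) (nat_lit 25) (nat_lit 0) (nat_lit 83) (nat_lit 81) (nat_lit 16)) (PT.nd (nat_lit 94) (PT.lf (nat_lit 2016) (nat_lit 6) (nat_lit 24) (nat_lit 5) (nat_lit 15) (nat_lit 82) (nat_lit 83)) (PT.lf (nat_lit 2184) (nat_lit 3)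 (nat_lit 26) (nat_lit 4) (nat_lit 16) (nat_lit 82) (nat_lit 82)))) (PT.nd (nat_lit 188) (PT.nd (nat_lit 94) (PT.lf (nat_lit 2268) (nat_lit 6) (nat_lit 27) (nat_lit 4) (nat_lit 17) (nat_lit 82) (nat_lit 81)) (PT.lf (nat_lit 2352) (nat_lit 6) (nat_lit 28) (nat_lit 4) (nat_lit 18) (nat_lit 82) (nat_lit 80))) (PT.nd (nat_lit 5640) (PT.lf (nat_lit 2520) (nat_lit 6) (nat_lit 30) (nat_lit 4) (nat_lit 19) (nat_lit 82) (nat_lit 79)) (PT.lf (nat_lit 2520) (nat_lit 6) (nat_lit 30) (nat_lit 2) (nat_lit 79) (nat_lit 82) (nat_lit 19))))) (PT.nd (nat_lit 39104) (PT.nd (nat_lit 188) (PT.nd (nat_lit 94) (PT.lf (nat_lit 2352) (nat_lit 6) (nat_lit 28) (nat_lit 2) (nat_lit 80) (nat_lit 82) (nat_lit 18)) (PT.lf (nat_lit 2268) (nat_lit 6) (nat_lit 27) (nat_lit 2) (nat_lit 81) (nat_lit 82) (nat_lit 17))) (PT.nd (nat_lit 94) (PT.lf (nat_lit 2184) (nat_lit 3) (nat_lit 26) (nat_lit 0) (nat_lit 82) (nat_lit 82) (nat_lit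 16)) (PT.lf (nat_lit 2016) (nat_lit 6) (nat_lit 24) (nat_lit 0) (nat_lit 83) (nat_lit 82) (nat_lit 15)))) (PT.nd (nat_lit 6204) (PT.nd (nat_lit 94) (PT.lf (nat_lit 2016) (nat_lit 6) (nat_lit 24) (nat_lit 4) (nat_lit 15) (nat_lit 83) (nat_lit 82)) (PT.lf (nat_lit 2100) (nat_lit 6) (nat_lit 25) (nat_lit 4) (nat_lit 16) (nat_lit 83) (nat_lit 81))) (PT.nd (nat_lit 94) (PT.lf (nat_lit 2100) (nat_lit 6) (nat_lit 25) (nat_lit 2) (nat_lit 81) (nat_lit 83) (nat_lit 16)) (PT.lf (nat_lit 2016) (nat_lit 6) (nat_lit 24) (nat_lit 2) (nat_lit 82) (nat_lit 83) (nat_lit 15))))))))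
noncomputable def xc0 : XT := (XT.nd (nat_lit 180198) (nat_lit 0) (nat_lit 168) (XT.nd (nat_lit 90428) (nat_lit 0) (nat_lit 0) (XT.nd (nat_lit 45308) (nat_lit 0) (nat_lit 0) (XT.nd (nat_lit 45026) (nat_lit 0) (nat_lit 420) (XT.nd (nat_lit 94) (nat_lit 252) (nat_lit 0) (XT.lf (nat_lit 0) (nat_lit 44896045) (nat_lit 168) (nat_lit 2890451351) (nat_lit 168) (nat_lit 2890451351) (nat_lit 8) (nat_lit 4) (nat_lit 10) (nat_lit 5) (nat_lit 10) (nat_lit 4) (nat_lit 282) (nat_lit 219) (nat_lit 219)) (XT.lf (nat_lit 0) (nat_lit 2510750473) (nat_lit 252) (nat_lit 7583170984) (nat_lit 0) (nat_lit 1821796657) (nat_lit 5) (nat_lit 5) (nat_lit 8) (nat_lit 4) (nat_lit 5) (nat_lit 4) (nat_lit 283) (nat_lit 219) (nat_lit 218))) (XT.nd (nat_lit 94) (nat_lit 420) (nat_lit 0) (XT.lf (nat_lit 0) (nat_lit 862449588) (nat_lit 252) (nat_lit 3849256449) (nat_lit 0) (nat_lit 862449588) (nat_lit 15) (nat_lit 5) (nat_lit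 18) (nat_lit 4) (nat_lit 15) (nat_lit 4) (nat_lit 280) (nat_lit 220) (nat_lit 220)) (XT.nd (nat_lit 94) (nat_lit 252) (nat_lit 0) (XT.lf (nat_lit 0) (nat_lit 7438436741) (nat_lit 168) (nat_lit 2366969084) (nat_lit 168) (nat_lit 1592043305) (nat_lit 13) (nat_lit 4) (nat_lit 15) (nat_lit 5) (nat_lit 15) (nat_lit 4) (nat_lit 281) (nat_lit 220) (nat_lit 219)) (XT.lf (nat_lit 0) (nat_lit 6476120668) (nat_lit 252) (nat_lit 166159231) (nat_lit 0) (nat_lit 5014332909) (nat_lit 10) (nat_lit 5) (nat_lit 13) (nat_lit 4) (nat_lit 10) (nat_lit 4) (nat_lit 282) (nat_lit 220) (nat_lit 218))))) (XT.nd (nat_lit 44838) (nat_lit 0) (nat_lit 672) (XT.nd (nat_lit 44744) (nat_lit 0) (nat_lit 1596) (XT.lf (nat_lit 0) (nat_lit 2938961451) (nat_lit 252) (nat_lit 8116628694) (nat_lit 0) (nat_lit 870459637) (nat_lit 5) (nat_lit 5) (nat_lit 8) (nat_lit 4) (nat_lit 5) (nat_lit 4) (nat_lit 283) (nat_lit 220) (nat_lit 217))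 (XT.lf (nat_lit 0) (nat_lit 3349284742) (nat_lit 252) (nat_lit 993841394) (nat_lit 252) (nat_lit 993841394) (nat_lit 24) (nat_lit 4) (nat_lit 27) (nat_lit 5) (nat_lit 27) (nat_lit 4) (nat_lit 278) (nat_lit 221) (nat_lit 221))) (XT.nd (nat_lit 94) (nat_lit 672) (nat_lit 0) (XT.lf (nat_lit 0) (nat_lit 5641131644) (nat_lit 252) (nat_lit 468553334) (nat_lit 0) (nat_lit 4798981053) (nat_lit 21) (nat_lit 5) (nat_lit 24) (nat_lit 4) (nat_lit 21) (nat_lit 4) (nat_lit 279) (nat_lit 221) (nat_lit 220)) (XT.nd (nat_lit 94) (nat_lit 168) (nat_lit 0) (XT.lf (nat_lit 0) (nat_lit 2397844573) (nat_lit 252) (nat_lit 7946145384) (nat_lit 0) (nat_lit 809246726) (nat_lit 15) (nat_lit 5) (nat_lit 18) (nat_lit 4) (nat_lit 15) (nat_lit 4) (nat_lit 280) (nat_lit 221) (nat_lit 219)) (XT.lf (nat_lit 0) (nat_lit 6943747062) (nat_lit 168) (nat_lit 3395066853) (nat_lit 168) (nat_lit 1068444454) (nat_lit 13) (nat_lit 4)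 (nat_lit 15) (nat_lit 5) (nat_lit 15) (nat_lit 4) (nat_lit 281) (nat_lit 221) (nat_lit 218)))))) (XT.nd (nat_lit 44932) (nat_lit 0) (nat_lit 0) (XT.nd (nat_lit 44650) (nat_lit 0) (nat_lit 1596) (XT.nd (nat_lit 94) (nat_lit 420) (nat_lit 0) (XT.lf (nat_lit 0) (nat_lit 6835055838) (nat_lit 252) (nat_lit 928509848) (nat_lit 0) (nat_lit 3907999872) (nat_lit 10) (nat_lit 5) (nat_lit 13) (nat_lit 4) (nat_lit 10) (nat_lit 4) (nat_lit 282) (nat_lit 221) (nat_lit 217)) (XT.lf (nat_lit 0) (nat_lit 2757846378) (nat_lit 168) (nat_lit 353541982) (nat_lit 252) (nat_lit 8835211486) (nat_lit 5) (nat_lit 5) (nat_lit 7) (nat_lit 5) (nat_lit 8) (nat_lit 4) (nat_lit 283) (nat_lit 221) (nat_lit 216))) (XT.nd (nat_lit 94) (nat_lit 756) (nat_lit 0) (XT.lf (nat_lit 0) (nat_lit 2467614748) (nat_lit 336) (nat_lit 178720679) (nat_lit 0) (nat_lit 2467614748) (nat_lit 33) (nat_lit 5) (nat_lit 37) (nat_lit 4) (nat_lit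 33) (nat_lit 4) (nat_lit 276) (nat_lit 222) (nat_lit 222)) (XT.nd (nat_lit 94) (nat_lit 252) (nat_lit 0) (XT.lf (nat_lit 0) (nat_lit 1970228588) (nat_lit 252) (nat_lit 7423525314) (nat_lit 0) (nat_lit 1055021434) (nat_lit 27) (nat_lit 5) (nat_lit 30) (nat_lit 4) (nat_lit 27) (nat_lit 4) (nat_lit 277) (nat_lit 222) (nat_lit 221)) (XT.lf (nat_lit 0) (nat_lit 6469465492) (nat_lit 252) (nat_lit 2997996252) (nat_lit 252) (nat_lit 1211163236) (nat_lit 24) (nat_lit 4) (nat_lit 27) (nat_lit 5) (nat_lit 27) (nat_lit 4) (nat_lit 278) (nat_lit 222) (nat_lit 220))))) (XT.nd (nat_lit 282) (nat_lit 672) (nat_lit 0) (XT.nd (nat_lit 94) (nat_lit 672) (nat_lit 0) (XT.lf (nat_lit 0) (nat_lit 6253425459) (nat_lit 252) (nat_lit 939790756) (nat_lit 0) (nat_lit 3724968566) (nat_lit 21) (nat_lit 5) (nat_lit 24) (nat_lit 4) (nat_lit 21) (nat_lit 4) (nat_lit 279) (nat_lit 222) (nat_lit 219)) (XT.nd (nat_lit 94) (nat_lit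 168) (nat_lit 0) (XT.lf (nat_lit 0) (nat_lit 2474247126) (nat_lit 168) (nat_lit 359443010) (nat_lit 252) (nat_lit 8334194399) (nat_lit 15) (nat_lit 5) (nat_lit 17) (nat_lit 5) (nat_lit 18) (nat_lit 4) (nat_lit 280) (nat_lit 222) (nat_lit 218)) (XT.lf (nat_lit 0) (nat_lit 5953189873) (nat_lit 168) (nat_lit 4678784463) (nat_lit 168) (nat_lit 794925867) (nat_lit 13) (nat_lit 4) (nat_lit 15) (nat_lit 5) (nat_lit 15) (nat_lit 4) (nat_lit 281) (nat_lit 222) (nat_lit 217)))) (XT.nd (nat_lit 94) (nat_lit 420) (nat_lit 0) (XT.lf (nat_lit 0) (nat_lit 6947354433) (nat_lit 252) (nat_lit 2201110849) (nat_lit 0) (nat_lit 2548061080) (nat_lit 10) (nat_lit 5) (nat_lit 13) (nat_lit 4) (nat_lit 10) (nat_lit 4) (nat_lit 282) (nat_lit 222) (nat_lit 216)) (XT.nd (nat_lit 44368) (nat_lit 0) (nat_lit 2940) (XT.lf (nat_lit 0) (nat_lit 1165977979) (nat_lit 168) (nat_lit 1871489140) (nat_lit 252) (nat_lit 8939634225)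 (nat_lit 5) (nat_lit 5) (nat_lit 7) (nat_lit 5) (nat_lit 8) (nat_lit 4) (nat_lit 283) (nat_lit 222) (nat_lit 215)) (XT.lf (nat_lit 0) (nat_lit 822377232) (nat_lit 336) (nat_lit 3259903758) (nat_lit 0) (nat_lit 822377232) (nat_lit 40) (nat_lit 5) (nat_lit 44) (nat_lit 4) (nat_lit 40) (nat_lit 4) (nat_lit 274) (nat_lit 223) (nat_lit 223))))))) (XT.nd (nat_lit 45120) (nat_lit 0) (nat_lit 0) (XT.nd (nat_lit 470) (nat_lit 1176) (nat_lit 0) (XT.nd (nat_lit 188) (nat_lit 1008) (nat_lit 0) (XT.nd (nat_lit 94) (nat_lit 336) (nat_lit 0) (XT.lf (nat_lit 0) (nat_lit 6441868205) (nat_lit 252) (nat_lit 2301953277) (nat_lit 252) (nat_lit 1272540854) (nat_lit 37) (nat_lit 4) (nat_lit 40) (nat_lit 5) (nat_lit 40) (nat_lit 4) (nat_lit 275) (nat_lit 223) (nat_lit 222)) (XT.lf (nat_lit 0) (nat_lit 5799460109) (nat_lit 336) (nat_lit 575383889) (nat_lit 0) (nat_lit 3857619330) (nat_lit 33) (nat_lit 5) (nat_lit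 37) (nat_lit 4) (nat_lit 33) (nat_lit 4) (nat_lit 276) (nat_lit 223) (nat_lit 221))) (XT.nd (nat_lit 94) (nat_lit 504) (nat_lit 0) (XT.lf (nat_lit 0) (nat_lit 2574651731) (nat_lit 168) (nat_lit 88063392) (nat_lit 252) (nat_lit 7795457048) (nat_lit 27) (nat_lit 5) (nat_lit 29) (nat_lit 5) (nat_lit 30) (nat_lit 4) (nat_lit 277) (nat_lit 223) (nat_lit 220)) (XT.nd (nat_lit 94) (nat_lit 252) (nat_lit 0) (XT.lf (nat_lit 0) (nat_lit 5781608031) (nat_lit 252) (nat_lit 4244509134) (nat_lit 252) (nat_lit 666588739) (nat_lit 24) (nat_lit 4) (nat_lit 27) (nat_lit 5) (nat_lit 27) (nat_lit 4) (nat_lit 278) (nat_lit 223) (nat_lit 219)) (XT.lf (nat_lit 0) (nat_lit 6637320340) (nat_lit 252) (nat_lit 1883387595) (nat_lit 0) (nat_lit 2416537011) (nat_lit 21) (nat_lit 5) (nat_lit 24) (nat_lit 4) (nat_lit 21) (nat_lit 4) (nat_lit 279) (nat_lit 223) (nat_lit 218))))) (XT.nd (nat_lit 282) (nat_lit 252) (nat_lit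 0) (XT.nd (nat_lit 94) (nat_lit 420) (nat_lit 0) (XT.lf (nat_lit 0) (nat_lit 1241204936) (nat_lit 168) (nat_lit 1800303471) (nat_lit 252) (nat_lit 8150500061) (nat_lit 15) (nat_lit 5) (nat_lit 17) (nat_lit 5) (nat_lit 18) (nat_lit 4) (nat_lit 280) (nat_lit 223) (nat_lit 217)) (XT.nd (nat_lit 94) (nat_lit 252) (nat_lit 0) (XT.lf (nat_lit 0) (nat_lit 4464406703) (nat_lit 168) (nat_lit 6221178385) (nat_lit 168) (nat_lit 770836310) (nat_lit 13) (nat_lit 4) (nat_lit 15) (nat_lit 5) (nat_lit 15) (nat_lit 4) (nat_lit 281) (nat_lit 223) (nat_lit 216)) (XT.lf (nat_lit 0) (nat_lit 6813283830) (nat_lit 252) (nat_lit 3986992238) (nat_lit 0) (nat_lit 931278582) (nat_lit 10) (nat_lit 5) (nat_lit 13) (nat_lit 4) (nat_lit 10) (nat_lit 4) (nat_lit 282) (nat_lit 223) (nat_lit 215)))) (XT.nd (nat_lit 44180) (nat_lit 0) (nat_lit 3108) (XT.lf (nat_lit 0) (nat_lit 2717791076) (nat_lit 252) (nat_lit 937942556) (nat_lit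 84) (nat_lit 8361866342) (nat_lit 7) (nat_lit 5) (nat_lit 10) (nat_lit 5) (nat_lit 8) (nat_lit 4) (nat_lit 283) (nat_lit 223) (nat_lit 214)) (XT.nd (nat_lit 94) (nat_lit 588) (nat_lit 0) (XT.lf (nat_lit 0) (nat_lit 3445224545) (nat_lit 336) (nat_lit 631756644) (nat_lit 336) (nat_lit 631756644) (nat_lit 51) (nat_lit 4) (nat_lit 55) (nat_lit 5) (nat_lit 55) (nat_lit 4) (nat_lit 272) (nat_lit 224) (nat_lit 224)) (XT.lf (nat_lit 0) (nat_lit 199255164) (nat_lit 252) (nat_lit 5265286335) (nat_lit 252) (nat_lit 4146572385) (nat_lit 44) (nat_lit 4) (nat_lit 47) (nat_lit 5) (nat_lit 47) (nat_lit 4) (nat_lit 273) (nat_lit 224) (nat_lit 223)))))) (XT.nd (nat_lit 470) (nat_lit 1428) (nat_lit 0) (XT.nd (nat_lit 188) (nat_lit 1092) (nat_lit 0) (XT.nd (nat_lit 94) (nat_lit 252) (nat_lit 0) (XT.lf (nat_lit 0) (nat_lit 2596186927) (nat_lit 336) (nat_lit 6731768830) (nat_lit 0) (nat_lit 485891459) (nat_lit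 40) (nat_lit 5) (nat_lit 44) (nat_lit 4) (nat_lit 40) (nat_lit 4) (nat_lit 274) (nat_lit 224) (nat_lit 222)) (XT.lf (nat_lit 0) (nat_lit 6018438002) (nat_lit 252) (nat_lit 3548811751) (nat_lit 252) (nat_lit 458123500) (nat_lit 37) (nat_lit 4) (nat_lit 40) (nat_lit 5) (nat_lit 40) (nat_lit 4) (nat_lit 275) (nat_lit 224) (nat_lit 221))) (XT.nd (nat_lit 94) (nat_lit 756) (nat_lit 0) (XT.lf (nat_lit 0) (nat_lit 6452368860) (nat_lit 336) (nat_lit 1229730391) (nat_lit 0) (nat_lit 2564063870) (nat_lit 33) (nat_lit 5) (nat_lit 37) (nat_lit 4) (nat_lit 33) (nat_lit 4) (nat_lit 276) (nat_lit 224) (nat_lit 220)) (XT.nd (nat_lit 94) (nat_lit 252) (nat_lit 0) (XT.lf (nat_lit 0) (nat_lit 1658253980) (nat_lit 168) (nat_lit 1489526380) (nat_lit 252) (nat_lit 7328730084) (nat_lit 27) (nat_lit 5) (nat_lit 29) (nat_lit 5) (nat_lit 30) (nat_lit 4) (nat_lit 277) (nat_lit 224) (nat_lit 219)) (XT.lf (nat_lit 0)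 (nat_lit 4633359344) (nat_lit 252) (nat_lit 5730189324) (nat_lit 252) (nat_lit 352662690) (nat_lit 24) (nat_lit 4) (nat_lit 27) (nat_lit 5) (nat_lit 27) (nat_lit 4) (nat_lit 278) (nat_lit 224) (nat_lit 218))))) (XT.nd (nat_lit 282) (nat_lit 504) (nat_lit 0) (XT.nd (nat_lit 94) (nat_lit 672) (nat_lit 0) (XT.lf (nat_lit 0) (nat_lit 6793730324) (nat_lit 252) (nat_lit 3301590510) (nat_lit 0) (nat_lit 870571073) (nat_lit 21) (nat_lit 5) (nat_lit 24) (nat_lit 4) (nat_lit 21) (nat_lit 4) (nat_lit 279) (nat_lit 224) (nat_lit 217)) (XT.nd (nat_lit 94) (nat_lit 336) (nat_lit 0) (XT.lf (nat_lit 0) (nat_lit 3017976896) (nat_lit 336) (nat_lit 474415641) (nat_lit 84) (nat_lit 7733406983) (nat_lit 17) (nat_lit 5) (nat_lit 21) (nat_lit 5) (nat_lit 18) (nat_lit 4) (nat_lit 280) (nat_lit 224) (nat_lit 216)) (XT.lf (nat_lit 0) (nat_lit 2473852830) (nat_lit 168) (nat_lit 8025920986) (nat_lit 168) (nat_lit 996118425)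 (nat_lit 13) (nat_lit 4) (nat_lit 15) (nat_lit 5) (nat_lit 15) (nat_lit 4) (nat_lit 281) (nat_lit 224) (nat_lit 215)))) (XT.nd (nat_lit 94) (nat_lit 252) (nat_lit 0) (XT.lf (nat_lit 0) (nat_lit 5475162894) (nat_lit 168) (nat_lit 968149184) (nat_lit 252) (nat_lit 5333044192) (nat_lit 10) (nat_lit 5) (nat_lit 12) (nat_lit 5) (nat_lit 13) (nat_lit 4) (nat_lit 282) (nat_lit 224) (nat_lit 214)) (XT.nd (nat_lit 43992) (nat_lit 0) (nat_lit 4368) (XT.lf (nat_lit 0) (nat_lit 2159876195) (nat_lit 252) (nat_lit 3542080669) (nat_lit 84) (nat_lit 6365945598) (nat_lit 7) (nat_lit 5) (nat_lit 10) (nat_lit 5) (nat_lit 8) (nat_lit 4) (nat_lit 283) (nat_lit 224) (nat_lit 213)) (XT.lf (nat_lit 0) (nat_lit 719661777) (nat_lit 336) (nat_lit 1902958925) (nat_lit 336) (nat_lit 1902958925) (nat_lit 59) (nat_lit 4) (nat_lit 63) (nat_lit 5) (nat_lit 63) (nat_lit 4) (nat_lit 270) (nat_lit 225) (nat_lit 225))))))))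
noncomputable def xc1 : XT := (XT.nd (nat_lit 45778) (nat_lit 0) (nat_lit 0) (XT.nd (nat_lit 1034) (nat_lit 672) (nat_lit 0) (XT.nd (nat_lit 470) (nat_lit 1764) (nat_lit 0) (XT.nd (nat_lit 188) (nat_lit 1260) (nat_lit 0) (XT.nd (nat_lit 94) (nat_lit 336) (nat_lit 0) (XT.lf (nat_lit 0) (nat_lit 2623784763) (nat_lit 336) (nat_lit 5200260681) (nat_lit 0) (nat_lit 1408022377) (nat_lit 55) (nat_lit 5) (nat_lit 59) (nat_lit 4) (nat_lit 55) (nat_lit 4) (nat_lit 271) (nat_lit 225) (nat_lit 224)) (XT.lf (nat_lit 0) (nat_lit 6695641863) (nat_lit 336) (nat_lit 2549905667) (nat_lit 336) (nat_lit 176274342) (nat_lit 51) (nat_lit 4) (nat_lit 55) (nat_lit 5) (nat_lit 55) (nat_lit 4) (nat_lit 272) (nat_lit 225) (nat_lit 223))) (XT.nd (nat_lit 94) (nat_lit 924) (nat_lit 0) (XT.lf (nat_lit 0) (nat_lit 6385713460) (nat_lit 336) (nat_lit 207364141) (nat_lit 0) (nat_lit 3026908002) (nat_lit 47) (nat_lit 5) (nat_lit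 51) (nat_lit 4) (nat_lit 47) (nat_lit 4) (nat_lit 273) (nat_lit 225) (nat_lit 222)) (XT.nd (nat_lit 94) (nat_lit 336) (nat_lit 0) (XT.lf (nat_lit 0) (nat_lit 2448871861) (nat_lit 252) (nat_lit 903650914) (nat_lit 336) (nat_lit 6474575138) (nat_lit 40) (nat_lit 5) (nat_lit 43) (nat_lit 5) (nat_lit 44) (nat_lit 4) (nat_lit 274) (nat_lit 225) (nat_lit 221)) (XT.lf (nat_lit 0) (nat_lit 139990058) (nat_lit 336) (nat_lit 4874443092) (nat_lit 84) (nat_lit 5028927534) (nat_lit 36) (nat_lit 5) (nat_lit 40) (nat_lit 5) (nat_lit 37) (nat_lit 4) (nat_lit 275) (nat_lit 225) (nat_lit 220))))) (XT.nd (nat_lit 282) (nat_lit 756) (nat_lit 0) (XT.nd (nat_lit 94) (nat_lit 756) (nat_lit 0) (XT.lf (nat_lit 0) (nat_lit 6895510294) (nat_lit 336) (nat_lit 2322038833) (nat_lit 0) (nat_lit 1051483225) (nat_lit 33) (nat_lit 5) (nat_lit 37) (nat_lit 4) (nat_lit 33) (nat_lit 4) (nat_lit 276) (nat_lit 225) (nat_lit 219))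 (XT.nd (nat_lit 94) (nat_lit 252) (nat_lit 0) (XT.lf (nat_lit 0) (nat_lit 286323781) (nat_lit 168) (nat_lit 3128227502) (nat_lit 252) (nat_lit 7089703512) (nat_lit 27) (nat_lit 5) (nat_lit 29) (nat_lit 5) (nat_lit 30) (nat_lit 4) (nat_lit 277) (nat_lit 225) (nat_lit 218)) (XT.lf (nat_lit 0) (nat_lit 3021985506) (nat_lit 252) (nat_lit 7458574153) (nat_lit 252) (nat_lit 268637647) (nat_lit 24) (nat_lit 4) (nat_lit 27) (nat_lit 5) (nat_lit 27) (nat_lit 4) (nat_lit 278) (nat_lit 225) (nat_lit 217)))) (XT.nd (nat_lit 94) (nat_lit 504) (nat_lit 0) (XT.lf (nat_lit 0) (nat_lit 5795601997) (nat_lit 168) (nat_lit 937875770) (nat_lit 252) (nat_lit 4270350356) (nat_lit 21) (nat_lit 5) (nat_lit 23) (nat_lit 5) (nat_lit 24) (nat_lit 4) (nat_lit 279) (nat_lit 225) (nat_lit 216)) (XT.nd (nat_lit 94) (nat_lit 168) (nat_lit 0) (XT.lf (nat_lit 0) (nat_lit 2776993146) (nat_lit 336) (nat_lit 2648303903) (nat_lit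 84) (nat_lit 5843552724) (nat_lit 17) (nat_lit 5) (nat_lit 21) (nat_lit 5) (nat_lit 18) (nat_lit 4) (nat_lit 280) (nat_lit 225) (nat_lit 215)) (XT.lf (nat_lit 0) (nat_lit 10074356735) (nat_lit 252) (nat_lit 22684861) (nat_lit 0) (nat_lit 1448356065) (nat_lit 15) (nat_lit 5) (nat_lit 18) (nat_lit 4) (nat_lit 15) (nat_lit 4) (nat_lit 281) (nat_lit 225) (nat_lit 214)))))) (XT.nd (nat_lit 44180) (nat_lit 0) (nat_lit 2184) (XT.nd (nat_lit 43898) (nat_lit 0) (nat_lit 4368) (XT.nd (nat_lit 94) (nat_lit 252) (nat_lit 0) (XT.lf (nat_lit 0) (nat_lit 2678887400) (nat_lit 168) (nat_lit 3160498161) (nat_lit 252) (nat_lit 5991553376) (nat_lit 10) (nat_lit 5) (nat_lit 12) (nat_lit 5) (nat_lit 13) (nat_lit 4) (nat_lit 282) (nat_lit 225) (nat_lit 213)) (XT.lf (nat_lit 0) (nat_lit 1349402606) (nat_lit 252) (nat_lit 6679074392) (nat_lit 84) (nat_lit 4100106280) (nat_lit 7) (nat_lit 5) (nat_lit 10) (nat_lit 5)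 (nat_lit 8) (nat_lit 4) (nat_lit 283) (nat_lit 225) (nat_lit 212))) (XT.nd (nat_lit 94) (nat_lit 1092) (nat_lit 0) (XT.lf (nat_lit 0) (nat_lit 1366486179) (nat_lit 420) (nat_lit 1622303678) (nat_lit 0) (nat_lit 1366486179) (nat_lit 72) (nat_lit 5) (nat_lit 77) (nat_lit 4) (nat_lit 72) (nat_lit 4) (nat_lit 268) (nat_lit 226) (nat_lit 226)) (XT.nd (nat_lit 94) (nat_lit 672) (nat_lit 0) (XT.lf (nat_lit 0) (nat_lit 165993904) (nat_lit 420) (nat_lit 1029675219) (nat_lit 84) (nat_lit 7683798177) (nat_lit 67) (nat_lit 5) (nat_lit 72) (nat_lit 5) (nat_lit 68) (nat_lit 4) (nat_lit 269) (nat_lit 226) (nat_lit 225)) (XT.lf (nat_lit 0) (nat_lit 1250456084) (nat_lit 336) (nat_lit 5192288719) (nat_lit 336) (nat_lit 2612744876) (nat_lit 59) (nat_lit 4) (nat_lit 63) (nat_lit 5) (nat_lit 63) (nat_lit 4) (nat_lit 270) (nat_lit 226) (nat_lit 224))))) (XT.nd (nat_lit 282) (nat_lit 1176) (nat_lit 0) (XT.nd (nat_lit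 94) (nat_lit 672) (nat_lit 0) (XT.lf (nat_lit 0) (nat_lit 3650221607) (nat_lit 336) (nat_lit 5590560417) (nat_lit 0) (nat_lit 39776) (nat_lit 55) (nat_lit 5) (nat_lit 59) (nat_lit 4) (nat_lit 55) (nat_lit 4) (nat_lit 271) (nat_lit 226) (nat_lit 223)) (XT.nd (nat_lit 94) (nat_lit 252) (nat_lit 0) (XT.lf (nat_lit 0) (nat_lit 698201339) (nat_lit 420) (nat_lit 3332074427) (nat_lit 84) (nat_lit 5404316465) (nat_lit 50) (nat_lit 5) (nat_lit 55) (nat_lit 5) (nat_lit 51) (nat_lit 4) (nat_lit 272) (nat_lit 226) (nat_lit 222)) (XT.lf (nat_lit 0) (nat_lit 7115982243) (nat_lit 336) (nat_lit 1012524204) (nat_lit 0) (nat_lit 1509088123) (nat_lit 47) (nat_lit 5) (nat_lit 51) (nat_lit 4) (nat_lit 47) (nat_lit 4) (nat_lit 273) (nat_lit 226) (nat_lit 221)))) (XT.nd (nat_lit 94) (nat_lit 588) (nat_lit 0) (XT.lf (nat_lit 0) (nat_lit 1390575551) (nat_lit 252) (nat_lit 2522867614) (nat_lit 336) (nat_lit 5935731109)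 (nat_lit 40) (nat_lit 5) (nat_lit 43) (nat_lit 5) (nat_lit 44) (nat_lit 4) (nat_lit 274) (nat_lit 226) (nat_lit 220)) (XT.nd (nat_lit 94) (nat_lit 252) (nat_lit 0) (XT.lf (nat_lit 0) (nat_lit 520890256) (nat_lit 336) (nat_lit 6180229901) (nat_lit 84) (nat_lit 3369207159) (nat_lit 36) (nat_lit 5) (nat_lit 40) (nat_lit 5) (nat_lit 37) (nat_lit 4) (nat_lit 275) (nat_lit 226) (nat_lit 219)) (XT.lf (nat_lit 0) (nat_lit 6438147801) (nat_lit 252) (nat_lit 699586607) (nat_lit 336) (nat_lit 3163118240) (nat_lit 33) (nat_lit 5) (nat_lit 36) (nat_lit 5) (nat_lit 37) (nat_lit 4) (nat_lit 276) (nat_lit 226) (nat_lit 218))))))) (XT.nd (nat_lit 44556) (nat_lit 0) (nat_lit 840) (XT.nd (nat_lit 470) (nat_lit 672) (nat_lit 0) (XT.nd (nat_lit 188) (nat_lit 756) (nat_lit 0) (XT.nd (nat_lit 94) (nat_lit 420) (nat_lit 0) (XT.lf (nat_lit 0) (nat_lit 3480871060) (nat_lit 336) (nat_lit 1509387093) (nat_lit 84) (nat_lit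 5550610851) (nat_lit 29) (nat_lit 5) (nat_lit 33) (nat_lit 5) (nat_lit 30) (nat_lit 4) (nat_lit 277) (nat_lit 226) (nat_lit 217)) (XT.lf (nat_lit 0) (nat_lit 943649914) (nat_lit 252) (nat_lit 9433778826) (nat_lit 252) (nat_lit 414313550) (nat_lit 24) (nat_lit 4) (nat_lit 27) (nat_lit 5) (nat_lit 27) (nat_lit 4) (nat_lit 278) (nat_lit 226) (nat_lit 216))) (XT.nd (nat_lit 94) (nat_lit 504) (nat_lit 0) (XT.lf (nat_lit 0) (nat_lit 3440982390) (nat_lit 168) (nat_lit 3017685587) (nat_lit 252) (nat_lit 4592397232) (nat_lit 21) (nat_lit 5) (nat_lit 23) (nat_lit 5) (nat_lit 24) (nat_lit 4) (nat_lit 279) (nat_lit 226) (nat_lit 215)) (XT.nd (nat_lit 94) (nat_lit 168) (nat_lit 0) (XT.lf (nat_lit 0) (nat_lit 2304153695) (nat_lit 336) (nat_lit 5313779195) (nat_lit 84) (nat_lit 3703812878) (nat_lit 17) (nat_lit 5) (nat_lit 21) (nat_lit 5) (nat_lit 18) (nat_lit 4) (nat_lit 280) (nat_lit 226) (nat_lit 214))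 (XT.lf (nat_lit 0) (nat_lit 8630478057) (nat_lit 168) (nat_lit 819994042) (nat_lit 252) (nat_lit 2153108137) (nat_lit 15) (nat_lit 5) (nat_lit 17) (nat_lit 5) (nat_lit 18) (nat_lit 4) (nat_lit 281) (nat_lit 226) (nat_lit 213))))) (XT.nd (nat_lit 43804) (nat_lit 0) (nat_lit 5040) (XT.nd (nat_lit 94) (nat_lit 420) (nat_lit 0) (XT.lf (nat_lit 0) (nat_lit 4996579407) (nat_lit 252) (nat_lit 625423065) (nat_lit 84) (nat_lit 6273552181) (nat_lit 12) (nat_lit 5) (nat_lit 15) (nat_lit 5) (nat_lit 13) (nat_lit 4) (nat_lit 282) (nat_lit 226) (nat_lit 212)) (XT.nd (nat_lit 43616) (nat_lit 0) (nat_lit 6300) (XT.lf (nat_lit 0) (nat_lit 284440610) (nat_lit 252) (nat_lit 10356392758) (nat_lit 84) (nat_lit 1558953532) (nat_lit 7) (nat_lit 5) (nat_lit 10) (nat_lit 5) (nat_lit 8) (nat_lit 4) (nat_lit 283) (nat_lit 226) (nat_lit 211)) (XT.lf (nat_lit 0) (nat_lit 287392375) (nat_lit 420) (nat_lit 3623045857) (nat_lit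 0) (nat_lit 287392375) (nat_lit 82) (nat_lit 5) (nat_lit 87) (nat_lit 4) (nat_lit 82) (nat_lit 4) (nat_lit 266) (nat_lit 227) (nat_lit 227)))) (XT.nd (nat_lit 94) (nat_lit 840) (nat_lit 0) (XT.lf (nat_lit 0) (nat_lit 3175776354) (nat_lit 420) (nat_lit 3430528726) (nat_lit 420) (nat_lit 1944427644) (nat_lit 77) (nat_lit 4) (nat_lit 82) (nat_lit 5) (nat_lit 82) (nat_lit 4) (nat_lit 267) (nat_lit 227) (nat_lit 226)) (XT.nd (nat_lit 94) (nat_lit 420) (nat_lit 0) (XT.lf (nat_lit 0) (nat_lit 4047397545) (nat_lit 420) (nat_lit 3423325998) (nat_lit 0) (nat_lit 1244078274) (nat_lit 72) (nat_lit 5) (nat_lit 77) (nat_lit 4) (nat_lit 72) (nat_lit 4) (nat_lit 268) (nat_lit 227) (nat_lit 225)) (XT.lf (nat_lit 0) (nat_lit 1325465330) (nat_lit 420) (nat_lit 1408352386) (nat_lit 84) (nat_lit 6153623279) (nat_lit 67) (nat_lit 5) (nat_lit 72) (nat_lit 5) (nat_lit 68) (nat_lit 4) (nat_lit 269) (nat_lit 227) (nat_lit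 224)))))) (XT.nd (nat_lit 470) (nat_lit 2184) (nat_lit 0) (XT.nd (nat_lit 188) (nat_lit 1008) (nat_lit 0) (XT.nd (nat_lit 94) (nat_lit 336) (nat_lit 0) (XT.lf (nat_lit 0) (nat_lit 683403989) (nat_lit 336) (nat_lit 6775158363) (nat_lit 336) (nat_lit 1609928907) (nat_lit 59) (nat_lit 4) (nat_lit 63) (nat_lit 5) (nat_lit 63) (nat_lit 4) (nat_lit 270) (nat_lit 227) (nat_lit 223)) (XT.lf (nat_lit 0) (nat_lit 2867340467) (nat_lit 252) (nat_lit 1640717457) (nat_lit 336) (nat_lit 4749652835) (nat_lit 55) (nat_lit 5) (nat_lit 58) (nat_lit 5) (nat_lit 59) (nat_lit 4) (nat_lit 271) (nat_lit 227) (nat_lit 222))) (XT.nd (nat_lit 94) (nat_lit 588) (nat_lit 0) (XT.lf (nat_lit 0) (nat_lit 1378644893) (nat_lit 420) (nat_lit 4337971085) (nat_lit 84) (nat_lit 3739487522) (nat_lit 50) (nat_lit 5) (nat_lit 55) (nat_lit 5) (nat_lit 51) (nat_lit 4) (nat_lit 272) (nat_lit 227) (nat_lit 221)) (XT.nd (nat_lit 94) (nat_lit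 336) (nat_lit 0) (XT.lf (nat_lit 0) (nat_lit 7438881548) (nat_lit 252) (nat_lit 218418557) (nat_lit 336) (nat_lit 2006675133) (nat_lit 47) (nat_lit 5) (nat_lit 50) (nat_lit 5) (nat_lit 51) (nat_lit 4) (nat_lit 273) (nat_lit 227) (nat_lit 220)) (XT.lf (nat_lit 0) (nat_lit 4275742445) (nat_lit 336) (nat_lit 87565389) (nat_lit 84) (nat_lit 5516979969) (nat_lit 43) (nat_lit 5) (nat_lit 47) (nat_lit 5) (nat_lit 44) (nat_lit 4) (nat_lit 274) (nat_lit 227) (nat_lit 219))))) (XT.nd (nat_lit 282) (nat_lit 1008) (nat_lit 0) (XT.nd (nat_lit 94) (nat_lit 588) (nat_lit 0) (XT.lf (nat_lit 0) (nat_lit 695871616) (nat_lit 336) (nat_lit 7922300215) (nat_lit 84) (nat_lit 1488344184) (nat_lit 36) (nat_lit 5) (nat_lit 40) (nat_lit 5) (nat_lit 37) (nat_lit 4) (nat_lit 275) (nat_lit 227) (nat_lit 218)) (XT.nd (nat_lit 94) (nat_lit 336) (nat_lit 0) (XT.lf (nat_lit 0) (nat_lit 4479307183) (nat_lit 252) (nat_lit 2707070068)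 (nat_lit 336) (nat_lit 3155085944) (nat_lit 33) (nat_lit 5) (nat_lit 36) (nat_lit 5) (nat_lit 37) (nat_lit 4) (nat_lit 276) (nat_lit 227) (nat_lit 217)) (XT.lf (nat_lit 0) (nat_lit 3337999461) (nat_lit 336) (nat_lit 3751261843) (nat_lit 84) (nat_lit 3497490376) (nat_lit 29) (nat_lit 5) (nat_lit 33) (nat_lit 5) (nat_lit 30) (nat_lit 4) (nat_lit 277) (nat_lit 227) (nat_lit 216)))) (XT.nd (nat_lit 94) (nat_lit 840) (nat_lit 0) (XT.lf (nat_lit 0) (nat_lit 9263729716) (nat_lit 168) (nat_lit 817186791) (nat_lit 252) (nat_lit 762085881) (nat_lit 27) (nat_lit 5) (nat_lit 29) (nat_lit 5) (nat_lit 30) (nat_lit 4) (nat_lit 278) (nat_lit 227) (nat_lit 215)) (XT.nd (nat_lit 94) (nat_lit 336) (nat_lit 0) (XT.lf (nat_lit 0) (nat_lit 605108796) (nat_lit 168) (nat_lit 5353612774) (nat_lit 252) (nat_lit 5149341445) (nat_lit 21) (nat_lit 5) (nat_lit 23) (nat_lit 5) (nat_lit 24) (nat_lit 4) (nat_lit 279) (nat_lit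 227) (nat_lit 214)) (XT.lf (nat_lit 0) (nat_lit 1598332734) (nat_lit 336) (nat_lit 8477187886) (nat_lit 84) (nat_lit 1309092824) (nat_lit 17) (nat_lit 5) (nat_lit 21) (nat_lit 5) (nat_lit 18) (nat_lit 4) (nat_lit 280) (nat_lit 227) (nat_lit 213))))))))
noncomputable def xc2 : XT := (XT.nd (nat_lit 45402) (nat_lit 0) (nat_lit 0) (XT.nd (nat_lit 44368) (nat_lit 0) (nat_lit 168) (XT.nd (nat_lit 43804) (nat_lit 0) (nat_lit 3780) (XT.nd (nat_lit 188) (nat_lit 168) (nat_lit 0) (XT.nd (nat_lit 94) (nat_lit 252) (nat_lit 0) (XT.lf (nat_lit 0) (nat_lit 5220334694) (nat_lit 168) (nat_lit 3389065976) (nat_lit 252) (nat_lit 3061781010) (nat_lit 15) (nat_lit 5) (nat_lit 17) (nat_lit 5) (nat_lit 18) (nat_lit 4) (nat_lit 281) (nat_lit 227) (nat_lit 212)) (XT.lf (nat_lit 0) (nat_lit 3941498612) (nat_lit 252) (nat_lit 4387411144) (nat_lit 84) (nat_lit 3640446100) (nat_lit 12) (nat_lit 5) (nat_lit 15) (nat_lit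 5) (nat_lit 13) (nat_lit 4) (nat_lit 282) (nat_lit 227) (nat_lit 211))) (XT.nd (nat_lit 43428) (nat_lit 0) (nat_lit 6888) (XT.lf (nat_lit 0) (nat_lit 10005003232) (nat_lit 168) (nat_lit 1254401249) (nat_lit 252) (nat_lit 1020473041) (nat_lit 10) (nat_lit 5) (nat_lit 12) (nat_lit 5) (nat_lit 13) (nat_lit 4) (nat_lit 283) (nat_lit 227) (nat_lit 210)) (XT.nd (nat_lit 94) (nat_lit 504) (nat_lit 0) (XT.lf (nat_lit 0) (nat_lit 2809033709) (nat_lit 420) (nat_lit 621531415) (nat_lit 420) (nat_lit 621531415) (nat_lit 98) (nat_lit 4) (nat_lit 103) (nat_lit 5) (nat_lit 103) (nat_lit 4) (nat_lit 264) (nat_lit 228) (nat_lit 228)) (XT.lf (nat_lit 0) (nat_lit 4524365083) (nat_lit 504) (nat_lit 813850403) (nat_lit 0) (nat_lit 2909344732) (nat_lit 92) (nat_lit 5) (nat_lit 98) (nat_lit 4) (nat_lit 92) (nat_lit 4) (nat_lit 265) (nat_lit 228) (nat_lit 227))))) (XT.nd (nat_lit 282) (nat_lit 1428) (nat_lit 0) (XT.nd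 (nat_lit 94) (nat_lit 840) (nat_lit 0) (XT.lf (nat_lit 0) (nat_lit 968856319) (nat_lit 336) (nat_lit 1056692226) (nat_lit 420) (nat_lit 6373950154) (nat_lit 82) (nat_lit 5) (nat_lit 86) (nat_lit 5) (nat_lit 87) (nat_lit 4) (nat_lit 266) (nat_lit 228) (nat_lit 226)) (XT.nd (nat_lit 94) (nat_lit 420) (nat_lit 0) (XT.lf (nat_lit 0) (nat_lit 2830624060) (nat_lit 420) (nat_lit 5095190809) (nat_lit 420) (nat_lit 633349227) (nat_lit 77) (nat_lit 4) (nat_lit 82) (nat_lit 5) (nat_lit 82) (nat_lit 4) (nat_lit 267) (nat_lit 228) (nat_lit 225)) (XT.lf (nat_lit 0) (nat_lit 4762664476) (nat_lit 336) (nat_lit 432639477) (nat_lit 420) (nat_lit 3532088497) (nat_lit 72) (nat_lit 5) (nat_lit 76) (nat_lit 5) (nat_lit 77) (nat_lit 4) (nat_lit 268) (nat_lit 228) (nat_lit 224)))) (XT.nd (nat_lit 94) (nat_lit 1008) (nat_lit 0) (XT.lf (nat_lit 0) (nat_lit 2310702467) (nat_lit 420) (nat_lit 2151371744) (nat_lit 84)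 (nat_lit 4441866438) (nat_lit 67) (nat_lit 5) (nat_lit 72) (nat_lit 5) (nat_lit 68) (nat_lit 4) (nat_lit 269) (nat_lit 228) (nat_lit 223)) (XT.nd (nat_lit 94) (nat_lit 672) (nat_lit 0) (XT.lf (nat_lit 0) (nat_lit 8298045089) (nat_lit 420) (nat_lit 257215375) (nat_lit 0) (nat_lit 534831853) (nat_lit 63) (nat_lit 5) (nat_lit 68) (nat_lit 4) (nat_lit 63) (nat_lit 4) (nat_lit 270) (nat_lit 228) (nat_lit 222)) (XT.lf (nat_lit 0) (nat_lit 1697793090) (nat_lit 252) (nat_lit 3485492083) (nat_lit 336) (nat_lit 4100051525) (nat_lit 55) (nat_lit 5) (nat_lit 58) (nat_lit 5) (nat_lit 59) (nat_lit 4) (nat_lit 271) (nat_lit 228) (nat_lit 221)))))) (XT.nd (nat_lit 470) (nat_lit 1764) (nat_lit 0) (XT.nd (nat_lit 188) (nat_lit 1176) (nat_lit 0) (XT.nd (nat_lit 94) (nat_lit 252) (nat_lit 0) (XT.lf (nat_lit 0) (nat_lit 1870673316) (nat_lit 420) (nat_lit 5744300900) (nat_lit 84) (nat_lit 1871501422) (nat_lit 50)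 (nat_lit 5) (nat_lit 55) (nat_lit 5) (nat_lit 51) (nat_lit 4) (nat_lit 272) (nat_lit 228) (nat_lit 220)) (XT.lf (nat_lit 0) (nat_lit 5833484634) (nat_lit 252) (nat_lit 2194617270) (nat_lit 336) (nat_lit 1670488405) (nat_lit 47) (nat_lit 5) (nat_lit 50) (nat_lit 5) (nat_lit 51) (nat_lit 4) (nat_lit 273) (nat_lit 228) (nat_lit 219))) (XT.nd (nat_lit 94) (nat_lit 840) (nat_lit 0) (XT.lf (nat_lit 0) (nat_lit 4459516426) (nat_lit 336) (nat_lit 1949930789) (nat_lit 84) (nat_lit 3510392202) (nat_lit 43) (nat_lit 5) (nat_lit 47) (nat_lit 5) (nat_lit 44) (nat_lit 4) (nat_lit 274) (nat_lit 228) (nat_lit 218)) (XT.nd (nat_lit 94) (nat_lit 252) (nat_lit 0) (XT.lf (nat_lit 0) (nat_lit 39917277) (nat_lit 252) (nat_lit 632480678) (nat_lit 336) (nat_lit 9479368337) (nat_lit 36) (nat_lit 5) (nat_lit 39) (nat_lit 5) (nat_lit 40) (nat_lit 5) (nat_lit 275) (nat_lit 228) (nat_lit 217)) (XT.lf (nat_lit 0) (nat_lit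 2078214920) (nat_lit 252) (nat_lit 4951352126) (nat_lit 336) (nat_lit 3361813205) (nat_lit 33) (nat_lit 5) (nat_lit 36) (nat_lit 5) (nat_lit 37) (nat_lit 4) (nat_lit 276) (nat_lit 228) (nat_lit 216))))) (XT.nd (nat_lit 282) (nat_lit 924) (nat_lit 0) (XT.nd (nat_lit 94) (nat_lit 504) (nat_lit 0) (XT.lf (nat_lit 0) (nat_lit 2982406055) (nat_lit 336) (nat_lit 6451130450) (nat_lit 84) (nat_lit 1208587224) (nat_lit 29) (nat_lit 5) (nat_lit 33) (nat_lit 5) (nat_lit 30) (nat_lit 4) (nat_lit 277) (nat_lit 228) (nat_lit 215)) (XT.nd (nat_lit 94) (nat_lit 336) (nat_lit 0) (XT.lf (nat_lit 0) (nat_lit 6336798138) (nat_lit 168) (nat_lit 3260405926) (nat_lit 252) (nat_lit 1305654539) (nat_lit 27) (nat_lit 5) (nat_lit 29) (nat_lit 5) (nat_lit 30) (nat_lit 4) (nat_lit 278) (nat_lit 228) (nat_lit 214)) (XT.lf (nat_lit 0) (nat_lit 5262741149) (nat_lit 336) (nat_lit 2657124705) (nat_lit 84) (nat_lit 3254031142)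 (nat_lit 23) (nat_lit 5) (nat_lit 27) (nat_lit 5) (nat_lit 24) (nat_lit 4) (nat_lit 279) (nat_lit 228) (nat_lit 213)))) (XT.nd (nat_lit 94) (nat_lit 672) (nat_lit 0) (XT.lf (nat_lit 0) (nat_lit 681046462) (nat_lit 252) (nat_lit 688374900) (nat_lit 84) (nat_lit 10087369243) (nat_lit 20) (nat_lit 5) (nat_lit 23) (nat_lit 5) (nat_lit 21) (nat_lit 5) (nat_lit 280) (nat_lit 228) (nat_lit 212)) (XT.nd (nat_lit 94) (nat_lit 252) (nat_lit 0) (XT.lf (nat_lit 0) (nat_lit 1301253454) (nat_lit 168) (nat_lit 6231374239) (nat_lit 252) (nat_lit 4216313183) (nat_lit 15) (nat_lit 5) (nat_lit 17) (nat_lit 5) (nat_lit 18) (nat_lit 4) (nat_lit 281) (nat_lit 228) (nat_lit 211)) (XT.lf (nat_lit 0) (nat_lit 2641782514) (nat_lit 252) (nat_lit 8676775781) (nat_lit 84) (nat_lit 735004668) (nat_lit 12) (nat_lit 5) (nat_lit 15) (nat_lit 5) (nat_lit 13) (nat_lit 4) (nat_lit 282) (nat_lit 228) (nat_lit 210))))))) (XT.nd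 (nat_lit 44180) (nat_lit 0) (nat_lit 336) (XT.nd (nat_lit 43616) (nat_lit 0) (nat_lit 3780) (XT.nd (nat_lit 43334) (nat_lit 0) (nat_lit 6888) (XT.nd (nat_lit 43240) (nat_lit 0) (nat_lit 8316) (XT.lf (nat_lit 0) (nat_lit 5454847053) (nat_lit 168) (nat_lit 4364999363) (nat_lit 252) (nat_lit 2549132682) (nat_lit 10) (nat_lit 5) (nat_lit 12) (nat_lit 5) (nat_lit 13) (nat_lit 4) (nat_lit 283) (nat_lit 228) (nat_lit 209)) (XT.lf (nat_lit 0) (nat_lit 1176116833) (nat_lit 504) (nat_lit 1371177573) (nat_lit 504) (nat_lit 1371177573) (nat_lit 109) (nat_lit 4) (nat_lit 115) (nat_lit 5) (nat_lit 115) (nat_lit 4) (nat_lit 262) (nat_lit 229) (nat_lit 229))) (XT.nd (nat_lit 94) (nat_lit 924) (nat_lit 0) (XT.lf (nat_lit 0) (nat_lit 2811230197) (nat_lit 504) (nat_lit 4101186809) (nat_lit 0) (nat_lit 1056106831) (nat_lit 103) (nat_lit 5) (nat_lit 109) (nat_lit 4) (nat_lit 103) (nat_lit 4) (nat_lit 263) (nat_lit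 229) (nat_lit 228)) (XT.nd (nat_lit 94) (nat_lit 420) (nat_lit 0) (XT.lf (nat_lit 0) (nat_lit 381112272) (nat_lit 504) (nat_lit 2651105953) (nat_lit 84) (nat_lit 5075951980) (nat_lit 97) (nat_lit 5) (nat_lit 103) (nat_lit 5) (nat_lit 98) (nat_lit 4) (nat_lit 264) (nat_lit 229) (nat_lit 227)) (XT.lf (nat_lit 0) (nat_lit 5982689003) (nat_lit 504) (nat_lit 1139399212) (nat_lit 0) (nat_lit 1133782664) (nat_lit 92) (nat_lit 5) (nat_lit 98) (nat_lit 4) (nat_lit 92) (nat_lit 4) (nat_lit 265) (nat_lit 229) (nat_lit 226))))) (XT.nd (nat_lit 282) (nat_lit 1428) (nat_lit 0) (XT.nd (nat_lit 94) (nat_lit 840) (nat_lit 0) (XT.lf (nat_lit 0) (nat_lit 441871324) (nat_lit 336) (nat_lit 2877857780) (nat_lit 420) (nat_lit 5091818200) (nat_lit 82) (nat_lit 5) (nat_lit 86) (nat_lit 5) (nat_lit 87) (nat_lit 4) (nat_lit 266) (nat_lit 229) (nat_lit 225)) (XT.nd (nat_lit 94) (nat_lit 336) (nat_lit 0) (XT.lf (nat_lit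 0) (nat_lit 494358852) (nat_lit 504) (nat_lit 6442185248) (nat_lit 84) (nat_lit 1639305555) (nat_lit 76) (nat_lit 5) (nat_lit 82) (nat_lit 5) (nat_lit 77) (nat_lit 4) (nat_lit 267) (nat_lit 229) (nat_lit 224)) (XT.lf (nat_lit 0) (nat_lit 3866425687) (nat_lit 336) (nat_lit 2324425020) (nat_lit 420) (nat_lit 2557103332) (nat_lit 72) (nat_lit 5) (nat_lit 76) (nat_lit 5) (nat_lit 77) (nat_lit 4) (nat_lit 268) (nat_lit 229) (nat_lit 223)))) (XT.nd (nat_lit 94) (nat_lit 1008) (nat_lit 0) (XT.lf (nat_lit 0) (nat_lit 3124051119) (nat_lit 420) (nat_lit 3260502387) (nat_lit 84) (nat_lit 2544452041) (nat_lit 67) (nat_lit 5) (nat_lit 72) (nat_lit 5) (nat_lit 68) (nat_lit 4) (nat_lit 269) (nat_lit 229) (nat_lit 222)) (XT.nd (nat_lit 94) (nat_lit 672) (nat_lit 0) (XT.lf (nat_lit 0) (nat_lit 7547952218) (nat_lit 336) (nat_lit 1440215793) (nat_lit 420) (nat_lit 131302106) (nat_lit 63) (nat_lit 5) (nat_lit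 67) (nat_lit 5) (nat_lit 68) (nat_lit 4) (nat_lit 270) (nat_lit 229) (nat_lit 221)) (XT.lf (nat_lit 0) (nat_lit 138835086) (nat_lit 252) (nat_lit 5538675499) (nat_lit 336) (nat_lit 3640250062) (nat_lit 55) (nat_lit 5) (nat_lit 58) (nat_lit 5) (nat_lit 59) (nat_lit 4) (nat_lit 271) (nat_lit 229) (nat_lit 220)))))) (XT.nd (nat_lit 470) (nat_lit 1848) (nat_lit 0) (XT.nd (nat_lit 188) (nat_lit 924) (nat_lit 0) (XT.nd (nat_lit 94) (nat_lit 252) (nat_lit 0) (XT.lf (nat_lit 0) (nat_lit 1968960497) (nat_lit 336) (nat_lit 208824360) (nat_lit 420) (nat_lit 7347914667) (nat_lit 50) (nat_lit 5) (nat_lit 54) (nat_lit 5) (nat_lit 55) (nat_lit 5) (nat_lit 272) (nat_lit 229) (nat_lit 219)) (XT.lf (nat_lit 0) (nat_lit 3822863999) (nat_lit 252) (nat_lit 4389201912) (nat_lit 336) (nat_lit 1530058446) (nat_lit 47) (nat_lit 5) (nat_lit 50) (nat_lit 5) (nat_lit 51) (nat_lit 4) (nat_lit 273) (nat_lit 229) (nat_lit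 218))) (XT.nd (nat_lit 94) (nat_lit 588) (nat_lit 0) (XT.lf (nat_lit 0) (nat_lit 4449708667) (nat_lit 336) (nat_lit 4232485143) (nat_lit 84) (nat_lit 1286271767) (nat_lit 43) (nat_lit 5) (nat_lit 47) (nat_lit 5) (nat_lit 44) (nat_lit 4) (nat_lit 274) (nat_lit 229) (nat_lit 217)) (XT.nd (nat_lit 94) (nat_lit 252) (nat_lit 0) (XT.lf (nat_lit 0) (nat_lit 491480571) (nat_lit 336) (nat_lit 2502809819) (nat_lit 84) (nat_lit 7210458144) (nat_lit 39) (nat_lit 5) (nat_lit 43) (nat_lit 5) (nat_lit 40) (nat_lit 5) (nat_lit 275) (nat_lit 229) (nat_lit 216)) (XT.lf (nat_lit 0) (nat_lit 6675519316) (nat_lit 336) (nat_lit 753367502) (nat_lit 84) (nat_lit 3021535238) (nat_lit 36) (nat_lit 5) (nat_lit 40) (nat_lit 5) (nat_lit 37) (nat_lit 4) (nat_lit 276) (nat_lit 229) (nat_lit 215))))) (XT.nd (nat_lit 282) (nat_lit 756) (nat_lit 0) (XT.nd (nat_lit 94) (nat_lit 504) (nat_lit 0) (XT.lf (nat_lit 0) (nat_lit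 1076101975) (nat_lit 252) (nat_lit 1352208727) (nat_lit 336) (nat_lit 8278278957) (nat_lit 29) (nat_lit 5) (nat_lit 32) (nat_lit 5) (nat_lit 33) (nat_lit 5) (nat_lit 277) (nat_lit 229) (nat_lit 214)) (XT.nd (nat_lit 94) (nat_lit 336) (nat_lit 0) (XT.lf (nat_lit 0) (nat_lit 2942499468) (nat_lit 168) (nat_lit 5956764159) (nat_lit 252) (nat_lit 2073095484) (nat_lit 27) (nat_lit 5) (nat_lit 29) (nat_lit 5) (nat_lit 30) (nat_lit 4) (nat_lit 278) (nat_lit 229) (nat_lit 213)) (XT.lf (nat_lit 0) (nat_lit 4350972366) (nat_lit 336) (nat_lit 6390313243) (nat_lit 84) (nat_lit 508071693) (nat_lit 23) (nat_lit 5) (nat_lit 27) (nat_lit 5) (nat_lit 24) (nat_lit 4) (nat_lit 279) (nat_lit 229) (nat_lit 212)))) (XT.nd (nat_lit 94) (nat_lit 588) (nat_lit 0) (XT.lf (nat_lit 0) (nat_lit 6803469254) (nat_lit 168) (nat_lit 4307031515) (nat_lit 252) (nat_lit 426629287) (nat_lit 21) (nat_lit 5) (nat_lit 23) (nat_lit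 5) (nat_lit 24) (nat_lit 4) (nat_lit 280) (nat_lit 229) (nat_lit 211)) (XT.nd (nat_lit 94) (nat_lit 252) (nat_lit 0) (XT.lf (nat_lit 0) (nat_lit 6252532283) (nat_lit 336) (nat_lit 3064988088) (nat_lit 84) (nat_lit 2518299592) (nat_lit 17) (nat_lit 5) (nat_lit 21) (nat_lit 5) (nat_lit 18) (nat_lit 4) (nat_lit 281) (nat_lit 229) (nat_lit 210)) (XT.lf (nat_lit 0) (nat_lit 1137688231) (nat_lit 252) (nat_lit 1352871755) (nat_lit 84) (nat_lit 9656299174) (nat_lit 14) (nat_lit 5) (nat_lit 17) (nat_lit 5) (nat_lit 15) (nat_lit 5) (nat_lit 282) (nat_lit 229) (nat_lit 209))))))))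
noncomputable def xc3 : XT := (XT.nd (nat_lit 45026) (nat_lit 0) (nat_lit 168) (XT.nd (nat_lit 43992) (nat_lit 0) (nat_lit 924) (XT.nd (nat_lit 43428) (nat_lit 0) (nat_lit 4788) (XT.nd (nat_lit 43146) (nat_lit 0) (nat_lit 7812) (XT.nd (nat_lit 43052) (nat_lit 0) (nat_lit 9912) (XT.lf (nat_lit 0) (nat_lit 362309147) (nat_lit 168) (nat_lit 7768450967) (nat_lit 252) (nat_lit 4337989901) (nat_lit 10) (nat_lit 5) (nat_lit 12) (nat_lit 5) (nat_lit 13) (nat_lit 4) (nat_lit 283) (nat_lit 229) (nat_lit 208)) (XT.lf (nat_lit 0) (nat_lit 1829475353) (nat_lit 588) (nat_lit 138065275) (nat_lit 0) (nat_lit 1829475353) (nat_lit 128) (nat_lit 5) (nat_lit 135) (nat_lit 4) (nat_lit 128) (nat_lit 4) (nat_lit 260) (nat_lit 230) (nat_lit 230))) (XT.nd (nat_lit 94) (nat_lit 1008) (nat_lit 0) (XT.lf (nat_lit 0) (nat_lit 931307949) (nat_lit 504) (nat_lit 496429927) (nat_lit 588) (nat_lit 6286204733) (nat_lit 115)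 (nat_lit 5) (nat_lit 121) (nat_lit 5) (nat_lit 122) (nat_lit 4) (nat_lit 261) (nat_lit 230) (nat_lit 229)) (XT.nd (nat_lit 94) (nat_lit 504) (nat_lit 0) (XT.lf (nat_lit 0) (nat_lit 2201831095) (nat_lit 504) (nat_lit 4681597395) (nat_lit 504) (nat_lit 957664393) (nat_lit 109) (nat_lit 4) (nat_lit 115) (nat_lit 5) (nat_lit 115) (nat_lit 4) (nat_lit 262) (nat_lit 230) (nat_lit 228)) (XT.lf (nat_lit 0) (nat_lit 3552040303) (nat_lit 420) (nat_lit 873524060) (nat_lit 504) (nat_lit 3550958562) (nat_lit 103) (nat_lit 5) (nat_lit 108) (nat_lit 5) (nat_lit 109) (nat_lit 4) (nat_lit 263) (nat_lit 230) (nat_lit 227))))) (XT.nd (nat_lit 282) (nat_lit 1596) (nat_lit 0) (XT.nd (nat_lit 94) (nat_lit 924) (nat_lit 0) (XT.lf (nat_lit 0) (nat_lit 1823908728) (nat_lit 504) (nat_lit 3149843333) (nat_lit 84) (nat_lit 3146239867) (nat_lit 97) (nat_lit 5) (nat_lit 103) (nat_lit 5) (nat_lit 98) (nat_lit 4) (nat_lit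 264) (nat_lit 230) (nat_lit 226)) (XT.nd (nat_lit 94) (nat_lit 504) (nat_lit 0) (XT.lf (nat_lit 0) (nat_lit 6471723031) (nat_lit 420) (nat_lit 825260840) (nat_lit 504) (nat_lit 975206286) (nat_lit 92) (nat_lit 5) (nat_lit 97) (nat_lit 5) (nat_lit 98) (nat_lit 4) (nat_lit 265) (nat_lit 230) (nat_lit 225)) (XT.lf (nat_lit 0) (nat_lit 4458599866) (nat_lit 504) (nat_lit 416201913) (nat_lit 84) (nat_lit 3557097219) (nat_lit 86) (nat_lit 5) (nat_lit 92) (nat_lit 5) (nat_lit 87) (nat_lit 4) (nat_lit 266) (nat_lit 230) (nat_lit 224)))) (XT.nd (nat_lit 94) (nat_lit 756) (nat_lit 0) (XT.lf (nat_lit 0) (nat_lit 1079500758) (nat_lit 420) (nat_lit 366941465) (nat_lit 504) (nat_lit 7154260526) (nat_lit 76) (nat_lit 5) (nat_lit 81) (nat_lit 5) (nat_lit 82) (nat_lit 5) (nat_lit 267) (nat_lit 230) (nat_lit 223)) (XT.nd (nat_lit 94) (nat_lit 420) (nat_lit 0) (XT.lf (nat_lit 0) (nat_lit 2615305269) (nat_lit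 336) (nat_lit 4406919583) (nat_lit 420) (nat_lit 1754807104) (nat_lit 72) (nat_lit 5) (nat_lit 76) (nat_lit 5) (nat_lit 77) (nat_lit 4) (nat_lit 268) (nat_lit 230) (nat_lit 222)) (XT.lf (nat_lit 0) (nat_lit 3767447830) (nat_lit 420) (nat_lit 4738385103) (nat_lit 84) (nat_lit 456862436) (nat_lit 67) (nat_lit 5) (nat_lit 72) (nat_lit 5) (nat_lit 68) (nat_lit 4) (nat_lit 269) (nat_lit 230) (nat_lit 221)))))) (XT.nd (nat_lit 470) (nat_lit 1848) (nat_lit 0) (XT.nd (nat_lit 188) (nat_lit 1260) (nat_lit 0) (XT.nd (nat_lit 94) (nat_lit 336) (nat_lit 0) (XT.lf (nat_lit 0) (nat_lit 349858550) (nat_lit 420) (nat_lit 3274365315) (nat_lit 84) (nat_lit 5532868963) (nat_lit 62) (nat_lit 5) (nat_lit 67) (nat_lit 5) (nat_lit 63) (nat_lit 5) (nat_lit 270) (nat_lit 230) (nat_lit 220)) (XT.lf (nat_lit 0) (nat_lit 6012114336) (nat_lit 420) (nat_lit 1772131326) (nat_lit 84) (nat_lit 1576111783) (nat_lit 58) (nat_lit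 5) (nat_lit 63) (nat_lit 5) (nat_lit 59) (nat_lit 4) (nat_lit 271) (nat_lit 230) (nat_lit 219))) (XT.nd (nat_lit 94) (nat_lit 924) (nat_lit 0) (XT.lf (nat_lit 0) (nat_lit 2324677348) (nat_lit 336) (nat_lit 222741734) (nat_lit 84) (nat_lit 7025610634) (nat_lit 54) (nat_lit 5) (nat_lit 58) (nat_lit 5) (nat_lit 55) (nat_lit 5) (nat_lit 272) (nat_lit 230) (nat_lit 218)) (XT.nd (nat_lit 94) (nat_lit 336) (nat_lit 0) (XT.lf (nat_lit 0) (nat_lit 1402232452) (nat_lit 252) (nat_lit 6807397685) (nat_lit 336) (nat_lit 1585050901) (nat_lit 47) (nat_lit 5) (nat_lit 50) (nat_lit 5) (nat_lit 51) (nat_lit 4) (nat_lit 273) (nat_lit 230) (nat_lit 217)) (XT.lf (nat_lit 0) (nat_lit 3071923347) (nat_lit 252) (nat_lit 1187604939) (nat_lit 336) (nat_lit 5766290637) (nat_lit 43) (nat_lit 5) (nat_lit 46) (nat_lit 5) (nat_lit 47) (nat_lit 5) (nat_lit 274) (nat_lit 230) (nat_lit 216))))) (XT.nd (nat_lit 282) (nat_lit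 924) (nat_lit 0) (XT.nd (nat_lit 94) (nat_lit 588) (nat_lit 0) (XT.lf (nat_lit 0) (nat_lit 112523426) (nat_lit 336) (nat_lit 5479663900) (nat_lit 84) (nat_lit 4674807348) (nat_lit 39) (nat_lit 5) (nat_lit 43) (nat_lit 5) (nat_lit 40) (nat_lit 5) (nat_lit 275) (nat_lit 230) (nat_lit 215)) (XT.nd (nat_lit 94) (nat_lit 336) (nat_lit 0) (XT.lf (nat_lit 0) (nat_lit 6143004456) (nat_lit 336) (nat_lit 3982268746) (nat_lit 84) (nat_lit 392769515) (nat_lit 36) (nat_lit 5) (nat_lit 40) (nat_lit 5) (nat_lit 37) (nat_lit 4) (nat_lit 276) (nat_lit 230) (nat_lit 214)) (XT.lf (nat_lit 0) (nat_lit 1703946894) (nat_lit 336) (nat_lit 2461050815) (nat_lit 84) (nat_lit 6614270906) (nat_lit 32) (nat_lit 5) (nat_lit 36) (nat_lit 5) (nat_lit 33) (nat_lit 5) (nat_lit 277) (nat_lit 230) (nat_lit 213)))) (XT.nd (nat_lit 94) (nat_lit 672) (nat_lit 0) (XT.lf (nat_lit 0) (nat_lit 7995764971) (nat_lit 336) (nat_lit 906223279)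 (nat_lit 84) (nat_lit 2149319537) (nat_lit 29) (nat_lit 5) (nat_lit 33) (nat_lit 5) (nat_lit 30) (nat_lit 4) (nat_lit 278) (nat_lit 230) (nat_lit 212)) (XT.nd (nat_lit 94) (nat_lit 168) (nat_lit 0) (XT.lf (nat_lit 0) (nat_lit 688333472) (nat_lit 252) (nat_lit 2554632762) (nat_lit 336) (nat_lit 8090897103) (nat_lit 23) (nat_lit 5) (nat_lit 26) (nat_lit 5) (nat_lit 27) (nat_lit 5) (nat_lit 279) (nat_lit 230) (nat_lit 211)) (XT.lf (nat_lit 0) (nat_lit 2332766270) (nat_lit 168) (nat_lit 7508239401) (nat_lit 252) (nat_lit 1786282532) (nat_lit 21) (nat_lit 5) (nat_lit 23) (nat_lit 5) (nat_lit 24) (nat_lit 4) (nat_lit 280) (nat_lit 230) (nat_lit 210))))))) (XT.nd (nat_lit 43804) (nat_lit 0) (nat_lit 2016) (XT.nd (nat_lit 43240) (nat_lit 0) (nat_lit 6636) (XT.nd (nat_lit 188) (nat_lit 252) (nat_lit 0) (XT.nd (nat_lit 94) (nat_lit 168) (nat_lit 0) (XT.lf (nat_lit 0) (nat_lit 4005268351) (nat_lit 252)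 (nat_lit 754570837) (nat_lit 336) (nat_lit 7172404568) (nat_lit 17) (nat_lit 5) (nat_lit 20) (nat_lit 5) (nat_lit 21) (nat_lit 5) (nat_lit 281) (nat_lit 230) (nat_lit 209)) (XT.lf (nat_lit 0) (nat_lit 5698617996) (nat_lit 168) (nat_lit 5974743293) (nat_lit 252) (nat_lit 575462588) (nat_lit 15) (nat_lit 5) (nat_lit 17) (nat_lit 5) (nat_lit 18) (nat_lit 4) (nat_lit 282) (nat_lit 230) (nat_lit 208))) (XT.nd (nat_lit 42864) (nat_lit 0) (nat_lit 10248) (XT.lf (nat_lit 0) (nat_lit 6247007256) (nat_lit 252) (nat_lit 5164908026) (nat_lit 84) (nat_lit 1165451624) (nat_lit 12) (nat_lit 5) (nat_lit 15) (nat_lit 5) (nat_lit 13) (nat_lit 4) (nat_lit 283) (nat_lit 230) (nat_lit 207)) (XT.nd (nat_lit 94) (nat_lit 672) (nat_lit 0) (XT.lf (nat_lit 0) (nat_lit 1281364233) (nat_lit 672) (nat_lit 1124435625) (nat_lit 0) (nat_lit 1281364233) (nat_lit 142) (nat_lit 5) (nat_lit 150) (nat_lit 4) (nat_lit 142) (nat_lit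 4) (nat_lit 258) (nat_lit 231) (nat_lit 231)) (XT.lf (nat_lit 0) (nat_lit 384832464) (nat_lit 672) (nat_lit 1362261089) (nat_lit 84) (nat_lit 5735458173) (nat_lit 134) (nat_lit 5) (nat_lit 142) (nat_lit 5) (nat_lit 135) (nat_lit 4) (nat_lit 259) (nat_lit 231) (nat_lit 230))))) (XT.nd (nat_lit 282) (nat_lit 1428) (nat_lit 0) (XT.nd (nat_lit 94) (nat_lit 1680) (nat_lit 0) (XT.lf (nat_lit 0) (nat_lit 5614057859) (nat_lit 588) (nat_lit 417021278) (nat_lit 0) (nat_lit 1567073669) (nat_lit 128) (nat_lit 5) (nat_lit 135) (nat_lit 4) (nat_lit 128) (nat_lit 4) (nat_lit 260) (nat_lit 231) (nat_lit 229)) (XT.nd (nat_lit 94) (nat_lit 588) (nat_lit 0) (XT.lf (nat_lit 0) (nat_lit 614097167) (nat_lit 504) (nat_lit 2600258304) (nat_lit 588) (nat_lit 4507151748) (nat_lit 115) (nat_lit 5) (nat_lit 121) (nat_lit 5) (nat_lit 122) (nat_lit 4) (nat_lit 261) (nat_lit 231) (nat_lit 228)) (XT.lf (nat_lit 0) (nat_lit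 661379900) (nat_lit 588) (nat_lit 6110824413) (nat_lit 84) (nat_lit 1081081309) (nat_lit 108) (nat_lit 5) (nat_lit 115) (nat_lit 5) (nat_lit 109) (nat_lit 4) (nat_lit 262) (nat_lit 231) (nat_lit 227)))) (XT.nd (nat_lit 94) (nat_lit 1008) (nat_lit 0) (XT.lf (nat_lit 0) (nat_lit 2916452924) (nat_lit 420) (nat_lit 2990599787) (nat_lit 504) (nat_lit 2085343944) (nat_lit 103) (nat_lit 5) (nat_lit 108) (nat_lit 5) (nat_lit 109) (nat_lit 4) (nat_lit 263) (nat_lit 231) (nat_lit 226)) (XT.nd (nat_lit 94) (nat_lit 504) (nat_lit 0) (XT.lf (nat_lit 0) (nat_lit 3116947313) (nat_lit 504) (nat_lit 3969674876) (nat_lit 84) (nat_lit 1053548966) (nat_lit 97) (nat_lit 5) (nat_lit 103) (nat_lit 5) (nat_lit 98) (nat_lit 4) (nat_lit 264) (nat_lit 231) (nat_lit 225)) (XT.lf (nat_lit 0) (nat_lit 175585740) (nat_lit 504) (nat_lit 2806269843) (nat_lit 84) (nat_lit 5314433863) (nat_lit 91) (nat_lit 5) (nat_lit 97) (nat_lit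 5) (nat_lit 92) (nat_lit 5) (nat_lit 265) (nat_lit 231) (nat_lit 224)))))) (XT.nd (nat_lit 470) (nat_lit 2184) (nat_lit 0) (XT.nd (nat_lit 188) (nat_lit 1596) (nat_lit 0) (XT.nd (nat_lit 94) (nat_lit 420) (nat_lit 0) (XT.lf (nat_lit 0) (nat_lit 5448859196) (nat_lit 504) (nat_lit 1599293351) (nat_lit 84) (nat_lit 1412310156) (nat_lit 86) (nat_lit 5) (nat_lit 92) (nat_lit 5) (nat_lit 87) (nat_lit 4) (nat_lit 266) (nat_lit 231) (nat_lit 223)) (XT.lf (nat_lit 0) (nat_lit 2260066230) (nat_lit 420) (nat_lit 336550245) (nat_lit 84) (nat_lit 6036694245) (nat_lit 81) (nat_lit 5) (nat_lit 86) (nat_lit 5) (nat_lit 82) (nat_lit 5) (nat_lit 267) (nat_lit 231) (nat_lit 222))) (XT.nd (nat_lit 94) (nat_lit 840) (nat_lit 0) (XT.lf (nat_lit 0) (nat_lit 1006324364) (nat_lit 336) (nat_lit 6685081486) (nat_lit 420) (nat_lit 1123289582) (nat_lit 72) (nat_lit 5) (nat_lit 76) (nat_lit 5) (nat_lit 77) (nat_lit 4)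 (nat_lit 268) (nat_lit 231) (nat_lit 221)) (XT.nd (nat_lit 94) (nat_lit 420) (nat_lit 0) (XT.lf (nat_lit 0) (nat_lit 2395006964) (nat_lit 336) (nat_lit 1868233672) (nat_lit 420) (nat_lit 4741121126) (nat_lit 67) (nat_lit 5) (nat_lit 71) (nat_lit 5) (nat_lit 72) (nat_lit 5) (nat_lit 269) (nat_lit 231) (nat_lit 220)) (XT.lf (nat_lit 0) (nat_lit 655433083) (nat_lit 420) (nat_lit 5359211610) (nat_lit 84) (nat_lit 3188776353) (nat_lit 62) (nat_lit 5) (nat_lit 67) (nat_lit 5) (nat_lit 63) (nat_lit 5) (nat_lit 270) (nat_lit 231) (nat_lit 219))))) (XT.nd (nat_lit 282) (nat_lit 1176) (nat_lit 0) (XT.nd (nat_lit 94) (nat_lit 672) (nat_lit 0) (XT.lf (nat_lit 0) (nat_lit 5333226480) (nat_lit 336) (nat_lit 849863308) (nat_lit 420) (nat_lit 3228306841) (nat_lit 58) (nat_lit 5) (nat_lit 62) (nat_lit 5) (nat_lit 63) (nat_lit 5) (nat_lit 271) (nat_lit 231) (nat_lit 218)) (XT.nd (nat_lit 94) (nat_lit 336) (nat_lit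 0) (XT.lf (nat_lit 0) (nat_lit 2314289865) (nat_lit 336) (nat_lit 2767378452) (nat_lit 84) (nat_lit 4546819961) (nat_lit 54) (nat_lit 5) (nat_lit 58) (nat_lit 5) (nat_lit 55) (nat_lit 5) (nat_lit 272) (nat_lit 231) (nat_lit 217)) (XT.lf (nat_lit 0) (nat_lit 8036768559) (nat_lit 420) (nat_lit 1401654572) (nat_lit 84) (nat_lit 417403064) (nat_lit 50) (nat_lit 5) (nat_lit 55) (nat_lit 5) (nat_lit 51) (nat_lit 4) (nat_lit 273) (nat_lit 231) (nat_lit 216)))) (XT.nd (nat_lit 94) (nat_lit 840) (nat_lit 0) (XT.lf (nat_lit 0) (nat_lit 3892894581) (nat_lit 336) (nat_lit 32010392) (nat_lit 84) (nat_lit 6166978016) (nat_lit 46) (nat_lit 5) (nat_lit 50) (nat_lit 5) (nat_lit 47) (nat_lit 5) (nat_lit 274) (nat_lit 231) (nat_lit 215)) (XT.nd (nat_lit 94) (nat_lit 336) (nat_lit 0) (XT.lf (nat_lit 0) (nat_lit 1434534147) (nat_lit 252) (nat_lit 8427320758) (nat_lit 336) (nat_lit 476627708) (nat_lit 40) (nat_lit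 5) (nat_lit 43) (nat_lit 5) (nat_lit 44) (nat_lit 4) (nat_lit 275) (nat_lit 231) (nat_lit 214)) (XT.lf (nat_lit 0) (nat_lit 2902702738) (nat_lit 252) (nat_lit 2533120461) (nat_lit 336) (nat_lit 5158402633) (nat_lit 36) (nat_lit 5) (nat_lit 39) (nat_lit 5) (nat_lit 40) (nat_lit 5) (nat_lit 276) (nat_lit 231) (nat_lit 213))))))))
noncomputable def xc4 : XT := (XT.nd (nat_lit 44556) (nat_lit 0) (nat_lit 168) (XT.nd (nat_lit 43522) (nat_lit 0) (nat_lit 4620) (XT.nd (nat_lit 470) (nat_lit 672) (nat_lit 0) (XT.nd (nat_lit 188) (nat_lit 756) (nat_lit 0) (XT.nd (nat_lit 94) (nat_lit 252) (nat_lit 0) (XT.lf (nat_lit 0) (nat_lit 782954517) (nat_lit 336) (nat_lit 6436719449) (nat_lit 84) (nat_lit 3641521917) (nat_lit 32) (nat_lit 5) (nat_lit 36) (nat_lit 5) (nat_lit 33) (nat_lit 5) (nat_lit 277) (nat_lit 231) (nat_lit 212)) (XT.lf (nat_lit 0) (nat_lit 5965981465) (nat_lit 252) (nat_lit 957069064) (nat_lit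 336) (nat_lit 4215494797) (nat_lit 29) (nat_lit 5) (nat_lit 32) (nat_lit 5) (nat_lit 33) (nat_lit 5) (nat_lit 278) (nat_lit 231) (nat_lit 211))) (XT.nd (nat_lit 94) (nat_lit 504) (nat_lit 0) (XT.lf (nat_lit 0) (nat_lit 1960777674) (nat_lit 252) (nat_lit 3894538189) (nat_lit 84) (nat_lit 5571436182) (nat_lit 26) (nat_lit 5) (nat_lit 29) (nat_lit 5) (nat_lit 27) (nat_lit 5) (nat_lit 279) (nat_lit 231) (nat_lit 210)) (XT.nd (nat_lit 94) (nat_lit 252) (nat_lit 0) (XT.lf (nat_lit 0) (nat_lit 8371886911) (nat_lit 336) (nat_lit 2586298678) (nat_lit 84) (nat_lit 768533881) (nat_lit 23) (nat_lit 5) (nat_lit 27) (nat_lit 5) (nat_lit 24) (nat_lit 4) (nat_lit 280) (nat_lit 231) (nat_lit 209)) (XT.lf (nat_lit 0) (nat_lit 3074564902) (nat_lit 252) (nat_lit 1281393287) (nat_lit 84) (nat_lit 7681658679) (nat_lit 20) (nat_lit 5) (nat_lit 23) (nat_lit 5) (nat_lit 21) (nat_lit 5) (nat_lit 281) (nat_lit 231)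 (nat_lit 208))))) (XT.nd (nat_lit 42770) (nat_lit 0) (nat_lit 10920) (XT.nd (nat_lit 94) (nat_lit 252) (nat_lit 0) (XT.lf (nat_lit 0) (nat_lit 55956765) (nat_lit 168) (nat_lit 9738153310) (nat_lit 252) (nat_lit 2566876106) (nat_lit 15) (nat_lit 5) (nat_lit 17) (nat_lit 5) (nat_lit 18) (nat_lit 4) (nat_lit 282) (nat_lit 231) (nat_lit 207)) (XT.lf (nat_lit 0) (nat_lit 1426447814) (nat_lit 168) (nat_lit 2719295295) (nat_lit 252) (nat_lit 8549987862) (nat_lit 12) (nat_lit 5) (nat_lit 14) (nat_lit 5) (nat_lit 15) (nat_lit 5) (nat_lit 283) (nat_lit 231) (nat_lit 206))) (XT.nd (nat_lit 94) (nat_lit 1344) (nat_lit 0) (XT.lf (nat_lit 0) (nat_lit 886918433) (nat_lit 1260) (nat_lit 1815310237) (nat_lit 0) (nat_lit 886918433) (nat_lit 158) (nat_lit 5) (nat_lit 173) (nat_lit 4) (nat_lit 158) (nat_lit 4) (nat_lit 256) (nat_lit 232) (nat_lit 232)) (XT.nd (nat_lit 94) (nat_lit 672) (nat_lit 0) (XT.lf (nat_lit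 0) (nat_lit 4232171587) (nat_lit 672) (nat_lit 2686941076) (nat_lit 672) (nat_lit 355432891) (nat_lit 150) (nat_lit 4) (nat_lit 158) (nat_lit 5) (nat_lit 158) (nat_lit 4) (nat_lit 257) (nat_lit 232) (nat_lit 231)) (XT.lf (nat_lit 0) (nat_lit 4696522054) (nat_lit 672) (nat_lit 2383504642) (nat_lit 0) (nat_lit 298461985) (nat_lit 142) (nat_lit 5) (nat_lit 150) (nat_lit 4) (nat_lit 142) (nat_lit 4) (nat_lit 258) (nat_lit 232) (nat_lit 230)))))) (XT.nd (nat_lit 470) (nat_lit 3024) (nat_lit 0) (XT.nd (nat_lit 188) (nat_lit 2100) (nat_lit 0) (XT.nd (nat_lit 94) (nat_lit 504) (nat_lit 0) (XT.lf (nat_lit 0) (nat_lit 2348630036) (nat_lit 672) (nat_lit 1661831425) (nat_lit 84) (nat_lit 3479534425) (nat_lit 134) (nat_lit 5) (nat_lit 142) (nat_lit 5) (nat_lit 135) (nat_lit 4) (nat_lit 259) (nat_lit 232) (nat_lit 229)) (XT.lf (nat_lit 0) (nat_lit 6762631120) (nat_lit 504) (nat_lit 682018176) (nat_lit 588)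 (nat_lit 165609885) (nat_lit 128) (nat_lit 5) (nat_lit 134) (nat_lit 5) (nat_lit 135) (nat_lit 4) (nat_lit 260) (nat_lit 232) (nat_lit 228))) (XT.nd (nat_lit 94) (nat_lit 1008) (nat_lit 0) (XT.lf (nat_lit 0) (nat_lit 1426807) (nat_lit 504) (nat_lit 4861292010) (nat_lit 588) (nat_lit 2874696723) (nat_lit 115) (nat_lit 5) (nat_lit 121) (nat_lit 5) (nat_lit 122) (nat_lit 4) (nat_lit 261) (nat_lit 232) (nat_lit 227)) (XT.nd (nat_lit 94) (nat_lit 420) (nat_lit 0) (XT.lf (nat_lit 0) (nat_lit 957997184) (nat_lit 504) (nat_lit 1170665321) (nat_lit 588) (nat_lit 5744380340) (nat_lit 108) (nat_lit 5) (nat_lit 114) (nat_lit 5) (nat_lit 115) (nat_lit 5) (nat_lit 262) (nat_lit 232) (nat_lit 226)) (XT.lf (nat_lit 0) (nat_lit 1971523307) (nat_lit 420) (nat_lit 5275658982) (nat_lit 504) (nat_lit 769421945) (nat_lit 103) (nat_lit 5) (nat_lit 108) (nat_lit 5) (nat_lit 109) (nat_lit 4) (nat_lit 263) (nat_lit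 232) (nat_lit 225))))) (XT.nd (nat_lit 282) (nat_lit 1596) (nat_lit 0) (XT.nd (nat_lit 94) (nat_lit 924) (nat_lit 0) (XT.lf (nat_lit 0) (nat_lit 3041959945) (nat_lit 420) (nat_lit 1235108511) (nat_lit 504) (nat_lit 3891205816) (nat_lit 97) (nat_lit 5) (nat_lit 102) (nat_lit 5) (nat_lit 103) (nat_lit 5) (nat_lit 264) (nat_lit 232) (nat_lit 224)) (XT.nd (nat_lit 94) (nat_lit 420) (nat_lit 0) (XT.lf (nat_lit 0) (nat_lit 1154013076) (nat_lit 504) (nat_lit 4153422627) (nat_lit 84) (nat_lit 3020992705) (nat_lit 91) (nat_lit 5) (nat_lit 97) (nat_lit 5) (nat_lit 92) (nat_lit 5) (nat_lit 265) (nat_lit 232) (nat_lit 223)) (XT.lf (nat_lit 0) (nat_lit 5366493775) (nat_lit 420) (nat_lit 931830273) (nat_lit 504) (nat_lit 2198791304) (nat_lit 86) (nat_lit 5) (nat_lit 91) (nat_lit 5) (nat_lit 92) (nat_lit 5) (nat_lit 266) (nat_lit 232) (nat_lit 222)))) (XT.nd (nat_lit 94) (nat_lit 1176) (nat_lit 0) (XT.lf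 (nat_lit 0) (nat_lit 2930602302) (nat_lit 420) (nat_lit 2073845800) (nat_lit 84) (nat_lit 3669532908) (nat_lit 81) (nat_lit 5) (nat_lit 86) (nat_lit 5) (nat_lit 82) (nat_lit 5) (nat_lit 267) (nat_lit 232) (nat_lit 221)) (XT.nd (nat_lit 94) (nat_lit 756) (nat_lit 0) (XT.lf (nat_lit 0) (nat_lit 7914723967) (nat_lit 420) (nat_lit 299343260) (nat_lit 504) (nat_lit 646474110) (nat_lit 76) (nat_lit 5) (nat_lit 81) (nat_lit 5) (nat_lit 82) (nat_lit 5) (nat_lit 268) (nat_lit 232) (nat_lit 220)) (XT.lf (nat_lit 0) (nat_lit 190076155) (nat_lit 336) (nat_lit 4409163421) (nat_lit 420) (nat_lit 4455332323) (nat_lit 67) (nat_lit 5) (nat_lit 71) (nat_lit 5) (nat_lit 72) (nat_lit 5) (nat_lit 269) (nat_lit 232) (nat_lit 219))))))) (XT.nd (nat_lit 1034) (nat_lit 756) (nat_lit 0) (XT.nd (nat_lit 470) (nat_lit 1932) (nat_lit 0) (XT.nd (nat_lit 188) (nat_lit 1008) (nat_lit 0) (XT.nd (nat_lit 94) (nat_lit 336)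 (nat_lit 0) (XT.lf (nat_lit 0) (nat_lit 789126228) (nat_lit 420) (nat_lit 7829557718) (nat_lit 84) (nat_lit 639932332) (nat_lit 62) (nat_lit 5) (nat_lit 67) (nat_lit 5) (nat_lit 63) (nat_lit 5) (nat_lit 270) (nat_lit 232) (nat_lit 218)) (XT.lf (nat_lit 0) (nat_lit 2671870553) (nat_lit 336) (nat_lit 3528309044) (nat_lit 420) (nat_lit 3270493381) (nat_lit 58) (nat_lit 5) (nat_lit 62) (nat_lit 5) (nat_lit 63) (nat_lit 5) (nat_lit 271) (nat_lit 232) (nat_lit 217))) (XT.nd (nat_lit 94) (nat_lit 672) (nat_lit 0) (XT.lf (nat_lit 0) (nat_lit 2124659224) (nat_lit 336) (nat_lit 5715653067) (nat_lit 84) (nat_lit 1852662811) (nat_lit 54) (nat_lit 5) (nat_lit 58) (nat_lit 5) (nat_lit 55) (nat_lit 5) (nat_lit 272) (nat_lit 232) (nat_lit 216)) (XT.nd (nat_lit 94) (nat_lit 336) (nat_lit 0) (XT.lf (nat_lit 0) (nat_lit 5311030462) (nat_lit 336) (nat_lit 2413241765) (nat_lit 420) (nat_lit 2200341089) (nat_lit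 50) (nat_lit 5) (nat_lit 54) (nat_lit 5) (nat_lit 55) (nat_lit 5) (nat_lit 273) (nat_lit 232) (nat_lit 215)) (XT.lf (nat_lit 0) (nat_lit 3372954996) (nat_lit 336) (nat_lit 3489310105) (nat_lit 84) (nat_lit 3303709251) (nat_lit 46) (nat_lit 5) (nat_lit 50) (nat_lit 5) (nat_lit 47) (nat_lit 5) (nat_lit 274) (nat_lit 232) (nat_lit 214))))) (XT.nd (nat_lit 282) (nat_lit 840) (nat_lit 0) (XT.nd (nat_lit 94) (nat_lit 840) (nat_lit 0) (XT.lf (nat_lit 0) (nat_lit 8096935152) (nat_lit 252) (nat_lit 1087135394) (nat_lit 336) (nat_lit 1234027997) (nat_lit 43) (nat_lit 5) (nat_lit 46) (nat_lit 5) (nat_lit 47) (nat_lit 5) (nat_lit 275) (nat_lit 232) (nat_lit 213)) (XT.nd (nat_lit 94) (nat_lit 504) (nat_lit 0) (XT.lf (nat_lit 0) (nat_lit 4544537265) (nat_lit 336) (nat_lit 1162109553) (nat_lit 84) (nat_lit 4972777383) (nat_lit 39) (nat_lit 5) (nat_lit 43) (nat_lit 5) (nat_lit 40) (nat_lit 5) (nat_lit 276)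 (nat_lit 232) (nat_lit 212)) (XT.lf (nat_lit 0) (nat_lit 64100234) (nat_lit 252) (nat_lit 10531803969) (nat_lit 336) (nat_lit 356942777) (nat_lit 33) (nat_lit 5) (nat_lit 36) (nat_lit 5) (nat_lit 37) (nat_lit 4) (nat_lit 277) (nat_lit 232) (nat_lit 211)))) (XT.nd (nat_lit 94) (nat_lit 504) (nat_lit 0) (XT.lf (nat_lit 0) (nat_lit 1284678996) (nat_lit 252) (nat_lit 4377863456) (nat_lit 336) (nat_lit 5572297817) (nat_lit 29) (nat_lit 5) (nat_lit 32) (nat_lit 5) (nat_lit 33) (nat_lit 5) (nat_lit 278) (nat_lit 232) (nat_lit 210)) (XT.nd (nat_lit 94) (nat_lit 252) (nat_lit 0) (XT.lf (nat_lit 0) (nat_lit 464381320) (nat_lit 252) (nat_lit 8957939131) (nat_lit 84) (nat_lit 2107218182) (nat_lit 26) (nat_lit 5) (nat_lit 29) (nat_lit 5) (nat_lit 27) (nat_lit 5) (nat_lit 279) (nat_lit 232) (nat_lit 209)) (XT.lf (nat_lit 0) (nat_lit 3841328424) (nat_lit 252) (nat_lit 2892782684) (nat_lit 336) (nat_lit 5100343230)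 (nat_lit 23) (nat_lit 5) (nat_lit 26) (nat_lit 5) (nat_lit 27) (nat_lit 5) (nat_lit 280) (nat_lit 232) (nat_lit 208)))))) (XT.nd (nat_lit 42864) (nat_lit 0) (nat_lit 8988) (XT.nd (nat_lit 188) (nat_lit 252) (nat_lit 0) (XT.nd (nat_lit 94) (nat_lit 252) (nat_lit 0) (XT.lf (nat_lit 0) (nat_lit 1199917752) (nat_lit 252) (nat_lit 6998905342) (nat_lit 84) (nat_lit 3953114362) (nat_lit 20) (nat_lit 5) (nat_lit 23) (nat_lit 5) (nat_lit 21) (nat_lit 5) (nat_lit 281) (nat_lit 232) (nat_lit 207)) (XT.lf (nat_lit 0) (nat_lit 6471993715) (nat_lit 252) (nat_lit 1279779852) (nat_lit 336) (nat_lit 4729402330) (nat_lit 17) (nat_lit 5) (nat_lit 20) (nat_lit 5) (nat_lit 21) (nat_lit 5) (nat_lit 282) (nat_lit 232) (nat_lit 206))) (XT.nd (nat_lit 42488) (nat_lit 0) (nat_lit 13356) (XT.lf (nat_lit 0) (nat_lit 1861496555) (nat_lit 252) (nat_lit 5018738119) (nat_lit 84) (nat_lit 5942505735) (nat_lit 14) (nat_lit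 5) (nat_lit 17) (nat_lit 5) (nat_lit 15) (nat_lit 5) (nat_lit 283) (nat_lit 232) (nat_lit 205)) (XT.nd (nat_lit 94) (nat_lit 1092) (nat_lit 0) (XT.lf (nat_lit 0) (nat_lit 644019822) (nat_lit 1092) (nat_lit 2214753542) (nat_lit 0) (nat_lit 644019822) (nat_lit 186) (nat_lit 5) (nat_lit 199) (nat_lit 4) (nat_lit 186) (nat_lit 4) (nat_lit 254) (nat_lit 233) (nat_lit 233)) (XT.lf (nat_lit 0) (nat_lit 2953075721) (nat_lit 1092) (nat_lit 3335340727) (nat_lit 1092) (nat_lit 801574207) (nat_lit 173) (nat_lit 4) (nat_lit 186) (nat_lit 5) (nat_lit 186) (nat_lit 4) (nat_lit 255) (nat_lit 233) (nat_lit 232))))) (XT.nd (nat_lit 282) (nat_lit 1764) (nat_lit 0) (XT.nd (nat_lit 94) (nat_lit 1344) (nat_lit 0) (XT.lf (nat_lit 0) (nat_lit 3415684603) (nat_lit 1176) (nat_lit 693682519) (nat_lit 1260) (nat_lit 3072866452) (nat_lit 158) (nat_lit 5) (nat_lit 172) (nat_lit 5) (nat_lit 173) (nat_lit 4) (nat_lit 256)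 (nat_lit 233) (nat_lit 231)) (XT.nd (nat_lit 94) (nat_lit 588) (nat_lit 0) (XT.lf (nat_lit 0) (nat_lit 1804769601) (nat_lit 756) (nat_lit 3327369625) (nat_lit 84) (nat_lit 2150005357) (nat_lit 149) (nat_lit 5) (nat_lit 158) (nat_lit 5) (nat_lit 150) (nat_lit 4) (nat_lit 257) (nat_lit 233) (nat_lit 230)) (XT.lf (nat_lit 0) (nat_lit 4578455703) (nat_lit 588) (nat_lit 2150427894) (nat_lit 672) (nat_lit 661257866) (nat_lit 142) (nat_lit 5) (nat_lit 149) (nat_lit 5) (nat_lit 150) (nat_lit 4) (nat_lit 258) (nat_lit 233) (nat_lit 229)))) (XT.nd (nat_lit 94) (nat_lit 1092) (nat_lit 0) (XT.lf (nat_lit 0) (nat_lit 4184151013) (nat_lit 672) (nat_lit 2237781045) (nat_lit 84) (nat_lit 1083806522) (nat_lit 134) (nat_lit 5) (nat_lit 142) (nat_lit 5) (nat_lit 135) (nat_lit 4) (nat_lit 259) (nat_lit 233) (nat_lit 228)) (XT.nd (nat_lit 94) (nat_lit 504) (nat_lit 0) (XT.lf (nat_lit 0) (nat_lit 1502194726) (nat_lit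 588) (nat_lit 1598027252) (nat_lit 84) (nat_lit 4529141143) (nat_lit 127) (nat_lit 5) (nat_lit 134) (nat_lit 5) (nat_lit 128) (nat_lit 5) (nat_lit 260) (nat_lit 233) (nat_lit 227)) (XT.lf (nat_lit 0) (nat_lit 6386871465) (nat_lit 588) (nat_lit 887569958) (nat_lit 84) (nat_lit 486909864) (nat_lit 121) (nat_lit 5) (nat_lit 128) (nat_lit 5) (nat_lit 122) (nat_lit 4) (nat_lit 261) (nat_lit 233) (nat_lit 226))))))))
noncomputable def xc5 : XT := (XT.nd (nat_lit 44274) (nat_lit 0) (nat_lit 3276) (XT.nd (nat_lit 1034) (nat_lit 3276) (nat_lit 0) (XT.nd (nat_lit 470) (nat_lit 2688) (nat_lit 0) (XT.nd (nat_lit 188) (nat_lit 1344) (nat_lit 0) (XT.nd (nat_lit 94) (nat_lit 1008) (nat_lit 0) (XT.lf (nat_lit 0) (nat_lit 3472096307) (nat_lit 588) (nat_lit 140274906) (nat_lit 84) (nat_lit 4288319169) (nat_lit 114) (nat_lit 5) (nat_lit 121) (nat_lit 5) (nat_lit 115) (nat_lit 5) (nat_lit 262) (nat_lit 233) (nat_lit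 225)) (XT.lf (nat_lit 0) (nat_lit 390872219) (nat_lit 504) (nat_lit 7338657879) (nat_lit 84) (nat_lit 319517233) (nat_lit 102) (nat_lit 5) (nat_lit 108) (nat_lit 5) (nat_lit 103) (nat_lit 5) (nat_lit 263) (nat_lit 233) (nat_lit 224))) (XT.nd (nat_lit 94) (nat_lit 924) (nat_lit 0) (XT.lf (nat_lit 0) (nat_lit 1581653003) (nat_lit 420) (nat_lit 3725574195) (nat_lit 504) (nat_lit 2897134242) (nat_lit 97) (nat_lit 5) (nat_lit 102) (nat_lit 5) (nat_lit 103) (nat_lit 5) (nat_lit 264) (nat_lit 233) (nat_lit 223)) (XT.nd (nat_lit 94) (nat_lit 420) (nat_lit 0) (XT.lf (nat_lit 0) (nat_lit 1984517405) (nat_lit 504) (nat_lit 5834267093) (nat_lit 84) (nat_lit 550279375) (nat_lit 91) (nat_lit 5) (nat_lit 97) (nat_lit 5) (nat_lit 92) (nat_lit 5) (nat_lit 265) (nat_lit 233) (nat_lit 222)) (XT.lf (nat_lit 0) (nat_lit 3520050115) (nat_lit 420) (nat_lit 3496755724) (nat_lit 504) (nat_lit 1524865766) (nat_lit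 86) (nat_lit 5) (nat_lit 91) (nat_lit 5) (nat_lit 92) (nat_lit 5) (nat_lit 266) (nat_lit 233) (nat_lit 221))))) (XT.nd (nat_lit 282) (nat_lit 1428) (nat_lit 0) (XT.nd (nat_lit 94) (nat_lit 840) (nat_lit 0) (XT.lf (nat_lit 0) (nat_lit 3447618995) (nat_lit 420) (nat_lit 4160999221) (nat_lit 84) (nat_lit 1114613214) (nat_lit 81) (nat_lit 5) (nat_lit 86) (nat_lit 5) (nat_lit 82) (nat_lit 5) (nat_lit 267) (nat_lit 233) (nat_lit 220)) (XT.nd (nat_lit 94) (nat_lit 420) (nat_lit 0) (XT.lf (nat_lit 0) (nat_lit 5654132987) (nat_lit 420) (nat_lit 2964865909) (nat_lit 504) (nat_lit 294715838) (nat_lit 76) (nat_lit 5) (nat_lit 81) (nat_lit 5) (nat_lit 82) (nat_lit 5) (nat_lit 268) (nat_lit 233) (nat_lit 219)) (XT.lf (nat_lit 0) (nat_lit 4797669658) (nat_lit 420) (nat_lit 2336141913) (nat_lit 84) (nat_lit 1978883879) (nat_lit 71) (nat_lit 5) (nat_lit 76) (nat_lit 5) (nat_lit 72) (nat_lit 5) (nat_lit 269)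 (nat_lit 233) (nat_lit 218)))) (XT.nd (nat_lit 94) (nat_lit 1008) (nat_lit 0) (XT.lf (nat_lit 0) (nat_lit 790949075) (nat_lit 420) (nat_lit 1361891293) (nat_lit 84) (nat_lit 7168580325) (nat_lit 66) (nat_lit 5) (nat_lit 71) (nat_lit 5) (nat_lit 67) (nat_lit 5) (nat_lit 270) (nat_lit 233) (nat_lit 217)) (XT.nd (nat_lit 94) (nat_lit 672) (nat_lit 0) (XT.lf (nat_lit 0) (nat_lit 6049729661) (nat_lit 420) (nat_lit 374883207) (nat_lit 84) (nat_lit 3114194074) (nat_lit 62) (nat_lit 5) (nat_lit 67) (nat_lit 5) (nat_lit 63) (nat_lit 5) (nat_lit 271) (nat_lit 233) (nat_lit 216)) (XT.lf (nat_lit 0) (nat_lit 679512142) (nat_lit 252) (nat_lit 1087943813) (nat_lit 336) (nat_lit 7998763499) (nat_lit 54) (nat_lit 5) (nat_lit 57) (nat_lit 5) (nat_lit 58) (nat_lit 5) (nat_lit 272) (nat_lit 233) (nat_lit 215)))))) (XT.nd (nat_lit 470) (nat_lit 1764) (nat_lit 0) (XT.nd (nat_lit 188) (nat_lit 840) (nat_lit 0)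 (XT.nd (nat_lit 94) (nat_lit 336) (nat_lit 0) (XT.lf (nat_lit 0) (nat_lit 1749035800) (nat_lit 336) (nat_lit 5487145901) (nat_lit 420) (nat_lit 2766257022) (nat_lit 50) (nat_lit 5) (nat_lit 54) (nat_lit 5) (nat_lit 55) (nat_lit 5) (nat_lit 273) (nat_lit 233) (nat_lit 214)) (XT.lf (nat_lit 0) (nat_lit 2664243751) (nat_lit 336) (nat_lit 7377861094) (nat_lit 84) (nat_lit 207362554) (nat_lit 46) (nat_lit 5) (nat_lit 50) (nat_lit 5) (nat_lit 47) (nat_lit 5) (nat_lit 274) (nat_lit 233) (nat_lit 213))) (XT.nd (nat_lit 94) (nat_lit 588) (nat_lit 0) (XT.lf (nat_lit 0) (nat_lit 3995343457) (nat_lit 252) (nat_lit 4358694073) (nat_lit 336) (nat_lit 2151800323) (nat_lit 43) (nat_lit 5) (nat_lit 46) (nat_lit 5) (nat_lit 47) (nat_lit 5) (nat_lit 275) (nat_lit 233) (nat_lit 212)) (XT.nd (nat_lit 94) (nat_lit 252) (nat_lit 0) (XT.lf (nat_lit 0) (nat_lit 3486776555) (nat_lit 336) (nat_lit 5614398750) (nat_lit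 84) (nat_lit 1671974050) (nat_lit 39) (nat_lit 5) (nat_lit 43) (nat_lit 5) (nat_lit 40) (nat_lit 5) (nat_lit 276) (nat_lit 233) (nat_lit 211)) (XT.lf (nat_lit 0) (nat_lit 6344466682) (nat_lit 252) (nat_lit 3063656302) (nat_lit 336) (nat_lit 1642999868) (nat_lit 36) (nat_lit 5) (nat_lit 39) (nat_lit 5) (nat_lit 40) (nat_lit 5) (nat_lit 277) (nat_lit 233) (nat_lit 210))))) (XT.nd (nat_lit 282) (nat_lit 924) (nat_lit 0) (XT.nd (nat_lit 94) (nat_lit 504) (nat_lit 0) (XT.lf (nat_lit 0) (nat_lit 4230018768) (nat_lit 336) (nat_lit 3796526924) (nat_lit 84) (nat_lit 3313218925) (nat_lit 32) (nat_lit 5) (nat_lit 36) (nat_lit 5) (nat_lit 33) (nat_lit 5) (nat_lit 278) (nat_lit 233) (nat_lit 209)) (XT.nd (nat_lit 94) (nat_lit 252) (nat_lit 0) (XT.lf (nat_lit 0) (nat_lit 8786586512) (nat_lit 252) (nat_lit 1619393399) (nat_lit 336) (nat_lit 1234491510) (nat_lit 29) (nat_lit 5) (nat_lit 32) (nat_lit 5) (nat_lit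 33) (nat_lit 5) (nat_lit 279) (nat_lit 233) (nat_lit 208)) (XT.lf (nat_lit 0) (nat_lit 4899499332) (nat_lit 252) (nat_lit 1935841625) (nat_lit 84) (nat_lit 5116258146) (nat_lit 26) (nat_lit 5) (nat_lit 29) (nat_lit 5) (nat_lit 27) (nat_lit 5) (nat_lit 280) (nat_lit 233) (nat_lit 207)))) (XT.nd (nat_lit 94) (nat_lit 672) (nat_lit 0) (XT.lf (nat_lit 0) (nat_lit 11312728910) (nat_lit 252) (nat_lit 41003706) (nat_lit 336) (nat_lit 922542382) (nat_lit 23) (nat_lit 5) (nat_lit 26) (nat_lit 5) (nat_lit 27) (nat_lit 5) (nat_lit 281) (nat_lit 233) (nat_lit 206)) (XT.nd (nat_lit 94) (nat_lit 420) (nat_lit 0) (XT.lf (nat_lit 0) (nat_lit 5499312208) (nat_lit 252) (nat_lit 43413560) (nat_lit 84) (nat_lit 7068429612) (nat_lit 20) (nat_lit 5) (nat_lit 23) (nat_lit 5) (nat_lit 21) (nat_lit 5) (nat_lit 282) (nat_lit 233) (nat_lit 205)) (XT.lf (nat_lit 0) (nat_lit 956638280) (nat_lit 168) (nat_lit 11328703872)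 (nat_lit 252) (nat_lit 674783242) (nat_lit 15) (nat_lit 5) (nat_lit 17) (nat_lit 5) (nat_lit 18) (nat_lit 4) (nat_lit 283) (nat_lit 233) (nat_lit 204))))))) (XT.nd (nat_lit 1034) (nat_lit 5040) (nat_lit 0) (XT.nd (nat_lit 470) (nat_lit 3696) (nat_lit 0) (XT.nd (nat_lit 188) (nat_lit 3444) (nat_lit 0) (XT.nd (nat_lit 94) (nat_lit 924) (nat_lit 0) (XT.lf (nat_lit 0) (nat_lit 551374362) (nat_lit 924) (nat_lit 2325238094) (nat_lit 0) (nat_lit 551374362) (nat_lit 210) (nat_lit 5) (nat_lit 221) (nat_lit 4) (nat_lit 210) (nat_lit 4) (nat_lit 252) (nat_lit 234) (nat_lit 234)) (XT.lf (nat_lit 0) (nat_lit 2280683444) (nat_lit 924) (nat_lit 3700819660) (nat_lit 924) (nat_lit 947248894) (nat_lit 199) (nat_lit 4) (nat_lit 210) (nat_lit 5) (nat_lit 210) (nat_lit 4) (nat_lit 253) (nat_lit 234) (nat_lit 233))) (XT.nd (nat_lit 94) (nat_lit 2352) (nat_lit 0) (XT.lf (nat_lit 0) (nat_lit 2442644264) (nat_lit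 1008) (nat_lit 1399450761) (nat_lit 1092) (nat_lit 3167215332) (nat_lit 186) (nat_lit 5) (nat_lit 198) (nat_lit 5) (nat_lit 199) (nat_lit 4) (nat_lit 254) (nat_lit 234) (nat_lit 232)) (XT.nd (nat_lit 94) (nat_lit 1176) (nat_lit 0) (XT.lf (nat_lit 0) (nat_lit 1573072571) (nat_lit 1176) (nat_lit 4406129654) (nat_lit 84) (nat_lit 1118591589) (nat_lit 172) (nat_lit 5) (nat_lit 186) (nat_lit 5) (nat_lit 173) (nat_lit 4) (nat_lit 255) (nat_lit 234) (nat_lit 231)) (XT.lf (nat_lit 0) (nat_lit 3012958655) (nat_lit 1176) (nat_lit 3335194621) (nat_lit 1260) (nat_lit 845689856) (nat_lit 158) (nat_lit 5) (nat_lit 172) (nat_lit 5) (nat_lit 173) (nat_lit 4) (nat_lit 256) (nat_lit 234) (nat_lit 230))))) (XT.nd (nat_lit 282) (nat_lit 1680) (nat_lit 0) (XT.nd (nat_lit 94) (nat_lit 1260) (nat_lit 0) (XT.lf (nat_lit 0) (nat_lit 3413074133) (nat_lit 672) (nat_lit 427223500) (nat_lit 756) (nat_lit 3457528176) (nat_lit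 149) (nat_lit 5) (nat_lit 157) (nat_lit 5) (nat_lit 158) (nat_lit 5) (nat_lit 257) (nat_lit 234) (nat_lit 229)) (XT.nd (nat_lit 94) (nat_lit 588) (nat_lit 0) (XT.lf (nat_lit 0) (nat_lit 1207654096) (nat_lit 672) (nat_lit 3529201439) (nat_lit 84) (nat_lit 2672641881) (nat_lit 141) (nat_lit 5) (nat_lit 149) (nat_lit 5) (nat_lit 142) (nat_lit 5) (nat_lit 258) (nat_lit 234) (nat_lit 228)) (XT.lf (nat_lit 0) (nat_lit 4421138838) (nat_lit 588) (nat_lit 1491242491) (nat_lit 672) (nat_lit 1616854414) (nat_lit 134) (nat_lit 5) (nat_lit 141) (nat_lit 5) (nat_lit 142) (nat_lit 5) (nat_lit 259) (nat_lit 234) (nat_lit 227)))) (XT.nd (nat_lit 94) (nat_lit 1092) (nat_lit 0) (XT.lf (nat_lit 0) (nat_lit 3038931882) (nat_lit 588) (nat_lit 2635366884) (nat_lit 84) (nat_lit 1982423698) (nat_lit 127) (nat_lit 5) (nat_lit 134) (nat_lit 5) (nat_lit 128) (nat_lit 5) (nat_lit 260) (nat_lit 234) (nat_lit 226)) (XT.nd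 (nat_lit 94) (nat_lit 504) (nat_lit 0) (XT.lf (nat_lit 0) (nat_lit 14007531) (nat_lit 588) (nat_lit 2092469079) (nat_lit 84) (nat_lit 5686305526) (nat_lit 120) (nat_lit 5) (nat_lit 127) (nat_lit 5) (nat_lit 121) (nat_lit 5) (nat_lit 261) (nat_lit 234) (nat_lit 225)) (XT.lf (nat_lit 0) (nat_lit 4695045886) (nat_lit 588) (nat_lit 1516794482) (nat_lit 84) (nat_lit 1724447884) (nat_lit 114) (nat_lit 5) (nat_lit 121) (nat_lit 5) (nat_lit 115) (nat_lit 5) (nat_lit 262) (nat_lit 234) (nat_lit 224)))))) (XT.nd (nat_lit 470) (nat_lit 2268) (nat_lit 0) (XT.nd (nat_lit 188) (nat_lit 1764) (nat_lit 0) (XT.nd (nat_lit 94) (nat_lit 420) (nat_lit 0) (XT.lf (nat_lit 0) (nat_lit 1429055925) (nat_lit 588) (nat_lit 878887833) (nat_lit 84) (nat_lit 5780517004) (nat_lit 107) (nat_lit 5) (nat_lit 114) (nat_lit 5) (nat_lit 108) (nat_lit 5) (nat_lit 263) (nat_lit 234) (nat_lit 223)) (XT.lf (nat_lit 0) (nat_lit 6200109962)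 (nat_lit 504) (nat_lit 196901747) (nat_lit 84) (nat_lit 1851848696) (nat_lit 102) (nat_lit 5) (nat_lit 108) (nat_lit 5) (nat_lit 103) (nat_lit 5) (nat_lit 264) (nat_lit 234) (nat_lit 222))) (XT.nd (nat_lit 94) (nat_lit 840) (nat_lit 0) (XT.lf (nat_lit 0) (nat_lit 540665678) (nat_lit 420) (nat_lit 2152392723) (nat_lit 504) (nat_lit 5724394807) (nat_lit 91) (nat_lit 5) (nat_lit 96) (nat_lit 5) (nat_lit 97) (nat_lit 5) (nat_lit 265) (nat_lit 234) (nat_lit 221)) (XT.nd (nat_lit 94) (nat_lit 420) (nat_lit 0) (XT.lf (nat_lit 0) (nat_lit 1334106878) (nat_lit 420) (nat_lit 6255807106) (nat_lit 504) (nat_lit 1004887108) (nat_lit 86) (nat_lit 5) (nat_lit 91) (nat_lit 5) (nat_lit 92) (nat_lit 5) (nat_lit 266) (nat_lit 234) (nat_lit 220)) (XT.lf (nat_lit 0) (nat_lit 2158916910) (nat_lit 336) (nat_lit 1672060743) (nat_lit 420) (nat_lit 4949549530) (nat_lit 81) (nat_lit 5) (nat_lit 85) (nat_lit 5) (nat_lit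 86) (nat_lit 5) (nat_lit 267) (nat_lit 234) (nat_lit 219))))) (XT.nd (nat_lit 282) (nat_lit 1008) (nat_lit 0) (XT.nd (nat_lit 94) (nat_lit 840) (nat_lit 0) (XT.lf (nat_lit 0) (nat_lit 3036435710) (nat_lit 420) (nat_lit 5835365496) (nat_lit 504) (nat_lit 103778752) (nat_lit 76) (nat_lit 5) (nat_lit 81) (nat_lit 5) (nat_lit 82) (nat_lit 5) (nat_lit 268) (nat_lit 234) (nat_lit 218)) (XT.nd (nat_lit 94) (nat_lit 420) (nat_lit 0) (XT.lf (nat_lit 0) (nat_lit 3938051788) (nat_lit 336) (nat_lit 910772595) (nat_lit 420) (nat_lit 4330402686) (nat_lit 71) (nat_lit 5) (nat_lit 75) (nat_lit 5) (nat_lit 76) (nat_lit 5) (nat_lit 269) (nat_lit 234) (nat_lit 217)) (XT.lf (nat_lit 0) (nat_lit 651263014) (nat_lit 420) (nat_lit 4510547700) (nat_lit 84) (nat_lit 4230510620) (nat_lit 66) (nat_lit 5) (nat_lit 71) (nat_lit 5) (nat_lit 67) (nat_lit 5) (nat_lit 270) (nat_lit 234) (nat_lit 216)))) (XT.nd (nat_lit 94)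 (nat_lit 672) (nat_lit 0) (XT.lf (nat_lit 0) (nat_lit 5761340187) (nat_lit 420) (nat_lit 3753323592) (nat_lit 84) (nat_lit 100248421) (nat_lit 62) (nat_lit 5) (nat_lit 67) (nat_lit 5) (nat_lit 63) (nat_lit 5) (nat_lit 271) (nat_lit 234) (nat_lit 215)) (XT.nd (nat_lit 94) (nat_lit 252) (nat_lit 0) (XT.lf (nat_lit 0) (nat_lit 1287415417) (nat_lit 420) (nat_lit 2982949880) (nat_lit 84) (nat_lit 5576434926) (nat_lit 57) (nat_lit 5) (nat_lit 62) (nat_lit 5) (nat_lit 58) (nat_lit 5) (nat_lit 272) (nat_lit 234) (nat_lit 214)) (XT.lf (nat_lit 0) (nat_lit 6591482997) (nat_lit 336) (nat_lit 2184682732) (nat_lit 84) (nat_lit 1312616799) (nat_lit 54) (nat_lit 5) (nat_lit 58) (nat_lit 5) (nat_lit 55) (nat_lit 5) (nat_lit 273) (nat_lit 234) (nat_lit 213))))))))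
noncomputable def xc6 : XT := (XT.nd (nat_lit 44086) (nat_lit 0) (nat_lit 252) (XT.nd (nat_lit 43052) (nat_lit 0) (nat_lit 8652) (XT.nd (nat_lit 470) (nat_lit 1260) (nat_lit 0) (XT.nd (nat_lit 188) (nat_lit 1176) (nat_lit 0) (XT.nd (nat_lit 94) (nat_lit 252) (nat_lit 0) (XT.lf (nat_lit 0) (nat_lit 1816364380) (nat_lit 420) (nat_lit 1369514025) (nat_lit 84) (nat_lit 7154887331) (nat_lit 49) (nat_lit 5) (nat_lit 54) (nat_lit 5) (nat_lit 50) (nat_lit 5) (nat_lit 274) (nat_lit 234) (nat_lit 212)) (XT.lf (nat_lit 0) (nat_lit 7338330289) (nat_lit 336) (nat_lit 538632671) (nat_lit 84) (nat_lit 2726047206) (nat_lit 46) (nat_lit 5) (nat_lit 50) (nat_lit 5) (nat_lit 47) (nat_lit 5) (nat_lit 275) (nat_lit 234) (nat_lit 211))) (XT.nd (nat_lit 94) (nat_lit 588) (nat_lit 0) (XT.lf (nat_lit 0) (nat_lit 323973051) (nat_lit 252) (nat_lit 1925157585) (nat_lit 336) (nat_lit 8626875032) (nat_lit 39) (nat_lit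 5) (nat_lit 42) (nat_lit 5) (nat_lit 43) (nat_lit 5) (nat_lit 276) (nat_lit 234) (nat_lit 210)) (XT.nd (nat_lit 94) (nat_lit 336) (nat_lit 0) (XT.lf (nat_lit 0) (nat_lit 1199532732) (nat_lit 252) (nat_lit 6823203126) (nat_lit 336) (nat_lit 3136414249) (nat_lit 36) (nat_lit 5) (nat_lit 39) (nat_lit 5) (nat_lit 40) (nat_lit 5) (nat_lit 277) (nat_lit 234) (nat_lit 209)) (XT.lf (nat_lit 0) (nat_lit 2111154454) (nat_lit 252) (nat_lit 492908792) (nat_lit 336) (nat_lit 8850135134) (nat_lit 32) (nat_lit 5) (nat_lit 35) (nat_lit 5) (nat_lit 36) (nat_lit 5) (nat_lit 278) (nat_lit 234) (nat_lit 208))))) (XT.nd (nat_lit 282) (nat_lit 504) (nat_lit 0) (XT.nd (nat_lit 94) (nat_lit 504) (nat_lit 0) (XT.lf (nat_lit 0) (nat_lit 3004660668) (nat_lit 252) (nat_lit 5639326619) (nat_lit 336) (nat_lit 3115679195) (nat_lit 29) (nat_lit 5) (nat_lit 32) (nat_lit 5) (nat_lit 33) (nat_lit 5) (nat_lit 279) (nat_lit 234)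 (nat_lit 207)) (XT.nd (nat_lit 94) (nat_lit 252) (nat_lit 0) (XT.lf (nat_lit 0) (nat_lit 2881480568) (nat_lit 252) (nat_lit 8141728718) (nat_lit 84) (nat_lit 1054600492) (nat_lit 26) (nat_lit 5) (nat_lit 29) (nat_lit 5) (nat_lit 27) (nat_lit 5) (nat_lit 280) (nat_lit 234) (nat_lit 206)) (XT.lf (nat_lit 0) (nat_lit 4852907638) (nat_lit 252) (nat_lit 4347360885) (nat_lit 336) (nat_lit 3206957737) (nat_lit 23) (nat_lit 5) (nat_lit 26) (nat_lit 5) (nat_lit 27) (nat_lit 5) (nat_lit 281) (nat_lit 234) (nat_lit 205)))) (XT.nd (nat_lit 94) (nat_lit 252) (nat_lit 0) (XT.lf (nat_lit 0) (nat_lit 3078669789) (nat_lit 252) (nat_lit 6956723271) (nat_lit 84) (nat_lit 2714185306) (nat_lit 20) (nat_lit 5) (nat_lit 23) (nat_lit 5) (nat_lit 21) (nat_lit 5) (nat_lit 282) (nat_lit 234) (nat_lit 204)) (XT.nd (nat_lit 42112) (nat_lit 0) (nat_lit 17892) (XT.lf (nat_lit 0) (nat_lit 6733336032) (nat_lit 252) (nat_lit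 2961225097) (nat_lit 336) (nat_lit 3409942103) (nat_lit 17) (nat_lit 5) (nat_lit 20) (nat_lit 5) (nat_lit 21) (nat_lit 5) (nat_lit 283) (nat_lit 234) (nat_lit 203)) (XT.lf (nat_lit 0) (nat_lit 608520657) (nat_lit 756) (nat_lit 2147628021) (nat_lit 0) (nat_lit 608520657) (nat_lit 230) (nat_lit 5) (nat_lit 239) (nat_lit 4) (nat_lit 230) (nat_lit 4) (nat_lit 250) (nat_lit 235) (nat_lit 235)))))) (XT.nd (nat_lit 470) (nat_lit 4368) (nat_lit 0) (XT.nd (nat_lit 188) (nat_lit 3192) (nat_lit 0) (XT.nd (nat_lit 94) (nat_lit 924) (nat_lit 0) (XT.lf (nat_lit 0) (nat_lit 2211464988) (nat_lit 756) (nat_lit 3785816393) (nat_lit 756) (nat_lit 793373363) (nat_lit 221) (nat_lit 4) (nat_lit 230) (nat_lit 5) (nat_lit 230) (nat_lit 4) (nat_lit 251) (nat_lit 235) (nat_lit 234)) (XT.lf (nat_lit 0) (nat_lit 2074186467) (nat_lit 840) (nat_lit 1816022495) (nat_lit 924) (nat_lit 2969397290) (nat_lit 210) (nat_lit 5)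 (nat_lit 220) (nat_lit 5) (nat_lit 221) (nat_lit 4) (nat_lit 252) (nat_lit 235) (nat_lit 233))) (XT.nd (nat_lit 94) (nat_lit 2184) (nat_lit 0) (XT.lf (nat_lit 0) (nat_lit 1652405477) (nat_lit 1008) (nat_lit 4904623271) (nat_lit 84) (nat_lit 379628203) (nat_lit 198) (nat_lit 5) (nat_lit 210) (nat_lit 5) (nat_lit 199) (nat_lit 4) (nat_lit 253) (nat_lit 235) (nat_lit 232)) (XT.nd (nat_lit 94) (nat_lit 1176) (nat_lit 0) (XT.lf (nat_lit 0) (nat_lit 2057680069) (nat_lit 1008) (nat_lit 4243311745) (nat_lit 1092) (nat_lit 720028871) (nat_lit 186) (nat_lit 5) (nat_lit 198) (nat_lit 5) (nat_lit 199) (nat_lit 4) (nat_lit 254) (nat_lit 235) (nat_lit 231)) (XT.lf (nat_lit 0) (nat_lit 2159619843) (nat_lit 1092) (nat_lit 1674347333) (nat_lit 1176) (nat_lit 3279160752) (nat_lit 172) (nat_lit 5) (nat_lit 185) (nat_lit 5) (nat_lit 186) (nat_lit 5) (nat_lit 255) (nat_lit 235) (nat_lit 230))))) (XT.nd (nat_lit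 282) (nat_lit 1764) (nat_lit 0) (XT.nd (nat_lit 94) (nat_lit 1344) (nat_lit 0) (XT.lf (nat_lit 0) (nat_lit 1232842211) (nat_lit 1260) (nat_lit 4868445814) (nat_lit 84) (nat_lit 1112078364) (nat_lit 157) (nat_lit 5) (nat_lit 172) (nat_lit 5) (nat_lit 158) (nat_lit 5) (nat_lit 256) (nat_lit 235) (nat_lit 229)) (XT.nd (nat_lit 94) (nat_lit 672) (nat_lit 0) (XT.lf (nat_lit 0) (nat_lit 2587795258) (nat_lit 672) (nat_lit 3197597842) (nat_lit 756) (nat_lit 1535625311) (nat_lit 149) (nat_lit 5) (nat_lit 157) (nat_lit 5) (nat_lit 158) (nat_lit 5) (nat_lit 257) (nat_lit 235) (nat_lit 228)) (XT.lf (nat_lit 0) (nat_lit 2910071069) (nat_lit 588) (nat_lit 31856350) (nat_lit 672) (nat_lit 4495054917) (nat_lit 141) (nat_lit 5) (nat_lit 148) (nat_lit 5) (nat_lit 149) (nat_lit 5) (nat_lit 258) (nat_lit 235) (nat_lit 227)))) (XT.nd (nat_lit 94) (nat_lit 1176) (nat_lit 0) (XT.lf (nat_lit 0) (nat_lit 3288353367)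 (nat_lit 588) (nat_lit 4246511215) (nat_lit 672) (nat_lit 25768733) (nat_lit 134) (nat_lit 5) (nat_lit 141) (nat_lit 5) (nat_lit 142) (nat_lit 5) (nat_lit 259) (nat_lit 235) (nat_lit 226)) (XT.nd (nat_lit 94) (nat_lit 588) (nat_lit 0) (XT.lf (nat_lit 0) (nat_lit 3723701729) (nat_lit 504) (nat_lit 736520255) (nat_lit 588) (nat_lit 3231957729) (nat_lit 127) (nat_lit 5) (nat_lit 133) (nat_lit 5) (nat_lit 134) (nat_lit 5) (nat_lit 260) (nat_lit 235) (nat_lit 225)) (XT.lf (nat_lit 0) (nat_lit 1249357694) (nat_lit 588) (nat_lit 3613812727) (nat_lit 84) (nat_lit 2968695620) (nat_lit 120) (nat_lit 5) (nat_lit 127) (nat_lit 5) (nat_lit 121) (nat_lit 5) (nat_lit 261) (nat_lit 235) (nat_lit 224))))))) (XT.nd (nat_lit 1034) (nat_lit 3108) (nat_lit 0) (XT.nd (nat_lit 470) (nat_lit 2856) (nat_lit 0) (XT.nd (nat_lit 188) (nat_lit 1344) (nat_lit 0) (XT.nd (nat_lit 94) (nat_lit 588) (nat_lit 0) (XT.lf (nat_lit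 0) (nat_lit 4771863297) (nat_lit 504) (nat_lit 1029354808) (nat_lit 588) (nat_lit 2178675281) (nat_lit 114) (nat_lit 5) (nat_lit 120) (nat_lit 5) (nat_lit 121) (nat_lit 5) (nat_lit 262) (nat_lit 235) (nat_lit 223)) (XT.lf (nat_lit 0) (nat_lit 2346298746) (nat_lit 588) (nat_lit 2767315332) (nat_lit 84) (nat_lit 3022280540) (nat_lit 107) (nat_lit 5) (nat_lit 114) (nat_lit 5) (nat_lit 108) (nat_lit 5) (nat_lit 263) (nat_lit 235) (nat_lit 222))) (XT.nd (nat_lit 94) (nat_lit 924) (nat_lit 0) (XT.lf (nat_lit 0) (nat_lit 6030940846) (nat_lit 420) (nat_lit 956577167) (nat_lit 504) (nat_lit 1313320462) (nat_lit 102) (nat_lit 5) (nat_lit 107) (nat_lit 5) (nat_lit 108) (nat_lit 5) (nat_lit 264) (nat_lit 235) (nat_lit 221)) (XT.nd (nat_lit 94) (nat_lit 420) (nat_lit 0) (XT.lf (nat_lit 0) (nat_lit 3285728469) (nat_lit 504) (nat_lit 1755260913) (nat_lit 84) (nat_lit 3432568059) (nat_lit 96) (nat_lit 5)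 (nat_lit 102) (nat_lit 5) (nat_lit 97) (nat_lit 5) (nat_lit 265) (nat_lit 235) (nat_lit 220)) (XT.lf (nat_lit 0) (nat_lit 7480316016) (nat_lit 420) (nat_lit 558249138) (nat_lit 504) (nat_lit 617380831) (nat_lit 91) (nat_lit 5) (nat_lit 96) (nat_lit 5) (nat_lit 97) (nat_lit 5) (nat_lit 266) (nat_lit 235) (nat_lit 219))))) (XT.nd (nat_lit 282) (nat_lit 1176) (nat_lit 0) (XT.nd (nat_lit 94) (nat_lit 1176) (nat_lit 0) (XT.lf (nat_lit 0) (nat_lit 4084724063) (nat_lit 504) (nat_lit 597850775) (nat_lit 84) (nat_lit 4163320191) (nat_lit 85) (nat_lit 5) (nat_lit 91) (nat_lit 5) (nat_lit 86) (nat_lit 5) (nat_lit 267) (nat_lit 235) (nat_lit 218)) (XT.nd (nat_lit 94) (nat_lit 420) (nat_lit 0) (XT.lf (nat_lit 0) (nat_lit 55399524) (nat_lit 420) (nat_lit 8917676544) (nat_lit 504) (nat_lit 73208240) (nat_lit 76) (nat_lit 5) (nat_lit 81) (nat_lit 5) (nat_lit 82) (nat_lit 5) (nat_lit 268) (nat_lit 235) (nat_lit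 217)) (XT.lf (nat_lit 0) (nat_lit 702831922) (nat_lit 336) (nat_lit 4062674647) (nat_lit 420) (nat_lit 4488374760) (nat_lit 71) (nat_lit 5) (nat_lit 75) (nat_lit 5) (nat_lit 76) (nat_lit 5) (nat_lit 269) (nat_lit 235) (nat_lit 216)))) (XT.nd (nat_lit 94) (nat_lit 756) (nat_lit 0) (XT.lf (nat_lit 0) (nat_lit 346432893) (nat_lit 420) (nat_lit 8049430546) (nat_lit 84) (nat_lit 1076439158) (nat_lit 66) (nat_lit 5) (nat_lit 71) (nat_lit 5) (nat_lit 67) (nat_lit 5) (nat_lit 270) (nat_lit 235) (nat_lit 215)) (XT.nd (nat_lit 94) (nat_lit 420) (nat_lit 0) (XT.lf (nat_lit 0) (nat_lit 2131125958) (nat_lit 336) (nat_lit 3209185418) (nat_lit 420) (nat_lit 4358649041) (nat_lit 62) (nat_lit 5) (nat_lit 66) (nat_lit 5) (nat_lit 67) (nat_lit 5) (nat_lit 271) (nat_lit 235) (nat_lit 214)) (XT.lf (nat_lit 0) (nat_lit 640445302) (nat_lit 420) (nat_lit 7041342914) (nat_lit 84) (nat_lit 2254624278) (nat_lit 57)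 (nat_lit 5) (nat_lit 62) (nat_lit 5) (nat_lit 58) (nat_lit 5) (nat_lit 272) (nat_lit 235) (nat_lit 213)))))) (XT.nd (nat_lit 470) (nat_lit 1596) (nat_lit 0) (XT.nd (nat_lit 188) (nat_lit 840) (nat_lit 0) (XT.nd (nat_lit 94) (nat_lit 420) (nat_lit 0) (XT.lf (nat_lit 0) (nat_lit 3658189801) (nat_lit 252) (nat_lit 2153783252) (nat_lit 336) (nat_lit 4371060641) (nat_lit 54) (nat_lit 5) (nat_lit 57) (nat_lit 5) (nat_lit 58) (nat_lit 5) (nat_lit 273) (nat_lit 235) (nat_lit 212)) (XT.lf (nat_lit 0) (nat_lit 818050411) (nat_lit 420) (nat_lit 5981774269) (nat_lit 84) (nat_lit 3640585733) (nat_lit 49) (nat_lit 5) (nat_lit 54) (nat_lit 5) (nat_lit 50) (nat_lit 5) (nat_lit 274) (nat_lit 235) (nat_lit 211))) (XT.nd (nat_lit 94) (nat_lit 588) (nat_lit 0) (XT.lf (nat_lit 0) (nat_lit 5270351483) (nat_lit 252) (nat_lit 917844627) (nat_lit 336) (nat_lit 4519772440) (nat_lit 46) (nat_lit 5) (nat_lit 49) (nat_lit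 5) (nat_lit 50) (nat_lit 5) (nat_lit 275) (nat_lit 235) (nat_lit 210)) (XT.nd (nat_lit 94) (nat_lit 252) (nat_lit 0) (XT.lf (nat_lit 0) (nat_lit 884890558) (nat_lit 336) (nat_lit 4885734816) (nat_lit 84) (nat_lit 5215644338) (nat_lit 42) (nat_lit 5) (nat_lit 46) (nat_lit 5) (nat_lit 43) (nat_lit 5) (nat_lit 276) (nat_lit 235) (nat_lit 209)) (XT.lf (nat_lit 0) (nat_lit 6480259590) (nat_lit 336) (nat_lit 4326203824) (nat_lit 84) (nat_lit 469189003) (nat_lit 39) (nat_lit 5) (nat_lit 43) (nat_lit 5) (nat_lit 40) (nat_lit 5) (nat_lit 277) (nat_lit 235) (nat_lit 208))))) (XT.nd (nat_lit 282) (nat_lit 672) (nat_lit 0) (XT.nd (nat_lit 94) (nat_lit 588) (nat_lit 0) (XT.lf (nat_lit 0) (nat_lit 844840359) (nat_lit 336) (nat_lit 3767521042) (nat_lit 84) (nat_lit 6963811364) (nat_lit 35) (nat_lit 5) (nat_lit 39) (nat_lit 5) (nat_lit 36) (nat_lit 5) (nat_lit 278) (nat_lit 235) (nat_lit 207)) (XT.nd (nat_lit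 94) (nat_lit 336) (nat_lit 0) (XT.lf (nat_lit 0) (nat_lit 6698965648) (nat_lit 336) (nat_lit 3211205230) (nat_lit 84) (nat_lit 1977972947) (nat_lit 32) (nat_lit 5) (nat_lit 36) (nat_lit 5) (nat_lit 33) (nat_lit 5) (nat_lit 279) (nat_lit 235) (nat_lit 206)) (XT.lf (nat_lit 0) (nat_lit 700131760) (nat_lit 336) (nat_lit 2640941560) (nat_lit 84) (nat_lit 8871442685) (nat_lit 28) (nat_lit 5) (nat_lit 32) (nat_lit 5) (nat_lit 29) (nat_lit 5) (nat_lit 280) (nat_lit 235) (nat_lit 205)))) (XT.nd (nat_lit 94) (nat_lit 504) (nat_lit 0) (XT.lf (nat_lit 0) (nat_lit 6836718787) (nat_lit 252) (nat_lit 2095953076) (nat_lit 84) (nat_lit 3615637658) (nat_lit 26) (nat_lit 5) (nat_lit 29) (nat_lit 5) (nat_lit 27) (nat_lit 5) (nat_lit 281) (nat_lit 235) (nat_lit 204)) (XT.nd (nat_lit 94) (nat_lit 168) (nat_lit 0) (XT.lf (nat_lit 0) (nat_lit 451455330) (nat_lit 336) (nat_lit 1519527946) (nat_lit 84) (nat_lit 10926933122)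 (nat_lit 22) (nat_lit 5) (nat_lit 26) (nat_lit 5) (nat_lit 23) (nat_lit 5) (nat_lit 282) (nat_lit 235) (nat_lit 203)) (XT.lf (nat_lit 0) (nat_lit 6894755156) (nat_lit 252) (nat_lit 993848238) (nat_lit 84) (nat_lit 5370278574) (nat_lit 20) (nat_lit 5) (nat_lit 23) (nat_lit 5) (nat_lit 21) (nat_lit 5) (nat_lit 283) (nat_lit 235) (nat_lit 202))))))))
noncomputable def xc7 : XT := (XT.nd (nat_lit 2068) (nat_lit 4620) (nat_lit 0) (XT.nd (nat_lit 1034) (nat_lit 5544) (nat_lit 0) (XT.nd (nat_lit 470) (nat_lit 5796) (nat_lit 0) (XT.nd (nat_lit 188) (nat_lit 2436) (nat_lit 0) (XT.nd (nat_lit 94) (nat_lit 588) (nat_lit 0) (XT.lf (nat_lit 0) (nat_lit 815843138) (nat_lit 588) (nat_lit 1681153558) (nat_lit 0) (nat_lit 815843138) (nat_lit 246) (nat_lit 5) (nat_lit 253) (nat_lit 4) (nat_lit 246) (nat_lit 4) (nat_lit 248) (nat_lit 236) (nat_lit 236)) (XT.lf (nat_lit 0) (nat_lit 2745265005) (nat_lit 588) (nat_lit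 3591205862) (nat_lit 588) (nat_lit 339168400) (nat_lit 239) (nat_lit 4) (nat_lit 246) (nat_lit 5) (nat_lit 246) (nat_lit 4) (nat_lit 249) (nat_lit 236) (nat_lit 235))) (XT.nd (nat_lit 94) (nat_lit 1680) (nat_lit 0) (XT.lf (nat_lit 0) (nat_lit 2308463728) (nat_lit 672) (nat_lit 1945924343) (nat_lit 756) (nat_lit 2478615745) (nat_lit 230) (nat_lit 5) (nat_lit 238) (nat_lit 5) (nat_lit 239) (nat_lit 4) (nat_lit 250) (nat_lit 236) (nat_lit 234)) (XT.nd (nat_lit 94) (nat_lit 840) (nat_lit 0) (XT.lf (nat_lit 0) (nat_lit 1971561501) (nat_lit 756) (nat_lit 72634797) (nat_lit 840) (nat_lit 4754335937) (nat_lit 220) (nat_lit 5) (nat_lit 229) (nat_lit 5) (nat_lit 230) (nat_lit 5) (nat_lit 251) (nat_lit 236) (nat_lit 233)) (XT.lf (nat_lit 0) (nat_lit 1707480709) (nat_lit 840) (nat_lit 4880317179) (nat_lit 924) (nat_lit 283646164) (nat_lit 210) (nat_lit 5) (nat_lit 220) (nat_lit 5) (nat_lit 221) (nat_lit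 4) (nat_lit 252) (nat_lit 236) (nat_lit 232))))) (XT.nd (nat_lit 282) (nat_lit 2604) (nat_lit 0) (XT.nd (nat_lit 94) (nat_lit 2184) (nat_lit 0) (XT.lf (nat_lit 0) (nat_lit 1513582993) (nat_lit 924) (nat_lit 2639588525) (nat_lit 1008) (nat_lit 2798618922) (nat_lit 198) (nat_lit 5) (nat_lit 209) (nat_lit 5) (nat_lit 210) (nat_lit 5) (nat_lit 253) (nat_lit 236) (nat_lit 231)) (XT.nd (nat_lit 94) (nat_lit 1092) (nat_lit 0) (XT.lf (nat_lit 0) (nat_lit 1414946443) (nat_lit 1008) (nat_lit 164921159) (nat_lit 1092) (nat_lit 5460697612) (nat_lit 185) (nat_lit 5) (nat_lit 197) (nat_lit 5) (nat_lit 198) (nat_lit 5) (nat_lit 254) (nat_lit 236) (nat_lit 230)) (XT.lf (nat_lit 0) (nat_lit 1369489636) (nat_lit 1092) (nat_lit 4630762919) (nat_lit 1176) (nat_lit 1136244083) (nat_lit 172) (nat_lit 5) (nat_lit 185) (nat_lit 5) (nat_lit 186) (nat_lit 5) (nat_lit 255) (nat_lit 236) (nat_lit 229)))) (XT.nd (nat_lit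 94) (nat_lit 1344) (nat_lit 0) (XT.lf (nat_lit 0) (nat_lit 1395325004) (nat_lit 1176) (nat_lit 1804563498) (nat_lit 1260) (nat_lit 4040465757) (nat_lit 157) (nat_lit 5) (nat_lit 171) (nat_lit 5) (nat_lit 172) (nat_lit 5) (nat_lit 256) (nat_lit 236) (nat_lit 228)) (XT.nd (nat_lit 94) (nat_lit 588) (nat_lit 0) (XT.lf (nat_lit 0) (nat_lit 261473927) (nat_lit 756) (nat_lit 5853273737) (nat_lit 84) (nat_lit 1237783512) (nat_lit 148) (nat_lit 5) (nat_lit 157) (nat_lit 5) (nat_lit 149) (nat_lit 5) (nat_lit 257) (nat_lit 236) (nat_lit 227)) (XT.lf (nat_lit 0) (nat_lit 1640152603) (nat_lit 588) (nat_lit 2952362239) (nat_lit 672) (nat_lit 2879290645) (nat_lit 141) (nat_lit 5) (nat_lit 148) (nat_lit 5) (nat_lit 149) (nat_lit 5) (nat_lit 258) (nat_lit 236) (nat_lit 226)))))) (XT.nd (nat_lit 470) (nat_lit 2688) (nat_lit 0) (XT.nd (nat_lit 188) (nat_lit 1680) (nat_lit 0) (XT.nd (nat_lit 94) (nat_lit 504)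 (nat_lit 0) (XT.lf (nat_lit 0) (nat_lit 1409957731) (nat_lit 672) (nat_lit 5736820374) (nat_lit 84) (nat_lit 453097805) (nat_lit 133) (nat_lit 5) (nat_lit 141) (nat_lit 5) (nat_lit 134) (nat_lit 5) (nat_lit 259) (nat_lit 236) (nat_lit 225)) (XT.lf (nat_lit 0) (nat_lit 2118495494) (nat_lit 504) (nat_lit 3667174979) (nat_lit 588) (nat_lit 1949581065) (nat_lit 127) (nat_lit 5) (nat_lit 133) (nat_lit 5) (nat_lit 134) (nat_lit 5) (nat_lit 260) (nat_lit 236) (nat_lit 224))) (XT.nd (nat_lit 94) (nat_lit 1092) (nat_lit 0) (XT.lf (nat_lit 0) (nat_lit 2360062204) (nat_lit 588) (nat_lit 5434293381) (nat_lit 84) (nat_lit 85073017) (nat_lit 120) (nat_lit 5) (nat_lit 127) (nat_lit 5) (nat_lit 121) (nat_lit 5) (nat_lit 261) (nat_lit 236) (nat_lit 223)) (XT.nd (nat_lit 94) (nat_lit 588) (nat_lit 0) (XT.lf (nat_lit 0) (nat_lit 2803109678) (nat_lit 504) (nat_lit 4000273694) (nat_lit 588) (nat_lit 1227871449)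 (nat_lit 114) (nat_lit 5) (nat_lit 120) (nat_lit 5) (nat_lit 121) (nat_lit 5) (nat_lit 262) (nat_lit 236) (nat_lit 222)) (XT.lf (nat_lit 0) (nat_lit 3133184614) (nat_lit 588) (nat_lit 4971812152) (nat_lit 84) (nat_lit 86871068) (nat_lit 107) (nat_lit 5) (nat_lit 114) (nat_lit 5) (nat_lit 108) (nat_lit 5) (nat_lit 263) (nat_lit 236) (nat_lit 221))))) (XT.nd (nat_lit 282) (nat_lit 1344) (nat_lit 0) (XT.nd (nat_lit 94) (nat_lit 924) (nat_lit 0) (XT.lf (nat_lit 0) (nat_lit 3669937657) (nat_lit 420) (nat_lit 3996292397) (nat_lit 504) (nat_lit 694367721) (nat_lit 102) (nat_lit 5) (nat_lit 107) (nat_lit 5) (nat_lit 108) (nat_lit 5) (nat_lit 264) (nat_lit 236) (nat_lit 220)) (XT.nd (nat_lit 94) (nat_lit 420) (nat_lit 0) (XT.lf (nat_lit 0) (nat_lit 3747436626) (nat_lit 504) (nat_lit 4372771480) (nat_lit 84) (nat_lit 417879619) (nat_lit 96) (nat_lit 5) (nat_lit 102) (nat_lit 5) (nat_lit 97) (nat_lit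 5) (nat_lit 265) (nat_lit 236) (nat_lit 219)) (XT.lf (nat_lit 0) (nat_lit 4697662098) (nat_lit 420) (nat_lit 3694059055) (nat_lit 504) (nat_lit 332554441) (nat_lit 91) (nat_lit 5) (nat_lit 96) (nat_lit 5) (nat_lit 97) (nat_lit 5) (nat_lit 266) (nat_lit 236) (nat_lit 218)))) (XT.nd (nat_lit 94) (nat_lit 840) (nat_lit 0) (XT.lf (nat_lit 0) (nat_lit 4217997649) (nat_lit 504) (nat_lit 3658253849) (nat_lit 84) (nat_lit 1042940375) (nat_lit 85) (nat_lit 5) (nat_lit 91) (nat_lit 5) (nat_lit 86) (nat_lit 5) (nat_lit 267) (nat_lit 236) (nat_lit 217)) (XT.nd (nat_lit 94) (nat_lit 504) (nat_lit 0) (XT.lf (nat_lit 0) (nat_lit 5867308822) (nat_lit 336) (nat_lit 3127326273) (nat_lit 420) (nat_lit 128856067) (nat_lit 81) (nat_lit 5) (nat_lit 85) (nat_lit 5) (nat_lit 86) (nat_lit 5) (nat_lit 268) (nat_lit 236) (nat_lit 216)) (XT.lf (nat_lit 0) (nat_lit 4557419467) (nat_lit 504) (nat_lit 2847398213) (nat_lit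 84) (nat_lit 1931671740) (nat_lit 75) (nat_lit 5) (nat_lit 81) (nat_lit 5) (nat_lit 76) (nat_lit 5) (nat_lit 269) (nat_lit 236) (nat_lit 215))))))) (XT.nd (nat_lit 1034) (nat_lit 756) (nat_lit 0) (XT.nd (nat_lit 470) (nat_lit 2100) (nat_lit 0) (XT.nd (nat_lit 188) (nat_lit 1008) (nat_lit 0) (XT.nd (nat_lit 94) (nat_lit 420) (nat_lit 0) (XT.lf (nat_lit 0) (nat_lit 7161892490) (nat_lit 336) (nat_lit 2325413466) (nat_lit 420) (nat_lit 72346098) (nat_lit 71) (nat_lit 5) (nat_lit 75) (nat_lit 5) (nat_lit 76) (nat_lit 5) (nat_lit 270) (nat_lit 236) (nat_lit 214)) (XT.lf (nat_lit 0) (nat_lit 4775887764) (nat_lit 420) (nat_lit 1957731304) (nat_lit 84) (nat_lit 3057873995) (nat_lit 66) (nat_lit 5) (nat_lit 71) (nat_lit 5) (nat_lit 67) (nat_lit 5) (nat_lit 271) (nat_lit 236) (nat_lit 213))) (XT.nd (nat_lit 94) (nat_lit 672) (nat_lit 0) (XT.lf (nat_lit 0) (nat_lit 8566099062) (nat_lit 336) (nat_lit 1313771696)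 (nat_lit 420) (nat_lit 154498647) (nat_lit 62) (nat_lit 5) (nat_lit 66) (nat_lit 5) (nat_lit 67) (nat_lit 5) (nat_lit 272) (nat_lit 236) (nat_lit 212)) (XT.nd (nat_lit 94) (nat_lit 252) (nat_lit 0) (XT.lf (nat_lit 0) (nat_lit 4881445439) (nat_lit 420) (nat_lit 1005466847) (nat_lit 84) (nat_lit 4399006607) (nat_lit 57) (nat_lit 5) (nat_lit 62) (nat_lit 5) (nat_lit 58) (nat_lit 5) (nat_lit 273) (nat_lit 236) (nat_lit 211)) (XT.lf (nat_lit 0) (nat_lit 10065999841) (nat_lit 252) (nat_lit 114480995) (nat_lit 336) (nat_lit 368977723) (nat_lit 54) (nat_lit 5) (nat_lit 57) (nat_lit 5) (nat_lit 58) (nat_lit 5) (nat_lit 274) (nat_lit 236) (nat_lit 210))))) (XT.nd (nat_lit 282) (nat_lit 840) (nat_lit 0) (XT.nd (nat_lit 94) (nat_lit 840) (nat_lit 0) (XT.lf (nat_lit 0) (nat_lit 4880181947) (nat_lit 420) (nat_lit 5777448) (nat_lit 84) (nat_lit 5935728524) (nat_lit 49) (nat_lit 5) (nat_lit 54) (nat_lit 5)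 (nat_lit 50) (nat_lit 5) (nat_lit 275) (nat_lit 236) (nat_lit 209)) (XT.nd (nat_lit 94) (nat_lit 336) (nat_lit 0) (XT.lf (nat_lit 0) (nat_lit 540133665) (nat_lit 252) (nat_lit 9875330396) (nat_lit 336) (nat_lit 690777883) (nat_lit 43) (nat_lit 5) (nat_lit 46) (nat_lit 5) (nat_lit 47) (nat_lit 5) (nat_lit 276) (nat_lit 236) (nat_lit 208)) (XT.lf (nat_lit 0) (nat_lit 1050782335) (nat_lit 252) (nat_lit 3737317982) (nat_lit 336) (nat_lit 6612419097) (nat_lit 39) (nat_lit 5) (nat_lit 42) (nat_lit 5) (nat_lit 43) (nat_lit 5) (nat_lit 277) (nat_lit 236) (nat_lit 207)))) (XT.nd (nat_lit 94) (nat_lit 588) (nat_lit 0) (XT.lf (nat_lit 0) (nat_lit 1598870747) (nat_lit 252) (nat_lit 8979402924) (nat_lit 336) (nat_lit 1129071328) (nat_lit 36) (nat_lit 5) (nat_lit 39) (nat_lit 5) (nat_lit 40) (nat_lit 5) (nat_lit 278) (nat_lit 236) (nat_lit 206)) (XT.nd (nat_lit 94) (nat_lit 252) (nat_lit 0) (XT.lf (nat_lit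 0) (nat_lit 2127149427) (nat_lit 252) (nat_lit 2469260821) (nat_lit 336) (nat_lit 7428744681) (nat_lit 32) (nat_lit 5) (nat_lit 35) (nat_lit 5) (nat_lit 36) (nat_lit 5) (nat_lit 279) (nat_lit 236) (nat_lit 205)) (XT.lf (nat_lit 0) (nat_lit 2669000898) (nat_lit 252) (nat_lit 7995981060) (nat_lit 336) (nat_lit 1690481677) (nat_lit 29) (nat_lit 5) (nat_lit 32) (nat_lit 5) (nat_lit 33) (nat_lit 5) (nat_lit 280) (nat_lit 236) (nat_lit 204)))))) (XT.nd (nat_lit 42112) (nat_lit 0) (nat_lit 14952) (XT.nd (nat_lit 188) (nat_lit 252) (nat_lit 0) (XT.nd (nat_lit 94) (nat_lit 252) (nat_lit 0) (XT.lf (nat_lit 0) (nat_lit 3209409063) (nat_lit 168) (nat_lit 1096560985) (nat_lit 252) (nat_lit 8392192650) (nat_lit 26) (nat_lit 5) (nat_lit 28) (nat_lit 5) (nat_lit 29) (nat_lit 5) (nat_lit 281) (nat_lit 236) (nat_lit 203)) (XT.lf (nat_lit 0) (nat_lit 3736917286) (nat_lit 252) (nat_lit 6940113001) (nat_lit 336)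 (nat_lit 2376248065) (nat_lit 23) (nat_lit 5) (nat_lit 26) (nat_lit 5) (nat_lit 27) (nat_lit 5) (nat_lit 282) (nat_lit 236) (nat_lit 202))) (XT.nd (nat_lit 41736) (nat_lit 0) (nat_lit 19488) (XT.lf (nat_lit 0) (nat_lit 3920333193) (nat_lit 252) (nat_lit 9142499479) (nat_lit 84) (nat_lit 359358868) (nat_lit 20) (nat_lit 5) (nat_lit 23) (nat_lit 5) (nat_lit 21) (nat_lit 5) (nat_lit 283) (nat_lit 236) (nat_lit 201)) (XT.nd (nat_lit 94) (nat_lit 504) (nat_lit 0) (XT.lf (nat_lit 0) (nat_lit 1174590016) (nat_lit 420) (nat_lit 923376328) (nat_lit 0) (nat_lit 1174590016) (nat_lit 258) (nat_lit 5) (nat_lit 263) (nat_lit 4) (nat_lit 258) (nat_lit 4) (nat_lit 246) (nat_lit 237) (nat_lit 237)) (XT.lf (nat_lit 0) (nat_lit 408401754) (nat_lit 504) (nat_lit 2703054142) (nat_lit 84) (nat_lit 3472144387) (nat_lit 252) (nat_lit 5) (nat_lit 258) (nat_lit 5) (nat_lit 253) (nat_lit 4) (nat_lit 247) (nat_lit 237)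 (nat_lit 236))))) (XT.nd (nat_lit 282) (nat_lit 2604) (nat_lit 0) (XT.nd (nat_lit 94) (nat_lit 1428) (nat_lit 0) (XT.lf (nat_lit 0) (nat_lit 3147032458) (nat_lit 504) (nat_lit 1790089381) (nat_lit 588) (nat_lit 1692379963) (nat_lit 246) (nat_lit 5) (nat_lit 252) (nat_lit 5) (nat_lit 253) (nat_lit 4) (nat_lit 248) (nat_lit 237) (nat_lit 235)) (XT.nd (nat_lit 94) (nat_lit 756) (nat_lit 0) (XT.lf (nat_lit 0) (nat_lit 2509851498) (nat_lit 588) (nat_lit 241260856) (nat_lit 672) (nat_lit 3932239413) (nat_lit 238) (nat_lit 5) (nat_lit 245) (nat_lit 5) (nat_lit 246) (nat_lit 5) (nat_lit 249) (nat_lit 237) (nat_lit 234)) (XT.lf (nat_lit 0) (nat_lit 455311620) (nat_lit 756) (nat_lit 4789611734) (nat_lit 84) (nat_lit 1499892715) (nat_lit 229) (nat_lit 5) (nat_lit 238) (nat_lit 5) (nat_lit 230) (nat_lit 5) (nat_lit 250) (nat_lit 237) (nat_lit 233)))) (XT.nd (nat_lit 94) (nat_lit 1848) (nat_lit 0) (XT.lf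 (nat_lit 0) (nat_lit 1471500853) (nat_lit 756) (nat_lit 3328636489) (nat_lit 840) (nat_lit 2013503039) (nat_lit 220) (nat_lit 5) (nat_lit 229) (nat_lit 5) (nat_lit 230) (nat_lit 5) (nat_lit 251) (nat_lit 237) (nat_lit 232)) (XT.nd (nat_lit 94) (nat_lit 924) (nat_lit 0) (XT.lf (nat_lit 0) (nat_lit 1077404818) (nat_lit 840) (nat_lit 1181073788) (nat_lit 924) (nat_lit 4632120112) (nat_lit 209) (nat_lit 5) (nat_lit 219) (nat_lit 5) (nat_lit 220) (nat_lit 5) (nat_lit 252) (nat_lit 237) (nat_lit 231)) (XT.lf (nat_lit 0) (nat_lit 759535647) (nat_lit 924) (nat_lit 5799260096) (nat_lit 1008) (nat_lit 416591166) (nat_lit 198) (nat_lit 5) (nat_lit 209) (nat_lit 5) (nat_lit 210) (nat_lit 5) (nat_lit 253) (nat_lit 237) (nat_lit 230))))))))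
noncomputable def xc8 : XT := (XT.nd (nat_lit 1974) (nat_lit 2688) (nat_lit 0) (XT.nd (nat_lit 940) (nat_lit 4452) (nat_lit 0) (XT.nd (nat_lit 470) (nat_lit 2856) (nat_lit 0) (XT.nd (nat_lit 188) (nat_lit 2520) (nat_lit 0) (XT.nd (nat_lit 94) (nat_lit 1176) (nat_lit 0) (XT.lf (nat_lit 0) (nat_lit 492163739) (nat_lit 1008) (nat_lit 3299833471) (nat_lit 1092) (nat_lit 3275291598) (nat_lit 185) (nat_lit 5) (nat_lit 197) (nat_lit 5) (nat_lit 198) (nat_lit 5) (nat_lit 254) (nat_lit 237) (nat_lit 229)) (XT.lf (nat_lit 0) (nat_lit 315729848) (nat_lit 1092) (nat_lit 566196115) (nat_lit 1176) (nat_lit 6285905766) (nat_lit 171) (nat_lit 5) (nat_lit 184) (nat_lit 5) (nat_lit 185) (nat_lit 5) (nat_lit 255) (nat_lit 237) (nat_lit 228))) (XT.nd (nat_lit 94) (nat_lit 1344) (nat_lit 0) (XT.lf (nat_lit 0) (nat_lit 177685478) (nat_lit 1176) (nat_lit 4895804146) (nat_lit 1260) (nat_lit 2201914809) (nat_lit 157)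 (nat_lit 5) (nat_lit 171) (nat_lit 5) (nat_lit 172) (nat_lit 5) (nat_lit 256) (nat_lit 237) (nat_lit 227)) (XT.nd (nat_lit 94) (nat_lit 588) (nat_lit 0) (XT.lf (nat_lit 0) (nat_lit 110564990) (nat_lit 672) (nat_lit 1821636778) (nat_lit 756) (nat_lit 5459077328) (nat_lit 148) (nat_lit 5) (nat_lit 156) (nat_lit 5) (nat_lit 157) (nat_lit 5) (nat_lit 257) (nat_lit 237) (nat_lit 226)) (XT.lf (nat_lit 0) (nat_lit 99053268) (nat_lit 588) (nat_lit 6033823205) (nat_lit 672) (nat_lit 1382239752) (nat_lit 141) (nat_lit 5) (nat_lit 148) (nat_lit 5) (nat_lit 149) (nat_lit 5) (nat_lit 258) (nat_lit 237) (nat_lit 225))))) (XT.nd (nat_lit 188) (nat_lit 1680) (nat_lit 0) (XT.nd (nat_lit 94) (nat_lit 504) (nat_lit 0) (XT.lf (nat_lit 0) (nat_lit 129291442) (nat_lit 588) (nat_lit 2628647466) (nat_lit 672) (nat_lit 4888693308) (nat_lit 133) (nat_lit 5) (nat_lit 140) (nat_lit 5) (nat_lit 141) (nat_lit 5) (nat_lit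 259) (nat_lit 237) (nat_lit 224)) (XT.lf (nat_lit 0) (nat_lit 225306911) (nat_lit 504) (nat_lit 6770525345) (nat_lit 588) (nat_lit 790999267) (nat_lit 127) (nat_lit 5) (nat_lit 133) (nat_lit 5) (nat_lit 134) (nat_lit 5) (nat_lit 260) (nat_lit 237) (nat_lit 223))) (XT.nd (nat_lit 94) (nat_lit 1092) (nat_lit 0) (XT.lf (nat_lit 0) (nat_lit 342275661) (nat_lit 504) (nat_lit 3040366149) (nat_lit 588) (nat_lit 4551755586) (nat_lit 120) (nat_lit 5) (nat_lit 126) (nat_lit 5) (nat_lit 127) (nat_lit 5) (nat_lit 261) (nat_lit 237) (nat_lit 222)) (XT.nd (nat_lit 94) (nat_lit 588) (nat_lit 0) (XT.lf (nat_lit 0) (nat_lit 528893328) (nat_lit 504) (nat_lit 7155374637) (nat_lit 588) (nat_lit 406914974) (nat_lit 114) (nat_lit 5) (nat_lit 120) (nat_lit 5) (nat_lit 121) (nat_lit 5) (nat_lit 262) (nat_lit 237) (nat_lit 221)) (XT.lf (nat_lit 0) (nat_lit 723101708) (nat_lit 504) (nat_lit 3103060119) (nat_lit 588)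 (nat_lit 4429141737) (nat_lit 107) (nat_lit 5) (nat_lit 113) (nat_lit 5) (nat_lit 114) (nat_lit 5) (nat_lit 263) (nat_lit 237) (nat_lit 220)))))) (XT.nd (nat_lit 470) (nat_lit 2268) (nat_lit 0) (XT.nd (nat_lit 188) (nat_lit 1260) (nat_lit 0) (XT.nd (nat_lit 94) (nat_lit 504) (nat_lit 0) (XT.lf (nat_lit 0) (nat_lit 985178866) (nat_lit 420) (nat_lit 7231570918) (nat_lit 504) (nat_lit 212269733) (nat_lit 102) (nat_lit 5) (nat_lit 107) (nat_lit 5) (nat_lit 108) (nat_lit 5) (nat_lit 264) (nat_lit 237) (nat_lit 219)) (XT.lf (nat_lit 0) (nat_lit 1248104027) (nat_lit 420) (nat_lit 2856986949) (nat_lit 504) (nat_lit 4505203418) (nat_lit 96) (nat_lit 5) (nat_lit 101) (nat_lit 5) (nat_lit 102) (nat_lit 5) (nat_lit 265) (nat_lit 237) (nat_lit 218))) (XT.nd (nat_lit 94) (nat_lit 840) (nat_lit 0) (XT.lf (nat_lit 0) (nat_lit 1572015178) (nat_lit 420) (nat_lit 7036846246) (nat_lit 504) (nat_lit 192538833)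 (nat_lit 91) (nat_lit 5) (nat_lit 96) (nat_lit 5) (nat_lit 97) (nat_lit 5) (nat_lit 266) (nat_lit 237) (nat_lit 217)) (XT.nd (nat_lit 94) (nat_lit 336) (nat_lit 0) (XT.lf (nat_lit 0) (nat_lit 1895950981) (nat_lit 420) (nat_lit 2337150656) (nat_lit 504) (nat_lit 4767421087) (nat_lit 85) (nat_lit 5) (nat_lit 90) (nat_lit 5) (nat_lit 91) (nat_lit 5) (nat_lit 267) (nat_lit 237) (nat_lit 216)) (XT.lf (nat_lit 0) (nat_lit 2269351415) (nat_lit 336) (nat_lit 6604165279) (nat_lit 420) (nat_lit 336073102) (nat_lit 81) (nat_lit 5) (nat_lit 85) (nat_lit 5) (nat_lit 86) (nat_lit 5) (nat_lit 268) (nat_lit 237) (nat_lit 215))))) (XT.nd (nat_lit 282) (nat_lit 1008) (nat_lit 0) (XT.nd (nat_lit 94) (nat_lit 756) (nat_lit 0) (XT.lf (nat_lit 0) (nat_lit 2647272221) (nat_lit 420) (nat_lit 1573966236) (nat_lit 504) (nat_lit 5206108593) (nat_lit 75) (nat_lit 5) (nat_lit 80) (nat_lit 5) (nat_lit 81) (nat_lit 5) (nat_lit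 269) (nat_lit 237) (nat_lit 214)) (XT.nd (nat_lit 94) (nat_lit 420) (nat_lit 0) (XT.lf (nat_lit 0) (nat_lit 3058886349) (nat_lit 336) (nat_lit 5962341699) (nat_lit 420) (nat_lit 633828027) (nat_lit 71) (nat_lit 5) (nat_lit 75) (nat_lit 5) (nat_lit 76) (nat_lit 5) (nat_lit 270) (nat_lit 237) (nat_lit 213)) (XT.lf (nat_lit 0) (nat_lit 3484323780) (nat_lit 336) (nat_lit 593844138) (nat_lit 420) (nat_lit 5814162050) (nat_lit 66) (nat_lit 5) (nat_lit 70) (nat_lit 5) (nat_lit 71) (nat_lit 5) (nat_lit 271) (nat_lit 237) (nat_lit 212)))) (XT.nd (nat_lit 94) (nat_lit 672) (nat_lit 0) (XT.lf (nat_lit 0) (nat_lit 3923754750) (nat_lit 336) (nat_lit 5136581364) (nat_lit 420) (nat_lit 1079133713) (nat_lit 62) (nat_lit 5) (nat_lit 66) (nat_lit 5) (nat_lit 67) (nat_lit 5) (nat_lit 272) (nat_lit 237) (nat_lit 211)) (XT.nd (nat_lit 94) (nat_lit 252) (nat_lit 0) (XT.lf (nat_lit 0) (nat_lit 3816856032) (nat_lit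 420) (nat_lit 6013018668) (nat_lit 84) (nat_lit 567137393) (nat_lit 57) (nat_lit 5) (nat_lit 62) (nat_lit 5) (nat_lit 58) (nat_lit 5) (nat_lit 273) (nat_lit 237) (nat_lit 210)) (XT.lf (nat_lit 0) (nat_lit 4848243007) (nat_lit 252) (nat_lit 4148961559) (nat_lit 336) (nat_lit 1667501232) (nat_lit 54) (nat_lit 5) (nat_lit 57) (nat_lit 5) (nat_lit 58) (nat_lit 5) (nat_lit 274) (nat_lit 237) (nat_lit 209))))))) (XT.nd (nat_lit 42488) (nat_lit 0) (nat_lit 12516) (XT.nd (nat_lit 470) (nat_lit 1092) (nat_lit 0) (XT.nd (nat_lit 188) (nat_lit 924) (nat_lit 0) (XT.nd (nat_lit 94) (nat_lit 252) (nat_lit 0) (XT.lf (nat_lit 0) (nat_lit 3443906512) (nat_lit 420) (nat_lit 5614548134) (nat_lit 84) (nat_lit 1884838731) (nat_lit 49) (nat_lit 5) (nat_lit 54) (nat_lit 5) (nat_lit 50) (nat_lit 5) (nat_lit 275) (nat_lit 237) (nat_lit 208)) (XT.lf (nat_lit 0) (nat_lit 5817529503) (nat_lit 252) (nat_lit 3018854583)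 (nat_lit 336) (nat_lit 2396461473) (nat_lit 46) (nat_lit 5) (nat_lit 49) (nat_lit 5) (nat_lit 50) (nat_lit 5) (nat_lit 276) (nat_lit 237) (nat_lit 207))) (XT.nd (nat_lit 94) (nat_lit 588) (nat_lit 0) (XT.lf (nat_lit 0) (nat_lit 2955183785) (nat_lit 336) (nat_lit 5222543376) (nat_lit 84) (nat_lit 3355867826) (nat_lit 42) (nat_lit 5) (nat_lit 46) (nat_lit 5) (nat_lit 43) (nat_lit 5) (nat_lit 277) (nat_lit 237) (nat_lit 206)) (XT.nd (nat_lit 94) (nat_lit 336) (nat_lit 0) (XT.lf (nat_lit 0) (nat_lit 6817445773) (nat_lit 252) (nat_lit 1763302934) (nat_lit 336) (nat_lit 3265433161) (nat_lit 39) (nat_lit 5) (nat_lit 42) (nat_lit 5) (nat_lit 43) (nat_lit 5) (nat_lit 278) (nat_lit 237) (nat_lit 205)) (XT.lf (nat_lit 0) (nat_lit 2351476835) (nat_lit 336) (nat_lit 4853245858) (nat_lit 84) (nat_lit 4965597653) (nat_lit 35) (nat_lit 5) (nat_lit 39) (nat_lit 5) (nat_lit 36) (nat_lit 5) (nat_lit 279) (nat_lit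 237) (nat_lit 204))))) (XT.nd (nat_lit 282) (nat_lit 336) (nat_lit 0) (XT.nd (nat_lit 94) (nat_lit 504) (nat_lit 0) (XT.lf (nat_lit 0) (nat_lit 7834254857) (nat_lit 252) (nat_lit 397352480) (nat_lit 336) (nat_lit 4275617158) (nat_lit 32) (nat_lit 5) (nat_lit 35) (nat_lit 5) (nat_lit 36) (nat_lit 5) (nat_lit 280) (nat_lit 237) (nat_lit 203)) (XT.nd (nat_lit 94) (nat_lit 168) (nat_lit 0) (XT.lf (nat_lit 0) (nat_lit 1631976428) (nat_lit 336) (nat_lit 4522792611) (nat_lit 84) (nat_lit 6701324254) (nat_lit 28) (nat_lit 5) (nat_lit 32) (nat_lit 5) (nat_lit 29) (nat_lit 5) (nat_lit 281) (nat_lit 237) (nat_lit 202)) (XT.lf (nat_lit 0) (nat_lit 7800666523) (nat_lit 252) (nat_lit 4376137486) (nat_lit 84) (nat_lit 1041487894) (nat_lit 26) (nat_lit 5) (nat_lit 29) (nat_lit 5) (nat_lit 27) (nat_lit 5) (nat_lit 282) (nat_lit 237) (nat_lit 201)))) (XT.nd (nat_lit 41548) (nat_lit 0) (nat_lit 20160) (XT.lf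 (nat_lit 0) (nat_lit 794347460) (nat_lit 336) (nat_lit 4247424818) (nat_lit 84) (nat_lit 8551993804) (nat_lit 22) (nat_lit 5) (nat_lit 26) (nat_lit 5) (nat_lit 23) (nat_lit 5) (nat_lit 283) (nat_lit 237) (nat_lit 200)) (XT.nd (nat_lit 94) (nat_lit 84) (nat_lit 0) (XT.lf (nat_lit 0) (nat_lit 132867660) (nat_lit 252) (nat_lit 1555508987) (nat_lit 252) (nat_lit 1555508987) (nat_lit 263) (nat_lit 4) (nat_lit 266) (nat_lit 5) (nat_lit 266) (nat_lit 4) (nat_lit 244) (nat_lit 238) (nat_lit 238)) (XT.lf (nat_lit 0) (nat_lit 1448446193) (nat_lit 336) (nat_lit 893151369) (nat_lit 84) (nat_lit 4173028894) (nat_lit 262) (nat_lit 5) (nat_lit 266) (nat_lit 5) (nat_lit 263) (nat_lit 4) (nat_lit 245) (nat_lit 238) (nat_lit 237)))))) (XT.nd (nat_lit 470) (nat_lit 4872) (nat_lit 0) (XT.nd (nat_lit 188) (nat_lit 1932) (nat_lit 0) (XT.nd (nat_lit 94) (nat_lit 504) (nat_lit 0) (XT.lf (nat_lit 0) (nat_lit 4594925279)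 (nat_lit 336) (nat_lit 1347832300) (nat_lit 420) (nat_lit 606460003) (nat_lit 258) (nat_lit 5) (nat_lit 262) (nat_lit 5) (nat_lit 263) (nat_lit 4) (nat_lit 246) (nat_lit 238) (nat_lit 236)) (XT.lf (nat_lit 0) (nat_lit 3654665214) (nat_lit 420) (nat_lit 118413270) (nat_lit 504) (nat_lit 2818246109) (nat_lit 252) (nat_lit 5) (nat_lit 257) (nat_lit 5) (nat_lit 258) (nat_lit 5) (nat_lit 247) (nat_lit 238) (nat_lit 235))) (XT.nd (nat_lit 94) (nat_lit 1344) (nat_lit 0) (XT.lf (nat_lit 0) (nat_lit 1498031033) (nat_lit 588) (nat_lit 3840167351) (nat_lit 84) (nat_lit 1302886532) (nat_lit 245) (nat_lit 5) (nat_lit 252) (nat_lit 5) (nat_lit 246) (nat_lit 5) (nat_lit 248) (nat_lit 238) (nat_lit 234)) (XT.nd (nat_lit 94) (nat_lit 756) (nat_lit 0) (XT.lf (nat_lit 0) (nat_lit 2033292342) (nat_lit 588) (nat_lit 3745704668) (nat_lit 672) (nat_lit 919623234) (nat_lit 238) (nat_lit 5) (nat_lit 245) (nat_lit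 5) (nat_lit 246) (nat_lit 5) (nat_lit 249) (nat_lit 238) (nat_lit 233)) (XT.lf (nat_lit 0) (nat_lit 1343638815) (nat_lit 672) (nat_lit 1916400301) (nat_lit 756) (nat_lit 3503755877) (nat_lit 229) (nat_lit 5) (nat_lit 237) (nat_lit 5) (nat_lit 238) (nat_lit 5) (nat_lit 250) (nat_lit 238) (nat_lit 232))))) (XT.nd (nat_lit 282) (nat_lit 3108) (nat_lit 0) (XT.nd (nat_lit 94) (nat_lit 924) (nat_lit 0) (XT.lf (nat_lit 0) (nat_lit 613100215) (nat_lit 840) (nat_lit 6089916255) (nat_lit 84) (nat_lit 134258911) (nat_lit 219) (nat_lit 5) (nat_lit 229) (nat_lit 5) (nat_lit 220) (nat_lit 5) (nat_lit 251) (nat_lit 238) (nat_lit 231)) (XT.nd (nat_lit 94) (nat_lit 84) (nat_lit 0) (XT.lf (nat_lit 0) (nat_lit 195575485) (nat_lit 840) (nat_lit 4526396777) (nat_lit 924) (nat_lit 2195587161) (nat_lit 209) (nat_lit 5) (nat_lit 219) (nat_lit 5) (nat_lit 220) (nat_lit 5) (nat_lit 252) (nat_lit 238) (nat_lit 230))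 (XT.lf (nat_lit 0) (nat_lit 1847422388) (nat_lit 924) (nat_lit 267132937) (nat_lit 84) (nat_lit 4891439714) (nat_lit 208) (nat_lit 5) (nat_lit 219) (nat_lit 5) (nat_lit 209) (nat_lit 5) (nat_lit 253) (nat_lit 238) (nat_lit 229)))) (XT.nd (nat_lit 94) (nat_lit 2184) (nat_lit 0) (XT.lf (nat_lit 0) (nat_lit 5913863025) (nat_lit 1008) (nat_lit 656645884) (nat_lit 84) (nat_lit 531870135) (nat_lit 197) (nat_lit 5) (nat_lit 209) (nat_lit 5) (nat_lit 198) (nat_lit 5) (nat_lit 254) (nat_lit 238) (nat_lit 228)) (XT.nd (nat_lit 94) (nat_lit 1092) (nat_lit 0) (XT.lf (nat_lit 0) (nat_lit 2812381279) (nat_lit 1092) (nat_lit 1006910933) (nat_lit 84) (nat_lit 3386631107) (nat_lit 184) (nat_lit 5) (nat_lit 197) (nat_lit 5) (nat_lit 185) (nat_lit 5) (nat_lit 255) (nat_lit 238) (nat_lit 227)) (XT.lf (nat_lit 0) (nat_lit 6040634954) (nat_lit 1092) (nat_lit 828484261) (nat_lit 1176) (nat_lit 449095708) (nat_lit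 171) (nat_lit 5) (nat_lit 184) (nat_lit 5) (nat_lit 185) (nat_lit 5) (nat_lit 256) (nat_lit 238) (nat_lit 226))))))))
noncomputable def xc9 : XT := (XT.nd (nat_lit 2068) (nat_lit 1596) (nat_lit 0) (XT.nd (nat_lit 1034) (nat_lit 4032) (nat_lit 0) (XT.nd (nat_lit 470) (nat_lit 3024) (nat_lit 0) (XT.nd (nat_lit 188) (nat_lit 1764) (nat_lit 0) (XT.nd (nat_lit 94) (nat_lit 756) (nat_lit 0) (XT.lf (nat_lit 0) (nat_lit 3528282630) (nat_lit 1260) (nat_lit 1523921965) (nat_lit 84) (nat_lit 2385296236) (nat_lit 156) (nat_lit 5) (nat_lit 171) (nat_lit 5) (nat_lit 157) (nat_lit 5) (nat_lit 257) (nat_lit 238) (nat_lit 225)) (XT.lf (nat_lit 0) (nat_lit 38595311) (nat_lit 756) (nat_lit 1697758644) (nat_lit 84) (nat_lit 5829301457) (nat_lit 147) (nat_lit 5) (nat_lit 156) (nat_lit 5) (nat_lit 148) (nat_lit 5) (nat_lit 258) (nat_lit 238) (nat_lit 224))) (XT.nd (nat_lit 94) (nat_lit 1176) (nat_lit 0) (XT.lf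 (nat_lit 0) (nat_lit 4020797925) (nat_lit 672) (nat_lit 1850780813) (nat_lit 84) (nat_lit 1829485843) (nat_lit 140) (nat_lit 5) (nat_lit 148) (nat_lit 5) (nat_lit 141) (nat_lit 5) (nat_lit 259) (nat_lit 238) (nat_lit 223)) (XT.nd (nat_lit 94) (nat_lit 504) (nat_lit 0) (XT.lf (nat_lit 0) (nat_lit 288249143) (nat_lit 672) (nat_lit 1944119112) (nat_lit 84) (nat_lit 5612922815) (nat_lit 132) (nat_lit 5) (nat_lit 140) (nat_lit 5) (nat_lit 133) (nat_lit 5) (nat_lit 260) (nat_lit 238) (nat_lit 222)) (XT.lf (nat_lit 0) (nat_lit 4311590146) (nat_lit 588) (nat_lit 2016727686) (nat_lit 84) (nat_lit 1668863406) (nat_lit 126) (nat_lit 5) (nat_lit 133) (nat_lit 5) (nat_lit 127) (nat_lit 5) (nat_lit 261) (nat_lit 238) (nat_lit 221))))) (XT.nd (nat_lit 282) (nat_lit 1344) (nat_lit 0) (XT.nd (nat_lit 94) (nat_lit 1092) (nat_lit 0) (XT.lf (nat_lit 0) (nat_lit 329583344) (nat_lit 588) (nat_lit 2039778274) (nat_lit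 84) (nat_lit 5788599924) (nat_lit 119) (nat_lit 5) (nat_lit 126) (nat_lit 5) (nat_lit 120) (nat_lit 5) (nat_lit 262) (nat_lit 238) (nat_lit 220)) (XT.nd (nat_lit 94) (nat_lit 588) (nat_lit 0) (XT.lf (nat_lit 0) (nat_lit 4418747857) (nat_lit 588) (nat_lit 2048126235) (nat_lit 84) (nat_lit 1859763389) (nat_lit 113) (nat_lit 5) (nat_lit 120) (nat_lit 5) (nat_lit 114) (nat_lit 5) (nat_lit 263) (nat_lit 238) (nat_lit 219)) (XT.lf (nat_lit 0) (nat_lit 178649558) (nat_lit 588) (nat_lit 2010153382) (nat_lit 84) (nat_lit 6315746440) (nat_lit 106) (nat_lit 5) (nat_lit 113) (nat_lit 5) (nat_lit 107) (nat_lit 5) (nat_lit 264) (nat_lit 238) (nat_lit 218)))) (XT.nd (nat_lit 94) (nat_lit 924) (nat_lit 0) (XT.lf (nat_lit 0) (nat_lit 4357160040) (nat_lit 504) (nat_lit 1968907656) (nat_lit 84) (nat_lit 2364365081) (nat_lit 101) (nat_lit 5) (nat_lit 107) (nat_lit 5) (nat_lit 102) (nat_lit 5) (nat_lit 265) (nat_lit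 238) (nat_lit 217)) (XT.nd (nat_lit 94) (nat_lit 504) (nat_lit 0) (XT.lf (nat_lit 0) (nat_lit 7005975151) (nat_lit 420) (nat_lit 1724963010) (nat_lit 504) (nat_lit 155150211) (nat_lit 96) (nat_lit 5) (nat_lit 101) (nat_lit 5) (nat_lit 102) (nat_lit 5) (nat_lit 266) (nat_lit 238) (nat_lit 216)) (XT.lf (nat_lit 0) (nat_lit 4138838548) (nat_lit 504) (nat_lit 1800968249) (nat_lit 84) (nat_lit 3149967600) (nat_lit 90) (nat_lit 5) (nat_lit 96) (nat_lit 5) (nat_lit 91) (nat_lit 5) (nat_lit 267) (nat_lit 238) (nat_lit 215)))))) (XT.nd (nat_lit 470) (nat_lit 2016) (nat_lit 0) (XT.nd (nat_lit 188) (nat_lit 1176) (nat_lit 0) (XT.nd (nat_lit 94) (nat_lit 420) (nat_lit 0) (XT.lf (nat_lit 0) (nat_lit 7630661392) (nat_lit 420) (nat_lit 1006860235) (nat_lit 504) (nat_lit 666280462) (nat_lit 85) (nat_lit 5) (nat_lit 90) (nat_lit 5) (nat_lit 91) (nat_lit 5) (nat_lit 268) (nat_lit 238) (nat_lit 214)) (XT.lf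 (nat_lit 0) (nat_lit 3773194201) (nat_lit 420) (nat_lit 1564526894) (nat_lit 84) (nat_lit 4188353363) (nat_lit 80) (nat_lit 5) (nat_lit 85) (nat_lit 5) (nat_lit 81) (nat_lit 5) (nat_lit 269) (nat_lit 238) (nat_lit 213))) (XT.nd (nat_lit 94) (nat_lit 756) (nat_lit 0) (XT.lf (nat_lit 0) (nat_lit 8352463859) (nat_lit 420) (nat_lit 63900982) (nat_lit 504) (nat_lit 1342907306) (nat_lit 75) (nat_lit 5) (nat_lit 80) (nat_lit 5) (nat_lit 81) (nat_lit 5) (nat_lit 270) (nat_lit 238) (nat_lit 212)) (XT.nd (nat_lit 94) (nat_lit 336) (nat_lit 0) (XT.lf (nat_lit 0) (nat_lit 3267271741) (nat_lit 420) (nat_lit 1278448218) (nat_lit 84) (nat_lit 5455228921) (nat_lit 70) (nat_lit 5) (nat_lit 75) (nat_lit 5) (nat_lit 71) (nat_lit 5) (nat_lit 271) (nat_lit 238) (nat_lit 211)) (XT.lf (nat_lit 0) (nat_lit 8086495350) (nat_lit 420) (nat_lit 1111550081) (nat_lit 84) (nat_lit 1055746369) (nat_lit 66) (nat_lit 5) (nat_lit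 71) (nat_lit 5) (nat_lit 67) (nat_lit 5) (nat_lit 272) (nat_lit 238) (nat_lit 210))))) (XT.nd (nat_lit 282) (nat_lit 924) (nat_lit 0) (XT.nd (nat_lit 94) (nat_lit 672) (nat_lit 0) (XT.lf (nat_lit 0) (nat_lit 2625948174) (nat_lit 420) (nat_lit 960536536) (nat_lit 84) (nat_lit 6929733357) (nat_lit 61) (nat_lit 5) (nat_lit 66) (nat_lit 5) (nat_lit 62) (nat_lit 5) (nat_lit 273) (nat_lit 238) (nat_lit 209)) (XT.nd (nat_lit 94) (nat_lit 336) (nat_lit 0) (XT.lf (nat_lit 0) (nat_lit 7643572172) (nat_lit 420) (nat_lit 795524076) (nat_lit 84) (nat_lit 2350510883) (nat_lit 57) (nat_lit 5) (nat_lit 62) (nat_lit 5) (nat_lit 58) (nat_lit 5) (nat_lit 274) (nat_lit 238) (nat_lit 208)) (XT.lf (nat_lit 0) (nat_lit 1852098441) (nat_lit 336) (nat_lit 627805126) (nat_lit 84) (nat_lit 8594005699) (nat_lit 53) (nat_lit 5) (nat_lit 57) (nat_lit 5) (nat_lit 54) (nat_lit 5) (nat_lit 275) (nat_lit 238) (nat_lit 207))))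 (XT.nd (nat_lit 94) (nat_lit 588) (nat_lit 0) (XT.lf (nat_lit 0) (nat_lit 7089790653) (nat_lit 420) (nat_lit 474620722) (nat_lit 84) (nat_lit 3804467562) (nat_lit 49) (nat_lit 5) (nat_lit 54) (nat_lit 5) (nat_lit 50) (nat_lit 5) (nat_lit 276) (nat_lit 238) (nat_lit 206)) (XT.nd (nat_lit 94) (nat_lit 252) (nat_lit 0) (XT.lf (nat_lit 0) (nat_lit 946731808) (nat_lit 336) (nat_lit 296724886) (nat_lit 84) (nat_lit 10432803781) (nat_lit 45) (nat_lit 5) (nat_lit 49) (nat_lit 5) (nat_lit 46) (nat_lit 5) (nat_lit 277) (nat_lit 238) (nat_lit 205)) (XT.lf (nat_lit 0) (nat_lit 6426348444) (nat_lit 336) (nat_lit 165041313) (nat_lit 84) (nat_lit 5402565788) (nat_lit 42) (nat_lit 5) (nat_lit 46) (nat_lit 5) (nat_lit 43) (nat_lit 5) (nat_lit 278) (nat_lit 238) (nat_lit 204))))))) (XT.nd (nat_lit 42300) (nat_lit 0) (nat_lit 10416) (XT.nd (nat_lit 41736) (nat_lit 0) (nat_lit 19152) (XT.nd (nat_lit 188) (nat_lit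 756) (nat_lit 0) (XT.nd (nat_lit 94) (nat_lit 336) (nat_lit 0) (XT.lf (nat_lit 0) (nat_lit 14630324) (nat_lit 252) (nat_lit 12219424402) (nat_lit 336) (nat_lit 91586835) (nat_lit 36) (nat_lit 5) (nat_lit 39) (nat_lit 5) (nat_lit 40) (nat_lit 5) (nat_lit 279) (nat_lit 238) (nat_lit 203)) (XT.lf (nat_lit 0) (nat_lit 119910794) (nat_lit 252) (nat_lit 5534258997) (nat_lit 336) (nat_lit 7013187404) (nat_lit 32) (nat_lit 5) (nat_lit 35) (nat_lit 5) (nat_lit 36) (nat_lit 5) (nat_lit 280) (nat_lit 238) (nat_lit 202))) (XT.nd (nat_lit 94) (nat_lit 504) (nat_lit 0) (XT.lf (nat_lit 0) (nat_lit 270119064) (nat_lit 252) (nat_lit 11482393549) (nat_lit 336) (nat_lit 1271246736) (nat_lit 29) (nat_lit 5) (nat_lit 32) (nat_lit 5) (nat_lit 33) (nat_lit 5) (nat_lit 281) (nat_lit 238) (nat_lit 201)) (XT.nd (nat_lit 94) (nat_lit 252) (nat_lit 0) (XT.lf (nat_lit 0) (nat_lit 364285382) (nat_lit 168) (nat_lit 4407076881)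 (nat_lit 252) (nat_lit 8620513149) (nat_lit 26) (nat_lit 5) (nat_lit 28) (nat_lit 5) (nat_lit 29) (nat_lit 5) (nat_lit 282) (nat_lit 238) (nat_lit 200)) (XT.lf (nat_lit 0) (nat_lit 471738248) (nat_lit 252) (nat_lit 10710364647) (nat_lit 336) (nat_lit 2592404497) (nat_lit 23) (nat_lit 5) (nat_lit 26) (nat_lit 5) (nat_lit 27) (nat_lit 5) (nat_lit 283) (nat_lit 238) (nat_lit 199))))) (XT.nd (nat_lit 282) (nat_lit 924) (nat_lit 0) (XT.nd (nat_lit 94) (nat_lit 588) (nat_lit 0) (XT.lf (nat_lit 0) (nat_lit 1518898924) (nat_lit 84) (nat_lit 853836386) (nat_lit 84) (nat_lit 853836386) (nat_lit 269) (nat_lit 4) (nat_lit 270) (nat_lit 5) (nat_lit 270) (nat_lit 4) (nat_lit 242) (nat_lit 239) (nat_lit 239)) (XT.nd (nat_lit 94) (nat_lit 336) (nat_lit 0) (XT.lf (nat_lit 0) (nat_lit 1548272323) (nat_lit 168) (nat_lit 1263617522) (nat_lit 252) (nat_lit 3656655283) (nat_lit 266) (nat_lit 5) (nat_lit 268) (nat_lit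 5) (nat_lit 269) (nat_lit 4) (nat_lit 243) (nat_lit 239) (nat_lit 238)) (XT.lf (nat_lit 0) (nat_lit 163307528) (nat_lit 252) (nat_lit 605877476) (nat_lit 336) (nat_lit 5722835363) (nat_lit 262) (nat_lit 5) (nat_lit 265) (nat_lit 5) (nat_lit 266) (nat_lit 5) (nat_lit 244) (nat_lit 239) (nat_lit 237)))) (XT.nd (nat_lit 94) (nat_lit 924) (nat_lit 0) (XT.lf (nat_lit 0) (nat_lit 5119525998) (nat_lit 336) (nat_lit 1113127330) (nat_lit 84) (nat_lit 289859413) (nat_lit 262) (nat_lit 5) (nat_lit 266) (nat_lit 5) (nat_lit 263) (nat_lit 4) (nat_lit 245) (nat_lit 239) (nat_lit 236)) (XT.nd (nat_lit 94) (nat_lit 504) (nat_lit 0) (XT.lf (nat_lit 0) (nat_lit 2856947209) (nat_lit 420) (nat_lit 2307550819) (nat_lit 84) (nat_lit 1395980487) (nat_lit 257) (nat_lit 5) (nat_lit 262) (nat_lit 5) (nat_lit 258) (nat_lit 5) (nat_lit 246) (nat_lit 239) (nat_lit 235)) (XT.lf (nat_lit 0) (nat_lit 477967560) (nat_lit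 504) (nat_lit 3409918119) (nat_lit 84) (nat_lit 2718713704) (nat_lit 251) (nat_lit 5) (nat_lit 257) (nat_lit 5) (nat_lit 252) (nat_lit 5) (nat_lit 247) (nat_lit 239) (nat_lit 234)))))) (XT.nd (nat_lit 470) (nat_lit 5964) (nat_lit 0) (XT.nd (nat_lit 188) (nat_lit 1596) (nat_lit 0) (XT.nd (nat_lit 94) (nat_lit 672) (nat_lit 0) (XT.lf (nat_lit 0) (nat_lit 2215282475) (nat_lit 504) (nat_lit 2375224988) (nat_lit 588) (nat_lit 2069647440) (nat_lit 245) (nat_lit 5) (nat_lit 251) (nat_lit 5) (nat_lit 252) (nat_lit 5) (nat_lit 248) (nat_lit 239) (nat_lit 233)) (XT.lf (nat_lit 0) (nat_lit 1324266494) (nat_lit 588) (nat_lit 638892542) (nat_lit 672) (nat_lit 4758653878) (nat_lit 237) (nat_lit 5) (nat_lit 244) (nat_lit 5) (nat_lit 245) (nat_lit 5) (nat_lit 249) (nat_lit 239) (nat_lit 232))) (XT.nd (nat_lit 94) (nat_lit 924) (nat_lit 0) (XT.lf (nat_lit 0) (nat_lit 503917996) (nat_lit 672) (nat_lit 5491606491)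 (nat_lit 756) (nat_lit 795530124) (nat_lit 229) (nat_lit 5) (nat_lit 237) (nat_lit 5) (nat_lit 238) (nat_lit 5) (nat_lit 250) (nat_lit 239) (nat_lit 231)) (XT.nd (nat_lit 94) (nat_lit 840) (nat_lit 0) (XT.lf (nat_lit 0) (nat_lit 3143164905) (nat_lit 756) (nat_lit 250830187) (nat_lit 84) (nat_lit 3473570156) (nat_lit 228) (nat_lit 5) (nat_lit 237) (nat_lit 5) (nat_lit 229) (nat_lit 5) (nat_lit 251) (nat_lit 239) (nat_lit 230)) (XT.lf (nat_lit 0) (nat_lit 162288338) (nat_lit 840) (nat_lit 906447837) (nat_lit 84) (nat_lit 5883719561) (nat_lit 218) (nat_lit 5) (nat_lit 228) (nat_lit 5) (nat_lit 219) (nat_lit 5) (nat_lit 252) (nat_lit 239) (nat_lit 229))))) (XT.nd (nat_lit 282) (nat_lit 3108) (nat_lit 0) (XT.nd (nat_lit 94) (nat_lit 2016) (nat_lit 0) (XT.lf (nat_lit 0) (nat_lit 4033446035) (nat_lit 924) (nat_lit 1525226593) (nat_lit 84) (nat_lit 1485634899) (nat_lit 208) (nat_lit 5) (nat_lit 219)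 (nat_lit 5) (nat_lit 209) (nat_lit 5) (nat_lit 253) (nat_lit 239) (nat_lit 228)) (XT.nd (nat_lit 94) (nat_lit 1008) (nat_lit 0) (XT.lf (nat_lit 0) (nat_lit 819790342) (nat_lit 1008) (nat_lit 2074498157) (nat_lit 84) (nat_lit 4250146921) (nat_lit 196) (nat_lit 5) (nat_lit 208) (nat_lit 5) (nat_lit 197) (nat_lit 5) (nat_lit 254) (nat_lit 239) (nat_lit 227)) (XT.lf (nat_lit 0) (nat_lit 4651888303) (nat_lit 1092) (nat_lit 2569583521) (nat_lit 84) (nat_lit 31009150) (nat_lit 184) (nat_lit 5) (nat_lit 197) (nat_lit 5) (nat_lit 185) (nat_lit 5) (nat_lit 255) (nat_lit 239) (nat_lit 226)))) (XT.nd (nat_lit 94) (nat_lit 1932) (nat_lit 0) (XT.lf (nat_lit 0) (nat_lit 1204555072) (nat_lit 1176) (nat_lit 3026800189) (nat_lit 84) (nat_lit 3136702217) (nat_lit 170) (nat_lit 5) (nat_lit 184) (nat_lit 5) (nat_lit 171) (nat_lit 5) (nat_lit 256) (nat_lit 239) (nat_lit 225)) (XT.nd (nat_lit 94) (nat_lit 756) (nat_lit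 0) (XT.lf (nat_lit 0) (nat_lit 4060712799) (nat_lit 1176) (nat_lit 976402633) (nat_lit 1260) (nat_lit 2454765046) (nat_lit 156) (nat_lit 5) (nat_lit 170) (nat_lit 5) (nat_lit 171) (nat_lit 5) (nat_lit 257) (nat_lit 239) (nat_lit 224)) (XT.lf (nat_lit 0) (nat_lit 1341992896) (nat_lit 756) (nat_lit 3798335104) (nat_lit 84) (nat_lit 2483272548) (nat_lit 147) (nat_lit 5) (nat_lit 156) (nat_lit 5) (nat_lit 148) (nat_lit 5) (nat_lit 258) (nat_lit 239) (nat_lit 223))))))))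
noncomputable def xc10 : XT := (XT.nd (nat_lit 2068) (nat_lit 756) (nat_lit 0) (XT.nd (nat_lit 1034) (nat_lit 3780) (nat_lit 0) (XT.nd (nat_lit 470) (nat_lit 2772) (nat_lit 0) (XT.nd (nat_lit 188) (nat_lit 1596) (nat_lit 0) (XT.nd (nat_lit 94) (nat_lit 672) (nat_lit 0) (XT.lf (nat_lit 0) (nat_lit 3635963161) (nat_lit 588) (nat_lit 1561316407) (nat_lit 672) (nat_lit 2566172207) (nat_lit 140) (nat_lit 5) (nat_lit 147) (nat_lit 5) (nat_lit 148) (nat_lit 5) (nat_lit 259) (nat_lit 239) (nat_lit 222)) (XT.lf (nat_lit 0) (nat_lit 1253297875) (nat_lit 672) (nat_lit 4420658656) (nat_lit 84) (nat_lit 2237619719) (nat_lit 132) (nat_lit 5) (nat_lit 140) (nat_lit 5) (nat_lit 133) (nat_lit 5) (nat_lit 260) (nat_lit 239) (nat_lit 221))) (XT.nd (nat_lit 94) (nat_lit 1092) (nat_lit 0) (XT.lf (nat_lit 0) (nat_lit 3379423003) (nat_lit 504) (nat_lit 1772672373) (nat_lit 588) (nat_lit 2915730065) (nat_lit 126)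 (nat_lit 5) (nat_lit 132) (nat_lit 5) (nat_lit 133) (nat_lit 5) (nat_lit 261) (nat_lit 239) (nat_lit 220)) (XT.nd (nat_lit 94) (nat_lit 504) (nat_lit 0) (XT.lf (nat_lit 0) (nat_lit 955892576) (nat_lit 588) (nat_lit 4922421005) (nat_lit 84) (nat_lit 2354405289) (nat_lit 119) (nat_lit 5) (nat_lit 126) (nat_lit 5) (nat_lit 120) (nat_lit 5) (nat_lit 262) (nat_lit 239) (nat_lit 219)) (XT.lf (nat_lit 0) (nat_lit 3264402600) (nat_lit 504) (nat_lit 1653686399) (nat_lit 588) (nat_lit 3487749693) (nat_lit 113) (nat_lit 5) (nat_lit 119) (nat_lit 5) (nat_lit 120) (nat_lit 5) (nat_lit 263) (nat_lit 239) (nat_lit 218))))) (XT.nd (nat_lit 282) (nat_lit 1344) (nat_lit 0) (XT.nd (nat_lit 94) (nat_lit 840) (nat_lit 0) (XT.lf (nat_lit 0) (nat_lit 463811271) (nat_lit 588) (nat_lit 5329831023) (nat_lit 84) (nat_lit 2794335267) (nat_lit 106) (nat_lit 5) (nat_lit 113) (nat_lit 5) (nat_lit 107) (nat_lit 5) (nat_lit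 264) (nat_lit 239) (nat_lit 217)) (XT.nd (nat_lit 94) (nat_lit 420) (nat_lit 0) (XT.lf (nat_lit 0) (nat_lit 3266665265) (nat_lit 420) (nat_lit 1241939774) (nat_lit 504) (nat_lit 4269936005) (nat_lit 101) (nat_lit 5) (nat_lit 106) (nat_lit 5) (nat_lit 107) (nat_lit 5) (nat_lit 265) (nat_lit 239) (nat_lit 216)) (XT.lf (nat_lit 0) (nat_lit 3308936956) (nat_lit 420) (nat_lit 5452600139) (nat_lit 504) (nat_lit 216889155) (nat_lit 96) (nat_lit 5) (nat_lit 101) (nat_lit 5) (nat_lit 102) (nat_lit 5) (nat_lit 266) (nat_lit 239) (nat_lit 215)))) (XT.nd (nat_lit 94) (nat_lit 840) (nat_lit 0) (XT.lf (nat_lit 0) (nat_lit 3364025561) (nat_lit 420) (nat_lit 570090142) (nat_lit 504) (nat_lit 5253074082) (nat_lit 90) (nat_lit 5) (nat_lit 95) (nat_lit 5) (nat_lit 96) (nat_lit 5) (nat_lit 267) (nat_lit 239) (nat_lit 214)) (XT.nd (nat_lit 94) (nat_lit 420) (nat_lit 0) (XT.lf (nat_lit 0) (nat_lit 3436456718) (nat_lit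 420) (nat_lit 4880874371) (nat_lit 504) (nat_lit 1087927756) (nat_lit 85) (nat_lit 5) (nat_lit 90) (nat_lit 5) (nat_lit 91) (nat_lit 5) (nat_lit 268) (nat_lit 239) (nat_lit 213)) (XT.lf (nat_lit 0) (nat_lit 3206200359) (nat_lit 420) (nat_lit 6100975540) (nat_lit 84) (nat_lit 325941496) (nat_lit 80) (nat_lit 5) (nat_lit 85) (nat_lit 5) (nat_lit 81) (nat_lit 5) (nat_lit 269) (nat_lit 239) (nat_lit 212)))))) (XT.nd (nat_lit 470) (nat_lit 1848) (nat_lit 0) (XT.nd (nat_lit 188) (nat_lit 1092) (nat_lit 0) (XT.nd (nat_lit 94) (nat_lit 420) (nat_lit 0) (XT.lf (nat_lit 0) (nat_lit 3626589613) (nat_lit 420) (nat_lit 4110882945) (nat_lit 504) (nat_lit 2132758970) (nat_lit 75) (nat_lit 5) (nat_lit 80) (nat_lit 5) (nat_lit 81) (nat_lit 5) (nat_lit 270) (nat_lit 239) (nat_lit 211)) (XT.lf (nat_lit 0) (nat_lit 2335280801) (nat_lit 420) (nat_lit 6371053599) (nat_lit 84) (nat_lit 1411483586) (nat_lit 70) (nat_lit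 5) (nat_lit 75) (nat_lit 5) (nat_lit 71) (nat_lit 5) (nat_lit 271) (nat_lit 239) (nat_lit 210))) (XT.nd (nat_lit 94) (nat_lit 756) (nat_lit 0) (XT.lf (nat_lit 0) (nat_lit 3860923281) (nat_lit 336) (nat_lit 3166201326) (nat_lit 420) (nat_lit 3347994591) (nat_lit 66) (nat_lit 5) (nat_lit 70) (nat_lit 5) (nat_lit 71) (nat_lit 5) (nat_lit 272) (nat_lit 239) (nat_lit 209)) (XT.nd (nat_lit 94) (nat_lit 336) (nat_lit 0) (XT.lf (nat_lit 0) (nat_lit 1318046396) (nat_lit 420) (nat_lit 6646748714) (nat_lit 84) (nat_lit 2678599927) (nat_lit 61) (nat_lit 5) (nat_lit 66) (nat_lit 5) (nat_lit 62) (nat_lit 5) (nat_lit 273) (nat_lit 239) (nat_lit 208)) (XT.lf (nat_lit 0) (nat_lit 4121941050) (nat_lit 336) (nat_lit 2067487210) (nat_lit 420) (nat_lit 4732474316) (nat_lit 57) (nat_lit 5) (nat_lit 61) (nat_lit 5) (nat_lit 62) (nat_lit 5) (nat_lit 274) (nat_lit 239) (nat_lit 207))))) (XT.nd (nat_lit 282) (nat_lit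 924) (nat_lit 0) (XT.nd (nat_lit 94) (nat_lit 588) (nat_lit 0) (XT.lf (nat_lit 0) (nat_lit 155526398) (nat_lit 336) (nat_lit 6947210619) (nat_lit 84) (nat_lit 4109200008) (nat_lit 53) (nat_lit 5) (nat_lit 57) (nat_lit 5) (nat_lit 54) (nat_lit 5) (nat_lit 275) (nat_lit 239) (nat_lit 206)) (XT.nd (nat_lit 94) (nat_lit 252) (nat_lit 0) (XT.lf (nat_lit 0) (nat_lit 4392763146) (nat_lit 336) (nat_lit 832880403) (nat_lit 420) (nat_lit 6287128273) (nat_lit 49) (nat_lit 5) (nat_lit 53) (nat_lit 5) (nat_lit 54) (nat_lit 5) (nat_lit 276) (nat_lit 239) (nat_lit 205)) (XT.lf (nat_lit 0) (nat_lit 4520848927) (nat_lit 252) (nat_lit 6124541389) (nat_lit 336) (nat_lit 1179893713) (nat_lit 46) (nat_lit 5) (nat_lit 49) (nat_lit 5) (nat_lit 50) (nat_lit 5) (nat_lit 277) (nat_lit 239) (nat_lit 204)))) (XT.nd (nat_lit 94) (nat_lit 588) (nat_lit 0) (XT.lf (nat_lit 0) (nat_lit 4141075984) (nat_lit 336) (nat_lit 7499037616)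 (nat_lit 84) (nat_lit 509814635) (nat_lit 42) (nat_lit 5) (nat_lit 46) (nat_lit 5) (nat_lit 43) (nat_lit 5) (nat_lit 278) (nat_lit 239) (nat_lit 203)) (XT.nd (nat_lit 94) (nat_lit 336) (nat_lit 0) (XT.lf (nat_lit 0) (nat_lit 4758761588) (nat_lit 252) (nat_lit 5056353843) (nat_lit 336) (nat_lit 2671177157) (nat_lit 39) (nat_lit 5) (nat_lit 42) (nat_lit 5) (nat_lit 43) (nat_lit 5) (nat_lit 279) (nat_lit 239) (nat_lit 202)) (XT.lf (nat_lit 0) (nat_lit 2938188655) (nat_lit 336) (nat_lit 7960633105) (nat_lit 84) (nat_lit 1937013280) (nat_lit 35) (nat_lit 5) (nat_lit 39) (nat_lit 5) (nat_lit 36) (nat_lit 5) (nat_lit 280) (nat_lit 239) (nat_lit 201))))))) (XT.nd (nat_lit 42112) (nat_lit 0) (nat_lit 10164) (XT.nd (nat_lit 41548) (nat_lit 0) (nat_lit 18900) (XT.nd (nat_lit 188) (nat_lit 168) (nat_lit 0) (XT.nd (nat_lit 94) (nat_lit 336) (nat_lit 0) (XT.lf (nat_lit 0) (nat_lit 4964043000) (nat_lit 252)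 (nat_lit 3914527604) (nat_lit 336) (nat_lit 4319195219) (nat_lit 32) (nat_lit 5) (nat_lit 35) (nat_lit 5) (nat_lit 36) (nat_lit 5) (nat_lit 281) (nat_lit 239) (nat_lit 200)) (XT.lf (nat_lit 0) (nat_lit 1603769223) (nat_lit 336) (nat_lit 8514585164) (nat_lit 84) (nat_lit 3455322535) (nat_lit 28) (nat_lit 5) (nat_lit 32) (nat_lit 5) (nat_lit 29) (nat_lit 5) (nat_lit 282) (nat_lit 239) (nat_lit 199))) (XT.nd (nat_lit 41172) (nat_lit 0) (nat_lit 20496) (XT.lf (nat_lit 0) (nat_lit 5120272349) (nat_lit 168) (nat_lit 2712268400) (nat_lit 252) (nat_lit 6130137071) (nat_lit 26) (nat_lit 5) (nat_lit 28) (nat_lit 5) (nat_lit 29) (nat_lit 5) (nat_lit 283) (nat_lit 239) (nat_lit 198)) (XT.nd (nat_lit 94) (nat_lit 84) (nat_lit 0) (XT.lf (nat_lit 0) (nat_lit 1073741823) (nat_lit 0) (nat_lit 0) (nat_lit 0) (nat_lit 0) (nat_lit 271) (nat_lit 0) (nat_lit 1) (nat_lit 0) (nat_lit 1) (nat_lit 0) (nat_lit 240)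 (nat_lit 240) (nat_lit 240)) (XT.lf (nat_lit 0) (nat_lit 4507888967) (nat_lit 84) (nat_lit 1812577858) (nat_lit 0) (nat_lit 125269277) (nat_lit 270) (nat_lit 5) (nat_lit 271) (nat_lit 0) (nat_lit 270) (nat_lit 4) (nat_lit 241) (nat_lit 240) (nat_lit 239))))) (XT.nd (nat_lit 282) (nat_lit 1176) (nat_lit 0) (XT.nd (nat_lit 94) (nat_lit 252) (nat_lit 0) (XT.lf (nat_lit 0) (nat_lit 2471870468) (nat_lit 168) (nat_lit 3526286799) (nat_lit 84) (nat_lit 458927800) (nat_lit 268) (nat_lit 5) (nat_lit 270) (nat_lit 5) (nat_lit 269) (nat_lit 4) (nat_lit 242) (nat_lit 240) (nat_lit 238)) (XT.nd (nat_lit 94) (nat_lit 0) (nat_lit 0) (XT.lf (nat_lit 0) (nat_lit 330392067) (nat_lit 252) (nat_lit 5144194791) (nat_lit 84) (nat_lit 1001932322) (nat_lit 265) (nat_lit 5) (nat_lit 268) (nat_lit 5) (nat_lit 266) (nat_lit 5) (nat_lit 243) (nat_lit 240) (nat_lit 237)) (XT.lf (nat_lit 0) (nat_lit 4539979578) (nat_lit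 252) (nat_lit 183412343) (nat_lit 84) (nat_lit 1779843420) (nat_lit 265) (nat_lit 5) (nat_lit 268) (nat_lit 5) (nat_lit 266) (nat_lit 5) (nat_lit 244) (nat_lit 240) (nat_lit 236)))) (XT.nd (nat_lit 94) (nat_lit 840) (nat_lit 0) (XT.lf (nat_lit 0) (nat_lit 2170137698) (nat_lit 336) (nat_lit 1577592987) (nat_lit 84) (nat_lit 2789733756) (nat_lit 261) (nat_lit 5) (nat_lit 265) (nat_lit 5) (nat_lit 262) (nat_lit 5) (nat_lit 245) (nat_lit 240) (nat_lit 235)) (XT.nd (nat_lit 94) (nat_lit 504) (nat_lit 0) (XT.lf (nat_lit 0) (nat_lit 3697455805) (nat_lit 336) (nat_lit 2560370211) (nat_lit 420) (nat_lit 321972257) (nat_lit 257) (nat_lit 5) (nat_lit 261) (nat_lit 5) (nat_lit 262) (nat_lit 5) (nat_lit 246) (nat_lit 240) (nat_lit 234)) (XT.lf (nat_lit 0) (nat_lit 2507497356) (nat_lit 420) (nat_lit 1134554362) (nat_lit 504) (nat_lit 2987476714) (nat_lit 251) (nat_lit 5) (nat_lit 256) (nat_lit 5) (nat_lit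 257) (nat_lit 5) (nat_lit 247) (nat_lit 240) (nat_lit 233)))))) (XT.nd (nat_lit 470) (nat_lit 5964) (nat_lit 0) (XT.nd (nat_lit 188) (nat_lit 1596) (nat_lit 0) (XT.nd (nat_lit 94) (nat_lit 588) (nat_lit 0) (XT.lf (nat_lit 0) (nat_lit 911498173) (nat_lit 588) (nat_lit 5279198428) (nat_lit 84) (nat_lit 496719475) (nat_lit 244) (nat_lit 5) (nat_lit 251) (nat_lit 5) (nat_lit 245) (nat_lit 5) (nat_lit 248) (nat_lit 240) (nat_lit 232)) (XT.lf (nat_lit 0) (nat_lit 365839302) (nat_lit 588) (nat_lit 4411467905) (nat_lit 672) (nat_lit 1975162208) (nat_lit 237) (nat_lit 5) (nat_lit 244) (nat_lit 5) (nat_lit 245) (nat_lit 5) (nat_lit 249) (nat_lit 240) (nat_lit 231))) (XT.nd (nat_lit 94) (nat_lit 1512) (nat_lit 0) (XT.lf (nat_lit 0) (nat_lit 1816031678) (nat_lit 672) (nat_lit 583506549) (nat_lit 84) (nat_lit 4425837528) (nat_lit 236) (nat_lit 5) (nat_lit 244) (nat_lit 5) (nat_lit 237) (nat_lit 5) (nat_lit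 250) (nat_lit 240) (nat_lit 230)) (XT.nd (nat_lit 94) (nat_lit 840) (nat_lit 0) (XT.lf (nat_lit 0) (nat_lit 5454642735) (nat_lit 672) (nat_lit 148445749) (nat_lit 756) (nat_lit 1303163676) (nat_lit 228) (nat_lit 5) (nat_lit 236) (nat_lit 5) (nat_lit 237) (nat_lit 5) (nat_lit 251) (nat_lit 240) (nat_lit 229)) (XT.lf (nat_lit 0) (nat_lit 2414168005) (nat_lit 840) (nat_lit 2281189646) (nat_lit 84) (nat_lit 2298846778) (nat_lit 218) (nat_lit 5) (nat_lit 228) (nat_lit 5) (nat_lit 219) (nat_lit 5) (nat_lit 252) (nat_lit 240) (nat_lit 228))))) (XT.nd (nat_lit 282) (nat_lit 3108) (nat_lit 0) (XT.nd (nat_lit 94) (nat_lit 2016) (nat_lit 0) (XT.lf (nat_lit 0) (nat_lit 4050289644) (nat_lit 840) (nat_lit 2107294540) (nat_lit 924) (nat_lit 932942989) (nat_lit 208) (nat_lit 5) (nat_lit 218) (nat_lit 5) (nat_lit 219) (nat_lit 5) (nat_lit 253) (nat_lit 240) (nat_lit 227)) (XT.nd (nat_lit 94) (nat_lit 1008)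 (nat_lit 0) (XT.lf (nat_lit 0) (nat_lit 2717248503) (nat_lit 1008) (nat_lit 3754162603) (nat_lit 84) (nat_lit 723100700) (nat_lit 196) (nat_lit 5) (nat_lit 208) (nat_lit 5) (nat_lit 197) (nat_lit 5) (nat_lit 254) (nat_lit 240) (nat_lit 226)) (XT.lf (nat_lit 0) (nat_lit 2883546792) (nat_lit 1008) (nat_lit 3557399191) (nat_lit 1092) (nat_lit 865405394) (nat_lit 184) (nat_lit 5) (nat_lit 196) (nat_lit 5) (nat_lit 197) (nat_lit 5) (nat_lit 255) (nat_lit 240) (nat_lit 225)))) (XT.nd (nat_lit 94) (nat_lit 1932) (nat_lit 0) (XT.lf (nat_lit 0) (nat_lit 2380857981) (nat_lit 1092) (nat_lit 376241122) (nat_lit 1176) (nat_lit 4669167566) (nat_lit 170) (nat_lit 5) (nat_lit 183) (nat_lit 5) (nat_lit 184) (nat_lit 5) (nat_lit 256) (nat_lit 240) (nat_lit 224)) (XT.nd (nat_lit 94) (nat_lit 756) (nat_lit 0) (XT.lf (nat_lit 0) (nat_lit 1917571694) (nat_lit 1176) (nat_lit 4561652041) (nat_lit 1260) (nat_lit 1074731185)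 (nat_lit 156) (nat_lit 5) (nat_lit 170) (nat_lit 5) (nat_lit 171) (nat_lit 5) (nat_lit 257) (nat_lit 240) (nat_lit 223)) (XT.lf (nat_lit 0) (nat_lit 1500655264) (nat_lit 672) (nat_lit 1055314701) (nat_lit 756) (nat_lit 5133883640) (nat_lit 147) (nat_lit 5) (nat_lit 155) (nat_lit 5) (nat_lit 156) (nat_lit 5) (nat_lit 258) (nat_lit 240) (nat_lit 222))))))))
noncomputable def xc11 : XT := (XT.nd (nat_lit 2068) (nat_lit 840) (nat_lit 0) (XT.nd (nat_lit 1034) (nat_lit 3864) (nat_lit 0) (XT.nd (nat_lit 470) (nat_lit 2940) (nat_lit 0) (XT.nd (nat_lit 188) (nat_lit 1092) (nat_lit 0) (XT.nd (nat_lit 94) (nat_lit 672) (nat_lit 0) (XT.lf (nat_lit 0) (nat_lit 1119188654) (nat_lit 588) (nat_lit 5174985525) (nat_lit 672) (nat_lit 1539628539) (nat_lit 140) (nat_lit 5) (nat_lit 147) (nat_lit 5) (nat_lit 148) (nat_lit 5) (nat_lit 259) (nat_lit 240) (nat_lit 221)) (XT.lf (nat_lit 0) (nat_lit 776312826) (nat_lit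 588) (nat_lit 1348865865) (nat_lit 672) (nat_lit 5860946711) (nat_lit 132) (nat_lit 5) (nat_lit 139) (nat_lit 5) (nat_lit 140) (nat_lit 5) (nat_lit 260) (nat_lit 240) (nat_lit 220))) (XT.nd (nat_lit 94) (nat_lit 588) (nat_lit 0) (XT.lf (nat_lit 0) (nat_lit 458341061) (nat_lit 504) (nat_lit 5445375982) (nat_lit 588) (nat_lit 2242866619) (nat_lit 126) (nat_lit 5) (nat_lit 132) (nat_lit 5) (nat_lit 133) (nat_lit 5) (nat_lit 261) (nat_lit 240) (nat_lit 219)) (XT.nd (nat_lit 94) (nat_lit 0) (nat_lit 0) (XT.lf (nat_lit 0) (nat_lit 178798811) (nat_lit 504) (nat_lit 1301751063) (nat_lit 588) (nat_lit 6835318048) (nat_lit 119) (nat_lit 5) (nat_lit 125) (nat_lit 5) (nat_lit 126) (nat_lit 5) (nat_lit 262) (nat_lit 240) (nat_lit 218)) (XT.lf (nat_lit 0) (nat_lit 5323357705) (nat_lit 588) (nat_lit 90302221) (nat_lit 84) (nat_lit 3079506419) (nat_lit 119) (nat_lit 5) (nat_lit 126) (nat_lit 5) (nat_lit 120)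 (nat_lit 5) (nat_lit 263) (nat_lit 240) (nat_lit 217))))) (XT.nd (nat_lit 282) (nat_lit 1428) (nat_lit 0) (XT.nd (nat_lit 94) (nat_lit 924) (nat_lit 0) (XT.lf (nat_lit 0) (nat_lit 638088060) (nat_lit 588) (nat_lit 311238275) (nat_lit 84) (nat_lit 7730630822) (nat_lit 112) (nat_lit 5) (nat_lit 119) (nat_lit 5) (nat_lit 113) (nat_lit 5) (nat_lit 264) (nat_lit 240) (nat_lit 216)) (XT.nd (nat_lit 94) (nat_lit 420) (nat_lit 0) (XT.lf (nat_lit 0) (nat_lit 4567597387) (nat_lit 588) (nat_lit 545601574) (nat_lit 84) (nat_lit 3761356635) (nat_lit 106) (nat_lit 5) (nat_lit 113) (nat_lit 5) (nat_lit 107) (nat_lit 5) (nat_lit 265) (nat_lit 240) (nat_lit 215)) (XT.lf (nat_lit 0) (nat_lit 8351807454) (nat_lit 420) (nat_lit 323348848) (nat_lit 504) (nat_lit 404372559) (nat_lit 101) (nat_lit 5) (nat_lit 106) (nat_lit 5) (nat_lit 107) (nat_lit 5) (nat_lit 266) (nat_lit 240) (nat_lit 214)))) (XT.nd (nat_lit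 94) (nat_lit 924) (nat_lit 0) (XT.lf (nat_lit 0) (nat_lit 3640141637) (nat_lit 504) (nat_lit 940852545) (nat_lit 84) (nat_lit 4711247287) (nat_lit 95) (nat_lit 5) (nat_lit 101) (nat_lit 5) (nat_lit 96) (nat_lit 5) (nat_lit 267) (nat_lit 240) (nat_lit 213)) (XT.nd (nat_lit 94) (nat_lit 504) (nat_lit 0) (XT.lf (nat_lit 0) (nat_lit 7870114807) (nat_lit 504) (nat_lit 1108077360) (nat_lit 84) (nat_lit 537481840) (nat_lit 90) (nat_lit 5) (nat_lit 96) (nat_lit 5) (nat_lit 91) (nat_lit 5) (nat_lit 268) (nat_lit 240) (nat_lit 212)) (XT.lf (nat_lit 0) (nat_lit 2547213031) (nat_lit 504) (nat_lit 1297547960) (nat_lit 84) (nat_lit 5902979022) (nat_lit 84) (nat_lit 5) (nat_lit 90) (nat_lit 5) (nat_lit 85) (nat_lit 5) (nat_lit 269) (nat_lit 240) (nat_lit 211)))))) (XT.nd (nat_lit 470) (nat_lit 1932) (nat_lit 0) (XT.nd (nat_lit 188) (nat_lit 1092) (nat_lit 0) (XT.nd (nat_lit 94) (nat_lit 504) (nat_lit 0)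 (XT.lf (nat_lit 0) (nat_lit 6923853846) (nat_lit 420) (nat_lit 1465917115) (nat_lit 84) (nat_lit 1600495283) (nat_lit 80) (nat_lit 5) (nat_lit 85) (nat_lit 5) (nat_lit 81) (nat_lit 5) (nat_lit 270) (nat_lit 240) (nat_lit 210)) (XT.lf (nat_lit 0) (nat_lit 1292653244) (nat_lit 504) (nat_lit 1636087257) (nat_lit 84) (nat_lit 7314031342) (nat_lit 74) (nat_lit 5) (nat_lit 80) (nat_lit 5) (nat_lit 75) (nat_lit 5) (nat_lit 271) (nat_lit 240) (nat_lit 209))) (XT.nd (nat_lit 94) (nat_lit 756) (nat_lit 0) (XT.lf (nat_lit 0) (nat_lit 5836302264) (nat_lit 420) (nat_lit 1817463160) (nat_lit 84) (nat_lit 2851494451) (nat_lit 70) (nat_lit 5) (nat_lit 75) (nat_lit 5) (nat_lit 71) (nat_lit 5) (nat_lit 272) (nat_lit 240) (nat_lit 208)) (XT.nd (nat_lit 94) (nat_lit 420) (nat_lit 0) (XT.lf (nat_lit 0) (nat_lit 8801758422) (nat_lit 336) (nat_lit 1852725300) (nat_lit 420) (nat_lit 124731336) (nat_lit 66) (nat_lit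 5) (nat_lit 70) (nat_lit 5) (nat_lit 71) (nat_lit 5) (nat_lit 273) (nat_lit 240) (nat_lit 207)) (XT.lf (nat_lit 0) (nat_lit 4608953852) (nat_lit 420) (nat_lit 2181902923) (nat_lit 84) (nat_lit 4271832834) (nat_lit 61) (nat_lit 5) (nat_lit 66) (nat_lit 5) (nat_lit 62) (nat_lit 5) (nat_lit 274) (nat_lit 240) (nat_lit 206))))) (XT.nd (nat_lit 282) (nat_lit 924) (nat_lit 0) (XT.nd (nat_lit 94) (nat_lit 672) (nat_lit 0) (XT.lf (nat_lit 0) (nat_lit 9002780426) (nat_lit 336) (nat_lit 619639390) (nat_lit 420) (nat_lit 1736254684) (nat_lit 57) (nat_lit 5) (nat_lit 61) (nat_lit 5) (nat_lit 62) (nat_lit 5) (nat_lit 275) (nat_lit 240) (nat_lit 205)) (XT.nd (nat_lit 94) (nat_lit 336) (nat_lit 0) (XT.lf (nat_lit 0) (nat_lit 3241393538) (nat_lit 336) (nat_lit 2578041808) (nat_lit 84) (nat_lit 5845365352) (nat_lit 53) (nat_lit 5) (nat_lit 57) (nat_lit 5) (nat_lit 54) (nat_lit 5) (nat_lit 276) (nat_lit 240)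 (nat_lit 204)) (XT.lf (nat_lit 0) (nat_lit 8477884649) (nat_lit 420) (nat_lit 2783699587) (nat_lit 84) (nat_lit 722142615) (nat_lit 49) (nat_lit 5) (nat_lit 54) (nat_lit 5) (nat_lit 50) (nat_lit 5) (nat_lit 277) (nat_lit 240) (nat_lit 203)))) (XT.nd (nat_lit 94) (nat_lit 588) (nat_lit 0) (XT.lf (nat_lit 0) (nat_lit 1731400038) (nat_lit 336) (nat_lit 3024543051) (nat_lit 84) (nat_lit 7558111364) (nat_lit 45) (nat_lit 5) (nat_lit 49) (nat_lit 5) (nat_lit 46) (nat_lit 5) (nat_lit 278) (nat_lit 240) (nat_lit 202)) (XT.nd (nat_lit 94) (nat_lit 336) (nat_lit 0) (XT.lf (nat_lit 0) (nat_lit 7219012383) (nat_lit 336) (nat_lit 3279557593) (nat_lit 84) (nat_lit 2158373778) (nat_lit 42) (nat_lit 5) (nat_lit 46) (nat_lit 5) (nat_lit 43) (nat_lit 5) (nat_lit 279) (nat_lit 240) (nat_lit 201)) (XT.lf (nat_lit 0) (nat_lit 75024619) (nat_lit 336) (nat_lit 3540154885) (nat_lit 84) (nat_lit 9397955706) (nat_lit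 38) (nat_lit 5) (nat_lit 42) (nat_lit 5) (nat_lit 39) (nat_lit 5) (nat_lit 280) (nat_lit 240) (nat_lit 200))))))) (XT.nd (nat_lit 42206) (nat_lit 0) (nat_lit 9996) (XT.nd (nat_lit 41642) (nat_lit 0) (nat_lit 18144) (XT.nd (nat_lit 188) (nat_lit 336) (nat_lit 0) (XT.nd (nat_lit 94) (nat_lit 252) (nat_lit 0) (XT.lf (nat_lit 0) (nat_lit 5835369592) (nat_lit 336) (nat_lit 3855392928) (nat_lit 84) (nat_lit 3690604769) (nat_lit 35) (nat_lit 5) (nat_lit 39) (nat_lit 5) (nat_lit 36) (nat_lit 5) (nat_lit 281) (nat_lit 240) (nat_lit 199)) (XT.lf (nat_lit 0) (nat_lit 9600577727) (nat_lit 252) (nat_lit 2390123062) (nat_lit 336) (nat_lit 1773566268) (nat_lit 32) (nat_lit 5) (nat_lit 35) (nat_lit 5) (nat_lit 36) (nat_lit 5) (nat_lit 282) (nat_lit 240) (nat_lit 198))) (XT.nd (nat_lit 41266) (nat_lit 0) (nat_lit 19824) (XT.lf (nat_lit 0) (nat_lit 4321882826) (nat_lit 336) (nat_lit 4530460007) (nat_lit 84)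 (nat_lit 5307690556) (nat_lit 28) (nat_lit 5) (nat_lit 32) (nat_lit 5) (nat_lit 29) (nat_lit 5) (nat_lit 283) (nat_lit 240) (nat_lit 197)) (XT.nd (nat_lit 94) (nat_lit 252) (nat_lit 0) (XT.lf (nat_lit 0) (nat_lit 1181664175) (nat_lit 252) (nat_lit 1022443738) (nat_lit 252) (nat_lit 1022443738) (nat_lit 267) (nat_lit 3) (nat_lit 270) (nat_lit 3) (nat_lit 270) (nat_lit 5) (nat_lit 241) (nat_lit 241) (nat_lit 238)) (XT.lf (nat_lit 0) (nat_lit 114682343) (nat_lit 252) (nat_lit 3866848508) (nat_lit 336) (nat_lit 2487127047) (nat_lit 264) (nat_lit 5) (nat_lit 267) (nat_lit 3) (nat_lit 268) (nat_lit 5) (nat_lit 242) (nat_lit 241) (nat_lit 237))))) (XT.nd (nat_lit 282) (nat_lit 1344) (nat_lit 0) (XT.nd (nat_lit 94) (nat_lit 336) (nat_lit 0) (XT.lf (nat_lit 84) (nat_lit 871767704) (nat_lit 0) (nat_lit 3325400175) (nat_lit 336) (nat_lit 2294366571) (nat_lit 265) (nat_lit 5) (nat_lit 264) (nat_lit 5)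 (nat_lit 268) (nat_lit 5) (nat_lit 243) (nat_lit 241) (nat_lit 236)) (XT.nd (nat_lit 94) (nat_lit 0) (nat_lit 0) (XT.lf (nat_lit 0) (nat_lit 1709376065) (nat_lit 336) (nat_lit 743597283) (nat_lit 420) (nat_lit 4069311579) (nat_lit 260) (nat_lit 5) (nat_lit 264) (nat_lit 5) (nat_lit 265) (nat_lit 5) (nat_lit 244) (nat_lit 241) (nat_lit 235)) (XT.lf (nat_lit 84) (nat_lit 4305533597) (nat_lit 0) (nat_lit 1352510028) (nat_lit 420) (nat_lit 902612150) (nat_lit 261) (nat_lit 5) (nat_lit 260) (nat_lit 5) (nat_lit 265) (nat_lit 5) (nat_lit 245) (nat_lit 241) (nat_lit 234)))) (XT.nd (nat_lit 94) (nat_lit 924) (nat_lit 0) (XT.lf (nat_lit 84) (nat_lit 2911210833) (nat_lit 0) (nat_lit 19741262) (nat_lit 504) (nat_lit 3675730498) (nat_lit 256) (nat_lit 5) (nat_lit 255) (nat_lit 5) (nat_lit 261) (nat_lit 5) (nat_lit 246) (nat_lit 241) (nat_lit 233)) (XT.nd (nat_lit 94) (nat_lit 504) (nat_lit 0) (XT.lf (nat_lit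 0) (nat_lit 102115560) (nat_lit 504) (nat_lit 5064078333) (nat_lit 84) (nat_lit 1494343983) (nat_lit 250) (nat_lit 5) (nat_lit 256) (nat_lit 5) (nat_lit 251) (nat_lit 5) (nat_lit 247) (nat_lit 241) (nat_lit 232)) (XT.lf (nat_lit 0) (nat_lit 341036112) (nat_lit 504) (nat_lit 3465755749) (nat_lit 588) (nat_lit 2914898206) (nat_lit 244) (nat_lit 5) (nat_lit 250) (nat_lit 5) (nat_lit 251) (nat_lit 5) (nat_lit 248) (nat_lit 241) (nat_lit 231)))))) (XT.nd (nat_lit 470) (nat_lit 5040) (nat_lit 0) (XT.nd (nat_lit 188) (nat_lit 2436) (nat_lit 0) (XT.nd (nat_lit 94) (nat_lit 588) (nat_lit 0) (XT.lf (nat_lit 0) (nat_lit 734671049) (nat_lit 588) (nat_lit 806471959) (nat_lit 84) (nat_lit 5249843444) (nat_lit 243) (nat_lit 5) (nat_lit 250) (nat_lit 5) (nat_lit 244) (nat_lit 5) (nat_lit 249) (nat_lit 241) (nat_lit 230)) (XT.lf (nat_lit 0) (nat_lit 4353413152) (nat_lit 672) (nat_lit 1894049425) (nat_lit 84)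 (nat_lit 620128276) (nat_lit 236) (nat_lit 5) (nat_lit 244) (nat_lit 5) (nat_lit 237) (nat_lit 5) (nat_lit 250) (nat_lit 241) (nat_lit 229))) (XT.nd (nat_lit 94) (nat_lit 1680) (nat_lit 0) (XT.lf (nat_lit 0) (nat_lit 1051540308) (nat_lit 756) (nat_lit 2924699528) (nat_lit 84) (nat_lit 2975732782) (nat_lit 227) (nat_lit 5) (nat_lit 236) (nat_lit 5) (nat_lit 228) (nat_lit 5) (nat_lit 251) (nat_lit 241) (nat_lit 228)) (XT.nd (nat_lit 94) (nat_lit 924) (nat_lit 0) (XT.lf (nat_lit 0) (nat_lit 3143669557) (nat_lit 756) (nat_lit 1458018388) (nat_lit 840) (nat_lit 2442545991) (nat_lit 218) (nat_lit 5) (nat_lit 227) (nat_lit 5) (nat_lit 228) (nat_lit 5) (nat_lit 252) (nat_lit 241) (nat_lit 227)) (XT.lf (nat_lit 0) (nat_lit 1050668791) (nat_lit 924) (nat_lit 4822837569) (nat_lit 84) (nat_lit 1271010401) (nat_lit 207) (nat_lit 5) (nat_lit 218) (nat_lit 5) (nat_lit 208) (nat_lit 5) (nat_lit 253) (nat_lit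 241) (nat_lit 226))))) (XT.nd (nat_lit 282) (nat_lit 1932) (nat_lit 0) (XT.nd (nat_lit 94) (nat_lit 2184) (nat_lit 0) (XT.lf (nat_lit 0) (nat_lit 1538262991) (nat_lit 924) (nat_lit 3024629250) (nat_lit 1008) (nat_lit 2689333826) (nat_lit 196) (nat_lit 5) (nat_lit 207) (nat_lit 5) (nat_lit 208) (nat_lit 5) (nat_lit 254) (nat_lit 241) (nat_lit 225)) (XT.nd (nat_lit 94) (nat_lit 1092) (nat_lit 0) (XT.lf (nat_lit 0) (nat_lit 759664152) (nat_lit 1092) (nat_lit 6542098837) (nat_lit 84) (nat_lit 66910870) (nat_lit 183) (nat_lit 5) (nat_lit 196) (nat_lit 5) (nat_lit 184) (nat_lit 5) (nat_lit 255) (nat_lit 241) (nat_lit 224)) (XT.lf (nat_lit 0) (nat_lit 125341786) (nat_lit 1092) (nat_lit 4130510433) (nat_lit 1176) (nat_lit 3236133736) (nat_lit 170) (nat_lit 5) (nat_lit 183) (nat_lit 5) (nat_lit 184) (nat_lit 5) (nat_lit 256) (nat_lit 241) (nat_lit 223)))) (XT.nd (nat_lit 94) (nat_lit 1848) (nat_lit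 0) (XT.lf (nat_lit 0) (nat_lit 214901827) (nat_lit 1176) (nat_lit 491982010) (nat_lit 84) (nat_lit 6917385319) (nat_lit 169) (nat_lit 5) (nat_lit 183) (nat_lit 5) (nat_lit 170) (nat_lit 5) (nat_lit 257) (nat_lit 241) (nat_lit 222)) (XT.nd (nat_lit 94) (nat_lit 672) (nat_lit 0) (XT.lf (nat_lit 0) (nat_lit 3714557271) (nat_lit 1260) (nat_lit 1105022993) (nat_lit 84) (nat_lit 2943902152) (nat_lit 155) (nat_lit 5) (nat_lit 170) (nat_lit 5) (nat_lit 156) (nat_lit 5) (nat_lit 258) (nat_lit 241) (nat_lit 221)) (XT.lf (nat_lit 0) (nat_lit 6253765605) (nat_lit 672) (nat_lit 1070162727) (nat_lit 756) (nat_lit 588012357) (nat_lit 147) (nat_lit 5) (nat_lit 155) (nat_lit 5) (nat_lit 156) (nat_lit 5) (nat_lit 259) (nat_lit 241) (nat_lit 220))))))))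
noncomputable def xc12 : XT := (XT.nd (nat_lit 1974) (nat_lit 672) (nat_lit 0) (XT.nd (nat_lit 940) (nat_lit 3780) (nat_lit 0) (XT.nd (nat_lit 470) (nat_lit 2352) (nat_lit 0) (XT.nd (nat_lit 188) (nat_lit 1680) (nat_lit 0) (XT.nd (nat_lit 94) (nat_lit 588) (nat_lit 0) (XT.lf (nat_lit 0) (nat_lit 2943773413) (nat_lit 672) (nat_lit 2210854893) (nat_lit 84) (nat_lit 2913164509) (nat_lit 139) (nat_lit 5) (nat_lit 147) (nat_lit 5) (nat_lit 140) (nat_lit 5) (nat_lit 260) (nat_lit 241) (nat_lit 219)) (XT.lf (nat_lit 0) (nat_lit 5513544857) (nat_lit 588) (nat_lit 1078555533) (nat_lit 672) (nat_lit 1640708084) (nat_lit 132) (nat_lit 5) (nat_lit 139) (nat_lit 5) (nat_lit 140) (nat_lit 5) (nat_lit 261) (nat_lit 241) (nat_lit 218))) (XT.nd (nat_lit 94) (nat_lit 1092) (nat_lit 0) (XT.lf (nat_lit 0) (nat_lit 1956156355) (nat_lit 588) (nat_lit 3224076417) (nat_lit 84) (nat_lit 3225576583) (nat_lit 125) (nat_lit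 5) (nat_lit 132) (nat_lit 5) (nat_lit 126) (nat_lit 5) (nat_lit 262) (nat_lit 241) (nat_lit 217)) (XT.nd (nat_lit 94) (nat_lit 588) (nat_lit 0) (XT.lf (nat_lit 0) (nat_lit 4886994241) (nat_lit 504) (nat_lit 774960235) (nat_lit 588) (nat_lit 2925948644) (nat_lit 119) (nat_lit 5) (nat_lit 125) (nat_lit 5) (nat_lit 126) (nat_lit 5) (nat_lit 263) (nat_lit 241) (nat_lit 216)) (XT.lf (nat_lit 0) (nat_lit 762444662) (nat_lit 588) (nat_lit 4171625092) (nat_lit 84) (nat_lit 3844518168) (nat_lit 112) (nat_lit 5) (nat_lit 119) (nat_lit 5) (nat_lit 113) (nat_lit 5) (nat_lit 264) (nat_lit 241) (nat_lit 215))))) (XT.nd (nat_lit 188) (nat_lit 1428) (nat_lit 0) (XT.nd (nat_lit 94) (nat_lit 420) (nat_lit 0) (XT.lf (nat_lit 0) (nat_lit 4349105635) (nat_lit 504) (nat_lit 194459893) (nat_lit 588) (nat_lit 4434814429) (nat_lit 106) (nat_lit 5) (nat_lit 112) (nat_lit 5) (nat_lit 113) (nat_lit 5) (nat_lit 265) (nat_lit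 241) (nat_lit 214)) (XT.lf (nat_lit 0) (nat_lit 4101264378) (nat_lit 420) (nat_lit 4441630235) (nat_lit 504) (nat_lit 644246654) (nat_lit 101) (nat_lit 5) (nat_lit 106) (nat_lit 5) (nat_lit 107) (nat_lit 5) (nat_lit 266) (nat_lit 241) (nat_lit 213))) (XT.nd (nat_lit 94) (nat_lit 924) (nat_lit 0) (XT.lf (nat_lit 0) (nat_lit 3251214295) (nat_lit 504) (nat_lit 5536008322) (nat_lit 84) (nat_lit 618132031) (nat_lit 95) (nat_lit 5) (nat_lit 101) (nat_lit 5) (nat_lit 96) (nat_lit 5) (nat_lit 267) (nat_lit 241) (nat_lit 212)) (XT.nd (nat_lit 94) (nat_lit 504) (nat_lit 0) (XT.lf (nat_lit 0) (nat_lit 3638434784) (nat_lit 420) (nat_lit 3727847168) (nat_lit 504) (nat_lit 2266526928) (nat_lit 90) (nat_lit 5) (nat_lit 95) (nat_lit 5) (nat_lit 96) (nat_lit 5) (nat_lit 268) (nat_lit 241) (nat_lit 211)) (XT.lf (nat_lit 0) (nat_lit 1787099839) (nat_lit 504) (nat_lit 6442071237) (nat_lit 84) (nat_lit 1641308862)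 (nat_lit 84) (nat_lit 5) (nat_lit 90) (nat_lit 5) (nat_lit 85) (nat_lit 5) (nat_lit 269) (nat_lit 241) (nat_lit 210)))))) (XT.nd (nat_lit 470) (nat_lit 1848) (nat_lit 0) (XT.nd (nat_lit 188) (nat_lit 1092) (nat_lit 0) (XT.nd (nat_lit 94) (nat_lit 504) (nat_lit 0) (XT.lf (nat_lit 0) (nat_lit 3206391835) (nat_lit 336) (nat_lit 2826933619) (nat_lit 420) (nat_lit 4084245248) (nat_lit 80) (nat_lit 5) (nat_lit 84) (nat_lit 5) (nat_lit 85) (nat_lit 5) (nat_lit 270) (nat_lit 241) (nat_lit 209)) (XT.lf (nat_lit 0) (nat_lit 151020231) (nat_lit 504) (nat_lit 7367539782) (nat_lit 84) (nat_lit 2857053974) (nat_lit 74) (nat_lit 5) (nat_lit 80) (nat_lit 5) (nat_lit 75) (nat_lit 5) (nat_lit 271) (nat_lit 241) (nat_lit 208))) (XT.nd (nat_lit 94) (nat_lit 756) (nat_lit 0) (XT.lf (nat_lit 0) (nat_lit 2784969891) (nat_lit 336) (nat_lit 1760964219) (nat_lit 420) (nat_lit 6097373639) (nat_lit 70) (nat_lit 5) (nat_lit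 74) (nat_lit 5) (nat_lit 75) (nat_lit 5) (nat_lit 272) (nat_lit 241) (nat_lit 207)) (XT.nd (nat_lit 94) (nat_lit 420) (nat_lit 0) (XT.lf (nat_lit 0) (nat_lit 2569093444) (nat_lit 336) (nat_lit 6657270402) (nat_lit 420) (nat_lit 1695720396) (nat_lit 66) (nat_lit 5) (nat_lit 70) (nat_lit 5) (nat_lit 71) (nat_lit 5) (nat_lit 273) (nat_lit 241) (nat_lit 206)) (XT.lf (nat_lit 0) (nat_lit 2354637221) (nat_lit 336) (nat_lit 549298302) (nat_lit 420) (nat_lit 8308173678) (nat_lit 61) (nat_lit 5) (nat_lit 65) (nat_lit 5) (nat_lit 66) (nat_lit 5) (nat_lit 274) (nat_lit 241) (nat_lit 205))))) (XT.nd (nat_lit 282) (nat_lit 840) (nat_lit 0) (XT.nd (nat_lit 94) (nat_lit 672) (nat_lit 0) (XT.lf (nat_lit 0) (nat_lit 2107985574) (nat_lit 336) (nat_lit 5680078187) (nat_lit 420) (nat_lit 3724557151) (nat_lit 57) (nat_lit 5) (nat_lit 61) (nat_lit 5) (nat_lit 62) (nat_lit 5) (nat_lit 275) (nat_lit 241) (nat_lit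 204)) (XT.nd (nat_lit 94) (nat_lit 336) (nat_lit 0) (XT.lf (nat_lit 0) (nat_lit 1114008170) (nat_lit 336) (nat_lit 9938854305) (nat_lit 84) (nat_lit 773105841) (nat_lit 53) (nat_lit 5) (nat_lit 57) (nat_lit 5) (nat_lit 54) (nat_lit 5) (nat_lit 276) (nat_lit 241) (nat_lit 203)) (XT.lf (nat_lit 0) (nat_lit 1607536986) (nat_lit 336) (nat_lit 4605756757) (nat_lit 420) (nat_lit 5936402921) (nat_lit 49) (nat_lit 5) (nat_lit 53) (nat_lit 5) (nat_lit 54) (nat_lit 5) (nat_lit 277) (nat_lit 241) (nat_lit 202)))) (XT.nd (nat_lit 94) (nat_lit 588) (nat_lit 0) (XT.lf (nat_lit 0) (nat_lit 1355065449) (nat_lit 252) (nat_lit 10283537856) (nat_lit 336) (nat_lit 848521035) (nat_lit 46) (nat_lit 5) (nat_lit 49) (nat_lit 5) (nat_lit 50) (nat_lit 5) (nat_lit 278) (nat_lit 241) (nat_lit 201)) (XT.nd (nat_lit 94) (nat_lit 252) (nat_lit 0) (XT.lf (nat_lit 0) (nat_lit 1048743931) (nat_lit 252) (nat_lit 3449571271)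 (nat_lit 336) (nat_lit 8337629892) (nat_lit 42) (nat_lit 5) (nat_lit 45) (nat_lit 5) (nat_lit 46) (nat_lit 5) (nat_lit 279) (nat_lit 241) (nat_lit 200)) (XT.lf (nat_lit 0) (nat_lit 740540928) (nat_lit 252) (nat_lit 9451648440) (nat_lit 336) (nat_lit 3006173652) (nat_lit 39) (nat_lit 5) (nat_lit 42) (nat_lit 5) (nat_lit 43) (nat_lit 5) (nat_lit 280) (nat_lit 241) (nat_lit 199))))))) (XT.nd (nat_lit 42300) (nat_lit 0) (nat_lit 9072) (XT.nd (nat_lit 41736) (nat_lit 0) (nat_lit 17808) (XT.nd (nat_lit 188) (nat_lit 84) (nat_lit 0) (XT.nd (nat_lit 94) (nat_lit 252) (nat_lit 0) (XT.lf (nat_lit 0) (nat_lit 412370683) (nat_lit 252) (nat_lit 2225344786) (nat_lit 336) (nat_lit 10936513616) (nat_lit 35) (nat_lit 5) (nat_lit 38) (nat_lit 5) (nat_lit 39) (nat_lit 5) (nat_lit 281) (nat_lit 241) (nat_lit 198)) (XT.lf (nat_lit 0) (nat_lit 37283094) (nat_lit 252) (nat_lit 8584847719) (nat_lit 336) (nat_lit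 5340980094) (nat_lit 32) (nat_lit 5) (nat_lit 35) (nat_lit 5) (nat_lit 36) (nat_lit 5) (nat_lit 282) (nat_lit 241) (nat_lit 197))) (XT.nd (nat_lit 41360) (nat_lit 0) (nat_lit 19152) (XT.lf (nat_lit 0) (nat_lit 628027348) (nat_lit 336) (nat_lit 313981894) (nat_lit 84) (nat_lit 13425515756) (nat_lit 31) (nat_lit 5) (nat_lit 35) (nat_lit 5) (nat_lit 32) (nat_lit 5) (nat_lit 283) (nat_lit 241) (nat_lit 196)) (XT.nd (nat_lit 94) (nat_lit 420) (nat_lit 0) (XT.lf (nat_lit 0) (nat_lit 1020925541) (nat_lit 0) (nat_lit 1020925541) (nat_lit 252) (nat_lit 1201955041) (nat_lit 264) (nat_lit 5) (nat_lit 264) (nat_lit 3) (nat_lit 267) (nat_lit 3) (nat_lit 242) (nat_lit 242) (nat_lit 236)) (XT.lf (nat_lit 84) (nat_lit 201174111) (nat_lit 0) (nat_lit 1274418809) (nat_lit 420) (nat_lit 5039239945) (nat_lit 260) (nat_lit 5) (nat_lit 259) (nat_lit 3) (nat_lit 264) (nat_lit 5) (nat_lit 243) (nat_lit 242) (nat_lit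 235))))) (XT.nd (nat_lit 282) (nat_lit 1008) (nat_lit 0) (XT.nd (nat_lit 94) (nat_lit 336) (nat_lit 0) (XT.lf (nat_lit 84) (nat_lit 5028416842) (nat_lit 0) (nat_lit 266390424) (nat_lit 420) (nat_lit 1254519012) (nat_lit 260) (nat_lit 5) (nat_lit 259) (nat_lit 3) (nat_lit 264) (nat_lit 5) (nat_lit 244) (nat_lit 242) (nat_lit 234)) (XT.nd (nat_lit 94) (nat_lit 0) (nat_lit 0) (XT.lf (nat_lit 0) (nat_lit 2466038255) (nat_lit 420) (nat_lit 3174392785) (nat_lit 504) (nat_lit 950763654) (nat_lit 255) (nat_lit 5) (nat_lit 260) (nat_lit 5) (nat_lit 261) (nat_lit 5) (nat_lit 245) (nat_lit 242) (nat_lit 233)) (XT.lf (nat_lit 84) (nat_lit 1892058135) (nat_lit 0) (nat_lit 4263732845) (nat_lit 504) (nat_lit 485395628) (nat_lit 256) (nat_lit 5) (nat_lit 255) (nat_lit 5) (nat_lit 261) (nat_lit 5) (nat_lit 246) (nat_lit 242) (nat_lit 232)))) (XT.nd (nat_lit 94) (nat_lit 504) (nat_lit 0) (XT.lf (nat_lit 84)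 (nat_lit 430518047) (nat_lit 0) (nat_lit 2650750025) (nat_lit 588) (nat_lit 3617389200) (nat_lit 250) (nat_lit 5) (nat_lit 249) (nat_lit 5) (nat_lit 256) (nat_lit 5) (nat_lit 247) (nat_lit 242) (nat_lit 231)) (XT.nd (nat_lit 94) (nat_lit 504) (nat_lit 0) (XT.lf (nat_lit 84) (nat_lit 5844116306) (nat_lit 0) (nat_lit 813807572) (nat_lit 588) (nat_lit 106366302) (nat_lit 250) (nat_lit 5) (nat_lit 249) (nat_lit 5) (nat_lit 256) (nat_lit 5) (nat_lit 248) (nat_lit 242) (nat_lit 230)) (XT.lf (nat_lit 0) (nat_lit 3359122844) (nat_lit 588) (nat_lit 2224538988) (nat_lit 84) (nat_lit 1253043431) (nat_lit 243) (nat_lit 5) (nat_lit 250) (nat_lit 5) (nat_lit 244) (nat_lit 5) (nat_lit 249) (nat_lit 242) (nat_lit 229)))))) (XT.nd (nat_lit 470) (nat_lit 5712) (nat_lit 0) (XT.nd (nat_lit 188) (nat_lit 1680) (nat_lit 0) (XT.nd (nat_lit 94) (nat_lit 756) (nat_lit 0) (XT.lf (nat_lit 0) (nat_lit 3461253007) (nat_lit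 588) (nat_lit 3396687010) (nat_lit 672) (nat_lit 59567019) (nat_lit 236) (nat_lit 5) (nat_lit 243) (nat_lit 5) (nat_lit 244) (nat_lit 5) (nat_lit 250) (nat_lit 242) (nat_lit 228)) (XT.lf (nat_lit 0) (nat_lit 2359537706) (nat_lit 672) (nat_lit 952063582) (nat_lit 756) (nat_lit 3694191535) (nat_lit 227) (nat_lit 5) (nat_lit 235) (nat_lit 5) (nat_lit 236) (nat_lit 5) (nat_lit 251) (nat_lit 242) (nat_lit 227))) (XT.nd (nat_lit 94) (nat_lit 924) (nat_lit 0) (XT.lf (nat_lit 0) (nat_lit 1322220145) (nat_lit 756) (nat_lit 5419445614) (nat_lit 840) (nat_lit 360591295) (nat_lit 218) (nat_lit 5) (nat_lit 227) (nat_lit 5) (nat_lit 228) (nat_lit 5) (nat_lit 252) (nat_lit 242) (nat_lit 226)) (XT.nd (nat_lit 94) (nat_lit 0) (nat_lit 0) (XT.lf (nat_lit 0) (nat_lit 318806594) (nat_lit 840) (nat_lit 2642963223) (nat_lit 924) (nat_lit 4244285791) (nat_lit 207) (nat_lit 5) (nat_lit 217) (nat_lit 5) (nat_lit 218)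 (nat_lit 5) (nat_lit 253) (nat_lit 242) (nat_lit 225)) (XT.lf (nat_lit 0) (nat_lit 6344279686) (nat_lit 924) (nat_lit 602342629) (nat_lit 84) (nat_lit 371682575) (nat_lit 207) (nat_lit 5) (nat_lit 218) (nat_lit 5) (nat_lit 208) (nat_lit 5) (nat_lit 254) (nat_lit 242) (nat_lit 224))))) (XT.nd (nat_lit 282) (nat_lit 2520) (nat_lit 0) (XT.nd (nat_lit 94) (nat_lit 2184) (nat_lit 0) (XT.lf (nat_lit 0) (nat_lit 2338294131) (nat_lit 1008) (nat_lit 1502160971) (nat_lit 84) (nat_lit 3597051135) (nat_lit 195) (nat_lit 5) (nat_lit 207) (nat_lit 5) (nat_lit 196) (nat_lit 5) (nat_lit 255) (nat_lit 242) (nat_lit 223)) (XT.nd (nat_lit 94) (nat_lit 1176) (nat_lit 0) (XT.lf (nat_lit 0) (nat_lit 5220780934) (nat_lit 1008) (nat_lit 479858554) (nat_lit 1092) (nat_lit 1864863341) (nat_lit 183) (nat_lit 5) (nat_lit 195) (nat_lit 5) (nat_lit 196) (nat_lit 5) (nat_lit 256) (nat_lit 242) (nat_lit 222)) (XT.lf (nat_lit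 0) (nat_lit 1447071396) (nat_lit 1176) (nat_lit 3172286188) (nat_lit 84) (nat_lit 3081673973) (nat_lit 169) (nat_lit 5) (nat_lit 183) (nat_lit 5) (nat_lit 170) (nat_lit 5) (nat_lit 257) (nat_lit 242) (nat_lit 221)))) (XT.nd (nat_lit 94) (nat_lit 1344) (nat_lit 0) (XT.lf (nat_lit 0) (nat_lit 3880774376) (nat_lit 1176) (nat_lit 929032696) (nat_lit 1260) (nat_lit 3035229936) (nat_lit 155) (nat_lit 5) (nat_lit 169) (nat_lit 5) (nat_lit 170) (nat_lit 5) (nat_lit 258) (nat_lit 242) (nat_lit 220)) (XT.nd (nat_lit 94) (nat_lit 588) (nat_lit 0) (XT.lf (nat_lit 0) (nat_lit 301807576) (nat_lit 756) (nat_lit 4732769224) (nat_lit 84) (nat_lit 2962750289) (nat_lit 146) (nat_lit 5) (nat_lit 155) (nat_lit 5) (nat_lit 147) (nat_lit 5) (nat_lit 259) (nat_lit 242) (nat_lit 219)) (XT.lf (nat_lit 0) (nat_lit 2668220391) (nat_lit 588) (nat_lit 1015393489) (nat_lit 672) (nat_lit 4474118658) (nat_lit 139) (nat_lit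 5) (nat_lit 146) (nat_lit 5) (nat_lit 147) (nat_lit 5) (nat_lit 260) (nat_lit 242) (nat_lit 218))))))))
noncomputable def xc13 : XT := (XT.nd (nat_lit 2068) (nat_lit 252) (nat_lit 0) (XT.nd (nat_lit 1034) (nat_lit 3780) (nat_lit 0) (XT.nd (nat_lit 470) (nat_lit 2688) (nat_lit 0) (XT.nd (nat_lit 188) (nat_lit 1092) (nat_lit 0) (XT.nd (nat_lit 94) (nat_lit 588) (nat_lit 0) (XT.lf (nat_lit 0) (nat_lit 2099427456) (nat_lit 588) (nat_lit 5118081339) (nat_lit 672) (nat_lit 1109244526) (nat_lit 132) (nat_lit 5) (nat_lit 139) (nat_lit 5) (nat_lit 140) (nat_lit 5) (nat_lit 261) (nat_lit 242) (nat_lit 217)) (XT.lf (nat_lit 0) (nat_lit 1553618921) (nat_lit 504) (nat_lit 780872311) (nat_lit 588) (nat_lit 6169993446) (nat_lit 125) (nat_lit 5) (nat_lit 131) (nat_lit 5) (nat_lit 132) (nat_lit 5) (nat_lit 262) (nat_lit 242) (nat_lit 216))) (XT.nd (nat_lit 94) (nat_lit 588) (nat_lit 0) (XT.lf (nat_lit 0) (nat_lit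 1011661574) (nat_lit 504) (nat_lit 4915495920) (nat_lit 588) (nat_lit 2763380563) (nat_lit 119) (nat_lit 5) (nat_lit 125) (nat_lit 5) (nat_lit 126) (nat_lit 5) (nat_lit 263) (nat_lit 242) (nat_lit 215)) (XT.nd (nat_lit 94) (nat_lit 0) (nat_lit 0) (XT.lf (nat_lit 0) (nat_lit 509625601) (nat_lit 504) (nat_lit 261942788) (nat_lit 588) (nat_lit 8114832614) (nat_lit 112) (nat_lit 5) (nat_lit 118) (nat_lit 5) (nat_lit 119) (nat_lit 5) (nat_lit 264) (nat_lit 242) (nat_lit 214)) (XT.lf (nat_lit 0) (nat_lit 4443533255) (nat_lit 588) (nat_lit 20879673) (nat_lit 84) (nat_lit 4625600568) (nat_lit 112) (nat_lit 5) (nat_lit 119) (nat_lit 5) (nat_lit 113) (nat_lit 5) (nat_lit 265) (nat_lit 242) (nat_lit 213))))) (XT.nd (nat_lit 282) (nat_lit 1260) (nat_lit 0) (XT.nd (nat_lit 94) (nat_lit 924) (nat_lit 0) (XT.lf (nat_lit 0) (nat_lit 8293440631) (nat_lit 588) (nat_lit 495460303) (nat_lit 84) (nat_lit 515103633)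 (nat_lit 106) (nat_lit 5) (nat_lit 113) (nat_lit 5) (nat_lit 107) (nat_lit 5) (nat_lit 266) (nat_lit 242) (nat_lit 212)) (XT.nd (nat_lit 94) (nat_lit 420) (nat_lit 0) (XT.lf (nat_lit 0) (nat_lit 2782628727) (nat_lit 504) (nat_lit 1001093814) (nat_lit 84) (nat_lit 5742508360) (nat_lit 100) (nat_lit 5) (nat_lit 106) (nat_lit 5) (nat_lit 101) (nat_lit 5) (nat_lit 267) (nat_lit 242) (nat_lit 211)) (XT.lf (nat_lit 0) (nat_lit 6750530484) (nat_lit 504) (nat_lit 1485350561) (nat_lit 84) (nat_lit 1522954894) (nat_lit 95) (nat_lit 5) (nat_lit 101) (nat_lit 5) (nat_lit 96) (nat_lit 5) (nat_lit 268) (nat_lit 242) (nat_lit 210)))) (XT.nd (nat_lit 94) (nat_lit 756) (nat_lit 0) (XT.lf (nat_lit 0) (nat_lit 936146406) (nat_lit 504) (nat_lit 1974889468) (nat_lit 84) (nat_lit 7090170194) (nat_lit 89) (nat_lit 5) (nat_lit 95) (nat_lit 5) (nat_lit 90) (nat_lit 5) (nat_lit 269) (nat_lit 242) (nat_lit 209)) (XT.nd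 (nat_lit 94) (nat_lit 336) (nat_lit 0) (XT.lf (nat_lit 0) (nat_lit 5041241185) (nat_lit 504) (nat_lit 2482160911) (nat_lit 84) (nat_lit 2729834315) (nat_lit 84) (nat_lit 5) (nat_lit 90) (nat_lit 5) (nat_lit 85) (nat_lit 5) (nat_lit 270) (nat_lit 242) (nat_lit 208)) (XT.lf (nat_lit 0) (nat_lit 7539433336) (nat_lit 336) (nat_lit 1856133726) (nat_lit 420) (nat_lit 1120762037) (nat_lit 80) (nat_lit 5) (nat_lit 84) (nat_lit 5) (nat_lit 85) (nat_lit 5) (nat_lit 271) (nat_lit 242) (nat_lit 207)))))) (XT.nd (nat_lit 470) (nat_lit 1848) (nat_lit 0) (XT.nd (nat_lit 188) (nat_lit 1092) (nat_lit 0) (XT.nd (nat_lit 94) (nat_lit 336) (nat_lit 0) (XT.lf (nat_lit 0) (nat_lit 3165826150) (nat_lit 504) (nat_lit 3507617401) (nat_lit 84) (nat_lit 4115697214) (nat_lit 74) (nat_lit 5) (nat_lit 80) (nat_lit 5) (nat_lit 75) (nat_lit 5) (nat_lit 272) (nat_lit 242) (nat_lit 206)) (XT.lf (nat_lit 0) (nat_lit 7044596759)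 (nat_lit 336) (nat_lit 638596222) (nat_lit 420) (nat_lit 3390431479) (nat_lit 70) (nat_lit 5) (nat_lit 74) (nat_lit 5) (nat_lit 75) (nat_lit 5) (nat_lit 273) (nat_lit 242) (nat_lit 205))) (XT.nd (nat_lit 94) (nat_lit 672) (nat_lit 0) (XT.lf (nat_lit 0) (nat_lit 1122434898) (nat_lit 420) (nat_lit 4583070494) (nat_lit 84) (nat_lit 5663187479) (nat_lit 65) (nat_lit 5) (nat_lit 70) (nat_lit 5) (nat_lit 66) (nat_lit 5) (nat_lit 274) (nat_lit 242) (nat_lit 204)) (XT.nd (nat_lit 94) (nat_lit 336) (nat_lit 0) (XT.lf (nat_lit 0) (nat_lit 5828586609) (nat_lit 420) (nat_lit 5149931959) (nat_lit 84) (nat_lit 696915192) (nat_lit 61) (nat_lit 5) (nat_lit 66) (nat_lit 5) (nat_lit 62) (nat_lit 5) (nat_lit 275) (nat_lit 242) (nat_lit 203)) (XT.lf (nat_lit 0) (nat_lit 6251603036) (nat_lit 336) (nat_lit 4624078053) (nat_lit 420) (nat_lit 1118133375) (nat_lit 57) (nat_lit 5) (nat_lit 61) (nat_lit 5) (nat_lit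 62) (nat_lit 5) (nat_lit 276) (nat_lit 242) (nat_lit 202))))) (XT.nd (nat_lit 282) (nat_lit 840) (nat_lit 0) (XT.nd (nat_lit 94) (nat_lit 672) (nat_lit 0) (XT.lf (nat_lit 0) (nat_lit 3828679160) (nat_lit 336) (nat_lit 6361481640) (nat_lit 84) (nat_lit 2134041961) (nat_lit 53) (nat_lit 5) (nat_lit 57) (nat_lit 5) (nat_lit 54) (nat_lit 5) (nat_lit 277) (nat_lit 242) (nat_lit 201)) (XT.nd (nat_lit 94) (nat_lit 336) (nat_lit 0) (XT.lf (nat_lit 0) (nat_lit 5658238430) (nat_lit 336) (nat_lit 3442310888) (nat_lit 420) (nat_lit 3566451499) (nat_lit 49) (nat_lit 5) (nat_lit 53) (nat_lit 5) (nat_lit 54) (nat_lit 5) (nat_lit 278) (nat_lit 242) (nat_lit 200)) (XT.lf (nat_lit 0) (nat_lit 1670835350) (nat_lit 336) (nat_lit 7678035125) (nat_lit 84) (nat_lit 3674002199) (nat_lit 45) (nat_lit 5) (nat_lit 49) (nat_lit 5) (nat_lit 46) (nat_lit 5) (nat_lit 279) (nat_lit 242) (nat_lit 199)))) (XT.nd (nat_lit 94)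 (nat_lit 588) (nat_lit 0) (XT.lf (nat_lit 0) (nat_lit 4999768918) (nat_lit 252) (nat_lit 2187453892) (nat_lit 336) (nat_lit 6204279824) (nat_lit 42) (nat_lit 5) (nat_lit 45) (nat_lit 5) (nat_lit 46) (nat_lit 5) (nat_lit 280) (nat_lit 242) (nat_lit 198)) (XT.nd (nat_lit 94) (nat_lit 336) (nat_lit 0) (XT.lf (nat_lit 0) (nat_lit 4645112234) (nat_lit 252) (nat_lit 8461661580) (nat_lit 336) (nat_lit 667333232) (nat_lit 39) (nat_lit 5) (nat_lit 42) (nat_lit 5) (nat_lit 43) (nat_lit 5) (nat_lit 281) (nat_lit 242) (nat_lit 197)) (XT.lf (nat_lit 0) (nat_lit 4256819328) (nat_lit 252) (nat_lit 872253746) (nat_lit 336) (nat_lit 9041285951) (nat_lit 35) (nat_lit 5) (nat_lit 38) (nat_lit 5) (nat_lit 39) (nat_lit 5) (nat_lit 282) (nat_lit 242) (nat_lit 196))))))) (XT.nd (nat_lit 42394) (nat_lit 0) (nat_lit 7812) (XT.nd (nat_lit 41830) (nat_lit 0) (nat_lit 16296) (XT.nd (nat_lit 41548) (nat_lit 0) (nat_lit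 18144) (XT.nd (nat_lit 41454) (nat_lit 0) (nat_lit 19068) (XT.lf (nat_lit 0) (nat_lit 3829953924) (nat_lit 252) (nat_lit 7528176339) (nat_lit 336) (nat_lit 3222464938) (nat_lit 32) (nat_lit 5) (nat_lit 35) (nat_lit 5) (nat_lit 36) (nat_lit 5) (nat_lit 283) (nat_lit 242) (nat_lit 195)) (XT.lf (nat_lit 0) (nat_lit 2587452059) (nat_lit 420) (nat_lit 342652717) (nat_lit 420) (nat_lit 342652717) (nat_lit 259) (nat_lit 3) (nat_lit 264) (nat_lit 3) (nat_lit 264) (nat_lit 5) (nat_lit 243) (nat_lit 243) (nat_lit 234))) (XT.nd (nat_lit 94) (nat_lit 504) (nat_lit 0) (XT.lf (nat_lit 0) (nat_lit 2234018463) (nat_lit 420) (nat_lit 2544898111) (nat_lit 504) (nat_lit 1804537754) (nat_lit 254) (nat_lit 5) (nat_lit 259) (nat_lit 3) (nat_lit 260) (nat_lit 5) (nat_lit 244) (nat_lit 243) (nat_lit 233)) (XT.nd (nat_lit 94) (nat_lit 504) (nat_lit 0) (XT.lf (nat_lit 84) (nat_lit 2303756337) (nat_lit 0) (nat_lit 3487150536)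 (nat_lit 504) (nat_lit 838659463) (nat_lit 255) (nat_lit 5) (nat_lit 254) (nat_lit 5) (nat_lit 260) (nat_lit 5) (nat_lit 245) (nat_lit 243) (nat_lit 232)) (XT.lf (nat_lit 84) (nat_lit 635625439) (nat_lit 0) (nat_lit 1963083525) (nat_lit 588) (nat_lit 4084617704) (nat_lit 249) (nat_lit 5) (nat_lit 248) (nat_lit 5) (nat_lit 255) (nat_lit 5) (nat_lit 246) (nat_lit 243) (nat_lit 231))))) (XT.nd (nat_lit 282) (nat_lit 1344) (nat_lit 0) (XT.nd (nat_lit 94) (nat_lit 504) (nat_lit 0) (XT.lf (nat_lit 84) (nat_lit 5817076520) (nat_lit 0) (nat_lit 209507246) (nat_lit 588) (nat_lit 718496677) (nat_lit 249) (nat_lit 5) (nat_lit 248) (nat_lit 5) (nat_lit 255) (nat_lit 5) (nat_lit 247) (nat_lit 243) (nat_lit 230)) (XT.nd (nat_lit 94) (nat_lit 0) (nat_lit 0) (XT.lf (nat_lit 0) (nat_lit 2615807599) (nat_lit 588) (nat_lit 2440682331) (nat_lit 672) (nat_lit 1757103409) (nat_lit 242) (nat_lit 5) (nat_lit 249)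 (nat_lit 5) (nat_lit 250) (nat_lit 5) (nat_lit 248) (nat_lit 243) (nat_lit 229)) (XT.lf (nat_lit 84) (nat_lit 3006608884) (nat_lit 0) (nat_lit 2944351807) (nat_lit 672) (nat_lit 939483599) (nat_lit 243) (nat_lit 5) (nat_lit 242) (nat_lit 5) (nat_lit 250) (nat_lit 5) (nat_lit 249) (nat_lit 243) (nat_lit 228)))) (XT.nd (nat_lit 94) (nat_lit 672) (nat_lit 0) (XT.lf (nat_lit 84) (nat_lit 1698031758) (nat_lit 0) (nat_lit 585740008) (nat_lit 756) (nat_lit 4691357371) (nat_lit 235) (nat_lit 5) (nat_lit 234) (nat_lit 5) (nat_lit 243) (nat_lit 5) (nat_lit 250) (nat_lit 243) (nat_lit 227)) (XT.nd (nat_lit 94) (nat_lit 84) (nat_lit 0) (XT.lf (nat_lit 0) (nat_lit 436640979) (nat_lit 672) (nat_lit 5100286470) (nat_lit 756) (nat_lit 1530547417) (nat_lit 227) (nat_lit 5) (nat_lit 235) (nat_lit 5) (nat_lit 236) (nat_lit 5) (nat_lit 251) (nat_lit 243) (nat_lit 226)) (XT.lf (nat_lit 0) (nat_lit 1641864379)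 (nat_lit 756) (nat_lit 757695819) (nat_lit 84) (nat_lit 4767886446) (nat_lit 226) (nat_lit 5) (nat_lit 235) (nat_lit 5) (nat_lit 227) (nat_lit 5) (nat_lit 252) (nat_lit 243) (nat_lit 225)))))) (XT.nd (nat_lit 470) (nat_lit 3696) (nat_lit 0) (XT.nd (nat_lit 188) (nat_lit 3108) (nat_lit 0) (XT.nd (nat_lit 94) (nat_lit 924) (nat_lit 0) (XT.lf (nat_lit 0) (nat_lit 4834477245) (nat_lit 840) (nat_lit 1894730094) (nat_lit 84) (nat_lit 546152260) (nat_lit 217) (nat_lit 5) (nat_lit 227) (nat_lit 5) (nat_lit 218) (nat_lit 5) (nat_lit 253) (nat_lit 243) (nat_lit 224)) (XT.lf (nat_lit 0) (nat_lit 704188066) (nat_lit 924) (nat_lit 3000916449) (nat_lit 84) (nat_lit 3685904389) (nat_lit 206) (nat_lit 5) (nat_lit 217) (nat_lit 5) (nat_lit 207) (nat_lit 5) (nat_lit 254) (nat_lit 243) (nat_lit 223))) (XT.nd (nat_lit 94) (nat_lit 2184) (nat_lit 0) (XT.lf (nat_lit 0) (nat_lit 3443456986) (nat_lit 924) (nat_lit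 409578029) (nat_lit 1008) (nat_lit 3661743941) (nat_lit 195) (nat_lit 5) (nat_lit 206) (nat_lit 5) (nat_lit 207) (nat_lit 5) (nat_lit 255) (nat_lit 243) (nat_lit 222)) (XT.nd (nat_lit 94) (nat_lit 1176) (nat_lit 0) (XT.lf (nat_lit 0) (nat_lit 2530945593) (nat_lit 1008) (nat_lit 4576560490) (nat_lit 1092) (nat_lit 539045063) (nat_lit 183) (nat_lit 5) (nat_lit 195) (nat_lit 5) (nat_lit 196) (nat_lit 5) (nat_lit 256) (nat_lit 243) (nat_lit 221)) (XT.lf (nat_lit 0) (nat_lit 1649069354) (nat_lit 1092) (nat_lit 954775421) (nat_lit 1176) (nat_lit 5182582465) (nat_lit 169) (nat_lit 5) (nat_lit 182) (nat_lit 5) (nat_lit 183) (nat_lit 5) (nat_lit 257) (nat_lit 243) (nat_lit 220))))) (XT.nd (nat_lit 282) (nat_lit 1764) (nat_lit 0) (XT.nd (nat_lit 94) (nat_lit 756) (nat_lit 0) (XT.lf (nat_lit 0) (nat_lit 791193275) (nat_lit 1176) (nat_lit 5061732983) (nat_lit 1260) (nat_lit 2081484331) (nat_lit 155) (nat_lit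 5) (nat_lit 169) (nat_lit 5) (nat_lit 170) (nat_lit 5) (nat_lit 258) (nat_lit 243) (nat_lit 219)) (XT.nd (nat_lit 94) (nat_lit 672) (nat_lit 0) (XT.lf (nat_lit 0) (nat_lit 1096593320) (nat_lit 1260) (nat_lit 29860118) (nat_lit 84) (nat_lit 6964681997) (nat_lit 154) (nat_lit 5) (nat_lit 169) (nat_lit 5) (nat_lit 155) (nat_lit 5) (nat_lit 259) (nat_lit 243) (nat_lit 218)) (XT.lf (nat_lit 0) (nat_lit 4371467244) (nat_lit 756) (nat_lit 834241057) (nat_lit 84) (nat_lit 3049575218) (nat_lit 146) (nat_lit 5) (nat_lit 155) (nat_lit 5) (nat_lit 147) (nat_lit 5) (nat_lit 260) (nat_lit 243) (nat_lit 217)))) (XT.nd (nat_lit 94) (nat_lit 1176) (nat_lit 0) (XT.lf (nat_lit 0) (nat_lit 6831254117) (nat_lit 588) (nat_lit 942933679) (nat_lit 672) (nat_lit 654707607) (nat_lit 139) (nat_lit 5) (nat_lit 146) (nat_lit 5) (nat_lit 147) (nat_lit 5) (nat_lit 261) (nat_lit 243) (nat_lit 216)) (XT.nd (nat_lit 94) (nat_lit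 504) (nat_lit 0) (XT.lf (nat_lit 0) (nat_lit 2672046993) (nat_lit 672) (nat_lit 2378644848) (nat_lit 84) (nat_lit 3559491282) (nat_lit 131) (nat_lit 5) (nat_lit 139) (nat_lit 5) (nat_lit 132) (nat_lit 5) (nat_lit 262) (nat_lit 243) (nat_lit 215)) (XT.lf (nat_lit 0) (nat_lit 5672522103) (nat_lit 504) (nat_lit 452621467) (nat_lit 588) (nat_lit 2675977871) (nat_lit 125) (nat_lit 5) (nat_lit 131) (nat_lit 5) (nat_lit 132) (nat_lit 5) (nat_lit 263) (nat_lit 243) (nat_lit 214))))))))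
noncomputable def xc14 : XT := (XT.nd (nat_lit 43522) (nat_lit 0) (nat_lit 5880) (XT.nd (nat_lit 1034) (nat_lit 2940) (nat_lit 0) (XT.nd (nat_lit 470) (nat_lit 2100) (nat_lit 0) (XT.nd (nat_lit 188) (nat_lit 1428) (nat_lit 0) (XT.nd (nat_lit 94) (nat_lit 504) (nat_lit 0) (XT.lf (nat_lit 0) (nat_lit 753264930) (nat_lit 588) (nat_lit 3887830705) (nat_lit 84) (nat_lit 4359485018) (nat_lit 118) (nat_lit 5) (nat_lit 125) (nat_lit 5) (nat_lit 119) (nat_lit 5) (nat_lit 264) (nat_lit 243) (nat_lit 213)) (XT.lf (nat_lit 0) (nat_lit 4276574043) (nat_lit 588) (nat_lit 4640809947) (nat_lit 84) (nat_lit 292012108) (nat_lit 112) (nat_lit 5) (nat_lit 119) (nat_lit 5) (nat_lit 113) (nat_lit 5) (nat_lit 265) (nat_lit 243) (nat_lit 212))) (XT.nd (nat_lit 94) (nat_lit 924) (nat_lit 0) (XT.lf (nat_lit 0) (nat_lit 4023340470) (nat_lit 504) (nat_lit 3991475988) (nat_lit 588) (nat_lit 1412478984) (nat_lit 106) (nat_lit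 5) (nat_lit 112) (nat_lit 5) (nat_lit 113) (nat_lit 5) (nat_lit 266) (nat_lit 243) (nat_lit 211)) (XT.nd (nat_lit 94) (nat_lit 420) (nat_lit 0) (XT.lf (nat_lit 0) (nat_lit 2236729391) (nat_lit 504) (nat_lit 6164548119) (nat_lit 84) (nat_lit 1253759413) (nat_lit 100) (nat_lit 5) (nat_lit 106) (nat_lit 5) (nat_lit 101) (nat_lit 5) (nat_lit 267) (nat_lit 243) (nat_lit 210)) (XT.lf (nat_lit 0) (nat_lit 2944448947) (nat_lit 420) (nat_lit 3133701018) (nat_lit 504) (nat_lit 3813918838) (nat_lit 95) (nat_lit 5) (nat_lit 100) (nat_lit 5) (nat_lit 101) (nat_lit 5) (nat_lit 268) (nat_lit 243) (nat_lit 209))))) (XT.nd (nat_lit 282) (nat_lit 840) (nat_lit 0) (XT.nd (nat_lit 94) (nat_lit 756) (nat_lit 0) (XT.lf (nat_lit 0) (nat_lit 1618342) (nat_lit 504) (nat_lit 7719528808) (nat_lit 84) (nat_lit 2418757301) (nat_lit 89) (nat_lit 5) (nat_lit 95) (nat_lit 5) (nat_lit 90) (nat_lit 5) (nat_lit 269) (nat_lit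 243) (nat_lit 208)) (XT.nd (nat_lit 94) (nat_lit 336) (nat_lit 0) (XT.lf (nat_lit 0) (nat_lit 1862183042) (nat_lit 420) (nat_lit 2100284245) (nat_lit 504) (nat_lit 6434516111) (nat_lit 84) (nat_lit 5) (nat_lit 89) (nat_lit 5) (nat_lit 90) (nat_lit 5) (nat_lit 270) (nat_lit 243) (nat_lit 207)) (XT.lf (nat_lit 0) (nat_lit 1307285620) (nat_lit 336) (nat_lit 6871138114) (nat_lit 420) (nat_lit 2486495282) (nat_lit 80) (nat_lit 5) (nat_lit 84) (nat_lit 5) (nat_lit 85) (nat_lit 5) (nat_lit 271) (nat_lit 243) (nat_lit 206)))) (XT.nd (nat_lit 94) (nat_lit 336) (nat_lit 0) (XT.lf (nat_lit 0) (nat_lit 754406501) (nat_lit 420) (nat_lit 911927759) (nat_lit 504) (nat_lit 9277694422) (nat_lit 74) (nat_lit 5) (nat_lit 79) (nat_lit 5) (nat_lit 80) (nat_lit 5) (nat_lit 272) (nat_lit 243) (nat_lit 205)) (XT.nd (nat_lit 94) (nat_lit 0) (nat_lit 0) (XT.lf (nat_lit 0) (nat_lit 155724848) (nat_lit 336) (nat_lit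 5897796568) (nat_lit 420) (nat_lit 5179547249) (nat_lit 70) (nat_lit 5) (nat_lit 74) (nat_lit 5) (nat_lit 75) (nat_lit 5) (nat_lit 273) (nat_lit 243) (nat_lit 204)) (XT.lf (nat_lit 0) (nat_lit 10711535774) (nat_lit 420) (nat_lit 405556365) (nat_lit 84) (nat_lit 417667134) (nat_lit 70) (nat_lit 5) (nat_lit 75) (nat_lit 5) (nat_lit 71) (nat_lit 5) (nat_lit 274) (nat_lit 243) (nat_lit 203)))))) (XT.nd (nat_lit 470) (nat_lit 1176) (nat_lit 0) (XT.nd (nat_lit 188) (nat_lit 1008) (nat_lit 0) (XT.nd (nat_lit 94) (nat_lit 336) (nat_lit 0) (XT.lf (nat_lit 0) (nat_lit 3774991675) (nat_lit 420) (nat_lit 1031968984) (nat_lit 84) (nat_lit 7039291629) (nat_lit 65) (nat_lit 5) (nat_lit 70) (nat_lit 5) (nat_lit 66) (nat_lit 5) (nat_lit 275) (nat_lit 243) (nat_lit 202)) (XT.lf (nat_lit 0) (nat_lit 8646891850) (nat_lit 420) (nat_lit 1648709974) (nat_lit 84) (nat_lit 1875162967) (nat_lit 61) (nat_lit 5) (nat_lit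 66) (nat_lit 5) (nat_lit 62) (nat_lit 5) (nat_lit 276) (nat_lit 243) (nat_lit 201))) (XT.nd (nat_lit 94) (nat_lit 588) (nat_lit 0) (XT.lf (nat_lit 0) (nat_lit 1328163485) (nat_lit 420) (nat_lit 2296023404) (nat_lit 84) (nat_lit 8883130738) (nat_lit 56) (nat_lit 5) (nat_lit 61) (nat_lit 5) (nat_lit 57) (nat_lit 5) (nat_lit 277) (nat_lit 243) (nat_lit 200)) (XT.nd (nat_lit 94) (nat_lit 336) (nat_lit 0) (XT.lf (nat_lit 0) (nat_lit 6431877818) (nat_lit 336) (nat_lit 2984031568) (nat_lit 84) (nat_lit 3440091749) (nat_lit 53) (nat_lit 5) (nat_lit 57) (nat_lit 5) (nat_lit 54) (nat_lit 5) (nat_lit 278) (nat_lit 243) (nat_lit 199)) (XT.lf (nat_lit 0) (nat_lit 9542351798) (nat_lit 336) (nat_lit 2350268874) (nat_lit 420) (nat_lit 1325933649) (nat_lit 49) (nat_lit 5) (nat_lit 53) (nat_lit 5) (nat_lit 54) (nat_lit 5) (nat_lit 279) (nat_lit 243) (nat_lit 198))))) (XT.nd (nat_lit 282) (nat_lit 252) (nat_lit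 0) (XT.nd (nat_lit 94) (nat_lit 588) (nat_lit 0) (XT.lf (nat_lit 0) (nat_lit 4059665878) (nat_lit 336) (nat_lit 4433184368) (nat_lit 84) (nat_lit 5100480955) (nat_lit 45) (nat_lit 5) (nat_lit 49) (nat_lit 5) (nat_lit 46) (nat_lit 5) (nat_lit 280) (nat_lit 243) (nat_lit 197)) (XT.nd (nat_lit 94) (nat_lit 336) (nat_lit 0) (XT.lf (nat_lit 0) (nat_lit 8785891415) (nat_lit 252) (nat_lit 995605777) (nat_lit 336) (nat_lit 4201358611) (nat_lit 42) (nat_lit 5) (nat_lit 45) (nat_lit 5) (nat_lit 46) (nat_lit 5) (nat_lit 281) (nat_lit 243) (nat_lit 196)) (XT.lf (nat_lit 0) (nat_lit 1521727152) (nat_lit 336) (nat_lit 6018468169) (nat_lit 84) (nat_lit 6845661462) (nat_lit 38) (nat_lit 5) (nat_lit 42) (nat_lit 5) (nat_lit 39) (nat_lit 5) (nat_lit 282) (nat_lit 243) (nat_lit 195)))) (XT.nd (nat_lit 41548) (nat_lit 0) (nat_lit 17808) (XT.lf (nat_lit 0) (nat_lit 7530231696) (nat_lit 336) (nat_lit 6870580645)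 (nat_lit 84) (nat_lit 402999961) (nat_lit 35) (nat_lit 5) (nat_lit 39) (nat_lit 5) (nat_lit 36) (nat_lit 5) (nat_lit 283) (nat_lit 243) (nat_lit 194)) (XT.nd (nat_lit 94) (nat_lit 588) (nat_lit 0) (XT.lf (nat_lit 0) (nat_lit 1417347991) (nat_lit 0) (nat_lit 1417347991) (nat_lit 420) (nat_lit 478151717) (nat_lit 254) (nat_lit 5) (nat_lit 254) (nat_lit 3) (nat_lit 259) (nat_lit 3) (nat_lit 244) (nat_lit 244) (nat_lit 232)) (XT.lf (nat_lit 84) (nat_lit 958029970) (nat_lit 0) (nat_lit 1399736130) (nat_lit 588) (nat_lit 4317902639) (nat_lit 248) (nat_lit 5) (nat_lit 247) (nat_lit 3) (nat_lit 254) (nat_lit 5) (nat_lit 245) (nat_lit 244) (nat_lit 231))))))) (XT.nd (nat_lit 1034) (nat_lit 7476) (nat_lit 0) (XT.nd (nat_lit 470) (nat_lit 3276) (nat_lit 0) (XT.nd (nat_lit 188) (nat_lit 672) (nat_lit 0) (XT.nd (nat_lit 94) (nat_lit 588) (nat_lit 0) (XT.lf (nat_lit 0) (nat_lit 5650176127) (nat_lit 504)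 (nat_lit 823191940) (nat_lit 588) (nat_lit 260141933) (nat_lit 248) (nat_lit 5) (nat_lit 254) (nat_lit 5) (nat_lit 255) (nat_lit 5) (nat_lit 246) (nat_lit 244) (nat_lit 230)) (XT.lf (nat_lit 0) (nat_lit 2121406438) (nat_lit 588) (nat_lit 2541407709) (nat_lit 672) (nat_lit 2135396104) (nat_lit 241) (nat_lit 5) (nat_lit 248) (nat_lit 5) (nat_lit 249) (nat_lit 5) (nat_lit 247) (nat_lit 244) (nat_lit 229))) (XT.nd (nat_lit 94) (nat_lit 672) (nat_lit 0) (XT.lf (nat_lit 84) (nat_lit 2676490758) (nat_lit 0) (nat_lit 2628404595) (nat_lit 672) (nat_lit 1566255937) (nat_lit 242) (nat_lit 5) (nat_lit 241) (nat_lit 5) (nat_lit 249) (nat_lit 5) (nat_lit 248) (nat_lit 244) (nat_lit 228)) (XT.nd (nat_lit 94) (nat_lit 0) (nat_lit 84) (XT.lf (nat_lit 84) (nat_lit 1159637889) (nat_lit 0) (nat_lit 355730054) (nat_lit 756) (nat_lit 5436815373) (nat_lit 234) (nat_lit 5) (nat_lit 233) (nat_lit 5) (nat_lit 242)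 (nat_lit 5) (nat_lit 249) (nat_lit 244) (nat_lit 227)) (XT.lf (nat_lit 0) (nat_lit 4606092393) (nat_lit 672) (nat_lit 315190052) (nat_lit 756) (nat_lit 2119112352) (nat_lit 234) (nat_lit 5) (nat_lit 242) (nat_lit 5) (nat_lit 243) (nat_lit 5) (nat_lit 250) (nat_lit 244) (nat_lit 226))))) (XT.nd (nat_lit 282) (nat_lit 1932) (nat_lit 0) (XT.nd (nat_lit 94) (nat_lit 672) (nat_lit 0) (XT.lf (nat_lit 0) (nat_lit 593086317) (nat_lit 756) (nat_lit 1704529641) (nat_lit 840) (nat_lit 4838934434) (nat_lit 225) (nat_lit 5) (nat_lit 234) (nat_lit 5) (nat_lit 235) (nat_lit 5) (nat_lit 251) (nat_lit 244) (nat_lit 225)) (XT.nd (nat_lit 94) (nat_lit 756) (nat_lit 0) (XT.lf (nat_lit 0) (nat_lit 3603473248) (nat_lit 756) (nat_lit 3060990497) (nat_lit 84) (nat_lit 575917776) (nat_lit 226) (nat_lit 5) (nat_lit 235) (nat_lit 5) (nat_lit 227) (nat_lit 5) (nat_lit 252) (nat_lit 244) (nat_lit 224)) (XT.lf (nat_lit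 0) (nat_lit 2970320507) (nat_lit 756) (nat_lit 3714455495) (nat_lit 840) (nat_lit 667414329) (nat_lit 217) (nat_lit 5) (nat_lit 226) (nat_lit 5) (nat_lit 227) (nat_lit 5) (nat_lit 253) (nat_lit 244) (nat_lit 223)))) (XT.nd (nat_lit 94) (nat_lit 1008) (nat_lit 0) (XT.lf (nat_lit 0) (nat_lit 1801787413) (nat_lit 840) (nat_lit 494672541) (nat_lit 924) (nat_lit 5175622516) (nat_lit 206) (nat_lit 5) (nat_lit 216) (nat_lit 5) (nat_lit 217) (nat_lit 5) (nat_lit 254) (nat_lit 244) (nat_lit 222)) (XT.nd (nat_lit 94) (nat_lit 84) (nat_lit 0) (XT.lf (nat_lit 0) (nat_lit 656244139) (nat_lit 924) (nat_lit 4679708147) (nat_lit 1008) (nat_lit 2263727645) (nat_lit 195) (nat_lit 5) (nat_lit 206) (nat_lit 5) (nat_lit 207) (nat_lit 5) (nat_lit 255) (nat_lit 244) (nat_lit 221)) (XT.lf (nat_lit 0) (nat_lit 705109672) (nat_lit 1008) (nat_lit 432977743) (nat_lit 84) (nat_lit 6597733205) (nat_lit 194) (nat_lit 5)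 (nat_lit 206) (nat_lit 5) (nat_lit 195) (nat_lit 5) (nat_lit 256) (nat_lit 244) (nat_lit 220)))))) (XT.nd (nat_lit 470) (nat_lit 2856) (nat_lit 0) (XT.nd (nat_lit 188) (nat_lit 2520) (nat_lit 0) (XT.nd (nat_lit 94) (nat_lit 1092) (nat_lit 0) (XT.lf (nat_lit 0) (nat_lit 3731768129) (nat_lit 1092) (nat_lit 1506204760) (nat_lit 84) (nat_lit 2641153923) (nat_lit 182) (nat_lit 5) (nat_lit 195) (nat_lit 5) (nat_lit 183) (nat_lit 5) (nat_lit 257) (nat_lit 244) (nat_lit 219)) (XT.lf (nat_lit 0) (nat_lit 5491905481) (nat_lit 1092) (nat_lit 1364917773) (nat_lit 1176) (nat_lit 1174627830) (nat_lit 169) (nat_lit 5) (nat_lit 182) (nat_lit 5) (nat_lit 183) (nat_lit 5) (nat_lit 258) (nat_lit 244) (nat_lit 218))) (XT.nd (nat_lit 94) (nat_lit 1260) (nat_lit 0) (XT.lf (nat_lit 0) (nat_lit 1874780296) (nat_lit 1260) (nat_lit 3574020921) (nat_lit 84) (nat_lit 2742804814) (nat_lit 154) (nat_lit 5) (nat_lit 169)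 (nat_lit 5) (nat_lit 155) (nat_lit 5) (nat_lit 259) (nat_lit 244) (nat_lit 217)) (XT.nd (nat_lit 94) (nat_lit 588) (nat_lit 0) (XT.lf (nat_lit 0) (nat_lit 3770332077) (nat_lit 672) (nat_lit 1242893741) (nat_lit 756) (nat_lit 3347303290) (nat_lit 146) (nat_lit 5) (nat_lit 154) (nat_lit 5) (nat_lit 155) (nat_lit 5) (nat_lit 260) (nat_lit 244) (nat_lit 216)) (XT.lf (nat_lit 0) (nat_lit 2941460403) (nat_lit 588) (nat_lit 5358968264) (nat_lit 672) (nat_lit 237755446) (nat_lit 139) (nat_lit 5) (nat_lit 146) (nat_lit 5) (nat_lit 147) (nat_lit 5) (nat_lit 261) (nat_lit 244) (nat_lit 215))))) (XT.nd (nat_lit 282) (nat_lit 1092) (nat_lit 0) (XT.nd (nat_lit 94) (nat_lit 1092) (nat_lit 0) (XT.lf (nat_lit 0) (nat_lit 2116259163) (nat_lit 588) (nat_lit 819539388) (nat_lit 672) (nat_lit 5788541808) (nat_lit 131) (nat_lit 5) (nat_lit 138) (nat_lit 5) (nat_lit 139) (nat_lit 5) (nat_lit 262) (nat_lit 244) (nat_lit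 214)) (XT.nd (nat_lit 94) (nat_lit 588) (nat_lit 0) (XT.lf (nat_lit 0) (nat_lit 1293261388) (nat_lit 504) (nat_lit 4982892782) (nat_lit 588) (nat_lit 2643070441) (nat_lit 125) (nat_lit 5) (nat_lit 131) (nat_lit 5) (nat_lit 132) (nat_lit 5) (nat_lit 263) (nat_lit 244) (nat_lit 213)) (XT.lf (nat_lit 0) (nat_lit 501356669) (nat_lit 504) (nat_lit 128952403) (nat_lit 588) (nat_lit 8493791017) (nat_lit 118) (nat_lit 5) (nat_lit 124) (nat_lit 5) (nat_lit 125) (nat_lit 5) (nat_lit 264) (nat_lit 244) (nat_lit 212)))) (XT.nd (nat_lit 94) (nat_lit 1092) (nat_lit 0) (XT.lf (nat_lit 0) (nat_lit 4046278733) (nat_lit 588) (nat_lit 324707409) (nat_lit 84) (nat_lit 4965686274) (nat_lit 118) (nat_lit 5) (nat_lit 125) (nat_lit 5) (nat_lit 119) (nat_lit 5) (nat_lit 265) (nat_lit 244) (nat_lit 211)) (XT.nd (nat_lit 94) (nat_lit 588) (nat_lit 0) (XT.lf (nat_lit 0) (nat_lit 7637334058) (nat_lit 588) (nat_lit 1107100160)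 (nat_lit 84) (nat_lit 815289091) (nat_lit 112) (nat_lit 5) (nat_lit 119) (nat_lit 5) (nat_lit 113) (nat_lit 5) (nat_lit 266) (nat_lit 244) (nat_lit 210)) (XT.lf (nat_lit 0) (nat_lit 1623524608) (nat_lit 588) (nat_lit 1916698023) (nat_lit 84) (nat_lit 6251460983) (nat_lit 105) (nat_lit 5) (nat_lit 112) (nat_lit 5) (nat_lit 106) (nat_lit 5) (nat_lit 267) (nat_lit 244) (nat_lit 209))))))))
noncomputable def xc15 : XT := (XT.nd (nat_lit 43616) (nat_lit 0) (nat_lit 3864) (XT.nd (nat_lit 1034) (nat_lit 1260) (nat_lit 0) (XT.nd (nat_lit 470) (nat_lit 2184) (nat_lit 0) (XT.nd (nat_lit 188) (nat_lit 1344) (nat_lit 0) (XT.nd (nat_lit 94) (nat_lit 420) (nat_lit 0) (XT.lf (nat_lit 0) (nat_lit 5323406157) (nat_lit 504) (nat_lit 2731028661) (nat_lit 84) (nat_lit 1979234541) (nat_lit 100) (nat_lit 5) (nat_lit 106) (nat_lit 5) (nat_lit 101) (nat_lit 5) (nat_lit 268) (nat_lit 244) (nat_lit 208)) (XT.lf (nat_lit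 0) (nat_lit 6737915785) (nat_lit 420) (nat_lit 2517949914) (nat_lit 504) (nat_lit 1030223255) (nat_lit 95) (nat_lit 5) (nat_lit 100) (nat_lit 5) (nat_lit 101) (nat_lit 5) (nat_lit 269) (nat_lit 244) (nat_lit 207))) (XT.nd (nat_lit 94) (nat_lit 840) (nat_lit 0) (XT.lf (nat_lit 0) (nat_lit 2819570533) (nat_lit 504) (nat_lit 4397321121) (nat_lit 84) (nat_lit 3331382525) (nat_lit 89) (nat_lit 5) (nat_lit 95) (nat_lit 5) (nat_lit 90) (nat_lit 5) (nat_lit 270) (nat_lit 244) (nat_lit 206)) (XT.nd (nat_lit 94) (nat_lit 420) (nat_lit 0) (XT.lf (nat_lit 0) (nat_lit 5568830486) (nat_lit 420) (nat_lit 1315709678) (nat_lit 504) (nat_lit 3936954171) (nat_lit 84) (nat_lit 5) (nat_lit 89) (nat_lit 5) (nat_lit 90) (nat_lit 5) (nat_lit 271) (nat_lit 244) (nat_lit 205)) (XT.lf (nat_lit 0) (nat_lit 122707548) (nat_lit 420) (nat_lit 6129825537) (nat_lit 84) (nat_lit 4853048517) (nat_lit 79) (nat_lit 5) (nat_lit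 84) (nat_lit 5) (nat_lit 80) (nat_lit 5) (nat_lit 272) (nat_lit 244) (nat_lit 204))))) (XT.nd (nat_lit 282) (nat_lit 1008) (nat_lit 0) (XT.nd (nat_lit 94) (nat_lit 756) (nat_lit 0) (XT.lf (nat_lit 0) (nat_lit 4336761953) (nat_lit 504) (nat_lit 7035870439) (nat_lit 84) (nat_lit 28048840) (nat_lit 74) (nat_lit 5) (nat_lit 80) (nat_lit 5) (nat_lit 75) (nat_lit 5) (nat_lit 273) (nat_lit 244) (nat_lit 203)) (XT.nd (nat_lit 94) (nat_lit 420) (nat_lit 0) (XT.lf (nat_lit 0) (nat_lit 3722848850) (nat_lit 336) (nat_lit 5147083367) (nat_lit 420) (nat_lit 2836809167) (nat_lit 70) (nat_lit 5) (nat_lit 74) (nat_lit 5) (nat_lit 75) (nat_lit 5) (nat_lit 274) (nat_lit 244) (nat_lit 202)) (XT.lf (nat_lit 0) (nat_lit 1623099116) (nat_lit 420) (nat_lit 8937450852) (nat_lit 84) (nat_lit 1464908401) (nat_lit 65) (nat_lit 5) (nat_lit 70) (nat_lit 5) (nat_lit 66) (nat_lit 5) (nat_lit 275) (nat_lit 244) (nat_lit 201))))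 (XT.nd (nat_lit 94) (nat_lit 672) (nat_lit 0) (XT.lf (nat_lit 0) (nat_lit 2399645541) (nat_lit 336) (nat_lit 3945876040) (nat_lit 420) (nat_lit 6009681010) (nat_lit 61) (nat_lit 5) (nat_lit 65) (nat_lit 5) (nat_lit 66) (nat_lit 5) (nat_lit 276) (nat_lit 244) (nat_lit 200)) (XT.nd (nat_lit 94) (nat_lit 336) (nat_lit 0) (XT.lf (nat_lit 0) (nat_lit 1717056085) (nat_lit 336) (nat_lit 9673262994) (nat_lit 420) (nat_lit 1308096061) (nat_lit 57) (nat_lit 5) (nat_lit 61) (nat_lit 5) (nat_lit 62) (nat_lit 5) (nat_lit 277) (nat_lit 244) (nat_lit 199)) (XT.lf (nat_lit 0) (nat_lit 985876178) (nat_lit 252) (nat_lit 2665107039) (nat_lit 336) (nat_lit 9402725887) (nat_lit 53) (nat_lit 5) (nat_lit 56) (nat_lit 5) (nat_lit 57) (nat_lit 5) (nat_lit 278) (nat_lit 244) (nat_lit 198)))))) (XT.nd (nat_lit 42018) (nat_lit 0) (nat_lit 16296) (XT.nd (nat_lit 188) (nat_lit 840) (nat_lit 0) (XT.nd (nat_lit 94) (nat_lit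 84) (nat_lit 0) (XT.lf (nat_lit 0) (nat_lit 223790486) (nat_lit 336) (nat_lit 8719716408) (nat_lit 420) (nat_lit 4478643067) (nat_lit 49) (nat_lit 5) (nat_lit 53) (nat_lit 5) (nat_lit 54) (nat_lit 5) (nat_lit 279) (nat_lit 244) (nat_lit 197)) (XT.lf (nat_lit 0) (nat_lit 783550607) (nat_lit 420) (nat_lit 528357898) (nat_lit 84) (nat_lit 12493069008) (nat_lit 48) (nat_lit 5) (nat_lit 53) (nat_lit 5) (nat_lit 49) (nat_lit 5) (nat_lit 280) (nat_lit 244) (nat_lit 196))) (XT.nd (nat_lit 94) (nat_lit 588) (nat_lit 0) (XT.lf (nat_lit 0) (nat_lit 6353614033) (nat_lit 336) (nat_lit 1363458088) (nat_lit 84) (nat_lit 6482741870) (nat_lit 45) (nat_lit 5) (nat_lit 49) (nat_lit 5) (nat_lit 46) (nat_lit 5) (nat_lit 281) (nat_lit 244) (nat_lit 195)) (XT.nd (nat_lit 94) (nat_lit 336) (nat_lit 0) (XT.lf (nat_lit 0) (nat_lit 12299206869) (nat_lit 336) (nat_lit 2179987783) (nat_lit 84) (nat_lit 131801722) (nat_lit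 42) (nat_lit 5) (nat_lit 46) (nat_lit 5) (nat_lit 43) (nat_lit 5) (nat_lit 282) (nat_lit 244) (nat_lit 194)) (XT.lf (nat_lit 0) (nat_lit 3599209595) (nat_lit 336) (nat_lit 3091120303) (nat_lit 84) (nat_lit 8344770862) (nat_lit 38) (nat_lit 5) (nat_lit 42) (nat_lit 5) (nat_lit 39) (nat_lit 5) (nat_lit 283) (nat_lit 244) (nat_lit 193))))) (XT.nd (nat_lit 282) (nat_lit 672) (nat_lit 0) (XT.nd (nat_lit 94) (nat_lit 588) (nat_lit 0) (XT.lf (nat_lit 0) (nat_lit 2762800046) (nat_lit 588) (nat_lit 301007093) (nat_lit 588) (nat_lit 301007093) (nat_lit 247) (nat_lit 3) (nat_lit 254) (nat_lit 3) (nat_lit 254) (nat_lit 5) (nat_lit 245) (nat_lit 245) (nat_lit 230)) (XT.nd (nat_lit 94) (nat_lit 0) (nat_lit 0) (XT.lf (nat_lit 0) (nat_lit 1874548216) (nat_lit 588) (nat_lit 2525313067) (nat_lit 672) (nat_lit 2390664873) (nat_lit 240) (nat_lit 5) (nat_lit 247) (nat_lit 3) (nat_lit 248) (nat_lit 5) (nat_lit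 246) (nat_lit 245) (nat_lit 229)) (XT.lf (nat_lit 84) (nat_lit 2471991249) (nat_lit 0) (nat_lit 2445974833) (nat_lit 672) (nat_lit 1941624402) (nat_lit 241) (nat_lit 5) (nat_lit 240) (nat_lit 5) (nat_lit 248) (nat_lit 5) (nat_lit 247) (nat_lit 245) (nat_lit 228)))) (XT.nd (nat_lit 94) (nat_lit 0) (nat_lit 84) (XT.lf (nat_lit 84) (nat_lit 745189954) (nat_lit 0) (nat_lit 259082417) (nat_lit 756) (nat_lit 5932638433) (nat_lit 233) (nat_lit 5) (nat_lit 232) (nat_lit 5) (nat_lit 241) (nat_lit 5) (nat_lit 248) (nat_lit 245) (nat_lit 227)) (XT.nd (nat_lit 94) (nat_lit 0) (nat_lit 0) (XT.lf (nat_lit 0) (nat_lit 3946489784) (nat_lit 672) (nat_lit 933047508) (nat_lit 756) (nat_lit 2141430983) (nat_lit 233) (nat_lit 5) (nat_lit 241) (nat_lit 5) (nat_lit 242) (nat_lit 5) (nat_lit 249) (nat_lit 245) (nat_lit 226)) (XT.lf (nat_lit 84) (nat_lit 4582508598) (nat_lit 0) (nat_lit 2335423758) (nat_lit 756) (nat_lit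 195422266) (nat_lit 234) (nat_lit 5) (nat_lit 233) (nat_lit 5) (nat_lit 242) (nat_lit 5) (nat_lit 250) (nat_lit 245) (nat_lit 225))))))) (XT.nd (nat_lit 1034) (nat_lit 5124) (nat_lit 0) (XT.nd (nat_lit 470) (nat_lit 5124) (nat_lit 0) (XT.nd (nat_lit 188) (nat_lit 1596) (nat_lit 0) (XT.nd (nat_lit 94) (nat_lit 0) (nat_lit 0) (XT.lf (nat_lit 0) (nat_lit 2647950123) (nat_lit 756) (nat_lit 4101187234) (nat_lit 840) (nat_lit 464163549) (nat_lit 225) (nat_lit 5) (nat_lit 234) (nat_lit 5) (nat_lit 235) (nat_lit 5) (nat_lit 251) (nat_lit 245) (nat_lit 224)) (XT.lf (nat_lit 84) (nat_lit 1678262997) (nat_lit 0) (nat_lit 3867775527) (nat_lit 840) (nat_lit 1775023961) (nat_lit 226) (nat_lit 5) (nat_lit 225) (nat_lit 5) (nat_lit 235) (nat_lit 5) (nat_lit 252) (nat_lit 245) (nat_lit 223))) (XT.nd (nat_lit 94) (nat_lit 756) (nat_lit 0) (XT.lf (nat_lit 84) (nat_lit 295088153) (nat_lit 0) (nat_lit 731644362)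 (nat_lit 924) (nat_lit 6410595847) (nat_lit 216) (nat_lit 5) (nat_lit 215) (nat_lit 5) (nat_lit 226) (nat_lit 5) (nat_lit 253) (nat_lit 245) (nat_lit 222)) (XT.nd (nat_lit 94) (nat_lit 840) (nat_lit 0) (XT.lf (nat_lit 0) (nat_lit 3874925082) (nat_lit 840) (nat_lit 1054840715) (nat_lit 84) (nat_lit 2630713628) (nat_lit 216) (nat_lit 5) (nat_lit 226) (nat_lit 5) (nat_lit 217) (nat_lit 5) (nat_lit 254) (nat_lit 245) (nat_lit 221)) (XT.lf (nat_lit 0) (nat_lit 5339880968) (nat_lit 840) (nat_lit 1452506196) (nat_lit 924) (nat_lit 899960781) (nat_lit 206) (nat_lit 5) (nat_lit 216) (nat_lit 5) (nat_lit 217) (nat_lit 5) (nat_lit 255) (nat_lit 245) (nat_lit 220))))) (XT.nd (nat_lit 282) (nat_lit 2016) (nat_lit 0) (XT.nd (nat_lit 94) (nat_lit 2100) (nat_lit 0) (XT.lf (nat_lit 0) (nat_lit 1927230347) (nat_lit 1008) (nat_lit 3645961135) (nat_lit 84) (nat_lit 2258640648) (nat_lit 194) (nat_lit 5) (nat_lit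 206) (nat_lit 5) (nat_lit 195) (nat_lit 5) (nat_lit 256) (nat_lit 245) (nat_lit 219)) (XT.nd (nat_lit 94) (nat_lit 1092) (nat_lit 0) (XT.lf (nat_lit 0) (nat_lit 3060640230) (nat_lit 1008) (nat_lit 1761683774) (nat_lit 1092) (nat_lit 3157419087) (nat_lit 182) (nat_lit 5) (nat_lit 194) (nat_lit 5) (nat_lit 195) (nat_lit 5) (nat_lit 257) (nat_lit 245) (nat_lit 218)) (XT.lf (nat_lit 0) (nat_lit 1963110156) (nat_lit 1092) (nat_lit 5863679164) (nat_lit 1176) (nat_lit 309498686) (nat_lit 169) (nat_lit 5) (nat_lit 182) (nat_lit 5) (nat_lit 183) (nat_lit 5) (nat_lit 258) (nat_lit 245) (nat_lit 217)))) (XT.nd (nat_lit 94) (nat_lit 756) (nat_lit 0) (XT.lf (nat_lit 0) (nat_lit 865376958) (nat_lit 1176) (nat_lit 1721484410) (nat_lit 1260) (nat_lit 5713914322) (nat_lit 154) (nat_lit 5) (nat_lit 168) (nat_lit 5) (nat_lit 169) (nat_lit 5) (nat_lit 259) (nat_lit 245) (nat_lit 216)) (XT.nd (nat_lit 94) (nat_lit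 756) (nat_lit 0) (XT.lf (nat_lit 0) (nat_lit 5606417623) (nat_lit 1260) (nat_lit 213488010) (nat_lit 84) (nat_lit 2653954259) (nat_lit 154) (nat_lit 5) (nat_lit 169) (nat_lit 5) (nat_lit 155) (nat_lit 5) (nat_lit 260) (nat_lit 245) (nat_lit 215)) (XT.lf (nat_lit 0) (nat_lit 108515437) (nat_lit 756) (nat_lit 1249435446) (nat_lit 84) (nat_lit 7297953118) (nat_lit 145) (nat_lit 5) (nat_lit 154) (nat_lit 5) (nat_lit 146) (nat_lit 5) (nat_lit 261) (nat_lit 245) (nat_lit 214)))))) (XT.nd (nat_lit 470) (nat_lit 2352) (nat_lit 0) (XT.nd (nat_lit 188) (nat_lit 1596) (nat_lit 0) (XT.nd (nat_lit 94) (nat_lit 588) (nat_lit 0) (XT.lf (nat_lit 0) (nat_lit 3169421633) (nat_lit 672) (nat_lit 2313646639) (nat_lit 84) (nat_lit 3362653248) (nat_lit 138) (nat_lit 5) (nat_lit 146) (nat_lit 5) (nat_lit 139) (nat_lit 5) (nat_lit 262) (nat_lit 245) (nat_lit 213)) (XT.lf (nat_lit 0) (nat_lit 5691336797) (nat_lit 588)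 (nat_lit 680768057) (nat_lit 672) (nat_lit 2673319451) (nat_lit 131) (nat_lit 5) (nat_lit 138) (nat_lit 5) (nat_lit 139) (nat_lit 5) (nat_lit 263) (nat_lit 245) (nat_lit 212))) (XT.nd (nat_lit 94) (nat_lit 1008) (nat_lit 0) (XT.lf (nat_lit 0) (nat_lit 497978414) (nat_lit 588) (nat_lit 4410900259) (nat_lit 84) (nat_lit 4345029771) (nat_lit 124) (nat_lit 5) (nat_lit 131) (nat_lit 5) (nat_lit 125) (nat_lit 5) (nat_lit 264) (nat_lit 245) (nat_lit 211)) (XT.nd (nat_lit 94) (nat_lit 504) (nat_lit 0) (XT.lf (nat_lit 0) (nat_lit 3760649742) (nat_lit 588) (nat_lit 5473786391) (nat_lit 84) (nat_lit 237410079) (nat_lit 118) (nat_lit 5) (nat_lit 125) (nat_lit 5) (nat_lit 119) (nat_lit 5) (nat_lit 265) (nat_lit 245) (nat_lit 210)) (XT.lf (nat_lit 0) (nat_lit 3138394764) (nat_lit 504) (nat_lit 4097865288) (nat_lit 588) (nat_lit 2462677627) (nat_lit 112) (nat_lit 5) (nat_lit 118) (nat_lit 5) (nat_lit 119)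 (nat_lit 5) (nat_lit 266) (nat_lit 245) (nat_lit 209))))) (XT.nd (nat_lit 282) (nat_lit 924) (nat_lit 0) (XT.nd (nat_lit 94) (nat_lit 840) (nat_lit 0) (XT.lf (nat_lit 0) (nat_lit 940519890) (nat_lit 588) (nat_lit 7642164236) (nat_lit 84) (nat_lit 1353848403) (nat_lit 105) (nat_lit 5) (nat_lit 112) (nat_lit 5) (nat_lit 106) (nat_lit 5) (nat_lit 267) (nat_lit 245) (nat_lit 208)) (XT.nd (nat_lit 94) (nat_lit 420) (nat_lit 0) (XT.lf (nat_lit 0) (nat_lit 1412631014) (nat_lit 420) (nat_lit 3095110486) (nat_lit 504) (nat_lit 5675419872) (nat_lit 100) (nat_lit 5) (nat_lit 105) (nat_lit 5) (nat_lit 106) (nat_lit 5) (nat_lit 268) (nat_lit 245) (nat_lit 207)) (XT.lf (nat_lit 0) (nat_lit 538504817) (nat_lit 420) (nat_lit 7755339590) (nat_lit 504) (nat_lit 2146859042) (nat_lit 95) (nat_lit 5) (nat_lit 100) (nat_lit 5) (nat_lit 101) (nat_lit 5) (nat_lit 269) (nat_lit 245) (nat_lit 206)))) (XT.nd (nat_lit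 94) (nat_lit 840) (nat_lit 0) (XT.lf (nat_lit 0) (nat_lit 1579481880) (nat_lit 504) (nat_lit 345105796) (nat_lit 84) (nat_lit 8783943470) (nat_lit 94) (nat_lit 5) (nat_lit 100) (nat_lit 5) (nat_lit 95) (nat_lit 5) (nat_lit 270) (nat_lit 245) (nat_lit 205)) (XT.nd (nat_lit 94) (nat_lit 420) (nat_lit 0) (XT.lf (nat_lit 0) (nat_lit 5516441372) (nat_lit 504) (nat_lit 1253754861) (nat_lit 84) (nat_lit 4216035423) (nat_lit 89) (nat_lit 5) (nat_lit 95) (nat_lit 5) (nat_lit 90) (nat_lit 5) (nat_lit 271) (nat_lit 245) (nat_lit 204)) (XT.lf (nat_lit 0) (nat_lit 9124857764) (nat_lit 420) (nat_lit 574611915) (nat_lit 504) (nat_lit 1576624785) (nat_lit 84) (nat_lit 5) (nat_lit 89) (nat_lit 5) (nat_lit 90) (nat_lit 5) (nat_lit 272) (nat_lit 245) (nat_lit 203))))))))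
noncomputable def xc16 : XT := (XT.nd (nat_lit 43710) (nat_lit 0) (nat_lit 1596) (XT.nd (nat_lit 42676) (nat_lit 0) (nat_lit 12768) (XT.nd (nat_lit 470) (nat_lit 1596) (nat_lit 0) (XT.nd (nat_lit 188) (nat_lit 1092) (nat_lit 0) (XT.nd (nat_lit 94) (nat_lit 420) (nat_lit 0) (XT.lf (nat_lit 0) (nat_lit 2554538293) (nat_lit 420) (nat_lit 3110603089) (nat_lit 84) (nat_lit 5910819961) (nat_lit 79) (nat_lit 5) (nat_lit 84) (nat_lit 5) (nat_lit 80) (nat_lit 5) (nat_lit 273) (nat_lit 245) (nat_lit 202)) (XT.lf (nat_lit 0) (nat_lit 6909862959) (nat_lit 504) (nat_lit 4074680765) (nat_lit 84) (nat_lit 903702367) (nat_lit 74) (nat_lit 5) (nat_lit 80) (nat_lit 5) (nat_lit 75) (nat_lit 5) (nat_lit 274) (nat_lit 245) (nat_lit 201))) (XT.nd (nat_lit 94) (nat_lit 756) (nat_lit 0) (XT.lf (nat_lit 0) (nat_lit 7137415564) (nat_lit 336) (nat_lit 4456044764) (nat_lit 420) (nat_lit 618817022) (nat_lit 70) (nat_lit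 5) (nat_lit 74) (nat_lit 5) (nat_lit 75) (nat_lit 5) (nat_lit 275) (nat_lit 245) (nat_lit 200)) (XT.nd (nat_lit 94) (nat_lit 336) (nat_lit 0) (XT.lf (nat_lit 0) (nat_lit 3947152274) (nat_lit 420) (nat_lit 6118796964) (nat_lit 84) (nat_lit 2482280612) (nat_lit 65) (nat_lit 5) (nat_lit 70) (nat_lit 5) (nat_lit 66) (nat_lit 5) (nat_lit 276) (nat_lit 245) (nat_lit 199)) (XT.lf (nat_lit 0) (nat_lit 5701806588) (nat_lit 336) (nat_lit 3132540913) (nat_lit 420) (nat_lit 4062610977) (nat_lit 61) (nat_lit 5) (nat_lit 65) (nat_lit 5) (nat_lit 66) (nat_lit 5) (nat_lit 277) (nat_lit 245) (nat_lit 198))))) (XT.nd (nat_lit 188) (nat_lit 924) (nat_lit 0) (XT.nd (nat_lit 94) (nat_lit 252) (nat_lit 0) (XT.lf (nat_lit 0) (nat_lit 796143965) (nat_lit 420) (nat_lit 8301459707) (nat_lit 84) (nat_lit 4161420296) (nat_lit 56) (nat_lit 5) (nat_lit 61) (nat_lit 5) (nat_lit 57) (nat_lit 5) (nat_lit 278) (nat_lit 245)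 (nat_lit 197)) (XT.lf (nat_lit 0) (nat_lit 4166809595) (nat_lit 252) (nat_lit 1738284260) (nat_lit 336) (nat_lit 7728796053) (nat_lit 53) (nat_lit 5) (nat_lit 56) (nat_lit 5) (nat_lit 57) (nat_lit 5) (nat_lit 279) (nat_lit 245) (nat_lit 196))) (XT.nd (nat_lit 94) (nat_lit 588) (nat_lit 0) (XT.lf (nat_lit 0) (nat_lit 3345833219) (nat_lit 336) (nat_lit 8063675399) (nat_lit 420) (nat_lit 2613089917) (nat_lit 49) (nat_lit 5) (nat_lit 53) (nat_lit 5) (nat_lit 54) (nat_lit 5) (nat_lit 280) (nat_lit 245) (nat_lit 195)) (XT.nd (nat_lit 94) (nat_lit 252) (nat_lit 0) (XT.lf (nat_lit 0) (nat_lit 2509974899) (nat_lit 252) (nat_lit 285584268) (nat_lit 336) (nat_lit 11630618136) (nat_lit 45) (nat_lit 5) (nat_lit 48) (nat_lit 5) (nat_lit 49) (nat_lit 5) (nat_lit 281) (nat_lit 245) (nat_lit 194)) (XT.lf (nat_lit 0) (nat_lit 1589800247) (nat_lit 252) (nat_lit 6995775048) (nat_lit 336) (nat_lit 6257229575)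 (nat_lit 42) (nat_lit 5) (nat_lit 45) (nat_lit 5) (nat_lit 46) (nat_lit 5) (nat_lit 282) (nat_lit 245) (nat_lit 193)))))) (XT.nd (nat_lit 470) (nat_lit 2520) (nat_lit 0) (XT.nd (nat_lit 188) (nat_lit 588) (nat_lit 0) (XT.nd (nat_lit 94) (nat_lit 756) (nat_lit 0) (XT.lf (nat_lit 0) (nat_lit 1197276973) (nat_lit 0) (nat_lit 1197276973) (nat_lit 588) (nat_lit 1033315743) (nat_lit 240) (nat_lit 5) (nat_lit 240) (nat_lit 3) (nat_lit 247) (nat_lit 3) (nat_lit 246) (nat_lit 246) (nat_lit 228)) (XT.lf (nat_lit 84) (nat_lit 455869523) (nat_lit 0) (nat_lit 293206804) (nat_lit 756) (nat_lit 6180205625) (nat_lit 232) (nat_lit 5) (nat_lit 231) (nat_lit 3) (nat_lit 240) (nat_lit 5) (nat_lit 247) (nat_lit 246) (nat_lit 227))) (XT.nd (nat_lit 94) (nat_lit 672) (nat_lit 0) (XT.lf (nat_lit 0) (nat_lit 3551449123) (nat_lit 672) (nat_lit 1425978551) (nat_lit 756) (nat_lit 2031899879) (nat_lit 232) (nat_lit 5)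 (nat_lit 240) (nat_lit 5) (nat_lit 241) (nat_lit 5) (nat_lit 248) (nat_lit 246) (nat_lit 226)) (XT.nd (nat_lit 94) (nat_lit 672) (nat_lit 0) (XT.lf (nat_lit 84) (nat_lit 3860124047) (nat_lit 0) (nat_lit 2508585830) (nat_lit 756) (nat_lit 729048632) (nat_lit 233) (nat_lit 5) (nat_lit 232) (nat_lit 5) (nat_lit 241) (nat_lit 5) (nat_lit 249) (nat_lit 246) (nat_lit 225)) (XT.lf (nat_lit 0) (nat_lit 1965339847) (nat_lit 756) (nat_lit 5015027129) (nat_lit 840) (nat_lit 213696554) (nat_lit 224) (nat_lit 5) (nat_lit 233) (nat_lit 5) (nat_lit 234) (nat_lit 5) (nat_lit 250) (nat_lit 246) (nat_lit 224))))) (XT.nd (nat_lit 282) (nat_lit 1680) (nat_lit 0) (XT.nd (nat_lit 94) (nat_lit 840) (nat_lit 0) (XT.lf (nat_lit 84) (nat_lit 522177786) (nat_lit 0) (nat_lit 4170378805) (nat_lit 840) (nat_lit 2605287374) (nat_lit 225) (nat_lit 5) (nat_lit 224) (nat_lit 5) (nat_lit 234) (nat_lit 5) (nat_lit 251) (nat_lit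 246) (nat_lit 223)) (XT.nd (nat_lit 94) (nat_lit 0) (nat_lit 84) (XT.lf (nat_lit 0) (nat_lit 52447486) (nat_lit 840) (nat_lit 1052529220) (nat_lit 924) (nat_lit 6305050548) (nat_lit 214) (nat_lit 5) (nat_lit 224) (nat_lit 5) (nat_lit 225) (nat_lit 5) (nat_lit 252) (nat_lit 246) (nat_lit 222)) (XT.lf (nat_lit 0) (nat_lit 2714279304) (nat_lit 840) (nat_lit 2615682995) (nat_lit 924) (nat_lit 2199127322) (nat_lit 215) (nat_lit 5) (nat_lit 225) (nat_lit 5) (nat_lit 226) (nat_lit 5) (nat_lit 253) (nat_lit 246) (nat_lit 221)))) (XT.nd (nat_lit 94) (nat_lit 1764) (nat_lit 0) (XT.lf (nat_lit 84) (nat_lit 3514398794) (nat_lit 0) (nat_lit 1919180481) (nat_lit 924) (nat_lit 2223172650) (nat_lit 216) (nat_lit 5) (nat_lit 215) (nat_lit 5) (nat_lit 226) (nat_lit 5) (nat_lit 254) (nat_lit 246) (nat_lit 220)) (XT.nd (nat_lit 94) (nat_lit 924) (nat_lit 0) (XT.lf (nat_lit 0) (nat_lit 425738560) (nat_lit 924)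 (nat_lit 5647227760) (nat_lit 84) (nat_lit 1719772341) (nat_lit 205) (nat_lit 5) (nat_lit 216) (nat_lit 5) (nat_lit 206) (nat_lit 5) (nat_lit 255) (nat_lit 246) (nat_lit 219)) (XT.lf (nat_lit 0) (nat_lit 778795017) (nat_lit 924) (nat_lit 2325966789) (nat_lit 1008) (nat_lit 4831581744) (nat_lit 194) (nat_lit 5) (nat_lit 205) (nat_lit 5) (nat_lit 206) (nat_lit 5) (nat_lit 256) (nat_lit 246) (nat_lit 218))))))) (XT.nd (nat_lit 1034) (nat_lit 4200) (nat_lit 0) (XT.nd (nat_lit 470) (nat_lit 2856) (nat_lit 0) (XT.nd (nat_lit 188) (nat_lit 3024) (nat_lit 0) (XT.nd (nat_lit 94) (nat_lit 1092) (nat_lit 0) (XT.lf (nat_lit 0) (nat_lit 5878693518) (nat_lit 1008) (nat_lit 546479133) (nat_lit 84) (nat_lit 1663322528) (nat_lit 194) (nat_lit 5) (nat_lit 206) (nat_lit 5) (nat_lit 195) (nat_lit 5) (nat_lit 257) (nat_lit 246) (nat_lit 217)) (XT.lf (nat_lit 0) (nat_lit 509791344) (nat_lit 1092) (nat_lit 1843101874)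 (nat_lit 84) (nat_lit 5895883073) (nat_lit 181) (nat_lit 5) (nat_lit 194) (nat_lit 5) (nat_lit 182) (nat_lit 5) (nat_lit 258) (nat_lit 246) (nat_lit 216))) (XT.nd (nat_lit 94) (nat_lit 1932) (nat_lit 0) (XT.lf (nat_lit 0) (nat_lit 3284883401) (nat_lit 1176) (nat_lit 3146277006) (nat_lit 84) (nat_lit 1985981635) (nat_lit 168) (nat_lit 5) (nat_lit 182) (nat_lit 5) (nat_lit 169) (nat_lit 5) (nat_lit 259) (nat_lit 246) (nat_lit 215)) (XT.nd (nat_lit 94) (nat_lit 756) (nat_lit 0) (XT.lf (nat_lit 0) (nat_lit 4155541900) (nat_lit 1176) (nat_lit 2027781350) (nat_lit 1260) (nat_lit 2411142067) (nat_lit 154) (nat_lit 5) (nat_lit 168) (nat_lit 5) (nat_lit 169) (nat_lit 5) (nat_lit 260) (nat_lit 246) (nat_lit 214)) (XT.lf (nat_lit 0) (nat_lit 429622231) (nat_lit 756) (nat_lit 5730466612) (nat_lit 84) (nat_lit 2620612287) (nat_lit 145) (nat_lit 5) (nat_lit 154) (nat_lit 5) (nat_lit 146) (nat_lit 5) (nat_lit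 261) (nat_lit 246) (nat_lit 213))))) (XT.nd (nat_lit 282) (nat_lit 1596) (nat_lit 0) (XT.nd (nat_lit 94) (nat_lit 672) (nat_lit 0) (XT.lf (nat_lit 0) (nat_lit 1934783896) (nat_lit 588) (nat_lit 1414766060) (nat_lit 672) (nat_lit 5625902939) (nat_lit 138) (nat_lit 5) (nat_lit 145) (nat_lit 5) (nat_lit 146) (nat_lit 5) (nat_lit 262) (nat_lit 246) (nat_lit 212)) (XT.nd (nat_lit 94) (nat_lit 84) (nat_lit 0) (XT.lf (nat_lit 0) (nat_lit 818371401) (nat_lit 588) (nat_lit 5614698118) (nat_lit 672) (nat_lit 2746256889) (nat_lit 131) (nat_lit 5) (nat_lit 138) (nat_lit 5) (nat_lit 139) (nat_lit 5) (nat_lit 263) (nat_lit 246) (nat_lit 211)) (XT.lf (nat_lit 0) (nat_lit 274757525) (nat_lit 672) (nat_lit 273769878) (nat_lit 84) (nat_lit 8844629392) (nat_lit 130) (nat_lit 5) (nat_lit 138) (nat_lit 5) (nat_lit 131) (nat_lit 5) (nat_lit 264) (nat_lit 246) (nat_lit 210)))) (XT.nd (nat_lit 94) (nat_lit 1092)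 (nat_lit 0) (XT.lf (nat_lit 0) (nat_lit 3434692470) (nat_lit 588) (nat_lit 1397486846) (nat_lit 84) (nat_lit 4782511020) (nat_lit 124) (nat_lit 5) (nat_lit 131) (nat_lit 5) (nat_lit 125) (nat_lit 5) (nat_lit 265) (nat_lit 246) (nat_lit 209)) (XT.nd (nat_lit 94) (nat_lit 588) (nat_lit 0) (XT.lf (nat_lit 0) (nat_lit 6760776437) (nat_lit 588) (nat_lit 2501593122) (nat_lit 84) (nat_lit 584645667) (nat_lit 118) (nat_lit 5) (nat_lit 125) (nat_lit 5) (nat_lit 119) (nat_lit 5) (nat_lit 266) (nat_lit 246) (nat_lit 208)) (XT.lf (nat_lit 0) (nat_lit 217539467) (nat_lit 588) (nat_lit 3633043867) (nat_lit 84) (nat_lit 6238244446) (nat_lit 111) (nat_lit 5) (nat_lit 118) (nat_lit 5) (nat_lit 112) (nat_lit 5) (nat_lit 267) (nat_lit 246) (nat_lit 207)))))) (XT.nd (nat_lit 470) (nat_lit 1932) (nat_lit 0) (XT.nd (nat_lit 188) (nat_lit 1344) (nat_lit 0) (XT.nd (nat_lit 94) (nat_lit 420) (nat_lit 0) (XT.lf (nat_lit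 0) (nat_lit 3642118184) (nat_lit 588) (nat_lit 4792716682) (nat_lit 84) (nat_lit 1905614259) (nat_lit 105) (nat_lit 5) (nat_lit 112) (nat_lit 5) (nat_lit 106) (nat_lit 5) (nat_lit 268) (nat_lit 246) (nat_lit 206)) (XT.lf (nat_lit 0) (nat_lit 4632337720) (nat_lit 420) (nat_lit 2664042418) (nat_lit 504) (nat_lit 3306225498) (nat_lit 100) (nat_lit 5) (nat_lit 105) (nat_lit 5) (nat_lit 106) (nat_lit 5) (nat_lit 269) (nat_lit 246) (nat_lit 205))) (XT.nd (nat_lit 94) (nat_lit 840) (nat_lit 0) (XT.lf (nat_lit 0) (nat_lit 308042549) (nat_lit 504) (nat_lit 7164169826) (nat_lit 84) (nat_lit 3403515705) (nat_lit 94) (nat_lit 5) (nat_lit 100) (nat_lit 5) (nat_lit 95) (nat_lit 5) (nat_lit 270) (nat_lit 246) (nat_lit 204)) (XT.nd (nat_lit 94) (nat_lit 420) (nat_lit 0) (XT.lf (nat_lit 0) (nat_lit 2755374151) (nat_lit 420) (nat_lit 1325337041) (nat_lit 504) (nat_lit 7078467579) (nat_lit 89) (nat_lit 5) (nat_lit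 94) (nat_lit 5) (nat_lit 95) (nat_lit 5) (nat_lit 271) (nat_lit 246) (nat_lit 203)) (XT.lf (nat_lit 0) (nat_lit 1774525738) (nat_lit 420) (nat_lit 6355779405) (nat_lit 504) (nat_lit 3323406637) (nat_lit 84) (nat_lit 5) (nat_lit 89) (nat_lit 5) (nat_lit 90) (nat_lit 5) (nat_lit 272) (nat_lit 246) (nat_lit 202))))) (XT.nd (nat_lit 282) (nat_lit 1092) (nat_lit 0) (XT.nd (nat_lit 94) (nat_lit 420) (nat_lit 0) (XT.lf (nat_lit 0) (nat_lit 659495024) (nat_lit 420) (nat_lit 10959192650) (nat_lit 84) (nat_lit 142147583) (nat_lit 79) (nat_lit 5) (nat_lit 84) (nat_lit 5) (nat_lit 80) (nat_lit 5) (nat_lit 273) (nat_lit 246) (nat_lit 201)) (XT.nd (nat_lit 94) (nat_lit 420) (nat_lit 0) (XT.lf (nat_lit 0) (nat_lit 4882442412) (nat_lit 420) (nat_lit 249612859) (nat_lit 84) (nat_lit 6945697938) (nat_lit 79) (nat_lit 5) (nat_lit 84) (nat_lit 5) (nat_lit 80) (nat_lit 5) (nat_lit 274) (nat_lit 246) (nat_lit 200))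 (XT.lf (nat_lit 0) (nat_lit 9392556024) (nat_lit 504) (nat_lit 1273441383) (nat_lit 84) (nat_lit 1741858991) (nat_lit 74) (nat_lit 5) (nat_lit 80) (nat_lit 5) (nat_lit 75) (nat_lit 5) (nat_lit 275) (nat_lit 246) (nat_lit 199)))) (XT.nd (nat_lit 94) (nat_lit 672) (nat_lit 0) (XT.lf (nat_lit 0) (nat_lit 1456879776) (nat_lit 420) (nat_lit 2344556318) (nat_lit 84) (nat_lit 8948491843) (nat_lit 69) (nat_lit 5) (nat_lit 74) (nat_lit 5) (nat_lit 70) (nat_lit 5) (nat_lit 276) (nat_lit 246) (nat_lit 198)) (XT.nd (nat_lit 94) (nat_lit 336) (nat_lit 0) (XT.lf (nat_lit 0) (nat_lit 6178884675) (nat_lit 420) (nat_lit 3462808077) (nat_lit 84) (nat_lit 3462745473) (nat_lit 65) (nat_lit 5) (nat_lit 70) (nat_lit 5) (nat_lit 66) (nat_lit 5) (nat_lit 277) (nat_lit 246) (nat_lit 197)) (XT.lf (nat_lit 0) (nat_lit 8873226867) (nat_lit 336) (nat_lit 2372497727) (nat_lit 420) (nat_lit 2227143717) (nat_lit 61) (nat_lit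 5) (nat_lit 65) (nat_lit 5) (nat_lit 66) (nat_lit 5) (nat_lit 278) (nat_lit 246) (nat_lit 196))))))))
noncomputable def xc17 : XT := (XT.nd (nat_lit 43898) (nat_lit 0) (nat_lit 252) (XT.nd (nat_lit 42864) (nat_lit 0) (nat_lit 7140) (XT.nd (nat_lit 42300) (nat_lit 0) (nat_lit 14196) (XT.nd (nat_lit 188) (nat_lit 672) (nat_lit 0) (XT.nd (nat_lit 94) (nat_lit 252) (nat_lit 0) (XT.lf (nat_lit 0) (nat_lit 2775635238) (nat_lit 420) (nat_lit 5801645121) (nat_lit 84) (nat_lit 5276805865) (nat_lit 56) (nat_lit 5) (nat_lit 61) (nat_lit 5) (nat_lit 57) (nat_lit 5) (nat_lit 279) (nat_lit 246) (nat_lit 195)) (XT.lf (nat_lit 0) (nat_lit 7215639516) (nat_lit 252) (nat_lit 863676358) (nat_lit 336) (nat_lit 6170504673) (nat_lit 53) (nat_lit 5) (nat_lit 56) (nat_lit 5) (nat_lit 57) (nat_lit 5) (nat_lit 280) (nat_lit 246) (nat_lit 194))) (XT.nd (nat_lit 94) (nat_lit 336) (nat_lit 0) (XT.lf (nat_lit 0) (nat_lit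 6334760444) (nat_lit 336) (nat_lit 7476358644) (nat_lit 420) (nat_lit 848519648) (nat_lit 49) (nat_lit 5) (nat_lit 53) (nat_lit 5) (nat_lit 54) (nat_lit 5) (nat_lit 281) (nat_lit 246) (nat_lit 193)) (XT.nd (nat_lit 41924) (nat_lit 0) (nat_lit 15624) (XT.lf (nat_lit 0) (nat_lit 4738250067) (nat_lit 336) (nat_lit 9665448855) (nat_lit 84) (nat_lit 680685293) (nat_lit 45) (nat_lit 5) (nat_lit 49) (nat_lit 5) (nat_lit 46) (nat_lit 5) (nat_lit 282) (nat_lit 246) (nat_lit 192)) (XT.lf (nat_lit 0) (nat_lit 1709944482) (nat_lit 756) (nat_lit 896390219) (nat_lit 756) (nat_lit 896390219) (nat_lit 231) (nat_lit 3) (nat_lit 240) (nat_lit 3) (nat_lit 240) (nat_lit 5) (nat_lit 247) (nat_lit 247) (nat_lit 226))))) (XT.nd (nat_lit 282) (nat_lit 672) (nat_lit 0) (XT.nd (nat_lit 94) (nat_lit 756) (nat_lit 0) (XT.lf (nat_lit 84) (nat_lit 3272766035) (nat_lit 0) (nat_lit 2821705650) (nat_lit 756) (nat_lit 995496411)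 (nat_lit 232) (nat_lit 5) (nat_lit 231) (nat_lit 3) (nat_lit 240) (nat_lit 5) (nat_lit 248) (nat_lit 247) (nat_lit 225)) (XT.nd (nat_lit 94) (nat_lit 0) (nat_lit 84) (XT.lf (nat_lit 84) (nat_lit 1378727403) (nat_lit 0) (nat_lit 177063048) (nat_lit 840) (nat_lit 5626771073) (nat_lit 223) (nat_lit 5) (nat_lit 222) (nat_lit 5) (nat_lit 232) (nat_lit 5) (nat_lit 249) (nat_lit 247) (nat_lit 224)) (XT.lf (nat_lit 0) (nat_lit 4127600500) (nat_lit 756) (nat_lit 486326417) (nat_lit 840) (nat_lit 2668366991) (nat_lit 223) (nat_lit 5) (nat_lit 232) (nat_lit 5) (nat_lit 233) (nat_lit 5) (nat_lit 250) (nat_lit 247) (nat_lit 223)))) (XT.nd (nat_lit 94) (nat_lit 756) (nat_lit 0) (XT.lf (nat_lit 84) (nat_lit 5121159191) (nat_lit 0) (nat_lit 1614993748) (nat_lit 840) (nat_lit 654074654) (nat_lit 224) (nat_lit 5) (nat_lit 223) (nat_lit 5) (nat_lit 233) (nat_lit 5) (nat_lit 251) (nat_lit 247) (nat_lit 222))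 (XT.nd (nat_lit 94) (nat_lit 0) (nat_lit 0) (XT.lf (nat_lit 0) (nat_lit 1843612453) (nat_lit 840) (nat_lit 4041411723) (nat_lit 924) (nat_lit 1620678972) (nat_lit 214) (nat_lit 5) (nat_lit 224) (nat_lit 5) (nat_lit 225) (nat_lit 5) (nat_lit 252) (nat_lit 247) (nat_lit 221)) (XT.lf (nat_lit 84) (nat_lit 1834105460) (nat_lit 0) (nat_lit 2543436033) (nat_lit 924) (nat_lit 3251700617) (nat_lit 215) (nat_lit 5) (nat_lit 214) (nat_lit 5) (nat_lit 225) (nat_lit 5) (nat_lit 253) (nat_lit 247) (nat_lit 220)))))) (XT.nd (nat_lit 470) (nat_lit 4284) (nat_lit 0) (XT.nd (nat_lit 188) (nat_lit 1932) (nat_lit 0) (XT.nd (nat_lit 94) (nat_lit 924) (nat_lit 0) (XT.lf (nat_lit 84) (nat_lit 241772240) (nat_lit 0) (nat_lit 6725014404) (nat_lit 924) (nat_lit 794669690) (nat_lit 216) (nat_lit 5) (nat_lit 215) (nat_lit 5) (nat_lit 226) (nat_lit 5) (nat_lit 254) (nat_lit 247) (nat_lit 219)) (XT.lf (nat_lit 0) (nat_lit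 1714732610) (nat_lit 924) (nat_lit 1324122724) (nat_lit 1008) (nat_lit 4861779806) (nat_lit 204) (nat_lit 5) (nat_lit 215) (nat_lit 5) (nat_lit 216) (nat_lit 5) (nat_lit 255) (nat_lit 247) (nat_lit 218))) (XT.nd (nat_lit 94) (nat_lit 2016) (nat_lit 0) (XT.lf (nat_lit 0) (nat_lit 4275232080) (nat_lit 924) (nat_lit 2862257853) (nat_lit 84) (nat_lit 910898430) (nat_lit 205) (nat_lit 5) (nat_lit 216) (nat_lit 5) (nat_lit 206) (nat_lit 5) (nat_lit 256) (nat_lit 247) (nat_lit 217)) (XT.nd (nat_lit 94) (nat_lit 1092) (nat_lit 0) (XT.lf (nat_lit 0) (nat_lit 3806777035) (nat_lit 924) (nat_lit 3132438259) (nat_lit 1008) (nat_lit 1265172895) (nat_lit 194) (nat_lit 5) (nat_lit 205) (nat_lit 5) (nat_lit 206) (nat_lit 5) (nat_lit 257) (nat_lit 247) (nat_lit 216)) (XT.lf (nat_lit 0) (nat_lit 1297044483) (nat_lit 1092) (nat_lit 5925748623) (nat_lit 84) (nat_lit 1146266303) (nat_lit 181) (nat_lit 5) (nat_lit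 194) (nat_lit 5) (nat_lit 182) (nat_lit 5) (nat_lit 258) (nat_lit 247) (nat_lit 215))))) (XT.nd (nat_lit 282) (nat_lit 1932) (nat_lit 0) (XT.nd (nat_lit 94) (nat_lit 1260) (nat_lit 0) (XT.lf (nat_lit 0) (nat_lit 1068579250) (nat_lit 1092) (nat_lit 2879886469) (nat_lit 1176) (nat_lit 4593287920) (nat_lit 168) (nat_lit 5) (nat_lit 181) (nat_lit 5) (nat_lit 182) (nat_lit 5) (nat_lit 259) (nat_lit 247) (nat_lit 214)) (XT.nd (nat_lit 94) (nat_lit 1260) (nat_lit 0) (XT.lf (nat_lit 0) (nat_lit 6716690818) (nat_lit 1176) (nat_lit 281424115) (nat_lit 84) (nat_lit 1725519497) (nat_lit 168) (nat_lit 5) (nat_lit 182) (nat_lit 5) (nat_lit 169) (nat_lit 5) (nat_lit 260) (nat_lit 247) (nat_lit 213)) (XT.lf (nat_lit 0) (nat_lit 706750226) (nat_lit 1260) (nat_lit 1613829267) (nat_lit 84) (nat_lit 6593259816) (nat_lit 153) (nat_lit 5) (nat_lit 168) (nat_lit 5) (nat_lit 154) (nat_lit 5) (nat_lit 261) (nat_lit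 247) (nat_lit 212)))) (XT.nd (nat_lit 94) (nat_lit 1260) (nat_lit 0) (XT.lf (nat_lit 0) (nat_lit 3512104386) (nat_lit 756) (nat_lit 2966683949) (nat_lit 84) (nat_lit 2633812814) (nat_lit 145) (nat_lit 5) (nat_lit 154) (nat_lit 5) (nat_lit 146) (nat_lit 5) (nat_lit 262) (nat_lit 247) (nat_lit 211)) (XT.nd (nat_lit 94) (nat_lit 672) (nat_lit 0) (XT.lf (nat_lit 0) (nat_lit 5003974601) (nat_lit 588) (nat_lit 1461411443) (nat_lit 672) (nat_lit 2855646946) (nat_lit 138) (nat_lit 5) (nat_lit 145) (nat_lit 5) (nat_lit 146) (nat_lit 5) (nat_lit 263) (nat_lit 247) (nat_lit 210)) (XT.lf (nat_lit 0) (nat_lit 56190823) (nat_lit 672) (nat_lit 5683305826) (nat_lit 84) (nat_lit 3799317380) (nat_lit 130) (nat_lit 5) (nat_lit 138) (nat_lit 5) (nat_lit 131) (nat_lit 5) (nat_lit 264) (nat_lit 247) (nat_lit 209))))))) (XT.nd (nat_lit 1034) (nat_lit 2184) (nat_lit 0) (XT.nd (nat_lit 470) (nat_lit 2604) (nat_lit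 0) (XT.nd (nat_lit 188) (nat_lit 1092) (nat_lit 0) (XT.nd (nat_lit 94) (nat_lit 504) (nat_lit 0) (XT.lf (nat_lit 0) (nat_lit 2691247295) (nat_lit 504) (nat_lit 364736961) (nat_lit 588) (nat_lit 6709968267) (nat_lit 124) (nat_lit 5) (nat_lit 130) (nat_lit 5) (nat_lit 131) (nat_lit 5) (nat_lit 265) (nat_lit 247) (nat_lit 208)) (XT.lf (nat_lit 0) (nat_lit 1499944591) (nat_lit 504) (nat_lit 4764297273) (nat_lit 588) (nat_lit 3738159472) (nat_lit 118) (nat_lit 5) (nat_lit 124) (nat_lit 5) (nat_lit 125) (nat_lit 5) (nat_lit 266) (nat_lit 247) (nat_lit 207))) (XT.nd (nat_lit 94) (nat_lit 588) (nat_lit 0) (XT.lf (nat_lit 0) (nat_lit 324803087) (nat_lit 504) (nat_lit 9328283517) (nat_lit 588) (nat_lit 596879885) (nat_lit 112) (nat_lit 5) (nat_lit 118) (nat_lit 5) (nat_lit 119) (nat_lit 5) (nat_lit 267) (nat_lit 247) (nat_lit 206)) (XT.nd (nat_lit 94) (nat_lit 504) (nat_lit 0) (XT.lf (nat_lit 0) (nat_lit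 2717958006) (nat_lit 588) (nat_lit 887970713) (nat_lit 84) (nat_lit 6900206496) (nat_lit 111) (nat_lit 5) (nat_lit 118) (nat_lit 5) (nat_lit 112) (nat_lit 5) (nat_lit 268) (nat_lit 247) (nat_lit 205)) (XT.lf (nat_lit 0) (nat_lit 6231999422) (nat_lit 588) (nat_lit 2101236175) (nat_lit 84) (nat_lit 2439963847) (nat_lit 105) (nat_lit 5) (nat_lit 112) (nat_lit 5) (nat_lit 106) (nat_lit 5) (nat_lit 269) (nat_lit 247) (nat_lit 204))))) (XT.nd (nat_lit 282) (nat_lit 1260) (nat_lit 0) (XT.nd (nat_lit 94) (nat_lit 924) (nat_lit 0) (XT.lf (nat_lit 0) (nat_lit 7720258601) (nat_lit 420) (nat_lit 2265885272) (nat_lit 504) (nat_lit 1065218979) (nat_lit 100) (nat_lit 5) (nat_lit 105) (nat_lit 5) (nat_lit 106) (nat_lit 5) (nat_lit 270) (nat_lit 247) (nat_lit 203)) (XT.nd (nat_lit 94) (nat_lit 420) (nat_lit 0) (XT.lf (nat_lit 0) (nat_lit 2601115559) (nat_lit 504) (nat_lit 4612607721) (nat_lit 84) (nat_lit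 4126072723) (nat_lit 94) (nat_lit 5) (nat_lit 100) (nat_lit 5) (nat_lit 95) (nat_lit 5) (nat_lit 271) (nat_lit 247) (nat_lit 202)) (XT.lf (nat_lit 0) (nat_lit 5728645926) (nat_lit 420) (nat_lit 756904789) (nat_lit 504) (nat_lit 5154558855) (nat_lit 89) (nat_lit 5) (nat_lit 94) (nat_lit 5) (nat_lit 95) (nat_lit 5) (nat_lit 272) (nat_lit 247) (nat_lit 201)))) (XT.nd (nat_lit 94) (nat_lit 840) (nat_lit 0) (XT.lf (nat_lit 0) (nat_lit 4694553831) (nat_lit 420) (nat_lit 5976552289) (nat_lit 504) (nat_lit 1280591249) (nat_lit 84) (nat_lit 5) (nat_lit 89) (nat_lit 5) (nat_lit 90) (nat_lit 5) (nat_lit 273) (nat_lit 247) (nat_lit 200)) (XT.nd (nat_lit 94) (nat_lit 420) (nat_lit 0) (XT.lf (nat_lit 0) (nat_lit 2787876636) (nat_lit 420) (nat_lit 8634275725) (nat_lit 84) (nat_lit 853385418) (nat_lit 79) (nat_lit 5) (nat_lit 84) (nat_lit 5) (nat_lit 80) (nat_lit 5) (nat_lit 274) (nat_lit 247) (nat_lit 199))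 (XT.lf (nat_lit 0) (nat_lit 2531376536) (nat_lit 420) (nat_lit 4619018555) (nat_lit 504) (nat_lit 5460411709) (nat_lit 74) (nat_lit 5) (nat_lit 79) (nat_lit 5) (nat_lit 80) (nat_lit 5) (nat_lit 275) (nat_lit 247) (nat_lit 198)))))) (XT.nd (nat_lit 470) (nat_lit 672) (nat_lit 0) (XT.nd (nat_lit 188) (nat_lit 756) (nat_lit 0) (XT.nd (nat_lit 94) (nat_lit 420) (nat_lit 0) (XT.lf (nat_lit 0) (nat_lit 1420699349) (nat_lit 336) (nat_lit 10395817448) (nat_lit 420) (nat_lit 1143330768) (nat_lit 70) (nat_lit 5) (nat_lit 74) (nat_lit 5) (nat_lit 75) (nat_lit 5) (nat_lit 276) (nat_lit 247) (nat_lit 197)) (XT.lf (nat_lit 0) (nat_lit 243797175) (nat_lit 336) (nat_lit 3186062389) (nat_lit 420) (nat_lit 9891060017) (nat_lit 65) (nat_lit 5) (nat_lit 69) (nat_lit 5) (nat_lit 70) (nat_lit 5) (nat_lit 277) (nat_lit 247) (nat_lit 196))) (XT.nd (nat_lit 94) (nat_lit 756) (nat_lit 0) (XT.lf (nat_lit 0) (nat_lit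 8333066811) (nat_lit 420) (nat_lit 949391804) (nat_lit 84) (nat_lit 4412618195) (nat_lit 65) (nat_lit 5) (nat_lit 70) (nat_lit 5) (nat_lit 66) (nat_lit 5) (nat_lit 278) (nat_lit 247) (nat_lit 195)) (XT.nd (nat_lit 94) (nat_lit 420) (nat_lit 0) (XT.lf (nat_lit 0) (nat_lit 11934874559) (nat_lit 336) (nat_lit 1659675692) (nat_lit 420) (nat_lit 489432596) (nat_lit 61) (nat_lit 5) (nat_lit 65) (nat_lit 5) (nat_lit 66) (nat_lit 5) (nat_lit 279) (nat_lit 247) (nat_lit 194)) (XT.lf (nat_lit 0) (nat_lit 4673767635) (nat_lit 420) (nat_lit 3447838423) (nat_lit 84) (nat_lit 6363607205) (nat_lit 56) (nat_lit 5) (nat_lit 61) (nat_lit 5) (nat_lit 57) (nat_lit 5) (nat_lit 280) (nat_lit 247) (nat_lit 193))))) (XT.nd (nat_lit 42206) (nat_lit 0) (nat_lit 13860) (XT.nd (nat_lit 94) (nat_lit 420) (nat_lit 0) (XT.lf (nat_lit 0) (nat_lit 10152829148) (nat_lit 252) (nat_lit 34731274) (nat_lit 336) (nat_lit 4715101396)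 (nat_lit 53) (nat_lit 5) (nat_lit 56) (nat_lit 5) (nat_lit 57) (nat_lit 5) (nat_lit 281) (nat_lit 247) (nat_lit 192)) (XT.nd (nat_lit 42018) (nat_lit 0) (nat_lit 14616) (XT.lf (nat_lit 0) (nat_lit 809303006) (nat_lit 420) (nat_lit 6132910884) (nat_lit 84) (nat_lit 8391952582) (nat_lit 48) (nat_lit 5) (nat_lit 53) (nat_lit 5) (nat_lit 49) (nat_lit 5) (nat_lit 282) (nat_lit 247) (nat_lit 191)) (XT.lf (nat_lit 0) (nat_lit 355052320) (nat_lit 0) (nat_lit 355052320) (nat_lit 756) (nat_lit 2879246168) (nat_lit 222) (nat_lit 5) (nat_lit 222) (nat_lit 3) (nat_lit 231) (nat_lit 3) (nat_lit 248) (nat_lit 248) (nat_lit 224)))) (XT.nd (nat_lit 94) (nat_lit 756) (nat_lit 0) (XT.lf (nat_lit 0) (nat_lit 3848409931) (nat_lit 756) (nat_lit 1349096646) (nat_lit 840) (nat_lit 2076918241) (nat_lit 222) (nat_lit 5) (nat_lit 231) (nat_lit 3) (nat_lit 232) (nat_lit 5) (nat_lit 249) (nat_lit 248) (nat_lit 223)) (XT.nd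 (nat_lit 94) (nat_lit 756) (nat_lit 0) (XT.lf (nat_lit 84) (nat_lit 4027413880) (nat_lit 0) (nat_lit 2272986624) (nat_lit 840) (nat_lit 1077950378) (nat_lit 223) (nat_lit 5) (nat_lit 222) (nat_lit 5) (nat_lit 232) (nat_lit 5) (nat_lit 250) (nat_lit 248) (nat_lit 222)) (XT.lf (nat_lit 0) (nat_lit 1260616774) (nat_lit 840) (nat_lit 5331900707) (nat_lit 924) (nat_lit 897755058) (nat_lit 213) (nat_lit 5) (nat_lit 223) (nat_lit 5) (nat_lit 224) (nat_lit 5) (nat_lit 251) (nat_lit 248) (nat_lit 221))))))))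
noncomputable def xc18 : XT := (XT.nd (nat_lit 2068) (nat_lit 3024) (nat_lit 0) (XT.nd (nat_lit 1034) (nat_lit 4704) (nat_lit 0) (XT.nd (nat_lit 470) (nat_lit 4872) (nat_lit 0) (XT.nd (nat_lit 188) (nat_lit 840) (nat_lit 0) (XT.nd (nat_lit 94) (nat_lit 0) (nat_lit 84) (XT.lf (nat_lit 84) (nat_lit 298787793) (nat_lit 0) (nat_lit 3322693963) (nat_lit 924) (nat_lit 3988280965) (nat_lit 214) (nat_lit 5) (nat_lit 213) (nat_lit 5) (nat_lit 224) (nat_lit 5) (nat_lit 252) (nat_lit 248) (nat_lit 220)) (XT.lf (nat_lit 0) (nat_lit 6032969985) (nat_lit 840) (nat_lit 1483792661) (nat_lit 924) (nat_lit 220824467) (nat_lit 214) (nat_lit 5) (nat_lit 224) (nat_lit 5) (nat_lit 225) (nat_lit 5) (nat_lit 253) (nat_lit 248) (nat_lit 219))) (XT.nd (nat_lit 94) (nat_lit 0) (nat_lit 0) (XT.lf (nat_lit 0) (nat_lit 640512855) (nat_lit 924) (nat_lit 3265321729) (nat_lit 1008) (nat_lit 3966992747) (nat_lit 203) (nat_lit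 5) (nat_lit 214) (nat_lit 5) (nat_lit 215) (nat_lit 5) (nat_lit 254) (nat_lit 248) (nat_lit 218)) (XT.nd (nat_lit 94) (nat_lit 0) (nat_lit 84) (XT.lf (nat_lit 84) (nat_lit 2986749663) (nat_lit 0) (nat_lit 3649814) (nat_lit 1008) (nat_lit 5026249159) (nat_lit 204) (nat_lit 5) (nat_lit 203) (nat_lit 5) (nat_lit 215) (nat_lit 5) (nat_lit 255) (nat_lit 248) (nat_lit 217)) (XT.lf (nat_lit 84) (nat_lit 1361019797) (nat_lit 0) (nat_lit 4079226034) (nat_lit 1008) (nat_lit 2728028886) (nat_lit 205) (nat_lit 5) (nat_lit 204) (nat_lit 5) (nat_lit 216) (nat_lit 5) (nat_lit 256) (nat_lit 248) (nat_lit 216))))) (XT.nd (nat_lit 282) (nat_lit 3024) (nat_lit 0) (XT.nd (nat_lit 94) (nat_lit 2016) (nat_lit 0) (XT.lf (nat_lit 0) (nat_lit 7961289912) (nat_lit 924) (nat_lit 223210841) (nat_lit 84) (nat_lit 144776660) (nat_lit 205) (nat_lit 5) (nat_lit 216) (nat_lit 5) (nat_lit 206) (nat_lit 5) (nat_lit 257) (nat_lit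 248) (nat_lit 215)) (XT.nd (nat_lit 94) (nat_lit 1008) (nat_lit 0) (XT.lf (nat_lit 0) (nat_lit 2077331014) (nat_lit 1008) (nat_lit 1813224702) (nat_lit 84) (nat_lit 4606422491) (nat_lit 193) (nat_lit 5) (nat_lit 205) (nat_lit 5) (nat_lit 194) (nat_lit 5) (nat_lit 258) (nat_lit 248) (nat_lit 214)) (XT.lf (nat_lit 0) (nat_lit 4601209600) (nat_lit 1092) (nat_lit 3384315141) (nat_lit 84) (nat_lit 688611687) (nat_lit 181) (nat_lit 5) (nat_lit 194) (nat_lit 5) (nat_lit 182) (nat_lit 5) (nat_lit 259) (nat_lit 248) (nat_lit 213)))) (XT.nd (nat_lit 94) (nat_lit 1932) (nat_lit 0) (XT.lf (nat_lit 0) (nat_lit 3887300557) (nat_lit 1092) (nat_lit 3374459647) (nat_lit 1176) (nat_lit 1598025624) (nat_lit 168) (nat_lit 5) (nat_lit 181) (nat_lit 5) (nat_lit 182) (nat_lit 5) (nat_lit 260) (nat_lit 248) (nat_lit 212)) (XT.nd (nat_lit 94) (nat_lit 672) (nat_lit 0) (XT.lf (nat_lit 0) (nat_lit 966649431) (nat_lit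 1260) (nat_lit 6563688513) (nat_lit 84) (nat_lit 1524384435) (nat_lit 153) (nat_lit 5) (nat_lit 168) (nat_lit 5) (nat_lit 154) (nat_lit 5) (nat_lit 261) (nat_lit 248) (nat_lit 211)) (XT.lf (nat_lit 0) (nat_lit 1067861645) (nat_lit 672) (nat_lit 2571425912) (nat_lit 756) (nat_lit 5618841724) (nat_lit 145) (nat_lit 5) (nat_lit 153) (nat_lit 5) (nat_lit 154) (nat_lit 5) (nat_lit 262) (nat_lit 248) (nat_lit 210)))))) (XT.nd (nat_lit 470) (nat_lit 2436) (nat_lit 0) (XT.nd (nat_lit 188) (nat_lit 1680) (nat_lit 0) (XT.nd (nat_lit 94) (nat_lit 588) (nat_lit 0) (XT.lf (nat_lit 0) (nat_lit 6464127785) (nat_lit 756) (nat_lit 348300693) (nat_lit 84) (nat_lit 2658628092) (nat_lit 145) (nat_lit 5) (nat_lit 154) (nat_lit 5) (nat_lit 146) (nat_lit 5) (nat_lit 263) (nat_lit 248) (nat_lit 209)) (XT.lf (nat_lit 0) (nat_lit 7950274473) (nat_lit 588) (nat_lit 1512629026) (nat_lit 672) (nat_lit 230582454) (nat_lit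 138) (nat_lit 5) (nat_lit 145) (nat_lit 5) (nat_lit 146) (nat_lit 5) (nat_lit 264) (nat_lit 248) (nat_lit 208))) (XT.nd (nat_lit 94) (nat_lit 1008) (nat_lit 0) (XT.lf (nat_lit 0) (nat_lit 2666145674) (nat_lit 672) (nat_lit 3188724845) (nat_lit 84) (nat_lit 4069634126) (nat_lit 130) (nat_lit 5) (nat_lit 138) (nat_lit 5) (nat_lit 131) (nat_lit 5) (nat_lit 265) (nat_lit 248) (nat_lit 207)) (XT.nd (nat_lit 94) (nat_lit 504) (nat_lit 0) (XT.lf (nat_lit 0) (nat_lit 5533632604) (nat_lit 504) (nat_lit 188317368) (nat_lit 588) (nat_lit 4444339351) (nat_lit 124) (nat_lit 5) (nat_lit 130) (nat_lit 5) (nat_lit 131) (nat_lit 5) (nat_lit 266) (nat_lit 248) (nat_lit 206)) (XT.lf (nat_lit 0) (nat_lit 4297253874) (nat_lit 504) (nat_lit 4706090010) (nat_lit 588) (nat_lit 1414271371) (nat_lit 118) (nat_lit 5) (nat_lit 124) (nat_lit 5) (nat_lit 125) (nat_lit 5) (nat_lit 267) (nat_lit 248) (nat_lit 205))))) (XT.nd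 (nat_lit 282) (nat_lit 924) (nat_lit 0) (XT.nd (nat_lit 94) (nat_lit 924) (nat_lit 0) (XT.lf (nat_lit 0) (nat_lit 1758478596) (nat_lit 588) (nat_lit 7627081048) (nat_lit 84) (nat_lit 1294164857) (nat_lit 111) (nat_lit 5) (nat_lit 118) (nat_lit 5) (nat_lit 112) (nat_lit 5) (nat_lit 268) (nat_lit 248) (nat_lit 204)) (XT.nd (nat_lit 94) (nat_lit 420) (nat_lit 0) (XT.lf (nat_lit 0) (nat_lit 1762213836) (nat_lit 504) (nat_lit 3369364507) (nat_lit 588) (nat_lit 5820143347) (nat_lit 105) (nat_lit 5) (nat_lit 111) (nat_lit 5) (nat_lit 112) (nat_lit 5) (nat_lit 269) (nat_lit 248) (nat_lit 203)) (XT.lf (nat_lit 0) (nat_lit 462804703) (nat_lit 420) (nat_lit 8269874530) (nat_lit 504) (nat_lit 2502562389) (nat_lit 100) (nat_lit 5) (nat_lit 105) (nat_lit 5) (nat_lit 106) (nat_lit 5) (nat_lit 270) (nat_lit 248) (nat_lit 202)))) (XT.nd (nat_lit 94) (nat_lit 840) (nat_lit 0) (XT.lf (nat_lit 0) (nat_lit 1039993066)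 (nat_lit 504) (nat_lit 844956370) (nat_lit 84) (nat_lit 9644758808) (nat_lit 99) (nat_lit 5) (nat_lit 105) (nat_lit 5) (nat_lit 100) (nat_lit 5) (nat_lit 271) (nat_lit 248) (nat_lit 201)) (XT.nd (nat_lit 94) (nat_lit 420) (nat_lit 0) (XT.lf (nat_lit 0) (nat_lit 4797085969) (nat_lit 504) (nat_lit 2203990402) (nat_lit 84) (nat_lit 4833402420) (nat_lit 94) (nat_lit 5) (nat_lit 100) (nat_lit 5) (nat_lit 95) (nat_lit 5) (nat_lit 272) (nat_lit 248) (nat_lit 200)) (XT.lf (nat_lit 0) (nat_lit 8586963091) (nat_lit 420) (nat_lit 219059232) (nat_lit 504) (nat_lit 3346225933) (nat_lit 89) (nat_lit 5) (nat_lit 94) (nat_lit 5) (nat_lit 95) (nat_lit 5) (nat_lit 273) (nat_lit 248) (nat_lit 199))))))) (XT.nd (nat_lit 43052) (nat_lit 0) (nat_lit 9576) (XT.nd (nat_lit 470) (nat_lit 1008) (nat_lit 0) (XT.nd (nat_lit 188) (nat_lit 1176) (nat_lit 0) (XT.nd (nat_lit 94) (nat_lit 336) (nat_lit 0) (XT.lf (nat_lit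 0) (nat_lit 644052133) (nat_lit 504) (nat_lit 4991514027) (nat_lit 84) (nat_lit 6845703983) (nat_lit 83) (nat_lit 5) (nat_lit 89) (nat_lit 5) (nat_lit 84) (nat_lit 5) (nat_lit 274) (nat_lit 248) (nat_lit 198)) (XT.lf (nat_lit 0) (nat_lit 4827866260) (nat_lit 420) (nat_lit 6460205787) (nat_lit 84) (nat_lit 1534721769) (nat_lit 79) (nat_lit 5) (nat_lit 84) (nat_lit 5) (nat_lit 80) (nat_lit 5) (nat_lit 275) (nat_lit 248) (nat_lit 197))) (XT.nd (nat_lit 94) (nat_lit 756) (nat_lit 0) (XT.lf (nat_lit 0) (nat_lit 5197220369) (nat_lit 420) (nat_lit 4149078690) (nat_lit 504) (nat_lit 3830704633) (nat_lit 74) (nat_lit 5) (nat_lit 79) (nat_lit 5) (nat_lit 80) (nat_lit 5) (nat_lit 276) (nat_lit 248) (nat_lit 196)) (XT.nd (nat_lit 94) (nat_lit 336) (nat_lit 0) (XT.lf (nat_lit 0) (nat_lit 633789170) (nat_lit 420) (nat_lit 9531250091) (nat_lit 84) (nat_lit 3380021534) (nat_lit 69) (nat_lit 5) (nat_lit 74)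 (nat_lit 5) (nat_lit 70) (nat_lit 5) (nat_lit 277) (nat_lit 248) (nat_lit 195)) (XT.lf (nat_lit 0) (nat_lit 2761833295) (nat_lit 336) (nat_lit 2588455068) (nat_lit 420) (nat_lit 8575464443) (nat_lit 65) (nat_lit 5) (nat_lit 69) (nat_lit 5) (nat_lit 70) (nat_lit 5) (nat_lit 278) (nat_lit 248) (nat_lit 194))))) (XT.nd (nat_lit 282) (nat_lit 252) (nat_lit 0) (XT.nd (nat_lit 94) (nat_lit 420) (nat_lit 0) (XT.lf (nat_lit 0) (nat_lit 1473331428) (nat_lit 336) (nat_lit 8966489975) (nat_lit 420) (nat_lit 3880855704) (nat_lit 61) (nat_lit 5) (nat_lit 65) (nat_lit 5) (nat_lit 66) (nat_lit 5) (nat_lit 279) (nat_lit 248) (nat_lit 193)) (XT.nd (nat_lit 94) (nat_lit 0) (nat_lit 0) (XT.lf (nat_lit 0) (nat_lit 165534845) (nat_lit 336) (nat_lit 973188835) (nat_lit 420) (nat_lit 13592224576) (nat_lit 56) (nat_lit 5) (nat_lit 60) (nat_lit 5) (nat_lit 61) (nat_lit 5) (nat_lit 280) (nat_lit 248) (nat_lit 192))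 (XT.lf (nat_lit 0) (nat_lit 6503238906) (nat_lit 420) (nat_lit 1222145125) (nat_lit 84) (nat_lit 7428237494) (nat_lit 56) (nat_lit 5) (nat_lit 61) (nat_lit 5) (nat_lit 57) (nat_lit 5) (nat_lit 281) (nat_lit 248) (nat_lit 191)))) (XT.nd (nat_lit 42112) (nat_lit 0) (nat_lit 13356) (XT.lf (nat_lit 0) (nat_lit 12251177142) (nat_lit 336) (nat_lit 2604750154) (nat_lit 84) (nat_lit 737469258) (nat_lit 53) (nat_lit 5) (nat_lit 57) (nat_lit 5) (nat_lit 54) (nat_lit 5) (nat_lit 282) (nat_lit 248) (nat_lit 190)) (XT.nd (nat_lit 94) (nat_lit 840) (nat_lit 0) (XT.lf (nat_lit 0) (nat_lit 1538820035) (nat_lit 0) (nat_lit 1538820035) (nat_lit 756) (nat_lit 609557220) (nat_lit 222) (nat_lit 5) (nat_lit 222) (nat_lit 3) (nat_lit 231) (nat_lit 3) (nat_lit 249) (nat_lit 249) (nat_lit 222)) (XT.lf (nat_lit 0) (nat_lit 963761604) (nat_lit 840) (nat_lit 6486649192) (nat_lit 924) (nat_lit 32355251) (nat_lit 212)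 (nat_lit 5) (nat_lit 222) (nat_lit 5) (nat_lit 223) (nat_lit 5) (nat_lit 250) (nat_lit 249) (nat_lit 221)))))) (XT.nd (nat_lit 470) (nat_lit 2940) (nat_lit 0) (XT.nd (nat_lit 188) (nat_lit 840) (nat_lit 0) (XT.nd (nat_lit 94) (nat_lit 0) (nat_lit 0) (XT.lf (nat_lit 0) (nat_lit 3175574562) (nat_lit 840) (nat_lit 1066625045) (nat_lit 924) (nat_lit 3355648659) (nat_lit 212) (nat_lit 5) (nat_lit 222) (nat_lit 5) (nat_lit 223) (nat_lit 5) (nat_lit 251) (nat_lit 249) (nat_lit 220)) (XT.lf (nat_lit 84) (nat_lit 4654402757) (nat_lit 0) (nat_lit 762848248) (nat_lit 924) (nat_lit 2304259043) (nat_lit 213) (nat_lit 5) (nat_lit 212) (nat_lit 5) (nat_lit 223) (nat_lit 5) (nat_lit 252) (nat_lit 249) (nat_lit 219))) (XT.nd (nat_lit 94) (nat_lit 924) (nat_lit 0) (XT.lf (nat_lit 84) (nat_lit 2788788569) (nat_lit 0) (nat_lit 4931919659) (nat_lit 924) (nat_lit 132407296) (nat_lit 214) (nat_lit 5) (nat_lit 213)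 (nat_lit 5) (nat_lit 224) (nat_lit 5) (nat_lit 253) (nat_lit 249) (nat_lit 218)) (XT.nd (nat_lit 94) (nat_lit 0) (nat_lit 84) (XT.lf (nat_lit 84) (nat_lit 930506345) (nat_lit 0) (nat_lit 1102529786) (nat_lit 1008) (nat_lit 5959747813) (nat_lit 203) (nat_lit 5) (nat_lit 202) (nat_lit 5) (nat_lit 214) (nat_lit 5) (nat_lit 254) (nat_lit 249) (nat_lit 217)) (XT.lf (nat_lit 0) (nat_lit 4280141265) (nat_lit 924) (nat_lit 905658772) (nat_lit 1008) (nat_lit 2954402564) (nat_lit 203) (nat_lit 5) (nat_lit 214) (nat_lit 5) (nat_lit 215) (nat_lit 5) (nat_lit 255) (nat_lit 249) (nat_lit 216))))) (XT.nd (nat_lit 282) (nat_lit 2100) (nat_lit 0) (XT.nd (nat_lit 94) (nat_lit 924) (nat_lit 0) (XT.lf (nat_lit 84) (nat_lit 5594622213) (nat_lit 0) (nat_lit 1008502764) (nat_lit 1008) (nat_lit 1693143897) (nat_lit 204) (nat_lit 5) (nat_lit 203) (nat_lit 5) (nat_lit 215) (nat_lit 5) (nat_lit 256) (nat_lit 249) (nat_lit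 215)) (XT.nd (nat_lit 94) (nat_lit 0) (nat_lit 0) (XT.lf (nat_lit 0) (nat_lit 554518003) (nat_lit 1008) (nat_lit 4513076318) (nat_lit 1092) (nat_lit 3392821208) (nat_lit 192) (nat_lit 5) (nat_lit 204) (nat_lit 5) (nat_lit 205) (nat_lit 5) (nat_lit 257) (nat_lit 249) (nat_lit 214)) (XT.lf (nat_lit 84) (nat_lit 2302587247) (nat_lit 0) (nat_lit 537974821) (nat_lit 1092) (nat_lit 5792693321) (nat_lit 193) (nat_lit 5) (nat_lit 192) (nat_lit 5) (nat_lit 205) (nat_lit 5) (nat_lit 258) (nat_lit 249) (nat_lit 213)))) (XT.nd (nat_lit 94) (nat_lit 1176) (nat_lit 0) (XT.lf (nat_lit 0) (nat_lit 640770438) (nat_lit 1008) (nat_lit 4609372884) (nat_lit 1092) (nat_lit 3564270694) (nat_lit 181) (nat_lit 5) (nat_lit 193) (nat_lit 5) (nat_lit 194) (nat_lit 5) (nat_lit 259) (nat_lit 249) (nat_lit 212)) (XT.nd (nat_lit 94) (nat_lit 1176) (nat_lit 0) (XT.lf (nat_lit 0) (nat_lit 7769422364) (nat_lit 1092) (nat_lit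 979634379) (nat_lit 84) (nat_lit 255951177) (nat_lit 181) (nat_lit 5) (nat_lit 194) (nat_lit 5) (nat_lit 182) (nat_lit 5) (nat_lit 260) (nat_lit 249) (nat_lit 211)) (XT.lf (nat_lit 0) (nat_lit 1218897843) (nat_lit 1176) (nat_lit 2627887544) (nat_lit 84) (nat_lit 5356586818) (nat_lit 167) (nat_lit 5) (nat_lit 181) (nat_lit 5) (nat_lit 168) (nat_lit 5) (nat_lit 261) (nat_lit 249) (nat_lit 210))))))))
noncomputable def xc19 : XT := (XT.nd (nat_lit 44180) (nat_lit 0) (nat_lit 3864) (XT.nd (nat_lit 1034) (nat_lit 3444) (nat_lit 0) (XT.nd (nat_lit 470) (nat_lit 3024) (nat_lit 0) (XT.nd (nat_lit 188) (nat_lit 1260) (nat_lit 0) (XT.nd (nat_lit 94) (nat_lit 672) (nat_lit 0) (XT.lf (nat_lit 0) (nat_lit 3762888137) (nat_lit 1260) (nat_lit 4284092570) (nat_lit 84) (nat_lit 1364301074) (nat_lit 153) (nat_lit 5) (nat_lit 168) (nat_lit 5) (nat_lit 154) (nat_lit 5) (nat_lit 262) (nat_lit 249) (nat_lit 209))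 (XT.lf (nat_lit 0) (nat_lit 3662475416) (nat_lit 672) (nat_lit 2804144737) (nat_lit 756) (nat_lit 3161827705) (nat_lit 145) (nat_lit 5) (nat_lit 153) (nat_lit 5) (nat_lit 154) (nat_lit 5) (nat_lit 263) (nat_lit 249) (nat_lit 208))) (XT.nd (nat_lit 94) (nat_lit 672) (nat_lit 0) (XT.lf (nat_lit 0) (nat_lit 2193514921) (nat_lit 588) (nat_lit 7136552859) (nat_lit 672) (nat_lit 525545943) (nat_lit 138) (nat_lit 5) (nat_lit 145) (nat_lit 5) (nat_lit 146) (nat_lit 5) (nat_lit 264) (nat_lit 249) (nat_lit 207)) (XT.nd (nat_lit 94) (nat_lit 0) (nat_lit 0) (XT.lf (nat_lit 0) (nat_lit 690346090) (nat_lit 588) (nat_lit 1534318460) (nat_lit 672) (nat_lit 7867445094) (nat_lit 130) (nat_lit 5) (nat_lit 137) (nat_lit 5) (nat_lit 138) (nat_lit 5) (nat_lit 265) (nat_lit 249) (nat_lit 206)) (XT.lf (nat_lit 0) (nat_lit 5164210609) (nat_lit 672) (nat_lit 827756305) (nat_lit 84) (nat_lit 4345996446) (nat_lit 130)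 (nat_lit 5) (nat_lit 138) (nat_lit 5) (nat_lit 131) (nat_lit 5) (nat_lit 266) (nat_lit 249) (nat_lit 205))))) (XT.nd (nat_lit 282) (nat_lit 1428) (nat_lit 0) (XT.nd (nat_lit 94) (nat_lit 1092) (nat_lit 0) (XT.lf (nat_lit 0) (nat_lit 8266389467) (nat_lit 504) (nat_lit 21174106) (nat_lit 588) (nat_lit 2307257153) (nat_lit 124) (nat_lit 5) (nat_lit 130) (nat_lit 5) (nat_lit 131) (nat_lit 5) (nat_lit 267) (nat_lit 249) (nat_lit 204)) (XT.nd (nat_lit 94) (nat_lit 504) (nat_lit 0) (XT.lf (nat_lit 0) (nat_lit 774414446) (nat_lit 588) (nat_lit 3888978620) (nat_lit 84) (nat_lit 6197781564) (nat_lit 117) (nat_lit 5) (nat_lit 124) (nat_lit 5) (nat_lit 118) (nat_lit 5) (nat_lit 268) (nat_lit 249) (nat_lit 203)) (XT.lf (nat_lit 0) (nat_lit 3996962133) (nat_lit 588) (nat_lit 5480219705) (nat_lit 84) (nat_lit 1661259302) (nat_lit 111) (nat_lit 5) (nat_lit 118) (nat_lit 5) (nat_lit 112) (nat_lit 5) (nat_lit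 269) (nat_lit 249) (nat_lit 202)))) (XT.nd (nat_lit 94) (nat_lit 924) (nat_lit 0) (XT.lf (nat_lit 0) (nat_lit 4314011019) (nat_lit 504) (nat_lit 3149749012) (nat_lit 588) (nat_lit 3962901646) (nat_lit 105) (nat_lit 5) (nat_lit 111) (nat_lit 5) (nat_lit 112) (nat_lit 5) (nat_lit 270) (nat_lit 249) (nat_lit 201)) (XT.nd (nat_lit 94) (nat_lit 504) (nat_lit 0) (XT.lf (nat_lit 0) (nat_lit 2953327722) (nat_lit 420) (nat_lit 8224360143) (nat_lit 504) (nat_lit 549022724) (nat_lit 100) (nat_lit 5) (nat_lit 105) (nat_lit 5) (nat_lit 106) (nat_lit 5) (nat_lit 271) (nat_lit 249) (nat_lit 200)) (XT.lf (nat_lit 0) (nat_lit 1542548230) (nat_lit 420) (nat_lit 1501427507) (nat_lit 504) (nat_lit 8993898515) (nat_lit 94) (nat_lit 5) (nat_lit 99) (nat_lit 5) (nat_lit 100) (nat_lit 5) (nat_lit 272) (nat_lit 249) (nat_lit 199)))))) (XT.nd (nat_lit 470) (nat_lit 1764) (nat_lit 0) (XT.nd (nat_lit 188) (nat_lit 1260)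 (nat_lit 0) (XT.nd (nat_lit 94) (nat_lit 0) (nat_lit 0) (XT.lf (nat_lit 0) (nat_lit 81534278) (nat_lit 420) (nat_lit 6830159928) (nat_lit 504) (nat_lit 5448892137) (nat_lit 89) (nat_lit 5) (nat_lit 94) (nat_lit 5) (nat_lit 95) (nat_lit 5) (nat_lit 273) (nat_lit 249) (nat_lit 198)) (XT.lf (nat_lit 0) (nat_lit 11060185557) (nat_lit 504) (nat_lit 1350658042) (nat_lit 84) (nat_lit 285531896) (nat_lit 89) (nat_lit 5) (nat_lit 95) (nat_lit 5) (nat_lit 90) (nat_lit 5) (nat_lit 274) (nat_lit 249) (nat_lit 197))) (XT.nd (nat_lit 94) (nat_lit 756) (nat_lit 0) (XT.lf (nat_lit 0) (nat_lit 2452385936) (nat_lit 504) (nat_lit 2870563904) (nat_lit 84) (nat_lit 7720219219) (nat_lit 83) (nat_lit 5) (nat_lit 89) (nat_lit 5) (nat_lit 84) (nat_lit 5) (nat_lit 275) (nat_lit 249) (nat_lit 196)) (XT.nd (nat_lit 94) (nat_lit 420) (nat_lit 0) (XT.lf (nat_lit 0) (nat_lit 6793155984) (nat_lit 420) (nat_lit 4419693423)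 (nat_lit 84) (nat_lit 2190747725) (nat_lit 79) (nat_lit 5) (nat_lit 84) (nat_lit 5) (nat_lit 80) (nat_lit 5) (nat_lit 276) (nat_lit 249) (nat_lit 195)) (XT.lf (nat_lit 0) (nat_lit 7760278672) (nat_lit 420) (nat_lit 3720804015) (nat_lit 504) (nat_lit 2296409786) (nat_lit 74) (nat_lit 5) (nat_lit 79) (nat_lit 5) (nat_lit 80) (nat_lit 5) (nat_lit 277) (nat_lit 249) (nat_lit 194))))) (XT.nd (nat_lit 282) (nat_lit 672) (nat_lit 0) (XT.nd (nat_lit 94) (nat_lit 672) (nat_lit 0) (XT.lf (nat_lit 0) (nat_lit 2304540825) (nat_lit 420) (nat_lit 7675404963) (nat_lit 84) (nat_lit 4185000870) (nat_lit 69) (nat_lit 5) (nat_lit 74) (nat_lit 5) (nat_lit 70) (nat_lit 5) (nat_lit 278) (nat_lit 249) (nat_lit 193)) (XT.nd (nat_lit 94) (nat_lit 336) (nat_lit 0) (XT.lf (nat_lit 0) (nat_lit 5172801388) (nat_lit 336) (nat_lit 2031337739) (nat_lit 420) (nat_lit 7362379548) (nat_lit 65) (nat_lit 5) (nat_lit 69) (nat_lit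 5) (nat_lit 70) (nat_lit 5) (nat_lit 279) (nat_lit 249) (nat_lit 192)) (XT.lf (nat_lit 0) (nat_lit 3808513039) (nat_lit 336) (nat_lit 8696579362) (nat_lit 420) (nat_lit 2477603763) (nat_lit 61) (nat_lit 5) (nat_lit 65) (nat_lit 5) (nat_lit 66) (nat_lit 5) (nat_lit 280) (nat_lit 249) (nat_lit 191)))) (XT.nd (nat_lit 94) (nat_lit 252) (nat_lit 0) (XT.lf (nat_lit 0) (nat_lit 2412897953) (nat_lit 336) (nat_lit 294450362) (nat_lit 420) (nat_lit 12707238258) (nat_lit 56) (nat_lit 5) (nat_lit 60) (nat_lit 5) (nat_lit 61) (nat_lit 5) (nat_lit 281) (nat_lit 249) (nat_lit 190)) (XT.nd (nat_lit 42206) (nat_lit 0) (nat_lit 13272) (XT.lf (nat_lit 0) (nat_lit 912573547) (nat_lit 252) (nat_lit 7373417457) (nat_lit 336) (nat_lit 7574295942) (nat_lit 53) (nat_lit 5) (nat_lit 56) (nat_lit 5) (nat_lit 57) (nat_lit 5) (nat_lit 282) (nat_lit 249) (nat_lit 189)) (XT.lf (nat_lit 0) (nat_lit 1514090368) (nat_lit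 924) (nat_lit 1141414963) (nat_lit 924) (nat_lit 1141414963) (nat_lit 211) (nat_lit 3) (nat_lit 222) (nat_lit 3) (nat_lit 222) (nat_lit 5) (nat_lit 250) (nat_lit 250) (nat_lit 220))))))) (XT.nd (nat_lit 1034) (nat_lit 5712) (nat_lit 0) (XT.nd (nat_lit 470) (nat_lit 2856) (nat_lit 0) (XT.nd (nat_lit 188) (nat_lit 840) (nat_lit 0) (XT.nd (nat_lit 94) (nat_lit 0) (nat_lit 84) (XT.lf (nat_lit 84) (nat_lit 3204301369) (nat_lit 0) (nat_lit 1906759073) (nat_lit 924) (nat_lit 2602375032) (nat_lit 212) (nat_lit 5) (nat_lit 211) (nat_lit 3) (nat_lit 222) (nat_lit 5) (nat_lit 251) (nat_lit 250) (nat_lit 219)) (XT.lf (nat_lit 84) (nat_lit 1117859832) (nat_lit 0) (nat_lit 6112630117) (nat_lit 924) (nat_lit 610885948) (nat_lit 213) (nat_lit 5) (nat_lit 212) (nat_lit 5) (nat_lit 223) (nat_lit 5) (nat_lit 252) (nat_lit 250) (nat_lit 218))) (XT.nd (nat_lit 94) (nat_lit 0) (nat_lit 84) (XT.lf (nat_lit 0) (nat_lit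 1401085750) (nat_lit 924) (nat_lit 950139611) (nat_lit 1008) (nat_lit 5625504295) (nat_lit 201) (nat_lit 5) (nat_lit 212) (nat_lit 5) (nat_lit 213) (nat_lit 5) (nat_lit 253) (nat_lit 250) (nat_lit 217)) (XT.nd (nat_lit 94) (nat_lit 0) (nat_lit 0) (XT.lf (nat_lit 0) (nat_lit 3458988188) (nat_lit 924) (nat_lit 2987638594) (nat_lit 1008) (nat_lit 1673378513) (nat_lit 202) (nat_lit 5) (nat_lit 213) (nat_lit 5) (nat_lit 214) (nat_lit 5) (nat_lit 254) (nat_lit 250) (nat_lit 216)) (XT.lf (nat_lit 84) (nat_lit 3245959521) (nat_lit 0) (nat_lit 2337688674) (nat_lit 1008) (nat_lit 2688061337) (nat_lit 203) (nat_lit 5) (nat_lit 202) (nat_lit 5) (nat_lit 214) (nat_lit 5) (nat_lit 255) (nat_lit 250) (nat_lit 215))))) (XT.nd (nat_lit 282) (nat_lit 2016) (nat_lit 0) (XT.nd (nat_lit 94) (nat_lit 1008) (nat_lit 0) (XT.lf (nat_lit 84) (nat_lit 1368458099) (nat_lit 0) (nat_lit 6413139851) (nat_lit 1008) (nat_lit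 650554045) (nat_lit 204) (nat_lit 5) (nat_lit 203) (nat_lit 5) (nat_lit 215) (nat_lit 5) (nat_lit 256) (nat_lit 250) (nat_lit 214)) (XT.nd (nat_lit 94) (nat_lit 0) (nat_lit 84) (XT.lf (nat_lit 0) (nat_lit 1439963812) (nat_lit 1008) (nat_lit 513238709) (nat_lit 1092) (nat_lit 6647362186) (nat_lit 191) (nat_lit 5) (nat_lit 203) (nat_lit 5) (nat_lit 204) (nat_lit 5) (nat_lit 257) (nat_lit 250) (nat_lit 213)) (XT.lf (nat_lit 0) (nat_lit 3624420277) (nat_lit 1008) (nat_lit 2378072142) (nat_lit 1092) (nat_lit 2774467714) (nat_lit 192) (nat_lit 5) (nat_lit 204) (nat_lit 5) (nat_lit 205) (nat_lit 5) (nat_lit 258) (nat_lit 250) (nat_lit 212)))) (XT.nd (nat_lit 94) (nat_lit 2100) (nat_lit 0) (XT.lf (nat_lit 84) (nat_lit 4718122348) (nat_lit 0) (nat_lit 1187410121) (nat_lit 1092) (nat_lit 3057082708) (nat_lit 193) (nat_lit 5) (nat_lit 192) (nat_lit 5) (nat_lit 205) (nat_lit 5) (nat_lit 259) (nat_lit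 250) (nat_lit 211)) (XT.nd (nat_lit 94) (nat_lit 1176) (nat_lit 0) (XT.lf (nat_lit 0) (nat_lit 3020951500) (nat_lit 1008) (nat_lit 5295010823) (nat_lit 1092) (nat_lit 841056479) (nat_lit 181) (nat_lit 5) (nat_lit 193) (nat_lit 5) (nat_lit 194) (nat_lit 5) (nat_lit 260) (nat_lit 250) (nat_lit 210)) (XT.lf (nat_lit 0) (nat_lit 1317799987) (nat_lit 1092) (nat_lit 126445368) (nat_lit 1176) (nat_lit 7916592133) (nat_lit 167) (nat_lit 5) (nat_lit 180) (nat_lit 5) (nat_lit 181) (nat_lit 5) (nat_lit 261) (nat_lit 250) (nat_lit 209)))))) (XT.nd (nat_lit 470) (nat_lit 2604) (nat_lit 0) (XT.nd (nat_lit 188) (nat_lit 1932) (nat_lit 0) (XT.nd (nat_lit 94) (nat_lit 1176) (nat_lit 0) (XT.lf (nat_lit 0) (nat_lit 3872839535) (nat_lit 1176) (nat_lit 424110695) (nat_lit 84) (nat_lit 5275835697) (nat_lit 167) (nat_lit 5) (nat_lit 181) (nat_lit 5) (nat_lit 168) (nat_lit 5) (nat_lit 262) (nat_lit 250) (nat_lit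 208)) (XT.lf (nat_lit 0) (nat_lit 6443464502) (nat_lit 1260) (nat_lit 2132963530) (nat_lit 84) (nat_lit 1218182719) (nat_lit 153) (nat_lit 5) (nat_lit 168) (nat_lit 5) (nat_lit 154) (nat_lit 5) (nat_lit 263) (nat_lit 250) (nat_lit 207))) (XT.nd (nat_lit 94) (nat_lit 1260) (nat_lit 0) (XT.lf (nat_lit 0) (nat_lit 6150561263) (nat_lit 672) (nat_lit 3038816853) (nat_lit 756) (nat_lit 836512192) (nat_lit 145) (nat_lit 5) (nat_lit 153) (nat_lit 5) (nat_lit 154) (nat_lit 5) (nat_lit 264) (nat_lit 250) (nat_lit 206)) (XT.nd (nat_lit 94) (nat_lit 588) (nat_lit 0) (XT.lf (nat_lit 0) (nat_lit 1797445602) (nat_lit 672) (nat_lit 5655848193) (nat_lit 84) (nat_lit 2813529329) (nat_lit 137) (nat_lit 5) (nat_lit 145) (nat_lit 5) (nat_lit 138) (nat_lit 5) (nat_lit 265) (nat_lit 250) (nat_lit 205)) (XT.lf (nat_lit 0) (nat_lit 3047242663) (nat_lit 588) (nat_lit 1540013937) (nat_lit 672) (nat_lit 5930660967) (nat_lit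 130) (nat_lit 5) (nat_lit 137) (nat_lit 5) (nat_lit 138) (nat_lit 5) (nat_lit 266) (nat_lit 250) (nat_lit 204))))) (XT.nd (nat_lit 282) (nat_lit 1512) (nat_lit 0) (XT.nd (nat_lit 94) (nat_lit 588) (nat_lit 0) (XT.lf (nat_lit 0) (nat_lit 1449810721) (nat_lit 504) (nat_lit 6133669325) (nat_lit 588) (nat_lit 3195744420) (nat_lit 124) (nat_lit 5) (nat_lit 130) (nat_lit 5) (nat_lit 131) (nat_lit 5) (nat_lit 267) (nat_lit 250) (nat_lit 203)) (XT.nd (nat_lit 94) (nat_lit 588) (nat_lit 0) (XT.lf (nat_lit 0) (nat_lit 10771066684) (nat_lit 588) (nat_lit 146291225) (nat_lit 84) (nat_lit 134784480) (nat_lit 124) (nat_lit 5) (nat_lit 131) (nat_lit 5) (nat_lit 125) (nat_lit 5) (nat_lit 268) (nat_lit 250) (nat_lit 202)) (XT.lf (nat_lit 0) (nat_lit 2831936464) (nat_lit 588) (nat_lit 1796937841) (nat_lit 84) (nat_lit 6704701011) (nat_lit 117) (nat_lit 5) (nat_lit 124) (nat_lit 5) (nat_lit 118) (nat_lit 5)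 (nat_lit 269) (nat_lit 250) (nat_lit 201)))) (XT.nd (nat_lit 94) (nat_lit 1008) (nat_lit 0) (XT.lf (nat_lit 0) (nat_lit 6147431198) (nat_lit 588) (nat_lit 3461064799) (nat_lit 84) (nat_lit 2018595467) (nat_lit 111) (nat_lit 5) (nat_lit 118) (nat_lit 5) (nat_lit 112) (nat_lit 5) (nat_lit 270) (nat_lit 250) (nat_lit 200)) (XT.nd (nat_lit 94) (nat_lit 504) (nat_lit 0) (XT.lf (nat_lit 0) (nat_lit 6764347844) (nat_lit 504) (nat_lit 2955233088) (nat_lit 588) (nat_lit 2212521678) (nat_lit 105) (nat_lit 5) (nat_lit 111) (nat_lit 5) (nat_lit 112) (nat_lit 5) (nat_lit 271) (nat_lit 250) (nat_lit 199)) (XT.lf (nat_lit 0) (nat_lit 1279259849) (nat_lit 504) (nat_lit 6924889562) (nat_lit 84) (nat_lit 4044628329) (nat_lit 99) (nat_lit 5) (nat_lit 105) (nat_lit 5) (nat_lit 100) (nat_lit 5) (nat_lit 272) (nat_lit 250) (nat_lit 198))))))))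
noncomputable def xc20 : XT := (XT.nd (nat_lit 44180) (nat_lit 0) (nat_lit 336) (XT.nd (nat_lit 43146) (nat_lit 0) (nat_lit 10416) (XT.nd (nat_lit 470) (nat_lit 1932) (nat_lit 0) (XT.nd (nat_lit 188) (nat_lit 840) (nat_lit 0) (XT.nd (nat_lit 94) (nat_lit 420) (nat_lit 0) (XT.lf (nat_lit 0) (nat_lit 3842202485) (nat_lit 420) (nat_lit 1133652512) (nat_lit 504) (nat_lit 7601624150) (nat_lit 94) (nat_lit 5) (nat_lit 99) (nat_lit 5) (nat_lit 100) (nat_lit 5) (nat_lit 273) (nat_lit 250) (nat_lit 197)) (XT.lf (nat_lit 0) (nat_lit 2307301840) (nat_lit 420) (nat_lit 6674364569) (nat_lit 504) (nat_lit 3936595689) (nat_lit 89) (nat_lit 5) (nat_lit 94) (nat_lit 5) (nat_lit 95) (nat_lit 5) (nat_lit 274) (nat_lit 250) (nat_lit 196))) (XT.nd (nat_lit 94) (nat_lit 420) (nat_lit 0) (XT.lf (nat_lit 0) (nat_lit 767305613) (nat_lit 420) (nat_lit 12501989629) (nat_lit 504) (nat_lit 3935514) (nat_lit 84) (nat_lit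 5) (nat_lit 89) (nat_lit 5) (nat_lit 90) (nat_lit 5) (nat_lit 275) (nat_lit 250) (nat_lit 195)) (XT.nd (nat_lit 94) (nat_lit 336) (nat_lit 0) (XT.lf (nat_lit 0) (nat_lit 4186008586) (nat_lit 504) (nat_lit 863955297) (nat_lit 84) (nat_lit 8588978513) (nat_lit 83) (nat_lit 5) (nat_lit 89) (nat_lit 5) (nat_lit 84) (nat_lit 5) (nat_lit 276) (nat_lit 250) (nat_lit 194)) (XT.lf (nat_lit 0) (nat_lit 8696438645) (nat_lit 420) (nat_lit 2496893375) (nat_lit 84) (nat_lit 2825718099) (nat_lit 79) (nat_lit 5) (nat_lit 84) (nat_lit 5) (nat_lit 80) (nat_lit 5) (nat_lit 277) (nat_lit 250) (nat_lit 193))))) (XT.nd (nat_lit 188) (nat_lit 1092) (nat_lit 0) (XT.nd (nat_lit 94) (nat_lit 420) (nat_lit 0) (XT.lf (nat_lit 0) (nat_lit 10237360437) (nat_lit 420) (nat_lit 3330219627) (nat_lit 504) (nat_lit 845851520) (nat_lit 74) (nat_lit 5) (nat_lit 79) (nat_lit 5) (nat_lit 80) (nat_lit 5) (nat_lit 278) (nat_lit 250)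 (nat_lit 192)) (XT.lf (nat_lit 0) (nat_lit 3906445595) (nat_lit 420) (nat_lit 5943612733) (nat_lit 84) (nat_lit 4971101942) (nat_lit 69) (nat_lit 5) (nat_lit 74) (nat_lit 5) (nat_lit 70) (nat_lit 5) (nat_lit 279) (nat_lit 250) (nat_lit 191))) (XT.nd (nat_lit 94) (nat_lit 756) (nat_lit 0) (XT.lf (nat_lit 0) (nat_lit 7493007378) (nat_lit 336) (nat_lit 1510192533) (nat_lit 420) (nat_lit 6241284813) (nat_lit 65) (nat_lit 5) (nat_lit 69) (nat_lit 5) (nat_lit 70) (nat_lit 5) (nat_lit 280) (nat_lit 250) (nat_lit 190)) (XT.nd (nat_lit 94) (nat_lit 420) (nat_lit 0) (XT.lf (nat_lit 0) (nat_lit 6050199499) (nat_lit 336) (nat_lit 8479947911) (nat_lit 420) (nat_lit 1152690549) (nat_lit 61) (nat_lit 5) (nat_lit 65) (nat_lit 5) (nat_lit 66) (nat_lit 5) (nat_lit 281) (nat_lit 250) (nat_lit 189)) (XT.lf (nat_lit 0) (nat_lit 4217768139) (nat_lit 420) (nat_lit 11576772025) (nat_lit 84) (nat_lit 342648904) (nat_lit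 56) (nat_lit 5) (nat_lit 61) (nat_lit 5) (nat_lit 57) (nat_lit 5) (nat_lit 282) (nat_lit 250) (nat_lit 188)))))) (XT.nd (nat_lit 470) (nat_lit 1680) (nat_lit 0) (XT.nd (nat_lit 188) (nat_lit 0) (nat_lit 84) (XT.nd (nat_lit 94) (nat_lit 924) (nat_lit 0) (XT.lf (nat_lit 0) (nat_lit 3530487058) (nat_lit 924) (nat_lit 194177513) (nat_lit 924) (nat_lit 194177513) (nat_lit 211) (nat_lit 3) (nat_lit 222) (nat_lit 3) (nat_lit 222) (nat_lit 5) (nat_lit 251) (nat_lit 251) (nat_lit 218)) (XT.lf (nat_lit 0) (nat_lit 1090709787) (nat_lit 924) (nat_lit 2659533339) (nat_lit 1008) (nat_lit 4218286107) (nat_lit 200) (nat_lit 5) (nat_lit 211) (nat_lit 3) (nat_lit 212) (nat_lit 5) (nat_lit 252) (nat_lit 251) (nat_lit 217))) (XT.nd (nat_lit 94) (nat_lit 0) (nat_lit 0) (XT.lf (nat_lit 0) (nat_lit 2959492740) (nat_lit 924) (nat_lit 4916006933) (nat_lit 1008) (nat_lit 232671895) (nat_lit 201) (nat_lit 5) (nat_lit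 212) (nat_lit 5) (nat_lit 213) (nat_lit 5) (nat_lit 253) (nat_lit 251) (nat_lit 216)) (XT.nd (nat_lit 94) (nat_lit 0) (nat_lit 84) (XT.lf (nat_lit 84) (nat_lit 1061213779) (nat_lit 0) (nat_lit 3837349528) (nat_lit 1008) (nat_lit 3357043016) (nat_lit 202) (nat_lit 5) (nat_lit 201) (nat_lit 5) (nat_lit 213) (nat_lit 5) (nat_lit 254) (nat_lit 251) (nat_lit 215)) (XT.lf (nat_lit 0) (nat_lit 6892584763) (nat_lit 924) (nat_lit 1025133320) (nat_lit 1008) (nat_lit 494164827) (nat_lit 202) (nat_lit 5) (nat_lit 213) (nat_lit 5) (nat_lit 214) (nat_lit 5) (nat_lit 255) (nat_lit 251) (nat_lit 214))))) (XT.nd (nat_lit 282) (nat_lit 840) (nat_lit 0) (XT.nd (nat_lit 94) (nat_lit 0) (nat_lit 84) (XT.lf (nat_lit 0) (nat_lit 405917600) (nat_lit 1008) (nat_lit 3114189983) (nat_lit 1092) (nat_lit 5055534654) (nat_lit 190) (nat_lit 5) (nat_lit 202) (nat_lit 5) (nat_lit 203) (nat_lit 5) (nat_lit 256) (nat_lit 251)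 (nat_lit 213)) (XT.nd (nat_lit 94) (nat_lit 0) (nat_lit 0) (XT.lf (nat_lit 0) (nat_lit 2358553830) (nat_lit 1008) (nat_lit 5215284963) (nat_lit 1092) (nat_lit 1174272034) (nat_lit 191) (nat_lit 5) (nat_lit 203) (nat_lit 5) (nat_lit 204) (nat_lit 5) (nat_lit 257) (nat_lit 251) (nat_lit 212)) (XT.lf (nat_lit 84) (nat_lit 1586581198) (nat_lit 0) (nat_lit 2825103677) (nat_lit 1092) (nat_lit 4517417768) (nat_lit 192) (nat_lit 5) (nat_lit 191) (nat_lit 5) (nat_lit 204) (nat_lit 5) (nat_lit 258) (nat_lit 251) (nat_lit 211)))) (XT.nd (nat_lit 94) (nat_lit 1008) (nat_lit 0) (XT.lf (nat_lit 0) (nat_lit 6564984941) (nat_lit 1008) (nat_lit 355789362) (nat_lit 1092) (nat_lit 2198456809) (nat_lit 192) (nat_lit 5) (nat_lit 204) (nat_lit 5) (nat_lit 205) (nat_lit 5) (nat_lit 259) (nat_lit 251) (nat_lit 210)) (XT.nd (nat_lit 94) (nat_lit 1008) (nat_lit 0) (XT.lf (nat_lit 84) (nat_lit 7040564284) (nat_lit 0)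 (nat_lit 1811439638) (nat_lit 1092) (nat_lit 465950196) (nat_lit 193) (nat_lit 5) (nat_lit 192) (nat_lit 5) (nat_lit 205) (nat_lit 5) (nat_lit 260) (nat_lit 251) (nat_lit 209)) (XT.lf (nat_lit 0) (nat_lit 1708923609) (nat_lit 1092) (nat_lit 4243524981) (nat_lit 84) (nat_lit 3572745227) (nat_lit 180) (nat_lit 5) (nat_lit 193) (nat_lit 5) (nat_lit 181) (nat_lit 5) (nat_lit 261) (nat_lit 251) (nat_lit 208))))))) (XT.nd (nat_lit 1034) (nat_lit 3780) (nat_lit 0) (XT.nd (nat_lit 470) (nat_lit 2688) (nat_lit 0) (XT.nd (nat_lit 188) (nat_lit 1344) (nat_lit 0) (XT.nd (nat_lit 94) (nat_lit 1176) (nat_lit 0) (XT.lf (nat_lit 0) (nat_lit 3517312084) (nat_lit 1092) (nat_lit 472451105) (nat_lit 1176) (nat_lit 5752550478) (nat_lit 167) (nat_lit 5) (nat_lit 180) (nat_lit 5) (nat_lit 181) (nat_lit 5) (nat_lit 262) (nat_lit 251) (nat_lit 207)) (XT.lf (nat_lit 0) (nat_lit 1711561321) (nat_lit 1176) (nat_lit 4725915199)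 (nat_lit 1260) (nat_lit 3530963879) (nat_lit 153) (nat_lit 5) (nat_lit 167) (nat_lit 5) (nat_lit 168) (nat_lit 5) (nat_lit 263) (nat_lit 251) (nat_lit 206))) (XT.nd (nat_lit 94) (nat_lit 1344) (nat_lit 0) (XT.lf (nat_lit 0) (nat_lit 9026346986) (nat_lit 1260) (nat_lit 94184344) (nat_lit 84) (nat_lit 1084685135) (nat_lit 153) (nat_lit 5) (nat_lit 168) (nat_lit 5) (nat_lit 154) (nat_lit 5) (nat_lit 264) (nat_lit 251) (nat_lit 205)) (XT.nd (nat_lit 94) (nat_lit 588) (nat_lit 0) (XT.lf (nat_lit 0) (nat_lit 1343026802) (nat_lit 756) (nat_lit 1917566044) (nat_lit 84) (nat_lit 7189883794) (nat_lit 144) (nat_lit 5) (nat_lit 153) (nat_lit 5) (nat_lit 145) (nat_lit 5) (nat_lit 265) (nat_lit 251) (nat_lit 204)) (XT.lf (nat_lit 0) (nat_lit 4006825049) (nat_lit 672) (nat_lit 3777001553) (nat_lit 84) (nat_lit 2922154927) (nat_lit 137) (nat_lit 5) (nat_lit 145) (nat_lit 5) (nat_lit 138) (nat_lit 5) (nat_lit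 266) (nat_lit 251) (nat_lit 203))))) (XT.nd (nat_lit 282) (nat_lit 1008) (nat_lit 0) (XT.nd (nat_lit 94) (nat_lit 1092) (nat_lit 0) (XT.lf (nat_lit 0) (nat_lit 5306071253) (nat_lit 588) (nat_lit 1552596996) (nat_lit 672) (nat_lit 4113673487) (nat_lit 130) (nat_lit 5) (nat_lit 137) (nat_lit 5) (nat_lit 138) (nat_lit 5) (nat_lit 267) (nat_lit 251) (nat_lit 202)) (XT.nd (nat_lit 94) (nat_lit 588) (nat_lit 0) (XT.lf (nat_lit 0) (nat_lit 3643951388) (nat_lit 504) (nat_lit 6287834375) (nat_lit 588) (nat_lit 1317480316) (nat_lit 124) (nat_lit 5) (nat_lit 130) (nat_lit 5) (nat_lit 131) (nat_lit 5) (nat_lit 268) (nat_lit 251) (nat_lit 201)) (XT.lf (nat_lit 0) (nat_lit 1632458855) (nat_lit 588) (nat_lit 9581062473) (nat_lit 84) (nat_lit 324111896) (nat_lit 117) (nat_lit 5) (nat_lit 124) (nat_lit 5) (nat_lit 118) (nat_lit 5) (nat_lit 269) (nat_lit 251) (nat_lit 200)))) (XT.nd (nat_lit 94) (nat_lit 504)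 (nat_lit 0) (XT.lf (nat_lit 0) (nat_lit 191470286) (nat_lit 504) (nat_lit 4615308679) (nat_lit 588) (nat_lit 7029311519) (nat_lit 111) (nat_lit 5) (nat_lit 117) (nat_lit 5) (nat_lit 118) (nat_lit 5) (nat_lit 270) (nat_lit 251) (nat_lit 199)) (XT.nd (nat_lit 94) (nat_lit 504) (nat_lit 0) (XT.lf (nat_lit 0) (nat_lit 8224073469) (nat_lit 588) (nat_lit 1554148977) (nat_lit 84) (nat_lit 2368299117) (nat_lit 111) (nat_lit 5) (nat_lit 118) (nat_lit 5) (nat_lit 112) (nat_lit 5) (nat_lit 271) (nat_lit 251) (nat_lit 198)) (XT.lf (nat_lit 0) (nat_lit 9129446209) (nat_lit 504) (nat_lit 2783717305) (nat_lit 588) (nat_lit 555778102) (nat_lit 105) (nat_lit 5) (nat_lit 111) (nat_lit 5) (nat_lit 112) (nat_lit 5) (nat_lit 272) (nat_lit 251) (nat_lit 197)))))) (XT.nd (nat_lit 470) (nat_lit 1596) (nat_lit 0) (XT.nd (nat_lit 188) (nat_lit 1260) (nat_lit 0) (XT.nd (nat_lit 94) (nat_lit 420) (nat_lit 0) (XT.lf (nat_lit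 0) (nat_lit 3014572124) (nat_lit 504) (nat_lit 5202436269) (nat_lit 84) (nat_lit 4585711008) (nat_lit 99) (nat_lit 5) (nat_lit 105) (nat_lit 5) (nat_lit 100) (nat_lit 5) (nat_lit 273) (nat_lit 251) (nat_lit 196)) (XT.lf (nat_lit 0) (nat_lit 6050209974) (nat_lit 420) (nat_lit 788660426) (nat_lit 504) (nat_lit 6310984913) (nat_lit 94) (nat_lit 5) (nat_lit 99) (nat_lit 5) (nat_lit 100) (nat_lit 5) (nat_lit 274) (nat_lit 251) (nat_lit 195))) (XT.nd (nat_lit 94) (nat_lit 840) (nat_lit 0) (XT.lf (nat_lit 0) (nat_lit 4437806024) (nat_lit 420) (nat_lit 6557013994) (nat_lit 504) (nat_lit 2514612724) (nat_lit 89) (nat_lit 5) (nat_lit 94) (nat_lit 5) (nat_lit 95) (nat_lit 5) (nat_lit 275) (nat_lit 251) (nat_lit 194)) (XT.nd (nat_lit 94) (nat_lit 336) (nat_lit 0) (XT.lf (nat_lit 0) (nat_lit 1530250313) (nat_lit 504) (nat_lit 11083426022) (nat_lit 84) (nat_lit 1269517458) (nat_lit 83) (nat_lit 5) (nat_lit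 89) (nat_lit 5) (nat_lit 84) (nat_lit 5) (nat_lit 276) (nat_lit 251) (nat_lit 193)) (XT.lf (nat_lit 0) (nat_lit 1067284298) (nat_lit 336) (nat_lit 4801144089) (nat_lit 420) (nat_lit 8400901950) (nat_lit 79) (nat_lit 5) (nat_lit 83) (nat_lit 5) (nat_lit 84) (nat_lit 5) (nat_lit 277) (nat_lit 251) (nat_lit 192))))) (XT.nd (nat_lit 282) (nat_lit 756) (nat_lit 0) (XT.nd (nat_lit 94) (nat_lit 840) (nat_lit 0) (XT.lf (nat_lit 0) (nat_lit 10549514421) (nat_lit 420) (nat_lit 677262107) (nat_lit 84) (nat_lit 3443587212) (nat_lit 79) (nat_lit 5) (nat_lit 84) (nat_lit 5) (nat_lit 80) (nat_lit 5) (nat_lit 278) (nat_lit 251) (nat_lit 191)) (XT.nd (nat_lit 94) (nat_lit 336) (nat_lit 0) (XT.lf (nat_lit 0) (nat_lit 519644654) (nat_lit 504) (nat_lit 2447938815) (nat_lit 84) (nat_lit 12118298272) (nat_lit 73) (nat_lit 5) (nat_lit 79) (nat_lit 5) (nat_lit 74) (nat_lit 5) (nat_lit 279) (nat_lit 251) (nat_lit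 190)) (XT.lf (nat_lit 0) (nat_lit 5450228400) (nat_lit 420) (nat_lit 4321915838) (nat_lit 84) (nat_lit 5742877927) (nat_lit 69) (nat_lit 5) (nat_lit 74) (nat_lit 5) (nat_lit 70) (nat_lit 5) (nat_lit 280) (nat_lit 251) (nat_lit 189)))) (XT.nd (nat_lit 94) (nat_lit 420) (nat_lit 0) (XT.lf (nat_lit 0) (nat_lit 9737558809) (nat_lit 336) (nat_lit 1020883935) (nat_lit 420) (nat_lit 5202588317) (nat_lit 65) (nat_lit 5) (nat_lit 69) (nat_lit 5) (nat_lit 70) (nat_lit 5) (nat_lit 281) (nat_lit 251) (nat_lit 188)) (XT.nd (nat_lit 42394) (nat_lit 0) (nat_lit 11760) (XT.lf (nat_lit 0) (nat_lit 101420263) (nat_lit 420) (nat_lit 8210434513) (nat_lit 84) (nat_lit 8110646505) (nat_lit 60) (nat_lit 5) (nat_lit 65) (nat_lit 5) (nat_lit 61) (nat_lit 5) (nat_lit 282) (nat_lit 251) (nat_lit 187)) (XT.lf (nat_lit 0) (nat_lit 698989913) (nat_lit 0) (nat_lit 698989913) (nat_lit 924) (nat_lit 2654085650) (nat_lit 200)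 (nat_lit 5) (nat_lit 200) (nat_lit 3) (nat_lit 211) (nat_lit 3) (nat_lit 252) (nat_lit 252) (nat_lit 216))))))))
noncomputable def xc21 : XT := (XT.nd (nat_lit 2068) (nat_lit 2856) (nat_lit 0) (XT.nd (nat_lit 1034) (nat_lit 5712) (nat_lit 0) (XT.nd (nat_lit 470) (nat_lit 1848) (nat_lit 0) (XT.nd (nat_lit 188) (nat_lit 924) (nat_lit 0) (XT.nd (nat_lit 94) (nat_lit 0) (nat_lit 0) (XT.lf (nat_lit 0) (nat_lit 4556806505) (nat_lit 924) (nat_lit 937986998) (nat_lit 1008) (nat_lit 2752757548) (nat_lit 200) (nat_lit 5) (nat_lit 211) (nat_lit 3) (nat_lit 212) (nat_lit 5) (nat_lit 253) (nat_lit 252) (nat_lit 215)) (XT.lf (nat_lit 84) (nat_lit 5161844684) (nat_lit 0) (nat_lit 1212079356) (nat_lit 1008) (nat_lit 2025330124) (nat_lit 201) (nat_lit 5) (nat_lit 200) (nat_lit 5) (nat_lit 212) (nat_lit 5) (nat_lit 254) (nat_lit 252) (nat_lit 214))) (XT.nd (nat_lit 94) (nat_lit 1008) (nat_lit 0) (XT.lf (nat_lit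 84) (nat_lit 3002715372) (nat_lit 0) (nat_lit 5259866433) (nat_lit 1008) (nat_lit 296636673) (nat_lit 202) (nat_lit 5) (nat_lit 201) (nat_lit 5) (nat_lit 213) (nat_lit 5) (nat_lit 255) (nat_lit 252) (nat_lit 213)) (XT.nd (nat_lit 94) (nat_lit 0) (nat_lit 84) (XT.lf (nat_lit 84) (nat_lit 834518412) (nat_lit 0) (nat_lit 614523703) (nat_lit 1092) (nat_lit 7278772373) (nat_lit 190) (nat_lit 5) (nat_lit 189) (nat_lit 5) (nat_lit 202) (nat_lit 5) (nat_lit 256) (nat_lit 252) (nat_lit 212)) (XT.lf (nat_lit 0) (nat_lit 3296403657) (nat_lit 1008) (nat_lit 1336657571) (nat_lit 1092) (nat_lit 4270906465) (nat_lit 190) (nat_lit 5) (nat_lit 202) (nat_lit 5) (nat_lit 203) (nat_lit 5) (nat_lit 257) (nat_lit 252) (nat_lit 211))))) (XT.nd (nat_lit 282) (nat_lit 2016) (nat_lit 0) (XT.nd (nat_lit 94) (nat_lit 0) (nat_lit 0) (XT.lf (nat_lit 0) (nat_lit 5221286232) (nat_lit 1008) (nat_lit 3486042292) (nat_lit 1092)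 (nat_lit 382119679) (nat_lit 191) (nat_lit 5) (nat_lit 203) (nat_lit 5) (nat_lit 204) (nat_lit 5) (nat_lit 258) (nat_lit 252) (nat_lit 210)) (XT.nd (nat_lit 94) (nat_lit 0) (nat_lit 84) (XT.lf (nat_lit 84) (nat_lit 3605125236) (nat_lit 0) (nat_lit 3662850631) (nat_lit 1092) (nat_lit 2015332171) (nat_lit 192) (nat_lit 5) (nat_lit 191) (nat_lit 5) (nat_lit 204) (nat_lit 5) (nat_lit 259) (nat_lit 252) (nat_lit 209)) (XT.lf (nat_lit 84) (nat_lit 1604930988) (nat_lit 0) (nat_lit 7808991613) (nat_lit 1092) (nat_lit 73045972) (nat_lit 193) (nat_lit 5) (nat_lit 192) (nat_lit 5) (nat_lit 205) (nat_lit 5) (nat_lit 260) (nat_lit 252) (nat_lit 208)))) (XT.nd (nat_lit 94) (nat_lit 1008) (nat_lit 0) (XT.lf (nat_lit 0) (nat_lit 1954288931) (nat_lit 1092) (nat_lit 436825083) (nat_lit 1176) (nat_lit 7307793088) (nat_lit 179) (nat_lit 5) (nat_lit 192) (nat_lit 5) (nat_lit 193) (nat_lit 5) (nat_lit 261) (nat_lit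 252) (nat_lit 207)) (XT.nd (nat_lit 94) (nat_lit 1092) (nat_lit 0) (XT.lf (nat_lit 0) (nat_lit 4127257817) (nat_lit 1092) (nat_lit 2469754789) (nat_lit 84) (nat_lit 3322789821) (nat_lit 180) (nat_lit 5) (nat_lit 193) (nat_lit 5) (nat_lit 181) (nat_lit 5) (nat_lit 262) (nat_lit 252) (nat_lit 206)) (XT.lf (nat_lit 0) (nat_lit 5628435827) (nat_lit 1092) (nat_lit 804176580) (nat_lit 1176) (nat_lit 3718299308) (nat_lit 167) (nat_lit 5) (nat_lit 180) (nat_lit 5) (nat_lit 181) (nat_lit 5) (nat_lit 263) (nat_lit 252) (nat_lit 205)))))) (XT.nd (nat_lit 470) (nat_lit 2604) (nat_lit 0) (XT.nd (nat_lit 188) (nat_lit 1176) (nat_lit 0) (XT.nd (nat_lit 94) (nat_lit 756) (nat_lit 0) (XT.lf (nat_lit 0) (nat_lit 3762861866) (nat_lit 1176) (nat_lit 5151655739) (nat_lit 1260) (nat_lit 1476913960) (nat_lit 153) (nat_lit 5) (nat_lit 167) (nat_lit 5) (nat_lit 168) (nat_lit 5) (nat_lit 264) (nat_lit 252) (nat_lit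 204)) (XT.lf (nat_lit 0) (nat_lit 885731134) (nat_lit 756) (nat_lit 8763144649) (nat_lit 84) (nat_lit 993742506) (nat_lit 144) (nat_lit 5) (nat_lit 153) (nat_lit 5) (nat_lit 145) (nat_lit 5) (nat_lit 265) (nat_lit 252) (nat_lit 203))) (XT.nd (nat_lit 94) (nat_lit 1176) (nat_lit 0) (XT.lf (nat_lit 0) (nat_lit 3406957219) (nat_lit 756) (nat_lit 70820417) (nat_lit 84) (nat_lit 7425335569) (nat_lit 144) (nat_lit 5) (nat_lit 153) (nat_lit 5) (nat_lit 145) (nat_lit 5) (nat_lit 266) (nat_lit 252) (nat_lit 202)) (XT.nd (nat_lit 94) (nat_lit 588) (nat_lit 0) (XT.lf (nat_lit 0) (nat_lit 6129621781) (nat_lit 672) (nat_lit 2005181291) (nat_lit 84) (nat_lit 3039191592) (nat_lit 137) (nat_lit 5) (nat_lit 145) (nat_lit 5) (nat_lit 138) (nat_lit 5) (nat_lit 267) (nat_lit 252) (nat_lit 201)) (XT.lf (nat_lit 0) (nat_lit 7482001987) (nat_lit 588) (nat_lit 1571798150) (nat_lit 672) (nat_lit 2402331740) (nat_lit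 130) (nat_lit 5) (nat_lit 137) (nat_lit 5) (nat_lit 138) (nat_lit 5) (nat_lit 268) (nat_lit 252) (nat_lit 200))))) (XT.nd (nat_lit 282) (nat_lit 1008) (nat_lit 0) (XT.nd (nat_lit 94) (nat_lit 1008) (nat_lit 0) (XT.lf (nat_lit 0) (nat_lit 454669810) (nat_lit 588) (nat_lit 6003852629) (nat_lit 84) (nat_lit 5290513402) (nat_lit 123) (nat_lit 5) (nat_lit 130) (nat_lit 5) (nat_lit 124) (nat_lit 5) (nat_lit 269) (nat_lit 252) (nat_lit 199)) (XT.nd (nat_lit 94) (nat_lit 504) (nat_lit 0) (XT.lf (nat_lit 0) (nat_lit 3457998262) (nat_lit 588) (nat_lit 8084959816) (nat_lit 84) (nat_lit 510519732) (nat_lit 117) (nat_lit 5) (nat_lit 124) (nat_lit 5) (nat_lit 118) (nat_lit 5) (nat_lit 270) (nat_lit 252) (nat_lit 198)) (XT.lf (nat_lit 0) (nat_lit 2125786694) (nat_lit 504) (nat_lit 4603649816) (nat_lit 588) (nat_lit 5639577347) (nat_lit 111) (nat_lit 5) (nat_lit 117) (nat_lit 5) (nat_lit 118) (nat_lit 5)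 (nat_lit 271) (nat_lit 252) (nat_lit 197)))) (XT.nd (nat_lit 94) (nat_lit 504) (nat_lit 0) (XT.lf (nat_lit 0) (nat_lit 260646804) (nat_lit 504) (nat_lit 9982315193) (nat_lit 588) (nat_lit 2454616673) (nat_lit 105) (nat_lit 5) (nat_lit 111) (nat_lit 5) (nat_lit 112) (nat_lit 5) (nat_lit 272) (nat_lit 252) (nat_lit 196)) (XT.nd (nat_lit 94) (nat_lit 420) (nat_lit 0) (XT.lf (nat_lit 0) (nat_lit 996373190) (nat_lit 588) (nat_lit 1625179054) (nat_lit 84) (nat_lit 10416229242) (nat_lit 104) (nat_lit 5) (nat_lit 111) (nat_lit 5) (nat_lit 105) (nat_lit 5) (nat_lit 273) (nat_lit 252) (nat_lit 195)) (XT.lf (nat_lit 0) (nat_lit 4681263799) (nat_lit 504) (nat_lit 3586188223) (nat_lit 84) (nat_lit 5122344643) (nat_lit 99) (nat_lit 5) (nat_lit 105) (nat_lit 5) (nat_lit 100) (nat_lit 5) (nat_lit 274) (nat_lit 252) (nat_lit 194))))))) (XT.nd (nat_lit 43428) (nat_lit 0) (nat_lit 6636) (XT.nd (nat_lit 470)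 (nat_lit 756) (nat_lit 0) (XT.nd (nat_lit 188) (nat_lit 1260) (nat_lit 0) (XT.nd (nat_lit 94) (nat_lit 420) (nat_lit 0) (XT.lf (nat_lit 0) (nat_lit 8181198807) (nat_lit 420) (nat_lit 463762642) (nat_lit 504) (nat_lit 5111141464) (nat_lit 94) (nat_lit 5) (nat_lit 99) (nat_lit 5) (nat_lit 100) (nat_lit 5) (nat_lit 275) (nat_lit 252) (nat_lit 193)) (XT.lf (nat_lit 0) (nat_lit 6487486885) (nat_lit 420) (nat_lit 6475731992) (nat_lit 504) (nat_lit 1172032477) (nat_lit 89) (nat_lit 5) (nat_lit 94) (nat_lit 5) (nat_lit 95) (nat_lit 5) (nat_lit 276) (nat_lit 252) (nat_lit 192))) (XT.nd (nat_lit 94) (nat_lit 756) (nat_lit 0) (XT.lf (nat_lit 0) (nat_lit 2998408096) (nat_lit 504) (nat_lit 9780228311) (nat_lit 84) (nat_lit 1750009491) (nat_lit 83) (nat_lit 5) (nat_lit 89) (nat_lit 5) (nat_lit 84) (nat_lit 5) (nat_lit 277) (nat_lit 252) (nat_lit 191)) (XT.nd (nat_lit 94) (nat_lit 420) (nat_lit 0) (XT.lf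 (nat_lit 0) (nat_lit 2930610968) (nat_lit 336) (nat_lit 4576782156) (nat_lit 420) (nat_lit 7428309713) (nat_lit 79) (nat_lit 5) (nat_lit 83) (nat_lit 5) (nat_lit 84) (nat_lit 5) (nat_lit 278) (nat_lit 252) (nat_lit 190)) (XT.lf (nat_lit 0) (nat_lit 1076991788) (nat_lit 420) (nat_lit 11298396400) (nat_lit 504) (nat_lit 2983049807) (nat_lit 74) (nat_lit 5) (nat_lit 79) (nat_lit 5) (nat_lit 80) (nat_lit 5) (nat_lit 279) (nat_lit 252) (nat_lit 189))))) (XT.nd (nat_lit 42676) (nat_lit 0) (nat_lit 10332) (XT.nd (nat_lit 94) (nat_lit 672) (nat_lit 0) (XT.lf (nat_lit 0) (nat_lit 1804267003) (nat_lit 504) (nat_lit 822453620) (nat_lit 84) (nat_lit 13169402802) (nat_lit 73) (nat_lit 5) (nat_lit 79) (nat_lit 5) (nat_lit 74) (nat_lit 5) (nat_lit 280) (nat_lit 252) (nat_lit 188)) (XT.nd (nat_lit 94) (nat_lit 336) (nat_lit 0) (XT.lf (nat_lit 0) (nat_lit 6945833267) (nat_lit 420) (nat_lit 2797533144) (nat_lit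 84) (nat_lit 6504598592) (nat_lit 69) (nat_lit 5) (nat_lit 74) (nat_lit 5) (nat_lit 70) (nat_lit 5) (nat_lit 281) (nat_lit 252) (nat_lit 187)) (XT.lf (nat_lit 0) (nat_lit 11920492135) (nat_lit 336) (nat_lit 559621352) (nat_lit 420) (nat_lit 4237537926) (nat_lit 65) (nat_lit 5) (nat_lit 69) (nat_lit 5) (nat_lit 70) (nat_lit 5) (nat_lit 282) (nat_lit 252) (nat_lit 186)))) (XT.nd (nat_lit 94) (nat_lit 1008) (nat_lit 0) (XT.lf (nat_lit 0) (nat_lit 1550766497) (nat_lit 0) (nat_lit 1550766497) (nat_lit 924) (nat_lit 1095957860) (nat_lit 200) (nat_lit 5) (nat_lit 200) (nat_lit 3) (nat_lit 211) (nat_lit 3) (nat_lit 253) (nat_lit 253) (nat_lit 214)) (XT.nd (nat_lit 94) (nat_lit 1008) (nat_lit 0) (XT.lf (nat_lit 84) (nat_lit 713396435) (nat_lit 0) (nat_lit 7173585768) (nat_lit 1008) (nat_lit 664364663) (nat_lit 201) (nat_lit 5) (nat_lit 200) (nat_lit 5) (nat_lit 212) (nat_lit 5) (nat_lit 254) (nat_lit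 253) (nat_lit 213)) (XT.lf (nat_lit 0) (nat_lit 921117382) (nat_lit 1008) (nat_lit 1666822056) (nat_lit 1092) (nat_lit 6127124429) (nat_lit 188) (nat_lit 5) (nat_lit 200) (nat_lit 5) (nat_lit 201) (nat_lit 5) (nat_lit 255) (nat_lit 253) (nat_lit 212)))))) (XT.nd (nat_lit 470) (nat_lit 2856) (nat_lit 0) (XT.nd (nat_lit 188) (nat_lit 924) (nat_lit 0) (XT.nd (nat_lit 94) (nat_lit 0) (nat_lit 0) (XT.lf (nat_lit 0) (nat_lit 2557326308) (nat_lit 1008) (nat_lit 4051593138) (nat_lit 1092) (nat_lit 2278220784) (nat_lit 189) (nat_lit 5) (nat_lit 201) (nat_lit 5) (nat_lit 202) (nat_lit 5) (nat_lit 256) (nat_lit 253) (nat_lit 211)) (XT.lf (nat_lit 84) (nat_lit 2610095966) (nat_lit 0) (nat_lit 1656176606) (nat_lit 1092) (nat_lit 4801865398) (nat_lit 190) (nat_lit 5) (nat_lit 189) (nat_lit 5) (nat_lit 202) (nat_lit 5) (nat_lit 257) (nat_lit 253) (nat_lit 210))) (XT.nd (nat_lit 94) (nat_lit 1008) (nat_lit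 0) (XT.lf (nat_lit 84) (nat_lit 358137460) (nat_lit 0) (nat_lit 5710423900) (nat_lit 1092) (nat_lit 3189347904) (nat_lit 191) (nat_lit 5) (nat_lit 190) (nat_lit 5) (nat_lit 203) (nat_lit 5) (nat_lit 258) (nat_lit 253) (nat_lit 209)) (XT.nd (nat_lit 94) (nat_lit 1008) (nat_lit 0) (XT.lf (nat_lit 84) (nat_lit 7597062297) (nat_lit 0) (nat_lit 379131371) (nat_lit 1092) (nat_lit 1480442437) (nat_lit 191) (nat_lit 5) (nat_lit 190) (nat_lit 5) (nat_lit 203) (nat_lit 5) (nat_lit 259) (nat_lit 253) (nat_lit 208)) (XT.lf (nat_lit 0) (nat_lit 350115377) (nat_lit 1092) (nat_lit 4123485105) (nat_lit 1176) (nat_lit 5190060024) (nat_lit 178) (nat_lit 5) (nat_lit 191) (nat_lit 5) (nat_lit 192) (nat_lit 5) (nat_lit 260) (nat_lit 253) (nat_lit 207))))) (XT.nd (nat_lit 282) (nat_lit 2940) (nat_lit 0) (XT.nd (nat_lit 94) (nat_lit 0) (nat_lit 0) (XT.lf (nat_lit 0) (nat_lit 2241653473) (nat_lit 1092) (nat_lit 6419110623)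 (nat_lit 1176) (nat_lit 1219501373) (nat_lit 179) (nat_lit 5) (nat_lit 192) (nat_lit 5) (nat_lit 193) (nat_lit 5) (nat_lit 261) (nat_lit 253) (nat_lit 206)) (XT.nd (nat_lit 94) (nat_lit 0) (nat_lit 84) (XT.lf (nat_lit 84) (nat_lit 1339490649) (nat_lit 0) (nat_lit 2933735312) (nat_lit 1176) (nat_lit 5832883706) (nat_lit 180) (nat_lit 5) (nat_lit 179) (nat_lit 5) (nat_lit 193) (nat_lit 5) (nat_lit 262) (nat_lit 253) (nat_lit 205)) (XT.lf (nat_lit 0) (nat_lit 6449618919) (nat_lit 1092) (nat_lit 791930564) (nat_lit 84) (nat_lit 3100183128) (nat_lit 180) (nat_lit 5) (nat_lit 193) (nat_lit 5) (nat_lit 181) (nat_lit 5) (nat_lit 263) (nat_lit 253) (nat_lit 204)))) (XT.nd (nat_lit 94) (nat_lit 1932) (nat_lit 0) (XT.lf (nat_lit 0) (nat_lit 7665193798) (nat_lit 1092) (nat_lit 1123843839) (nat_lit 1176) (nat_lit 1798201851) (nat_lit 167) (nat_lit 5) (nat_lit 180) (nat_lit 5) (nat_lit 181) (nat_lit 5)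 (nat_lit 264) (nat_lit 253) (nat_lit 203)) (XT.nd (nat_lit 94) (nat_lit 672) (nat_lit 0) (XT.lf (nat_lit 0) (nat_lit 461745929) (nat_lit 1260) (nat_lit 5113876145) (nat_lit 84) (nat_lit 5266778814) (nat_lit 152) (nat_lit 5) (nat_lit 167) (nat_lit 5) (nat_lit 153) (nat_lit 5) (nat_lit 265) (nat_lit 253) (nat_lit 202)) (XT.lf (nat_lit 0) (nat_lit 2831712049) (nat_lit 756) (nat_lit 7351183854) (nat_lit 84) (nat_lit 925293998) (nat_lit 144) (nat_lit 5) (nat_lit 153) (nat_lit 5) (nat_lit 145) (nat_lit 5) (nat_lit 266) (nat_lit 253) (nat_lit 201))))))))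
noncomputable def xc22 : XT := (XT.nd (nat_lit 44556) (nat_lit 0) (nat_lit 420) (XT.nd (nat_lit 1034) (nat_lit 1596) (nat_lit 0) (XT.nd (nat_lit 470) (nat_lit 2436) (nat_lit 0) (XT.nd (nat_lit 188) (nat_lit 1680) (nat_lit 0) (XT.nd (nat_lit 94) (nat_lit 0) (nat_lit 0) (XT.lf (nat_lit 0) (nat_lit 1726809893) (nat_lit 588) (nat_lit 3680873045) (nat_lit 672) (nat_lit 5976522701) (nat_lit 137) (nat_lit 5) (nat_lit 144) (nat_lit 5) (nat_lit 145) (nat_lit 5) (nat_lit 267) (nat_lit 253) (nat_lit 200)) (XT.lf (nat_lit 0) (nat_lit 8179826662) (nat_lit 672) (nat_lit 327054560) (nat_lit 84) (nat_lit 3164782843) (nat_lit 137) (nat_lit 5) (nat_lit 145) (nat_lit 5) (nat_lit 138) (nat_lit 5) (nat_lit 268) (nat_lit 253) (nat_lit 199))) (XT.nd (nat_lit 94) (nat_lit 1092) (nat_lit 0) (XT.lf (nat_lit 0) (nat_lit 9589097254) (nat_lit 588) (nat_lit 1597391507) (nat_lit 672) (nat_lit 783649758) (nat_lit 130) (nat_lit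 5) (nat_lit 137) (nat_lit 5) (nat_lit 138) (nat_lit 5) (nat_lit 269) (nat_lit 253) (nat_lit 198)) (XT.nd (nat_lit 94) (nat_lit 504) (nat_lit 0) (XT.lf (nat_lit 0) (nat_lit 2116094989) (nat_lit 588) (nat_lit 4520540267) (nat_lit 84) (nat_lit 5642498169) (nat_lit 123) (nat_lit 5) (nat_lit 130) (nat_lit 5) (nat_lit 124) (nat_lit 5) (nat_lit 270) (nat_lit 253) (nat_lit 197)) (XT.lf (nat_lit 0) (nat_lit 5212681816) (nat_lit 588) (nat_lit 6697683289) (nat_lit 84) (nat_lit 690424168) (nat_lit 117) (nat_lit 5) (nat_lit 124) (nat_lit 5) (nat_lit 118) (nat_lit 5) (nat_lit 271) (nat_lit 253) (nat_lit 196))))) (XT.nd (nat_lit 282) (nat_lit 1344) (nat_lit 0) (XT.nd (nat_lit 94) (nat_lit 588) (nat_lit 0) (XT.lf (nat_lit 0) (nat_lit 3977874571) (nat_lit 504) (nat_lit 4613946323) (nat_lit 588) (nat_lit 4342236716) (nat_lit 111) (nat_lit 5) (nat_lit 117) (nat_lit 5) (nat_lit 118) (nat_lit 5) (nat_lit 272)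 (nat_lit 253) (nat_lit 195)) (XT.nd (nat_lit 94) (nat_lit 84) (nat_lit 0) (XT.lf (nat_lit 0) (nat_lit 2024575137) (nat_lit 504) (nat_lit 10205627098) (nat_lit 588) (nat_lit 1050627144) (nat_lit 105) (nat_lit 5) (nat_lit 111) (nat_lit 5) (nat_lit 112) (nat_lit 5) (nat_lit 273) (nat_lit 253) (nat_lit 194)) (XT.lf (nat_lit 0) (nat_lit 2467242407) (nat_lit 588) (nat_lit 5949178) (nat_lit 84) (nat_lit 11166742206) (nat_lit 104) (nat_lit 5) (nat_lit 111) (nat_lit 5) (nat_lit 105) (nat_lit 5) (nat_lit 274) (nat_lit 253) (nat_lit 193)))) (XT.nd (nat_lit 94) (nat_lit 924) (nat_lit 0) (XT.lf (nat_lit 0) (nat_lit 6290350180) (nat_lit 504) (nat_lit 2063574859) (nat_lit 84) (nat_lit 5657235648) (nat_lit 99) (nat_lit 5) (nat_lit 105) (nat_lit 5) (nat_lit 100) (nat_lit 5) (nat_lit 275) (nat_lit 253) (nat_lit 192)) (XT.nd (nat_lit 94) (nat_lit 504) (nat_lit 0) (XT.lf (nat_lit 0) (nat_lit 10248742498) (nat_lit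 420) (nat_lit 156491995) (nat_lit 504) (nat_lit 3992192693) (nat_lit 94) (nat_lit 5) (nat_lit 99) (nat_lit 5) (nat_lit 100) (nat_lit 5) (nat_lit 276) (nat_lit 253) (nat_lit 191)) (XT.lf (nat_lit 0) (nat_lit 98873261) (nat_lit 504) (nat_lit 6328383238) (nat_lit 84) (nat_lit 8369681214) (nat_lit 88) (nat_lit 5) (nat_lit 94) (nat_lit 5) (nat_lit 89) (nat_lit 5) (nat_lit 277) (nat_lit 253) (nat_lit 190)))))) (XT.nd (nat_lit 42958) (nat_lit 0) (nat_lit 9912) (XT.nd (nat_lit 188) (nat_lit 840) (nat_lit 0) (XT.nd (nat_lit 94) (nat_lit 336) (nat_lit 0) (XT.lf (nat_lit 0) (nat_lit 4410591782) (nat_lit 504) (nat_lit 8584551281) (nat_lit 84) (nat_lit 2215755916) (nat_lit 83) (nat_lit 5) (nat_lit 89) (nat_lit 5) (nat_lit 84) (nat_lit 5) (nat_lit 278) (nat_lit 253) (nat_lit 189)) (XT.lf (nat_lit 0) (nat_lit 4718830818) (nat_lit 336) (nat_lit 4384379416) (nat_lit 420) (nat_lit 6536562084) (nat_lit 79) (nat_lit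 5) (nat_lit 83) (nat_lit 5) (nat_lit 84) (nat_lit 5) (nat_lit 279) (nat_lit 253) (nat_lit 188))) (XT.nd (nat_lit 94) (nat_lit 420) (nat_lit 0) (XT.lf (nat_lit 0) (nat_lit 2767680687) (nat_lit 420) (nat_lit 11411515766) (nat_lit 504) (nat_lit 1905687082) (nat_lit 74) (nat_lit 5) (nat_lit 79) (nat_lit 5) (nat_lit 80) (nat_lit 5) (nat_lit 280) (nat_lit 253) (nat_lit 187)) (XT.nd (nat_lit 94) (nat_lit 0) (nat_lit 0) (XT.lf (nat_lit 0) (nat_lit 738550415) (nat_lit 336) (nat_lit 2305782664) (nat_lit 420) (nat_lit 13501351671) (nat_lit 69) (nat_lit 5) (nat_lit 73) (nat_lit 5) (nat_lit 74) (nat_lit 5) (nat_lit 281) (nat_lit 253) (nat_lit 186)) (XT.lf (nat_lit 0) (nat_lit 8402506742) (nat_lit 420) (nat_lit 1358744507) (nat_lit 84) (nat_lit 7260283641) (nat_lit 69) (nat_lit 5) (nat_lit 74) (nat_lit 5) (nat_lit 70) (nat_lit 5) (nat_lit 282) (nat_lit 253) (nat_lit 185))))) (XT.nd (nat_lit 282) (nat_lit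 0) (nat_lit 168) (XT.nd (nat_lit 94) (nat_lit 0) (nat_lit 84) (XT.lf (nat_lit 0) (nat_lit 374197280) (nat_lit 1092) (nat_lit 1990578383) (nat_lit 1092) (nat_lit 1990578383) (nat_lit 187) (nat_lit 3) (nat_lit 200) (nat_lit 3) (nat_lit 200) (nat_lit 5) (nat_lit 254) (nat_lit 254) (nat_lit 212)) (XT.nd (nat_lit 94) (nat_lit 0) (nat_lit 0) (XT.lf (nat_lit 0) (nat_lit 2174896172) (nat_lit 1008) (nat_lit 6594682009) (nat_lit 1092) (nat_lit 109624903) (nat_lit 188) (nat_lit 5) (nat_lit 200) (nat_lit 5) (nat_lit 201) (nat_lit 5) (nat_lit 255) (nat_lit 254) (nat_lit 211)) (XT.lf (nat_lit 0) (nat_lit 3687803616) (nat_lit 1008) (nat_lit 200264711) (nat_lit 1092) (nat_lit 5167526671) (nat_lit 188) (nat_lit 5) (nat_lit 200) (nat_lit 5) (nat_lit 201) (nat_lit 5) (nat_lit 256) (nat_lit 254) (nat_lit 210)))) (XT.nd (nat_lit 94) (nat_lit 0) (nat_lit 0) (XT.lf (nat_lit 0) (nat_lit 5280868353) (nat_lit 1008)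 (nat_lit 2640327267) (nat_lit 1092) (nat_lit 1319452971) (nat_lit 189) (nat_lit 5) (nat_lit 201) (nat_lit 5) (nat_lit 202) (nat_lit 5) (nat_lit 257) (nat_lit 254) (nat_lit 209)) (XT.nd (nat_lit 94) (nat_lit 0) (nat_lit 84) (XT.lf (nat_lit 84) (nat_lit 4313255307) (nat_lit 0) (nat_lit 2655925770) (nat_lit 1092) (nat_lit 2465227971) (nat_lit 190) (nat_lit 5) (nat_lit 189) (nat_lit 5) (nat_lit 202) (nat_lit 5) (nat_lit 258) (nat_lit 254) (nat_lit 208)) (XT.lf (nat_lit 84) (nat_lit 2003426959) (nat_lit 0) (nat_lit 6748007572) (nat_lit 1092) (nat_lit 886089617) (nat_lit 191) (nat_lit 5) (nat_lit 190) (nat_lit 5) (nat_lit 203) (nat_lit 5) (nat_lit 259) (nat_lit 254) (nat_lit 207))))))) (XT.nd (nat_lit 1034) (nat_lit 4620) (nat_lit 0) (XT.nd (nat_lit 470) (nat_lit 3192) (nat_lit 0) (XT.nd (nat_lit 188) (nat_lit 840) (nat_lit 0) (XT.nd (nat_lit 94) (nat_lit 0) (nat_lit 84) (XT.lf (nat_lit 0) (nat_lit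 773053381) (nat_lit 1092) (nat_lit 332162758) (nat_lit 1176) (nat_lit 8744628468) (nat_lit 177) (nat_lit 5) (nat_lit 190) (nat_lit 5) (nat_lit 191) (nat_lit 5) (nat_lit 260) (nat_lit 254) (nat_lit 206)) (XT.lf (nat_lit 0) (nat_lit 2561029900) (nat_lit 1092) (nat_lit 2683374601) (nat_lit 1176) (nat_lit 4825669725) (nat_lit 178) (nat_lit 5) (nat_lit 191) (nat_lit 5) (nat_lit 192) (nat_lit 5) (nat_lit 261) (nat_lit 254) (nat_lit 205))) (XT.nd (nat_lit 94) (nat_lit 1008) (nat_lit 0) (XT.lf (nat_lit 0) (nat_lit 4454972126) (nat_lit 1092) (nat_lit 5056461384) (nat_lit 1176) (nat_lit 789301972) (nat_lit 179) (nat_lit 5) (nat_lit 192) (nat_lit 5) (nat_lit 193) (nat_lit 5) (nat_lit 262) (nat_lit 254) (nat_lit 204)) (XT.nd (nat_lit 94) (nat_lit 1008) (nat_lit 0) (XT.lf (nat_lit 84) (nat_lit 3047098467) (nat_lit 0) (nat_lit 3459246098) (nat_lit 1176) (nat_lit 4034389581) (nat_lit 180) (nat_lit 5) (nat_lit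 179) (nat_lit 5) (nat_lit 193) (nat_lit 5) (nat_lit 263) (nat_lit 254) (nat_lit 203)) (XT.lf (nat_lit 0) (nat_lit 820929950) (nat_lit 1092) (nat_lit 7879589593) (nat_lit 1176) (nat_lit 2090805011) (nat_lit 167) (nat_lit 5) (nat_lit 180) (nat_lit 5) (nat_lit 181) (nat_lit 5) (nat_lit 264) (nat_lit 254) (nat_lit 202))))) (XT.nd (nat_lit 282) (nat_lit 1260) (nat_lit 0) (XT.nd (nat_lit 94) (nat_lit 1848) (nat_lit 0) (XT.lf (nat_lit 0) (nat_lit 21602225) (nat_lit 1176) (nat_lit 1411655941) (nat_lit 84) (nat_lit 9618738023) (nat_lit 166) (nat_lit 5) (nat_lit 180) (nat_lit 5) (nat_lit 167) (nat_lit 5) (nat_lit 265) (nat_lit 254) (nat_lit 201)) (XT.nd (nat_lit 94) (nat_lit 672) (nat_lit 0) (XT.lf (nat_lit 0) (nat_lit 2278341829) (nat_lit 1260) (nat_lit 3710755220) (nat_lit 84) (nat_lit 5332651082) (nat_lit 152) (nat_lit 5) (nat_lit 167) (nat_lit 5) (nat_lit 153) (nat_lit 5) (nat_lit 266) (nat_lit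 254) (nat_lit 200)) (XT.lf (nat_lit 0) (nat_lit 4698190494) (nat_lit 756) (nat_lit 6040631457) (nat_lit 84) (nat_lit 864406197) (nat_lit 144) (nat_lit 5) (nat_lit 153) (nat_lit 5) (nat_lit 145) (nat_lit 5) (nat_lit 267) (nat_lit 254) (nat_lit 199)))) (XT.nd (nat_lit 94) (nat_lit 672) (nat_lit 0) (XT.lf (nat_lit 0) (nat_lit 3448430697) (nat_lit 588) (nat_lit 3890612014) (nat_lit 672) (nat_lit 4556239064) (nat_lit 137) (nat_lit 5) (nat_lit 144) (nat_lit 5) (nat_lit 145) (nat_lit 5) (nat_lit 268) (nat_lit 254) (nat_lit 198)) (XT.nd (nat_lit 94) (nat_lit 84) (nat_lit 0) (XT.lf (nat_lit 0) (nat_lit 1299097138) (nat_lit 588) (nat_lit 8885804473) (nat_lit 672) (nat_lit 2014482731) (nat_lit 130) (nat_lit 5) (nat_lit 137) (nat_lit 5) (nat_lit 138) (nat_lit 5) (nat_lit 269) (nat_lit 254) (nat_lit 197)) (XT.lf (nat_lit 0) (nat_lit 737205895) (nat_lit 672) (nat_lit 883286965) (nat_lit 84) (nat_lit 10894525135)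 (nat_lit 129) (nat_lit 5) (nat_lit 137) (nat_lit 5) (nat_lit 130) (nat_lit 5) (nat_lit 270) (nat_lit 254) (nat_lit 196)))))) (XT.nd (nat_lit 470) (nat_lit 2100) (nat_lit 0) (XT.nd (nat_lit 188) (nat_lit 1512) (nat_lit 0) (XT.nd (nat_lit 94) (nat_lit 504) (nat_lit 0) (XT.lf (nat_lit 0) (nat_lit 3708241406) (nat_lit 588) (nat_lit 3128875675) (nat_lit 84) (nat_lit 6003951057) (nat_lit 123) (nat_lit 5) (nat_lit 130) (nat_lit 5) (nat_lit 124) (nat_lit 5) (nat_lit 271) (nat_lit 254) (nat_lit 195)) (XT.lf (nat_lit 0) (nat_lit 6908040297) (nat_lit 588) (nat_lit 5407601904) (nat_lit 84) (nat_lit 864971181) (nat_lit 117) (nat_lit 5) (nat_lit 124) (nat_lit 5) (nat_lit 118) (nat_lit 5) (nat_lit 272) (nat_lit 254) (nat_lit 194))) (XT.nd (nat_lit 94) (nat_lit 1008) (nat_lit 0) (XT.lf (nat_lit 0) (nat_lit 5760259042) (nat_lit 504) (nat_lit 4645200570) (nat_lit 588) (nat_lit 3126859210) (nat_lit 111) (nat_lit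 5) (nat_lit 117) (nat_lit 5) (nat_lit 118) (nat_lit 5) (nat_lit 273) (nat_lit 254) (nat_lit 193)) (XT.nd (nat_lit 94) (nat_lit 420) (nat_lit 0) (XT.lf (nat_lit 0) (nat_lit 275236300) (nat_lit 588) (nat_lit 10187262228) (nat_lit 84) (nat_lit 3435434174) (nat_lit 104) (nat_lit 5) (nat_lit 111) (nat_lit 5) (nat_lit 105) (nat_lit 5) (nat_lit 274) (nat_lit 254) (nat_lit 192)) (XT.lf (nat_lit 0) (nat_lit 1571785965) (nat_lit 420) (nat_lit 2325266382) (nat_lit 504) (nat_lit 10379152459) (nat_lit 99) (nat_lit 5) (nat_lit 104) (nat_lit 5) (nat_lit 105) (nat_lit 5) (nat_lit 275) (nat_lit 254) (nat_lit 191))))) (XT.nd (nat_lit 282) (nat_lit 1176) (nat_lit 0) (XT.nd (nat_lit 94) (nat_lit 924) (nat_lit 0) (XT.lf (nat_lit 0) (nat_lit 7852054256) (nat_lit 504) (nat_lit 623059475) (nat_lit 84) (nat_lit 6192953460) (nat_lit 99) (nat_lit 5) (nat_lit 105) (nat_lit 5) (nat_lit 100) (nat_lit 5) (nat_lit 276) (nat_lit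 254) (nat_lit 190)) (XT.nd (nat_lit 94) (nat_lit 504) (nat_lit 0) (XT.lf (nat_lit 0) (nat_lit 12131562877) (nat_lit 504) (nat_lit 2811174610) (nat_lit 84) (nat_lit 132348726) (nat_lit 94) (nat_lit 5) (nat_lit 100) (nat_lit 5) (nat_lit 95) (nat_lit 5) (nat_lit 277) (nat_lit 254) (nat_lit 189)) (XT.lf (nat_lit 0) (nat_lit 1284409782) (nat_lit 504) (nat_lit 5113684444) (nat_lit 84) (nat_lit 9097369621) (nat_lit 88) (nat_lit 5) (nat_lit 94) (nat_lit 5) (nat_lit 89) (nat_lit 5) (nat_lit 278) (nat_lit 254) (nat_lit 188)))) (XT.nd (nat_lit 94) (nat_lit 756) (nat_lit 0) (XT.lf (nat_lit 0) (nat_lit 5776031377) (nat_lit 504) (nat_lit 7485716762) (nat_lit 84) (nat_lit 2669623939) (nat_lit 83) (nat_lit 5) (nat_lit 89) (nat_lit 5) (nat_lit 84) (nat_lit 5) (nat_lit 279) (nat_lit 254) (nat_lit 187)) (XT.nd (nat_lit 94) (nat_lit 420) (nat_lit 0) (XT.lf (nat_lit 0) (nat_lit 6443832951) (nat_lit 336) (nat_lit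 4221519613) (nat_lit 420) (nat_lit 5717664007) (nat_lit 79) (nat_lit 5) (nat_lit 83) (nat_lit 5) (nat_lit 84) (nat_lit 5) (nat_lit 280) (nat_lit 254) (nat_lit 186)) (XT.lf (nat_lit 0) (nat_lit 4390726227) (nat_lit 420) (nat_lit 11572295225) (nat_lit 504) (nat_lit 888485979) (nat_lit 74) (nat_lit 5) (nat_lit 79) (nat_lit 5) (nat_lit 80) (nat_lit 5) (nat_lit 281) (nat_lit 254) (nat_lit 185))))))))
noncomputable def xc23 : XT := (XT.nd (nat_lit 44650) (nat_lit 0) (nat_lit 336) (XT.nd (nat_lit 43616) (nat_lit 0) (nat_lit 2940) (XT.nd (nat_lit 43052) (nat_lit 0) (nat_lit 9072) (XT.nd (nat_lit 42770) (nat_lit 0) (nat_lit 9912) (XT.nd (nat_lit 42676) (nat_lit 0) (nat_lit 9912) (XT.lf (nat_lit 0) (nat_lit 2246826660) (nat_lit 336) (nat_lit 2001603399) (nat_lit 420) (nat_lit 13087723117) (nat_lit 69) (nat_lit 5) (nat_lit 73) (nat_lit 5) (nat_lit 74) (nat_lit 5) (nat_lit 282) (nat_lit 254) (nat_lit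 184)) (XT.lf (nat_lit 0) (nat_lit 1752417785) (nat_lit 1092) (nat_lit 1386560545) (nat_lit 1092) (nat_lit 1386560545) (nat_lit 187) (nat_lit 3) (nat_lit 200) (nat_lit 3) (nat_lit 200) (nat_lit 5) (nat_lit 255) (nat_lit 255) (nat_lit 210))) (XT.nd (nat_lit 94) (nat_lit 0) (nat_lit 84) (XT.lf (nat_lit 84) (nat_lit 3771284907) (nat_lit 0) (nat_lit 1115865754) (nat_lit 1092) (nat_lit 4344889739) (nat_lit 188) (nat_lit 5) (nat_lit 187) (nat_lit 3) (nat_lit 200) (nat_lit 5) (nat_lit 256) (nat_lit 255) (nat_lit 209)) (XT.nd (nat_lit 94) (nat_lit 0) (nat_lit 84) (XT.lf (nat_lit 84) (nat_lit 1223262218) (nat_lit 0) (nat_lit 5130253289) (nat_lit 1092) (nat_lit 3068012981) (nat_lit 189) (nat_lit 5) (nat_lit 188) (nat_lit 5) (nat_lit 201) (nat_lit 5) (nat_lit 257) (nat_lit 255) (nat_lit 208)) (XT.lf (nat_lit 0) (nat_lit 7899266174) (nat_lit 1008) (nat_lit 1308538163) (nat_lit 1092) (nat_lit 412474279)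 (nat_lit 189) (nat_lit 5) (nat_lit 201) (nat_lit 5) (nat_lit 202) (nat_lit 5) (nat_lit 258) (nat_lit 255) (nat_lit 207))))) (XT.nd (nat_lit 282) (nat_lit 0) (nat_lit 84) (XT.nd (nat_lit 94) (nat_lit 1008) (nat_lit 0) (XT.lf (nat_lit 84) (nat_lit 5955362102) (nat_lit 0) (nat_lit 3620413971) (nat_lit 1092) (nat_lit 251318669) (nat_lit 190) (nat_lit 5) (nat_lit 189) (nat_lit 5) (nat_lit 202) (nat_lit 5) (nat_lit 259) (nat_lit 255) (nat_lit 206)) (XT.nd (nat_lit 94) (nat_lit 0) (nat_lit 0) (XT.lf (nat_lit 0) (nat_lit 1273817706) (nat_lit 1092) (nat_lit 6478702446) (nat_lit 1176) (nat_lit 2290833982) (nat_lit 177) (nat_lit 5) (nat_lit 190) (nat_lit 5) (nat_lit 191) (nat_lit 5) (nat_lit 260) (nat_lit 255) (nat_lit 205)) (XT.lf (nat_lit 84) (nat_lit 1130902948) (nat_lit 0) (nat_lit 1772561690) (nat_lit 1176) (nat_lit 7365660649) (nat_lit 178) (nat_lit 5) (nat_lit 177) (nat_lit 5) (nat_lit 191) (nat_lit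 5) (nat_lit 261) (nat_lit 255) (nat_lit 204)))) (XT.nd (nat_lit 94) (nat_lit 0) (nat_lit 84) (XT.lf (nat_lit 0) (nat_lit 4678567793) (nat_lit 1092) (nat_lit 1324314524) (nat_lit 1176) (nat_lit 4501063596) (nat_lit 178) (nat_lit 5) (nat_lit 191) (nat_lit 5) (nat_lit 192) (nat_lit 5) (nat_lit 262) (nat_lit 255) (nat_lit 203)) (XT.nd (nat_lit 94) (nat_lit 0) (nat_lit 0) (XT.lf (nat_lit 0) (nat_lit 6583603707) (nat_lit 1092) (nat_lit 3782205297) (nat_lit 1176) (nat_lit 383257349) (nat_lit 179) (nat_lit 5) (nat_lit 192) (nat_lit 5) (nat_lit 193) (nat_lit 5) (nat_lit 263) (nat_lit 255) (nat_lit 202)) (XT.lf (nat_lit 84) (nat_lit 4687556142) (nat_lit 0) (nat_lit 3975812957) (nat_lit 1176) (nat_lit 2340291997) (nat_lit 180) (nat_lit 5) (nat_lit 179) (nat_lit 5) (nat_lit 193) (nat_lit 5) (nat_lit 264) (nat_lit 255) (nat_lit 201)))))) (XT.nd (nat_lit 470) (nat_lit 2772) (nat_lit 0) (XT.nd (nat_lit 188)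 (nat_lit 1260) (nat_lit 0) (XT.nd (nat_lit 94) (nat_lit 1260) (nat_lit 0) (XT.lf (nat_lit 0) (nat_lit 2378301838) (nat_lit 1092) (nat_lit 8514975772) (nat_lit 1176) (nat_lit 376092548) (nat_lit 167) (nat_lit 5) (nat_lit 180) (nat_lit 5) (nat_lit 181) (nat_lit 5) (nat_lit 265) (nat_lit 255) (nat_lit 200)) (XT.lf (nat_lit 0) (nat_lit 1193686) (nat_lit 1176) (nat_lit 1714837642) (nat_lit 1260) (nat_lit 9829297456) (nat_lit 152) (nat_lit 5) (nat_lit 166) (nat_lit 5) (nat_lit 167) (nat_lit 5) (nat_lit 266) (nat_lit 255) (nat_lit 199))) (XT.nd (nat_lit 94) (nat_lit 1260) (nat_lit 0) (XT.lf (nat_lit 0) (nat_lit 4019024095) (nat_lit 1260) (nat_lit 2391699119) (nat_lit 84) (nat_lit 5420175542) (nat_lit 152) (nat_lit 5) (nat_lit 167) (nat_lit 5) (nat_lit 153) (nat_lit 5) (nat_lit 267) (nat_lit 255) (nat_lit 198)) (XT.nd (nat_lit 94) (nat_lit 588) (nat_lit 0) (XT.lf (nat_lit 0) (nat_lit 6497628673) (nat_lit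 756) (nat_lit 4820566350) (nat_lit 84) (nat_lit 810436029) (nat_lit 144) (nat_lit 5) (nat_lit 153) (nat_lit 5) (nat_lit 145) (nat_lit 5) (nat_lit 268) (nat_lit 255) (nat_lit 197)) (XT.lf (nat_lit 0) (nat_lit 5104099679) (nat_lit 588) (nat_lit 4108449024) (nat_lit 672) (nat_lit 3224767776) (nat_lit 137) (nat_lit 5) (nat_lit 144) (nat_lit 5) (nat_lit 145) (nat_lit 5) (nat_lit 269) (nat_lit 255) (nat_lit 196))))) (XT.nd (nat_lit 282) (nat_lit 1596) (nat_lit 0) (XT.nd (nat_lit 94) (nat_lit 588) (nat_lit 0) (XT.lf (nat_lit 0) (nat_lit 2861078378) (nat_lit 588) (nat_lit 9284314284) (nat_lit 672) (nat_lit 613167288) (nat_lit 130) (nat_lit 5) (nat_lit 137) (nat_lit 5) (nat_lit 138) (nat_lit 5) (nat_lit 270) (nat_lit 255) (nat_lit 195)) (XT.nd (nat_lit 94) (nat_lit 0) (nat_lit 0) (XT.lf (nat_lit 0) (nat_lit 543036933) (nat_lit 504) (nat_lit 1635157875) (nat_lit 588) (nat_lit 10913429584) (nat_lit 123)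 (nat_lit 5) (nat_lit 129) (nat_lit 5) (nat_lit 130) (nat_lit 5) (nat_lit 271) (nat_lit 255) (nat_lit 194)) (XT.lf (nat_lit 0) (nat_lit 5241809183) (nat_lit 588) (nat_lit 1818025487) (nat_lit 84) (nat_lit 6376101425) (nat_lit 123) (nat_lit 5) (nat_lit 130) (nat_lit 5) (nat_lit 124) (nat_lit 5) (nat_lit 272) (nat_lit 255) (nat_lit 193)))) (XT.nd (nat_lit 94) (nat_lit 1092) (nat_lit 0) (XT.lf (nat_lit 0) (nat_lit 8554779628) (nat_lit 588) (nat_lit 4204090345) (nat_lit 84) (nat_lit 1035227273) (nat_lit 117) (nat_lit 5) (nat_lit 124) (nat_lit 5) (nat_lit 118) (nat_lit 5) (nat_lit 273) (nat_lit 255) (nat_lit 192)) (XT.nd (nat_lit 94) (nat_lit 588) (nat_lit 0) (XT.lf (nat_lit 0) (nat_lit 7484544776) (nat_lit 504) (nat_lit 4696559856) (nat_lit 588) (nat_lit 1983892111) (nat_lit 111) (nat_lit 5) (nat_lit 117) (nat_lit 5) (nat_lit 118) (nat_lit 5) (nat_lit 274) (nat_lit 255) (nat_lit 191)) (XT.lf (nat_lit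 0) (nat_lit 1516555016) (nat_lit 588) (nat_lit 9227679153) (nat_lit 84) (nat_lit 3805630676) (nat_lit 104) (nat_lit 5) (nat_lit 111) (nat_lit 5) (nat_lit 105) (nat_lit 5) (nat_lit 275) (nat_lit 255) (nat_lit 190))))))) (XT.nd (nat_lit 43710) (nat_lit 0) (nat_lit 5376) (XT.nd (nat_lit 470) (nat_lit 840) (nat_lit 0) (XT.nd (nat_lit 188) (nat_lit 924) (nat_lit 0) (XT.nd (nat_lit 94) (nat_lit 420) (nat_lit 0) (XT.lf (nat_lit 0) (nat_lit 3081828803) (nat_lit 420) (nat_lit 2195127443) (nat_lit 504) (nat_lit 9671582007) (nat_lit 99) (nat_lit 5) (nat_lit 104) (nat_lit 5) (nat_lit 105) (nat_lit 5) (nat_lit 276) (nat_lit 255) (nat_lit 189)) (XT.lf (nat_lit 0) (nat_lit 763270229) (nat_lit 420) (nat_lit 8621126193) (nat_lit 504) (nat_lit 5977183247) (nat_lit 94) (nat_lit 5) (nat_lit 99) (nat_lit 5) (nat_lit 100) (nat_lit 5) (nat_lit 277) (nat_lit 255) (nat_lit 188))) (XT.nd (nat_lit 94) (nat_lit 924)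 (nat_lit 0) (XT.lf (nat_lit 0) (nat_lit 13833739659) (nat_lit 504) (nat_lit 1552083932) (nat_lit 84) (nat_lit 404670979) (nat_lit 94) (nat_lit 5) (nat_lit 100) (nat_lit 5) (nat_lit 95) (nat_lit 5) (nat_lit 278) (nat_lit 255) (nat_lit 187)) (XT.nd (nat_lit 94) (nat_lit 420) (nat_lit 0) (XT.lf (nat_lit 0) (nat_lit 2419462796) (nat_lit 504) (nat_lit 3980599546) (nat_lit 84) (nat_lit 9832695560) (nat_lit 88) (nat_lit 5) (nat_lit 94) (nat_lit 5) (nat_lit 89) (nat_lit 5) (nat_lit 279) (nat_lit 255) (nat_lit 186)) (XT.lf (nat_lit 0) (nat_lit 7103300071) (nat_lit 504) (nat_lit 6474005246) (nat_lit 84) (nat_lit 3114289015) (nat_lit 83) (nat_lit 5) (nat_lit 89) (nat_lit 5) (nat_lit 84) (nat_lit 5) (nat_lit 280) (nat_lit 255) (nat_lit 185))))) (XT.nd (nat_lit 42958) (nat_lit 0) (nat_lit 8568) (XT.nd (nat_lit 94) (nat_lit 504) (nat_lit 0) (XT.lf (nat_lit 0) (nat_lit 8116646450) (nat_lit 336) (nat_lit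 4086038884) (nat_lit 420) (nat_lit 4964339786) (nat_lit 79) (nat_lit 5) (nat_lit 83) (nat_lit 5) (nat_lit 84) (nat_lit 5) (nat_lit 281) (nat_lit 255) (nat_lit 184)) (XT.nd (nat_lit 42770) (nat_lit 0) (nat_lit 9576) (XT.lf (nat_lit 0) (nat_lit 74420250) (nat_lit 504) (nat_lit 11703914250) (nat_lit 84) (nat_lit 5881595904) (nat_lit 73) (nat_lit 5) (nat_lit 79) (nat_lit 5) (nat_lit 74) (nat_lit 5) (nat_lit 282) (nat_lit 255) (nat_lit 183)) (XT.lf (nat_lit 0) (nat_lit 3073154902) (nat_lit 1092) (nat_lit 817750925) (nat_lit 1092) (nat_lit 817750925) (nat_lit 187) (nat_lit 3) (nat_lit 200) (nat_lit 3) (nat_lit 200) (nat_lit 5) (nat_lit 256) (nat_lit 256) (nat_lit 208)))) (XT.nd (nat_lit 94) (nat_lit 1008) (nat_lit 0) (XT.lf (nat_lit 84) (nat_lit 5203549436) (nat_lit 0) (nat_lit 2290609067) (nat_lit 1092) (nat_lit 2116791155) (nat_lit 188) (nat_lit 5) (nat_lit 187) (nat_lit 3) (nat_lit 200) (nat_lit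 5) (nat_lit 257) (nat_lit 256) (nat_lit 207)) (XT.nd (nat_lit 94) (nat_lit 1092) (nat_lit 0) (XT.lf (nat_lit 84) (nat_lit 2589113476) (nat_lit 0) (nat_lit 6334884171) (nat_lit 1092) (nat_lit 889759042) (nat_lit 189) (nat_lit 5) (nat_lit 188) (nat_lit 5) (nat_lit 201) (nat_lit 5) (nat_lit 258) (nat_lit 256) (nat_lit 206)) (XT.lf (nat_lit 0) (nat_lit 399188629) (nat_lit 1092) (nat_lit 55924797) (nat_lit 1176) (nat_lit 9571099107) (nat_lit 175) (nat_lit 5) (nat_lit 188) (nat_lit 5) (nat_lit 189) (nat_lit 5) (nat_lit 259) (nat_lit 256) (nat_lit 205)))))) (XT.nd (nat_lit 470) (nat_lit 3276) (nat_lit 0) (XT.nd (nat_lit 188) (nat_lit 0) (nat_lit 84) (XT.nd (nat_lit 94) (nat_lit 0) (nat_lit 84) (XT.lf (nat_lit 0) (nat_lit 1813914706) (nat_lit 1092) (nat_lit 2720485442) (nat_lit 1176) (nat_lit 5711638682) (nat_lit 176) (nat_lit 5) (nat_lit 189) (nat_lit 5) (nat_lit 190) (nat_lit 5) (nat_lit 260) (nat_lit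 256) (nat_lit 204)) (XT.lf (nat_lit 0) (nat_lit 3317658970) (nat_lit 1092) (nat_lit 5417845720) (nat_lit 1176) (nat_lit 1740711886) (nat_lit 177) (nat_lit 5) (nat_lit 190) (nat_lit 5) (nat_lit 191) (nat_lit 5) (nat_lit 261) (nat_lit 256) (nat_lit 203))) (XT.nd (nat_lit 94) (nat_lit 0) (nat_lit 84) (XT.lf (nat_lit 84) (nat_lit 2536895209) (nat_lit 0) (nat_lit 2412635906) (nat_lit 1176) (nat_lit 5766519172) (nat_lit 178) (nat_lit 5) (nat_lit 177) (nat_lit 5) (nat_lit 191) (nat_lit 5) (nat_lit 262) (nat_lit 256) (nat_lit 202)) (XT.nd (nat_lit 94) (nat_lit 0) (nat_lit 0) (XT.lf (nat_lit 0) (nat_lit 6717018993) (nat_lit 1092) (nat_lit 36127704) (nat_lit 1176) (nat_lit 4212838213) (nat_lit 178) (nat_lit 5) (nat_lit 191) (nat_lit 5) (nat_lit 192) (nat_lit 5) (nat_lit 263) (nat_lit 256) (nat_lit 201)) (XT.lf (nat_lit 84) (nat_lit 8639785990) (nat_lit 0) (nat_lit 1708984) (nat_lit 1176) (nat_lit 2584519808)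 (nat_lit 179) (nat_lit 5) (nat_lit 178) (nat_lit 5) (nat_lit 192) (nat_lit 5) (nat_lit 264) (nat_lit 256) (nat_lit 200))))) (XT.nd (nat_lit 282) (nat_lit 1260) (nat_lit 0) (XT.nd (nat_lit 94) (nat_lit 2268) (nat_lit 0) (XT.lf (nat_lit 84) (nat_lit 6271687013) (nat_lit 0) (nat_lit 4486263064) (nat_lit 1176) (nat_lit 737744636) (nat_lit 180) (nat_lit 5) (nat_lit 179) (nat_lit 5) (nat_lit 193) (nat_lit 5) (nat_lit 265) (nat_lit 256) (nat_lit 199)) (XT.nd (nat_lit 94) (nat_lit 1176) (nat_lit 0) (XT.lf (nat_lit 0) (nat_lit 1226757489) (nat_lit 1176) (nat_lit 7918454725) (nat_lit 84) (nat_lit 2631335929) (nat_lit 166) (nat_lit 5) (nat_lit 180) (nat_lit 5) (nat_lit 167) (nat_lit 5) (nat_lit 266) (nat_lit 256) (nat_lit 198)) (XT.lf (nat_lit 0) (nat_lit 1377961621) (nat_lit 1176) (nat_lit 1975116152) (nat_lit 1260) (nat_lit 8715223880) (nat_lit 152) (nat_lit 5) (nat_lit 166) (nat_lit 5) (nat_lit 167)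 (nat_lit 5) (nat_lit 267) (nat_lit 256) (nat_lit 197)))) (XT.nd (nat_lit 94) (nat_lit 1260) (nat_lit 0) (XT.lf (nat_lit 0) (nat_lit 5695499267) (nat_lit 1260) (nat_lit 1146573090) (nat_lit 84) (nat_lit 5528727999) (nat_lit 152) (nat_lit 5) (nat_lit 167) (nat_lit 5) (nat_lit 153) (nat_lit 5) (nat_lit 268) (nat_lit 256) (nat_lit 196)) (XT.nd (nat_lit 94) (nat_lit 588) (nat_lit 0) (XT.lf (nat_lit 0) (nat_lit 8241583717) (nat_lit 756) (nat_lit 3681008109) (nat_lit 84) (nat_lit 762803202) (nat_lit 144) (nat_lit 5) (nat_lit 153) (nat_lit 5) (nat_lit 145) (nat_lit 5) (nat_lit 269) (nat_lit 256) (nat_lit 195)) (XT.lf (nat_lit 0) (nat_lit 6704653821) (nat_lit 588) (nat_lit 4335011075) (nat_lit 672) (nat_lit 1971690300) (nat_lit 137) (nat_lit 5) (nat_lit 144) (nat_lit 5) (nat_lit 145) (nat_lit 5) (nat_lit 270) (nat_lit 256) (nat_lit 194))))))))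
noncomputable def xc24 : XT := (XT.nd (nat_lit 44744) (nat_lit 0) (nat_lit 336) (XT.nd (nat_lit 940) (nat_lit 756) (nat_lit 0) (XT.nd (nat_lit 470) (nat_lit 1932) (nat_lit 0) (XT.nd (nat_lit 188) (nat_lit 1008) (nat_lit 0) (XT.nd (nat_lit 94) (nat_lit 504) (nat_lit 0) (XT.lf (nat_lit 0) (nat_lit 702275503) (nat_lit 672) (nat_lit 8996443689) (nat_lit 84) (nat_lit 3651417231) (nat_lit 129) (nat_lit 5) (nat_lit 137) (nat_lit 5) (nat_lit 130) (nat_lit 5) (nat_lit 271) (nat_lit 256) (nat_lit 193)) (XT.lf (nat_lit 0) (nat_lit 1923481677) (nat_lit 504) (nat_lit 1646799441) (nat_lit 588) (nat_lit 10131013314) (nat_lit 123) (nat_lit 5) (nat_lit 129) (nat_lit 5) (nat_lit 130) (nat_lit 5) (nat_lit 272) (nat_lit 256) (nat_lit 192))) (XT.nd (nat_lit 94) (nat_lit 1008) (nat_lit 0) (XT.lf (nat_lit 0) (nat_lit 6726716611) (nat_lit 588) (nat_lit 578047874) (nat_lit 84) (nat_lit 6760169821) (nat_lit 123) (nat_lit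 5) (nat_lit 130) (nat_lit 5) (nat_lit 124) (nat_lit 5) (nat_lit 273) (nat_lit 256) (nat_lit 191)) (XT.nd (nat_lit 94) (nat_lit 504) (nat_lit 0) (XT.lf (nat_lit 0) (nat_lit 10162869916) (nat_lit 588) (nat_lit 3077431684) (nat_lit 84) (nat_lit 1202188212) (nat_lit 117) (nat_lit 5) (nat_lit 124) (nat_lit 5) (nat_lit 118) (nat_lit 5) (nat_lit 274) (nat_lit 256) (nat_lit 190)) (XT.lf (nat_lit 0) (nat_lit 9161513767) (nat_lit 504) (nat_lit 4767305542) (nat_lit 588) (nat_lit 904574190) (nat_lit 111) (nat_lit 5) (nat_lit 117) (nat_lit 5) (nat_lit 118) (nat_lit 5) (nat_lit 275) (nat_lit 256) (nat_lit 189))))) (XT.nd (nat_lit 188) (nat_lit 924) (nat_lit 0) (XT.nd (nat_lit 94) (nat_lit 420) (nat_lit 0) (XT.lf (nat_lit 0) (nat_lit 2705813062) (nat_lit 588) (nat_lit 8356685618) (nat_lit 84) (nat_lit 4175889347) (nat_lit 104) (nat_lit 5) (nat_lit 111) (nat_lit 5) (nat_lit 105) (nat_lit 5) (nat_lit 276)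 (nat_lit 256) (nat_lit 188)) (XT.lf (nat_lit 0) (nat_lit 4534290800) (nat_lit 420) (nat_lit 2081389702) (nat_lit 504) (nat_lit 9042663987) (nat_lit 99) (nat_lit 5) (nat_lit 104) (nat_lit 5) (nat_lit 105) (nat_lit 5) (nat_lit 277) (nat_lit 256) (nat_lit 187))) (XT.nd (nat_lit 94) (nat_lit 504) (nat_lit 0) (XT.lf (nat_lit 0) (nat_lit 2100899156) (nat_lit 420) (nat_lit 8793259402) (nat_lit 504) (nat_lit 5199081114) (nat_lit 94) (nat_lit 5) (nat_lit 99) (nat_lit 5) (nat_lit 100) (nat_lit 5) (nat_lit 278) (nat_lit 256) (nat_lit 186)) (XT.nd (nat_lit 94) (nat_lit 504) (nat_lit 0) (XT.lf (nat_lit 0) (nat_lit 15519166903) (nat_lit 504) (nat_lit 360164857) (nat_lit 84) (nat_lit 665906631) (nat_lit 94) (nat_lit 5) (nat_lit 100) (nat_lit 5) (nat_lit 95) (nat_lit 5) (nat_lit 279) (nat_lit 256) (nat_lit 185)) (XT.lf (nat_lit 0) (nat_lit 3511712603) (nat_lit 504) (nat_lit 2919974992) (nat_lit 84) (nat_lit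 10578713520) (nat_lit 88) (nat_lit 5) (nat_lit 94) (nat_lit 5) (nat_lit 89) (nat_lit 5) (nat_lit 280) (nat_lit 256) (nat_lit 184)))))) (XT.nd (nat_lit 43240) (nat_lit 0) (nat_lit 8064) (XT.nd (nat_lit 42958) (nat_lit 0) (nat_lit 8064) (XT.nd (nat_lit 94) (nat_lit 336) (nat_lit 0) (XT.lf (nat_lit 0) (nat_lit 8400385369) (nat_lit 504) (nat_lit 5540565051) (nat_lit 84) (nat_lit 3552256418) (nat_lit 83) (nat_lit 5) (nat_lit 89) (nat_lit 5) (nat_lit 84) (nat_lit 5) (nat_lit 281) (nat_lit 256) (nat_lit 183)) (XT.lf (nat_lit 0) (nat_lit 9747532606) (nat_lit 336) (nat_lit 3976003675) (nat_lit 420) (nat_lit 4269965011) (nat_lit 79) (nat_lit 5) (nat_lit 83) (nat_lit 5) (nat_lit 84) (nat_lit 5) (nat_lit 282) (nat_lit 256) (nat_lit 182))) (XT.nd (nat_lit 94) (nat_lit 1008) (nat_lit 0) (XT.lf (nat_lit 0) (nat_lit 4345285416) (nat_lit 1092) (nat_lit 279828813) (nat_lit 1092) (nat_lit 279828813) (nat_lit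 187) (nat_lit 3) (nat_lit 200) (nat_lit 3) (nat_lit 200) (nat_lit 5) (nat_lit 257) (nat_lit 257) (nat_lit 206)) (XT.nd (nat_lit 94) (nat_lit 1008) (nat_lit 0) (XT.lf (nat_lit 84) (nat_lit 6591799727) (nat_lit 0) (nat_lit 3420060178) (nat_lit 1092) (nat_lit 4632464) (nat_lit 188) (nat_lit 5) (nat_lit 187) (nat_lit 3) (nat_lit 200) (nat_lit 5) (nat_lit 258) (nat_lit 257) (nat_lit 205)) (XT.lf (nat_lit 0) (nat_lit 1153862464) (nat_lit 1092) (nat_lit 6344121887) (nat_lit 1176) (nat_lit 2734482094) (nat_lit 175) (nat_lit 5) (nat_lit 188) (nat_lit 5) (nat_lit 189) (nat_lit 5) (nat_lit 259) (nat_lit 257) (nat_lit 204))))) (XT.nd (nat_lit 282) (nat_lit 0) (nat_lit 168) (XT.nd (nat_lit 94) (nat_lit 0) (nat_lit 84) (XT.lf (nat_lit 84) (nat_lit 1139832376) (nat_lit 0) (nat_lit 1260516901) (nat_lit 1176) (nat_lit 8057831839) (nat_lit 176) (nat_lit 5) (nat_lit 175) (nat_lit 5) (nat_lit 189) (nat_lit 5)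 (nat_lit 260) (nat_lit 257) (nat_lit 203)) (XT.nd (nat_lit 94) (nat_lit 0) (nat_lit 84) (XT.lf (nat_lit 0) (nat_lit 3783808553) (nat_lit 1092) (nat_lit 1639372672) (nat_lit 1176) (nat_lit 5269387613) (nat_lit 176) (nat_lit 5) (nat_lit 189) (nat_lit 5) (nat_lit 190) (nat_lit 5) (nat_lit 261) (nat_lit 257) (nat_lit 202)) (XT.lf (nat_lit 0) (nat_lit 5279596685) (nat_lit 1092) (nat_lit 4432690979) (nat_lit 1176) (nat_lit 1224877826) (nat_lit 177) (nat_lit 5) (nat_lit 190) (nat_lit 5) (nat_lit 191) (nat_lit 5) (nat_lit 262) (nat_lit 257) (nat_lit 201)))) (XT.nd (nat_lit 94) (nat_lit 0) (nat_lit 84) (XT.lf (nat_lit 84) (nat_lit 3887728282) (nat_lit 0) (nat_lit 3033445599) (nat_lit 1176) (nat_lit 4270333104) (nat_lit 178) (nat_lit 5) (nat_lit 177) (nat_lit 5) (nat_lit 191) (nat_lit 5) (nat_lit 263) (nat_lit 257) (nat_lit 200)) (XT.nd (nat_lit 94) (nat_lit 0) (nat_lit 0) (XT.lf (nat_lit 84) (nat_lit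 1218170068) (nat_lit 0) (nat_lit 7485028290) (nat_lit 1176) (nat_lit 2753324302) (nat_lit 179) (nat_lit 5) (nat_lit 178) (nat_lit 5) (nat_lit 192) (nat_lit 5) (nat_lit 264) (nat_lit 257) (nat_lit 199)) (XT.lf (nat_lit 84) (nat_lit 10268903139) (nat_lit 0) (nat_lit 376819813) (nat_lit 1176) (nat_lit 1086567207) (nat_lit 179) (nat_lit 5) (nat_lit 178) (nat_lit 5) (nat_lit 192) (nat_lit 5) (nat_lit 265) (nat_lit 257) (nat_lit 198))))))) (XT.nd (nat_lit 1034) (nat_lit 2268) (nat_lit 0) (XT.nd (nat_lit 470) (nat_lit 2856) (nat_lit 0) (XT.nd (nat_lit 188) (nat_lit 1764) (nat_lit 0) (XT.nd (nat_lit 94) (nat_lit 0) (nat_lit 84) (XT.lf (nat_lit 0) (nat_lit 767260819) (nat_lit 1176) (nat_lit 4216946287) (nat_lit 1260) (nat_lit 7033222934) (nat_lit 165) (nat_lit 5) (nat_lit 179) (nat_lit 5) (nat_lit 180) (nat_lit 5) (nat_lit 266) (nat_lit 257) (nat_lit 197)) (XT.lf (nat_lit 0) (nat_lit 2750862401) (nat_lit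 1176) (nat_lit 7032956138) (nat_lit 84) (nat_lit 2530360165) (nat_lit 166) (nat_lit 5) (nat_lit 180) (nat_lit 5) (nat_lit 167) (nat_lit 5) (nat_lit 267) (nat_lit 257) (nat_lit 196))) (XT.nd (nat_lit 94) (nat_lit 672) (nat_lit 0) (XT.lf (nat_lit 0) (nat_lit 2695574668) (nat_lit 1176) (nat_lit 2232181826) (nat_lit 1260) (nat_lit 7694714371) (nat_lit 152) (nat_lit 5) (nat_lit 166) (nat_lit 5) (nat_lit 167) (nat_lit 5) (nat_lit 268) (nat_lit 257) (nat_lit 195)) (XT.nd (nat_lit 94) (nat_lit 0) (nat_lit 0) (XT.lf (nat_lit 0) (nat_lit 34718566) (nat_lit 672) (nat_lit 7284286237) (nat_lit 756) (nat_lit 5623480000) (nat_lit 144) (nat_lit 5) (nat_lit 152) (nat_lit 5) (nat_lit 153) (nat_lit 5) (nat_lit 269) (nat_lit 257) (nat_lit 194)) (XT.lf (nat_lit 0) (nat_lit 9940804499) (nat_lit 756) (nat_lit 2612825809) (nat_lit 84) (nat_lit 720984515) (nat_lit 144) (nat_lit 5) (nat_lit 153) (nat_lit 5) (nat_lit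 145) (nat_lit 5) (nat_lit 270) (nat_lit 257) (nat_lit 193))))) (XT.nd (nat_lit 282) (nat_lit 1092) (nat_lit 0) (XT.nd (nat_lit 94) (nat_lit 1176) (nat_lit 0) (XT.lf (nat_lit 0) (nat_lit 8260157857) (nat_lit 588) (nat_lit 4570935870) (nat_lit 672) (nat_lit 787448634) (nat_lit 137) (nat_lit 5) (nat_lit 144) (nat_lit 5) (nat_lit 145) (nat_lit 5) (nat_lit 271) (nat_lit 257) (nat_lit 192)) (XT.nd (nat_lit 94) (nat_lit 504) (nat_lit 0) (XT.lf (nat_lit 0) (nat_lit 1945101638) (nat_lit 672) (nat_lit 8186639243) (nat_lit 84) (nat_lit 3843632431) (nat_lit 129) (nat_lit 5) (nat_lit 137) (nat_lit 5) (nat_lit 130) (nat_lit 5) (nat_lit 272) (nat_lit 257) (nat_lit 191)) (XT.lf (nat_lit 0) (nat_lit 3247132312) (nat_lit 504) (nat_lit 1665541837) (nat_lit 588) (nat_lit 9432949240) (nat_lit 123) (nat_lit 5) (nat_lit 129) (nat_lit 5) (nat_lit 130) (nat_lit 5) (nat_lit 273) (nat_lit 257) (nat_lit 190)))) (XT.nd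 (nat_lit 94) (nat_lit 588) (nat_lit 0) (XT.lf (nat_lit 0) (nat_lit 614120859) (nat_lit 504) (nat_lit 7564905245) (nat_lit 588) (nat_lit 6550095839) (nat_lit 117) (nat_lit 5) (nat_lit 123) (nat_lit 5) (nat_lit 124) (nat_lit 5) (nat_lit 274) (nat_lit 257) (nat_lit 189)) (XT.nd (nat_lit 94) (nat_lit 588) (nat_lit 0) (XT.lf (nat_lit 0) (nat_lit 11741626842) (nat_lit 588) (nat_lit 2018728957) (nat_lit 84) (nat_lit 1366787034) (nat_lit 117) (nat_lit 5) (nat_lit 124) (nat_lit 5) (nat_lit 118) (nat_lit 5) (nat_lit 275) (nat_lit 257) (nat_lit 188)) (XT.lf (nat_lit 0) (nat_lit 116441227) (nat_lit 588) (nat_lit 4739028135) (nat_lit 84) (nat_lit 10683399431) (nat_lit 110) (nat_lit 5) (nat_lit 117) (nat_lit 5) (nat_lit 111) (nat_lit 5) (nat_lit 276) (nat_lit 257) (nat_lit 187)))))) (XT.nd (nat_lit 470) (nat_lit 420) (nat_lit 0) (XT.nd (nat_lit 188) (nat_lit 924) (nat_lit 0) (XT.nd (nat_lit 94) (nat_lit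 420) (nat_lit 0) (XT.lf (nat_lit 0) (nat_lit 3851017816) (nat_lit 588) (nat_lit 7566014236) (nat_lit 84) (nat_lit 4547928383) (nat_lit 104) (nat_lit 5) (nat_lit 111) (nat_lit 5) (nat_lit 105) (nat_lit 5) (nat_lit 277) (nat_lit 257) (nat_lit 186)) (XT.lf (nat_lit 0) (nat_lit 5938665709) (nat_lit 420) (nat_lit 1982743439) (nat_lit 504) (nat_lit 8485729504) (nat_lit 99) (nat_lit 5) (nat_lit 104) (nat_lit 5) (nat_lit 105) (nat_lit 5) (nat_lit 278) (nat_lit 257) (nat_lit 185))) (XT.nd (nat_lit 94) (nat_lit 504) (nat_lit 0) (XT.lf (nat_lit 0) (nat_lit 3384597551) (nat_lit 420) (nat_lit 8998071487) (nat_lit 504) (nat_lit 4482199528) (nat_lit 94) (nat_lit 5) (nat_lit 99) (nat_lit 5) (nat_lit 100) (nat_lit 5) (nat_lit 279) (nat_lit 257) (nat_lit 184)) (XT.nd (nat_lit 94) (nat_lit 84) (nat_lit 0) (XT.lf (nat_lit 0) (nat_lit 791263252) (nat_lit 420) (nat_lit 16414030080) (nat_lit 504) (nat_lit 135351094)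 (nat_lit 89) (nat_lit 5) (nat_lit 94) (nat_lit 5) (nat_lit 95) (nat_lit 5) (nat_lit 280) (nat_lit 257) (nat_lit 183)) (XT.lf (nat_lit 0) (nat_lit 4568274801) (nat_lit 504) (nat_lit 1923429949) (nat_lit 84) (nat_lit 11338382240) (nat_lit 88) (nat_lit 5) (nat_lit 94) (nat_lit 5) (nat_lit 89) (nat_lit 5) (nat_lit 281) (nat_lit 257) (nat_lit 182))))) (XT.nd (nat_lit 43146) (nat_lit 0) (nat_lit 7728) (XT.nd (nat_lit 42958) (nat_lit 0) (nat_lit 7644) (XT.lf (nat_lit 0) (nat_lit 9674754112) (nat_lit 504) (nat_lit 4677329851) (nat_lit 84) (nat_lit 3985880987) (nat_lit 83) (nat_lit 5) (nat_lit 89) (nat_lit 5) (nat_lit 84) (nat_lit 5) (nat_lit 282) (nat_lit 257) (nat_lit 181)) (XT.nd (nat_lit 94) (nat_lit 0) (nat_lit 0) (XT.lf (nat_lit 0) (nat_lit 228541597) (nat_lit 0) (nat_lit 228541597) (nat_lit 1092) (nat_lit 4657237187) (nat_lit 174) (nat_lit 5) (nat_lit 174) (nat_lit 3) (nat_lit 187) (nat_lit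 3) (nat_lit 258) (nat_lit 258) (nat_lit 204)) (XT.lf (nat_lit 0) (nat_lit 1961420122) (nat_lit 1092) (nat_lit 2527061902) (nat_lit 1176) (nat_lit 5960020774) (nat_lit 174) (nat_lit 5) (nat_lit 187) (nat_lit 3) (nat_lit 188) (nat_lit 5) (nat_lit 259) (nat_lit 258) (nat_lit 203)))) (XT.nd (nat_lit 94) (nat_lit 0) (nat_lit 0) (XT.lf (nat_lit 0) (nat_lit 3086318476) (nat_lit 1092) (nat_lit 5544462704) (nat_lit 1176) (nat_lit 2047691885) (nat_lit 175) (nat_lit 5) (nat_lit 188) (nat_lit 5) (nat_lit 189) (nat_lit 5) (nat_lit 260) (nat_lit 258) (nat_lit 202)) (XT.nd (nat_lit 94) (nat_lit 0) (nat_lit 84) (XT.lf (nat_lit 84) (nat_lit 2285182962) (nat_lit 0) (nat_lit 2032798904) (nat_lit 1176) (nat_lit 6600191777) (nat_lit 176) (nat_lit 5) (nat_lit 175) (nat_lit 5) (nat_lit 189) (nat_lit 5) (nat_lit 261) (nat_lit 258) (nat_lit 201)) (XT.lf (nat_lit 0) (nat_lit 5677487063) (nat_lit 1092) (nat_lit 617362130)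 (nat_lit 1176) (nat_lit 4872691004) (nat_lit 176) (nat_lit 5) (nat_lit 189) (nat_lit 5) (nat_lit 190) (nat_lit 5) (nat_lit 262) (nat_lit 258) (nat_lit 200))))))))
noncomputable def xc25 : XT := (XT.nd (nat_lit 45026) (nat_lit 0) (nat_lit 0) (XT.nd (nat_lit 1034) (nat_lit 3444) (nat_lit 0) (XT.nd (nat_lit 470) (nat_lit 2940) (nat_lit 0) (XT.nd (nat_lit 188) (nat_lit 1092) (nat_lit 0) (XT.nd (nat_lit 94) (nat_lit 0) (nat_lit 0) (XT.lf (nat_lit 0) (nat_lit 7172651136) (nat_lit 1092) (nat_lit 3515053847) (nat_lit 1176) (nat_lit 739301168) (nat_lit 177) (nat_lit 5) (nat_lit 190) (nat_lit 5) (nat_lit 191) (nat_lit 5) (nat_lit 263) (nat_lit 258) (nat_lit 199)) (XT.lf (nat_lit 84) (nat_lit 5192308177) (nat_lit 0) (nat_lit 3638793976) (nat_lit 1176) (nat_lit 2865244746) (nat_lit 178) (nat_lit 5) (nat_lit 177) (nat_lit 5) (nat_lit 191) (nat_lit 5) (nat_lit 264) (nat_lit 258) (nat_lit 198))) (XT.nd (nat_lit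 94) (nat_lit 1176) (nat_lit 0) (XT.lf (nat_lit 84) (nat_lit 2419200333) (nat_lit 0) (nat_lit 8216446733) (nat_lit 1176) (nat_lit 1341296620) (nat_lit 179) (nat_lit 5) (nat_lit 178) (nat_lit 5) (nat_lit 192) (nat_lit 5) (nat_lit 265) (nat_lit 258) (nat_lit 197)) (XT.nd (nat_lit 94) (nat_lit 0) (nat_lit 84) (XT.lf (nat_lit 0) (nat_lit 327407422) (nat_lit 1176) (nat_lit 404549155) (nat_lit 1260) (nat_lit 11536907821) (nat_lit 164) (nat_lit 5) (nat_lit 178) (nat_lit 5) (nat_lit 179) (nat_lit 5) (nat_lit 266) (nat_lit 258) (nat_lit 196)) (XT.lf (nat_lit 0) (nat_lit 2188234718) (nat_lit 1176) (nat_lit 3285271393) (nat_lit 1260) (nat_lit 7096404050) (nat_lit 165) (nat_lit 5) (nat_lit 179) (nat_lit 5) (nat_lit 180) (nat_lit 5) (nat_lit 267) (nat_lit 258) (nat_lit 195))))) (XT.nd (nat_lit 282) (nat_lit 1260) (nat_lit 0) (XT.nd (nat_lit 94) (nat_lit 1848) (nat_lit 0) (XT.lf (nat_lit 0) (nat_lit 4215178344)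 (nat_lit 1176) (nat_lit 6222317031) (nat_lit 84) (nat_lit 2445955216) (nat_lit 166) (nat_lit 5) (nat_lit 180) (nat_lit 5) (nat_lit 167) (nat_lit 5) (nat_lit 268) (nat_lit 258) (nat_lit 194)) (XT.nd (nat_lit 94) (nat_lit 672) (nat_lit 0) (XT.lf (nat_lit 0) (nat_lit 3962974687) (nat_lit 1176) (nat_lit 2487382634) (nat_lit 1260) (nat_lit 6758569634) (nat_lit 152) (nat_lit 5) (nat_lit 166) (nat_lit 5) (nat_lit 167) (nat_lit 5) (nat_lit 269) (nat_lit 258) (nat_lit 193)) (XT.lf (nat_lit 0) (nat_lit 1185253791) (nat_lit 672) (nat_lit 7726418566) (nat_lit 756) (nat_lit 4635001580) (nat_lit 144) (nat_lit 5) (nat_lit 152) (nat_lit 5) (nat_lit 153) (nat_lit 5) (nat_lit 270) (nat_lit 258) (nat_lit 192)))) (XT.nd (nat_lit 94) (nat_lit 1260) (nat_lit 0) (XT.lf (nat_lit 0) (nat_lit 11605320095) (nat_lit 756) (nat_lit 1607655122) (nat_lit 84) (nat_lit 684508710) (nat_lit 144) (nat_lit 5) (nat_lit 153) (nat_lit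 5) (nat_lit 145) (nat_lit 5) (nat_lit 271) (nat_lit 258) (nat_lit 191)) (XT.nd (nat_lit 94) (nat_lit 588) (nat_lit 0) (XT.lf (nat_lit 0) (nat_lit 329104758) (nat_lit 672) (nat_lit 4483886178) (nat_lit 84) (nat_lit 9446999744) (nat_lit 136) (nat_lit 5) (nat_lit 144) (nat_lit 5) (nat_lit 137) (nat_lit 5) (nat_lit 272) (nat_lit 258) (nat_lit 190)) (XT.lf (nat_lit 0) (nat_lit 3137787431) (nat_lit 672) (nat_lit 7453452719) (nat_lit 84) (nat_lit 4044561752) (nat_lit 129) (nat_lit 5) (nat_lit 137) (nat_lit 5) (nat_lit 130) (nat_lit 5) (nat_lit 273) (nat_lit 258) (nat_lit 189)))))) (XT.nd (nat_lit 470) (nat_lit 1344) (nat_lit 0) (XT.nd (nat_lit 188) (nat_lit 1092) (nat_lit 0) (XT.nd (nat_lit 94) (nat_lit 504) (nat_lit 0) (XT.lf (nat_lit 0) (nat_lit 4522846344) (nat_lit 504) (nat_lit 1691134053) (nat_lit 588) (nat_lit 8811975624) (nat_lit 123) (nat_lit 5) (nat_lit 129) (nat_lit 5) (nat_lit 130) (nat_lit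 5) (nat_lit 274) (nat_lit 258) (nat_lit 188)) (XT.lf (nat_lit 0) (nat_lit 1765146694) (nat_lit 504) (nat_lit 7841328032) (nat_lit 588) (nat_lit 5823455908) (nat_lit 117) (nat_lit 5) (nat_lit 123) (nat_lit 5) (nat_lit 124) (nat_lit 5) (nat_lit 275) (nat_lit 258) (nat_lit 187))) (XT.nd (nat_lit 94) (nat_lit 1092) (nat_lit 0) (XT.lf (nat_lit 0) (nat_lit 13299786125) (nat_lit 588) (nat_lit 1019824759) (nat_lit 84) (nat_lit 1529901362) (nat_lit 117) (nat_lit 5) (nat_lit 124) (nat_lit 5) (nat_lit 118) (nat_lit 5) (nat_lit 276) (nat_lit 258) (nat_lit 186)) (XT.nd (nat_lit 94) (nat_lit 504) (nat_lit 0) (XT.lf (nat_lit 0) (nat_lit 1069844273) (nat_lit 588) (nat_lit 3882226490) (nat_lit 84) (nat_lit 11330576134) (nat_lit 110) (nat_lit 5) (nat_lit 117) (nat_lit 5) (nat_lit 111) (nat_lit 5) (nat_lit 277) (nat_lit 258) (nat_lit 185)) (XT.lf (nat_lit 0) (nat_lit 4959590566) (nat_lit 588) (nat_lit 6848164687)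 (nat_lit 84) (nat_lit 4923392439) (nat_lit 104) (nat_lit 5) (nat_lit 111) (nat_lit 5) (nat_lit 105) (nat_lit 5) (nat_lit 278) (nat_lit 258) (nat_lit 184))))) (XT.nd (nat_lit 282) (nat_lit 0) (nat_lit 0) (XT.nd (nat_lit 94) (nat_lit 924) (nat_lit 0) (XT.lf (nat_lit 0) (nat_lit 7303771665) (nat_lit 420) (nat_lit 1898011452) (nat_lit 504) (nat_lit 7994761845) (nat_lit 99) (nat_lit 5) (nat_lit 104) (nat_lit 5) (nat_lit 105) (nat_lit 5) (nat_lit 279) (nat_lit 258) (nat_lit 183)) (XT.nd (nat_lit 94) (nat_lit 504) (nat_lit 0) (XT.lf (nat_lit 0) (nat_lit 4622900842) (nat_lit 420) (nat_lit 9234958386) (nat_lit 504) (nat_lit 3820290781) (nat_lit 94) (nat_lit 5) (nat_lit 99) (nat_lit 5) (nat_lit 100) (nat_lit 5) (nat_lit 280) (nat_lit 258) (nat_lit 182)) (XT.lf (nat_lit 0) (nat_lit 700129090) (nat_lit 504) (nat_lit 16287129781) (nat_lit 84) (nat_lit 1191107314) (nat_lit 88) (nat_lit 5) (nat_lit 94) (nat_lit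 5) (nat_lit 89) (nat_lit 5) (nat_lit 281) (nat_lit 258) (nat_lit 181)))) (XT.nd (nat_lit 43052) (nat_lit 0) (nat_lit 7224) (XT.lf (nat_lit 0) (nat_lit 5595760258) (nat_lit 504) (nat_lit 983280546) (nat_lit 84) (nat_lit 12114583025) (nat_lit 88) (nat_lit 5) (nat_lit 94) (nat_lit 5) (nat_lit 89) (nat_lit 5) (nat_lit 282) (nat_lit 258) (nat_lit 180)) (XT.nd (nat_lit 94) (nat_lit 0) (nat_lit 0) (XT.lf (nat_lit 0) (nat_lit 710727960) (nat_lit 0) (nat_lit 710727960) (nat_lit 1092) (nat_lit 3915627331) (nat_lit 174) (nat_lit 5) (nat_lit 174) (nat_lit 3) (nat_lit 187) (nat_lit 3) (nat_lit 259) (nat_lit 259) (nat_lit 202)) (XT.lf (nat_lit 0) (nat_lit 3842868833) (nat_lit 1092) (nat_lit 1683971752) (nat_lit 1176) (nat_lit 5381669132) (nat_lit 174) (nat_lit 5) (nat_lit 187) (nat_lit 3) (nat_lit 188) (nat_lit 5) (nat_lit 260) (nat_lit 259) (nat_lit 201))))))) (XT.nd (nat_lit 1034) (nat_lit 4704) (nat_lit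 0) (XT.nd (nat_lit 470) (nat_lit 2604) (nat_lit 0) (XT.nd (nat_lit 188) (nat_lit 0) (nat_lit 84) (XT.nd (nat_lit 94) (nat_lit 0) (nat_lit 0) (XT.lf (nat_lit 0) (nat_lit 4941099606) (nat_lit 1092) (nat_lit 4808656109) (nat_lit 1176) (nat_lit 1403124721) (nat_lit 175) (nat_lit 5) (nat_lit 188) (nat_lit 5) (nat_lit 189) (nat_lit 5) (nat_lit 261) (nat_lit 259) (nat_lit 200)) (XT.lf (nat_lit 84) (nat_lit 3386615777) (nat_lit 0) (nat_lit 2777755093) (nat_lit 1176) (nat_lit 5242644309) (nat_lit 176) (nat_lit 5) (nat_lit 175) (nat_lit 5) (nat_lit 189) (nat_lit 5) (nat_lit 262) (nat_lit 259) (nat_lit 199))) (XT.nd (nat_lit 94) (nat_lit 0) (nat_lit 84) (XT.lf (nat_lit 84) (nat_lit 361303719) (nat_lit 0) (nat_lit 7150104333) (nat_lit 1176) (nat_lit 4160257522) (nat_lit 177) (nat_lit 5) (nat_lit 176) (nat_lit 5) (nat_lit 190) (nat_lit 5) (nat_lit 263) (nat_lit 259) (nat_lit 198)) (XT.nd (nat_lit 94) (nat_lit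 0) (nat_lit 0) (XT.lf (nat_lit 0) (nat_lit 9008902394) (nat_lit 1092) (nat_lit 2657453542) (nat_lit 1176) (nat_lit 280283870) (nat_lit 177) (nat_lit 5) (nat_lit 190) (nat_lit 5) (nat_lit 191) (nat_lit 5) (nat_lit 264) (nat_lit 259) (nat_lit 197)) (XT.lf (nat_lit 84) (nat_lit 6458901799) (nat_lit 0) (nat_lit 4232231269) (nat_lit 1176) (nat_lit 1540384522) (nat_lit 178) (nat_lit 5) (nat_lit 177) (nat_lit 5) (nat_lit 191) (nat_lit 5) (nat_lit 265) (nat_lit 259) (nat_lit 196))))) (XT.nd (nat_lit 282) (nat_lit 1680) (nat_lit 0) (XT.nd (nat_lit 94) (nat_lit 1176) (nat_lit 0) (XT.lf (nat_lit 84) (nat_lit 3574284396) (nat_lit 0) (nat_lit 8951230094) (nat_lit 1176) (nat_lit 2743404) (nat_lit 179) (nat_lit 5) (nat_lit 178) (nat_lit 5) (nat_lit 192) (nat_lit 5) (nat_lit 266) (nat_lit 259) (nat_lit 195)) (XT.nd (nat_lit 94) (nat_lit 0) (nat_lit 84) (XT.lf (nat_lit 84) (nat_lit 604155914) (nat_lit 0) (nat_lit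 1054683643) (nat_lit 1260) (nat_lit 11177440899) (nat_lit 165) (nat_lit 5) (nat_lit 164) (nat_lit 5) (nat_lit 179) (nat_lit 5) (nat_lit 267) (nat_lit 259) (nat_lit 194)) (XT.lf (nat_lit 0) (nat_lit 3551715260) (nat_lit 1176) (nat_lit 2413233641) (nat_lit 1260) (nat_lit 7189564360) (nat_lit 165) (nat_lit 5) (nat_lit 179) (nat_lit 5) (nat_lit 180) (nat_lit 5) (nat_lit 268) (nat_lit 259) (nat_lit 193)))) (XT.nd (nat_lit 94) (nat_lit 1848) (nat_lit 0) (XT.lf (nat_lit 0) (nat_lit 5629359323) (nat_lit 1176) (nat_lit 5479204389) (nat_lit 84) (nat_lit 2376939636) (nat_lit 166) (nat_lit 5) (nat_lit 180) (nat_lit 5) (nat_lit 167) (nat_lit 5) (nat_lit 269) (nat_lit 259) (nat_lit 192)) (XT.nd (nat_lit 94) (nat_lit 672) (nat_lit 0) (XT.lf (nat_lit 0) (nat_lit 5188444315) (nat_lit 1176) (nat_lit 2741993685) (nat_lit 1260) (nat_lit 5898420604) (nat_lit 152) (nat_lit 5) (nat_lit 166) (nat_lit 5) (nat_lit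 167) (nat_lit 5) (nat_lit 270) (nat_lit 259) (nat_lit 191)) (XT.lf (nat_lit 0) (nat_lit 2286511308) (nat_lit 672) (nat_lit 8183413433) (nat_lit 756) (nat_lit 3715139487) (nat_lit 144) (nat_lit 5) (nat_lit 152) (nat_lit 5) (nat_lit 153) (nat_lit 5) (nat_lit 271) (nat_lit 259) (nat_lit 190)))))) (XT.nd (nat_lit 470) (nat_lit 2436) (nat_lit 0) (XT.nd (nat_lit 188) (nat_lit 1596) (nat_lit 0) (XT.nd (nat_lit 94) (nat_lit 672) (nat_lit 0) (XT.lf (nat_lit 0) (nat_lit 13244520676) (nat_lit 756) (nat_lit 657822932) (nat_lit 84) (nat_lit 652951805) (nat_lit 144) (nat_lit 5) (nat_lit 153) (nat_lit 5) (nat_lit 145) (nat_lit 5) (nat_lit 272) (nat_lit 259) (nat_lit 189)) (XT.lf (nat_lit 0) (nat_lit 1377014196) (nat_lit 672) (nat_lit 3680230158) (nat_lit 84) (nat_lit 9879644963) (nat_lit 136) (nat_lit 5) (nat_lit 144) (nat_lit 5) (nat_lit 137) (nat_lit 5) (nat_lit 273) (nat_lit 259) (nat_lit 188))) (XT.nd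 (nat_lit 94) (nat_lit 1008) (nat_lit 0) (XT.lf (nat_lit 0) (nat_lit 4288264749) (nat_lit 672) (nat_lit 6789827409) (nat_lit 84) (nat_lit 4254724261) (nat_lit 129) (nat_lit 5) (nat_lit 137) (nat_lit 5) (nat_lit 130) (nat_lit 5) (nat_lit 274) (nat_lit 259) (nat_lit 187)) (XT.nd (nat_lit 94) (nat_lit 504) (nat_lit 0) (XT.lf (nat_lit 0) (nat_lit 5758836657) (nat_lit 504) (nat_lit 1723368872) (nat_lit 588) (nat_lit 8261534878) (nat_lit 123) (nat_lit 5) (nat_lit 129) (nat_lit 5) (nat_lit 130) (nat_lit 5) (nat_lit 275) (nat_lit 259) (nat_lit 186)) (XT.lf (nat_lit 0) (nat_lit 2869567107) (nat_lit 504) (nat_lit 8141038446) (nat_lit 588) (nat_lit 5158488365) (nat_lit 117) (nat_lit 5) (nat_lit 123) (nat_lit 5) (nat_lit 124) (nat_lit 5) (nat_lit 276) (nat_lit 259) (nat_lit 185))))) (XT.nd (nat_lit 282) (nat_lit 1344) (nat_lit 0) (XT.nd (nat_lit 94) (nat_lit 1092) (nat_lit 0) (XT.lf (nat_lit 0) (nat_lit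 14845571750) (nat_lit 588) (nat_lit 73228110) (nat_lit 84) (nat_lit 1692360128) (nat_lit 117) (nat_lit 5) (nat_lit 124) (nat_lit 5) (nat_lit 118) (nat_lit 5) (nat_lit 277) (nat_lit 259) (nat_lit 184)) (XT.nd (nat_lit 94) (nat_lit 504) (nat_lit 0) (XT.lf (nat_lit 0) (nat_lit 1982820373) (nat_lit 588) (nat_lit 3084271555) (nat_lit 84) (nat_lit 11999605378) (nat_lit 110) (nat_lit 5) (nat_lit 117) (nat_lit 5) (nat_lit 111) (nat_lit 5) (nat_lit 278) (nat_lit 259) (nat_lit 183)) (XT.lf (nat_lit 0) (nat_lit 6038428924) (nat_lit 588) (nat_lit 6196332321) (nat_lit 84) (nat_lit 5303863772) (nat_lit 104) (nat_lit 5) (nat_lit 111) (nat_lit 5) (nat_lit 105) (nat_lit 5) (nat_lit 279) (nat_lit 259) (nat_lit 182)))) (XT.nd (nat_lit 94) (nat_lit 924) (nat_lit 0) (XT.lf (nat_lit 0) (nat_lit 8637824349) (nat_lit 420) (nat_lit 1826137277) (nat_lit 504) (nat_lit 7564337458) (nat_lit 99) (nat_lit 5) (nat_lit 104)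 (nat_lit 5) (nat_lit 105) (nat_lit 5) (nat_lit 280) (nat_lit 259) (nat_lit 181)) (XT.nd (nat_lit 94) (nat_lit 504) (nat_lit 0) (XT.lf (nat_lit 0) (nat_lit 5823726984) (nat_lit 420) (nat_lit 9503493901) (nat_lit 504) (nat_lit 3207660220) (nat_lit 94) (nat_lit 5) (nat_lit 99) (nat_lit 5) (nat_lit 100) (nat_lit 5) (nat_lit 281) (nat_lit 259) (nat_lit 180)) (XT.lf (nat_lit 0) (nat_lit 1496156228) (nat_lit 504) (nat_lit 16114513984) (nat_lit 84) (nat_lit 1449978558) (nat_lit 88) (nat_lit 5) (nat_lit 94) (nat_lit 5) (nat_lit 89) (nat_lit 5) (nat_lit 282) (nat_lit 259) (nat_lit 179))))))))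
noncomputable def xc26 : XT := (XT.nd (nat_lit 2068) (nat_lit 420) (nat_lit 0) (XT.nd (nat_lit 1034) (nat_lit 5460) (nat_lit 0) (XT.nd (nat_lit 470) (nat_lit 840) (nat_lit 0) (XT.nd (nat_lit 188) (nat_lit 0) (nat_lit 84) (XT.nd (nat_lit 94) (nat_lit 0) (nat_lit 0) (XT.lf (nat_lit 0) (nat_lit 1173256904) (nat_lit 0) (nat_lit 1173256904) (nat_lit 1092) (nat_lit 3227534126) (nat_lit 174) (nat_lit 5) (nat_lit 174) (nat_lit 3) (nat_lit 187) (nat_lit 3) (nat_lit 260) (nat_lit 260) (nat_lit 200)) (XT.lf (nat_lit 0) (nat_lit 5652588425) (nat_lit 1092) (nat_lit 888856740) (nat_lit 1176) (nat_lit 4855874874) (nat_lit 174) (nat_lit 5) (nat_lit 187) (nat_lit 3) (nat_lit 188) (nat_lit 5) (nat_lit 261) (nat_lit 260) (nat_lit 199))) (XT.nd (nat_lit 94) (nat_lit 0) (nat_lit 0) (XT.lf (nat_lit 0) (nat_lit 6730526656) (nat_lit 1092) (nat_lit 4130241087) (nat_lit 1176) (nat_lit 795773694) (nat_lit 175) (nat_lit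 5) (nat_lit 188) (nat_lit 5) (nat_lit 189) (nat_lit 5) (nat_lit 262) (nat_lit 260) (nat_lit 198)) (XT.nd (nat_lit 94) (nat_lit 0) (nat_lit 84) (XT.lf (nat_lit 84) (nat_lit 4451342181) (nat_lit 0) (nat_lit 3500149644) (nat_lit 1176) (nat_lit 3974112528) (nat_lit 176) (nat_lit 5) (nat_lit 175) (nat_lit 5) (nat_lit 189) (nat_lit 5) (nat_lit 263) (nat_lit 260) (nat_lit 197)) (XT.lf (nat_lit 84) (nat_lit 1308686918) (nat_lit 0) (nat_lit 7990932702) (nat_lit 1176) (nat_lit 2906186793) (nat_lit 177) (nat_lit 5) (nat_lit 176) (nat_lit 5) (nat_lit 190) (nat_lit 5) (nat_lit 264) (nat_lit 260) (nat_lit 196))))) (XT.nd (nat_lit 282) (nat_lit 0) (nat_lit 0) (XT.nd (nat_lit 94) (nat_lit 1008) (nat_lit 0) (XT.lf (nat_lit 84) (nat_lit 10642182972) (nat_lit 0) (nat_lit 159181888) (nat_lit 1176) (nat_lit 1695636328) (nat_lit 177) (nat_lit 5) (nat_lit 176) (nat_lit 5) (nat_lit 190) (nat_lit 5) (nat_lit 265)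 (nat_lit 260) (nat_lit 195)) (XT.nd (nat_lit 94) (nat_lit 1092) (nat_lit 0) (XT.lf (nat_lit 84) (nat_lit 7695205813) (nat_lit 0) (nat_lit 4817083281) (nat_lit 1176) (nat_lit 285773398) (nat_lit 178) (nat_lit 5) (nat_lit 177) (nat_lit 5) (nat_lit 191) (nat_lit 5) (nat_lit 266) (nat_lit 260) (nat_lit 194)) (XT.lf (nat_lit 0) (nat_lit 1243213472) (nat_lit 1176) (nat_lit 8434750810) (nat_lit 1260) (nat_lit 3433096624) (nat_lit 164) (nat_lit 5) (nat_lit 178) (nat_lit 5) (nat_lit 179) (nat_lit 5) (nat_lit 267) (nat_lit 260) (nat_lit 193)))) (XT.nd (nat_lit 94) (nat_lit 0) (nat_lit 84) (XT.lf (nat_lit 84) (nat_lit 1576574579) (nat_lit 0) (nat_lit 1362399241) (nat_lit 1260) (nat_lit 10497218929) (nat_lit 165) (nat_lit 5) (nat_lit 164) (nat_lit 5) (nat_lit 179) (nat_lit 5) (nat_lit 268) (nat_lit 260) (nat_lit 192)) (XT.nd (nat_lit 94) (nat_lit 0) (nat_lit 84) (XT.lf (nat_lit 0) (nat_lit 4866778399)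 (nat_lit 1176) (nat_lit 1593939475) (nat_lit 1260) (nat_lit 7311709343) (nat_lit 165) (nat_lit 5) (nat_lit 179) (nat_lit 5) (nat_lit 180) (nat_lit 5) (nat_lit 269) (nat_lit 260) (nat_lit 191)) (XT.lf (nat_lit 0) (nat_lit 7002366574) (nat_lit 1176) (nat_lit 4796948287) (nat_lit 84) (nat_lit 2322259779) (nat_lit 166) (nat_lit 5) (nat_lit 180) (nat_lit 5) (nat_lit 167) (nat_lit 5) (nat_lit 270) (nat_lit 260) (nat_lit 190)))))) (XT.nd (nat_lit 470) (nat_lit 2520) (nat_lit 0) (XT.nd (nat_lit 188) (nat_lit 1260) (nat_lit 0) (XT.nd (nat_lit 94) (nat_lit 672) (nat_lit 0) (XT.lf (nat_lit 0) (nat_lit 6379676864) (nat_lit 1176) (nat_lit 2997226629) (nat_lit 1260) (nat_lit 5106650014) (nat_lit 152) (nat_lit 5) (nat_lit 166) (nat_lit 5) (nat_lit 167) (nat_lit 5) (nat_lit 271) (nat_lit 260) (nat_lit 189)) (XT.lf (nat_lit 0) (nat_lit 3345956897) (nat_lit 672) (nat_lit 8656687450) (nat_lit 756) (nat_lit 2856350274)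 (nat_lit 144) (nat_lit 5) (nat_lit 152) (nat_lit 5) (nat_lit 153) (nat_lit 5) (nat_lit 272) (nat_lit 260) (nat_lit 188))) (XT.nd (nat_lit 94) (nat_lit 672) (nat_lit 0) (XT.lf (nat_lit 0) (nat_lit 249375658) (nat_lit 588) (nat_lit 14620634510) (nat_lit 672) (nat_lit 379335795) (nat_lit 137) (nat_lit 5) (nat_lit 144) (nat_lit 5) (nat_lit 145) (nat_lit 5) (nat_lit 273) (nat_lit 260) (nat_lit 187)) (XT.nd (nat_lit 94) (nat_lit 588) (nat_lit 0) (XT.lf (nat_lit 0) (nat_lit 2381424272) (nat_lit 672) (nat_lit 2931951118) (nat_lit 84) (nat_lit 10337613815) (nat_lit 136) (nat_lit 5) (nat_lit 144) (nat_lit 5) (nat_lit 137) (nat_lit 5) (nat_lit 274) (nat_lit 260) (nat_lit 186)) (XT.lf (nat_lit 0) (nat_lit 5403891544) (nat_lit 672) (nat_lit 6189365994) (nat_lit 84) (nat_lit 4474657227) (nat_lit 129) (nat_lit 5) (nat_lit 137) (nat_lit 5) (nat_lit 130) (nat_lit 5) (nat_lit 275) (nat_lit 260) (nat_lit 185)))))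 (XT.nd (nat_lit 282) (nat_lit 1008) (nat_lit 0) (XT.nd (nat_lit 94) (nat_lit 1008) (nat_lit 0) (XT.lf (nat_lit 0) (nat_lit 6962740392) (nat_lit 504) (nat_lit 1762079825) (nat_lit 588) (nat_lit 7775709557) (nat_lit 123) (nat_lit 5) (nat_lit 129) (nat_lit 5) (nat_lit 130) (nat_lit 5) (nat_lit 276) (nat_lit 260) (nat_lit 184)) (XT.nd (nat_lit 94) (nat_lit 504) (nat_lit 0) (XT.lf (nat_lit 0) (nat_lit 3934735328) (nat_lit 504) (nat_lit 8464320766) (nat_lit 588) (nat_lit 4549165311) (nat_lit 117) (nat_lit 5) (nat_lit 123) (nat_lit 5) (nat_lit 124) (nat_lit 5) (nat_lit 277) (nat_lit 260) (nat_lit 183)) (XT.lf (nat_lit 0) (nat_lit 847160863) (nat_lit 504) (nat_lit 15549036893) (nat_lit 588) (nat_lit 1017228072) (nat_lit 111) (nat_lit 5) (nat_lit 117) (nat_lit 5) (nat_lit 118) (nat_lit 5) (nat_lit 278) (nat_lit 260) (nat_lit 182)))) (XT.nd (nat_lit 94) (nat_lit 924) (nat_lit 0) (XT.lf (nat_lit 0) (nat_lit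 2861538612) (nat_lit 588) (nat_lit 2338651791) (nat_lit 84) (nat_lit 12692556566) (nat_lit 110) (nat_lit 5) (nat_lit 117) (nat_lit 5) (nat_lit 111) (nat_lit 5) (nat_lit 279) (nat_lit 260) (nat_lit 181)) (XT.nd (nat_lit 94) (nat_lit 420) (nat_lit 0) (XT.lf (nat_lit 0) (nat_lit 7093963821) (nat_lit 588) (nat_lit 5604343405) (nat_lit 84) (nat_lit 5690872571) (nat_lit 104) (nat_lit 5) (nat_lit 111) (nat_lit 5) (nat_lit 105) (nat_lit 5) (nat_lit 280) (nat_lit 260) (nat_lit 180)) (XT.lf (nat_lit 0) (nat_lit 9948503866) (nat_lit 420) (nat_lit 1766174528) (nat_lit 504) (nat_lit 7189572489) (nat_lit 99) (nat_lit 5) (nat_lit 104) (nat_lit 5) (nat_lit 105) (nat_lit 5) (nat_lit 281) (nat_lit 260) (nat_lit 179))))))) (XT.nd (nat_lit 44180) (nat_lit 0) (nat_lit 840) (XT.nd (nat_lit 43616) (nat_lit 0) (nat_lit 5796) (XT.nd (nat_lit 43334) (nat_lit 0) (nat_lit 6720) (XT.nd (nat_lit 43240) (nat_lit 0) (nat_lit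 6720) (XT.lf (nat_lit 0) (nat_lit 6994442676) (nat_lit 420) (nat_lit 9803419249) (nat_lit 504) (nat_lit 2639113435) (nat_lit 94) (nat_lit 5) (nat_lit 99) (nat_lit 5) (nat_lit 100) (nat_lit 5) (nat_lit 282) (nat_lit 260) (nat_lit 178)) (XT.lf (nat_lit 0) (nat_lit 1619214577) (nat_lit 0) (nat_lit 1619214577) (nat_lit 1092) (nat_lit 2587210540) (nat_lit 174) (nat_lit 5) (nat_lit 174) (nat_lit 3) (nat_lit 187) (nat_lit 3) (nat_lit 261) (nat_lit 261) (nat_lit 198))) (XT.nd (nat_lit 94) (nat_lit 0) (nat_lit 84) (XT.lf (nat_lit 0) (nat_lit 7402407098) (nat_lit 1092) (nat_lit 135736221) (nat_lit 1176) (nat_lit 4377691099) (nat_lit 174) (nat_lit 5) (nat_lit 187) (nat_lit 3) (nat_lit 188) (nat_lit 5) (nat_lit 262) (nat_lit 261) (nat_lit 197)) (XT.nd (nat_lit 94) (nat_lit 0) (nat_lit 0) (XT.lf (nat_lit 0) (nat_lit 8466029922) (nat_lit 1092) (nat_lit 3503331076) (nat_lit 1176) (nat_lit 221043318) (nat_lit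 175) (nat_lit 5) (nat_lit 188) (nat_lit 5) (nat_lit 189) (nat_lit 5) (nat_lit 263) (nat_lit 261) (nat_lit 196)) (XT.lf (nat_lit 84) (nat_lit 5486059509) (nat_lit 0) (nat_lit 4204414991) (nat_lit 1176) (nat_lit 2784460788) (nat_lit 176) (nat_lit 5) (nat_lit 175) (nat_lit 5) (nat_lit 189) (nat_lit 5) (nat_lit 264) (nat_lit 261) (nat_lit 195))))) (XT.nd (nat_lit 282) (nat_lit 0) (nat_lit 84) (XT.nd (nat_lit 94) (nat_lit 1092) (nat_lit 0) (XT.lf (nat_lit 84) (nat_lit 2217040096) (nat_lit 0) (nat_lit 8828867683) (nat_lit 1176) (nat_lit 1725343203) (nat_lit 177) (nat_lit 5) (nat_lit 176) (nat_lit 5) (nat_lit 190) (nat_lit 5) (nat_lit 265) (nat_lit 261) (nat_lit 194)) (XT.nd (nat_lit 94) (nat_lit 1092) (nat_lit 0) (XT.lf (nat_lit 84) (nat_lit 11977071961) (nat_lit 0) (nat_lit 584653694) (nat_lit 1176) (nat_lit 517415354) (nat_lit 177) (nat_lit 5) (nat_lit 176) (nat_lit 5) (nat_lit 190) (nat_lit 5)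 (nat_lit 266) (nat_lit 261) (nat_lit 193)) (XT.lf (nat_lit 0) (nat_lit 887182979) (nat_lit 1176) (nat_lit 4498826085) (nat_lit 1260) (nat_lit 8010758123) (nat_lit 163) (nat_lit 5) (nat_lit 177) (nat_lit 5) (nat_lit 178) (nat_lit 5) (nat_lit 267) (nat_lit 261) (nat_lit 192)))) (XT.nd (nat_lit 94) (nat_lit 0) (nat_lit 0) (XT.lf (nat_lit 0) (nat_lit 2435558936) (nat_lit 1176) (nat_lit 7979491283) (nat_lit 1260) (nat_lit 3312007264) (nat_lit 164) (nat_lit 5) (nat_lit 178) (nat_lit 5) (nat_lit 179) (nat_lit 5) (nat_lit 268) (nat_lit 261) (nat_lit 191)) (XT.nd (nat_lit 94) (nat_lit 0) (nat_lit 84) (XT.lf (nat_lit 84) (nat_lit 2510016342) (nat_lit 0) (nat_lit 1661794863) (nat_lit 1260) (nat_lit 9898185077) (nat_lit 165) (nat_lit 5) (nat_lit 164) (nat_lit 5) (nat_lit 179) (nat_lit 5) (nat_lit 269) (nat_lit 261) (nat_lit 190)) (XT.lf (nat_lit 0) (nat_lit 6141842829) (nat_lit 1176) (nat_lit 821068786)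 (nat_lit 1260) (nat_lit 7462026570) (nat_lit 165) (nat_lit 5) (nat_lit 179) (nat_lit 5) (nat_lit 180) (nat_lit 5) (nat_lit 270) (nat_lit 261) (nat_lit 189)))))) (XT.nd (nat_lit 470) (nat_lit 2688) (nat_lit 0) (XT.nd (nat_lit 188) (nat_lit 1344) (nat_lit 0) (XT.nd (nat_lit 94) (nat_lit 1176) (nat_lit 0) (XT.lf (nat_lit 0) (nat_lit 8342543211) (nat_lit 1176) (nat_lit 4169479311) (nat_lit 84) (nat_lit 2280978809) (nat_lit 166) (nat_lit 5) (nat_lit 180) (nat_lit 5) (nat_lit 167) (nat_lit 5) (nat_lit 271) (nat_lit 261) (nat_lit 188)) (XT.lf (nat_lit 0) (nat_lit 7543840149) (nat_lit 1176) (nat_lit 3254238310) (nat_lit 1260) (nat_lit 4376321182) (nat_lit 152) (nat_lit 5) (nat_lit 166) (nat_lit 5) (nat_lit 167) (nat_lit 5) (nat_lit 272) (nat_lit 261) (nat_lit 187))) (XT.nd (nat_lit 94) (nat_lit 672) (nat_lit 0) (XT.lf (nat_lit 0) (nat_lit 4370506465) (nat_lit 672) (nat_lit 9147665446) (nat_lit 756)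 (nat_lit 2051733604) (nat_lit 144) (nat_lit 5) (nat_lit 152) (nat_lit 5) (nat_lit 153) (nat_lit 5) (nat_lit 273) (nat_lit 261) (nat_lit 186)) (XT.nd (nat_lit 94) (nat_lit 0) (nat_lit 0) (XT.lf (nat_lit 0) (nat_lit 501737556) (nat_lit 672) (nat_lit 14857635114) (nat_lit 84) (nat_lit 621410607) (nat_lit 136) (nat_lit 5) (nat_lit 144) (nat_lit 5) (nat_lit 137) (nat_lit 5) (nat_lit 274) (nat_lit 261) (nat_lit 185)) (XT.lf (nat_lit 0) (nat_lit 3349075409) (nat_lit 672) (nat_lit 2232933665) (nat_lit 84) (nat_lit 10821829294) (nat_lit 136) (nat_lit 5) (nat_lit 144) (nat_lit 5) (nat_lit 137) (nat_lit 5) (nat_lit 275) (nat_lit 261) (nat_lit 184))))) (XT.nd (nat_lit 282) (nat_lit 1092) (nat_lit 0) (XT.nd (nat_lit 94) (nat_lit 1008) (nat_lit 0) (XT.lf (nat_lit 0) (nat_lit 6491513384) (nat_lit 672) (nat_lit 5646269408) (nat_lit 84) (nat_lit 4704917757) (nat_lit 129) (nat_lit 5) (nat_lit 137) (nat_lit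 5) (nat_lit 130) (nat_lit 5) (nat_lit 276) (nat_lit 261) (nat_lit 183)) (XT.nd (nat_lit 94) (nat_lit 504) (nat_lit 0) (XT.lf (nat_lit 0) (nat_lit 8141681857) (nat_lit 504) (nat_lit 1807138473) (nat_lit 588) (nat_lit 7349164363) (nat_lit 123) (nat_lit 5) (nat_lit 129) (nat_lit 5) (nat_lit 130) (nat_lit 5) (nat_lit 277) (nat_lit 261) (nat_lit 182)) (XT.lf (nat_lit 0) (nat_lit 4967471973) (nat_lit 504) (nat_lit 8811555305) (nat_lit 588) (nat_lit 3990004554) (nat_lit 117) (nat_lit 5) (nat_lit 123) (nat_lit 5) (nat_lit 124) (nat_lit 5) (nat_lit 278) (nat_lit 261) (nat_lit 181)))) (XT.nd (nat_lit 94) (nat_lit 588) (nat_lit 0) (XT.lf (nat_lit 0) (nat_lit 1729277855) (nat_lit 504) (nat_lit 16220719820) (nat_lit 588) (nat_lit 308409793) (nat_lit 111) (nat_lit 5) (nat_lit 117) (nat_lit 5) (nat_lit 118) (nat_lit 5) (nat_lit 279) (nat_lit 261) (nat_lit 180)) (XT.nd (nat_lit 94) (nat_lit 504) (nat_lit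 0) (XT.lf (nat_lit 0) (nat_lit 3711715063) (nat_lit 588) (nat_lit 1639409014) (nat_lit 84) (nat_lit 13411511757) (nat_lit 110) (nat_lit 5) (nat_lit 117) (nat_lit 5) (nat_lit 111) (nat_lit 5) (nat_lit 280) (nat_lit 261) (nat_lit 179)) (XT.lf (nat_lit 0) (nat_lit 8132211628) (nat_lit 588) (nat_lit 5066596374) (nat_lit 84) (nat_lit 6085906549) (nat_lit 104) (nat_lit 5) (nat_lit 111) (nat_lit 5) (nat_lit 105) (nat_lit 5) (nat_lit 281) (nat_lit 261) (nat_lit 178))))))))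
noncomputable def xc27 : XT := (XT.nd (nat_lit 88642) (nat_lit 0) (nat_lit 924) (XT.nd (nat_lit 44274) (nat_lit 0) (nat_lit 420) (XT.nd (nat_lit 43710) (nat_lit 0) (nat_lit 5292) (XT.nd (nat_lit 43428) (nat_lit 0) (nat_lit 6300) (XT.nd (nat_lit 43334) (nat_lit 0) (nat_lit 6300) (XT.lf (nat_lit 0) (nat_lit 11243015952) (nat_lit 420) (nat_lit 1717277257) (nat_lit 504) (nat_lit 6866074387) (nat_lit 99) (nat_lit 5) (nat_lit 104) (nat_lit 5) (nat_lit 105) (nat_lit 5) (nat_lit 282) (nat_lit 261) (nat_lit 177)) (XT.lf (nat_lit 0) (nat_lit 2051463131) (nat_lit 0) (nat_lit 2051463131) (nat_lit 1092) (nat_lit 1989405269) (nat_lit 174) (nat_lit 5) (nat_lit 174) (nat_lit 3) (nat_lit 187) (nat_lit 3) (nat_lit 262) (nat_lit 262) (nat_lit 196))) (XT.nd (nat_lit 94) (nat_lit 0) (nat_lit 0) (XT.lf (nat_lit 84) (nat_lit 594367290) (nat_lit 0) (nat_lit 8515566593) (nat_lit 1176) (nat_lit 3354883030) (nat_lit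 175) (nat_lit 5) (nat_lit 174) (nat_lit 5) (nat_lit 188) (nat_lit 5) (nat_lit 263) (nat_lit 262) (nat_lit 195)) (XT.nd (nat_lit 94) (nat_lit 0) (nat_lit 84) (XT.lf (nat_lit 84) (nat_lit 9829114985) (nat_lit 0) (nat_lit 332838284) (nat_lit 1176) (nat_lit 2593429497) (nat_lit 175) (nat_lit 5) (nat_lit 174) (nat_lit 5) (nat_lit 188) (nat_lit 5) (nat_lit 264) (nat_lit 262) (nat_lit 194)) (XT.lf (nat_lit 84) (nat_lit 6497006673) (nat_lit 0) (nat_lit 4894688226) (nat_lit 1176) (nat_lit 1664402769) (nat_lit 176) (nat_lit 5) (nat_lit 175) (nat_lit 5) (nat_lit 189) (nat_lit 5) (nat_lit 265) (nat_lit 262) (nat_lit 193))))) (XT.nd (nat_lit 282) (nat_lit 0) (nat_lit 168) (XT.nd (nat_lit 94) (nat_lit 1176) (nat_lit 0) (XT.lf (nat_lit 84) (nat_lit 3092444330) (nat_lit 0) (nat_lit 9667942220) (nat_lit 1176) (nat_lit 608750563) (nat_lit 177) (nat_lit 5) (nat_lit 176) (nat_lit 5) (nat_lit 190) (nat_lit 5)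 (nat_lit 266) (nat_lit 262) (nat_lit 192)) (XT.nd (nat_lit 94) (nat_lit 0) (nat_lit 84) (XT.lf (nat_lit 0) (nat_lit 588638046) (nat_lit 1176) (nat_lit 396998931) (nat_lit 1260) (nat_lit 12708486756) (nat_lit 162) (nat_lit 5) (nat_lit 176) (nat_lit 5) (nat_lit 177) (nat_lit 5) (nat_lit 267) (nat_lit 262) (nat_lit 191)) (XT.lf (nat_lit 0) (nat_lit 2002237237) (nat_lit 1176) (nat_lit 3947504267) (nat_lit 1260) (nat_lit 8079389713) (nat_lit 163) (nat_lit 5) (nat_lit 177) (nat_lit 5) (nat_lit 178) (nat_lit 5) (nat_lit 268) (nat_lit 262) (nat_lit 190)))) (XT.nd (nat_lit 94) (nat_lit 0) (nat_lit 0) (XT.lf (nat_lit 0) (nat_lit 3582447804) (nat_lit 1176) (nat_lit 7583003655) (nat_lit 1260) (nat_lit 3212080016) (nat_lit 164) (nat_lit 5) (nat_lit 178) (nat_lit 5) (nat_lit 179) (nat_lit 5) (nat_lit 269) (nat_lit 262) (nat_lit 189)) (XT.nd (nat_lit 94) (nat_lit 0) (nat_lit 84) (XT.lf (nat_lit 84) (nat_lit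 3410676373) (nat_lit 0) (nat_lit 1954658448) (nat_lit 1260) (nat_lit 9373688618) (nat_lit 165) (nat_lit 5) (nat_lit 164) (nat_lit 5) (nat_lit 179) (nat_lit 5) (nat_lit 270) (nat_lit 262) (nat_lit 188)) (XT.lf (nat_lit 0) (nat_lit 7384740422) (nat_lit 1176) (nat_lit 88818223) (nat_lit 1260) (nat_lit 7639873258) (nat_lit 165) (nat_lit 5) (nat_lit 179) (nat_lit 5) (nat_lit 180) (nat_lit 5) (nat_lit 271) (nat_lit 262) (nat_lit 187)))))) (XT.nd (nat_lit 470) (nat_lit 2688) (nat_lit 0) (XT.nd (nat_lit 188) (nat_lit 1344) (nat_lit 0) (XT.nd (nat_lit 94) (nat_lit 1176) (nat_lit 0) (XT.lf (nat_lit 0) (nat_lit 9657682442) (nat_lit 1176) (nat_lit 3591271743) (nat_lit 84) (nat_lit 2252266790) (nat_lit 166) (nat_lit 5) (nat_lit 180) (nat_lit 5) (nat_lit 167) (nat_lit 5) (nat_lit 272) (nat_lit 262) (nat_lit 186)) (XT.lf (nat_lit 0) (nat_lit 8687634824) (nat_lit 1176) (nat_lit 3514138751) (nat_lit 1260)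 (nat_lit 3701113356) (nat_lit 152) (nat_lit 5) (nat_lit 166) (nat_lit 5) (nat_lit 167) (nat_lit 5) (nat_lit 273) (nat_lit 262) (nat_lit 185))) (XT.nd (nat_lit 94) (nat_lit 672) (nat_lit 0) (XT.lf (nat_lit 0) (nat_lit 5366584371) (nat_lit 672) (nat_lit 9657786700) (nat_lit 756) (nat_lit 1294969550) (nat_lit 144) (nat_lit 5) (nat_lit 152) (nat_lit 5) (nat_lit 153) (nat_lit 5) (nat_lit 274) (nat_lit 262) (nat_lit 184)) (XT.nd (nat_lit 94) (nat_lit 0) (nat_lit 0) (XT.lf (nat_lit 0) (nat_lit 1334995789) (nat_lit 672) (nat_lit 14795169242) (nat_lit 84) (nat_lit 621371412) (nat_lit 136) (nat_lit 5) (nat_lit 144) (nat_lit 5) (nat_lit 137) (nat_lit 5) (nat_lit 275) (nat_lit 262) (nat_lit 183)) (XT.lf (nat_lit 0) (nat_lit 4286216184) (nat_lit 672) (nat_lit 1577582607) (nat_lit 84) (nat_lit 11333292449) (nat_lit 136) (nat_lit 5) (nat_lit 144) (nat_lit 5) (nat_lit 137) (nat_lit 5) (nat_lit 276) (nat_lit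 262) (nat_lit 182))))) (XT.nd (nat_lit 282) (nat_lit 1092) (nat_lit 0) (XT.nd (nat_lit 94) (nat_lit 1008) (nat_lit 0) (XT.lf (nat_lit 0) (nat_lit 7557519678) (nat_lit 672) (nat_lit 5155281396) (nat_lit 84) (nat_lit 4946084432) (nat_lit 129) (nat_lit 5) (nat_lit 137) (nat_lit 5) (nat_lit 130) (nat_lit 5) (nat_lit 277) (nat_lit 262) (nat_lit 181)) (XT.nd (nat_lit 94) (nat_lit 504) (nat_lit 0) (XT.lf (nat_lit 0) (nat_lit 9302330073) (nat_lit 504) (nat_lit 1858452002) (nat_lit 588) (nat_lit 6977093628) (nat_lit 123) (nat_lit 5) (nat_lit 129) (nat_lit 5) (nat_lit 130) (nat_lit 5) (nat_lit 278) (nat_lit 262) (nat_lit 180)) (XT.lf (nat_lit 0) (nat_lit 5974122106) (nat_lit 504) (nat_lit 9183215610) (nat_lit 588) (nat_lit 3476018139) (nat_lit 117) (nat_lit 5) (nat_lit 123) (nat_lit 5) (nat_lit 124) (nat_lit 5) (nat_lit 279) (nat_lit 262) (nat_lit 179)))) (XT.nd (nat_lit 94) (nat_lit 504) (nat_lit 0)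 (XT.lf (nat_lit 0) (nat_lit 356940448) (nat_lit 588) (nat_lit 16574668056) (nat_lit 84) (nat_lit 2216275640) (nat_lit 110) (nat_lit 5) (nat_lit 117) (nat_lit 5) (nat_lit 111) (nat_lit 5) (nat_lit 280) (nat_lit 262) (nat_lit 178)) (XT.nd (nat_lit 94) (nat_lit 504) (nat_lit 0) (XT.lf (nat_lit 0) (nat_lit 4538660925) (nat_lit 588) (nat_lit 981084348) (nat_lit 84) (nat_lit 14158574750) (nat_lit 110) (nat_lit 5) (nat_lit 117) (nat_lit 5) (nat_lit 111) (nat_lit 5) (nat_lit 281) (nat_lit 262) (nat_lit 177)) (XT.lf (nat_lit 0) (nat_lit 9158821860) (nat_lit 588) (nat_lit 4578008549) (nat_lit 84) (nat_lit 6490419881) (nat_lit 104) (nat_lit 5) (nat_lit 111) (nat_lit 5) (nat_lit 105) (nat_lit 5) (nat_lit 282) (nat_lit 262) (nat_lit 176))))))) (XT.nd (nat_lit 1034) (nat_lit 4368) (nat_lit 0) (XT.nd (nat_lit 470) (nat_lit 0) (nat_lit 0) (XT.nd (nat_lit 188) (nat_lit 1008) (nat_lit 0) (XT.nd (nat_lit 94)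 (nat_lit 0) (nat_lit 0) (XT.lf (nat_lit 0) (nat_lit 2472664700) (nat_lit 0) (nat_lit 2472664700) (nat_lit 1092) (nat_lit 1429314719) (nat_lit 174) (nat_lit 5) (nat_lit 174) (nat_lit 3) (nat_lit 187) (nat_lit 3) (nat_lit 263) (nat_lit 263) (nat_lit 194)) (XT.lf (nat_lit 84) (nat_lit 1295466065) (nat_lit 0) (nat_lit 9484505361) (nat_lit 1176) (nat_lit 2265577402) (nat_lit 175) (nat_lit 5) (nat_lit 174) (nat_lit 5) (nat_lit 188) (nat_lit 5) (nat_lit 264) (nat_lit 263) (nat_lit 193))) (XT.nd (nat_lit 94) (nat_lit 1008) (nat_lit 0) (XT.lf (nat_lit 84) (nat_lit 10959980650) (nat_lit 0) (nat_lit 866775854) (nat_lit 1176) (nat_lit 1525910706) (nat_lit 175) (nat_lit 5) (nat_lit 174) (nat_lit 5) (nat_lit 188) (nat_lit 5) (nat_lit 265) (nat_lit 263) (nat_lit 192)) (XT.nd (nat_lit 94) (nat_lit 1092) (nat_lit 0) (XT.lf (nat_lit 84) (nat_lit 7490015001) (nat_lit 0) (nat_lit 5574844393) (nat_lit 1176) (nat_lit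 605417866) (nat_lit 176) (nat_lit 5) (nat_lit 175) (nat_lit 5) (nat_lit 189) (nat_lit 5) (nat_lit 266) (nat_lit 263) (nat_lit 191)) (XT.lf (nat_lit 0) (nat_lit 441596033) (nat_lit 1176) (nat_lit 10065195786) (nat_lit 1260) (nat_lit 3493731232) (nat_lit 162) (nat_lit 5) (nat_lit 176) (nat_lit 5) (nat_lit 177) (nat_lit 5) (nat_lit 267) (nat_lit 263) (nat_lit 190))))) (XT.nd (nat_lit 282) (nat_lit 0) (nat_lit 168) (XT.nd (nat_lit 94) (nat_lit 0) (nat_lit 84) (XT.lf (nat_lit 84) (nat_lit 273358574) (nat_lit 0) (nat_lit 1363272412) (nat_lit 1260) (nat_lit 12706549297) (nat_lit 163) (nat_lit 5) (nat_lit 162) (nat_lit 5) (nat_lit 177) (nat_lit 5) (nat_lit 268) (nat_lit 263) (nat_lit 189)) (XT.nd (nat_lit 94) (nat_lit 0) (nat_lit 84) (XT.lf (nat_lit 0) (nat_lit 3073501125) (nat_lit 1176) (nat_lit 3440785945) (nat_lit 1260) (nat_lit 8182310387) (nat_lit 163) (nat_lit 5) (nat_lit 177) (nat_lit 5) (nat_lit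 178) (nat_lit 5) (nat_lit 269) (nat_lit 263) (nat_lit 188)) (XT.lf (nat_lit 0) (nat_lit 4691376019) (nat_lit 1176) (nat_lit 7240646180) (nat_lit 1260) (nat_lit 3131842646) (nat_lit 164) (nat_lit 5) (nat_lit 178) (nat_lit 5) (nat_lit 179) (nat_lit 5) (nat_lit 270) (nat_lit 263) (nat_lit 187)))) (XT.nd (nat_lit 94) (nat_lit 0) (nat_lit 84) (XT.lf (nat_lit 84) (nat_lit 4284302449) (nat_lit 0) (nat_lit 2242662429) (nat_lit 1260) (nat_lit 8917742017) (nat_lit 165) (nat_lit 5) (nat_lit 164) (nat_lit 5) (nat_lit 179) (nat_lit 5) (nat_lit 271) (nat_lit 263) (nat_lit 186)) (XT.nd (nat_lit 94) (nat_lit 0) (nat_lit 84) (XT.lf (nat_lit 84) (nat_lit 622259678) (nat_lit 0) (nat_lit 7987454206) (nat_lit 1260) (nat_lit 7229438839) (nat_lit 166) (nat_lit 5) (nat_lit 165) (nat_lit 5) (nat_lit 180) (nat_lit 5) (nat_lit 272) (nat_lit 263) (nat_lit 185)) (XT.lf (nat_lit 0) (nat_lit 10955089985) (nat_lit 1176)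 (nat_lit 3057291989) (nat_lit 84) (nat_lit 2235391730) (nat_lit 166) (nat_lit 5) (nat_lit 180) (nat_lit 5) (nat_lit 167) (nat_lit 5) (nat_lit 273) (nat_lit 263) (nat_lit 184)))))) (XT.nd (nat_lit 470) (nat_lit 1596) (nat_lit 0) (XT.nd (nat_lit 188) (nat_lit 1260) (nat_lit 0) (XT.nd (nat_lit 94) (nat_lit 672) (nat_lit 0) (XT.lf (nat_lit 0) (nat_lit 9817347784) (nat_lit 1176) (nat_lit 3777998546) (nat_lit 1260) (nat_lit 3075263005) (nat_lit 152) (nat_lit 5) (nat_lit 166) (nat_lit 5) (nat_lit 167) (nat_lit 5) (nat_lit 274) (nat_lit 263) (nat_lit 183)) (XT.lf (nat_lit 0) (nat_lit 6340176703) (nat_lit 672) (nat_lit 10188510938) (nat_lit 756) (nat_lit 580261580) (nat_lit 144) (nat_lit 5) (nat_lit 152) (nat_lit 5) (nat_lit 153) (nat_lit 5) (nat_lit 275) (nat_lit 263) (nat_lit 182))) (XT.nd (nat_lit 94) (nat_lit 588) (nat_lit 0) (XT.lf (nat_lit 0) (nat_lit 2134780822) (nat_lit 672) (nat_lit 14804453665)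 (nat_lit 84) (nat_lit 624222545) (nat_lit 136) (nat_lit 5) (nat_lit 144) (nat_lit 5) (nat_lit 137) (nat_lit 5) (nat_lit 276) (nat_lit 263) (nat_lit 181)) (XT.nd (nat_lit 94) (nat_lit 588) (nat_lit 0) (XT.lf (nat_lit 0) (nat_lit 5198655797) (nat_lit 672) (nat_lit 960772177) (nat_lit 84) (nat_lit 11873083322) (nat_lit 136) (nat_lit 5) (nat_lit 144) (nat_lit 5) (nat_lit 137) (nat_lit 5) (nat_lit 277) (nat_lit 263) (nat_lit 180)) (XT.lf (nat_lit 0) (nat_lit 8607895094) (nat_lit 672) (nat_lit 4711638225) (nat_lit 84) (nat_lit 5198758982) (nat_lit 129) (nat_lit 5) (nat_lit 137) (nat_lit 5) (nat_lit 130) (nat_lit 5) (nat_lit 278) (nat_lit 263) (nat_lit 179))))) (XT.nd (nat_lit 282) (nat_lit 0) (nat_lit 0) (XT.nd (nat_lit 94) (nat_lit 1092) (nat_lit 0) (XT.lf (nat_lit 0) (nat_lit 10450951450) (nat_lit 504) (nat_lit 1915961092) (nat_lit 588) (nat_lit 6655173748) (nat_lit 123) (nat_lit 5) (nat_lit 129)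 (nat_lit 5) (nat_lit 130) (nat_lit 5) (nat_lit 279) (nat_lit 263) (nat_lit 178)) (XT.nd (nat_lit 94) (nat_lit 588) (nat_lit 0) (XT.lf (nat_lit 0) (nat_lit 6960607380) (nat_lit 504) (nat_lit 9579866223) (nat_lit 588) (nat_lit 3002665630) (nat_lit 117) (nat_lit 5) (nat_lit 123) (nat_lit 5) (nat_lit 124) (nat_lit 5) (nat_lit 280) (nat_lit 263) (nat_lit 177)) (XT.lf (nat_lit 0) (nat_lit 985606621) (nat_lit 588) (nat_lit 16698358490) (nat_lit 84) (nat_lit 2399934569) (nat_lit 110) (nat_lit 5) (nat_lit 117) (nat_lit 5) (nat_lit 111) (nat_lit 5) (nat_lit 281) (nat_lit 263) (nat_lit 176)))) (XT.nd (nat_lit 43522) (nat_lit 0) (nat_lit 5376) (XT.lf (nat_lit 0) (nat_lit 5347326497) (nat_lit 588) (nat_lit 358669071) (nat_lit 84) (nat_lit 14935879818) (nat_lit 110) (nat_lit 5) (nat_lit 117) (nat_lit 5) (nat_lit 111) (nat_lit 5) (nat_lit 282) (nat_lit 263) (nat_lit 175)) (XT.nd (nat_lit 94) (nat_lit 0)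 (nat_lit 0) (XT.lf (nat_lit 0) (nat_lit 2885303298) (nat_lit 0) (nat_lit 2885303298) (nat_lit 1092) (nat_lit 902539353) (nat_lit 174) (nat_lit 5) (nat_lit 174) (nat_lit 3) (nat_lit 187) (nat_lit 3) (nat_lit 264) (nat_lit 264) (nat_lit 192)) (XT.lf (nat_lit 84) (nat_lit 1969201193) (nat_lit 0) (nat_lit 10451393159) (nat_lit 1176) (nat_lit 1238675066) (nat_lit 175) (nat_lit 5) (nat_lit 174) (nat_lit 5) (nat_lit 188) (nat_lit 5) (nat_lit 265) (nat_lit 264) (nat_lit 191))))))))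
noncomputable def xc28 : XT := (XT.nd (nat_lit 45590) (nat_lit 0) (nat_lit 588) (XT.nd (nat_lit 1034) (nat_lit 2772) (nat_lit 0) (XT.nd (nat_lit 470) (nat_lit 1512) (nat_lit 0) (XT.nd (nat_lit 188) (nat_lit 0) (nat_lit 84) (XT.nd (nat_lit 94) (nat_lit 1092) (nat_lit 0) (XT.lf (nat_lit 84) (nat_lit 12087943325) (nat_lit 0) (nat_lit 1379317055) (nat_lit 1176) (nat_lit 516319379) (nat_lit 175) (nat_lit 5) (nat_lit 174) (nat_lit 5) (nat_lit 188) (nat_lit 5) (nat_lit 266) (nat_lit 264) (nat_lit 190)) (XT.lf (nat_lit 0) (nat_lit 391247806) (nat_lit 1176) (nat_lit 5852662578) (nat_lit 1260) (nat_lit 8074690346) (nat_lit 161) (nat_lit 5) (nat_lit 175) (nat_lit 5) (nat_lit 176) (nat_lit 5) (nat_lit 267) (nat_lit 264) (nat_lit 189))) (XT.nd (nat_lit 94) (nat_lit 0) (nat_lit 0) (XT.lf (nat_lit 0) (nat_lit 1430833204) (nat_lit 1176) (nat_lit 9917018198) (nat_lit 1260) (nat_lit 3318847294) (nat_lit 162)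 (nat_lit 5) (nat_lit 176) (nat_lit 5) (nat_lit 177) (nat_lit 5) (nat_lit 268) (nat_lit 264) (nat_lit 188)) (XT.nd (nat_lit 94) (nat_lit 0) (nat_lit 84) (XT.lf (nat_lit 84) (nat_lit 921836918) (nat_lit 0) (nat_lit 1724801026) (nat_lit 1260) (nat_lit 12381215214) (nat_lit 163) (nat_lit 5) (nat_lit 162) (nat_lit 5) (nat_lit 177) (nat_lit 5) (nat_lit 269) (nat_lit 264) (nat_lit 187)) (XT.lf (nat_lit 0) (nat_lit 4108039697) (nat_lit 1176) (nat_lit 2974191651) (nat_lit 1260) (nat_lit 8318365759) (nat_lit 163) (nat_lit 5) (nat_lit 177) (nat_lit 5) (nat_lit 178) (nat_lit 5) (nat_lit 270) (nat_lit 264) (nat_lit 186))))) (XT.nd (nat_lit 282) (nat_lit 1764) (nat_lit 0) (XT.nd (nat_lit 94) (nat_lit 0) (nat_lit 0) (XT.lf (nat_lit 0) (nat_lit 5769306111) (nat_lit 1176) (nat_lit 6948249775) (nat_lit 1260) (nat_lit 3069984556) (nat_lit 164) (nat_lit 5) (nat_lit 178) (nat_lit 5) (nat_lit 179) (nat_lit 5) (nat_lit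 271) (nat_lit 264) (nat_lit 185)) (XT.nd (nat_lit 94) (nat_lit 0) (nat_lit 84) (XT.lf (nat_lit 84) (nat_lit 5136242975) (nat_lit 0) (nat_lit 2527377009) (nat_lit 1260) (nat_lit 8524961515) (nat_lit 165) (nat_lit 5) (nat_lit 164) (nat_lit 5) (nat_lit 179) (nat_lit 5) (nat_lit 272) (nat_lit 264) (nat_lit 184)) (XT.lf (nat_lit 84) (nat_lit 1304331805) (nat_lit 0) (nat_lit 8513010318) (nat_lit 1260) (nat_lit 6786568247) (nat_lit 166) (nat_lit 5) (nat_lit 165) (nat_lit 5) (nat_lit 180) (nat_lit 5) (nat_lit 273) (nat_lit 264) (nat_lit 183)))) (XT.nd (nat_lit 94) (nat_lit 1932) (nat_lit 0) (XT.lf (nat_lit 0) (nat_lit 12241641237) (nat_lit 1176) (nat_lit 2562951744) (nat_lit 84) (nat_lit 2229711522) (nat_lit 166) (nat_lit 5) (nat_lit 180) (nat_lit 5) (nat_lit 167) (nat_lit 5) (nat_lit 274) (nat_lit 264) (nat_lit 182)) (XT.nd (nat_lit 94) (nat_lit 756) (nat_lit 0) (XT.lf (nat_lit 0) (nat_lit 10938901085)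 (nat_lit 1176) (nat_lit 4046855714) (nat_lit 1260) (nat_lit 2493510493) (nat_lit 152) (nat_lit 5) (nat_lit 166) (nat_lit 5) (nat_lit 167) (nat_lit 5) (nat_lit 275) (nat_lit 264) (nat_lit 181)) (XT.lf (nat_lit 0) (nat_lit 95499691) (nat_lit 756) (nat_lit 10644697596) (nat_lit 84) (nat_lit 7200253416) (nat_lit 143) (nat_lit 5) (nat_lit 152) (nat_lit 5) (nat_lit 144) (nat_lit 5) (nat_lit 276) (nat_lit 264) (nat_lit 180)))))) (XT.nd (nat_lit 470) (nat_lit 588) (nat_lit 0) (XT.nd (nat_lit 188) (nat_lit 1596) (nat_lit 0) (XT.nd (nat_lit 94) (nat_lit 0) (nat_lit 0) (XT.lf (nat_lit 0) (nat_lit 2906404437) (nat_lit 672) (nat_lit 14882114862) (nat_lit 84) (nat_lit 629839624) (nat_lit 136) (nat_lit 5) (nat_lit 144) (nat_lit 5) (nat_lit 137) (nat_lit 5) (nat_lit 277) (nat_lit 264) (nat_lit 179)) (XT.lf (nat_lit 0) (nat_lit 6091811991) (nat_lit 672) (nat_lit 377799846) (nat_lit 84) (nat_lit 12442362204)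 (nat_lit 136) (nat_lit 5) (nat_lit 144) (nat_lit 5) (nat_lit 137) (nat_lit 5) (nat_lit 278) (nat_lit 264) (nat_lit 178))) (XT.nd (nat_lit 94) (nat_lit 1008) (nat_lit 0) (XT.lf (nat_lit 0) (nat_lit 9648266658) (nat_lit 672) (nat_lit 4311023092) (nat_lit 84) (nat_lit 5463567977) (nat_lit 129) (nat_lit 5) (nat_lit 137) (nat_lit 5) (nat_lit 130) (nat_lit 5) (nat_lit 279) (nat_lit 264) (nat_lit 177)) (XT.nd (nat_lit 94) (nat_lit 504) (nat_lit 0) (XT.lf (nat_lit 0) (nat_lit 11593458092) (nat_lit 504) (nat_lit 1979638049) (nat_lit 588) (nat_lit 6379520135) (nat_lit 123) (nat_lit 5) (nat_lit 129) (nat_lit 5) (nat_lit 130) (nat_lit 5) (nat_lit 280) (nat_lit 264) (nat_lit 176)) (XT.lf (nat_lit 0) (nat_lit 7932473730) (nat_lit 504) (nat_lit 10002160970) (nat_lit 588) (nat_lit 2565811685) (nat_lit 117) (nat_lit 5) (nat_lit 123) (nat_lit 5) (nat_lit 124) (nat_lit 5) (nat_lit 281) (nat_lit 264) (nat_lit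 175))))) (XT.nd (nat_lit 43804) (nat_lit 0) (nat_lit 4200) (XT.nd (nat_lit 43616) (nat_lit 0) (nat_lit 5376) (XT.lf (nat_lit 0) (nat_lit 1588917929) (nat_lit 588) (nat_lit 16893781658) (nat_lit 84) (nat_lit 2586003993) (nat_lit 110) (nat_lit 5) (nat_lit 117) (nat_lit 5) (nat_lit 111) (nat_lit 5) (nat_lit 282) (nat_lit 264) (nat_lit 174)) (XT.nd (nat_lit 94) (nat_lit 0) (nat_lit 0) (XT.lf (nat_lit 0) (nat_lit 3291704847) (nat_lit 0) (nat_lit 3291704847) (nat_lit 1092) (nat_lit 405044007) (nat_lit 174) (nat_lit 5) (nat_lit 174) (nat_lit 3) (nat_lit 187) (nat_lit 3) (nat_lit 265) (nat_lit 265) (nat_lit 190)) (XT.lf (nat_lit 84) (nat_lit 2620007578) (nat_lit 0) (nat_lit 11420822254) (nat_lit 1176) (nat_lit 266430855) (nat_lit 175) (nat_lit 5) (nat_lit 174) (nat_lit 5) (nat_lit 188) (nat_lit 5) (nat_lit 266) (nat_lit 265) (nat_lit 189)))) (XT.nd (nat_lit 94) (nat_lit 0) (nat_lit 84) (XT.lf (nat_lit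 0) (nat_lit 432755966) (nat_lit 1176) (nat_lit 1436000978) (nat_lit 1260) (nat_lit 12780522264) (nat_lit 160) (nat_lit 5) (nat_lit 174) (nat_lit 5) (nat_lit 175) (nat_lit 5) (nat_lit 267) (nat_lit 265) (nat_lit 188)) (XT.nd (nat_lit 94) (nat_lit 0) (nat_lit 84) (XT.lf (nat_lit 0) (nat_lit 1329198209) (nat_lit 1176) (nat_lit 5574293570) (nat_lit 1260) (nat_lit 8098895406) (nat_lit 161) (nat_lit 5) (nat_lit 175) (nat_lit 5) (nat_lit 176) (nat_lit 5) (nat_lit 268) (nat_lit 265) (nat_lit 187)) (XT.lf (nat_lit 0) (nat_lit 2379615107) (nat_lit 1176) (nat_lit 9821996204) (nat_lit 1260) (nat_lit 3167718911) (nat_lit 162) (nat_lit 5) (nat_lit 176) (nat_lit 5) (nat_lit 177) (nat_lit 5) (nat_lit 269) (nat_lit 265) (nat_lit 186))))))) (XT.nd (nat_lit 1034) (nat_lit 1008) (nat_lit 0) (XT.nd (nat_lit 470) (nat_lit 2772) (nat_lit 0) (XT.nd (nat_lit 188) (nat_lit 0) (nat_lit 168) (XT.nd (nat_lit 94) (nat_lit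 0) (nat_lit 84) (XT.lf (nat_lit 84) (nat_lit 1543720524) (nat_lit 0) (nat_lit 2077131774) (nat_lit 1260) (nat_lit 12128927632) (nat_lit 163) (nat_lit 5) (nat_lit 162) (nat_lit 5) (nat_lit 177) (nat_lit 5) (nat_lit 270) (nat_lit 265) (nat_lit 185)) (XT.lf (nat_lit 0) (nat_lit 5112410858) (nat_lit 1176) (nat_lit 2543641739) (nat_lit 1260) (nat_lit 8486610444) (nat_lit 163) (nat_lit 5) (nat_lit 177) (nat_lit 5) (nat_lit 178) (nat_lit 5) (nat_lit 271) (nat_lit 265) (nat_lit 184))) (XT.nd (nat_lit 94) (nat_lit 0) (nat_lit 0) (XT.lf (nat_lit 0) (nat_lit 6822724970) (nat_lit 1176) (nat_lit 6702076128) (nat_lit 1260) (nat_lit 3025342993) (nat_lit 164) (nat_lit 5) (nat_lit 178) (nat_lit 5) (nat_lit 179) (nat_lit 5) (nat_lit 272) (nat_lit 265) (nat_lit 183)) (XT.nd (nat_lit 94) (nat_lit 0) (nat_lit 84) (XT.lf (nat_lit 84) (nat_lit 5971490864) (nat_lit 0) (nat_lit 2810282330) (nat_lit 1260) (nat_lit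 8190513353) (nat_lit 165) (nat_lit 5) (nat_lit 164) (nat_lit 5) (nat_lit 179) (nat_lit 5) (nat_lit 273) (nat_lit 265) (nat_lit 182)) (XT.lf (nat_lit 84) (nat_lit 1959987528) (nat_lit 0) (nat_lit 9053112899) (nat_lit 1260) (nat_lit 6396334270) (nat_lit 166) (nat_lit 5) (nat_lit 165) (nat_lit 5) (nat_lit 180) (nat_lit 5) (nat_lit 274) (nat_lit 265) (nat_lit 181))))) (XT.nd (nat_lit 282) (nat_lit 1176) (nat_lit 0) (XT.nd (nat_lit 94) (nat_lit 1932) (nat_lit 0) (XT.lf (nat_lit 0) (nat_lit 13523833733) (nat_lit 1176) (nat_lit 2104065459) (nat_lit 84) (nat_lit 2234666671) (nat_lit 166) (nat_lit 5) (nat_lit 180) (nat_lit 5) (nat_lit 167) (nat_lit 5) (nat_lit 275) (nat_lit 265) (nat_lit 180)) (XT.nd (nat_lit 94) (nat_lit 756) (nat_lit 0) (XT.lf (nat_lit 0) (nat_lit 12057896853) (nat_lit 1176) (nat_lit 4321722073) (nat_lit 1260) (nat_lit 1951051630) (nat_lit 152) (nat_lit 5) (nat_lit 166) (nat_lit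 5) (nat_lit 167) (nat_lit 5) (nat_lit 276) (nat_lit 265) (nat_lit 179)) (XT.lf (nat_lit 0) (nat_lit 726995302) (nat_lit 756) (nat_lit 10582170644) (nat_lit 84) (nat_lit 7506372071) (nat_lit 143) (nat_lit 5) (nat_lit 152) (nat_lit 5) (nat_lit 144) (nat_lit 5) (nat_lit 277) (nat_lit 265) (nat_lit 178)))) (XT.nd (nat_lit 94) (nat_lit 588) (nat_lit 0) (XT.lf (nat_lit 0) (nat_lit 3654794568) (nat_lit 672) (nat_lit 15025257805) (nat_lit 84) (nat_lit 638117050) (nat_lit 136) (nat_lit 5) (nat_lit 144) (nat_lit 5) (nat_lit 137) (nat_lit 5) (nat_lit 278) (nat_lit 265) (nat_lit 177)) (XT.nd (nat_lit 94) (nat_lit 0) (nat_lit 0) (XT.lf (nat_lit 0) (nat_lit 179730953) (nat_lit 588) (nat_lit 6793026520) (nat_lit 672) (nat_lit 12864642849) (nat_lit 129) (nat_lit 5) (nat_lit 136) (nat_lit 5) (nat_lit 137) (nat_lit 5) (nat_lit 279) (nat_lit 265) (nat_lit 176)) (XT.lf (nat_lit 0) (nat_lit 10683946938) (nat_lit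 672) (nat_lit 3949524774) (nat_lit 84) (nat_lit 5741164559) (nat_lit 129) (nat_lit 5) (nat_lit 137) (nat_lit 5) (nat_lit 130) (nat_lit 5) (nat_lit 280) (nat_lit 265) (nat_lit 175)))))) (XT.nd (nat_lit 44086) (nat_lit 0) (nat_lit 3696) (XT.nd (nat_lit 43804) (nat_lit 0) (nat_lit 3528) (XT.nd (nat_lit 94) (nat_lit 504) (nat_lit 0) (XT.lf (nat_lit 0) (nat_lit 12735452147) (nat_lit 504) (nat_lit 2049485169) (nat_lit 588) (nat_lit 6146648250) (nat_lit 123) (nat_lit 5) (nat_lit 129) (nat_lit 5) (nat_lit 130) (nat_lit 5) (nat_lit 281) (nat_lit 265) (nat_lit 174)) (XT.lf (nat_lit 0) (nat_lit 8894935041) (nat_lit 504) (nat_lit 10450841749) (nat_lit 588) (nat_lit 2161687552) (nat_lit 117) (nat_lit 5) (nat_lit 123) (nat_lit 5) (nat_lit 124) (nat_lit 5) (nat_lit 282) (nat_lit 265) (nat_lit 173))) (XT.nd (nat_lit 94) (nat_lit 0) (nat_lit 84) (XT.lf (nat_lit 0) (nat_lit 65361811) (nat_lit 1260) (nat_lit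 3627922456) (nat_lit 1260) (nat_lit 3627922456) (nat_lit 159) (nat_lit 3) (nat_lit 174) (nat_lit 3) (nat_lit 174) (nat_lit 5) (nat_lit 266) (nat_lit 266) (nat_lit 188)) (XT.nd (nat_lit 94) (nat_lit 0) (nat_lit 0) (XT.lf (nat_lit 0) (nat_lit 643351535) (nat_lit 1176) (nat_lit 11746235174) (nat_lit 1260) (nat_lit 2601059483) (nat_lit 160) (nat_lit 5) (nat_lit 174) (nat_lit 5) (nat_lit 175) (nat_lit 5) (nat_lit 267) (nat_lit 266) (nat_lit 187)) (XT.lf (nat_lit 0) (nat_lit 1327499242) (nat_lit 1176) (nat_lit 1010407172) (nat_lit 1260) (nat_lit 13013278063) (nat_lit 160) (nat_lit 5) (nat_lit 174) (nat_lit 5) (nat_lit 175) (nat_lit 5) (nat_lit 268) (nat_lit 266) (nat_lit 186))))) (XT.nd (nat_lit 282) (nat_lit 0) (nat_lit 168) (XT.nd (nat_lit 94) (nat_lit 0) (nat_lit 84) (XT.lf (nat_lit 0) (nat_lit 2228663120) (nat_lit 1176) (nat_lit 5335092479) (nat_lit 1260) (nat_lit 8159595771) (nat_lit 161) (nat_lit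 5) (nat_lit 175) (nat_lit 5) (nat_lit 176) (nat_lit 5) (nat_lit 269) (nat_lit 266) (nat_lit 185)) (XT.nd (nat_lit 94) (nat_lit 0) (nat_lit 0) (XT.lf (nat_lit 0) (nat_lit 3294278623) (nat_lit 1176) (nat_lit 9777156872) (nat_lit 1260) (nat_lit 3038512341) (nat_lit 162) (nat_lit 5) (nat_lit 176) (nat_lit 5) (nat_lit 177) (nat_lit 5) (nat_lit 270) (nat_lit 266) (nat_lit 184)) (XT.lf (nat_lit 84) (nat_lit 2143166650) (nat_lit 0) (nat_lit 2422340469) (nat_lit 1260) (nat_lit 11945035380) (nat_lit 163) (nat_lit 5) (nat_lit 162) (nat_lit 5) (nat_lit 177) (nat_lit 5) (nat_lit 271) (nat_lit 266) (nat_lit 183)))) (XT.nd (nat_lit 94) (nat_lit 0) (nat_lit 84) (XT.lf (nat_lit 0) (nat_lit 6092719995) (nat_lit 1176) (nat_lit 2145418390) (nat_lit 1260) (nat_lit 8686293707) (nat_lit 163) (nat_lit 5) (nat_lit 177) (nat_lit 5) (nat_lit 178) (nat_lit 5) (nat_lit 272) (nat_lit 266) (nat_lit 182)) (XT.nd (nat_lit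 94) (nat_lit 0) (nat_lit 0) (XT.lf (nat_lit 0) (nat_lit 7857696640) (nat_lit 1176) (nat_lit 6498779811) (nat_lit 1260) (nat_lit 2996890603) (nat_lit 164) (nat_lit 5) (nat_lit 178) (nat_lit 5) (nat_lit 179) (nat_lit 5) (nat_lit 273) (nat_lit 266) (nat_lit 181)) (XT.lf (nat_lit 84) (nat_lit 6794723675) (nat_lit 0) (nat_lit 3092779640) (nat_lit 1260) (nat_lit 7910065108) (nat_lit 165) (nat_lit 5) (nat_lit 164) (nat_lit 5) (nat_lit 179) (nat_lit 5) (nat_lit 274) (nat_lit 266) (nat_lit 180))))))))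
noncomputable def xc29 : XT := (XT.nd (nat_lit 45778) (nat_lit 0) (nat_lit 504) (XT.nd (nat_lit 44744) (nat_lit 0) (nat_lit 1092) (XT.nd (nat_lit 470) (nat_lit 1092) (nat_lit 0) (XT.nd (nat_lit 188) (nat_lit 2436) (nat_lit 0) (XT.nd (nat_lit 94) (nat_lit 0) (nat_lit 84) (XT.lf (nat_lit 84) (nat_lit 2593532602) (nat_lit 0) (nat_lit 9609579941) (nat_lit 1260) (nat_lit 6054416389) (nat_lit 166) (nat_lit 5) (nat_lit 165) (nat_lit 5) (nat_lit 180) (nat_lit 5) (nat_lit 275) (nat_lit 266) (nat_lit 179)) (XT.lf (nat_lit 0) (nat_lit 14807835337) (nat_lit 1176) (nat_lit 1676811705) (nat_lit 84) (nat_lit 2249773768) (nat_lit 166) (nat_lit 5) (nat_lit 180) (nat_lit 5) (nat_lit 167) (nat_lit 5) (nat_lit 276) (nat_lit 266) (nat_lit 178))) (XT.nd (nat_lit 94) (nat_lit 1344) (nat_lit 0) (XT.lf (nat_lit 0) (nat_lit 13179658557) (nat_lit 1176) (nat_lit 4603589197) (nat_lit 1260) (nat_lit 1443493655) (nat_lit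 152) (nat_lit 5) (nat_lit 166) (nat_lit 5) (nat_lit 167) (nat_lit 5) (nat_lit 277) (nat_lit 266) (nat_lit 177)) (XT.nd (nat_lit 94) (nat_lit 588) (nat_lit 0) (XT.lf (nat_lit 0) (nat_lit 1331799149) (nat_lit 756) (nat_lit 10571812662) (nat_lit 84) (nat_lit 7832807213) (nat_lit 143) (nat_lit 5) (nat_lit 152) (nat_lit 5) (nat_lit 144) (nat_lit 5) (nat_lit 278) (nat_lit 266) (nat_lit 176)) (XT.lf (nat_lit 0) (nat_lit 4384536481) (nat_lit 672) (nat_lit 15231429721) (nat_lit 84) (nat_lit 648966616) (nat_lit 136) (nat_lit 5) (nat_lit 144) (nat_lit 5) (nat_lit 137) (nat_lit 5) (nat_lit 279) (nat_lit 266) (nat_lit 175))))) (XT.nd (nat_lit 43992) (nat_lit 0) (nat_lit 3024) (XT.nd (nat_lit 94) (nat_lit 504) (nat_lit 0) (XT.lf (nat_lit 0) (nat_lit 719895847) (nat_lit 588) (nat_lit 7128372430) (nat_lit 672) (nat_lit 12962561508) (nat_lit 129) (nat_lit 5) (nat_lit 136) (nat_lit 5) (nat_lit 137) (nat_lit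 5) (nat_lit 280) (nat_lit 266) (nat_lit 174)) (XT.nd (nat_lit 94) (nat_lit 504) (nat_lit 0) (XT.lf (nat_lit 0) (nat_lit 11719973715) (nat_lit 672) (nat_lit 3623600130) (nat_lit 84) (nat_lit 6032230209) (nat_lit 129) (nat_lit 5) (nat_lit 137) (nat_lit 5) (nat_lit 130) (nat_lit 5) (nat_lit 281) (nat_lit 266) (nat_lit 173)) (XT.lf (nat_lit 0) (nat_lit 13882266615) (nat_lit 504) (nat_lit 2125533321) (nat_lit 588) (nat_lit 5953438358) (nat_lit 123) (nat_lit 5) (nat_lit 129) (nat_lit 5) (nat_lit 130) (nat_lit 5) (nat_lit 282) (nat_lit 266) (nat_lit 172)))) (XT.nd (nat_lit 94) (nat_lit 0) (nat_lit 84) (XT.lf (nat_lit 0) (nat_lit 504924447) (nat_lit 1260) (nat_lit 3583536152) (nat_lit 1260) (nat_lit 3583536152) (nat_lit 159) (nat_lit 3) (nat_lit 174) (nat_lit 3) (nat_lit 174) (nat_lit 5) (nat_lit 267) (nat_lit 267) (nat_lit 186)) (XT.nd (nat_lit 94) (nat_lit 0) (nat_lit 0) (XT.lf (nat_lit 0) (nat_lit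 1507048138) (nat_lit 1176) (nat_lit 11859838499) (nat_lit 1260) (nat_lit 2344188348) (nat_lit 160) (nat_lit 5) (nat_lit 174) (nat_lit 5) (nat_lit 175) (nat_lit 5) (nat_lit 268) (nat_lit 267) (nat_lit 185)) (XT.lf (nat_lit 0) (nat_lit 2185806611) (nat_lit 1176) (nat_lit 609776641) (nat_lit 1260) (nat_lit 13295442815) (nat_lit 160) (nat_lit 5) (nat_lit 174) (nat_lit 5) (nat_lit 175) (nat_lit 5) (nat_lit 269) (nat_lit 267) (nat_lit 184)))))) (XT.nd (nat_lit 470) (nat_lit 2100) (nat_lit 0) (XT.nd (nat_lit 188) (nat_lit 0) (nat_lit 84) (XT.nd (nat_lit 94) (nat_lit 0) (nat_lit 84) (XT.lf (nat_lit 0) (nat_lit 3095656367) (nat_lit 1176) (nat_lit 5132082232) (nat_lit 1260) (nat_lit 8255335736) (nat_lit 161) (nat_lit 5) (nat_lit 175) (nat_lit 5) (nat_lit 176) (nat_lit 5) (nat_lit 270) (nat_lit 267) (nat_lit 183)) (XT.lf (nat_lit 0) (nat_lit 4180700274) (nat_lit 1176) (nat_lit 9779902115) (nat_lit 1260)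 (nat_lit 2929583069) (nat_lit 162) (nat_lit 5) (nat_lit 176) (nat_lit 5) (nat_lit 177) (nat_lit 5) (nat_lit 271) (nat_lit 267) (nat_lit 182))) (XT.nd (nat_lit 94) (nat_lit 0) (nat_lit 84) (XT.lf (nat_lit 84) (nat_lit 2724030289) (nat_lit 0) (nat_lit 2762370967) (nat_lit 1260) (nat_lit 11825426711) (nat_lit 163) (nat_lit 5) (nat_lit 162) (nat_lit 5) (nat_lit 177) (nat_lit 5) (nat_lit 272) (nat_lit 267) (nat_lit 181)) (XT.nd (nat_lit 94) (nat_lit 0) (nat_lit 84) (XT.lf (nat_lit 0) (nat_lit 7054669913) (nat_lit 1176) (nat_lit 1776131090) (nat_lit 1260) (nat_lit 8916846706) (nat_lit 163) (nat_lit 5) (nat_lit 177) (nat_lit 5) (nat_lit 178) (nat_lit 5) (nat_lit 273) (nat_lit 267) (nat_lit 180)) (XT.lf (nat_lit 0) (nat_lit 8879910653) (nat_lit 1176) (nat_lit 6335374019) (nat_lit 1260) (nat_lit 2983724214) (nat_lit 164) (nat_lit 5) (nat_lit 178) (nat_lit 5) (nat_lit 179) (nat_lit 5) (nat_lit 274)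 (nat_lit 267) (nat_lit 179))))) (XT.nd (nat_lit 282) (nat_lit 2352) (nat_lit 0) (XT.nd (nat_lit 94) (nat_lit 0) (nat_lit 84) (XT.lf (nat_lit 84) (nat_lit 7610340374) (nat_lit 0) (nat_lit 3376201564) (nat_lit 1260) (nat_lit 7679741686) (nat_lit 165) (nat_lit 5) (nat_lit 164) (nat_lit 5) (nat_lit 179) (nat_lit 5) (nat_lit 275) (nat_lit 267) (nat_lit 178)) (XT.nd (nat_lit 94) (nat_lit 0) (nat_lit 84) (XT.lf (nat_lit 84) (nat_lit 3208964968) (nat_lit 0) (nat_lit 10184218936) (nat_lit 1260) (nat_lit 5756924426) (nat_lit 166) (nat_lit 5) (nat_lit 165) (nat_lit 5) (nat_lit 180) (nat_lit 5) (nat_lit 276) (nat_lit 267) (nat_lit 177)) (XT.lf (nat_lit 0) (nat_lit 16099528616) (nat_lit 1176) (nat_lit 1277698070) (nat_lit 84) (nat_lit 2274619611) (nat_lit 166) (nat_lit 5) (nat_lit 180) (nat_lit 5) (nat_lit 167) (nat_lit 5) (nat_lit 277) (nat_lit 267) (nat_lit 176)))) (XT.nd (nat_lit 94) (nat_lit 1344)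 (nat_lit 0) (XT.lf (nat_lit 0) (nat_lit 14309269023) (nat_lit 1176) (nat_lit 4893433980) (nat_lit 1260) (nat_lit 966815226) (nat_lit 152) (nat_lit 5) (nat_lit 166) (nat_lit 5) (nat_lit 167) (nat_lit 5) (nat_lit 278) (nat_lit 267) (nat_lit 175)) (XT.nd (nat_lit 94) (nat_lit 588) (nat_lit 0) (XT.lf (nat_lit 0) (nat_lit 1913993717) (nat_lit 756) (nat_lit 10611091264) (nat_lit 84) (nat_lit 8180108833) (nat_lit 143) (nat_lit 5) (nat_lit 152) (nat_lit 5) (nat_lit 144) (nat_lit 5) (nat_lit 279) (nat_lit 267) (nat_lit 174)) (XT.lf (nat_lit 0) (nat_lit 5099910412) (nat_lit 672) (nat_lit 15498587625) (nat_lit 84) (nat_lit 662316274) (nat_lit 136) (nat_lit 5) (nat_lit 144) (nat_lit 5) (nat_lit 137) (nat_lit 5) (nat_lit 280) (nat_lit 267) (nat_lit 173))))))) (XT.nd (nat_lit 44838) (nat_lit 0) (nat_lit 0) (XT.nd (nat_lit 44274) (nat_lit 0) (nat_lit 2688) (XT.nd (nat_lit 43992) (nat_lit 0) (nat_lit 2520)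 (XT.nd (nat_lit 94) (nat_lit 0) (nat_lit 0) (XT.lf (nat_lit 0) (nat_lit 1237685057) (nat_lit 588) (nat_lit 7480885914) (nat_lit 672) (nat_lit 13116074180) (nat_lit 129) (nat_lit 5) (nat_lit 136) (nat_lit 5) (nat_lit 137) (nat_lit 5) (nat_lit 281) (nat_lit 267) (nat_lit 172)) (XT.lf (nat_lit 0) (nat_lit 12761146487) (nat_lit 672) (nat_lit 3330040108) (nat_lit 84) (nat_lit 6337476569) (nat_lit 129) (nat_lit 5) (nat_lit 137) (nat_lit 5) (nat_lit 130) (nat_lit 5) (nat_lit 282) (nat_lit 267) (nat_lit 171))) (XT.nd (nat_lit 94) (nat_lit 0) (nat_lit 84) (XT.lf (nat_lit 0) (nat_lit 925902683) (nat_lit 1260) (nat_lit 3557921642) (nat_lit 1260) (nat_lit 3557921642) (nat_lit 159) (nat_lit 3) (nat_lit 174) (nat_lit 3) (nat_lit 174) (nat_lit 5) (nat_lit 268) (nat_lit 268) (nat_lit 184)) (XT.nd (nat_lit 94) (nat_lit 0) (nat_lit 0) (XT.lf (nat_lit 0) (nat_lit 2336621884) (nat_lit 1176) (nat_lit 12023162911)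 (nat_lit 1260) (nat_lit 2110446193) (nat_lit 160) (nat_lit 5) (nat_lit 174) (nat_lit 5) (nat_lit 175) (nat_lit 5) (nat_lit 269) (nat_lit 268) (nat_lit 183)) (XT.lf (nat_lit 0) (nat_lit 3013402978) (nat_lit 1176) (nat_lit 231058318) (nat_lit 1260) (nat_lit 13625975363) (nat_lit 160) (nat_lit 5) (nat_lit 174) (nat_lit 5) (nat_lit 175) (nat_lit 5) (nat_lit 270) (nat_lit 268) (nat_lit 182))))) (XT.nd (nat_lit 282) (nat_lit 0) (nat_lit 168) (XT.nd (nat_lit 94) (nat_lit 0) (nat_lit 84) (XT.lf (nat_lit 0) (nat_lit 3935754461) (nat_lit 1176) (nat_lit 4962595757) (nat_lit 1260) (nat_lit 8384891799) (nat_lit 161) (nat_lit 5) (nat_lit 175) (nat_lit 5) (nat_lit 176) (nat_lit 5) (nat_lit 271) (nat_lit 268) (nat_lit 181)) (XT.nd (nat_lit 94) (nat_lit 0) (nat_lit 0) (XT.lf (nat_lit 0) (nat_lit 5044345464) (nat_lit 1176) (nat_lit 9827978763) (nat_lit 1260) (nat_lit 2839459149) (nat_lit 162) (nat_lit 5) (nat_lit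 176) (nat_lit 5) (nat_lit 177) (nat_lit 5) (nat_lit 272) (nat_lit 268) (nat_lit 180)) (XT.lf (nat_lit 84) (nat_lit 3289896480) (nat_lit 0) (nat_lit 3099050491) (nat_lit 1260) (nat_lit 11766484498) (nat_lit 163) (nat_lit 5) (nat_lit 162) (nat_lit 5) (nat_lit 177) (nat_lit 5) (nat_lit 273) (nat_lit 268) (nat_lit 179)))) (XT.nd (nat_lit 94) (nat_lit 0) (nat_lit 84) (XT.lf (nat_lit 0) (nat_lit 8003606509) (nat_lit 1176) (nat_lit 1432685292) (nat_lit 1260) (nat_lit 9177871186) (nat_lit 163) (nat_lit 5) (nat_lit 177) (nat_lit 5) (nat_lit 178) (nat_lit 5) (nat_lit 274) (nat_lit 268) (nat_lit 178)) (XT.nd (nat_lit 94) (nat_lit 0) (nat_lit 0) (XT.lf (nat_lit 0) (nat_lit 9894726305) (nat_lit 1176) (nat_lit 6209199606) (nat_lit 1260) (nat_lit 2985054715) (nat_lit 164) (nat_lit 5) (nat_lit 178) (nat_lit 5) (nat_lit 179) (nat_lit 5) (nat_lit 275) (nat_lit 268) (nat_lit 177)) (XT.lf (nat_lit 84) (nat_lit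 8422495048) (nat_lit 0) (nat_lit 3661821567) (nat_lit 1260) (nat_lit 7496085525) (nat_lit 165) (nat_lit 5) (nat_lit 164) (nat_lit 5) (nat_lit 179) (nat_lit 5) (nat_lit 276) (nat_lit 268) (nat_lit 176)))))) (XT.nd (nat_lit 470) (nat_lit 588) (nat_lit 0) (XT.nd (nat_lit 188) (nat_lit 2436) (nat_lit 0) (XT.nd (nat_lit 94) (nat_lit 0) (nat_lit 84) (XT.lf (nat_lit 84) (nat_lit 3810007987) (nat_lit 0) (nat_lit 10778835776) (nat_lit 1260) (nat_lit 5500359959) (nat_lit 166) (nat_lit 5) (nat_lit 165) (nat_lit 5) (nat_lit 180) (nat_lit 5) (nat_lit 277) (nat_lit 268) (nat_lit 175)) (XT.lf (nat_lit 0) (nat_lit 17404551770) (nat_lit 1176) (nat_lit 903529260) (nat_lit 84) (nat_lit 2308855947) (nat_lit 166) (nat_lit 5) (nat_lit 180) (nat_lit 5) (nat_lit 167) (nat_lit 5) (nat_lit 278) (nat_lit 268) (nat_lit 174))) (XT.nd (nat_lit 94) (nat_lit 1344) (nat_lit 0) (XT.lf (nat_lit 0) (nat_lit 15451605524) (nat_lit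 1176) (nat_lit 5192223887) (nat_lit 1260) (nat_lit 517330035) (nat_lit 152) (nat_lit 5) (nat_lit 166) (nat_lit 5) (nat_lit 167) (nat_lit 5) (nat_lit 279) (nat_lit 268) (nat_lit 173)) (XT.nd (nat_lit 94) (nat_lit 588) (nat_lit 0) (XT.lf (nat_lit 0) (nat_lit 2477361983) (nat_lit 756) (nat_lit 10697825391) (nat_lit 84) (nat_lit 8548897731) (nat_lit 143) (nat_lit 5) (nat_lit 152) (nat_lit 5) (nat_lit 144) (nat_lit 5) (nat_lit 280) (nat_lit 268) (nat_lit 172)) (XT.lf (nat_lit 0) (nat_lit 5804925983) (nat_lit 672) (nat_lit 15825069312) (nat_lit 84) (nat_lit 678109028) (nat_lit 136) (nat_lit 5) (nat_lit 144) (nat_lit 5) (nat_lit 137) (nat_lit 5) (nat_lit 281) (nat_lit 268) (nat_lit 171))))) (XT.nd (nat_lit 44180) (nat_lit 0) (nat_lit 2604) (XT.nd (nat_lit 43992) (nat_lit 0) (nat_lit 2520) (XT.lf (nat_lit 0) (nat_lit 1736571049) (nat_lit 588) (nat_lit 7851388134) (nat_lit 672) (nat_lit 13323247137)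 (nat_lit 129) (nat_lit 5) (nat_lit 136) (nat_lit 5) (nat_lit 137) (nat_lit 5) (nat_lit 282) (nat_lit 268) (nat_lit 170)) (XT.nd (nat_lit 94) (nat_lit 0) (nat_lit 84) (XT.lf (nat_lit 0) (nat_lit 1331138420) (nat_lit 1260) (nat_lit 3550065963) (nat_lit 1260) (nat_lit 3550065963) (nat_lit 159) (nat_lit 3) (nat_lit 174) (nat_lit 3) (nat_lit 174) (nat_lit 5) (nat_lit 269) (nat_lit 269) (nat_lit 182)) (XT.lf (nat_lit 0) (nat_lit 3137553966) (nat_lit 1176) (nat_lit 12234599956) (nat_lit 1260) (nat_lit 1897645081) (nat_lit 160) (nat_lit 5) (nat_lit 174) (nat_lit 5) (nat_lit 175) (nat_lit 5) (nat_lit 270) (nat_lit 269) (nat_lit 181)))) (XT.nd (nat_lit 94) (nat_lit 0) (nat_lit 84) (XT.lf (nat_lit 84) (nat_lit 131534160) (nat_lit 0) (nat_lit 3685529291) (nat_lit 1260) (nat_lit 13874040381) (nat_lit 161) (nat_lit 5) (nat_lit 160) (nat_lit 5) (nat_lit 175) (nat_lit 5) (nat_lit 271) (nat_lit 269) (nat_lit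 180)) (XT.nd (nat_lit 94) (nat_lit 0) (nat_lit 84) (XT.lf (nat_lit 0) (nat_lit 4754143341) (nat_lit 1176) (nat_lit 4824248823) (nat_lit 1260) (nat_lit 8547255913) (nat_lit 161) (nat_lit 5) (nat_lit 175) (nat_lit 5) (nat_lit 176) (nat_lit 5) (nat_lit 272) (nat_lit 269) (nat_lit 179)) (XT.lf (nat_lit 0) (nat_lit 5890313464) (nat_lit 1176) (nat_lit 9919451661) (nat_lit 1260) (nat_lit 2766826144) (nat_lit 162) (nat_lit 5) (nat_lit 176) (nat_lit 5) (nat_lit 177) (nat_lit 5) (nat_lit 273) (nat_lit 269) (nat_lit 178))))))))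
noncomputable def xc30 : XT := (XT.nd (nat_lit 90146) (nat_lit 0) (nat_lit 1260) (XT.nd (nat_lit 45026) (nat_lit 0) (nat_lit 588) (XT.nd (nat_lit 470) (nat_lit 2184) (nat_lit 0) (XT.nd (nat_lit 188) (nat_lit 0) (nat_lit 168) (XT.nd (nat_lit 94) (nat_lit 0) (nat_lit 84) (XT.lf (nat_lit 84) (nat_lit 3844109831) (nat_lit 0) (nat_lit 3434103673) (nat_lit 1260) (nat_lit 11765045866) (nat_lit 163) (nat_lit 5) (nat_lit 162) (nat_lit 5) (nat_lit 177) (nat_lit 5) (nat_lit 274) (nat_lit 269) (nat_lit 177)) (XT.lf (nat_lit 0) (nat_lit 8944560622) (nat_lit 1176) (nat_lit 1112253931) (nat_lit 1260) (nat_lit 9469129501) (nat_lit 163) (nat_lit 5) (nat_lit 177) (nat_lit 5) (nat_lit 178) (nat_lit 5) (nat_lit 275) (nat_lit 269) (nat_lit 176))) (XT.nd (nat_lit 94) (nat_lit 0) (nat_lit 0) (XT.lf (nat_lit 0) (nat_lit 10907213294) (nat_lit 1176) (nat_lit 6117897125) (nat_lit 1260) (nat_lit 3000197964) (nat_lit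 164) (nat_lit 5) (nat_lit 178) (nat_lit 5) (nat_lit 179) (nat_lit 5) (nat_lit 276) (nat_lit 269) (nat_lit 175)) (XT.nd (nat_lit 94) (nat_lit 0) (nat_lit 84) (XT.lf (nat_lit 84) (nat_lit 9235127878) (nat_lit 0) (nat_lit 3950862690) (nat_lit 1260) (nat_lit 7356020645) (nat_lit 165) (nat_lit 5) (nat_lit 164) (nat_lit 5) (nat_lit 179) (nat_lit 5) (nat_lit 277) (nat_lit 269) (nat_lit 174)) (XT.lf (nat_lit 84) (nat_lit 4400140832) (nat_lit 0) (nat_lit 11395243228) (nat_lit 1260) (nat_lit 5281581415) (nat_lit 166) (nat_lit 5) (nat_lit 165) (nat_lit 5) (nat_lit 180) (nat_lit 5) (nat_lit 278) (nat_lit 269) (nat_lit 173))))) (XT.nd (nat_lit 282) (nat_lit 588) (nat_lit 0) (XT.nd (nat_lit 94) (nat_lit 1932) (nat_lit 0) (XT.lf (nat_lit 0) (nat_lit 18728336477) (nat_lit 1176) (nat_lit 551378091) (nat_lit 84) (nat_lit 2352194758) (nat_lit 166) (nat_lit 5) (nat_lit 180) (nat_lit 5) (nat_lit 167) (nat_lit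 5) (nat_lit 279) (nat_lit 269) (nat_lit 172)) (XT.nd (nat_lit 94) (nat_lit 756) (nat_lit 0) (XT.lf (nat_lit 0) (nat_lit 16611372241) (nat_lit 1176) (nat_lit 5500921891) (nat_lit 1260) (nat_lit 91653723) (nat_lit 152) (nat_lit 5) (nat_lit 166) (nat_lit 5) (nat_lit 167) (nat_lit 5) (nat_lit 280) (nat_lit 269) (nat_lit 171)) (XT.lf (nat_lit 0) (nat_lit 3025419271) (nat_lit 756) (nat_lit 10830158442) (nat_lit 84) (nat_lit 8939865026) (nat_lit 143) (nat_lit 5) (nat_lit 152) (nat_lit 5) (nat_lit 144) (nat_lit 5) (nat_lit 281) (nat_lit 269) (nat_lit 170)))) (XT.nd (nat_lit 44086) (nat_lit 0) (nat_lit 1932) (XT.lf (nat_lit 0) (nat_lit 6503353735) (nat_lit 672) (nat_lit 16209567500) (nat_lit 84) (nat_lit 696301955) (nat_lit 136) (nat_lit 5) (nat_lit 144) (nat_lit 5) (nat_lit 137) (nat_lit 5) (nat_lit 282) (nat_lit 269) (nat_lit 169)) (XT.nd (nat_lit 94) (nat_lit 0) (nat_lit 84) (XT.lf (nat_lit 0) (nat_lit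 1723265048) (nat_lit 1260) (nat_lit 3559086938) (nat_lit 1260) (nat_lit 3559086938) (nat_lit 159) (nat_lit 3) (nat_lit 174) (nat_lit 3) (nat_lit 174) (nat_lit 5) (nat_lit 270) (nat_lit 270) (nat_lit 180)) (XT.lf (nat_lit 0) (nat_lit 3914931427) (nat_lit 1176) (nat_lit 12492841427) (nat_lit 1260) (nat_lit 1703798607) (nat_lit 160) (nat_lit 5) (nat_lit 174) (nat_lit 5) (nat_lit 175) (nat_lit 5) (nat_lit 271) (nat_lit 270) (nat_lit 179)))))) (XT.nd (nat_lit 470) (nat_lit 1428) (nat_lit 0) (XT.nd (nat_lit 188) (nat_lit 0) (nat_lit 168) (XT.nd (nat_lit 94) (nat_lit 0) (nat_lit 84) (XT.lf (nat_lit 84) (nat_lit 482577130) (nat_lit 0) (nat_lit 4120129742) (nat_lit 1260) (nat_lit 13952134492) (nat_lit 161) (nat_lit 5) (nat_lit 160) (nat_lit 5) (nat_lit 175) (nat_lit 5) (nat_lit 272) (nat_lit 270) (nat_lit 178)) (XT.lf (nat_lit 0) (nat_lit 5555661082) (nat_lit 1176) (nat_lit 4714915485) (nat_lit 1260)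 (nat_lit 8741620545) (nat_lit 161) (nat_lit 5) (nat_lit 175) (nat_lit 5) (nat_lit 176) (nat_lit 5) (nat_lit 273) (nat_lit 270) (nat_lit 177))) (XT.nd (nat_lit 94) (nat_lit 0) (nat_lit 0) (XT.lf (nat_lit 0) (nat_lit 6723378549) (nat_lit 1176) (nat_lit 10052679537) (nat_lit 1260) (nat_lit 2710513516) (nat_lit 162) (nat_lit 5) (nat_lit 176) (nat_lit 5) (nat_lit 177) (nat_lit 5) (nat_lit 274) (nat_lit 270) (nat_lit 176)) (XT.nd (nat_lit 94) (nat_lit 0) (nat_lit 84) (XT.lf (nat_lit 84) (nat_lit 4389801516) (nat_lit 0) (nat_lit 3769165462) (nat_lit 1260) (nat_lit 11818365863) (nat_lit 163) (nat_lit 5) (nat_lit 162) (nat_lit 5) (nat_lit 177) (nat_lit 5) (nat_lit 275) (nat_lit 270) (nat_lit 175)) (XT.lf (nat_lit 0) (nat_lit 9882286419) (nat_lit 1176) (nat_lit 812251547) (nat_lit 1260) (nat_lit 9790535869) (nat_lit 163) (nat_lit 5) (nat_lit 177) (nat_lit 5) (nat_lit 178) (nat_lit 5) (nat_lit 276) (nat_lit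 270) (nat_lit 174))))) (XT.nd (nat_lit 282) (nat_lit 1764) (nat_lit 0) (XT.nd (nat_lit 94) (nat_lit 0) (nat_lit 0) (XT.lf (nat_lit 0) (nat_lit 11922189084) (nat_lit 1176) (nat_lit 6059381586) (nat_lit 1260) (nat_lit 3028566605) (nat_lit 164) (nat_lit 5) (nat_lit 178) (nat_lit 5) (nat_lit 179) (nat_lit 5) (nat_lit 277) (nat_lit 270) (nat_lit 173)) (XT.nd (nat_lit 94) (nat_lit 0) (nat_lit 84) (XT.lf (nat_lit 84) (nat_lit 10051993639) (nat_lit 0) (nat_lit 4244505638) (nat_lit 1260) (nat_lit 7256820175) (nat_lit 165) (nat_lit 5) (nat_lit 164) (nat_lit 5) (nat_lit 179) (nat_lit 5) (nat_lit 278) (nat_lit 270) (nat_lit 172)) (XT.lf (nat_lit 84) (nat_lit 4982626283) (nat_lit 0) (nat_lit 12035269029) (nat_lit 1260) (nat_lit 5097772465) (nat_lit 166) (nat_lit 5) (nat_lit 165) (nat_lit 5) (nat_lit 180) (nat_lit 5) (nat_lit 279) (nat_lit 270) (nat_lit 171)))) (XT.nd (nat_lit 94) (nat_lit 1932) (nat_lit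 0) (XT.lf (nat_lit 0) (nat_lit 20076142978) (nat_lit 1176) (nat_lit 218559121) (nat_lit 84) (nat_lit 2404404056) (nat_lit 166) (nat_lit 5) (nat_lit 180) (nat_lit 5) (nat_lit 167) (nat_lit 5) (nat_lit 280) (nat_lit 270) (nat_lit 170)) (XT.nd (nat_lit 94) (nat_lit 672) (nat_lit 0) (XT.lf (nat_lit 0) (nat_lit 306221787) (nat_lit 1260) (nat_lit 5510656064) (nat_lit 84) (nat_lit 17483295263) (nat_lit 151) (nat_lit 5) (nat_lit 166) (nat_lit 5) (nat_lit 152) (nat_lit 5) (nat_lit 281) (nat_lit 270) (nat_lit 169)) (XT.lf (nat_lit 0) (nat_lit 3561442333) (nat_lit 756) (nat_lit 11006534193) (nat_lit 84) (nat_lit 9353772026) (nat_lit 143) (nat_lit 5) (nat_lit 152) (nat_lit 5) (nat_lit 144) (nat_lit 5) (nat_lit 282) (nat_lit 270) (nat_lit 168))))))) (XT.nd (nat_lit 1034) (nat_lit 84) (nat_lit 0) (XT.nd (nat_lit 470) (nat_lit 588) (nat_lit 0) (XT.nd (nat_lit 188) (nat_lit 0) (nat_lit 84) (XT.nd (nat_lit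 94) (nat_lit 0) (nat_lit 84) (XT.lf (nat_lit 0) (nat_lit 2104729622) (nat_lit 1260) (nat_lit 3584222851) (nat_lit 1260) (nat_lit 3584222851) (nat_lit 159) (nat_lit 3) (nat_lit 174) (nat_lit 3) (nat_lit 174) (nat_lit 5) (nat_lit 271) (nat_lit 271) (nat_lit 178)) (XT.lf (nat_lit 0) (nat_lit 4673489574) (nat_lit 1176) (nat_lit 12796858985) (nat_lit 1260) (nat_lit 1527103071) (nat_lit 160) (nat_lit 5) (nat_lit 174) (nat_lit 5) (nat_lit 175) (nat_lit 5) (nat_lit 272) (nat_lit 271) (nat_lit 177))) (XT.nd (nat_lit 94) (nat_lit 0) (nat_lit 84) (XT.lf (nat_lit 84) (nat_lit 819147041) (nat_lit 0) (nat_lit 4553187465) (nat_lit 1260) (nat_lit 14091366697) (nat_lit 161) (nat_lit 5) (nat_lit 160) (nat_lit 5) (nat_lit 175) (nat_lit 5) (nat_lit 273) (nat_lit 271) (nat_lit 176)) (XT.nd (nat_lit 94) (nat_lit 0) (nat_lit 84) (XT.lf (nat_lit 0) (nat_lit 6344836946) (nat_lit 1176) (nat_lit 4632705904) (nat_lit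 1260) (nat_lit 8967365370) (nat_lit 161) (nat_lit 5) (nat_lit 175) (nat_lit 5) (nat_lit 176) (nat_lit 5) (nat_lit 274) (nat_lit 271) (nat_lit 175)) (XT.lf (nat_lit 0) (nat_lit 7548027669) (nat_lit 1176) (nat_lit 10226293372) (nat_lit 1260) (nat_lit 2669482335) (nat_lit 162) (nat_lit 5) (nat_lit 176) (nat_lit 5) (nat_lit 177) (nat_lit 5) (nat_lit 275) (nat_lit 271) (nat_lit 174))))) (XT.nd (nat_lit 282) (nat_lit 840) (nat_lit 0) (XT.nd (nat_lit 94) (nat_lit 0) (nat_lit 84) (XT.lf (nat_lit 84) (nat_lit 4929913988) (nat_lit 0) (nat_lit 4105792991) (nat_lit 1260) (nat_lit 11924084795) (nat_lit 163) (nat_lit 5) (nat_lit 162) (nat_lit 5) (nat_lit 177) (nat_lit 5) (nat_lit 276) (nat_lit 271) (nat_lit 173)) (XT.nd (nat_lit 94) (nat_lit 0) (nat_lit 84) (XT.lf (nat_lit 0) (nat_lit 10821296673) (nat_lit 1176) (nat_lit 530310763) (nat_lit 1260) (nat_lit 10142148733) (nat_lit 163) (nat_lit 5) (nat_lit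 177) (nat_lit 5) (nat_lit 178) (nat_lit 5) (nat_lit 277) (nat_lit 271) (nat_lit 172)) (XT.lf (nat_lit 0) (nat_lit 12944253299) (nat_lit 1176) (nat_lit 6031819694) (nat_lit 1260) (nat_lit 3069662728) (nat_lit 164) (nat_lit 5) (nat_lit 178) (nat_lit 5) (nat_lit 179) (nat_lit 5) (nat_lit 278) (nat_lit 271) (nat_lit 171)))) (XT.nd (nat_lit 94) (nat_lit 1008) (nat_lit 0) (XT.lf (nat_lit 84) (nat_lit 10876687985) (nat_lit 0) (nat_lit 4543896284) (nat_lit 1260) (nat_lit 7196077054) (nat_lit 165) (nat_lit 5) (nat_lit 164) (nat_lit 5) (nat_lit 179) (nat_lit 5) (nat_lit 279) (nat_lit 271) (nat_lit 170)) (XT.nd (nat_lit 94) (nat_lit 1092) (nat_lit 0) (XT.lf (nat_lit 84) (nat_lit 5560536199) (nat_lit 0) (nat_lit 12700763673) (nat_lit 1260) (nat_lit 4946413451) (nat_lit 166) (nat_lit 5) (nat_lit 165) (nat_lit 5) (nat_lit 180) (nat_lit 5) (nat_lit 280) (nat_lit 271) (nat_lit 169)) (XT.lf (nat_lit 0) (nat_lit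 99654952) (nat_lit 1176) (nat_lit 21354548109) (nat_lit 1260) (nat_lit 2366759549) (nat_lit 152) (nat_lit 5) (nat_lit 166) (nat_lit 5) (nat_lit 167) (nat_lit 5) (nat_lit 281) (nat_lit 271) (nat_lit 168)))))) (XT.nd (nat_lit 44650) (nat_lit 0) (nat_lit 924) (XT.nd (nat_lit 44368) (nat_lit 0) (nat_lit 756) (XT.nd (nat_lit 44274) (nat_lit 0) (nat_lit 672) (XT.lf (nat_lit 0) (nat_lit 684595105) (nat_lit 1260) (nat_lit 5459226462) (nat_lit 84) (nat_lit 18308653024) (nat_lit 151) (nat_lit 5) (nat_lit 166) (nat_lit 5) (nat_lit 152) (nat_lit 5) (nat_lit 282) (nat_lit 271) (nat_lit 167)) (XT.lf (nat_lit 0) (nat_lit 2477813107) (nat_lit 1260) (nat_lit 3624823169) (nat_lit 1260) (nat_lit 3624823169) (nat_lit 159) (nat_lit 3) (nat_lit 174) (nat_lit 3) (nat_lit 174) (nat_lit 5) (nat_lit 272) (nat_lit 272) (nat_lit 176))) (XT.nd (nat_lit 94) (nat_lit 0) (nat_lit 0) (XT.lf (nat_lit 0) (nat_lit 5417650743)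 (nat_lit 1176) (nat_lit 13145886049) (nat_lit 1260) (nat_lit 1365920386) (nat_lit 160) (nat_lit 5) (nat_lit 174) (nat_lit 5) (nat_lit 175) (nat_lit 5) (nat_lit 273) (nat_lit 272) (nat_lit 175)) (XT.nd (nat_lit 94) (nat_lit 0) (nat_lit 84) (XT.lf (nat_lit 84) (nat_lit 1143497639) (nat_lit 0) (nat_lit 4986789001) (nat_lit 1260) (nat_lit 14289472882) (nat_lit 161) (nat_lit 5) (nat_lit 160) (nat_lit 5) (nat_lit 175) (nat_lit 5) (nat_lit 274) (nat_lit 272) (nat_lit 174)) (XT.lf (nat_lit 0) (nat_lit 7125927147) (nat_lit 1176) (nat_lit 4575946318) (nat_lit 1260) (nat_lit 9224045472) (nat_lit 161) (nat_lit 5) (nat_lit 175) (nat_lit 5) (nat_lit 176) (nat_lit 5) (nat_lit 275) (nat_lit 272) (nat_lit 173))))) (XT.nd (nat_lit 282) (nat_lit 0) (nat_lit 168) (XT.nd (nat_lit 94) (nat_lit 0) (nat_lit 0) (XT.lf (nat_lit 0) (nat_lit 8368494987) (nat_lit 1176) (nat_lit 10439177072) (nat_lit 1260) (nat_lit 2642814179)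 (nat_lit 162) (nat_lit 5) (nat_lit 176) (nat_lit 5) (nat_lit 177) (nat_lit 5) (nat_lit 276) (nat_lit 272) (nat_lit 172)) (XT.nd (nat_lit 94) (nat_lit 0) (nat_lit 84) (XT.lf (nat_lit 84) (nat_lit 5467223653) (nat_lit 0) (nat_lit 4445476525) (nat_lit 1260) (nat_lit 12080198911) (nat_lit 163) (nat_lit 5) (nat_lit 162) (nat_lit 5) (nat_lit 177) (nat_lit 5) (nat_lit 277) (nat_lit 272) (nat_lit 171)) (XT.lf (nat_lit 0) (nat_lit 11765895232) (nat_lit 1176) (nat_lit 264260894) (nat_lit 1260) (nat_lit 10524164170) (nat_lit 163) (nat_lit 5) (nat_lit 177) (nat_lit 5) (nat_lit 178) (nat_lit 5) (nat_lit 278) (nat_lit 272) (nat_lit 170)))) (XT.nd (nat_lit 94) (nat_lit 0) (nat_lit 0) (XT.lf (nat_lit 0) (nat_lit 13977819489) (nat_lit 1176) (nat_lit 6033609344) (nat_lit 1260) (nat_lit 3123071301) (nat_lit 164) (nat_lit 5) (nat_lit 178) (nat_lit 5) (nat_lit 179) (nat_lit 5) (nat_lit 279) (nat_lit 272) (nat_lit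 169)) (XT.nd (nat_lit 94) (nat_lit 0) (nat_lit 84) (XT.lf (nat_lit 84) (nat_lit 11712671740) (nat_lit 0) (nat_lit 4850152653) (nat_lit 1260) (nat_lit 7171677615) (nat_lit 165) (nat_lit 5) (nat_lit 164) (nat_lit 5) (nat_lit 179) (nat_lit 5) (nat_lit 280) (nat_lit 272) (nat_lit 168)) (XT.lf (nat_lit 84) (nat_lit 6136774892) (nat_lit 0) (nat_lit 13393607927) (nat_lit 1260) (nat_lit 4825255541) (nat_lit 166) (nat_lit 5) (nat_lit 165) (nat_lit 5) (nat_lit 180) (nat_lit 5) (nat_lit 281) (nat_lit 272) (nat_lit 167))))))))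
noncomputable def xc31 : XT := (XT.nd (nat_lit 135172) (nat_lit 0) (nat_lit 588) (XT.nd (nat_lit 89676) (nat_lit 0) (nat_lit 588) (XT.nd (nat_lit 44744) (nat_lit 0) (nat_lit 840) (XT.nd (nat_lit 44462) (nat_lit 0) (nat_lit 672) (XT.nd (nat_lit 44368) (nat_lit 0) (nat_lit 588) (XT.lf (nat_lit 0) (nat_lit 408008406) (nat_lit 1176) (nat_lit 22460736314) (nat_lit 1260) (nat_lit 2131301917) (nat_lit 152) (nat_lit 5) (nat_lit 166) (nat_lit 5) (nat_lit 167) (nat_lit 5) (nat_lit 282) (nat_lit 272) (nat_lit 166)) (XT.lf (nat_lit 0) (nat_lit 2844648890) (nat_lit 1260) (nat_lit 3680340224) (nat_lit 1260) (nat_lit 3680340224) (nat_lit 159) (nat_lit 3) (nat_lit 174) (nat_lit 3) (nat_lit 174) (nat_lit 5) (nat_lit 273) (nat_lit 273) (nat_lit 174))) (XT.nd (nat_lit 94) (nat_lit 0) (nat_lit 0) (XT.lf (nat_lit 0) (nat_lit 6151559756) (nat_lit 1176) (nat_lit 13539401770) (nat_lit 1260) (nat_lit 1218762583) (nat_lit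 160) (nat_lit 5) (nat_lit 174) (nat_lit 5) (nat_lit 175) (nat_lit 5) (nat_lit 274) (nat_lit 273) (nat_lit 173)) (XT.nd (nat_lit 94) (nat_lit 0) (nat_lit 84) (XT.lf (nat_lit 84) (nat_lit 1457718550) (nat_lit 0) (nat_lit 5422924065) (nat_lit 1260) (nat_lit 14544570427) (nat_lit 161) (nat_lit 5) (nat_lit 160) (nat_lit 5) (nat_lit 175) (nat_lit 5) (nat_lit 275) (nat_lit 273) (nat_lit 172)) (XT.lf (nat_lit 0) (nat_lit 7902947635) (nat_lit 1176) (nat_lit 4543160977) (nat_lit 1260) (nat_lit 9511380929) (nat_lit 161) (nat_lit 5) (nat_lit 175) (nat_lit 5) (nat_lit 176) (nat_lit 5) (nat_lit 276) (nat_lit 273) (nat_lit 171))))) (XT.nd (nat_lit 282) (nat_lit 0) (nat_lit 168) (XT.nd (nat_lit 94) (nat_lit 0) (nat_lit 0) (XT.lf (nat_lit 0) (nat_lit 9188793599) (nat_lit 1176) (nat_lit 10690450241) (nat_lit 1260) (nat_lit 2629701125) (nat_lit 162) (nat_lit 5) (nat_lit 176) (nat_lit 5) (nat_lit 177) (nat_lit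 5) (nat_lit 277) (nat_lit 273) (nat_lit 170)) (XT.nd (nat_lit 94) (nat_lit 0) (nat_lit 84) (XT.lf (nat_lit 84) (nat_lit 6004361676) (nat_lit 0) (nat_lit 4789649565) (nat_lit 1260) (nat_lit 12285034141) (nat_lit 163) (nat_lit 5) (nat_lit 162) (nat_lit 5) (nat_lit 177) (nat_lit 5) (nat_lit 278) (nat_lit 273) (nat_lit 169)) (XT.lf (nat_lit 0) (nat_lit 12720206979) (nat_lit 1176) (nat_lit 12108491) (nat_lit 1260) (nat_lit 10936910247) (nat_lit 163) (nat_lit 5) (nat_lit 177) (nat_lit 5) (nat_lit 178) (nat_lit 5) (nat_lit 279) (nat_lit 273) (nat_lit 168)))) (XT.nd (nat_lit 94) (nat_lit 0) (nat_lit 0) (XT.lf (nat_lit 0) (nat_lit 15027144500) (nat_lit 1176) (nat_lit 6063361164) (nat_lit 1260) (nat_lit 3188454286) (nat_lit 164) (nat_lit 5) (nat_lit 178) (nat_lit 5) (nat_lit 179) (nat_lit 5) (nat_lit 280) (nat_lit 273) (nat_lit 167)) (XT.nd (nat_lit 94) (nat_lit 0) (nat_lit 84) (XT.lf (nat_lit 84) (nat_lit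 12563293404) (nat_lit 0) (nat_lit 5164371447) (nat_lit 1260) (nat_lit 7181777784) (nat_lit 165) (nat_lit 5) (nat_lit 164) (nat_lit 5) (nat_lit 179) (nat_lit 5) (nat_lit 281) (nat_lit 273) (nat_lit 166)) (XT.lf (nat_lit 84) (nat_lit 6714100607) (nat_lit 0) (nat_lit 14115720133) (nat_lit 1260) (nat_lit 4732297382) (nat_lit 166) (nat_lit 5) (nat_lit 165) (nat_lit 5) (nat_lit 180) (nat_lit 5) (nat_lit 282) (nat_lit 273) (nat_lit 165)))))) (XT.nd (nat_lit 470) (nat_lit 0) (nat_lit 0) (XT.nd (nat_lit 188) (nat_lit 0) (nat_lit 84) (XT.nd (nat_lit 94) (nat_lit 0) (nat_lit 84) (XT.lf (nat_lit 0) (nat_lit 3207239727) (nat_lit 1260) (nat_lit 3750321766) (nat_lit 1260) (nat_lit 3750321766) (nat_lit 159) (nat_lit 3) (nat_lit 174) (nat_lit 3) (nat_lit 174) (nat_lit 5) (nat_lit 274) (nat_lit 274) (nat_lit 172)) (XT.lf (nat_lit 0) (nat_lit 6879116407) (nat_lit 1176) (nat_lit 13977116910) (nat_lit 1260) (nat_lit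 1084277745) (nat_lit 160) (nat_lit 5) (nat_lit 174) (nat_lit 5) (nat_lit 175) (nat_lit 5) (nat_lit 275) (nat_lit 274) (nat_lit 171))) (XT.nd (nat_lit 94) (nat_lit 0) (nat_lit 84) (XT.lf (nat_lit 84) (nat_lit 1763752803) (nat_lit 0) (nat_lit 5863499395) (nat_lit 1260) (nat_lit 14855131285) (nat_lit 161) (nat_lit 5) (nat_lit 160) (nat_lit 5) (nat_lit 175) (nat_lit 5) (nat_lit 276) (nat_lit 274) (nat_lit 170)) (XT.nd (nat_lit 94) (nat_lit 0) (nat_lit 84) (XT.lf (nat_lit 0) (nat_lit 8679704205) (nat_lit 1176) (nat_lit 4533055844) (nat_lit 1260) (nat_lit 9829247647) (nat_lit 161) (nat_lit 5) (nat_lit 175) (nat_lit 5) (nat_lit 176) (nat_lit 5) (nat_lit 277) (nat_lit 274) (nat_lit 169)) (XT.lf (nat_lit 0) (nat_lit 10012744720) (nat_lit 1176) (nat_lit 10979452857) (nat_lit 1260) (nat_lit 2629436736) (nat_lit 162) (nat_lit 5) (nat_lit 176) (nat_lit 5) (nat_lit 177) (nat_lit 5) (nat_lit 278) (nat_lit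 274) (nat_lit 168))))) (XT.nd (nat_lit 282) (nat_lit 252) (nat_lit 0) (XT.nd (nat_lit 94) (nat_lit 0) (nat_lit 84) (XT.lf (nat_lit 84) (nat_lit 6543833129) (nat_lit 0) (nat_lit 5139698224) (nat_lit 1260) (nat_lit 12537222614) (nat_lit 163) (nat_lit 5) (nat_lit 162) (nat_lit 5) (nat_lit 177) (nat_lit 5) (nat_lit 279) (nat_lit 274) (nat_lit 167)) (XT.nd (nat_lit 94) (nat_lit 0) (nat_lit 84) (XT.lf (nat_lit 84) (nat_lit 233269586) (nat_lit 0) (nat_lit 13457535061) (nat_lit 1260) (nat_lit 11150171800) (nat_lit 164) (nat_lit 5) (nat_lit 163) (nat_lit 5) (nat_lit 178) (nat_lit 5) (nat_lit 280) (nat_lit 274) (nat_lit 166)) (XT.lf (nat_lit 0) (nat_lit 16096355726) (nat_lit 1176) (nat_lit 6119881922) (nat_lit 1260) (nat_lit 3265545409) (nat_lit 164) (nat_lit 5) (nat_lit 178) (nat_lit 5) (nat_lit 179) (nat_lit 5) (nat_lit 281) (nat_lit 274) (nat_lit 165)))) (XT.nd (nat_lit 44556) (nat_lit 420) (nat_lit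 0) (XT.lf (nat_lit 84) (nat_lit 13431810072) (nat_lit 0) (nat_lit 5487634156) (nat_lit 1260) (nat_lit 7224781675) (nat_lit 165) (nat_lit 5) (nat_lit 164) (nat_lit 5) (nat_lit 179) (nat_lit 5) (nat_lit 282) (nat_lit 274) (nat_lit 164)) (XT.nd (nat_lit 94) (nat_lit 0) (nat_lit 84) (XT.lf (nat_lit 0) (nat_lit 3567473272) (nat_lit 1260) (nat_lit 3834404323) (nat_lit 1260) (nat_lit 3834404323) (nat_lit 159) (nat_lit 3) (nat_lit 174) (nat_lit 3) (nat_lit 174) (nat_lit 5) (nat_lit 275) (nat_lit 275) (nat_lit 170)) (XT.lf (nat_lit 0) (nat_lit 7604005255) (nat_lit 1176) (nat_lit 14458961464) (nat_lit 1260) (nat_lit 961237240) (nat_lit 160) (nat_lit 5) (nat_lit 174) (nat_lit 5) (nat_lit 175) (nat_lit 5) (nat_lit 276) (nat_lit 275) (nat_lit 169))))))) (XT.nd (nat_lit 45590) (nat_lit 0) (nat_lit 0) (XT.nd (nat_lit 470) (nat_lit 84) (nat_lit 0) (XT.nd (nat_lit 188) (nat_lit 0) (nat_lit 168) (XT.nd (nat_lit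 94) (nat_lit 0) (nat_lit 84) (XT.lf (nat_lit 84) (nat_lit 2063412847) (nat_lit 0) (nat_lit 6310351578) (nat_lit 1260) (nat_lit 15219957995) (nat_lit 161) (nat_lit 5) (nat_lit 160) (nat_lit 5) (nat_lit 175) (nat_lit 5) (nat_lit 277) (nat_lit 275) (nat_lit 168)) (XT.lf (nat_lit 0) (nat_lit 9459820199) (nat_lit 1176) (nat_lit 4544503936) (nat_lit 1260) (nat_lit 10177669368) (nat_lit 161) (nat_lit 5) (nat_lit 175) (nat_lit 5) (nat_lit 176) (nat_lit 5) (nat_lit 278) (nat_lit 275) (nat_lit 167))) (XT.nd (nat_lit 94) (nat_lit 0) (nat_lit 0) (XT.lf (nat_lit 0) (nat_lit 10844004578) (nat_lit 1176) (nat_lit 11305731716) (nat_lit 1260) (nat_lit 2641407943) (nat_lit 162) (nat_lit 5) (nat_lit 176) (nat_lit 5) (nat_lit 177) (nat_lit 5) (nat_lit 279) (nat_lit 275) (nat_lit 166)) (XT.nd (nat_lit 94) (nat_lit 0) (nat_lit 84) (XT.lf (nat_lit 84) (nat_lit 7088034644) (nat_lit 0) (nat_lit 5496969920) (nat_lit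 1260) (nat_lit 12835681719) (nat_lit 163) (nat_lit 5) (nat_lit 162) (nat_lit 5) (nat_lit 177) (nat_lit 5) (nat_lit 280) (nat_lit 275) (nat_lit 165)) (XT.lf (nat_lit 84) (nat_lit 468314898) (nat_lit 0) (nat_lit 14210642015) (nat_lit 1260) (nat_lit 11393441935) (nat_lit 164) (nat_lit 5) (nat_lit 163) (nat_lit 5) (nat_lit 178) (nat_lit 5) (nat_lit 281) (nat_lit 275) (nat_lit 164))))) (XT.nd (nat_lit 44838) (nat_lit 0) (nat_lit 84) (XT.nd (nat_lit 44650) (nat_lit 420) (nat_lit 0) (XT.lf (nat_lit 0) (nat_lit 17189476461) (nat_lit 1176) (nat_lit 6202159647) (nat_lit 1260) (nat_lit 3354145499) (nat_lit 164) (nat_lit 5) (nat_lit 178) (nat_lit 5) (nat_lit 179) (nat_lit 5) (nat_lit 282) (nat_lit 275) (nat_lit 163)) (XT.nd (nat_lit 94) (nat_lit 0) (nat_lit 84) (XT.lf (nat_lit 0) (nat_lit 3927136331) (nat_lit 1260) (nat_lit 3932307278) (nat_lit 1260) (nat_lit 3932307278) (nat_lit 159) (nat_lit 3) (nat_lit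 174) (nat_lit 3) (nat_lit 174) (nat_lit 5) (nat_lit 276) (nat_lit 276) (nat_lit 168)) (XT.lf (nat_lit 0) (nat_lit 8329723004) (nat_lit 1176) (nat_lit 14985073899) (nat_lit 1260) (nat_lit 848524142) (nat_lit 160) (nat_lit 5) (nat_lit 174) (nat_lit 5) (nat_lit 175) (nat_lit 5) (nat_lit 277) (nat_lit 276) (nat_lit 167)))) (XT.nd (nat_lit 94) (nat_lit 0) (nat_lit 84) (XT.lf (nat_lit 84) (nat_lit 2358395193) (nat_lit 0) (nat_lit 6765258920) (nat_lit 1260) (nat_lit 15638162377) (nat_lit 161) (nat_lit 5) (nat_lit 160) (nat_lit 5) (nat_lit 175) (nat_lit 5) (nat_lit 278) (nat_lit 276) (nat_lit 166)) (XT.nd (nat_lit 94) (nat_lit 0) (nat_lit 84) (XT.lf (nat_lit 0) (nat_lit 10246762033) (nat_lit 1176) (nat_lit 4576532126) (nat_lit 1260) (nat_lit 10556810741) (nat_lit 161) (nat_lit 5) (nat_lit 175) (nat_lit 5) (nat_lit 176) (nat_lit 5) (nat_lit 279) (nat_lit 276) (nat_lit 165)) (XT.lf (nat_lit 0) (nat_lit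 11686089271) (nat_lit 1176) (nat_lit 11669028476) (nat_lit 1260) (nat_lit 2665087745) (nat_lit 162) (nat_lit 5) (nat_lit 176) (nat_lit 5) (nat_lit 177) (nat_lit 5) (nat_lit 280) (nat_lit 276) (nat_lit 164)))))) (XT.nd (nat_lit 45214) (nat_lit 0) (nat_lit 0) (XT.nd (nat_lit 44932) (nat_lit 0) (nat_lit 84) (XT.nd (nat_lit 44838) (nat_lit 252) (nat_lit 0) (XT.lf (nat_lit 84) (nat_lit 7639270715) (nat_lit 0) (nat_lit 5862781487) (nat_lit 1260) (nat_lit 13179595486) (nat_lit 163) (nat_lit 5) (nat_lit 162) (nat_lit 5) (nat_lit 177) (nat_lit 5) (nat_lit 281) (nat_lit 276) (nat_lit 163)) (XT.lf (nat_lit 0) (nat_lit 4287927973) (nat_lit 1260) (nat_lit 4043827619) (nat_lit 1260) (nat_lit 4043827619) (nat_lit 159) (nat_lit 3) (nat_lit 174) (nat_lit 3) (nat_lit 174) (nat_lit 5) (nat_lit 277) (nat_lit 277) (nat_lit 166))) (XT.nd (nat_lit 94) (nat_lit 0) (nat_lit 0) (XT.lf (nat_lit 0) (nat_lit 9059603699)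 (nat_lit 1176) (nat_lit 15555791867) (nat_lit 1260) (nat_lit 745122722) (nat_lit 160) (nat_lit 5) (nat_lit 174) (nat_lit 5) (nat_lit 175) (nat_lit 5) (nat_lit 278) (nat_lit 277) (nat_lit 165)) (XT.nd (nat_lit 94) (nat_lit 0) (nat_lit 84) (XT.lf (nat_lit 84) (nat_lit 2650293823) (nat_lit 0) (nat_lit 7229952490) (nat_lit 1260) (nat_lit 16109146670) (nat_lit 161) (nat_lit 5) (nat_lit 160) (nat_lit 5) (nat_lit 175) (nat_lit 5) (nat_lit 279) (nat_lit 277) (nat_lit 164)) (XT.lf (nat_lit 0) (nat_lit 11043862787) (nat_lit 1176) (nat_lit 4628309293) (nat_lit 1260) (nat_lit 10966971372) (nat_lit 161) (nat_lit 5) (nat_lit 175) (nat_lit 5) (nat_lit 176) (nat_lit 5) (nat_lit 280) (nat_lit 277) (nat_lit 163))))) (XT.nd (nat_lit 45120) (nat_lit 0) (nat_lit 84) (XT.nd (nat_lit 44932) (nat_lit 252) (nat_lit 0) (XT.lf (nat_lit 0) (nat_lit 12542397783) (nat_lit 1176) (nat_lit 12069269173) (nat_lit 1260) (nat_lit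 2700028669) (nat_lit 162) (nat_lit 5) (nat_lit 176) (nat_lit 5) (nat_lit 177) (nat_lit 5) (nat_lit 281) (nat_lit 277) (nat_lit 162)) (XT.nd (nat_lit 94) (nat_lit 0) (nat_lit 84) (XT.lf (nat_lit 0) (nat_lit 4651471606) (nat_lit 1260) (nat_lit 4168835307) (nat_lit 1260) (nat_lit 4168835307) (nat_lit 159) (nat_lit 3) (nat_lit 174) (nat_lit 3) (nat_lit 174) (nat_lit 5) (nat_lit 278) (nat_lit 278) (nat_lit 164)) (XT.lf (nat_lit 0) (nat_lit 9796841974) (nat_lit 1176) (nat_lit 16171644294) (nat_lit 1260) (nat_lit 650108902) (nat_lit 160) (nat_lit 5) (nat_lit 174) (nat_lit 5) (nat_lit 175) (nat_lit 5) (nat_lit 279) (nat_lit 278) (nat_lit 163)))) (XT.nd (nat_lit 94) (nat_lit 0) (nat_lit 0) (XT.lf (nat_lit 84) (nat_lit 2940612478) (nat_lit 0) (nat_lit 7706126417) (nat_lit 1260) (nat_lit 16632586928) (nat_lit 161) (nat_lit 5) (nat_lit 160) (nat_lit 5) (nat_lit 175) (nat_lit 5) (nat_lit 280) (nat_lit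 278) (nat_lit 162)) (XT.nd (nat_lit 45120) (nat_lit 84) (nat_lit 0) (XT.lf (nat_lit 0) (nat_lit 11854344046) (nat_lit 1176) (nat_lit 4699135697) (nat_lit 1260) (nat_lit 11408580798) (nat_lit 161) (nat_lit 5) (nat_lit 175) (nat_lit 5) (nat_lit 176) (nat_lit 5) (nat_lit 281) (nat_lit 278) (nat_lit 161)) (XT.lf (nat_lit 0) (nat_lit 10544514540) (nat_lit 1176) (nat_lit 16833344724) (nat_lit 1260) (nat_lit 562641597) (nat_lit 160) (nat_lit 5) (nat_lit 174) (nat_lit 5) (nat_lit 175) (nat_lit 5) (nat_lit 280) (nat_lit 279) (nat_lit 161))))))))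
noncomputable def ec0 : XT := (XT.nd (nat_lit 135736) (nat_lit 672) (nat_lit 0) (XT.nd (nat_lit 90334) (nat_lit 0) (nat_lit 0) (XT.nd (nat_lit 45214) (nat_lit 0) (nat_lit 0) (XT.nd (nat_lit 188) (nat_lit 0) (nat_lit 0) (XT.nd (nat_lit 94) (nat_lit 0) (nat_lit 0) (XT.lf (nat_lit 1260) (nat_lit 336879087) (nat_lit 0) (nat_lit 512546146) (nat_lit 1260) (nat_lit 336879087) (nat_lit 174) (nat_lit 1) (nat_lit 159) (nat_lit 0) (nat_lit 174) (nat_lit 0) (nat_lit 262) (nat_lit 229) (nat_lit 229)) (XT.lf (nat_lit 1260) (nat_lit 1303959270) (nat_lit 84) (nat_lit 994903753) (nat_lit 0) (nat_lit 16866946) (nat_lit 174) (nat_lit 1) (nat_lit 160) (nat_lit 1) (nat_lit 159) (nat_lit 0) (nat_lit 263) (nat_lit 229) (nat_lit 228))) (XT.nd (nat_lit 44838) (nat_lit 84) (nat_lit 0) (XT.lf (nat_lit 1260) (nat_lit 1232763566) (nat_lit 84) (nat_lit 327366765) (nat_lit 0) (nat_lit 700424697) (nat_lit 175) (nat_lit 1)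 (nat_lit 161) (nat_lit 1) (nat_lit 160) (nat_lit 1) (nat_lit 264) (nat_lit 229) (nat_lit 227)) (XT.nd (nat_lit 94) (nat_lit 0) (nat_lit 0) (XT.lf (nat_lit 1260) (nat_lit 353723041) (nat_lit 0) (nat_lit 538173453) (nat_lit 1260) (nat_lit 353723041) (nat_lit 174) (nat_lit 1) (nat_lit 159) (nat_lit 0) (nat_lit 174) (nat_lit 0) (nat_lit 260) (nat_lit 230) (nat_lit 230)) (XT.lf (nat_lit 1260) (nat_lit 1369157234) (nat_lit 84) (nat_lit 1044648940) (nat_lit 0) (nat_lit 17710293) (nat_lit 174) (nat_lit 1) (nat_lit 160) (nat_lit 1) (nat_lit 159) (nat_lit 0) (nat_lit 261) (nat_lit 230) (nat_lit 229))))) (XT.nd (nat_lit 44838) (nat_lit 84) (nat_lit 0) (XT.nd (nat_lit 94) (nat_lit 0) (nat_lit 84) (XT.lf (nat_lit 1260) (nat_lit 1294401744) (nat_lit 84) (nat_lit 343735103) (nat_lit 0) (nat_lit 735445932) (nat_lit 175) (nat_lit 1) (nat_lit 161) (nat_lit 1) (nat_lit 160) (nat_lit 1) (nat_lit 262) (nat_lit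 230) (nat_lit 228)) (XT.nd (nat_lit 94) (nat_lit 0) (nat_lit 84) (XT.lf (nat_lit 1260) (nat_lit 891256089) (nat_lit 0) (nat_lit 1120606769) (nat_lit 1176) (nat_lit 305655805) (nat_lit 176) (nat_lit 1) (nat_lit 161) (nat_lit 1) (nat_lit 175) (nat_lit 1) (nat_lit 263) (nat_lit 230) (nat_lit 227)) (XT.lf (nat_lit 1260) (nat_lit 172440072) (nat_lit 0) (nat_lit 1184977234) (nat_lit 1176) (nat_lit 905834854) (nat_lit 177) (nat_lit 1) (nat_lit 162) (nat_lit 1) (nat_lit 176) (nat_lit 1) (nat_lit 264) (nat_lit 230) (nat_lit 226)))) (XT.nd (nat_lit 94) (nat_lit 0) (nat_lit 0) (XT.lf (nat_lit 1260) (nat_lit 371409193) (nat_lit 0) (nat_lit 565082126) (nat_lit 1260) (nat_lit 371409193) (nat_lit 174) (nat_lit 1) (nat_lit 159) (nat_lit 0) (nat_lit 174) (nat_lit 0) (nat_lit 258) (nat_lit 231) (nat_lit 231)) (XT.nd (nat_lit 94) (nat_lit 0) (nat_lit 84) (XT.lf (nat_lit 1260) (nat_lit 1437615096) (nat_lit 84)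 (nat_lit 1096881388) (nat_lit 0) (nat_lit 18595808) (nat_lit 174) (nat_lit 1) (nat_lit 160) (nat_lit 1) (nat_lit 159) (nat_lit 0) (nat_lit 259) (nat_lit 231) (nat_lit 230)) (XT.lf (nat_lit 1260) (nat_lit 1359121832) (nat_lit 84) (nat_lit 360921858) (nat_lit 0) (nat_lit 772218228) (nat_lit 175) (nat_lit 1) (nat_lit 161) (nat_lit 1) (nat_lit 160) (nat_lit 1) (nat_lit 260) (nat_lit 231) (nat_lit 229)))))) (XT.nd (nat_lit 44838) (nat_lit 0) (nat_lit 0) (XT.nd (nat_lit 188) (nat_lit 168) (nat_lit 0) (XT.nd (nat_lit 94) (nat_lit 0) (nat_lit 84) (XT.lf (nat_lit 1260) (nat_lit 935818894) (nat_lit 0) (nat_lit 1176637108) (nat_lit 1176) (nat_lit 320938596) (nat_lit 176) (nat_lit 1) (nat_lit 161) (nat_lit 1) (nat_lit 175) (nat_lit 1) (nat_lit 261) (nat_lit 231) (nat_lit 228)) (XT.lf (nat_lit 1260) (nat_lit 181062075) (nat_lit 0) (nat_lit 1244226095) (nat_lit 1176) (nat_lit 951126597) (nat_lit 177) (nat_lit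 1) (nat_lit 162) (nat_lit 1) (nat_lit 176) (nat_lit 1) (nat_lit 262) (nat_lit 231) (nat_lit 227))) (XT.nd (nat_lit 94) (nat_lit 252) (nat_lit 0) (XT.lf (nat_lit 1260) (nat_lit 984517447) (nat_lit 84) (nat_lit 775068598) (nat_lit 0) (nat_lit 561580385) (nat_lit 177) (nat_lit 1) (nat_lit 163) (nat_lit 1) (nat_lit 162) (nat_lit 1) (nat_lit 263) (nat_lit 231) (nat_lit 226)) (XT.nd (nat_lit 44462) (nat_lit 336) (nat_lit 0) (XT.lf (nat_lit 1260) (nat_lit 819702768) (nat_lit 84) (nat_lit 164421537) (nat_lit 0) (nat_lit 1283607132) (nat_lit 178) (nat_lit 1) (nat_lit 164) (nat_lit 1) (nat_lit 163) (nat_lit 1) (nat_lit 264) (nat_lit 231) (nat_lit 225)) (XT.lf (nat_lit 1260) (nat_lit 389979653) (nat_lit 0) (nat_lit 593336232) (nat_lit 1260) (nat_lit 389979653) (nat_lit 174) (nat_lit 1) (nat_lit 159) (nat_lit 0) (nat_lit 174) (nat_lit 0) (nat_lit 256) (nat_lit 232) (nat_lit 232))))) (XT.nd (nat_lit 282)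 (nat_lit 0) (nat_lit 252) (XT.nd (nat_lit 94) (nat_lit 0) (nat_lit 84) (XT.lf (nat_lit 1260) (nat_lit 1509495851) (nat_lit 84) (nat_lit 1151725457) (nat_lit 0) (nat_lit 19525598) (nat_lit 174) (nat_lit 1) (nat_lit 160) (nat_lit 1) (nat_lit 159) (nat_lit 0) (nat_lit 257) (nat_lit 232) (nat_lit 231)) (XT.nd (nat_lit 94) (nat_lit 0) (nat_lit 84) (XT.lf (nat_lit 1260) (nat_lit 1427077923) (nat_lit 84) (nat_lit 378967951) (nat_lit 0) (nat_lit 810829140) (nat_lit 175) (nat_lit 1) (nat_lit 161) (nat_lit 1) (nat_lit 160) (nat_lit 1) (nat_lit 258) (nat_lit 232) (nat_lit 230)) (XT.lf (nat_lit 1260) (nat_lit 982609839) (nat_lit 0) (nat_lit 1235468963) (nat_lit 1176) (nat_lit 336985526) (nat_lit 176) (nat_lit 1) (nat_lit 161) (nat_lit 1) (nat_lit 175) (nat_lit 1) (nat_lit 259) (nat_lit 232) (nat_lit 229)))) (XT.nd (nat_lit 94) (nat_lit 0) (nat_lit 0) (XT.lf (nat_lit 1260) (nat_lit 190115179) (nat_lit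 0) (nat_lit 1306437400) (nat_lit 1176) (nat_lit 998682927) (nat_lit 177) (nat_lit 1) (nat_lit 162) (nat_lit 1) (nat_lit 176) (nat_lit 1) (nat_lit 260) (nat_lit 232) (nat_lit 228)) (XT.nd (nat_lit 94) (nat_lit 0) (nat_lit 84) (XT.lf (nat_lit 1260) (nat_lit 1033743319) (nat_lit 84) (nat_lit 813822028) (nat_lit 0) (nat_lit 589659404) (nat_lit 177) (nat_lit 1) (nat_lit 163) (nat_lit 1) (nat_lit 162) (nat_lit 1) (nat_lit 261) (nat_lit 232) (nat_lit 227)) (XT.lf (nat_lit 1260) (nat_lit 860687907) (nat_lit 84) (nat_lit 172642614) (nat_lit 0) (nat_lit 1347787488) (nat_lit 178) (nat_lit 1) (nat_lit 164) (nat_lit 1) (nat_lit 163) (nat_lit 1) (nat_lit 262) (nat_lit 232) (nat_lit 226))))))) (XT.nd (nat_lit 45214) (nat_lit 672) (nat_lit 0) (XT.nd (nat_lit 44650) (nat_lit 0) (nat_lit 168) (XT.nd (nat_lit 44368) (nat_lit 420) (nat_lit 0) (XT.nd (nat_lit 94) (nat_lit 0) (nat_lit 0) (XT.lf (nat_lit 1260) (nat_lit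 251179929) (nat_lit 0) (nat_lit 1658485804) (nat_lit 1176) (nat_lit 417083624) (nat_lit 179) (nat_lit 1) (nat_lit 164) (nat_lit 1) (nat_lit 178) (nat_lit 1) (nat_lit 263) (nat_lit 232) (nat_lit 225)) (XT.lf (nat_lit 1260) (nat_lit 455158483) (nat_lit 84) (nat_lit 1304275127) (nat_lit 0) (nat_lit 514526868) (nat_lit 179) (nat_lit 1) (nat_lit 165) (nat_lit 1) (nat_lit 164) (nat_lit 1) (nat_lit 264) (nat_lit 232) (nat_lit 224))) (XT.nd (nat_lit 94) (nat_lit 0) (nat_lit 0) (XT.lf (nat_lit 1260) (nat_lit 409478635) (nat_lit 0) (nat_lit 623003044) (nat_lit 1260) (nat_lit 409478635) (nat_lit 174) (nat_lit 1) (nat_lit 159) (nat_lit 0) (nat_lit 174) (nat_lit 0) (nat_lit 254) (nat_lit 233) (nat_lit 233)) (XT.nd (nat_lit 94) (nat_lit 0) (nat_lit 84) (XT.lf (nat_lit 1260) (nat_lit 1584970643) (nat_lit 84) (nat_lit 1209311730) (nat_lit 0) (nat_lit 20501878) (nat_lit 174) (nat_lit 1) (nat_lit 160) (nat_lit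 1) (nat_lit 159) (nat_lit 0) (nat_lit 255) (nat_lit 233) (nat_lit 232)) (XT.lf (nat_lit 1260) (nat_lit 1498431820) (nat_lit 84) (nat_lit 397916349) (nat_lit 0) (nat_lit 851370597) (nat_lit 175) (nat_lit 1) (nat_lit 161) (nat_lit 1) (nat_lit 160) (nat_lit 1) (nat_lit 256) (nat_lit 233) (nat_lit 231))))) (XT.nd (nat_lit 282) (nat_lit 0) (nat_lit 168) (XT.nd (nat_lit 94) (nat_lit 0) (nat_lit 84) (XT.lf (nat_lit 1260) (nat_lit 1031740331) (nat_lit 0) (nat_lit 1297242411) (nat_lit 1176) (nat_lit 353834802) (nat_lit 176) (nat_lit 1) (nat_lit 161) (nat_lit 1) (nat_lit 175) (nat_lit 1) (nat_lit 257) (nat_lit 233) (nat_lit 230)) (XT.nd (nat_lit 94) (nat_lit 0) (nat_lit 0) (XT.lf (nat_lit 1260) (nat_lit 199620938) (nat_lit 0) (nat_lit 1371759270) (nat_lit 1176) (nat_lit 1048617073) (nat_lit 177) (nat_lit 1) (nat_lit 162) (nat_lit 1) (nat_lit 176) (nat_lit 1) (nat_lit 258) (nat_lit 233) (nat_lit 229))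 (XT.lf (nat_lit 1260) (nat_lit 1085430485) (nat_lit 84) (nat_lit 854513129) (nat_lit 0) (nat_lit 619142374) (nat_lit 177) (nat_lit 1) (nat_lit 163) (nat_lit 1) (nat_lit 162) (nat_lit 1) (nat_lit 259) (nat_lit 233) (nat_lit 228)))) (XT.nd (nat_lit 94) (nat_lit 0) (nat_lit 84) (XT.lf (nat_lit 1260) (nat_lit 903722302) (nat_lit 84) (nat_lit 181274745) (nat_lit 0) (nat_lit 1415176863) (nat_lit 178) (nat_lit 1) (nat_lit 164) (nat_lit 1) (nat_lit 163) (nat_lit 1) (nat_lit 260) (nat_lit 233) (nat_lit 227)) (XT.nd (nat_lit 94) (nat_lit 0) (nat_lit 0) (XT.lf (nat_lit 1260) (nat_lit 263738926) (nat_lit 0) (nat_lit 1741410094) (nat_lit 1176) (nat_lit 437937805) (nat_lit 179) (nat_lit 1) (nat_lit 164) (nat_lit 1) (nat_lit 178) (nat_lit 1) (nat_lit 261) (nat_lit 233) (nat_lit 226)) (XT.lf (nat_lit 1260) (nat_lit 477916407) (nat_lit 84) (nat_lit 1369488883) (nat_lit 0) (nat_lit 540253211) (nat_lit 179)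 (nat_lit 1) (nat_lit 165) (nat_lit 1) (nat_lit 164) (nat_lit 1) (nat_lit 262) (nat_lit 233) (nat_lit 225)))))) (XT.nd (nat_lit 44462) (nat_lit 0) (nat_lit 840) (XT.nd (nat_lit 44180) (nat_lit 0) (nat_lit 672) (XT.nd (nat_lit 94) (nat_lit 1176) (nat_lit 0) (XT.lf (nat_lit 1260) (nat_lit 239159677) (nat_lit 84) (nat_lit 771894435) (nat_lit 0) (nat_lit 1322948063) (nat_lit 180) (nat_lit 1) (nat_lit 166) (nat_lit 1) (nat_lit 165) (nat_lit 1) (nat_lit 263) (nat_lit 233) (nat_lit 224)) (XT.lf (nat_lit 84) (nat_lit 203333035) (nat_lit 0) (nat_lit 10133418) (nat_lit 1260) (nat_lit 2068681692) (nat_lit 152) (nat_lit 1) (nat_lit 151) (nat_lit 1) (nat_lit 166) (nat_lit 1) (nat_lit 264) (nat_lit 233) (nat_lit 223))) (XT.nd (nat_lit 94) (nat_lit 0) (nat_lit 0) (XT.lf (nat_lit 1260) (nat_lit 429952567) (nat_lit 0) (nat_lit 654153196) (nat_lit 1260) (nat_lit 429952567) (nat_lit 174) (nat_lit 1) (nat_lit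 159) (nat_lit 0) (nat_lit 174) (nat_lit 0) (nat_lit 252) (nat_lit 234) (nat_lit 234)) (XT.nd (nat_lit 94) (nat_lit 0) (nat_lit 84) (XT.lf (nat_lit 1260) (nat_lit 1664219175) (nat_lit 84) (nat_lit 1269777316) (nat_lit 0) (nat_lit 21526972) (nat_lit 174) (nat_lit 1) (nat_lit 160) (nat_lit 1) (nat_lit 159) (nat_lit 0) (nat_lit 253) (nat_lit 234) (nat_lit 233)) (XT.lf (nat_lit 1260) (nat_lit 1573353411) (nat_lit 84) (nat_lit 417812166) (nat_lit 0) (nat_lit 893939127) (nat_lit 175) (nat_lit 1) (nat_lit 161) (nat_lit 1) (nat_lit 160) (nat_lit 1) (nat_lit 254) (nat_lit 234) (nat_lit 232))))) (XT.nd (nat_lit 282) (nat_lit 0) (nat_lit 168) (XT.nd (nat_lit 94) (nat_lit 0) (nat_lit 84) (XT.lf (nat_lit 1260) (nat_lit 1083327347) (nat_lit 0) (nat_lit 1362104532) (nat_lit 1176) (nat_lit 371526542) (nat_lit 176) (nat_lit 1) (nat_lit 161) (nat_lit 1) (nat_lit 175) (nat_lit 1) (nat_lit 255) (nat_lit 234) (nat_lit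 231)) (XT.nd (nat_lit 94) (nat_lit 0) (nat_lit 0) (XT.lf (nat_lit 1260) (nat_lit 209601985) (nat_lit 0) (nat_lit 1440347234) (nat_lit 1176) (nat_lit 1101047927) (nat_lit 177) (nat_lit 1) (nat_lit 162) (nat_lit 1) (nat_lit 176) (nat_lit 1) (nat_lit 256) (nat_lit 234) (nat_lit 230)) (XT.lf (nat_lit 1260) (nat_lit 1139702009) (nat_lit 84) (nat_lit 897238786) (nat_lit 0) (nat_lit 650099493) (nat_lit 177) (nat_lit 1) (nat_lit 163) (nat_lit 1) (nat_lit 162) (nat_lit 1) (nat_lit 257) (nat_lit 234) (nat_lit 229)))) (XT.nd (nat_lit 94) (nat_lit 0) (nat_lit 84) (XT.lf (nat_lit 1260) (nat_lit 948908417) (nat_lit 84) (nat_lit 190338482) (nat_lit 0) (nat_lit 1485935706) (nat_lit 178) (nat_lit 1) (nat_lit 164) (nat_lit 1) (nat_lit 163) (nat_lit 1) (nat_lit 258) (nat_lit 234) (nat_lit 228)) (XT.nd (nat_lit 94) (nat_lit 0) (nat_lit 0) (XT.lf (nat_lit 1260) (nat_lit 276925872) (nat_lit 0) (nat_lit 1828480598)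 (nat_lit 1176) (nat_lit 459834695) (nat_lit 179) (nat_lit 1) (nat_lit 164) (nat_lit 1) (nat_lit 178) (nat_lit 1) (nat_lit 259) (nat_lit 234) (nat_lit 227)) (XT.lf (nat_lit 1260) (nat_lit 501812228) (nat_lit 84) (nat_lit 1437963327) (nat_lit 0) (nat_lit 567265872) (nat_lit 179) (nat_lit 1) (nat_lit 165) (nat_lit 1) (nat_lit 164) (nat_lit 1) (nat_lit 260) (nat_lit 234) (nat_lit 226))))))))
noncomputable def ec1 : XT := (XT.nd (nat_lit 89488) (nat_lit 504) (nat_lit 0) (XT.nd (nat_lit 44838) (nat_lit 1176) (nat_lit 0) (XT.nd (nat_lit 44274) (nat_lit 0) (nat_lit 1344) (XT.nd (nat_lit 188) (nat_lit 672) (nat_lit 0) (XT.nd (nat_lit 94) (nat_lit 1176) (nat_lit 0) (XT.lf (nat_lit 1260) (nat_lit 251117661) (nat_lit 84) (nat_lit 810489157) (nat_lit 0) (nat_lit 1389095466) (nat_lit 180) (nat_lit 1) (nat_lit 166) (nat_lit 1) (nat_lit 165) (nat_lit 1) (nat_lit 261) (nat_lit 234) (nat_lit 225)) (XT.lf (nat_lit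 84) (nat_lit 213499687) (nat_lit 0) (nat_lit 10640089) (nat_lit 1260) (nat_lit 2172115776) (nat_lit 152) (nat_lit 1) (nat_lit 151) (nat_lit 1) (nat_lit 166) (nat_lit 1) (nat_lit 262) (nat_lit 234) (nat_lit 224))) (XT.nd (nat_lit 94) (nat_lit 672) (nat_lit 0) (XT.lf (nat_lit 84) (nat_lit 1730463073) (nat_lit 0) (nat_lit 287265321) (nat_lit 1260) (nat_lit 325433440) (nat_lit 152) (nat_lit 1) (nat_lit 151) (nat_lit 1) (nat_lit 166) (nat_lit 1) (nat_lit 263) (nat_lit 234) (nat_lit 223)) (XT.nd (nat_lit 43898) (nat_lit 0) (nat_lit 1344) (XT.lf (nat_lit 84) (nat_lit 879110675) (nat_lit 0) (nat_lit 577081044) (nat_lit 756) (nat_lit 835481960) (nat_lit 144) (nat_lit 1) (nat_lit 143) (nat_lit 1) (nat_lit 152) (nat_lit 1) (nat_lit 264) (nat_lit 234) (nat_lit 222)) (XT.lf (nat_lit 1260) (nat_lit 451450195) (nat_lit 0) (nat_lit 686860856) (nat_lit 1260) (nat_lit 451450195) (nat_lit 174) (nat_lit 1) (nat_lit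 159) (nat_lit 0) (nat_lit 174) (nat_lit 0) (nat_lit 250) (nat_lit 235) (nat_lit 235))))) (XT.nd (nat_lit 282) (nat_lit 0) (nat_lit 252) (XT.nd (nat_lit 94) (nat_lit 0) (nat_lit 84) (XT.lf (nat_lit 1260) (nat_lit 1747430134) (nat_lit 84) (nat_lit 1333266182) (nat_lit 0) (nat_lit 22603321) (nat_lit 174) (nat_lit 1) (nat_lit 160) (nat_lit 1) (nat_lit 159) (nat_lit 0) (nat_lit 251) (nat_lit 235) (nat_lit 234)) (XT.nd (nat_lit 94) (nat_lit 0) (nat_lit 84) (XT.lf (nat_lit 1260) (nat_lit 1652021081) (nat_lit 84) (nat_lit 438702775) (nat_lit 0) (nat_lit 938636083) (nat_lit 175) (nat_lit 1) (nat_lit 161) (nat_lit 1) (nat_lit 160) (nat_lit 1) (nat_lit 252) (nat_lit 235) (nat_lit 233)) (XT.lf (nat_lit 1260) (nat_lit 1137493714) (nat_lit 0) (nat_lit 1430209758) (nat_lit 1176) (nat_lit 390102869) (nat_lit 176) (nat_lit 1) (nat_lit 161) (nat_lit 1) (nat_lit 175) (nat_lit 1) (nat_lit 253) (nat_lit 235) (nat_lit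 232)))) (XT.nd (nat_lit 94) (nat_lit 0) (nat_lit 0) (XT.lf (nat_lit 1260) (nat_lit 220082085) (nat_lit 0) (nat_lit 1512364595) (nat_lit 1176) (nat_lit 1156100323) (nat_lit 177) (nat_lit 1) (nat_lit 162) (nat_lit 1) (nat_lit 176) (nat_lit 1) (nat_lit 254) (nat_lit 235) (nat_lit 231)) (XT.nd (nat_lit 94) (nat_lit 0) (nat_lit 84) (XT.lf (nat_lit 1260) (nat_lit 1196687110) (nat_lit 84) (nat_lit 942100725) (nat_lit 0) (nat_lit 682604467) (nat_lit 177) (nat_lit 1) (nat_lit 163) (nat_lit 1) (nat_lit 162) (nat_lit 1) (nat_lit 255) (nat_lit 235) (nat_lit 230)) (XT.lf (nat_lit 1260) (nat_lit 996353838) (nat_lit 84) (nat_lit 199855406) (nat_lit 0) (nat_lit 1560232491) (nat_lit 178) (nat_lit 1) (nat_lit 164) (nat_lit 1) (nat_lit 163) (nat_lit 1) (nat_lit 256) (nat_lit 235) (nat_lit 229)))))) (XT.nd (nat_lit 470) (nat_lit 1848) (nat_lit 0) (XT.nd (nat_lit 188) (nat_lit 1092) (nat_lit 0) (XT.nd (nat_lit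 94) (nat_lit 0) (nat_lit 0) (XT.lf (nat_lit 1260) (nat_lit 290772166) (nat_lit 0) (nat_lit 1919904628) (nat_lit 1176) (nat_lit 482826430) (nat_lit 179) (nat_lit 1) (nat_lit 164) (nat_lit 1) (nat_lit 178) (nat_lit 1) (nat_lit 257) (nat_lit 235) (nat_lit 228)) (XT.lf (nat_lit 1260) (nat_lit 526902839) (nat_lit 84) (nat_lit 1509861494) (nat_lit 0) (nat_lit 595629166) (nat_lit 179) (nat_lit 1) (nat_lit 165) (nat_lit 1) (nat_lit 164) (nat_lit 1) (nat_lit 258) (nat_lit 235) (nat_lit 227))) (XT.nd (nat_lit 94) (nat_lit 1176) (nat_lit 0) (XT.lf (nat_lit 1260) (nat_lit 263673544) (nat_lit 84) (nat_lit 851013615) (nat_lit 0) (nat_lit 1458550240) (nat_lit 180) (nat_lit 1) (nat_lit 166) (nat_lit 1) (nat_lit 165) (nat_lit 1) (nat_lit 259) (nat_lit 235) (nat_lit 226)) (XT.nd (nat_lit 94) (nat_lit 0) (nat_lit 0) (XT.lf (nat_lit 84) (nat_lit 224174672) (nat_lit 0) (nat_lit 11172094) (nat_lit 1260) (nat_lit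 2280721565) (nat_lit 152) (nat_lit 1) (nat_lit 151) (nat_lit 1) (nat_lit 166) (nat_lit 1) (nat_lit 260) (nat_lit 235) (nat_lit 225)) (XT.lf (nat_lit 84) (nat_lit 1816986227) (nat_lit 0) (nat_lit 301628587) (nat_lit 1260) (nat_lit 341705112) (nat_lit 152) (nat_lit 1) (nat_lit 151) (nat_lit 1) (nat_lit 166) (nat_lit 1) (nat_lit 261) (nat_lit 235) (nat_lit 224))))) (XT.nd (nat_lit 43898) (nat_lit 0) (nat_lit 2520) (XT.nd (nat_lit 94) (nat_lit 1176) (nat_lit 0) (XT.lf (nat_lit 84) (nat_lit 923066209) (nat_lit 0) (nat_lit 605935096) (nat_lit 756) (nat_lit 877256058) (nat_lit 144) (nat_lit 1) (nat_lit 143) (nat_lit 1) (nat_lit 152) (nat_lit 1) (nat_lit 262) (nat_lit 235) (nat_lit 223)) (XT.nd (nat_lit 94) (nat_lit 588) (nat_lit 0) (XT.lf (nat_lit 84) (nat_lit 60228219) (nat_lit 0) (nat_lit 917923816) (nat_lit 672) (nat_lit 1375841118) (nat_lit 137) (nat_lit 1) (nat_lit 136) (nat_lit 1) (nat_lit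 144) (nat_lit 1) (nat_lit 263) (nat_lit 235) (nat_lit 222)) (XT.lf (nat_lit 672) (nat_lit 1057650653) (nat_lit 0) (nat_lit 455178487) (nat_lit 588) (nat_lit 790322980) (nat_lit 137) (nat_lit 1) (nat_lit 129) (nat_lit 1) (nat_lit 136) (nat_lit 1) (nat_lit 264) (nat_lit 235) (nat_lit 221)))) (XT.nd (nat_lit 94) (nat_lit 0) (nat_lit 0) (XT.lf (nat_lit 1260) (nat_lit 474022705) (nat_lit 0) (nat_lit 721203898) (nat_lit 1260) (nat_lit 474022705) (nat_lit 174) (nat_lit 1) (nat_lit 159) (nat_lit 0) (nat_lit 174) (nat_lit 0) (nat_lit 248) (nat_lit 236) (nat_lit 236)) (XT.nd (nat_lit 94) (nat_lit 0) (nat_lit 84) (XT.lf (nat_lit 1260) (nat_lit 1834801641) (nat_lit 84) (nat_lit 1399929491) (nat_lit 0) (nat_lit 23733487) (nat_lit 174) (nat_lit 1) (nat_lit 160) (nat_lit 1) (nat_lit 159) (nat_lit 0) (nat_lit 249) (nat_lit 236) (nat_lit 235)) (XT.lf (nat_lit 1260) (nat_lit 1734622135) (nat_lit 84) (nat_lit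 460637914) (nat_lit 0) (nat_lit 985567887) (nat_lit 175) (nat_lit 1) (nat_lit 161) (nat_lit 1) (nat_lit 160) (nat_lit 1) (nat_lit 250) (nat_lit 236) (nat_lit 234))))))) (XT.nd (nat_lit 1034) (nat_lit 1092) (nat_lit 0) (XT.nd (nat_lit 470) (nat_lit 2100) (nat_lit 0) (XT.nd (nat_lit 188) (nat_lit 0) (nat_lit 84) (XT.nd (nat_lit 94) (nat_lit 0) (nat_lit 84) (XT.lf (nat_lit 1260) (nat_lit 1194368400) (nat_lit 0) (nat_lit 1501720246) (nat_lit 1176) (nat_lit 409608013) (nat_lit 176) (nat_lit 1) (nat_lit 161) (nat_lit 1) (nat_lit 175) (nat_lit 1) (nat_lit 251) (nat_lit 236) (nat_lit 233)) (XT.lf (nat_lit 1260) (nat_lit 231086189) (nat_lit 0) (nat_lit 1587982825) (nat_lit 1176) (nat_lit 1213905340) (nat_lit 177) (nat_lit 1) (nat_lit 162) (nat_lit 1) (nat_lit 176) (nat_lit 1) (nat_lit 252) (nat_lit 236) (nat_lit 232))) (XT.nd (nat_lit 94) (nat_lit 0) (nat_lit 84) (XT.lf (nat_lit 1260) (nat_lit 1256521465)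 (nat_lit 84) (nat_lit 989205761) (nat_lit 0) (nat_lit 716734691) (nat_lit 177) (nat_lit 1) (nat_lit 163) (nat_lit 1) (nat_lit 162) (nat_lit 1) (nat_lit 253) (nat_lit 236) (nat_lit 231)) (XT.nd (nat_lit 94) (nat_lit 0) (nat_lit 84) (XT.lf (nat_lit 1260) (nat_lit 1046171530) (nat_lit 84) (nat_lit 209848176) (nat_lit 0) (nat_lit 1638244116) (nat_lit 178) (nat_lit 1) (nat_lit 164) (nat_lit 1) (nat_lit 163) (nat_lit 1) (nat_lit 254) (nat_lit 236) (nat_lit 230)) (XT.lf (nat_lit 1260) (nat_lit 305310774) (nat_lit 0) (nat_lit 2015899860) (nat_lit 1176) (nat_lit 506967752) (nat_lit 179) (nat_lit 1) (nat_lit 164) (nat_lit 1) (nat_lit 178) (nat_lit 1) (nat_lit 255) (nat_lit 236) (nat_lit 229))))) (XT.nd (nat_lit 282) (nat_lit 1260) (nat_lit 0) (XT.nd (nat_lit 94) (nat_lit 1092) (nat_lit 0) (XT.lf (nat_lit 1260) (nat_lit 553247981) (nat_lit 84) (nat_lit 1585354568) (nat_lit 0) (nat_lit 625410624) (nat_lit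 179) (nat_lit 1) (nat_lit 165) (nat_lit 1) (nat_lit 164) (nat_lit 1) (nat_lit 256) (nat_lit 236) (nat_lit 228)) (XT.nd (nat_lit 94) (nat_lit 1176) (nat_lit 0) (XT.lf (nat_lit 1260) (nat_lit 276857221) (nat_lit 84) (nat_lit 893564296) (nat_lit 0) (nat_lit 1531477752) (nat_lit 180) (nat_lit 1) (nat_lit 166) (nat_lit 1) (nat_lit 165) (nat_lit 1) (nat_lit 257) (nat_lit 236) (nat_lit 227)) (XT.lf (nat_lit 84) (nat_lit 235383405) (nat_lit 0) (nat_lit 11730698) (nat_lit 1260) (nat_lit 2394757643) (nat_lit 152) (nat_lit 1) (nat_lit 151) (nat_lit 1) (nat_lit 166) (nat_lit 1) (nat_lit 258) (nat_lit 236) (nat_lit 226)))) (XT.nd (nat_lit 94) (nat_lit 1260) (nat_lit 0) (XT.lf (nat_lit 84) (nat_lit 1907835538) (nat_lit 0) (nat_lit 316710017) (nat_lit 1260) (nat_lit 358790367) (nat_lit 152) (nat_lit 1) (nat_lit 151) (nat_lit 1) (nat_lit 166) (nat_lit 1) (nat_lit 259) (nat_lit 236) (nat_lit 225)) (XT.nd (nat_lit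 94) (nat_lit 588) (nat_lit 0) (XT.lf (nat_lit 84) (nat_lit 969219519) (nat_lit 0) (nat_lit 636231851) (nat_lit 756) (nat_lit 921118861) (nat_lit 144) (nat_lit 1) (nat_lit 143) (nat_lit 1) (nat_lit 152) (nat_lit 1) (nat_lit 260) (nat_lit 236) (nat_lit 224)) (XT.lf (nat_lit 84) (nat_lit 63239630) (nat_lit 0) (nat_lit 963820006) (nat_lit 672) (nat_lit 1444633173) (nat_lit 137) (nat_lit 1) (nat_lit 136) (nat_lit 1) (nat_lit 144) (nat_lit 1) (nat_lit 261) (nat_lit 236) (nat_lit 223)))))) (XT.nd (nat_lit 43898) (nat_lit 0) (nat_lit 3108) (XT.nd (nat_lit 188) (nat_lit 504) (nat_lit 0) (XT.nd (nat_lit 94) (nat_lit 0) (nat_lit 0) (XT.lf (nat_lit 672) (nat_lit 1110533186) (nat_lit 0) (nat_lit 477937411) (nat_lit 588) (nat_lit 829839129) (nat_lit 137) (nat_lit 1) (nat_lit 129) (nat_lit 1) (nat_lit 136) (nat_lit 1) (nat_lit 262) (nat_lit 236) (nat_lit 222)) (XT.lf (nat_lit 84) (nat_lit 674195740) (nat_lit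 0) (nat_lit 1658725949) (nat_lit 672) (nat_lit 33728994) (nat_lit 130) (nat_lit 1) (nat_lit 129) (nat_lit 1) (nat_lit 137) (nat_lit 1) (nat_lit 263) (nat_lit 236) (nat_lit 221))) (XT.nd (nat_lit 43522) (nat_lit 0) (nat_lit 3024) (XT.lf (nat_lit 588) (nat_lit 294449460) (nat_lit 0) (nat_lit 1814457396) (nat_lit 504) (nat_lit 207528937) (nat_lit 130) (nat_lit 1) (nat_lit 123) (nat_lit 1) (nat_lit 129) (nat_lit 1) (nat_lit 264) (nat_lit 236) (nat_lit 220)) (XT.nd (nat_lit 94) (nat_lit 0) (nat_lit 0) (XT.lf (nat_lit 1260) (nat_lit 497723841) (nat_lit 0) (nat_lit 757264093) (nat_lit 1260) (nat_lit 497723841) (nat_lit 174) (nat_lit 1) (nat_lit 159) (nat_lit 0) (nat_lit 174) (nat_lit 0) (nat_lit 246) (nat_lit 237) (nat_lit 237)) (XT.lf (nat_lit 1260) (nat_lit 1926541723) (nat_lit 84) (nat_lit 1469925966) (nat_lit 0) (nat_lit 24920161) (nat_lit 174) (nat_lit 1) (nat_lit 160) (nat_lit 1) (nat_lit 159)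 (nat_lit 0) (nat_lit 247) (nat_lit 237) (nat_lit 236))))) (XT.nd (nat_lit 282) (nat_lit 0) (nat_lit 168) (XT.nd (nat_lit 94) (nat_lit 0) (nat_lit 84) (XT.lf (nat_lit 1260) (nat_lit 1821353242) (nat_lit 84) (nat_lit 483669809) (nat_lit 0) (nat_lit 1034846281) (nat_lit 175) (nat_lit 1) (nat_lit 161) (nat_lit 1) (nat_lit 160) (nat_lit 1) (nat_lit 248) (nat_lit 237) (nat_lit 235)) (XT.nd (nat_lit 94) (nat_lit 0) (nat_lit 84) (XT.lf (nat_lit 1260) (nat_lit 1254086820) (nat_lit 0) (nat_lit 1576806259) (nat_lit 1176) (nat_lit 430088413) (nat_lit 176) (nat_lit 1) (nat_lit 161) (nat_lit 1) (nat_lit 175) (nat_lit 1) (nat_lit 249) (nat_lit 237) (nat_lit 234)) (XT.lf (nat_lit 1260) (nat_lit 242640498) (nat_lit 0) (nat_lit 1667381966) (nat_lit 1176) (nat_lit 1274600607) (nat_lit 177) (nat_lit 1) (nat_lit 162) (nat_lit 1) (nat_lit 176) (nat_lit 1) (nat_lit 250) (nat_lit 237) (nat_lit 233)))) (XT.nd (nat_lit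 94) (nat_lit 0) (nat_lit 84) (XT.lf (nat_lit 1260) (nat_lit 1319347538) (nat_lit 84) (nat_lit 1038666049) (nat_lit 0) (nat_lit 752571425) (nat_lit 177) (nat_lit 1) (nat_lit 163) (nat_lit 1) (nat_lit 162) (nat_lit 1) (nat_lit 251) (nat_lit 237) (nat_lit 232)) (XT.nd (nat_lit 94) (nat_lit 0) (nat_lit 84) (XT.lf (nat_lit 1260) (nat_lit 1098480106) (nat_lit 84) (nat_lit 220340585) (nat_lit 0) (nat_lit 1720156322) (nat_lit 178) (nat_lit 1) (nat_lit 164) (nat_lit 1) (nat_lit 163) (nat_lit 1) (nat_lit 252) (nat_lit 237) (nat_lit 231)) (XT.lf (nat_lit 1260) (nat_lit 320576313) (nat_lit 0) (nat_lit 2116694853) (nat_lit 1176) (nat_lit 532316139) (nat_lit 179) (nat_lit 1) (nat_lit 164) (nat_lit 1) (nat_lit 178) (nat_lit 1) (nat_lit 253) (nat_lit 237) (nat_lit 230))))))))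
noncomputable def ec2 : XT := (XT.nd (nat_lit 45308) (nat_lit 924) (nat_lit 0) (XT.nd (nat_lit 44274) (nat_lit 0) (nat_lit 3444) (XT.nd (nat_lit 470) (nat_lit 2772) (nat_lit 0) (XT.nd (nat_lit 188) (nat_lit 1764) (nat_lit 0) (XT.nd (nat_lit 94) (nat_lit 0) (nat_lit 84) (XT.lf (nat_lit 1260) (nat_lit 580910380) (nat_lit 84) (nat_lit 1664622297) (nat_lit 0) (nat_lit 656681155) (nat_lit 179) (nat_lit 1) (nat_lit 165) (nat_lit 1) (nat_lit 164) (nat_lit 1) (nat_lit 254) (nat_lit 237) (nat_lit 229)) (XT.lf (nat_lit 1260) (nat_lit 290700082) (nat_lit 84) (nat_lit 938242511) (nat_lit 0) (nat_lit 1608051639) (nat_lit 180) (nat_lit 1) (nat_lit 166) (nat_lit 1) (nat_lit 165) (nat_lit 1) (nat_lit 255) (nat_lit 237) (nat_lit 228))) (XT.nd (nat_lit 94) (nat_lit 672) (nat_lit 0) (XT.lf (nat_lit 84) (nat_lit 247152575) (nat_lit 0) (nat_lit 12317233) (nat_lit 1260) (nat_lit 2514495526) (nat_lit 152) (nat_lit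 1) (nat_lit 151) (nat_lit 1) (nat_lit 166) (nat_lit 1) (nat_lit 256) (nat_lit 237) (nat_lit 227)) (XT.nd (nat_lit 94) (nat_lit 672) (nat_lit 0) (XT.lf (nat_lit 84) (nat_lit 2003227315) (nat_lit 0) (nat_lit 332545518) (nat_lit 1260) (nat_lit 376729886) (nat_lit 152) (nat_lit 1) (nat_lit 151) (nat_lit 1) (nat_lit 166) (nat_lit 1) (nat_lit 257) (nat_lit 237) (nat_lit 226)) (XT.lf (nat_lit 84) (nat_lit 1017680495) (nat_lit 0) (nat_lit 668043444) (nat_lit 756) (nat_lit 967174804) (nat_lit 144) (nat_lit 1) (nat_lit 143) (nat_lit 1) (nat_lit 152) (nat_lit 1) (nat_lit 258) (nat_lit 237) (nat_lit 225))))) (XT.nd (nat_lit 282) (nat_lit 1596) (nat_lit 0) (XT.nd (nat_lit 94) (nat_lit 588) (nat_lit 0) (XT.lf (nat_lit 84) (nat_lit 66401612) (nat_lit 0) (nat_lit 1012011007) (nat_lit 672) (nat_lit 1516864832) (nat_lit 137) (nat_lit 1) (nat_lit 136) (nat_lit 1) (nat_lit 144) (nat_lit 1) (nat_lit 259) (nat_lit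 237) (nat_lit 224)) (XT.nd (nat_lit 94) (nat_lit 0) (nat_lit 0) (XT.lf (nat_lit 672) (nat_lit 1166059845) (nat_lit 0) (nat_lit 501834282) (nat_lit 588) (nat_lit 871331086) (nat_lit 137) (nat_lit 1) (nat_lit 129) (nat_lit 1) (nat_lit 136) (nat_lit 1) (nat_lit 260) (nat_lit 237) (nat_lit 223)) (XT.lf (nat_lit 84) (nat_lit 707905527) (nat_lit 0) (nat_lit 1741662246) (nat_lit 672) (nat_lit 35415444) (nat_lit 130) (nat_lit 1) (nat_lit 129) (nat_lit 1) (nat_lit 137) (nat_lit 1) (nat_lit 261) (nat_lit 237) (nat_lit 222)))) (XT.nd (nat_lit 94) (nat_lit 1092) (nat_lit 0) (XT.lf (nat_lit 588) (nat_lit 309171933) (nat_lit 0) (nat_lit 1905180266) (nat_lit 504) (nat_lit 217905384) (nat_lit 130) (nat_lit 1) (nat_lit 123) (nat_lit 1) (nat_lit 129) (nat_lit 1) (nat_lit 262) (nat_lit 237) (nat_lit 221)) (XT.nd (nat_lit 94) (nat_lit 504) (nat_lit 0) (XT.lf (nat_lit 84) (nat_lit 1255670872) (nat_lit 0) (nat_lit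 132272531) (nat_lit 588) (nat_lit 992996919) (nat_lit 117) (nat_lit 1) (nat_lit 116) (nat_lit 1) (nat_lit 123) (nat_lit 1) (nat_lit 263) (nat_lit 237) (nat_lit 220)) (XT.lf (nat_lit 84) (nat_lit 334466097) (nat_lit 0) (nat_lit 568033491) (nat_lit 588) (nat_lit 1428681830) (nat_lit 111) (nat_lit 1) (nat_lit 110) (nat_lit 1) (nat_lit 117) (nat_lit 1) (nat_lit 264) (nat_lit 237) (nat_lit 219)))))) (XT.nd (nat_lit 470) (nat_lit 672) (nat_lit 0) (XT.nd (nat_lit 188) (nat_lit 0) (nat_lit 84) (XT.nd (nat_lit 94) (nat_lit 0) (nat_lit 0) (XT.lf (nat_lit 1260) (nat_lit 522610033) (nat_lit 0) (nat_lit 795127298) (nat_lit 1260) (nat_lit 522610033) (nat_lit 174) (nat_lit 1) (nat_lit 159) (nat_lit 0) (nat_lit 174) (nat_lit 0) (nat_lit 244) (nat_lit 238) (nat_lit 238)) (XT.lf (nat_lit 1260) (nat_lit 2022868809) (nat_lit 84) (nat_lit 1543422264) (nat_lit 0) (nat_lit 26166170) (nat_lit 174) (nat_lit 1) (nat_lit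 160) (nat_lit 1) (nat_lit 159) (nat_lit 0) (nat_lit 245) (nat_lit 238) (nat_lit 237))) (XT.nd (nat_lit 94) (nat_lit 0) (nat_lit 84) (XT.lf (nat_lit 1260) (nat_lit 1912420904) (nat_lit 84) (nat_lit 507853300) (nat_lit 0) (nat_lit 1086588595) (nat_lit 175) (nat_lit 1) (nat_lit 161) (nat_lit 1) (nat_lit 160) (nat_lit 1) (nat_lit 246) (nat_lit 238) (nat_lit 236)) (XT.nd (nat_lit 94) (nat_lit 0) (nat_lit 84) (XT.lf (nat_lit 1260) (nat_lit 1316791161) (nat_lit 0) (nat_lit 1655646572) (nat_lit 1176) (nat_lit 451592834) (nat_lit 176) (nat_lit 1) (nat_lit 161) (nat_lit 1) (nat_lit 175) (nat_lit 1) (nat_lit 247) (nat_lit 238) (nat_lit 235)) (XT.lf (nat_lit 1260) (nat_lit 254772523) (nat_lit 0) (nat_lit 1750751065) (nat_lit 1176) (nat_lit 1338330637) (nat_lit 177) (nat_lit 1) (nat_lit 162) (nat_lit 1) (nat_lit 176) (nat_lit 1) (nat_lit 248) (nat_lit 238) (nat_lit 234))))) (XT.nd (nat_lit 282) (nat_lit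 924) (nat_lit 0) (XT.nd (nat_lit 94) (nat_lit 0) (nat_lit 84) (XT.lf (nat_lit 1260) (nat_lit 1385314915) (nat_lit 84) (nat_lit 1090599352) (nat_lit 0) (nat_lit 790199997) (nat_lit 177) (nat_lit 1) (nat_lit 163) (nat_lit 1) (nat_lit 162) (nat_lit 1) (nat_lit 249) (nat_lit 238) (nat_lit 233)) (XT.nd (nat_lit 94) (nat_lit 0) (nat_lit 84) (XT.lf (nat_lit 1260) (nat_lit 1153404112) (nat_lit 84) (nat_lit 231357615) (nat_lit 0) (nat_lit 1806164138) (nat_lit 178) (nat_lit 1) (nat_lit 164) (nat_lit 1) (nat_lit 163) (nat_lit 1) (nat_lit 250) (nat_lit 238) (nat_lit 232)) (XT.lf (nat_lit 1260) (nat_lit 336605129) (nat_lit 0) (nat_lit 2222529596) (nat_lit 1176) (nat_lit 558931946) (nat_lit 179) (nat_lit 1) (nat_lit 164) (nat_lit 1) (nat_lit 178) (nat_lit 1) (nat_lit 251) (nat_lit 238) (nat_lit 231)))) (XT.nd (nat_lit 94) (nat_lit 1092) (nat_lit 0) (XT.lf (nat_lit 1260) (nat_lit 609955899) (nat_lit 84)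 (nat_lit 1747853412) (nat_lit 0) (nat_lit 689515213) (nat_lit 179) (nat_lit 1) (nat_lit 165) (nat_lit 1) (nat_lit 164) (nat_lit 1) (nat_lit 252) (nat_lit 238) (nat_lit 230)) (XT.nd (nat_lit 94) (nat_lit 1176) (nat_lit 0) (XT.lf (nat_lit 1260) (nat_lit 305235087) (nat_lit 84) (nat_lit 985154636) (nat_lit 0) (nat_lit 1688454221) (nat_lit 180) (nat_lit 1) (nat_lit 166) (nat_lit 1) (nat_lit 165) (nat_lit 1) (nat_lit 253) (nat_lit 238) (nat_lit 229)) (XT.lf (nat_lit 84) (nat_lit 259510204) (nat_lit 0) (nat_lit 12933095) (nat_lit 1260) (nat_lit 2640220302) (nat_lit 152) (nat_lit 1) (nat_lit 151) (nat_lit 1) (nat_lit 166) (nat_lit 1) (nat_lit 254) (nat_lit 238) (nat_lit 228))))))) (XT.nd (nat_lit 44086) (nat_lit 0) (nat_lit 4368) (XT.nd (nat_lit 470) (nat_lit 2520) (nat_lit 0) (XT.nd (nat_lit 188) (nat_lit 1176) (nat_lit 0) (XT.nd (nat_lit 94) (nat_lit 672) (nat_lit 0) (XT.lf (nat_lit 84) (nat_lit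 2103388681) (nat_lit 0) (nat_lit 349172793) (nat_lit 1260) (nat_lit 395566380) (nat_lit 152) (nat_lit 1) (nat_lit 151) (nat_lit 1) (nat_lit 166) (nat_lit 1) (nat_lit 255) (nat_lit 238) (nat_lit 227)) (XT.lf (nat_lit 84) (nat_lit 1068564520) (nat_lit 0) (nat_lit 701445616) (nat_lit 756) (nat_lit 1015533544) (nat_lit 144) (nat_lit 1) (nat_lit 143) (nat_lit 1) (nat_lit 152) (nat_lit 1) (nat_lit 256) (nat_lit 238) (nat_lit 226))) (XT.nd (nat_lit 94) (nat_lit 588) (nat_lit 0) (XT.lf (nat_lit 84) (nat_lit 69721692) (nat_lit 0) (nat_lit 1062611557) (nat_lit 672) (nat_lit 1592708074) (nat_lit 137) (nat_lit 1) (nat_lit 136) (nat_lit 1) (nat_lit 144) (nat_lit 1) (nat_lit 257) (nat_lit 238) (nat_lit 225)) (XT.nd (nat_lit 94) (nat_lit 0) (nat_lit 0) (XT.lf (nat_lit 672) (nat_lit 1224362837) (nat_lit 0) (nat_lit 526925996) (nat_lit 588) (nat_lit 914897640) (nat_lit 137) (nat_lit 1) (nat_lit 129) (nat_lit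 1) (nat_lit 136) (nat_lit 1) (nat_lit 258) (nat_lit 238) (nat_lit 224)) (XT.lf (nat_lit 84) (nat_lit 743300803) (nat_lit 0) (nat_lit 1828745359) (nat_lit 672) (nat_lit 37186216) (nat_lit 130) (nat_lit 1) (nat_lit 129) (nat_lit 1) (nat_lit 137) (nat_lit 1) (nat_lit 259) (nat_lit 238) (nat_lit 223))))) (XT.nd (nat_lit 282) (nat_lit 924) (nat_lit 0) (XT.nd (nat_lit 94) (nat_lit 1092) (nat_lit 0) (XT.lf (nat_lit 588) (nat_lit 324630530) (nat_lit 0) (nat_lit 2000439280) (nat_lit 504) (nat_lit 228800653) (nat_lit 130) (nat_lit 1) (nat_lit 123) (nat_lit 1) (nat_lit 129) (nat_lit 1) (nat_lit 260) (nat_lit 238) (nat_lit 222)) (XT.nd (nat_lit 94) (nat_lit 504) (nat_lit 0) (XT.lf (nat_lit 84) (nat_lit 1318454415) (nat_lit 0) (nat_lit 138886158) (nat_lit 588) (nat_lit 1042646765) (nat_lit 117) (nat_lit 1) (nat_lit 116) (nat_lit 1) (nat_lit 123) (nat_lit 1) (nat_lit 261) (nat_lit 238) (nat_lit 221)) (XT.lf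 (nat_lit 84) (nat_lit 351189402) (nat_lit 0) (nat_lit 596435165) (nat_lit 588) (nat_lit 1500115922) (nat_lit 111) (nat_lit 1) (nat_lit 110) (nat_lit 1) (nat_lit 117) (nat_lit 1) (nat_lit 262) (nat_lit 238) (nat_lit 220)))) (XT.nd (nat_lit 94) (nat_lit 420) (nat_lit 0) (XT.lf (nat_lit 588) (nat_lit 1335577019) (nat_lit 0) (nat_lit 466482242) (nat_lit 504) (nat_lit 594900783) (nat_lit 111) (nat_lit 1) (nat_lit 104) (nat_lit 1) (nat_lit 110) (nat_lit 1) (nat_lit 263) (nat_lit 238) (nat_lit 219)) (XT.nd (nat_lit 43146) (nat_lit 0) (nat_lit 5040) (XT.lf (nat_lit 504) (nat_lit 817545030) (nat_lit 0) (nat_lit 15406214) (nat_lit 420) (nat_lit 1514738089) (nat_lit 105) (nat_lit 1) (nat_lit 99) (nat_lit 1) (nat_lit 104) (nat_lit 1) (nat_lit 264) (nat_lit 238) (nat_lit 218)) (XT.lf (nat_lit 1260) (nat_lit 548740534) (nat_lit 0) (nat_lit 834883663) (nat_lit 1260) (nat_lit 548740534) (nat_lit 174) (nat_lit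 1) (nat_lit 159) (nat_lit 0) (nat_lit 174) (nat_lit 0) (nat_lit 242) (nat_lit 239) (nat_lit 239)))))) (XT.nd (nat_lit 470) (nat_lit 672) (nat_lit 0) (XT.nd (nat_lit 188) (nat_lit 0) (nat_lit 168) (XT.nd (nat_lit 94) (nat_lit 0) (nat_lit 84) (XT.lf (nat_lit 1260) (nat_lit 2124012250) (nat_lit 84) (nat_lit 1620593377) (nat_lit 0) (nat_lit 27474478) (nat_lit 174) (nat_lit 1) (nat_lit 160) (nat_lit 1) (nat_lit 159) (nat_lit 0) (nat_lit 243) (nat_lit 239) (nat_lit 238)) (XT.lf (nat_lit 1260) (nat_lit 2008041949) (nat_lit 84) (nat_lit 533245965) (nat_lit 0) (nat_lit 1140918025) (nat_lit 175) (nat_lit 1) (nat_lit 161) (nat_lit 1) (nat_lit 160) (nat_lit 1) (nat_lit 244) (nat_lit 239) (nat_lit 237))) (XT.nd (nat_lit 94) (nat_lit 0) (nat_lit 84) (XT.lf (nat_lit 1260) (nat_lit 1382630719) (nat_lit 0) (nat_lit 1738428900) (nat_lit 1176) (nat_lit 474172476) (nat_lit 176) (nat_lit 1) (nat_lit 161) (nat_lit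 1) (nat_lit 175) (nat_lit 1) (nat_lit 245) (nat_lit 239) (nat_lit 236)) (XT.nd (nat_lit 94) (nat_lit 0) (nat_lit 0) (XT.lf (nat_lit 1260) (nat_lit 267511149) (nat_lit 0) (nat_lit 1838288618) (nat_lit 1176) (nat_lit 1405247169) (nat_lit 177) (nat_lit 1) (nat_lit 162) (nat_lit 1) (nat_lit 176) (nat_lit 1) (nat_lit 246) (nat_lit 239) (nat_lit 235)) (XT.lf (nat_lit 1260) (nat_lit 1454580661) (nat_lit 84) (nat_lit 1145129319) (nat_lit 0) (nat_lit 829709996) (nat_lit 177) (nat_lit 1) (nat_lit 163) (nat_lit 1) (nat_lit 162) (nat_lit 1) (nat_lit 247) (nat_lit 239) (nat_lit 234))))) (XT.nd (nat_lit 282) (nat_lit 1008) (nat_lit 0) (XT.nd (nat_lit 94) (nat_lit 0) (nat_lit 84) (XT.lf (nat_lit 1260) (nat_lit 1211074317) (nat_lit 84) (nat_lit 242925495) (nat_lit 0) (nat_lit 1896472345) (nat_lit 178) (nat_lit 1) (nat_lit 164) (nat_lit 1) (nat_lit 163) (nat_lit 1) (nat_lit 248) (nat_lit 239) (nat_lit 233))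 (XT.nd (nat_lit 94) (nat_lit 0) (nat_lit 0) (XT.lf (nat_lit 1260) (nat_lit 353435385) (nat_lit 0) (nat_lit 2333656075) (nat_lit 1176) (nat_lit 586878544) (nat_lit 179) (nat_lit 1) (nat_lit 164) (nat_lit 1) (nat_lit 178) (nat_lit 1) (nat_lit 249) (nat_lit 239) (nat_lit 232)) (XT.lf (nat_lit 1260) (nat_lit 640453694) (nat_lit 84) (nat_lit 1835246082) (nat_lit 0) (nat_lit 723990974) (nat_lit 179) (nat_lit 1) (nat_lit 165) (nat_lit 1) (nat_lit 164) (nat_lit 1) (nat_lit 250) (nat_lit 239) (nat_lit 231)))) (XT.nd (nat_lit 94) (nat_lit 1176) (nat_lit 0) (XT.lf (nat_lit 1260) (nat_lit 320496841) (nat_lit 84) (nat_lit 1034412368) (nat_lit 0) (nat_lit 1772876932) (nat_lit 180) (nat_lit 1) (nat_lit 166) (nat_lit 1) (nat_lit 165) (nat_lit 1) (nat_lit 251) (nat_lit 239) (nat_lit 230)) (XT.nd (nat_lit 94) (nat_lit 0) (nat_lit 0) (XT.lf (nat_lit 84) (nat_lit 272485714) (nat_lit 0) (nat_lit 13579750) (nat_lit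 1260) (nat_lit 2772231317) (nat_lit 152) (nat_lit 1) (nat_lit 151) (nat_lit 1) (nat_lit 166) (nat_lit 1) (nat_lit 252) (nat_lit 239) (nat_lit 229)) (XT.lf (nat_lit 84) (nat_lit 2208558115) (nat_lit 0) (nat_lit 366631433) (nat_lit 1260) (nat_lit 415344699) (nat_lit 152) (nat_lit 1) (nat_lit 151) (nat_lit 1) (nat_lit 166) (nat_lit 1) (nat_lit 253) (nat_lit 239) (nat_lit 228))))))))
noncomputable def ec3 : XT := (XT.nd (nat_lit 44932) (nat_lit 840) (nat_lit 0) (XT.nd (nat_lit 43898) (nat_lit 0) (nat_lit 4872) (XT.nd (nat_lit 470) (nat_lit 2520) (nat_lit 0) (XT.nd (nat_lit 188) (nat_lit 1092) (nat_lit 0) (XT.nd (nat_lit 94) (nat_lit 588) (nat_lit 0) (XT.lf (nat_lit 84) (nat_lit 1121992746) (nat_lit 0) (nat_lit 736517897) (nat_lit 756) (nat_lit 1066310221) (nat_lit 144) (nat_lit 1) (nat_lit 143) (nat_lit 1) (nat_lit 152) (nat_lit 1) (nat_lit 254) (nat_lit 239) (nat_lit 227)) (XT.lf (nat_lit 84)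 (nat_lit 73207777) (nat_lit 0) (nat_lit 1115742135) (nat_lit 672) (nat_lit 1672343478) (nat_lit 137) (nat_lit 1) (nat_lit 136) (nat_lit 1) (nat_lit 144) (nat_lit 1) (nat_lit 255) (nat_lit 239) (nat_lit 226))) (XT.nd (nat_lit 94) (nat_lit 504) (nat_lit 0) (XT.lf (nat_lit 672) (nat_lit 1285580979) (nat_lit 0) (nat_lit 553272296) (nat_lit 588) (nat_lit 960642522) (nat_lit 137) (nat_lit 1) (nat_lit 129) (nat_lit 1) (nat_lit 136) (nat_lit 1) (nat_lit 256) (nat_lit 239) (nat_lit 225)) (XT.nd (nat_lit 94) (nat_lit 504) (nat_lit 0) (XT.lf (nat_lit 84) (nat_lit 780465843) (nat_lit 0) (nat_lit 1920182627) (nat_lit 672) (nat_lit 39045527) (nat_lit 130) (nat_lit 1) (nat_lit 129) (nat_lit 1) (nat_lit 137) (nat_lit 1) (nat_lit 257) (nat_lit 239) (nat_lit 224)) (XT.lf (nat_lit 588) (nat_lit 340862056) (nat_lit 0) (nat_lit 2100461244) (nat_lit 504) (nat_lit 240240686) (nat_lit 130) (nat_lit 1) (nat_lit 123)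 (nat_lit 1) (nat_lit 129) (nat_lit 1) (nat_lit 258) (nat_lit 239) (nat_lit 223))))) (XT.nd (nat_lit 282) (nat_lit 924) (nat_lit 0) (XT.nd (nat_lit 94) (nat_lit 1008) (nat_lit 0) (XT.lf (nat_lit 84) (nat_lit 1384377136) (nat_lit 0) (nat_lit 145830466) (nat_lit 588) (nat_lit 1094779103) (nat_lit 117) (nat_lit 1) (nat_lit 116) (nat_lit 1) (nat_lit 123) (nat_lit 1) (nat_lit 259) (nat_lit 239) (nat_lit 222)) (XT.nd (nat_lit 94) (nat_lit 504) (nat_lit 0) (XT.lf (nat_lit 84) (nat_lit 368748872) (nat_lit 0) (nat_lit 626256923) (nat_lit 588) (nat_lit 1575121718) (nat_lit 111) (nat_lit 1) (nat_lit 110) (nat_lit 1) (nat_lit 117) (nat_lit 1) (nat_lit 260) (nat_lit 239) (nat_lit 221)) (XT.lf (nat_lit 588) (nat_lit 1402355870) (nat_lit 0) (nat_lit 489806354) (nat_lit 504) (nat_lit 624645822) (nat_lit 111) (nat_lit 1) (nat_lit 104) (nat_lit 1) (nat_lit 110) (nat_lit 1) (nat_lit 261) (nat_lit 239) (nat_lit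 220)))) (XT.nd (nat_lit 94) (nat_lit 504) (nat_lit 0) (XT.lf (nat_lit 504) (nat_lit 858422281) (nat_lit 0) (nat_lit 16176524) (nat_lit 420) (nat_lit 1590474993) (nat_lit 105) (nat_lit 1) (nat_lit 99) (nat_lit 1) (nat_lit 104) (nat_lit 1) (nat_lit 262) (nat_lit 239) (nat_lit 219)) (XT.nd (nat_lit 94) (nat_lit 504) (nat_lit 0) (XT.lf (nat_lit 504) (nat_lit 310829027) (nat_lit 0) (nat_lit 2000065999) (nat_lit 420) (nat_lit 103908406) (nat_lit 105) (nat_lit 1) (nat_lit 99) (nat_lit 1) (nat_lit 104) (nat_lit 1) (nat_lit 263) (nat_lit 239) (nat_lit 218)) (XT.lf (nat_lit 84) (nat_lit 1302029456) (nat_lit 0) (nat_lit 238086522) (nat_lit 504) (nat_lit 825602611) (nat_lit 94) (nat_lit 1) (nat_lit 93) (nat_lit 1) (nat_lit 99) (nat_lit 1) (nat_lit 264) (nat_lit 239) (nat_lit 217)))))) (XT.nd (nat_lit 470) (nat_lit 672) (nat_lit 0) (XT.nd (nat_lit 188) (nat_lit 0) (nat_lit 84) (XT.nd (nat_lit 94) (nat_lit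 0) (nat_lit 0) (XT.lf (nat_lit 1260) (nat_lit 576177561) (nat_lit 0) (nat_lit 876627846) (nat_lit 1260) (nat_lit 576177561) (nat_lit 174) (nat_lit 1) (nat_lit 159) (nat_lit 0) (nat_lit 174) (nat_lit 0) (nat_lit 240) (nat_lit 240) (nat_lit 240)) (XT.lf (nat_lit 1260) (nat_lit 2230212862) (nat_lit 84) (nat_lit 1701623046) (nat_lit 0) (nat_lit 28848202) (nat_lit 174) (nat_lit 1) (nat_lit 160) (nat_lit 1) (nat_lit 159) (nat_lit 0) (nat_lit 241) (nat_lit 240) (nat_lit 239))) (XT.nd (nat_lit 94) (nat_lit 0) (nat_lit 84) (XT.lf (nat_lit 1260) (nat_lit 2108444047) (nat_lit 84) (nat_lit 559908263) (nat_lit 0) (nat_lit 1197963927) (nat_lit 175) (nat_lit 1) (nat_lit 161) (nat_lit 1) (nat_lit 160) (nat_lit 1) (nat_lit 242) (nat_lit 240) (nat_lit 238)) (XT.nd (nat_lit 94) (nat_lit 0) (nat_lit 84) (XT.lf (nat_lit 1260) (nat_lit 1451762255) (nat_lit 0) (nat_lit 1825350345) (nat_lit 1176) (nat_lit 497881099)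 (nat_lit 176) (nat_lit 1) (nat_lit 161) (nat_lit 1) (nat_lit 175) (nat_lit 1) (nat_lit 243) (nat_lit 240) (nat_lit 237)) (XT.lf (nat_lit 1260) (nat_lit 280886707) (nat_lit 0) (nat_lit 1930203049) (nat_lit 1176) (nat_lit 1475509527) (nat_lit 177) (nat_lit 1) (nat_lit 162) (nat_lit 1) (nat_lit 176) (nat_lit 1) (nat_lit 244) (nat_lit 240) (nat_lit 236))))) (XT.nd (nat_lit 282) (nat_lit 924) (nat_lit 0) (XT.nd (nat_lit 94) (nat_lit 0) (nat_lit 84) (XT.lf (nat_lit 1260) (nat_lit 1527309694) (nat_lit 84) (nat_lit 1202385785) (nat_lit 0) (nat_lit 871195496) (nat_lit 177) (nat_lit 1) (nat_lit 163) (nat_lit 1) (nat_lit 162) (nat_lit 1) (nat_lit 245) (nat_lit 240) (nat_lit 235)) (XT.nd (nat_lit 94) (nat_lit 0) (nat_lit 84) (XT.lf (nat_lit 1260) (nat_lit 1271628033) (nat_lit 84) (nat_lit 255071770) (nat_lit 0) (nat_lit 1991295962) (nat_lit 178) (nat_lit 1) (nat_lit 164) (nat_lit 1) (nat_lit 163) (nat_lit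 1) (nat_lit 246) (nat_lit 240) (nat_lit 234)) (XT.lf (nat_lit 1260) (nat_lit 371107154) (nat_lit 0) (nat_lit 2450338879) (nat_lit 1176) (nat_lit 616222471) (nat_lit 179) (nat_lit 1) (nat_lit 164) (nat_lit 1) (nat_lit 178) (nat_lit 1) (nat_lit 247) (nat_lit 240) (nat_lit 233)))) (XT.nd (nat_lit 94) (nat_lit 1092) (nat_lit 0) (XT.lf (nat_lit 1260) (nat_lit 672476379) (nat_lit 84) (nat_lit 1927008387) (nat_lit 0) (nat_lit 760190522) (nat_lit 179) (nat_lit 1) (nat_lit 165) (nat_lit 1) (nat_lit 164) (nat_lit 1) (nat_lit 248) (nat_lit 240) (nat_lit 232)) (XT.nd (nat_lit 94) (nat_lit 1176) (nat_lit 0) (XT.lf (nat_lit 1260) (nat_lit 336521683) (nat_lit 84) (nat_lit 1086132986) (nat_lit 0) (nat_lit 1861520779) (nat_lit 180) (nat_lit 1) (nat_lit 166) (nat_lit 1) (nat_lit 165) (nat_lit 1) (nat_lit 249) (nat_lit 240) (nat_lit 231)) (XT.lf (nat_lit 84) (nat_lit 286110000) (nat_lit 0) (nat_lit 14258737)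 (nat_lit 1260) (nat_lit 2910842883) (nat_lit 152) (nat_lit 1) (nat_lit 151) (nat_lit 1) (nat_lit 166) (nat_lit 1) (nat_lit 250) (nat_lit 240) (nat_lit 230))))))) (XT.nd (nat_lit 1034) (nat_lit 1344) (nat_lit 0) (XT.nd (nat_lit 470) (nat_lit 2520) (nat_lit 0) (XT.nd (nat_lit 188) (nat_lit 1176) (nat_lit 0) (XT.nd (nat_lit 94) (nat_lit 672) (nat_lit 0) (XT.lf (nat_lit 84) (nat_lit 2318986021) (nat_lit 0) (nat_lit 384963005) (nat_lit 1260) (nat_lit 436111934) (nat_lit 152) (nat_lit 1) (nat_lit 151) (nat_lit 1) (nat_lit 166) (nat_lit 1) (nat_lit 251) (nat_lit 240) (nat_lit 229)) (XT.lf (nat_lit 84) (nat_lit 1178092383) (nat_lit 0) (nat_lit 773343791) (nat_lit 756) (nat_lit 1119625732) (nat_lit 144) (nat_lit 1) (nat_lit 143) (nat_lit 1) (nat_lit 152) (nat_lit 1) (nat_lit 252) (nat_lit 240) (nat_lit 228))) (XT.nd (nat_lit 94) (nat_lit 588) (nat_lit 0) (XT.lf (nat_lit 84) (nat_lit 76868166) (nat_lit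 0) (nat_lit 1171529242) (nat_lit 672) (nat_lit 1755960651) (nat_lit 137) (nat_lit 1) (nat_lit 136) (nat_lit 1) (nat_lit 144) (nat_lit 1) (nat_lit 253) (nat_lit 240) (nat_lit 227)) (XT.nd (nat_lit 94) (nat_lit 0) (nat_lit 0) (XT.lf (nat_lit 672) (nat_lit 1349860028) (nat_lit 0) (nat_lit 580935911) (nat_lit 588) (nat_lit 1008674648) (nat_lit 137) (nat_lit 1) (nat_lit 129) (nat_lit 1) (nat_lit 136) (nat_lit 1) (nat_lit 254) (nat_lit 240) (nat_lit 226)) (XT.lf (nat_lit 84) (nat_lit 819489135) (nat_lit 0) (nat_lit 2016191758) (nat_lit 672) (nat_lit 40997803) (nat_lit 130) (nat_lit 1) (nat_lit 129) (nat_lit 1) (nat_lit 137) (nat_lit 1) (nat_lit 255) (nat_lit 240) (nat_lit 225))))) (XT.nd (nat_lit 282) (nat_lit 924) (nat_lit 0) (XT.nd (nat_lit 94) (nat_lit 1092) (nat_lit 0) (XT.lf (nat_lit 588) (nat_lit 357905159) (nat_lit 0) (nat_lit 2205484306) (nat_lit 504) (nat_lit 252252720) (nat_lit 130) (nat_lit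 1) (nat_lit 123) (nat_lit 1) (nat_lit 129) (nat_lit 1) (nat_lit 256) (nat_lit 240) (nat_lit 224)) (XT.nd (nat_lit 94) (nat_lit 504) (nat_lit 0) (XT.lf (nat_lit 84) (nat_lit 1453595993) (nat_lit 0) (nat_lit 153121989) (nat_lit 588) (nat_lit 1149518058) (nat_lit 117) (nat_lit 1) (nat_lit 116) (nat_lit 1) (nat_lit 123) (nat_lit 1) (nat_lit 257) (nat_lit 240) (nat_lit 223)) (XT.lf (nat_lit 84) (nat_lit 387186316) (nat_lit 0) (nat_lit 657569770) (nat_lit 588) (nat_lit 1653877804) (nat_lit 111) (nat_lit 1) (nat_lit 110) (nat_lit 1) (nat_lit 117) (nat_lit 1) (nat_lit 258) (nat_lit 240) (nat_lit 222)))) (XT.nd (nat_lit 94) (nat_lit 420) (nat_lit 0) (XT.lf (nat_lit 588) (nat_lit 1472473663) (nat_lit 0) (nat_lit 514296672) (nat_lit 504) (nat_lit 655878113) (nat_lit 111) (nat_lit 1) (nat_lit 104) (nat_lit 1) (nat_lit 110) (nat_lit 1) (nat_lit 259) (nat_lit 240) (nat_lit 221)) (XT.nd (nat_lit 94) (nat_lit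 0) (nat_lit 0) (XT.lf (nat_lit 504) (nat_lit 901343396) (nat_lit 0) (nat_lit 16985350) (nat_lit 420) (nat_lit 1669998743) (nat_lit 105) (nat_lit 1) (nat_lit 99) (nat_lit 1) (nat_lit 104) (nat_lit 1) (nat_lit 260) (nat_lit 240) (nat_lit 220)) (XT.lf (nat_lit 504) (nat_lit 326370478) (nat_lit 0) (nat_lit 2100069299) (nat_lit 420) (nat_lit 109103827) (nat_lit 105) (nat_lit 1) (nat_lit 99) (nat_lit 1) (nat_lit 104) (nat_lit 1) (nat_lit 261) (nat_lit 240) (nat_lit 219)))))) (XT.nd (nat_lit 43146) (nat_lit 0) (nat_lit 6468) (XT.nd (nat_lit 188) (nat_lit 420) (nat_lit 0) (XT.nd (nat_lit 94) (nat_lit 420) (nat_lit 0) (XT.lf (nat_lit 84) (nat_lit 1367130929) (nat_lit 0) (nat_lit 249990848) (nat_lit 504) (nat_lit 866882742) (nat_lit 94) (nat_lit 1) (nat_lit 93) (nat_lit 1) (nat_lit 99) (nat_lit 1) (nat_lit 262) (nat_lit 240) (nat_lit 218)) (XT.lf (nat_lit 84) (nat_lit 349731626) (nat_lit 0) (nat_lit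 814807763) (nat_lit 504) (nat_lit 1269455851) (nat_lit 89) (nat_lit 1) (nat_lit 88) (nat_lit 1) (nat_lit 94) (nat_lit 1) (nat_lit 263) (nat_lit 240) (nat_lit 217))) (XT.nd (nat_lit 42770) (nat_lit 0) (nat_lit 6384) (XT.lf (nat_lit 504) (nat_lit 1003017652) (nat_lit 0) (nat_lit 737096256) (nat_lit 420) (nat_lit 645217952) (nat_lit 89) (nat_lit 1) (nat_lit 83) (nat_lit 1) (nat_lit 88) (nat_lit 1) (nat_lit 264) (nat_lit 240) (nat_lit 216)) (XT.nd (nat_lit 94) (nat_lit 0) (nat_lit 0) (XT.lf (nat_lit 1260) (nat_lit 604986439) (nat_lit 0) (nat_lit 920459239) (nat_lit 1260) (nat_lit 604986439) (nat_lit 174) (nat_lit 1) (nat_lit 159) (nat_lit 0) (nat_lit 174) (nat_lit 0) (nat_lit 238) (nat_lit 241) (nat_lit 241)) (XT.lf (nat_lit 1260) (nat_lit 2341723505) (nat_lit 84) (nat_lit 1786704199) (nat_lit 0) (nat_lit 30290612) (nat_lit 174) (nat_lit 1) (nat_lit 160) (nat_lit 1) (nat_lit 159) (nat_lit 0) (nat_lit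 239) (nat_lit 241) (nat_lit 240))))) (XT.nd (nat_lit 282) (nat_lit 0) (nat_lit 168) (XT.nd (nat_lit 94) (nat_lit 0) (nat_lit 84) (XT.lf (nat_lit 1260) (nat_lit 2213866249) (nat_lit 84) (nat_lit 587903676) (nat_lit 0) (nat_lit 1257862123) (nat_lit 175) (nat_lit 1) (nat_lit 161) (nat_lit 1) (nat_lit 160) (nat_lit 1) (nat_lit 240) (nat_lit 241) (nat_lit 239)) (XT.nd (nat_lit 94) (nat_lit 0) (nat_lit 84) (XT.lf (nat_lit 1260) (nat_lit 1524350368) (nat_lit 0) (nat_lit 1916617863) (nat_lit 1176) (nat_lit 522775154) (nat_lit 176) (nat_lit 1) (nat_lit 161) (nat_lit 1) (nat_lit 175) (nat_lit 1) (nat_lit 241) (nat_lit 241) (nat_lit 238)) (XT.lf (nat_lit 1260) (nat_lit 294931042) (nat_lit 0) (nat_lit 2026713201) (nat_lit 1176) (nat_lit 1549285004) (nat_lit 177) (nat_lit 1) (nat_lit 162) (nat_lit 1) (nat_lit 176) (nat_lit 1) (nat_lit 242) (nat_lit 241) (nat_lit 237)))) (XT.nd (nat_lit 94) (nat_lit 0)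 (nat_lit 84) (XT.lf (nat_lit 1260) (nat_lit 1603675179) (nat_lit 84) (nat_lit 1262505075) (nat_lit 0) (nat_lit 914755271) (nat_lit 177) (nat_lit 1) (nat_lit 163) (nat_lit 1) (nat_lit 162) (nat_lit 1) (nat_lit 243) (nat_lit 241) (nat_lit 236)) (XT.nd (nat_lit 94) (nat_lit 0) (nat_lit 84) (XT.lf (nat_lit 1260) (nat_lit 1335209435) (nat_lit 84) (nat_lit 267825359) (nat_lit 0) (nat_lit 2090860760) (nat_lit 178) (nat_lit 1) (nat_lit 164) (nat_lit 1) (nat_lit 163) (nat_lit 1) (nat_lit 244) (nat_lit 241) (nat_lit 235)) (XT.lf (nat_lit 1260) (nat_lit 389662512) (nat_lit 0) (nat_lit 2572855823) (nat_lit 1176) (nat_lit 647033594) (nat_lit 179) (nat_lit 1) (nat_lit 164) (nat_lit 1) (nat_lit 178) (nat_lit 1) (nat_lit 245) (nat_lit 241) (nat_lit 234))))))))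
noncomputable def ec4 : XT := (XT.nd (nat_lit 44556) (nat_lit 0) (nat_lit 420) (XT.nd (nat_lit 1034) (nat_lit 2688) (nat_lit 0) (XT.nd (nat_lit 470) (nat_lit 2772) (nat_lit 0) (XT.nd (nat_lit 188) (nat_lit 1764) (nat_lit 0) (XT.nd (nat_lit 94) (nat_lit 0) (nat_lit 84) (XT.lf (nat_lit 1260) (nat_lit 706100198) (nat_lit 84) (nat_lit 2023358806) (nat_lit 0) (nat_lit 798200049) (nat_lit 179) (nat_lit 1) (nat_lit 165) (nat_lit 1) (nat_lit 164) (nat_lit 1) (nat_lit 246) (nat_lit 241) (nat_lit 233)) (XT.lf (nat_lit 1260) (nat_lit 353347767) (nat_lit 84) (nat_lit 1140439636) (nat_lit 0) (nat_lit 1954596818) (nat_lit 180) (nat_lit 1) (nat_lit 166) (nat_lit 1) (nat_lit 165) (nat_lit 1) (nat_lit 247) (nat_lit 241) (nat_lit 232))) (XT.nd (nat_lit 94) (nat_lit 672) (nat_lit 0) (XT.lf (nat_lit 84) (nat_lit 300415500) (nat_lit 0) (nat_lit 14971674) (nat_lit 1260) (nat_lit 3056385027) (nat_lit 152) (nat_lit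 1) (nat_lit 151) (nat_lit 1) (nat_lit 166) (nat_lit 1) (nat_lit 248) (nat_lit 241) (nat_lit 231)) (XT.nd (nat_lit 94) (nat_lit 672) (nat_lit 0) (XT.lf (nat_lit 84) (nat_lit 2434935322) (nat_lit 0) (nat_lit 404211155) (nat_lit 1260) (nat_lit 457917531) (nat_lit 152) (nat_lit 1) (nat_lit 151) (nat_lit 1) (nat_lit 166) (nat_lit 1) (nat_lit 249) (nat_lit 241) (nat_lit 230)) (XT.lf (nat_lit 84) (nat_lit 1236997002) (nat_lit 0) (nat_lit 812010981) (nat_lit 756) (nat_lit 1175607019) (nat_lit 144) (nat_lit 1) (nat_lit 143) (nat_lit 1) (nat_lit 152) (nat_lit 1) (nat_lit 250) (nat_lit 241) (nat_lit 229))))) (XT.nd (nat_lit 282) (nat_lit 1596) (nat_lit 0) (XT.nd (nat_lit 94) (nat_lit 588) (nat_lit 0) (XT.lf (nat_lit 84) (nat_lit 80711574) (nat_lit 0) (nat_lit 1230105704) (nat_lit 672) (nat_lit 1843758684) (nat_lit 137) (nat_lit 1) (nat_lit 136) (nat_lit 1) (nat_lit 144) (nat_lit 1) (nat_lit 251) (nat_lit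 241) (nat_lit 228)) (XT.nd (nat_lit 94) (nat_lit 0) (nat_lit 0) (XT.lf (nat_lit 672) (nat_lit 1417353030) (nat_lit 0) (nat_lit 609982706) (nat_lit 588) (nat_lit 1059108380) (nat_lit 137) (nat_lit 1) (nat_lit 129) (nat_lit 1) (nat_lit 136) (nat_lit 1) (nat_lit 252) (nat_lit 241) (nat_lit 227)) (XT.lf (nat_lit 84) (nat_lit 860463592) (nat_lit 0) (nat_lit 2117001346) (nat_lit 672) (nat_lit 43047693) (nat_lit 130) (nat_lit 1) (nat_lit 129) (nat_lit 1) (nat_lit 137) (nat_lit 1) (nat_lit 253) (nat_lit 241) (nat_lit 226)))) (XT.nd (nat_lit 94) (nat_lit 1092) (nat_lit 0) (XT.lf (nat_lit 588) (nat_lit 375800417) (nat_lit 0) (nat_lit 2315758521) (nat_lit 504) (nat_lit 264865356) (nat_lit 130) (nat_lit 1) (nat_lit 123) (nat_lit 1) (nat_lit 129) (nat_lit 1) (nat_lit 254) (nat_lit 241) (nat_lit 225)) (XT.nd (nat_lit 94) (nat_lit 504) (nat_lit 0) (XT.lf (nat_lit 84) (nat_lit 1526275792) (nat_lit 0) (nat_lit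 160778089) (nat_lit 588) (nat_lit 1206993961) (nat_lit 117) (nat_lit 1) (nat_lit 116) (nat_lit 1) (nat_lit 123) (nat_lit 1) (nat_lit 255) (nat_lit 241) (nat_lit 224)) (XT.lf (nat_lit 84) (nat_lit 406545632) (nat_lit 0) (nat_lit 690448258) (nat_lit 588) (nat_lit 1736571694) (nat_lit 111) (nat_lit 1) (nat_lit 110) (nat_lit 1) (nat_lit 117) (nat_lit 1) (nat_lit 256) (nat_lit 241) (nat_lit 223)))))) (XT.nd (nat_lit 470) (nat_lit 840) (nat_lit 0) (XT.nd (nat_lit 188) (nat_lit 924) (nat_lit 0) (XT.nd (nat_lit 94) (nat_lit 420) (nat_lit 0) (XT.lf (nat_lit 588) (nat_lit 1546097347) (nat_lit 0) (nat_lit 540011505) (nat_lit 504) (nat_lit 688672019) (nat_lit 111) (nat_lit 1) (nat_lit 104) (nat_lit 1) (nat_lit 110) (nat_lit 1) (nat_lit 257) (nat_lit 241) (nat_lit 222)) (XT.lf (nat_lit 504) (nat_lit 946410565) (nat_lit 0) (nat_lit 17834618) (nat_lit 420) (nat_lit 1753498680) (nat_lit 105) (nat_lit 1) (nat_lit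 99) (nat_lit 1) (nat_lit 104) (nat_lit 1) (nat_lit 258) (nat_lit 241) (nat_lit 221))) (XT.nd (nat_lit 94) (nat_lit 924) (nat_lit 0) (XT.lf (nat_lit 504) (nat_lit 342689002) (nat_lit 0) (nat_lit 2205072764) (nat_lit 420) (nat_lit 114559018) (nat_lit 105) (nat_lit 1) (nat_lit 99) (nat_lit 1) (nat_lit 104) (nat_lit 1) (nat_lit 259) (nat_lit 241) (nat_lit 220)) (XT.nd (nat_lit 94) (nat_lit 420) (nat_lit 0) (XT.lf (nat_lit 84) (nat_lit 1435487476) (nat_lit 0) (nat_lit 262490390) (nat_lit 504) (nat_lit 910226879) (nat_lit 94) (nat_lit 1) (nat_lit 93) (nat_lit 1) (nat_lit 99) (nat_lit 1) (nat_lit 260) (nat_lit 241) (nat_lit 219)) (XT.lf (nat_lit 84) (nat_lit 367218207) (nat_lit 0) (nat_lit 855548151) (nat_lit 504) (nat_lit 1332928644) (nat_lit 89) (nat_lit 1) (nat_lit 88) (nat_lit 1) (nat_lit 94) (nat_lit 1) (nat_lit 261) (nat_lit 241) (nat_lit 218))))) (XT.nd (nat_lit 42770) (nat_lit 0) (nat_lit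 6804) (XT.nd (nat_lit 94) (nat_lit 420) (nat_lit 0) (XT.lf (nat_lit 504) (nat_lit 1053168535) (nat_lit 0) (nat_lit 773951068) (nat_lit 420) (nat_lit 677478850) (nat_lit 89) (nat_lit 1) (nat_lit 83) (nat_lit 1) (nat_lit 88) (nat_lit 1) (nat_lit 262) (nat_lit 241) (nat_lit 217)) (XT.nd (nat_lit 94) (nat_lit 84) (nat_lit 0) (XT.lf (nat_lit 420) (nat_lit 408983118) (nat_lit 0) (nat_lit 353898431) (nat_lit 336) (nat_lit 1692106137) (nat_lit 84) (nat_lit 1) (nat_lit 79) (nat_lit 1) (nat_lit 83) (nat_lit 1) (nat_lit 263) (nat_lit 241) (nat_lit 216)) (XT.lf (nat_lit 84) (nat_lit 2141310038) (nat_lit 0) (nat_lit 226086080) (nat_lit 420) (nat_lit 39346571) (nat_lit 79) (nat_lit 1) (nat_lit 78) (nat_lit 1) (nat_lit 83) (nat_lit 1) (nat_lit 264) (nat_lit 241) (nat_lit 215)))) (XT.nd (nat_lit 94) (nat_lit 0) (nat_lit 0) (XT.lf (nat_lit 1260) (nat_lit 635235761) (nat_lit 0) (nat_lit 966482200) (nat_lit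 1260) (nat_lit 635235761) (nat_lit 174) (nat_lit 1) (nat_lit 159) (nat_lit 0) (nat_lit 174) (nat_lit 0) (nat_lit 236) (nat_lit 242) (nat_lit 242)) (XT.nd (nat_lit 94) (nat_lit 0) (nat_lit 84) (XT.lf (nat_lit 1260) (nat_lit 2458809680) (nat_lit 84) (nat_lit 1876039409) (nat_lit 0) (nat_lit 31805143) (nat_lit 174) (nat_lit 1) (nat_lit 160) (nat_lit 1) (nat_lit 159) (nat_lit 0) (nat_lit 237) (nat_lit 242) (nat_lit 241)) (XT.lf (nat_lit 1260) (nat_lit 2324559562) (nat_lit 84) (nat_lit 617298860) (nat_lit 0) (nat_lit 1320755229) (nat_lit 175) (nat_lit 1) (nat_lit 161) (nat_lit 1) (nat_lit 160) (nat_lit 1) (nat_lit 238) (nat_lit 242) (nat_lit 240))))))) (XT.nd (nat_lit 1034) (nat_lit 4452) (nat_lit 0) (XT.nd (nat_lit 470) (nat_lit 2100) (nat_lit 0) (XT.nd (nat_lit 188) (nat_lit 0) (nat_lit 84) (XT.nd (nat_lit 94) (nat_lit 0) (nat_lit 84) (XT.lf (nat_lit 1260) (nat_lit 1600567887) (nat_lit 0) (nat_lit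 2012448756) (nat_lit 1176) (nat_lit 548913912) (nat_lit 176) (nat_lit 1) (nat_lit 161) (nat_lit 1) (nat_lit 175) (nat_lit 1) (nat_lit 239) (nat_lit 242) (nat_lit 239)) (XT.lf (nat_lit 1260) (nat_lit 309677594) (nat_lit 0) (nat_lit 2128048861) (nat_lit 1176) (nat_lit 1626749254) (nat_lit 177) (nat_lit 1) (nat_lit 162) (nat_lit 1) (nat_lit 176) (nat_lit 1) (nat_lit 240) (nat_lit 242) (nat_lit 238))) (XT.nd (nat_lit 94) (nat_lit 0) (nat_lit 84) (XT.lf (nat_lit 1260) (nat_lit 1683858938) (nat_lit 84) (nat_lit 1325630328) (nat_lit 0) (nat_lit 960493035) (nat_lit 177) (nat_lit 1) (nat_lit 163) (nat_lit 1) (nat_lit 162) (nat_lit 1) (nat_lit 241) (nat_lit 242) (nat_lit 237)) (XT.nd (nat_lit 94) (nat_lit 0) (nat_lit 84) (XT.lf (nat_lit 1260) (nat_lit 1401969907) (nat_lit 84) (nat_lit 281216627) (nat_lit 0) (nat_lit 2195403798) (nat_lit 178) (nat_lit 1) (nat_lit 164) (nat_lit 1) (nat_lit 163) (nat_lit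 1) (nat_lit 242) (nat_lit 242) (nat_lit 236)) (XT.lf (nat_lit 1260) (nat_lit 409145638) (nat_lit 0) (nat_lit 2701498614) (nat_lit 1176) (nat_lit 679385274) (nat_lit 179) (nat_lit 1) (nat_lit 164) (nat_lit 1) (nat_lit 178) (nat_lit 1) (nat_lit 243) (nat_lit 242) (nat_lit 235))))) (XT.nd (nat_lit 282) (nat_lit 1260) (nat_lit 0) (XT.nd (nat_lit 94) (nat_lit 1092) (nat_lit 0) (XT.lf (nat_lit 1260) (nat_lit 741405208) (nat_lit 84) (nat_lit 2124526746) (nat_lit 0) (nat_lit 838110051) (nat_lit 179) (nat_lit 1) (nat_lit 165) (nat_lit 1) (nat_lit 164) (nat_lit 1) (nat_lit 244) (nat_lit 242) (nat_lit 234)) (XT.nd (nat_lit 94) (nat_lit 1176) (nat_lit 0) (XT.lf (nat_lit 1260) (nat_lit 371015156) (nat_lit 84) (nat_lit 1197461618) (nat_lit 0) (nat_lit 2052326659) (nat_lit 180) (nat_lit 1) (nat_lit 166) (nat_lit 1) (nat_lit 165) (nat_lit 1) (nat_lit 245) (nat_lit 242) (nat_lit 233)) (XT.lf (nat_lit 84) (nat_lit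 315436275) (nat_lit 0) (nat_lit 15720258) (nat_lit 1260) (nat_lit 3209204278) (nat_lit 152) (nat_lit 1) (nat_lit 151) (nat_lit 1) (nat_lit 166) (nat_lit 1) (nat_lit 246) (nat_lit 242) (nat_lit 232)))) (XT.nd (nat_lit 94) (nat_lit 1260) (nat_lit 0) (XT.lf (nat_lit 84) (nat_lit 2556682088) (nat_lit 0) (nat_lit 424421713) (nat_lit 1260) (nat_lit 480813407) (nat_lit 152) (nat_lit 1) (nat_lit 151) (nat_lit 1) (nat_lit 166) (nat_lit 1) (nat_lit 247) (nat_lit 242) (nat_lit 231)) (XT.nd (nat_lit 94) (nat_lit 588) (nat_lit 0) (XT.lf (nat_lit 84) (nat_lit 1298846853) (nat_lit 0) (nat_lit 852611530) (nat_lit 756) (nat_lit 1234387370) (nat_lit 144) (nat_lit 1) (nat_lit 143) (nat_lit 1) (nat_lit 152) (nat_lit 1) (nat_lit 248) (nat_lit 242) (nat_lit 230)) (XT.lf (nat_lit 84) (nat_lit 84747153) (nat_lit 0) (nat_lit 1291610989) (nat_lit 672) (nat_lit 1935946618) (nat_lit 137) (nat_lit 1) (nat_lit 136) (nat_lit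 1) (nat_lit 144) (nat_lit 1) (nat_lit 249) (nat_lit 242) (nat_lit 229)))))) (XT.nd (nat_lit 470) (nat_lit 2268) (nat_lit 0) (XT.nd (nat_lit 188) (nat_lit 1596) (nat_lit 0) (XT.nd (nat_lit 94) (nat_lit 0) (nat_lit 0) (XT.lf (nat_lit 672) (nat_lit 1488220681) (nat_lit 0) (nat_lit 640481842) (nat_lit 588) (nat_lit 1112063800) (nat_lit 137) (nat_lit 1) (nat_lit 129) (nat_lit 1) (nat_lit 136) (nat_lit 1) (nat_lit 250) (nat_lit 242) (nat_lit 228)) (XT.lf (nat_lit 84) (nat_lit 903486772) (nat_lit 0) (nat_lit 2222851413) (nat_lit 672) (nat_lit 45200078) (nat_lit 130) (nat_lit 1) (nat_lit 129) (nat_lit 1) (nat_lit 137) (nat_lit 1) (nat_lit 251) (nat_lit 242) (nat_lit 227))) (XT.nd (nat_lit 94) (nat_lit 1092) (nat_lit 0) (XT.lf (nat_lit 588) (nat_lit 394590438) (nat_lit 0) (nat_lit 2431546447) (nat_lit 504) (nat_lit 278108624) (nat_lit 130) (nat_lit 1) (nat_lit 123) (nat_lit 1) (nat_lit 129) (nat_lit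 1) (nat_lit 252) (nat_lit 242) (nat_lit 226)) (XT.nd (nat_lit 94) (nat_lit 504) (nat_lit 0) (XT.lf (nat_lit 84) (nat_lit 1602589582) (nat_lit 0) (nat_lit 168816993) (nat_lit 588) (nat_lit 1267343659) (nat_lit 117) (nat_lit 1) (nat_lit 116) (nat_lit 1) (nat_lit 123) (nat_lit 1) (nat_lit 253) (nat_lit 242) (nat_lit 225)) (XT.lf (nat_lit 84) (nat_lit 426872913) (nat_lit 0) (nat_lit 724970671) (nat_lit 588) (nat_lit 1823400279) (nat_lit 111) (nat_lit 1) (nat_lit 110) (nat_lit 1) (nat_lit 117) (nat_lit 1) (nat_lit 254) (nat_lit 242) (nat_lit 224))))) (XT.nd (nat_lit 282) (nat_lit 1344) (nat_lit 0) (XT.nd (nat_lit 94) (nat_lit 420) (nat_lit 0) (XT.lf (nat_lit 588) (nat_lit 1623402214) (nat_lit 0) (nat_lit 567012081) (nat_lit 504) (nat_lit 723105620) (nat_lit 111) (nat_lit 1) (nat_lit 104) (nat_lit 1) (nat_lit 110) (nat_lit 1) (nat_lit 255) (nat_lit 242) (nat_lit 223)) (XT.nd (nat_lit 94) (nat_lit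 0) (nat_lit 0) (XT.lf (nat_lit 504) (nat_lit 993731094) (nat_lit 0) (nat_lit 18726349) (nat_lit 420) (nat_lit 1841173614) (nat_lit 105) (nat_lit 1) (nat_lit 99) (nat_lit 1) (nat_lit 104) (nat_lit 1) (nat_lit 256) (nat_lit 242) (nat_lit 222)) (XT.lf (nat_lit 504) (nat_lit 359823452) (nat_lit 0) (nat_lit 2315326402) (nat_lit 420) (nat_lit 120286969) (nat_lit 105) (nat_lit 1) (nat_lit 99) (nat_lit 1) (nat_lit 104) (nat_lit 1) (nat_lit 257) (nat_lit 242) (nat_lit 221)))) (XT.nd (nat_lit 94) (nat_lit 840) (nat_lit 0) (XT.lf (nat_lit 84) (nat_lit 1507261850) (nat_lit 0) (nat_lit 275614910) (nat_lit 504) (nat_lit 955738223) (nat_lit 94) (nat_lit 1) (nat_lit 93) (nat_lit 1) (nat_lit 99) (nat_lit 1) (nat_lit 258) (nat_lit 242) (nat_lit 220)) (XT.nd (nat_lit 94) (nat_lit 420) (nat_lit 0) (XT.lf (nat_lit 84) (nat_lit 385579117) (nat_lit 0) (nat_lit 898325559) (nat_lit 504) (nat_lit 1399575076) (nat_lit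 89) (nat_lit 1) (nat_lit 88) (nat_lit 1) (nat_lit 94) (nat_lit 1) (nat_lit 259) (nat_lit 242) (nat_lit 219)) (XT.lf (nat_lit 504) (nat_lit 1105826962) (nat_lit 0) (nat_lit 812648622) (nat_lit 420) (nat_lit 711352792) (nat_lit 89) (nat_lit 1) (nat_lit 83) (nat_lit 1) (nat_lit 88) (nat_lit 1) (nat_lit 260) (nat_lit 242) (nat_lit 218))))))))
noncomputable def ec5 : XT := (XT.nd (nat_lit 44368) (nat_lit 756) (nat_lit 0) (XT.nd (nat_lit 43334) (nat_lit 0) (nat_lit 3948) (XT.nd (nat_lit 42770) (nat_lit 0) (nat_lit 7560) (XT.nd (nat_lit 188) (nat_lit 756) (nat_lit 0) (XT.nd (nat_lit 94) (nat_lit 84) (nat_lit 0) (XT.lf (nat_lit 420) (nat_lit 429432274) (nat_lit 0) (nat_lit 371593353) (nat_lit 336) (nat_lit 1776711444) (nat_lit 84) (nat_lit 1) (nat_lit 79) (nat_lit 1) (nat_lit 83) (nat_lit 1) (nat_lit 261) (nat_lit 242) (nat_lit 217)) (XT.lf (nat_lit 84) (nat_lit 2248375540) (nat_lit 0) (nat_lit 237390384)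 (nat_lit 420) (nat_lit 41313900) (nat_lit 79) (nat_lit 1) (nat_lit 78) (nat_lit 1) (nat_lit 83) (nat_lit 1) (nat_lit 262) (nat_lit 242) (nat_lit 216))) (XT.nd (nat_lit 94) (nat_lit 336) (nat_lit 0) (XT.lf (nat_lit 84) (nat_lit 1149796620) (nat_lit 0) (nat_lit 899276869) (nat_lit 504) (nat_lit 428338671) (nat_lit 74) (nat_lit 1) (nat_lit 73) (nat_lit 1) (nat_lit 79) (nat_lit 1) (nat_lit 263) (nat_lit 242) (nat_lit 215)) (XT.nd (nat_lit 42394) (nat_lit 0) (nat_lit 7560) (XT.lf (nat_lit 84) (nat_lit 91565567) (nat_lit 0) (nat_lit 1552429779) (nat_lit 420) (nat_lit 785316807) (nat_lit 70) (nat_lit 1) (nat_lit 69) (nat_lit 1) (nat_lit 74) (nat_lit 1) (nat_lit 264) (nat_lit 242) (nat_lit 214)) (XT.lf (nat_lit 1260) (nat_lit 666997549) (nat_lit 0) (nat_lit 1014806310) (nat_lit 1260) (nat_lit 666997549) (nat_lit 174) (nat_lit 1) (nat_lit 159) (nat_lit 0) (nat_lit 174) (nat_lit 0) (nat_lit 234) (nat_lit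 243) (nat_lit 243))))) (XT.nd (nat_lit 282) (nat_lit 0) (nat_lit 252) (XT.nd (nat_lit 94) (nat_lit 0) (nat_lit 84) (XT.lf (nat_lit 1260) (nat_lit 2581750164) (nat_lit 84) (nat_lit 1969841379) (nat_lit 0) (nat_lit 33395400) (nat_lit 174) (nat_lit 1) (nat_lit 160) (nat_lit 1) (nat_lit 159) (nat_lit 0) (nat_lit 235) (nat_lit 243) (nat_lit 242)) (XT.nd (nat_lit 94) (nat_lit 0) (nat_lit 84) (XT.lf (nat_lit 1260) (nat_lit 2440787540) (nat_lit 84) (nat_lit 648163803) (nat_lit 0) (nat_lit 1386792991) (nat_lit 175) (nat_lit 1) (nat_lit 161) (nat_lit 1) (nat_lit 160) (nat_lit 1) (nat_lit 236) (nat_lit 243) (nat_lit 241)) (XT.lf (nat_lit 1260) (nat_lit 1680596281) (nat_lit 0) (nat_lit 2113071193) (nat_lit 1176) (nat_lit 576359608) (nat_lit 176) (nat_lit 1) (nat_lit 161) (nat_lit 1) (nat_lit 175) (nat_lit 1) (nat_lit 237) (nat_lit 243) (nat_lit 240)))) (XT.nd (nat_lit 94) (nat_lit 0) (nat_lit 0) (XT.lf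 (nat_lit 1260) (nat_lit 325161474) (nat_lit 0) (nat_lit 2234451305) (nat_lit 1176) (nat_lit 1708086717) (nat_lit 177) (nat_lit 1) (nat_lit 162) (nat_lit 1) (nat_lit 176) (nat_lit 1) (nat_lit 238) (nat_lit 243) (nat_lit 239)) (XT.nd (nat_lit 94) (nat_lit 0) (nat_lit 84) (XT.lf (nat_lit 1260) (nat_lit 1768051885) (nat_lit 84) (nat_lit 1391911845) (nat_lit 0) (nat_lit 1008517687) (nat_lit 177) (nat_lit 1) (nat_lit 163) (nat_lit 1) (nat_lit 162) (nat_lit 1) (nat_lit 239) (nat_lit 243) (nat_lit 238)) (XT.lf (nat_lit 1260) (nat_lit 1472068402) (nat_lit 84) (nat_lit 295277458) (nat_lit 0) (nat_lit 2305173988) (nat_lit 178) (nat_lit 1) (nat_lit 164) (nat_lit 1) (nat_lit 163) (nat_lit 1) (nat_lit 240) (nat_lit 243) (nat_lit 237)))))) (XT.nd (nat_lit 470) (nat_lit 2940) (nat_lit 0) (XT.nd (nat_lit 188) (nat_lit 1092) (nat_lit 0) (XT.nd (nat_lit 94) (nat_lit 0) (nat_lit 0) (XT.lf (nat_lit 1260) (nat_lit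 429602920) (nat_lit 0) (nat_lit 2836573545) (nat_lit 1176) (nat_lit 713354538) (nat_lit 179) (nat_lit 1) (nat_lit 164) (nat_lit 1) (nat_lit 178) (nat_lit 1) (nat_lit 241) (nat_lit 243) (nat_lit 236)) (XT.lf (nat_lit 1260) (nat_lit 778475468) (nat_lit 84) (nat_lit 2230753084) (nat_lit 0) (nat_lit 880015554) (nat_lit 179) (nat_lit 1) (nat_lit 165) (nat_lit 1) (nat_lit 164) (nat_lit 1) (nat_lit 242) (nat_lit 243) (nat_lit 235))) (XT.nd (nat_lit 94) (nat_lit 1176) (nat_lit 0) (XT.lf (nat_lit 1260) (nat_lit 389565913) (nat_lit 84) (nat_lit 1257334698) (nat_lit 0) (nat_lit 2154942992) (nat_lit 180) (nat_lit 1) (nat_lit 166) (nat_lit 1) (nat_lit 165) (nat_lit 1) (nat_lit 243) (nat_lit 243) (nat_lit 234)) (XT.nd (nat_lit 94) (nat_lit 0) (nat_lit 0) (XT.lf (nat_lit 84) (nat_lit 331208089) (nat_lit 0) (nat_lit 16506271) (nat_lit 1260) (nat_lit 3369664492) (nat_lit 152) (nat_lit 1) (nat_lit 151) (nat_lit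 1) (nat_lit 166) (nat_lit 1) (nat_lit 244) (nat_lit 243) (nat_lit 233)) (XT.lf (nat_lit 84) (nat_lit 2684516193) (nat_lit 0) (nat_lit 445642799) (nat_lit 1260) (nat_lit 504854077) (nat_lit 152) (nat_lit 1) (nat_lit 151) (nat_lit 1) (nat_lit 166) (nat_lit 1) (nat_lit 245) (nat_lit 243) (nat_lit 232))))) (XT.nd (nat_lit 282) (nat_lit 1092) (nat_lit 0) (XT.nd (nat_lit 94) (nat_lit 1176) (nat_lit 0) (XT.lf (nat_lit 84) (nat_lit 1363789195) (nat_lit 0) (nat_lit 895242107) (nat_lit 756) (nat_lit 1296106739) (nat_lit 144) (nat_lit 1) (nat_lit 143) (nat_lit 1) (nat_lit 152) (nat_lit 1) (nat_lit 246) (nat_lit 243) (nat_lit 231)) (XT.nd (nat_lit 94) (nat_lit 588) (nat_lit 0) (XT.lf (nat_lit 84) (nat_lit 88984511) (nat_lit 0) (nat_lit 1356191539) (nat_lit 672) (nat_lit 2032743949) (nat_lit 137) (nat_lit 1) (nat_lit 136) (nat_lit 1) (nat_lit 144) (nat_lit 1) (nat_lit 247) (nat_lit 243) (nat_lit 230))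 (XT.lf (nat_lit 672) (nat_lit 1562631715) (nat_lit 0) (nat_lit 672505934) (nat_lit 588) (nat_lit 1167666990) (nat_lit 137) (nat_lit 1) (nat_lit 129) (nat_lit 1) (nat_lit 136) (nat_lit 1) (nat_lit 248) (nat_lit 243) (nat_lit 229)))) (XT.nd (nat_lit 94) (nat_lit 1092) (nat_lit 0) (XT.lf (nat_lit 84) (nat_lit 948661110) (nat_lit 0) (nat_lit 2333993984) (nat_lit 672) (nat_lit 47460082) (nat_lit 130) (nat_lit 1) (nat_lit 129) (nat_lit 1) (nat_lit 137) (nat_lit 1) (nat_lit 249) (nat_lit 243) (nat_lit 228)) (XT.nd (nat_lit 94) (nat_lit 588) (nat_lit 0) (XT.lf (nat_lit 588) (nat_lit 414319960) (nat_lit 0) (nat_lit 2553123769) (nat_lit 504) (nat_lit 292014055) (nat_lit 130) (nat_lit 1) (nat_lit 123) (nat_lit 1) (nat_lit 129) (nat_lit 1) (nat_lit 250) (nat_lit 243) (nat_lit 227)) (XT.lf (nat_lit 84) (nat_lit 1682719061) (nat_lit 0) (nat_lit 177257843) (nat_lit 588) (nat_lit 1330710842) (nat_lit 117)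 (nat_lit 1) (nat_lit 116) (nat_lit 1) (nat_lit 123) (nat_lit 1) (nat_lit 251) (nat_lit 243) (nat_lit 226))))))) (XT.nd (nat_lit 1034) (nat_lit 756) (nat_lit 0) (XT.nd (nat_lit 470) (nat_lit 2016) (nat_lit 0) (XT.nd (nat_lit 188) (nat_lit 924) (nat_lit 0) (XT.nd (nat_lit 94) (nat_lit 504) (nat_lit 0) (XT.lf (nat_lit 84) (nat_lit 448216559) (nat_lit 0) (nat_lit 761219205) (nat_lit 588) (nat_lit 1914570293) (nat_lit 111) (nat_lit 1) (nat_lit 110) (nat_lit 1) (nat_lit 117) (nat_lit 1) (nat_lit 252) (nat_lit 243) (nat_lit 225)) (XT.lf (nat_lit 588) (nat_lit 1704572325) (nat_lit 0) (nat_lit 595362685) (nat_lit 504) (nat_lit 759260901) (nat_lit 111) (nat_lit 1) (nat_lit 104) (nat_lit 1) (nat_lit 110) (nat_lit 1) (nat_lit 253) (nat_lit 243) (nat_lit 224))) (XT.nd (nat_lit 94) (nat_lit 504) (nat_lit 0) (XT.lf (nat_lit 504) (nat_lit 1043417648) (nat_lit 0) (nat_lit 19662666) (nat_lit 420) (nat_lit 1933232295)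 (nat_lit 105) (nat_lit 1) (nat_lit 99) (nat_lit 1) (nat_lit 104) (nat_lit 1) (nat_lit 254) (nat_lit 243) (nat_lit 223)) (XT.nd (nat_lit 94) (nat_lit 504) (nat_lit 0) (XT.lf (nat_lit 504) (nat_lit 377814625) (nat_lit 0) (nat_lit 2431092722) (nat_lit 420) (nat_lit 126301317) (nat_lit 105) (nat_lit 1) (nat_lit 99) (nat_lit 1) (nat_lit 104) (nat_lit 1) (nat_lit 255) (nat_lit 243) (nat_lit 222)) (XT.lf (nat_lit 84) (nat_lit 1582624942) (nat_lit 0) (nat_lit 289395656) (nat_lit 504) (nat_lit 1003525134) (nat_lit 94) (nat_lit 1) (nat_lit 93) (nat_lit 1) (nat_lit 99) (nat_lit 1) (nat_lit 256) (nat_lit 243) (nat_lit 221))))) (XT.nd (nat_lit 282) (nat_lit 840) (nat_lit 0) (XT.nd (nat_lit 94) (nat_lit 756) (nat_lit 0) (XT.lf (nat_lit 84) (nat_lit 404858073) (nat_lit 0) (nat_lit 943241837) (nat_lit 504) (nat_lit 1469553830) (nat_lit 89) (nat_lit 1) (nat_lit 88) (nat_lit 1) (nat_lit 94) (nat_lit 1) (nat_lit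 257) (nat_lit 243) (nat_lit 220)) (XT.nd (nat_lit 94) (nat_lit 336) (nat_lit 0) (XT.lf (nat_lit 504) (nat_lit 1161118310) (nat_lit 0) (nat_lit 853281053) (nat_lit 420) (nat_lit 746920432) (nat_lit 89) (nat_lit 1) (nat_lit 83) (nat_lit 1) (nat_lit 88) (nat_lit 1) (nat_lit 258) (nat_lit 243) (nat_lit 219)) (XT.lf (nat_lit 420) (nat_lit 450903888) (nat_lit 0) (nat_lit 390173021) (nat_lit 336) (nat_lit 1865547016) (nat_lit 84) (nat_lit 1) (nat_lit 79) (nat_lit 1) (nat_lit 83) (nat_lit 1) (nat_lit 259) (nat_lit 243) (nat_lit 218)))) (XT.nd (nat_lit 94) (nat_lit 756) (nat_lit 0) (XT.lf (nat_lit 84) (nat_lit 2360794317) (nat_lit 0) (nat_lit 249259903) (nat_lit 420) (nat_lit 43379595) (nat_lit 79) (nat_lit 1) (nat_lit 78) (nat_lit 1) (nat_lit 83) (nat_lit 1) (nat_lit 260) (nat_lit 243) (nat_lit 217)) (XT.nd (nat_lit 94) (nat_lit 336) (nat_lit 0) (XT.lf (nat_lit 84) (nat_lit 1207286451) (nat_lit 0)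 (nat_lit 944240713) (nat_lit 504) (nat_lit 449755604) (nat_lit 74) (nat_lit 1) (nat_lit 73) (nat_lit 1) (nat_lit 79) (nat_lit 1) (nat_lit 261) (nat_lit 243) (nat_lit 216)) (XT.lf (nat_lit 84) (nat_lit 96143846) (nat_lit 0) (nat_lit 1630051268) (nat_lit 420) (nat_lit 824582647) (nat_lit 70) (nat_lit 1) (nat_lit 69) (nat_lit 1) (nat_lit 74) (nat_lit 1) (nat_lit 262) (nat_lit 243) (nat_lit 215)))))) (XT.nd (nat_lit 42582) (nat_lit 0) (nat_lit 8484) (XT.nd (nat_lit 42300) (nat_lit 0) (nat_lit 8316) (XT.nd (nat_lit 94) (nat_lit 420) (nat_lit 0) (XT.lf (nat_lit 420) (nat_lit 183816115) (nat_lit 0) (nat_lit 1321065281) (nat_lit 336) (nat_lit 996590550) (nat_lit 70) (nat_lit 1) (nat_lit 65) (nat_lit 1) (nat_lit 69) (nat_lit 1) (nat_lit 263) (nat_lit 243) (nat_lit 214)) (XT.lf (nat_lit 84) (nat_lit 408772902) (nat_lit 0) (nat_lit 530493785) (nat_lit 420) (nat_lit 1514197078) (nat_lit 61) (nat_lit 1)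 (nat_lit 60) (nat_lit 1) (nat_lit 65) (nat_lit 1) (nat_lit 264) (nat_lit 243) (nat_lit 213))) (XT.nd (nat_lit 94) (nat_lit 0) (nat_lit 0) (XT.lf (nat_lit 1260) (nat_lit 700347427) (nat_lit 0) (nat_lit 1065546626) (nat_lit 1260) (nat_lit 700347427) (nat_lit 174) (nat_lit 1) (nat_lit 159) (nat_lit 0) (nat_lit 174) (nat_lit 0) (nat_lit 232) (nat_lit 244) (nat_lit 244)) (XT.nd (nat_lit 94) (nat_lit 0) (nat_lit 84) (XT.lf (nat_lit 1260) (nat_lit 2710837673) (nat_lit 84) (nat_lit 2068333448) (nat_lit 0) (nat_lit 35065170) (nat_lit 174) (nat_lit 1) (nat_lit 160) (nat_lit 1) (nat_lit 159) (nat_lit 0) (nat_lit 233) (nat_lit 244) (nat_lit 243)) (XT.lf (nat_lit 1260) (nat_lit 2562826917) (nat_lit 84) (nat_lit 680571993) (nat_lit 0) (nat_lit 1456132640) (nat_lit 175) (nat_lit 1) (nat_lit 161) (nat_lit 1) (nat_lit 160) (nat_lit 1) (nat_lit 234) (nat_lit 244) (nat_lit 242))))) (XT.nd (nat_lit 282) (nat_lit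 0) (nat_lit 168) (XT.nd (nat_lit 94) (nat_lit 0) (nat_lit 84) (XT.lf (nat_lit 1260) (nat_lit 1764626095) (nat_lit 0) (nat_lit 2218724753) (nat_lit 1176) (nat_lit 605177588) (nat_lit 176) (nat_lit 1) (nat_lit 161) (nat_lit 1) (nat_lit 175) (nat_lit 1) (nat_lit 235) (nat_lit 244) (nat_lit 241)) (XT.nd (nat_lit 94) (nat_lit 0) (nat_lit 0) (XT.lf (nat_lit 1260) (nat_lit 341419548) (nat_lit 0) (nat_lit 2346173870) (nat_lit 1176) (nat_lit 1793491052) (nat_lit 177) (nat_lit 1) (nat_lit 162) (nat_lit 1) (nat_lit 176) (nat_lit 1) (nat_lit 236) (nat_lit 244) (nat_lit 240)) (XT.lf (nat_lit 1260) (nat_lit 1856454479) (nat_lit 84) (nat_lit 1461507437) (nat_lit 0) (nat_lit 1058943571) (nat_lit 177) (nat_lit 1) (nat_lit 163) (nat_lit 1) (nat_lit 162) (nat_lit 1) (nat_lit 237) (nat_lit 244) (nat_lit 239)))) (XT.nd (nat_lit 94) (nat_lit 0) (nat_lit 84) (XT.lf (nat_lit 1260) (nat_lit 1545671822) (nat_lit 84)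 (nat_lit 310041331) (nat_lit 0) (nat_lit 2420432688) (nat_lit 178) (nat_lit 1) (nat_lit 164) (nat_lit 1) (nat_lit 163) (nat_lit 1) (nat_lit 238) (nat_lit 244) (nat_lit 238)) (XT.nd (nat_lit 94) (nat_lit 0) (nat_lit 0) (XT.lf (nat_lit 1260) (nat_lit 451083066) (nat_lit 0) (nat_lit 2978402222) (nat_lit 1176) (nat_lit 749022265) (nat_lit 179) (nat_lit 1) (nat_lit 164) (nat_lit 1) (nat_lit 178) (nat_lit 1) (nat_lit 239) (nat_lit 244) (nat_lit 237)) (XT.lf (nat_lit 1260) (nat_lit 817399242) (nat_lit 84) (nat_lit 2342290738) (nat_lit 0) (nat_lit 924016331) (nat_lit 179) (nat_lit 1) (nat_lit 165) (nat_lit 1) (nat_lit 164) (nat_lit 1) (nat_lit 240) (nat_lit 244) (nat_lit 236))))))))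
noncomputable def ec6 : XT := (XT.nd (nat_lit 2068) (nat_lit 588) (nat_lit 0) (XT.nd (nat_lit 1034) (nat_lit 3696) (nat_lit 0) (XT.nd (nat_lit 470) (nat_lit 2688) (nat_lit 0) (XT.nd (nat_lit 188) (nat_lit 1260) (nat_lit 0) (XT.nd (nat_lit 94) (nat_lit 1176) (nat_lit 0) (XT.lf (nat_lit 1260) (nat_lit 409044209) (nat_lit 84) (nat_lit 1320201433) (nat_lit 0) (nat_lit 2262690142) (nat_lit 180) (nat_lit 1) (nat_lit 166) (nat_lit 1) (nat_lit 165) (nat_lit 1) (nat_lit 241) (nat_lit 244) (nat_lit 235)) (XT.lf (nat_lit 84) (nat_lit 347768494) (nat_lit 0) (nat_lit 17331585) (nat_lit 1260) (nat_lit 3538147717) (nat_lit 152) (nat_lit 1) (nat_lit 151) (nat_lit 1) (nat_lit 166) (nat_lit 1) (nat_lit 242) (nat_lit 244) (nat_lit 234))) (XT.nd (nat_lit 94) (nat_lit 1260) (nat_lit 0) (XT.lf (nat_lit 84) (nat_lit 2818742002) (nat_lit 0) (nat_lit 467924938) (nat_lit 1260) (nat_lit 530096781) (nat_lit 152) (nat_lit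 1) (nat_lit 151) (nat_lit 1) (nat_lit 166) (nat_lit 1) (nat_lit 243) (nat_lit 244) (nat_lit 233)) (XT.nd (nat_lit 94) (nat_lit 588) (nat_lit 0) (XT.lf (nat_lit 84) (nat_lit 1431978655) (nat_lit 0) (nat_lit 940004212) (nat_lit 756) (nat_lit 1360912075) (nat_lit 144) (nat_lit 1) (nat_lit 143) (nat_lit 1) (nat_lit 152) (nat_lit 1) (nat_lit 244) (nat_lit 244) (nat_lit 232)) (XT.lf (nat_lit 84) (nat_lit 93433736) (nat_lit 0) (nat_lit 1424001115) (nat_lit 672) (nat_lit 2134381147) (nat_lit 137) (nat_lit 1) (nat_lit 136) (nat_lit 1) (nat_lit 144) (nat_lit 1) (nat_lit 245) (nat_lit 244) (nat_lit 231))))) (XT.nd (nat_lit 282) (nat_lit 1596) (nat_lit 0) (XT.nd (nat_lit 94) (nat_lit 504) (nat_lit 0) (XT.lf (nat_lit 672) (nat_lit 1640763301) (nat_lit 0) (nat_lit 706131231) (nat_lit 588) (nat_lit 1226050339) (nat_lit 137) (nat_lit 1) (nat_lit 129) (nat_lit 1) (nat_lit 136) (nat_lit 1) (nat_lit 246) (nat_lit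 244) (nat_lit 230)) (XT.nd (nat_lit 94) (nat_lit 504) (nat_lit 0) (XT.lf (nat_lit 84) (nat_lit 996094166) (nat_lit 0) (nat_lit 2450693683) (nat_lit 672) (nat_lit 49833086) (nat_lit 130) (nat_lit 1) (nat_lit 129) (nat_lit 1) (nat_lit 137) (nat_lit 1) (nat_lit 247) (nat_lit 244) (nat_lit 229)) (XT.lf (nat_lit 588) (nat_lit 435035958) (nat_lit 0) (nat_lit 2680779958) (nat_lit 504) (nat_lit 306614758) (nat_lit 130) (nat_lit 1) (nat_lit 123) (nat_lit 1) (nat_lit 129) (nat_lit 1) (nat_lit 248) (nat_lit 244) (nat_lit 228)))) (XT.nd (nat_lit 94) (nat_lit 1008) (nat_lit 0) (XT.lf (nat_lit 84) (nat_lit 1766855014) (nat_lit 0) (nat_lit 186120735) (nat_lit 588) (nat_lit 1397246384) (nat_lit 117) (nat_lit 1) (nat_lit 116) (nat_lit 1) (nat_lit 123) (nat_lit 1) (nat_lit 249) (nat_lit 244) (nat_lit 227)) (XT.nd (nat_lit 94) (nat_lit 504) (nat_lit 0) (XT.lf (nat_lit 84) (nat_lit 470627387) (nat_lit 0) (nat_lit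 799280165) (nat_lit 588) (nat_lit 2010298807) (nat_lit 111) (nat_lit 1) (nat_lit 110) (nat_lit 1) (nat_lit 117) (nat_lit 1) (nat_lit 250) (nat_lit 244) (nat_lit 226)) (XT.lf (nat_lit 588) (nat_lit 1789800941) (nat_lit 0) (nat_lit 625130819) (nat_lit 504) (nat_lit 797223946) (nat_lit 111) (nat_lit 1) (nat_lit 104) (nat_lit 1) (nat_lit 110) (nat_lit 1) (nat_lit 251) (nat_lit 244) (nat_lit 225)))))) (XT.nd (nat_lit 470) (nat_lit 1932) (nat_lit 0) (XT.nd (nat_lit 188) (nat_lit 1344) (nat_lit 0) (XT.nd (nat_lit 94) (nat_lit 0) (nat_lit 0) (XT.lf (nat_lit 504) (nat_lit 1095588531) (nat_lit 0) (nat_lit 20645800) (nat_lit 420) (nat_lit 2029893910) (nat_lit 105) (nat_lit 1) (nat_lit 99) (nat_lit 1) (nat_lit 104) (nat_lit 1) (nat_lit 252) (nat_lit 244) (nat_lit 224)) (XT.lf (nat_lit 504) (nat_lit 396705356) (nat_lit 0) (nat_lit 2552647358) (nat_lit 420) (nat_lit 132616383) (nat_lit 105) (nat_lit 1)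 (nat_lit 99) (nat_lit 1) (nat_lit 104) (nat_lit 1) (nat_lit 253) (nat_lit 244) (nat_lit 223))) (XT.nd (nat_lit 94) (nat_lit 840) (nat_lit 0) (XT.lf (nat_lit 84) (nat_lit 1661756189) (nat_lit 0) (nat_lit 303865438) (nat_lit 504) (nat_lit 1053701391) (nat_lit 94) (nat_lit 1) (nat_lit 93) (nat_lit 1) (nat_lit 99) (nat_lit 1) (nat_lit 254) (nat_lit 244) (nat_lit 222)) (XT.nd (nat_lit 94) (nat_lit 420) (nat_lit 0) (XT.lf (nat_lit 84) (nat_lit 425100977) (nat_lit 0) (nat_lit 990403929) (nat_lit 504) (nat_lit 1543031522) (nat_lit 89) (nat_lit 1) (nat_lit 88) (nat_lit 1) (nat_lit 94) (nat_lit 1) (nat_lit 255) (nat_lit 244) (nat_lit 221)) (XT.lf (nat_lit 504) (nat_lit 1219174225) (nat_lit 0) (nat_lit 895945106) (nat_lit 420) (nat_lit 784266454) (nat_lit 89) (nat_lit 1) (nat_lit 83) (nat_lit 1) (nat_lit 88) (nat_lit 1) (nat_lit 256) (nat_lit 244) (nat_lit 220))))) (XT.nd (nat_lit 282) (nat_lit 1092)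 (nat_lit 0) (XT.nd (nat_lit 94) (nat_lit 504) (nat_lit 0) (XT.lf (nat_lit 420) (nat_lit 473449082) (nat_lit 0) (nat_lit 409681672) (nat_lit 336) (nat_lit 1958824367) (nat_lit 84) (nat_lit 1) (nat_lit 79) (nat_lit 1) (nat_lit 83) (nat_lit 1) (nat_lit 257) (nat_lit 244) (nat_lit 219)) (XT.nd (nat_lit 94) (nat_lit 420) (nat_lit 0) (XT.lf (nat_lit 84) (nat_lit 2478834033) (nat_lit 0) (nat_lit 261722898) (nat_lit 420) (nat_lit 45548575) (nat_lit 79) (nat_lit 1) (nat_lit 78) (nat_lit 1) (nat_lit 83) (nat_lit 1) (nat_lit 258) (nat_lit 244) (nat_lit 218)) (XT.lf (nat_lit 84) (nat_lit 1267650773) (nat_lit 0) (nat_lit 991452748) (nat_lit 504) (nat_lit 472243384) (nat_lit 74) (nat_lit 1) (nat_lit 73) (nat_lit 1) (nat_lit 79) (nat_lit 1) (nat_lit 259) (nat_lit 244) (nat_lit 217)))) (XT.nd (nat_lit 94) (nat_lit 756) (nat_lit 0) (XT.lf (nat_lit 84) (nat_lit 100951038) (nat_lit 0) (nat_lit 1711553831) (nat_lit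 420) (nat_lit 865811779) (nat_lit 70) (nat_lit 1) (nat_lit 69) (nat_lit 1) (nat_lit 74) (nat_lit 1) (nat_lit 260) (nat_lit 244) (nat_lit 216)) (XT.nd (nat_lit 94) (nat_lit 420) (nat_lit 0) (XT.lf (nat_lit 420) (nat_lit 193006921) (nat_lit 0) (nat_lit 1387118545) (nat_lit 336) (nat_lit 1046420078) (nat_lit 70) (nat_lit 1) (nat_lit 65) (nat_lit 1) (nat_lit 69) (nat_lit 1) (nat_lit 261) (nat_lit 244) (nat_lit 215)) (XT.lf (nat_lit 84) (nat_lit 429211547) (nat_lit 0) (nat_lit 557018474) (nat_lit 420) (nat_lit 1589906932) (nat_lit 61) (nat_lit 1) (nat_lit 60) (nat_lit 1) (nat_lit 65) (nat_lit 1) (nat_lit 262) (nat_lit 244) (nat_lit 214))))))) (XT.nd (nat_lit 42958) (nat_lit 0) (nat_lit 4284) (XT.nd (nat_lit 42394) (nat_lit 0) (nat_lit 9072) (XT.nd (nat_lit 42112) (nat_lit 0) (nat_lit 8904) (XT.nd (nat_lit 94) (nat_lit 252) (nat_lit 0) (XT.lf (nat_lit 420) (nat_lit 1228325536) (nat_lit 0) (nat_lit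 606066079) (nat_lit 336) (nat_lit 692564036) (nat_lit 61) (nat_lit 1) (nat_lit 56) (nat_lit 1) (nat_lit 60) (nat_lit 1) (nat_lit 263) (nat_lit 244) (nat_lit 213)) (XT.lf (nat_lit 336) (nat_lit 446236900) (nat_lit 0) (nat_lit 250859263) (nat_lit 252) (nat_lit 1782041083) (nat_lit 57) (nat_lit 1) (nat_lit 53) (nat_lit 1) (nat_lit 56) (nat_lit 1) (nat_lit 264) (nat_lit 244) (nat_lit 212))) (XT.nd (nat_lit 94) (nat_lit 0) (nat_lit 0) (XT.lf (nat_lit 1260) (nat_lit 735364798) (nat_lit 0) (nat_lit 1118823957) (nat_lit 1260) (nat_lit 735364798) (nat_lit 174) (nat_lit 1) (nat_lit 159) (nat_lit 0) (nat_lit 174) (nat_lit 0) (nat_lit 230) (nat_lit 245) (nat_lit 245)) (XT.nd (nat_lit 94) (nat_lit 0) (nat_lit 84) (XT.lf (nat_lit 1260) (nat_lit 2846379556) (nat_lit 84) (nat_lit 2171750121) (nat_lit 0) (nat_lit 36818428) (nat_lit 174) (nat_lit 1) (nat_lit 160) (nat_lit 1) (nat_lit 159) (nat_lit 0) (nat_lit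 231) (nat_lit 245) (nat_lit 244)) (XT.lf (nat_lit 1260) (nat_lit 2690968263) (nat_lit 84) (nat_lit 714600593) (nat_lit 0) (nat_lit 1528939272) (nat_lit 175) (nat_lit 1) (nat_lit 161) (nat_lit 1) (nat_lit 160) (nat_lit 1) (nat_lit 232) (nat_lit 245) (nat_lit 243))))) (XT.nd (nat_lit 282) (nat_lit 0) (nat_lit 168) (XT.nd (nat_lit 94) (nat_lit 0) (nat_lit 84) (XT.lf (nat_lit 1260) (nat_lit 1852857400) (nat_lit 0) (nat_lit 2329660991) (nat_lit 1176) (nat_lit 635436468) (nat_lit 176) (nat_lit 1) (nat_lit 161) (nat_lit 1) (nat_lit 175) (nat_lit 1) (nat_lit 233) (nat_lit 245) (nat_lit 242)) (XT.nd (nat_lit 94) (nat_lit 0) (nat_lit 0) (XT.lf (nat_lit 1260) (nat_lit 358490525) (nat_lit 0) (nat_lit 2463482563) (nat_lit 1176) (nat_lit 1883165605) (nat_lit 177) (nat_lit 1) (nat_lit 162) (nat_lit 1) (nat_lit 176) (nat_lit 1) (nat_lit 234) (nat_lit 245) (nat_lit 241)) (XT.lf (nat_lit 1260) (nat_lit 1949277203)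 (nat_lit 84) (nat_lit 1534582809) (nat_lit 0) (nat_lit 1111890749) (nat_lit 177) (nat_lit 1) (nat_lit 163) (nat_lit 1) (nat_lit 162) (nat_lit 1) (nat_lit 235) (nat_lit 245) (nat_lit 240)))) (XT.nd (nat_lit 94) (nat_lit 0) (nat_lit 84) (XT.lf (nat_lit 1260) (nat_lit 1622955413) (nat_lit 84) (nat_lit 325543397) (nat_lit 0) (nat_lit 2541454322) (nat_lit 178) (nat_lit 1) (nat_lit 164) (nat_lit 1) (nat_lit 163) (nat_lit 1) (nat_lit 236) (nat_lit 245) (nat_lit 239)) (XT.nd (nat_lit 94) (nat_lit 0) (nat_lit 0) (XT.lf (nat_lit 1260) (nat_lit 473637219) (nat_lit 0) (nat_lit 3127322333) (nat_lit 1176) (nat_lit 786473378) (nat_lit 179) (nat_lit 1) (nat_lit 164) (nat_lit 1) (nat_lit 178) (nat_lit 1) (nat_lit 237) (nat_lit 245) (nat_lit 238)) (XT.lf (nat_lit 1260) (nat_lit 858269204) (nat_lit 84) (nat_lit 2459405275) (nat_lit 0) (nat_lit 970217148) (nat_lit 179) (nat_lit 1) (nat_lit 165) (nat_lit 1) (nat_lit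 164) (nat_lit 1) (nat_lit 238) (nat_lit 245) (nat_lit 237)))))) (XT.nd (nat_lit 470) (nat_lit 2688) (nat_lit 0) (XT.nd (nat_lit 188) (nat_lit 1260) (nat_lit 0) (XT.nd (nat_lit 94) (nat_lit 1176) (nat_lit 0) (XT.lf (nat_lit 1260) (nat_lit 429496420) (nat_lit 84) (nat_lit 1386211505) (nat_lit 0) (nat_lit 2375824649) (nat_lit 180) (nat_lit 1) (nat_lit 166) (nat_lit 1) (nat_lit 165) (nat_lit 1) (nat_lit 239) (nat_lit 245) (nat_lit 236)) (XT.lf (nat_lit 84) (nat_lit 365156918) (nat_lit 0) (nat_lit 18198164) (nat_lit 1260) (nat_lit 3715055103) (nat_lit 152) (nat_lit 1) (nat_lit 151) (nat_lit 1) (nat_lit 166) (nat_lit 1) (nat_lit 240) (nat_lit 245) (nat_lit 235))) (XT.nd (nat_lit 94) (nat_lit 1260) (nat_lit 0) (XT.lf (nat_lit 84) (nat_lit 2959679103) (nat_lit 0) (nat_lit 491321185) (nat_lit 1260) (nat_lit 556601620) (nat_lit 152) (nat_lit 1) (nat_lit 151) (nat_lit 1) (nat_lit 166) (nat_lit 1) (nat_lit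 241) (nat_lit 245) (nat_lit 234)) (XT.nd (nat_lit 94) (nat_lit 588) (nat_lit 0) (XT.lf (nat_lit 84) (nat_lit 1503577588) (nat_lit 0) (nat_lit 987004423) (nat_lit 756) (nat_lit 1428957679) (nat_lit 144) (nat_lit 1) (nat_lit 143) (nat_lit 1) (nat_lit 152) (nat_lit 1) (nat_lit 242) (nat_lit 245) (nat_lit 233)) (XT.lf (nat_lit 84) (nat_lit 98105423) (nat_lit 0) (nat_lit 1495201171) (nat_lit 672) (nat_lit 2241100204) (nat_lit 137) (nat_lit 1) (nat_lit 136) (nat_lit 1) (nat_lit 144) (nat_lit 1) (nat_lit 243) (nat_lit 245) (nat_lit 232))))) (XT.nd (nat_lit 282) (nat_lit 1596) (nat_lit 0) (XT.nd (nat_lit 94) (nat_lit 504) (nat_lit 0) (XT.lf (nat_lit 672) (nat_lit 1722801466) (nat_lit 0) (nat_lit 741437792) (nat_lit 588) (nat_lit 1287352856) (nat_lit 137) (nat_lit 1) (nat_lit 129) (nat_lit 1) (nat_lit 136) (nat_lit 1) (nat_lit 244) (nat_lit 245) (nat_lit 231)) (XT.nd (nat_lit 94) (nat_lit 504) (nat_lit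 0) (XT.lf (nat_lit 84) (nat_lit 1045898874) (nat_lit 0) (nat_lit 2573228367) (nat_lit 672) (nat_lit 52324740) (nat_lit 130) (nat_lit 1) (nat_lit 129) (nat_lit 1) (nat_lit 137) (nat_lit 1) (nat_lit 245) (nat_lit 245) (nat_lit 230)) (XT.lf (nat_lit 588) (nat_lit 456787756) (nat_lit 0) (nat_lit 2814818956) (nat_lit 504) (nat_lit 321945496) (nat_lit 130) (nat_lit 1) (nat_lit 123) (nat_lit 1) (nat_lit 129) (nat_lit 1) (nat_lit 246) (nat_lit 245) (nat_lit 229)))) (XT.nd (nat_lit 94) (nat_lit 1008) (nat_lit 0) (XT.lf (nat_lit 84) (nat_lit 1855197765) (nat_lit 0) (nat_lit 195426772) (nat_lit 588) (nat_lit 1467108704) (nat_lit 117) (nat_lit 1) (nat_lit 116) (nat_lit 1) (nat_lit 123) (nat_lit 1) (nat_lit 247) (nat_lit 245) (nat_lit 228)) (XT.nd (nat_lit 94) (nat_lit 504) (nat_lit 0) (XT.lf (nat_lit 84) (nat_lit 494158756) (nat_lit 0) (nat_lit 839244173) (nat_lit 588) (nat_lit 2110813748) (nat_lit 111)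 (nat_lit 1) (nat_lit 110) (nat_lit 1) (nat_lit 117) (nat_lit 1) (nat_lit 248) (nat_lit 245) (nat_lit 227)) (XT.lf (nat_lit 588) (nat_lit 1879290988) (nat_lit 0) (nat_lit 656387360) (nat_lit 504) (nat_lit 837085143) (nat_lit 111) (nat_lit 1) (nat_lit 104) (nat_lit 1) (nat_lit 110) (nat_lit 1) (nat_lit 249) (nat_lit 245) (nat_lit 226))))))))
noncomputable def ec7 : XT := (XT.nd (nat_lit 43804) (nat_lit 0) (nat_lit 1764) (XT.nd (nat_lit 1034) (nat_lit 1008) (nat_lit 0) (XT.nd (nat_lit 470) (nat_lit 1932) (nat_lit 0) (XT.nd (nat_lit 188) (nat_lit 1344) (nat_lit 0) (XT.nd (nat_lit 94) (nat_lit 0) (nat_lit 0) (XT.lf (nat_lit 504) (nat_lit 1150367957) (nat_lit 0) (nat_lit 21678090) (nat_lit 420) (nat_lit 2131388605) (nat_lit 105) (nat_lit 1) (nat_lit 99) (nat_lit 1) (nat_lit 104) (nat_lit 1) (nat_lit 250) (nat_lit 245) (nat_lit 225)) (XT.lf (nat_lit 504) (nat_lit 416540624) (nat_lit 0) (nat_lit 2680279726)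 (nat_lit 420) (nat_lit 139247202) (nat_lit 105) (nat_lit 1) (nat_lit 99) (nat_lit 1) (nat_lit 104) (nat_lit 1) (nat_lit 251) (nat_lit 245) (nat_lit 224))) (XT.nd (nat_lit 94) (nat_lit 840) (nat_lit 0) (XT.lf (nat_lit 84) (nat_lit 1744843999) (nat_lit 0) (nat_lit 319058710) (nat_lit 504) (nat_lit 1106386460) (nat_lit 94) (nat_lit 1) (nat_lit 93) (nat_lit 1) (nat_lit 99) (nat_lit 1) (nat_lit 252) (nat_lit 245) (nat_lit 223)) (XT.nd (nat_lit 94) (nat_lit 420) (nat_lit 0) (XT.lf (nat_lit 84) (nat_lit 446356026) (nat_lit 0) (nat_lit 1039924125) (nat_lit 504) (nat_lit 1620183098) (nat_lit 89) (nat_lit 1) (nat_lit 88) (nat_lit 1) (nat_lit 94) (nat_lit 1) (nat_lit 253) (nat_lit 245) (nat_lit 222)) (XT.lf (nat_lit 504) (nat_lit 1280132937) (nat_lit 0) (nat_lit 940742361) (nat_lit 420) (nat_lit 823479776) (nat_lit 89) (nat_lit 1) (nat_lit 83) (nat_lit 1) (nat_lit 88) (nat_lit 1) (nat_lit 254) (nat_lit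 245) (nat_lit 221))))) (XT.nd (nat_lit 282) (nat_lit 1092) (nat_lit 0) (XT.nd (nat_lit 94) (nat_lit 504) (nat_lit 0) (XT.lf (nat_lit 420) (nat_lit 497121536) (nat_lit 0) (nat_lit 430165755) (nat_lit 336) (nat_lit 2056765585) (nat_lit 84) (nat_lit 1) (nat_lit 79) (nat_lit 1) (nat_lit 83) (nat_lit 1) (nat_lit 255) (nat_lit 245) (nat_lit 220)) (XT.nd (nat_lit 94) (nat_lit 420) (nat_lit 0) (XT.lf (nat_lit 84) (nat_lit 2602775735) (nat_lit 0) (nat_lit 274809043) (nat_lit 420) (nat_lit 47826004) (nat_lit 79) (nat_lit 1) (nat_lit 78) (nat_lit 1) (nat_lit 83) (nat_lit 1) (nat_lit 256) (nat_lit 245) (nat_lit 219)) (XT.lf (nat_lit 84) (nat_lit 1331033312) (nat_lit 0) (nat_lit 1041025386) (nat_lit 504) (nat_lit 495855554) (nat_lit 74) (nat_lit 1) (nat_lit 73) (nat_lit 1) (nat_lit 79) (nat_lit 1) (nat_lit 257) (nat_lit 245) (nat_lit 218)))) (XT.nd (nat_lit 94) (nat_lit 756) (nat_lit 0) (XT.lf (nat_lit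 84) (nat_lit 105998590) (nat_lit 0) (nat_lit 1797131523) (nat_lit 420) (nat_lit 909102368) (nat_lit 70) (nat_lit 1) (nat_lit 69) (nat_lit 1) (nat_lit 74) (nat_lit 1) (nat_lit 258) (nat_lit 245) (nat_lit 217)) (XT.nd (nat_lit 94) (nat_lit 420) (nat_lit 0) (XT.lf (nat_lit 420) (nat_lit 202657267) (nat_lit 0) (nat_lit 1456474473) (nat_lit 336) (nat_lit 1098741081) (nat_lit 70) (nat_lit 1) (nat_lit 65) (nat_lit 1) (nat_lit 69) (nat_lit 1) (nat_lit 259) (nat_lit 245) (nat_lit 216)) (XT.lf (nat_lit 84) (nat_lit 450672125) (nat_lit 0) (nat_lit 584869398) (nat_lit 420) (nat_lit 1669402279) (nat_lit 61) (nat_lit 1) (nat_lit 60) (nat_lit 1) (nat_lit 65) (nat_lit 1) (nat_lit 260) (nat_lit 245) (nat_lit 215)))))) (XT.nd (nat_lit 42206) (nat_lit 0) (nat_lit 9324) (XT.nd (nat_lit 188) (nat_lit 420) (nat_lit 0) (XT.nd (nat_lit 94) (nat_lit 252) (nat_lit 0) (XT.lf (nat_lit 420) (nat_lit 1289741813) (nat_lit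 0) (nat_lit 636369383) (nat_lit 336) (nat_lit 727192238) (nat_lit 61) (nat_lit 1) (nat_lit 56) (nat_lit 1) (nat_lit 60) (nat_lit 1) (nat_lit 261) (nat_lit 245) (nat_lit 214)) (XT.lf (nat_lit 336) (nat_lit 468548745) (nat_lit 0) (nat_lit 263402226) (nat_lit 252) (nat_lit 1871143137) (nat_lit 57) (nat_lit 1) (nat_lit 53) (nat_lit 1) (nat_lit 56) (nat_lit 1) (nat_lit 262) (nat_lit 245) (nat_lit 213))) (XT.nd (nat_lit 94) (nat_lit 336) (nat_lit 0) (XT.lf (nat_lit 84) (nat_lit 2131553232) (nat_lit 0) (nat_lit 336299192) (nat_lit 336) (nat_lit 86255605) (nat_lit 53) (nat_lit 1) (nat_lit 52) (nat_lit 1) (nat_lit 56) (nat_lit 1) (nat_lit 263) (nat_lit 245) (nat_lit 212)) (XT.nd (nat_lit 41830) (nat_lit 0) (nat_lit 9324) (XT.lf (nat_lit 84) (nat_lit 964079423) (nat_lit 0) (nat_lit 1127121296) (nat_lit 420) (nat_lit 414875237) (nat_lit 49) (nat_lit 1) (nat_lit 48) (nat_lit 1) (nat_lit 53) (nat_lit 1)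 (nat_lit 264) (nat_lit 245) (nat_lit 211)) (XT.lf (nat_lit 1260) (nat_lit 772133038) (nat_lit 0) (nat_lit 1174765155) (nat_lit 1260) (nat_lit 772133038) (nat_lit 174) (nat_lit 1) (nat_lit 159) (nat_lit 0) (nat_lit 174) (nat_lit 0) (nat_lit 228) (nat_lit 246) (nat_lit 246))))) (XT.nd (nat_lit 282) (nat_lit 0) (nat_lit 252) (XT.nd (nat_lit 94) (nat_lit 0) (nat_lit 84) (XT.lf (nat_lit 1260) (nat_lit 2988698534) (nat_lit 84) (nat_lit 2280337627) (nat_lit 0) (nat_lit 38659350) (nat_lit 174) (nat_lit 1) (nat_lit 160) (nat_lit 1) (nat_lit 159) (nat_lit 0) (nat_lit 229) (nat_lit 246) (nat_lit 245)) (XT.nd (nat_lit 94) (nat_lit 0) (nat_lit 84) (XT.lf (nat_lit 1260) (nat_lit 2825516676) (nat_lit 84) (nat_lit 750330623) (nat_lit 0) (nat_lit 1605386236) (nat_lit 175) (nat_lit 1) (nat_lit 161) (nat_lit 1) (nat_lit 160) (nat_lit 1) (nat_lit 230) (nat_lit 246) (nat_lit 244)) (XT.lf (nat_lit 1260) (nat_lit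 1945500270) (nat_lit 0) (nat_lit 2446144040) (nat_lit 1176) (nat_lit 667208291) (nat_lit 176) (nat_lit 1) (nat_lit 161) (nat_lit 1) (nat_lit 175) (nat_lit 1) (nat_lit 231) (nat_lit 246) (nat_lit 243)))) (XT.nd (nat_lit 94) (nat_lit 0) (nat_lit 0) (XT.lf (nat_lit 1260) (nat_lit 376415052) (nat_lit 0) (nat_lit 2586656692) (nat_lit 1176) (nat_lit 1977323885) (nat_lit 177) (nat_lit 1) (nat_lit 162) (nat_lit 1) (nat_lit 176) (nat_lit 1) (nat_lit 232) (nat_lit 246) (nat_lit 242)) (XT.nd (nat_lit 94) (nat_lit 0) (nat_lit 84) (XT.lf (nat_lit 1260) (nat_lit 2046741063) (nat_lit 84) (nat_lit 1611311949) (nat_lit 0) (nat_lit 1167485287) (nat_lit 177) (nat_lit 1) (nat_lit 163) (nat_lit 1) (nat_lit 162) (nat_lit 1) (nat_lit 233) (nat_lit 246) (nat_lit 241)) (XT.lf (nat_lit 1260) (nat_lit 1704103184) (nat_lit 84) (nat_lit 341820567) (nat_lit 0) (nat_lit 2668527038) (nat_lit 178) (nat_lit 1) (nat_lit 164)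 (nat_lit 1) (nat_lit 163) (nat_lit 1) (nat_lit 234) (nat_lit 246) (nat_lit 240))))))) (XT.nd (nat_lit 1034) (nat_lit 3948) (nat_lit 0) (XT.nd (nat_lit 470) (nat_lit 2940) (nat_lit 0) (XT.nd (nat_lit 188) (nat_lit 1092) (nat_lit 0) (XT.nd (nat_lit 94) (nat_lit 0) (nat_lit 0) (XT.lf (nat_lit 1260) (nat_lit 497319080) (nat_lit 0) (nat_lit 3283688450) (nat_lit 1176) (nat_lit 825797047) (nat_lit 179) (nat_lit 1) (nat_lit 164) (nat_lit 1) (nat_lit 178) (nat_lit 1) (nat_lit 235) (nat_lit 246) (nat_lit 239)) (XT.lf (nat_lit 1260) (nat_lit 901182664) (nat_lit 84) (nat_lit 2582375538) (nat_lit 0) (nat_lit 1018728005) (nat_lit 179) (nat_lit 1) (nat_lit 165) (nat_lit 1) (nat_lit 164) (nat_lit 1) (nat_lit 236) (nat_lit 246) (nat_lit 238))) (XT.nd (nat_lit 94) (nat_lit 1176) (nat_lit 0) (XT.lf (nat_lit 1260) (nat_lit 450971241) (nat_lit 84) (nat_lit 1455522080) (nat_lit 0) (nat_lit 2494615881) (nat_lit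 180) (nat_lit 1) (nat_lit 166) (nat_lit 1) (nat_lit 165) (nat_lit 1) (nat_lit 237) (nat_lit 246) (nat_lit 237)) (XT.nd (nat_lit 94) (nat_lit 0) (nat_lit 0) (XT.lf (nat_lit 84) (nat_lit 383414764) (nat_lit 0) (nat_lit 19108072) (nat_lit 1260) (nat_lit 3900807858) (nat_lit 152) (nat_lit 1) (nat_lit 151) (nat_lit 1) (nat_lit 166) (nat_lit 1) (nat_lit 238) (nat_lit 246) (nat_lit 236)) (XT.lf (nat_lit 84) (nat_lit 3107663058) (nat_lit 0) (nat_lit 515887245) (nat_lit 1260) (nat_lit 584431702) (nat_lit 152) (nat_lit 1) (nat_lit 151) (nat_lit 1) (nat_lit 166) (nat_lit 1) (nat_lit 239) (nat_lit 246) (nat_lit 235))))) (XT.nd (nat_lit 282) (nat_lit 1092) (nat_lit 0) (XT.nd (nat_lit 94) (nat_lit 1176) (nat_lit 0) (XT.lf (nat_lit 84) (nat_lit 1578756467) (nat_lit 0) (nat_lit 1036354644) (nat_lit 756) (nat_lit 1500405563) (nat_lit 144) (nat_lit 1) (nat_lit 143) (nat_lit 1) (nat_lit 152) (nat_lit 1) (nat_lit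 240) (nat_lit 246) (nat_lit 234)) (XT.nd (nat_lit 94) (nat_lit 588) (nat_lit 0) (XT.lf (nat_lit 84) (nat_lit 103010694) (nat_lit 0) (nat_lit 1569961230) (nat_lit 672) (nat_lit 2353155214) (nat_lit 137) (nat_lit 1) (nat_lit 136) (nat_lit 1) (nat_lit 144) (nat_lit 1) (nat_lit 241) (nat_lit 246) (nat_lit 233)) (XT.lf (nat_lit 672) (nat_lit 1808941539) (nat_lit 0) (nat_lit 778509682) (nat_lit 588) (nat_lit 1351720499) (nat_lit 137) (nat_lit 1) (nat_lit 129) (nat_lit 1) (nat_lit 136) (nat_lit 1) (nat_lit 242) (nat_lit 246) (nat_lit 232)))) (XT.nd (nat_lit 94) (nat_lit 1092) (nat_lit 0) (XT.lf (nat_lit 84) (nat_lit 1098193818) (nat_lit 0) (nat_lit 2701889786) (nat_lit 672) (nat_lit 54940977) (nat_lit 130) (nat_lit 1) (nat_lit 129) (nat_lit 1) (nat_lit 137) (nat_lit 1) (nat_lit 243) (nat_lit 246) (nat_lit 231)) (XT.nd (nat_lit 94) (nat_lit 588) (nat_lit 0) (XT.lf (nat_lit 588) (nat_lit 479627144)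 (nat_lit 0) (nat_lit 2955559904) (nat_lit 504) (nat_lit 338042770) (nat_lit 130) (nat_lit 1) (nat_lit 123) (nat_lit 1) (nat_lit 129) (nat_lit 1) (nat_lit 244) (nat_lit 246) (nat_lit 230)) (XT.lf (nat_lit 84) (nat_lit 1947957653) (nat_lit 0) (nat_lit 205198110) (nat_lit 588) (nat_lit 1540464139) (nat_lit 117) (nat_lit 1) (nat_lit 116) (nat_lit 1) (nat_lit 123) (nat_lit 1) (nat_lit 245) (nat_lit 246) (nat_lit 229)))))) (XT.nd (nat_lit 470) (nat_lit 2016) (nat_lit 0) (XT.nd (nat_lit 188) (nat_lit 924) (nat_lit 0) (XT.nd (nat_lit 94) (nat_lit 504) (nat_lit 0) (XT.lf (nat_lit 84) (nat_lit 518866694) (nat_lit 0) (nat_lit 881206382) (nat_lit 588) (nat_lit 2216354435) (nat_lit 111) (nat_lit 1) (nat_lit 110) (nat_lit 1) (nat_lit 117) (nat_lit 1) (nat_lit 246) (nat_lit 246) (nat_lit 228)) (XT.lf (nat_lit 588) (nat_lit 1973255538) (nat_lit 0) (nat_lit 689206728) (nat_lit 504) (nat_lit 878939401) (nat_lit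 111) (nat_lit 1) (nat_lit 104) (nat_lit 1) (nat_lit 110) (nat_lit 1) (nat_lit 247) (nat_lit 246) (nat_lit 227))) (XT.nd (nat_lit 94) (nat_lit 504) (nat_lit 0) (XT.lf (nat_lit 504) (nat_lit 1207886355) (nat_lit 0) (nat_lit 22761994) (nat_lit 420) (nat_lit 2237958036) (nat_lit 105) (nat_lit 1) (nat_lit 99) (nat_lit 1) (nat_lit 104) (nat_lit 1) (nat_lit 248) (nat_lit 246) (nat_lit 226)) (XT.nd (nat_lit 94) (nat_lit 504) (nat_lit 0) (XT.lf (nat_lit 504) (nat_lit 437367655) (nat_lit 0) (nat_lit 2814293712) (nat_lit 420) (nat_lit 146209562) (nat_lit 105) (nat_lit 1) (nat_lit 99) (nat_lit 1) (nat_lit 104) (nat_lit 1) (nat_lit 249) (nat_lit 246) (nat_lit 225)) (XT.lf (nat_lit 84) (nat_lit 1832086199) (nat_lit 0) (nat_lit 335011646) (nat_lit 504) (nat_lit 1161705784) (nat_lit 94) (nat_lit 1) (nat_lit 93) (nat_lit 1) (nat_lit 99) (nat_lit 1) (nat_lit 250) (nat_lit 246) (nat_lit 224))))) (XT.nd (nat_lit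 282) (nat_lit 840) (nat_lit 0) (XT.nd (nat_lit 94) (nat_lit 756) (nat_lit 0) (XT.lf (nat_lit 84) (nat_lit 468673827) (nat_lit 0) (nat_lit 1091920332) (nat_lit 504) (nat_lit 1701192253) (nat_lit 89) (nat_lit 1) (nat_lit 88) (nat_lit 1) (nat_lit 94) (nat_lit 1) (nat_lit 251) (nat_lit 246) (nat_lit 223)) (XT.nd (nat_lit 94) (nat_lit 336) (nat_lit 0) (XT.lf (nat_lit 504) (nat_lit 1344139584) (nat_lit 0) (nat_lit 987779479) (nat_lit 420) (nat_lit 864653765) (nat_lit 89) (nat_lit 1) (nat_lit 83) (nat_lit 1) (nat_lit 88) (nat_lit 1) (nat_lit 252) (nat_lit 246) (nat_lit 222)) (XT.lf (nat_lit 420) (nat_lit 521977613) (nat_lit 0) (nat_lit 451674043) (nat_lit 336) (nat_lit 2159603865) (nat_lit 84) (nat_lit 1) (nat_lit 79) (nat_lit 1) (nat_lit 83) (nat_lit 1) (nat_lit 253) (nat_lit 246) (nat_lit 221)))) (XT.nd (nat_lit 94) (nat_lit 756) (nat_lit 0) (XT.lf (nat_lit 84) (nat_lit 2732914521) (nat_lit 0)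 (nat_lit 288549495) (nat_lit 420) (nat_lit 50217304) (nat_lit 79) (nat_lit 1) (nat_lit 78) (nat_lit 1) (nat_lit 83) (nat_lit 1) (nat_lit 254) (nat_lit 246) (nat_lit 220)) (XT.nd (nat_lit 94) (nat_lit 336) (nat_lit 0) (XT.lf (nat_lit 84) (nat_lit 1397584977) (nat_lit 0) (nat_lit 1093076655) (nat_lit 504) (nat_lit 520648331) (nat_lit 74) (nat_lit 1) (nat_lit 73) (nat_lit 1) (nat_lit 79) (nat_lit 1) (nat_lit 255) (nat_lit 246) (nat_lit 219)) (XT.lf (nat_lit 84) (nat_lit 111298520) (nat_lit 0) (nat_lit 1886988099) (nat_lit 420) (nat_lit 954557487) (nat_lit 70) (nat_lit 1) (nat_lit 69) (nat_lit 1) (nat_lit 74) (nat_lit 1) (nat_lit 256) (nat_lit 246) (nat_lit 218))))))))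
noncomputable def ec8 : XT := (XT.nd (nat_lit 43616) (nat_lit 0) (nat_lit 336) (XT.nd (nat_lit 42582) (nat_lit 0) (nat_lit 7980) (XT.nd (nat_lit 470) (nat_lit 924) (nat_lit 0) (XT.nd (nat_lit 188) (nat_lit 672) (nat_lit 0) (XT.nd (nat_lit 94) (nat_lit 420) (nat_lit 0) (XT.lf (nat_lit 420) (nat_lit 212790130) (nat_lit 0) (nat_lit 1529298196) (nat_lit 336) (nat_lit 1153678136) (nat_lit 70) (nat_lit 1) (nat_lit 65) (nat_lit 1) (nat_lit 69) (nat_lit 1) (nat_lit 257) (nat_lit 246) (nat_lit 217)) (XT.lf (nat_lit 84) (nat_lit 473205731) (nat_lit 0) (nat_lit 614112868) (nat_lit 420) (nat_lit 1752872393) (nat_lit 61) (nat_lit 1) (nat_lit 60) (nat_lit 1) (nat_lit 65) (nat_lit 1) (nat_lit 258) (nat_lit 246) (nat_lit 216))) (XT.nd (nat_lit 94) (nat_lit 336) (nat_lit 0) (XT.lf (nat_lit 420) (nat_lit 1354228903) (nat_lit 0) (nat_lit 668187852) (nat_lit 336) (nat_lit 763551850) (nat_lit 61) (nat_lit 1) (nat_lit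 56) (nat_lit 1) (nat_lit 60) (nat_lit 1) (nat_lit 259) (nat_lit 246) (nat_lit 215)) (XT.nd (nat_lit 94) (nat_lit 84) (nat_lit 0) (XT.lf (nat_lit 336) (nat_lit 491976182) (nat_lit 0) (nat_lit 276572337) (nat_lit 252) (nat_lit 1964700294) (nat_lit 57) (nat_lit 1) (nat_lit 53) (nat_lit 1) (nat_lit 56) (nat_lit 1) (nat_lit 260) (nat_lit 246) (nat_lit 214)) (XT.lf (nat_lit 84) (nat_lit 2238130893) (nat_lit 0) (nat_lit 353114152) (nat_lit 336) (nat_lit 90568385) (nat_lit 53) (nat_lit 1) (nat_lit 52) (nat_lit 1) (nat_lit 56) (nat_lit 1) (nat_lit 261) (nat_lit 246) (nat_lit 213))))) (XT.nd (nat_lit 41830) (nat_lit 0) (nat_lit 9912) (XT.nd (nat_lit 94) (nat_lit 588) (nat_lit 0) (XT.lf (nat_lit 84) (nat_lit 1012283394) (nat_lit 0) (nat_lit 1183477361) (nat_lit 420) (nat_lit 435618999) (nat_lit 49) (nat_lit 1) (nat_lit 48) (nat_lit 1) (nat_lit 53) (nat_lit 1) (nat_lit 262) (nat_lit 246) (nat_lit 212))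 (XT.nd (nat_lit 94) (nat_lit 336) (nat_lit 0) (XT.lf (nat_lit 336) (nat_lit 582057531) (nat_lit 0) (nat_lit 1828648749) (nat_lit 252) (nat_lit 171728673) (nat_lit 49) (nat_lit 1) (nat_lit 45) (nat_lit 1) (nat_lit 48) (nat_lit 1) (nat_lit 263) (nat_lit 246) (nat_lit 211)) (XT.lf (nat_lit 84) (nat_lit 1203722967) (nat_lit 0) (nat_lit 272167295) (nat_lit 336) (nat_lit 1058607137) (nat_lit 42) (nat_lit 1) (nat_lit 41) (nat_lit 1) (nat_lit 45) (nat_lit 1) (nat_lit 264) (nat_lit 246) (nat_lit 210)))) (XT.nd (nat_lit 94) (nat_lit 0) (nat_lit 0) (XT.lf (nat_lit 1260) (nat_lit 810739690) (nat_lit 0) (nat_lit 1233503413) (nat_lit 1260) (nat_lit 810739690) (nat_lit 174) (nat_lit 1) (nat_lit 159) (nat_lit 0) (nat_lit 174) (nat_lit 0) (nat_lit 226) (nat_lit 247) (nat_lit 247)) (XT.nd (nat_lit 94) (nat_lit 0) (nat_lit 84) (XT.lf (nat_lit 1260) (nat_lit 3138133461) (nat_lit 84) (nat_lit 2394354508) (nat_lit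 0) (nat_lit 40592317) (nat_lit 174) (nat_lit 1) (nat_lit 160) (nat_lit 1) (nat_lit 159) (nat_lit 0) (nat_lit 227) (nat_lit 247) (nat_lit 246)) (XT.lf (nat_lit 1260) (nat_lit 2966792510) (nat_lit 84) (nat_lit 787847154) (nat_lit 0) (nat_lit 1685655548) (nat_lit 175) (nat_lit 1) (nat_lit 161) (nat_lit 1) (nat_lit 160) (nat_lit 1) (nat_lit 228) (nat_lit 247) (nat_lit 245)))))) (XT.nd (nat_lit 470) (nat_lit 2100) (nat_lit 0) (XT.nd (nat_lit 188) (nat_lit 0) (nat_lit 84) (XT.nd (nat_lit 94) (nat_lit 0) (nat_lit 84) (XT.lf (nat_lit 1260) (nat_lit 2042775283) (nat_lit 0) (nat_lit 2568451242) (nat_lit 1176) (nat_lit 700568706) (nat_lit 176) (nat_lit 1) (nat_lit 161) (nat_lit 1) (nat_lit 175) (nat_lit 1) (nat_lit 229) (nat_lit 247) (nat_lit 244)) (XT.lf (nat_lit 1260) (nat_lit 395235804) (nat_lit 0) (nat_lit 2715989526) (nat_lit 1176) (nat_lit 2076190080) (nat_lit 177) (nat_lit 1) (nat_lit 162) (nat_lit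 1) (nat_lit 176) (nat_lit 1) (nat_lit 230) (nat_lit 247) (nat_lit 243))) (XT.nd (nat_lit 94) (nat_lit 0) (nat_lit 84) (XT.lf (nat_lit 1260) (nat_lit 2149078117) (nat_lit 84) (nat_lit 1691877547) (nat_lit 0) (nat_lit 1225859551) (nat_lit 177) (nat_lit 1) (nat_lit 163) (nat_lit 1) (nat_lit 162) (nat_lit 1) (nat_lit 231) (nat_lit 247) (nat_lit 242)) (XT.nd (nat_lit 94) (nat_lit 0) (nat_lit 84) (XT.lf (nat_lit 1260) (nat_lit 1789308343) (nat_lit 84) (nat_lit 358911596) (nat_lit 0) (nat_lit 2801953390) (nat_lit 178) (nat_lit 1) (nat_lit 164) (nat_lit 1) (nat_lit 163) (nat_lit 1) (nat_lit 232) (nat_lit 247) (nat_lit 241)) (XT.lf (nat_lit 1260) (nat_lit 522185034) (nat_lit 0) (nat_lit 3447872873) (nat_lit 1176) (nat_lit 867086899) (nat_lit 179) (nat_lit 1) (nat_lit 164) (nat_lit 1) (nat_lit 178) (nat_lit 1) (nat_lit 233) (nat_lit 247) (nat_lit 240))))) (XT.nd (nat_lit 282) (nat_lit 1260) (nat_lit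 0) (XT.nd (nat_lit 94) (nat_lit 1092) (nat_lit 0) (XT.lf (nat_lit 1260) (nat_lit 946241797) (nat_lit 84) (nat_lit 2711494315) (nat_lit 0) (nat_lit 1069664406) (nat_lit 179) (nat_lit 1) (nat_lit 165) (nat_lit 1) (nat_lit 164) (nat_lit 1) (nat_lit 234) (nat_lit 247) (nat_lit 239)) (XT.nd (nat_lit 94) (nat_lit 1176) (nat_lit 0) (XT.lf (nat_lit 1260) (nat_lit 473519803) (nat_lit 84) (nat_lit 1528298184) (nat_lit 0) (nat_lit 2619346675) (nat_lit 180) (nat_lit 1) (nat_lit 166) (nat_lit 1) (nat_lit 165) (nat_lit 1) (nat_lit 235) (nat_lit 247) (nat_lit 238)) (XT.lf (nat_lit 84) (nat_lit 402585502) (nat_lit 0) (nat_lit 20063476) (nat_lit 1260) (nat_lit 4095848251) (nat_lit 152) (nat_lit 1) (nat_lit 151) (nat_lit 1) (nat_lit 166) (nat_lit 1) (nat_lit 236) (nat_lit 247) (nat_lit 237)))) (XT.nd (nat_lit 94) (nat_lit 1260) (nat_lit 0) (XT.lf (nat_lit 84) (nat_lit 3263046211) (nat_lit 0) (nat_lit 541681607)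 (nat_lit 1260) (nat_lit 613653287) (nat_lit 152) (nat_lit 1) (nat_lit 151) (nat_lit 1) (nat_lit 166) (nat_lit 1) (nat_lit 237) (nat_lit 247) (nat_lit 236)) (XT.nd (nat_lit 94) (nat_lit 588) (nat_lit 0) (XT.lf (nat_lit 84) (nat_lit 1657694291) (nat_lit 0) (nat_lit 1088172376) (nat_lit 756) (nat_lit 1575425841) (nat_lit 144) (nat_lit 1) (nat_lit 143) (nat_lit 1) (nat_lit 152) (nat_lit 1) (nat_lit 238) (nat_lit 247) (nat_lit 235)) (XT.lf (nat_lit 84) (nat_lit 108161229) (nat_lit 0) (nat_lit 1648459291) (nat_lit 672) (nat_lit 2470812975) (nat_lit 137) (nat_lit 1) (nat_lit 136) (nat_lit 1) (nat_lit 144) (nat_lit 1) (nat_lit 239) (nat_lit 247) (nat_lit 234))))))) (XT.nd (nat_lit 1034) (nat_lit 3192) (nat_lit 0) (XT.nd (nat_lit 470) (nat_lit 2268) (nat_lit 0) (XT.nd (nat_lit 188) (nat_lit 1596) (nat_lit 0) (XT.nd (nat_lit 94) (nat_lit 0) (nat_lit 0) (XT.lf (nat_lit 672) (nat_lit 1899388616) (nat_lit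 0) (nat_lit 817435166) (nat_lit 588) (nat_lit 1419306524) (nat_lit 137) (nat_lit 1) (nat_lit 129) (nat_lit 1) (nat_lit 136) (nat_lit 1) (nat_lit 240) (nat_lit 247) (nat_lit 233)) (XT.lf (nat_lit 84) (nat_lit 1153103509) (nat_lit 0) (nat_lit 2836984275) (nat_lit 672) (nat_lit 57688026) (nat_lit 130) (nat_lit 1) (nat_lit 129) (nat_lit 1) (nat_lit 137) (nat_lit 1) (nat_lit 241) (nat_lit 247) (nat_lit 232))) (XT.nd (nat_lit 94) (nat_lit 1092) (nat_lit 0) (XT.lf (nat_lit 588) (nat_lit 503608501) (nat_lit 0) (nat_lit 3103337899) (nat_lit 504) (nat_lit 354944909) (nat_lit 130) (nat_lit 1) (nat_lit 123) (nat_lit 1) (nat_lit 129) (nat_lit 1) (nat_lit 242) (nat_lit 247) (nat_lit 231)) (XT.nd (nat_lit 94) (nat_lit 504) (nat_lit 0) (XT.lf (nat_lit 84) (nat_lit 2045355536) (nat_lit 0) (nat_lit 215458016) (nat_lit 588) (nat_lit 1617487346) (nat_lit 117) (nat_lit 1) (nat_lit 116) (nat_lit 1) (nat_lit 123)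 (nat_lit 1) (nat_lit 243) (nat_lit 247) (nat_lit 230)) (XT.lf (nat_lit 84) (nat_lit 544810029) (nat_lit 0) (nat_lit 925266701) (nat_lit 588) (nat_lit 2327172157) (nat_lit 111) (nat_lit 1) (nat_lit 110) (nat_lit 1) (nat_lit 117) (nat_lit 1) (nat_lit 244) (nat_lit 247) (nat_lit 229))))) (XT.nd (nat_lit 282) (nat_lit 1344) (nat_lit 0) (XT.nd (nat_lit 94) (nat_lit 420) (nat_lit 0) (XT.lf (nat_lit 588) (nat_lit 2071918314) (nat_lit 0) (nat_lit 723667064) (nat_lit 504) (nat_lit 922886371) (nat_lit 111) (nat_lit 1) (nat_lit 104) (nat_lit 1) (nat_lit 110) (nat_lit 1) (nat_lit 245) (nat_lit 247) (nat_lit 228)) (XT.nd (nat_lit 94) (nat_lit 0) (nat_lit 0) (XT.lf (nat_lit 504) (nat_lit 1268280673) (nat_lit 0) (nat_lit 23900094) (nat_lit 420) (nat_lit 2349855938) (nat_lit 105) (nat_lit 1) (nat_lit 99) (nat_lit 1) (nat_lit 104) (nat_lit 1) (nat_lit 246) (nat_lit 247) (nat_lit 227)) (XT.lf (nat_lit 504)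 (nat_lit 459236038) (nat_lit 0) (nat_lit 2955008398) (nat_lit 420) (nat_lit 153520041) (nat_lit 105) (nat_lit 1) (nat_lit 99) (nat_lit 1) (nat_lit 104) (nat_lit 1) (nat_lit 247) (nat_lit 247) (nat_lit 226)))) (XT.nd (nat_lit 94) (nat_lit 840) (nat_lit 0) (XT.lf (nat_lit 84) (nat_lit 1923690509) (nat_lit 0) (nat_lit 351762228) (nat_lit 504) (nat_lit 1219791073) (nat_lit 94) (nat_lit 1) (nat_lit 93) (nat_lit 1) (nat_lit 99) (nat_lit 1) (nat_lit 248) (nat_lit 247) (nat_lit 225)) (XT.nd (nat_lit 94) (nat_lit 420) (nat_lit 0) (XT.lf (nat_lit 84) (nat_lit 492107518) (nat_lit 0) (nat_lit 1146516348) (nat_lit 504) (nat_lit 1786251865) (nat_lit 89) (nat_lit 1) (nat_lit 88) (nat_lit 1) (nat_lit 94) (nat_lit 1) (nat_lit 249) (nat_lit 247) (nat_lit 224)) (XT.lf (nat_lit 504) (nat_lit 1411346563) (nat_lit 0) (nat_lit 1037168453) (nat_lit 420) (nat_lit 907886454) (nat_lit 89) (nat_lit 1) (nat_lit 83) (nat_lit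 1) (nat_lit 88) (nat_lit 1) (nat_lit 250) (nat_lit 247) (nat_lit 223)))))) (XT.nd (nat_lit 470) (nat_lit 1680) (nat_lit 0) (XT.nd (nat_lit 188) (nat_lit 1092) (nat_lit 0) (XT.nd (nat_lit 94) (nat_lit 84) (nat_lit 0) (XT.lf (nat_lit 420) (nat_lit 548076494) (nat_lit 0) (nat_lit 474257745) (nat_lit 336) (nat_lit 2267584058) (nat_lit 84) (nat_lit 1) (nat_lit 79) (nat_lit 1) (nat_lit 83) (nat_lit 1) (nat_lit 251) (nat_lit 247) (nat_lit 222)) (XT.lf (nat_lit 84) (nat_lit 2869560247) (nat_lit 0) (nat_lit 302976970) (nat_lit 420) (nat_lit 52728169) (nat_lit 79) (nat_lit 1) (nat_lit 78) (nat_lit 1) (nat_lit 83) (nat_lit 1) (nat_lit 252) (nat_lit 247) (nat_lit 221))) (XT.nd (nat_lit 94) (nat_lit 672) (nat_lit 0) (XT.lf (nat_lit 84) (nat_lit 1467464226) (nat_lit 0) (nat_lit 1147730488) (nat_lit 504) (nat_lit 546680748) (nat_lit 74) (nat_lit 1) (nat_lit 73) (nat_lit 1) (nat_lit 79) (nat_lit 1) (nat_lit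 253) (nat_lit 247) (nat_lit 220)) (XT.nd (nat_lit 94) (nat_lit 336) (nat_lit 0) (XT.lf (nat_lit 84) (nat_lit 116863446) (nat_lit 0) (nat_lit 1981337504) (nat_lit 420) (nat_lit 1002285361) (nat_lit 70) (nat_lit 1) (nat_lit 69) (nat_lit 1) (nat_lit 74) (nat_lit 1) (nat_lit 254) (nat_lit 247) (nat_lit 219)) (XT.lf (nat_lit 420) (nat_lit 223429637) (nat_lit 0) (nat_lit 1605763106) (nat_lit 336) (nat_lit 1211362042) (nat_lit 70) (nat_lit 1) (nat_lit 65) (nat_lit 1) (nat_lit 69) (nat_lit 1) (nat_lit 255) (nat_lit 247) (nat_lit 218))))) (XT.nd (nat_lit 282) (nat_lit 672) (nat_lit 0) (XT.nd (nat_lit 94) (nat_lit 588) (nat_lit 0) (XT.lf (nat_lit 84) (nat_lit 496866017) (nat_lit 0) (nat_lit 644818511) (nat_lit 420) (nat_lit 1840516013) (nat_lit 61) (nat_lit 1) (nat_lit 60) (nat_lit 1) (nat_lit 65) (nat_lit 1) (nat_lit 256) (nat_lit 247) (nat_lit 217)) (XT.nd (nat_lit 94) (nat_lit 252) (nat_lit 0) (XT.lf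 (nat_lit 420) (nat_lit 1421940349) (nat_lit 0) (nat_lit 701597245) (nat_lit 336) (nat_lit 801729443) (nat_lit 61) (nat_lit 1) (nat_lit 56) (nat_lit 1) (nat_lit 60) (nat_lit 1) (nat_lit 257) (nat_lit 247) (nat_lit 216)) (XT.lf (nat_lit 336) (nat_lit 516574991) (nat_lit 0) (nat_lit 290400954) (nat_lit 252) (nat_lit 2062935309) (nat_lit 57) (nat_lit 1) (nat_lit 53) (nat_lit 1) (nat_lit 56) (nat_lit 1) (nat_lit 258) (nat_lit 247) (nat_lit 215)))) (XT.nd (nat_lit 94) (nat_lit 588) (nat_lit 0) (XT.lf (nat_lit 84) (nat_lit 2350037438) (nat_lit 0) (nat_lit 370769859) (nat_lit 336) (nat_lit 95096805) (nat_lit 53) (nat_lit 1) (nat_lit 52) (nat_lit 1) (nat_lit 56) (nat_lit 1) (nat_lit 259) (nat_lit 247) (nat_lit 214)) (XT.nd (nat_lit 94) (nat_lit 252) (nat_lit 0) (XT.lf (nat_lit 84) (nat_lit 1062897564) (nat_lit 0) (nat_lit 1242651229) (nat_lit 420) (nat_lit 457399949) (nat_lit 49) (nat_lit 1) (nat_lit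 48) (nat_lit 1) (nat_lit 53) (nat_lit 1) (nat_lit 260) (nat_lit 247) (nat_lit 213)) (XT.lf (nat_lit 336) (nat_lit 611160407) (nat_lit 0) (nat_lit 1920081187) (nat_lit 252) (nat_lit 180315106) (nat_lit 49) (nat_lit 1) (nat_lit 45) (nat_lit 1) (nat_lit 48) (nat_lit 1) (nat_lit 261) (nat_lit 247) (nat_lit 212))))))))
noncomputable def ec9 : XT := (XT.nd (nat_lit 43428) (nat_lit 588) (nat_lit 0) (XT.nd (nat_lit 42394) (nat_lit 0) (nat_lit 6300) (XT.nd (nat_lit 41830) (nat_lit 0) (nat_lit 10500) (XT.nd (nat_lit 188) (nat_lit 252) (nat_lit 0) (XT.nd (nat_lit 94) (nat_lit 252) (nat_lit 0) (XT.lf (nat_lit 84) (nat_lit 1263909115) (nat_lit 0) (nat_lit 285775660) (nat_lit 336) (nat_lit 1111537494) (nat_lit 42) (nat_lit 1) (nat_lit 41) (nat_lit 1) (nat_lit 45) (nat_lit 1) (nat_lit 262) (nat_lit 247) (nat_lit 211)) (XT.lf (nat_lit 84) (nat_lit 50652352) (nat_lit 0) (nat_lit 1151386363) (nat_lit 336) (nat_lit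 1410158587) (nat_lit 39) (nat_lit 1) (nat_lit 38) (nat_lit 1) (nat_lit 42) (nat_lit 1) (nat_lit 263) (nat_lit 247) (nat_lit 210))) (XT.nd (nat_lit 41454) (nat_lit 0) (nat_lit 10416) (XT.lf (nat_lit 336) (nat_lit 551718247) (nat_lit 0) (nat_lit 869672539) (nat_lit 252) (nat_lit 1142830670) (nat_lit 39) (nat_lit 1) (nat_lit 35) (nat_lit 1) (nat_lit 38) (nat_lit 1) (nat_lit 264) (nat_lit 247) (nat_lit 209)) (XT.nd (nat_lit 94) (nat_lit 0) (nat_lit 0) (XT.lf (nat_lit 1260) (nat_lit 851276674) (nat_lit 0) (nat_lit 1295178584) (nat_lit 1260) (nat_lit 851276674) (nat_lit 174) (nat_lit 1) (nat_lit 159) (nat_lit 0) (nat_lit 174) (nat_lit 0) (nat_lit 224) (nat_lit 248) (nat_lit 248)) (XT.lf (nat_lit 1260) (nat_lit 3295040134) (nat_lit 84) (nat_lit 2514072233) (nat_lit 0) (nat_lit 42621933) (nat_lit 174) (nat_lit 1) (nat_lit 160) (nat_lit 1) (nat_lit 159) (nat_lit 0) (nat_lit 225) (nat_lit 248) (nat_lit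 247))))) (XT.nd (nat_lit 282) (nat_lit 0) (nat_lit 168) (XT.nd (nat_lit 94) (nat_lit 0) (nat_lit 84) (XT.lf (nat_lit 1260) (nat_lit 3115132135) (nat_lit 84) (nat_lit 827239511) (nat_lit 0) (nat_lit 1769938325) (nat_lit 175) (nat_lit 1) (nat_lit 161) (nat_lit 1) (nat_lit 160) (nat_lit 1) (nat_lit 226) (nat_lit 248) (nat_lit 246)) (XT.nd (nat_lit 94) (nat_lit 0) (nat_lit 84) (XT.lf (nat_lit 1260) (nat_lit 2144914048) (nat_lit 0) (nat_lit 2696873805) (nat_lit 1176) (nat_lit 735597141) (nat_lit 176) (nat_lit 1) (nat_lit 161) (nat_lit 1) (nat_lit 175) (nat_lit 1) (nat_lit 227) (nat_lit 248) (nat_lit 245)) (XT.lf (nat_lit 1260) (nat_lit 414997594) (nat_lit 0) (nat_lit 2851789002) (nat_lit 1176) (nat_lit 2179999584) (nat_lit 177) (nat_lit 1) (nat_lit 162) (nat_lit 1) (nat_lit 176) (nat_lit 1) (nat_lit 228) (nat_lit 248) (nat_lit 244)))) (XT.nd (nat_lit 94) (nat_lit 0) (nat_lit 84) (XT.lf (nat_lit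 1260) (nat_lit 2256532022) (nat_lit 84) (nat_lit 1776471424) (nat_lit 0) (nat_lit 1287152529) (nat_lit 177) (nat_lit 1) (nat_lit 163) (nat_lit 1) (nat_lit 162) (nat_lit 1) (nat_lit 229) (nat_lit 248) (nat_lit 243)) (XT.nd (nat_lit 94) (nat_lit 0) (nat_lit 84) (XT.lf (nat_lit 1260) (nat_lit 1878773760) (nat_lit 84) (nat_lit 376857176) (nat_lit 0) (nat_lit 2942051060) (nat_lit 178) (nat_lit 1) (nat_lit 164) (nat_lit 1) (nat_lit 163) (nat_lit 1) (nat_lit 230) (nat_lit 248) (nat_lit 242)) (XT.lf (nat_lit 1260) (nat_lit 548294286) (nat_lit 0) (nat_lit 3620266516) (nat_lit 1176) (nat_lit 910441244) (nat_lit 179) (nat_lit 1) (nat_lit 164) (nat_lit 1) (nat_lit 178) (nat_lit 1) (nat_lit 231) (nat_lit 248) (nat_lit 241)))))) (XT.nd (nat_lit 470) (nat_lit 2772) (nat_lit 0) (XT.nd (nat_lit 188) (nat_lit 1764) (nat_lit 0) (XT.nd (nat_lit 94) (nat_lit 0) (nat_lit 84) (XT.lf (nat_lit 1260) (nat_lit 993553887)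 (nat_lit 84) (nat_lit 2847069031) (nat_lit 0) (nat_lit 1123147626) (nat_lit 179) (nat_lit 1) (nat_lit 165) (nat_lit 1) (nat_lit 164) (nat_lit 1) (nat_lit 232) (nat_lit 248) (nat_lit 240)) (XT.lf (nat_lit 1260) (nat_lit 497195793) (nat_lit 84) (nat_lit 1604713094) (nat_lit 0) (nat_lit 2750314009) (nat_lit 180) (nat_lit 1) (nat_lit 166) (nat_lit 1) (nat_lit 165) (nat_lit 1) (nat_lit 233) (nat_lit 248) (nat_lit 239))) (XT.nd (nat_lit 94) (nat_lit 672) (nat_lit 0) (XT.lf (nat_lit 84) (nat_lit 422714778) (nat_lit 0) (nat_lit 21066649) (nat_lit 1260) (nat_lit 4300640663) (nat_lit 152) (nat_lit 1) (nat_lit 151) (nat_lit 1) (nat_lit 166) (nat_lit 1) (nat_lit 234) (nat_lit 248) (nat_lit 238)) (XT.nd (nat_lit 94) (nat_lit 672) (nat_lit 0) (XT.lf (nat_lit 84) (nat_lit 3426198521) (nat_lit 0) (nat_lit 568765687) (nat_lit 1260) (nat_lit 644335951) (nat_lit 152) (nat_lit 1) (nat_lit 151) (nat_lit 1) (nat_lit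 166) (nat_lit 1) (nat_lit 235) (nat_lit 248) (nat_lit 237)) (XT.lf (nat_lit 84) (nat_lit 1740579005) (nat_lit 0) (nat_lit 1142580995) (nat_lit 756) (nat_lit 1654197134) (nat_lit 144) (nat_lit 1) (nat_lit 143) (nat_lit 1) (nat_lit 152) (nat_lit 1) (nat_lit 236) (nat_lit 248) (nat_lit 236))))) (XT.nd (nat_lit 282) (nat_lit 1596) (nat_lit 0) (XT.nd (nat_lit 94) (nat_lit 588) (nat_lit 0) (XT.lf (nat_lit 84) (nat_lit 113569290) (nat_lit 0) (nat_lit 1730882256) (nat_lit 672) (nat_lit 2594353624) (nat_lit 137) (nat_lit 1) (nat_lit 136) (nat_lit 1) (nat_lit 144) (nat_lit 1) (nat_lit 237) (nat_lit 248) (nat_lit 235)) (XT.nd (nat_lit 94) (nat_lit 0) (nat_lit 0) (XT.lf (nat_lit 672) (nat_lit 1994358047) (nat_lit 0) (nat_lit 858306924) (nat_lit 588) (nat_lit 1490271850) (nat_lit 137) (nat_lit 1) (nat_lit 129) (nat_lit 1) (nat_lit 136) (nat_lit 1) (nat_lit 238) (nat_lit 248) (nat_lit 234)) (XT.lf (nat_lit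 84) (nat_lit 1210758684) (nat_lit 0) (nat_lit 2978833489) (nat_lit 672) (nat_lit 60572428) (nat_lit 130) (nat_lit 1) (nat_lit 129) (nat_lit 1) (nat_lit 137) (nat_lit 1) (nat_lit 239) (nat_lit 248) (nat_lit 233)))) (XT.nd (nat_lit 94) (nat_lit 1092) (nat_lit 0) (XT.lf (nat_lit 588) (nat_lit 528788926) (nat_lit 0) (nat_lit 3258504794) (nat_lit 504) (nat_lit 372692154) (nat_lit 130) (nat_lit 1) (nat_lit 123) (nat_lit 1) (nat_lit 129) (nat_lit 1) (nat_lit 240) (nat_lit 248) (nat_lit 232)) (XT.nd (nat_lit 94) (nat_lit 504) (nat_lit 0) (XT.lf (nat_lit 84) (nat_lit 2147623313) (nat_lit 0) (nat_lit 226230917) (nat_lit 588) (nat_lit 1698361713) (nat_lit 117) (nat_lit 1) (nat_lit 116) (nat_lit 1) (nat_lit 123) (nat_lit 1) (nat_lit 241) (nat_lit 248) (nat_lit 231)) (XT.lf (nat_lit 84) (nat_lit 572050530) (nat_lit 0) (nat_lit 971530036) (nat_lit 588) (nat_lit 2443530765) (nat_lit 111) (nat_lit 1) (nat_lit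 110) (nat_lit 1) (nat_lit 117) (nat_lit 1) (nat_lit 242) (nat_lit 248) (nat_lit 230))))))) (XT.nd (nat_lit 1034) (nat_lit 3108) (nat_lit 0) (XT.nd (nat_lit 470) (nat_lit 1932) (nat_lit 0) (XT.nd (nat_lit 188) (nat_lit 924) (nat_lit 0) (XT.nd (nat_lit 94) (nat_lit 420) (nat_lit 0) (XT.lf (nat_lit 588) (nat_lit 2175514230) (nat_lit 0) (nat_lit 759850418) (nat_lit 504) (nat_lit 969030689) (nat_lit 111) (nat_lit 1) (nat_lit 104) (nat_lit 1) (nat_lit 110) (nat_lit 1) (nat_lit 243) (nat_lit 248) (nat_lit 229)) (XT.lf (nat_lit 504) (nat_lit 1331694707) (nat_lit 0) (nat_lit 25095099) (nat_lit 420) (nat_lit 2467348734) (nat_lit 105) (nat_lit 1) (nat_lit 99) (nat_lit 1) (nat_lit 104) (nat_lit 1) (nat_lit 244) (nat_lit 248) (nat_lit 228))) (XT.nd (nat_lit 94) (nat_lit 924) (nat_lit 0) (XT.lf (nat_lit 504) (nat_lit 482197840) (nat_lit 0) (nat_lit 3102758818) (nat_lit 420) (nat_lit 161196043) (nat_lit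 105) (nat_lit 1) (nat_lit 99) (nat_lit 1) (nat_lit 104) (nat_lit 1) (nat_lit 245) (nat_lit 248) (nat_lit 227)) (XT.nd (nat_lit 94) (nat_lit 420) (nat_lit 0) (XT.lf (nat_lit 84) (nat_lit 2019875034) (nat_lit 0) (nat_lit 369350340) (nat_lit 504) (nat_lit 1280780626) (nat_lit 94) (nat_lit 1) (nat_lit 93) (nat_lit 1) (nat_lit 99) (nat_lit 1) (nat_lit 246) (nat_lit 248) (nat_lit 226)) (XT.lf (nat_lit 84) (nat_lit 516712894) (nat_lit 0) (nat_lit 1203842166) (nat_lit 504) (nat_lit 1875564458) (nat_lit 89) (nat_lit 1) (nat_lit 88) (nat_lit 1) (nat_lit 94) (nat_lit 1) (nat_lit 247) (nat_lit 248) (nat_lit 225))))) (XT.nd (nat_lit 282) (nat_lit 1092) (nat_lit 0) (XT.nd (nat_lit 94) (nat_lit 420) (nat_lit 0) (XT.lf (nat_lit 504) (nat_lit 1481913891) (nat_lit 0) (nat_lit 1089026876) (nat_lit 420) (nat_lit 953280776) (nat_lit 89) (nat_lit 1) (nat_lit 83) (nat_lit 1) (nat_lit 88) (nat_lit 1) (nat_lit 248)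 (nat_lit 248) (nat_lit 224)) (XT.nd (nat_lit 94) (nat_lit 84) (nat_lit 0) (XT.lf (nat_lit 420) (nat_lit 575480318) (nat_lit 0) (nat_lit 497970632) (nat_lit 336) (nat_lit 2380963261) (nat_lit 84) (nat_lit 1) (nat_lit 79) (nat_lit 1) (nat_lit 83) (nat_lit 1) (nat_lit 249) (nat_lit 248) (nat_lit 223)) (XT.lf (nat_lit 84) (nat_lit 3013038260) (nat_lit 0) (nat_lit 318125819) (nat_lit 420) (nat_lit 55364577) (nat_lit 79) (nat_lit 1) (nat_lit 78) (nat_lit 1) (nat_lit 83) (nat_lit 1) (nat_lit 250) (nat_lit 248) (nat_lit 222)))) (XT.nd (nat_lit 94) (nat_lit 672) (nat_lit 0) (XT.lf (nat_lit 84) (nat_lit 1540837438) (nat_lit 0) (nat_lit 1205117012) (nat_lit 504) (nat_lit 574014785) (nat_lit 74) (nat_lit 1) (nat_lit 73) (nat_lit 1) (nat_lit 79) (nat_lit 1) (nat_lit 251) (nat_lit 248) (nat_lit 221)) (XT.nd (nat_lit 94) (nat_lit 336) (nat_lit 0) (XT.lf (nat_lit 84) (nat_lit 122706618) (nat_lit 0) (nat_lit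 2080404379) (nat_lit 420) (nat_lit 1052399629) (nat_lit 70) (nat_lit 1) (nat_lit 69) (nat_lit 1) (nat_lit 74) (nat_lit 1) (nat_lit 252) (nat_lit 248) (nat_lit 220)) (XT.lf (nat_lit 420) (nat_lit 234601119) (nat_lit 0) (nat_lit 1686051261) (nat_lit 336) (nat_lit 1271930144) (nat_lit 70) (nat_lit 1) (nat_lit 65) (nat_lit 1) (nat_lit 69) (nat_lit 1) (nat_lit 253) (nat_lit 248) (nat_lit 219)))))) (XT.nd (nat_lit 470) (nat_lit 1680) (nat_lit 0) (XT.nd (nat_lit 188) (nat_lit 672) (nat_lit 0) (XT.nd (nat_lit 94) (nat_lit 336) (nat_lit 0) (XT.lf (nat_lit 84) (nat_lit 521709318) (nat_lit 0) (nat_lit 677059437) (nat_lit 420) (nat_lit 1932541813) (nat_lit 61) (nat_lit 1) (nat_lit 60) (nat_lit 1) (nat_lit 65) (nat_lit 1) (nat_lit 254) (nat_lit 248) (nat_lit 218)) (XT.lf (nat_lit 420) (nat_lit 1493037366) (nat_lit 0) (nat_lit 736677107) (nat_lit 336) (nat_lit 841815915) (nat_lit 61) (nat_lit 1) (nat_lit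 56) (nat_lit 1) (nat_lit 60) (nat_lit 1) (nat_lit 255) (nat_lit 248) (nat_lit 217))) (XT.nd (nat_lit 94) (nat_lit 420) (nat_lit 0) (XT.lf (nat_lit 336) (nat_lit 542403741) (nat_lit 0) (nat_lit 304921002) (nat_lit 252) (nat_lit 2166082074) (nat_lit 57) (nat_lit 1) (nat_lit 53) (nat_lit 1) (nat_lit 56) (nat_lit 1) (nat_lit 256) (nat_lit 248) (nat_lit 216)) (XT.nd (nat_lit 94) (nat_lit 336) (nat_lit 0) (XT.lf (nat_lit 84) (nat_lit 2467539310) (nat_lit 0) (nat_lit 389308352) (nat_lit 336) (nat_lit 99851645) (nat_lit 53) (nat_lit 1) (nat_lit 52) (nat_lit 1) (nat_lit 56) (nat_lit 1) (nat_lit 257) (nat_lit 248) (nat_lit 215)) (XT.lf (nat_lit 84) (nat_lit 1116042442) (nat_lit 0) (nat_lit 1304783790) (nat_lit 420) (nat_lit 480269947) (nat_lit 49) (nat_lit 1) (nat_lit 48) (nat_lit 1) (nat_lit 53) (nat_lit 1) (nat_lit 258) (nat_lit 248) (nat_lit 214))))) (XT.nd (nat_lit 282) (nat_lit 840) (nat_lit 0)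 (XT.nd (nat_lit 94) (nat_lit 588) (nat_lit 0) (XT.lf (nat_lit 336) (nat_lit 641718428) (nat_lit 0) (nat_lit 2016085246) (nat_lit 252) (nat_lit 189330862) (nat_lit 49) (nat_lit 1) (nat_lit 45) (nat_lit 1) (nat_lit 48) (nat_lit 1) (nat_lit 259) (nat_lit 248) (nat_lit 213)) (XT.nd (nat_lit 94) (nat_lit 252) (nat_lit 0) (XT.lf (nat_lit 84) (nat_lit 1327104571) (nat_lit 0) (nat_lit 300064443) (nat_lit 336) (nat_lit 1167114369) (nat_lit 42) (nat_lit 1) (nat_lit 41) (nat_lit 1) (nat_lit 45) (nat_lit 1) (nat_lit 260) (nat_lit 248) (nat_lit 212)) (XT.lf (nat_lit 84) (nat_lit 53184969) (nat_lit 0) (nat_lit 1208955682) (nat_lit 336) (nat_lit 1480666516) (nat_lit 39) (nat_lit 1) (nat_lit 38) (nat_lit 1) (nat_lit 42) (nat_lit 1) (nat_lit 261) (nat_lit 248) (nat_lit 211)))) (XT.nd (nat_lit 94) (nat_lit 588) (nat_lit 0) (XT.lf (nat_lit 336) (nat_lit 579304160) (nat_lit 0) (nat_lit 913156166) (nat_lit 252)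 (nat_lit 1199972204) (nat_lit 39) (nat_lit 1) (nat_lit 35) (nat_lit 1) (nat_lit 38) (nat_lit 1) (nat_lit 262) (nat_lit 248) (nat_lit 210)) (XT.nd (nat_lit 94) (nat_lit 252) (nat_lit 0) (XT.lf (nat_lit 84) (nat_lit 240613834) (nat_lit 0) (nat_lit 347905095) (nat_lit 336) (nat_lit 2054913346) (nat_lit 32) (nat_lit 1) (nat_lit 31) (nat_lit 1) (nat_lit 35) (nat_lit 1) (nat_lit 263) (nat_lit 248) (nat_lit 209)) (XT.lf (nat_lit 336) (nat_lit 1341534939) (nat_lit 0) (nat_lit 273893582) (nat_lit 252) (nat_lit 979885239) (nat_lit 32) (nat_lit 1) (nat_lit 28) (nat_lit 1) (nat_lit 31) (nat_lit 1) (nat_lit 264) (nat_lit 248) (nat_lit 208))))))))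
noncomputable def ec10 : XT := (XT.nd (nat_lit 2068) (nat_lit 5964) (nat_lit 0) (XT.nd (nat_lit 1034) (nat_lit 4368) (nat_lit 0) (XT.nd (nat_lit 470) (nat_lit 672) (nat_lit 0) (XT.nd (nat_lit 188) (nat_lit 0) (nat_lit 84) (XT.nd (nat_lit 94) (nat_lit 0) (nat_lit 0) (XT.lf (nat_lit 1260) (nat_lit 893840508) (nat_lit 0) (nat_lit 1359937513) (nat_lit 1260) (nat_lit 893840508) (nat_lit 174) (nat_lit 1) (nat_lit 159) (nat_lit 0) (nat_lit 174) (nat_lit 0) (nat_lit 222) (nat_lit 249) (nat_lit 249)) (XT.lf (nat_lit 1260) (nat_lit 3459792141) (nat_lit 84) (nat_lit 2639775845) (nat_lit 0) (nat_lit 44753030) (nat_lit 174) (nat_lit 1) (nat_lit 160) (nat_lit 1) (nat_lit 159) (nat_lit 0) (nat_lit 223) (nat_lit 249) (nat_lit 248))) (XT.nd (nat_lit 94) (nat_lit 0) (nat_lit 84) (XT.lf (nat_lit 1260) (nat_lit 3270888742) (nat_lit 84) (nat_lit 868601487) (nat_lit 0) (nat_lit 1858435241) (nat_lit 175) (nat_lit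 1) (nat_lit 161) (nat_lit 1) (nat_lit 160) (nat_lit 1) (nat_lit 224) (nat_lit 249) (nat_lit 247)) (XT.nd (nat_lit 94) (nat_lit 0) (nat_lit 84) (XT.lf (nat_lit 1260) (nat_lit 2252159750) (nat_lit 0) (nat_lit 2831717495) (nat_lit 1176) (nat_lit 772376998) (nat_lit 176) (nat_lit 1) (nat_lit 161) (nat_lit 1) (nat_lit 175) (nat_lit 1) (nat_lit 225) (nat_lit 249) (nat_lit 246)) (XT.lf (nat_lit 1260) (nat_lit 435747474) (nat_lit 0) (nat_lit 2994378453) (nat_lit 1176) (nat_lit 2288999563) (nat_lit 177) (nat_lit 1) (nat_lit 162) (nat_lit 1) (nat_lit 176) (nat_lit 1) (nat_lit 226) (nat_lit 249) (nat_lit 245))))) (XT.nd (nat_lit 282) (nat_lit 924) (nat_lit 0) (XT.nd (nat_lit 94) (nat_lit 0) (nat_lit 84) (XT.lf (nat_lit 1260) (nat_lit 2369358624) (nat_lit 84) (nat_lit 1865294996) (nat_lit 0) (nat_lit 1351510155) (nat_lit 177) (nat_lit 1) (nat_lit 163) (nat_lit 1) (nat_lit 162) (nat_lit 1) (nat_lit 227)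 (nat_lit 249) (nat_lit 244)) (XT.nd (nat_lit 94) (nat_lit 0) (nat_lit 84) (XT.lf (nat_lit 1260) (nat_lit 1972712449) (nat_lit 84) (nat_lit 395700034) (nat_lit 0) (nat_lit 3089153613) (nat_lit 178) (nat_lit 1) (nat_lit 164) (nat_lit 1) (nat_lit 163) (nat_lit 1) (nat_lit 228) (nat_lit 249) (nat_lit 243)) (XT.lf (nat_lit 1260) (nat_lit 575709000) (nat_lit 0) (nat_lit 3801279842) (nat_lit 1176) (nat_lit 955963306) (nat_lit 179) (nat_lit 1) (nat_lit 164) (nat_lit 1) (nat_lit 178) (nat_lit 1) (nat_lit 229) (nat_lit 249) (nat_lit 242)))) (XT.nd (nat_lit 94) (nat_lit 1092) (nat_lit 0) (XT.lf (nat_lit 1260) (nat_lit 1043231582) (nat_lit 84) (nat_lit 2989422483) (nat_lit 0) (nat_lit 1179305007) (nat_lit 179) (nat_lit 1) (nat_lit 165) (nat_lit 1) (nat_lit 164) (nat_lit 1) (nat_lit 230) (nat_lit 249) (nat_lit 241)) (XT.nd (nat_lit 94) (nat_lit 1176) (nat_lit 0) (XT.lf (nat_lit 1260) (nat_lit 522055582)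 (nat_lit 84) (nat_lit 1684948748) (nat_lit 0) (nat_lit 2887829710) (nat_lit 180) (nat_lit 1) (nat_lit 166) (nat_lit 1) (nat_lit 165) (nat_lit 1) (nat_lit 231) (nat_lit 249) (nat_lit 240)) (XT.lf (nat_lit 84) (nat_lit 443850516) (nat_lit 0) (nat_lit 22119982) (nat_lit 1260) (nat_lit 4515672697) (nat_lit 152) (nat_lit 1) (nat_lit 151) (nat_lit 1) (nat_lit 166) (nat_lit 1) (nat_lit 232) (nat_lit 249) (nat_lit 239)))))) (XT.nd (nat_lit 470) (nat_lit 2520) (nat_lit 0) (XT.nd (nat_lit 188) (nat_lit 1176) (nat_lit 0) (XT.nd (nat_lit 94) (nat_lit 672) (nat_lit 0) (XT.lf (nat_lit 84) (nat_lit 3597508447) (nat_lit 0) (nat_lit 597203972) (nat_lit 1260) (nat_lit 676552749) (nat_lit 152) (nat_lit 1) (nat_lit 151) (nat_lit 1) (nat_lit 166) (nat_lit 1) (nat_lit 233) (nat_lit 249) (nat_lit 238)) (XT.lf (nat_lit 84) (nat_lit 1827607956) (nat_lit 0) (nat_lit 1199710045) (nat_lit 756) (nat_lit 1736906990) (nat_lit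 144) (nat_lit 1) (nat_lit 143) (nat_lit 1) (nat_lit 152) (nat_lit 1) (nat_lit 234) (nat_lit 249) (nat_lit 237))) (XT.nd (nat_lit 94) (nat_lit 588) (nat_lit 0) (XT.lf (nat_lit 84) (nat_lit 119247755) (nat_lit 0) (nat_lit 1817426369) (nat_lit 672) (nat_lit 2724071305) (nat_lit 137) (nat_lit 1) (nat_lit 136) (nat_lit 1) (nat_lit 144) (nat_lit 1) (nat_lit 235) (nat_lit 249) (nat_lit 236)) (XT.nd (nat_lit 94) (nat_lit 0) (nat_lit 0) (XT.lf (nat_lit 672) (nat_lit 2094075950) (nat_lit 0) (nat_lit 901222270) (nat_lit 588) (nat_lit 1564785443) (nat_lit 137) (nat_lit 1) (nat_lit 129) (nat_lit 1) (nat_lit 136) (nat_lit 1) (nat_lit 236) (nat_lit 249) (nat_lit 235)) (XT.lf (nat_lit 84) (nat_lit 1271296619) (nat_lit 0) (nat_lit 3127775163) (nat_lit 672) (nat_lit 63601049) (nat_lit 130) (nat_lit 1) (nat_lit 129) (nat_lit 1) (nat_lit 137) (nat_lit 1) (nat_lit 237) (nat_lit 249) (nat_lit 234))))) (XT.nd (nat_lit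 282) (nat_lit 924) (nat_lit 0) (XT.nd (nat_lit 94) (nat_lit 1092) (nat_lit 0) (XT.lf (nat_lit 588) (nat_lit 555228373) (nat_lit 0) (nat_lit 3421430034) (nat_lit 504) (nat_lit 391326762) (nat_lit 130) (nat_lit 1) (nat_lit 123) (nat_lit 1) (nat_lit 129) (nat_lit 1) (nat_lit 238) (nat_lit 249) (nat_lit 233)) (XT.nd (nat_lit 94) (nat_lit 504) (nat_lit 0) (XT.lf (nat_lit 84) (nat_lit 2255004478) (nat_lit 0) (nat_lit 237542462) (nat_lit 588) (nat_lit 1783279799) (nat_lit 117) (nat_lit 1) (nat_lit 116) (nat_lit 1) (nat_lit 123) (nat_lit 1) (nat_lit 239) (nat_lit 249) (nat_lit 232)) (XT.lf (nat_lit 84) (nat_lit 600653057) (nat_lit 0) (nat_lit 1020106538) (nat_lit 588) (nat_lit 2565707303) (nat_lit 111) (nat_lit 1) (nat_lit 110) (nat_lit 1) (nat_lit 117) (nat_lit 1) (nat_lit 240) (nat_lit 249) (nat_lit 231)))) (XT.nd (nat_lit 94) (nat_lit 420) (nat_lit 0) (XT.lf (nat_lit 588) (nat_lit 2284289942) (nat_lit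 0) (nat_lit 797842938) (nat_lit 504) (nat_lit 1017482224) (nat_lit 111) (nat_lit 1) (nat_lit 104) (nat_lit 1) (nat_lit 110) (nat_lit 1) (nat_lit 241) (nat_lit 249) (nat_lit 230)) (XT.nd (nat_lit 94) (nat_lit 0) (nat_lit 0) (XT.lf (nat_lit 504) (nat_lit 1398279442) (nat_lit 0) (nat_lit 26349854) (nat_lit 420) (nat_lit 2590716171) (nat_lit 105) (nat_lit 1) (nat_lit 99) (nat_lit 1) (nat_lit 104) (nat_lit 1) (nat_lit 242) (nat_lit 249) (nat_lit 229)) (XT.lf (nat_lit 504) (nat_lit 506307732) (nat_lit 0) (nat_lit 3257896759) (nat_lit 420) (nat_lit 169255845) (nat_lit 105) (nat_lit 1) (nat_lit 99) (nat_lit 1) (nat_lit 104) (nat_lit 1) (nat_lit 243) (nat_lit 249) (nat_lit 228))))))) (XT.nd (nat_lit 1034) (nat_lit 2100) (nat_lit 0) (XT.nd (nat_lit 470) (nat_lit 2100) (nat_lit 0) (XT.nd (nat_lit 188) (nat_lit 840) (nat_lit 0) (XT.nd (nat_lit 94) (nat_lit 420) (nat_lit 0) (XT.lf (nat_lit 84) (nat_lit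 2120868786) (nat_lit 0) (nat_lit 387817857) (nat_lit 504) (nat_lit 1344819658) (nat_lit 94) (nat_lit 1) (nat_lit 93) (nat_lit 1) (nat_lit 99) (nat_lit 1) (nat_lit 244) (nat_lit 249) (nat_lit 227)) (XT.lf (nat_lit 84) (nat_lit 542548539) (nat_lit 0) (nat_lit 1264034274) (nat_lit 504) (nat_lit 1969342681) (nat_lit 89) (nat_lit 1) (nat_lit 88) (nat_lit 1) (nat_lit 94) (nat_lit 1) (nat_lit 245) (nat_lit 249) (nat_lit 226))) (XT.nd (nat_lit 94) (nat_lit 420) (nat_lit 0) (XT.lf (nat_lit 504) (nat_lit 1556009585) (nat_lit 0) (nat_lit 1143478220) (nat_lit 420) (nat_lit 1000944815) (nat_lit 89) (nat_lit 1) (nat_lit 83) (nat_lit 1) (nat_lit 88) (nat_lit 1) (nat_lit 246) (nat_lit 249) (nat_lit 225)) (XT.nd (nat_lit 94) (nat_lit 84) (nat_lit 0) (XT.lf (nat_lit 420) (nat_lit 604254334) (nat_lit 0) (nat_lit 522869164) (nat_lit 336) (nat_lit 2500011424) (nat_lit 84) (nat_lit 1) (nat_lit 79) (nat_lit 1) (nat_lit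 83) (nat_lit 1) (nat_lit 247) (nat_lit 249) (nat_lit 224)) (XT.lf (nat_lit 84) (nat_lit 3163690173) (nat_lit 0) (nat_lit 334032109) (nat_lit 420) (nat_lit 58132806) (nat_lit 79) (nat_lit 1) (nat_lit 78) (nat_lit 1) (nat_lit 83) (nat_lit 1) (nat_lit 248) (nat_lit 249) (nat_lit 223))))) (XT.nd (nat_lit 282) (nat_lit 1008) (nat_lit 0) (XT.nd (nat_lit 94) (nat_lit 672) (nat_lit 0) (XT.lf (nat_lit 84) (nat_lit 1617879310) (nat_lit 0) (nat_lit 1265372863) (nat_lit 504) (nat_lit 602715525) (nat_lit 74) (nat_lit 1) (nat_lit 73) (nat_lit 1) (nat_lit 79) (nat_lit 1) (nat_lit 249) (nat_lit 249) (nat_lit 222)) (XT.nd (nat_lit 94) (nat_lit 336) (nat_lit 0) (XT.lf (nat_lit 84) (nat_lit 128841949) (nat_lit 0) (nat_lit 2184424598) (nat_lit 420) (nat_lit 1105019611) (nat_lit 70) (nat_lit 1) (nat_lit 69) (nat_lit 1) (nat_lit 74) (nat_lit 1) (nat_lit 250) (nat_lit 249) (nat_lit 221)) (XT.lf (nat_lit 420) (nat_lit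 246331175) (nat_lit 0) (nat_lit 1770353825) (nat_lit 336) (nat_lit 1335526652) (nat_lit 70) (nat_lit 1) (nat_lit 65) (nat_lit 1) (nat_lit 69) (nat_lit 1) (nat_lit 251) (nat_lit 249) (nat_lit 220)))) (XT.nd (nat_lit 94) (nat_lit 588) (nat_lit 0) (XT.lf (nat_lit 84) (nat_lit 547794784) (nat_lit 0) (nat_lit 710912408) (nat_lit 420) (nat_lit 2029168904) (nat_lit 61) (nat_lit 1) (nat_lit 60) (nat_lit 1) (nat_lit 65) (nat_lit 1) (nat_lit 252) (nat_lit 249) (nat_lit 219)) (XT.nd (nat_lit 94) (nat_lit 252) (nat_lit 0) (XT.lf (nat_lit 420) (nat_lit 1567689234) (nat_lit 0) (nat_lit 773510962) (nat_lit 336) (nat_lit 883906710) (nat_lit 61) (nat_lit 1) (nat_lit 56) (nat_lit 1) (nat_lit 60) (nat_lit 1) (nat_lit 253) (nat_lit 249) (nat_lit 218)) (XT.lf (nat_lit 336) (nat_lit 569523928) (nat_lit 0) (nat_lit 320167052) (nat_lit 252) (nat_lit 2274386178) (nat_lit 57) (nat_lit 1) (nat_lit 53) (nat_lit 1) (nat_lit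 56) (nat_lit 1) (nat_lit 254) (nat_lit 249) (nat_lit 217)))))) (XT.nd (nat_lit 470) (nat_lit 840) (nat_lit 0) (XT.nd (nat_lit 188) (nat_lit 840) (nat_lit 0) (XT.nd (nat_lit 94) (nat_lit 336) (nat_lit 0) (XT.lf (nat_lit 84) (nat_lit 2590916275) (nat_lit 0) (nat_lit 408773770) (nat_lit 336) (nat_lit 104844227) (nat_lit 53) (nat_lit 1) (nat_lit 52) (nat_lit 1) (nat_lit 56) (nat_lit 1) (nat_lit 255) (nat_lit 249) (nat_lit 216)) (XT.lf (nat_lit 84) (nat_lit 1171844564) (nat_lit 0) (nat_lit 1370022980) (nat_lit 420) (nat_lit 504283444) (nat_lit 49) (nat_lit 1) (nat_lit 48) (nat_lit 1) (nat_lit 53) (nat_lit 1) (nat_lit 256) (nat_lit 249) (nat_lit 215))) (XT.nd (nat_lit 94) (nat_lit 588) (nat_lit 0) (XT.lf (nat_lit 336) (nat_lit 673804349) (nat_lit 0) (nat_lit 2116889509) (nat_lit 252) (nat_lit 198797405) (nat_lit 49) (nat_lit 1) (nat_lit 45) (nat_lit 1) (nat_lit 48) (nat_lit 1) (nat_lit 257) (nat_lit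 249) (nat_lit 214)) (XT.nd (nat_lit 94) (nat_lit 252) (nat_lit 0) (XT.lf (nat_lit 84) (nat_lit 1393459800) (nat_lit 0) (nat_lit 315067665) (nat_lit 336) (nat_lit 1225470087) (nat_lit 42) (nat_lit 1) (nat_lit 41) (nat_lit 1) (nat_lit 45) (nat_lit 1) (nat_lit 258) (nat_lit 249) (nat_lit 213)) (XT.lf (nat_lit 84) (nat_lit 55844218) (nat_lit 0) (nat_lit 1269403466) (nat_lit 336) (nat_lit 1554699842) (nat_lit 39) (nat_lit 1) (nat_lit 38) (nat_lit 1) (nat_lit 42) (nat_lit 1) (nat_lit 259) (nat_lit 249) (nat_lit 212))))) (XT.nd (nat_lit 282) (nat_lit 0) (nat_lit 0) (XT.nd (nat_lit 94) (nat_lit 588) (nat_lit 0) (XT.lf (nat_lit 336) (nat_lit 608269368) (nat_lit 0) (nat_lit 958813974) (nat_lit 252) (nat_lit 1259970814) (nat_lit 39) (nat_lit 1) (nat_lit 35) (nat_lit 1) (nat_lit 38) (nat_lit 1) (nat_lit 260) (nat_lit 249) (nat_lit 211)) (XT.nd (nat_lit 94) (nat_lit 252) (nat_lit 0) (XT.lf (nat_lit 84)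 (nat_lit 252644526) (nat_lit 0) (nat_lit 365300350) (nat_lit 336) (nat_lit 2157659013) (nat_lit 32) (nat_lit 1) (nat_lit 31) (nat_lit 1) (nat_lit 35) (nat_lit 1) (nat_lit 261) (nat_lit 249) (nat_lit 210)) (XT.lf (nat_lit 336) (nat_lit 1408611686) (nat_lit 0) (nat_lit 287588261) (nat_lit 252) (nat_lit 1028879501) (nat_lit 32) (nat_lit 1) (nat_lit 28) (nat_lit 1) (nat_lit 31) (nat_lit 1) (nat_lit 262) (nat_lit 249) (nat_lit 209)))) (XT.nd (nat_lit 41172) (nat_lit 0) (nat_lit 11004) (XT.lf (nat_lit 84) (nat_lit 408816335) (nat_lit 0) (nat_lit 2250429614) (nat_lit 336) (nat_lit 16731901) (nat_lit 29) (nat_lit 1) (nat_lit 28) (nat_lit 1) (nat_lit 32) (nat_lit 1) (nat_lit 263) (nat_lit 249) (nat_lit 208)) (XT.nd (nat_lit 94) (nat_lit 0) (nat_lit 0) (XT.lf (nat_lit 1260) (nat_lit 938532534) (nat_lit 0) (nat_lit 1427934389) (nat_lit 1260) (nat_lit 938532534) (nat_lit 174) (nat_lit 1) (nat_lit 159)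 (nat_lit 0) (nat_lit 174) (nat_lit 0) (nat_lit 220) (nat_lit 250) (nat_lit 250)) (XT.lf (nat_lit 1260) (nat_lit 3632781748) (nat_lit 84) (nat_lit 2771764637) (nat_lit 0) (nat_lit 46990682) (nat_lit 174) (nat_lit 1) (nat_lit 160) (nat_lit 1) (nat_lit 159) (nat_lit 0) (nat_lit 221) (nat_lit 250) (nat_lit 249))))))))
noncomputable def ec11 : XT := (XT.nd (nat_lit 2068) (nat_lit 5544) (nat_lit 0) (XT.nd (nat_lit 1034) (nat_lit 4620) (nat_lit 0) (XT.nd (nat_lit 470) (nat_lit 1428) (nat_lit 0) (XT.nd (nat_lit 188) (nat_lit 0) (nat_lit 168) (XT.nd (nat_lit 94) (nat_lit 0) (nat_lit 84) (XT.lf (nat_lit 1260) (nat_lit 3434433179) (nat_lit 84) (nat_lit 912031561) (nat_lit 0) (nat_lit 1951357003) (nat_lit 175) (nat_lit 1) (nat_lit 161) (nat_lit 1) (nat_lit 160) (nat_lit 1) (nat_lit 222) (nat_lit 250) (nat_lit 248)) (XT.lf (nat_lit 1260) (nat_lit 2364767737) (nat_lit 0) (nat_lit 2973303370) (nat_lit 1176)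 (nat_lit 810995848) (nat_lit 176) (nat_lit 1) (nat_lit 161) (nat_lit 1) (nat_lit 175) (nat_lit 1) (nat_lit 223) (nat_lit 250) (nat_lit 247))) (XT.nd (nat_lit 94) (nat_lit 0) (nat_lit 0) (XT.lf (nat_lit 1260) (nat_lit 457534848) (nat_lit 0) (nat_lit 3144097375) (nat_lit 1176) (nat_lit 2403449541) (nat_lit 177) (nat_lit 1) (nat_lit 162) (nat_lit 1) (nat_lit 176) (nat_lit 1) (nat_lit 224) (nat_lit 250) (nat_lit 246)) (XT.nd (nat_lit 94) (nat_lit 0) (nat_lit 84) (XT.lf (nat_lit 1260) (nat_lit 2487826555) (nat_lit 84) (nat_lit 1958559745) (nat_lit 0) (nat_lit 1419085663) (nat_lit 177) (nat_lit 1) (nat_lit 163) (nat_lit 1) (nat_lit 162) (nat_lit 1) (nat_lit 225) (nat_lit 250) (nat_lit 245)) (XT.lf (nat_lit 1260) (nat_lit 2071348071) (nat_lit 84) (nat_lit 415485036) (nat_lit 0) (nat_lit 3243611293) (nat_lit 178) (nat_lit 1) (nat_lit 164) (nat_lit 1) (nat_lit 163) (nat_lit 1) (nat_lit 226) (nat_lit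 250) (nat_lit 244))))) (XT.nd (nat_lit 282) (nat_lit 1764) (nat_lit 0) (XT.nd (nat_lit 94) (nat_lit 0) (nat_lit 0) (XT.lf (nat_lit 1260) (nat_lit 604494450) (nat_lit 0) (nat_lit 3991343834) (nat_lit 1176) (nat_lit 1003761472) (nat_lit 179) (nat_lit 1) (nat_lit 164) (nat_lit 1) (nat_lit 178) (nat_lit 1) (nat_lit 227) (nat_lit 250) (nat_lit 243)) (XT.nd (nat_lit 94) (nat_lit 0) (nat_lit 84) (XT.lf (nat_lit 1260) (nat_lit 1095393161) (nat_lit 84) (nat_lit 3138893607) (nat_lit 0) (nat_lit 1238270258) (nat_lit 179) (nat_lit 1) (nat_lit 165) (nat_lit 1) (nat_lit 164) (nat_lit 1) (nat_lit 228) (nat_lit 250) (nat_lit 242)) (XT.lf (nat_lit 1260) (nat_lit 548158362) (nat_lit 84) (nat_lit 1769196186) (nat_lit 0) (nat_lit 3032221195) (nat_lit 180) (nat_lit 1) (nat_lit 166) (nat_lit 1) (nat_lit 165) (nat_lit 1) (nat_lit 229) (nat_lit 250) (nat_lit 241)))) (XT.nd (nat_lit 94) (nat_lit 672) (nat_lit 0) (XT.lf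 (nat_lit 84) (nat_lit 466043042) (nat_lit 0) (nat_lit 23225981) (nat_lit 1260) (nat_lit 4741456332) (nat_lit 152) (nat_lit 1) (nat_lit 151) (nat_lit 1) (nat_lit 166) (nat_lit 1) (nat_lit 230) (nat_lit 250) (nat_lit 240)) (XT.nd (nat_lit 94) (nat_lit 672) (nat_lit 0) (XT.lf (nat_lit 84) (nat_lit 3777383870) (nat_lit 0) (nat_lit 627064170) (nat_lit 1260) (nat_lit 710380386) (nat_lit 152) (nat_lit 1) (nat_lit 151) (nat_lit 1) (nat_lit 166) (nat_lit 1) (nat_lit 231) (nat_lit 250) (nat_lit 239)) (XT.lf (nat_lit 84) (nat_lit 1918988353) (nat_lit 0) (nat_lit 1259695547) (nat_lit 756) (nat_lit 1823752340) (nat_lit 144) (nat_lit 1) (nat_lit 143) (nat_lit 1) (nat_lit 152) (nat_lit 1) (nat_lit 232) (nat_lit 250) (nat_lit 238)))))) (XT.nd (nat_lit 470) (nat_lit 2352) (nat_lit 0) (XT.nd (nat_lit 188) (nat_lit 1092) (nat_lit 0) (XT.nd (nat_lit 94) (nat_lit 588) (nat_lit 0) (XT.lf (nat_lit 84) (nat_lit 125210143)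 (nat_lit 0) (nat_lit 1908297687) (nat_lit 672) (nat_lit 2860274870) (nat_lit 137) (nat_lit 1) (nat_lit 136) (nat_lit 1) (nat_lit 144) (nat_lit 1) (nat_lit 233) (nat_lit 250) (nat_lit 237)) (XT.lf (nat_lit 672) (nat_lit 2198779747) (nat_lit 0) (nat_lit 946283384) (nat_lit 588) (nat_lit 1643024715) (nat_lit 137) (nat_lit 1) (nat_lit 129) (nat_lit 1) (nat_lit 136) (nat_lit 1) (nat_lit 234) (nat_lit 250) (nat_lit 236))) (XT.nd (nat_lit 94) (nat_lit 1092) (nat_lit 0) (XT.lf (nat_lit 84) (nat_lit 1334861450) (nat_lit 0) (nat_lit 3284163921) (nat_lit 672) (nat_lit 66781101) (nat_lit 130) (nat_lit 1) (nat_lit 129) (nat_lit 1) (nat_lit 137) (nat_lit 1) (nat_lit 235) (nat_lit 250) (nat_lit 235)) (XT.nd (nat_lit 94) (nat_lit 588) (nat_lit 0) (XT.lf (nat_lit 588) (nat_lit 582989791) (nat_lit 0) (nat_lit 3592501535) (nat_lit 504) (nat_lit 410893100) (nat_lit 130) (nat_lit 1) (nat_lit 123) (nat_lit 1) (nat_lit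 129) (nat_lit 1) (nat_lit 236) (nat_lit 250) (nat_lit 234)) (XT.lf (nat_lit 84) (nat_lit 2367754702) (nat_lit 0) (nat_lit 249419586) (nat_lit 588) (nat_lit 1872443789) (nat_lit 117) (nat_lit 1) (nat_lit 116) (nat_lit 1) (nat_lit 123) (nat_lit 1) (nat_lit 237) (nat_lit 250) (nat_lit 233))))) (XT.nd (nat_lit 282) (nat_lit 924) (nat_lit 0) (XT.nd (nat_lit 94) (nat_lit 924) (nat_lit 0) (XT.lf (nat_lit 84) (nat_lit 630685710) (nat_lit 0) (nat_lit 1071111865) (nat_lit 588) (nat_lit 2693992668) (nat_lit 111) (nat_lit 1) (nat_lit 110) (nat_lit 1) (nat_lit 117) (nat_lit 1) (nat_lit 238) (nat_lit 250) (nat_lit 232)) (XT.nd (nat_lit 94) (nat_lit 420) (nat_lit 0) (XT.lf (nat_lit 588) (nat_lit 2398504439) (nat_lit 0) (nat_lit 837735085) (nat_lit 504) (nat_lit 1068356335) (nat_lit 111) (nat_lit 1) (nat_lit 104) (nat_lit 1) (nat_lit 110) (nat_lit 1) (nat_lit 239) (nat_lit 250) (nat_lit 231)) (XT.lf (nat_lit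 504) (nat_lit 1468193414) (nat_lit 0) (nat_lit 27667346) (nat_lit 420) (nat_lit 2720251980) (nat_lit 105) (nat_lit 1) (nat_lit 99) (nat_lit 1) (nat_lit 104) (nat_lit 1) (nat_lit 240) (nat_lit 250) (nat_lit 230)))) (XT.nd (nat_lit 94) (nat_lit 924) (nat_lit 0) (XT.lf (nat_lit 504) (nat_lit 531623118) (nat_lit 0) (nat_lit 3420791597) (nat_lit 420) (nat_lit 177718637) (nat_lit 105) (nat_lit 1) (nat_lit 99) (nat_lit 1) (nat_lit 104) (nat_lit 1) (nat_lit 241) (nat_lit 250) (nat_lit 229)) (XT.nd (nat_lit 94) (nat_lit 420) (nat_lit 0) (XT.lf (nat_lit 84) (nat_lit 2226912225) (nat_lit 0) (nat_lit 407208749) (nat_lit 504) (nat_lit 1412060641) (nat_lit 94) (nat_lit 1) (nat_lit 93) (nat_lit 1) (nat_lit 99) (nat_lit 1) (nat_lit 242) (nat_lit 250) (nat_lit 228)) (XT.lf (nat_lit 84) (nat_lit 569675966) (nat_lit 0) (nat_lit 1327235988) (nat_lit 504) (nat_lit 2067809816) (nat_lit 89) (nat_lit 1) (nat_lit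 88) (nat_lit 1) (nat_lit 94) (nat_lit 1) (nat_lit 243) (nat_lit 250) (nat_lit 227))))))) (XT.nd (nat_lit 1034) (nat_lit 2184) (nat_lit 0) (XT.nd (nat_lit 470) (nat_lit 1764) (nat_lit 0) (XT.nd (nat_lit 188) (nat_lit 840) (nat_lit 0) (XT.nd (nat_lit 94) (nat_lit 336) (nat_lit 0) (XT.lf (nat_lit 504) (nat_lit 1633810065) (nat_lit 0) (nat_lit 1200652131) (nat_lit 420) (nat_lit 1050992056) (nat_lit 89) (nat_lit 1) (nat_lit 83) (nat_lit 1) (nat_lit 88) (nat_lit 1) (nat_lit 244) (nat_lit 250) (nat_lit 226)) (XT.lf (nat_lit 420) (nat_lit 634467051) (nat_lit 0) (nat_lit 549012622) (nat_lit 336) (nat_lit 2625011995) (nat_lit 84) (nat_lit 1) (nat_lit 79) (nat_lit 1) (nat_lit 83) (nat_lit 1) (nat_lit 245) (nat_lit 250) (nat_lit 225))) (XT.nd (nat_lit 94) (nat_lit 756) (nat_lit 0) (XT.lf (nat_lit 84) (nat_lit 3321874681) (nat_lit 0) (nat_lit 350733715) (nat_lit 420) (nat_lit 61039447) (nat_lit 79) (nat_lit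 1) (nat_lit 78) (nat_lit 1) (nat_lit 83) (nat_lit 1) (nat_lit 246) (nat_lit 250) (nat_lit 224)) (XT.nd (nat_lit 94) (nat_lit 336) (nat_lit 0) (XT.lf (nat_lit 84) (nat_lit 1698773275) (nat_lit 0) (nat_lit 1328641506) (nat_lit 504) (nat_lit 632851301) (nat_lit 74) (nat_lit 1) (nat_lit 73) (nat_lit 1) (nat_lit 79) (nat_lit 1) (nat_lit 247) (nat_lit 250) (nat_lit 223)) (XT.lf (nat_lit 84) (nat_lit 135284046) (nat_lit 0) (nat_lit 2293645828) (nat_lit 420) (nat_lit 1160270591) (nat_lit 70) (nat_lit 1) (nat_lit 69) (nat_lit 1) (nat_lit 74) (nat_lit 1) (nat_lit 248) (nat_lit 250) (nat_lit 222))))) (XT.nd (nat_lit 282) (nat_lit 672) (nat_lit 0) (XT.nd (nat_lit 94) (nat_lit 756) (nat_lit 0) (XT.lf (nat_lit 420) (nat_lit 258647734) (nat_lit 0) (nat_lit 1858871516) (nat_lit 336) (nat_lit 1402302984) (nat_lit 70) (nat_lit 1) (nat_lit 65) (nat_lit 1) (nat_lit 69) (nat_lit 1) (nat_lit 249) (nat_lit 250)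 (nat_lit 221)) (XT.nd (nat_lit 94) (nat_lit 336) (nat_lit 0) (XT.lf (nat_lit 84) (nat_lit 575184524) (nat_lit 0) (nat_lit 746458029) (nat_lit 420) (nat_lit 2130627349) (nat_lit 61) (nat_lit 1) (nat_lit 60) (nat_lit 1) (nat_lit 65) (nat_lit 1) (nat_lit 250) (nat_lit 250) (nat_lit 220)) (XT.lf (nat_lit 420) (nat_lit 1646073696) (nat_lit 0) (nat_lit 812186510) (nat_lit 336) (nat_lit 928102046) (nat_lit 61) (nat_lit 1) (nat_lit 56) (nat_lit 1) (nat_lit 60) (nat_lit 1) (nat_lit 251) (nat_lit 250) (nat_lit 219)))) (XT.nd (nat_lit 94) (nat_lit 420) (nat_lit 0) (XT.lf (nat_lit 336) (nat_lit 598000124) (nat_lit 0) (nat_lit 336175405) (nat_lit 252) (nat_lit 2388105487) (nat_lit 57) (nat_lit 1) (nat_lit 53) (nat_lit 1) (nat_lit 56) (nat_lit 1) (nat_lit 252) (nat_lit 250) (nat_lit 218)) (XT.nd (nat_lit 94) (nat_lit 336) (nat_lit 0) (XT.lf (nat_lit 84) (nat_lit 2720462089) (nat_lit 0) (nat_lit 429212458)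 (nat_lit 336) (nat_lit 110086439) (nat_lit 53) (nat_lit 1) (nat_lit 52) (nat_lit 1) (nat_lit 56) (nat_lit 1) (nat_lit 253) (nat_lit 250) (nat_lit 217)) (XT.lf (nat_lit 84) (nat_lit 1230436792) (nat_lit 0) (nat_lit 1438524129) (nat_lit 420) (nat_lit 529497616) (nat_lit 49) (nat_lit 1) (nat_lit 48) (nat_lit 1) (nat_lit 53) (nat_lit 1) (nat_lit 254) (nat_lit 250) (nat_lit 216)))))) (XT.nd (nat_lit 470) (nat_lit 756) (nat_lit 0) (XT.nd (nat_lit 188) (nat_lit 840) (nat_lit 0) (XT.nd (nat_lit 94) (nat_lit 336) (nat_lit 0) (XT.lf (nat_lit 336) (nat_lit 707494567) (nat_lit 0) (nat_lit 2222733984) (nat_lit 252) (nat_lit 208737275) (nat_lit 49) (nat_lit 1) (nat_lit 45) (nat_lit 1) (nat_lit 48) (nat_lit 1) (nat_lit 255) (nat_lit 250) (nat_lit 215)) (XT.lf (nat_lit 84) (nat_lit 1463132790) (nat_lit 0) (nat_lit 330821049) (nat_lit 336) (nat_lit 1286743591) (nat_lit 42) (nat_lit 1) (nat_lit 41) (nat_lit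 1) (nat_lit 45) (nat_lit 1) (nat_lit 256) (nat_lit 250) (nat_lit 214))) (XT.nd (nat_lit 94) (nat_lit 588) (nat_lit 0) (XT.lf (nat_lit 84) (nat_lit 58636429) (nat_lit 0) (nat_lit 1332873639) (nat_lit 336) (nat_lit 1632434834) (nat_lit 39) (nat_lit 1) (nat_lit 38) (nat_lit 1) (nat_lit 42) (nat_lit 1) (nat_lit 257) (nat_lit 250) (nat_lit 213)) (XT.nd (nat_lit 94) (nat_lit 336) (nat_lit 0) (XT.lf (nat_lit 336) (nat_lit 638682836) (nat_lit 0) (nat_lit 1006754673) (nat_lit 252) (nat_lit 1322969355) (nat_lit 39) (nat_lit 1) (nat_lit 35) (nat_lit 1) (nat_lit 38) (nat_lit 1) (nat_lit 258) (nat_lit 250) (nat_lit 212)) (XT.lf (nat_lit 84) (nat_lit 265276752) (nat_lit 0) (nat_lit 383565367) (nat_lit 336) (nat_lit 2265541964) (nat_lit 32) (nat_lit 1) (nat_lit 31) (nat_lit 1) (nat_lit 35) (nat_lit 1) (nat_lit 259) (nat_lit 250) (nat_lit 211))))) (XT.nd (nat_lit 282) (nat_lit 252) (nat_lit 0) (XT.nd (nat_lit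 94) (nat_lit 252) (nat_lit 0) (XT.lf (nat_lit 336) (nat_lit 1479042270) (nat_lit 0) (nat_lit 301967675) (nat_lit 252) (nat_lit 1080323476) (nat_lit 32) (nat_lit 1) (nat_lit 28) (nat_lit 1) (nat_lit 31) (nat_lit 1) (nat_lit 260) (nat_lit 250) (nat_lit 210)) (XT.nd (nat_lit 94) (nat_lit 252) (nat_lit 0) (XT.lf (nat_lit 84) (nat_lit 429257152) (nat_lit 0) (nat_lit 2362951095) (nat_lit 336) (nat_lit 17568496) (nat_lit 29) (nat_lit 1) (nat_lit 28) (nat_lit 1) (nat_lit 32) (nat_lit 1) (nat_lit 261) (nat_lit 250) (nat_lit 209)) (XT.lf (nat_lit 84) (nat_lit 1877312632) (nat_lit 0) (nat_lit 563256822) (nat_lit 252) (nat_lit 318525347) (nat_lit 26) (nat_lit 1) (nat_lit 25) (nat_lit 1) (nat_lit 28) (nat_lit 1) (nat_lit 262) (nat_lit 250) (nat_lit 208)))) (XT.nd (nat_lit 40984) (nat_lit 0) (nat_lit 11508) (XT.lf (nat_lit 84) (nat_lit 562038283) (nat_lit 0) (nat_lit 1545750885) (nat_lit 336) (nat_lit 601815573)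 (nat_lit 23) (nat_lit 1) (nat_lit 22) (nat_lit 1) (nat_lit 26) (nat_lit 1) (nat_lit 263) (nat_lit 250) (nat_lit 207)) (XT.nd (nat_lit 94) (nat_lit 0) (nat_lit 0) (XT.lf (nat_lit 1260) (nat_lit 985459160) (nat_lit 0) (nat_lit 1499331108) (nat_lit 1260) (nat_lit 985459160) (nat_lit 174) (nat_lit 1) (nat_lit 159) (nat_lit 0) (nat_lit 174) (nat_lit 0) (nat_lit 218) (nat_lit 251) (nat_lit 251)) (XT.lf (nat_lit 1260) (nat_lit 3814420835) (nat_lit 84) (nat_lit 2910352869) (nat_lit 0) (nat_lit 49340216) (nat_lit 174) (nat_lit 1) (nat_lit 160) (nat_lit 1) (nat_lit 159) (nat_lit 0) (nat_lit 219) (nat_lit 251) (nat_lit 250))))))))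
noncomputable def ec12 : XT := (XT.nd (nat_lit 2068) (nat_lit 6048) (nat_lit 0) (XT.nd (nat_lit 1034) (nat_lit 4620) (nat_lit 0) (XT.nd (nat_lit 470) (nat_lit 1428) (nat_lit 0) (XT.nd (nat_lit 188) (nat_lit 0) (nat_lit 168) (XT.nd (nat_lit 94) (nat_lit 0) (nat_lit 84) (XT.lf (nat_lit 1260) (nat_lit 3606154838) (nat_lit 84) (nat_lit 957633140) (nat_lit 0) (nat_lit 2048924854) (nat_lit 175) (nat_lit 1) (nat_lit 161) (nat_lit 1) (nat_lit 160) (nat_lit 1) (nat_lit 220) (nat_lit 251) (nat_lit 249)) (XT.lf (nat_lit 1260) (nat_lit 2483006124) (nat_lit 0) (nat_lit 3121968538) (nat_lit 1176) (nat_lit 851545640) (nat_lit 176) (nat_lit 1) (nat_lit 161) (nat_lit 1) (nat_lit 175) (nat_lit 1) (nat_lit 221) (nat_lit 251) (nat_lit 248))) (XT.nd (nat_lit 94) (nat_lit 0) (nat_lit 0) (XT.lf (nat_lit 1260) (nat_lit 480411590) (nat_lit 0) (nat_lit 3301302244) (nat_lit 1176) (nat_lit 2523622018) (nat_lit 177) (nat_lit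 1) (nat_lit 162) (nat_lit 1) (nat_lit 176) (nat_lit 1) (nat_lit 222) (nat_lit 251) (nat_lit 247)) (XT.nd (nat_lit 94) (nat_lit 0) (nat_lit 84) (XT.lf (nat_lit 1260) (nat_lit 2612217883) (nat_lit 84) (nat_lit 2056487733) (nat_lit 0) (nat_lit 1490039946) (nat_lit 177) (nat_lit 1) (nat_lit 163) (nat_lit 1) (nat_lit 162) (nat_lit 1) (nat_lit 223) (nat_lit 251) (nat_lit 246)) (XT.lf (nat_lit 1260) (nat_lit 2174915475) (nat_lit 84) (nat_lit 436259288) (nat_lit 0) (nat_lit 3405791858) (nat_lit 178) (nat_lit 1) (nat_lit 164) (nat_lit 1) (nat_lit 163) (nat_lit 1) (nat_lit 224) (nat_lit 251) (nat_lit 245))))) (XT.nd (nat_lit 282) (nat_lit 1764) (nat_lit 0) (XT.nd (nat_lit 94) (nat_lit 0) (nat_lit 0) (XT.lf (nat_lit 1260) (nat_lit 634719173) (nat_lit 0) (nat_lit 4190911026) (nat_lit 1176) (nat_lit 1053949545) (nat_lit 179) (nat_lit 1) (nat_lit 164) (nat_lit 1) (nat_lit 178) (nat_lit 1) (nat_lit 225)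 (nat_lit 251) (nat_lit 244)) (XT.nd (nat_lit 94) (nat_lit 0) (nat_lit 84) (XT.lf (nat_lit 1260) (nat_lit 1150162819) (nat_lit 84) (nat_lit 3295838287) (nat_lit 0) (nat_lit 1300183770) (nat_lit 179) (nat_lit 1) (nat_lit 165) (nat_lit 1) (nat_lit 164) (nat_lit 1) (nat_lit 226) (nat_lit 251) (nat_lit 243)) (XT.lf (nat_lit 1260) (nat_lit 575566280) (nat_lit 84) (nat_lit 1857655995) (nat_lit 0) (nat_lit 3183832255) (nat_lit 180) (nat_lit 1) (nat_lit 166) (nat_lit 1) (nat_lit 165) (nat_lit 1) (nat_lit 227) (nat_lit 251) (nat_lit 242)))) (XT.nd (nat_lit 94) (nat_lit 672) (nat_lit 0) (XT.lf (nat_lit 84) (nat_lit 489345194) (nat_lit 0) (nat_lit 24387280) (nat_lit 1260) (nat_lit 4978529148) (nat_lit 152) (nat_lit 1) (nat_lit 151) (nat_lit 1) (nat_lit 166) (nat_lit 1) (nat_lit 228) (nat_lit 251) (nat_lit 241)) (XT.nd (nat_lit 94) (nat_lit 672) (nat_lit 0) (XT.lf (nat_lit 84) (nat_lit 3966253063) (nat_lit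 0) (nat_lit 658417379) (nat_lit 1260) (nat_lit 745899405) (nat_lit 152) (nat_lit 1) (nat_lit 151) (nat_lit 1) (nat_lit 166) (nat_lit 1) (nat_lit 229) (nat_lit 251) (nat_lit 240)) (XT.lf (nat_lit 84) (nat_lit 2014937771) (nat_lit 0) (nat_lit 1322680324) (nat_lit 756) (nat_lit 1914939957) (nat_lit 144) (nat_lit 1) (nat_lit 143) (nat_lit 1) (nat_lit 152) (nat_lit 1) (nat_lit 230) (nat_lit 251) (nat_lit 239)))))) (XT.nd (nat_lit 470) (nat_lit 2352) (nat_lit 0) (XT.nd (nat_lit 188) (nat_lit 1092) (nat_lit 0) (XT.nd (nat_lit 94) (nat_lit 588) (nat_lit 0) (XT.lf (nat_lit 84) (nat_lit 131470650) (nat_lit 0) (nat_lit 2003712572) (nat_lit 672) (nat_lit 3003288614) (nat_lit 137) (nat_lit 1) (nat_lit 136) (nat_lit 1) (nat_lit 144) (nat_lit 1) (nat_lit 231) (nat_lit 251) (nat_lit 238)) (XT.lf (nat_lit 672) (nat_lit 2308718734) (nat_lit 0) (nat_lit 993597553) (nat_lit 588) (nat_lit 1725175950) (nat_lit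 137) (nat_lit 1) (nat_lit 129) (nat_lit 1) (nat_lit 136) (nat_lit 1) (nat_lit 232) (nat_lit 251) (nat_lit 237))) (XT.nd (nat_lit 94) (nat_lit 1092) (nat_lit 0) (XT.lf (nat_lit 84) (nat_lit 1401604522) (nat_lit 0) (nat_lit 3448372118) (nat_lit 672) (nat_lit 70120157) (nat_lit 130) (nat_lit 1) (nat_lit 129) (nat_lit 1) (nat_lit 137) (nat_lit 1) (nat_lit 233) (nat_lit 251) (nat_lit 236)) (XT.nd (nat_lit 94) (nat_lit 588) (nat_lit 0) (XT.lf (nat_lit 588) (nat_lit 612139281) (nat_lit 0) (nat_lit 3772126612) (nat_lit 504) (nat_lit 431437755) (nat_lit 130) (nat_lit 1) (nat_lit 123) (nat_lit 1) (nat_lit 129) (nat_lit 1) (nat_lit 234) (nat_lit 251) (nat_lit 235)) (XT.lf (nat_lit 84) (nat_lit 2486142437) (nat_lit 0) (nat_lit 261890565) (nat_lit 588) (nat_lit 1966065978) (nat_lit 117) (nat_lit 1) (nat_lit 116) (nat_lit 1) (nat_lit 123) (nat_lit 1) (nat_lit 235) (nat_lit 251) (nat_lit 234))))) (XT.nd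 (nat_lit 282) (nat_lit 924) (nat_lit 0) (XT.nd (nat_lit 94) (nat_lit 924) (nat_lit 0) (XT.lf (nat_lit 84) (nat_lit 662219995) (nat_lit 0) (nat_lit 1124667458) (nat_lit 588) (nat_lit 2828692302) (nat_lit 111) (nat_lit 1) (nat_lit 110) (nat_lit 1) (nat_lit 117) (nat_lit 1) (nat_lit 236) (nat_lit 251) (nat_lit 233)) (XT.nd (nat_lit 94) (nat_lit 420) (nat_lit 0) (XT.lf (nat_lit 588) (nat_lit 2518429661) (nat_lit 0) (nat_lit 879621840) (nat_lit 504) (nat_lit 1121774152) (nat_lit 111) (nat_lit 1) (nat_lit 104) (nat_lit 1) (nat_lit 110) (nat_lit 1) (nat_lit 237) (nat_lit 251) (nat_lit 232)) (XT.lf (nat_lit 504) (nat_lit 1541603085) (nat_lit 0) (nat_lit 29050714) (nat_lit 420) (nat_lit 2856264579) (nat_lit 105) (nat_lit 1) (nat_lit 99) (nat_lit 1) (nat_lit 104) (nat_lit 1) (nat_lit 238) (nat_lit 251) (nat_lit 231)))) (XT.nd (nat_lit 94) (nat_lit 924) (nat_lit 0) (XT.lf (nat_lit 504) (nat_lit 558204274)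 (nat_lit 0) (nat_lit 3591831177) (nat_lit 420) (nat_lit 186604569) (nat_lit 105) (nat_lit 1) (nat_lit 99) (nat_lit 1) (nat_lit 104) (nat_lit 1) (nat_lit 239) (nat_lit 251) (nat_lit 230)) (XT.nd (nat_lit 94) (nat_lit 420) (nat_lit 0) (XT.lf (nat_lit 84) (nat_lit 2338257836) (nat_lit 0) (nat_lit 427569187) (nat_lit 504) (nat_lit 1482663673) (nat_lit 94) (nat_lit 1) (nat_lit 93) (nat_lit 1) (nat_lit 99) (nat_lit 1) (nat_lit 240) (nat_lit 251) (nat_lit 229)) (XT.lf (nat_lit 84) (nat_lit 598159764) (nat_lit 0) (nat_lit 1393597787) (nat_lit 504) (nat_lit 2171200306) (nat_lit 89) (nat_lit 1) (nat_lit 88) (nat_lit 1) (nat_lit 94) (nat_lit 1) (nat_lit 241) (nat_lit 251) (nat_lit 228))))))) (XT.nd (nat_lit 1034) (nat_lit 2688) (nat_lit 0) (XT.nd (nat_lit 470) (nat_lit 1764) (nat_lit 0) (XT.nd (nat_lit 188) (nat_lit 840) (nat_lit 0) (XT.nd (nat_lit 94) (nat_lit 336) (nat_lit 0) (XT.lf (nat_lit 504) (nat_lit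 1715500568) (nat_lit 0) (nat_lit 1260684737) (nat_lit 420) (nat_lit 1103541659) (nat_lit 89) (nat_lit 1) (nat_lit 83) (nat_lit 1) (nat_lit 88) (nat_lit 1) (nat_lit 242) (nat_lit 251) (nat_lit 227)) (XT.lf (nat_lit 420) (nat_lit 666190403) (nat_lit 0) (nat_lit 576463253) (nat_lit 336) (nat_lit 2756262595) (nat_lit 84) (nat_lit 1) (nat_lit 79) (nat_lit 1) (nat_lit 83) (nat_lit 1) (nat_lit 243) (nat_lit 251) (nat_lit 226))) (XT.nd (nat_lit 94) (nat_lit 756) (nat_lit 0) (XT.lf (nat_lit 84) (nat_lit 3487968416) (nat_lit 0) (nat_lit 368270401) (nat_lit 420) (nat_lit 64091419) (nat_lit 79) (nat_lit 1) (nat_lit 78) (nat_lit 1) (nat_lit 83) (nat_lit 1) (nat_lit 244) (nat_lit 251) (nat_lit 225)) (XT.nd (nat_lit 94) (nat_lit 336) (nat_lit 0) (XT.lf (nat_lit 84) (nat_lit 1783711939) (nat_lit 0) (nat_lit 1395073581) (nat_lit 504) (nat_lit 664493866) (nat_lit 74) (nat_lit 1) (nat_lit 73) (nat_lit 1) (nat_lit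 79) (nat_lit 1) (nat_lit 245) (nat_lit 251) (nat_lit 224)) (XT.lf (nat_lit 84) (nat_lit 142048249) (nat_lit 0) (nat_lit 2408328120) (nat_lit 420) (nat_lit 1218284121) (nat_lit 70) (nat_lit 1) (nat_lit 69) (nat_lit 1) (nat_lit 74) (nat_lit 1) (nat_lit 246) (nat_lit 251) (nat_lit 223))))) (XT.nd (nat_lit 282) (nat_lit 672) (nat_lit 0) (XT.nd (nat_lit 94) (nat_lit 756) (nat_lit 0) (XT.lf (nat_lit 420) (nat_lit 271580120) (nat_lit 0) (nat_lit 1951815092) (nat_lit 336) (nat_lit 1472418134) (nat_lit 70) (nat_lit 1) (nat_lit 65) (nat_lit 1) (nat_lit 69) (nat_lit 1) (nat_lit 247) (nat_lit 251) (nat_lit 222)) (XT.nd (nat_lit 94) (nat_lit 336) (nat_lit 0) (XT.lf (nat_lit 84) (nat_lit 603943750) (nat_lit 0) (nat_lit 783780930) (nat_lit 420) (nat_lit 2237158717) (nat_lit 61) (nat_lit 1) (nat_lit 60) (nat_lit 1) (nat_lit 65) (nat_lit 1) (nat_lit 248) (nat_lit 251) (nat_lit 221)) (XT.lf (nat_lit 420) (nat_lit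 1728377381) (nat_lit 0) (nat_lit 852795836) (nat_lit 336) (nat_lit 974507148) (nat_lit 61) (nat_lit 1) (nat_lit 56) (nat_lit 1) (nat_lit 60) (nat_lit 1) (nat_lit 249) (nat_lit 251) (nat_lit 220)))) (XT.nd (nat_lit 94) (nat_lit 420) (nat_lit 0) (XT.lf (nat_lit 336) (nat_lit 627900131) (nat_lit 0) (nat_lit 352984175) (nat_lit 252) (nat_lit 2507510761) (nat_lit 57) (nat_lit 1) (nat_lit 53) (nat_lit 1) (nat_lit 56) (nat_lit 1) (nat_lit 250) (nat_lit 251) (nat_lit 219)) (XT.nd (nat_lit 94) (nat_lit 336) (nat_lit 0) (XT.lf (nat_lit 84) (nat_lit 2856485194) (nat_lit 0) (nat_lit 450673081) (nat_lit 336) (nat_lit 115590760) (nat_lit 53) (nat_lit 1) (nat_lit 52) (nat_lit 1) (nat_lit 56) (nat_lit 1) (nat_lit 251) (nat_lit 251) (nat_lit 218)) (XT.lf (nat_lit 84) (nat_lit 1291958632) (nat_lit 0) (nat_lit 1510450335) (nat_lit 420) (nat_lit 555972497) (nat_lit 49) (nat_lit 1) (nat_lit 48) (nat_lit 1) (nat_lit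 53) (nat_lit 1) (nat_lit 252) (nat_lit 251) (nat_lit 217)))))) (XT.nd (nat_lit 470) (nat_lit 1260) (nat_lit 0) (XT.nd (nat_lit 188) (nat_lit 840) (nat_lit 0) (XT.nd (nat_lit 94) (nat_lit 336) (nat_lit 0) (XT.lf (nat_lit 336) (nat_lit 742869295) (nat_lit 0) (nat_lit 2333870683) (nat_lit 252) (nat_lit 219174139) (nat_lit 49) (nat_lit 1) (nat_lit 45) (nat_lit 1) (nat_lit 48) (nat_lit 1) (nat_lit 253) (nat_lit 251) (nat_lit 216)) (XT.lf (nat_lit 84) (nat_lit 1536289429) (nat_lit 0) (nat_lit 347362101) (nat_lit 336) (nat_lit 1351080771) (nat_lit 42) (nat_lit 1) (nat_lit 41) (nat_lit 1) (nat_lit 45) (nat_lit 1) (nat_lit 254) (nat_lit 251) (nat_lit 215))) (XT.nd (nat_lit 94) (nat_lit 588) (nat_lit 0) (XT.lf (nat_lit 84) (nat_lit 61568250) (nat_lit 0) (nat_lit 1399517321) (nat_lit 336) (nat_lit 1714056576) (nat_lit 39) (nat_lit 1) (nat_lit 38) (nat_lit 1) (nat_lit 42) (nat_lit 1) (nat_lit 255) (nat_lit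 251) (nat_lit 214)) (XT.nd (nat_lit 94) (nat_lit 336) (nat_lit 0) (XT.lf (nat_lit 336) (nat_lit 670616978) (nat_lit 0) (nat_lit 1057092406) (nat_lit 252) (nat_lit 1389117822) (nat_lit 39) (nat_lit 1) (nat_lit 35) (nat_lit 1) (nat_lit 38) (nat_lit 1) (nat_lit 256) (nat_lit 251) (nat_lit 213)) (XT.lf (nat_lit 84) (nat_lit 278540590) (nat_lit 0) (nat_lit 402743636) (nat_lit 336) (nat_lit 2378819062) (nat_lit 32) (nat_lit 1) (nat_lit 31) (nat_lit 1) (nat_lit 35) (nat_lit 1) (nat_lit 257) (nat_lit 251) (nat_lit 212))))) (XT.nd (nat_lit 282) (nat_lit 756) (nat_lit 0) (XT.nd (nat_lit 94) (nat_lit 252) (nat_lit 0) (XT.lf (nat_lit 336) (nat_lit 1552994384) (nat_lit 0) (nat_lit 317066058) (nat_lit 252) (nat_lit 1134339650) (nat_lit 32) (nat_lit 1) (nat_lit 28) (nat_lit 1) (nat_lit 31) (nat_lit 1) (nat_lit 258) (nat_lit 251) (nat_lit 211)) (XT.nd (nat_lit 94) (nat_lit 252) (nat_lit 0) (XT.lf (nat_lit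 84) (nat_lit 450720010) (nat_lit 0) (nat_lit 2481098649) (nat_lit 336) (nat_lit 18446921) (nat_lit 29) (nat_lit 1) (nat_lit 28) (nat_lit 1) (nat_lit 32) (nat_lit 1) (nat_lit 259) (nat_lit 251) (nat_lit 210)) (XT.lf (nat_lit 84) (nat_lit 1971178264) (nat_lit 0) (nat_lit 591419663) (nat_lit 252) (nat_lit 334451614) (nat_lit 26) (nat_lit 1) (nat_lit 25) (nat_lit 1) (nat_lit 28) (nat_lit 1) (nat_lit 260) (nat_lit 251) (nat_lit 209)))) (XT.nd (nat_lit 94) (nat_lit 504) (nat_lit 0) (XT.lf (nat_lit 84) (nat_lit 590140197) (nat_lit 0) (nat_lit 1623038429) (nat_lit 336) (nat_lit 631906352) (nat_lit 23) (nat_lit 1) (nat_lit 22) (nat_lit 1) (nat_lit 26) (nat_lit 1) (nat_lit 261) (nat_lit 251) (nat_lit 208)) (XT.nd (nat_lit 94) (nat_lit 336) (nat_lit 0) (XT.lf (nat_lit 252) (nat_lit 154362094) (nat_lit 0) (nat_lit 1884272909) (nat_lit 168) (nat_lit 755752656) (nat_lit 23) (nat_lit 1) (nat_lit 20) (nat_lit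 1) (nat_lit 22) (nat_lit 1) (nat_lit 262) (nat_lit 251) (nat_lit 207)) (XT.lf (nat_lit 84) (nat_lit 691300527) (nat_lit 0) (nat_lit 875291711) (nat_lit 336) (nat_lit 1178043050) (nat_lit 17) (nat_lit 1) (nat_lit 16) (nat_lit 1) (nat_lit 20) (nat_lit 1) (nat_lit 263) (nat_lit 251) (nat_lit 206))))))))
noncomputable def ec13 : XT := (XT.nd (nat_lit 2068) (nat_lit 6468) (nat_lit 0) (XT.nd (nat_lit 1034) (nat_lit 4368) (nat_lit 0) (XT.nd (nat_lit 470) (nat_lit 672) (nat_lit 0) (XT.nd (nat_lit 188) (nat_lit 0) (nat_lit 84) (XT.nd (nat_lit 94) (nat_lit 0) (nat_lit 0) (XT.lf (nat_lit 1260) (nat_lit 1034732118) (nat_lit 0) (nat_lit 1574297664) (nat_lit 1260) (nat_lit 1034732118) (nat_lit 174) (nat_lit 1) (nat_lit 159) (nat_lit 0) (nat_lit 174) (nat_lit 0) (nat_lit 216) (nat_lit 252) (nat_lit 252)) (XT.lf (nat_lit 1260) (nat_lit 4005141877) (nat_lit 84) (nat_lit 3055870513) (nat_lit 0) (nat_lit 51807226)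 (nat_lit 174) (nat_lit 1) (nat_lit 160) (nat_lit 1) (nat_lit 159) (nat_lit 0) (nat_lit 217) (nat_lit 252) (nat_lit 251))) (XT.nd (nat_lit 94) (nat_lit 0) (nat_lit 84) (XT.lf (nat_lit 1260) (nat_lit 3786462580) (nat_lit 84) (nat_lit 1005514797) (nat_lit 0) (nat_lit 2151371096) (nat_lit 175) (nat_lit 1) (nat_lit 161) (nat_lit 1) (nat_lit 160) (nat_lit 1) (nat_lit 218) (nat_lit 252) (nat_lit 250)) (XT.nd (nat_lit 94) (nat_lit 0) (nat_lit 84) (XT.lf (nat_lit 1260) (nat_lit 2607156431) (nat_lit 0) (nat_lit 3278066965) (nat_lit 1176) (nat_lit 894122922) (nat_lit 176) (nat_lit 1) (nat_lit 161) (nat_lit 1) (nat_lit 175) (nat_lit 1) (nat_lit 219) (nat_lit 252) (nat_lit 249)) (XT.lf (nat_lit 1260) (nat_lit 504432170) (nat_lit 0) (nat_lit 3466367356) (nat_lit 1176) (nat_lit 2649803119) (nat_lit 177) (nat_lit 1) (nat_lit 162) (nat_lit 1) (nat_lit 176) (nat_lit 1) (nat_lit 220) (nat_lit 252) (nat_lit 248)))))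 (XT.nd (nat_lit 282) (nat_lit 924) (nat_lit 0) (XT.nd (nat_lit 94) (nat_lit 0) (nat_lit 84) (XT.lf (nat_lit 1260) (nat_lit 2742828777) (nat_lit 84) (nat_lit 2159312119) (nat_lit 0) (nat_lit 1564541944) (nat_lit 177) (nat_lit 1) (nat_lit 163) (nat_lit 1) (nat_lit 162) (nat_lit 1) (nat_lit 221) (nat_lit 252) (nat_lit 247)) (XT.nd (nat_lit 94) (nat_lit 0) (nat_lit 84) (XT.lf (nat_lit 1260) (nat_lit 2283661248) (nat_lit 84) (nat_lit 458072252) (nat_lit 0) (nat_lit 3576081451) (nat_lit 178) (nat_lit 1) (nat_lit 164) (nat_lit 1) (nat_lit 163) (nat_lit 1) (nat_lit 222) (nat_lit 252) (nat_lit 246)) (XT.lf (nat_lit 1260) (nat_lit 666455131) (nat_lit 0) (nat_lit 4400456577) (nat_lit 1176) (nat_lit 1106647023) (nat_lit 179) (nat_lit 1) (nat_lit 164) (nat_lit 1) (nat_lit 178) (nat_lit 1) (nat_lit 223) (nat_lit 252) (nat_lit 245)))) (XT.nd (nat_lit 94) (nat_lit 1092) (nat_lit 0) (XT.lf (nat_lit 1260) (nat_lit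 1207670960) (nat_lit 84) (nat_lit 3460630202) (nat_lit 0) (nat_lit 1365192959) (nat_lit 179) (nat_lit 1) (nat_lit 165) (nat_lit 1) (nat_lit 164) (nat_lit 1) (nat_lit 224) (nat_lit 252) (nat_lit 244)) (XT.nd (nat_lit 94) (nat_lit 1176) (nat_lit 0) (XT.lf (nat_lit 1260) (nat_lit 604344594) (nat_lit 84) (nat_lit 1950538795) (nat_lit 0) (nat_lit 3343023868) (nat_lit 180) (nat_lit 1) (nat_lit 166) (nat_lit 1) (nat_lit 165) (nat_lit 1) (nat_lit 225) (nat_lit 252) (nat_lit 243)) (XT.lf (nat_lit 84) (nat_lit 513812454) (nat_lit 0) (nat_lit 25606644) (nat_lit 1260) (nat_lit 5227455606) (nat_lit 152) (nat_lit 1) (nat_lit 151) (nat_lit 1) (nat_lit 166) (nat_lit 1) (nat_lit 226) (nat_lit 252) (nat_lit 242)))))) (XT.nd (nat_lit 470) (nat_lit 2520) (nat_lit 0) (XT.nd (nat_lit 188) (nat_lit 1176) (nat_lit 0) (XT.nd (nat_lit 94) (nat_lit 672) (nat_lit 0) (XT.lf (nat_lit 84) (nat_lit 4164565716) (nat_lit 0)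 (nat_lit 691338248) (nat_lit 1260) (nat_lit 783194376) (nat_lit 152) (nat_lit 1) (nat_lit 151) (nat_lit 1) (nat_lit 166) (nat_lit 1) (nat_lit 227) (nat_lit 252) (nat_lit 241)) (XT.lf (nat_lit 84) (nat_lit 2115684660) (nat_lit 0) (nat_lit 1388814340) (nat_lit 756) (nat_lit 2010686955) (nat_lit 144) (nat_lit 1) (nat_lit 143) (nat_lit 1) (nat_lit 152) (nat_lit 1) (nat_lit 228) (nat_lit 252) (nat_lit 240))) (XT.nd (nat_lit 94) (nat_lit 588) (nat_lit 0) (XT.lf (nat_lit 84) (nat_lit 138044182) (nat_lit 0) (nat_lit 2103898200) (nat_lit 672) (nat_lit 3153453045) (nat_lit 137) (nat_lit 1) (nat_lit 136) (nat_lit 1) (nat_lit 144) (nat_lit 1) (nat_lit 229) (nat_lit 252) (nat_lit 239)) (XT.nd (nat_lit 94) (nat_lit 0) (nat_lit 0) (XT.lf (nat_lit 672) (nat_lit 2424154671) (nat_lit 0) (nat_lit 1043277431) (nat_lit 588) (nat_lit 1811434748) (nat_lit 137) (nat_lit 1) (nat_lit 129) (nat_lit 1) (nat_lit 136)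 (nat_lit 1) (nat_lit 230) (nat_lit 252) (nat_lit 238)) (XT.lf (nat_lit 84) (nat_lit 1471684748) (nat_lit 0) (nat_lit 3620790723) (nat_lit 672) (nat_lit 73626164) (nat_lit 130) (nat_lit 1) (nat_lit 129) (nat_lit 1) (nat_lit 137) (nat_lit 1) (nat_lit 231) (nat_lit 252) (nat_lit 237))))) (XT.nd (nat_lit 282) (nat_lit 924) (nat_lit 0) (XT.nd (nat_lit 94) (nat_lit 1092) (nat_lit 0) (XT.lf (nat_lit 588) (nat_lit 642746245) (nat_lit 0) (nat_lit 3960732943) (nat_lit 504) (nat_lit 453009643) (nat_lit 130) (nat_lit 1) (nat_lit 123) (nat_lit 1) (nat_lit 129) (nat_lit 1) (nat_lit 232) (nat_lit 252) (nat_lit 236)) (XT.nd (nat_lit 94) (nat_lit 504) (nat_lit 0) (XT.lf (nat_lit 84) (nat_lit 2610449559) (nat_lit 0) (nat_lit 274985093) (nat_lit 588) (nat_lit 2064369277) (nat_lit 117) (nat_lit 1) (nat_lit 116) (nat_lit 1) (nat_lit 123) (nat_lit 1) (nat_lit 233) (nat_lit 252) (nat_lit 235)) (XT.lf (nat_lit 84)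 (nat_lit 695330995) (nat_lit 0) (nat_lit 1180900831) (nat_lit 588) (nat_lit 2970126917) (nat_lit 111) (nat_lit 1) (nat_lit 110) (nat_lit 1) (nat_lit 117) (nat_lit 1) (nat_lit 234) (nat_lit 252) (nat_lit 234)))) (XT.nd (nat_lit 94) (nat_lit 420) (nat_lit 0) (XT.lf (nat_lit 588) (nat_lit 2644351144) (nat_lit 0) (nat_lit 923602932) (nat_lit 504) (nat_lit 1177862859) (nat_lit 111) (nat_lit 1) (nat_lit 104) (nat_lit 1) (nat_lit 110) (nat_lit 1) (nat_lit 235) (nat_lit 252) (nat_lit 233)) (XT.nd (nat_lit 94) (nat_lit 0) (nat_lit 0) (XT.lf (nat_lit 504) (nat_lit 1618683239) (nat_lit 0) (nat_lit 30503250) (nat_lit 420) (nat_lit 2999077808) (nat_lit 105) (nat_lit 1) (nat_lit 99) (nat_lit 1) (nat_lit 104) (nat_lit 1) (nat_lit 236) (nat_lit 252) (nat_lit 232)) (XT.lf (nat_lit 504) (nat_lit 586114488) (nat_lit 0) (nat_lit 3771422735) (nat_lit 420) (nat_lit 195934797) (nat_lit 105) (nat_lit 1) (nat_lit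 99) (nat_lit 1) (nat_lit 104) (nat_lit 1) (nat_lit 237) (nat_lit 252) (nat_lit 231))))))) (XT.nd (nat_lit 1034) (nat_lit 2604) (nat_lit 0) (XT.nd (nat_lit 470) (nat_lit 2100) (nat_lit 0) (XT.nd (nat_lit 188) (nat_lit 840) (nat_lit 0) (XT.nd (nat_lit 94) (nat_lit 420) (nat_lit 0) (XT.lf (nat_lit 84) (nat_lit 2455170728) (nat_lit 0) (nat_lit 448947646) (nat_lit 504) (nat_lit 1556796856) (nat_lit 94) (nat_lit 1) (nat_lit 93) (nat_lit 1) (nat_lit 99) (nat_lit 1) (nat_lit 238) (nat_lit 252) (nat_lit 230)) (XT.lf (nat_lit 84) (nat_lit 628067753) (nat_lit 0) (nat_lit 1463277677) (nat_lit 504) (nat_lit 2279760322) (nat_lit 89) (nat_lit 1) (nat_lit 88) (nat_lit 1) (nat_lit 94) (nat_lit 1) (nat_lit 239) (nat_lit 252) (nat_lit 229))) (XT.nd (nat_lit 94) (nat_lit 420) (nat_lit 0) (XT.lf (nat_lit 504) (nat_lit 1801275596) (nat_lit 0) (nat_lit 1323718974) (nat_lit 420) (nat_lit 1158718742) (nat_lit 89)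 (nat_lit 1) (nat_lit 83) (nat_lit 1) (nat_lit 88) (nat_lit 1) (nat_lit 240) (nat_lit 252) (nat_lit 228)) (XT.nd (nat_lit 94) (nat_lit 84) (nat_lit 0) (XT.lf (nat_lit 420) (nat_lit 699499924) (nat_lit 0) (nat_lit 605286416) (nat_lit 336) (nat_lit 2894075725) (nat_lit 84) (nat_lit 1) (nat_lit 79) (nat_lit 1) (nat_lit 83) (nat_lit 1) (nat_lit 241) (nat_lit 252) (nat_lit 227)) (XT.lf (nat_lit 84) (nat_lit 3662366836) (nat_lit 0) (nat_lit 386683921) (nat_lit 420) (nat_lit 67295990) (nat_lit 79) (nat_lit 1) (nat_lit 78) (nat_lit 1) (nat_lit 83) (nat_lit 1) (nat_lit 242) (nat_lit 252) (nat_lit 226))))) (XT.nd (nat_lit 282) (nat_lit 1008) (nat_lit 0) (XT.nd (nat_lit 94) (nat_lit 672) (nat_lit 0) (XT.lf (nat_lit 84) (nat_lit 1872897536) (nat_lit 0) (nat_lit 1464827261) (nat_lit 504) (nat_lit 697718559) (nat_lit 74) (nat_lit 1) (nat_lit 73) (nat_lit 1) (nat_lit 79) (nat_lit 1) (nat_lit 243) (nat_lit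 252) (nat_lit 225)) (XT.nd (nat_lit 94) (nat_lit 336) (nat_lit 0) (XT.lf (nat_lit 84) (nat_lit 149150661) (nat_lit 0) (nat_lit 2528744526) (nat_lit 420) (nat_lit 1279198327) (nat_lit 70) (nat_lit 1) (nat_lit 69) (nat_lit 1) (nat_lit 74) (nat_lit 1) (nat_lit 244) (nat_lit 252) (nat_lit 224)) (XT.lf (nat_lit 420) (nat_lit 285159126) (nat_lit 0) (nat_lit 2049405846) (nat_lit 336) (nat_lit 1546039040) (nat_lit 70) (nat_lit 1) (nat_lit 65) (nat_lit 1) (nat_lit 69) (nat_lit 1) (nat_lit 245) (nat_lit 252) (nat_lit 223)))) (XT.nd (nat_lit 94) (nat_lit 588) (nat_lit 0) (XT.lf (nat_lit 84) (nat_lit 634140937) (nat_lit 0) (nat_lit 822969977) (nat_lit 420) (nat_lit 2349016652) (nat_lit 61) (nat_lit 1) (nat_lit 60) (nat_lit 1) (nat_lit 65) (nat_lit 1) (nat_lit 246) (nat_lit 252) (nat_lit 222)) (XT.nd (nat_lit 94) (nat_lit 252) (nat_lit 0) (XT.lf (nat_lit 420) (nat_lit 1814796250) (nat_lit 0) (nat_lit 895435628)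 (nat_lit 336) (nat_lit 1023232506) (nat_lit 61) (nat_lit 1) (nat_lit 56) (nat_lit 1) (nat_lit 60) (nat_lit 1) (nat_lit 247) (nat_lit 252) (nat_lit 221)) (XT.lf (nat_lit 336) (nat_lit 659295137) (nat_lit 0) (nat_lit 370633384) (nat_lit 252) (nat_lit 2632886299) (nat_lit 57) (nat_lit 1) (nat_lit 53) (nat_lit 1) (nat_lit 56) (nat_lit 1) (nat_lit 248) (nat_lit 252) (nat_lit 220)))))) (XT.nd (nat_lit 470) (nat_lit 1344) (nat_lit 0) (XT.nd (nat_lit 188) (nat_lit 840) (nat_lit 0) (XT.nd (nat_lit 94) (nat_lit 336) (nat_lit 0) (XT.lf (nat_lit 84) (nat_lit 2999309453) (nat_lit 0) (nat_lit 473206735) (nat_lit 336) (nat_lit 121370298) (nat_lit 53) (nat_lit 1) (nat_lit 52) (nat_lit 1) (nat_lit 56) (nat_lit 1) (nat_lit 249) (nat_lit 252) (nat_lit 219)) (XT.lf (nat_lit 84) (nat_lit 1356556564) (nat_lit 0) (nat_lit 1585972852) (nat_lit 420) (nat_lit 583771122) (nat_lit 49) (nat_lit 1) (nat_lit 48) (nat_lit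 1) (nat_lit 53) (nat_lit 1) (nat_lit 250) (nat_lit 252) (nat_lit 218))) (XT.nd (nat_lit 94) (nat_lit 588) (nat_lit 0) (XT.lf (nat_lit 336) (nat_lit 780012760) (nat_lit 0) (nat_lit 2450564218) (nat_lit 252) (nat_lit 230132846) (nat_lit 49) (nat_lit 1) (nat_lit 45) (nat_lit 1) (nat_lit 48) (nat_lit 1) (nat_lit 251) (nat_lit 252) (nat_lit 217)) (XT.nd (nat_lit 94) (nat_lit 252) (nat_lit 0) (XT.lf (nat_lit 84) (nat_lit 1613103901) (nat_lit 0) (nat_lit 364730206) (nat_lit 336) (nat_lit 1418634810) (nat_lit 42) (nat_lit 1) (nat_lit 41) (nat_lit 1) (nat_lit 45) (nat_lit 1) (nat_lit 252) (nat_lit 252) (nat_lit 216)) (XT.lf (nat_lit 84) (nat_lit 64646662) (nat_lit 0) (nat_lit 1469493187) (nat_lit 336) (nat_lit 1799759404) (nat_lit 39) (nat_lit 1) (nat_lit 38) (nat_lit 1) (nat_lit 42) (nat_lit 1) (nat_lit 253) (nat_lit 252) (nat_lit 215))))) (XT.nd (nat_lit 282) (nat_lit 504) (nat_lit 0) (XT.nd (nat_lit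 94) (nat_lit 588) (nat_lit 0) (XT.lf (nat_lit 336) (nat_lit 704147827) (nat_lit 0) (nat_lit 1109947027) (nat_lit 252) (nat_lit 1458573714) (nat_lit 39) (nat_lit 1) (nat_lit 35) (nat_lit 1) (nat_lit 38) (nat_lit 1) (nat_lit 254) (nat_lit 252) (nat_lit 214)) (XT.nd (nat_lit 94) (nat_lit 252) (nat_lit 0) (XT.lf (nat_lit 84) (nat_lit 292467619) (nat_lit 0) (nat_lit 422880818) (nat_lit 336) (nat_lit 2497760015) (nat_lit 32) (nat_lit 1) (nat_lit 31) (nat_lit 1) (nat_lit 35) (nat_lit 1) (nat_lit 255) (nat_lit 252) (nat_lit 213)) (XT.lf (nat_lit 336) (nat_lit 1630644103) (nat_lit 0) (nat_lit 332919361) (nat_lit 252) (nat_lit 1191056633) (nat_lit 32) (nat_lit 1) (nat_lit 28) (nat_lit 1) (nat_lit 31) (nat_lit 1) (nat_lit 256) (nat_lit 252) (nat_lit 212)))) (XT.nd (nat_lit 94) (nat_lit 504) (nat_lit 0) (XT.lf (nat_lit 84) (nat_lit 473256010) (nat_lit 0) (nat_lit 2605153582) (nat_lit 336) (nat_lit 19369267)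 (nat_lit 29) (nat_lit 1) (nat_lit 28) (nat_lit 1) (nat_lit 32) (nat_lit 1) (nat_lit 257) (nat_lit 252) (nat_lit 211)) (XT.nd (nat_lit 94) (nat_lit 252) (nat_lit 0) (XT.lf (nat_lit 84) (nat_lit 2069737177) (nat_lit 0) (nat_lit 620990647) (nat_lit 252) (nat_lit 351174195) (nat_lit 26) (nat_lit 1) (nat_lit 25) (nat_lit 1) (nat_lit 28) (nat_lit 1) (nat_lit 258) (nat_lit 252) (nat_lit 210)) (XT.lf (nat_lit 84) (nat_lit 619647207) (nat_lit 0) (nat_lit 1704190350) (nat_lit 336) (nat_lit 663501670) (nat_lit 23) (nat_lit 1) (nat_lit 22) (nat_lit 1) (nat_lit 26) (nat_lit 1) (nat_lit 259) (nat_lit 252) (nat_lit 209))))))))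
noncomputable def ec14 : XT := (XT.nd (nat_lit 42582) (nat_lit 0) (nat_lit 1680) (XT.nd (nat_lit 41548) (nat_lit 0) (nat_lit 8820) (XT.nd (nat_lit 40984) (nat_lit 0) (nat_lit 12432) (XT.nd (nat_lit 188) (nat_lit 420) (nat_lit 0) (XT.nd (nat_lit 94) (nat_lit 336) (nat_lit 0) (XT.lf (nat_lit 252) (nat_lit 162080199) (nat_lit 0) (nat_lit 1978486555) (nat_lit 168) (nat_lit 793540289) (nat_lit 23) (nat_lit 1) (nat_lit 20) (nat_lit 1) (nat_lit 22) (nat_lit 1) (nat_lit 260) (nat_lit 252) (nat_lit 208)) (XT.lf (nat_lit 84) (nat_lit 725865553) (nat_lit 0) (nat_lit 919056297) (nat_lit 336) (nat_lit 1236945202) (nat_lit 17) (nat_lit 1) (nat_lit 16) (nat_lit 1) (nat_lit 20) (nat_lit 1) (nat_lit 261) (nat_lit 252) (nat_lit 207))) (XT.nd (nat_lit 94) (nat_lit 252) (nat_lit 0) (XT.lf (nat_lit 252) (nat_lit 851917879) (nat_lit 0) (nat_lit 1330909388) (nat_lit 168) (nat_lit 648046125) (nat_lit 17) (nat_lit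 1) (nat_lit 14) (nat_lit 1) (nat_lit 16) (nat_lit 1) (nat_lit 262) (nat_lit 252) (nat_lit 206)) (XT.nd (nat_lit 40608) (nat_lit 0) (nat_lit 12432) (XT.lf (nat_lit 84) (nat_lit 798054137) (nat_lit 0) (nat_lit 235709678) (nat_lit 252) (nat_lit 1747263079) (nat_lit 12) (nat_lit 1) (nat_lit 11) (nat_lit 1) (nat_lit 14) (nat_lit 1) (nat_lit 263) (nat_lit 252) (nat_lit 205)) (XT.lf (nat_lit 1260) (nat_lit 1086468724) (nat_lit 0) (nat_lit 1653012547) (nat_lit 1260) (nat_lit 1086468724) (nat_lit 174) (nat_lit 1) (nat_lit 159) (nat_lit 0) (nat_lit 174) (nat_lit 0) (nat_lit 214) (nat_lit 253) (nat_lit 253))))) (XT.nd (nat_lit 282) (nat_lit 0) (nat_lit 252) (XT.nd (nat_lit 94) (nat_lit 0) (nat_lit 84) (XT.lf (nat_lit 1260) (nat_lit 4205398971) (nat_lit 84) (nat_lit 3208664038) (nat_lit 0) (nat_lit 54397588) (nat_lit 174) (nat_lit 1) (nat_lit 160) (nat_lit 1) (nat_lit 159) (nat_lit 0) (nat_lit 215) (nat_lit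 253) (nat_lit 252)) (XT.nd (nat_lit 94) (nat_lit 0) (nat_lit 84) (XT.lf (nat_lit 1260) (nat_lit 3975785709) (nat_lit 84) (nat_lit 1055790536) (nat_lit 0) (nat_lit 2258939651) (nat_lit 175) (nat_lit 1) (nat_lit 161) (nat_lit 1) (nat_lit 160) (nat_lit 1) (nat_lit 216) (nat_lit 253) (nat_lit 251)) (XT.lf (nat_lit 1260) (nat_lit 2737514252) (nat_lit 0) (nat_lit 3441970313) (nat_lit 1176) (nat_lit 938829068) (nat_lit 176) (nat_lit 1) (nat_lit 161) (nat_lit 1) (nat_lit 175) (nat_lit 1) (nat_lit 217) (nat_lit 253) (nat_lit 250)))) (XT.nd (nat_lit 94) (nat_lit 0) (nat_lit 0) (XT.lf (nat_lit 1260) (nat_lit 529653778) (nat_lit 0) (nat_lit 3639685724) (nat_lit 1176) (nat_lit 2782293275) (nat_lit 177) (nat_lit 1) (nat_lit 162) (nat_lit 1) (nat_lit 176) (nat_lit 1) (nat_lit 218) (nat_lit 253) (nat_lit 249)) (XT.nd (nat_lit 94) (nat_lit 0) (nat_lit 84) (XT.lf (nat_lit 1260) (nat_lit 2879970216) (nat_lit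 84) (nat_lit 2267277725) (nat_lit 0) (nat_lit 1642769041) (nat_lit 177) (nat_lit 1) (nat_lit 163) (nat_lit 1) (nat_lit 162) (nat_lit 1) (nat_lit 219) (nat_lit 253) (nat_lit 248)) (XT.lf (nat_lit 1260) (nat_lit 2397844311) (nat_lit 84) (nat_lit 480975865) (nat_lit 0) (nat_lit 3754885524) (nat_lit 178) (nat_lit 1) (nat_lit 164) (nat_lit 1) (nat_lit 163) (nat_lit 1) (nat_lit 220) (nat_lit 253) (nat_lit 247)))))) (XT.nd (nat_lit 470) (nat_lit 2940) (nat_lit 0) (XT.nd (nat_lit 188) (nat_lit 1092) (nat_lit 0) (XT.nd (nat_lit 94) (nat_lit 0) (nat_lit 0) (XT.lf (nat_lit 1260) (nat_lit 699777888) (nat_lit 0) (nat_lit 4620479406) (nat_lit 1176) (nat_lit 1161979374) (nat_lit 179) (nat_lit 1) (nat_lit 164) (nat_lit 1) (nat_lit 178) (nat_lit 1) (nat_lit 221) (nat_lit 253) (nat_lit 246)) (XT.lf (nat_lit 1260) (nat_lit 1268054508) (nat_lit 84) (nat_lit 3633661712) (nat_lit 0) (nat_lit 1433452607) (nat_lit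 179) (nat_lit 1) (nat_lit 165) (nat_lit 1) (nat_lit 164) (nat_lit 1) (nat_lit 222) (nat_lit 253) (nat_lit 245))) (XT.nd (nat_lit 94) (nat_lit 1176) (nat_lit 0) (XT.lf (nat_lit 1260) (nat_lit 634561823) (nat_lit 84) (nat_lit 2048065735) (nat_lit 0) (nat_lit 3510175061) (nat_lit 180) (nat_lit 1) (nat_lit 166) (nat_lit 1) (nat_lit 165) (nat_lit 1) (nat_lit 223) (nat_lit 253) (nat_lit 244)) (XT.nd (nat_lit 94) (nat_lit 0) (nat_lit 0) (XT.lf (nat_lit 84) (nat_lit 539503077) (nat_lit 0) (nat_lit 26886976) (nat_lit 1260) (nat_lit 5488828386) (nat_lit 152) (nat_lit 1) (nat_lit 151) (nat_lit 1) (nat_lit 166) (nat_lit 1) (nat_lit 224) (nat_lit 253) (nat_lit 243)) (XT.lf (nat_lit 84) (nat_lit 4372794002) (nat_lit 0) (nat_lit 725905160) (nat_lit 1260) (nat_lit 822354094) (nat_lit 152) (nat_lit 1) (nat_lit 151) (nat_lit 1) (nat_lit 166) (nat_lit 1) (nat_lit 225) (nat_lit 253) (nat_lit 242))))) (XT.nd (nat_lit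 282) (nat_lit 1092) (nat_lit 0) (XT.nd (nat_lit 94) (nat_lit 1176) (nat_lit 0) (XT.lf (nat_lit 84) (nat_lit 2221468893) (nat_lit 0) (nat_lit 1458255057) (nat_lit 756) (nat_lit 2111221302) (nat_lit 144) (nat_lit 1) (nat_lit 143) (nat_lit 1) (nat_lit 152) (nat_lit 1) (nat_lit 226) (nat_lit 253) (nat_lit 241)) (XT.nd (nat_lit 94) (nat_lit 588) (nat_lit 0) (XT.lf (nat_lit 84) (nat_lit 144946392) (nat_lit 0) (nat_lit 2209093110) (nat_lit 672) (nat_lit 3311125697) (nat_lit 137) (nat_lit 1) (nat_lit 136) (nat_lit 1) (nat_lit 144) (nat_lit 1) (nat_lit 227) (nat_lit 253) (nat_lit 240)) (XT.lf (nat_lit 672) (nat_lit 2545362405) (nat_lit 0) (nat_lit 1095441302) (nat_lit 588) (nat_lit 1902006485) (nat_lit 137) (nat_lit 1) (nat_lit 129) (nat_lit 1) (nat_lit 136) (nat_lit 1) (nat_lit 228) (nat_lit 253) (nat_lit 239)))) (XT.nd (nat_lit 94) (nat_lit 1092) (nat_lit 0) (XT.lf (nat_lit 84) (nat_lit 1545268986)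 (nat_lit 0) (nat_lit 3801830260) (nat_lit 672) (nat_lit 77307473) (nat_lit 130) (nat_lit 1) (nat_lit 129) (nat_lit 1) (nat_lit 137) (nat_lit 1) (nat_lit 229) (nat_lit 253) (nat_lit 238)) (XT.nd (nat_lit 94) (nat_lit 588) (nat_lit 0) (XT.lf (nat_lit 588) (nat_lit 674883557) (nat_lit 0) (nat_lit 4158769590) (nat_lit 504) (nat_lit 475660125) (nat_lit 130) (nat_lit 1) (nat_lit 123) (nat_lit 1) (nat_lit 129) (nat_lit 1) (nat_lit 230) (nat_lit 253) (nat_lit 237)) (XT.lf (nat_lit 84) (nat_lit 2740972037) (nat_lit 0) (nat_lit 288734348) (nat_lit 588) (nat_lit 2167587741) (nat_lit 117) (nat_lit 1) (nat_lit 116) (nat_lit 1) (nat_lit 123) (nat_lit 1) (nat_lit 231) (nat_lit 253) (nat_lit 236))))))) (XT.nd (nat_lit 1034) (nat_lit 3192) (nat_lit 0) (XT.nd (nat_lit 470) (nat_lit 2016) (nat_lit 0) (XT.nd (nat_lit 188) (nat_lit 924) (nat_lit 0) (XT.nd (nat_lit 94) (nat_lit 504) (nat_lit 0) (XT.lf (nat_lit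 84) (nat_lit 730097545) (nat_lit 0) (nat_lit 1239945873) (nat_lit 588) (nat_lit 3118633263) (nat_lit 111) (nat_lit 1) (nat_lit 110) (nat_lit 1) (nat_lit 117) (nat_lit 1) (nat_lit 232) (nat_lit 253) (nat_lit 235)) (XT.lf (nat_lit 588) (nat_lit 2776568701) (nat_lit 0) (nat_lit 969783078) (nat_lit 504) (nat_lit 1236756002) (nat_lit 111) (nat_lit 1) (nat_lit 104) (nat_lit 1) (nat_lit 110) (nat_lit 1) (nat_lit 233) (nat_lit 253) (nat_lit 234))) (XT.nd (nat_lit 94) (nat_lit 504) (nat_lit 0) (XT.lf (nat_lit 504) (nat_lit 1699617401) (nat_lit 0) (nat_lit 32028412) (nat_lit 420) (nat_lit 3149031698) (nat_lit 105) (nat_lit 1) (nat_lit 99) (nat_lit 1) (nat_lit 104) (nat_lit 1) (nat_lit 234) (nat_lit 253) (nat_lit 233)) (XT.nd (nat_lit 94) (nat_lit 504) (nat_lit 0) (XT.lf (nat_lit 504) (nat_lit 615420212) (nat_lit 0) (nat_lit 3959993872) (nat_lit 420) (nat_lit 205731537) (nat_lit 105) (nat_lit 1) (nat_lit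 99) (nat_lit 1) (nat_lit 104) (nat_lit 1) (nat_lit 235) (nat_lit 253) (nat_lit 232)) (XT.lf (nat_lit 84) (nat_lit 2577929265) (nat_lit 0) (nat_lit 471395029) (nat_lit 504) (nat_lit 1634636699) (nat_lit 94) (nat_lit 1) (nat_lit 93) (nat_lit 1) (nat_lit 99) (nat_lit 1) (nat_lit 236) (nat_lit 253) (nat_lit 231))))) (XT.nd (nat_lit 282) (nat_lit 840) (nat_lit 0) (XT.nd (nat_lit 94) (nat_lit 756) (nat_lit 0) (XT.lf (nat_lit 84) (nat_lit 659471140) (nat_lit 0) (nat_lit 1536441560) (nat_lit 504) (nat_lit 2393748338) (nat_lit 89) (nat_lit 1) (nat_lit 88) (nat_lit 1) (nat_lit 94) (nat_lit 1) (nat_lit 237) (nat_lit 253) (nat_lit 230)) (XT.nd (nat_lit 94) (nat_lit 336) (nat_lit 0) (XT.lf (nat_lit 504) (nat_lit 1891339376) (nat_lit 0) (nat_lit 1389904923) (nat_lit 420) (nat_lit 1216654679) (nat_lit 89) (nat_lit 1) (nat_lit 83) (nat_lit 1) (nat_lit 88) (nat_lit 1) (nat_lit 238) (nat_lit 253) (nat_lit 229))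 (XT.lf (nat_lit 420) (nat_lit 734474920) (nat_lit 0) (nat_lit 635550737) (nat_lit 336) (nat_lit 3038779511) (nat_lit 84) (nat_lit 1) (nat_lit 79) (nat_lit 1) (nat_lit 83) (nat_lit 1) (nat_lit 239) (nat_lit 253) (nat_lit 228)))) (XT.nd (nat_lit 94) (nat_lit 756) (nat_lit 0) (XT.lf (nat_lit 84) (nat_lit 3845485178) (nat_lit 0) (nat_lit 406018117) (nat_lit 420) (nat_lit 70660790) (nat_lit 79) (nat_lit 1) (nat_lit 78) (nat_lit 1) (nat_lit 83) (nat_lit 1) (nat_lit 240) (nat_lit 253) (nat_lit 227)) (XT.nd (nat_lit 94) (nat_lit 336) (nat_lit 0) (XT.lf (nat_lit 84) (nat_lit 1966542413) (nat_lit 0) (nat_lit 1538068624) (nat_lit 504) (nat_lit 732604487) (nat_lit 74) (nat_lit 1) (nat_lit 73) (nat_lit 1) (nat_lit 79) (nat_lit 1) (nat_lit 241) (nat_lit 253) (nat_lit 226)) (XT.lf (nat_lit 84) (nat_lit 156608194) (nat_lit 0) (nat_lit 2655181752) (nat_lit 420) (nat_lit 1343158244) (nat_lit 70) (nat_lit 1)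 (nat_lit 69) (nat_lit 1) (nat_lit 74) (nat_lit 1) (nat_lit 242) (nat_lit 253) (nat_lit 225)))))) (XT.nd (nat_lit 470) (nat_lit 1764) (nat_lit 0) (XT.nd (nat_lit 188) (nat_lit 672) (nat_lit 0) (XT.nd (nat_lit 94) (nat_lit 420) (nat_lit 0) (XT.lf (nat_lit 420) (nat_lit 299417083) (nat_lit 0) (nat_lit 2151876139) (nat_lit 336) (nat_lit 1623340992) (nat_lit 70) (nat_lit 1) (nat_lit 65) (nat_lit 1) (nat_lit 69) (nat_lit 1) (nat_lit 243) (nat_lit 253) (nat_lit 224)) (XT.lf (nat_lit 84) (nat_lit 665847984) (nat_lit 0) (nat_lit 864118476) (nat_lit 420) (nat_lit 2466467485) (nat_lit 61) (nat_lit 1) (nat_lit 60) (nat_lit 1) (nat_lit 65) (nat_lit 1) (nat_lit 244) (nat_lit 253) (nat_lit 223))) (XT.nd (nat_lit 94) (nat_lit 336) (nat_lit 0) (XT.lf (nat_lit 420) (nat_lit 1905536063) (nat_lit 0) (nat_lit 940207409) (nat_lit 336) (nat_lit 1074394131) (nat_lit 61) (nat_lit 1) (nat_lit 56) (nat_lit 1) (nat_lit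 60) (nat_lit 1) (nat_lit 245) (nat_lit 253) (nat_lit 222)) (XT.nd (nat_lit 94) (nat_lit 84) (nat_lit 0) (XT.lf (nat_lit 336) (nat_lit 692259894) (nat_lit 0) (nat_lit 389165053) (nat_lit 252) (nat_lit 2764530614) (nat_lit 57) (nat_lit 1) (nat_lit 53) (nat_lit 1) (nat_lit 56) (nat_lit 1) (nat_lit 246) (nat_lit 253) (nat_lit 221)) (XT.lf (nat_lit 84) (nat_lit 3149274926) (nat_lit 0) (nat_lit 496867072) (nat_lit 336) (nat_lit 127438813) (nat_lit 53) (nat_lit 1) (nat_lit 52) (nat_lit 1) (nat_lit 56) (nat_lit 1) (nat_lit 247) (nat_lit 253) (nat_lit 220))))) (XT.nd (nat_lit 282) (nat_lit 840) (nat_lit 0) (XT.nd (nat_lit 94) (nat_lit 588) (nat_lit 0) (XT.lf (nat_lit 84) (nat_lit 1424384392) (nat_lit 0) (nat_lit 1665271495) (nat_lit 420) (nat_lit 612959678) (nat_lit 49) (nat_lit 1) (nat_lit 48) (nat_lit 1) (nat_lit 53) (nat_lit 1) (nat_lit 248) (nat_lit 253) (nat_lit 219)) (XT.nd (nat_lit 94) (nat_lit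 336) (nat_lit 0) (XT.lf (nat_lit 336) (nat_lit 819013398) (nat_lit 0) (nat_lit 2573092428) (nat_lit 252) (nat_lit 241639488) (nat_lit 49) (nat_lit 1) (nat_lit 45) (nat_lit 1) (nat_lit 48) (nat_lit 1) (nat_lit 249) (nat_lit 253) (nat_lit 218)) (XT.lf (nat_lit 84) (nat_lit 1693759096) (nat_lit 0) (nat_lit 382966717) (nat_lit 336) (nat_lit 1489566550) (nat_lit 42) (nat_lit 1) (nat_lit 41) (nat_lit 1) (nat_lit 45) (nat_lit 1) (nat_lit 250) (nat_lit 253) (nat_lit 217)))) (XT.nd (nat_lit 94) (nat_lit 588) (nat_lit 0) (XT.lf (nat_lit 84) (nat_lit 67878996) (nat_lit 0) (nat_lit 1542967846) (nat_lit 336) (nat_lit 1889747375) (nat_lit 39) (nat_lit 1) (nat_lit 38) (nat_lit 1) (nat_lit 42) (nat_lit 1) (nat_lit 251) (nat_lit 253) (nat_lit 216)) (XT.nd (nat_lit 94) (nat_lit 336) (nat_lit 0) (XT.lf (nat_lit 336) (nat_lit 739355218) (nat_lit 0) (nat_lit 1165444378) (nat_lit 252) (nat_lit 1531502399) (nat_lit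 39) (nat_lit 1) (nat_lit 35) (nat_lit 1) (nat_lit 38) (nat_lit 1) (nat_lit 252) (nat_lit 253) (nat_lit 215)) (XT.lf (nat_lit 84) (nat_lit 307091000) (nat_lit 0) (nat_lit 444024858) (nat_lit 336) (nat_lit 2622648016) (nat_lit 32) (nat_lit 1) (nat_lit 31) (nat_lit 1) (nat_lit 35) (nat_lit 1) (nat_lit 253) (nat_lit 253) (nat_lit 214))))))))
noncomputable def ec15 : XT := (XT.nd (nat_lit 42394) (nat_lit 0) (nat_lit 3780) (XT.nd (nat_lit 41360) (nat_lit 0) (nat_lit 12096) (XT.nd (nat_lit 470) (nat_lit 1092) (nat_lit 0) (XT.nd (nat_lit 188) (nat_lit 672) (nat_lit 0) (XT.nd (nat_lit 94) (nat_lit 0) (nat_lit 0) (XT.lf (nat_lit 336) (nat_lit 1712176308) (nat_lit 0) (nat_lit 349565329) (nat_lit 252) (nat_lit 1250609465) (nat_lit 32) (nat_lit 1) (nat_lit 28) (nat_lit 1) (nat_lit 31) (nat_lit 1) (nat_lit 254) (nat_lit 253) (nat_lit 213)) (XT.lf (nat_lit 84) (nat_lit 496918811) (nat_lit 0) (nat_lit 2735411261)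 (nat_lit 336) (nat_lit 20337731) (nat_lit 29) (nat_lit 1) (nat_lit 28) (nat_lit 1) (nat_lit 32) (nat_lit 1) (nat_lit 255) (nat_lit 253) (nat_lit 212))) (XT.nd (nat_lit 94) (nat_lit 420) (nat_lit 0) (XT.lf (nat_lit 84) (nat_lit 2173224036) (nat_lit 0) (nat_lit 652040179) (nat_lit 252) (nat_lit 368732905) (nat_lit 26) (nat_lit 1) (nat_lit 25) (nat_lit 1) (nat_lit 28) (nat_lit 1) (nat_lit 256) (nat_lit 253) (nat_lit 211)) (XT.nd (nat_lit 94) (nat_lit 168) (nat_lit 0) (XT.lf (nat_lit 84) (nat_lit 650629567) (nat_lit 0) (nat_lit 1789399868) (nat_lit 336) (nat_lit 696676753) (nat_lit 23) (nat_lit 1) (nat_lit 22) (nat_lit 1) (nat_lit 26) (nat_lit 1) (nat_lit 257) (nat_lit 253) (nat_lit 210)) (XT.lf (nat_lit 252) (nat_lit 170184209) (nat_lit 0) (nat_lit 2077410883) (nat_lit 168) (nat_lit 833217303) (nat_lit 23) (nat_lit 1) (nat_lit 20) (nat_lit 1) (nat_lit 22) (nat_lit 1) (nat_lit 258) (nat_lit 253)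 (nat_lit 209))))) (XT.nd (nat_lit 282) (nat_lit 336) (nat_lit 0) (XT.nd (nat_lit 94) (nat_lit 420) (nat_lit 0) (XT.lf (nat_lit 84) (nat_lit 762158831) (nat_lit 0) (nat_lit 965009112) (nat_lit 336) (nat_lit 1298792462) (nat_lit 17) (nat_lit 1) (nat_lit 16) (nat_lit 1) (nat_lit 20) (nat_lit 1) (nat_lit 259) (nat_lit 253) (nat_lit 208)) (XT.nd (nat_lit 94) (nat_lit 252) (nat_lit 0) (XT.lf (nat_lit 252) (nat_lit 894513773) (nat_lit 0) (nat_lit 1397454858) (nat_lit 168) (nat_lit 680448431) (nat_lit 17) (nat_lit 1) (nat_lit 14) (nat_lit 1) (nat_lit 16) (nat_lit 1) (nat_lit 260) (nat_lit 253) (nat_lit 207)) (XT.lf (nat_lit 84) (nat_lit 837956844) (nat_lit 0) (nat_lit 247495162) (nat_lit 252) (nat_lit 1834626233) (nat_lit 12) (nat_lit 1) (nat_lit 11) (nat_lit 1) (nat_lit 14) (nat_lit 1) (nat_lit 261) (nat_lit 253) (nat_lit 206)))) (XT.nd (nat_lit 94) (nat_lit 168) (nat_lit 0) (XT.lf (nat_lit 252)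 (nat_lit 1519661373) (nat_lit 0) (nat_lit 785241000) (nat_lit 168) (nat_lit 563832773) (nat_lit 12) (nat_lit 1) (nat_lit 9) (nat_lit 1) (nat_lit 11) (nat_lit 1) (nat_lit 262) (nat_lit 253) (nat_lit 205)) (XT.nd (nat_lit 40420) (nat_lit 0) (nat_lit 12768) (XT.lf (nat_lit 252) (nat_lit 384810875) (nat_lit 0) (nat_lit 503098515) (nat_lit 168) (nat_lit 1930682119) (nat_lit 10) (nat_lit 1) (nat_lit 7) (nat_lit 1) (nat_lit 9) (nat_lit 1) (nat_lit 263) (nat_lit 253) (nat_lit 204)) (XT.lf (nat_lit 1260) (nat_lit 1140792160) (nat_lit 0) (nat_lit 1735663174) (nat_lit 1260) (nat_lit 1140792160) (nat_lit 174) (nat_lit 1) (nat_lit 159) (nat_lit 0) (nat_lit 174) (nat_lit 0) (nat_lit 212) (nat_lit 254) (nat_lit 254)))))) (XT.nd (nat_lit 470) (nat_lit 672) (nat_lit 0) (XT.nd (nat_lit 188) (nat_lit 0) (nat_lit 168) (XT.nd (nat_lit 94) (nat_lit 0) (nat_lit 84) (XT.lf (nat_lit 1260) (nat_lit 4415668920) (nat_lit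 84) (nat_lit 3369097240) (nat_lit 0) (nat_lit 57117467) (nat_lit 174) (nat_lit 1) (nat_lit 160) (nat_lit 1) (nat_lit 159) (nat_lit 0) (nat_lit 213) (nat_lit 254) (nat_lit 253)) (XT.lf (nat_lit 1260) (nat_lit 4174574994) (nat_lit 84) (nat_lit 1108580063) (nat_lit 0) (nat_lit 2371886634) (nat_lit 175) (nat_lit 1) (nat_lit 161) (nat_lit 1) (nat_lit 160) (nat_lit 1) (nat_lit 214) (nat_lit 254) (nat_lit 252))) (XT.nd (nat_lit 94) (nat_lit 0) (nat_lit 84) (XT.lf (nat_lit 1260) (nat_lit 2874389965) (nat_lit 0) (nat_lit 3614068829) (nat_lit 1176) (nat_lit 985770522) (nat_lit 176) (nat_lit 1) (nat_lit 161) (nat_lit 1) (nat_lit 175) (nat_lit 1) (nat_lit 215) (nat_lit 254) (nat_lit 251)) (XT.nd (nat_lit 94) (nat_lit 0) (nat_lit 0) (XT.lf (nat_lit 1260) (nat_lit 556136467) (nat_lit 0) (nat_lit 3821670010) (nat_lit 1176) (nat_lit 2921407939) (nat_lit 177) (nat_lit 1) (nat_lit 162) (nat_lit 1) (nat_lit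 176) (nat_lit 1) (nat_lit 216) (nat_lit 254) (nat_lit 250)) (XT.lf (nat_lit 1260) (nat_lit 3023968726) (nat_lit 84) (nat_lit 2380641612) (nat_lit 0) (nat_lit 1724907493) (nat_lit 177) (nat_lit 1) (nat_lit 163) (nat_lit 1) (nat_lit 162) (nat_lit 1) (nat_lit 217) (nat_lit 254) (nat_lit 249))))) (XT.nd (nat_lit 282) (nat_lit 1008) (nat_lit 0) (XT.nd (nat_lit 94) (nat_lit 0) (nat_lit 84) (XT.lf (nat_lit 1260) (nat_lit 2517736526) (nat_lit 84) (nat_lit 505024658) (nat_lit 0) (nat_lit 3942629800) (nat_lit 178) (nat_lit 1) (nat_lit 164) (nat_lit 1) (nat_lit 163) (nat_lit 1) (nat_lit 218) (nat_lit 254) (nat_lit 248)) (XT.nd (nat_lit 94) (nat_lit 0) (nat_lit 0) (XT.lf (nat_lit 1260) (nat_lit 734766782) (nat_lit 0) (nat_lit 4851503377) (nat_lit 1176) (nat_lit 1220078343) (nat_lit 179) (nat_lit 1) (nat_lit 164) (nat_lit 1) (nat_lit 178) (nat_lit 1) (nat_lit 219) (nat_lit 254) (nat_lit 247)) (XT.lf (nat_lit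 1260) (nat_lit 1331457233) (nat_lit 84) (nat_lit 3815344797) (nat_lit 0) (nat_lit 1505125237) (nat_lit 179) (nat_lit 1) (nat_lit 165) (nat_lit 1) (nat_lit 164) (nat_lit 1) (nat_lit 220) (nat_lit 254) (nat_lit 246)))) (XT.nd (nat_lit 94) (nat_lit 1176) (nat_lit 0) (XT.lf (nat_lit 1260) (nat_lit 666289915) (nat_lit 84) (nat_lit 2150469021) (nat_lit 0) (nat_lit 3685683814) (nat_lit 180) (nat_lit 1) (nat_lit 166) (nat_lit 1) (nat_lit 165) (nat_lit 1) (nat_lit 221) (nat_lit 254) (nat_lit 245)) (XT.nd (nat_lit 94) (nat_lit 0) (nat_lit 0) (XT.lf (nat_lit 84) (nat_lit 566478231) (nat_lit 0) (nat_lit 28231325) (nat_lit 1260) (nat_lit 5763269805) (nat_lit 152) (nat_lit 1) (nat_lit 151) (nat_lit 1) (nat_lit 166) (nat_lit 1) (nat_lit 222) (nat_lit 254) (nat_lit 244)) (XT.lf (nat_lit 84) (nat_lit 4591433702) (nat_lit 0) (nat_lit 762200418) (nat_lit 1260) (nat_lit 863471799) (nat_lit 152) (nat_lit 1) (nat_lit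 151) (nat_lit 1) (nat_lit 166) (nat_lit 1) (nat_lit 223) (nat_lit 254) (nat_lit 243))))))) (XT.nd (nat_lit 1034) (nat_lit 3444) (nat_lit 0) (XT.nd (nat_lit 470) (nat_lit 2520) (nat_lit 0) (XT.nd (nat_lit 188) (nat_lit 1092) (nat_lit 0) (XT.nd (nat_lit 94) (nat_lit 588) (nat_lit 0) (XT.lf (nat_lit 84) (nat_lit 2332542337) (nat_lit 0) (nat_lit 1531167810) (nat_lit 756) (nat_lit 2216782368) (nat_lit 144) (nat_lit 1) (nat_lit 143) (nat_lit 1) (nat_lit 152) (nat_lit 1) (nat_lit 224) (nat_lit 254) (nat_lit 242)) (XT.lf (nat_lit 84) (nat_lit 152193711) (nat_lit 0) (nat_lit 2319547766) (nat_lit 672) (nat_lit 3476681982) (nat_lit 137) (nat_lit 1) (nat_lit 136) (nat_lit 1) (nat_lit 144) (nat_lit 1) (nat_lit 225) (nat_lit 254) (nat_lit 241))) (XT.nd (nat_lit 94) (nat_lit 504) (nat_lit 0) (XT.lf (nat_lit 672) (nat_lit 2672630525) (nat_lit 0) (nat_lit 1150213368) (nat_lit 588) (nat_lit 1997106810) (nat_lit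 137) (nat_lit 1) (nat_lit 129) (nat_lit 1) (nat_lit 136) (nat_lit 1) (nat_lit 226) (nat_lit 254) (nat_lit 240)) (XT.nd (nat_lit 94) (nat_lit 504) (nat_lit 0) (XT.lf (nat_lit 84) (nat_lit 1622532435) (nat_lit 0) (nat_lit 3991921773) (nat_lit 672) (nat_lit 81172846) (nat_lit 130) (nat_lit 1) (nat_lit 129) (nat_lit 1) (nat_lit 137) (nat_lit 1) (nat_lit 227) (nat_lit 254) (nat_lit 239)) (XT.lf (nat_lit 588) (nat_lit 708627735) (nat_lit 0) (nat_lit 4366708069) (nat_lit 504) (nat_lit 499443132) (nat_lit 130) (nat_lit 1) (nat_lit 123) (nat_lit 1) (nat_lit 129) (nat_lit 1) (nat_lit 228) (nat_lit 254) (nat_lit 238))))) (XT.nd (nat_lit 282) (nat_lit 924) (nat_lit 0) (XT.nd (nat_lit 94) (nat_lit 1008) (nat_lit 0) (XT.lf (nat_lit 84) (nat_lit 2878020639) (nat_lit 0) (nat_lit 303171065) (nat_lit 588) (nat_lit 2275967128) (nat_lit 117) (nat_lit 1) (nat_lit 116) (nat_lit 1) (nat_lit 123) (nat_lit 1) (nat_lit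 229) (nat_lit 254) (nat_lit 237)) (XT.nd (nat_lit 94) (nat_lit 504) (nat_lit 0) (XT.lf (nat_lit 84) (nat_lit 766602422) (nat_lit 0) (nat_lit 1301943166) (nat_lit 588) (nat_lit 3274564926) (nat_lit 111) (nat_lit 1) (nat_lit 110) (nat_lit 1) (nat_lit 117) (nat_lit 1) (nat_lit 230) (nat_lit 254) (nat_lit 236)) (XT.lf (nat_lit 588) (nat_lit 2915397136) (nat_lit 0) (nat_lit 1018272232) (nat_lit 504) (nat_lit 1298593802) (nat_lit 111) (nat_lit 1) (nat_lit 104) (nat_lit 1) (nat_lit 110) (nat_lit 1) (nat_lit 231) (nat_lit 254) (nat_lit 235)))) (XT.nd (nat_lit 94) (nat_lit 504) (nat_lit 0) (XT.lf (nat_lit 504) (nat_lit 1784598271) (nat_lit 0) (nat_lit 33629833) (nat_lit 420) (nat_lit 3306483283) (nat_lit 105) (nat_lit 1) (nat_lit 99) (nat_lit 1) (nat_lit 104) (nat_lit 1) (nat_lit 232) (nat_lit 254) (nat_lit 234)) (XT.nd (nat_lit 94) (nat_lit 504) (nat_lit 0) (XT.lf (nat_lit 504) (nat_lit 646191223)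 (nat_lit 0) (nat_lit 4157993566) (nat_lit 420) (nat_lit 216018114) (nat_lit 105) (nat_lit 1) (nat_lit 99) (nat_lit 1) (nat_lit 104) (nat_lit 1) (nat_lit 233) (nat_lit 254) (nat_lit 233)) (XT.lf (nat_lit 84) (nat_lit 2706825728) (nat_lit 0) (nat_lit 494964780) (nat_lit 504) (nat_lit 1716368534) (nat_lit 94) (nat_lit 1) (nat_lit 93) (nat_lit 1) (nat_lit 99) (nat_lit 1) (nat_lit 234) (nat_lit 254) (nat_lit 232)))))) (XT.nd (nat_lit 470) (nat_lit 1764) (nat_lit 0) (XT.nd (nat_lit 188) (nat_lit 840) (nat_lit 0) (XT.nd (nat_lit 94) (nat_lit 420) (nat_lit 0) (XT.lf (nat_lit 84) (nat_lit 692444697) (nat_lit 0) (nat_lit 1613263638) (nat_lit 504) (nat_lit 2513435755) (nat_lit 89) (nat_lit 1) (nat_lit 88) (nat_lit 1) (nat_lit 94) (nat_lit 1) (nat_lit 235) (nat_lit 254) (nat_lit 231)) (XT.lf (nat_lit 504) (nat_lit 1985906345) (nat_lit 0) (nat_lit 1459400169) (nat_lit 420) (nat_lit 1277487413) (nat_lit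 89) (nat_lit 1) (nat_lit 83) (nat_lit 1) (nat_lit 88) (nat_lit 1) (nat_lit 236) (nat_lit 254) (nat_lit 230))) (XT.nd (nat_lit 94) (nat_lit 504) (nat_lit 0) (XT.lf (nat_lit 420) (nat_lit 771198666) (nat_lit 0) (nat_lit 667328274) (nat_lit 336) (nat_lit 3190718487) (nat_lit 84) (nat_lit 1) (nat_lit 79) (nat_lit 1) (nat_lit 83) (nat_lit 1) (nat_lit 237) (nat_lit 254) (nat_lit 229)) (XT.nd (nat_lit 94) (nat_lit 420) (nat_lit 0) (XT.lf (nat_lit 84) (nat_lit 4037759437) (nat_lit 0) (nat_lit 426319023) (nat_lit 420) (nat_lit 74193829) (nat_lit 79) (nat_lit 1) (nat_lit 78) (nat_lit 1) (nat_lit 83) (nat_lit 1) (nat_lit 238) (nat_lit 254) (nat_lit 228)) (XT.lf (nat_lit 84) (nat_lit 2064869533) (nat_lit 0) (nat_lit 1614972055) (nat_lit 504) (nat_lit 769234712) (nat_lit 74) (nat_lit 1) (nat_lit 73) (nat_lit 1) (nat_lit 79) (nat_lit 1) (nat_lit 239) (nat_lit 254) (nat_lit 227))))) (XT.nd (nat_lit 282)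 (nat_lit 672) (nat_lit 0) (XT.nd (nat_lit 94) (nat_lit 756) (nat_lit 0) (XT.lf (nat_lit 84) (nat_lit 164438604) (nat_lit 0) (nat_lit 2787940840) (nat_lit 420) (nat_lit 1410316156) (nat_lit 70) (nat_lit 1) (nat_lit 69) (nat_lit 1) (nat_lit 74) (nat_lit 1) (nat_lit 240) (nat_lit 254) (nat_lit 226)) (XT.nd (nat_lit 94) (nat_lit 420) (nat_lit 0) (XT.lf (nat_lit 420) (nat_lit 314387937) (nat_lit 0) (nat_lit 2259469946) (nat_lit 336) (nat_lit 1704508042) (nat_lit 70) (nat_lit 1) (nat_lit 65) (nat_lit 1) (nat_lit 69) (nat_lit 1) (nat_lit 241) (nat_lit 254) (nat_lit 225)) (XT.lf (nat_lit 84) (nat_lit 699140383) (nat_lit 0) (nat_lit 907324400) (nat_lit 420) (nat_lit 2589790859) (nat_lit 61) (nat_lit 1) (nat_lit 60) (nat_lit 1) (nat_lit 65) (nat_lit 1) (nat_lit 242) (nat_lit 254) (nat_lit 224)))) (XT.nd (nat_lit 94) (nat_lit 336) (nat_lit 0) (XT.lf (nat_lit 420) (nat_lit 2000812866) (nat_lit 0) (nat_lit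 987217780) (nat_lit 336) (nat_lit 1128113838) (nat_lit 61) (nat_lit 1) (nat_lit 56) (nat_lit 1) (nat_lit 60) (nat_lit 1) (nat_lit 243) (nat_lit 254) (nat_lit 223)) (XT.nd (nat_lit 94) (nat_lit 84) (nat_lit 0) (XT.lf (nat_lit 336) (nat_lit 726872889) (nat_lit 0) (nat_lit 408623306) (nat_lit 252) (nat_lit 2902757145) (nat_lit 57) (nat_lit 1) (nat_lit 53) (nat_lit 1) (nat_lit 56) (nat_lit 1) (nat_lit 244) (nat_lit 254) (nat_lit 222)) (XT.lf (nat_lit 84) (nat_lit 3306738672) (nat_lit 0) (nat_lit 521710426) (nat_lit 336) (nat_lit 133810754) (nat_lit 53) (nat_lit 1) (nat_lit 52) (nat_lit 1) (nat_lit 56) (nat_lit 1) (nat_lit 245) (nat_lit 254) (nat_lit 221))))))))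
noncomputable def ec16 : XT := (XT.nd (nat_lit 42206) (nat_lit 0) (nat_lit 6300) (XT.nd (nat_lit 1034) (nat_lit 1344) (nat_lit 0) (XT.nd (nat_lit 470) (nat_lit 1260) (nat_lit 0) (XT.nd (nat_lit 188) (nat_lit 840) (nat_lit 0) (XT.nd (nat_lit 94) (nat_lit 252) (nat_lit 0) (XT.lf (nat_lit 84) (nat_lit 1495603612) (nat_lit 0) (nat_lit 1748535070) (nat_lit 420) (nat_lit 643607662) (nat_lit 49) (nat_lit 1) (nat_lit 48) (nat_lit 1) (nat_lit 53) (nat_lit 1) (nat_lit 246) (nat_lit 254) (nat_lit 220)) (XT.lf (nat_lit 336) (nat_lit 859964068) (nat_lit 0) (nat_lit 2701747050) (nat_lit 252) (nat_lit 253721463) (nat_lit 49) (nat_lit 1) (nat_lit 45) (nat_lit 1) (nat_lit 48) (nat_lit 1) (nat_lit 247) (nat_lit 254) (nat_lit 219))) (XT.nd (nat_lit 94) (nat_lit 504) (nat_lit 0) (XT.lf (nat_lit 84) (nat_lit 1778447051) (nat_lit 0) (nat_lit 402115053) (nat_lit 336) (nat_lit 1564044878) (nat_lit 42) (nat_lit 1)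 (nat_lit 41) (nat_lit 1) (nat_lit 45) (nat_lit 1) (nat_lit 248) (nat_lit 254) (nat_lit 218)) (XT.nd (nat_lit 94) (nat_lit 252) (nat_lit 0) (XT.lf (nat_lit 84) (nat_lit 71272945) (nat_lit 0) (nat_lit 1620116239) (nat_lit 336) (nat_lit 1984234743) (nat_lit 39) (nat_lit 1) (nat_lit 38) (nat_lit 1) (nat_lit 42) (nat_lit 1) (nat_lit 249) (nat_lit 254) (nat_lit 217)) (XT.lf (nat_lit 336) (nat_lit 776322979) (nat_lit 0) (nat_lit 1223716597) (nat_lit 252) (nat_lit 1608077519) (nat_lit 39) (nat_lit 1) (nat_lit 35) (nat_lit 1) (nat_lit 38) (nat_lit 1) (nat_lit 250) (nat_lit 254) (nat_lit 216))))) (XT.nd (nat_lit 282) (nat_lit 672) (nat_lit 0) (XT.nd (nat_lit 94) (nat_lit 252) (nat_lit 0) (XT.lf (nat_lit 84) (nat_lit 322445550) (nat_lit 0) (nat_lit 466226101) (nat_lit 336) (nat_lit 2753780416) (nat_lit 32) (nat_lit 1) (nat_lit 31) (nat_lit 1) (nat_lit 35) (nat_lit 1) (nat_lit 251) (nat_lit 254) (nat_lit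 215)) (XT.nd (nat_lit 94) (nat_lit 0) (nat_lit 0) (XT.lf (nat_lit 336) (nat_lit 1797785124) (nat_lit 0) (nat_lit 367043596) (nat_lit 252) (nat_lit 1313139938) (nat_lit 32) (nat_lit 1) (nat_lit 28) (nat_lit 1) (nat_lit 31) (nat_lit 1) (nat_lit 252) (nat_lit 254) (nat_lit 214)) (XT.lf (nat_lit 84) (nat_lit 521764751) (nat_lit 0) (nat_lit 2872181824) (nat_lit 336) (nat_lit 21354617) (nat_lit 29) (nat_lit 1) (nat_lit 28) (nat_lit 1) (nat_lit 32) (nat_lit 1) (nat_lit 253) (nat_lit 254) (nat_lit 213)))) (XT.nd (nat_lit 94) (nat_lit 420) (nat_lit 0) (XT.lf (nat_lit 84) (nat_lit 2281885238) (nat_lit 0) (nat_lit 684642188) (nat_lit 252) (nat_lit 387169550) (nat_lit 26) (nat_lit 1) (nat_lit 25) (nat_lit 1) (nat_lit 28) (nat_lit 1) (nat_lit 254) (nat_lit 254) (nat_lit 212)) (XT.nd (nat_lit 94) (nat_lit 168) (nat_lit 0) (XT.lf (nat_lit 84) (nat_lit 683161045) (nat_lit 0) (nat_lit 1878869861) (nat_lit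 336) (nat_lit 731510591) (nat_lit 23) (nat_lit 1) (nat_lit 22) (nat_lit 1) (nat_lit 26) (nat_lit 1) (nat_lit 255) (nat_lit 254) (nat_lit 211)) (XT.lf (nat_lit 252) (nat_lit 178693419) (nat_lit 0) (nat_lit 2181281427) (nat_lit 168) (nat_lit 874878168) (nat_lit 23) (nat_lit 1) (nat_lit 20) (nat_lit 1) (nat_lit 22) (nat_lit 1) (nat_lit 256) (nat_lit 254) (nat_lit 210)))))) (XT.nd (nat_lit 470) (nat_lit 252) (nat_lit 0) (XT.nd (nat_lit 188) (nat_lit 588) (nat_lit 0) (XT.nd (nat_lit 94) (nat_lit 168) (nat_lit 0) (XT.lf (nat_lit 84) (nat_lit 800266772) (nat_lit 0) (nat_lit 1013259567) (nat_lit 336) (nat_lit 1363732085) (nat_lit 17) (nat_lit 1) (nat_lit 16) (nat_lit 1) (nat_lit 20) (nat_lit 1) (nat_lit 257) (nat_lit 254) (nat_lit 209)) (XT.lf (nat_lit 252) (nat_lit 939239462) (nat_lit 0) (nat_lit 1467327601) (nat_lit 168) (nat_lit 714470852) (nat_lit 17) (nat_lit 1) (nat_lit 14) (nat_lit 1) (nat_lit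 16) (nat_lit 1) (nat_lit 258) (nat_lit 254) (nat_lit 208))) (XT.nd (nat_lit 94) (nat_lit 336) (nat_lit 0) (XT.lf (nat_lit 84) (nat_lit 879854686) (nat_lit 0) (nat_lit 259869920) (nat_lit 252) (nat_lit 1926357544) (nat_lit 12) (nat_lit 1) (nat_lit 11) (nat_lit 1) (nat_lit 14) (nat_lit 1) (nat_lit 259) (nat_lit 254) (nat_lit 207)) (XT.nd (nat_lit 94) (nat_lit 168) (nat_lit 0) (XT.lf (nat_lit 252) (nat_lit 1595644442) (nat_lit 0) (nat_lit 824503050) (nat_lit 168) (nat_lit 592024411) (nat_lit 12) (nat_lit 1) (nat_lit 9) (nat_lit 1) (nat_lit 11) (nat_lit 1) (nat_lit 260) (nat_lit 254) (nat_lit 206)) (XT.lf (nat_lit 252) (nat_lit 404051418) (nat_lit 0) (nat_lit 528253441) (nat_lit 168) (nat_lit 2027216225) (nat_lit 10) (nat_lit 1) (nat_lit 7) (nat_lit 1) (nat_lit 9) (nat_lit 1) (nat_lit 261) (nat_lit 254) (nat_lit 205))))) (XT.nd (nat_lit 40420) (nat_lit 0) (nat_lit 13020) (XT.nd (nat_lit 94) (nat_lit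 0) (nat_lit 0) (XT.lf (nat_lit 252) (nat_lit 2160662258) (nat_lit 0) (nat_lit 245505512) (nat_lit 168) (nat_lit 501768111) (nat_lit 7) (nat_lit 1) (nat_lit 4) (nat_lit 1) (nat_lit 6) (nat_lit 1) (nat_lit 262) (nat_lit 254) (nat_lit 204)) (XT.nd (nat_lit 40232) (nat_lit 0) (nat_lit 13020) (XT.lf (nat_lit 84) (nat_lit 960465656) (nat_lit 0) (nat_lit 1872347538) (nat_lit 252) (nat_lit 24538385) (nat_lit 5) (nat_lit 1) (nat_lit 4) (nat_lit 1) (nat_lit 7) (nat_lit 1) (nat_lit 263) (nat_lit 254) (nat_lit 203)) (XT.lf (nat_lit 1260) (nat_lit 1197831768) (nat_lit 0) (nat_lit 1822446333) (nat_lit 1260) (nat_lit 1197831768) (nat_lit 174) (nat_lit 1) (nat_lit 159) (nat_lit 0) (nat_lit 174) (nat_lit 0) (nat_lit 210) (nat_lit 255) (nat_lit 255)))) (XT.nd (nat_lit 94) (nat_lit 0) (nat_lit 84) (XT.lf (nat_lit 1260) (nat_lit 4636452366) (nat_lit 84) (nat_lit 3537552102) (nat_lit 0) (nat_lit 59973341) (nat_lit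 174) (nat_lit 1) (nat_lit 160) (nat_lit 1) (nat_lit 159) (nat_lit 0) (nat_lit 211) (nat_lit 255) (nat_lit 254)) (XT.nd (nat_lit 94) (nat_lit 0) (nat_lit 84) (XT.lf (nat_lit 1260) (nat_lit 4383303744) (nat_lit 84) (nat_lit 1164009066) (nat_lit 0) (nat_lit 2490480965) (nat_lit 175) (nat_lit 1) (nat_lit 161) (nat_lit 1) (nat_lit 160) (nat_lit 1) (nat_lit 212) (nat_lit 255) (nat_lit 253)) (XT.lf (nat_lit 1260) (nat_lit 3018109463) (nat_lit 0) (nat_lit 3794772271) (nat_lit 1176) (nat_lit 1035059048) (nat_lit 176) (nat_lit 1) (nat_lit 161) (nat_lit 1) (nat_lit 175) (nat_lit 1) (nat_lit 213) (nat_lit 255) (nat_lit 252))))))) (XT.nd (nat_lit 1034) (nat_lit 4200) (nat_lit 0) (XT.nd (nat_lit 470) (nat_lit 2772) (nat_lit 0) (XT.nd (nat_lit 188) (nat_lit 0) (nat_lit 84) (XT.nd (nat_lit 94) (nat_lit 0) (nat_lit 0) (XT.lf (nat_lit 1260) (nat_lit 583943291) (nat_lit 0) (nat_lit 4012753511) (nat_lit 1176)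 (nat_lit 3067478336) (nat_lit 177) (nat_lit 1) (nat_lit 162) (nat_lit 1) (nat_lit 176) (nat_lit 1) (nat_lit 214) (nat_lit 255) (nat_lit 251)) (XT.lf (nat_lit 1260) (nat_lit 3175167163) (nat_lit 84) (nat_lit 2499673692) (nat_lit 0) (nat_lit 1811152868) (nat_lit 177) (nat_lit 1) (nat_lit 163) (nat_lit 1) (nat_lit 162) (nat_lit 1) (nat_lit 215) (nat_lit 255) (nat_lit 250))) (XT.nd (nat_lit 94) (nat_lit 0) (nat_lit 84) (XT.lf (nat_lit 1260) (nat_lit 2643623353) (nat_lit 84) (nat_lit 530275891) (nat_lit 0) (nat_lit 4139761290) (nat_lit 178) (nat_lit 1) (nat_lit 164) (nat_lit 1) (nat_lit 163) (nat_lit 1) (nat_lit 216) (nat_lit 255) (nat_lit 249)) (XT.nd (nat_lit 94) (nat_lit 0) (nat_lit 0) (XT.lf (nat_lit 1260) (nat_lit 771505121) (nat_lit 0) (nat_lit 5094078545) (nat_lit 1176) (nat_lit 1281082260) (nat_lit 179) (nat_lit 1) (nat_lit 164) (nat_lit 1) (nat_lit 178) (nat_lit 1) (nat_lit 217) (nat_lit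 255) (nat_lit 248)) (XT.lf (nat_lit 1260) (nat_lit 1398030095) (nat_lit 84) (nat_lit 4006112037) (nat_lit 0) (nat_lit 1580381499) (nat_lit 179) (nat_lit 1) (nat_lit 165) (nat_lit 1) (nat_lit 164) (nat_lit 1) (nat_lit 218) (nat_lit 255) (nat_lit 247))))) (XT.nd (nat_lit 282) (nat_lit 1848) (nat_lit 0) (XT.nd (nat_lit 94) (nat_lit 1176) (nat_lit 0) (XT.lf (nat_lit 1260) (nat_lit 699604410) (nat_lit 84) (nat_lit 2257992472) (nat_lit 0) (nat_lit 3869968005) (nat_lit 180) (nat_lit 1) (nat_lit 166) (nat_lit 1) (nat_lit 165) (nat_lit 1) (nat_lit 219) (nat_lit 255) (nat_lit 246)) (XT.nd (nat_lit 94) (nat_lit 0) (nat_lit 0) (XT.lf (nat_lit 84) (nat_lit 594802142) (nat_lit 0) (nat_lit 29642892) (nat_lit 1260) (nat_lit 6051433295) (nat_lit 152) (nat_lit 1) (nat_lit 151) (nat_lit 1) (nat_lit 166) (nat_lit 1) (nat_lit 220) (nat_lit 255) (nat_lit 245)) (XT.lf (nat_lit 84) (nat_lit 4821005387) (nat_lit 0)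 (nat_lit 800310439) (nat_lit 1260) (nat_lit 906645389) (nat_lit 152) (nat_lit 1) (nat_lit 151) (nat_lit 1) (nat_lit 166) (nat_lit 1) (nat_lit 221) (nat_lit 255) (nat_lit 244)))) (XT.nd (nat_lit 94) (nat_lit 1176) (nat_lit 0) (XT.lf (nat_lit 84) (nat_lit 2449169454) (nat_lit 0) (nat_lit 1607726201) (nat_lit 756) (nat_lit 2327621486) (nat_lit 144) (nat_lit 1) (nat_lit 143) (nat_lit 1) (nat_lit 152) (nat_lit 1) (nat_lit 222) (nat_lit 255) (nat_lit 243)) (XT.nd (nat_lit 94) (nat_lit 588) (nat_lit 0) (XT.lf (nat_lit 84) (nat_lit 159803397) (nat_lit 0) (nat_lit 2435525154) (nat_lit 672) (nat_lit 3650516081) (nat_lit 137) (nat_lit 1) (nat_lit 136) (nat_lit 1) (nat_lit 144) (nat_lit 1) (nat_lit 223) (nat_lit 255) (nat_lit 242)) (XT.lf (nat_lit 672) (nat_lit 2806262051) (nat_lit 0) (nat_lit 1207724036) (nat_lit 588) (nat_lit 2096962150) (nat_lit 137) (nat_lit 1) (nat_lit 129) (nat_lit 1) (nat_lit 136)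 (nat_lit 1) (nat_lit 224) (nat_lit 255) (nat_lit 241)))))) (XT.nd (nat_lit 470) (nat_lit 2100) (nat_lit 0) (XT.nd (nat_lit 188) (nat_lit 1596) (nat_lit 0) (XT.nd (nat_lit 94) (nat_lit 504) (nat_lit 0) (XT.lf (nat_lit 84) (nat_lit 1703659057) (nat_lit 0) (nat_lit 4191517861) (nat_lit 672) (nat_lit 85231489) (nat_lit 130) (nat_lit 1) (nat_lit 129) (nat_lit 1) (nat_lit 137) (nat_lit 1) (nat_lit 225) (nat_lit 255) (nat_lit 240)) (XT.lf (nat_lit 588) (nat_lit 744059122) (nat_lit 0) (nat_lit 4585043473) (nat_lit 504) (nat_lit 524415288) (nat_lit 130) (nat_lit 1) (nat_lit 123) (nat_lit 1) (nat_lit 129) (nat_lit 1) (nat_lit 226) (nat_lit 255) (nat_lit 239))) (XT.nd (nat_lit 94) (nat_lit 1008) (nat_lit 0) (XT.lf (nat_lit 84) (nat_lit 3021921671) (nat_lit 0) (nat_lit 318329619) (nat_lit 588) (nat_lit 2389765484) (nat_lit 117) (nat_lit 1) (nat_lit 116) (nat_lit 1) (nat_lit 123) (nat_lit 1) (nat_lit 227)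 (nat_lit 255) (nat_lit 238)) (XT.nd (nat_lit 94) (nat_lit 504) (nat_lit 0) (XT.lf (nat_lit 84) (nat_lit 804932543) (nat_lit 0) (nat_lit 1367040325) (nat_lit 588) (nat_lit 3438293172) (nat_lit 111) (nat_lit 1) (nat_lit 110) (nat_lit 1) (nat_lit 117) (nat_lit 1) (nat_lit 228) (nat_lit 255) (nat_lit 237)) (XT.lf (nat_lit 588) (nat_lit 3061166993) (nat_lit 0) (nat_lit 1069185844) (nat_lit 504) (nat_lit 1363523493) (nat_lit 111) (nat_lit 1) (nat_lit 104) (nat_lit 1) (nat_lit 110) (nat_lit 1) (nat_lit 229) (nat_lit 255) (nat_lit 236))))) (XT.nd (nat_lit 282) (nat_lit 1176) (nat_lit 0) (XT.nd (nat_lit 94) (nat_lit 504) (nat_lit 0) (XT.lf (nat_lit 504) (nat_lit 1873828185) (nat_lit 0) (nat_lit 35311324) (nat_lit 420) (nat_lit 3471807447) (nat_lit 105) (nat_lit 1) (nat_lit 99) (nat_lit 1) (nat_lit 104) (nat_lit 1) (nat_lit 230) (nat_lit 255) (nat_lit 235)) (XT.nd (nat_lit 94) (nat_lit 504) (nat_lit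 0) (XT.lf (nat_lit 504) (nat_lit 678500784) (nat_lit 0) (nat_lit 4365893244) (nat_lit 420) (nat_lit 226819020) (nat_lit 105) (nat_lit 1) (nat_lit 99) (nat_lit 1) (nat_lit 104) (nat_lit 1) (nat_lit 231) (nat_lit 255) (nat_lit 234)) (XT.lf (nat_lit 84) (nat_lit 2842167014) (nat_lit 0) (nat_lit 519713019) (nat_lit 504) (nat_lit 1802186961) (nat_lit 94) (nat_lit 1) (nat_lit 93) (nat_lit 1) (nat_lit 99) (nat_lit 1) (nat_lit 232) (nat_lit 255) (nat_lit 233)))) (XT.nd (nat_lit 94) (nat_lit 756) (nat_lit 0) (XT.lf (nat_lit 84) (nat_lit 727066932) (nat_lit 0) (nat_lit 1693926820) (nat_lit 504) (nat_lit 2639107542) (nat_lit 89) (nat_lit 1) (nat_lit 88) (nat_lit 1) (nat_lit 94) (nat_lit 1) (nat_lit 233) (nat_lit 255) (nat_lit 232)) (XT.nd (nat_lit 94) (nat_lit 336) (nat_lit 0) (XT.lf (nat_lit 504) (nat_lit 2085201662) (nat_lit 0) (nat_lit 1532370177) (nat_lit 420) (nat_lit 1341361783) (nat_lit 89) (nat_lit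 1) (nat_lit 83) (nat_lit 1) (nat_lit 88) (nat_lit 1) (nat_lit 234) (nat_lit 255) (nat_lit 231)) (XT.lf (nat_lit 420) (nat_lit 809758599) (nat_lit 0) (nat_lit 700694688) (nat_lit 336) (nat_lit 3350254411) (nat_lit 84) (nat_lit 1) (nat_lit 79) (nat_lit 1) (nat_lit 83) (nat_lit 1) (nat_lit 235) (nat_lit 255) (nat_lit 230))))))))
noncomputable def ec17 : XT := (XT.nd (nat_lit 2068) (nat_lit 924) (nat_lit 0) (XT.nd (nat_lit 1034) (nat_lit 2520) (nat_lit 0) (XT.nd (nat_lit 470) (nat_lit 1596) (nat_lit 0) (XT.nd (nat_lit 188) (nat_lit 1092) (nat_lit 0) (XT.nd (nat_lit 94) (nat_lit 420) (nat_lit 0) (XT.lf (nat_lit 84) (nat_lit 4239647409) (nat_lit 0) (nat_lit 447634974) (nat_lit 420) (nat_lit 77903521) (nat_lit 79) (nat_lit 1) (nat_lit 78) (nat_lit 1) (nat_lit 83) (nat_lit 1) (nat_lit 236) (nat_lit 255) (nat_lit 229)) (XT.lf (nat_lit 84) (nat_lit 2168113010) (nat_lit 0) (nat_lit 1695720658) (nat_lit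 504) (nat_lit 807696447) (nat_lit 74) (nat_lit 1) (nat_lit 73) (nat_lit 1) (nat_lit 79) (nat_lit 1) (nat_lit 237) (nat_lit 255) (nat_lit 228))) (XT.nd (nat_lit 94) (nat_lit 756) (nat_lit 0) (XT.lf (nat_lit 84) (nat_lit 172660534) (nat_lit 0) (nat_lit 2927337882) (nat_lit 420) (nat_lit 1480831964) (nat_lit 70) (nat_lit 1) (nat_lit 69) (nat_lit 1) (nat_lit 74) (nat_lit 1) (nat_lit 238) (nat_lit 255) (nat_lit 227)) (XT.nd (nat_lit 94) (nat_lit 420) (nat_lit 0) (XT.lf (nat_lit 420) (nat_lit 330107334) (nat_lit 0) (nat_lit 2372443443) (nat_lit 336) (nat_lit 1789733444) (nat_lit 70) (nat_lit 1) (nat_lit 65) (nat_lit 1) (nat_lit 69) (nat_lit 1) (nat_lit 239) (nat_lit 255) (nat_lit 226)) (XT.lf (nat_lit 84) (nat_lit 734097403) (nat_lit 0) (nat_lit 952690620) (nat_lit 420) (nat_lit 2719280402) (nat_lit 61) (nat_lit 1) (nat_lit 60) (nat_lit 1) (nat_lit 65) (nat_lit 1) (nat_lit 240) (nat_lit 255) (nat_lit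 225))))) (XT.nd (nat_lit 282) (nat_lit 924) (nat_lit 0) (XT.nd (nat_lit 94) (nat_lit 336) (nat_lit 0) (XT.lf (nat_lit 420) (nat_lit 2100853509) (nat_lit 0) (nat_lit 1036578669) (nat_lit 336) (nat_lit 1184519530) (nat_lit 61) (nat_lit 1) (nat_lit 56) (nat_lit 1) (nat_lit 60) (nat_lit 1) (nat_lit 241) (nat_lit 255) (nat_lit 224)) (XT.nd (nat_lit 94) (nat_lit 84) (nat_lit 0) (XT.lf (nat_lit 336) (nat_lit 763216533) (nat_lit 0) (nat_lit 429054471) (nat_lit 252) (nat_lit 3047895002) (nat_lit 57) (nat_lit 1) (nat_lit 53) (nat_lit 1) (nat_lit 56) (nat_lit 1) (nat_lit 242) (nat_lit 255) (nat_lit 223)) (XT.lf (nat_lit 84) (nat_lit 3472075606) (nat_lit 0) (nat_lit 547795947) (nat_lit 336) (nat_lit 140501292) (nat_lit 53) (nat_lit 1) (nat_lit 52) (nat_lit 1) (nat_lit 56) (nat_lit 1) (nat_lit 243) (nat_lit 255) (nat_lit 222)))) (XT.nd (nat_lit 94) (nat_lit 588) (nat_lit 0) (XT.lf (nat_lit 84) (nat_lit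 1570383792) (nat_lit 0) (nat_lit 1835961823) (nat_lit 420) (nat_lit 675788045) (nat_lit 49) (nat_lit 1) (nat_lit 48) (nat_lit 1) (nat_lit 53) (nat_lit 1) (nat_lit 244) (nat_lit 255) (nat_lit 221)) (XT.nd (nat_lit 94) (nat_lit 336) (nat_lit 0) (XT.lf (nat_lit 336) (nat_lit 902962271) (nat_lit 0) (nat_lit 2836834402) (nat_lit 252) (nat_lit 266407536) (nat_lit 49) (nat_lit 1) (nat_lit 45) (nat_lit 1) (nat_lit 48) (nat_lit 1) (nat_lit 245) (nat_lit 255) (nat_lit 220)) (XT.lf (nat_lit 84) (nat_lit 1867369403) (nat_lit 0) (nat_lit 422220805) (nat_lit 336) (nat_lit 1642247122) (nat_lit 42) (nat_lit 1) (nat_lit 41) (nat_lit 1) (nat_lit 45) (nat_lit 1) (nat_lit 246) (nat_lit 255) (nat_lit 219)))))) (XT.nd (nat_lit 470) (nat_lit 1428) (nat_lit 0) (XT.nd (nat_lit 188) (nat_lit 588) (nat_lit 0) (XT.nd (nat_lit 94) (nat_lit 252) (nat_lit 0) (XT.lf (nat_lit 84) (nat_lit 74836593) (nat_lit 0) (nat_lit 1701122051)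 (nat_lit 336) (nat_lit 2083446481) (nat_lit 39) (nat_lit 1) (nat_lit 38) (nat_lit 1) (nat_lit 42) (nat_lit 1) (nat_lit 247) (nat_lit 255) (nat_lit 218)) (XT.lf (nat_lit 336) (nat_lit 815139128) (nat_lit 0) (nat_lit 1284902427) (nat_lit 252) (nat_lit 1688481395) (nat_lit 39) (nat_lit 1) (nat_lit 35) (nat_lit 1) (nat_lit 38) (nat_lit 1) (nat_lit 248) (nat_lit 255) (nat_lit 217))) (XT.nd (nat_lit 94) (nat_lit 252) (nat_lit 0) (XT.lf (nat_lit 84) (nat_lit 338567828) (nat_lit 0) (nat_lit 489537407) (nat_lit 336) (nat_lit 2891469437) (nat_lit 32) (nat_lit 1) (nat_lit 31) (nat_lit 1) (nat_lit 35) (nat_lit 1) (nat_lit 249) (nat_lit 255) (nat_lit 216)) (XT.nd (nat_lit 94) (nat_lit 0) (nat_lit 0) (XT.lf (nat_lit 336) (nat_lit 1887674380) (nat_lit 0) (nat_lit 385395776) (nat_lit 252) (nat_lit 1378796935) (nat_lit 32) (nat_lit 1) (nat_lit 28) (nat_lit 1) (nat_lit 31) (nat_lit 1) (nat_lit 250) (nat_lit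 255) (nat_lit 215)) (XT.lf (nat_lit 84) (nat_lit 547852989) (nat_lit 0) (nat_lit 3015790915) (nat_lit 336) (nat_lit 22422348) (nat_lit 29) (nat_lit 1) (nat_lit 28) (nat_lit 1) (nat_lit 32) (nat_lit 1) (nat_lit 251) (nat_lit 255) (nat_lit 214))))) (XT.nd (nat_lit 282) (nat_lit 756) (nat_lit 0) (XT.nd (nat_lit 94) (nat_lit 420) (nat_lit 0) (XT.lf (nat_lit 84) (nat_lit 2395979499) (nat_lit 0) (nat_lit 718874297) (nat_lit 252) (nat_lit 406528027) (nat_lit 26) (nat_lit 1) (nat_lit 25) (nat_lit 1) (nat_lit 28) (nat_lit 1) (nat_lit 252) (nat_lit 255) (nat_lit 213)) (XT.nd (nat_lit 94) (nat_lit 168) (nat_lit 0) (XT.lf (nat_lit 84) (nat_lit 717319098) (nat_lit 0) (nat_lit 1972813354) (nat_lit 336) (nat_lit 768086120) (nat_lit 23) (nat_lit 1) (nat_lit 22) (nat_lit 1) (nat_lit 26) (nat_lit 1) (nat_lit 253) (nat_lit 255) (nat_lit 212)) (XT.lf (nat_lit 252) (nat_lit 187628090) (nat_lit 0) (nat_lit 2290345498)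 (nat_lit 168) (nat_lit 918622077) (nat_lit 23) (nat_lit 1) (nat_lit 20) (nat_lit 1) (nat_lit 22) (nat_lit 1) (nat_lit 254) (nat_lit 255) (nat_lit 211)))) (XT.nd (nat_lit 94) (nat_lit 420) (nat_lit 0) (XT.lf (nat_lit 84) (nat_lit 840280111) (nat_lit 0) (nat_lit 1063922546) (nat_lit 336) (nat_lit 1431918690) (nat_lit 17) (nat_lit 1) (nat_lit 16) (nat_lit 1) (nat_lit 20) (nat_lit 1) (nat_lit 255) (nat_lit 255) (nat_lit 210)) (XT.nd (nat_lit 94) (nat_lit 252) (nat_lit 0) (XT.lf (nat_lit 252) (nat_lit 986201435) (nat_lit 0) (nat_lit 1540693981) (nat_lit 168) (nat_lit 750194395) (nat_lit 17) (nat_lit 1) (nat_lit 14) (nat_lit 1) (nat_lit 16) (nat_lit 1) (nat_lit 256) (nat_lit 255) (nat_lit 209)) (XT.lf (nat_lit 84) (nat_lit 923847421) (nat_lit 0) (nat_lit 272863416) (nat_lit 252) (nat_lit 2022675422) (nat_lit 12) (nat_lit 1) (nat_lit 11) (nat_lit 1) (nat_lit 14) (nat_lit 1) (nat_lit 257) (nat_lit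 255) (nat_lit 208))))))) (XT.nd (nat_lit 40984) (nat_lit 0) (nat_lit 10836) (XT.nd (nat_lit 470) (nat_lit 84) (nat_lit 0) (XT.nd (nat_lit 188) (nat_lit 504) (nat_lit 0) (XT.nd (nat_lit 94) (nat_lit 168) (nat_lit 0) (XT.lf (nat_lit 252) (nat_lit 1675426664) (nat_lit 0) (nat_lit 865728202) (nat_lit 168) (nat_lit 621625632) (nat_lit 12) (nat_lit 1) (nat_lit 9) (nat_lit 1) (nat_lit 11) (nat_lit 1) (nat_lit 258) (nat_lit 255) (nat_lit 207)) (XT.lf (nat_lit 252) (nat_lit 424253989) (nat_lit 0) (nat_lit 554666113) (nat_lit 168) (nat_lit 2128577036) (nat_lit 10) (nat_lit 1) (nat_lit 7) (nat_lit 1) (nat_lit 9) (nat_lit 1) (nat_lit 259) (nat_lit 255) (nat_lit 206))) (XT.nd (nat_lit 94) (nat_lit 252) (nat_lit 0) (XT.lf (nat_lit 252) (nat_lit 2268695371) (nat_lit 0) (nat_lit 257780787) (nat_lit 168) (nat_lit 526856517) (nat_lit 7) (nat_lit 1) (nat_lit 4) (nat_lit 1) (nat_lit 6) (nat_lit 1) (nat_lit 260)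 (nat_lit 255) (nat_lit 205)) (XT.nd (nat_lit 94) (nat_lit 252) (nat_lit 0) (XT.lf (nat_lit 84) (nat_lit 1008488939) (nat_lit 0) (nat_lit 1965964915) (nat_lit 252) (nat_lit 25765305) (nat_lit 5) (nat_lit 1) (nat_lit 4) (nat_lit 1) (nat_lit 7) (nat_lit 1) (nat_lit 261) (nat_lit 255) (nat_lit 204)) (XT.lf (nat_lit 84) (nat_lit 2491044396) (nat_lit 0) (nat_lit 173911886) (nat_lit 252) (nat_lit 283373436) (nat_lit 2) (nat_lit 1) (nat_lit 1) (nat_lit 1) (nat_lit 4) (nat_lit 1) (nat_lit 262) (nat_lit 255) (nat_lit 203))))) (XT.nd (nat_lit 40232) (nat_lit 0) (nat_lit 13440) (XT.nd (nat_lit 40044) (nat_lit 0) (nat_lit 13356) (XT.lf (nat_lit 0) (nat_lit 2400385865) (nat_lit 0) (nat_lit 0) (nat_lit 0) (nat_lit 0) (nat_lit 0) (nat_lit 0) (nat_lit 1) (nat_lit 0) (nat_lit 1) (nat_lit 0) (nat_lit 263) (nat_lit 255) (nat_lit 202)) (XT.nd (nat_lit 94) (nat_lit 0) (nat_lit 0) (XT.lf (nat_lit 1260) (nat_lit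 1257723357) (nat_lit 0) (nat_lit 1913568649) (nat_lit 1260) (nat_lit 1257723357) (nat_lit 174) (nat_lit 1) (nat_lit 159) (nat_lit 0) (nat_lit 174) (nat_lit 0) (nat_lit 208) (nat_lit 256) (nat_lit 256)) (XT.lf (nat_lit 1260) (nat_lit 4868274984) (nat_lit 84) (nat_lit 3714429707) (nat_lit 0) (nat_lit 62972008) (nat_lit 174) (nat_lit 1) (nat_lit 160) (nat_lit 1) (nat_lit 159) (nat_lit 0) (nat_lit 209) (nat_lit 256) (nat_lit 255)))) (XT.nd (nat_lit 94) (nat_lit 0) (nat_lit 84) (XT.lf (nat_lit 1260) (nat_lit 4602468931) (nat_lit 84) (nat_lit 1222209520) (nat_lit 0) (nat_lit 2615005014) (nat_lit 175) (nat_lit 1) (nat_lit 161) (nat_lit 1) (nat_lit 160) (nat_lit 1) (nat_lit 210) (nat_lit 256) (nat_lit 254)) (XT.nd (nat_lit 94) (nat_lit 0) (nat_lit 84) (XT.lf (nat_lit 1260) (nat_lit 3169014936) (nat_lit 0) (nat_lit 3984510884) (nat_lit 1176) (nat_lit 1086812000) (nat_lit 176) (nat_lit 1) (nat_lit 161)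 (nat_lit 1) (nat_lit 175) (nat_lit 1) (nat_lit 211) (nat_lit 256) (nat_lit 253)) (XT.lf (nat_lit 1260) (nat_lit 613140455) (nat_lit 0) (nat_lit 4213391187) (nat_lit 1176) (nat_lit 3220852253) (nat_lit 177) (nat_lit 1) (nat_lit 162) (nat_lit 1) (nat_lit 176) (nat_lit 1) (nat_lit 212) (nat_lit 256) (nat_lit 252)))))) (XT.nd (nat_lit 470) (nat_lit 2772) (nat_lit 0) (XT.nd (nat_lit 188) (nat_lit 0) (nat_lit 168) (XT.nd (nat_lit 94) (nat_lit 0) (nat_lit 84) (XT.lf (nat_lit 1260) (nat_lit 3333925521) (nat_lit 84) (nat_lit 2624657377) (nat_lit 0) (nat_lit 1901710511) (nat_lit 177) (nat_lit 1) (nat_lit 163) (nat_lit 1) (nat_lit 162) (nat_lit 1) (nat_lit 213) (nat_lit 256) (nat_lit 251)) (XT.lf (nat_lit 1260) (nat_lit 2775804520) (nat_lit 84) (nat_lit 556789686) (nat_lit 0) (nat_lit 4346749354) (nat_lit 178) (nat_lit 1) (nat_lit 164) (nat_lit 1) (nat_lit 163) (nat_lit 1) (nat_lit 214) (nat_lit 256)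 (nat_lit 250))) (XT.nd (nat_lit 94) (nat_lit 0) (nat_lit 0) (XT.lf (nat_lit 1260) (nat_lit 810080378) (nat_lit 0) (nat_lit 5348782473) (nat_lit 1176) (nat_lit 1345136373) (nat_lit 179) (nat_lit 1) (nat_lit 164) (nat_lit 1) (nat_lit 178) (nat_lit 1) (nat_lit 215) (nat_lit 256) (nat_lit 249)) (XT.nd (nat_lit 94) (nat_lit 0) (nat_lit 84) (XT.lf (nat_lit 1260) (nat_lit 1467931600) (nat_lit 84) (nat_lit 4206417639) (nat_lit 0) (nat_lit 1659400574) (nat_lit 179) (nat_lit 1) (nat_lit 165) (nat_lit 1) (nat_lit 164) (nat_lit 1) (nat_lit 216) (nat_lit 256) (nat_lit 248)) (XT.lf (nat_lit 1260) (nat_lit 734584631) (nat_lit 84) (nat_lit 2370892096) (nat_lit 0) (nat_lit 4063466405) (nat_lit 180) (nat_lit 1) (nat_lit 166) (nat_lit 1) (nat_lit 165) (nat_lit 1) (nat_lit 217) (nat_lit 256) (nat_lit 247))))) (XT.nd (nat_lit 282) (nat_lit 1176) (nat_lit 0) (XT.nd (nat_lit 94) (nat_lit 672) (nat_lit 0) (XT.lf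 (nat_lit 84) (nat_lit 624542250) (nat_lit 0) (nat_lit 31125036) (nat_lit 1260) (nat_lit 6354004960) (nat_lit 152) (nat_lit 1) (nat_lit 151) (nat_lit 1) (nat_lit 166) (nat_lit 1) (nat_lit 218) (nat_lit 256) (nat_lit 246)) (XT.nd (nat_lit 94) (nat_lit 672) (nat_lit 0) (XT.lf (nat_lit 84) (nat_lit 5062055657) (nat_lit 0) (nat_lit 840325961) (nat_lit 1260) (nat_lit 951977659) (nat_lit 152) (nat_lit 1) (nat_lit 151) (nat_lit 1) (nat_lit 166) (nat_lit 1) (nat_lit 219) (nat_lit 256) (nat_lit 245)) (XT.lf (nat_lit 84) (nat_lit 2571627927) (nat_lit 0) (nat_lit 1688112511) (nat_lit 756) (nat_lit 2444002560) (nat_lit 144) (nat_lit 1) (nat_lit 143) (nat_lit 1) (nat_lit 152) (nat_lit 1) (nat_lit 220) (nat_lit 256) (nat_lit 244)))) (XT.nd (nat_lit 94) (nat_lit 588) (nat_lit 0) (XT.lf (nat_lit 84) (nat_lit 167793567) (nat_lit 0) (nat_lit 2557301412) (nat_lit 672) (nat_lit 3833041885) (nat_lit 137) (nat_lit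 1) (nat_lit 136) (nat_lit 1) (nat_lit 144) (nat_lit 1) (nat_lit 221) (nat_lit 256) (nat_lit 243)) (XT.nd (nat_lit 94) (nat_lit 0) (nat_lit 0) (XT.lf (nat_lit 672) (nat_lit 2946575154) (nat_lit 0) (nat_lit 1268110238) (nat_lit 588) (nat_lit 2201810258) (nat_lit 137) (nat_lit 1) (nat_lit 129) (nat_lit 1) (nat_lit 136) (nat_lit 1) (nat_lit 222) (nat_lit 256) (nat_lit 242)) (XT.lf (nat_lit 84) (nat_lit 1788842010) (nat_lit 0) (nat_lit 4401093754) (nat_lit 672) (nat_lit 89493063) (nat_lit 130) (nat_lit 1) (nat_lit 129) (nat_lit 1) (nat_lit 137) (nat_lit 1) (nat_lit 223) (nat_lit 256) (nat_lit 241))))))))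
noncomputable def ec18 : XT := (XT.nd (nat_lit 2068) (nat_lit 3192) (nat_lit 0) (XT.nd (nat_lit 1034) (nat_lit 3360) (nat_lit 0) (XT.nd (nat_lit 470) (nat_lit 1764) (nat_lit 0) (XT.nd (nat_lit 188) (nat_lit 1428) (nat_lit 0) (XT.nd (nat_lit 94) (nat_lit 588) (nat_lit 0) (XT.lf (nat_lit 588) (nat_lit 781262078) (nat_lit 0) (nat_lit 4814295647) (nat_lit 504) (nat_lit 550636053) (nat_lit 130) (nat_lit 1) (nat_lit 123) (nat_lit 1) (nat_lit 129) (nat_lit 1) (nat_lit 224) (nat_lit 256) (nat_lit 240)) (XT.lf (nat_lit 84) (nat_lit 3173017755) (nat_lit 0) (nat_lit 334246099) (nat_lit 588) (nat_lit 2509253759) (nat_lit 117) (nat_lit 1) (nat_lit 116) (nat_lit 1) (nat_lit 123) (nat_lit 1) (nat_lit 225) (nat_lit 256) (nat_lit 239))) (XT.nd (nat_lit 94) (nat_lit 924) (nat_lit 0) (XT.lf (nat_lit 84) (nat_lit 845179170) (nat_lit 0) (nat_lit 1435392341) (nat_lit 588) (nat_lit 3610207831) (nat_lit 111) (nat_lit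 1) (nat_lit 110) (nat_lit 1) (nat_lit 117) (nat_lit 1) (nat_lit 226) (nat_lit 256) (nat_lit 238)) (XT.nd (nat_lit 94) (nat_lit 420) (nat_lit 0) (XT.lf (nat_lit 588) (nat_lit 3214225343) (nat_lit 0) (nat_lit 1122645136) (nat_lit 504) (nat_lit 1431699667) (nat_lit 111) (nat_lit 1) (nat_lit 104) (nat_lit 1) (nat_lit 110) (nat_lit 1) (nat_lit 227) (nat_lit 256) (nat_lit 237)) (XT.lf (nat_lit 504) (nat_lit 1967519594) (nat_lit 0) (nat_lit 37076891) (nat_lit 420) (nat_lit 3645397820) (nat_lit 105) (nat_lit 1) (nat_lit 99) (nat_lit 1) (nat_lit 104) (nat_lit 1) (nat_lit 228) (nat_lit 256) (nat_lit 236))))) (XT.nd (nat_lit 282) (nat_lit 840) (nat_lit 0) (XT.nd (nat_lit 94) (nat_lit 924) (nat_lit 0) (XT.lf (nat_lit 504) (nat_lit 712425824) (nat_lit 0) (nat_lit 4584187906) (nat_lit 420) (nat_lit 238159971) (nat_lit 105) (nat_lit 1) (nat_lit 99) (nat_lit 1) (nat_lit 104) (nat_lit 1) (nat_lit 229) (nat_lit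 256) (nat_lit 235)) (XT.nd (nat_lit 94) (nat_lit 420) (nat_lit 0) (XT.lf (nat_lit 84) (nat_lit 2984275365) (nat_lit 0) (nat_lit 545698670) (nat_lit 504) (nat_lit 1892296309) (nat_lit 94) (nat_lit 1) (nat_lit 93) (nat_lit 1) (nat_lit 99) (nat_lit 1) (nat_lit 230) (nat_lit 256) (nat_lit 234)) (XT.lf (nat_lit 84) (nat_lit 763420279) (nat_lit 0) (nat_lit 1778623161) (nat_lit 504) (nat_lit 2771062920) (nat_lit 89) (nat_lit 1) (nat_lit 88) (nat_lit 1) (nat_lit 94) (nat_lit 1) (nat_lit 231) (nat_lit 256) (nat_lit 233)))) (XT.nd (nat_lit 94) (nat_lit 420) (nat_lit 0) (XT.lf (nat_lit 504) (nat_lit 2189461746) (nat_lit 0) (nat_lit 1608988686) (nat_lit 420) (nat_lit 1408429873) (nat_lit 89) (nat_lit 1) (nat_lit 83) (nat_lit 1) (nat_lit 88) (nat_lit 1) (nat_lit 232) (nat_lit 256) (nat_lit 232)) (XT.nd (nat_lit 94) (nat_lit 84) (nat_lit 0) (XT.lf (nat_lit 420) (nat_lit 850246529) (nat_lit 0) (nat_lit 735729422)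 (nat_lit 336) (nat_lit 3517767132) (nat_lit 84) (nat_lit 1) (nat_lit 79) (nat_lit 1) (nat_lit 83) (nat_lit 1) (nat_lit 233) (nat_lit 256) (nat_lit 231)) (XT.lf (nat_lit 84) (nat_lit 4451629780) (nat_lit 0) (nat_lit 470016723) (nat_lit 420) (nat_lit 81798697) (nat_lit 79) (nat_lit 1) (nat_lit 78) (nat_lit 1) (nat_lit 83) (nat_lit 1) (nat_lit 234) (nat_lit 256) (nat_lit 230)))))) (XT.nd (nat_lit 470) (nat_lit 1512) (nat_lit 0) (XT.nd (nat_lit 188) (nat_lit 1092) (nat_lit 0) (XT.nd (nat_lit 94) (nat_lit 336) (nat_lit 0) (XT.lf (nat_lit 84) (nat_lit 2276518661) (nat_lit 0) (nat_lit 1780506691) (nat_lit 504) (nat_lit 848081270) (nat_lit 74) (nat_lit 1) (nat_lit 73) (nat_lit 1) (nat_lit 79) (nat_lit 1) (nat_lit 235) (nat_lit 256) (nat_lit 229)) (XT.lf (nat_lit 84) (nat_lit 181293561) (nat_lit 0) (nat_lit 3073704776) (nat_lit 420) (nat_lit 1554873562) (nat_lit 70) (nat_lit 1) (nat_lit 69) (nat_lit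 1) (nat_lit 74) (nat_lit 1) (nat_lit 236) (nat_lit 256) (nat_lit 228))) (XT.nd (nat_lit 94) (nat_lit 756) (nat_lit 0) (XT.lf (nat_lit 420) (nat_lit 346612700) (nat_lit 0) (nat_lit 2491065615) (nat_lit 336) (nat_lit 1879220116) (nat_lit 70) (nat_lit 1) (nat_lit 65) (nat_lit 1) (nat_lit 69) (nat_lit 1) (nat_lit 237) (nat_lit 256) (nat_lit 227)) (XT.nd (nat_lit 94) (nat_lit 336) (nat_lit 0) (XT.lf (nat_lit 84) (nat_lit 770802273) (nat_lit 0) (nat_lit 1000325151) (nat_lit 420) (nat_lit 2855244423) (nat_lit 61) (nat_lit 1) (nat_lit 60) (nat_lit 1) (nat_lit 65) (nat_lit 1) (nat_lit 238) (nat_lit 256) (nat_lit 226)) (XT.lf (nat_lit 420) (nat_lit 2205896185) (nat_lit 0) (nat_lit 1088407602) (nat_lit 336) (nat_lit 1243745506) (nat_lit 61) (nat_lit 1) (nat_lit 56) (nat_lit 1) (nat_lit 60) (nat_lit 1) (nat_lit 239) (nat_lit 256) (nat_lit 225))))) (XT.nd (nat_lit 282) (nat_lit 840) (nat_lit 0) (XT.nd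 (nat_lit 94) (nat_lit 420) (nat_lit 0) (XT.lf (nat_lit 336) (nat_lit 801377360) (nat_lit 0) (nat_lit 450507194) (nat_lit 252) (nat_lit 3200289752) (nat_lit 57) (nat_lit 1) (nat_lit 53) (nat_lit 1) (nat_lit 56) (nat_lit 1) (nat_lit 240) (nat_lit 256) (nat_lit 224)) (XT.nd (nat_lit 94) (nat_lit 336) (nat_lit 0) (XT.lf (nat_lit 84) (nat_lit 3645679386) (nat_lit 0) (nat_lit 575185745) (nat_lit 336) (nat_lit 147526356) (nat_lit 53) (nat_lit 1) (nat_lit 52) (nat_lit 1) (nat_lit 56) (nat_lit 1) (nat_lit 241) (nat_lit 256) (nat_lit 223)) (XT.lf (nat_lit 84) (nat_lit 1648902982) (nat_lit 0) (nat_lit 1927759914) (nat_lit 420) (nat_lit 709577447) (nat_lit 49) (nat_lit 1) (nat_lit 48) (nat_lit 1) (nat_lit 53) (nat_lit 1) (nat_lit 242) (nat_lit 256) (nat_lit 222)))) (XT.nd (nat_lit 94) (nat_lit 588) (nat_lit 0) (XT.lf (nat_lit 336) (nat_lit 948110385) (nat_lit 0) (nat_lit 2978676123) (nat_lit 252) (nat_lit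 279727913) (nat_lit 49) (nat_lit 1) (nat_lit 45) (nat_lit 1) (nat_lit 48) (nat_lit 1) (nat_lit 243) (nat_lit 256) (nat_lit 221)) (XT.nd (nat_lit 94) (nat_lit 252) (nat_lit 0) (XT.lf (nat_lit 84) (nat_lit 1960737873) (nat_lit 0) (nat_lit 443331845) (nat_lit 336) (nat_lit 1724359478) (nat_lit 42) (nat_lit 1) (nat_lit 41) (nat_lit 1) (nat_lit 45) (nat_lit 1) (nat_lit 244) (nat_lit 256) (nat_lit 220)) (XT.lf (nat_lit 84) (nat_lit 78578422) (nat_lit 0) (nat_lit 1786178153) (nat_lit 336) (nat_lit 2187618805) (nat_lit 39) (nat_lit 1) (nat_lit 38) (nat_lit 1) (nat_lit 42) (nat_lit 1) (nat_lit 245) (nat_lit 256) (nat_lit 219))))))) (XT.nd (nat_lit 1034) (nat_lit 756) (nat_lit 0) (XT.nd (nat_lit 470) (nat_lit 1344) (nat_lit 0) (XT.nd (nat_lit 188) (nat_lit 504) (nat_lit 0) (XT.nd (nat_lit 94) (nat_lit 336) (nat_lit 0) (XT.lf (nat_lit 336) (nat_lit 855896085) (nat_lit 0) (nat_lit 1349147548) (nat_lit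 252) (nat_lit 1772905465) (nat_lit 39) (nat_lit 1) (nat_lit 35) (nat_lit 1) (nat_lit 38) (nat_lit 1) (nat_lit 246) (nat_lit 256) (nat_lit 218)) (XT.lf (nat_lit 84) (nat_lit 355496219) (nat_lit 0) (nat_lit 514014277) (nat_lit 336) (nat_lit 3036042909) (nat_lit 32) (nat_lit 1) (nat_lit 31) (nat_lit 1) (nat_lit 35) (nat_lit 1) (nat_lit 247) (nat_lit 256) (nat_lit 217))) (XT.nd (nat_lit 94) (nat_lit 252) (nat_lit 0) (XT.lf (nat_lit 336) (nat_lit 1982058099) (nat_lit 0) (nat_lit 404665564) (nat_lit 252) (nat_lit 1447736781) (nat_lit 32) (nat_lit 1) (nat_lit 28) (nat_lit 1) (nat_lit 31) (nat_lit 1) (nat_lit 248) (nat_lit 256) (nat_lit 216)) (XT.nd (nat_lit 94) (nat_lit 252) (nat_lit 0) (XT.lf (nat_lit 84) (nat_lit 575245639) (nat_lit 0) (nat_lit 3166580461) (nat_lit 336) (nat_lit 23543465) (nat_lit 29) (nat_lit 1) (nat_lit 28) (nat_lit 1) (nat_lit 32) (nat_lit 1) (nat_lit 249) (nat_lit 256) (nat_lit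 215)) (XT.lf (nat_lit 84) (nat_lit 2515778474) (nat_lit 0) (nat_lit 754818012) (nat_lit 252) (nat_lit 426854429) (nat_lit 26) (nat_lit 1) (nat_lit 25) (nat_lit 1) (nat_lit 28) (nat_lit 1) (nat_lit 250) (nat_lit 256) (nat_lit 214))))) (XT.nd (nat_lit 282) (nat_lit 588) (nat_lit 0) (XT.nd (nat_lit 94) (nat_lit 504) (nat_lit 0) (XT.lf (nat_lit 84) (nat_lit 753185053) (nat_lit 0) (nat_lit 2071454022) (nat_lit 336) (nat_lit 806490426) (nat_lit 23) (nat_lit 1) (nat_lit 22) (nat_lit 1) (nat_lit 26) (nat_lit 1) (nat_lit 251) (nat_lit 256) (nat_lit 213)) (XT.nd (nat_lit 94) (nat_lit 336) (nat_lit 0) (XT.lf (nat_lit 252) (nat_lit 197009495) (nat_lit 0) (nat_lit 2404862773) (nat_lit 168) (nat_lit 964553181) (nat_lit 23) (nat_lit 1) (nat_lit 20) (nat_lit 1) (nat_lit 22) (nat_lit 1) (nat_lit 252) (nat_lit 256) (nat_lit 212)) (XT.lf (nat_lit 84) (nat_lit 882294117) (nat_lit 0) (nat_lit 1117118673) (nat_lit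 336) (nat_lit 1503514624) (nat_lit 17) (nat_lit 1) (nat_lit 16) (nat_lit 1) (nat_lit 20) (nat_lit 1) (nat_lit 253) (nat_lit 256) (nat_lit 211)))) (XT.nd (nat_lit 94) (nat_lit 420) (nat_lit 0) (XT.lf (nat_lit 252) (nat_lit 1035511507) (nat_lit 0) (nat_lit 1617728680) (nat_lit 168) (nat_lit 787704115) (nat_lit 17) (nat_lit 1) (nat_lit 14) (nat_lit 1) (nat_lit 16) (nat_lit 1) (nat_lit 254) (nat_lit 256) (nat_lit 210)) (XT.nd (nat_lit 94) (nat_lit 168) (nat_lit 0) (XT.lf (nat_lit 84) (nat_lit 970039792) (nat_lit 0) (nat_lit 286506587) (nat_lit 252) (nat_lit 2123809193) (nat_lit 12) (nat_lit 1) (nat_lit 11) (nat_lit 1) (nat_lit 14) (nat_lit 1) (nat_lit 255) (nat_lit 256) (nat_lit 209)) (XT.lf (nat_lit 252) (nat_lit 1759197997) (nat_lit 0) (nat_lit 909014613) (nat_lit 168) (nat_lit 652706913) (nat_lit 12) (nat_lit 1) (nat_lit 9) (nat_lit 1) (nat_lit 11) (nat_lit 1) (nat_lit 256) (nat_lit 256) (nat_lit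 208)))))) (XT.nd (nat_lit 470) (nat_lit 0) (nat_lit 0) (XT.nd (nat_lit 188) (nat_lit 336) (nat_lit 0) (XT.nd (nat_lit 94) (nat_lit 252) (nat_lit 0) (XT.lf (nat_lit 252) (nat_lit 445466689) (nat_lit 0) (nat_lit 582399418) (nat_lit 168) (nat_lit 2235005888) (nat_lit 10) (nat_lit 1) (nat_lit 7) (nat_lit 1) (nat_lit 9) (nat_lit 1) (nat_lit 257) (nat_lit 256) (nat_lit 207)) (XT.lf (nat_lit 252) (nat_lit 2382130140) (nat_lit 0) (nat_lit 270669827) (nat_lit 168) (nat_lit 553199343) (nat_lit 7) (nat_lit 1) (nat_lit 4) (nat_lit 1) (nat_lit 6) (nat_lit 1) (nat_lit 258) (nat_lit 256) (nat_lit 206))) (XT.nd (nat_lit 94) (nat_lit 336) (nat_lit 0) (XT.lf (nat_lit 84) (nat_lit 1058913386) (nat_lit 0) (nat_lit 2064263161) (nat_lit 252) (nat_lit 27053570) (nat_lit 5) (nat_lit 1) (nat_lit 4) (nat_lit 1) (nat_lit 7) (nat_lit 1) (nat_lit 259) (nat_lit 256) (nat_lit 205)) (XT.nd (nat_lit 94) (nat_lit 84) (nat_lit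 0) (XT.lf (nat_lit 84) (nat_lit 2615596616) (nat_lit 0) (nat_lit 182607480) (nat_lit 252) (nat_lit 297542108) (nat_lit 2) (nat_lit 1) (nat_lit 1) (nat_lit 1) (nat_lit 4) (nat_lit 1) (nat_lit 260) (nat_lit 256) (nat_lit 204)) (XT.lf (nat_lit 0) (nat_lit 2520405158) (nat_lit 0) (nat_lit 0) (nat_lit 0) (nat_lit 0) (nat_lit 0) (nat_lit 0) (nat_lit 1) (nat_lit 0) (nat_lit 1) (nat_lit 0) (nat_lit 261) (nat_lit 256) (nat_lit 203))))) (XT.nd (nat_lit 40138) (nat_lit 0) (nat_lit 13440) (XT.nd (nat_lit 39950) (nat_lit 0) (nat_lit 13356) (XT.lf (nat_lit 0) (nat_lit 2511997472) (nat_lit 0) (nat_lit 0) (nat_lit 0) (nat_lit 0) (nat_lit 0) (nat_lit 0) (nat_lit 1) (nat_lit 0) (nat_lit 1) (nat_lit 0) (nat_lit 262) (nat_lit 256) (nat_lit 202)) (XT.nd (nat_lit 94) (nat_lit 0) (nat_lit 0) (XT.lf (nat_lit 1260) (nat_lit 1320609525) (nat_lit 0) (nat_lit 2009247082) (nat_lit 1260) (nat_lit 1320609525) (nat_lit 174)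 (nat_lit 1) (nat_lit 159) (nat_lit 0) (nat_lit 174) (nat_lit 0) (nat_lit 206) (nat_lit 257) (nat_lit 257)) (XT.lf (nat_lit 1260) (nat_lit 5111688733) (nat_lit 84) (nat_lit 3900151193) (nat_lit 0) (nat_lit 66120608) (nat_lit 174) (nat_lit 1) (nat_lit 160) (nat_lit 1) (nat_lit 159) (nat_lit 0) (nat_lit 207) (nat_lit 257) (nat_lit 256)))) (XT.nd (nat_lit 94) (nat_lit 0) (nat_lit 84) (XT.lf (nat_lit 1260) (nat_lit 4832592378) (nat_lit 84) (nat_lit 1283319996) (nat_lit 0) (nat_lit 2745755264) (nat_lit 175) (nat_lit 1) (nat_lit 161) (nat_lit 1) (nat_lit 160) (nat_lit 1) (nat_lit 208) (nat_lit 257) (nat_lit 255)) (XT.nd (nat_lit 94) (nat_lit 0) (nat_lit 84) (XT.lf (nat_lit 1260) (nat_lit 3327465683) (nat_lit 0) (nat_lit 4183736428) (nat_lit 1176) (nat_lit 1141152601) (nat_lit 176) (nat_lit 1) (nat_lit 161) (nat_lit 1) (nat_lit 175) (nat_lit 1) (nat_lit 209) (nat_lit 257) (nat_lit 254)) (XT.lf (nat_lit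 1260) (nat_lit 643797478) (nat_lit 0) (nat_lit 4424060746) (nat_lit 1176) (nat_lit 3381894865) (nat_lit 177) (nat_lit 1) (nat_lit 162) (nat_lit 1) (nat_lit 176) (nat_lit 1) (nat_lit 210) (nat_lit 257) (nat_lit 253))))))))
noncomputable def ec19 : XT := (XT.nd (nat_lit 2068) (nat_lit 5796) (nat_lit 0) (XT.nd (nat_lit 1034) (nat_lit 4284) (nat_lit 0) (XT.nd (nat_lit 470) (nat_lit 2772) (nat_lit 0) (XT.nd (nat_lit 188) (nat_lit 0) (nat_lit 168) (XT.nd (nat_lit 94) (nat_lit 0) (nat_lit 84) (XT.lf (nat_lit 1260) (nat_lit 3500621797) (nat_lit 84) (nat_lit 2755890246) (nat_lit 0) (nat_lit 1996796037) (nat_lit 177) (nat_lit 1) (nat_lit 163) (nat_lit 1) (nat_lit 162) (nat_lit 1) (nat_lit 211) (nat_lit 257) (nat_lit 252)) (XT.lf (nat_lit 1260) (nat_lit 2914594746) (nat_lit 84) (nat_lit 584629170) (nat_lit 0) (nat_lit 4564086822) (nat_lit 178) (nat_lit 1) (nat_lit 164) (nat_lit 1) (nat_lit 163) (nat_lit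 1) (nat_lit 212) (nat_lit 257) (nat_lit 251))) (XT.nd (nat_lit 94) (nat_lit 0) (nat_lit 0) (XT.lf (nat_lit 1260) (nat_lit 850584396) (nat_lit 0) (nat_lit 5616221596) (nat_lit 1176) (nat_lit 1412393191) (nat_lit 179) (nat_lit 1) (nat_lit 164) (nat_lit 1) (nat_lit 178) (nat_lit 1) (nat_lit 213) (nat_lit 257) (nat_lit 250)) (XT.nd (nat_lit 94) (nat_lit 0) (nat_lit 84) (XT.lf (nat_lit 1260) (nat_lit 1541328180) (nat_lit 84) (nat_lit 4416738521) (nat_lit 0) (nat_lit 1742370603) (nat_lit 179) (nat_lit 1) (nat_lit 165) (nat_lit 1) (nat_lit 164) (nat_lit 1) (nat_lit 214) (nat_lit 257) (nat_lit 249)) (XT.lf (nat_lit 1260) (nat_lit 771313862) (nat_lit 84) (nat_lit 2489436701) (nat_lit 0) (nat_lit 4266639725) (nat_lit 180) (nat_lit 1) (nat_lit 166) (nat_lit 1) (nat_lit 165) (nat_lit 1) (nat_lit 215) (nat_lit 257) (nat_lit 248))))) (XT.nd (nat_lit 282) (nat_lit 1176) (nat_lit 0) (XT.nd (nat_lit 94) (nat_lit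 672) (nat_lit 0) (XT.lf (nat_lit 84) (nat_lit 655769362) (nat_lit 0) (nat_lit 32681288) (nat_lit 1260) (nat_lit 6671705208) (nat_lit 152) (nat_lit 1) (nat_lit 151) (nat_lit 1) (nat_lit 166) (nat_lit 1) (nat_lit 216) (nat_lit 257) (nat_lit 247)) (XT.nd (nat_lit 94) (nat_lit 672) (nat_lit 0) (XT.lf (nat_lit 84) (nat_lit 5315158440) (nat_lit 0) (nat_lit 882342259) (nat_lit 1260) (nat_lit 999576542) (nat_lit 152) (nat_lit 1) (nat_lit 151) (nat_lit 1) (nat_lit 166) (nat_lit 1) (nat_lit 217) (nat_lit 257) (nat_lit 246)) (XT.lf (nat_lit 84) (nat_lit 2700209323) (nat_lit 0) (nat_lit 1772518137) (nat_lit 756) (nat_lit 2566202688) (nat_lit 144) (nat_lit 1) (nat_lit 143) (nat_lit 1) (nat_lit 152) (nat_lit 1) (nat_lit 218) (nat_lit 257) (nat_lit 245)))) (XT.nd (nat_lit 94) (nat_lit 588) (nat_lit 0) (XT.lf (nat_lit 84) (nat_lit 176183245) (nat_lit 0) (nat_lit 2685166482) (nat_lit 672) (nat_lit 4024693979)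 (nat_lit 137) (nat_lit 1) (nat_lit 136) (nat_lit 1) (nat_lit 144) (nat_lit 1) (nat_lit 219) (nat_lit 257) (nat_lit 244)) (XT.nd (nat_lit 94) (nat_lit 0) (nat_lit 0) (XT.lf (nat_lit 672) (nat_lit 3093903912) (nat_lit 0) (nat_lit 1331515750) (nat_lit 588) (nat_lit 2311900771) (nat_lit 137) (nat_lit 1) (nat_lit 129) (nat_lit 1) (nat_lit 136) (nat_lit 1) (nat_lit 220) (nat_lit 257) (nat_lit 243)) (XT.lf (nat_lit 84) (nat_lit 1878284110) (nat_lit 0) (nat_lit 4621148442) (nat_lit 672) (nat_lit 93967716) (nat_lit 130) (nat_lit 1) (nat_lit 129) (nat_lit 1) (nat_lit 137) (nat_lit 1) (nat_lit 221) (nat_lit 257) (nat_lit 242)))))) (XT.nd (nat_lit 470) (nat_lit 1764) (nat_lit 0) (XT.nd (nat_lit 188) (nat_lit 1428) (nat_lit 0) (XT.nd (nat_lit 94) (nat_lit 588) (nat_lit 0) (XT.lf (nat_lit 588) (nat_lit 820325182) (nat_lit 0) (nat_lit 5055010429) (nat_lit 504) (nat_lit 578167855) (nat_lit 130) (nat_lit 1)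 (nat_lit 123) (nat_lit 1) (nat_lit 129) (nat_lit 1) (nat_lit 222) (nat_lit 257) (nat_lit 241)) (XT.lf (nat_lit 84) (nat_lit 3331668643) (nat_lit 0) (nat_lit 350958404) (nat_lit 588) (nat_lit 2634716447) (nat_lit 117) (nat_lit 1) (nat_lit 116) (nat_lit 1) (nat_lit 123) (nat_lit 1) (nat_lit 223) (nat_lit 257) (nat_lit 240))) (XT.nd (nat_lit 94) (nat_lit 924) (nat_lit 0) (XT.lf (nat_lit 84) (nat_lit 887438129) (nat_lit 0) (nat_lit 1507161958) (nat_lit 588) (nat_lit 3790718222) (nat_lit 111) (nat_lit 1) (nat_lit 110) (nat_lit 1) (nat_lit 117) (nat_lit 1) (nat_lit 224) (nat_lit 257) (nat_lit 239)) (XT.nd (nat_lit 94) (nat_lit 420) (nat_lit 0) (XT.lf (nat_lit 588) (nat_lit 3374936610) (nat_lit 0) (nat_lit 1178777393) (nat_lit 504) (nat_lit 1503284651) (nat_lit 111) (nat_lit 1) (nat_lit 104) (nat_lit 1) (nat_lit 110) (nat_lit 1) (nat_lit 225) (nat_lit 257) (nat_lit 238)) (XT.lf (nat_lit 504) (nat_lit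 2065895574) (nat_lit 0) (nat_lit 38930735) (nat_lit 420) (nat_lit 3827667711) (nat_lit 105) (nat_lit 1) (nat_lit 99) (nat_lit 1) (nat_lit 104) (nat_lit 1) (nat_lit 226) (nat_lit 257) (nat_lit 237))))) (XT.nd (nat_lit 282) (nat_lit 840) (nat_lit 0) (XT.nd (nat_lit 94) (nat_lit 924) (nat_lit 0) (XT.lf (nat_lit 504) (nat_lit 748047115) (nat_lit 0) (nat_lit 4813397302) (nat_lit 420) (nat_lit 250067970) (nat_lit 105) (nat_lit 1) (nat_lit 99) (nat_lit 1) (nat_lit 104) (nat_lit 1) (nat_lit 227) (nat_lit 257) (nat_lit 236)) (XT.nd (nat_lit 94) (nat_lit 420) (nat_lit 0) (XT.lf (nat_lit 84) (nat_lit 3133489133) (nat_lit 0) (nat_lit 572983604) (nat_lit 504) (nat_lit 1986911124) (nat_lit 94) (nat_lit 1) (nat_lit 93) (nat_lit 1) (nat_lit 99) (nat_lit 1) (nat_lit 228) (nat_lit 257) (nat_lit 235)) (XT.lf (nat_lit 84) (nat_lit 801591293) (nat_lit 0) (nat_lit 1867554320) (nat_lit 504) (nat_lit 2909616066)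 (nat_lit 89) (nat_lit 1) (nat_lit 88) (nat_lit 1) (nat_lit 94) (nat_lit 1) (nat_lit 229) (nat_lit 257) (nat_lit 234)))) (XT.nd (nat_lit 94) (nat_lit 420) (nat_lit 0) (XT.lf (nat_lit 504) (nat_lit 2298934833) (nat_lit 0) (nat_lit 1689438121) (nat_lit 420) (nat_lit 1478851366) (nat_lit 89) (nat_lit 1) (nat_lit 83) (nat_lit 1) (nat_lit 88) (nat_lit 1) (nat_lit 230) (nat_lit 257) (nat_lit 233)) (XT.nd (nat_lit 94) (nat_lit 84) (nat_lit 0) (XT.lf (nat_lit 420) (nat_lit 892758856) (nat_lit 0) (nat_lit 772515893) (nat_lit 336) (nat_lit 3693655488) (nat_lit 84) (nat_lit 1) (nat_lit 79) (nat_lit 1) (nat_lit 83) (nat_lit 1) (nat_lit 231) (nat_lit 257) (nat_lit 232)) (XT.lf (nat_lit 84) (nat_lit 4674211269) (nat_lit 0) (nat_lit 493517559) (nat_lit 420) (nat_lit 85888632) (nat_lit 79) (nat_lit 1) (nat_lit 78) (nat_lit 1) (nat_lit 83) (nat_lit 1) (nat_lit 232) (nat_lit 257) (nat_lit 231))))))) (XT.nd (nat_lit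 1034) (nat_lit 2436) (nat_lit 0) (XT.nd (nat_lit 470) (nat_lit 1512) (nat_lit 0) (XT.nd (nat_lit 188) (nat_lit 1092) (nat_lit 0) (XT.nd (nat_lit 94) (nat_lit 336) (nat_lit 0) (XT.lf (nat_lit 84) (nat_lit 2390344594) (nat_lit 0) (nat_lit 1869532025) (nat_lit 504) (nat_lit 890485333) (nat_lit 74) (nat_lit 1) (nat_lit 73) (nat_lit 1) (nat_lit 79) (nat_lit 1) (nat_lit 233) (nat_lit 257) (nat_lit 230)) (XT.lf (nat_lit 84) (nat_lit 190358239) (nat_lit 0) (nat_lit 3227390015) (nat_lit 420) (nat_lit 1632617240) (nat_lit 70) (nat_lit 1) (nat_lit 69) (nat_lit 1) (nat_lit 74) (nat_lit 1) (nat_lit 234) (nat_lit 257) (nat_lit 229))) (XT.nd (nat_lit 94) (nat_lit 756) (nat_lit 0) (XT.lf (nat_lit 420) (nat_lit 363943335) (nat_lit 0) (nat_lit 2615618896) (nat_lit 336) (nat_lit 1973181122) (nat_lit 70) (nat_lit 1) (nat_lit 65) (nat_lit 1) (nat_lit 69) (nat_lit 1) (nat_lit 235) (nat_lit 257) (nat_lit 228)) (XT.nd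 (nat_lit 94) (nat_lit 336) (nat_lit 0) (XT.lf (nat_lit 84) (nat_lit 809342386) (nat_lit 0) (nat_lit 1050341408) (nat_lit 420) (nat_lit 2998006644) (nat_lit 61) (nat_lit 1) (nat_lit 60) (nat_lit 1) (nat_lit 65) (nat_lit 1) (nat_lit 236) (nat_lit 257) (nat_lit 227)) (XT.lf (nat_lit 420) (nat_lit 2316190994) (nat_lit 0) (nat_lit 1142827982) (nat_lit 336) (nat_lit 1305932781) (nat_lit 61) (nat_lit 1) (nat_lit 56) (nat_lit 1) (nat_lit 60) (nat_lit 1) (nat_lit 237) (nat_lit 257) (nat_lit 226))))) (XT.nd (nat_lit 282) (nat_lit 840) (nat_lit 0) (XT.nd (nat_lit 94) (nat_lit 420) (nat_lit 0) (XT.lf (nat_lit 336) (nat_lit 841446228) (nat_lit 0) (nat_lit 473032554) (nat_lit 252) (nat_lit 3360304240) (nat_lit 57) (nat_lit 1) (nat_lit 53) (nat_lit 1) (nat_lit 56) (nat_lit 1) (nat_lit 238) (nat_lit 257) (nat_lit 225)) (XT.nd (nat_lit 94) (nat_lit 336) (nat_lit 0) (XT.lf (nat_lit 84) (nat_lit 3827963356)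 (nat_lit 0) (nat_lit 603945032) (nat_lit 336) (nat_lit 154902674) (nat_lit 53) (nat_lit 1) (nat_lit 52) (nat_lit 1) (nat_lit 56) (nat_lit 1) (nat_lit 239) (nat_lit 257) (nat_lit 224)) (XT.lf (nat_lit 84) (nat_lit 1731348131) (nat_lit 0) (nat_lit 2024147910) (nat_lit 420) (nat_lit 745056320) (nat_lit 49) (nat_lit 1) (nat_lit 48) (nat_lit 1) (nat_lit 53) (nat_lit 1) (nat_lit 240) (nat_lit 257) (nat_lit 223)))) (XT.nd (nat_lit 94) (nat_lit 588) (nat_lit 0) (XT.lf (nat_lit 336) (nat_lit 995515904) (nat_lit 0) (nat_lit 3127609929) (nat_lit 252) (nat_lit 293714308) (nat_lit 49) (nat_lit 1) (nat_lit 45) (nat_lit 1) (nat_lit 48) (nat_lit 1) (nat_lit 241) (nat_lit 257) (nat_lit 222)) (XT.nd (nat_lit 94) (nat_lit 252) (nat_lit 0) (XT.lf (nat_lit 84) (nat_lit 2058774767) (nat_lit 0) (nat_lit 465498438) (nat_lit 336) (nat_lit 1810577452) (nat_lit 42) (nat_lit 1) (nat_lit 41) (nat_lit 1) (nat_lit 45) (nat_lit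 1) (nat_lit 242) (nat_lit 257) (nat_lit 221)) (XT.lf (nat_lit 84) (nat_lit 82507344) (nat_lit 0) (nat_lit 1875487061) (nat_lit 336) (nat_lit 2296999745) (nat_lit 39) (nat_lit 1) (nat_lit 38) (nat_lit 1) (nat_lit 42) (nat_lit 1) (nat_lit 243) (nat_lit 257) (nat_lit 220)))))) (XT.nd (nat_lit 470) (nat_lit 1344) (nat_lit 0) (XT.nd (nat_lit 188) (nat_lit 504) (nat_lit 0) (XT.nd (nat_lit 94) (nat_lit 336) (nat_lit 0) (XT.lf (nat_lit 336) (nat_lit 898690889) (nat_lit 0) (nat_lit 1416604926) (nat_lit 252) (nat_lit 1861550738) (nat_lit 39) (nat_lit 1) (nat_lit 35) (nat_lit 1) (nat_lit 38) (nat_lit 1) (nat_lit 244) (nat_lit 257) (nat_lit 219)) (XT.lf (nat_lit 84) (nat_lit 373271030) (nat_lit 0) (nat_lit 539714991) (nat_lit 336) (nat_lit 3187845055) (nat_lit 32) (nat_lit 1) (nat_lit 31) (nat_lit 1) (nat_lit 35) (nat_lit 1) (nat_lit 245) (nat_lit 257) (nat_lit 218))) (XT.nd (nat_lit 94) (nat_lit 252)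 (nat_lit 0) (XT.lf (nat_lit 336) (nat_lit 2081161004) (nat_lit 0) (nat_lit 424898843) (nat_lit 252) (nat_lit 1520123621) (nat_lit 32) (nat_lit 1) (nat_lit 28) (nat_lit 1) (nat_lit 31) (nat_lit 1) (nat_lit 246) (nat_lit 257) (nat_lit 217)) (XT.nd (nat_lit 94) (nat_lit 252) (nat_lit 0) (XT.lf (nat_lit 84) (nat_lit 604007920) (nat_lit 0) (nat_lit 3324909484) (nat_lit 336) (nat_lit 24720639) (nat_lit 29) (nat_lit 1) (nat_lit 28) (nat_lit 1) (nat_lit 32) (nat_lit 1) (nat_lit 247) (nat_lit 257) (nat_lit 216)) (XT.lf (nat_lit 84) (nat_lit 2641567398) (nat_lit 0) (nat_lit 792558913) (nat_lit 252) (nat_lit 448197150) (nat_lit 26) (nat_lit 1) (nat_lit 25) (nat_lit 1) (nat_lit 28) (nat_lit 1) (nat_lit 248) (nat_lit 257) (nat_lit 215))))) (XT.nd (nat_lit 282) (nat_lit 588) (nat_lit 0) (XT.nd (nat_lit 94) (nat_lit 504) (nat_lit 0) (XT.lf (nat_lit 84) (nat_lit 790844305) (nat_lit 0) (nat_lit 2175026723)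 (nat_lit 336) (nat_lit 846814948) (nat_lit 23) (nat_lit 1) (nat_lit 22) (nat_lit 1) (nat_lit 26) (nat_lit 1) (nat_lit 249) (nat_lit 257) (nat_lit 214)) (XT.nd (nat_lit 94) (nat_lit 336) (nat_lit 0) (XT.lf (nat_lit 252) (nat_lit 206859969) (nat_lit 0) (nat_lit 2525105912) (nat_lit 168) (nat_lit 1012780840) (nat_lit 23) (nat_lit 1) (nat_lit 20) (nat_lit 1) (nat_lit 22) (nat_lit 1) (nat_lit 250) (nat_lit 257) (nat_lit 213)) (XT.lf (nat_lit 84) (nat_lit 926408823) (nat_lit 0) (nat_lit 1172974607) (nat_lit 336) (nat_lit 1578690355) (nat_lit 17) (nat_lit 1) (nat_lit 16) (nat_lit 1) (nat_lit 20) (nat_lit 1) (nat_lit 251) (nat_lit 257) (nat_lit 212)))) (XT.nd (nat_lit 94) (nat_lit 420) (nat_lit 0) (XT.lf (nat_lit 252) (nat_lit 1087287082) (nat_lit 0) (nat_lit 1698615114) (nat_lit 168) (nat_lit 827089321) (nat_lit 17) (nat_lit 1) (nat_lit 14) (nat_lit 1) (nat_lit 16) (nat_lit 1) (nat_lit 252) (nat_lit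 257) (nat_lit 211)) (XT.nd (nat_lit 94) (nat_lit 168) (nat_lit 0) (XT.lf (nat_lit 84) (nat_lit 1018541781) (nat_lit 0) (nat_lit 300831916) (nat_lit 252) (nat_lit 2229999652) (nat_lit 12) (nat_lit 1) (nat_lit 11) (nat_lit 1) (nat_lit 14) (nat_lit 1) (nat_lit 253) (nat_lit 257) (nat_lit 210)) (XT.lf (nat_lit 252) (nat_lit 1847157897) (nat_lit 0) (nat_lit 954465343) (nat_lit 168) (nat_lit 685342259) (nat_lit 12) (nat_lit 1) (nat_lit 9) (nat_lit 1) (nat_lit 11) (nat_lit 1) (nat_lit 254) (nat_lit 257) (nat_lit 209))))))))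
noncomputable def ec20 : XT := (XT.nd (nat_lit 41736) (nat_lit 0) (nat_lit 3780) (XT.nd (nat_lit 40702) (nat_lit 0) (nat_lit 11424) (XT.nd (nat_lit 470) (nat_lit 0) (nat_lit 0) (XT.nd (nat_lit 188) (nat_lit 336) (nat_lit 0) (XT.nd (nat_lit 94) (nat_lit 252) (nat_lit 0) (XT.lf (nat_lit 252) (nat_lit 467740023) (nat_lit 0) (nat_lit 611519389) (nat_lit 168) (nat_lit 2346756182) (nat_lit 10) (nat_lit 1) (nat_lit 7) (nat_lit 1) (nat_lit 9) (nat_lit 1) (nat_lit 255) (nat_lit 257) (nat_lit 208)) (XT.lf (nat_lit 252) (nat_lit 2501236647) (nat_lit 0) (nat_lit 284203318) (nat_lit 168) (nat_lit 580859310) (nat_lit 7) (nat_lit 1) (nat_lit 4) (nat_lit 1) (nat_lit 6) (nat_lit 1) (nat_lit 256) (nat_lit 257) (nat_lit 207))) (XT.nd (nat_lit 94) (nat_lit 336) (nat_lit 0) (XT.lf (nat_lit 84) (nat_lit 1111859056) (nat_lit 0) (nat_lit 2167476319) (nat_lit 252) (nat_lit 28406249) (nat_lit 5) (nat_lit 1) (nat_lit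 4) (nat_lit 1) (nat_lit 7) (nat_lit 1) (nat_lit 257) (nat_lit 257) (nat_lit 206)) (XT.nd (nat_lit 94) (nat_lit 84) (nat_lit 0) (XT.lf (nat_lit 84) (nat_lit 2746376447) (nat_lit 0) (nat_lit 191737854) (nat_lit 252) (nat_lit 312419214) (nat_lit 2) (nat_lit 1) (nat_lit 1) (nat_lit 1) (nat_lit 4) (nat_lit 1) (nat_lit 258) (nat_lit 257) (nat_lit 205)) (XT.lf (nat_lit 0) (nat_lit 2646425416) (nat_lit 0) (nat_lit 0) (nat_lit 0) (nat_lit 0) (nat_lit 0) (nat_lit 0) (nat_lit 1) (nat_lit 0) (nat_lit 1) (nat_lit 0) (nat_lit 259) (nat_lit 257) (nat_lit 204))))) (XT.nd (nat_lit 39950) (nat_lit 0) (nat_lit 13356) (XT.nd (nat_lit 94) (nat_lit 0) (nat_lit 0) (XT.lf (nat_lit 0) (nat_lit 2637597345) (nat_lit 0) (nat_lit 0) (nat_lit 0) (nat_lit 0) (nat_lit 0) (nat_lit 0) (nat_lit 1) (nat_lit 0) (nat_lit 1) (nat_lit 0) (nat_lit 260) (nat_lit 257) (nat_lit 203)) (XT.nd (nat_lit 94) (nat_lit 0) (nat_lit 0) (XT.lf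 (nat_lit 0) (nat_lit 2629189659) (nat_lit 0) (nat_lit 0) (nat_lit 0) (nat_lit 0) (nat_lit 0) (nat_lit 0) (nat_lit 1) (nat_lit 0) (nat_lit 1) (nat_lit 0) (nat_lit 261) (nat_lit 257) (nat_lit 202)) (XT.lf (nat_lit 0) (nat_lit 2621182338) (nat_lit 0) (nat_lit 0) (nat_lit 0) (nat_lit 0) (nat_lit 0) (nat_lit 0) (nat_lit 1) (nat_lit 0) (nat_lit 1) (nat_lit 0) (nat_lit 262) (nat_lit 257) (nat_lit 201)))) (XT.nd (nat_lit 94) (nat_lit 0) (nat_lit 0) (XT.lf (nat_lit 1260) (nat_lit 1386640001) (nat_lit 0) (nat_lit 2109709436) (nat_lit 1260) (nat_lit 1386640001) (nat_lit 174) (nat_lit 1) (nat_lit 159) (nat_lit 0) (nat_lit 174) (nat_lit 0) (nat_lit 204) (nat_lit 258) (nat_lit 258)) (XT.nd (nat_lit 94) (nat_lit 0) (nat_lit 84) (XT.lf (nat_lit 1260) (nat_lit 5367273170) (nat_lit 84) (nat_lit 4095158753) (nat_lit 0) (nat_lit 69426638) (nat_lit 174) (nat_lit 1) (nat_lit 160) (nat_lit 1) (nat_lit 159) (nat_lit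 0) (nat_lit 205) (nat_lit 258) (nat_lit 257)) (XT.lf (nat_lit 1260) (nat_lit 5074221997) (nat_lit 84) (nat_lit 1347485996) (nat_lit 0) (nat_lit 2883043028) (nat_lit 175) (nat_lit 1) (nat_lit 161) (nat_lit 1) (nat_lit 160) (nat_lit 1) (nat_lit 206) (nat_lit 258) (nat_lit 256)))))) (XT.nd (nat_lit 470) (nat_lit 2100) (nat_lit 0) (XT.nd (nat_lit 188) (nat_lit 0) (nat_lit 84) (XT.nd (nat_lit 94) (nat_lit 0) (nat_lit 84) (XT.lf (nat_lit 1260) (nat_lit 3493838967) (nat_lit 0) (nat_lit 4392923250) (nat_lit 1176) (nat_lit 1198210231) (nat_lit 176) (nat_lit 1) (nat_lit 161) (nat_lit 1) (nat_lit 175) (nat_lit 1) (nat_lit 207) (nat_lit 258) (nat_lit 255)) (XT.lf (nat_lit 1260) (nat_lit 675987352) (nat_lit 0) (nat_lit 4645263783) (nat_lit 1176) (nat_lit 3550989609) (nat_lit 177) (nat_lit 1) (nat_lit 162) (nat_lit 1) (nat_lit 176) (nat_lit 1) (nat_lit 208) (nat_lit 258) (nat_lit 254))) (XT.nd (nat_lit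 94) (nat_lit 0) (nat_lit 84) (XT.lf (nat_lit 1260) (nat_lit 3675652887) (nat_lit 84) (nat_lit 2893684758) (nat_lit 0) (nat_lit 2096635839) (nat_lit 177) (nat_lit 1) (nat_lit 163) (nat_lit 1) (nat_lit 162) (nat_lit 1) (nat_lit 209) (nat_lit 258) (nat_lit 253)) (XT.nd (nat_lit 94) (nat_lit 0) (nat_lit 84) (XT.lf (nat_lit 1260) (nat_lit 3060324484) (nat_lit 84) (nat_lit 613860629) (nat_lit 0) (nat_lit 4792291163) (nat_lit 178) (nat_lit 1) (nat_lit 164) (nat_lit 1) (nat_lit 163) (nat_lit 1) (nat_lit 210) (nat_lit 258) (nat_lit 252)) (XT.lf (nat_lit 1260) (nat_lit 893113616) (nat_lit 0) (nat_lit 5897032676) (nat_lit 1176) (nat_lit 1483012851) (nat_lit 179) (nat_lit 1) (nat_lit 164) (nat_lit 1) (nat_lit 178) (nat_lit 1) (nat_lit 211) (nat_lit 258) (nat_lit 251))))) (XT.nd (nat_lit 282) (nat_lit 1260) (nat_lit 0) (XT.nd (nat_lit 94) (nat_lit 1092) (nat_lit 0) (XT.lf (nat_lit 1260) (nat_lit 1618394589)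 (nat_lit 84) (nat_lit 4637575447) (nat_lit 0) (nat_lit 1829489133) (nat_lit 179) (nat_lit 1) (nat_lit 165) (nat_lit 1) (nat_lit 164) (nat_lit 1) (nat_lit 212) (nat_lit 258) (nat_lit 250)) (XT.nd (nat_lit 94) (nat_lit 1176) (nat_lit 0) (XT.lf (nat_lit 1260) (nat_lit 809879556) (nat_lit 84) (nat_lit 2613908536) (nat_lit 0) (nat_lit 4479971712) (nat_lit 180) (nat_lit 1) (nat_lit 166) (nat_lit 1) (nat_lit 165) (nat_lit 1) (nat_lit 213) (nat_lit 258) (nat_lit 249)) (XT.lf (nat_lit 84) (nat_lit 688557830) (nat_lit 0) (nat_lit 34315352) (nat_lit 1260) (nat_lit 7005290469) (nat_lit 152) (nat_lit 1) (nat_lit 151) (nat_lit 1) (nat_lit 166) (nat_lit 1) (nat_lit 214) (nat_lit 258) (nat_lit 248)))) (XT.nd (nat_lit 94) (nat_lit 1260) (nat_lit 0) (XT.lf (nat_lit 84) (nat_lit 5580916362) (nat_lit 0) (nat_lit 926459372) (nat_lit 1260) (nat_lit 1049555369) (nat_lit 152) (nat_lit 1) (nat_lit 151) (nat_lit 1)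 (nat_lit 166) (nat_lit 1) (nat_lit 215) (nat_lit 258) (nat_lit 247)) (XT.nd (nat_lit 94) (nat_lit 588) (nat_lit 0) (XT.lf (nat_lit 84) (nat_lit 2835219789) (nat_lit 0) (nat_lit 1861144043) (nat_lit 756) (nat_lit 2694512823) (nat_lit 144) (nat_lit 1) (nat_lit 143) (nat_lit 1) (nat_lit 152) (nat_lit 1) (nat_lit 216) (nat_lit 258) (nat_lit 246)) (XT.lf (nat_lit 84) (nat_lit 184992407) (nat_lit 0) (nat_lit 2819424807) (nat_lit 672) (nat_lit 4225928678) (nat_lit 137) (nat_lit 1) (nat_lit 136) (nat_lit 1) (nat_lit 144) (nat_lit 1) (nat_lit 217) (nat_lit 258) (nat_lit 245))))))) (XT.nd (nat_lit 1034) (nat_lit 3192) (nat_lit 0) (XT.nd (nat_lit 470) (nat_lit 2268) (nat_lit 0) (XT.nd (nat_lit 188) (nat_lit 1596) (nat_lit 0) (XT.nd (nat_lit 94) (nat_lit 0) (nat_lit 0) (XT.lf (nat_lit 672) (nat_lit 3248599107) (nat_lit 0) (nat_lit 1398091537) (nat_lit 588) (nat_lit 2427495809) (nat_lit 137) (nat_lit 1)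 (nat_lit 129) (nat_lit 1) (nat_lit 136) (nat_lit 1) (nat_lit 218) (nat_lit 258) (nat_lit 244)) (XT.lf (nat_lit 84) (nat_lit 1972198316) (nat_lit 0) (nat_lit 4852205864) (nat_lit 672) (nat_lit 98666102) (nat_lit 130) (nat_lit 1) (nat_lit 129) (nat_lit 1) (nat_lit 137) (nat_lit 1) (nat_lit 219) (nat_lit 258) (nat_lit 243))) (XT.nd (nat_lit 94) (nat_lit 1092) (nat_lit 0) (XT.lf (nat_lit 588) (nat_lit 861341441) (nat_lit 0) (nat_lit 5307760950) (nat_lit 504) (nat_lit 607076248) (nat_lit 130) (nat_lit 1) (nat_lit 123) (nat_lit 1) (nat_lit 129) (nat_lit 1) (nat_lit 220) (nat_lit 258) (nat_lit 242)) (XT.nd (nat_lit 94) (nat_lit 504) (nat_lit 0) (XT.lf (nat_lit 84) (nat_lit 3498252075) (nat_lit 0) (nat_lit 368506325) (nat_lit 588) (nat_lit 2766452269) (nat_lit 117) (nat_lit 1) (nat_lit 116) (nat_lit 1) (nat_lit 123) (nat_lit 1) (nat_lit 221) (nat_lit 258) (nat_lit 241)) (XT.lf (nat_lit 84) (nat_lit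 931810035) (nat_lit 0) (nat_lit 1582520056) (nat_lit 588) (nat_lit 3980254134) (nat_lit 111) (nat_lit 1) (nat_lit 110) (nat_lit 1) (nat_lit 117) (nat_lit 1) (nat_lit 222) (nat_lit 258) (nat_lit 240))))) (XT.nd (nat_lit 282) (nat_lit 1344) (nat_lit 0) (XT.nd (nat_lit 94) (nat_lit 420) (nat_lit 0) (XT.lf (nat_lit 588) (nat_lit 3543683440) (nat_lit 0) (nat_lit 1237716263) (nat_lit 504) (nat_lit 1578448883) (nat_lit 111) (nat_lit 1) (nat_lit 104) (nat_lit 1) (nat_lit 110) (nat_lit 1) (nat_lit 223) (nat_lit 258) (nat_lit 239)) (XT.nd (nat_lit 94) (nat_lit 0) (nat_lit 0) (XT.lf (nat_lit 504) (nat_lit 2169190353) (nat_lit 0) (nat_lit 40877272) (nat_lit 420) (nat_lit 4019051096) (nat_lit 105) (nat_lit 1) (nat_lit 99) (nat_lit 1) (nat_lit 104) (nat_lit 1) (nat_lit 224) (nat_lit 258) (nat_lit 238)) (XT.lf (nat_lit 504) (nat_lit 785449470) (nat_lit 0) (nat_lit 5054067167) (nat_lit 420) (nat_lit 262571368)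 (nat_lit 105) (nat_lit 1) (nat_lit 99) (nat_lit 1) (nat_lit 104) (nat_lit 1) (nat_lit 225) (nat_lit 258) (nat_lit 237)))) (XT.nd (nat_lit 94) (nat_lit 840) (nat_lit 0) (XT.lf (nat_lit 84) (nat_lit 3290163590) (nat_lit 0) (nat_lit 601632784) (nat_lit 504) (nat_lit 2086256681) (nat_lit 94) (nat_lit 1) (nat_lit 93) (nat_lit 1) (nat_lit 99) (nat_lit 1) (nat_lit 226) (nat_lit 258) (nat_lit 236)) (XT.nd (nat_lit 94) (nat_lit 420) (nat_lit 0) (XT.lf (nat_lit 84) (nat_lit 841670857) (nat_lit 0) (nat_lit 1960932036) (nat_lit 504) (nat_lit 3055096869) (nat_lit 89) (nat_lit 1) (nat_lit 88) (nat_lit 1) (nat_lit 94) (nat_lit 1) (nat_lit 227) (nat_lit 258) (nat_lit 235)) (XT.lf (nat_lit 504) (nat_lit 2413881575) (nat_lit 0) (nat_lit 1773910027) (nat_lit 420) (nat_lit 1552793935) (nat_lit 89) (nat_lit 1) (nat_lit 83) (nat_lit 1) (nat_lit 88) (nat_lit 1) (nat_lit 228) (nat_lit 258) (nat_lit 234)))))) (XT.nd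 (nat_lit 470) (nat_lit 1680) (nat_lit 0) (XT.nd (nat_lit 188) (nat_lit 1092) (nat_lit 0) (XT.nd (nat_lit 94) (nat_lit 84) (nat_lit 0) (XT.lf (nat_lit 420) (nat_lit 937396799) (nat_lit 0) (nat_lit 811141688) (nat_lit 336) (nat_lit 3878338263) (nat_lit 84) (nat_lit 1) (nat_lit 79) (nat_lit 1) (nat_lit 83) (nat_lit 1) (nat_lit 229) (nat_lit 258) (nat_lit 233)) (XT.lf (nat_lit 84) (nat_lit 4907921832) (nat_lit 0) (nat_lit 518193437) (nat_lit 420) (nat_lit 90183063) (nat_lit 79) (nat_lit 1) (nat_lit 78) (nat_lit 1) (nat_lit 83) (nat_lit 1) (nat_lit 230) (nat_lit 258) (nat_lit 232))) (XT.nd (nat_lit 94) (nat_lit 672) (nat_lit 0) (XT.lf (nat_lit 84) (nat_lit 2509861823) (nat_lit 0) (nat_lit 1963008626) (nat_lit 504) (nat_lit 935009600) (nat_lit 74) (nat_lit 1) (nat_lit 73) (nat_lit 1) (nat_lit 79) (nat_lit 1) (nat_lit 231) (nat_lit 258) (nat_lit 231)) (XT.nd (nat_lit 94) (nat_lit 336) (nat_lit 0)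 (XT.lf (nat_lit 84) (nat_lit 199876151) (nat_lit 0) (nat_lit 3388759515) (nat_lit 420) (nat_lit 1714248102) (nat_lit 70) (nat_lit 1) (nat_lit 69) (nat_lit 1) (nat_lit 74) (nat_lit 1) (nat_lit 232) (nat_lit 258) (nat_lit 230)) (XT.lf (nat_lit 420) (nat_lit 382140502) (nat_lit 0) (nat_lit 2746399841) (nat_lit 336) (nat_lit 2071840178) (nat_lit 70) (nat_lit 1) (nat_lit 65) (nat_lit 1) (nat_lit 69) (nat_lit 1) (nat_lit 233) (nat_lit 258) (nat_lit 229))))) (XT.nd (nat_lit 282) (nat_lit 672) (nat_lit 0) (XT.nd (nat_lit 94) (nat_lit 588) (nat_lit 0) (XT.lf (nat_lit 84) (nat_lit 849809506) (nat_lit 0) (nat_lit 1102858479) (nat_lit 420) (nat_lit 3147906976) (nat_lit 61) (nat_lit 1) (nat_lit 60) (nat_lit 1) (nat_lit 65) (nat_lit 1) (nat_lit 234) (nat_lit 258) (nat_lit 228)) (XT.nd (nat_lit 94) (nat_lit 252) (nat_lit 0) (XT.lf (nat_lit 420) (nat_lit 2432000544) (nat_lit 0) (nat_lit 1199969381) (nat_lit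 336) (nat_lit 1371229421) (nat_lit 61) (nat_lit 1) (nat_lit 56) (nat_lit 1) (nat_lit 60) (nat_lit 1) (nat_lit 235) (nat_lit 258) (nat_lit 227)) (XT.lf (nat_lit 336) (nat_lit 883518539) (nat_lit 0) (nat_lit 496684182) (nat_lit 252) (nat_lit 3528319452) (nat_lit 57) (nat_lit 1) (nat_lit 53) (nat_lit 1) (nat_lit 56) (nat_lit 1) (nat_lit 236) (nat_lit 258) (nat_lit 226)))) (XT.nd (nat_lit 94) (nat_lit 588) (nat_lit 0) (XT.lf (nat_lit 84) (nat_lit 4019361524) (nat_lit 0) (nat_lit 634142283) (nat_lit 336) (nat_lit 162647808) (nat_lit 53) (nat_lit 1) (nat_lit 52) (nat_lit 1) (nat_lit 56) (nat_lit 1) (nat_lit 237) (nat_lit 258) (nat_lit 225)) (XT.nd (nat_lit 94) (nat_lit 252) (nat_lit 0) (XT.lf (nat_lit 84) (nat_lit 1817915537) (nat_lit 0) (nat_lit 2125355305) (nat_lit 420) (nat_lit 782309136) (nat_lit 49) (nat_lit 1) (nat_lit 48) (nat_lit 1) (nat_lit 53) (nat_lit 1) (nat_lit 238) (nat_lit 258) (nat_lit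 224)) (XT.lf (nat_lit 336) (nat_lit 1045291699) (nat_lit 0) (nat_lit 3283990425) (nat_lit 252) (nat_lit 308400024) (nat_lit 49) (nat_lit 1) (nat_lit 45) (nat_lit 1) (nat_lit 48) (nat_lit 1) (nat_lit 239) (nat_lit 258) (nat_lit 223))))))))
noncomputable def ec21 : XT := (XT.nd (nat_lit 2068) (nat_lit 0) (nat_lit 0) (XT.nd (nat_lit 1034) (nat_lit 1176) (nat_lit 0) (XT.nd (nat_lit 470) (nat_lit 1176) (nat_lit 0) (XT.nd (nat_lit 188) (nat_lit 840) (nat_lit 0) (XT.nd (nat_lit 94) (nat_lit 252) (nat_lit 0) (XT.lf (nat_lit 84) (nat_lit 2161713505) (nat_lit 0) (nat_lit 488773360) (nat_lit 336) (nat_lit 1901106324) (nat_lit 42) (nat_lit 1) (nat_lit 41) (nat_lit 1) (nat_lit 45) (nat_lit 1) (nat_lit 240) (nat_lit 258) (nat_lit 222)) (XT.lf (nat_lit 84) (nat_lit 86632711) (nat_lit 0) (nat_lit 1969261414) (nat_lit 336) (nat_lit 2411849732) (nat_lit 39) (nat_lit 1) (nat_lit 38) (nat_lit 1) (nat_lit 42)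 (nat_lit 1) (nat_lit 241) (nat_lit 258) (nat_lit 221))) (XT.nd (nat_lit 94) (nat_lit 588) (nat_lit 0) (XT.lf (nat_lit 336) (nat_lit 943625433) (nat_lit 0) (nat_lit 1487435172) (nat_lit 252) (nat_lit 1954628275) (nat_lit 39) (nat_lit 1) (nat_lit 35) (nat_lit 1) (nat_lit 38) (nat_lit 1) (nat_lit 242) (nat_lit 258) (nat_lit 220)) (XT.nd (nat_lit 94) (nat_lit 252) (nat_lit 0) (XT.lf (nat_lit 84) (nat_lit 391934582) (nat_lit 0) (nat_lit 566700740) (nat_lit 336) (nat_lit 3347237307) (nat_lit 32) (nat_lit 1) (nat_lit 31) (nat_lit 1) (nat_lit 35) (nat_lit 1) (nat_lit 243) (nat_lit 258) (nat_lit 219)) (XT.lf (nat_lit 336) (nat_lit 2185219054) (nat_lit 0) (nat_lit 446143785) (nat_lit 252) (nat_lit 1596129802) (nat_lit 32) (nat_lit 1) (nat_lit 28) (nat_lit 1) (nat_lit 31) (nat_lit 1) (nat_lit 244) (nat_lit 258) (nat_lit 218))))) (XT.nd (nat_lit 282) (nat_lit 672) (nat_lit 0) (XT.nd (nat_lit 94) (nat_lit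 504) (nat_lit 0) (XT.lf (nat_lit 84) (nat_lit 634208317) (nat_lit 0) (nat_lit 3491154958) (nat_lit 336) (nat_lit 25956671) (nat_lit 29) (nat_lit 1) (nat_lit 28) (nat_lit 1) (nat_lit 32) (nat_lit 1) (nat_lit 245) (nat_lit 258) (nat_lit 217)) (XT.nd (nat_lit 94) (nat_lit 252) (nat_lit 0) (XT.lf (nat_lit 84) (nat_lit 2773645768) (nat_lit 0) (nat_lit 832186859) (nat_lit 252) (nat_lit 470607008) (nat_lit 26) (nat_lit 1) (nat_lit 25) (nat_lit 1) (nat_lit 28) (nat_lit 1) (nat_lit 246) (nat_lit 258) (nat_lit 216)) (XT.lf (nat_lit 84) (nat_lit 830386521) (nat_lit 0) (nat_lit 2283778059) (nat_lit 336) (nat_lit 889155695) (nat_lit 23) (nat_lit 1) (nat_lit 22) (nat_lit 1) (nat_lit 26) (nat_lit 1) (nat_lit 247) (nat_lit 258) (nat_lit 215)))) (XT.nd (nat_lit 94) (nat_lit 504) (nat_lit 0) (XT.lf (nat_lit 252) (nat_lit 217202968) (nat_lit 0) (nat_lit 2651361208) (nat_lit 168) (nat_lit 1063419882) (nat_lit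 23) (nat_lit 1) (nat_lit 20) (nat_lit 1) (nat_lit 22) (nat_lit 1) (nat_lit 248) (nat_lit 258) (nat_lit 214)) (XT.nd (nat_lit 94) (nat_lit 168) (nat_lit 0) (XT.lf (nat_lit 84) (nat_lit 972729264) (nat_lit 0) (nat_lit 1231623337) (nat_lit 336) (nat_lit 1657624873) (nat_lit 17) (nat_lit 1) (nat_lit 16) (nat_lit 1) (nat_lit 20) (nat_lit 1) (nat_lit 249) (nat_lit 258) (nat_lit 213)) (XT.lf (nat_lit 252) (nat_lit 1141651436) (nat_lit 0) (nat_lit 1783545870) (nat_lit 168) (nat_lit 868443787) (nat_lit 17) (nat_lit 1) (nat_lit 14) (nat_lit 1) (nat_lit 16) (nat_lit 1) (nat_lit 250) (nat_lit 258) (nat_lit 212)))))) (XT.nd (nat_lit 470) (nat_lit 336) (nat_lit 0) (XT.nd (nat_lit 188) (nat_lit 420) (nat_lit 0) (XT.nd (nat_lit 94) (nat_lit 168) (nat_lit 0) (XT.lf (nat_lit 84) (nat_lit 1069468871) (nat_lit 0) (nat_lit 315873512) (nat_lit 252) (nat_lit 2341499635) (nat_lit 12) (nat_lit 1) (nat_lit 11) (nat_lit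 1) (nat_lit 14) (nat_lit 1) (nat_lit 251) (nat_lit 258) (nat_lit 211)) (XT.lf (nat_lit 252) (nat_lit 1939515792) (nat_lit 0) (nat_lit 1002188610) (nat_lit 168) (nat_lit 719609372) (nat_lit 12) (nat_lit 1) (nat_lit 9) (nat_lit 1) (nat_lit 11) (nat_lit 1) (nat_lit 252) (nat_lit 258) (nat_lit 210))) (XT.nd (nat_lit 94) (nat_lit 252) (nat_lit 0) (XT.lf (nat_lit 252) (nat_lit 491127024) (nat_lit 0) (nat_lit 642095359) (nat_lit 168) (nat_lit 2464093991) (nat_lit 10) (nat_lit 1) (nat_lit 7) (nat_lit 1) (nat_lit 9) (nat_lit 1) (nat_lit 253) (nat_lit 258) (nat_lit 209)) (XT.nd (nat_lit 94) (nat_lit 0) (nat_lit 0) (XT.lf (nat_lit 252) (nat_lit 2626298479) (nat_lit 0) (nat_lit 298413484) (nat_lit 168) (nat_lit 609902275) (nat_lit 7) (nat_lit 1) (nat_lit 4) (nat_lit 1) (nat_lit 6) (nat_lit 1) (nat_lit 254) (nat_lit 258) (nat_lit 208)) (XT.lf (nat_lit 84) (nat_lit 1167452008) (nat_lit 0) (nat_lit 2275850135)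 (nat_lit 252) (nat_lit 29826561) (nat_lit 5) (nat_lit 1) (nat_lit 4) (nat_lit 1) (nat_lit 7) (nat_lit 1) (nat_lit 255) (nat_lit 258) (nat_lit 207))))) (XT.nd (nat_lit 282) (nat_lit 0) (nat_lit 0) (XT.nd (nat_lit 94) (nat_lit 84) (nat_lit 0) (XT.lf (nat_lit 84) (nat_lit 2883695269) (nat_lit 0) (nat_lit 201324747) (nat_lit 252) (nat_lit 328040174) (nat_lit 2) (nat_lit 1) (nat_lit 1) (nat_lit 1) (nat_lit 4) (nat_lit 1) (nat_lit 256) (nat_lit 258) (nat_lit 206)) (XT.nd (nat_lit 94) (nat_lit 0) (nat_lit 0) (XT.lf (nat_lit 0) (nat_lit 2778746687) (nat_lit 0) (nat_lit 0) (nat_lit 0) (nat_lit 0) (nat_lit 0) (nat_lit 0) (nat_lit 1) (nat_lit 0) (nat_lit 1) (nat_lit 0) (nat_lit 257) (nat_lit 258) (nat_lit 205)) (XT.lf (nat_lit 0) (nat_lit 2769477212) (nat_lit 0) (nat_lit 0) (nat_lit 0) (nat_lit 0) (nat_lit 0) (nat_lit 0) (nat_lit 1) (nat_lit 0) (nat_lit 1) (nat_lit 0) (nat_lit 258) (nat_lit 258) (nat_lit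 204)))) (XT.nd (nat_lit 94) (nat_lit 0) (nat_lit 0) (XT.lf (nat_lit 0) (nat_lit 2760649142) (nat_lit 0) (nat_lit 0) (nat_lit 0) (nat_lit 0) (nat_lit 0) (nat_lit 0) (nat_lit 1) (nat_lit 0) (nat_lit 1) (nat_lit 0) (nat_lit 259) (nat_lit 258) (nat_lit 203)) (XT.nd (nat_lit 94) (nat_lit 0) (nat_lit 0) (XT.lf (nat_lit 0) (nat_lit 2752241455) (nat_lit 0) (nat_lit 0) (nat_lit 0) (nat_lit 0) (nat_lit 0) (nat_lit 0) (nat_lit 1) (nat_lit 0) (nat_lit 1) (nat_lit 0) (nat_lit 260) (nat_lit 258) (nat_lit 202)) (XT.lf (nat_lit 0) (nat_lit 2744234135) (nat_lit 0) (nat_lit 0) (nat_lit 0) (nat_lit 0) (nat_lit 0) (nat_lit 0) (nat_lit 1) (nat_lit 0) (nat_lit 1) (nat_lit 0) (nat_lit 261) (nat_lit 258) (nat_lit 201))))))) (XT.nd (nat_lit 40514) (nat_lit 0) (nat_lit 8316) (XT.nd (nat_lit 39950) (nat_lit 0) (nat_lit 13608) (XT.nd (nat_lit 39668) (nat_lit 0) (nat_lit 13356) (XT.nd (nat_lit 39574) (nat_lit 0) (nat_lit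 13356) (XT.lf (nat_lit 0) (nat_lit 2736608115) (nat_lit 0) (nat_lit 0) (nat_lit 0) (nat_lit 0) (nat_lit 0) (nat_lit 0) (nat_lit 1) (nat_lit 0) (nat_lit 1) (nat_lit 0) (nat_lit 262) (nat_lit 258) (nat_lit 200)) (XT.lf (nat_lit 1260) (nat_lit 1455972001) (nat_lit 0) (nat_lit 2215194908) (nat_lit 1260) (nat_lit 1455972001) (nat_lit 174) (nat_lit 1) (nat_lit 159) (nat_lit 0) (nat_lit 174) (nat_lit 0) (nat_lit 202) (nat_lit 259) (nat_lit 259))) (XT.nd (nat_lit 94) (nat_lit 0) (nat_lit 84) (XT.lf (nat_lit 1260) (nat_lit 5635636828) (nat_lit 84) (nat_lit 4299916690) (nat_lit 0) (nat_lit 72897970) (nat_lit 174) (nat_lit 1) (nat_lit 160) (nat_lit 1) (nat_lit 159) (nat_lit 0) (nat_lit 203) (nat_lit 259) (nat_lit 258)) (XT.nd (nat_lit 94) (nat_lit 0) (nat_lit 84) (XT.lf (nat_lit 1260) (nat_lit 5327933097) (nat_lit 84) (nat_lit 1414860295) (nat_lit 0) (nat_lit 3027195179) (nat_lit 175) (nat_lit 1) (nat_lit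 161) (nat_lit 1) (nat_lit 160) (nat_lit 1) (nat_lit 204) (nat_lit 259) (nat_lit 257)) (XT.lf (nat_lit 1260) (nat_lit 3668530916) (nat_lit 0) (nat_lit 4612569412) (nat_lit 1176) (nat_lit 1258120742) (nat_lit 176) (nat_lit 1) (nat_lit 161) (nat_lit 1) (nat_lit 175) (nat_lit 1) (nat_lit 205) (nat_lit 259) (nat_lit 256))))) (XT.nd (nat_lit 282) (nat_lit 0) (nat_lit 168) (XT.nd (nat_lit 94) (nat_lit 0) (nat_lit 0) (XT.lf (nat_lit 1260) (nat_lit 709786719) (nat_lit 0) (nat_lit 4877526972) (nat_lit 1176) (nat_lit 3728539089) (nat_lit 177) (nat_lit 1) (nat_lit 162) (nat_lit 1) (nat_lit 176) (nat_lit 1) (nat_lit 206) (nat_lit 259) (nat_lit 255)) (XT.nd (nat_lit 94) (nat_lit 0) (nat_lit 84) (XT.lf (nat_lit 1260) (nat_lit 3859435531) (nat_lit 84) (nat_lit 3038368996) (nat_lit 0) (nat_lit 2201467630) (nat_lit 177) (nat_lit 1) (nat_lit 163) (nat_lit 1) (nat_lit 162) (nat_lit 1) (nat_lit 207) (nat_lit 259)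 (nat_lit 254)) (XT.lf (nat_lit 1260) (nat_lit 3213340708) (nat_lit 84) (nat_lit 644553660) (nat_lit 0) (nat_lit 5031905721) (nat_lit 178) (nat_lit 1) (nat_lit 164) (nat_lit 1) (nat_lit 163) (nat_lit 1) (nat_lit 208) (nat_lit 259) (nat_lit 253)))) (XT.nd (nat_lit 94) (nat_lit 0) (nat_lit 0) (XT.lf (nat_lit 1260) (nat_lit 937769297) (nat_lit 0) (nat_lit 6191884310) (nat_lit 1176) (nat_lit 1557163494) (nat_lit 179) (nat_lit 1) (nat_lit 164) (nat_lit 1) (nat_lit 178) (nat_lit 1) (nat_lit 209) (nat_lit 259) (nat_lit 252)) (XT.nd (nat_lit 94) (nat_lit 0) (nat_lit 84) (XT.lf (nat_lit 1260) (nat_lit 1699314318) (nat_lit 84) (nat_lit 4869454220) (nat_lit 0) (nat_lit 1920963590) (nat_lit 179) (nat_lit 1) (nat_lit 165) (nat_lit 1) (nat_lit 164) (nat_lit 1) (nat_lit 210) (nat_lit 259) (nat_lit 251)) (XT.lf (nat_lit 1260) (nat_lit 850373533) (nat_lit 84) (nat_lit 2744603963) (nat_lit 0) (nat_lit 4703970297)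 (nat_lit 180) (nat_lit 1) (nat_lit 166) (nat_lit 1) (nat_lit 165) (nat_lit 1) (nat_lit 211) (nat_lit 259) (nat_lit 250)))))) (XT.nd (nat_lit 470) (nat_lit 2520) (nat_lit 0) (XT.nd (nat_lit 188) (nat_lit 1848) (nat_lit 0) (XT.nd (nat_lit 94) (nat_lit 0) (nat_lit 0) (XT.lf (nat_lit 84) (nat_lit 722985722) (nat_lit 0) (nat_lit 36031120) (nat_lit 1260) (nat_lit 7355554992) (nat_lit 152) (nat_lit 1) (nat_lit 151) (nat_lit 1) (nat_lit 166) (nat_lit 1) (nat_lit 212) (nat_lit 259) (nat_lit 249)) (XT.lf (nat_lit 84) (nat_lit 5859962180) (nat_lit 0) (nat_lit 972782341) (nat_lit 1260) (nat_lit 1102033137) (nat_lit 152) (nat_lit 1) (nat_lit 151) (nat_lit 1) (nat_lit 166) (nat_lit 1) (nat_lit 213) (nat_lit 259) (nat_lit 248))) (XT.nd (nat_lit 94) (nat_lit 1176) (nat_lit 0) (XT.lf (nat_lit 84) (nat_lit 2976980779) (nat_lit 0) (nat_lit 1954201246) (nat_lit 756) (nat_lit 2829238464) (nat_lit 144) (nat_lit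 1) (nat_lit 143) (nat_lit 1) (nat_lit 152) (nat_lit 1) (nat_lit 214) (nat_lit 259) (nat_lit 247)) (XT.nd (nat_lit 94) (nat_lit 588) (nat_lit 0) (XT.lf (nat_lit 84) (nat_lit 194242028) (nat_lit 0) (nat_lit 2960396047) (nat_lit 672) (nat_lit 4437225112) (nat_lit 137) (nat_lit 1) (nat_lit 136) (nat_lit 1) (nat_lit 144) (nat_lit 1) (nat_lit 215) (nat_lit 259) (nat_lit 246)) (XT.lf (nat_lit 672) (nat_lit 3411029063) (nat_lit 0) (nat_lit 1467996114) (nat_lit 588) (nat_lit 2548870600) (nat_lit 137) (nat_lit 1) (nat_lit 129) (nat_lit 1) (nat_lit 136) (nat_lit 1) (nat_lit 216) (nat_lit 259) (nat_lit 245))))) (XT.nd (nat_lit 282) (nat_lit 1428) (nat_lit 0) (XT.nd (nat_lit 94) (nat_lit 1092) (nat_lit 0) (XT.lf (nat_lit 84) (nat_lit 2070808232) (nat_lit 0) (nat_lit 5094816158) (nat_lit 672) (nat_lit 103599407) (nat_lit 130) (nat_lit 1) (nat_lit 129) (nat_lit 1) (nat_lit 137) (nat_lit 1) (nat_lit 217)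 (nat_lit 259) (nat_lit 244)) (XT.nd (nat_lit 94) (nat_lit 588) (nat_lit 0) (XT.lf (nat_lit 588) (nat_lit 904408513) (nat_lit 0) (nat_lit 5573148998) (nat_lit 504) (nat_lit 637430061) (nat_lit 130) (nat_lit 1) (nat_lit 123) (nat_lit 1) (nat_lit 129) (nat_lit 1) (nat_lit 218) (nat_lit 259) (nat_lit 243)) (XT.lf (nat_lit 84) (nat_lit 3673164679) (nat_lit 0) (nat_lit 386931641) (nat_lit 588) (nat_lit 2904774882) (nat_lit 117) (nat_lit 1) (nat_lit 116) (nat_lit 1) (nat_lit 123) (nat_lit 1) (nat_lit 219) (nat_lit 259) (nat_lit 242)))) (XT.nd (nat_lit 94) (nat_lit 924) (nat_lit 0) (XT.lf (nat_lit 84) (nat_lit 978400537) (nat_lit 0) (nat_lit 1661646059) (nat_lit 588) (nat_lit 4179266840) (nat_lit 111) (nat_lit 1) (nat_lit 110) (nat_lit 1) (nat_lit 117) (nat_lit 1) (nat_lit 220) (nat_lit 259) (nat_lit 241)) (XT.nd (nat_lit 94) (nat_lit 420) (nat_lit 0) (XT.lf (nat_lit 588) (nat_lit 3720867612) (nat_lit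 0) (nat_lit 1299602076) (nat_lit 504) (nat_lit 1657371327) (nat_lit 111) (nat_lit 1) (nat_lit 104) (nat_lit 1) (nat_lit 110) (nat_lit 1) (nat_lit 221) (nat_lit 259) (nat_lit 240)) (XT.lf (nat_lit 504) (nat_lit 2277649870) (nat_lit 0) (nat_lit 42921136) (nat_lit 420) (nat_lit 4220003651) (nat_lit 105) (nat_lit 1) (nat_lit 99) (nat_lit 1) (nat_lit 104) (nat_lit 1) (nat_lit 222) (nat_lit 259) (nat_lit 239))))))))
noncomputable def ec22 : XT := (XT.nd (nat_lit 2068) (nat_lit 2100) (nat_lit 0) (XT.nd (nat_lit 1034) (nat_lit 2604) (nat_lit 0) (XT.nd (nat_lit 470) (nat_lit 1932) (nat_lit 0) (XT.nd (nat_lit 188) (nat_lit 1176) (nat_lit 0) (XT.nd (nat_lit 94) (nat_lit 504) (nat_lit 0) (XT.lf (nat_lit 504) (nat_lit 824721944) (nat_lit 0) (nat_lit 5306770525) (nat_lit 420) (nat_lit 275699936) (nat_lit 105) (nat_lit 1) (nat_lit 99) (nat_lit 1) (nat_lit 104) (nat_lit 1) (nat_lit 223) (nat_lit 259) (nat_lit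 238)) (XT.lf (nat_lit 84) (nat_lit 3454671770) (nat_lit 0) (nat_lit 631714423) (nat_lit 504) (nat_lit 2190569515) (nat_lit 94) (nat_lit 1) (nat_lit 93) (nat_lit 1) (nat_lit 99) (nat_lit 1) (nat_lit 224) (nat_lit 259) (nat_lit 237))) (XT.nd (nat_lit 94) (nat_lit 756) (nat_lit 0) (XT.lf (nat_lit 84) (nat_lit 883754400) (nat_lit 0) (nat_lit 2058978637) (nat_lit 504) (nat_lit 3207851712) (nat_lit 89) (nat_lit 1) (nat_lit 88) (nat_lit 1) (nat_lit 94) (nat_lit 1) (nat_lit 225) (nat_lit 259) (nat_lit 236)) (XT.nd (nat_lit 94) (nat_lit 336) (nat_lit 0) (XT.lf (nat_lit 504) (nat_lit 2534575653) (nat_lit 0) (nat_lit 1862605528) (nat_lit 420) (nat_lit 1630433631) (nat_lit 89) (nat_lit 1) (nat_lit 83) (nat_lit 1) (nat_lit 88) (nat_lit 1) (nat_lit 226) (nat_lit 259) (nat_lit 235)) (XT.lf (nat_lit 420) (nat_lit 984266638) (nat_lit 0) (nat_lit 851698772) (nat_lit 336) (nat_lit 4072255176) (nat_lit 84) (nat_lit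 1) (nat_lit 79) (nat_lit 1) (nat_lit 83) (nat_lit 1) (nat_lit 227) (nat_lit 259) (nat_lit 234))))) (XT.nd (nat_lit 282) (nat_lit 1092) (nat_lit 0) (XT.nd (nat_lit 94) (nat_lit 756) (nat_lit 0) (XT.lf (nat_lit 84) (nat_lit 5153317924) (nat_lit 0) (nat_lit 544103109) (nat_lit 420) (nat_lit 94692216) (nat_lit 79) (nat_lit 1) (nat_lit 78) (nat_lit 1) (nat_lit 83) (nat_lit 1) (nat_lit 228) (nat_lit 259) (nat_lit 233)) (XT.nd (nat_lit 94) (nat_lit 336) (nat_lit 0) (XT.lf (nat_lit 84) (nat_lit 2635354915) (nat_lit 0) (nat_lit 2061159058) (nat_lit 504) (nat_lit 981760080) (nat_lit 74) (nat_lit 1) (nat_lit 73) (nat_lit 1) (nat_lit 79) (nat_lit 1) (nat_lit 229) (nat_lit 259) (nat_lit 232)) (XT.lf (nat_lit 84) (nat_lit 209869958) (nat_lit 0) (nat_lit 3558197491) (nat_lit 420) (nat_lit 1799960507) (nat_lit 70) (nat_lit 1) (nat_lit 69) (nat_lit 1) (nat_lit 74) (nat_lit 1) (nat_lit 230) (nat_lit 259) (nat_lit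 231)))) (XT.nd (nat_lit 94) (nat_lit 756) (nat_lit 0) (XT.lf (nat_lit 420) (nat_lit 401247527) (nat_lit 0) (nat_lit 2883719833) (nat_lit 336) (nat_lit 2175432187) (nat_lit 70) (nat_lit 1) (nat_lit 65) (nat_lit 1) (nat_lit 69) (nat_lit 1) (nat_lit 231) (nat_lit 259) (nat_lit 230)) (XT.nd (nat_lit 94) (nat_lit 336) (nat_lit 0) (XT.lf (nat_lit 84) (nat_lit 892299981) (nat_lit 0) (nat_lit 1158001402) (nat_lit 420) (nat_lit 3305302325) (nat_lit 61) (nat_lit 1) (nat_lit 60) (nat_lit 1) (nat_lit 65) (nat_lit 1) (nat_lit 232) (nat_lit 259) (nat_lit 229)) (XT.lf (nat_lit 420) (nat_lit 2553600571) (nat_lit 0) (nat_lit 1259967850) (nat_lit 336) (nat_lit 1439790892) (nat_lit 61) (nat_lit 1) (nat_lit 56) (nat_lit 1) (nat_lit 60) (nat_lit 1) (nat_lit 233) (nat_lit 259) (nat_lit 228)))))) (XT.nd (nat_lit 470) (nat_lit 1344) (nat_lit 0) (XT.nd (nat_lit 188) (nat_lit 924) (nat_lit 0) (XT.nd (nat_lit 94) (nat_lit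 84) (nat_lit 0) (XT.lf (nat_lit 336) (nat_lit 927694466) (nat_lit 0) (nat_lit 521518391) (nat_lit 252) (nat_lit 3704735425) (nat_lit 57) (nat_lit 1) (nat_lit 53) (nat_lit 1) (nat_lit 56) (nat_lit 1) (nat_lit 234) (nat_lit 259) (nat_lit 227)) (XT.lf (nat_lit 84) (nat_lit 4220329600) (nat_lit 0) (nat_lit 665849398) (nat_lit 336) (nat_lit 170780199) (nat_lit 53) (nat_lit 1) (nat_lit 52) (nat_lit 1) (nat_lit 56) (nat_lit 1) (nat_lit 235) (nat_lit 259) (nat_lit 226))) (XT.nd (nat_lit 94) (nat_lit 588) (nat_lit 0) (XT.lf (nat_lit 84) (nat_lit 1908811314) (nat_lit 0) (nat_lit 2231623071) (nat_lit 420) (nat_lit 821424593) (nat_lit 49) (nat_lit 1) (nat_lit 48) (nat_lit 1) (nat_lit 53) (nat_lit 1) (nat_lit 236) (nat_lit 259) (nat_lit 225)) (XT.nd (nat_lit 94) (nat_lit 336) (nat_lit 0) (XT.lf (nat_lit 336) (nat_lit 1097556284) (nat_lit 0) (nat_lit 3448189947) (nat_lit 252) (nat_lit 323820025) (nat_lit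 49) (nat_lit 1) (nat_lit 45) (nat_lit 1) (nat_lit 48) (nat_lit 1) (nat_lit 237) (nat_lit 259) (nat_lit 224)) (XT.lf (nat_lit 84) (nat_lit 2269799181) (nat_lit 0) (nat_lit 513212028) (nat_lit 336) (nat_lit 1996161640) (nat_lit 42) (nat_lit 1) (nat_lit 41) (nat_lit 1) (nat_lit 45) (nat_lit 1) (nat_lit 238) (nat_lit 259) (nat_lit 223))))) (XT.nd (nat_lit 282) (nat_lit 504) (nat_lit 0) (XT.nd (nat_lit 94) (nat_lit 588) (nat_lit 0) (XT.lf (nat_lit 84) (nat_lit 90964346) (nat_lit 0) (nat_lit 2067724485) (nat_lit 336) (nat_lit 2532442219) (nat_lit 39) (nat_lit 1) (nat_lit 38) (nat_lit 1) (nat_lit 42) (nat_lit 1) (nat_lit 239) (nat_lit 259) (nat_lit 222)) (XT.nd (nat_lit 94) (nat_lit 336) (nat_lit 0) (XT.lf (nat_lit 336) (nat_lit 990806705) (nat_lit 0) (nat_lit 1561806931) (nat_lit 252) (nat_lit 2052359689) (nat_lit 39) (nat_lit 1) (nat_lit 35) (nat_lit 1) (nat_lit 38) (nat_lit 1) (nat_lit 240) (nat_lit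 259) (nat_lit 221)) (XT.lf (nat_lit 84) (nat_lit 411531311) (nat_lit 0) (nat_lit 595035777) (nat_lit 336) (nat_lit 3514599173) (nat_lit 32) (nat_lit 1) (nat_lit 31) (nat_lit 1) (nat_lit 35) (nat_lit 1) (nat_lit 241) (nat_lit 259) (nat_lit 220)))) (XT.nd (nat_lit 94) (nat_lit 252) (nat_lit 0) (XT.lf (nat_lit 336) (nat_lit 2294480007) (nat_lit 0) (nat_lit 468450974) (nat_lit 252) (nat_lit 1675936292) (nat_lit 32) (nat_lit 1) (nat_lit 28) (nat_lit 1) (nat_lit 31) (nat_lit 1) (nat_lit 242) (nat_lit 259) (nat_lit 219)) (XT.nd (nat_lit 94) (nat_lit 252) (nat_lit 0) (XT.lf (nat_lit 84) (nat_lit 665918732) (nat_lit 0) (nat_lit 3665712706) (nat_lit 336) (nat_lit 27254504) (nat_lit 29) (nat_lit 1) (nat_lit 28) (nat_lit 1) (nat_lit 32) (nat_lit 1) (nat_lit 243) (nat_lit 259) (nat_lit 218)) (XT.lf (nat_lit 84) (nat_lit 2912328057) (nat_lit 0) (nat_lit 873796202) (nat_lit 252) (nat_lit 494137358) (nat_lit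 26) (nat_lit 1) (nat_lit 25) (nat_lit 1) (nat_lit 28) (nat_lit 1) (nat_lit 244) (nat_lit 259) (nat_lit 217))))))) (XT.nd (nat_lit 1034) (nat_lit 0) (nat_lit 0) (XT.nd (nat_lit 470) (nat_lit 924) (nat_lit 0) (XT.nd (nat_lit 188) (nat_lit 756) (nat_lit 0) (XT.nd (nat_lit 94) (nat_lit 168) (nat_lit 0) (XT.lf (nat_lit 84) (nat_lit 871905847) (nat_lit 0) (nat_lit 2397966962) (nat_lit 336) (nat_lit 933613480) (nat_lit 23) (nat_lit 1) (nat_lit 22) (nat_lit 1) (nat_lit 26) (nat_lit 1) (nat_lit 245) (nat_lit 259) (nat_lit 216)) (XT.lf (nat_lit 252) (nat_lit 228063116) (nat_lit 0) (nat_lit 2783929268) (nat_lit 168) (nat_lit 1116590876) (nat_lit 23) (nat_lit 1) (nat_lit 20) (nat_lit 1) (nat_lit 22) (nat_lit 1) (nat_lit 246) (nat_lit 259) (nat_lit 215))) (XT.nd (nat_lit 94) (nat_lit 420) (nat_lit 0) (XT.lf (nat_lit 84) (nat_lit 1021365727) (nat_lit 0) (nat_lit 1293204504) (nat_lit 336) (nat_lit 1740506117)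 (nat_lit 17) (nat_lit 1) (nat_lit 16) (nat_lit 1) (nat_lit 20) (nat_lit 1) (nat_lit 247) (nat_lit 259) (nat_lit 214)) (XT.nd (nat_lit 94) (nat_lit 252) (nat_lit 0) (XT.lf (nat_lit 252) (nat_lit 1198734008) (nat_lit 0) (nat_lit 1872723163) (nat_lit 168) (nat_lit 911865976) (nat_lit 17) (nat_lit 1) (nat_lit 14) (nat_lit 1) (nat_lit 16) (nat_lit 1) (nat_lit 248) (nat_lit 259) (nat_lit 213)) (XT.lf (nat_lit 84) (nat_lit 1122942314) (nat_lit 0) (nat_lit 331667188) (nat_lit 252) (nat_lit 2458574617) (nat_lit 12) (nat_lit 1) (nat_lit 11) (nat_lit 1) (nat_lit 14) (nat_lit 1) (nat_lit 249) (nat_lit 259) (nat_lit 212))))) (XT.nd (nat_lit 282) (nat_lit 336) (nat_lit 0) (XT.nd (nat_lit 94) (nat_lit 420) (nat_lit 0) (XT.lf (nat_lit 252) (nat_lit 2036491581) (nat_lit 0) (nat_lit 1052298041) (nat_lit 168) (nat_lit 755589841) (nat_lit 12) (nat_lit 1) (nat_lit 9) (nat_lit 1) (nat_lit 11) (nat_lit 1) (nat_lit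 250) (nat_lit 259) (nat_lit 211)) (XT.nd (nat_lit 94) (nat_lit 252) (nat_lit 0) (XT.lf (nat_lit 252) (nat_lit 515683376) (nat_lit 0) (nat_lit 674200127) (nat_lit 168) (nat_lit 2587298691) (nat_lit 10) (nat_lit 1) (nat_lit 7) (nat_lit 1) (nat_lit 9) (nat_lit 1) (nat_lit 251) (nat_lit 259) (nat_lit 210)) (XT.lf (nat_lit 252) (nat_lit 2757613403) (nat_lit 0) (nat_lit 313334158) (nat_lit 168) (nat_lit 640397389) (nat_lit 7) (nat_lit 1) (nat_lit 4) (nat_lit 1) (nat_lit 6) (nat_lit 1) (nat_lit 252) (nat_lit 259) (nat_lit 209)))) (XT.nd (nat_lit 94) (nat_lit 336) (nat_lit 0) (XT.lf (nat_lit 84) (nat_lit 1225824609) (nat_lit 0) (nat_lit 2389642641) (nat_lit 252) (nat_lit 31317889) (nat_lit 5) (nat_lit 1) (nat_lit 4) (nat_lit 1) (nat_lit 7) (nat_lit 1) (nat_lit 253) (nat_lit 259) (nat_lit 208)) (XT.nd (nat_lit 94) (nat_lit 84) (nat_lit 0) (XT.lf (nat_lit 84) (nat_lit 3027880032) (nat_lit 0) (nat_lit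 211390984) (nat_lit 252) (nat_lit 344442183) (nat_lit 2) (nat_lit 1) (nat_lit 1) (nat_lit 1) (nat_lit 4) (nat_lit 1) (nat_lit 254) (nat_lit 259) (nat_lit 207)) (XT.lf (nat_lit 0) (nat_lit 2917684021) (nat_lit 0) (nat_lit 0) (nat_lit 0) (nat_lit 0) (nat_lit 0) (nat_lit 0) (nat_lit 1) (nat_lit 0) (nat_lit 1) (nat_lit 0) (nat_lit 255) (nat_lit 259) (nat_lit 206)))))) (XT.nd (nat_lit 470) (nat_lit 0) (nat_lit 0) (XT.nd (nat_lit 188) (nat_lit 0) (nat_lit 0) (XT.nd (nat_lit 94) (nat_lit 0) (nat_lit 0) (XT.lf (nat_lit 0) (nat_lit 2907951073) (nat_lit 0) (nat_lit 0) (nat_lit 0) (nat_lit 0) (nat_lit 0) (nat_lit 0) (nat_lit 1) (nat_lit 0) (nat_lit 1) (nat_lit 0) (nat_lit 256) (nat_lit 259) (nat_lit 205)) (XT.lf (nat_lit 0) (nat_lit 2898681599) (nat_lit 0) (nat_lit 0) (nat_lit 0) (nat_lit 0) (nat_lit 0) (nat_lit 0) (nat_lit 1) (nat_lit 0) (nat_lit 1) (nat_lit 0) (nat_lit 257) (nat_lit 259) (nat_lit 204)))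 (XT.nd (nat_lit 94) (nat_lit 0) (nat_lit 0) (XT.lf (nat_lit 0) (nat_lit 2889853528) (nat_lit 0) (nat_lit 0) (nat_lit 0) (nat_lit 0) (nat_lit 0) (nat_lit 0) (nat_lit 1) (nat_lit 0) (nat_lit 1) (nat_lit 0) (nat_lit 258) (nat_lit 259) (nat_lit 203)) (XT.nd (nat_lit 94) (nat_lit 0) (nat_lit 0) (XT.lf (nat_lit 0) (nat_lit 2881445841) (nat_lit 0) (nat_lit 0) (nat_lit 0) (nat_lit 0) (nat_lit 0) (nat_lit 0) (nat_lit 1) (nat_lit 0) (nat_lit 1) (nat_lit 0) (nat_lit 259) (nat_lit 259) (nat_lit 202)) (XT.lf (nat_lit 0) (nat_lit 2873438521) (nat_lit 0) (nat_lit 0) (nat_lit 0) (nat_lit 0) (nat_lit 0) (nat_lit 0) (nat_lit 1) (nat_lit 0) (nat_lit 1) (nat_lit 0) (nat_lit 260) (nat_lit 259) (nat_lit 201))))) (XT.nd (nat_lit 39668) (nat_lit 0) (nat_lit 13440) (XT.nd (nat_lit 39480) (nat_lit 0) (nat_lit 13356) (XT.lf (nat_lit 0) (nat_lit 2865812501) (nat_lit 0) (nat_lit 0) (nat_lit 0) (nat_lit 0) (nat_lit 0)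 (nat_lit 0) (nat_lit 1) (nat_lit 0) (nat_lit 1) (nat_lit 0) (nat_lit 261) (nat_lit 259) (nat_lit 200)) (XT.nd (nat_lit 94) (nat_lit 0) (nat_lit 0) (XT.lf (nat_lit 1260) (nat_lit 1528770601) (nat_lit 0) (nat_lit 2325954653) (nat_lit 1260) (nat_lit 1528770601) (nat_lit 174) (nat_lit 1) (nat_lit 159) (nat_lit 0) (nat_lit 174) (nat_lit 0) (nat_lit 200) (nat_lit 260) (nat_lit 260)) (XT.lf (nat_lit 1260) (nat_lit 5917418670) (nat_lit 84) (nat_lit 4514912525) (nat_lit 0) (nat_lit 76542869) (nat_lit 174) (nat_lit 1) (nat_lit 160) (nat_lit 1) (nat_lit 159) (nat_lit 0) (nat_lit 201) (nat_lit 260) (nat_lit 259)))) (XT.nd (nat_lit 94) (nat_lit 0) (nat_lit 84) (XT.lf (nat_lit 1260) (nat_lit 5594329752) (nat_lit 84) (nat_lit 1485603310) (nat_lit 0) (nat_lit 3178554938) (nat_lit 175) (nat_lit 1) (nat_lit 161) (nat_lit 1) (nat_lit 160) (nat_lit 1) (nat_lit 202) (nat_lit 260) (nat_lit 258)) (XT.nd (nat_lit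 94) (nat_lit 0) (nat_lit 84) (XT.lf (nat_lit 1260) (nat_lit 3851957461) (nat_lit 0) (nat_lit 4843197883) (nat_lit 1176) (nat_lit 1321026779) (nat_lit 176) (nat_lit 1) (nat_lit 161) (nat_lit 1) (nat_lit 175) (nat_lit 1) (nat_lit 203) (nat_lit 260) (nat_lit 257)) (XT.lf (nat_lit 1260) (nat_lit 745276055) (nat_lit 0) (nat_lit 5121403321) (nat_lit 1176) (nat_lit 3914966043) (nat_lit 177) (nat_lit 1) (nat_lit 162) (nat_lit 1) (nat_lit 176) (nat_lit 1) (nat_lit 204) (nat_lit 260) (nat_lit 256))))))))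
noncomputable def ec23 : XT := (XT.nd (nat_lit 2068) (nat_lit 5796) (nat_lit 0) (XT.nd (nat_lit 1034) (nat_lit 4284) (nat_lit 0) (XT.nd (nat_lit 470) (nat_lit 2772) (nat_lit 0) (XT.nd (nat_lit 188) (nat_lit 0) (nat_lit 168) (XT.nd (nat_lit 94) (nat_lit 0) (nat_lit 84) (XT.lf (nat_lit 1260) (nat_lit 4052407308) (nat_lit 84) (nat_lit 3190287446) (nat_lit 0) (nat_lit 2311541012) (nat_lit 177) (nat_lit 1) (nat_lit 163) (nat_lit 1) (nat_lit 162) (nat_lit 1) (nat_lit 205) (nat_lit 260) (nat_lit 255)) (XT.lf (nat_lit 1260) (nat_lit 3374007743) (nat_lit 84) (nat_lit 676781343) (nat_lit 0) (nat_lit 5283501007) (nat_lit 178) (nat_lit 1) (nat_lit 164) (nat_lit 1) (nat_lit 163) (nat_lit 1) (nat_lit 206) (nat_lit 260) (nat_lit 254))) (XT.nd (nat_lit 94) (nat_lit 0) (nat_lit 0) (XT.lf (nat_lit 1260) (nat_lit 984657762) (nat_lit 0) (nat_lit 6501478526) (nat_lit 1176) (nat_lit 1635021668) (nat_lit 179) (nat_lit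 1) (nat_lit 164) (nat_lit 1) (nat_lit 178) (nat_lit 1) (nat_lit 207) (nat_lit 260) (nat_lit 253)) (XT.nd (nat_lit 94) (nat_lit 0) (nat_lit 84) (XT.lf (nat_lit 1260) (nat_lit 1784280034) (nat_lit 84) (nat_lit 5112926931) (nat_lit 0) (nat_lit 2017011769) (nat_lit 179) (nat_lit 1) (nat_lit 165) (nat_lit 1) (nat_lit 164) (nat_lit 1) (nat_lit 208) (nat_lit 260) (nat_lit 252)) (XT.lf (nat_lit 1260) (nat_lit 892892210) (nat_lit 84) (nat_lit 2881834161) (nat_lit 0) (nat_lit 4939168812) (nat_lit 180) (nat_lit 1) (nat_lit 166) (nat_lit 1) (nat_lit 165) (nat_lit 1) (nat_lit 209) (nat_lit 260) (nat_lit 251))))) (XT.nd (nat_lit 282) (nat_lit 1176) (nat_lit 0) (XT.nd (nat_lit 94) (nat_lit 672) (nat_lit 0) (XT.lf (nat_lit 84) (nat_lit 759135008) (nat_lit 0) (nat_lit 37832676) (nat_lit 1260) (nat_lit 7723332742) (nat_lit 152) (nat_lit 1) (nat_lit 151) (nat_lit 1) (nat_lit 166) (nat_lit 1) (nat_lit 210) (nat_lit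 260) (nat_lit 250)) (XT.nd (nat_lit 94) (nat_lit 672) (nat_lit 0) (XT.lf (nat_lit 84) (nat_lit 6152960289) (nat_lit 0) (nat_lit 1021421458) (nat_lit 1260) (nat_lit 1157134794) (nat_lit 152) (nat_lit 1) (nat_lit 151) (nat_lit 1) (nat_lit 166) (nat_lit 1) (nat_lit 211) (nat_lit 260) (nat_lit 249)) (XT.lf (nat_lit 84) (nat_lit 3125829818) (nat_lit 0) (nat_lit 2051911308) (nat_lit 756) (nat_lit 2970700387) (nat_lit 144) (nat_lit 1) (nat_lit 143) (nat_lit 1) (nat_lit 152) (nat_lit 1) (nat_lit 212) (nat_lit 260) (nat_lit 248)))) (XT.nd (nat_lit 94) (nat_lit 588) (nat_lit 0) (XT.lf (nat_lit 84) (nat_lit 203954129) (nat_lit 0) (nat_lit 3108415849) (nat_lit 672) (nat_lit 4659086368) (nat_lit 137) (nat_lit 1) (nat_lit 136) (nat_lit 1) (nat_lit 144) (nat_lit 1) (nat_lit 213) (nat_lit 260) (nat_lit 247)) (XT.nd (nat_lit 94) (nat_lit 0) (nat_lit 0) (XT.lf (nat_lit 672) (nat_lit 3581580516) (nat_lit 0)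 (nat_lit 1541395920) (nat_lit 588) (nat_lit 2676314130) (nat_lit 137) (nat_lit 1) (nat_lit 129) (nat_lit 1) (nat_lit 136) (nat_lit 1) (nat_lit 214) (nat_lit 260) (nat_lit 246)) (XT.lf (nat_lit 84) (nat_lit 2174348643) (nat_lit 0) (nat_lit 5349556965) (nat_lit 672) (nat_lit 108779378) (nat_lit 130) (nat_lit 1) (nat_lit 129) (nat_lit 1) (nat_lit 137) (nat_lit 1) (nat_lit 215) (nat_lit 260) (nat_lit 245)))))) (XT.nd (nat_lit 470) (nat_lit 1764) (nat_lit 0) (XT.nd (nat_lit 188) (nat_lit 1428) (nat_lit 0) (XT.nd (nat_lit 94) (nat_lit 588) (nat_lit 0) (XT.lf (nat_lit 588) (nat_lit 949628939) (nat_lit 0) (nat_lit 5851806448) (nat_lit 504) (nat_lit 669301564) (nat_lit 130) (nat_lit 1) (nat_lit 123) (nat_lit 1) (nat_lit 129) (nat_lit 1) (nat_lit 216) (nat_lit 260) (nat_lit 244)) (XT.lf (nat_lit 84) (nat_lit 3856822912) (nat_lit 0) (nat_lit 406278223) (nat_lit 588) (nat_lit 3050013627) (nat_lit 117)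 (nat_lit 1) (nat_lit 116) (nat_lit 1) (nat_lit 123) (nat_lit 1) (nat_lit 217) (nat_lit 260) (nat_lit 243))) (XT.nd (nat_lit 94) (nat_lit 924) (nat_lit 0) (XT.lf (nat_lit 84) (nat_lit 1027320564) (nat_lit 0) (nat_lit 1744728362) (nat_lit 588) (nat_lit 4388230182) (nat_lit 111) (nat_lit 1) (nat_lit 110) (nat_lit 1) (nat_lit 117) (nat_lit 1) (nat_lit 218) (nat_lit 260) (nat_lit 242)) (XT.nd (nat_lit 94) (nat_lit 420) (nat_lit 0) (XT.lf (nat_lit 588) (nat_lit 3906910993) (nat_lit 0) (nat_lit 1364582180) (nat_lit 504) (nat_lit 1740239894) (nat_lit 111) (nat_lit 1) (nat_lit 104) (nat_lit 1) (nat_lit 110) (nat_lit 1) (nat_lit 219) (nat_lit 260) (nat_lit 241)) (XT.lf (nat_lit 504) (nat_lit 2391532364) (nat_lit 0) (nat_lit 45067192) (nat_lit 420) (nat_lit 4431003834) (nat_lit 105) (nat_lit 1) (nat_lit 99) (nat_lit 1) (nat_lit 104) (nat_lit 1) (nat_lit 220) (nat_lit 260) (nat_lit 240))))) (XT.nd (nat_lit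 282) (nat_lit 840) (nat_lit 0) (XT.nd (nat_lit 94) (nat_lit 924) (nat_lit 0) (XT.lf (nat_lit 504) (nat_lit 865958041) (nat_lit 0) (nat_lit 5572109052) (nat_lit 420) (nat_lit 289484933) (nat_lit 105) (nat_lit 1) (nat_lit 99) (nat_lit 1) (nat_lit 104) (nat_lit 1) (nat_lit 221) (nat_lit 260) (nat_lit 239)) (XT.nd (nat_lit 94) (nat_lit 420) (nat_lit 0) (XT.lf (nat_lit 84) (nat_lit 3627405358) (nat_lit 0) (nat_lit 663300144) (nat_lit 504) (nat_lit 2300097991) (nat_lit 94) (nat_lit 1) (nat_lit 93) (nat_lit 1) (nat_lit 99) (nat_lit 1) (nat_lit 222) (nat_lit 260) (nat_lit 238)) (XT.lf (nat_lit 84) (nat_lit 927942120) (nat_lit 0) (nat_lit 2161927569) (nat_lit 504) (nat_lit 3368244298) (nat_lit 89) (nat_lit 1) (nat_lit 88) (nat_lit 1) (nat_lit 94) (nat_lit 1) (nat_lit 223) (nat_lit 260) (nat_lit 237)))) (XT.nd (nat_lit 94) (nat_lit 420) (nat_lit 0) (XT.lf (nat_lit 504) (nat_lit 2661304436) (nat_lit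 0) (nat_lit 1955735804) (nat_lit 420) (nat_lit 1711955313) (nat_lit 89) (nat_lit 1) (nat_lit 83) (nat_lit 1) (nat_lit 88) (nat_lit 1) (nat_lit 224) (nat_lit 260) (nat_lit 236)) (XT.nd (nat_lit 94) (nat_lit 84) (nat_lit 0) (XT.lf (nat_lit 420) (nat_lit 1033479970) (nat_lit 0) (nat_lit 894283711) (nat_lit 336) (nat_lit 4275867935) (nat_lit 84) (nat_lit 1) (nat_lit 79) (nat_lit 1) (nat_lit 83) (nat_lit 1) (nat_lit 225) (nat_lit 260) (nat_lit 235)) (XT.lf (nat_lit 84) (nat_lit 5410983820) (nat_lit 0) (nat_lit 571308264) (nat_lit 420) (nat_lit 99426827) (nat_lit 79) (nat_lit 1) (nat_lit 78) (nat_lit 1) (nat_lit 83) (nat_lit 1) (nat_lit 226) (nat_lit 260) (nat_lit 234))))))) (XT.nd (nat_lit 1034) (nat_lit 2436) (nat_lit 0) (XT.nd (nat_lit 470) (nat_lit 1512) (nat_lit 0) (XT.nd (nat_lit 188) (nat_lit 1092) (nat_lit 0) (XT.nd (nat_lit 94) (nat_lit 336) (nat_lit 0) (XT.lf (nat_lit 84) (nat_lit 2767122660)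 (nat_lit 0) (nat_lit 2164217011) (nat_lit 504) (nat_lit 1030848084) (nat_lit 74) (nat_lit 1) (nat_lit 73) (nat_lit 1) (nat_lit 79) (nat_lit 1) (nat_lit 227) (nat_lit 260) (nat_lit 233)) (XT.lf (nat_lit 84) (nat_lit 220363456) (nat_lit 0) (nat_lit 3736107366) (nat_lit 420) (nat_lit 1889958532) (nat_lit 70) (nat_lit 1) (nat_lit 69) (nat_lit 1) (nat_lit 74) (nat_lit 1) (nat_lit 228) (nat_lit 260) (nat_lit 232))) (XT.nd (nat_lit 94) (nat_lit 756) (nat_lit 0) (XT.lf (nat_lit 420) (nat_lit 421309904) (nat_lit 0) (nat_lit 3027905824) (nat_lit 336) (nat_lit 2284203797) (nat_lit 70) (nat_lit 1) (nat_lit 65) (nat_lit 1) (nat_lit 69) (nat_lit 1) (nat_lit 229) (nat_lit 260) (nat_lit 231)) (XT.nd (nat_lit 94) (nat_lit 336) (nat_lit 0) (XT.lf (nat_lit 84) (nat_lit 936914980) (nat_lit 0) (nat_lit 1215901473) (nat_lit 420) (nat_lit 3470567441) (nat_lit 61) (nat_lit 1) (nat_lit 60) (nat_lit 1) (nat_lit 65)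 (nat_lit 1) (nat_lit 230) (nat_lit 260) (nat_lit 230)) (XT.lf (nat_lit 420) (nat_lit 2681280599) (nat_lit 0) (nat_lit 1322966243) (nat_lit 336) (nat_lit 1511780436) (nat_lit 61) (nat_lit 1) (nat_lit 56) (nat_lit 1) (nat_lit 60) (nat_lit 1) (nat_lit 231) (nat_lit 260) (nat_lit 229))))) (XT.nd (nat_lit 282) (nat_lit 840) (nat_lit 0) (XT.nd (nat_lit 94) (nat_lit 420) (nat_lit 0) (XT.lf (nat_lit 336) (nat_lit 974079190) (nat_lit 0) (nat_lit 547594311) (nat_lit 252) (nat_lit 3889972196) (nat_lit 57) (nat_lit 1) (nat_lit 53) (nat_lit 1) (nat_lit 56) (nat_lit 1) (nat_lit 232) (nat_lit 260) (nat_lit 228)) (XT.nd (nat_lit 94) (nat_lit 336) (nat_lit 0) (XT.lf (nat_lit 84) (nat_lit 4431346080) (nat_lit 0) (nat_lit 699141868) (nat_lit 336) (nat_lit 179319208) (nat_lit 53) (nat_lit 1) (nat_lit 52) (nat_lit 1) (nat_lit 56) (nat_lit 1) (nat_lit 233) (nat_lit 260) (nat_lit 227)) (XT.lf (nat_lit 84) (nat_lit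 2004251880) (nat_lit 0) (nat_lit 2343204224) (nat_lit 420) (nat_lit 862495822) (nat_lit 49) (nat_lit 1) (nat_lit 48) (nat_lit 1) (nat_lit 53) (nat_lit 1) (nat_lit 234) (nat_lit 260) (nat_lit 226)))) (XT.nd (nat_lit 94) (nat_lit 588) (nat_lit 0) (XT.lf (nat_lit 336) (nat_lit 1152434099) (nat_lit 0) (nat_lit 3620599444) (nat_lit 252) (nat_lit 340011026) (nat_lit 49) (nat_lit 1) (nat_lit 45) (nat_lit 1) (nat_lit 48) (nat_lit 1) (nat_lit 235) (nat_lit 260) (nat_lit 225)) (XT.nd (nat_lit 94) (nat_lit 252) (nat_lit 0) (XT.lf (nat_lit 84) (nat_lit 2383289140) (nat_lit 0) (nat_lit 538872629) (nat_lit 336) (nat_lit 2095969723) (nat_lit 42) (nat_lit 1) (nat_lit 41) (nat_lit 1) (nat_lit 45) (nat_lit 1) (nat_lit 236) (nat_lit 260) (nat_lit 224)) (XT.lf (nat_lit 84) (nat_lit 95512564) (nat_lit 0) (nat_lit 2171110709) (nat_lit 336) (nat_lit 2659064330) (nat_lit 39) (nat_lit 1) (nat_lit 38) (nat_lit 1) (nat_lit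 42) (nat_lit 1) (nat_lit 237) (nat_lit 260) (nat_lit 223)))))) (XT.nd (nat_lit 470) (nat_lit 1344) (nat_lit 0) (XT.nd (nat_lit 188) (nat_lit 504) (nat_lit 0) (XT.nd (nat_lit 94) (nat_lit 336) (nat_lit 0) (XT.lf (nat_lit 336) (nat_lit 1040347040) (nat_lit 0) (nat_lit 1639897277) (nat_lit 252) (nat_lit 2154977674) (nat_lit 39) (nat_lit 1) (nat_lit 35) (nat_lit 1) (nat_lit 38) (nat_lit 1) (nat_lit 238) (nat_lit 260) (nat_lit 222)) (XT.lf (nat_lit 84) (nat_lit 432107876) (nat_lit 0) (nat_lit 624787566) (nat_lit 336) (nat_lit 3690329131) (nat_lit 32) (nat_lit 1) (nat_lit 31) (nat_lit 1) (nat_lit 35) (nat_lit 1) (nat_lit 239) (nat_lit 260) (nat_lit 221))) (XT.nd (nat_lit 94) (nat_lit 252) (nat_lit 0) (XT.lf (nat_lit 336) (nat_lit 2409204007) (nat_lit 0) (nat_lit 491873523) (nat_lit 252) (nat_lit 1759733106) (nat_lit 32) (nat_lit 1) (nat_lit 28) (nat_lit 1) (nat_lit 31) (nat_lit 1) (nat_lit 240)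 (nat_lit 260) (nat_lit 220)) (XT.nd (nat_lit 94) (nat_lit 252) (nat_lit 0) (XT.lf (nat_lit 84) (nat_lit 699214669) (nat_lit 0) (nat_lit 3848998342) (nat_lit 336) (nat_lit 28617229) (nat_lit 29) (nat_lit 1) (nat_lit 28) (nat_lit 1) (nat_lit 32) (nat_lit 1) (nat_lit 241) (nat_lit 260) (nat_lit 219)) (XT.lf (nat_lit 84) (nat_lit 3057944459) (nat_lit 0) (nat_lit 917486012) (nat_lit 252) (nat_lit 518844226) (nat_lit 26) (nat_lit 1) (nat_lit 25) (nat_lit 1) (nat_lit 28) (nat_lit 1) (nat_lit 242) (nat_lit 260) (nat_lit 218))))) (XT.nd (nat_lit 282) (nat_lit 588) (nat_lit 0) (XT.nd (nat_lit 94) (nat_lit 504) (nat_lit 0) (XT.lf (nat_lit 84) (nat_lit 915501139) (nat_lit 0) (nat_lit 2517865311) (nat_lit 336) (nat_lit 980294154) (nat_lit 23) (nat_lit 1) (nat_lit 22) (nat_lit 1) (nat_lit 26) (nat_lit 1) (nat_lit 243) (nat_lit 260) (nat_lit 217)) (XT.nd (nat_lit 94) (nat_lit 336) (nat_lit 0) (XT.lf (nat_lit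 252) (nat_lit 239466272) (nat_lit 0) (nat_lit 2923125731) (nat_lit 168) (nat_lit 1172420420) (nat_lit 23) (nat_lit 1) (nat_lit 20) (nat_lit 1) (nat_lit 22) (nat_lit 1) (nat_lit 244) (nat_lit 260) (nat_lit 216)) (XT.lf (nat_lit 84) (nat_lit 1072434013) (nat_lit 0) (nat_lit 1357864729) (nat_lit 336) (nat_lit 1827531423) (nat_lit 17) (nat_lit 1) (nat_lit 16) (nat_lit 1) (nat_lit 20) (nat_lit 1) (nat_lit 245) (nat_lit 260) (nat_lit 215)))) (XT.nd (nat_lit 94) (nat_lit 420) (nat_lit 0) (XT.lf (nat_lit 252) (nat_lit 1258670709) (nat_lit 0) (nat_lit 1966359321) (nat_lit 168) (nat_lit 957459275) (nat_lit 17) (nat_lit 1) (nat_lit 14) (nat_lit 1) (nat_lit 16) (nat_lit 1) (nat_lit 246) (nat_lit 260) (nat_lit 214)) (XT.nd (nat_lit 94) (nat_lit 168) (nat_lit 0) (XT.lf (nat_lit 84) (nat_lit 1179089430) (nat_lit 0) (nat_lit 348250547) (nat_lit 252) (nat_lit 2581503348) (nat_lit 12) (nat_lit 1) (nat_lit 11)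 (nat_lit 1) (nat_lit 14) (nat_lit 1) (nat_lit 247) (nat_lit 260) (nat_lit 213)) (XT.lf (nat_lit 252) (nat_lit 2138316160) (nat_lit 0) (nat_lit 1104912943) (nat_lit 168) (nat_lit 793369333) (nat_lit 12) (nat_lit 1) (nat_lit 9) (nat_lit 1) (nat_lit 11) (nat_lit 1) (nat_lit 248) (nat_lit 260) (nat_lit 212))))))))
noncomputable def ec24 : XT := (XT.nd (nat_lit 41360) (nat_lit 0) (nat_lit 4704) (XT.nd (nat_lit 1034) (nat_lit 0) (nat_lit 0) (XT.nd (nat_lit 470) (nat_lit 0) (nat_lit 0) (XT.nd (nat_lit 188) (nat_lit 336) (nat_lit 0) (XT.nd (nat_lit 94) (nat_lit 252) (nat_lit 0) (XT.lf (nat_lit 252) (nat_lit 541467544) (nat_lit 0) (nat_lit 707910133) (nat_lit 168) (nat_lit 2716663625) (nat_lit 10) (nat_lit 1) (nat_lit 7) (nat_lit 1) (nat_lit 9) (nat_lit 1) (nat_lit 249) (nat_lit 260) (nat_lit 211)) (XT.lf (nat_lit 252) (nat_lit 2895494074) (nat_lit 0) (nat_lit 329000866) (nat_lit 168) (nat_lit 672417259)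 (nat_lit 7) (nat_lit 1) (nat_lit 4) (nat_lit 1) (nat_lit 6) (nat_lit 1) (nat_lit 250) (nat_lit 260) (nat_lit 210))) (XT.nd (nat_lit 94) (nat_lit 336) (nat_lit 0) (XT.lf (nat_lit 84) (nat_lit 1287115839) (nat_lit 0) (nat_lit 2509124774) (nat_lit 252) (nat_lit 32883784) (nat_lit 5) (nat_lit 1) (nat_lit 4) (nat_lit 1) (nat_lit 7) (nat_lit 1) (nat_lit 251) (nat_lit 260) (nat_lit 209)) (XT.nd (nat_lit 94) (nat_lit 84) (nat_lit 0) (XT.lf (nat_lit 84) (nat_lit 3179274034) (nat_lit 0) (nat_lit 221960533) (nat_lit 252) (nat_lit 361664292) (nat_lit 2) (nat_lit 1) (nat_lit 1) (nat_lit 1) (nat_lit 4) (nat_lit 1) (nat_lit 252) (nat_lit 260) (nat_lit 208)) (XT.lf (nat_lit 0) (nat_lit 3063568222) (nat_lit 0) (nat_lit 0) (nat_lit 0) (nat_lit 0) (nat_lit 0) (nat_lit 0) (nat_lit 1) (nat_lit 0) (nat_lit 1) (nat_lit 0) (nat_lit 253) (nat_lit 260) (nat_lit 207))))) (XT.nd (nat_lit 282) (nat_lit 0) (nat_lit 0)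 (XT.nd (nat_lit 94) (nat_lit 0) (nat_lit 0) (XT.lf (nat_lit 0) (nat_lit 3053348627) (nat_lit 0) (nat_lit 0) (nat_lit 0) (nat_lit 0) (nat_lit 0) (nat_lit 0) (nat_lit 1) (nat_lit 0) (nat_lit 1) (nat_lit 0) (nat_lit 254) (nat_lit 260) (nat_lit 206)) (XT.nd (nat_lit 94) (nat_lit 0) (nat_lit 0) (XT.lf (nat_lit 0) (nat_lit 3043615679) (nat_lit 0) (nat_lit 0) (nat_lit 0) (nat_lit 0) (nat_lit 0) (nat_lit 0) (nat_lit 1) (nat_lit 0) (nat_lit 1) (nat_lit 0) (nat_lit 255) (nat_lit 260) (nat_lit 205)) (XT.lf (nat_lit 0) (nat_lit 3034346204) (nat_lit 0) (nat_lit 0) (nat_lit 0) (nat_lit 0) (nat_lit 0) (nat_lit 0) (nat_lit 1) (nat_lit 0) (nat_lit 1) (nat_lit 0) (nat_lit 256) (nat_lit 260) (nat_lit 204)))) (XT.nd (nat_lit 94) (nat_lit 0) (nat_lit 0) (XT.lf (nat_lit 0) (nat_lit 3025518133) (nat_lit 0) (nat_lit 0) (nat_lit 0) (nat_lit 0) (nat_lit 0) (nat_lit 0) (nat_lit 1) (nat_lit 0) (nat_lit 1) (nat_lit 0)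 (nat_lit 257) (nat_lit 260) (nat_lit 203)) (XT.nd (nat_lit 94) (nat_lit 0) (nat_lit 0) (XT.lf (nat_lit 0) (nat_lit 3017110447) (nat_lit 0) (nat_lit 0) (nat_lit 0) (nat_lit 0) (nat_lit 0) (nat_lit 0) (nat_lit 1) (nat_lit 0) (nat_lit 1) (nat_lit 0) (nat_lit 258) (nat_lit 260) (nat_lit 202)) (XT.lf (nat_lit 0) (nat_lit 3009103127) (nat_lit 0) (nat_lit 0) (nat_lit 0) (nat_lit 0) (nat_lit 0) (nat_lit 0) (nat_lit 1) (nat_lit 0) (nat_lit 1) (nat_lit 0) (nat_lit 259) (nat_lit 260) (nat_lit 201)))))) (XT.nd (nat_lit 39762) (nat_lit 0) (nat_lit 13608) (XT.nd (nat_lit 39480) (nat_lit 0) (nat_lit 13356) (XT.nd (nat_lit 94) (nat_lit 0) (nat_lit 0) (XT.lf (nat_lit 0) (nat_lit 3001477107) (nat_lit 0) (nat_lit 0) (nat_lit 0) (nat_lit 0) (nat_lit 0) (nat_lit 0) (nat_lit 1) (nat_lit 0) (nat_lit 1) (nat_lit 0) (nat_lit 260) (nat_lit 260) (nat_lit 200)) (XT.lf (nat_lit 0) (nat_lit 2994214231) (nat_lit 0) (nat_lit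 0) (nat_lit 0) (nat_lit 0) (nat_lit 0) (nat_lit 0) (nat_lit 1) (nat_lit 0) (nat_lit 1) (nat_lit 0) (nat_lit 261) (nat_lit 260) (nat_lit 199))) (XT.nd (nat_lit 94) (nat_lit 0) (nat_lit 84) (XT.lf (nat_lit 1260) (nat_lit 6213289603) (nat_lit 84) (nat_lit 4740658151) (nat_lit 0) (nat_lit 80370012) (nat_lit 174) (nat_lit 1) (nat_lit 160) (nat_lit 1) (nat_lit 159) (nat_lit 0) (nat_lit 199) (nat_lit 261) (nat_lit 260)) (XT.nd (nat_lit 94) (nat_lit 0) (nat_lit 84) (XT.lf (nat_lit 1260) (nat_lit 5874046239) (nat_lit 84) (nat_lit 1559883476) (nat_lit 0) (nat_lit 3337482685) (nat_lit 175) (nat_lit 1) (nat_lit 161) (nat_lit 1) (nat_lit 160) (nat_lit 1) (nat_lit 200) (nat_lit 261) (nat_lit 259)) (XT.lf (nat_lit 1260) (nat_lit 4044555335) (nat_lit 0) (nat_lit 5085357777) (nat_lit 1176) (nat_lit 1387078118) (nat_lit 176) (nat_lit 1) (nat_lit 161) (nat_lit 1) (nat_lit 175) (nat_lit 1) (nat_lit 201) (nat_lit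 261) (nat_lit 258))))) (XT.nd (nat_lit 282) (nat_lit 0) (nat_lit 168) (XT.nd (nat_lit 94) (nat_lit 0) (nat_lit 0) (XT.lf (nat_lit 1260) (nat_lit 782539858) (nat_lit 0) (nat_lit 5377473487) (nat_lit 1176) (nat_lit 4110714346) (nat_lit 177) (nat_lit 1) (nat_lit 162) (nat_lit 1) (nat_lit 176) (nat_lit 1) (nat_lit 202) (nat_lit 261) (nat_lit 257)) (XT.nd (nat_lit 94) (nat_lit 0) (nat_lit 84) (XT.lf (nat_lit 1260) (nat_lit 4255027673) (nat_lit 84) (nat_lit 3349801818) (nat_lit 0) (nat_lit 2427118063) (nat_lit 177) (nat_lit 1) (nat_lit 163) (nat_lit 1) (nat_lit 162) (nat_lit 1) (nat_lit 203) (nat_lit 261) (nat_lit 256)) (XT.lf (nat_lit 1260) (nat_lit 3542708130) (nat_lit 84) (nat_lit 710620410) (nat_lit 0) (nat_lit 5547676058) (nat_lit 178) (nat_lit 1) (nat_lit 164) (nat_lit 1) (nat_lit 163) (nat_lit 1) (nat_lit 204) (nat_lit 261) (nat_lit 255)))) (XT.nd (nat_lit 94) (nat_lit 0) (nat_lit 0) (XT.lf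 (nat_lit 1260) (nat_lit 1033890650) (nat_lit 0) (nat_lit 6826552452) (nat_lit 1176) (nat_lit 1716772752) (nat_lit 179) (nat_lit 1) (nat_lit 164) (nat_lit 1) (nat_lit 178) (nat_lit 1) (nat_lit 205) (nat_lit 261) (nat_lit 254)) (XT.nd (nat_lit 94) (nat_lit 0) (nat_lit 84) (XT.lf (nat_lit 1260) (nat_lit 1873494036) (nat_lit 84) (nat_lit 5368573277) (nat_lit 0) (nat_lit 2117862358) (nat_lit 179) (nat_lit 1) (nat_lit 165) (nat_lit 1) (nat_lit 164) (nat_lit 1) (nat_lit 206) (nat_lit 261) (nat_lit 253)) (XT.lf (nat_lit 1260) (nat_lit 937536821) (nat_lit 84) (nat_lit 3025925869) (nat_lit 0) (nat_lit 5186127253) (nat_lit 180) (nat_lit 1) (nat_lit 166) (nat_lit 1) (nat_lit 165) (nat_lit 1) (nat_lit 207) (nat_lit 261) (nat_lit 252))))))) (XT.nd (nat_lit 1034) (nat_lit 3612) (nat_lit 0) (XT.nd (nat_lit 470) (nat_lit 2520) (nat_lit 0) (XT.nd (nat_lit 188) (nat_lit 1848) (nat_lit 0) (XT.nd (nat_lit 94)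 (nat_lit 0) (nat_lit 0) (XT.lf (nat_lit 84) (nat_lit 797091758) (nat_lit 0) (nat_lit 39724310) (nat_lit 1260) (nat_lit 8109499379) (nat_lit 152) (nat_lit 1) (nat_lit 151) (nat_lit 1) (nat_lit 166) (nat_lit 1) (nat_lit 208) (nat_lit 261) (nat_lit 251)) (XT.lf (nat_lit 84) (nat_lit 6460608303) (nat_lit 0) (nat_lit 1072492531) (nat_lit 1260) (nat_lit 1214991534) (nat_lit 152) (nat_lit 1) (nat_lit 151) (nat_lit 1) (nat_lit 166) (nat_lit 1) (nat_lit 209) (nat_lit 261) (nat_lit 250))) (XT.nd (nat_lit 94) (nat_lit 1176) (nat_lit 0) (XT.lf (nat_lit 84) (nat_lit 3282121309) (nat_lit 0) (nat_lit 2154506873) (nat_lit 756) (nat_lit 3119235407) (nat_lit 144) (nat_lit 1) (nat_lit 143) (nat_lit 1) (nat_lit 152) (nat_lit 1) (nat_lit 210) (nat_lit 261) (nat_lit 249)) (XT.nd (nat_lit 94) (nat_lit 588) (nat_lit 0) (XT.lf (nat_lit 84) (nat_lit 214151835) (nat_lit 0) (nat_lit 3263836642) (nat_lit 672) (nat_lit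 4892040686) (nat_lit 137) (nat_lit 1) (nat_lit 136) (nat_lit 1) (nat_lit 144) (nat_lit 1) (nat_lit 211) (nat_lit 261) (nat_lit 248)) (XT.lf (nat_lit 672) (nat_lit 3760659541) (nat_lit 0) (nat_lit 1618465716) (nat_lit 588) (nat_lit 2810129836) (nat_lit 137) (nat_lit 1) (nat_lit 129) (nat_lit 1) (nat_lit 136) (nat_lit 1) (nat_lit 212) (nat_lit 261) (nat_lit 247))))) (XT.nd (nat_lit 282) (nat_lit 1428) (nat_lit 0) (XT.nd (nat_lit 94) (nat_lit 1092) (nat_lit 0) (XT.lf (nat_lit 84) (nat_lit 2283066075) (nat_lit 0) (nat_lit 5617034814) (nat_lit 672) (nat_lit 114218347) (nat_lit 130) (nat_lit 1) (nat_lit 129) (nat_lit 1) (nat_lit 137) (nat_lit 1) (nat_lit 213) (nat_lit 261) (nat_lit 246)) (XT.nd (nat_lit 94) (nat_lit 588) (nat_lit 0) (XT.lf (nat_lit 588) (nat_lit 997110386) (nat_lit 0) (nat_lit 6144396770) (nat_lit 504) (nat_lit 702766642) (nat_lit 130) (nat_lit 1) (nat_lit 123) (nat_lit 1) (nat_lit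 129) (nat_lit 1) (nat_lit 214) (nat_lit 261) (nat_lit 245)) (XT.lf (nat_lit 84) (nat_lit 4049664058) (nat_lit 0) (nat_lit 426592134) (nat_lit 588) (nat_lit 3202514308) (nat_lit 117) (nat_lit 1) (nat_lit 116) (nat_lit 1) (nat_lit 123) (nat_lit 1) (nat_lit 215) (nat_lit 261) (nat_lit 244)))) (XT.nd (nat_lit 94) (nat_lit 924) (nat_lit 0) (XT.lf (nat_lit 84) (nat_lit 1078686592) (nat_lit 0) (nat_lit 1831964780) (nat_lit 588) (nat_lit 4607641691) (nat_lit 111) (nat_lit 1) (nat_lit 110) (nat_lit 1) (nat_lit 117) (nat_lit 1) (nat_lit 216) (nat_lit 261) (nat_lit 243)) (XT.nd (nat_lit 94) (nat_lit 420) (nat_lit 0) (XT.lf (nat_lit 588) (nat_lit 4102256543) (nat_lit 0) (nat_lit 1432811289) (nat_lit 504) (nat_lit 1827251888) (nat_lit 111) (nat_lit 1) (nat_lit 104) (nat_lit 1) (nat_lit 110) (nat_lit 1) (nat_lit 217) (nat_lit 261) (nat_lit 242)) (XT.lf (nat_lit 504) (nat_lit 2511108982) (nat_lit 0) (nat_lit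 47320552) (nat_lit 420) (nat_lit 4652554025) (nat_lit 105) (nat_lit 1) (nat_lit 99) (nat_lit 1) (nat_lit 104) (nat_lit 1) (nat_lit 218) (nat_lit 261) (nat_lit 241)))))) (XT.nd (nat_lit 470) (nat_lit 1932) (nat_lit 0) (XT.nd (nat_lit 188) (nat_lit 1176) (nat_lit 0) (XT.nd (nat_lit 94) (nat_lit 504) (nat_lit 0) (XT.lf (nat_lit 504) (nat_lit 909255943) (nat_lit 0) (nat_lit 5850714504) (nat_lit 420) (nat_lit 303959180) (nat_lit 105) (nat_lit 1) (nat_lit 99) (nat_lit 1) (nat_lit 104) (nat_lit 1) (nat_lit 219) (nat_lit 261) (nat_lit 240)) (XT.lf (nat_lit 84) (nat_lit 3808775626) (nat_lit 0) (nat_lit 696465152) (nat_lit 504) (nat_lit 2415102890) (nat_lit 94) (nat_lit 1) (nat_lit 93) (nat_lit 1) (nat_lit 99) (nat_lit 1) (nat_lit 220) (nat_lit 261) (nat_lit 239))) (XT.nd (nat_lit 94) (nat_lit 756) (nat_lit 0) (XT.lf (nat_lit 84) (nat_lit 974339226) (nat_lit 0) (nat_lit 2270023948) (nat_lit 504) (nat_lit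 3536656513) (nat_lit 89) (nat_lit 1) (nat_lit 88) (nat_lit 1) (nat_lit 94) (nat_lit 1) (nat_lit 221) (nat_lit 261) (nat_lit 238)) (XT.nd (nat_lit 94) (nat_lit 336) (nat_lit 0) (XT.lf (nat_lit 504) (nat_lit 2794369658) (nat_lit 0) (nat_lit 2053522595) (nat_lit 420) (nat_lit 1797553079) (nat_lit 89) (nat_lit 1) (nat_lit 83) (nat_lit 1) (nat_lit 88) (nat_lit 1) (nat_lit 222) (nat_lit 261) (nat_lit 237)) (XT.lf (nat_lit 420) (nat_lit 1085153969) (nat_lit 0) (nat_lit 938997896) (nat_lit 336) (nat_lit 4489661331) (nat_lit 84) (nat_lit 1) (nat_lit 79) (nat_lit 1) (nat_lit 83) (nat_lit 1) (nat_lit 223) (nat_lit 261) (nat_lit 236))))) (XT.nd (nat_lit 282) (nat_lit 1092) (nat_lit 0) (XT.nd (nat_lit 94) (nat_lit 756) (nat_lit 0) (XT.lf (nat_lit 84) (nat_lit 5681533011) (nat_lit 0) (nat_lit 599873677) (nat_lit 420) (nat_lit 104398169) (nat_lit 79) (nat_lit 1) (nat_lit 78) (nat_lit 1) (nat_lit 83) (nat_lit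 1) (nat_lit 224) (nat_lit 261) (nat_lit 235)) (XT.nd (nat_lit 94) (nat_lit 336) (nat_lit 0) (XT.lf (nat_lit 84) (nat_lit 2905478793) (nat_lit 0) (nat_lit 2272427861) (nat_lit 504) (nat_lit 1082390488) (nat_lit 74) (nat_lit 1) (nat_lit 73) (nat_lit 1) (nat_lit 79) (nat_lit 1) (nat_lit 225) (nat_lit 261) (nat_lit 234)) (XT.lf (nat_lit 84) (nat_lit 231381629) (nat_lit 0) (nat_lit 3922912734) (nat_lit 420) (nat_lit 1984456459) (nat_lit 70) (nat_lit 1) (nat_lit 69) (nat_lit 1) (nat_lit 74) (nat_lit 1) (nat_lit 226) (nat_lit 261) (nat_lit 233)))) (XT.nd (nat_lit 94) (nat_lit 756) (nat_lit 0) (XT.lf (nat_lit 420) (nat_lit 442375399) (nat_lit 0) (nat_lit 3179301116) (nat_lit 336) (nat_lit 2398413986) (nat_lit 70) (nat_lit 1) (nat_lit 65) (nat_lit 1) (nat_lit 69) (nat_lit 1) (nat_lit 227) (nat_lit 261) (nat_lit 232)) (XT.nd (nat_lit 94) (nat_lit 336) (nat_lit 0) (XT.lf (nat_lit 84) (nat_lit 983760729)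 (nat_lit 0) (nat_lit 1276696546) (nat_lit 420) (nat_lit 3644095813) (nat_lit 61) (nat_lit 1) (nat_lit 60) (nat_lit 1) (nat_lit 65) (nat_lit 1) (nat_lit 228) (nat_lit 261) (nat_lit 231)) (XT.lf (nat_lit 420) (nat_lit 2815344629) (nat_lit 0) (nat_lit 1389114555) (nat_lit 336) (nat_lit 1587369458) (nat_lit 61) (nat_lit 1) (nat_lit 56) (nat_lit 1) (nat_lit 60) (nat_lit 1) (nat_lit 229) (nat_lit 261) (nat_lit 230))))))))
noncomputable def ec25 : XT := (XT.nd (nat_lit 2068) (nat_lit 0) (nat_lit 0) (XT.nd (nat_lit 1034) (nat_lit 2100) (nat_lit 0) (XT.nd (nat_lit 470) (nat_lit 1344) (nat_lit 0) (XT.nd (nat_lit 188) (nat_lit 924) (nat_lit 0) (XT.nd (nat_lit 94) (nat_lit 84) (nat_lit 0) (XT.lf (nat_lit 336) (nat_lit 1022783149) (nat_lit 0) (nat_lit 574974026) (nat_lit 252) (nat_lit 4084470806) (nat_lit 57) (nat_lit 1) (nat_lit 53) (nat_lit 1) (nat_lit 56) (nat_lit 1) (nat_lit 230) (nat_lit 261) (nat_lit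 229)) (XT.lf (nat_lit 84) (nat_lit 4652913384) (nat_lit 0) (nat_lit 734098961) (nat_lit 336) (nat_lit 188285169) (nat_lit 53) (nat_lit 1) (nat_lit 52) (nat_lit 1) (nat_lit 56) (nat_lit 1) (nat_lit 231) (nat_lit 261) (nat_lit 228))) (XT.nd (nat_lit 94) (nat_lit 588) (nat_lit 0) (XT.lf (nat_lit 84) (nat_lit 2104464474) (nat_lit 0) (nat_lit 2460364436) (nat_lit 420) (nat_lit 905620614) (nat_lit 49) (nat_lit 1) (nat_lit 48) (nat_lit 1) (nat_lit 53) (nat_lit 1) (nat_lit 232) (nat_lit 261) (nat_lit 227)) (XT.nd (nat_lit 94) (nat_lit 336) (nat_lit 0) (XT.lf (nat_lit 336) (nat_lit 1210055804) (nat_lit 0) (nat_lit 3801629416) (nat_lit 252) (nat_lit 357011577) (nat_lit 49) (nat_lit 1) (nat_lit 45) (nat_lit 1) (nat_lit 48) (nat_lit 1) (nat_lit 233) (nat_lit 261) (nat_lit 226)) (XT.lf (nat_lit 84) (nat_lit 2502453597) (nat_lit 0) (nat_lit 565816261) (nat_lit 336) (nat_lit 2200768209) (nat_lit 42) (nat_lit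 1) (nat_lit 41) (nat_lit 1) (nat_lit 45) (nat_lit 1) (nat_lit 234) (nat_lit 261) (nat_lit 225))))) (XT.nd (nat_lit 282) (nat_lit 504) (nat_lit 0) (XT.nd (nat_lit 94) (nat_lit 588) (nat_lit 0) (XT.lf (nat_lit 84) (nat_lit 100288192) (nat_lit 0) (nat_lit 2279666244) (nat_lit 336) (nat_lit 2792017546) (nat_lit 39) (nat_lit 1) (nat_lit 38) (nat_lit 1) (nat_lit 42) (nat_lit 1) (nat_lit 235) (nat_lit 261) (nat_lit 224)) (XT.nd (nat_lit 94) (nat_lit 336) (nat_lit 0) (XT.lf (nat_lit 336) (nat_lit 1092364392) (nat_lit 0) (nat_lit 1721892141) (nat_lit 252) (nat_lit 2262726557) (nat_lit 39) (nat_lit 1) (nat_lit 35) (nat_lit 1) (nat_lit 38) (nat_lit 1) (nat_lit 236) (nat_lit 261) (nat_lit 223)) (XT.lf (nat_lit 84) (nat_lit 453713270) (nat_lit 0) (nat_lit 656026945) (nat_lit 336) (nat_lit 3874845588) (nat_lit 32) (nat_lit 1) (nat_lit 31) (nat_lit 1) (nat_lit 35) (nat_lit 1) (nat_lit 237) (nat_lit 261)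 (nat_lit 222)))) (XT.nd (nat_lit 94) (nat_lit 252) (nat_lit 0) (XT.lf (nat_lit 336) (nat_lit 2529664208) (nat_lit 0) (nat_lit 516467199) (nat_lit 252) (nat_lit 1847719762) (nat_lit 32) (nat_lit 1) (nat_lit 28) (nat_lit 1) (nat_lit 31) (nat_lit 1) (nat_lit 238) (nat_lit 261) (nat_lit 221)) (XT.nd (nat_lit 94) (nat_lit 252) (nat_lit 0) (XT.lf (nat_lit 84) (nat_lit 734175402) (nat_lit 0) (nat_lit 4041448259) (nat_lit 336) (nat_lit 30048091) (nat_lit 29) (nat_lit 1) (nat_lit 28) (nat_lit 1) (nat_lit 32) (nat_lit 1) (nat_lit 239) (nat_lit 261) (nat_lit 220)) (XT.lf (nat_lit 84) (nat_lit 3210841682) (nat_lit 0) (nat_lit 963360312) (nat_lit 252) (nat_lit 544786438) (nat_lit 26) (nat_lit 1) (nat_lit 25) (nat_lit 1) (nat_lit 28) (nat_lit 1) (nat_lit 240) (nat_lit 261) (nat_lit 219)))))) (XT.nd (nat_lit 470) (nat_lit 924) (nat_lit 0) (XT.nd (nat_lit 188) (nat_lit 756) (nat_lit 0) (XT.nd (nat_lit 94)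 (nat_lit 168) (nat_lit 0) (XT.lf (nat_lit 84) (nat_lit 961276196) (nat_lit 0) (nat_lit 2643758576) (nat_lit 336) (nat_lit 1029308862) (nat_lit 23) (nat_lit 1) (nat_lit 22) (nat_lit 1) (nat_lit 26) (nat_lit 1) (nat_lit 241) (nat_lit 261) (nat_lit 218)) (XT.lf (nat_lit 252) (nat_lit 251439586) (nat_lit 0) (nat_lit 3069282018) (nat_lit 168) (nat_lit 1231041441) (nat_lit 23) (nat_lit 1) (nat_lit 20) (nat_lit 1) (nat_lit 22) (nat_lit 1) (nat_lit 242) (nat_lit 261) (nat_lit 217))) (XT.nd (nat_lit 94) (nat_lit 420) (nat_lit 0) (XT.lf (nat_lit 84) (nat_lit 1126055714) (nat_lit 0) (nat_lit 1425757966) (nat_lit 336) (nat_lit 1918907994) (nat_lit 17) (nat_lit 1) (nat_lit 16) (nat_lit 1) (nat_lit 20) (nat_lit 1) (nat_lit 243) (nat_lit 261) (nat_lit 216)) (XT.nd (nat_lit 94) (nat_lit 252) (nat_lit 0) (XT.lf (nat_lit 252) (nat_lit 1321604244) (nat_lit 0) (nat_lit 2064677287) (nat_lit 168) (nat_lit 1005332239)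 (nat_lit 17) (nat_lit 1) (nat_lit 14) (nat_lit 1) (nat_lit 16) (nat_lit 1) (nat_lit 244) (nat_lit 261) (nat_lit 215)) (XT.lf (nat_lit 84) (nat_lit 1238043901) (nat_lit 0) (nat_lit 365663075) (nat_lit 252) (nat_lit 2710578515) (nat_lit 12) (nat_lit 1) (nat_lit 11) (nat_lit 1) (nat_lit 14) (nat_lit 1) (nat_lit 245) (nat_lit 261) (nat_lit 214))))) (XT.nd (nat_lit 282) (nat_lit 336) (nat_lit 0) (XT.nd (nat_lit 94) (nat_lit 420) (nat_lit 0) (XT.lf (nat_lit 252) (nat_lit 2245231968) (nat_lit 0) (nat_lit 1160158590) (nat_lit 168) (nat_lit 833037799) (nat_lit 12) (nat_lit 1) (nat_lit 9) (nat_lit 1) (nat_lit 11) (nat_lit 1) (nat_lit 246) (nat_lit 261) (nat_lit 213)) (XT.nd (nat_lit 94) (nat_lit 252) (nat_lit 0) (XT.lf (nat_lit 252) (nat_lit 568540922) (nat_lit 0) (nat_lit 743305640) (nat_lit 168) (nat_lit 2852496807) (nat_lit 10) (nat_lit 1) (nat_lit 7) (nat_lit 1) (nat_lit 9) (nat_lit 1) (nat_lit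 247) (nat_lit 261) (nat_lit 212)) (XT.lf (nat_lit 252) (nat_lit 3040268777) (nat_lit 0) (nat_lit 345450910) (nat_lit 168) (nat_lit 706038122) (nat_lit 7) (nat_lit 1) (nat_lit 4) (nat_lit 1) (nat_lit 6) (nat_lit 1) (nat_lit 248) (nat_lit 261) (nat_lit 211)))) (XT.nd (nat_lit 94) (nat_lit 336) (nat_lit 0) (XT.lf (nat_lit 84) (nat_lit 1351471631) (nat_lit 0) (nat_lit 2634581012) (nat_lit 252) (nat_lit 34527973) (nat_lit 5) (nat_lit 1) (nat_lit 4) (nat_lit 1) (nat_lit 7) (nat_lit 1) (nat_lit 249) (nat_lit 261) (nat_lit 210)) (XT.nd (nat_lit 94) (nat_lit 84) (nat_lit 0) (XT.lf (nat_lit 84) (nat_lit 3338237736) (nat_lit 0) (nat_lit 233058560) (nat_lit 252) (nat_lit 379747507) (nat_lit 2) (nat_lit 1) (nat_lit 1) (nat_lit 1) (nat_lit 4) (nat_lit 1) (nat_lit 250) (nat_lit 261) (nat_lit 209)) (XT.lf (nat_lit 0) (nat_lit 3216746633) (nat_lit 0) (nat_lit 0) (nat_lit 0) (nat_lit 0) (nat_lit 0) (nat_lit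 0) (nat_lit 1) (nat_lit 0) (nat_lit 1) (nat_lit 0) (nat_lit 251) (nat_lit 261) (nat_lit 208))))))) (XT.nd (nat_lit 40232) (nat_lit 0) (nat_lit 11424) (XT.nd (nat_lit 470) (nat_lit 0) (nat_lit 0) (XT.nd (nat_lit 188) (nat_lit 0) (nat_lit 0) (XT.nd (nat_lit 94) (nat_lit 0) (nat_lit 0) (XT.lf (nat_lit 0) (nat_lit 3206016058) (nat_lit 0) (nat_lit 0) (nat_lit 0) (nat_lit 0) (nat_lit 0) (nat_lit 0) (nat_lit 1) (nat_lit 0) (nat_lit 1) (nat_lit 0) (nat_lit 252) (nat_lit 261) (nat_lit 207)) (XT.lf (nat_lit 0) (nat_lit 3195796463) (nat_lit 0) (nat_lit 0) (nat_lit 0) (nat_lit 0) (nat_lit 0) (nat_lit 0) (nat_lit 1) (nat_lit 0) (nat_lit 1) (nat_lit 0) (nat_lit 253) (nat_lit 261) (nat_lit 206))) (XT.nd (nat_lit 94) (nat_lit 0) (nat_lit 0) (XT.lf (nat_lit 0) (nat_lit 3186063515) (nat_lit 0) (nat_lit 0) (nat_lit 0) (nat_lit 0) (nat_lit 0) (nat_lit 0) (nat_lit 1) (nat_lit 0) (nat_lit 1) (nat_lit 0) (nat_lit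 254) (nat_lit 261) (nat_lit 205)) (XT.nd (nat_lit 94) (nat_lit 0) (nat_lit 0) (XT.lf (nat_lit 0) (nat_lit 3176794040) (nat_lit 0) (nat_lit 0) (nat_lit 0) (nat_lit 0) (nat_lit 0) (nat_lit 0) (nat_lit 1) (nat_lit 0) (nat_lit 1) (nat_lit 0) (nat_lit 255) (nat_lit 261) (nat_lit 204)) (XT.lf (nat_lit 0) (nat_lit 3167965969) (nat_lit 0) (nat_lit 0) (nat_lit 0) (nat_lit 0) (nat_lit 0) (nat_lit 0) (nat_lit 1) (nat_lit 0) (nat_lit 1) (nat_lit 0) (nat_lit 256) (nat_lit 261) (nat_lit 203))))) (XT.nd (nat_lit 282) (nat_lit 0) (nat_lit 0) (XT.nd (nat_lit 94) (nat_lit 0) (nat_lit 0) (XT.lf (nat_lit 0) (nat_lit 3159558283) (nat_lit 0) (nat_lit 0) (nat_lit 0) (nat_lit 0) (nat_lit 0) (nat_lit 0) (nat_lit 1) (nat_lit 0) (nat_lit 1) (nat_lit 0) (nat_lit 257) (nat_lit 261) (nat_lit 202)) (XT.nd (nat_lit 94) (nat_lit 0) (nat_lit 0) (XT.lf (nat_lit 0) (nat_lit 3151550962) (nat_lit 0) (nat_lit 0) (nat_lit 0) (nat_lit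 0) (nat_lit 0) (nat_lit 0) (nat_lit 1) (nat_lit 0) (nat_lit 1) (nat_lit 0) (nat_lit 258) (nat_lit 261) (nat_lit 201)) (XT.lf (nat_lit 0) (nat_lit 3143924943) (nat_lit 0) (nat_lit 0) (nat_lit 0) (nat_lit 0) (nat_lit 0) (nat_lit 0) (nat_lit 1) (nat_lit 0) (nat_lit 1) (nat_lit 0) (nat_lit 259) (nat_lit 261) (nat_lit 200)))) (XT.nd (nat_lit 39292) (nat_lit 0) (nat_lit 13356) (XT.lf (nat_lit 0) (nat_lit 3136662067) (nat_lit 0) (nat_lit 0) (nat_lit 0) (nat_lit 0) (nat_lit 0) (nat_lit 0) (nat_lit 1) (nat_lit 0) (nat_lit 1) (nat_lit 0) (nat_lit 260) (nat_lit 261) (nat_lit 199)) (XT.nd (nat_lit 94) (nat_lit 0) (nat_lit 84) (XT.lf (nat_lit 1260) (nat_lit 6523954083) (nat_lit 84) (nat_lit 4977691059) (nat_lit 0) (nat_lit 84388513) (nat_lit 174) (nat_lit 1) (nat_lit 160) (nat_lit 1) (nat_lit 159) (nat_lit 0) (nat_lit 197) (nat_lit 262) (nat_lit 261)) (XT.lf (nat_lit 1260) (nat_lit 6167748551) (nat_lit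 84) (nat_lit 1637877650) (nat_lit 0) (nat_lit 3504356819) (nat_lit 175) (nat_lit 1) (nat_lit 161) (nat_lit 1) (nat_lit 160) (nat_lit 1) (nat_lit 198) (nat_lit 262) (nat_lit 260)))))) (XT.nd (nat_lit 470) (nat_lit 2100) (nat_lit 0) (XT.nd (nat_lit 188) (nat_lit 0) (nat_lit 84) (XT.nd (nat_lit 94) (nat_lit 0) (nat_lit 84) (XT.lf (nat_lit 1260) (nat_lit 4246783101) (nat_lit 0) (nat_lit 5339625666) (nat_lit 1176) (nat_lit 1456432024) (nat_lit 176) (nat_lit 1) (nat_lit 161) (nat_lit 1) (nat_lit 175) (nat_lit 1) (nat_lit 199) (nat_lit 262) (nat_lit 259)) (XT.lf (nat_lit 1260) (nat_lit 821666851) (nat_lit 0) (nat_lit 5646347161) (nat_lit 1176) (nat_lit 4316250063) (nat_lit 177) (nat_lit 1) (nat_lit 162) (nat_lit 1) (nat_lit 176) (nat_lit 1) (nat_lit 200) (nat_lit 262) (nat_lit 258))) (XT.nd (nat_lit 94) (nat_lit 0) (nat_lit 84) (XT.lf (nat_lit 1260) (nat_lit 4467779057) (nat_lit 84) (nat_lit 3517291909)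 (nat_lit 0) (nat_lit 2548473966) (nat_lit 177) (nat_lit 1) (nat_lit 163) (nat_lit 1) (nat_lit 162) (nat_lit 1) (nat_lit 201) (nat_lit 262) (nat_lit 257)) (XT.nd (nat_lit 94) (nat_lit 0) (nat_lit 84) (XT.lf (nat_lit 1260) (nat_lit 3719843537) (nat_lit 84) (nat_lit 746151431) (nat_lit 0) (nat_lit 5825059861) (nat_lit 178) (nat_lit 1) (nat_lit 164) (nat_lit 1) (nat_lit 163) (nat_lit 1) (nat_lit 202) (nat_lit 262) (nat_lit 256)) (XT.lf (nat_lit 1260) (nat_lit 1085585183) (nat_lit 0) (nat_lit 7167880075) (nat_lit 1176) (nat_lit 1802611389) (nat_lit 179) (nat_lit 1) (nat_lit 164) (nat_lit 1) (nat_lit 178) (nat_lit 1) (nat_lit 203) (nat_lit 262) (nat_lit 255))))) (XT.nd (nat_lit 282) (nat_lit 1260) (nat_lit 0) (XT.nd (nat_lit 94) (nat_lit 1092) (nat_lit 0) (XT.lf (nat_lit 1260) (nat_lit 1967168737) (nat_lit 84) (nat_lit 5637001941) (nat_lit 0) (nat_lit 2223755476) (nat_lit 179) (nat_lit 1) (nat_lit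 165) (nat_lit 1) (nat_lit 164) (nat_lit 1) (nat_lit 204) (nat_lit 262) (nat_lit 254)) (XT.nd (nat_lit 94) (nat_lit 1176) (nat_lit 0) (XT.lf (nat_lit 1260) (nat_lit 984413662) (nat_lit 84) (nat_lit 3177222163) (nat_lit 0) (nat_lit 5445433616) (nat_lit 180) (nat_lit 1) (nat_lit 166) (nat_lit 1) (nat_lit 165) (nat_lit 1) (nat_lit 205) (nat_lit 262) (nat_lit 253)) (XT.lf (nat_lit 84) (nat_lit 836946346) (nat_lit 0) (nat_lit 41710525) (nat_lit 1260) (nat_lit 8514974348) (nat_lit 152) (nat_lit 1) (nat_lit 151) (nat_lit 1) (nat_lit 166) (nat_lit 1) (nat_lit 206) (nat_lit 262) (nat_lit 252)))) (XT.nd (nat_lit 94) (nat_lit 1260) (nat_lit 0) (XT.lf (nat_lit 84) (nat_lit 6783638718) (nat_lit 0) (nat_lit 1126117158) (nat_lit 1260) (nat_lit 1275741110) (nat_lit 152) (nat_lit 1) (nat_lit 151) (nat_lit 1) (nat_lit 166) (nat_lit 1) (nat_lit 207) (nat_lit 262) (nat_lit 251)) (XT.nd (nat_lit 94) (nat_lit 588)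 (nat_lit 0) (XT.lf (nat_lit 84) (nat_lit 3446227374) (nat_lit 0) (nat_lit 2262232217) (nat_lit 756) (nat_lit 3275197177) (nat_lit 144) (nat_lit 1) (nat_lit 143) (nat_lit 1) (nat_lit 152) (nat_lit 1) (nat_lit 208) (nat_lit 262) (nat_lit 250)) (XT.lf (nat_lit 84) (nat_lit 224859427) (nat_lit 0) (nat_lit 3427028474) (nat_lit 672) (nat_lit 5136642720) (nat_lit 137) (nat_lit 1) (nat_lit 136) (nat_lit 1) (nat_lit 144) (nat_lit 1) (nat_lit 209) (nat_lit 262) (nat_lit 249))))))))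
noncomputable def ec26 : XT := (XT.nd (nat_lit 2068) (nat_lit 3780) (nat_lit 0) (XT.nd (nat_lit 1034) (nat_lit 3192) (nat_lit 0) (XT.nd (nat_lit 470) (nat_lit 2268) (nat_lit 0) (XT.nd (nat_lit 188) (nat_lit 1596) (nat_lit 0) (XT.nd (nat_lit 94) (nat_lit 0) (nat_lit 0) (XT.lf (nat_lit 672) (nat_lit 3948692519) (nat_lit 0) (nat_lit 1699389002) (nat_lit 588) (nat_lit 2950636328) (nat_lit 137) (nat_lit 1) (nat_lit 129) (nat_lit 1) (nat_lit 136) (nat_lit 1) (nat_lit 210) (nat_lit 262) (nat_lit 248)) (XT.lf (nat_lit 84) (nat_lit 2397219379) (nat_lit 0) (nat_lit 5897886554) (nat_lit 672) (nat_lit 119929264) (nat_lit 130) (nat_lit 1) (nat_lit 129) (nat_lit 1) (nat_lit 137) (nat_lit 1) (nat_lit 211) (nat_lit 262) (nat_lit 247))) (XT.nd (nat_lit 94) (nat_lit 1092) (nat_lit 0) (XT.lf (nat_lit 588) (nat_lit 1046965905) (nat_lit 0) (nat_lit 6451616609) (nat_lit 504) (nat_lit 737904974) (nat_lit 130) (nat_lit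 1) (nat_lit 123) (nat_lit 1) (nat_lit 129) (nat_lit 1) (nat_lit 212) (nat_lit 262) (nat_lit 246)) (XT.nd (nat_lit 94) (nat_lit 504) (nat_lit 0) (XT.lf (nat_lit 84) (nat_lit 4252147261) (nat_lit 0) (nat_lit 447921741) (nat_lit 588) (nat_lit 3362640023) (nat_lit 117) (nat_lit 1) (nat_lit 116) (nat_lit 1) (nat_lit 123) (nat_lit 1) (nat_lit 213) (nat_lit 262) (nat_lit 245)) (XT.lf (nat_lit 84) (nat_lit 1132620922) (nat_lit 0) (nat_lit 1923563019) (nat_lit 588) (nat_lit 4838023776) (nat_lit 111) (nat_lit 1) (nat_lit 110) (nat_lit 1) (nat_lit 117) (nat_lit 1) (nat_lit 214) (nat_lit 262) (nat_lit 244))))) (XT.nd (nat_lit 282) (nat_lit 1344) (nat_lit 0) (XT.nd (nat_lit 94) (nat_lit 420) (nat_lit 0) (XT.lf (nat_lit 588) (nat_lit 4307369370) (nat_lit 0) (nat_lit 1504451853) (nat_lit 504) (nat_lit 1918614483) (nat_lit 111) (nat_lit 1) (nat_lit 104) (nat_lit 1) (nat_lit 110) (nat_lit 1) (nat_lit 215)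 (nat_lit 262) (nat_lit 243)) (XT.nd (nat_lit 94) (nat_lit 0) (nat_lit 0) (XT.lf (nat_lit 504) (nat_lit 2636664431) (nat_lit 0) (nat_lit 49686580) (nat_lit 420) (nat_lit 4885181727) (nat_lit 105) (nat_lit 1) (nat_lit 99) (nat_lit 1) (nat_lit 104) (nat_lit 1) (nat_lit 216) (nat_lit 262) (nat_lit 242)) (XT.lf (nat_lit 504) (nat_lit 954718741) (nat_lit 0) (nat_lit 6143250229) (nat_lit 420) (nat_lit 319157139) (nat_lit 105) (nat_lit 1) (nat_lit 99) (nat_lit 1) (nat_lit 104) (nat_lit 1) (nat_lit 217) (nat_lit 262) (nat_lit 241)))) (XT.nd (nat_lit 94) (nat_lit 840) (nat_lit 0) (XT.lf (nat_lit 84) (nat_lit 3999214407) (nat_lit 0) (nat_lit 731288409) (nat_lit 504) (nat_lit 2535858035) (nat_lit 94) (nat_lit 1) (nat_lit 93) (nat_lit 1) (nat_lit 99) (nat_lit 1) (nat_lit 218) (nat_lit 262) (nat_lit 240)) (XT.nd (nat_lit 94) (nat_lit 420) (nat_lit 0) (XT.lf (nat_lit 84) (nat_lit 1023056188) (nat_lit 0)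 (nat_lit 2383525145) (nat_lit 504) (nat_lit 3713489339) (nat_lit 89) (nat_lit 1) (nat_lit 88) (nat_lit 1) (nat_lit 94) (nat_lit 1) (nat_lit 219) (nat_lit 262) (nat_lit 239)) (XT.lf (nat_lit 504) (nat_lit 2934088141) (nat_lit 0) (nat_lit 2156198724) (nat_lit 420) (nat_lit 1887430733) (nat_lit 89) (nat_lit 1) (nat_lit 83) (nat_lit 1) (nat_lit 88) (nat_lit 1) (nat_lit 220) (nat_lit 262) (nat_lit 238)))))) (XT.nd (nat_lit 470) (nat_lit 1680) (nat_lit 0) (XT.nd (nat_lit 188) (nat_lit 1092) (nat_lit 0) (XT.nd (nat_lit 94) (nat_lit 84) (nat_lit 0) (XT.lf (nat_lit 420) (nat_lit 1139411667) (nat_lit 0) (nat_lit 985947791) (nat_lit 336) (nat_lit 4714144398) (nat_lit 84) (nat_lit 1) (nat_lit 79) (nat_lit 1) (nat_lit 83) (nat_lit 1) (nat_lit 221) (nat_lit 262) (nat_lit 237)) (XT.lf (nat_lit 84) (nat_lit 5965609661) (nat_lit 0) (nat_lit 629867361) (nat_lit 420) (nat_lit 109618077) (nat_lit 79) (nat_lit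 1) (nat_lit 78) (nat_lit 1) (nat_lit 83) (nat_lit 1) (nat_lit 222) (nat_lit 262) (nat_lit 236))) (XT.nd (nat_lit 94) (nat_lit 672) (nat_lit 0) (XT.lf (nat_lit 84) (nat_lit 3050752733) (nat_lit 0) (nat_lit 2386049254) (nat_lit 504) (nat_lit 1136510013) (nat_lit 74) (nat_lit 1) (nat_lit 73) (nat_lit 1) (nat_lit 79) (nat_lit 1) (nat_lit 223) (nat_lit 262) (nat_lit 235)) (XT.nd (nat_lit 94) (nat_lit 336) (nat_lit 0) (XT.lf (nat_lit 84) (nat_lit 242950711) (nat_lit 0) (nat_lit 4119058371) (nat_lit 420) (nat_lit 2083679282) (nat_lit 70) (nat_lit 1) (nat_lit 69) (nat_lit 1) (nat_lit 74) (nat_lit 1) (nat_lit 224) (nat_lit 262) (nat_lit 234)) (XT.lf (nat_lit 420) (nat_lit 464494169) (nat_lit 0) (nat_lit 3338266171) (nat_lit 336) (nat_lit 2518334686) (nat_lit 70) (nat_lit 1) (nat_lit 65) (nat_lit 1) (nat_lit 69) (nat_lit 1) (nat_lit 225) (nat_lit 262) (nat_lit 233))))) (XT.nd (nat_lit 282) (nat_lit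 672) (nat_lit 0) (XT.nd (nat_lit 94) (nat_lit 588) (nat_lit 0) (XT.lf (nat_lit 84) (nat_lit 1032948766) (nat_lit 0) (nat_lit 1340531374) (nat_lit 420) (nat_lit 3826300604) (nat_lit 61) (nat_lit 1) (nat_lit 60) (nat_lit 1) (nat_lit 65) (nat_lit 1) (nat_lit 226) (nat_lit 262) (nat_lit 232)) (XT.nd (nat_lit 94) (nat_lit 252) (nat_lit 0) (XT.lf (nat_lit 420) (nat_lit 2956111861) (nat_lit 0) (nat_lit 1458570283) (nat_lit 336) (nat_lit 1666737931) (nat_lit 61) (nat_lit 1) (nat_lit 56) (nat_lit 1) (nat_lit 60) (nat_lit 1) (nat_lit 227) (nat_lit 262) (nat_lit 231)) (XT.lf (nat_lit 336) (nat_lit 1073922307) (nat_lit 0) (nat_lit 603722727) (nat_lit 252) (nat_lit 4288694346) (nat_lit 57) (nat_lit 1) (nat_lit 53) (nat_lit 1) (nat_lit 56) (nat_lit 1) (nat_lit 228) (nat_lit 262) (nat_lit 230)))) (XT.nd (nat_lit 94) (nat_lit 588) (nat_lit 0) (XT.lf (nat_lit 84) (nat_lit 4885559053) (nat_lit 0) (nat_lit 770803909)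 (nat_lit 336) (nat_lit 197699427) (nat_lit 53) (nat_lit 1) (nat_lit 52) (nat_lit 1) (nat_lit 56) (nat_lit 1) (nat_lit 229) (nat_lit 262) (nat_lit 229)) (XT.nd (nat_lit 94) (nat_lit 252) (nat_lit 0) (XT.lf (nat_lit 84) (nat_lit 2209687698) (nat_lit 0) (nat_lit 2583382657) (nat_lit 420) (nat_lit 950901644) (nat_lit 49) (nat_lit 1) (nat_lit 48) (nat_lit 1) (nat_lit 53) (nat_lit 1) (nat_lit 230) (nat_lit 262) (nat_lit 228)) (XT.lf (nat_lit 336) (nat_lit 1270558594) (nat_lit 0) (nat_lit 3991710887) (nat_lit 252) (nat_lit 374862156) (nat_lit 49) (nat_lit 1) (nat_lit 45) (nat_lit 1) (nat_lit 48) (nat_lit 1) (nat_lit 231) (nat_lit 262) (nat_lit 227))))))) (XT.nd (nat_lit 1034) (nat_lit 1176) (nat_lit 0) (XT.nd (nat_lit 470) (nat_lit 1176) (nat_lit 0) (XT.nd (nat_lit 188) (nat_lit 840) (nat_lit 0) (XT.nd (nat_lit 94) (nat_lit 252) (nat_lit 0) (XT.lf (nat_lit 84) (nat_lit 2627576277) (nat_lit 0) (nat_lit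 594107074) (nat_lit 336) (nat_lit 2310806619) (nat_lit 42) (nat_lit 1) (nat_lit 41) (nat_lit 1) (nat_lit 45) (nat_lit 1) (nat_lit 232) (nat_lit 262) (nat_lit 226)) (XT.lf (nat_lit 84) (nat_lit 105302601) (nat_lit 0) (nat_lit 2393649557) (nat_lit 336) (nat_lit 2931618424) (nat_lit 39) (nat_lit 1) (nat_lit 38) (nat_lit 1) (nat_lit 42) (nat_lit 1) (nat_lit 233) (nat_lit 262) (nat_lit 225))) (XT.nd (nat_lit 94) (nat_lit 588) (nat_lit 0) (XT.lf (nat_lit 336) (nat_lit 1146982612) (nat_lit 0) (nat_lit 1807986748) (nat_lit 252) (nat_lit 2375862885) (nat_lit 39) (nat_lit 1) (nat_lit 35) (nat_lit 1) (nat_lit 38) (nat_lit 1) (nat_lit 234) (nat_lit 262) (nat_lit 224)) (XT.nd (nat_lit 94) (nat_lit 252) (nat_lit 0) (XT.lf (nat_lit 84) (nat_lit 476398934) (nat_lit 0) (nat_lit 688828292) (nat_lit 336) (nat_lit 4068587867) (nat_lit 32) (nat_lit 1) (nat_lit 31) (nat_lit 1) (nat_lit 35) (nat_lit 1) (nat_lit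 235) (nat_lit 262) (nat_lit 223)) (XT.lf (nat_lit 336) (nat_lit 2656147418) (nat_lit 0) (nat_lit 542290559) (nat_lit 252) (nat_lit 1940105750) (nat_lit 32) (nat_lit 1) (nat_lit 28) (nat_lit 1) (nat_lit 31) (nat_lit 1) (nat_lit 236) (nat_lit 262) (nat_lit 222))))) (XT.nd (nat_lit 282) (nat_lit 672) (nat_lit 0) (XT.nd (nat_lit 94) (nat_lit 504) (nat_lit 0) (XT.lf (nat_lit 84) (nat_lit 770884173) (nat_lit 0) (nat_lit 4243520672) (nat_lit 336) (nat_lit 31550496) (nat_lit 29) (nat_lit 1) (nat_lit 28) (nat_lit 1) (nat_lit 32) (nat_lit 1) (nat_lit 237) (nat_lit 262) (nat_lit 221)) (XT.nd (nat_lit 94) (nat_lit 252) (nat_lit 0) (XT.lf (nat_lit 84) (nat_lit 3371383767) (nat_lit 0) (nat_lit 1011528328) (nat_lit 252) (nat_lit 572025759) (nat_lit 26) (nat_lit 1) (nat_lit 25) (nat_lit 1) (nat_lit 28) (nat_lit 1) (nat_lit 238) (nat_lit 262) (nat_lit 220)) (XT.lf (nat_lit 84) (nat_lit 1009340006) (nat_lit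 0) (nat_lit 2775946505) (nat_lit 336) (nat_lit 1080774305) (nat_lit 23) (nat_lit 1) (nat_lit 22) (nat_lit 1) (nat_lit 26) (nat_lit 1) (nat_lit 239) (nat_lit 262) (nat_lit 219)))) (XT.nd (nat_lit 94) (nat_lit 504) (nat_lit 0) (XT.lf (nat_lit 252) (nat_lit 264011565) (nat_lit 0) (nat_lit 3222746119) (nat_lit 168) (nat_lit 1292593513) (nat_lit 23) (nat_lit 1) (nat_lit 20) (nat_lit 1) (nat_lit 22) (nat_lit 1) (nat_lit 240) (nat_lit 262) (nat_lit 218)) (XT.nd (nat_lit 94) (nat_lit 168) (nat_lit 0) (XT.lf (nat_lit 84) (nat_lit 1182358500) (nat_lit 0) (nat_lit 1497045864) (nat_lit 336) (nat_lit 2014853394) (nat_lit 17) (nat_lit 1) (nat_lit 16) (nat_lit 1) (nat_lit 20) (nat_lit 1) (nat_lit 241) (nat_lit 262) (nat_lit 217)) (XT.lf (nat_lit 252) (nat_lit 1387684456) (nat_lit 0) (nat_lit 2167911152) (nat_lit 168) (nat_lit 1055598851) (nat_lit 17) (nat_lit 1) (nat_lit 14) (nat_lit 1) (nat_lit 16) (nat_lit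 1) (nat_lit 242) (nat_lit 262) (nat_lit 216)))))) (XT.nd (nat_lit 470) (nat_lit 336) (nat_lit 0) (XT.nd (nat_lit 188) (nat_lit 420) (nat_lit 0) (XT.nd (nat_lit 94) (nat_lit 168) (nat_lit 0) (XT.lf (nat_lit 84) (nat_lit 1299946096) (nat_lit 0) (nat_lit 383946229) (nat_lit 252) (nat_lit 2846107441) (nat_lit 12) (nat_lit 1) (nat_lit 11) (nat_lit 1) (nat_lit 14) (nat_lit 1) (nat_lit 243) (nat_lit 262) (nat_lit 215)) (XT.lf (nat_lit 252) (nat_lit 2357493567) (nat_lit 0) (nat_lit 1218166520) (nat_lit 168) (nat_lit 874689689) (nat_lit 12) (nat_lit 1) (nat_lit 9) (nat_lit 1) (nat_lit 11) (nat_lit 1) (nat_lit 244) (nat_lit 262) (nat_lit 214))) (XT.nd (nat_lit 94) (nat_lit 252) (nat_lit 0) (XT.lf (nat_lit 252) (nat_lit 596967968) (nat_lit 0) (nat_lit 780470922) (nat_lit 168) (nat_lit 2995121647) (nat_lit 10) (nat_lit 1) (nat_lit 7) (nat_lit 1) (nat_lit 9) (nat_lit 1) (nat_lit 245) (nat_lit 262) (nat_lit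 213)) (XT.nd (nat_lit 94) (nat_lit 0) (nat_lit 0) (XT.lf (nat_lit 252) (nat_lit 3192282216) (nat_lit 0) (nat_lit 362723455) (nat_lit 168) (nat_lit 741340028) (nat_lit 7) (nat_lit 1) (nat_lit 4) (nat_lit 1) (nat_lit 6) (nat_lit 1) (nat_lit 246) (nat_lit 262) (nat_lit 212)) (XT.lf (nat_lit 84) (nat_lit 1419045213) (nat_lit 0) (nat_lit 2766310063) (nat_lit 252) (nat_lit 36254371) (nat_lit 5) (nat_lit 1) (nat_lit 4) (nat_lit 1) (nat_lit 7) (nat_lit 1) (nat_lit 247) (nat_lit 262) (nat_lit 211))))) (XT.nd (nat_lit 282) (nat_lit 0) (nat_lit 0) (XT.nd (nat_lit 94) (nat_lit 84) (nat_lit 0) (XT.lf (nat_lit 84) (nat_lit 3505149623) (nat_lit 0) (nat_lit 244711488) (nat_lit 252) (nat_lit 398734882) (nat_lit 2) (nat_lit 1) (nat_lit 1) (nat_lit 1) (nat_lit 4) (nat_lit 1) (nat_lit 248) (nat_lit 262) (nat_lit 210)) (XT.nd (nat_lit 94) (nat_lit 0) (nat_lit 0) (XT.lf (nat_lit 0) (nat_lit 3377583965) (nat_lit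 0) (nat_lit 0) (nat_lit 0) (nat_lit 0) (nat_lit 0) (nat_lit 0) (nat_lit 1) (nat_lit 0) (nat_lit 1) (nat_lit 0) (nat_lit 249) (nat_lit 262) (nat_lit 209)) (XT.lf (nat_lit 0) (nat_lit 3366316861) (nat_lit 0) (nat_lit 0) (nat_lit 0) (nat_lit 0) (nat_lit 0) (nat_lit 0) (nat_lit 1) (nat_lit 0) (nat_lit 1) (nat_lit 0) (nat_lit 250) (nat_lit 262) (nat_lit 208)))) (XT.nd (nat_lit 94) (nat_lit 0) (nat_lit 0) (XT.lf (nat_lit 0) (nat_lit 3355586286) (nat_lit 0) (nat_lit 0) (nat_lit 0) (nat_lit 0) (nat_lit 0) (nat_lit 0) (nat_lit 1) (nat_lit 0) (nat_lit 1) (nat_lit 0) (nat_lit 251) (nat_lit 262) (nat_lit 207)) (XT.nd (nat_lit 94) (nat_lit 0) (nat_lit 0) (XT.lf (nat_lit 0) (nat_lit 3345366690) (nat_lit 0) (nat_lit 0) (nat_lit 0) (nat_lit 0) (nat_lit 0) (nat_lit 0) (nat_lit 1) (nat_lit 0) (nat_lit 1) (nat_lit 0) (nat_lit 252) (nat_lit 262) (nat_lit 206)) (XT.lf (nat_lit 0) (nat_lit 3335633742) (nat_lit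 0) (nat_lit 0) (nat_lit 0) (nat_lit 0) (nat_lit 0) (nat_lit 0) (nat_lit 1) (nat_lit 0) (nat_lit 1) (nat_lit 0) (nat_lit 253) (nat_lit 262) (nat_lit 205))))))))
noncomputable def ec27 : XT := (XT.nd (nat_lit 41266) (nat_lit 0) (nat_lit 2604) (XT.nd (nat_lit 40232) (nat_lit 0) (nat_lit 9744) (XT.nd (nat_lit 470) (nat_lit 0) (nat_lit 0) (XT.nd (nat_lit 188) (nat_lit 0) (nat_lit 0) (XT.nd (nat_lit 94) (nat_lit 0) (nat_lit 0) (XT.lf (nat_lit 0) (nat_lit 3326364268) (nat_lit 0) (nat_lit 0) (nat_lit 0) (nat_lit 0) (nat_lit 0) (nat_lit 0) (nat_lit 1) (nat_lit 0) (nat_lit 1) (nat_lit 0) (nat_lit 254) (nat_lit 262) (nat_lit 204)) (XT.lf (nat_lit 0) (nat_lit 3317536197) (nat_lit 0) (nat_lit 0) (nat_lit 0) (nat_lit 0) (nat_lit 0) (nat_lit 0) (nat_lit 1) (nat_lit 0) (nat_lit 1) (nat_lit 0) (nat_lit 255) (nat_lit 262) (nat_lit 203))) (XT.nd (nat_lit 94) (nat_lit 0) (nat_lit 0) (XT.lf (nat_lit 0) (nat_lit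 3309128511) (nat_lit 0) (nat_lit 0) (nat_lit 0) (nat_lit 0) (nat_lit 0) (nat_lit 0) (nat_lit 1) (nat_lit 0) (nat_lit 1) (nat_lit 0) (nat_lit 256) (nat_lit 262) (nat_lit 202)) (XT.nd (nat_lit 94) (nat_lit 0) (nat_lit 0) (XT.lf (nat_lit 0) (nat_lit 3301121190) (nat_lit 0) (nat_lit 0) (nat_lit 0) (nat_lit 0) (nat_lit 0) (nat_lit 0) (nat_lit 1) (nat_lit 0) (nat_lit 1) (nat_lit 0) (nat_lit 257) (nat_lit 262) (nat_lit 201)) (XT.lf (nat_lit 0) (nat_lit 3293495171) (nat_lit 0) (nat_lit 0) (nat_lit 0) (nat_lit 0) (nat_lit 0) (nat_lit 0) (nat_lit 1) (nat_lit 0) (nat_lit 1) (nat_lit 0) (nat_lit 258) (nat_lit 262) (nat_lit 200))))) (XT.nd (nat_lit 39480) (nat_lit 0) (nat_lit 13608) (XT.nd (nat_lit 39292) (nat_lit 0) (nat_lit 13440) (XT.lf (nat_lit 0) (nat_lit 3286232295) (nat_lit 0) (nat_lit 0) (nat_lit 0) (nat_lit 0) (nat_lit 0) (nat_lit 0) (nat_lit 1) (nat_lit 0) (nat_lit 1) (nat_lit 0) (nat_lit 259)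 (nat_lit 262) (nat_lit 199)) (XT.nd (nat_lit 94) (nat_lit 0) (nat_lit 84) (XT.lf (nat_lit 1260) (nat_lit 6476135979) (nat_lit 84) (nat_lit 1719771532) (nat_lit 0) (nat_lit 3679574660) (nat_lit 175) (nat_lit 1) (nat_lit 161) (nat_lit 1) (nat_lit 160) (nat_lit 1) (nat_lit 196) (nat_lit 263) (nat_lit 261)) (XT.lf (nat_lit 1260) (nat_lit 4459122256) (nat_lit 0) (nat_lit 5606606949) (nat_lit 1176) (nat_lit 1529253625) (nat_lit 176) (nat_lit 1) (nat_lit 161) (nat_lit 1) (nat_lit 175) (nat_lit 1) (nat_lit 197) (nat_lit 263) (nat_lit 260)))) (XT.nd (nat_lit 94) (nat_lit 0) (nat_lit 0) (XT.lf (nat_lit 1260) (nat_lit 862750194) (nat_lit 0) (nat_lit 5928664520) (nat_lit 1176) (nat_lit 4532062566) (nat_lit 177) (nat_lit 1) (nat_lit 162) (nat_lit 1) (nat_lit 176) (nat_lit 1) (nat_lit 198) (nat_lit 263) (nat_lit 259)) (XT.nd (nat_lit 94) (nat_lit 0) (nat_lit 84) (XT.lf (nat_lit 1260) (nat_lit 4691168010)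 (nat_lit 84) (nat_lit 3693156504) (nat_lit 0) (nat_lit 2675897664) (nat_lit 177) (nat_lit 1) (nat_lit 163) (nat_lit 1) (nat_lit 162) (nat_lit 1) (nat_lit 199) (nat_lit 263) (nat_lit 258)) (XT.lf (nat_lit 1260) (nat_lit 3905835714) (nat_lit 84) (nat_lit 783459002) (nat_lit 0) (nat_lit 6116312854) (nat_lit 178) (nat_lit 1) (nat_lit 164) (nat_lit 1) (nat_lit 163) (nat_lit 1) (nat_lit 200) (nat_lit 263) (nat_lit 257)))))) (XT.nd (nat_lit 470) (nat_lit 2940) (nat_lit 0) (XT.nd (nat_lit 188) (nat_lit 1092) (nat_lit 0) (XT.nd (nat_lit 94) (nat_lit 0) (nat_lit 0) (XT.lf (nat_lit 1260) (nat_lit 1139864442) (nat_lit 0) (nat_lit 7526274078) (nat_lit 1176) (nat_lit 1892741959) (nat_lit 179) (nat_lit 1) (nat_lit 164) (nat_lit 1) (nat_lit 178) (nat_lit 1) (nat_lit 201) (nat_lit 263) (nat_lit 256)) (XT.lf (nat_lit 1260) (nat_lit 2065527174) (nat_lit 84) (nat_lit 5918852038) (nat_lit 0) (nat_lit 2334943250)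 (nat_lit 179) (nat_lit 1) (nat_lit 165) (nat_lit 1) (nat_lit 164) (nat_lit 1) (nat_lit 202) (nat_lit 263) (nat_lit 255))) (XT.nd (nat_lit 94) (nat_lit 1176) (nat_lit 0) (XT.lf (nat_lit 1260) (nat_lit 1033634345) (nat_lit 84) (nat_lit 3336083271) (nat_lit 0) (nat_lit 5717705296) (nat_lit 180) (nat_lit 1) (nat_lit 166) (nat_lit 1) (nat_lit 165) (nat_lit 1) (nat_lit 203) (nat_lit 263) (nat_lit 254)) (XT.nd (nat_lit 94) (nat_lit 0) (nat_lit 0) (XT.lf (nat_lit 84) (nat_lit 878793663) (nat_lit 0) (nat_lit 43796052) (nat_lit 1260) (nat_lit 8940723065) (nat_lit 152) (nat_lit 1) (nat_lit 151) (nat_lit 1) (nat_lit 166) (nat_lit 1) (nat_lit 204) (nat_lit 263) (nat_lit 253)) (XT.lf (nat_lit 84) (nat_lit 7122820654) (nat_lit 0) (nat_lit 1182423015) (nat_lit 1260) (nat_lit 1339528166) (nat_lit 152) (nat_lit 1) (nat_lit 151) (nat_lit 1) (nat_lit 166) (nat_lit 1) (nat_lit 205) (nat_lit 263) (nat_lit 252)))))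 (XT.nd (nat_lit 282) (nat_lit 1092) (nat_lit 0) (XT.nd (nat_lit 94) (nat_lit 1176) (nat_lit 0) (XT.lf (nat_lit 84) (nat_lit 3618538743) (nat_lit 0) (nat_lit 2375343828) (nat_lit 756) (nat_lit 3438957036) (nat_lit 144) (nat_lit 1) (nat_lit 143) (nat_lit 1) (nat_lit 152) (nat_lit 1) (nat_lit 206) (nat_lit 263) (nat_lit 251)) (XT.nd (nat_lit 94) (nat_lit 588) (nat_lit 0) (XT.lf (nat_lit 84) (nat_lit 236102399) (nat_lit 0) (nat_lit 3598379898) (nat_lit 672) (nat_lit 5393474856) (nat_lit 137) (nat_lit 1) (nat_lit 136) (nat_lit 1) (nat_lit 144) (nat_lit 1) (nat_lit 207) (nat_lit 263) (nat_lit 250)) (XT.lf (nat_lit 672) (nat_lit 4146127145) (nat_lit 0) (nat_lit 1784358452) (nat_lit 588) (nat_lit 3098168145) (nat_lit 137) (nat_lit 1) (nat_lit 129) (nat_lit 1) (nat_lit 136) (nat_lit 1) (nat_lit 208) (nat_lit 263) (nat_lit 249)))) (XT.nd (nat_lit 94) (nat_lit 1092) (nat_lit 0) (XT.lf (nat_lit 84) (nat_lit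 2517080348) (nat_lit 0) (nat_lit 6192780882) (nat_lit 672) (nat_lit 125925727) (nat_lit 130) (nat_lit 1) (nat_lit 129) (nat_lit 1) (nat_lit 137) (nat_lit 1) (nat_lit 209) (nat_lit 263) (nat_lit 248)) (XT.nd (nat_lit 94) (nat_lit 588) (nat_lit 0) (XT.lf (nat_lit 588) (nat_lit 1099314200) (nat_lit 0) (nat_lit 6774197439) (nat_lit 504) (nat_lit 774800223) (nat_lit 130) (nat_lit 1) (nat_lit 123) (nat_lit 1) (nat_lit 129) (nat_lit 1) (nat_lit 210) (nat_lit 263) (nat_lit 247)) (XT.lf (nat_lit 84) (nat_lit 4464754624) (nat_lit 0) (nat_lit 470317828) (nat_lit 588) (nat_lit 3530772025) (nat_lit 117) (nat_lit 1) (nat_lit 116) (nat_lit 1) (nat_lit 123) (nat_lit 1) (nat_lit 211) (nat_lit 263) (nat_lit 246))))))) (XT.nd (nat_lit 1034) (nat_lit 3192) (nat_lit 0) (XT.nd (nat_lit 470) (nat_lit 2016) (nat_lit 0) (XT.nd (nat_lit 188) (nat_lit 924) (nat_lit 0) (XT.nd (nat_lit 94) (nat_lit 504) (nat_lit 0) (XT.lf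 (nat_lit 84) (nat_lit 1189251968) (nat_lit 0) (nat_lit 2019741170) (nat_lit 588) (nat_lit 5079924965) (nat_lit 111) (nat_lit 1) (nat_lit 110) (nat_lit 1) (nat_lit 117) (nat_lit 1) (nat_lit 212) (nat_lit 263) (nat_lit 245)) (XT.lf (nat_lit 588) (nat_lit 4522737838) (nat_lit 0) (nat_lit 1579674446) (nat_lit 504) (nat_lit 2014545207) (nat_lit 111) (nat_lit 1) (nat_lit 104) (nat_lit 1) (nat_lit 110) (nat_lit 1) (nat_lit 213) (nat_lit 263) (nat_lit 244))) (XT.nd (nat_lit 94) (nat_lit 504) (nat_lit 0) (XT.lf (nat_lit 504) (nat_lit 2768497653) (nat_lit 0) (nat_lit 52170909) (nat_lit 420) (nat_lit 5129440813) (nat_lit 105) (nat_lit 1) (nat_lit 99) (nat_lit 1) (nat_lit 104) (nat_lit 1) (nat_lit 214) (nat_lit 263) (nat_lit 243)) (XT.nd (nat_lit 94) (nat_lit 504) (nat_lit 0) (XT.lf (nat_lit 504) (nat_lit 1002454678) (nat_lit 0) (nat_lit 6450412741) (nat_lit 420) (nat_lit 335114996) (nat_lit 105) (nat_lit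 1) (nat_lit 99) (nat_lit 1) (nat_lit 104) (nat_lit 1) (nat_lit 215) (nat_lit 263) (nat_lit 242)) (XT.lf (nat_lit 84) (nat_lit 4199175128) (nat_lit 0) (nat_lit 767852830) (nat_lit 504) (nat_lit 2662650936) (nat_lit 94) (nat_lit 1) (nat_lit 93) (nat_lit 1) (nat_lit 99) (nat_lit 1) (nat_lit 216) (nat_lit 263) (nat_lit 241))))) (XT.nd (nat_lit 282) (nat_lit 840) (nat_lit 0) (XT.nd (nat_lit 94) (nat_lit 756) (nat_lit 0) (XT.lf (nat_lit 84) (nat_lit 1074208997) (nat_lit 0) (nat_lit 2502701402) (nat_lit 504) (nat_lit 3899163806) (nat_lit 89) (nat_lit 1) (nat_lit 88) (nat_lit 1) (nat_lit 94) (nat_lit 1) (nat_lit 217) (nat_lit 263) (nat_lit 240)) (XT.nd (nat_lit 94) (nat_lit 336) (nat_lit 0) (XT.lf (nat_lit 504) (nat_lit 3080792548) (nat_lit 0) (nat_lit 2264008661) (nat_lit 420) (nat_lit 1981802269) (nat_lit 89) (nat_lit 1) (nat_lit 83) (nat_lit 1) (nat_lit 88) (nat_lit 1) (nat_lit 218) (nat_lit 263)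 (nat_lit 239)) (XT.lf (nat_lit 420) (nat_lit 1196382251) (nat_lit 0) (nat_lit 1035245181) (nat_lit 336) (nat_lit 4949851618) (nat_lit 84) (nat_lit 1) (nat_lit 79) (nat_lit 1) (nat_lit 83) (nat_lit 1) (nat_lit 219) (nat_lit 263) (nat_lit 238)))) (XT.nd (nat_lit 94) (nat_lit 756) (nat_lit 0) (XT.lf (nat_lit 84) (nat_lit 6263890144) (nat_lit 0) (nat_lit 661360729) (nat_lit 420) (nat_lit 115098981) (nat_lit 79) (nat_lit 1) (nat_lit 78) (nat_lit 1) (nat_lit 83) (nat_lit 1) (nat_lit 220) (nat_lit 263) (nat_lit 237)) (XT.nd (nat_lit 94) (nat_lit 336) (nat_lit 0) (XT.lf (nat_lit 84) (nat_lit 3203290370) (nat_lit 0) (nat_lit 2505351717) (nat_lit 504) (nat_lit 1193335513) (nat_lit 74) (nat_lit 1) (nat_lit 73) (nat_lit 1) (nat_lit 79) (nat_lit 1) (nat_lit 221) (nat_lit 263) (nat_lit 236)) (XT.lf (nat_lit 84) (nat_lit 255098246) (nat_lit 0) (nat_lit 4325011289) (nat_lit 420) (nat_lit 2187863246) (nat_lit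 70) (nat_lit 1) (nat_lit 69) (nat_lit 1) (nat_lit 74) (nat_lit 1) (nat_lit 222) (nat_lit 263) (nat_lit 235)))))) (XT.nd (nat_lit 470) (nat_lit 1764) (nat_lit 0) (XT.nd (nat_lit 188) (nat_lit 672) (nat_lit 0) (XT.nd (nat_lit 94) (nat_lit 420) (nat_lit 0) (XT.lf (nat_lit 420) (nat_lit 487718877) (nat_lit 0) (nat_lit 3505179480) (nat_lit 336) (nat_lit 2644251420) (nat_lit 70) (nat_lit 1) (nat_lit 65) (nat_lit 1) (nat_lit 69) (nat_lit 1) (nat_lit 223) (nat_lit 263) (nat_lit 234)) (XT.lf (nat_lit 84) (nat_lit 1084596204) (nat_lit 0) (nat_lit 1407557942) (nat_lit 420) (nat_lit 4017615634) (nat_lit 61) (nat_lit 1) (nat_lit 60) (nat_lit 1) (nat_lit 65) (nat_lit 1) (nat_lit 224) (nat_lit 263) (nat_lit 233))) (XT.nd (nat_lit 94) (nat_lit 336) (nat_lit 0) (XT.lf (nat_lit 420) (nat_lit 3103917454) (nat_lit 0) (nat_lit 1531498797) (nat_lit 336) (nat_lit 1750074828) (nat_lit 61) (nat_lit 1) (nat_lit 56)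 (nat_lit 1) (nat_lit 60) (nat_lit 1) (nat_lit 225) (nat_lit 263) (nat_lit 232)) (XT.nd (nat_lit 94) (nat_lit 84) (nat_lit 0) (XT.lf (nat_lit 336) (nat_lit 1127618422) (nat_lit 0) (nat_lit 633908864) (nat_lit 252) (nat_lit 4503129063) (nat_lit 57) (nat_lit 1) (nat_lit 53) (nat_lit 1) (nat_lit 56) (nat_lit 1) (nat_lit 226) (nat_lit 263) (nat_lit 231)) (XT.lf (nat_lit 84) (nat_lit 5129837006) (nat_lit 0) (nat_lit 809344105) (nat_lit 336) (nat_lit 207584399) (nat_lit 53) (nat_lit 1) (nat_lit 52) (nat_lit 1) (nat_lit 56) (nat_lit 1) (nat_lit 227) (nat_lit 263) (nat_lit 230))))) (XT.nd (nat_lit 282) (nat_lit 840) (nat_lit 0) (XT.nd (nat_lit 94) (nat_lit 588) (nat_lit 0) (XT.lf (nat_lit 84) (nat_lit 2320172083) (nat_lit 0) (nat_lit 2712551790) (nat_lit 420) (nat_lit 998446726) (nat_lit 49) (nat_lit 1) (nat_lit 48) (nat_lit 1) (nat_lit 53) (nat_lit 1) (nat_lit 228) (nat_lit 263) (nat_lit 229)) (XT.nd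 (nat_lit 94) (nat_lit 336) (nat_lit 0) (XT.lf (nat_lit 336) (nat_lit 1334086523) (nat_lit 0) (nat_lit 4191296431) (nat_lit 252) (nat_lit 393605264) (nat_lit 49) (nat_lit 1) (nat_lit 45) (nat_lit 1) (nat_lit 48) (nat_lit 1) (nat_lit 229) (nat_lit 263) (nat_lit 228)) (XT.lf (nat_lit 84) (nat_lit 2758955090) (nat_lit 0) (nat_lit 623812427) (nat_lit 336) (nat_lit 2426346950) (nat_lit 42) (nat_lit 1) (nat_lit 41) (nat_lit 1) (nat_lit 45) (nat_lit 1) (nat_lit 230) (nat_lit 263) (nat_lit 227)))) (XT.nd (nat_lit 94) (nat_lit 588) (nat_lit 0) (XT.lf (nat_lit 84) (nat_lit 110567732) (nat_lit 0) (nat_lit 2513332035) (nat_lit 336) (nat_lit 3078199345) (nat_lit 39) (nat_lit 1) (nat_lit 38) (nat_lit 1) (nat_lit 42) (nat_lit 1) (nat_lit 231) (nat_lit 263) (nat_lit 226)) (XT.nd (nat_lit 94) (nat_lit 336) (nat_lit 0) (XT.lf (nat_lit 336) (nat_lit 1204331743) (nat_lit 0) (nat_lit 1898386085) (nat_lit 252) (nat_lit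 2494656029) (nat_lit 39) (nat_lit 1) (nat_lit 35) (nat_lit 1) (nat_lit 38) (nat_lit 1) (nat_lit 232) (nat_lit 263) (nat_lit 225)) (XT.lf (nat_lit 84) (nat_lit 500218881) (nat_lit 0) (nat_lit 723269706) (nat_lit 336) (nat_lit 4272017261) (nat_lit 32) (nat_lit 1) (nat_lit 31) (nat_lit 1) (nat_lit 35) (nat_lit 1) (nat_lit 233) (nat_lit 263) (nat_lit 224))))))))
noncomputable def ec28 : XT := (XT.nd (nat_lit 2068) (nat_lit 0) (nat_lit 0) (XT.nd (nat_lit 1034) (nat_lit 336) (nat_lit 0) (XT.nd (nat_lit 470) (nat_lit 1344) (nat_lit 0) (XT.nd (nat_lit 188) (nat_lit 672) (nat_lit 0) (XT.nd (nat_lit 94) (nat_lit 0) (nat_lit 0) (XT.lf (nat_lit 336) (nat_lit 2788954789) (nat_lit 0) (nat_lit 569405087) (nat_lit 252) (nat_lit 2037111037) (nat_lit 32) (nat_lit 1) (nat_lit 28) (nat_lit 1) (nat_lit 31) (nat_lit 1) (nat_lit 234) (nat_lit 263) (nat_lit 223)) (XT.lf (nat_lit 84) (nat_lit 809428381) (nat_lit 0)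 (nat_lit 4455696705) (nat_lit 336) (nat_lit 33128020) (nat_lit 29) (nat_lit 1) (nat_lit 28) (nat_lit 1) (nat_lit 32) (nat_lit 1) (nat_lit 235) (nat_lit 263) (nat_lit 222))) (XT.nd (nat_lit 94) (nat_lit 420) (nat_lit 0) (XT.lf (nat_lit 84) (nat_lit 3539952955) (nat_lit 0) (nat_lit 1062104744) (nat_lit 252) (nat_lit 600627047) (nat_lit 26) (nat_lit 1) (nat_lit 25) (nat_lit 1) (nat_lit 28) (nat_lit 1) (nat_lit 236) (nat_lit 263) (nat_lit 221)) (XT.nd (nat_lit 94) (nat_lit 168) (nat_lit 0) (XT.lf (nat_lit 84) (nat_lit 1059807006) (nat_lit 0) (nat_lit 2914743830) (nat_lit 336) (nat_lit 1134813020) (nat_lit 23) (nat_lit 1) (nat_lit 22) (nat_lit 1) (nat_lit 26) (nat_lit 1) (nat_lit 237) (nat_lit 263) (nat_lit 220)) (XT.lf (nat_lit 252) (nat_lit 277212143) (nat_lit 0) (nat_lit 3383883425) (nat_lit 168) (nat_lit 1357223188) (nat_lit 23) (nat_lit 1) (nat_lit 20) (nat_lit 1) (nat_lit 22) (nat_lit 1)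 (nat_lit 238) (nat_lit 263) (nat_lit 219))))) (XT.nd (nat_lit 282) (nat_lit 588) (nat_lit 0) (XT.nd (nat_lit 94) (nat_lit 420) (nat_lit 0) (XT.lf (nat_lit 84) (nat_lit 1241476425) (nat_lit 0) (nat_lit 1571898157) (nat_lit 336) (nat_lit 2115596063) (nat_lit 17) (nat_lit 1) (nat_lit 16) (nat_lit 1) (nat_lit 20) (nat_lit 1) (nat_lit 239) (nat_lit 263) (nat_lit 218)) (XT.nd (nat_lit 94) (nat_lit 252) (nat_lit 0) (XT.lf (nat_lit 252) (nat_lit 1457068679) (nat_lit 0) (nat_lit 2276306709) (nat_lit 168) (nat_lit 1108378793) (nat_lit 17) (nat_lit 1) (nat_lit 14) (nat_lit 1) (nat_lit 16) (nat_lit 1) (nat_lit 240) (nat_lit 263) (nat_lit 217)) (XT.lf (nat_lit 84) (nat_lit 1364943401) (nat_lit 0) (nat_lit 403143540) (nat_lit 252) (nat_lit 2988412813) (nat_lit 12) (nat_lit 1) (nat_lit 11) (nat_lit 1) (nat_lit 14) (nat_lit 1) (nat_lit 241) (nat_lit 263) (nat_lit 216)))) (XT.nd (nat_lit 94) (nat_lit 420)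 (nat_lit 0) (XT.lf (nat_lit 252) (nat_lit 2475368245) (nat_lit 0) (nat_lit 1279074846) (nat_lit 168) (nat_lit 918424174) (nat_lit 12) (nat_lit 1) (nat_lit 9) (nat_lit 1) (nat_lit 11) (nat_lit 1) (nat_lit 242) (nat_lit 263) (nat_lit 215)) (XT.nd (nat_lit 94) (nat_lit 252) (nat_lit 0) (XT.lf (nat_lit 252) (nat_lit 626816366) (nat_lit 0) (nat_lit 819494468) (nat_lit 168) (nat_lit 3144877729) (nat_lit 10) (nat_lit 1) (nat_lit 7) (nat_lit 1) (nat_lit 9) (nat_lit 1) (nat_lit 243) (nat_lit 263) (nat_lit 214)) (XT.lf (nat_lit 252) (nat_lit 3351896327) (nat_lit 0) (nat_lit 380859628) (nat_lit 168) (nat_lit 778407029) (nat_lit 7) (nat_lit 1) (nat_lit 4) (nat_lit 1) (nat_lit 6) (nat_lit 1) (nat_lit 244) (nat_lit 263) (nat_lit 213)))))) (XT.nd (nat_lit 470) (nat_lit 0) (nat_lit 0) (XT.nd (nat_lit 188) (nat_lit 84) (nat_lit 0) (XT.nd (nat_lit 94) (nat_lit 252) (nat_lit 0) (XT.lf (nat_lit 84) (nat_lit 1489997474)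 (nat_lit 0) (nat_lit 2904625566) (nat_lit 252) (nat_lit 38067090) (nat_lit 5) (nat_lit 1) (nat_lit 4) (nat_lit 1) (nat_lit 7) (nat_lit 1) (nat_lit 245) (nat_lit 263) (nat_lit 212)) (XT.lf (nat_lit 84) (nat_lit 3680407104) (nat_lit 0) (nat_lit 256947062) (nat_lit 252) (nat_lit 418671627) (nat_lit 2) (nat_lit 1) (nat_lit 1) (nat_lit 1) (nat_lit 4) (nat_lit 1) (nat_lit 246) (nat_lit 263) (nat_lit 211))) (XT.nd (nat_lit 94) (nat_lit 0) (nat_lit 0) (XT.lf (nat_lit 0) (nat_lit 3546463163) (nat_lit 0) (nat_lit 0) (nat_lit 0) (nat_lit 0) (nat_lit 0) (nat_lit 0) (nat_lit 1) (nat_lit 0) (nat_lit 1) (nat_lit 0) (nat_lit 247) (nat_lit 263) (nat_lit 210)) (XT.nd (nat_lit 94) (nat_lit 0) (nat_lit 0) (XT.lf (nat_lit 0) (nat_lit 3534632704) (nat_lit 0) (nat_lit 0) (nat_lit 0) (nat_lit 0) (nat_lit 0) (nat_lit 0) (nat_lit 1) (nat_lit 0) (nat_lit 1) (nat_lit 0) (nat_lit 248) (nat_lit 263) (nat_lit 209)) (XT.lf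 (nat_lit 0) (nat_lit 3523365600) (nat_lit 0) (nat_lit 0) (nat_lit 0) (nat_lit 0) (nat_lit 0) (nat_lit 0) (nat_lit 1) (nat_lit 0) (nat_lit 1) (nat_lit 0) (nat_lit 249) (nat_lit 263) (nat_lit 208))))) (XT.nd (nat_lit 282) (nat_lit 0) (nat_lit 0) (XT.nd (nat_lit 94) (nat_lit 0) (nat_lit 0) (XT.lf (nat_lit 0) (nat_lit 3512635025) (nat_lit 0) (nat_lit 0) (nat_lit 0) (nat_lit 0) (nat_lit 0) (nat_lit 0) (nat_lit 1) (nat_lit 0) (nat_lit 1) (nat_lit 0) (nat_lit 250) (nat_lit 263) (nat_lit 207)) (XT.nd (nat_lit 94) (nat_lit 0) (nat_lit 0) (XT.lf (nat_lit 0) (nat_lit 3502415429) (nat_lit 0) (nat_lit 0) (nat_lit 0) (nat_lit 0) (nat_lit 0) (nat_lit 0) (nat_lit 1) (nat_lit 0) (nat_lit 1) (nat_lit 0) (nat_lit 251) (nat_lit 263) (nat_lit 206)) (XT.lf (nat_lit 0) (nat_lit 3492682481) (nat_lit 0) (nat_lit 0) (nat_lit 0) (nat_lit 0) (nat_lit 0) (nat_lit 0) (nat_lit 1) (nat_lit 0) (nat_lit 1) (nat_lit 0) (nat_lit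 252) (nat_lit 263) (nat_lit 205)))) (XT.nd (nat_lit 94) (nat_lit 0) (nat_lit 0) (XT.lf (nat_lit 0) (nat_lit 3483413007) (nat_lit 0) (nat_lit 0) (nat_lit 0) (nat_lit 0) (nat_lit 0) (nat_lit 0) (nat_lit 1) (nat_lit 0) (nat_lit 1) (nat_lit 0) (nat_lit 253) (nat_lit 263) (nat_lit 204)) (XT.nd (nat_lit 94) (nat_lit 0) (nat_lit 0) (XT.lf (nat_lit 0) (nat_lit 3474584936) (nat_lit 0) (nat_lit 0) (nat_lit 0) (nat_lit 0) (nat_lit 0) (nat_lit 0) (nat_lit 1) (nat_lit 0) (nat_lit 1) (nat_lit 0) (nat_lit 254) (nat_lit 263) (nat_lit 203)) (XT.lf (nat_lit 0) (nat_lit 3466177250) (nat_lit 0) (nat_lit 0) (nat_lit 0) (nat_lit 0) (nat_lit 0) (nat_lit 0) (nat_lit 1) (nat_lit 0) (nat_lit 1) (nat_lit 0) (nat_lit 255) (nat_lit 263) (nat_lit 202))))))) (XT.nd (nat_lit 40420) (nat_lit 0) (nat_lit 7392) (XT.nd (nat_lit 39856) (nat_lit 0) (nat_lit 12012) (XT.nd (nat_lit 188) (nat_lit 0) (nat_lit 0) (XT.nd (nat_lit 94)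 (nat_lit 0) (nat_lit 0) (XT.lf (nat_lit 0) (nat_lit 3458169929) (nat_lit 0) (nat_lit 0) (nat_lit 0) (nat_lit 0) (nat_lit 0) (nat_lit 0) (nat_lit 1) (nat_lit 0) (nat_lit 1) (nat_lit 0) (nat_lit 256) (nat_lit 263) (nat_lit 201)) (XT.lf (nat_lit 0) (nat_lit 3450543910) (nat_lit 0) (nat_lit 0) (nat_lit 0) (nat_lit 0) (nat_lit 0) (nat_lit 0) (nat_lit 1) (nat_lit 0) (nat_lit 1) (nat_lit 0) (nat_lit 257) (nat_lit 263) (nat_lit 200))) (XT.nd (nat_lit 39480) (nat_lit 0) (nat_lit 13608) (XT.lf (nat_lit 0) (nat_lit 3443281034) (nat_lit 0) (nat_lit 0) (nat_lit 0) (nat_lit 0) (nat_lit 0) (nat_lit 0) (nat_lit 1) (nat_lit 0) (nat_lit 1) (nat_lit 0) (nat_lit 258) (nat_lit 263) (nat_lit 199)) (XT.nd (nat_lit 94) (nat_lit 0) (nat_lit 84) (XT.lf (nat_lit 1260) (nat_lit 4925726410) (nat_lit 84) (nat_lit 3877814330) (nat_lit 0) (nat_lit 2809692547) (nat_lit 177) (nat_lit 1) (nat_lit 163) (nat_lit 1) (nat_lit 162)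 (nat_lit 1) (nat_lit 197) (nat_lit 264) (nat_lit 259)) (XT.lf (nat_lit 1260) (nat_lit 4101127500) (nat_lit 84) (nat_lit 822631953) (nat_lit 0) (nat_lit 6422128496) (nat_lit 178) (nat_lit 1) (nat_lit 164) (nat_lit 1) (nat_lit 163) (nat_lit 1) (nat_lit 198) (nat_lit 264) (nat_lit 258))))) (XT.nd (nat_lit 282) (nat_lit 1764) (nat_lit 0) (XT.nd (nat_lit 94) (nat_lit 0) (nat_lit 0) (XT.lf (nat_lit 1260) (nat_lit 1196857664) (nat_lit 0) (nat_lit 7902587782) (nat_lit 1176) (nat_lit 1987379057) (nat_lit 179) (nat_lit 1) (nat_lit 164) (nat_lit 1) (nat_lit 178) (nat_lit 1) (nat_lit 199) (nat_lit 264) (nat_lit 257)) (XT.nd (nat_lit 94) (nat_lit 0) (nat_lit 84) (XT.lf (nat_lit 1260) (nat_lit 2168803533) (nat_lit 84) (nat_lit 6214794640) (nat_lit 0) (nat_lit 2451690412) (nat_lit 179) (nat_lit 1) (nat_lit 165) (nat_lit 1) (nat_lit 164) (nat_lit 1) (nat_lit 200) (nat_lit 264) (nat_lit 256)) (XT.lf (nat_lit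 1260) (nat_lit 1085316062) (nat_lit 84) (nat_lit 3502887434) (nat_lit 0) (nat_lit 6003590561) (nat_lit 180) (nat_lit 1) (nat_lit 166) (nat_lit 1) (nat_lit 165) (nat_lit 1) (nat_lit 201) (nat_lit 264) (nat_lit 255)))) (XT.nd (nat_lit 94) (nat_lit 672) (nat_lit 0) (XT.lf (nat_lit 84) (nat_lit 922733347) (nat_lit 0) (nat_lit 45985854) (nat_lit 1260) (nat_lit 9387759219) (nat_lit 152) (nat_lit 1) (nat_lit 151) (nat_lit 1) (nat_lit 166) (nat_lit 1) (nat_lit 202) (nat_lit 264) (nat_lit 254)) (XT.nd (nat_lit 94) (nat_lit 672) (nat_lit 0) (XT.lf (nat_lit 84) (nat_lit 7478961687) (nat_lit 0) (nat_lit 1241544166) (nat_lit 1260) (nat_lit 1406504574) (nat_lit 152) (nat_lit 1) (nat_lit 151) (nat_lit 1) (nat_lit 166) (nat_lit 1) (nat_lit 203) (nat_lit 264) (nat_lit 253)) (XT.lf (nat_lit 84) (nat_lit 3799465680) (nat_lit 0) (nat_lit 2494111019) (nat_lit 756) (nat_lit 3610904888) (nat_lit 144) (nat_lit 1)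 (nat_lit 143) (nat_lit 1) (nat_lit 152) (nat_lit 1) (nat_lit 204) (nat_lit 264) (nat_lit 252)))))) (XT.nd (nat_lit 470) (nat_lit 2352) (nat_lit 0) (XT.nd (nat_lit 188) (nat_lit 1092) (nat_lit 0) (XT.nd (nat_lit 94) (nat_lit 588) (nat_lit 0) (XT.lf (nat_lit 84) (nat_lit 247907519) (nat_lit 0) (nat_lit 3778298893) (nat_lit 672) (nat_lit 5663148599) (nat_lit 137) (nat_lit 1) (nat_lit 136) (nat_lit 1) (nat_lit 144) (nat_lit 1) (nat_lit 205) (nat_lit 264) (nat_lit 251)) (XT.lf (nat_lit 672) (nat_lit 4353433502) (nat_lit 0) (nat_lit 1873576374) (nat_lit 588) (nat_lit 3253076552) (nat_lit 137) (nat_lit 1) (nat_lit 129) (nat_lit 1) (nat_lit 136) (nat_lit 1) (nat_lit 206) (nat_lit 264) (nat_lit 250))) (XT.nd (nat_lit 94) (nat_lit 1092) (nat_lit 0) (XT.lf (nat_lit 84) (nat_lit 2642934366) (nat_lit 0) (nat_lit 6502419926) (nat_lit 672) (nat_lit 132222014) (nat_lit 130) (nat_lit 1) (nat_lit 129) (nat_lit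 1) (nat_lit 137) (nat_lit 1) (nat_lit 207) (nat_lit 264) (nat_lit 249)) (XT.nd (nat_lit 94) (nat_lit 588) (nat_lit 0) (XT.lf (nat_lit 588) (nat_lit 1154279910) (nat_lit 0) (nat_lit 7112907311) (nat_lit 504) (nat_lit 813540234) (nat_lit 130) (nat_lit 1) (nat_lit 123) (nat_lit 1) (nat_lit 129) (nat_lit 1) (nat_lit 208) (nat_lit 264) (nat_lit 248)) (XT.lf (nat_lit 84) (nat_lit 4687992355) (nat_lit 0) (nat_lit 493833719) (nat_lit 588) (nat_lit 3707310626) (nat_lit 117) (nat_lit 1) (nat_lit 116) (nat_lit 1) (nat_lit 123) (nat_lit 1) (nat_lit 209) (nat_lit 264) (nat_lit 247))))) (XT.nd (nat_lit 282) (nat_lit 924) (nat_lit 0) (XT.nd (nat_lit 94) (nat_lit 924) (nat_lit 0) (XT.lf (nat_lit 84) (nat_lit 1248714566) (nat_lit 0) (nat_lit 2120728228) (nat_lit 588) (nat_lit 5333921213) (nat_lit 111) (nat_lit 1) (nat_lit 110) (nat_lit 1) (nat_lit 117) (nat_lit 1) (nat_lit 210) (nat_lit 264) (nat_lit 246))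 (XT.nd (nat_lit 94) (nat_lit 420) (nat_lit 0) (XT.lf (nat_lit 588) (nat_lit 4748874730) (nat_lit 0) (nat_lit 1658658168) (nat_lit 504) (nat_lit 2115272467) (nat_lit 111) (nat_lit 1) (nat_lit 104) (nat_lit 1) (nat_lit 110) (nat_lit 1) (nat_lit 211) (nat_lit 264) (nat_lit 245)) (XT.lf (nat_lit 504) (nat_lit 2906922535) (nat_lit 0) (nat_lit 54779454) (nat_lit 420) (nat_lit 5385912854) (nat_lit 105) (nat_lit 1) (nat_lit 99) (nat_lit 1) (nat_lit 104) (nat_lit 1) (nat_lit 212) (nat_lit 264) (nat_lit 244)))) (XT.nd (nat_lit 94) (nat_lit 924) (nat_lit 0) (XT.lf (nat_lit 504) (nat_lit 1052577411) (nat_lit 0) (nat_lit 6772933378) (nat_lit 420) (nat_lit 351870746) (nat_lit 105) (nat_lit 1) (nat_lit 99) (nat_lit 1) (nat_lit 104) (nat_lit 1) (nat_lit 213) (nat_lit 264) (nat_lit 243)) (XT.nd (nat_lit 94) (nat_lit 420) (nat_lit 0) (XT.lf (nat_lit 84) (nat_lit 4409133884) (nat_lit 0) (nat_lit 806245471) (nat_lit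 504) (nat_lit 2795783483) (nat_lit 94) (nat_lit 1) (nat_lit 93) (nat_lit 1) (nat_lit 99) (nat_lit 1) (nat_lit 214) (nat_lit 264) (nat_lit 242)) (XT.lf (nat_lit 84) (nat_lit 1127919447) (nat_lit 0) (nat_lit 2627836473) (nat_lit 504) (nat_lit 4094121996) (nat_lit 89) (nat_lit 1) (nat_lit 88) (nat_lit 1) (nat_lit 94) (nat_lit 1) (nat_lit 215) (nat_lit 264) (nat_lit 241))))))))
noncomputable def ec29 : XT := (XT.nd (nat_lit 2068) (nat_lit 1344) (nat_lit 0) (XT.nd (nat_lit 1034) (nat_lit 2688) (nat_lit 0) (XT.nd (nat_lit 470) (nat_lit 1764) (nat_lit 0) (XT.nd (nat_lit 188) (nat_lit 840) (nat_lit 0) (XT.nd (nat_lit 94) (nat_lit 336) (nat_lit 0) (XT.lf (nat_lit 504) (nat_lit 3234832175) (nat_lit 0) (nat_lit 2377209094) (nat_lit 420) (nat_lit 2080892383) (nat_lit 89) (nat_lit 1) (nat_lit 83) (nat_lit 1) (nat_lit 88) (nat_lit 1) (nat_lit 216) (nat_lit 264) (nat_lit 240)) (XT.lf (nat_lit 420) (nat_lit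 1256201363) (nat_lit 0) (nat_lit 1087007440) (nat_lit 336) (nat_lit 5197344199) (nat_lit 84) (nat_lit 1) (nat_lit 79) (nat_lit 1) (nat_lit 83) (nat_lit 1) (nat_lit 217) (nat_lit 264) (nat_lit 239))) (XT.nd (nat_lit 94) (nat_lit 756) (nat_lit 0) (XT.lf (nat_lit 84) (nat_lit 6577084652) (nat_lit 0) (nat_lit 694428766) (nat_lit 420) (nat_lit 120853930) (nat_lit 79) (nat_lit 1) (nat_lit 78) (nat_lit 1) (nat_lit 83) (nat_lit 1) (nat_lit 218) (nat_lit 264) (nat_lit 238)) (XT.nd (nat_lit 94) (nat_lit 336) (nat_lit 0) (XT.lf (nat_lit 84) (nat_lit 3363454888) (nat_lit 0) (nat_lit 2630619303) (nat_lit 504) (nat_lit 1253002289) (nat_lit 74) (nat_lit 1) (nat_lit 73) (nat_lit 1) (nat_lit 79) (nat_lit 1) (nat_lit 219) (nat_lit 264) (nat_lit 237)) (XT.lf (nat_lit 84) (nat_lit 267853158) (nat_lit 0) (nat_lit 4541261854) (nat_lit 420) (nat_lit 2297256408) (nat_lit 70) (nat_lit 1) (nat_lit 69) (nat_lit 1) (nat_lit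 74) (nat_lit 1) (nat_lit 220) (nat_lit 264) (nat_lit 236))))) (XT.nd (nat_lit 282) (nat_lit 672) (nat_lit 0) (XT.nd (nat_lit 94) (nat_lit 756) (nat_lit 0) (XT.lf (nat_lit 420) (nat_lit 512104821) (nat_lit 0) (nat_lit 3680438454) (nat_lit 336) (nat_lit 2776463991) (nat_lit 70) (nat_lit 1) (nat_lit 65) (nat_lit 1) (nat_lit 69) (nat_lit 1) (nat_lit 221) (nat_lit 264) (nat_lit 235)) (XT.nd (nat_lit 94) (nat_lit 336) (nat_lit 0) (XT.lf (nat_lit 84) (nat_lit 1138826014) (nat_lit 0) (nat_lit 1477935839) (nat_lit 420) (nat_lit 4218496416) (nat_lit 61) (nat_lit 1) (nat_lit 60) (nat_lit 1) (nat_lit 65) (nat_lit 1) (nat_lit 222) (nat_lit 264) (nat_lit 234)) (XT.lf (nat_lit 420) (nat_lit 3259113327) (nat_lit 0) (nat_lit 1608073737) (nat_lit 336) (nat_lit 1837578569) (nat_lit 61) (nat_lit 1) (nat_lit 56) (nat_lit 1) (nat_lit 60) (nat_lit 1) (nat_lit 223) (nat_lit 264) (nat_lit 233)))) (XT.nd (nat_lit 94)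 (nat_lit 420) (nat_lit 0) (XT.lf (nat_lit 336) (nat_lit 1183999343) (nat_lit 0) (nat_lit 665604307) (nat_lit 252) (nat_lit 4728285517) (nat_lit 57) (nat_lit 1) (nat_lit 53) (nat_lit 1) (nat_lit 56) (nat_lit 1) (nat_lit 224) (nat_lit 264) (nat_lit 232)) (XT.nd (nat_lit 94) (nat_lit 336) (nat_lit 0) (XT.lf (nat_lit 84) (nat_lit 5386328856) (nat_lit 0) (nat_lit 849811310) (nat_lit 336) (nat_lit 217963619) (nat_lit 53) (nat_lit 1) (nat_lit 52) (nat_lit 1) (nat_lit 56) (nat_lit 1) (nat_lit 225) (nat_lit 264) (nat_lit 231)) (XT.lf (nat_lit 84) (nat_lit 2436180687) (nat_lit 0) (nat_lit 2848179380) (nat_lit 420) (nat_lit 1048369063) (nat_lit 49) (nat_lit 1) (nat_lit 48) (nat_lit 1) (nat_lit 53) (nat_lit 1) (nat_lit 226) (nat_lit 264) (nat_lit 230)))))) (XT.nd (nat_lit 470) (nat_lit 1260) (nat_lit 0) (XT.nd (nat_lit 188) (nat_lit 840) (nat_lit 0) (XT.nd (nat_lit 94) (nat_lit 336) (nat_lit 0) (XT.lf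 (nat_lit 336) (nat_lit 1400790850) (nat_lit 0) (nat_lit 4400861253) (nat_lit 252) (nat_lit 413285527) (nat_lit 49) (nat_lit 1) (nat_lit 45) (nat_lit 1) (nat_lit 48) (nat_lit 1) (nat_lit 227) (nat_lit 264) (nat_lit 229)) (XT.lf (nat_lit 84) (nat_lit 2896902845) (nat_lit 0) (nat_lit 655003049) (nat_lit 336) (nat_lit 2547664298) (nat_lit 42) (nat_lit 1) (nat_lit 41) (nat_lit 1) (nat_lit 45) (nat_lit 1) (nat_lit 228) (nat_lit 264) (nat_lit 228))) (XT.nd (nat_lit 94) (nat_lit 588) (nat_lit 0) (XT.lf (nat_lit 84) (nat_lit 116096118) (nat_lit 0) (nat_lit 2638998636) (nat_lit 336) (nat_lit 3232109312) (nat_lit 39) (nat_lit 1) (nat_lit 38) (nat_lit 1) (nat_lit 42) (nat_lit 1) (nat_lit 229) (nat_lit 264) (nat_lit 227)) (XT.nd (nat_lit 94) (nat_lit 336) (nat_lit 0) (XT.lf (nat_lit 336) (nat_lit 1264548330) (nat_lit 0) (nat_lit 1993305390) (nat_lit 252) (nat_lit 2619388831) (nat_lit 39) (nat_lit 1) (nat_lit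 35) (nat_lit 1) (nat_lit 38) (nat_lit 1) (nat_lit 230) (nat_lit 264) (nat_lit 226)) (XT.lf (nat_lit 84) (nat_lit 525229825) (nat_lit 0) (nat_lit 759433192) (nat_lit 336) (nat_lit 4485618124) (nat_lit 32) (nat_lit 1) (nat_lit 31) (nat_lit 1) (nat_lit 35) (nat_lit 1) (nat_lit 231) (nat_lit 264) (nat_lit 225))))) (XT.nd (nat_lit 282) (nat_lit 756) (nat_lit 0) (XT.nd (nat_lit 94) (nat_lit 252) (nat_lit 0) (XT.lf (nat_lit 336) (nat_lit 2928402528) (nat_lit 0) (nat_lit 597875341) (nat_lit 252) (nat_lit 2138966589) (nat_lit 32) (nat_lit 1) (nat_lit 28) (nat_lit 1) (nat_lit 31) (nat_lit 1) (nat_lit 232) (nat_lit 264) (nat_lit 224)) (XT.nd (nat_lit 94) (nat_lit 252) (nat_lit 0) (XT.lf (nat_lit 84) (nat_lit 849899800) (nat_lit 0) (nat_lit 4678481540) (nat_lit 336) (nat_lit 34784421) (nat_lit 29) (nat_lit 1) (nat_lit 28) (nat_lit 1) (nat_lit 32) (nat_lit 1) (nat_lit 233) (nat_lit 264) (nat_lit 223))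 (XT.lf (nat_lit 84) (nat_lit 3716950603) (nat_lit 0) (nat_lit 1115209982) (nat_lit 252) (nat_lit 630658400) (nat_lit 26) (nat_lit 1) (nat_lit 25) (nat_lit 1) (nat_lit 28) (nat_lit 1) (nat_lit 234) (nat_lit 264) (nat_lit 222)))) (XT.nd (nat_lit 94) (nat_lit 504) (nat_lit 0) (XT.lf (nat_lit 84) (nat_lit 1112797356) (nat_lit 0) (nat_lit 3060481022) (nat_lit 336) (nat_lit 1191553671) (nat_lit 23) (nat_lit 1) (nat_lit 22) (nat_lit 1) (nat_lit 26) (nat_lit 1) (nat_lit 235) (nat_lit 264) (nat_lit 221)) (XT.nd (nat_lit 94) (nat_lit 336) (nat_lit 0) (XT.lf (nat_lit 252) (nat_lit 291072751) (nat_lit 0) (nat_lit 3553077596) (nat_lit 168) (nat_lit 1425084348) (nat_lit 23) (nat_lit 1) (nat_lit 20) (nat_lit 1) (nat_lit 22) (nat_lit 1) (nat_lit 236) (nat_lit 264) (nat_lit 220)) (XT.lf (nat_lit 84) (nat_lit 1303550246) (nat_lit 0) (nat_lit 1650493065) (nat_lit 336) (nat_lit 2221375866) (nat_lit 17) (nat_lit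 1) (nat_lit 16) (nat_lit 1) (nat_lit 20) (nat_lit 1) (nat_lit 237) (nat_lit 264) (nat_lit 219))))))) (XT.nd (nat_lit 1034) (nat_lit 0) (nat_lit 0) (XT.nd (nat_lit 470) (nat_lit 336) (nat_lit 0) (XT.nd (nat_lit 188) (nat_lit 588) (nat_lit 0) (XT.nd (nat_lit 94) (nat_lit 252) (nat_lit 0) (XT.lf (nat_lit 252) (nat_lit 1529922113) (nat_lit 0) (nat_lit 2390122045) (nat_lit 168) (nat_lit 1163797733) (nat_lit 17) (nat_lit 1) (nat_lit 14) (nat_lit 1) (nat_lit 16) (nat_lit 1) (nat_lit 238) (nat_lit 264) (nat_lit 218)) (XT.lf (nat_lit 84) (nat_lit 1433190571) (nat_lit 0) (nat_lit 423300717) (nat_lit 252) (nat_lit 3137833454) (nat_lit 12) (nat_lit 1) (nat_lit 11) (nat_lit 1) (nat_lit 14) (nat_lit 1) (nat_lit 239) (nat_lit 264) (nat_lit 217))) (XT.nd (nat_lit 94) (nat_lit 420) (nat_lit 0) (XT.lf (nat_lit 252) (nat_lit 2599136658) (nat_lit 0) (nat_lit 1343028588) (nat_lit 168) (nat_lit 964345383) (nat_lit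 12) (nat_lit 1) (nat_lit 9) (nat_lit 1) (nat_lit 11) (nat_lit 1) (nat_lit 240) (nat_lit 264) (nat_lit 216)) (XT.nd (nat_lit 94) (nat_lit 252) (nat_lit 0) (XT.lf (nat_lit 252) (nat_lit 658157185) (nat_lit 0) (nat_lit 860469191) (nat_lit 168) (nat_lit 3302121616) (nat_lit 10) (nat_lit 1) (nat_lit 7) (nat_lit 1) (nat_lit 9) (nat_lit 1) (nat_lit 241) (nat_lit 264) (nat_lit 215)) (XT.lf (nat_lit 252) (nat_lit 3519491143) (nat_lit 0) (nat_lit 399902609) (nat_lit 168) (nat_lit 817327381) (nat_lit 7) (nat_lit 1) (nat_lit 4) (nat_lit 1) (nat_lit 6) (nat_lit 1) (nat_lit 242) (nat_lit 264) (nat_lit 214))))) (XT.nd (nat_lit 282) (nat_lit 0) (nat_lit 0) (XT.nd (nat_lit 94) (nat_lit 336) (nat_lit 0) (XT.lf (nat_lit 84) (nat_lit 1564497347) (nat_lit 0) (nat_lit 3049856844) (nat_lit 252) (nat_lit 39970444) (nat_lit 5) (nat_lit 1) (nat_lit 4) (nat_lit 1) (nat_lit 7) (nat_lit 1) (nat_lit 243) (nat_lit 264)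 (nat_lit 213)) (XT.nd (nat_lit 94) (nat_lit 84) (nat_lit 0) (XT.lf (nat_lit 84) (nat_lit 3864427459) (nat_lit 0) (nat_lit 269794415) (nat_lit 252) (nat_lit 439605208) (nat_lit 2) (nat_lit 1) (nat_lit 1) (nat_lit 1) (nat_lit 4) (nat_lit 1) (nat_lit 244) (nat_lit 264) (nat_lit 212)) (XT.lf (nat_lit 0) (nat_lit 3723786322) (nat_lit 0) (nat_lit 0) (nat_lit 0) (nat_lit 0) (nat_lit 0) (nat_lit 0) (nat_lit 1) (nat_lit 0) (nat_lit 1) (nat_lit 0) (nat_lit 245) (nat_lit 264) (nat_lit 211)))) (XT.nd (nat_lit 94) (nat_lit 0) (nat_lit 0) (XT.lf (nat_lit 0) (nat_lit 3711364339) (nat_lit 0) (nat_lit 0) (nat_lit 0) (nat_lit 0) (nat_lit 0) (nat_lit 0) (nat_lit 1) (nat_lit 0) (nat_lit 1) (nat_lit 0) (nat_lit 246) (nat_lit 264) (nat_lit 210)) (XT.nd (nat_lit 94) (nat_lit 0) (nat_lit 0) (XT.lf (nat_lit 0) (nat_lit 3699533880) (nat_lit 0) (nat_lit 0) (nat_lit 0) (nat_lit 0) (nat_lit 0) (nat_lit 0) (nat_lit 1)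 (nat_lit 0) (nat_lit 1) (nat_lit 0) (nat_lit 247) (nat_lit 264) (nat_lit 209)) (XT.lf (nat_lit 0) (nat_lit 3688266776) (nat_lit 0) (nat_lit 0) (nat_lit 0) (nat_lit 0) (nat_lit 0) (nat_lit 0) (nat_lit 1) (nat_lit 0) (nat_lit 1) (nat_lit 0) (nat_lit 248) (nat_lit 264) (nat_lit 208)))))) (XT.nd (nat_lit 470) (nat_lit 0) (nat_lit 0) (XT.nd (nat_lit 188) (nat_lit 0) (nat_lit 0) (XT.nd (nat_lit 94) (nat_lit 0) (nat_lit 0) (XT.lf (nat_lit 0) (nat_lit 3677536201) (nat_lit 0) (nat_lit 0) (nat_lit 0) (nat_lit 0) (nat_lit 0) (nat_lit 0) (nat_lit 1) (nat_lit 0) (nat_lit 1) (nat_lit 0) (nat_lit 249) (nat_lit 264) (nat_lit 207)) (XT.lf (nat_lit 0) (nat_lit 3667316605) (nat_lit 0) (nat_lit 0) (nat_lit 0) (nat_lit 0) (nat_lit 0) (nat_lit 0) (nat_lit 1) (nat_lit 0) (nat_lit 1) (nat_lit 0) (nat_lit 250) (nat_lit 264) (nat_lit 206))) (XT.nd (nat_lit 94) (nat_lit 0) (nat_lit 0) (XT.lf (nat_lit 0) (nat_lit 3657583657)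 (nat_lit 0) (nat_lit 0) (nat_lit 0) (nat_lit 0) (nat_lit 0) (nat_lit 0) (nat_lit 1) (nat_lit 0) (nat_lit 1) (nat_lit 0) (nat_lit 251) (nat_lit 264) (nat_lit 205)) (XT.nd (nat_lit 94) (nat_lit 0) (nat_lit 0) (XT.lf (nat_lit 0) (nat_lit 3648314183) (nat_lit 0) (nat_lit 0) (nat_lit 0) (nat_lit 0) (nat_lit 0) (nat_lit 0) (nat_lit 1) (nat_lit 0) (nat_lit 1) (nat_lit 0) (nat_lit 252) (nat_lit 264) (nat_lit 204)) (XT.lf (nat_lit 0) (nat_lit 3639486112) (nat_lit 0) (nat_lit 0) (nat_lit 0) (nat_lit 0) (nat_lit 0) (nat_lit 0) (nat_lit 1) (nat_lit 0) (nat_lit 1) (nat_lit 0) (nat_lit 253) (nat_lit 264) (nat_lit 203))))) (XT.nd (nat_lit 40138) (nat_lit 0) (nat_lit 12012) (XT.nd (nat_lit 94) (nat_lit 0) (nat_lit 0) (XT.lf (nat_lit 0) (nat_lit 3631078426) (nat_lit 0) (nat_lit 0) (nat_lit 0) (nat_lit 0) (nat_lit 0) (nat_lit 0) (nat_lit 1) (nat_lit 0) (nat_lit 1) (nat_lit 0) (nat_lit 254) (nat_lit 264) (nat_lit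 202)) (XT.nd (nat_lit 39950) (nat_lit 0) (nat_lit 13860) (XT.lf (nat_lit 0) (nat_lit 3623071105) (nat_lit 0) (nat_lit 0) (nat_lit 0) (nat_lit 0) (nat_lit 0) (nat_lit 0) (nat_lit 1) (nat_lit 0) (nat_lit 1) (nat_lit 0) (nat_lit 255) (nat_lit 264) (nat_lit 201)) (XT.lf (nat_lit 1260) (nat_lit 1139581865) (nat_lit 84) (nat_lit 3678031806) (nat_lit 0) (nat_lit 6303770089) (nat_lit 180) (nat_lit 1) (nat_lit 166) (nat_lit 1) (nat_lit 165) (nat_lit 1) (nat_lit 199) (nat_lit 265) (nat_lit 256)))) (XT.nd (nat_lit 94) (nat_lit 672) (nat_lit 0) (XT.lf (nat_lit 84) (nat_lit 968870014) (nat_lit 0) (nat_lit 48285147) (nat_lit 1260) (nat_lit 9857147180) (nat_lit 152) (nat_lit 1) (nat_lit 151) (nat_lit 1) (nat_lit 166) (nat_lit 1) (nat_lit 200) (nat_lit 265) (nat_lit 255)) (XT.nd (nat_lit 94) (nat_lit 672) (nat_lit 0) (XT.lf (nat_lit 84) (nat_lit 7852909772) (nat_lit 0) (nat_lit 1303621375) (nat_lit 1260)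 (nat_lit 1476829803) (nat_lit 152) (nat_lit 1) (nat_lit 151) (nat_lit 1) (nat_lit 166) (nat_lit 1) (nat_lit 201) (nat_lit 265) (nat_lit 254)) (XT.lf (nat_lit 84) (nat_lit 3989438964) (nat_lit 0) (nat_lit 2618816570) (nat_lit 756) (nat_lit 3791450132) (nat_lit 144) (nat_lit 1) (nat_lit 143) (nat_lit 1) (nat_lit 152) (nat_lit 1) (nat_lit 202) (nat_lit 265) (nat_lit 253))))))))
noncomputable def ec30 : XT := (XT.nd (nat_lit 2068) (nat_lit 4032) (nat_lit 0) (XT.nd (nat_lit 1034) (nat_lit 3360) (nat_lit 0) (XT.nd (nat_lit 470) (nat_lit 2352) (nat_lit 0) (XT.nd (nat_lit 188) (nat_lit 1092) (nat_lit 0) (XT.nd (nat_lit 94) (nat_lit 588) (nat_lit 0) (XT.lf (nat_lit 84) (nat_lit 260302895) (nat_lit 0) (nat_lit 3967213837) (nat_lit 672) (nat_lit 5946306029) (nat_lit 137) (nat_lit 1) (nat_lit 136) (nat_lit 1) (nat_lit 144) (nat_lit 1) (nat_lit 203) (nat_lit 265) (nat_lit 252)) (XT.lf (nat_lit 672) (nat_lit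 4571105177) (nat_lit 0) (nat_lit 1967255193) (nat_lit 588) (nat_lit 3415730379) (nat_lit 137) (nat_lit 1) (nat_lit 129) (nat_lit 1) (nat_lit 136) (nat_lit 1) (nat_lit 204) (nat_lit 265) (nat_lit 251))) (XT.nd (nat_lit 94) (nat_lit 1092) (nat_lit 0) (XT.lf (nat_lit 84) (nat_lit 2775081084) (nat_lit 0) (nat_lit 6827540923) (nat_lit 672) (nat_lit 138833114) (nat_lit 130) (nat_lit 1) (nat_lit 129) (nat_lit 1) (nat_lit 137) (nat_lit 1) (nat_lit 205) (nat_lit 265) (nat_lit 250)) (XT.nd (nat_lit 94) (nat_lit 588) (nat_lit 0) (XT.lf (nat_lit 588) (nat_lit 1211993906) (nat_lit 0) (nat_lit 7468552677) (nat_lit 504) (nat_lit 854217246) (nat_lit 130) (nat_lit 1) (nat_lit 123) (nat_lit 1) (nat_lit 129) (nat_lit 1) (nat_lit 206) (nat_lit 265) (nat_lit 249)) (XT.lf (nat_lit 84) (nat_lit 4922391973) (nat_lit 0) (nat_lit 518525405) (nat_lit 588) (nat_lit 3892676157) (nat_lit 117) (nat_lit 1) (nat_lit 116)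 (nat_lit 1) (nat_lit 123) (nat_lit 1) (nat_lit 207) (nat_lit 265) (nat_lit 248))))) (XT.nd (nat_lit 282) (nat_lit 924) (nat_lit 0) (XT.nd (nat_lit 94) (nat_lit 924) (nat_lit 0) (XT.lf (nat_lit 84) (nat_lit 1311150295) (nat_lit 0) (nat_lit 2226764640) (nat_lit 588) (nat_lit 5600617274) (nat_lit 111) (nat_lit 1) (nat_lit 110) (nat_lit 1) (nat_lit 117) (nat_lit 1) (nat_lit 208) (nat_lit 265) (nat_lit 247)) (XT.nd (nat_lit 94) (nat_lit 420) (nat_lit 0) (XT.lf (nat_lit 588) (nat_lit 4986318467) (nat_lit 0) (nat_lit 1741591077) (nat_lit 504) (nat_lit 2221036091) (nat_lit 111) (nat_lit 1) (nat_lit 104) (nat_lit 1) (nat_lit 110) (nat_lit 1) (nat_lit 209) (nat_lit 265) (nat_lit 246)) (XT.lf (nat_lit 504) (nat_lit 3052268662) (nat_lit 0) (nat_lit 57518427) (nat_lit 420) (nat_lit 5655208496) (nat_lit 105) (nat_lit 1) (nat_lit 99) (nat_lit 1) (nat_lit 104) (nat_lit 1) (nat_lit 210) (nat_lit 265) (nat_lit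 245)))) (XT.nd (nat_lit 94) (nat_lit 924) (nat_lit 0) (XT.lf (nat_lit 504) (nat_lit 1105206282) (nat_lit 0) (nat_lit 7111580047) (nat_lit 420) (nat_lit 369464283) (nat_lit 105) (nat_lit 1) (nat_lit 99) (nat_lit 1) (nat_lit 104) (nat_lit 1) (nat_lit 211) (nat_lit 265) (nat_lit 244)) (XT.nd (nat_lit 94) (nat_lit 420) (nat_lit 0) (XT.lf (nat_lit 84) (nat_lit 4629590578) (nat_lit 0) (nat_lit 846557745) (nat_lit 504) (nat_lit 2935572657) (nat_lit 94) (nat_lit 1) (nat_lit 93) (nat_lit 1) (nat_lit 99) (nat_lit 1) (nat_lit 212) (nat_lit 265) (nat_lit 243)) (XT.lf (nat_lit 84) (nat_lit 1184315419) (nat_lit 0) (nat_lit 2759228296) (nat_lit 504) (nat_lit 4298828096) (nat_lit 89) (nat_lit 1) (nat_lit 88) (nat_lit 1) (nat_lit 94) (nat_lit 1) (nat_lit 213) (nat_lit 265) (nat_lit 242)))))) (XT.nd (nat_lit 470) (nat_lit 1764) (nat_lit 0) (XT.nd (nat_lit 188) (nat_lit 840) (nat_lit 0) (XT.nd (nat_lit 94) (nat_lit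 336) (nat_lit 0) (XT.lf (nat_lit 504) (nat_lit 3396573784) (nat_lit 0) (nat_lit 2496069548) (nat_lit 420) (nat_lit 2184937002) (nat_lit 89) (nat_lit 1) (nat_lit 83) (nat_lit 1) (nat_lit 88) (nat_lit 1) (nat_lit 214) (nat_lit 265) (nat_lit 241)) (XT.lf (nat_lit 420) (nat_lit 1319011432) (nat_lit 0) (nat_lit 1141357812) (nat_lit 336) (nat_lit 5457211409) (nat_lit 84) (nat_lit 1) (nat_lit 79) (nat_lit 1) (nat_lit 83) (nat_lit 1) (nat_lit 215) (nat_lit 265) (nat_lit 240))) (XT.nd (nat_lit 94) (nat_lit 756) (nat_lit 0) (XT.lf (nat_lit 84) (nat_lit 6905938884) (nat_lit 0) (nat_lit 729150204) (nat_lit 420) (nat_lit 126896626) (nat_lit 79) (nat_lit 1) (nat_lit 78) (nat_lit 1) (nat_lit 83) (nat_lit 1) (nat_lit 216) (nat_lit 265) (nat_lit 239)) (XT.nd (nat_lit 94) (nat_lit 336) (nat_lit 0) (XT.lf (nat_lit 84) (nat_lit 3531627633) (nat_lit 0) (nat_lit 2762150268) (nat_lit 504) (nat_lit 1315652403) (nat_lit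 74) (nat_lit 1) (nat_lit 73) (nat_lit 1) (nat_lit 79) (nat_lit 1) (nat_lit 217) (nat_lit 265) (nat_lit 238)) (XT.lf (nat_lit 84) (nat_lit 281245816) (nat_lit 0) (nat_lit 4768324947) (nat_lit 420) (nat_lit 2412119229) (nat_lit 70) (nat_lit 1) (nat_lit 69) (nat_lit 1) (nat_lit 74) (nat_lit 1) (nat_lit 218) (nat_lit 265) (nat_lit 237))))) (XT.nd (nat_lit 282) (nat_lit 672) (nat_lit 0) (XT.nd (nat_lit 94) (nat_lit 756) (nat_lit 0) (XT.lf (nat_lit 420) (nat_lit 537710062) (nat_lit 0) (nat_lit 3864460377) (nat_lit 336) (nat_lit 2915287191) (nat_lit 70) (nat_lit 1) (nat_lit 65) (nat_lit 1) (nat_lit 69) (nat_lit 1) (nat_lit 219) (nat_lit 265) (nat_lit 236)) (XT.nd (nat_lit 94) (nat_lit 336) (nat_lit 0) (XT.lf (nat_lit 84) (nat_lit 1195767315) (nat_lit 0) (nat_lit 1551832631) (nat_lit 420) (nat_lit 4429421237) (nat_lit 61) (nat_lit 1) (nat_lit 60) (nat_lit 1) (nat_lit 65) (nat_lit 1) (nat_lit 220)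 (nat_lit 265) (nat_lit 235)) (XT.lf (nat_lit 420) (nat_lit 3422068993) (nat_lit 0) (nat_lit 1688477424) (nat_lit 336) (nat_lit 1929457497) (nat_lit 61) (nat_lit 1) (nat_lit 56) (nat_lit 1) (nat_lit 60) (nat_lit 1) (nat_lit 221) (nat_lit 265) (nat_lit 234)))) (XT.nd (nat_lit 94) (nat_lit 420) (nat_lit 0) (XT.lf (nat_lit 336) (nat_lit 1243199310) (nat_lit 0) (nat_lit 698884522) (nat_lit 252) (nat_lit 4964699792) (nat_lit 57) (nat_lit 1) (nat_lit 53) (nat_lit 1) (nat_lit 56) (nat_lit 1) (nat_lit 222) (nat_lit 265) (nat_lit 233)) (XT.nd (nat_lit 94) (nat_lit 336) (nat_lit 0) (XT.lf (nat_lit 84) (nat_lit 5655645299) (nat_lit 0) (nat_lit 892301875) (nat_lit 336) (nat_lit 228861800) (nat_lit 53) (nat_lit 1) (nat_lit 52) (nat_lit 1) (nat_lit 56) (nat_lit 1) (nat_lit 223) (nat_lit 265) (nat_lit 232)) (XT.lf (nat_lit 84) (nat_lit 2557989721) (nat_lit 0) (nat_lit 2990588349) (nat_lit 420) (nat_lit 1100787516)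 (nat_lit 49) (nat_lit 1) (nat_lit 48) (nat_lit 1) (nat_lit 53) (nat_lit 1) (nat_lit 224) (nat_lit 265) (nat_lit 231))))))) (XT.nd (nat_lit 1034) (nat_lit 1344) (nat_lit 0) (XT.nd (nat_lit 470) (nat_lit 1260) (nat_lit 0) (XT.nd (nat_lit 188) (nat_lit 840) (nat_lit 0) (XT.nd (nat_lit 94) (nat_lit 336) (nat_lit 0) (XT.lf (nat_lit 336) (nat_lit 1470830392) (nat_lit 0) (nat_lit 4620904316) (nat_lit 252) (nat_lit 433949804) (nat_lit 49) (nat_lit 1) (nat_lit 45) (nat_lit 1) (nat_lit 48) (nat_lit 1) (nat_lit 225) (nat_lit 265) (nat_lit 230)) (XT.lf (nat_lit 84) (nat_lit 3041747987) (nat_lit 0) (nat_lit 687753201) (nat_lit 336) (nat_lit 2675047513) (nat_lit 42) (nat_lit 1) (nat_lit 41) (nat_lit 1) (nat_lit 45) (nat_lit 1) (nat_lit 226) (nat_lit 265) (nat_lit 229))) (XT.nd (nat_lit 94) (nat_lit 588) (nat_lit 0) (XT.lf (nat_lit 84) (nat_lit 121900924) (nat_lit 0) (nat_lit 2770948568) (nat_lit 336) (nat_lit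 3393714778) (nat_lit 39) (nat_lit 1) (nat_lit 38) (nat_lit 1) (nat_lit 42) (nat_lit 1) (nat_lit 227) (nat_lit 265) (nat_lit 228)) (XT.nd (nat_lit 94) (nat_lit 336) (nat_lit 0) (XT.lf (nat_lit 336) (nat_lit 1327775746) (nat_lit 0) (nat_lit 2092970659) (nat_lit 252) (nat_lit 2750358273) (nat_lit 39) (nat_lit 1) (nat_lit 35) (nat_lit 1) (nat_lit 38) (nat_lit 1) (nat_lit 228) (nat_lit 265) (nat_lit 227)) (XT.lf (nat_lit 84) (nat_lit 551491316) (nat_lit 0) (nat_lit 797404851) (nat_lit 336) (nat_lit 4709899030) (nat_lit 32) (nat_lit 1) (nat_lit 31) (nat_lit 1) (nat_lit 35) (nat_lit 1) (nat_lit 229) (nat_lit 265) (nat_lit 226))))) (XT.nd (nat_lit 282) (nat_lit 756) (nat_lit 0) (XT.nd (nat_lit 94) (nat_lit 252) (nat_lit 0) (XT.lf (nat_lit 336) (nat_lit 3074822655) (nat_lit 0) (nat_lit 627769108) (nat_lit 252) (nat_lit 2245914919) (nat_lit 32) (nat_lit 1) (nat_lit 28) (nat_lit 1) (nat_lit 31) (nat_lit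 1) (nat_lit 230) (nat_lit 265) (nat_lit 225)) (XT.nd (nat_lit 94) (nat_lit 252) (nat_lit 0) (XT.lf (nat_lit 84) (nat_lit 892394790) (nat_lit 0) (nat_lit 4912405617) (nat_lit 336) (nat_lit 36523642) (nat_lit 29) (nat_lit 1) (nat_lit 28) (nat_lit 1) (nat_lit 32) (nat_lit 1) (nat_lit 231) (nat_lit 265) (nat_lit 224)) (XT.lf (nat_lit 84) (nat_lit 3902798133) (nat_lit 0) (nat_lit 1170970481) (nat_lit 252) (nat_lit 662191320) (nat_lit 26) (nat_lit 1) (nat_lit 25) (nat_lit 1) (nat_lit 28) (nat_lit 1) (nat_lit 232) (nat_lit 265) (nat_lit 223)))) (XT.nd (nat_lit 94) (nat_lit 504) (nat_lit 0) (XT.lf (nat_lit 84) (nat_lit 1168437224) (nat_lit 0) (nat_lit 3213505073) (nat_lit 336) (nat_lit 1251131355) (nat_lit 23) (nat_lit 1) (nat_lit 22) (nat_lit 1) (nat_lit 26) (nat_lit 1) (nat_lit 233) (nat_lit 265) (nat_lit 222)) (XT.nd (nat_lit 94) (nat_lit 336) (nat_lit 0) (XT.lf (nat_lit 252) (nat_lit 305626388)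 (nat_lit 0) (nat_lit 3730731476) (nat_lit 168) (nat_lit 1496338565) (nat_lit 23) (nat_lit 1) (nat_lit 20) (nat_lit 1) (nat_lit 22) (nat_lit 1) (nat_lit 234) (nat_lit 265) (nat_lit 221)) (XT.lf (nat_lit 84) (nat_lit 1368727758) (nat_lit 0) (nat_lit 1733017719) (nat_lit 336) (nat_lit 2332444660) (nat_lit 17) (nat_lit 1) (nat_lit 16) (nat_lit 1) (nat_lit 20) (nat_lit 1) (nat_lit 235) (nat_lit 265) (nat_lit 220)))))) (XT.nd (nat_lit 470) (nat_lit 336) (nat_lit 0) (XT.nd (nat_lit 188) (nat_lit 588) (nat_lit 0) (XT.nd (nat_lit 94) (nat_lit 252) (nat_lit 0) (XT.lf (nat_lit 252) (nat_lit 1606418219) (nat_lit 0) (nat_lit 2509628147) (nat_lit 168) (nat_lit 1221987619) (nat_lit 17) (nat_lit 1) (nat_lit 14) (nat_lit 1) (nat_lit 16) (nat_lit 1) (nat_lit 236) (nat_lit 265) (nat_lit 219)) (XT.lf (nat_lit 84) (nat_lit 1504850100) (nat_lit 0) (nat_lit 444465753) (nat_lit 252) (nat_lit 3294725126) (nat_lit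 12) (nat_lit 1) (nat_lit 11) (nat_lit 1) (nat_lit 14) (nat_lit 1) (nat_lit 237) (nat_lit 265) (nat_lit 218))) (XT.nd (nat_lit 94) (nat_lit 420) (nat_lit 0) (XT.lf (nat_lit 252) (nat_lit 2729093490) (nat_lit 0) (nat_lit 1410180017) (nat_lit 168) (nat_lit 1012562652) (nat_lit 12) (nat_lit 1) (nat_lit 9) (nat_lit 1) (nat_lit 11) (nat_lit 1) (nat_lit 238) (nat_lit 265) (nat_lit 217)) (XT.nd (nat_lit 94) (nat_lit 252) (nat_lit 0) (XT.lf (nat_lit 252) (nat_lit 691065044) (nat_lit 0) (nat_lit 903492651) (nat_lit 168) (nat_lit 3467227697) (nat_lit 10) (nat_lit 1) (nat_lit 7) (nat_lit 1) (nat_lit 9) (nat_lit 1) (nat_lit 239) (nat_lit 265) (nat_lit 216)) (XT.lf (nat_lit 252) (nat_lit 3695465701) (nat_lit 0) (nat_lit 419897740) (nat_lit 168) (nat_lit 858193750) (nat_lit 7) (nat_lit 1) (nat_lit 4) (nat_lit 1) (nat_lit 6) (nat_lit 1) (nat_lit 240) (nat_lit 265) (nat_lit 215))))) (XT.nd (nat_lit 282) (nat_lit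 0) (nat_lit 0) (XT.nd (nat_lit 94) (nat_lit 336) (nat_lit 0) (XT.lf (nat_lit 84) (nat_lit 1642722215) (nat_lit 0) (nat_lit 3202349687) (nat_lit 252) (nat_lit 41968967) (nat_lit 5) (nat_lit 1) (nat_lit 4) (nat_lit 1) (nat_lit 7) (nat_lit 1) (nat_lit 241) (nat_lit 265) (nat_lit 214)) (XT.nd (nat_lit 94) (nat_lit 84) (nat_lit 0) (XT.lf (nat_lit 84) (nat_lit 4057648832) (nat_lit 0) (nat_lit 283284136) (nat_lit 252) (nat_lit 461585468) (nat_lit 2) (nat_lit 1) (nat_lit 1) (nat_lit 1) (nat_lit 4) (nat_lit 1) (nat_lit 242) (nat_lit 265) (nat_lit 213)) (XT.lf (nat_lit 0) (nat_lit 3909975638) (nat_lit 0) (nat_lit 0) (nat_lit 0) (nat_lit 0) (nat_lit 0) (nat_lit 0) (nat_lit 1) (nat_lit 0) (nat_lit 1) (nat_lit 0) (nat_lit 243) (nat_lit 265) (nat_lit 212)))) (XT.nd (nat_lit 94) (nat_lit 0) (nat_lit 0) (XT.lf (nat_lit 0) (nat_lit 3896932556) (nat_lit 0) (nat_lit 0) (nat_lit 0) (nat_lit 0) (nat_lit 0) (nat_lit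 0) (nat_lit 1) (nat_lit 0) (nat_lit 1) (nat_lit 0) (nat_lit 244) (nat_lit 265) (nat_lit 211)) (XT.nd (nat_lit 94) (nat_lit 0) (nat_lit 0) (XT.lf (nat_lit 0) (nat_lit 3884510574) (nat_lit 0) (nat_lit 0) (nat_lit 0) (nat_lit 0) (nat_lit 0) (nat_lit 0) (nat_lit 1) (nat_lit 0) (nat_lit 1) (nat_lit 0) (nat_lit 245) (nat_lit 265) (nat_lit 210)) (XT.lf (nat_lit 0) (nat_lit 3872680115) (nat_lit 0) (nat_lit 0) (nat_lit 0) (nat_lit 0) (nat_lit 0) (nat_lit 0) (nat_lit 1) (nat_lit 0) (nat_lit 1) (nat_lit 0) (nat_lit 246) (nat_lit 265) (nat_lit 209))))))))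
noncomputable def ec31 : XT := (XT.nd (nat_lit 42770) (nat_lit 0) (nat_lit 0) (XT.nd (nat_lit 41736) (nat_lit 0) (nat_lit 4452) (XT.nd (nat_lit 470) (nat_lit 0) (nat_lit 0) (XT.nd (nat_lit 188) (nat_lit 0) (nat_lit 0) (XT.nd (nat_lit 94) (nat_lit 0) (nat_lit 0) (XT.lf (nat_lit 0) (nat_lit 3861413011) (nat_lit 0) (nat_lit 0) (nat_lit 0) (nat_lit 0) (nat_lit 0) (nat_lit 0) (nat_lit 1) (nat_lit 0) (nat_lit 1) (nat_lit 0) (nat_lit 247) (nat_lit 265) (nat_lit 208)) (XT.lf (nat_lit 0) (nat_lit 3850682436) (nat_lit 0) (nat_lit 0) (nat_lit 0) (nat_lit 0) (nat_lit 0) (nat_lit 0) (nat_lit 1) (nat_lit 0) (nat_lit 1) (nat_lit 0) (nat_lit 248) (nat_lit 265) (nat_lit 207))) (XT.nd (nat_lit 94) (nat_lit 0) (nat_lit 0) (XT.lf (nat_lit 0) (nat_lit 3840462840) (nat_lit 0) (nat_lit 0) (nat_lit 0) (nat_lit 0) (nat_lit 0) (nat_lit 0) (nat_lit 1) (nat_lit 0) (nat_lit 1) (nat_lit 0) (nat_lit 249) (nat_lit 265) (nat_lit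 206)) (XT.nd (nat_lit 94) (nat_lit 0) (nat_lit 0) (XT.lf (nat_lit 0) (nat_lit 3830729892) (nat_lit 0) (nat_lit 0) (nat_lit 0) (nat_lit 0) (nat_lit 0) (nat_lit 0) (nat_lit 1) (nat_lit 0) (nat_lit 1) (nat_lit 0) (nat_lit 250) (nat_lit 265) (nat_lit 205)) (XT.lf (nat_lit 0) (nat_lit 3821460418) (nat_lit 0) (nat_lit 0) (nat_lit 0) (nat_lit 0) (nat_lit 0) (nat_lit 0) (nat_lit 1) (nat_lit 0) (nat_lit 1) (nat_lit 0) (nat_lit 251) (nat_lit 265) (nat_lit 204))))) (XT.nd (nat_lit 40984) (nat_lit 0) (nat_lit 8316) (XT.nd (nat_lit 40796) (nat_lit 0) (nat_lit 9240) (XT.lf (nat_lit 0) (nat_lit 3812632347) (nat_lit 0) (nat_lit 0) (nat_lit 0) (nat_lit 0) (nat_lit 0) (nat_lit 0) (nat_lit 1) (nat_lit 0) (nat_lit 1) (nat_lit 0) (nat_lit 252) (nat_lit 265) (nat_lit 203)) (XT.nd (nat_lit 94) (nat_lit 504) (nat_lit 0) (XT.lf (nat_lit 84) (nat_lit 5168511572) (nat_lit 0) (nat_lit 544451676) (nat_lit 588) (nat_lit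 4087309965) (nat_lit 117) (nat_lit 1) (nat_lit 116) (nat_lit 1) (nat_lit 123) (nat_lit 1) (nat_lit 205) (nat_lit 266) (nat_lit 249)) (XT.lf (nat_lit 84) (nat_lit 1376707809) (nat_lit 0) (nat_lit 2338102872) (nat_lit 588) (nat_lit 5880648138) (nat_lit 111) (nat_lit 1) (nat_lit 110) (nat_lit 1) (nat_lit 117) (nat_lit 1) (nat_lit 206) (nat_lit 266) (nat_lit 248)))) (XT.nd (nat_lit 94) (nat_lit 420) (nat_lit 0) (XT.lf (nat_lit 588) (nat_lit 5235634390) (nat_lit 0) (nat_lit 1828670630) (nat_lit 504) (nat_lit 2332087895) (nat_lit 111) (nat_lit 1) (nat_lit 104) (nat_lit 1) (nat_lit 110) (nat_lit 1) (nat_lit 207) (nat_lit 266) (nat_lit 247)) (XT.nd (nat_lit 94) (nat_lit 0) (nat_lit 0) (XT.lf (nat_lit 504) (nat_lit 3204882095) (nat_lit 0) (nat_lit 60394348) (nat_lit 420) (nat_lit 5937968921) (nat_lit 105) (nat_lit 1) (nat_lit 99) (nat_lit 1) (nat_lit 104) (nat_lit 1) (nat_lit 208) (nat_lit 266) (nat_lit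 246)) (XT.lf (nat_lit 504) (nat_lit 1160466596) (nat_lit 0) (nat_lit 7467159049) (nat_lit 420) (nat_lit 387937497) (nat_lit 105) (nat_lit 1) (nat_lit 99) (nat_lit 1) (nat_lit 104) (nat_lit 1) (nat_lit 209) (nat_lit 266) (nat_lit 245)))))) (XT.nd (nat_lit 470) (nat_lit 2100) (nat_lit 0) (XT.nd (nat_lit 188) (nat_lit 840) (nat_lit 0) (XT.nd (nat_lit 94) (nat_lit 420) (nat_lit 0) (XT.lf (nat_lit 84) (nat_lit 4861070107) (nat_lit 0) (nat_lit 888885632) (nat_lit 504) (nat_lit 3082351290) (nat_lit 94) (nat_lit 1) (nat_lit 93) (nat_lit 1) (nat_lit 99) (nat_lit 1) (nat_lit 210) (nat_lit 266) (nat_lit 244)) (XT.lf (nat_lit 84) (nat_lit 1243531190) (nat_lit 0) (nat_lit 2897189711) (nat_lit 504) (nat_lit 4513769501) (nat_lit 89) (nat_lit 1) (nat_lit 88) (nat_lit 1) (nat_lit 94) (nat_lit 1) (nat_lit 211) (nat_lit 266) (nat_lit 243))) (XT.nd (nat_lit 94) (nat_lit 420) (nat_lit 0) (XT.lf (nat_lit 504) (nat_lit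 3566402473) (nat_lit 0) (nat_lit 2620873026) (nat_lit 420) (nat_lit 2294183852) (nat_lit 89) (nat_lit 1) (nat_lit 83) (nat_lit 1) (nat_lit 88) (nat_lit 1) (nat_lit 212) (nat_lit 266) (nat_lit 242)) (XT.nd (nat_lit 94) (nat_lit 84) (nat_lit 0) (XT.lf (nat_lit 420) (nat_lit 1384962003) (nat_lit 0) (nat_lit 1198425703) (nat_lit 336) (nat_lit 5730071979) (nat_lit 84) (nat_lit 1) (nat_lit 79) (nat_lit 1) (nat_lit 83) (nat_lit 1) (nat_lit 213) (nat_lit 266) (nat_lit 241)) (XT.lf (nat_lit 84) (nat_lit 7251235829) (nat_lit 0) (nat_lit 765607714) (nat_lit 420) (nat_lit 133241458) (nat_lit 79) (nat_lit 1) (nat_lit 78) (nat_lit 1) (nat_lit 83) (nat_lit 1) (nat_lit 214) (nat_lit 266) (nat_lit 240))))) (XT.nd (nat_lit 282) (nat_lit 1008) (nat_lit 0) (XT.nd (nat_lit 94) (nat_lit 672) (nat_lit 0) (XT.lf (nat_lit 84) (nat_lit 3708209014) (nat_lit 0) (nat_lit 2900257781) (nat_lit 504) (nat_lit 1381435024)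 (nat_lit 74) (nat_lit 1) (nat_lit 73) (nat_lit 1) (nat_lit 79) (nat_lit 1) (nat_lit 215) (nat_lit 266) (nat_lit 239)) (XT.nd (nat_lit 94) (nat_lit 336) (nat_lit 0) (XT.lf (nat_lit 84) (nat_lit 295308107) (nat_lit 0) (nat_lit 5006741194) (nat_lit 420) (nat_lit 2532725190) (nat_lit 70) (nat_lit 1) (nat_lit 69) (nat_lit 1) (nat_lit 74) (nat_lit 1) (nat_lit 216) (nat_lit 266) (nat_lit 238)) (XT.lf (nat_lit 420) (nat_lit 564595566) (nat_lit 0) (nat_lit 4057683396) (nat_lit 336) (nat_lit 3061051550) (nat_lit 70) (nat_lit 1) (nat_lit 65) (nat_lit 1) (nat_lit 69) (nat_lit 1) (nat_lit 217) (nat_lit 266) (nat_lit 237)))) (XT.nd (nat_lit 94) (nat_lit 588) (nat_lit 0) (XT.lf (nat_lit 84) (nat_lit 1255555681) (nat_lit 0) (nat_lit 1629424263) (nat_lit 420) (nat_lit 4650892298) (nat_lit 61) (nat_lit 1) (nat_lit 60) (nat_lit 1) (nat_lit 65) (nat_lit 1) (nat_lit 218) (nat_lit 266) (nat_lit 236)) (XT.nd (nat_lit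 94) (nat_lit 252) (nat_lit 0) (XT.lf (nat_lit 420) (nat_lit 3593172443) (nat_lit 0) (nat_lit 1772901295) (nat_lit 336) (nat_lit 2025930372) (nat_lit 61) (nat_lit 1) (nat_lit 56) (nat_lit 1) (nat_lit 60) (nat_lit 1) (nat_lit 219) (nat_lit 266) (nat_lit 235)) (XT.lf (nat_lit 336) (nat_lit 1305359276) (nat_lit 0) (nat_lit 733828749) (nat_lit 252) (nat_lit 5212934782) (nat_lit 57) (nat_lit 1) (nat_lit 53) (nat_lit 1) (nat_lit 56) (nat_lit 1) (nat_lit 220) (nat_lit 266) (nat_lit 234))))))) (XT.nd (nat_lit 1034) (nat_lit 1848) (nat_lit 0) (XT.nd (nat_lit 470) (nat_lit 1344) (nat_lit 0) (XT.nd (nat_lit 188) (nat_lit 840) (nat_lit 0) (XT.nd (nat_lit 94) (nat_lit 336) (nat_lit 0) (XT.lf (nat_lit 84) (nat_lit 5938427564) (nat_lit 0) (nat_lit 936916969) (nat_lit 336) (nat_lit 240304890) (nat_lit 53) (nat_lit 1) (nat_lit 52) (nat_lit 1) (nat_lit 56) (nat_lit 1) (nat_lit 221) (nat_lit 266) (nat_lit 233))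 (XT.lf (nat_lit 84) (nat_lit 2685889207) (nat_lit 0) (nat_lit 3140117766) (nat_lit 420) (nat_lit 1155826892) (nat_lit 49) (nat_lit 1) (nat_lit 48) (nat_lit 1) (nat_lit 53) (nat_lit 1) (nat_lit 222) (nat_lit 266) (nat_lit 232))) (XT.nd (nat_lit 94) (nat_lit 588) (nat_lit 0) (XT.lf (nat_lit 336) (nat_lit 1544371912) (nat_lit 0) (nat_lit 4851949531) (nat_lit 252) (nat_lit 455647294) (nat_lit 49) (nat_lit 1) (nat_lit 45) (nat_lit 1) (nat_lit 48) (nat_lit 1) (nat_lit 223) (nat_lit 266) (nat_lit 231)) (XT.nd (nat_lit 94) (nat_lit 252) (nat_lit 0) (XT.lf (nat_lit 84) (nat_lit 3193835387) (nat_lit 0) (nat_lit 722140861) (nat_lit 336) (nat_lit 2808799888) (nat_lit 42) (nat_lit 1) (nat_lit 41) (nat_lit 1) (nat_lit 45) (nat_lit 1) (nat_lit 224) (nat_lit 266) (nat_lit 230)) (XT.lf (nat_lit 84) (nat_lit 127995970) (nat_lit 0) (nat_lit 2909495997) (nat_lit 336) (nat_lit 3563400517) (nat_lit 39) (nat_lit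 1) (nat_lit 38) (nat_lit 1) (nat_lit 42) (nat_lit 1) (nat_lit 225) (nat_lit 266) (nat_lit 229))))) (XT.nd (nat_lit 282) (nat_lit 504) (nat_lit 0) (XT.nd (nat_lit 94) (nat_lit 588) (nat_lit 0) (XT.lf (nat_lit 336) (nat_lit 1394164534) (nat_lit 0) (nat_lit 2197619192) (nat_lit 252) (nat_lit 2887876186) (nat_lit 39) (nat_lit 1) (nat_lit 35) (nat_lit 1) (nat_lit 38) (nat_lit 1) (nat_lit 226) (nat_lit 266) (nat_lit 228)) (XT.nd (nat_lit 94) (nat_lit 252) (nat_lit 0) (XT.lf (nat_lit 84) (nat_lit 579065882) (nat_lit 0) (nat_lit 837275094) (nat_lit 336) (nat_lit 4945393982) (nat_lit 32) (nat_lit 1) (nat_lit 31) (nat_lit 1) (nat_lit 35) (nat_lit 1) (nat_lit 227) (nat_lit 266) (nat_lit 227)) (XT.lf (nat_lit 336) (nat_lit 3228563787) (nat_lit 0) (nat_lit 659157564) (nat_lit 252) (nat_lit 2358210665) (nat_lit 32) (nat_lit 1) (nat_lit 28) (nat_lit 1) (nat_lit 31) (nat_lit 1) (nat_lit 228) (nat_lit 266)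 (nat_lit 226)))) (XT.nd (nat_lit 94) (nat_lit 504) (nat_lit 0) (XT.lf (nat_lit 84) (nat_lit 937014530) (nat_lit 0) (nat_lit 5158025898) (nat_lit 336) (nat_lit 38349825) (nat_lit 29) (nat_lit 1) (nat_lit 28) (nat_lit 1) (nat_lit 32) (nat_lit 1) (nat_lit 229) (nat_lit 266) (nat_lit 225)) (XT.nd (nat_lit 94) (nat_lit 252) (nat_lit 0) (XT.lf (nat_lit 84) (nat_lit 4097938040) (nat_lit 0) (nat_lit 1229519005) (nat_lit 252) (nat_lit 695300886) (nat_lit 26) (nat_lit 1) (nat_lit 25) (nat_lit 1) (nat_lit 28) (nat_lit 1) (nat_lit 230) (nat_lit 266) (nat_lit 224)) (XT.lf (nat_lit 84) (nat_lit 1226859085) (nat_lit 0) (nat_lit 3374180327) (nat_lit 336) (nat_lit 1313687922) (nat_lit 23) (nat_lit 1) (nat_lit 22) (nat_lit 1) (nat_lit 26) (nat_lit 1) (nat_lit 231) (nat_lit 266) (nat_lit 223)))))) (XT.nd (nat_lit 470) (nat_lit 756) (nat_lit 0) (XT.nd (nat_lit 188) (nat_lit 588) (nat_lit 0) (XT.nd (nat_lit 94)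 (nat_lit 336) (nat_lit 0) (XT.lf (nat_lit 252) (nat_lit 320907708) (nat_lit 0) (nat_lit 3917268050) (nat_lit 168) (nat_lit 1571155494) (nat_lit 23) (nat_lit 1) (nat_lit 20) (nat_lit 1) (nat_lit 22) (nat_lit 1) (nat_lit 232) (nat_lit 266) (nat_lit 222)) (XT.lf (nat_lit 84) (nat_lit 1437164146) (nat_lit 0) (nat_lit 1819668605) (nat_lit 336) (nat_lit 2449066893) (nat_lit 17) (nat_lit 1) (nat_lit 16) (nat_lit 1) (nat_lit 20) (nat_lit 1) (nat_lit 233) (nat_lit 266) (nat_lit 221))) (XT.nd (nat_lit 94) (nat_lit 420) (nat_lit 0) (XT.lf (nat_lit 252) (nat_lit 1686739130) (nat_lit 0) (nat_lit 2635109554) (nat_lit 168) (nat_lit 1283087000) (nat_lit 17) (nat_lit 1) (nat_lit 14) (nat_lit 1) (nat_lit 16) (nat_lit 1) (nat_lit 234) (nat_lit 266) (nat_lit 220)) (XT.nd (nat_lit 94) (nat_lit 168) (nat_lit 0) (XT.lf (nat_lit 84) (nat_lit 1580092605) (nat_lit 0) (nat_lit 466689041) (nat_lit 252) (nat_lit 3459461383)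 (nat_lit 12) (nat_lit 1) (nat_lit 11) (nat_lit 1) (nat_lit 14) (nat_lit 1) (nat_lit 235) (nat_lit 266) (nat_lit 219)) (XT.lf (nat_lit 252) (nat_lit 2865548165) (nat_lit 0) (nat_lit 1480689018) (nat_lit 168) (nat_lit 1063190784) (nat_lit 12) (nat_lit 1) (nat_lit 9) (nat_lit 1) (nat_lit 11) (nat_lit 1) (nat_lit 236) (nat_lit 266) (nat_lit 218))))) (XT.nd (nat_lit 282) (nat_lit 336) (nat_lit 0) (XT.nd (nat_lit 94) (nat_lit 252) (nat_lit 0) (XT.lf (nat_lit 252) (nat_lit 725618296) (nat_lit 0) (nat_lit 948667283) (nat_lit 168) (nat_lit 3640589082) (nat_lit 10) (nat_lit 1) (nat_lit 7) (nat_lit 1) (nat_lit 9) (nat_lit 1) (nat_lit 237) (nat_lit 266) (nat_lit 217)) (XT.nd (nat_lit 94) (nat_lit 0) (nat_lit 0) (XT.lf (nat_lit 252) (nat_lit 3880238986) (nat_lit 0) (nat_lit 440892627) (nat_lit 168) (nat_lit 901103437) (nat_lit 7) (nat_lit 1) (nat_lit 4) (nat_lit 1) (nat_lit 6) (nat_lit 1) (nat_lit 238)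 (nat_lit 266) (nat_lit 216)) (XT.lf (nat_lit 84) (nat_lit 1724858325) (nat_lit 0) (nat_lit 3362467171) (nat_lit 252) (nat_lit 44067415) (nat_lit 5) (nat_lit 1) (nat_lit 4) (nat_lit 1) (nat_lit 7) (nat_lit 1) (nat_lit 239) (nat_lit 266) (nat_lit 215)))) (XT.nd (nat_lit 94) (nat_lit 84) (nat_lit 0) (XT.lf (nat_lit 84) (nat_lit 4260531273) (nat_lit 0) (nat_lit 297448343) (nat_lit 252) (nat_lit 484664742) (nat_lit 2) (nat_lit 1) (nat_lit 1) (nat_lit 1) (nat_lit 4) (nat_lit 1) (nat_lit 240) (nat_lit 266) (nat_lit 214)) (XT.nd (nat_lit 94) (nat_lit 0) (nat_lit 0) (XT.lf (nat_lit 0) (nat_lit 4105474420) (nat_lit 0) (nat_lit 0) (nat_lit 0) (nat_lit 0) (nat_lit 0) (nat_lit 0) (nat_lit 1) (nat_lit 0) (nat_lit 1) (nat_lit 0) (nat_lit 241) (nat_lit 266) (nat_lit 213)) (XT.lf (nat_lit 0) (nat_lit 4091779184) (nat_lit 0) (nat_lit 0) (nat_lit 0) (nat_lit 0) (nat_lit 0) (nat_lit 0) (nat_lit 1) (nat_lit 0)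 (nat_lit 1) (nat_lit 0) (nat_lit 242) (nat_lit 266) (nat_lit 212))))))))

set_option maxRecDepth 10000000 in
noncomputable def Tp : PT := (PT.nd (nat_lit 2898584) (PT.nd (nat_lit 2357708) (PT.nd (nat_lit 1860354) (PT.nd (nat_lit 1408684) pc0 pc1) (PT.nd (nat_lit 315746) pc2 pc3)) (PT.nd (nat_lit 315934) (PT.nd (nat_lit 180292) pc4 pc5) (PT.nd (nat_lit 134232) pc6 pc7))) (PT.nd (nat_lit 272788) (PT.nd (nat_lit 137240) (PT.nd (nat_lit 89864) pc8 pc9) (PT.nd (nat_lit 88736) pc10 pc11)) (PT.nd (nat_lit 222498) (PT.nd (nat_lit 90334) pc12 pc13) (PT.nd (nat_lit 140060) pc14 pc15))))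

set_option maxRecDepth 10000000 in
noncomputable def Tx : XT := (XT.nd (nat_lit 9928374) (nat_lit 0) (nat_lit 420) XT.nil (XT.nd (nat_lit 2712746) (nat_lit 0) (nat_lit 0) (XT.nd (nat_lit 1174718) (nat_lit 0) (nat_lit 3108) (XT.nd (nat_lit 811220) (nat_lit 0) (nat_lit 1428) (XT.nd (nat_lit 542098) (nat_lit 0) (nat_lit 588) (XT.nd (nat_lit 361618) (nat_lit 0) (nat_lit 420) (XT.nd (nat_lit 270250) (nat_lit 0) (nat_lit 168) xc0 xc1) (XT.nd (nat_lit 90616) (nat_lit 0) (nat_lit 0) xc2 xc3)) (XT.nd (nat_lit 135360) (nat_lit 0) (nat_lit 420) (XT.nd (nat_lit 89018) (nat_lit 0) (nat_lit 252) xc4 xc5) (XT.nd (nat_lit 87984) (nat_lit 0) (nat_lit 252) xc6 xc7))) (XT.nd (nat_lit 181420) (nat_lit 0) (nat_lit 756) (XT.nd (nat_lit 90898) (nat_lit 0) (nat_lit 336) (XT.nd (nat_lit 45496) (nat_lit 0) (nat_lit 84) xc8 xc9) (XT.nd (nat_lit 45214) (nat_lit 0) (nat_lit 168) xc10 xc11)) (XT.nd (nat_lit 90804) (nat_lit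 0) (nat_lit 336) (XT.nd (nat_lit 45308) (nat_lit 0) (nat_lit 84) xc12 xc13) (XT.nd (nat_lit 45590) (nat_lit 0) (nat_lit 252) xc14 xc15)))) (XT.nd (nat_lit 497166) (nat_lit 0) (nat_lit 3108) (XT.nd (nat_lit 226070) (nat_lit 0) (nat_lit 1176) (XT.nd (nat_lit 133668) (nat_lit 0) (nat_lit 924) (XT.nd (nat_lit 45778) (nat_lit 0) (nat_lit 252) xc16 xc17) (XT.nd (nat_lit 46154) (nat_lit 0) (nat_lit 0) xc18 xc19)) (XT.nd (nat_lit 135078) (nat_lit 0) (nat_lit 1092) (XT.nd (nat_lit 88548) (nat_lit 0) (nat_lit 756) xc20 xc21) (XT.nd (nat_lit 46624) (nat_lit 0) (nat_lit 0) xc22 xc23))) (XT.nd (nat_lit 361242) (nat_lit 0) (nat_lit 2604) (XT.nd (nat_lit 179822) (nat_lit 0) (nat_lit 1260) (XT.nd (nat_lit 89676) (nat_lit 0) (nat_lit 756) xc24 xc25) (XT.nd (nat_lit 47282) (nat_lit 0) (nat_lit 420) xc26 xc27)) (XT.nd (nat_lit 226822) (nat_lit 0) (nat_lit 2184) (XT.nd (nat_lit 91274) (nat_lit 0) (nat_lit 1092)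 xc28 xc29) (XT.nd (nat_lit 136394) (nat_lit 0) (nat_lit 1344) xc30 xc31))))) XT.nil))

set_option maxRecDepth 10000000 in
noncomputable def Te : XT := (XT.nd (nat_lit 10378634) (nat_lit 0) (nat_lit 0) XT.nil (XT.nd (nat_lit 1671132) (nat_lit 0) (nat_lit 0) (XT.nd (nat_lit 1128846) (nat_lit 588) (nat_lit 0) (XT.nd (nat_lit 768168) (nat_lit 3444) (nat_lit 0) (XT.nd (nat_lit 541064) (nat_lit 2940) (nat_lit 0) (XT.nd (nat_lit 360960) (nat_lit 3360) (nat_lit 0) (XT.nd (nat_lit 225976) (nat_lit 2352) (nat_lit 0) ec0 ec1) (XT.nd (nat_lit 90428) (nat_lit 1344) (nat_lit 0) ec2 ec3)) (XT.nd (nat_lit 135172) (nat_lit 1008) (nat_lit 0) (XT.nd (nat_lit 46624) (nat_lit 1512) (nat_lit 0) ec4 ec5) (XT.nd (nat_lit 46060) (nat_lit 420) (nat_lit 0) ec6 ec7))) (XT.nd (nat_lit 222592) (nat_lit 1260) (nat_lit 0) (XT.nd (nat_lit 132352) (nat_lit 504) (nat_lit 0) (XT.nd (nat_lit 45684) (nat_lit 1092) (nat_lit 0)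 ec8 ec9) (XT.nd (nat_lit 45214) (nat_lit 504) (nat_lit 0) ec10 ec11)) (XT.nd (nat_lit 48974) (nat_lit 756) (nat_lit 0) (XT.nd (nat_lit 44838) (nat_lit 0) (nat_lit 504) ec12 ec13) (XT.nd (nat_lit 44650) (nat_lit 336) (nat_lit 0) ec14 ec15)))) (XT.nd (nat_lit 271566) (nat_lit 0) (nat_lit 0) (XT.nd (nat_lit 136488) (nat_lit 0) (nat_lit 0) (XT.nd (nat_lit 88360) (nat_lit 0) (nat_lit 0) (XT.nd (nat_lit 44274) (nat_lit 336) (nat_lit 0) ec16 ec17) (XT.nd (nat_lit 43992) (nat_lit 0) (nat_lit 756) ec18 ec19)) (XT.nd (nat_lit 87420) (nat_lit 0) (nat_lit 0) (XT.nd (nat_lit 43804) (nat_lit 0) (nat_lit 0) ec20 ec21) (XT.nd (nat_lit 43522) (nat_lit 0) (nat_lit 756) ec22 ec23))) (XT.nd (nat_lit 134232) (nat_lit 0) (nat_lit 0) (XT.nd (nat_lit 86762) (nat_lit 0) (nat_lit 0) (XT.nd (nat_lit 43428) (nat_lit 0) (nat_lit 0) ec24 ec25) (XT.nd (nat_lit 4136) (nat_lit 0) (nat_lit 0) ec26 ec27)) (XT.nd (nat_lit 87514)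 (nat_lit 0) (nat_lit 0) (XT.nd (nat_lit 43522) (nat_lit 0) (nat_lit 0) ec28 ec29) (XT.nd (nat_lit 4136) (nat_lit 0) (nat_lit 0) ec30 ec31))))) XT.nil))

set_option maxRecDepth 10000000 in
noncomputable def Tz : ZL := (ZL.cons (nat_lit 2016) (nat_lit 6) (nat_lit 225348413414559165306) (ZL.cons (nat_lit 2100) (nat_lit 6) (nat_lit 220414525345779691406) (ZL.cons (nat_lit 2184) (nat_lit 3) (nat_lit 110078782825629675741) (ZL.cons (nat_lit 2268) (nat_lit 6) (nat_lit 215233942873561243812) (ZL.cons (nat_lit 2352) (nat_lit 6) (nat_lit 210565822170089370610) (ZL.cons (nat_lit 2436) (nat_lit 3) (nat_lit 105160549325749285341) (ZL.cons (nat_lit 2520) (nat_lit 6) (nat_lit 206142088967740227412) (ZL.cons (nat_lit 2604) (nat_lit 6) (nat_lit 205664295431443903746) (ZL.cons (nat_lit 2688) (nat_lit 6) (nat_lit 201252445586682827128) (ZL.cons (nat_lit 2772) (nat_lit 3) (nat_lit 100509687784488651695) (ZL.cons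 (nat_lit 2856) (nat_lit 6) (nat_lit 197075044712823052554) (ZL.cons (nat_lit 2940) (nat_lit 6) (nat_lit 196620003249683696682) (ZL.cons (nat_lit 3024) (nat_lit 6) (nat_lit 192455703777564765512) (ZL.cons (nat_lit 3108) (nat_lit 3) (nat_lit 96116866166065466689) (ZL.cons (nat_lit 3192) (nat_lit 6) (nat_lit 188516562153877369568) (ZL.cons (nat_lit 3276) (nat_lit 6) (nat_lit 188083189331839887782) (ZL.cons (nat_lit 3360) (nat_lit 6) (nat_lit 184158492003571771692) (ZL.cons (nat_lit 3444) (nat_lit 3) (nat_lit 91973545313484061020) (ZL.cons (nat_lit 3528) (nat_lit 6) (nat_lit 180450295829878327688) (ZL.cons (nat_lit 3612) (nat_lit 6) (nat_lit 180037559808890249798) (ZL.cons (nat_lit 3696) (nat_lit 6) (nat_lit 176345288470896561830) (ZL.cons (nat_lit 3780) (nat_lit 3) (nat_lit 88071976913256066796) (ZL.cons (nat_lit 3864) (nat_lit 6) (nat_lit 172861485490753739836) (ZL.cons (nat_lit 3948) (nat_lit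 6) (nat_lit 172468403566003189466) (ZL.cons (nat_lit 4032) (nat_lit 6) (nat_lit 169002157717219348504) (ZL.cons (nat_lit 4116) (nat_lit 3) (nat_lit 84405205218426613186) (ZL.cons (nat_lit 4200) (nat_lit 6) (nat_lit 165736963313853982514) (ZL.cons (nat_lit 4284) (nat_lit 6) (nat_lit 165362599575996315494) (ZL.cons (nat_lit 4368) (nat_lit 6) (nat_lit 162665046083518126338) (ZL.cons (nat_lit 4452) (nat_lit 6) (nat_lit 162116761909954226092) (ZL.cons (nat_lit 4536) (nat_lit 3) (nat_lit 80967072726231340602) (ZL.cons (nat_lit 4620) (nat_lit 6) (nat_lit 159065169253807810334) (ZL.cons (nat_lit 4704) (nat_lit 6) (nat_lit 158708632360610032220) (ZL.cons (nat_lit 4788) (nat_lit 6) (nat_lit 156200555910756719614) (ZL.cons (nat_lit 4872) (nat_lit 6) (nat_lit 155678380507362528902) (ZL.cons (nat_lit 4956) (nat_lit 3) (nat_lit 77752230035828147838) (ZL.cons (nat_lit 5040) (nat_lit 6) (nat_lit 152836175007355296240)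 (ZL.cons (nat_lit 5124) (nat_lit 6) (nat_lit 152496616061452650416) (ZL.cons (nat_lit 5208) (nat_lit 6) (nat_lit 150175248704635936062) (ZL.cons (nat_lit 5292) (nat_lit 6) (nat_lit 149677938796641468720) (ZL.cons (nat_lit 5376) (nat_lit 3) (nat_lit 74756150143222528061) (ZL.cons (nat_lit 5460) (nat_lit 6) (nat_lit 147689266060388449892) (ZL.cons (nat_lit 5544) (nat_lit 6) (nat_lit 147041717140877962052) (ZL.cons (nat_lit 5628) (nat_lit 6) (nat_lit 146718327668589727936) (ZL.cons (nat_lit 5712) (nat_lit 6) (nat_lit 144581674375934122070) (ZL.cons (nat_lit 5796) (nat_lit 6) (nat_lit 144108045892129867456) (ZL.cons (nat_lit 5880) (nat_lit 3) (nat_lit 71975147465019022969) (ZL.cons (nat_lit 5964) (nat_lit 6) (nat_lit 142291953257131511056) (ZL.cons (nat_lit 6048) (nat_lit 6) (nat_lit 141675240000454855970) (ZL.cons (nat_lit 6132) (nat_lit 6) (nat_lit 141367250026847013954) (ZL.cons (nat_lit 6216)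 (nat_lit 6) (nat_lit 140167102067520598986) (ZL.cons (nat_lit 6300) (nat_lit 6) (nat_lit 139414117598584514880) (ZL.cons (nat_lit 6384) (nat_lit 6) (nat_lit 138963042852104272392) (ZL.cons (nat_lit 6468) (nat_lit 3) (nat_lit 69406401920294125947) (ZL.cons (nat_lit 6552) (nat_lit 6) (nat_lit 137319295061752486226) (ZL.cons (nat_lit 6636) (nat_lit 6) (nat_lit 136731949103012814718) (ZL.cons (nat_lit 6720) (nat_lit 6) (nat_lit 136438625318624393748) (ZL.cons (nat_lit 6804) (nat_lit 6) (nat_lit 135385784717252027086) (ZL.cons (nat_lit 6888) (nat_lit 6) (nat_lit 134668656651598613652) (ZL.cons (nat_lit 6972) (nat_lit 6) (nat_lit 134239061654950763662) (ZL.cons (nat_lit 7056) (nat_lit 3) (nat_lit 67047988441039181595) (ZL.cons (nat_lit 7140) (nat_lit 6) (nat_lit 133608982969024803034) (ZL.cons (nat_lit 7224) (nat_lit 6) (nat_lit 132768252896786873480) (ZL.cons (nat_lit 7308) (nat_lit 6) (nat_lit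 132208875793225281564) (ZL.cons (nat_lit 7392) (nat_lit 6) (nat_lit 131929519808093452072) (ZL.cons (nat_lit 7476) (nat_lit 6) (nat_lit 131026213067732804344) (ZL.cons (nat_lit 7560) (nat_lit 6) (nat_lit 130343233957586696308) (ZL.cons (nat_lit 7644) (nat_lit 6) (nat_lit 129934095865541124890) (ZL.cons (nat_lit 7728) (nat_lit 3) (nat_lit 64898912326640847935) (ZL.cons (nat_lit 7812) (nat_lit 6) (nat_lit 129438389450557706076) (ZL.cons (nat_lit 7896) (nat_lit 6) (nat_lit 128637694143664439834) (ZL.cons (nat_lit 7980) (nat_lit 6) (nat_lit 128104954045034352296) (ZL.cons (nat_lit 8064) (nat_lit 6) (nat_lit 127838900725861181350) (ZL.cons (nat_lit 8148) (nat_lit 6) (nat_lit 128001001512839733208) (ZL.cons (nat_lit 8232) (nat_lit 6) (nat_lit 127088195542377744862) (ZL.cons (nat_lit 8316) (nat_lit 6) (nat_lit 126437739247000499118) (ZL.cons (nat_lit 8400) (nat_lit 6) (nat_lit 126048083921242812052)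 (ZL.cons (nat_lit 8484) (nat_lit 3) (nat_lit 62959150907164535063) (ZL.cons (nat_lit 8568) (nat_lit 6) (nat_lit 125691048871342595454) (ZL.cons (nat_lit 8652) (nat_lit 6) (nat_lit 124928481912396627606) (ZL.cons (nat_lit 8736) (nat_lit 6) (nat_lit 124421110389891782334) (ZL.cons (nat_lit 8820) (nat_lit 6) (nat_lit 124167726276393524288) (ZL.cons (nat_lit 8904) (nat_lit 6) (nat_lit 124442927590866050780) (ZL.cons (nat_lit 8988) (nat_lit 6) (nat_lit 123573588571378442832) (ZL.cons (nat_lit 9072) (nat_lit 6) (nat_lit 122954106385304875456) (ZL.cons (nat_lit 9156) (nat_lit 6) (nat_lit 122583006075059459204) (ZL.cons (nat_lit 9240) (nat_lit 3) (nat_lit 61229702034237471542) (ZL.cons (nat_lit 9324) (nat_lit 6) (nat_lit 123340859983613642870) (ZL.cons (nat_lit 9408) (nat_lit 6) (nat_lit 122369833287419711020) (ZL.cons (nat_lit 9492) (nat_lit 6) (nat_lit 121643579040804503544) (ZL.cons (nat_lit 9576)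 (nat_lit 6) (nat_lit 121160368066990365188) (ZL.cons (nat_lit 9660) (nat_lit 6) (nat_lit 120919049863658690862) (ZL.cons (nat_lit 9744) (nat_lit 6) (nat_lit 122382222079091913616) (ZL.cons (nat_lit 9828) (nat_lit 6) (nat_lit 121314349976511006620) (ZL.cons (nat_lit 9912) (nat_lit 6) (nat_lit 120486408053189475242) (ZL.cons (nat_lit 9996) (nat_lit 6) (nat_lit 119896425018833696786) (ZL.cons (nat_lit 10080) (nat_lit 6) (nat_lit 119542996151933300356) (ZL.cons (nat_lit 10164) (nat_lit 3) (nat_lit 59712639977593071075) (ZL.cons (nat_lit 10248) (nat_lit 6) (nat_lit 121564731406099620804) (ZL.cons (nat_lit 10332) (nat_lit 6) (nat_lit 120404625583150166048) (ZL.cons (nat_lit 10416) (nat_lit 6) (nat_lit 119479838253441659524) (ZL.cons (nat_lit 10500) (nat_lit 6) (nat_lit 118788167542379557166) (ZL.cons (nat_lit 10584) (nat_lit 6) (nat_lit 118327966614937520636) (ZL.cons (nat_lit 10668) (nat_lit 6)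 (nat_lit 118098139754621640326) (ZL.cons (nat_lit 10752) (nat_lit 3) (nat_lit 58954815639000919652) (ZL.cons (nat_lit 10836) (nat_lit 6) (nat_lit 117978457500229926972) (ZL.cons (nat_lit 10920) (nat_lit 6) (nat_lit 118185100038871875900) (ZL.cons (nat_lit 11004) (nat_lit 6) (nat_lit 118530050899972071678) (ZL.cons (nat_lit 11088) (nat_lit 6) (nat_lit 119014131395104562392) (ZL.cons (nat_lit 11172) (nat_lit 6) (nat_lit 119638494096876806356) (ZL.cons (nat_lit 11256) (nat_lit 6) (nat_lit 118621473046799752072) (ZL.cons (nat_lit 11340) (nat_lit 6) (nat_lit 117832956929350674568) (ZL.cons (nat_lit 11424) (nat_lit 6) (nat_lit 117271068325202314136) (ZL.cons (nat_lit 11508) (nat_lit 6) (nat_lit 116934469404344793726) (ZL.cons (nat_lit 11592) (nat_lit 3) (nat_lit 58411179370388035811) (ZL.cons (nat_lit 11676) (nat_lit 6) (nat_lit 116493286487343670884) (ZL.cons (nat_lit 11760) (nat_lit 6) (nat_lit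 116634380242911250604) (ZL.cons (nat_lit 11844) (nat_lit 6) (nat_lit 116916903691559666186) (ZL.cons (nat_lit 11928) (nat_lit 6) (nat_lit 117341529508166651950) (ZL.cons (nat_lit 12012) (nat_lit 6) (nat_lit 117909268706581272150) (ZL.cons (nat_lit 12096) (nat_lit 6) (nat_lit 117028518868763646886) (ZL.cons (nat_lit 12180) (nat_lit 6) (nat_lit 116369784858228311308) (ZL.cons (nat_lit 12264) (nat_lit 6) (nat_lit 115931498260664466996) (ZL.cons (nat_lit 12348) (nat_lit 6) (nat_lit 115712615536554104792) (ZL.cons (nat_lit 12432) (nat_lit 3) (nat_lit 57606606454472465742) (ZL.cons (nat_lit 12516) (nat_lit 6) (nat_lit 115285480442284423536) (ZL.cons (nat_lit 12600) (nat_lit 6) (nat_lit 115502455107858469910) (ZL.cons (nat_lit 12684) (nat_lit 6) (nat_lit 115864653512013675478) (ZL.cons (nat_lit 12768) (nat_lit 6) (nat_lit 116372938031902790728) (ZL.cons (nat_lit 12852) (nat_lit 6) (nat_lit 115621970300998907390)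 (ZL.cons (nat_lit 12936) (nat_lit 6) (nat_lit 115086838297048087932) (ZL.cons (nat_lit 13020) (nat_lit 6) (nat_lit 114766267896231401826) (ZL.cons (nat_lit 13104) (nat_lit 3) (nat_lit 57329747917844880863) (ZL.cons (nat_lit 13188) (nat_lit 6) (nat_lit 114135188970799426062) (ZL.cons (nat_lit 13272) (nat_lit 6) (nat_lit 114283337414145384768) (ZL.cons (nat_lit 13356) (nat_lit 6) (nat_lit 114579987035226221128) (ZL.cons (nat_lit 13440) (nat_lit 6) (nat_lit 115025844142663556182) (ZL.cons (nat_lit 13524) (nat_lit 6) (nat_lit 114398478418344188964) (ZL.cons (nat_lit 13608) (nat_lit 6) (nat_lit 113981062611140527712) (ZL.cons (nat_lit 13692) (nat_lit 6) (nat_lit 113772602873892563710) (ZL.cons (nat_lit 13776) (nat_lit 3) (nat_lit 56590383519619218380) (ZL.cons (nat_lit 13860) (nat_lit 6) (nat_lit 113256647949244903414) (ZL.cons (nat_lit 13944) (nat_lit 6) (nat_lit 113484471348097652106) (ZL.cons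 (nat_lit 14028) (nat_lit 6) (nat_lit 113864779672460617952) (ZL.cons (nat_lit 14112) (nat_lit 6) (nat_lit 113355130144888408940) (ZL.cons (nat_lit 14196) (nat_lit 6) (nat_lit 113049825001253469792) (ZL.cons (nat_lit 14280) (nat_lit 3) (nat_lit 56474068662273572945) (ZL.cons (nat_lit 14364) (nat_lit 6) (nat_lit 112419942214431072318) (ZL.cons (nat_lit 14448) (nat_lit 6) (nat_lit 112575498079944328958) (ZL.cons (nat_lit 14532) (nat_lit 6) (nat_lit 112886980182079207136) (ZL.cons (nat_lit 14616) (nat_lit 6) (nat_lit 112489441318075720228) (ZL.cons (nat_lit 14700) (nat_lit 6) (nat_lit 112290908234982421180) (ZL.cons (nat_lit 14784) (nat_lit 3) (nat_lit 55885614026596214990) (ZL.cons (nat_lit 14868) (nat_lit 6) (nat_lit 111850903008699219966) (ZL.cons (nat_lit 14952) (nat_lit 6) (nat_lit 112090117577494606092) (ZL.cons (nat_lit 15036) (nat_lit 6) (nat_lit 111799350774032759284) (ZL.cons (nat_lit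 15120) (nat_lit 3) (nat_lit 55851252683822892069) (ZL.cons (nat_lit 15204) (nat_lit 6) (nat_lit 111308960908002217728) (ZL.cons (nat_lit 15288) (nat_lit 6) (nat_lit 111472294566791137200) (ZL.cons (nat_lit 15372) (nat_lit 6) (nat_lit 111283215440035614294) (ZL.cons (nat_lit 15456) (nat_lit 3) (nat_lit 55474190719759164689) (ZL.cons (nat_lit 15540) (nat_lit 6) (nat_lit 111032040142800458864) (ZL.cons (nat_lit 15624) (nat_lit 3) (nat_lit 55469903211215955552) (ZL.cons (nat_lit 15708) (nat_lit 6) (nat_lit 110768306080703545660) (ZL.cons (nat_lit 15792) (nat_lit 1) (nat_lit 18446744073709551617) ZL.nil)))))))))))))))))))))))))))))))))))))))))))))))))))))))))))))))))))))))))))))))))))))))))))))))))))))))))))))))))))))))))))))))))))))))))))))))))))))))))))))))))))))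

noncomputable def vl : XL := ⟨(nat_lit 0), (nat_lit 0), (nat_lit 536870912), (nat_lit 0), (nat_lit 0), (nat_lit 0), (nat_lit 0), (nat_lit 0), (nat_lit 0), (nat_lit 1), (nat_lit 0), (nat_lit 1), (nat_lit 0), (nat_lit 0), (nat_lit 0), (nat_lit 0)⟩

noncomputable def cp0 : Nat := (nat_lit 2016760486483552852695627119025500621782360813240787143372153979494417600558868127174329746510098425384227370038971449401122428862050067289309603788380306676160481497348984717094198655167306674031733898144890390672902890909158523479734196547948604057248502641027772173873023974278664194495727574771706523561252425239745757670807609644131976673577158024976501605305990283561134015807301634963548613400346900561563930425399749837787447600767812530039498905922687411981075906547593450043335631781348202801298871698889615676667780173802949857724993405053970815866796649892353929929618244656396971690435935162353747298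08651091922488157545574076978816320978889533209111275844726203888339096521727885878880661425786451200477287422004396557793114020090523620664515049205356360694369604653293590923434754582997320307982047032699389544975815035110384801365172161252363842737670264816643887229727293421168667925110203886513740503220886857036434213709768123943262661145360243207596121652464243875059627317212929314877356886954540144465277090125090852276437591062536990538095525698308132948758094743820818165704499574157702409320034778822836421135798807488532628803732875735070016864958794579252811121798479329178126311137600781903244293343521803100383438437829128190707179394656369886028659818181054693298251347506930637460732602961520963283289628978042147773614092191262606549650161554386238454603128195382280127065113711813498925850069665111429374420858926895735699849424913923089149024977241868496606075883458838998822519103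46515041289465932252655906318243056288344051715860742434124225860108180468703325228584912116251268988176915158062365795542528786206343898300671436535886154941585654300703858011945119958601338655477503562742581791918026746470187409141164212469711280182000056470820553728695857755816506931397777089416944324539642934408832962916235336354077802649542309092544889121430439929533068432062354742094453523347974583468988379864366906342135055318859518298723663503542065250653674405526998713702966584401420309261159350443796903986861365063135043262002821981351956674230878658007455186623059273842524585346015287369717355999987456072293133500627347183857209102773450810846334542927313840328794996045007116572793332490286244326837535415254377903269311839555755560143991360184336150656438034010872257434260844560493743808882619281978918960168189553637303196457238562151560964302297181457450229752844601994430422794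38677683159485788205150242993871389382219203327422508283639884595019822481050253570575292227120396684864521915694754335778966448967025816184489763418088015615008639834269905574346849946676135886416835093281395240490965519759891840521677029272175658332169298005915120943289716818316876403671721852922057927460811532510991868614092361827484386743207056575166713558220234569643696437177308659076926418438669913298830136705410678924310139353742326719863438731657654675341266248177570478768657146863404908527880188699829300394453966601183404559079931746313364350808993546286774135445004158112162246827776986284776511380523815493391757584307414132822715291977927508143213811418293618216833405878176974026888897447854237812278482310045008808184690996178637782509086181488533008986982254638878678176784534826640430710825680518131803169256958213168726554928078997952104080545122304797084008298165561962740528037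40865204892274404490658267501106569998625731710908788794750528578898068834715522600604274783003102218358195677421206756736658032115911137825500827113252689755623055480735984547913266078668125456497010862176517978477063162650049680596064247594664955041797296662031362013451150480742134755020061558212114331123773572041188058889507684872639375461001202986964503530732338609104001256978721291230920553141668563907360815720682530300071215512237104440380539434882760635796382867224679250416291409371867449987602754339347613134508918512193645519783226917346890229995669500103815465221335104192439666838036236763608694342442700867391028007570271399670659854394999974289627232039595048685269635041453014796044110148153007901107312480626171522704465588799092644458477544908968524671788293965947490315231507368375122662194276550136953364176821439349741664285848887525711182719333183113533953816603874556060517170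10105609841624707428260091030033879958258863022292576711901717083559821365042938594978972501883065036599667763055872015204947428389707556016671378914877066777260818779423977324690061006106690242370778726090868072330322563756267886090074154708583608618684866348298981359432878684349923453292164758491367337152739869748609141617696868662207372895581603090989897270073841455817799262815691055680431479260332210827703765060895177801712684626056477530167631732513869481084995373473776926563140463182679820229529638652144920497728954858391725340817929441116160)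

noncomputable def cp1 : Nat := (nat_lit 84120651369216516050591735287914226928111288909213834879474959043076703450364590244037726148732987419201329098256840429478340022577491511773279251801670560134277012579932672553454716882411458140796446217558451360120679528394811097826693836327536208784941451676037934619912579226194722274226617116197081618737522156145964099501599528692899771575254830714141652909296664889573103327861203109334713406867017222007389005977586706413632602011794382821143895293702729211246217327049150127149483023294886878593535469818132640010338030561392984963812473810949689725956103397309988388087734727022990627875498209735406711193828449196746018435830581514620964734920277573320348215645623300848204003146828630016925351785937989710293945289592794892580005181583984509875814218744005307637962255224040059972426611536552781351558122786654606065138101072276460524620344282059443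44765890048927003319990152844371032511821799727805295059786662502663487358552422786908077114827214001822010880271387363149316183110275361750118821525059159398480444326054345457570338008331640414430096251713277801857762615598380567367128977282379419773247666919809932325050957366884051901112686071647992891044639689505344771498000596883350871969177445261081608465971015162861948872634684994083413012570495855264153905738970955667085153195272834950579448914640435302890704201952485309087345804360983027598123519044904101995338711361421027537706985934415310128491768630800756980166465822737160961373106988234525252506936552353938912327466785346250560326247557488110337352086374011846917673735677895002645317583316861679282704956018182007551458438602137200096175412442157343290813788266020940112225566056115267917375752588785165943165418024392483421765742610969243789159572677972964604856340479728323389528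24236360439876628466138401611817092639564481763699763625508850936223610103068823703133498880512067909019949674723930923059325645309607135570356514873647547714661646262751704494217508378286897647050736747247950005215206667129613315312137874330252905298764034727538870549167502995349230318840189578961965833184241866889454208144067489863456486415917731143987891173174200659279551608122436886757923954154505547719892421524102380642755822403464434446353044085730016577550325736688064334921295884629551315996157555390406387080449164924860950307522842841241745289427648047378935092117906674597876351143937230590634288374025264848887925228603300859089484830225587972926605353251155643634372389328339005737141066791463532430484801999882529326562953379384615225608757306880902363257413041019232940017559436604912520827514400995991500018765582733363148261729994185048356425079572245721088865609232694477072045357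39213465414858479567476439265382092698661780144890962129351187070168537817543405873882442358621226930102391586416304416584347219184465048278117833137016979397520970758023054503632724617276294212357829748154460484037631563068409999257620861100455992957189875978853345867345588233102430891008449747505036613643599652550645048906263143841865415433118256524137971550336195113061821202046541484529744308494836203506751417394481941652554036867222421452213999875634901924160361343045521812910420987431268256055994757764079617616193036632944181415611323821544953338936704503900903984127470924685105016488121943242130055645989580754160732607488677394749447062137958802013224466533879540205052206952178071012318322103570671118539114038242994163983877474665331477463085627417281169153757458058669929168995335618737097431798439639805656475311925320427176412420580284765539841974875826420575304804962971455851142361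13007298485330364280406344035485719675822688116771527918480983691298643373021252435150460390143693382617945082766469925872780155145398000166567615577015939896683501088992640308668776884795889876558187804956837008062138228966889126180264354728567868464359029979181682701891590073636093505573720030907136457157459963353348346784211952811540612109188387435283511065924037483814655634612020509462692173881005148200587088938760185606993724285325489363770973608007814589651232452599895987903989591977284519569778931789190821143933035893787137209502372164841145874861837301232220687670142617939595460427045105513542680205635898484245183631015750440286754593644103941746087814145141205433727014851103566079716882268021876585079142244683372213882440644657989512493324584297035416535681002728409934638862378331730942538608026142023407393242241647873534224528757728393747222358894162325552973275291476340110322717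55296313159659226321517536297822712805862593727833884374708780051739512885255536013485669753390281714708078647455090657525757428738846583317331360553137554777975179029592586449501638542746207374217167761951242390379292778273040602587234472661285621187745512176260280604477577397228452520577026714099636494734597898436753304635700454702602258953637064153512444519975150446824184594968925826914418358526160507815161764292012018515740071884730348415917659257319720033580425981643691476720187918735012765154356043489882348122990962156745772171326760595454537383802861990202354397400808072419132611181965958719816855439880087153792630386370826264277453818842040310954205271026932417019693807223833587749224545982546443347688625368966618060242265936500644408865895744715037049624179084386690219819053391153358483291585031011383082455634900766258524585579554894674254044258382271228243759049335324251113299899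18830498181944645068024971817741331574219785011896672803960782867461469472482856000365412017031885736447231510847328513858775335619730279767454531983952767614674577995133926006144995954250239117579456080203041902514826764915092634622532368700408464802742848907072427780351814892975608494770631085810051499743846362243457883916000812371831485316921394596473630557472917824045387542516834079650160112653791430928355888772125258015853938690169561601735157747378849237369853948962027730421134220272176133847875420748731400008625865662802814244921076908070081120577832952892577606762657339570730510071030575983374785058570207184685013444184514846400692151939996739461495107096759931167911525633149360676165329741331920292636813421804493228767475215513045715617478587465600886047145245350982930235340961963099050618859908980675753033711608232107337565193418377964373208582167532152814975885925191343631813710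4458081068334527381745326923023656445122540574506047885057989090959424730496197992059933039613360462617742143088679493183478533434174980122244196416953428704887040924722022390949711756554464628541448290852702115923762791766008442702016288894483011781085133420060694257462231336626687672277318228079026821237002760054499027911424026306857424995308056252213862968999496563824101665303668400287700088950439853362710443643109517446169626326928529117475533056896242900808261434377173749848782994378128971380813378231093344584122808458562925917286770024028671707984559999401900701336843812110528348675620228)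

noncomputable def rc0 : Nat := (nat_lit 84120651369216516050591735287914226928111288909213834879474959043076703450364590244037726148732987419201329098256840429478340022577491511773279251801670560134277012579932672553454716882411458140796446217558451360120679528394811097826693836327536208784941451676037934619912579226194722274226617116197081618737522156145964099501599528692899771575254830714141652909296664889573103327861203109334713406867017222007389005977586706413632602011794382821143895293702729211246217327049150127149483023294886878593535469818132640010338030561392984963812473810949689725956103397309988388087734727022990627875498209735406711193828449196746018435830581514620964734920277573320348215645623300848204003146828630016925351785937989710293945289592794892580005181583984509875814218744005307637962255224040059972426611536552781351558122786654606065138101072276460524620344282059443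44765890048927003319990152844371032511821799727805295059786662502663487358552422786908077114827214001822010880271387363149316183110275361750118821525059159398480444326054345457570338008331640414430096251713277801857762615598380567367128977282379419773247666919809932325050957366884051901112686071647992891044639689505344771498000596883350871969177445261081608465971015162861948872634684994083413012570495855264153905738970955667085153195272834950579448914640435302890704201952485309087345804360983027598123519044904101995338711361421027537706985934415310128491768630800756980166465822737160961373106988234525252506936552353938912327466785346250560326247557488110337352086374011846917673735677895002645317583316861679282704956018182007551458438602137200096175412442157343290813788266020940112225566056115267917375752588785165943165418024392483421765742610969243789159572677972964604856340479728323389528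24236360439876628466138401611817092639564481763699763625508850936223610103068823703133498880512067909019949674723930923059325645309607135570356514873647547714661646262751704494217508378286897647050736747247950005215206667129613315312137874330252905298764034727538870549167502995349230318840189578961965833184241866889454208144067489863456486415917731143987891173174200659279551608122436886757923954154505547719892421524102380642755822403464434446353044085730016577550325736688064334921295884629551315996157555390406387080449164924860950307522842841241745289427648047378935092117906674597876351143937230590634288374025264848887925228603300859089484830225587972926605353251155643634372389328339005737141066791463532430484801999882529326562953379384615225608757306880902363257413041019232940017559436604912520827514400995991500018765582733363148261729994185048356425079572245721088865609232694477072045357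39213465414858479567476439265382092698661780144890962129351187070168537817543405873882442358621226930102391586416304416584347219184465048278117833137016979397520970758023054503632724617276294212357829748154460484037631563068409999257620861100455992957189875978853345867345588233102430891008449747505036613643599652550645048906263143841865415433118256524137971550336195113061821202046541484529744308494836203506751417394481941652554036867222421452213999875634901924160361343045521812910420987431268256055994757764079617616193036632944181415611323821544953338936704503900903984127470924685105016488121943242130055645989580754160732607488677394749447062137958802013224466533879540205052206952178071012318322103570671118539114038242994163983877474665331477463085627417281169153757458058669929168995335618737097431798439639805656475311925320427176412420580284765539841974875826420575304804962971455851142361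13007298485330364280406344035485719675822688116771527918480983691298643373021252435150460390143693382617945082766469925872780155145398000166567615577015939896683501088992640308668776884795889876558187804956837008062138228966889126180264354728567868464359029979181682701891590073636093505573720030907136457157459963353348346784211952811540612109188387435283511065924037483814655634612020509462692173881005148200587088938760185606993724285325489363770973608007814589651232452599895987903989591977284519569778931789190821143933035893787137209502372164841145874861837301232220687670142617939595460427045105513542680205635898484245183631015750440286754593644103941746087814145141205433727014851103566079716882268021876585079142244683372213882440644657989512493324584297035416535681002728409934638862378331730942538608026142023407393242241647873534224528757728393747222358894162325552973275291476340110322717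55296313159659226321517536297822712805862593727833884374708780051739512885255536013485669753390281714708078647455090657525757428738846583317331360553137554777975179029592586449501638542746207374217167761951242390379292778273040602587234472661285621187745512176260280604477577397228452520577026714099636494734597898436753304635700454702602258953637064153512444519975150446824184594968925826914418358526160507815161764292012018515740071884730348415917659257319720033580425981643691476720187918735012765154356043489882348122990962156745772171326760595454537383802861990202354397400808072419132611181965958719816855439880087153792630386370826264277453818842040310954205271026932417019693807223833587749224545982546443347688625368966618060242265936500644408865895744715037049624179084386690219819053391153358483291585031011383082455634900766258524585579554894674254044258382271228243759049335324251113299899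18830498181944645068024971817741331574219785011896672803960782867461469472482856000365412017031885736447231510847328513858775335619730279767454531983952767614674577995133926006144995954250239117579456080203041902514826764915092634622532368700408464802742848907072427780351814892975608494770631085810051499743846362243457883916000812371831485316921394596473630557472917824045387542516834079650160112653791430928355888772125258015853938690169561601735157747378849237369853948962027730421134220272176133847875420748731400008625865662802814244921076908070081120577832952892577606762657339570730510071030575983374785058570207184685013444184514846400692151939996739461495107096759931167911525633149360676165329741331920292636813421804493228767475215513045715617478587465600886047145245350982930235340961963099050618859908980675753033711608232107337565193418377964373208582167532152814975885925191343631813710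4458081068334527381745326923023656445122540574506047885057989090959424730496197992059933039613360462617742143088679493183478533434174980122244196416953428704887040924722022390949711756554464628541448290852702115923762791766008442702016288894483011781085133420060694257462231336626687672277318228079026821237002760054499027911424026306857424995308056252213862968999496563824101665303668400287700088950439853362710443643109517446169626326928529117475533056896242900808261434377173749848782994378128971380813378231093344584122808458562925917286770024028671707984559999401900701336843812110528348675620228)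

end Vale.Agent.Lib.P154.Chain.D4.S4
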