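import Vale.Agent.Lib.P154.Chain.D4.R4_0

set_option linter.all false

namespace Vale.Agent.Lib.P154.Chain.D4.S5

noncomputable def pc0 : PT := (PT.nd (nat_lit 195144) (PT.nd (nat_lit 82344) (PT.nd (nat_lit 44556) (PT.nd (nat_lit 7050) (PT.nd (nat_lit 6956) (PT.nd (nat_lit 6862) PT.nil (PT.lf (nat_lit 84) (nat_lit 6) (nat_lit 1) (nat_lit 3) (nat_lit 73) (nat_lit 0) (nat_lit 77))) (PT.lf (nat_lit 168) (nat_lit 6) (nat_lit 2) (nat_lit 3) (nat_lit 74) (nat_lit 0) (nat_lit 76))) (PT.nd (nat_lit 94) (PT.lf (nat_lit 252) (nat_lit 3) (nat_lit 3) (nat_lit 1) (nat_lit 75) (nat_lit 0) (nat_lit 75)) (PT.nd (nat_lit 94) (PT.lf (nat_lit 168) (nat_lit 6) (nat_lit 2) (nat_lit 1) (nat_lit 76) (nat_lit 0) (nat_lit 74)) (PT.lf (nat_lit 84) (nat_lit 6) (nat_lit 1) (nat_lit 1) (nat_lit 77) (nat_lit 0) (nat_lit 73))))) (PT.nd (nat_lit 282) (PT.nd (nat_lit 94) (PT.lf (nat_lit 336) (nat_lit 6) (nat_lit 4) (nat_lit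 3) (nat_lit 73) (nat_lit 1) (nat_lit 76)) (PT.nd (nat_lit 94) (PT.lf (nat_lit 420) (nat_lit 6) (nat_lit 5) (nat_lit 3) (nat_lit 74) (nat_lit 1) (nat_lit 75)) (PT.lf (nat_lit 420) (nat_lit 6) (nat_lit 5) (nat_lit 1) (nat_lit 75) (nat_lit 1) (nat_lit 74)))) (PT.nd (nat_lit 37318) (PT.lf (nat_lit 336) (nat_lit 6) (nat_lit 4) (nat_lit 1) (nat_lit 76) (nat_lit 1) (nat_lit 73)) (PT.nd (nat_lit 94) (PT.lf (nat_lit 504) (nat_lit 6) (nat_lit 6) (nat_lit 3) (nat_lit 72) (nat_lit 2) (nat_lit 76)) (PT.lf (nat_lit 588) (nat_lit 6) (nat_lit 7) (nat_lit 3) (nat_lit 73) (nat_lit 2) (nat_lit 75)))))) (PT.nd (nat_lit 37788) (PT.nd (nat_lit 37506) (PT.nd (nat_lit 94) (PT.lf (nat_lit 672) (nat_lit 3) (nat_lit 8) (nat_lit 1) (nat_lit 74) (nat_lit 2) (nat_lit 74)) (PT.nd (nat_lit 94) (PT.lf (nat_lit 588) (nat_lit 6) (nat_lit 7) (nat_lit 1) (nat_lit 75) (nat_lit 2) (nat_lit 73)) (PT.lf (nat_lit 504) (nat_lit 6)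 (nat_lit 6) (nat_lit 1) (nat_lit 76) (nat_lit 2) (nat_lit 72)))) (PT.nd (nat_lit 94) (PT.lf (nat_lit 756) (nat_lit 6) (nat_lit 9) (nat_lit 3) (nat_lit 72) (nat_lit 3) (nat_lit 75)) (PT.nd (nat_lit 94) (PT.lf (nat_lit 840) (nat_lit 6) (nat_lit 10) (nat_lit 3) (nat_lit 73) (nat_lit 3) (nat_lit 74)) (PT.lf (nat_lit 840) (nat_lit 6) (nat_lit 10) (nat_lit 1) (nat_lit 74) (nat_lit 3) (nat_lit 73))))) (PT.nd (nat_lit 37506) (PT.nd (nat_lit 37318) (PT.lf (nat_lit 756) (nat_lit 6) (nat_lit 9) (nat_lit 1) (nat_lit 75) (nat_lit 3) (nat_lit 72)) (PT.nd (nat_lit 94) (PT.lf (nat_lit 924) (nat_lit 6) (nat_lit 11) (nat_lit 3) (nat_lit 71) (nat_lit 4) (nat_lit 75)) (PT.lf (nat_lit 1008) (nat_lit 6) (nat_lit 12) (nat_lit 3) (nat_lit 72) (nat_lit 4) (nat_lit 74)))) (PT.nd (nat_lit 94) (PT.lf (nat_lit 1092) (nat_lit 3) (nat_lit 13) (nat_lit 1) (nat_lit 73) (nat_lit 4) (nat_lit 73)) (PT.nd (nat_lit 94) (PT.lf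 (nat_lit 1008) (nat_lit 6) (nat_lit 12) (nat_lit 1) (nat_lit 74) (nat_lit 4) (nat_lit 72)) (PT.lf (nat_lit 924) (nat_lit 6) (nat_lit 11) (nat_lit 1) (nat_lit 75) (nat_lit 4) (nat_lit 71))))))) (PT.nd (nat_lit 75482) (PT.nd (nat_lit 37788) (PT.nd (nat_lit 282) (PT.nd (nat_lit 94) (PT.lf (nat_lit 1176) (nat_lit 6) (nat_lit 14) (nat_lit 3) (nat_lit 71) (nat_lit 5) (nat_lit 74)) (PT.nd (nat_lit 94) (PT.lf (nat_lit 1260) (nat_lit 6) (nat_lit 15) (nat_lit 3) (nat_lit 72) (nat_lit 5) (nat_lit 73)) (PT.lf (nat_lit 1260) (nat_lit 6) (nat_lit 15) (nat_lit 1) (nat_lit 73) (nat_lit 5) (nat_lit 72)))) (PT.nd (nat_lit 37318) (PT.lf (nat_lit 1176) (nat_lit 6) (nat_lit 14) (nat_lit 1) (nat_lit 74) (nat_lit 5) (nat_lit 71)) (PT.nd (nat_lit 94) (PT.lf (nat_lit 1344) (nat_lit 6) (nat_lit 16) (nat_lit 3) (nat_lit 70) (nat_lit 6) (nat_lit 74)) (PT.lf (nat_lit 1428) (nat_lit 6) (nat_lit 17) (nat_lit 3) (nat_lit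 71) (nat_lit 6) (nat_lit 73))))) (PT.nd (nat_lit 37412) (PT.nd (nat_lit 94) (PT.lf (nat_lit 1512) (nat_lit 3) (nat_lit 18) (nat_lit 1) (nat_lit 72) (nat_lit 6) (nat_lit 72)) (PT.nd (nat_lit 94) (PT.lf (nat_lit 1428) (nat_lit 6) (nat_lit 17) (nat_lit 1) (nat_lit 73) (nat_lit 6) (nat_lit 71)) (PT.lf (nat_lit 1344) (nat_lit 6) (nat_lit 16) (nat_lit 1) (nat_lit 74) (nat_lit 6) (nat_lit 70)))) (PT.nd (nat_lit 94) (PT.lf (nat_lit 1596) (nat_lit 6) (nat_lit 19) (nat_lit 3) (nat_lit 69) (nat_lit 7) (nat_lit 74)) (PT.nd (nat_lit 94) (PT.lf (nat_lit 1680) (nat_lit 6) (nat_lit 20) (nat_lit 3) (nat_lit 70) (nat_lit 7) (nat_lit 73)) (PT.lf (nat_lit 1764) (nat_lit 6) (nat_lit 21) (nat_lit 3) (nat_lit 71) (nat_lit 7) (nat_lit 72)))))) (PT.nd (nat_lit 37694) (PT.nd (nat_lit 37412) (PT.nd (nat_lit 94) (PT.lf (nat_lit 1764) (nat_lit 6) (nat_lit 21) (nat_lit 1) (nat_lit 72) (nat_lit 7) (nat_lit 71)) (PT.nd (nat_lit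 94) (PT.lf (nat_lit 1680) (nat_lit 6) (nat_lit 20) (nat_lit 1) (nat_lit 73) (nat_lit 7) (nat_lit 70)) (PT.lf (nat_lit 1596) (nat_lit 6) (nat_lit 19) (nat_lit 1) (nat_lit 74) (nat_lit 7) (nat_lit 69)))) (PT.nd (nat_lit 94) (PT.lf (nat_lit 1848) (nat_lit 6) (nat_lit 22) (nat_lit 3) (nat_lit 69) (nat_lit 8) (nat_lit 73)) (PT.nd (nat_lit 94) (PT.lf (nat_lit 1932) (nat_lit 6) (nat_lit 23) (nat_lit 3) (nat_lit 70) (nat_lit 8) (nat_lit 72)) (PT.lf (nat_lit 2016) (nat_lit 3) (nat_lit 24) (nat_lit 1) (nat_lit 71) (nat_lit 8) (nat_lit 71))))) (PT.nd (nat_lit 37412) (PT.nd (nat_lit 94) (PT.lf (nat_lit 1932) (nat_lit 6) (nat_lit 23) (nat_lit 1) (nat_lit 72) (nat_lit 8) (nat_lit 70)) (PT.nd (nat_lit 37224) (PT.lf (nat_lit 1848) (nat_lit 6) (nat_lit 22) (nat_lit 1) (nat_lit 73) (nat_lit 8) (nat_lit 69)) (PT.lf (nat_lit 2100) (nat_lit 6) (nat_lit 25) (nat_lit 3) (nat_lit 68) (nat_lit 9) (nat_lit 73)))) (PT.nd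 (nat_lit 94) (PT.lf (nat_lit 2184) (nat_lit 6) (nat_lit 26) (nat_lit 3) (nat_lit 69) (nat_lit 9) (nat_lit 72)) (PT.nd (nat_lit 94) (PT.lf (nat_lit 2268) (nat_lit 6) (nat_lit 27) (nat_lit 3) (nat_lit 70) (nat_lit 9) (nat_lit 71)) (PT.lf (nat_lit 2268) (nat_lit 6) (nat_lit 27) (nat_lit 1) (nat_lit 71) (nat_lit 9) (nat_lit 70))))))))
noncomputable def pc1 : PT := (PT.nd (nat_lit 150588) (PT.nd (nat_lit 75388) (PT.nd (nat_lit 37694) (PT.nd (nat_lit 37412) (PT.nd (nat_lit 94) (PT.lf (nat_lit 2184) (nat_lit 6) (nat_lit 26) (nat_lit 1) (nat_lit 72) (nat_lit 9) (nat_lit 69)) (PT.nd (nat_lit 37224) (PT.lf (nat_lit 2100) (nat_lit 6) (nat_lit 25) (nat_lit 1) (nat_lit 73) (nat_lit 9) (nat_lit 68)) (PT.lf (nat_lit 2352) (nat_lit 6) (nat_lit 28) (nat_lit 3) (nat_lit 68) (nat_lit 10) (nat_lit 72)))) (PT.nd (nat_lit 94) (PT.lf (nat_lit 2436) (nat_lit 6) (nat_lit 29) (nat_lit 3) (nat_lit 69) (nat_lit 10) (nat_lit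 71)) (PT.nd (nat_lit 94) (PT.lf (nat_lit 2520) (nat_lit 3) (nat_lit 30) (nat_lit 1) (nat_lit 70) (nat_lit 10) (nat_lit 70)) (PT.lf (nat_lit 2436) (nat_lit 6) (nat_lit 29) (nat_lit 1) (nat_lit 71) (nat_lit 10) (nat_lit 69))))) (PT.nd (nat_lit 37412) (PT.nd (nat_lit 37224) (PT.lf (nat_lit 2352) (nat_lit 6) (nat_lit 28) (nat_lit 1) (nat_lit 72) (nat_lit 10) (nat_lit 68)) (PT.nd (nat_lit 94) (PT.lf (nat_lit 2604) (nat_lit 6) (nat_lit 31) (nat_lit 3) (nat_lit 67) (nat_lit 11) (nat_lit 72)) (PT.lf (nat_lit 2688) (nat_lit 6) (nat_lit 32) (nat_lit 3) (nat_lit 68) (nat_lit 11) (nat_lit 71)))) (PT.nd (nat_lit 94) (PT.lf (nat_lit 2772) (nat_lit 6) (nat_lit 33) (nat_lit 3) (nat_lit 69) (nat_lit 11) (nat_lit 70)) (PT.nd (nat_lit 94) (PT.lf (nat_lit 2772) (nat_lit 6) (nat_lit 33) (nat_lit 1) (nat_lit 70) (nat_lit 11) (nat_lit 69)) (PT.lf (nat_lit 2688) (nat_lit 6) (nat_lit 32) (nat_lit 1) (nat_lit 71) (nat_lit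 11) (nat_lit 68)))))) (PT.nd (nat_lit 37600) (PT.nd (nat_lit 37318) (PT.nd (nat_lit 37130) (PT.lf (nat_lit 2604) (nat_lit 6) (nat_lit 31) (nat_lit 1) (nat_lit 72) (nat_lit 11) (nat_lit 67)) (PT.nd (nat_lit 94) (PT.lf (nat_lit 2856) (nat_lit 6) (nat_lit 34) (nat_lit 3) (nat_lit 66) (nat_lit 12) (nat_lit 72)) (PT.lf (nat_lit 2940) (nat_lit 6) (nat_lit 35) (nat_lit 3) (nat_lit 67) (nat_lit 12) (nat_lit 71)))) (PT.nd (nat_lit 94) (PT.lf (nat_lit 3024) (nat_lit 6) (nat_lit 36) (nat_lit 3) (nat_lit 68) (nat_lit 12) (nat_lit 70)) (PT.nd (nat_lit 94) (PT.lf (nat_lit 3108) (nat_lit 3) (nat_lit 37) (nat_lit 1) (nat_lit 69) (nat_lit 12) (nat_lit 69)) (PT.lf (nat_lit 3024) (nat_lit 6) (nat_lit 36) (nat_lit 1) (nat_lit 70) (nat_lit 12) (nat_lit 68))))) (PT.nd (nat_lit 37318) (PT.nd (nat_lit 94) (PT.lf (nat_lit 2940) (nat_lit 6) (nat_lit 35) (nat_lit 1) (nat_lit 71) (nat_lit 12) (nat_lit 67)) (PT.nd (nat_lit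 37130) (PT.lf (nat_lit 2856) (nat_lit 6) (nat_lit 34) (nat_lit 1) (nat_lit 72) (nat_lit 12) (nat_lit 66)) (PT.lf (nat_lit 3192) (nat_lit 6) (nat_lit 38) (nat_lit 3) (nat_lit 66) (nat_lit 13) (nat_lit 71)))) (PT.nd (nat_lit 94) (PT.lf (nat_lit 3276) (nat_lit 6) (nat_lit 39) (nat_lit 3) (nat_lit 67) (nat_lit 13) (nat_lit 70)) (PT.nd (nat_lit 94) (PT.lf (nat_lit 3360) (nat_lit 6) (nat_lit 40) (nat_lit 3) (nat_lit 68) (nat_lit 13) (nat_lit 69)) (PT.lf (nat_lit 3360) (nat_lit 6) (nat_lit 40) (nat_lit 1) (nat_lit 69) (nat_lit 13) (nat_lit 68))))))) (PT.nd (nat_lit 75200) (PT.nd (nat_lit 37600) (PT.nd (nat_lit 37318) (PT.nd (nat_lit 94) (PT.lf (nat_lit 3276) (nat_lit 6) (nat_lit 39) (nat_lit 1) (nat_lit 70) (nat_lit 13) (nat_lit 67)) (PT.nd (nat_lit 37130) (PT.lf (nat_lit 3192) (nat_lit 6) (nat_lit 38) (nat_lit 1) (nat_lit 71) (nat_lit 13) (nat_lit 66)) (PT.lf (nat_lit 3444) (nat_lit 6) (nat_lit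 41) (nat_lit 3) (nat_lit 65) (nat_lit 14) (nat_lit 71)))) (PT.nd (nat_lit 94) (PT.lf (nat_lit 3528) (nat_lit 6) (nat_lit 42) (nat_lit 3) (nat_lit 66) (nat_lit 14) (nat_lit 70)) (PT.nd (nat_lit 94) (PT.lf (nat_lit 3612) (nat_lit 6) (nat_lit 43) (nat_lit 3) (nat_lit 67) (nat_lit 14) (nat_lit 69)) (PT.lf (nat_lit 3696) (nat_lit 3) (nat_lit 44) (nat_lit 1) (nat_lit 68) (nat_lit 14) (nat_lit 68))))) (PT.nd (nat_lit 37318) (PT.nd (nat_lit 94) (PT.lf (nat_lit 3612) (nat_lit 6) (nat_lit 43) (nat_lit 1) (nat_lit 69) (nat_lit 14) (nat_lit 67)) (PT.nd (nat_lit 94) (PT.lf (nat_lit 3528) (nat_lit 6) (nat_lit 42) (nat_lit 1) (nat_lit 70) (nat_lit 14) (nat_lit 66)) (PT.lf (nat_lit 3444) (nat_lit 6) (nat_lit 41) (nat_lit 1) (nat_lit 71) (nat_lit 14) (nat_lit 65)))) (PT.nd (nat_lit 94) (PT.lf (nat_lit 3780) (nat_lit 6) (nat_lit 45) (nat_lit 3) (nat_lit 65) (nat_lit 15) (nat_lit 70)) (PT.nd (nat_lit 94) (PT.lf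 (nat_lit 3864) (nat_lit 6) (nat_lit 46) (nat_lit 3) (nat_lit 66) (nat_lit 15) (nat_lit 69)) (PT.lf (nat_lit 3948) (nat_lit 6) (nat_lit 47) (nat_lit 3) (nat_lit 67) (nat_lit 15) (nat_lit 68)))))) (PT.nd (nat_lit 37600) (PT.nd (nat_lit 37318) (PT.nd (nat_lit 94) (PT.lf (nat_lit 3948) (nat_lit 6) (nat_lit 47) (nat_lit 1) (nat_lit 68) (nat_lit 15) (nat_lit 67)) (PT.nd (nat_lit 94) (PT.lf (nat_lit 3864) (nat_lit 6) (nat_lit 46) (nat_lit 1) (nat_lit 69) (nat_lit 15) (nat_lit 66)) (PT.lf (nat_lit 3780) (nat_lit 6) (nat_lit 45) (nat_lit 1) (nat_lit 70) (nat_lit 15) (nat_lit 65)))) (PT.nd (nat_lit 94) (PT.lf (nat_lit 4032) (nat_lit 6) (nat_lit 48) (nat_lit 3) (nat_lit 64) (nat_lit 16) (nat_lit 70)) (PT.nd (nat_lit 94) (PT.lf (nat_lit 4116) (nat_lit 6) (nat_lit 49) (nat_lit 3) (nat_lit 65) (nat_lit 16) (nat_lit 69)) (PT.lf (nat_lit 4200) (nat_lit 6) (nat_lit 50) (nat_lit 3) (nat_lit 66) (nat_lit 16)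 (nat_lit 68))))) (PT.nd (nat_lit 282) (PT.nd (nat_lit 94) (PT.lf (nat_lit 4284) (nat_lit 3) (nat_lit 51) (nat_lit 1) (nat_lit 67) (nat_lit 16) (nat_lit 67)) (PT.nd (nat_lit 94) (PT.lf (nat_lit 4200) (nat_lit 6) (nat_lit 50) (nat_lit 1) (nat_lit 68) (nat_lit 16) (nat_lit 66)) (PT.lf (nat_lit 4116) (nat_lit 6) (nat_lit 49) (nat_lit 1) (nat_lit 69) (nat_lit 16) (nat_lit 65)))) (PT.nd (nat_lit 37036) (PT.lf (nat_lit 4032) (nat_lit 6) (nat_lit 48) (nat_lit 1) (nat_lit 70) (nat_lit 16) (nat_lit 64)) (PT.nd (nat_lit 94) (PT.lf (nat_lit 4368) (nat_lit 6) (nat_lit 52) (nat_lit 3) (nat_lit 63) (nat_lit 17) (nat_lit 70)) (PT.lf (nat_lit 4452) (nat_lit 6) (nat_lit 53) (nat_lit 3) (nat_lit 64) (nat_lit 17) (nat_lit 69))))))))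
noncomputable def pc2 : PT := (PT.nd (nat_lit 112894) (PT.nd (nat_lit 37976) (PT.nd (nat_lit 470) (PT.nd (nat_lit 188) (PT.nd (nat_lit 94) (PT.lf (nat_lit 4536) (nat_lit 6) (nat_lit 54) (nat_lit 3) (nat_lit 65) (nat_lit 17) (nat_lit 68)) (PT.lf (nat_lit 4620) (nat_lit 6) (nat_lit 55) (nat_lit 3) (nat_lit 66) (nat_lit 17) (nat_lit 67))) (PT.nd (nat_lit 94) (PT.lf (nat_lit 4620) (nat_lit 6) (nat_lit 55) (nat_lit 1) (nat_lit 67) (nat_lit 17) (nat_lit 66)) (PT.nd (nat_lit 94) (PT.lf (nat_lit 4536) (nat_lit 6) (nat_lit 54) (nat_lit 1) (nat_lit 68) (nat_lit 17) (nat_lit 65)) (PT.lf (nat_lit 4452) (nat_lit 6) (nat_lit 53) (nat_lit 1) (nat_lit 69) (nat_lit 17) (nat_lit 64))))) (PT.nd (nat_lit 37224) (PT.nd (nat_lit 37036) (PT.lf (nat_lit 4368) (nat_lit 6) (nat_lit 52) (nat_lit 1) (nat_lit 70) (nat_lit 17) (nat_lit 63)) (PT.nd (nat_lit 94) (PT.lf (nat_lit 4704) (nat_lit 6) (nat_lit 56) (nat_lit 3)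 (nat_lit 63) (nat_lit 18) (nat_lit 69)) (PT.lf (nat_lit 4788) (nat_lit 6) (nat_lit 57) (nat_lit 3) (nat_lit 64) (nat_lit 18) (nat_lit 68)))) (PT.nd (nat_lit 94) (PT.lf (nat_lit 4872) (nat_lit 6) (nat_lit 58) (nat_lit 3) (nat_lit 65) (nat_lit 18) (nat_lit 67)) (PT.nd (nat_lit 94) (PT.lf (nat_lit 4956) (nat_lit 3) (nat_lit 59) (nat_lit 1) (nat_lit 66) (nat_lit 18) (nat_lit 66)) (PT.lf (nat_lit 4872) (nat_lit 6) (nat_lit 58) (nat_lit 1) (nat_lit 67) (nat_lit 18) (nat_lit 65)))))) (PT.nd (nat_lit 37506) (PT.nd (nat_lit 37224) (PT.nd (nat_lit 94) (PT.lf (nat_lit 4788) (nat_lit 6) (nat_lit 57) (nat_lit 1) (nat_lit 68) (nat_lit 18) (nat_lit 64)) (PT.nd (nat_lit 37036) (PT.lf (nat_lit 4704) (nat_lit 6) (nat_lit 56) (nat_lit 1) (nat_lit 69) (nat_lit 18) (nat_lit 63)) (PT.lf (nat_lit 5040) (nat_lit 6) (nat_lit 60) (nat_lit 3) (nat_lit 62) (nat_lit 19) (nat_lit 69)))) (PT.nd (nat_lit 94) (PT.lf (nat_lit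 5124) (nat_lit 6) (nat_lit 61) (nat_lit 3) (nat_lit 63) (nat_lit 19) (nat_lit 68)) (PT.nd (nat_lit 94) (PT.lf (nat_lit 5208) (nat_lit 6) (nat_lit 62) (nat_lit 3) (nat_lit 64) (nat_lit 19) (nat_lit 67)) (PT.lf (nat_lit 5292) (nat_lit 6) (nat_lit 63) (nat_lit 3) (nat_lit 65) (nat_lit 19) (nat_lit 66))))) (PT.nd (nat_lit 282) (PT.nd (nat_lit 94) (PT.lf (nat_lit 5292) (nat_lit 6) (nat_lit 63) (nat_lit 1) (nat_lit 66) (nat_lit 19) (nat_lit 65)) (PT.nd (nat_lit 94) (PT.lf (nat_lit 5208) (nat_lit 6) (nat_lit 62) (nat_lit 1) (nat_lit 67) (nat_lit 19) (nat_lit 64)) (PT.lf (nat_lit 5124) (nat_lit 6) (nat_lit 61) (nat_lit 1) (nat_lit 68) (nat_lit 19) (nat_lit 63)))) (PT.nd (nat_lit 36942) (PT.lf (nat_lit 5040) (nat_lit 6) (nat_lit 60) (nat_lit 1) (nat_lit 69) (nat_lit 19) (nat_lit 62)) (PT.nd (nat_lit 94) (PT.lf (nat_lit 5376) (nat_lit 6) (nat_lit 64) (nat_lit 3) (nat_lit 61) (nat_lit 20) (nat_lit 69))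 (PT.lf (nat_lit 5460) (nat_lit 6) (nat_lit 65) (nat_lit 3) (nat_lit 62) (nat_lit 20) (nat_lit 68))))))) (PT.nd (nat_lit 37976) (PT.nd (nat_lit 564) (PT.nd (nat_lit 282) (PT.nd (nat_lit 94) (PT.lf (nat_lit 5544) (nat_lit 6) (nat_lit 66) (nat_lit 3) (nat_lit 63) (nat_lit 20) (nat_lit 67)) (PT.nd (nat_lit 94) (PT.lf (nat_lit 5628) (nat_lit 6) (nat_lit 67) (nat_lit 3) (nat_lit 64) (nat_lit 20) (nat_lit 66)) (PT.lf (nat_lit 5712) (nat_lit 3) (nat_lit 68) (nat_lit 1) (nat_lit 65) (nat_lit 20) (nat_lit 65)))) (PT.nd (nat_lit 94) (PT.lf (nat_lit 5628) (nat_lit 6) (nat_lit 67) (nat_lit 1) (nat_lit 66) (nat_lit 20) (nat_lit 64)) (PT.nd (nat_lit 94) (PT.lf (nat_lit 5544) (nat_lit 6) (nat_lit 66) (nat_lit 1) (nat_lit 67) (nat_lit 20) (nat_lit 63)) (PT.lf (nat_lit 5460) (nat_lit 6) (nat_lit 65) (nat_lit 1) (nat_lit 68) (nat_lit 20) (nat_lit 62))))) (PT.nd (nat_lit 37130) (PT.nd (nat_lit 36942) (PT.lf (nat_lit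 5376) (nat_lit 6) (nat_lit 64) (nat_lit 1) (nat_lit 69) (nat_lit 20) (nat_lit 61)) (PT.nd (nat_lit 94) (PT.lf (nat_lit 5796) (nat_lit 6) (nat_lit 69) (nat_lit 3) (nat_lit 61) (nat_lit 21) (nat_lit 68)) (PT.lf (nat_lit 5880) (nat_lit 6) (nat_lit 70) (nat_lit 3) (nat_lit 62) (nat_lit 21) (nat_lit 67)))) (PT.nd (nat_lit 94) (PT.lf (nat_lit 5964) (nat_lit 6) (nat_lit 71) (nat_lit 3) (nat_lit 63) (nat_lit 21) (nat_lit 66)) (PT.nd (nat_lit 94) (PT.lf (nat_lit 6048) (nat_lit 6) (nat_lit 72) (nat_lit 3) (nat_lit 64) (nat_lit 21) (nat_lit 65)) (PT.lf (nat_lit 6048) (nat_lit 6) (nat_lit 72) (nat_lit 1) (nat_lit 65) (nat_lit 21) (nat_lit 64)))))) (PT.nd (nat_lit 37412) (PT.nd (nat_lit 37130) (PT.nd (nat_lit 94) (PT.lf (nat_lit 5964) (nat_lit 6) (nat_lit 71) (nat_lit 1) (nat_lit 66) (nat_lit 21) (nat_lit 63)) (PT.nd (nat_lit 94) (PT.lf (nat_lit 5880) (nat_lit 6) (nat_lit 70) (nat_lit 1) (nat_lit 67) (nat_lit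 21) (nat_lit 62)) (PT.lf (nat_lit 5796) (nat_lit 6) (nat_lit 69) (nat_lit 1) (nat_lit 68) (nat_lit 21) (nat_lit 61)))) (PT.nd (nat_lit 94) (PT.lf (nat_lit 6132) (nat_lit 6) (nat_lit 73) (nat_lit 3) (nat_lit 60) (nat_lit 22) (nat_lit 68)) (PT.nd (nat_lit 94) (PT.lf (nat_lit 6216) (nat_lit 6) (nat_lit 74) (nat_lit 3) (nat_lit 61) (nat_lit 22) (nat_lit 67)) (PT.lf (nat_lit 6300) (nat_lit 6) (nat_lit 75) (nat_lit 3) (nat_lit 62) (nat_lit 22) (nat_lit 66))))) (PT.nd (nat_lit 282) (PT.nd (nat_lit 94) (PT.lf (nat_lit 6384) (nat_lit 6) (nat_lit 76) (nat_lit 3) (nat_lit 63) (nat_lit 22) (nat_lit 65)) (PT.nd (nat_lit 94) (PT.lf (nat_lit 6468) (nat_lit 3) (nat_lit 77) (nat_lit 1) (nat_lit 64) (nat_lit 22) (nat_lit 64)) (PT.lf (nat_lit 6384) (nat_lit 6) (nat_lit 76) (nat_lit 1) (nat_lit 65) (nat_lit 22) (nat_lit 63)))) (PT.nd (nat_lit 94) (PT.lf (nat_lit 6300) (nat_lit 6) (nat_lit 75) (nat_lit 1) (nat_lit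 66) (nat_lit 22) (nat_lit 62)) (PT.nd (nat_lit 94) (PT.lf (nat_lit 6216) (nat_lit 6) (nat_lit 74) (nat_lit 1) (nat_lit 67) (nat_lit 22) (nat_lit 61)) (PT.lf (nat_lit 6132) (nat_lit 6) (nat_lit 73) (nat_lit 1) (nat_lit 68) (nat_lit 22) (nat_lit 60))))))))
noncomputable def pc3 : PT := (PT.nd (nat_lit 75764) (PT.nd (nat_lit 37882) (PT.nd (nat_lit 564) (PT.nd (nat_lit 282) (PT.nd (nat_lit 94) (PT.lf (nat_lit 6552) (nat_lit 6) (nat_lit 78) (nat_lit 3) (nat_lit 59) (nat_lit 23) (nat_lit 68)) (PT.nd (nat_lit 94) (PT.lf (nat_lit 6636) (nat_lit 6) (nat_lit 79) (nat_lit 3) (nat_lit 60) (nat_lit 23) (nat_lit 67)) (PT.lf (nat_lit 6720) (nat_lit 6) (nat_lit 80) (nat_lit 3) (nat_lit 61) (nat_lit 23) (nat_lit 66)))) (PT.nd (nat_lit 94) (PT.lf (nat_lit 6804) (nat_lit 6) (nat_lit 81) (nat_lit 3) (nat_lit 62) (nat_lit 23) (nat_lit 65)) (PT.nd (nat_lit 94) (PT.lf (nat_lit 6888) (nat_lit 6) (nat_lit 82) (nat_lit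 3) (nat_lit 63) (nat_lit 23) (nat_lit 64)) (PT.lf (nat_lit 6888) (nat_lit 6) (nat_lit 82) (nat_lit 1) (nat_lit 64) (nat_lit 23) (nat_lit 63))))) (PT.nd (nat_lit 282) (PT.nd (nat_lit 94) (PT.lf (nat_lit 6804) (nat_lit 6) (nat_lit 81) (nat_lit 1) (nat_lit 65) (nat_lit 23) (nat_lit 62)) (PT.nd (nat_lit 94) (PT.lf (nat_lit 6720) (nat_lit 6) (nat_lit 80) (nat_lit 1) (nat_lit 66) (nat_lit 23) (nat_lit 61)) (PT.lf (nat_lit 6636) (nat_lit 6) (nat_lit 79) (nat_lit 1) (nat_lit 67) (nat_lit 23) (nat_lit 60)))) (PT.nd (nat_lit 36848) (PT.lf (nat_lit 6552) (nat_lit 6) (nat_lit 78) (nat_lit 1) (nat_lit 68) (nat_lit 23) (nat_lit 59)) (PT.nd (nat_lit 94) (PT.lf (nat_lit 6972) (nat_lit 6) (nat_lit 83) (nat_lit 3) (nat_lit 59) (nat_lit 24) (nat_lit 67)) (PT.lf (nat_lit 7056) (nat_lit 6) (nat_lit 84) (nat_lit 3) (nat_lit 60) (nat_lit 24) (nat_lit 66)))))) (PT.nd (nat_lit 564) (PT.nd (nat_lit 282) (PT.nd (nat_lit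 94) (PT.lf (nat_lit 7140) (nat_lit 6) (nat_lit 85) (nat_lit 3) (nat_lit 61) (nat_lit 24) (nat_lit 65)) (PT.nd (nat_lit 94) (PT.lf (nat_lit 7224) (nat_lit 6) (nat_lit 86) (nat_lit 3) (nat_lit 62) (nat_lit 24) (nat_lit 64)) (PT.lf (nat_lit 7308) (nat_lit 3) (nat_lit 87) (nat_lit 1) (nat_lit 63) (nat_lit 24) (nat_lit 63)))) (PT.nd (nat_lit 94) (PT.lf (nat_lit 7224) (nat_lit 6) (nat_lit 86) (nat_lit 1) (nat_lit 64) (nat_lit 24) (nat_lit 62)) (PT.nd (nat_lit 94) (PT.lf (nat_lit 7140) (nat_lit 6) (nat_lit 85) (nat_lit 1) (nat_lit 65) (nat_lit 24) (nat_lit 61)) (PT.lf (nat_lit 7056) (nat_lit 6) (nat_lit 84) (nat_lit 1) (nat_lit 66) (nat_lit 24) (nat_lit 60))))) (PT.nd (nat_lit 37036) (PT.nd (nat_lit 36848) (PT.lf (nat_lit 6972) (nat_lit 6) (nat_lit 83) (nat_lit 1) (nat_lit 67) (nat_lit 24) (nat_lit 59)) (PT.nd (nat_lit 94) (PT.lf (nat_lit 7392) (nat_lit 6) (nat_lit 88) (nat_lit 3) (nat_lit 58) (nat_lit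 25) (nat_lit 67)) (PT.lf (nat_lit 7476) (nat_lit 6) (nat_lit 89) (nat_lit 3) (nat_lit 59) (nat_lit 25) (nat_lit 66)))) (PT.nd (nat_lit 94) (PT.lf (nat_lit 7560) (nat_lit 6) (nat_lit 90) (nat_lit 3) (nat_lit 60) (nat_lit 25) (nat_lit 65)) (PT.nd (nat_lit 94) (PT.lf (nat_lit 7644) (nat_lit 6) (nat_lit 91) (nat_lit 3) (nat_lit 61) (nat_lit 25) (nat_lit 64)) (PT.lf (nat_lit 7728) (nat_lit 6) (nat_lit 92) (nat_lit 3) (nat_lit 62) (nat_lit 25) (nat_lit 63))))))) (PT.nd (nat_lit 37788) (PT.nd (nat_lit 37224) (PT.nd (nat_lit 282) (PT.nd (nat_lit 94) (PT.lf (nat_lit 7728) (nat_lit 6) (nat_lit 92) (nat_lit 1) (nat_lit 63) (nat_lit 25) (nat_lit 62)) (PT.nd (nat_lit 94) (PT.lf (nat_lit 7644) (nat_lit 6) (nat_lit 91) (nat_lit 1) (nat_lit 64) (nat_lit 25) (nat_lit 61)) (PT.lf (nat_lit 7560) (nat_lit 6) (nat_lit 90) (nat_lit 1) (nat_lit 65) (nat_lit 25) (nat_lit 60)))) (PT.nd (nat_lit 94) (PT.lf (nat_lit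 7476) (nat_lit 6) (nat_lit 89) (nat_lit 1) (nat_lit 66) (nat_lit 25) (nat_lit 59)) (PT.nd (nat_lit 36754) (PT.lf (nat_lit 7392) (nat_lit 6) (nat_lit 88) (nat_lit 1) (nat_lit 67) (nat_lit 25) (nat_lit 58)) (PT.lf (nat_lit 7812) (nat_lit 6) (nat_lit 93) (nat_lit 3) (nat_lit 57) (nat_lit 26) (nat_lit 67))))) (PT.nd (nat_lit 282) (PT.nd (nat_lit 94) (PT.lf (nat_lit 7896) (nat_lit 6) (nat_lit 94) (nat_lit 3) (nat_lit 58) (nat_lit 26) (nat_lit 66)) (PT.nd (nat_lit 94) (PT.lf (nat_lit 7980) (nat_lit 6) (nat_lit 95) (nat_lit 3) (nat_lit 59) (nat_lit 26) (nat_lit 65)) (PT.lf (nat_lit 8064) (nat_lit 6) (nat_lit 96) (nat_lit 3) (nat_lit 60) (nat_lit 26) (nat_lit 64)))) (PT.nd (nat_lit 94) (PT.lf (nat_lit 8148) (nat_lit 6) (nat_lit 97) (nat_lit 3) (nat_lit 61) (nat_lit 26) (nat_lit 63)) (PT.nd (nat_lit 94) (PT.lf (nat_lit 8232) (nat_lit 3) (nat_lit 98) (nat_lit 1) (nat_lit 62) (nat_lit 26) (nat_lit 62))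 (PT.lf (nat_lit 8148) (nat_lit 6) (nat_lit 97) (nat_lit 1) (nat_lit 63) (nat_lit 26) (nat_lit 61)))))) (PT.nd (nat_lit 37224) (PT.nd (nat_lit 282) (PT.nd (nat_lit 94) (PT.lf (nat_lit 8064) (nat_lit 6) (nat_lit 96) (nat_lit 1) (nat_lit 64) (nat_lit 26) (nat_lit 60)) (PT.nd (nat_lit 94) (PT.lf (nat_lit 7980) (nat_lit 6) (nat_lit 95) (nat_lit 1) (nat_lit 65) (nat_lit 26) (nat_lit 59)) (PT.lf (nat_lit 7896) (nat_lit 6) (nat_lit 94) (nat_lit 1) (nat_lit 66) (nat_lit 26) (nat_lit 58)))) (PT.nd (nat_lit 36754) (PT.lf (nat_lit 7812) (nat_lit 6) (nat_lit 93) (nat_lit 1) (nat_lit 67) (nat_lit 26) (nat_lit 57)) (PT.nd (nat_lit 94) (PT.lf (nat_lit 8316) (nat_lit 6) (nat_lit 99) (nat_lit 3) (nat_lit 57) (nat_lit 27) (nat_lit 66)) (PT.lf (nat_lit 8400) (nat_lit 6) (nat_lit 100) (nat_lit 3) (nat_lit 58) (nat_lit 27) (nat_lit 65))))) (PT.nd (nat_lit 282) (PT.nd (nat_lit 94) (PT.lf (nat_lit 8484) (nat_lit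 6) (nat_lit 101) (nat_lit 3) (nat_lit 59) (nat_lit 27) (nat_lit 64)) (PT.nd (nat_lit 94) (PT.lf (nat_lit 8568) (nat_lit 6) (nat_lit 102) (nat_lit 3) (nat_lit 60) (nat_lit 27) (nat_lit 63)) (PT.lf (nat_lit 8652) (nat_lit 6) (nat_lit 103) (nat_lit 3) (nat_lit 61) (nat_lit 27) (nat_lit 62)))) (PT.nd (nat_lit 94) (PT.lf (nat_lit 8652) (nat_lit 6) (nat_lit 103) (nat_lit 1) (nat_lit 62) (nat_lit 27) (nat_lit 61)) (PT.nd (nat_lit 94) (PT.lf (nat_lit 8568) (nat_lit 6) (nat_lit 102) (nat_lit 1) (nat_lit 63) (nat_lit 27) (nat_lit 60)) (PT.lf (nat_lit 8484) (nat_lit 6) (nat_lit 101) (nat_lit 1) (nat_lit 64) (nat_lit 27) (nat_lit 59))))))))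
noncomputable def pc4 : PT := (PT.nd (nat_lit 75388) (PT.nd (nat_lit 37694) (PT.nd (nat_lit 37130) (PT.nd (nat_lit 36848) (PT.nd (nat_lit 94) (PT.lf (nat_lit 8400) (nat_lit 6) (nat_lit 100) (nat_lit 1) (nat_lit 65) (nat_lit 27) (nat_lit 58)) (PT.lf (nat_lit 8316) (nat_lit 6) (nat_lit 99) (nat_lit 1) (nat_lit 66) (nat_lit 27) (nat_lit 57))) (PT.nd (nat_lit 94) (PT.lf (nat_lit 8736) (nat_lit 6) (nat_lit 104) (nat_lit 3) (nat_lit 56) (nat_lit 28) (nat_lit 66)) (PT.nd (nat_lit 94) (PT.lf (nat_lit 8820) (nat_lit 6) (nat_lit 105) (nat_lit 3) (nat_lit 57) (nat_lit 28) (nat_lit 65)) (PT.lf (nat_lit 8904) (nat_lit 6) (nat_lit 106) (nat_lit 3) (nat_lit 58) (nat_lit 28) (nat_lit 64))))) (PT.nd (nat_lit 282) (PT.nd (nat_lit 94) (PT.lf (nat_lit 8988) (nat_lit 6) (nat_lit 107) (nat_lit 3) (nat_lit 59) (nat_lit 28) (nat_lit 63)) (PT.nd (nat_lit 94) (PT.lf (nat_lit 9072) (nat_lit 6) (nat_lit 108) (nat_lit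 3) (nat_lit 60) (nat_lit 28) (nat_lit 62)) (PT.lf (nat_lit 9156) (nat_lit 3) (nat_lit 109) (nat_lit 1) (nat_lit 61) (nat_lit 28) (nat_lit 61)))) (PT.nd (nat_lit 94) (PT.lf (nat_lit 9072) (nat_lit 6) (nat_lit 108) (nat_lit 1) (nat_lit 62) (nat_lit 28) (nat_lit 60)) (PT.nd (nat_lit 94) (PT.lf (nat_lit 8988) (nat_lit 6) (nat_lit 107) (nat_lit 1) (nat_lit 63) (nat_lit 28) (nat_lit 59)) (PT.lf (nat_lit 8904) (nat_lit 6) (nat_lit 106) (nat_lit 1) (nat_lit 64) (nat_lit 28) (nat_lit 58)))))) (PT.nd (nat_lit 37130) (PT.nd (nat_lit 36848) (PT.nd (nat_lit 94) (PT.lf (nat_lit 8820) (nat_lit 6) (nat_lit 105) (nat_lit 1) (nat_lit 65) (nat_lit 28) (nat_lit 57)) (PT.nd (nat_lit 36660) (PT.lf (nat_lit 8736) (nat_lit 6) (nat_lit 104) (nat_lit 1) (nat_lit 66) (nat_lit 28) (nat_lit 56)) (PT.lf (nat_lit 9240) (nat_lit 6) (nat_lit 110) (nat_lit 3) (nat_lit 55) (nat_lit 29) (nat_lit 66)))) (PT.nd (nat_lit 94) (PT.lf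 (nat_lit 9324) (nat_lit 6) (nat_lit 111) (nat_lit 3) (nat_lit 56) (nat_lit 29) (nat_lit 65)) (PT.nd (nat_lit 94) (PT.lf (nat_lit 9408) (nat_lit 6) (nat_lit 112) (nat_lit 3) (nat_lit 57) (nat_lit 29) (nat_lit 64)) (PT.lf (nat_lit 9492) (nat_lit 6) (nat_lit 113) (nat_lit 3) (nat_lit 58) (nat_lit 29) (nat_lit 63))))) (PT.nd (nat_lit 282) (PT.nd (nat_lit 94) (PT.lf (nat_lit 9576) (nat_lit 6) (nat_lit 114) (nat_lit 3) (nat_lit 59) (nat_lit 29) (nat_lit 62)) (PT.nd (nat_lit 94) (PT.lf (nat_lit 9660) (nat_lit 6) (nat_lit 115) (nat_lit 3) (nat_lit 60) (nat_lit 29) (nat_lit 61)) (PT.lf (nat_lit 9660) (nat_lit 6) (nat_lit 115) (nat_lit 1) (nat_lit 61) (nat_lit 29) (nat_lit 60)))) (PT.nd (nat_lit 94) (PT.lf (nat_lit 9576) (nat_lit 6) (nat_lit 114) (nat_lit 1) (nat_lit 62) (nat_lit 29) (nat_lit 59)) (PT.nd (nat_lit 94) (PT.lf (nat_lit 9492) (nat_lit 6) (nat_lit 113) (nat_lit 1) (nat_lit 63) (nat_lit 29)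 (nat_lit 58)) (PT.lf (nat_lit 9408) (nat_lit 6) (nat_lit 112) (nat_lit 1) (nat_lit 64) (nat_lit 29) (nat_lit 57))))))) (PT.nd (nat_lit 37600) (PT.nd (nat_lit 37036) (PT.nd (nat_lit 36754) (PT.nd (nat_lit 94) (PT.lf (nat_lit 9324) (nat_lit 6) (nat_lit 111) (nat_lit 1) (nat_lit 65) (nat_lit 29) (nat_lit 56)) (PT.nd (nat_lit 36566) (PT.lf (nat_lit 9240) (nat_lit 6) (nat_lit 110) (nat_lit 1) (nat_lit 66) (nat_lit 29) (nat_lit 55)) (PT.lf (nat_lit 9744) (nat_lit 6) (nat_lit 116) (nat_lit 3) (nat_lit 54) (nat_lit 30) (nat_lit 66)))) (PT.nd (nat_lit 94) (PT.lf (nat_lit 9828) (nat_lit 6) (nat_lit 117) (nat_lit 3) (nat_lit 55) (nat_lit 30) (nat_lit 65)) (PT.nd (nat_lit 94) (PT.lf (nat_lit 9912) (nat_lit 6) (nat_lit 118) (nat_lit 3) (nat_lit 56) (nat_lit 30) (nat_lit 64)) (PT.lf (nat_lit 9996) (nat_lit 6) (nat_lit 119) (nat_lit 3) (nat_lit 57) (nat_lit 30) (nat_lit 63))))) (PT.nd (nat_lit 282) (PT.nd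 (nat_lit 94) (PT.lf (nat_lit 10080) (nat_lit 6) (nat_lit 120) (nat_lit 3) (nat_lit 58) (nat_lit 30) (nat_lit 62)) (PT.nd (nat_lit 94) (PT.lf (nat_lit 10164) (nat_lit 6) (nat_lit 121) (nat_lit 3) (nat_lit 59) (nat_lit 30) (nat_lit 61)) (PT.lf (nat_lit 10248) (nat_lit 3) (nat_lit 122) (nat_lit 1) (nat_lit 60) (nat_lit 30) (nat_lit 60)))) (PT.nd (nat_lit 94) (PT.lf (nat_lit 10164) (nat_lit 6) (nat_lit 121) (nat_lit 1) (nat_lit 61) (nat_lit 30) (nat_lit 59)) (PT.nd (nat_lit 94) (PT.lf (nat_lit 10080) (nat_lit 6) (nat_lit 120) (nat_lit 1) (nat_lit 62) (nat_lit 30) (nat_lit 58)) (PT.lf (nat_lit 9996) (nat_lit 6) (nat_lit 119) (nat_lit 1) (nat_lit 63) (nat_lit 30) (nat_lit 57)))))) (PT.nd (nat_lit 37036) (PT.nd (nat_lit 36754) (PT.nd (nat_lit 94) (PT.lf (nat_lit 9912) (nat_lit 6) (nat_lit 118) (nat_lit 1) (nat_lit 64) (nat_lit 30) (nat_lit 56)) (PT.nd (nat_lit 94) (PT.lf (nat_lit 9828) (nat_lit 6)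 (nat_lit 117) (nat_lit 1) (nat_lit 65) (nat_lit 30) (nat_lit 55)) (PT.lf (nat_lit 9744) (nat_lit 6) (nat_lit 116) (nat_lit 1) (nat_lit 66) (nat_lit 30) (nat_lit 54)))) (PT.nd (nat_lit 94) (PT.lf (nat_lit 10332) (nat_lit 6) (nat_lit 123) (nat_lit 3) (nat_lit 54) (nat_lit 31) (nat_lit 65)) (PT.nd (nat_lit 94) (PT.lf (nat_lit 10416) (nat_lit 6) (nat_lit 124) (nat_lit 3) (nat_lit 55) (nat_lit 31) (nat_lit 64)) (PT.lf (nat_lit 10500) (nat_lit 6) (nat_lit 125) (nat_lit 3) (nat_lit 56) (nat_lit 31) (nat_lit 63))))) (PT.nd (nat_lit 282) (PT.nd (nat_lit 94) (PT.lf (nat_lit 10584) (nat_lit 6) (nat_lit 126) (nat_lit 3) (nat_lit 57) (nat_lit 31) (nat_lit 62)) (PT.nd (nat_lit 94) (PT.lf (nat_lit 10668) (nat_lit 6) (nat_lit 127) (nat_lit 3) (nat_lit 58) (nat_lit 31) (nat_lit 61)) (PT.lf (nat_lit 10752) (nat_lit 6) (nat_lit 128) (nat_lit 3) (nat_lit 59) (nat_lit 31) (nat_lit 60)))) (PT.nd (nat_lit 94) (PT.lf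 (nat_lit 10752) (nat_lit 6) (nat_lit 128) (nat_lit 1) (nat_lit 60) (nat_lit 31) (nat_lit 59)) (PT.nd (nat_lit 94) (PT.lf (nat_lit 10668) (nat_lit 6) (nat_lit 127) (nat_lit 1) (nat_lit 61) (nat_lit 31) (nat_lit 58)) (PT.lf (nat_lit 10584) (nat_lit 6) (nat_lit 126) (nat_lit 1) (nat_lit 62) (nat_lit 31) (nat_lit 57))))))))
noncomputable def pc5 : PT := (PT.nd (nat_lit 75106) (PT.nd (nat_lit 37600) (PT.nd (nat_lit 37036) (PT.nd (nat_lit 36754) (PT.nd (nat_lit 94) (PT.lf (nat_lit 10500) (nat_lit 6) (nat_lit 125) (nat_lit 1) (nat_lit 63) (nat_lit 31) (nat_lit 56)) (PT.nd (nat_lit 94) (PT.lf (nat_lit 10416) (nat_lit 6) (nat_lit 124) (nat_lit 1) (nat_lit 64) (nat_lit 31) (nat_lit 55)) (PT.lf (nat_lit 10332) (nat_lit 6) (nat_lit 123) (nat_lit 1) (nat_lit 65) (nat_lit 31) (nat_lit 54)))) (PT.nd (nat_lit 94) (PT.lf (nat_lit 10836) (nat_lit 6) (nat_lit 129) (nat_lit 3) (nat_lit 53) (nat_lit 32) (nat_lit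 65)) (PT.nd (nat_lit 94) (PT.lf (nat_lit 10920) (nat_lit 6) (nat_lit 130) (nat_lit 3) (nat_lit 54) (nat_lit 32) (nat_lit 64)) (PT.lf (nat_lit 11004) (nat_lit 6) (nat_lit 131) (nat_lit 3) (nat_lit 55) (nat_lit 32) (nat_lit 63))))) (PT.nd (nat_lit 282) (PT.nd (nat_lit 94) (PT.lf (nat_lit 11088) (nat_lit 6) (nat_lit 132) (nat_lit 3) (nat_lit 56) (nat_lit 32) (nat_lit 62)) (PT.nd (nat_lit 94) (PT.lf (nat_lit 11172) (nat_lit 6) (nat_lit 133) (nat_lit 3) (nat_lit 57) (nat_lit 32) (nat_lit 61)) (PT.lf (nat_lit 11256) (nat_lit 6) (nat_lit 134) (nat_lit 3) (nat_lit 58) (nat_lit 32) (nat_lit 60)))) (PT.nd (nat_lit 94) (PT.lf (nat_lit 11340) (nat_lit 3) (nat_lit 135) (nat_lit 1) (nat_lit 59) (nat_lit 32) (nat_lit 59)) (PT.nd (nat_lit 94) (PT.lf (nat_lit 11256) (nat_lit 6) (nat_lit 134) (nat_lit 1) (nat_lit 60) (nat_lit 32) (nat_lit 58)) (PT.lf (nat_lit 11172) (nat_lit 6) (nat_lit 133) (nat_lit 1) (nat_lit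 61) (nat_lit 32) (nat_lit 57)))))) (PT.nd (nat_lit 36942) (PT.nd (nat_lit 282) (PT.nd (nat_lit 94) (PT.lf (nat_lit 11088) (nat_lit 6) (nat_lit 132) (nat_lit 1) (nat_lit 62) (nat_lit 32) (nat_lit 56)) (PT.nd (nat_lit 94) (PT.lf (nat_lit 11004) (nat_lit 6) (nat_lit 131) (nat_lit 1) (nat_lit 63) (nat_lit 32) (nat_lit 55)) (PT.lf (nat_lit 10920) (nat_lit 6) (nat_lit 130) (nat_lit 1) (nat_lit 64) (nat_lit 32) (nat_lit 54)))) (PT.nd (nat_lit 36472) (PT.lf (nat_lit 10836) (nat_lit 6) (nat_lit 129) (nat_lit 1) (nat_lit 65) (nat_lit 32) (nat_lit 53)) (PT.nd (nat_lit 94) (PT.lf (nat_lit 11424) (nat_lit 6) (nat_lit 136) (nat_lit 3) (nat_lit 52) (nat_lit 33) (nat_lit 65)) (PT.lf (nat_lit 11508) (nat_lit 6) (nat_lit 137) (nat_lit 3) (nat_lit 53) (nat_lit 33) (nat_lit 64))))) (PT.nd (nat_lit 282) (PT.nd (nat_lit 94) (PT.lf (nat_lit 11592) (nat_lit 6) (nat_lit 138) (nat_lit 3) (nat_lit 54) (nat_lit 33) (nat_lit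 63)) (PT.nd (nat_lit 94) (PT.lf (nat_lit 11676) (nat_lit 6) (nat_lit 139) (nat_lit 3) (nat_lit 55) (nat_lit 33) (nat_lit 62)) (PT.lf (nat_lit 11760) (nat_lit 6) (nat_lit 140) (nat_lit 3) (nat_lit 56) (nat_lit 33) (nat_lit 61)))) (PT.nd (nat_lit 94) (PT.lf (nat_lit 11844) (nat_lit 6) (nat_lit 141) (nat_lit 3) (nat_lit 57) (nat_lit 33) (nat_lit 60)) (PT.nd (nat_lit 94) (PT.lf (nat_lit 11928) (nat_lit 6) (nat_lit 142) (nat_lit 3) (nat_lit 58) (nat_lit 33) (nat_lit 59)) (PT.lf (nat_lit 11928) (nat_lit 6) (nat_lit 142) (nat_lit 1) (nat_lit 59) (nat_lit 33) (nat_lit 58))))))) (PT.nd (nat_lit 37412) (PT.nd (nat_lit 36848) (PT.nd (nat_lit 282) (PT.nd (nat_lit 94) (PT.lf (nat_lit 11844) (nat_lit 6) (nat_lit 141) (nat_lit 1) (nat_lit 60) (nat_lit 33) (nat_lit 57)) (PT.nd (nat_lit 94) (PT.lf (nat_lit 11760) (nat_lit 6) (nat_lit 140) (nat_lit 1) (nat_lit 61) (nat_lit 33) (nat_lit 56)) (PT.lf (nat_lit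 11676) (nat_lit 6) (nat_lit 139) (nat_lit 1) (nat_lit 62) (nat_lit 33) (nat_lit 55)))) (PT.nd (nat_lit 94) (PT.lf (nat_lit 11592) (nat_lit 6) (nat_lit 138) (nat_lit 1) (nat_lit 63) (nat_lit 33) (nat_lit 54)) (PT.nd (nat_lit 94) (PT.lf (nat_lit 11508) (nat_lit 6) (nat_lit 137) (nat_lit 1) (nat_lit 64) (nat_lit 33) (nat_lit 53)) (PT.lf (nat_lit 11424) (nat_lit 6) (nat_lit 136) (nat_lit 1) (nat_lit 65) (nat_lit 33) (nat_lit 52))))) (PT.nd (nat_lit 282) (PT.nd (nat_lit 94) (PT.lf (nat_lit 12012) (nat_lit 6) (nat_lit 143) (nat_lit 3) (nat_lit 51) (nat_lit 34) (nat_lit 65)) (PT.nd (nat_lit 94) (PT.lf (nat_lit 12096) (nat_lit 6) (nat_lit 144) (nat_lit 3) (nat_lit 52) (nat_lit 34) (nat_lit 64)) (PT.lf (nat_lit 12180) (nat_lit 6) (nat_lit 145) (nat_lit 3) (nat_lit 53) (nat_lit 34) (nat_lit 63)))) (PT.nd (nat_lit 94) (PT.lf (nat_lit 12264) (nat_lit 6) (nat_lit 146) (nat_lit 3) (nat_lit 54) (nat_lit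 34) (nat_lit 62)) (PT.nd (nat_lit 94) (PT.lf (nat_lit 12348) (nat_lit 6) (nat_lit 147) (nat_lit 3) (nat_lit 55) (nat_lit 34) (nat_lit 61)) (PT.lf (nat_lit 12432) (nat_lit 6) (nat_lit 148) (nat_lit 3) (nat_lit 56) (nat_lit 34) (nat_lit 60)))))) (PT.nd (nat_lit 564) (PT.nd (nat_lit 282) (PT.nd (nat_lit 94) (PT.lf (nat_lit 12516) (nat_lit 6) (nat_lit 149) (nat_lit 3) (nat_lit 57) (nat_lit 34) (nat_lit 59)) (PT.nd (nat_lit 94) (PT.lf (nat_lit 12600) (nat_lit 3) (nat_lit 150) (nat_lit 1) (nat_lit 58) (nat_lit 34) (nat_lit 58)) (PT.lf (nat_lit 12516) (nat_lit 6) (nat_lit 149) (nat_lit 1) (nat_lit 59) (nat_lit 34) (nat_lit 57)))) (PT.nd (nat_lit 94) (PT.lf (nat_lit 12432) (nat_lit 6) (nat_lit 148) (nat_lit 1) (nat_lit 60) (nat_lit 34) (nat_lit 56)) (PT.nd (nat_lit 94) (PT.lf (nat_lit 12348) (nat_lit 6) (nat_lit 147) (nat_lit 1) (nat_lit 61) (nat_lit 34) (nat_lit 55)) (PT.lf (nat_lit 12264) (nat_lit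 6) (nat_lit 146) (nat_lit 1) (nat_lit 62) (nat_lit 34) (nat_lit 54))))) (PT.nd (nat_lit 36472) (PT.nd (nat_lit 94) (PT.lf (nat_lit 12180) (nat_lit 6) (nat_lit 145) (nat_lit 1) (nat_lit 63) (nat_lit 34) (nat_lit 53)) (PT.nd (nat_lit 94) (PT.lf (nat_lit 12096) (nat_lit 6) (nat_lit 144) (nat_lit 1) (nat_lit 64) (nat_lit 34) (nat_lit 52)) (PT.lf (nat_lit 12012) (nat_lit 6) (nat_lit 143) (nat_lit 1) (nat_lit 65) (nat_lit 34) (nat_lit 51)))) (PT.nd (nat_lit 94) (PT.lf (nat_lit 12684) (nat_lit 6) (nat_lit 151) (nat_lit 3) (nat_lit 50) (nat_lit 35) (nat_lit 65)) (PT.nd (nat_lit 94) (PT.lf (nat_lit 12768) (nat_lit 6) (nat_lit 152) (nat_lit 3) (nat_lit 51) (nat_lit 35) (nat_lit 64)) (PT.lf (nat_lit 12852) (nat_lit 6) (nat_lit 153) (nat_lit 3) (nat_lit 52) (nat_lit 35) (nat_lit 63))))))))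
noncomputable def pc6 : PT := (PT.nd (nat_lit 38446) (PT.nd (nat_lit 1128) (PT.nd (nat_lit 564) (PT.nd (nat_lit 282) (PT.nd (nat_lit 94) (PT.lf (nat_lit 12936) (nat_lit 6) (nat_lit 154) (nat_lit 3) (nat_lit 53) (nat_lit 35) (nat_lit 62)) (PT.nd (nat_lit 94) (PT.lf (nat_lit 13020) (nat_lit 6) (nat_lit 155) (nat_lit 3) (nat_lit 54) (nat_lit 35) (nat_lit 61)) (PT.lf (nat_lit 13104) (nat_lit 6) (nat_lit 156) (nat_lit 3) (nat_lit 55) (nat_lit 35) (nat_lit 60)))) (PT.nd (nat_lit 94) (PT.lf (nat_lit 13188) (nat_lit 6) (nat_lit 157) (nat_lit 3) (nat_lit 56) (nat_lit 35) (nat_lit 59)) (PT.nd (nat_lit 94) (PT.lf (nat_lit 13272) (nat_lit 6) (nat_lit 158) (nat_lit 3) (nat_lit 57) (nat_lit 35) (nat_lit 58)) (PT.lf (nat_lit 13272) (nat_lit 6) (nat_lit 158) (nat_lit 1) (nat_lit 58) (nat_lit 35) (nat_lit 57))))) (PT.nd (nat_lit 282) (PT.nd (nat_lit 94) (PT.lf (nat_lit 13188) (nat_lit 6) (nat_lit 157) (nat_lit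 1) (nat_lit 59) (nat_lit 35) (nat_lit 56)) (PT.nd (nat_lit 94) (PT.lf (nat_lit 13104) (nat_lit 6) (nat_lit 156) (nat_lit 1) (nat_lit 60) (nat_lit 35) (nat_lit 55)) (PT.lf (nat_lit 13020) (nat_lit 6) (nat_lit 155) (nat_lit 1) (nat_lit 61) (nat_lit 35) (nat_lit 54)))) (PT.nd (nat_lit 94) (PT.lf (nat_lit 12936) (nat_lit 6) (nat_lit 154) (nat_lit 1) (nat_lit 62) (nat_lit 35) (nat_lit 53)) (PT.nd (nat_lit 94) (PT.lf (nat_lit 12852) (nat_lit 6) (nat_lit 153) (nat_lit 1) (nat_lit 63) (nat_lit 35) (nat_lit 52)) (PT.lf (nat_lit 12768) (nat_lit 6) (nat_lit 152) (nat_lit 1) (nat_lit 64) (nat_lit 35) (nat_lit 51)))))) (PT.nd (nat_lit 36754) (PT.nd (nat_lit 36472) (PT.nd (nat_lit 36284) (PT.lf (nat_lit 12684) (nat_lit 6) (nat_lit 151) (nat_lit 1) (nat_lit 65) (nat_lit 35) (nat_lit 50)) (PT.nd (nat_lit 94) (PT.lf (nat_lit 13944) (nat_lit 6) (nat_lit 166) (nat_lit 3) (nat_lit 50) (nat_lit 36) (nat_lit 64))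 (PT.lf (nat_lit 14028) (nat_lit 6) (nat_lit 167) (nat_lit 3) (nat_lit 51) (nat_lit 36) (nat_lit 63)))) (PT.nd (nat_lit 94) (PT.lf (nat_lit 14112) (nat_lit 6) (nat_lit 168) (nat_lit 3) (nat_lit 52) (nat_lit 36) (nat_lit 62)) (PT.nd (nat_lit 94) (PT.lf (nat_lit 14196) (nat_lit 6) (nat_lit 169) (nat_lit 3) (nat_lit 53) (nat_lit 36) (nat_lit 61)) (PT.lf (nat_lit 14280) (nat_lit 6) (nat_lit 170) (nat_lit 3) (nat_lit 54) (nat_lit 36) (nat_lit 60))))) (PT.nd (nat_lit 282) (PT.nd (nat_lit 94) (PT.lf (nat_lit 14364) (nat_lit 6) (nat_lit 171) (nat_lit 3) (nat_lit 55) (nat_lit 36) (nat_lit 59)) (PT.nd (nat_lit 94) (PT.lf (nat_lit 14448) (nat_lit 6) (nat_lit 172) (nat_lit 3) (nat_lit 56) (nat_lit 36) (nat_lit 58)) (PT.lf (nat_lit 14532) (nat_lit 3) (nat_lit 173) (nat_lit 1) (nat_lit 57) (nat_lit 36) (nat_lit 57)))) (PT.nd (nat_lit 94) (PT.lf (nat_lit 14448) (nat_lit 6) (nat_lit 172) (nat_lit 1) (nat_lit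 58) (nat_lit 36) (nat_lit 56)) (PT.nd (nat_lit 94) (PT.lf (nat_lit 14364) (nat_lit 6) (nat_lit 171) (nat_lit 1) (nat_lit 59) (nat_lit 36) (nat_lit 55)) (PT.lf (nat_lit 14280) (nat_lit 6) (nat_lit 170) (nat_lit 1) (nat_lit 60) (nat_lit 36) (nat_lit 54))))))) (PT.nd (nat_lit 37318) (PT.nd (nat_lit 36754) (PT.nd (nat_lit 282) (PT.nd (nat_lit 94) (PT.lf (nat_lit 14196) (nat_lit 6) (nat_lit 169) (nat_lit 1) (nat_lit 61) (nat_lit 36) (nat_lit 53)) (PT.nd (nat_lit 94) (PT.lf (nat_lit 14112) (nat_lit 6) (nat_lit 168) (nat_lit 1) (nat_lit 62) (nat_lit 36) (nat_lit 52)) (PT.lf (nat_lit 14028) (nat_lit 6) (nat_lit 167) (nat_lit 1) (nat_lit 63) (nat_lit 36) (nat_lit 51)))) (PT.nd (nat_lit 36284) (PT.lf (nat_lit 13944) (nat_lit 6) (nat_lit 166) (nat_lit 1) (nat_lit 64) (nat_lit 36) (nat_lit 50)) (PT.nd (nat_lit 94) (PT.lf (nat_lit 13860) (nat_lit 6) (nat_lit 165) (nat_lit 3) (nat_lit 49) (nat_lit 37) (nat_lit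 64)) (PT.lf (nat_lit 15120) (nat_lit 6) (nat_lit 180) (nat_lit 3) (nat_lit 50) (nat_lit 37) (nat_lit 63))))) (PT.nd (nat_lit 282) (PT.nd (nat_lit 94) (PT.lf (nat_lit 15204) (nat_lit 6) (nat_lit 181) (nat_lit 3) (nat_lit 51) (nat_lit 37) (nat_lit 62)) (PT.nd (nat_lit 94) (PT.lf (nat_lit 15288) (nat_lit 6) (nat_lit 182) (nat_lit 3) (nat_lit 52) (nat_lit 37) (nat_lit 61)) (PT.lf (nat_lit 15372) (nat_lit 6) (nat_lit 183) (nat_lit 3) (nat_lit 53) (nat_lit 37) (nat_lit 60)))) (PT.nd (nat_lit 94) (PT.lf (nat_lit 15456) (nat_lit 6) (nat_lit 184) (nat_lit 3) (nat_lit 54) (nat_lit 37) (nat_lit 59)) (PT.nd (nat_lit 94) (PT.lf (nat_lit 15540) (nat_lit 6) (nat_lit 185) (nat_lit 3) (nat_lit 55) (nat_lit 37) (nat_lit 58)) (PT.lf (nat_lit 15624) (nat_lit 6) (nat_lit 186) (nat_lit 3) (nat_lit 56) (nat_lit 37) (nat_lit 57)))))) (PT.nd (nat_lit 564) (PT.nd (nat_lit 282) (PT.nd (nat_lit 94) (PT.lf (nat_lit 15624)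 (nat_lit 6) (nat_lit 186) (nat_lit 1) (nat_lit 57) (nat_lit 37) (nat_lit 56)) (PT.nd (nat_lit 94) (PT.lf (nat_lit 15540) (nat_lit 6) (nat_lit 185) (nat_lit 1) (nat_lit 58) (nat_lit 37) (nat_lit 55)) (PT.lf (nat_lit 15456) (nat_lit 6) (nat_lit 184) (nat_lit 1) (nat_lit 59) (nat_lit 37) (nat_lit 54)))) (PT.nd (nat_lit 94) (PT.lf (nat_lit 15372) (nat_lit 6) (nat_lit 183) (nat_lit 1) (nat_lit 60) (nat_lit 37) (nat_lit 53)) (PT.nd (nat_lit 94) (PT.lf (nat_lit 15288) (nat_lit 6) (nat_lit 182) (nat_lit 1) (nat_lit 61) (nat_lit 37) (nat_lit 52)) (PT.lf (nat_lit 15204) (nat_lit 6) (nat_lit 181) (nat_lit 1) (nat_lit 62) (nat_lit 37) (nat_lit 51))))) (PT.nd (nat_lit 36378) (PT.nd (nat_lit 94) (PT.lf (nat_lit 15120) (nat_lit 6) (nat_lit 180) (nat_lit 1) (nat_lit 63) (nat_lit 37) (nat_lit 50)) (PT.nd (nat_lit 36190) (PT.lf (nat_lit 13860) (nat_lit 6) (nat_lit 165) (nat_lit 1) (nat_lit 64) (nat_lit 37)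 (nat_lit 49)) (PT.lf (nat_lit 13776) (nat_lit 6) (nat_lit 164) (nat_lit 3) (nat_lit 48) (nat_lit 38) (nat_lit 64)))) (PT.nd (nat_lit 94) (PT.lf (nat_lit 15036) (nat_lit 6) (nat_lit 179) (nat_lit 3) (nat_lit 49) (nat_lit 38) (nat_lit 63)) (PT.nd (nat_lit 94) (PT.lf (nat_lit 16212) (nat_lit 6) (nat_lit 193) (nat_lit 3) (nat_lit 50) (nat_lit 38) (nat_lit 62)) (PT.lf (nat_lit 16296) (nat_lit 6) (nat_lit 194) (nat_lit 3) (nat_lit 51) (nat_lit 38) (nat_lit 61))))))))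
noncomputable def pc7 : PT := (PT.nd (nat_lit 38258) (PT.nd (nat_lit 1128) (PT.nd (nat_lit 564) (PT.nd (nat_lit 282) (PT.nd (nat_lit 94) (PT.lf (nat_lit 16380) (nat_lit 6) (nat_lit 195) (nat_lit 3) (nat_lit 52) (nat_lit 38) (nat_lit 60)) (PT.nd (nat_lit 94) (PT.lf (nat_lit 16464) (nat_lit 6) (nat_lit 196) (nat_lit 3) (nat_lit 53) (nat_lit 38) (nat_lit 59)) (PT.lf (nat_lit 16548) (nat_lit 6) (nat_lit 197) (nat_lit 3) (nat_lit 54) (nat_lit 38) (nat_lit 58)))) (PT.nd (nat_lit 94) (PT.lf (nat_lit 16632) (nat_lit 6) (nat_lit 198) (nat_lit 3) (nat_lit 55) (nat_lit 38) (nat_lit 57)) (PT.nd (nat_lit 94) (PT.lf (nat_lit 16716) (nat_lit 3) (nat_lit 199) (nat_lit 1) (nat_lit 56) (nat_lit 38) (nat_lit 56)) (PT.lf (nat_lit 16632) (nat_lit 6) (nat_lit 198) (nat_lit 1) (nat_lit 57) (nat_lit 38) (nat_lit 55))))) (PT.nd (nat_lit 282) (PT.nd (nat_lit 94) (PT.lf (nat_lit 16548) (nat_lit 6) (nat_lit 197) (nat_lit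 1) (nat_lit 58) (nat_lit 38) (nat_lit 54)) (PT.nd (nat_lit 94) (PT.lf (nat_lit 16464) (nat_lit 6) (nat_lit 196) (nat_lit 1) (nat_lit 59) (nat_lit 38) (nat_lit 53)) (PT.lf (nat_lit 16380) (nat_lit 6) (nat_lit 195) (nat_lit 1) (nat_lit 60) (nat_lit 38) (nat_lit 52)))) (PT.nd (nat_lit 94) (PT.lf (nat_lit 16296) (nat_lit 6) (nat_lit 194) (nat_lit 1) (nat_lit 61) (nat_lit 38) (nat_lit 51)) (PT.nd (nat_lit 94) (PT.lf (nat_lit 16212) (nat_lit 6) (nat_lit 193) (nat_lit 1) (nat_lit 62) (nat_lit 38) (nat_lit 50)) (PT.lf (nat_lit 15036) (nat_lit 6) (nat_lit 179) (nat_lit 1) (nat_lit 63) (nat_lit 38) (nat_lit 49)))))) (PT.nd (nat_lit 36566) (PT.nd (nat_lit 36284) (PT.nd (nat_lit 36096) (PT.lf (nat_lit 13776) (nat_lit 6) (nat_lit 164) (nat_lit 1) (nat_lit 64) (nat_lit 38) (nat_lit 48)) (PT.nd (nat_lit 94) (PT.lf (nat_lit 13692) (nat_lit 6) (nat_lit 163) (nat_lit 3) (nat_lit 47) (nat_lit 39) (nat_lit 64))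 (PT.lf (nat_lit 14952) (nat_lit 6) (nat_lit 178) (nat_lit 3) (nat_lit 48) (nat_lit 39) (nat_lit 63)))) (PT.nd (nat_lit 94) (PT.lf (nat_lit 16128) (nat_lit 6) (nat_lit 192) (nat_lit 3) (nat_lit 49) (nat_lit 39) (nat_lit 62)) (PT.nd (nat_lit 94) (PT.lf (nat_lit 17220) (nat_lit 6) (nat_lit 205) (nat_lit 3) (nat_lit 50) (nat_lit 39) (nat_lit 61)) (PT.lf (nat_lit 17304) (nat_lit 6) (nat_lit 206) (nat_lit 3) (nat_lit 51) (nat_lit 39) (nat_lit 60))))) (PT.nd (nat_lit 282) (PT.nd (nat_lit 94) (PT.lf (nat_lit 17388) (nat_lit 6) (nat_lit 207) (nat_lit 3) (nat_lit 52) (nat_lit 39) (nat_lit 59)) (PT.nd (nat_lit 94) (PT.lf (nat_lit 17472) (nat_lit 6) (nat_lit 208) (nat_lit 3) (nat_lit 53) (nat_lit 39) (nat_lit 58)) (PT.lf (nat_lit 17556) (nat_lit 6) (nat_lit 209) (nat_lit 3) (nat_lit 54) (nat_lit 39) (nat_lit 57)))) (PT.nd (nat_lit 94) (PT.lf (nat_lit 17640) (nat_lit 6) (nat_lit 210) (nat_lit 3) (nat_lit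 55) (nat_lit 39) (nat_lit 56)) (PT.nd (nat_lit 94) (PT.lf (nat_lit 17640) (nat_lit 6) (nat_lit 210) (nat_lit 1) (nat_lit 56) (nat_lit 39) (nat_lit 55)) (PT.lf (nat_lit 17556) (nat_lit 6) (nat_lit 209) (nat_lit 1) (nat_lit 57) (nat_lit 39) (nat_lit 54))))))) (PT.nd (nat_lit 37036) (PT.nd (nat_lit 564) (PT.nd (nat_lit 282) (PT.nd (nat_lit 94) (PT.lf (nat_lit 17472) (nat_lit 6) (nat_lit 208) (nat_lit 1) (nat_lit 58) (nat_lit 39) (nat_lit 53)) (PT.nd (nat_lit 94) (PT.lf (nat_lit 17388) (nat_lit 6) (nat_lit 207) (nat_lit 1) (nat_lit 59) (nat_lit 39) (nat_lit 52)) (PT.lf (nat_lit 17304) (nat_lit 6) (nat_lit 206) (nat_lit 1) (nat_lit 60) (nat_lit 39) (nat_lit 51)))) (PT.nd (nat_lit 94) (PT.lf (nat_lit 17220) (nat_lit 6) (nat_lit 205) (nat_lit 1) (nat_lit 61) (nat_lit 39) (nat_lit 50)) (PT.nd (nat_lit 94) (PT.lf (nat_lit 16128) (nat_lit 6) (nat_lit 192) (nat_lit 1) (nat_lit 62) (nat_lit 39) (nat_lit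 49)) (PT.lf (nat_lit 14952) (nat_lit 6) (nat_lit 178) (nat_lit 1) (nat_lit 63) (nat_lit 39) (nat_lit 48))))) (PT.nd (nat_lit 36190) (PT.nd (nat_lit 36002) (PT.lf (nat_lit 13692) (nat_lit 6) (nat_lit 163) (nat_lit 1) (nat_lit 64) (nat_lit 39) (nat_lit 47)) (PT.nd (nat_lit 94) (PT.lf (nat_lit 13608) (nat_lit 6) (nat_lit 162) (nat_lit 3) (nat_lit 46) (nat_lit 40) (nat_lit 64)) (PT.lf (nat_lit 14868) (nat_lit 6) (nat_lit 177) (nat_lit 3) (nat_lit 47) (nat_lit 40) (nat_lit 63)))) (PT.nd (nat_lit 94) (PT.lf (nat_lit 16044) (nat_lit 6) (nat_lit 191) (nat_lit 3) (nat_lit 48) (nat_lit 40) (nat_lit 62)) (PT.nd (nat_lit 94) (PT.lf (nat_lit 17136) (nat_lit 6) (nat_lit 204) (nat_lit 3) (nat_lit 49) (nat_lit 40) (nat_lit 61)) (PT.lf (nat_lit 18144) (nat_lit 6) (nat_lit 216) (nat_lit 3) (nat_lit 50) (nat_lit 40) (nat_lit 60)))))) (PT.nd (nat_lit 564) (PT.nd (nat_lit 282) (PT.nd (nat_lit 94) (PT.lf (nat_lit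 18228) (nat_lit 6) (nat_lit 217) (nat_lit 3) (nat_lit 51) (nat_lit 40) (nat_lit 59)) (PT.nd (nat_lit 94) (PT.lf (nat_lit 18312) (nat_lit 6) (nat_lit 218) (nat_lit 3) (nat_lit 52) (nat_lit 40) (nat_lit 58)) (PT.lf (nat_lit 18396) (nat_lit 6) (nat_lit 219) (nat_lit 3) (nat_lit 53) (nat_lit 40) (nat_lit 57)))) (PT.nd (nat_lit 94) (PT.lf (nat_lit 18480) (nat_lit 6) (nat_lit 220) (nat_lit 3) (nat_lit 54) (nat_lit 40) (nat_lit 56)) (PT.nd (nat_lit 94) (PT.lf (nat_lit 18564) (nat_lit 3) (nat_lit 221) (nat_lit 1) (nat_lit 55) (nat_lit 40) (nat_lit 55)) (PT.lf (nat_lit 18480) (nat_lit 6) (nat_lit 220) (nat_lit 1) (nat_lit 56) (nat_lit 40) (nat_lit 54))))) (PT.nd (nat_lit 282) (PT.nd (nat_lit 94) (PT.lf (nat_lit 18396) (nat_lit 6) (nat_lit 219) (nat_lit 1) (nat_lit 57) (nat_lit 40) (nat_lit 53)) (PT.nd (nat_lit 94) (PT.lf (nat_lit 18312) (nat_lit 6) (nat_lit 218) (nat_lit 1) (nat_lit 58) (nat_lit 40)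 (nat_lit 52)) (PT.lf (nat_lit 18228) (nat_lit 6) (nat_lit 217) (nat_lit 1) (nat_lit 59) (nat_lit 40) (nat_lit 51)))) (PT.nd (nat_lit 94) (PT.lf (nat_lit 18144) (nat_lit 6) (nat_lit 216) (nat_lit 1) (nat_lit 60) (nat_lit 40) (nat_lit 50)) (PT.nd (nat_lit 94) (PT.lf (nat_lit 17136) (nat_lit 6) (nat_lit 204) (nat_lit 1) (nat_lit 61) (nat_lit 40) (nat_lit 49)) (PT.lf (nat_lit 16044) (nat_lit 6) (nat_lit 191) (nat_lit 1) (nat_lit 62) (nat_lit 40) (nat_lit 48))))))))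
noncomputable def pc8 : PT := (PT.nd (nat_lit 73696) (PT.nd (nat_lit 36848) (PT.nd (nat_lit 36284) (PT.nd (nat_lit 36002) (PT.nd (nat_lit 94) (PT.lf (nat_lit 14868) (nat_lit 6) (nat_lit 177) (nat_lit 1) (nat_lit 63) (nat_lit 40) (nat_lit 47)) (PT.lf (nat_lit 13608) (nat_lit 6) (nat_lit 162) (nat_lit 1) (nat_lit 64) (nat_lit 40) (nat_lit 46))) (PT.nd (nat_lit 94) (PT.lf (nat_lit 13524) (nat_lit 6) (nat_lit 161) (nat_lit 3) (nat_lit 45) (nat_lit 41) (nat_lit 64)) (PT.nd (nat_lit 94) (PT.lf (nat_lit 14784) (nat_lit 6) (nat_lit 176) (nat_lit 3) (nat_lit 46) (nat_lit 41) (nat_lit 63)) (PT.lf (nat_lit 15960) (nat_lit 6) (nat_lit 190) (nat_lit 3) (nat_lit 47) (nat_lit 41) (nat_lit 62))))) (PT.nd (nat_lit 282) (PT.nd (nat_lit 94) (PT.lf (nat_lit 17052) (nat_lit 6) (nat_lit 203) (nat_lit 3) (nat_lit 48) (nat_lit 41) (nat_lit 61)) (PT.nd (nat_lit 94) (PT.lf (nat_lit 18060) (nat_lit 6) (nat_lit 215)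 (nat_lit 3) (nat_lit 49) (nat_lit 41) (nat_lit 60)) (PT.lf (nat_lit 18984) (nat_lit 6) (nat_lit 226) (nat_lit 3) (nat_lit 50) (nat_lit 41) (nat_lit 59)))) (PT.nd (nat_lit 94) (PT.lf (nat_lit 19068) (nat_lit 6) (nat_lit 227) (nat_lit 3) (nat_lit 51) (nat_lit 41) (nat_lit 58)) (PT.nd (nat_lit 94) (PT.lf (nat_lit 19152) (nat_lit 6) (nat_lit 228) (nat_lit 3) (nat_lit 52) (nat_lit 41) (nat_lit 57)) (PT.lf (nat_lit 19236) (nat_lit 6) (nat_lit 229) (nat_lit 3) (nat_lit 53) (nat_lit 41) (nat_lit 56)))))) (PT.nd (nat_lit 564) (PT.nd (nat_lit 282) (PT.nd (nat_lit 94) (PT.lf (nat_lit 19320) (nat_lit 6) (nat_lit 230) (nat_lit 3) (nat_lit 54) (nat_lit 41) (nat_lit 55)) (PT.nd (nat_lit 94) (PT.lf (nat_lit 19320) (nat_lit 6) (nat_lit 230) (nat_lit 1) (nat_lit 55) (nat_lit 41) (nat_lit 54)) (PT.lf (nat_lit 19236) (nat_lit 6) (nat_lit 229) (nat_lit 1) (nat_lit 56) (nat_lit 41) (nat_lit 53)))) (PT.nd (nat_lit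 94) (PT.lf (nat_lit 19152) (nat_lit 6) (nat_lit 228) (nat_lit 1) (nat_lit 57) (nat_lit 41) (nat_lit 52)) (PT.nd (nat_lit 94) (PT.lf (nat_lit 19068) (nat_lit 6) (nat_lit 227) (nat_lit 1) (nat_lit 58) (nat_lit 41) (nat_lit 51)) (PT.lf (nat_lit 18984) (nat_lit 6) (nat_lit 226) (nat_lit 1) (nat_lit 59) (nat_lit 41) (nat_lit 50))))) (PT.nd (nat_lit 282) (PT.nd (nat_lit 94) (PT.lf (nat_lit 18060) (nat_lit 6) (nat_lit 215) (nat_lit 1) (nat_lit 60) (nat_lit 41) (nat_lit 49)) (PT.nd (nat_lit 94) (PT.lf (nat_lit 17052) (nat_lit 6) (nat_lit 203) (nat_lit 1) (nat_lit 61) (nat_lit 41) (nat_lit 48)) (PT.lf (nat_lit 15960) (nat_lit 6) (nat_lit 190) (nat_lit 1) (nat_lit 62) (nat_lit 41) (nat_lit 47)))) (PT.nd (nat_lit 94) (PT.lf (nat_lit 14784) (nat_lit 6) (nat_lit 176) (nat_lit 1) (nat_lit 63) (nat_lit 41) (nat_lit 46)) (PT.nd (nat_lit 35814) (PT.lf (nat_lit 13524) (nat_lit 6) (nat_lit 161) (nat_lit 1) (nat_lit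 64) (nat_lit 41) (nat_lit 45)) (PT.lf (nat_lit 13440) (nat_lit 6) (nat_lit 160) (nat_lit 3) (nat_lit 44) (nat_lit 42) (nat_lit 64))))))) (PT.nd (nat_lit 1128) (PT.nd (nat_lit 564) (PT.nd (nat_lit 282) (PT.nd (nat_lit 94) (PT.lf (nat_lit 14700) (nat_lit 6) (nat_lit 175) (nat_lit 3) (nat_lit 45) (nat_lit 42) (nat_lit 63)) (PT.nd (nat_lit 94) (PT.lf (nat_lit 15876) (nat_lit 6) (nat_lit 189) (nat_lit 3) (nat_lit 46) (nat_lit 42) (nat_lit 62)) (PT.lf (nat_lit 16968) (nat_lit 6) (nat_lit 202) (nat_lit 3) (nat_lit 47) (nat_lit 42) (nat_lit 61)))) (PT.nd (nat_lit 94) (PT.lf (nat_lit 17976) (nat_lit 6) (nat_lit 214) (nat_lit 3) (nat_lit 48) (nat_lit 42) (nat_lit 60)) (PT.nd (nat_lit 94) (PT.lf (nat_lit 18900) (nat_lit 6) (nat_lit 225) (nat_lit 3) (nat_lit 49) (nat_lit 42) (nat_lit 59)) (PT.lf (nat_lit 19740) (nat_lit 6) (nat_lit 235) (nat_lit 3) (nat_lit 50) (nat_lit 42) (nat_lit 58))))) (PT.nd (nat_lit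 282) (PT.nd (nat_lit 94) (PT.lf (nat_lit 19824) (nat_lit 6) (nat_lit 236) (nat_lit 3) (nat_lit 51) (nat_lit 42) (nat_lit 57)) (PT.nd (nat_lit 94) (PT.lf (nat_lit 19908) (nat_lit 6) (nat_lit 237) (nat_lit 3) (nat_lit 52) (nat_lit 42) (nat_lit 56)) (PT.lf (nat_lit 19992) (nat_lit 6) (nat_lit 238) (nat_lit 3) (nat_lit 53) (nat_lit 42) (nat_lit 55)))) (PT.nd (nat_lit 94) (PT.lf (nat_lit 20076) (nat_lit 3) (nat_lit 239) (nat_lit 1) (nat_lit 54) (nat_lit 42) (nat_lit 54)) (PT.nd (nat_lit 94) (PT.lf (nat_lit 19992) (nat_lit 6) (nat_lit 238) (nat_lit 1) (nat_lit 55) (nat_lit 42) (nat_lit 53)) (PT.lf (nat_lit 19908) (nat_lit 6) (nat_lit 237) (nat_lit 1) (nat_lit 56) (nat_lit 42) (nat_lit 52)))))) (PT.nd (nat_lit 564) (PT.nd (nat_lit 282) (PT.nd (nat_lit 94) (PT.lf (nat_lit 19824) (nat_lit 6) (nat_lit 236) (nat_lit 1) (nat_lit 57) (nat_lit 42) (nat_lit 51)) (PT.nd (nat_lit 94) (PT.lf (nat_lit 19740)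 (nat_lit 6) (nat_lit 235) (nat_lit 1) (nat_lit 58) (nat_lit 42) (nat_lit 50)) (PT.lf (nat_lit 18900) (nat_lit 6) (nat_lit 225) (nat_lit 1) (nat_lit 59) (nat_lit 42) (nat_lit 49)))) (PT.nd (nat_lit 94) (PT.lf (nat_lit 17976) (nat_lit 6) (nat_lit 214) (nat_lit 1) (nat_lit 60) (nat_lit 42) (nat_lit 48)) (PT.nd (nat_lit 94) (PT.lf (nat_lit 16968) (nat_lit 6) (nat_lit 202) (nat_lit 1) (nat_lit 61) (nat_lit 42) (nat_lit 47)) (PT.lf (nat_lit 15876) (nat_lit 6) (nat_lit 189) (nat_lit 1) (nat_lit 62) (nat_lit 42) (nat_lit 46))))) (PT.nd (nat_lit 35908) (PT.nd (nat_lit 94) (PT.lf (nat_lit 14700) (nat_lit 6) (nat_lit 175) (nat_lit 1) (nat_lit 63) (nat_lit 42) (nat_lit 45)) (PT.nd (nat_lit 35720) (PT.lf (nat_lit 13440) (nat_lit 6) (nat_lit 160) (nat_lit 1) (nat_lit 64) (nat_lit 42) (nat_lit 44)) (PT.lf (nat_lit 13356) (nat_lit 3) (nat_lit 159) (nat_lit 3) (nat_lit 43) (nat_lit 43) (nat_lit 64)))) (PT.nd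 (nat_lit 94) (PT.lf (nat_lit 14616) (nat_lit 6) (nat_lit 174) (nat_lit 3) (nat_lit 44) (nat_lit 43) (nat_lit 63)) (PT.nd (nat_lit 94) (PT.lf (nat_lit 15792) (nat_lit 6) (nat_lit 188) (nat_lit 3) (nat_lit 45) (nat_lit 43) (nat_lit 62)) (PT.lf (nat_lit 16884) (nat_lit 6) (nat_lit 201) (nat_lit 3) (nat_lit 46) (nat_lit 43) (nat_lit 61))))))))
noncomputable def pc9 : PT := (PT.nd (nat_lit 37788) (PT.nd (nat_lit 1128) (PT.nd (nat_lit 564) (PT.nd (nat_lit 282) (PT.nd (nat_lit 94) (PT.lf (nat_lit 17892) (nat_lit 6) (nat_lit 213) (nat_lit 3) (nat_lit 47) (nat_lit 43) (nat_lit 60)) (PT.nd (nat_lit 94) (PT.lf (nat_lit 18816) (nat_lit 6) (nat_lit 224) (nat_lit 3) (nat_lit 48) (nat_lit 43) (nat_lit 59)) (PT.lf (nat_lit 19656) (nat_lit 6) (nat_lit 234) (nat_lit 3) (nat_lit 49) (nat_lit 43) (nat_lit 58)))) (PT.nd (nat_lit 94) (PT.lf (nat_lit 20412) (nat_lit 6) (nat_lit 243) (nat_lit 3) (nat_lit 50) (nat_lit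 43) (nat_lit 57)) (PT.nd (nat_lit 94) (PT.lf (nat_lit 20496) (nat_lit 6) (nat_lit 244) (nat_lit 3) (nat_lit 51) (nat_lit 43) (nat_lit 56)) (PT.lf (nat_lit 20580) (nat_lit 6) (nat_lit 245) (nat_lit 3) (nat_lit 52) (nat_lit 43) (nat_lit 55))))) (PT.nd (nat_lit 282) (PT.nd (nat_lit 94) (PT.lf (nat_lit 20664) (nat_lit 6) (nat_lit 246) (nat_lit 3) (nat_lit 53) (nat_lit 43) (nat_lit 54)) (PT.nd (nat_lit 94) (PT.lf (nat_lit 20664) (nat_lit 6) (nat_lit 246) (nat_lit 1) (nat_lit 54) (nat_lit 43) (nat_lit 53)) (PT.lf (nat_lit 20580) (nat_lit 6) (nat_lit 245) (nat_lit 1) (nat_lit 55) (nat_lit 43) (nat_lit 52)))) (PT.nd (nat_lit 94) (PT.lf (nat_lit 20496) (nat_lit 6) (nat_lit 244) (nat_lit 1) (nat_lit 56) (nat_lit 43) (nat_lit 51)) (PT.nd (nat_lit 94) (PT.lf (nat_lit 20412) (nat_lit 6) (nat_lit 243) (nat_lit 1) (nat_lit 57) (nat_lit 43) (nat_lit 50)) (PT.lf (nat_lit 19656) (nat_lit 6) (nat_lit 234) (nat_lit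 1) (nat_lit 58) (nat_lit 43) (nat_lit 49)))))) (PT.nd (nat_lit 36096) (PT.nd (nat_lit 282) (PT.nd (nat_lit 94) (PT.lf (nat_lit 18816) (nat_lit 6) (nat_lit 224) (nat_lit 1) (nat_lit 59) (nat_lit 43) (nat_lit 48)) (PT.nd (nat_lit 94) (PT.lf (nat_lit 17892) (nat_lit 6) (nat_lit 213) (nat_lit 1) (nat_lit 60) (nat_lit 43) (nat_lit 47)) (PT.lf (nat_lit 16884) (nat_lit 6) (nat_lit 201) (nat_lit 1) (nat_lit 61) (nat_lit 43) (nat_lit 46)))) (PT.nd (nat_lit 94) (PT.lf (nat_lit 15792) (nat_lit 6) (nat_lit 188) (nat_lit 1) (nat_lit 62) (nat_lit 43) (nat_lit 45)) (PT.nd (nat_lit 94) (PT.lf (nat_lit 14616) (nat_lit 6) (nat_lit 174) (nat_lit 1) (nat_lit 63) (nat_lit 43) (nat_lit 44)) (PT.lf (nat_lit 13356) (nat_lit 3) (nat_lit 159) (nat_lit 0) (nat_lit 64) (nat_lit 43) (nat_lit 43))))) (PT.nd (nat_lit 282) (PT.nd (nat_lit 94) (PT.lf (nat_lit 13440) (nat_lit 6) (nat_lit 160) (nat_lit 5) (nat_lit 42) (nat_lit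 44) (nat_lit 64)) (PT.nd (nat_lit 94) (PT.lf (nat_lit 14616) (nat_lit 6) (nat_lit 174) (nat_lit 5) (nat_lit 43) (nat_lit 44) (nat_lit 63)) (PT.lf (nat_lit 15708) (nat_lit 3) (nat_lit 187) (nat_lit 3) (nat_lit 44) (nat_lit 44) (nat_lit 62)))) (PT.nd (nat_lit 94) (PT.lf (nat_lit 16800) (nat_lit 6) (nat_lit 200) (nat_lit 3) (nat_lit 45) (nat_lit 44) (nat_lit 61)) (PT.nd (nat_lit 94) (PT.lf (nat_lit 17808) (nat_lit 6) (nat_lit 212) (nat_lit 3) (nat_lit 46) (nat_lit 44) (nat_lit 60)) (PT.lf (nat_lit 18732) (nat_lit 6) (nat_lit 223) (nat_lit 3) (nat_lit 47) (nat_lit 44) (nat_lit 59))))))) (PT.nd (nat_lit 1128) (PT.nd (nat_lit 564) (PT.nd (nat_lit 282) (PT.nd (nat_lit 94) (PT.lf (nat_lit 19572) (nat_lit 6) (nat_lit 233) (nat_lit 3) (nat_lit 48) (nat_lit 44) (nat_lit 58)) (PT.nd (nat_lit 94) (PT.lf (nat_lit 20328) (nat_lit 6) (nat_lit 242) (nat_lit 3) (nat_lit 49) (nat_lit 44) (nat_lit 57)) (PT.lf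 (nat_lit 21000) (nat_lit 6) (nat_lit 250) (nat_lit 3) (nat_lit 50) (nat_lit 44) (nat_lit 56)))) (PT.nd (nat_lit 94) (PT.lf (nat_lit 21084) (nat_lit 6) (nat_lit 251) (nat_lit 3) (nat_lit 51) (nat_lit 44) (nat_lit 55)) (PT.nd (nat_lit 94) (PT.lf (nat_lit 21168) (nat_lit 6) (nat_lit 252) (nat_lit 3) (nat_lit 52) (nat_lit 44) (nat_lit 54)) (PT.lf (nat_lit 21252) (nat_lit 3) (nat_lit 253) (nat_lit 1) (nat_lit 53) (nat_lit 44) (nat_lit 53))))) (PT.nd (nat_lit 282) (PT.nd (nat_lit 94) (PT.lf (nat_lit 21168) (nat_lit 6) (nat_lit 252) (nat_lit 1) (nat_lit 54) (nat_lit 44) (nat_lit 52)) (PT.nd (nat_lit 94) (PT.lf (nat_lit 21084) (nat_lit 6) (nat_lit 251) (nat_lit 1) (nat_lit 55) (nat_lit 44) (nat_lit 51)) (PT.lf (nat_lit 21000) (nat_lit 6) (nat_lit 250) (nat_lit 1) (nat_lit 56) (nat_lit 44) (nat_lit 50)))) (PT.nd (nat_lit 94) (PT.lf (nat_lit 20328) (nat_lit 6) (nat_lit 242) (nat_lit 1) (nat_lit 57)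 (nat_lit 44) (nat_lit 49)) (PT.nd (nat_lit 94) (PT.lf (nat_lit 19572) (nat_lit 6) (nat_lit 233) (nat_lit 1) (nat_lit 58) (nat_lit 44) (nat_lit 48)) (PT.lf (nat_lit 18732) (nat_lit 6) (nat_lit 223) (nat_lit 1) (nat_lit 59) (nat_lit 44) (nat_lit 47)))))) (PT.nd (nat_lit 36002) (PT.nd (nat_lit 282) (PT.nd (nat_lit 94) (PT.lf (nat_lit 17808) (nat_lit 6) (nat_lit 212) (nat_lit 1) (nat_lit 60) (nat_lit 44) (nat_lit 46)) (PT.nd (nat_lit 94) (PT.lf (nat_lit 16800) (nat_lit 6) (nat_lit 200) (nat_lit 1) (nat_lit 61) (nat_lit 44) (nat_lit 45)) (PT.lf (nat_lit 15708) (nat_lit 3) (nat_lit 187) (nat_lit 0) (nat_lit 62) (nat_lit 44) (nat_lit 44)))) (PT.nd (nat_lit 94) (PT.lf (nat_lit 14616) (nat_lit 6) (nat_lit 174) (nat_lit 0) (nat_lit 63) (nat_lit 44) (nat_lit 43)) (PT.nd (nat_lit 35532) (PT.lf (nat_lit 13440) (nat_lit 6) (nat_lit 160) (nat_lit 0) (nat_lit 64) (nat_lit 44) (nat_lit 42)) (PT.lf (nat_lit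 13524) (nat_lit 6) (nat_lit 161) (nat_lit 5) (nat_lit 41) (nat_lit 45) (nat_lit 64))))) (PT.nd (nat_lit 282) (PT.nd (nat_lit 94) (PT.lf (nat_lit 14700) (nat_lit 6) (nat_lit 175) (nat_lit 5) (nat_lit 42) (nat_lit 45) (nat_lit 63)) (PT.nd (nat_lit 94) (PT.lf (nat_lit 15792) (nat_lit 6) (nat_lit 188) (nat_lit 5) (nat_lit 43) (nat_lit 45) (nat_lit 62)) (PT.lf (nat_lit 16800) (nat_lit 6) (nat_lit 200) (nat_lit 5) (nat_lit 44) (nat_lit 45) (nat_lit 61)))) (PT.nd (nat_lit 94) (PT.lf (nat_lit 17724) (nat_lit 3) (nat_lit 211) (nat_lit 3) (nat_lit 45) (nat_lit 45) (nat_lit 60)) (PT.nd (nat_lit 94) (PT.lf (nat_lit 18648) (nat_lit 6) (nat_lit 222) (nat_lit 3) (nat_lit 46) (nat_lit 45) (nat_lit 59)) (PT.lf (nat_lit 19488) (nat_lit 6) (nat_lit 232) (nat_lit 3) (nat_lit 47) (nat_lit 45) (nat_lit 58))))))))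
noncomputable def pc10 : PT := (PT.nd (nat_lit 37506) (PT.nd (nat_lit 1034) (PT.nd (nat_lit 470) (PT.nd (nat_lit 188) (PT.nd (nat_lit 94) (PT.lf (nat_lit 20244) (nat_lit 6) (nat_lit 241) (nat_lit 3) (nat_lit 48) (nat_lit 45) (nat_lit 57)) (PT.lf (nat_lit 20916) (nat_lit 6) (nat_lit 249) (nat_lit 3) (nat_lit 49) (nat_lit 45) (nat_lit 56))) (PT.nd (nat_lit 94) (PT.lf (nat_lit 21504) (nat_lit 6) (nat_lit 256) (nat_lit 3) (nat_lit 50) (nat_lit 45) (nat_lit 55)) (PT.nd (nat_lit 94) (PT.lf (nat_lit 21588) (nat_lit 6) (nat_lit 257) (nat_lit 3) (nat_lit 51) (nat_lit 45) (nat_lit 54)) (PT.lf (nat_lit 21672) (nat_lit 6) (nat_lit 258) (nat_lit 3) (nat_lit 52) (nat_lit 45) (nat_lit 53))))) (PT.nd (nat_lit 282) (PT.nd (nat_lit 94) (PT.lf (nat_lit 21672) (nat_lit 6) (nat_lit 258) (nat_lit 1) (nat_lit 53) (nat_lit 45) (nat_lit 52)) (PT.nd (nat_lit 94) (PT.lf (nat_lit 21588) (nat_lit 6) (nat_lit 257) (nat_lit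 1) (nat_lit 54) (nat_lit 45) (nat_lit 51)) (PT.lf (nat_lit 21504) (nat_lit 6) (nat_lit 256) (nat_lit 1) (nat_lit 55) (nat_lit 45) (nat_lit 50)))) (PT.nd (nat_lit 94) (PT.lf (nat_lit 20916) (nat_lit 6) (nat_lit 249) (nat_lit 1) (nat_lit 56) (nat_lit 45) (nat_lit 49)) (PT.nd (nat_lit 94) (PT.lf (nat_lit 20244) (nat_lit 6) (nat_lit 241) (nat_lit 1) (nat_lit 57) (nat_lit 45) (nat_lit 48)) (PT.lf (nat_lit 19488) (nat_lit 6) (nat_lit 232) (nat_lit 1) (nat_lit 58) (nat_lit 45) (nat_lit 47)))))) (PT.nd (nat_lit 35908) (PT.nd (nat_lit 282) (PT.nd (nat_lit 94) (PT.lf (nat_lit 18648) (nat_lit 6) (nat_lit 222) (nat_lit 1) (nat_lit 59) (nat_lit 45) (nat_lit 46)) (PT.nd (nat_lit 94) (PT.lf (nat_lit 17724) (nat_lit 3) (nat_lit 211) (nat_lit 0) (nat_lit 60) (nat_lit 45) (nat_lit 45)) (PT.lf (nat_lit 16800) (nat_lit 6) (nat_lit 200) (nat_lit 0) (nat_lit 61) (nat_lit 45) (nat_lit 44)))) (PT.nd (nat_lit 94)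 (PT.lf (nat_lit 15792) (nat_lit 6) (nat_lit 188) (nat_lit 0) (nat_lit 62) (nat_lit 45) (nat_lit 43)) (PT.nd (nat_lit 94) (PT.lf (nat_lit 14700) (nat_lit 6) (nat_lit 175) (nat_lit 0) (nat_lit 63) (nat_lit 45) (nat_lit 42)) (PT.lf (nat_lit 13524) (nat_lit 6) (nat_lit 161) (nat_lit 0) (nat_lit 64) (nat_lit 45) (nat_lit 41))))) (PT.nd (nat_lit 282) (PT.nd (nat_lit 94) (PT.lf (nat_lit 13608) (nat_lit 6) (nat_lit 162) (nat_lit 5) (nat_lit 40) (nat_lit 46) (nat_lit 64)) (PT.nd (nat_lit 94) (PT.lf (nat_lit 14784) (nat_lit 6) (nat_lit 176) (nat_lit 5) (nat_lit 41) (nat_lit 46) (nat_lit 63)) (PT.lf (nat_lit 15876) (nat_lit 6) (nat_lit 189) (nat_lit 5) (nat_lit 42) (nat_lit 46) (nat_lit 62)))) (PT.nd (nat_lit 94) (PT.lf (nat_lit 16884) (nat_lit 6) (nat_lit 201) (nat_lit 5) (nat_lit 43) (nat_lit 46) (nat_lit 61)) (PT.nd (nat_lit 94) (PT.lf (nat_lit 17808) (nat_lit 6) (nat_lit 212) (nat_lit 5) (nat_lit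 44) (nat_lit 46) (nat_lit 60)) (PT.lf (nat_lit 18648) (nat_lit 6) (nat_lit 222) (nat_lit 5) (nat_lit 45) (nat_lit 46) (nat_lit 59))))))) (PT.nd (nat_lit 1128) (PT.nd (nat_lit 564) (PT.nd (nat_lit 282) (PT.nd (nat_lit 94) (PT.lf (nat_lit 19404) (nat_lit 3) (nat_lit 231) (nat_lit 3) (nat_lit 46) (nat_lit 46) (nat_lit 58)) (PT.nd (nat_lit 94) (PT.lf (nat_lit 20160) (nat_lit 6) (nat_lit 240) (nat_lit 3) (nat_lit 47) (nat_lit 46) (nat_lit 57)) (PT.lf (nat_lit 20832) (nat_lit 6) (nat_lit 248) (nat_lit 3) (nat_lit 48) (nat_lit 46) (nat_lit 56)))) (PT.nd (nat_lit 94) (PT.lf (nat_lit 21420) (nat_lit 6) (nat_lit 255) (nat_lit 3) (nat_lit 49) (nat_lit 46) (nat_lit 55)) (PT.nd (nat_lit 94) (PT.lf (nat_lit 21924) (nat_lit 6) (nat_lit 261) (nat_lit 3) (nat_lit 50) (nat_lit 46) (nat_lit 54)) (PT.lf (nat_lit 22008) (nat_lit 6) (nat_lit 262) (nat_lit 3) (nat_lit 51) (nat_lit 46) (nat_lit 53))))) (PT.nd (nat_lit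 282) (PT.nd (nat_lit 94) (PT.lf (nat_lit 22092) (nat_lit 3) (nat_lit 263) (nat_lit 1) (nat_lit 52) (nat_lit 46) (nat_lit 52)) (PT.nd (nat_lit 94) (PT.lf (nat_lit 22008) (nat_lit 6) (nat_lit 262) (nat_lit 1) (nat_lit 53) (nat_lit 46) (nat_lit 51)) (PT.lf (nat_lit 21924) (nat_lit 6) (nat_lit 261) (nat_lit 1) (nat_lit 54) (nat_lit 46) (nat_lit 50)))) (PT.nd (nat_lit 94) (PT.lf (nat_lit 21420) (nat_lit 6) (nat_lit 255) (nat_lit 1) (nat_lit 55) (nat_lit 46) (nat_lit 49)) (PT.nd (nat_lit 94) (PT.lf (nat_lit 20832) (nat_lit 6) (nat_lit 248) (nat_lit 1) (nat_lit 56) (nat_lit 46) (nat_lit 48)) (PT.lf (nat_lit 20160) (nat_lit 6) (nat_lit 240) (nat_lit 1) (nat_lit 57) (nat_lit 46) (nat_lit 47)))))) (PT.nd (nat_lit 564) (PT.nd (nat_lit 282) (PT.nd (nat_lit 94) (PT.lf (nat_lit 19404) (nat_lit 3) (nat_lit 231) (nat_lit 0) (nat_lit 58) (nat_lit 46) (nat_lit 46)) (PT.nd (nat_lit 94) (PT.lf (nat_lit 18648)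 (nat_lit 6) (nat_lit 222) (nat_lit 0) (nat_lit 59) (nat_lit 46) (nat_lit 45)) (PT.lf (nat_lit 17808) (nat_lit 6) (nat_lit 212) (nat_lit 0) (nat_lit 60) (nat_lit 46) (nat_lit 44)))) (PT.nd (nat_lit 94) (PT.lf (nat_lit 16884) (nat_lit 6) (nat_lit 201) (nat_lit 0) (nat_lit 61) (nat_lit 46) (nat_lit 43)) (PT.nd (nat_lit 94) (PT.lf (nat_lit 15876) (nat_lit 6) (nat_lit 189) (nat_lit 0) (nat_lit 62) (nat_lit 46) (nat_lit 42)) (PT.lf (nat_lit 14784) (nat_lit 6) (nat_lit 176) (nat_lit 0) (nat_lit 63) (nat_lit 46) (nat_lit 41))))) (PT.nd (nat_lit 35532) (PT.nd (nat_lit 35344) (PT.lf (nat_lit 13608) (nat_lit 6) (nat_lit 162) (nat_lit 0) (nat_lit 64) (nat_lit 46) (nat_lit 40)) (PT.nd (nat_lit 94) (PT.lf (nat_lit 13692) (nat_lit 6) (nat_lit 163) (nat_lit 5) (nat_lit 39) (nat_lit 47) (nat_lit 64)) (PT.lf (nat_lit 14868) (nat_lit 6) (nat_lit 177) (nat_lit 5) (nat_lit 40) (nat_lit 47) (nat_lit 63)))) (PT.nd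 (nat_lit 94) (PT.lf (nat_lit 15960) (nat_lit 6) (nat_lit 190) (nat_lit 5) (nat_lit 41) (nat_lit 47) (nat_lit 62)) (PT.nd (nat_lit 94) (PT.lf (nat_lit 16968) (nat_lit 6) (nat_lit 202) (nat_lit 5) (nat_lit 42) (nat_lit 47) (nat_lit 61)) (PT.lf (nat_lit 17892) (nat_lit 6) (nat_lit 213) (nat_lit 5) (nat_lit 43) (nat_lit 47) (nat_lit 60))))))))
noncomputable def pc11 : PT := (PT.nd (nat_lit 37412) (PT.nd (nat_lit 1128) (PT.nd (nat_lit 564) (PT.nd (nat_lit 282) (PT.nd (nat_lit 94) (PT.lf (nat_lit 18732) (nat_lit 6) (nat_lit 223) (nat_lit 5) (nat_lit 44) (nat_lit 47) (nat_lit 59)) (PT.nd (nat_lit 94) (PT.lf (nat_lit 19488) (nat_lit 6) (nat_lit 232) (nat_lit 5) (nat_lit 45) (nat_lit 47) (nat_lit 58)) (PT.lf (nat_lit 20160) (nat_lit 6) (nat_lit 240) (nat_lit 5) (nat_lit 46) (nat_lit 47) (nat_lit 57)))) (PT.nd (nat_lit 94) (PT.lf (nat_lit 20748) (nat_lit 3) (nat_lit 247) (nat_lit 3) (nat_lit 47) (nat_lit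 47) (nat_lit 56)) (PT.nd (nat_lit 94) (PT.lf (nat_lit 21336) (nat_lit 6) (nat_lit 254) (nat_lit 3) (nat_lit 48) (nat_lit 47) (nat_lit 55)) (PT.lf (nat_lit 21840) (nat_lit 6) (nat_lit 260) (nat_lit 3) (nat_lit 49) (nat_lit 47) (nat_lit 54))))) (PT.nd (nat_lit 282) (PT.nd (nat_lit 94) (PT.lf (nat_lit 22260) (nat_lit 6) (nat_lit 265) (nat_lit 3) (nat_lit 50) (nat_lit 47) (nat_lit 53)) (PT.nd (nat_lit 94) (PT.lf (nat_lit 22344) (nat_lit 6) (nat_lit 266) (nat_lit 3) (nat_lit 51) (nat_lit 47) (nat_lit 52)) (PT.lf (nat_lit 22344) (nat_lit 6) (nat_lit 266) (nat_lit 1) (nat_lit 52) (nat_lit 47) (nat_lit 51)))) (PT.nd (nat_lit 94) (PT.lf (nat_lit 22260) (nat_lit 6) (nat_lit 265) (nat_lit 1) (nat_lit 53) (nat_lit 47) (nat_lit 50)) (PT.nd (nat_lit 94) (PT.lf (nat_lit 21840) (nat_lit 6) (nat_lit 260) (nat_lit 1) (nat_lit 54) (nat_lit 47) (nat_lit 49)) (PT.lf (nat_lit 21336) (nat_lit 6) (nat_lit 254) (nat_lit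 1) (nat_lit 55) (nat_lit 47) (nat_lit 48)))))) (PT.nd (nat_lit 564) (PT.nd (nat_lit 282) (PT.nd (nat_lit 94) (PT.lf (nat_lit 20748) (nat_lit 3) (nat_lit 247) (nat_lit 0) (nat_lit 56) (nat_lit 47) (nat_lit 47)) (PT.nd (nat_lit 94) (PT.lf (nat_lit 20160) (nat_lit 6) (nat_lit 240) (nat_lit 0) (nat_lit 57) (nat_lit 47) (nat_lit 46)) (PT.lf (nat_lit 19488) (nat_lit 6) (nat_lit 232) (nat_lit 0) (nat_lit 58) (nat_lit 47) (nat_lit 45)))) (PT.nd (nat_lit 94) (PT.lf (nat_lit 18732) (nat_lit 6) (nat_lit 223) (nat_lit 0) (nat_lit 59) (nat_lit 47) (nat_lit 44)) (PT.nd (nat_lit 94) (PT.lf (nat_lit 17892) (nat_lit 6) (nat_lit 213) (nat_lit 0) (nat_lit 60) (nat_lit 47) (nat_lit 43)) (PT.lf (nat_lit 16968) (nat_lit 6) (nat_lit 202) (nat_lit 0) (nat_lit 61) (nat_lit 47) (nat_lit 42))))) (PT.nd (nat_lit 35438) (PT.nd (nat_lit 94) (PT.lf (nat_lit 15960) (nat_lit 6) (nat_lit 190) (nat_lit 0) (nat_lit 62) (nat_lit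 47) (nat_lit 41)) (PT.nd (nat_lit 94) (PT.lf (nat_lit 14868) (nat_lit 6) (nat_lit 177) (nat_lit 0) (nat_lit 63) (nat_lit 47) (nat_lit 40)) (PT.lf (nat_lit 13692) (nat_lit 6) (nat_lit 163) (nat_lit 0) (nat_lit 64) (nat_lit 47) (nat_lit 39)))) (PT.nd (nat_lit 94) (PT.lf (nat_lit 13776) (nat_lit 6) (nat_lit 164) (nat_lit 5) (nat_lit 38) (nat_lit 48) (nat_lit 64)) (PT.nd (nat_lit 94) (PT.lf (nat_lit 14952) (nat_lit 6) (nat_lit 178) (nat_lit 5) (nat_lit 39) (nat_lit 48) (nat_lit 63)) (PT.lf (nat_lit 16044) (nat_lit 6) (nat_lit 191) (nat_lit 5) (nat_lit 40) (nat_lit 48) (nat_lit 62))))))) (PT.nd (nat_lit 1128) (PT.nd (nat_lit 564) (PT.nd (nat_lit 282) (PT.nd (nat_lit 94) (PT.lf (nat_lit 17052) (nat_lit 6) (nat_lit 203) (nat_lit 5) (nat_lit 41) (nat_lit 48) (nat_lit 61)) (PT.nd (nat_lit 94) (PT.lf (nat_lit 17976) (nat_lit 6) (nat_lit 214) (nat_lit 5) (nat_lit 42) (nat_lit 48) (nat_lit 60)) (PT.lf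 (nat_lit 18816) (nat_lit 6) (nat_lit 224) (nat_lit 5) (nat_lit 43) (nat_lit 48) (nat_lit 59)))) (PT.nd (nat_lit 94) (PT.lf (nat_lit 19572) (nat_lit 6) (nat_lit 233) (nat_lit 5) (nat_lit 44) (nat_lit 48) (nat_lit 58)) (PT.nd (nat_lit 94) (PT.lf (nat_lit 20244) (nat_lit 6) (nat_lit 241) (nat_lit 5) (nat_lit 45) (nat_lit 48) (nat_lit 57)) (PT.lf (nat_lit 20832) (nat_lit 6) (nat_lit 248) (nat_lit 5) (nat_lit 46) (nat_lit 48) (nat_lit 56))))) (PT.nd (nat_lit 282) (PT.nd (nat_lit 94) (PT.lf (nat_lit 21336) (nat_lit 6) (nat_lit 254) (nat_lit 5) (nat_lit 47) (nat_lit 48) (nat_lit 55)) (PT.nd (nat_lit 94) (PT.lf (nat_lit 21756) (nat_lit 3) (nat_lit 259) (nat_lit 3) (nat_lit 48) (nat_lit 48) (nat_lit 54)) (PT.lf (nat_lit 22176) (nat_lit 6) (nat_lit 264) (nat_lit 3) (nat_lit 49) (nat_lit 48) (nat_lit 53)))) (PT.nd (nat_lit 94) (PT.lf (nat_lit 22512) (nat_lit 6) (nat_lit 268) (nat_lit 3) (nat_lit 50)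 (nat_lit 48) (nat_lit 52)) (PT.nd (nat_lit 94) (PT.lf (nat_lit 22596) (nat_lit 3) (nat_lit 269) (nat_lit 1) (nat_lit 51) (nat_lit 48) (nat_lit 51)) (PT.lf (nat_lit 22512) (nat_lit 6) (nat_lit 268) (nat_lit 1) (nat_lit 52) (nat_lit 48) (nat_lit 50)))))) (PT.nd (nat_lit 564) (PT.nd (nat_lit 282) (PT.nd (nat_lit 94) (PT.lf (nat_lit 22176) (nat_lit 6) (nat_lit 264) (nat_lit 1) (nat_lit 53) (nat_lit 48) (nat_lit 49)) (PT.nd (nat_lit 94) (PT.lf (nat_lit 21756) (nat_lit 3) (nat_lit 259) (nat_lit 0) (nat_lit 54) (nat_lit 48) (nat_lit 48)) (PT.lf (nat_lit 21336) (nat_lit 6) (nat_lit 254) (nat_lit 0) (nat_lit 55) (nat_lit 48) (nat_lit 47)))) (PT.nd (nat_lit 94) (PT.lf (nat_lit 20832) (nat_lit 6) (nat_lit 248) (nat_lit 0) (nat_lit 56) (nat_lit 48) (nat_lit 46)) (PT.nd (nat_lit 94) (PT.lf (nat_lit 20244) (nat_lit 6) (nat_lit 241) (nat_lit 0) (nat_lit 57) (nat_lit 48) (nat_lit 45)) (PT.lf (nat_lit 19572)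 (nat_lit 6) (nat_lit 233) (nat_lit 0) (nat_lit 58) (nat_lit 48) (nat_lit 44))))) (PT.nd (nat_lit 282) (PT.nd (nat_lit 94) (PT.lf (nat_lit 18816) (nat_lit 6) (nat_lit 224) (nat_lit 0) (nat_lit 59) (nat_lit 48) (nat_lit 43)) (PT.nd (nat_lit 94) (PT.lf (nat_lit 17976) (nat_lit 6) (nat_lit 214) (nat_lit 0) (nat_lit 60) (nat_lit 48) (nat_lit 42)) (PT.lf (nat_lit 17052) (nat_lit 6) (nat_lit 203) (nat_lit 0) (nat_lit 61) (nat_lit 48) (nat_lit 41)))) (PT.nd (nat_lit 94) (PT.lf (nat_lit 16044) (nat_lit 6) (nat_lit 191) (nat_lit 0) (nat_lit 62) (nat_lit 48) (nat_lit 40)) (PT.nd (nat_lit 94) (PT.lf (nat_lit 14952) (nat_lit 6) (nat_lit 178) (nat_lit 0) (nat_lit 63) (nat_lit 48) (nat_lit 39)) (PT.lf (nat_lit 13776) (nat_lit 6) (nat_lit 164) (nat_lit 0) (nat_lit 64) (nat_lit 48) (nat_lit 38))))))))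
noncomputable def pc12 : PT := (PT.nd (nat_lit 2162) (PT.nd (nat_lit 1034) (PT.nd (nat_lit 470) (PT.nd (nat_lit 188) (PT.nd (nat_lit 94) (PT.lf (nat_lit 13860) (nat_lit 6) (nat_lit 165) (nat_lit 5) (nat_lit 37) (nat_lit 49) (nat_lit 64)) (PT.lf (nat_lit 15036) (nat_lit 6) (nat_lit 179) (nat_lit 5) (nat_lit 38) (nat_lit 49) (nat_lit 63))) (PT.nd (nat_lit 94) (PT.lf (nat_lit 16128) (nat_lit 6) (nat_lit 192) (nat_lit 5) (nat_lit 39) (nat_lit 49) (nat_lit 62)) (PT.nd (nat_lit 94) (PT.lf (nat_lit 17136) (nat_lit 6) (nat_lit 204) (nat_lit 5) (nat_lit 40) (nat_lit 49) (nat_lit 61)) (PT.lf (nat_lit 18060) (nat_lit 6) (nat_lit 215) (nat_lit 5) (nat_lit 41) (nat_lit 49) (nat_lit 60))))) (PT.nd (nat_lit 282) (PT.nd (nat_lit 94) (PT.lf (nat_lit 18900) (nat_lit 6) (nat_lit 225) (nat_lit 5) (nat_lit 42) (nat_lit 49) (nat_lit 59)) (PT.nd (nat_lit 94) (PT.lf (nat_lit 19656) (nat_lit 6) (nat_lit 234) (nat_lit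 5) (nat_lit 43) (nat_lit 49) (nat_lit 58)) (PT.lf (nat_lit 20328) (nat_lit 6) (nat_lit 242) (nat_lit 5) (nat_lit 44) (nat_lit 49) (nat_lit 57)))) (PT.nd (nat_lit 94) (PT.lf (nat_lit 20916) (nat_lit 6) (nat_lit 249) (nat_lit 5) (nat_lit 45) (nat_lit 49) (nat_lit 56)) (PT.nd (nat_lit 94) (PT.lf (nat_lit 21420) (nat_lit 6) (nat_lit 255) (nat_lit 5) (nat_lit 46) (nat_lit 49) (nat_lit 55)) (PT.lf (nat_lit 21840) (nat_lit 6) (nat_lit 260) (nat_lit 5) (nat_lit 47) (nat_lit 49) (nat_lit 54)))))) (PT.nd (nat_lit 564) (PT.nd (nat_lit 282) (PT.nd (nat_lit 94) (PT.lf (nat_lit 22176) (nat_lit 6) (nat_lit 264) (nat_lit 5) (nat_lit 48) (nat_lit 49) (nat_lit 53)) (PT.nd (nat_lit 94) (PT.lf (nat_lit 22428) (nat_lit 3) (nat_lit 267) (nat_lit 3) (nat_lit 49) (nat_lit 49) (nat_lit 52)) (PT.lf (nat_lit 22680) (nat_lit 6) (nat_lit 270) (nat_lit 3) (nat_lit 50) (nat_lit 49) (nat_lit 51)))) (PT.nd (nat_lit 94) (PT.lf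 (nat_lit 22680) (nat_lit 6) (nat_lit 270) (nat_lit 1) (nat_lit 51) (nat_lit 49) (nat_lit 50)) (PT.nd (nat_lit 94) (PT.lf (nat_lit 22428) (nat_lit 3) (nat_lit 267) (nat_lit 0) (nat_lit 52) (nat_lit 49) (nat_lit 49)) (PT.lf (nat_lit 22176) (nat_lit 6) (nat_lit 264) (nat_lit 0) (nat_lit 53) (nat_lit 49) (nat_lit 48))))) (PT.nd (nat_lit 282) (PT.nd (nat_lit 94) (PT.lf (nat_lit 21840) (nat_lit 6) (nat_lit 260) (nat_lit 0) (nat_lit 54) (nat_lit 49) (nat_lit 47)) (PT.nd (nat_lit 94) (PT.lf (nat_lit 21420) (nat_lit 6) (nat_lit 255) (nat_lit 0) (nat_lit 55) (nat_lit 49) (nat_lit 46)) (PT.lf (nat_lit 20916) (nat_lit 6) (nat_lit 249) (nat_lit 0) (nat_lit 56) (nat_lit 49) (nat_lit 45)))) (PT.nd (nat_lit 94) (PT.lf (nat_lit 20328) (nat_lit 6) (nat_lit 242) (nat_lit 0) (nat_lit 57) (nat_lit 49) (nat_lit 44)) (PT.nd (nat_lit 94) (PT.lf (nat_lit 19656) (nat_lit 6) (nat_lit 234) (nat_lit 0) (nat_lit 58) (nat_lit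 49) (nat_lit 43)) (PT.lf (nat_lit 18900) (nat_lit 6) (nat_lit 225) (nat_lit 0) (nat_lit 59) (nat_lit 49) (nat_lit 42))))))) (PT.nd (nat_lit 36002) (PT.nd (nat_lit 35438) (PT.nd (nat_lit 282) (PT.nd (nat_lit 94) (PT.lf (nat_lit 18060) (nat_lit 6) (nat_lit 215) (nat_lit 0) (nat_lit 60) (nat_lit 49) (nat_lit 41)) (PT.nd (nat_lit 94) (PT.lf (nat_lit 17136) (nat_lit 6) (nat_lit 204) (nat_lit 0) (nat_lit 61) (nat_lit 49) (nat_lit 40)) (PT.lf (nat_lit 16128) (nat_lit 6) (nat_lit 192) (nat_lit 0) (nat_lit 62) (nat_lit 49) (nat_lit 39)))) (PT.nd (nat_lit 94) (PT.lf (nat_lit 15036) (nat_lit 6) (nat_lit 179) (nat_lit 0) (nat_lit 63) (nat_lit 49) (nat_lit 38)) (PT.nd (nat_lit 34968) (PT.lf (nat_lit 13860) (nat_lit 6) (nat_lit 165) (nat_lit 0) (nat_lit 64) (nat_lit 49) (nat_lit 37)) (PT.lf (nat_lit 12684) (nat_lit 6) (nat_lit 151) (nat_lit 5) (nat_lit 35) (nat_lit 50) (nat_lit 65))))) (PT.nd (nat_lit 282)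 (PT.nd (nat_lit 94) (PT.lf (nat_lit 13944) (nat_lit 6) (nat_lit 166) (nat_lit 5) (nat_lit 36) (nat_lit 50) (nat_lit 64)) (PT.nd (nat_lit 94) (PT.lf (nat_lit 15120) (nat_lit 6) (nat_lit 180) (nat_lit 5) (nat_lit 37) (nat_lit 50) (nat_lit 63)) (PT.lf (nat_lit 16212) (nat_lit 6) (nat_lit 193) (nat_lit 5) (nat_lit 38) (nat_lit 50) (nat_lit 62)))) (PT.nd (nat_lit 94) (PT.lf (nat_lit 17220) (nat_lit 6) (nat_lit 205) (nat_lit 5) (nat_lit 39) (nat_lit 50) (nat_lit 61)) (PT.nd (nat_lit 94) (PT.lf (nat_lit 18144) (nat_lit 6) (nat_lit 216) (nat_lit 5) (nat_lit 40) (nat_lit 50) (nat_lit 60)) (PT.lf (nat_lit 18984) (nat_lit 6) (nat_lit 226) (nat_lit 5) (nat_lit 41) (nat_lit 50) (nat_lit 59)))))) (PT.nd (nat_lit 564) (PT.nd (nat_lit 282) (PT.nd (nat_lit 94) (PT.lf (nat_lit 19740) (nat_lit 6) (nat_lit 235) (nat_lit 5) (nat_lit 42) (nat_lit 50) (nat_lit 58)) (PT.nd (nat_lit 94) (PT.lf (nat_lit 20412) (nat_lit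 6) (nat_lit 243) (nat_lit 5) (nat_lit 43) (nat_lit 50) (nat_lit 57)) (PT.lf (nat_lit 21000) (nat_lit 6) (nat_lit 250) (nat_lit 5) (nat_lit 44) (nat_lit 50) (nat_lit 56)))) (PT.nd (nat_lit 94) (PT.lf (nat_lit 21504) (nat_lit 6) (nat_lit 256) (nat_lit 5) (nat_lit 45) (nat_lit 50) (nat_lit 55)) (PT.nd (nat_lit 94) (PT.lf (nat_lit 21924) (nat_lit 6) (nat_lit 261) (nat_lit 5) (nat_lit 46) (nat_lit 50) (nat_lit 54)) (PT.lf (nat_lit 22260) (nat_lit 6) (nat_lit 265) (nat_lit 5) (nat_lit 47) (nat_lit 50) (nat_lit 53))))) (PT.nd (nat_lit 282) (PT.nd (nat_lit 94) (PT.lf (nat_lit 22512) (nat_lit 6) (nat_lit 268) (nat_lit 5) (nat_lit 48) (nat_lit 50) (nat_lit 52)) (PT.nd (nat_lit 94) (PT.lf (nat_lit 22680) (nat_lit 6) (nat_lit 270) (nat_lit 5) (nat_lit 49) (nat_lit 50) (nat_lit 51)) (PT.lf (nat_lit 22764) (nat_lit 1) (nat_lit 271) (nat_lit 0) (nat_lit 50) (nat_lit 50) (nat_lit 50)))) (PT.nd (nat_lit 94)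 (PT.lf (nat_lit 22680) (nat_lit 6) (nat_lit 270) (nat_lit 0) (nat_lit 51) (nat_lit 50) (nat_lit 49)) (PT.nd (nat_lit 94) (PT.lf (nat_lit 22512) (nat_lit 6) (nat_lit 268) (nat_lit 0) (nat_lit 52) (nat_lit 50) (nat_lit 48)) (PT.lf (nat_lit 22260) (nat_lit 6) (nat_lit 265) (nat_lit 0) (nat_lit 53) (nat_lit 50) (nat_lit 47))))))))
noncomputable def pc13 : PT := (PT.nd (nat_lit 36942) (PT.nd (nat_lit 35814) (PT.nd (nat_lit 564) (PT.nd (nat_lit 282) (PT.nd (nat_lit 94) (PT.lf (nat_lit 21924) (nat_lit 6) (nat_lit 261) (nat_lit 0) (nat_lit 54) (nat_lit 50) (nat_lit 46)) (PT.nd (nat_lit 94) (PT.lf (nat_lit 21504) (nat_lit 6) (nat_lit 256) (nat_lit 0) (nat_lit 55) (nat_lit 50) (nat_lit 45)) (PT.lf (nat_lit 21000) (nat_lit 6) (nat_lit 250) (nat_lit 0) (nat_lit 56) (nat_lit 50) (nat_lit 44)))) (PT.nd (nat_lit 94) (PT.lf (nat_lit 20412) (nat_lit 6) (nat_lit 243) (nat_lit 0) (nat_lit 57) (nat_lit 50) (nat_lit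 43)) (PT.nd (nat_lit 94) (PT.lf (nat_lit 19740) (nat_lit 6) (nat_lit 235) (nat_lit 0) (nat_lit 58) (nat_lit 50) (nat_lit 42)) (PT.lf (nat_lit 18984) (nat_lit 6) (nat_lit 226) (nat_lit 0) (nat_lit 59) (nat_lit 50) (nat_lit 41))))) (PT.nd (nat_lit 282) (PT.nd (nat_lit 94) (PT.lf (nat_lit 18144) (nat_lit 6) (nat_lit 216) (nat_lit 0) (nat_lit 60) (nat_lit 50) (nat_lit 40)) (PT.nd (nat_lit 94) (PT.lf (nat_lit 17220) (nat_lit 6) (nat_lit 205) (nat_lit 0) (nat_lit 61) (nat_lit 50) (nat_lit 39)) (PT.lf (nat_lit 16212) (nat_lit 6) (nat_lit 193) (nat_lit 0) (nat_lit 62) (nat_lit 50) (nat_lit 38)))) (PT.nd (nat_lit 94) (PT.lf (nat_lit 15120) (nat_lit 6) (nat_lit 180) (nat_lit 0) (nat_lit 63) (nat_lit 50) (nat_lit 37)) (PT.nd (nat_lit 94) (PT.lf (nat_lit 13944) (nat_lit 6) (nat_lit 166) (nat_lit 0) (nat_lit 64) (nat_lit 50) (nat_lit 36)) (PT.lf (nat_lit 12684) (nat_lit 6) (nat_lit 151) (nat_lit 0) (nat_lit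 65) (nat_lit 50) (nat_lit 35)))))) (PT.nd (nat_lit 564) (PT.nd (nat_lit 282) (PT.nd (nat_lit 94) (PT.lf (nat_lit 12012) (nat_lit 6) (nat_lit 143) (nat_lit 5) (nat_lit 34) (nat_lit 51) (nat_lit 65)) (PT.nd (nat_lit 94) (PT.lf (nat_lit 12768) (nat_lit 6) (nat_lit 152) (nat_lit 5) (nat_lit 35) (nat_lit 51) (nat_lit 64)) (PT.lf (nat_lit 14028) (nat_lit 6) (nat_lit 167) (nat_lit 5) (nat_lit 36) (nat_lit 51) (nat_lit 63)))) (PT.nd (nat_lit 94) (PT.lf (nat_lit 15204) (nat_lit 6) (nat_lit 181) (nat_lit 5) (nat_lit 37) (nat_lit 51) (nat_lit 62)) (PT.nd (nat_lit 94) (PT.lf (nat_lit 16296) (nat_lit 6) (nat_lit 194) (nat_lit 5) (nat_lit 38) (nat_lit 51) (nat_lit 61)) (PT.lf (nat_lit 17304) (nat_lit 6) (nat_lit 206) (nat_lit 5) (nat_lit 39) (nat_lit 51) (nat_lit 60))))) (PT.nd (nat_lit 282) (PT.nd (nat_lit 94) (PT.lf (nat_lit 18228) (nat_lit 6) (nat_lit 217) (nat_lit 5) (nat_lit 40) (nat_lit 51) (nat_lit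 59)) (PT.nd (nat_lit 94) (PT.lf (nat_lit 19068) (nat_lit 6) (nat_lit 227) (nat_lit 5) (nat_lit 41) (nat_lit 51) (nat_lit 58)) (PT.lf (nat_lit 19824) (nat_lit 6) (nat_lit 236) (nat_lit 5) (nat_lit 42) (nat_lit 51) (nat_lit 57)))) (PT.nd (nat_lit 94) (PT.lf (nat_lit 20496) (nat_lit 6) (nat_lit 244) (nat_lit 5) (nat_lit 43) (nat_lit 51) (nat_lit 56)) (PT.nd (nat_lit 94) (PT.lf (nat_lit 21084) (nat_lit 6) (nat_lit 251) (nat_lit 5) (nat_lit 44) (nat_lit 51) (nat_lit 55)) (PT.lf (nat_lit 21588) (nat_lit 6) (nat_lit 257) (nat_lit 5) (nat_lit 45) (nat_lit 51) (nat_lit 54))))))) (PT.nd (nat_lit 1128) (PT.nd (nat_lit 564) (PT.nd (nat_lit 282) (PT.nd (nat_lit 94) (PT.lf (nat_lit 22008) (nat_lit 6) (nat_lit 262) (nat_lit 5) (nat_lit 46) (nat_lit 51) (nat_lit 53)) (PT.nd (nat_lit 94) (PT.lf (nat_lit 22344) (nat_lit 6) (nat_lit 266) (nat_lit 5) (nat_lit 47) (nat_lit 51) (nat_lit 52)) (PT.lf (nat_lit 22596)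 (nat_lit 3) (nat_lit 269) (nat_lit 4) (nat_lit 48) (nat_lit 51) (nat_lit 51)))) (PT.nd (nat_lit 94) (PT.lf (nat_lit 22680) (nat_lit 6) (nat_lit 270) (nat_lit 4) (nat_lit 49) (nat_lit 51) (nat_lit 50)) (PT.nd (nat_lit 94) (PT.lf (nat_lit 22680) (nat_lit 6) (nat_lit 270) (nat_lit 2) (nat_lit 50) (nat_lit 51) (nat_lit 49)) (PT.lf (nat_lit 22596) (nat_lit 3) (nat_lit 269) (nat_lit 0) (nat_lit 51) (nat_lit 51) (nat_lit 48))))) (PT.nd (nat_lit 282) (PT.nd (nat_lit 94) (PT.lf (nat_lit 22344) (nat_lit 6) (nat_lit 266) (nat_lit 0) (nat_lit 52) (nat_lit 51) (nat_lit 47)) (PT.nd (nat_lit 94) (PT.lf (nat_lit 22008) (nat_lit 6) (nat_lit 262) (nat_lit 0) (nat_lit 53) (nat_lit 51) (nat_lit 46)) (PT.lf (nat_lit 21588) (nat_lit 6) (nat_lit 257) (nat_lit 0) (nat_lit 54) (nat_lit 51) (nat_lit 45)))) (PT.nd (nat_lit 94) (PT.lf (nat_lit 21084) (nat_lit 6) (nat_lit 251) (nat_lit 0) (nat_lit 55) (nat_lit 51) (nat_lit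 44)) (PT.nd (nat_lit 94) (PT.lf (nat_lit 20496) (nat_lit 6) (nat_lit 244) (nat_lit 0) (nat_lit 56) (nat_lit 51) (nat_lit 43)) (PT.lf (nat_lit 19824) (nat_lit 6) (nat_lit 236) (nat_lit 0) (nat_lit 57) (nat_lit 51) (nat_lit 42)))))) (PT.nd (nat_lit 564) (PT.nd (nat_lit 282) (PT.nd (nat_lit 94) (PT.lf (nat_lit 19068) (nat_lit 6) (nat_lit 227) (nat_lit 0) (nat_lit 58) (nat_lit 51) (nat_lit 41)) (PT.nd (nat_lit 94) (PT.lf (nat_lit 18228) (nat_lit 6) (nat_lit 217) (nat_lit 0) (nat_lit 59) (nat_lit 51) (nat_lit 40)) (PT.lf (nat_lit 17304) (nat_lit 6) (nat_lit 206) (nat_lit 0) (nat_lit 60) (nat_lit 51) (nat_lit 39)))) (PT.nd (nat_lit 94) (PT.lf (nat_lit 16296) (nat_lit 6) (nat_lit 194) (nat_lit 0) (nat_lit 61) (nat_lit 51) (nat_lit 38)) (PT.nd (nat_lit 94) (PT.lf (nat_lit 15204) (nat_lit 6) (nat_lit 181) (nat_lit 0) (nat_lit 62) (nat_lit 51) (nat_lit 37)) (PT.lf (nat_lit 14028) (nat_lit 6) (nat_lit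 167) (nat_lit 0) (nat_lit 63) (nat_lit 51) (nat_lit 36))))) (PT.nd (nat_lit 34874) (PT.nd (nat_lit 94) (PT.lf (nat_lit 12768) (nat_lit 6) (nat_lit 152) (nat_lit 0) (nat_lit 64) (nat_lit 51) (nat_lit 35)) (PT.nd (nat_lit 34686) (PT.lf (nat_lit 12012) (nat_lit 6) (nat_lit 143) (nat_lit 0) (nat_lit 65) (nat_lit 51) (nat_lit 34)) (PT.lf (nat_lit 11424) (nat_lit 6) (nat_lit 136) (nat_lit 5) (nat_lit 33) (nat_lit 52) (nat_lit 65)))) (PT.nd (nat_lit 94) (PT.lf (nat_lit 12096) (nat_lit 6) (nat_lit 144) (nat_lit 5) (nat_lit 34) (nat_lit 52) (nat_lit 64)) (PT.nd (nat_lit 94) (PT.lf (nat_lit 12852) (nat_lit 6) (nat_lit 153) (nat_lit 5) (nat_lit 35) (nat_lit 52) (nat_lit 63)) (PT.lf (nat_lit 14112) (nat_lit 6) (nat_lit 168) (nat_lit 5) (nat_lit 36) (nat_lit 52) (nat_lit 62))))))))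
noncomputable def pc14 : PT := (PT.nd (nat_lit 2256) (PT.nd (nat_lit 1128) (PT.nd (nat_lit 564) (PT.nd (nat_lit 282) (PT.nd (nat_lit 94) (PT.lf (nat_lit 15288) (nat_lit 6) (nat_lit 182) (nat_lit 5) (nat_lit 37) (nat_lit 52) (nat_lit 61)) (PT.nd (nat_lit 94) (PT.lf (nat_lit 16380) (nat_lit 6) (nat_lit 195) (nat_lit 5) (nat_lit 38) (nat_lit 52) (nat_lit 60)) (PT.lf (nat_lit 17388) (nat_lit 6) (nat_lit 207) (nat_lit 5) (nat_lit 39) (nat_lit 52) (nat_lit 59)))) (PT.nd (nat_lit 94) (PT.lf (nat_lit 18312) (nat_lit 6) (nat_lit 218) (nat_lit 5) (nat_lit 40) (nat_lit 52) (nat_lit 58)) (PT.nd (nat_lit 94) (PT.lf (nat_lit 19152) (nat_lit 6) (nat_lit 228) (nat_lit 5) (nat_lit 41) (nat_lit 52) (nat_lit 57)) (PT.lf (nat_lit 19908) (nat_lit 6) (nat_lit 237) (nat_lit 5) (nat_lit 42) (nat_lit 52) (nat_lit 56))))) (PT.nd (nat_lit 282) (PT.nd (nat_lit 94) (PT.lf (nat_lit 20580) (nat_lit 6) (nat_lit 245) (nat_lit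 5) (nat_lit 43) (nat_lit 52) (nat_lit 55)) (PT.nd (nat_lit 94) (PT.lf (nat_lit 21168) (nat_lit 6) (nat_lit 252) (nat_lit 5) (nat_lit 44) (nat_lit 52) (nat_lit 54)) (PT.lf (nat_lit 21672) (nat_lit 6) (nat_lit 258) (nat_lit 5) (nat_lit 45) (nat_lit 52) (nat_lit 53)))) (PT.nd (nat_lit 94) (PT.lf (nat_lit 22092) (nat_lit 3) (nat_lit 263) (nat_lit 4) (nat_lit 46) (nat_lit 52) (nat_lit 52)) (PT.nd (nat_lit 94) (PT.lf (nat_lit 22344) (nat_lit 6) (nat_lit 266) (nat_lit 4) (nat_lit 47) (nat_lit 52) (nat_lit 51)) (PT.lf (nat_lit 22512) (nat_lit 6) (nat_lit 268) (nat_lit 4) (nat_lit 48) (nat_lit 52) (nat_lit 50)))))) (PT.nd (nat_lit 564) (PT.nd (nat_lit 282) (PT.nd (nat_lit 94) (PT.lf (nat_lit 22428) (nat_lit 3) (nat_lit 267) (nat_lit 2) (nat_lit 49) (nat_lit 52) (nat_lit 49)) (PT.nd (nat_lit 94) (PT.lf (nat_lit 22512) (nat_lit 6) (nat_lit 268) (nat_lit 2) (nat_lit 50) (nat_lit 52) (nat_lit 48)) (PT.lf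 (nat_lit 22344) (nat_lit 6) (nat_lit 266) (nat_lit 2) (nat_lit 51) (nat_lit 52) (nat_lit 47)))) (PT.nd (nat_lit 94) (PT.lf (nat_lit 22092) (nat_lit 3) (nat_lit 263) (nat_lit 0) (nat_lit 52) (nat_lit 52) (nat_lit 46)) (PT.nd (nat_lit 94) (PT.lf (nat_lit 21672) (nat_lit 6) (nat_lit 258) (nat_lit 0) (nat_lit 53) (nat_lit 52) (nat_lit 45)) (PT.lf (nat_lit 21168) (nat_lit 6) (nat_lit 252) (nat_lit 0) (nat_lit 54) (nat_lit 52) (nat_lit 44))))) (PT.nd (nat_lit 282) (PT.nd (nat_lit 94) (PT.lf (nat_lit 20580) (nat_lit 6) (nat_lit 245) (nat_lit 0) (nat_lit 55) (nat_lit 52) (nat_lit 43)) (PT.nd (nat_lit 94) (PT.lf (nat_lit 19908) (nat_lit 6) (nat_lit 237) (nat_lit 0) (nat_lit 56) (nat_lit 52) (nat_lit 42)) (PT.lf (nat_lit 19152) (nat_lit 6) (nat_lit 228) (nat_lit 0) (nat_lit 57) (nat_lit 52) (nat_lit 41)))) (PT.nd (nat_lit 94) (PT.lf (nat_lit 18312) (nat_lit 6) (nat_lit 218) (nat_lit 0) (nat_lit 58)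 (nat_lit 52) (nat_lit 40)) (PT.nd (nat_lit 94) (PT.lf (nat_lit 17388) (nat_lit 6) (nat_lit 207) (nat_lit 0) (nat_lit 59) (nat_lit 52) (nat_lit 39)) (PT.lf (nat_lit 16380) (nat_lit 6) (nat_lit 195) (nat_lit 0) (nat_lit 60) (nat_lit 52) (nat_lit 38))))))) (PT.nd (nat_lit 35626) (PT.nd (nat_lit 35062) (PT.nd (nat_lit 282) (PT.nd (nat_lit 94) (PT.lf (nat_lit 15288) (nat_lit 6) (nat_lit 182) (nat_lit 0) (nat_lit 61) (nat_lit 52) (nat_lit 37)) (PT.nd (nat_lit 94) (PT.lf (nat_lit 14112) (nat_lit 6) (nat_lit 168) (nat_lit 0) (nat_lit 62) (nat_lit 52) (nat_lit 36)) (PT.lf (nat_lit 12852) (nat_lit 6) (nat_lit 153) (nat_lit 0) (nat_lit 63) (nat_lit 52) (nat_lit 35)))) (PT.nd (nat_lit 94) (PT.lf (nat_lit 12096) (nat_lit 6) (nat_lit 144) (nat_lit 0) (nat_lit 64) (nat_lit 52) (nat_lit 34)) (PT.nd (nat_lit 34592) (PT.lf (nat_lit 11424) (nat_lit 6) (nat_lit 136) (nat_lit 0) (nat_lit 65) (nat_lit 52) (nat_lit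 33)) (PT.lf (nat_lit 10836) (nat_lit 6) (nat_lit 129) (nat_lit 5) (nat_lit 32) (nat_lit 53) (nat_lit 65))))) (PT.nd (nat_lit 282) (PT.nd (nat_lit 94) (PT.lf (nat_lit 11508) (nat_lit 6) (nat_lit 137) (nat_lit 5) (nat_lit 33) (nat_lit 53) (nat_lit 64)) (PT.nd (nat_lit 94) (PT.lf (nat_lit 12180) (nat_lit 6) (nat_lit 145) (nat_lit 5) (nat_lit 34) (nat_lit 53) (nat_lit 63)) (PT.lf (nat_lit 12936) (nat_lit 6) (nat_lit 154) (nat_lit 5) (nat_lit 35) (nat_lit 53) (nat_lit 62)))) (PT.nd (nat_lit 94) (PT.lf (nat_lit 14196) (nat_lit 6) (nat_lit 169) (nat_lit 5) (nat_lit 36) (nat_lit 53) (nat_lit 61)) (PT.nd (nat_lit 94) (PT.lf (nat_lit 15372) (nat_lit 6) (nat_lit 183) (nat_lit 5) (nat_lit 37) (nat_lit 53) (nat_lit 60)) (PT.lf (nat_lit 16464) (nat_lit 6) (nat_lit 196) (nat_lit 5) (nat_lit 38) (nat_lit 53) (nat_lit 59)))))) (PT.nd (nat_lit 564) (PT.nd (nat_lit 282) (PT.nd (nat_lit 94) (PT.lf (nat_lit 17472)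 (nat_lit 6) (nat_lit 208) (nat_lit 5) (nat_lit 39) (nat_lit 53) (nat_lit 58)) (PT.nd (nat_lit 94) (PT.lf (nat_lit 18396) (nat_lit 6) (nat_lit 219) (nat_lit 5) (nat_lit 40) (nat_lit 53) (nat_lit 57)) (PT.lf (nat_lit 19236) (nat_lit 6) (nat_lit 229) (nat_lit 5) (nat_lit 41) (nat_lit 53) (nat_lit 56)))) (PT.nd (nat_lit 94) (PT.lf (nat_lit 19992) (nat_lit 6) (nat_lit 238) (nat_lit 5) (nat_lit 42) (nat_lit 53) (nat_lit 55)) (PT.nd (nat_lit 94) (PT.lf (nat_lit 20664) (nat_lit 6) (nat_lit 246) (nat_lit 5) (nat_lit 43) (nat_lit 53) (nat_lit 54)) (PT.lf (nat_lit 21252) (nat_lit 3) (nat_lit 253) (nat_lit 4) (nat_lit 44) (nat_lit 53) (nat_lit 53))))) (PT.nd (nat_lit 282) (PT.nd (nat_lit 94) (PT.lf (nat_lit 21672) (nat_lit 6) (nat_lit 258) (nat_lit 4) (nat_lit 45) (nat_lit 53) (nat_lit 52)) (PT.nd (nat_lit 94) (PT.lf (nat_lit 22008) (nat_lit 6) (nat_lit 262) (nat_lit 4) (nat_lit 46) (nat_lit 53) (nat_lit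 51)) (PT.lf (nat_lit 22260) (nat_lit 6) (nat_lit 265) (nat_lit 4) (nat_lit 47) (nat_lit 53) (nat_lit 50)))) (PT.nd (nat_lit 94) (PT.lf (nat_lit 22176) (nat_lit 6) (nat_lit 264) (nat_lit 4) (nat_lit 48) (nat_lit 53) (nat_lit 49)) (PT.nd (nat_lit 94) (PT.lf (nat_lit 22176) (nat_lit 6) (nat_lit 264) (nat_lit 2) (nat_lit 49) (nat_lit 53) (nat_lit 48)) (PT.lf (nat_lit 22260) (nat_lit 6) (nat_lit 265) (nat_lit 2) (nat_lit 50) (nat_lit 53) (nat_lit 47))))))))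
noncomputable def pc15 : PT := (PT.nd (nat_lit 36566) (PT.nd (nat_lit 1128) (PT.nd (nat_lit 564) (PT.nd (nat_lit 282) (PT.nd (nat_lit 94) (PT.lf (nat_lit 22008) (nat_lit 6) (nat_lit 262) (nat_lit 2) (nat_lit 51) (nat_lit 53) (nat_lit 46)) (PT.nd (nat_lit 94) (PT.lf (nat_lit 21672) (nat_lit 6) (nat_lit 258) (nat_lit 2) (nat_lit 52) (nat_lit 53) (nat_lit 45)) (PT.lf (nat_lit 21252) (nat_lit 3) (nat_lit 253) (nat_lit 0) (nat_lit 53) (nat_lit 53) (nat_lit 44)))) (PT.nd (nat_lit 94) (PT.lf (nat_lit 20664) (nat_lit 6) (nat_lit 246) (nat_lit 0) (nat_lit 54) (nat_lit 53) (nat_lit 43)) (PT.nd (nat_lit 94) (PT.lf (nat_lit 19992) (nat_lit 6) (nat_lit 238) (nat_lit 0) (nat_lit 55) (nat_lit 53) (nat_lit 42)) (PT.lf (nat_lit 19236) (nat_lit 6) (nat_lit 229) (nat_lit 0) (nat_lit 56) (nat_lit 53) (nat_lit 41))))) (PT.nd (nat_lit 282) (PT.nd (nat_lit 94) (PT.lf (nat_lit 18396) (nat_lit 6) (nat_lit 219) (nat_lit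 0) (nat_lit 57) (nat_lit 53) (nat_lit 40)) (PT.nd (nat_lit 94) (PT.lf (nat_lit 17472) (nat_lit 6) (nat_lit 208) (nat_lit 0) (nat_lit 58) (nat_lit 53) (nat_lit 39)) (PT.lf (nat_lit 16464) (nat_lit 6) (nat_lit 196) (nat_lit 0) (nat_lit 59) (nat_lit 53) (nat_lit 38)))) (PT.nd (nat_lit 94) (PT.lf (nat_lit 15372) (nat_lit 6) (nat_lit 183) (nat_lit 0) (nat_lit 60) (nat_lit 53) (nat_lit 37)) (PT.nd (nat_lit 94) (PT.lf (nat_lit 14196) (nat_lit 6) (nat_lit 169) (nat_lit 0) (nat_lit 61) (nat_lit 53) (nat_lit 36)) (PT.lf (nat_lit 12936) (nat_lit 6) (nat_lit 154) (nat_lit 0) (nat_lit 62) (nat_lit 53) (nat_lit 35)))))) (PT.nd (nat_lit 34874) (PT.nd (nat_lit 34592) (PT.nd (nat_lit 94) (PT.lf (nat_lit 12180) (nat_lit 6) (nat_lit 145) (nat_lit 0) (nat_lit 63) (nat_lit 53) (nat_lit 34)) (PT.nd (nat_lit 94) (PT.lf (nat_lit 11508) (nat_lit 6) (nat_lit 137) (nat_lit 0) (nat_lit 64) (nat_lit 53) (nat_lit 33))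 (PT.lf (nat_lit 10836) (nat_lit 6) (nat_lit 129) (nat_lit 0) (nat_lit 65) (nat_lit 53) (nat_lit 32)))) (PT.nd (nat_lit 94) (PT.lf (nat_lit 9744) (nat_lit 6) (nat_lit 116) (nat_lit 5) (nat_lit 30) (nat_lit 54) (nat_lit 66)) (PT.nd (nat_lit 94) (PT.lf (nat_lit 10332) (nat_lit 6) (nat_lit 123) (nat_lit 5) (nat_lit 31) (nat_lit 54) (nat_lit 65)) (PT.lf (nat_lit 10920) (nat_lit 6) (nat_lit 130) (nat_lit 5) (nat_lit 32) (nat_lit 54) (nat_lit 64))))) (PT.nd (nat_lit 282) (PT.nd (nat_lit 94) (PT.lf (nat_lit 11592) (nat_lit 6) (nat_lit 138) (nat_lit 5) (nat_lit 33) (nat_lit 54) (nat_lit 63)) (PT.nd (nat_lit 94) (PT.lf (nat_lit 12264) (nat_lit 6) (nat_lit 146) (nat_lit 5) (nat_lit 34) (nat_lit 54) (nat_lit 62)) (PT.lf (nat_lit 13020) (nat_lit 6) (nat_lit 155) (nat_lit 5) (nat_lit 35) (nat_lit 54) (nat_lit 61)))) (PT.nd (nat_lit 94) (PT.lf (nat_lit 14280) (nat_lit 6) (nat_lit 170) (nat_lit 5) (nat_lit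 36) (nat_lit 54) (nat_lit 60)) (PT.nd (nat_lit 94) (PT.lf (nat_lit 15456) (nat_lit 6) (nat_lit 184) (nat_lit 5) (nat_lit 37) (nat_lit 54) (nat_lit 59)) (PT.lf (nat_lit 16548) (nat_lit 6) (nat_lit 197) (nat_lit 5) (nat_lit 38) (nat_lit 54) (nat_lit 58))))))) (PT.nd (nat_lit 1128) (PT.nd (nat_lit 564) (PT.nd (nat_lit 282) (PT.nd (nat_lit 94) (PT.lf (nat_lit 17556) (nat_lit 6) (nat_lit 209) (nat_lit 5) (nat_lit 39) (nat_lit 54) (nat_lit 57)) (PT.nd (nat_lit 94) (PT.lf (nat_lit 18480) (nat_lit 6) (nat_lit 220) (nat_lit 5) (nat_lit 40) (nat_lit 54) (nat_lit 56)) (PT.lf (nat_lit 19320) (nat_lit 6) (nat_lit 230) (nat_lit 5) (nat_lit 41) (nat_lit 54) (nat_lit 55)))) (PT.nd (nat_lit 94) (PT.lf (nat_lit 20076) (nat_lit 3) (nat_lit 239) (nat_lit 4) (nat_lit 42) (nat_lit 54) (nat_lit 54)) (PT.nd (nat_lit 94) (PT.lf (nat_lit 20664) (nat_lit 6) (nat_lit 246) (nat_lit 4) (nat_lit 43) (nat_lit 54) (nat_lit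 53)) (PT.lf (nat_lit 21168) (nat_lit 6) (nat_lit 252) (nat_lit 4) (nat_lit 44) (nat_lit 54) (nat_lit 52))))) (PT.nd (nat_lit 282) (PT.nd (nat_lit 94) (PT.lf (nat_lit 21588) (nat_lit 6) (nat_lit 257) (nat_lit 4) (nat_lit 45) (nat_lit 54) (nat_lit 51)) (PT.nd (nat_lit 94) (PT.lf (nat_lit 21924) (nat_lit 6) (nat_lit 261) (nat_lit 4) (nat_lit 46) (nat_lit 54) (nat_lit 50)) (PT.lf (nat_lit 21840) (nat_lit 6) (nat_lit 260) (nat_lit 4) (nat_lit 47) (nat_lit 54) (nat_lit 49)))) (PT.nd (nat_lit 94) (PT.lf (nat_lit 21756) (nat_lit 3) (nat_lit 259) (nat_lit 2) (nat_lit 48) (nat_lit 54) (nat_lit 48)) (PT.nd (nat_lit 94) (PT.lf (nat_lit 21840) (nat_lit 6) (nat_lit 260) (nat_lit 2) (nat_lit 49) (nat_lit 54) (nat_lit 47)) (PT.lf (nat_lit 21924) (nat_lit 6) (nat_lit 261) (nat_lit 2) (nat_lit 50) (nat_lit 54) (nat_lit 46)))))) (PT.nd (nat_lit 564) (PT.nd (nat_lit 282) (PT.nd (nat_lit 94) (PT.lf (nat_lit 21588)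 (nat_lit 6) (nat_lit 257) (nat_lit 2) (nat_lit 51) (nat_lit 54) (nat_lit 45)) (PT.nd (nat_lit 94) (PT.lf (nat_lit 21168) (nat_lit 6) (nat_lit 252) (nat_lit 2) (nat_lit 52) (nat_lit 54) (nat_lit 44)) (PT.lf (nat_lit 20664) (nat_lit 6) (nat_lit 246) (nat_lit 2) (nat_lit 53) (nat_lit 54) (nat_lit 43)))) (PT.nd (nat_lit 94) (PT.lf (nat_lit 20076) (nat_lit 3) (nat_lit 239) (nat_lit 0) (nat_lit 54) (nat_lit 54) (nat_lit 42)) (PT.nd (nat_lit 94) (PT.lf (nat_lit 19320) (nat_lit 6) (nat_lit 230) (nat_lit 0) (nat_lit 55) (nat_lit 54) (nat_lit 41)) (PT.lf (nat_lit 18480) (nat_lit 6) (nat_lit 220) (nat_lit 0) (nat_lit 56) (nat_lit 54) (nat_lit 40))))) (PT.nd (nat_lit 282) (PT.nd (nat_lit 94) (PT.lf (nat_lit 17556) (nat_lit 6) (nat_lit 209) (nat_lit 0) (nat_lit 57) (nat_lit 54) (nat_lit 39)) (PT.nd (nat_lit 94) (PT.lf (nat_lit 16548) (nat_lit 6) (nat_lit 197) (nat_lit 0) (nat_lit 58) (nat_lit 54) (nat_lit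 38)) (PT.lf (nat_lit 15456) (nat_lit 6) (nat_lit 184) (nat_lit 0) (nat_lit 59) (nat_lit 54) (nat_lit 37)))) (PT.nd (nat_lit 94) (PT.lf (nat_lit 14280) (nat_lit 6) (nat_lit 170) (nat_lit 0) (nat_lit 60) (nat_lit 54) (nat_lit 36)) (PT.nd (nat_lit 94) (PT.lf (nat_lit 13020) (nat_lit 6) (nat_lit 155) (nat_lit 0) (nat_lit 61) (nat_lit 54) (nat_lit 35)) (PT.lf (nat_lit 12264) (nat_lit 6) (nat_lit 146) (nat_lit 0) (nat_lit 62) (nat_lit 54) (nat_lit 34))))))))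
noncomputable def pc16 : PT := (PT.nd (nat_lit 36284) (PT.nd (nat_lit 35156) (PT.nd (nat_lit 34592) (PT.nd (nat_lit 188) (PT.nd (nat_lit 94) (PT.lf (nat_lit 11592) (nat_lit 6) (nat_lit 138) (nat_lit 0) (nat_lit 63) (nat_lit 54) (nat_lit 33)) (PT.lf (nat_lit 10920) (nat_lit 6) (nat_lit 130) (nat_lit 0) (nat_lit 64) (nat_lit 54) (nat_lit 32))) (PT.nd (nat_lit 94) (PT.lf (nat_lit 10332) (nat_lit 6) (nat_lit 123) (nat_lit 0) (nat_lit 65) (nat_lit 54) (nat_lit 31)) (PT.nd (nat_lit 34216) (PT.lf (nat_lit 9744) (nat_lit 6) (nat_lit 116) (nat_lit 0) (nat_lit 66) (nat_lit 54) (nat_lit 30)) (PT.lf (nat_lit 9240) (nat_lit 6) (nat_lit 110) (nat_lit 5) (nat_lit 29) (nat_lit 55) (nat_lit 66))))) (PT.nd (nat_lit 282) (PT.nd (nat_lit 94) (PT.lf (nat_lit 9828) (nat_lit 6) (nat_lit 117) (nat_lit 5) (nat_lit 30) (nat_lit 55) (nat_lit 65)) (PT.nd (nat_lit 94) (PT.lf (nat_lit 10416) (nat_lit 6) (nat_lit 124) (nat_lit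 5) (nat_lit 31) (nat_lit 55) (nat_lit 64)) (PT.lf (nat_lit 11004) (nat_lit 6) (nat_lit 131) (nat_lit 5) (nat_lit 32) (nat_lit 55) (nat_lit 63)))) (PT.nd (nat_lit 94) (PT.lf (nat_lit 11676) (nat_lit 6) (nat_lit 139) (nat_lit 5) (nat_lit 33) (nat_lit 55) (nat_lit 62)) (PT.nd (nat_lit 94) (PT.lf (nat_lit 12348) (nat_lit 6) (nat_lit 147) (nat_lit 5) (nat_lit 34) (nat_lit 55) (nat_lit 61)) (PT.lf (nat_lit 13104) (nat_lit 6) (nat_lit 156) (nat_lit 5) (nat_lit 35) (nat_lit 55) (nat_lit 60)))))) (PT.nd (nat_lit 564) (PT.nd (nat_lit 282) (PT.nd (nat_lit 94) (PT.lf (nat_lit 14364) (nat_lit 6) (nat_lit 171) (nat_lit 5) (nat_lit 36) (nat_lit 55) (nat_lit 59)) (PT.nd (nat_lit 94) (PT.lf (nat_lit 15540) (nat_lit 6) (nat_lit 185) (nat_lit 5) (nat_lit 37) (nat_lit 55) (nat_lit 58)) (PT.lf (nat_lit 16632) (nat_lit 6) (nat_lit 198) (nat_lit 5) (nat_lit 38) (nat_lit 55) (nat_lit 57)))) (PT.nd (nat_lit 94) (PT.lf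 (nat_lit 17640) (nat_lit 6) (nat_lit 210) (nat_lit 5) (nat_lit 39) (nat_lit 55) (nat_lit 56)) (PT.nd (nat_lit 94) (PT.lf (nat_lit 18564) (nat_lit 3) (nat_lit 221) (nat_lit 4) (nat_lit 40) (nat_lit 55) (nat_lit 55)) (PT.lf (nat_lit 19320) (nat_lit 6) (nat_lit 230) (nat_lit 4) (nat_lit 41) (nat_lit 55) (nat_lit 54))))) (PT.nd (nat_lit 282) (PT.nd (nat_lit 94) (PT.lf (nat_lit 19992) (nat_lit 6) (nat_lit 238) (nat_lit 4) (nat_lit 42) (nat_lit 55) (nat_lit 53)) (PT.nd (nat_lit 94) (PT.lf (nat_lit 20580) (nat_lit 6) (nat_lit 245) (nat_lit 4) (nat_lit 43) (nat_lit 55) (nat_lit 52)) (PT.lf (nat_lit 21084) (nat_lit 6) (nat_lit 251) (nat_lit 4) (nat_lit 44) (nat_lit 55) (nat_lit 51)))) (PT.nd (nat_lit 94) (PT.lf (nat_lit 21504) (nat_lit 6) (nat_lit 256) (nat_lit 4) (nat_lit 45) (nat_lit 55) (nat_lit 50)) (PT.nd (nat_lit 94) (PT.lf (nat_lit 21420) (nat_lit 6) (nat_lit 255) (nat_lit 4) (nat_lit 46) (nat_lit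 55) (nat_lit 49)) (PT.lf (nat_lit 21336) (nat_lit 6) (nat_lit 254) (nat_lit 4) (nat_lit 47) (nat_lit 55) (nat_lit 48))))))) (PT.nd (nat_lit 1128) (PT.nd (nat_lit 564) (PT.nd (nat_lit 282) (PT.nd (nat_lit 94) (PT.lf (nat_lit 21336) (nat_lit 6) (nat_lit 254) (nat_lit 2) (nat_lit 48) (nat_lit 55) (nat_lit 47)) (PT.nd (nat_lit 94) (PT.lf (nat_lit 21420) (nat_lit 6) (nat_lit 255) (nat_lit 2) (nat_lit 49) (nat_lit 55) (nat_lit 46)) (PT.lf (nat_lit 21504) (nat_lit 6) (nat_lit 256) (nat_lit 2) (nat_lit 50) (nat_lit 55) (nat_lit 45)))) (PT.nd (nat_lit 94) (PT.lf (nat_lit 21084) (nat_lit 6) (nat_lit 251) (nat_lit 2) (nat_lit 51) (nat_lit 55) (nat_lit 44)) (PT.nd (nat_lit 94) (PT.lf (nat_lit 20580) (nat_lit 6) (nat_lit 245) (nat_lit 2) (nat_lit 52) (nat_lit 55) (nat_lit 43)) (PT.lf (nat_lit 19992) (nat_lit 6) (nat_lit 238) (nat_lit 2) (nat_lit 53) (nat_lit 55) (nat_lit 42))))) (PT.nd (nat_lit 282) (PT.nd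 (nat_lit 94) (PT.lf (nat_lit 19320) (nat_lit 6) (nat_lit 230) (nat_lit 2) (nat_lit 54) (nat_lit 55) (nat_lit 41)) (PT.nd (nat_lit 94) (PT.lf (nat_lit 18564) (nat_lit 3) (nat_lit 221) (nat_lit 0) (nat_lit 55) (nat_lit 55) (nat_lit 40)) (PT.lf (nat_lit 17640) (nat_lit 6) (nat_lit 210) (nat_lit 0) (nat_lit 56) (nat_lit 55) (nat_lit 39)))) (PT.nd (nat_lit 94) (PT.lf (nat_lit 16632) (nat_lit 6) (nat_lit 198) (nat_lit 0) (nat_lit 57) (nat_lit 55) (nat_lit 38)) (PT.nd (nat_lit 94) (PT.lf (nat_lit 15540) (nat_lit 6) (nat_lit 185) (nat_lit 0) (nat_lit 58) (nat_lit 55) (nat_lit 37)) (PT.lf (nat_lit 14364) (nat_lit 6) (nat_lit 171) (nat_lit 0) (nat_lit 59) (nat_lit 55) (nat_lit 36)))))) (PT.nd (nat_lit 564) (PT.nd (nat_lit 282) (PT.nd (nat_lit 94) (PT.lf (nat_lit 13104) (nat_lit 6) (nat_lit 156) (nat_lit 0) (nat_lit 60) (nat_lit 55) (nat_lit 35)) (PT.nd (nat_lit 94) (PT.lf (nat_lit 12348) (nat_lit 6)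 (nat_lit 147) (nat_lit 0) (nat_lit 61) (nat_lit 55) (nat_lit 34)) (PT.lf (nat_lit 11676) (nat_lit 6) (nat_lit 139) (nat_lit 0) (nat_lit 62) (nat_lit 55) (nat_lit 33)))) (PT.nd (nat_lit 94) (PT.lf (nat_lit 11004) (nat_lit 6) (nat_lit 131) (nat_lit 0) (nat_lit 63) (nat_lit 55) (nat_lit 32)) (PT.nd (nat_lit 94) (PT.lf (nat_lit 10416) (nat_lit 6) (nat_lit 124) (nat_lit 0) (nat_lit 64) (nat_lit 55) (nat_lit 31)) (PT.lf (nat_lit 9828) (nat_lit 6) (nat_lit 117) (nat_lit 0) (nat_lit 65) (nat_lit 55) (nat_lit 30))))) (PT.nd (nat_lit 34310) (PT.nd (nat_lit 34122) (PT.lf (nat_lit 9240) (nat_lit 6) (nat_lit 110) (nat_lit 0) (nat_lit 66) (nat_lit 55) (nat_lit 29)) (PT.nd (nat_lit 94) (PT.lf (nat_lit 8736) (nat_lit 6) (nat_lit 104) (nat_lit 5) (nat_lit 28) (nat_lit 56) (nat_lit 66)) (PT.lf (nat_lit 9324) (nat_lit 6) (nat_lit 111) (nat_lit 5) (nat_lit 29) (nat_lit 56) (nat_lit 65)))) (PT.nd (nat_lit 94)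 (PT.lf (nat_lit 9912) (nat_lit 6) (nat_lit 118) (nat_lit 5) (nat_lit 30) (nat_lit 56) (nat_lit 64)) (PT.nd (nat_lit 94) (PT.lf (nat_lit 10500) (nat_lit 6) (nat_lit 125) (nat_lit 5) (nat_lit 31) (nat_lit 56) (nat_lit 63)) (PT.lf (nat_lit 11088) (nat_lit 6) (nat_lit 132) (nat_lit 5) (nat_lit 32) (nat_lit 56) (nat_lit 62))))))))
noncomputable def pc17 : PT := (PT.nd (nat_lit 2256) (PT.nd (nat_lit 1128) (PT.nd (nat_lit 564) (PT.nd (nat_lit 282) (PT.nd (nat_lit 94) (PT.lf (nat_lit 11760) (nat_lit 6) (nat_lit 140) (nat_lit 5) (nat_lit 33) (nat_lit 56) (nat_lit 61)) (PT.nd (nat_lit 94) (PT.lf (nat_lit 12432) (nat_lit 6) (nat_lit 148) (nat_lit 5) (nat_lit 34) (nat_lit 56) (nat_lit 60)) (PT.lf (nat_lit 13188) (nat_lit 6) (nat_lit 157) (nat_lit 5) (nat_lit 35) (nat_lit 56) (nat_lit 59)))) (PT.nd (nat_lit 94) (PT.lf (nat_lit 14448) (nat_lit 6) (nat_lit 172) (nat_lit 5) (nat_lit 36) (nat_lit 56) (nat_lit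 58)) (PT.nd (nat_lit 94) (PT.lf (nat_lit 15624) (nat_lit 6) (nat_lit 186) (nat_lit 5) (nat_lit 37) (nat_lit 56) (nat_lit 57)) (PT.lf (nat_lit 16716) (nat_lit 3) (nat_lit 199) (nat_lit 4) (nat_lit 38) (nat_lit 56) (nat_lit 56))))) (PT.nd (nat_lit 282) (PT.nd (nat_lit 94) (PT.lf (nat_lit 17640) (nat_lit 6) (nat_lit 210) (nat_lit 4) (nat_lit 39) (nat_lit 56) (nat_lit 55)) (PT.nd (nat_lit 94) (PT.lf (nat_lit 18480) (nat_lit 6) (nat_lit 220) (nat_lit 4) (nat_lit 40) (nat_lit 56) (nat_lit 54)) (PT.lf (nat_lit 19236) (nat_lit 6) (nat_lit 229) (nat_lit 4) (nat_lit 41) (nat_lit 56) (nat_lit 53)))) (PT.nd (nat_lit 94) (PT.lf (nat_lit 19908) (nat_lit 6) (nat_lit 237) (nat_lit 4) (nat_lit 42) (nat_lit 56) (nat_lit 52)) (PT.nd (nat_lit 94) (PT.lf (nat_lit 20496) (nat_lit 6) (nat_lit 244) (nat_lit 4) (nat_lit 43) (nat_lit 56) (nat_lit 51)) (PT.lf (nat_lit 21000) (nat_lit 6) (nat_lit 250) (nat_lit 4) (nat_lit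 44) (nat_lit 56) (nat_lit 50)))))) (PT.nd (nat_lit 564) (PT.nd (nat_lit 282) (PT.nd (nat_lit 94) (PT.lf (nat_lit 20916) (nat_lit 6) (nat_lit 249) (nat_lit 4) (nat_lit 45) (nat_lit 56) (nat_lit 49)) (PT.nd (nat_lit 94) (PT.lf (nat_lit 20832) (nat_lit 6) (nat_lit 248) (nat_lit 4) (nat_lit 46) (nat_lit 56) (nat_lit 48)) (PT.lf (nat_lit 20748) (nat_lit 3) (nat_lit 247) (nat_lit 2) (nat_lit 47) (nat_lit 56) (nat_lit 47)))) (PT.nd (nat_lit 94) (PT.lf (nat_lit 20832) (nat_lit 6) (nat_lit 248) (nat_lit 2) (nat_lit 48) (nat_lit 56) (nat_lit 46)) (PT.nd (nat_lit 94) (PT.lf (nat_lit 20916) (nat_lit 6) (nat_lit 249) (nat_lit 2) (nat_lit 49) (nat_lit 56) (nat_lit 45)) (PT.lf (nat_lit 21000) (nat_lit 6) (nat_lit 250) (nat_lit 2) (nat_lit 50) (nat_lit 56) (nat_lit 44))))) (PT.nd (nat_lit 282) (PT.nd (nat_lit 94) (PT.lf (nat_lit 20496) (nat_lit 6) (nat_lit 244) (nat_lit 2) (nat_lit 51) (nat_lit 56) (nat_lit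 43)) (PT.nd (nat_lit 94) (PT.lf (nat_lit 19908) (nat_lit 6) (nat_lit 237) (nat_lit 2) (nat_lit 52) (nat_lit 56) (nat_lit 42)) (PT.lf (nat_lit 19236) (nat_lit 6) (nat_lit 229) (nat_lit 2) (nat_lit 53) (nat_lit 56) (nat_lit 41)))) (PT.nd (nat_lit 94) (PT.lf (nat_lit 18480) (nat_lit 6) (nat_lit 220) (nat_lit 2) (nat_lit 54) (nat_lit 56) (nat_lit 40)) (PT.nd (nat_lit 94) (PT.lf (nat_lit 17640) (nat_lit 6) (nat_lit 210) (nat_lit 2) (nat_lit 55) (nat_lit 56) (nat_lit 39)) (PT.lf (nat_lit 16716) (nat_lit 3) (nat_lit 199) (nat_lit 0) (nat_lit 56) (nat_lit 56) (nat_lit 38))))))) (PT.nd (nat_lit 34968) (PT.nd (nat_lit 564) (PT.nd (nat_lit 282) (PT.nd (nat_lit 94) (PT.lf (nat_lit 15624) (nat_lit 6) (nat_lit 186) (nat_lit 0) (nat_lit 57) (nat_lit 56) (nat_lit 37)) (PT.nd (nat_lit 94) (PT.lf (nat_lit 14448) (nat_lit 6) (nat_lit 172) (nat_lit 0) (nat_lit 58) (nat_lit 56) (nat_lit 36)) (PT.lf (nat_lit 13188)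 (nat_lit 6) (nat_lit 157) (nat_lit 0) (nat_lit 59) (nat_lit 56) (nat_lit 35)))) (PT.nd (nat_lit 94) (PT.lf (nat_lit 12432) (nat_lit 6) (nat_lit 148) (nat_lit 0) (nat_lit 60) (nat_lit 56) (nat_lit 34)) (PT.nd (nat_lit 94) (PT.lf (nat_lit 11760) (nat_lit 6) (nat_lit 140) (nat_lit 0) (nat_lit 61) (nat_lit 56) (nat_lit 33)) (PT.lf (nat_lit 11088) (nat_lit 6) (nat_lit 132) (nat_lit 0) (nat_lit 62) (nat_lit 56) (nat_lit 32))))) (PT.nd (nat_lit 282) (PT.nd (nat_lit 94) (PT.lf (nat_lit 10500) (nat_lit 6) (nat_lit 125) (nat_lit 0) (nat_lit 63) (nat_lit 56) (nat_lit 31)) (PT.nd (nat_lit 94) (PT.lf (nat_lit 9912) (nat_lit 6) (nat_lit 118) (nat_lit 0) (nat_lit 64) (nat_lit 56) (nat_lit 30)) (PT.lf (nat_lit 9324) (nat_lit 6) (nat_lit 111) (nat_lit 0) (nat_lit 65) (nat_lit 56) (nat_lit 29)))) (PT.nd (nat_lit 33934) (PT.lf (nat_lit 8736) (nat_lit 6) (nat_lit 104) (nat_lit 0) (nat_lit 66) (nat_lit 56) (nat_lit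 28)) (PT.nd (nat_lit 94) (PT.lf (nat_lit 7812) (nat_lit 6) (nat_lit 93) (nat_lit 5) (nat_lit 26) (nat_lit 57) (nat_lit 67)) (PT.lf (nat_lit 8316) (nat_lit 6) (nat_lit 99) (nat_lit 5) (nat_lit 27) (nat_lit 57) (nat_lit 66)))))) (PT.nd (nat_lit 564) (PT.nd (nat_lit 282) (PT.nd (nat_lit 94) (PT.lf (nat_lit 8820) (nat_lit 6) (nat_lit 105) (nat_lit 5) (nat_lit 28) (nat_lit 57) (nat_lit 65)) (PT.nd (nat_lit 94) (PT.lf (nat_lit 9408) (nat_lit 6) (nat_lit 112) (nat_lit 5) (nat_lit 29) (nat_lit 57) (nat_lit 64)) (PT.lf (nat_lit 9996) (nat_lit 6) (nat_lit 119) (nat_lit 5) (nat_lit 30) (nat_lit 57) (nat_lit 63)))) (PT.nd (nat_lit 94) (PT.lf (nat_lit 10584) (nat_lit 6) (nat_lit 126) (nat_lit 5) (nat_lit 31) (nat_lit 57) (nat_lit 62)) (PT.nd (nat_lit 94) (PT.lf (nat_lit 11172) (nat_lit 6) (nat_lit 133) (nat_lit 5) (nat_lit 32) (nat_lit 57) (nat_lit 61)) (PT.lf (nat_lit 11844) (nat_lit 6) (nat_lit 141)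 (nat_lit 5) (nat_lit 33) (nat_lit 57) (nat_lit 60))))) (PT.nd (nat_lit 282) (PT.nd (nat_lit 94) (PT.lf (nat_lit 12516) (nat_lit 6) (nat_lit 149) (nat_lit 5) (nat_lit 34) (nat_lit 57) (nat_lit 59)) (PT.nd (nat_lit 94) (PT.lf (nat_lit 13272) (nat_lit 6) (nat_lit 158) (nat_lit 5) (nat_lit 35) (nat_lit 57) (nat_lit 58)) (PT.lf (nat_lit 14532) (nat_lit 3) (nat_lit 173) (nat_lit 4) (nat_lit 36) (nat_lit 57) (nat_lit 57)))) (PT.nd (nat_lit 94) (PT.lf (nat_lit 15624) (nat_lit 6) (nat_lit 186) (nat_lit 4) (nat_lit 37) (nat_lit 57) (nat_lit 56)) (PT.nd (nat_lit 94) (PT.lf (nat_lit 16632) (nat_lit 6) (nat_lit 198) (nat_lit 4) (nat_lit 38) (nat_lit 57) (nat_lit 55)) (PT.lf (nat_lit 17556) (nat_lit 6) (nat_lit 209) (nat_lit 4) (nat_lit 39) (nat_lit 57) (nat_lit 54))))))))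
noncomputable def pc18 : PT := (PT.nd (nat_lit 2162) (PT.nd (nat_lit 1034) (PT.nd (nat_lit 470) (PT.nd (nat_lit 188) (PT.nd (nat_lit 94) (PT.lf (nat_lit 18396) (nat_lit 6) (nat_lit 219) (nat_lit 4) (nat_lit 40) (nat_lit 57) (nat_lit 53)) (PT.lf (nat_lit 19152) (nat_lit 6) (nat_lit 228) (nat_lit 4) (nat_lit 41) (nat_lit 57) (nat_lit 52))) (PT.nd (nat_lit 94) (PT.lf (nat_lit 19824) (nat_lit 6) (nat_lit 236) (nat_lit 4) (nat_lit 42) (nat_lit 57) (nat_lit 51)) (PT.nd (nat_lit 94) (PT.lf (nat_lit 20412) (nat_lit 6) (nat_lit 243) (nat_lit 4) (nat_lit 43) (nat_lit 57) (nat_lit 50)) (PT.lf (nat_lit 20328) (nat_lit 6) (nat_lit 242) (nat_lit 4) (nat_lit 44) (nat_lit 57) (nat_lit 49))))) (PT.nd (nat_lit 282) (PT.nd (nat_lit 94) (PT.lf (nat_lit 20244) (nat_lit 6) (nat_lit 241) (nat_lit 4) (nat_lit 45) (nat_lit 57) (nat_lit 48)) (PT.nd (nat_lit 94) (PT.lf (nat_lit 20160) (nat_lit 6) (nat_lit 240) (nat_lit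 4) (nat_lit 46) (nat_lit 57) (nat_lit 47)) (PT.lf (nat_lit 20160) (nat_lit 6) (nat_lit 240) (nat_lit 2) (nat_lit 47) (nat_lit 57) (nat_lit 46)))) (PT.nd (nat_lit 94) (PT.lf (nat_lit 20244) (nat_lit 6) (nat_lit 241) (nat_lit 2) (nat_lit 48) (nat_lit 57) (nat_lit 45)) (PT.nd (nat_lit 94) (PT.lf (nat_lit 20328) (nat_lit 6) (nat_lit 242) (nat_lit 2) (nat_lit 49) (nat_lit 57) (nat_lit 44)) (PT.lf (nat_lit 20412) (nat_lit 6) (nat_lit 243) (nat_lit 2) (nat_lit 50) (nat_lit 57) (nat_lit 43)))))) (PT.nd (nat_lit 564) (PT.nd (nat_lit 282) (PT.nd (nat_lit 94) (PT.lf (nat_lit 19824) (nat_lit 6) (nat_lit 236) (nat_lit 2) (nat_lit 51) (nat_lit 57) (nat_lit 42)) (PT.nd (nat_lit 94) (PT.lf (nat_lit 19152) (nat_lit 6) (nat_lit 228) (nat_lit 2) (nat_lit 52) (nat_lit 57) (nat_lit 41)) (PT.lf (nat_lit 18396) (nat_lit 6) (nat_lit 219) (nat_lit 2) (nat_lit 53) (nat_lit 57) (nat_lit 40)))) (PT.nd (nat_lit 94) (PT.lf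 (nat_lit 17556) (nat_lit 6) (nat_lit 209) (nat_lit 2) (nat_lit 54) (nat_lit 57) (nat_lit 39)) (PT.nd (nat_lit 94) (PT.lf (nat_lit 16632) (nat_lit 6) (nat_lit 198) (nat_lit 2) (nat_lit 55) (nat_lit 57) (nat_lit 38)) (PT.lf (nat_lit 15624) (nat_lit 6) (nat_lit 186) (nat_lit 2) (nat_lit 56) (nat_lit 57) (nat_lit 37))))) (PT.nd (nat_lit 282) (PT.nd (nat_lit 94) (PT.lf (nat_lit 14532) (nat_lit 3) (nat_lit 173) (nat_lit 0) (nat_lit 57) (nat_lit 57) (nat_lit 36)) (PT.nd (nat_lit 94) (PT.lf (nat_lit 13272) (nat_lit 6) (nat_lit 158) (nat_lit 0) (nat_lit 58) (nat_lit 57) (nat_lit 35)) (PT.lf (nat_lit 12516) (nat_lit 6) (nat_lit 149) (nat_lit 0) (nat_lit 59) (nat_lit 57) (nat_lit 34)))) (PT.nd (nat_lit 94) (PT.lf (nat_lit 11844) (nat_lit 6) (nat_lit 141) (nat_lit 0) (nat_lit 60) (nat_lit 57) (nat_lit 33)) (PT.nd (nat_lit 94) (PT.lf (nat_lit 11172) (nat_lit 6) (nat_lit 133) (nat_lit 0) (nat_lit 61) (nat_lit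 57) (nat_lit 32)) (PT.lf (nat_lit 10584) (nat_lit 6) (nat_lit 126) (nat_lit 0) (nat_lit 62) (nat_lit 57) (nat_lit 31))))))) (PT.nd (nat_lit 34780) (PT.nd (nat_lit 34216) (PT.nd (nat_lit 282) (PT.nd (nat_lit 94) (PT.lf (nat_lit 9996) (nat_lit 6) (nat_lit 119) (nat_lit 0) (nat_lit 63) (nat_lit 57) (nat_lit 30)) (PT.nd (nat_lit 94) (PT.lf (nat_lit 9408) (nat_lit 6) (nat_lit 112) (nat_lit 0) (nat_lit 64) (nat_lit 57) (nat_lit 29)) (PT.lf (nat_lit 8820) (nat_lit 6) (nat_lit 105) (nat_lit 0) (nat_lit 65) (nat_lit 57) (nat_lit 28)))) (PT.nd (nat_lit 94) (PT.lf (nat_lit 8316) (nat_lit 6) (nat_lit 99) (nat_lit 0) (nat_lit 66) (nat_lit 57) (nat_lit 27)) (PT.nd (nat_lit 33746) (PT.lf (nat_lit 7812) (nat_lit 6) (nat_lit 93) (nat_lit 0) (nat_lit 67) (nat_lit 57) (nat_lit 26)) (PT.lf (nat_lit 7392) (nat_lit 6) (nat_lit 88) (nat_lit 5) (nat_lit 25) (nat_lit 58) (nat_lit 67))))) (PT.nd (nat_lit 282) (PT.nd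 (nat_lit 94) (PT.lf (nat_lit 7896) (nat_lit 6) (nat_lit 94) (nat_lit 5) (nat_lit 26) (nat_lit 58) (nat_lit 66)) (PT.nd (nat_lit 94) (PT.lf (nat_lit 8400) (nat_lit 6) (nat_lit 100) (nat_lit 5) (nat_lit 27) (nat_lit 58) (nat_lit 65)) (PT.lf (nat_lit 8904) (nat_lit 6) (nat_lit 106) (nat_lit 5) (nat_lit 28) (nat_lit 58) (nat_lit 64)))) (PT.nd (nat_lit 94) (PT.lf (nat_lit 9492) (nat_lit 6) (nat_lit 113) (nat_lit 5) (nat_lit 29) (nat_lit 58) (nat_lit 63)) (PT.nd (nat_lit 94) (PT.lf (nat_lit 10080) (nat_lit 6) (nat_lit 120) (nat_lit 5) (nat_lit 30) (nat_lit 58) (nat_lit 62)) (PT.lf (nat_lit 10668) (nat_lit 6) (nat_lit 127) (nat_lit 5) (nat_lit 31) (nat_lit 58) (nat_lit 61)))))) (PT.nd (nat_lit 564) (PT.nd (nat_lit 282) (PT.nd (nat_lit 94) (PT.lf (nat_lit 11256) (nat_lit 6) (nat_lit 134) (nat_lit 5) (nat_lit 32) (nat_lit 58) (nat_lit 60)) (PT.nd (nat_lit 94) (PT.lf (nat_lit 11928) (nat_lit 6) (nat_lit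 142) (nat_lit 5) (nat_lit 33) (nat_lit 58) (nat_lit 59)) (PT.lf (nat_lit 12600) (nat_lit 3) (nat_lit 150) (nat_lit 4) (nat_lit 34) (nat_lit 58) (nat_lit 58)))) (PT.nd (nat_lit 94) (PT.lf (nat_lit 13272) (nat_lit 6) (nat_lit 158) (nat_lit 4) (nat_lit 35) (nat_lit 58) (nat_lit 57)) (PT.nd (nat_lit 94) (PT.lf (nat_lit 14448) (nat_lit 6) (nat_lit 172) (nat_lit 4) (nat_lit 36) (nat_lit 58) (nat_lit 56)) (PT.lf (nat_lit 15540) (nat_lit 6) (nat_lit 185) (nat_lit 4) (nat_lit 37) (nat_lit 58) (nat_lit 55))))) (PT.nd (nat_lit 282) (PT.nd (nat_lit 94) (PT.lf (nat_lit 16548) (nat_lit 6) (nat_lit 197) (nat_lit 4) (nat_lit 38) (nat_lit 58) (nat_lit 54)) (PT.nd (nat_lit 94) (PT.lf (nat_lit 17472) (nat_lit 6) (nat_lit 208) (nat_lit 4) (nat_lit 39) (nat_lit 58) (nat_lit 53)) (PT.lf (nat_lit 18312) (nat_lit 6) (nat_lit 218) (nat_lit 4) (nat_lit 40) (nat_lit 58) (nat_lit 52)))) (PT.nd (nat_lit 94) (PT.lf (nat_lit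 19068) (nat_lit 6) (nat_lit 227) (nat_lit 4) (nat_lit 41) (nat_lit 58) (nat_lit 51)) (PT.nd (nat_lit 94) (PT.lf (nat_lit 19740) (nat_lit 6) (nat_lit 235) (nat_lit 4) (nat_lit 42) (nat_lit 58) (nat_lit 50)) (PT.lf (nat_lit 19656) (nat_lit 6) (nat_lit 234) (nat_lit 4) (nat_lit 43) (nat_lit 58) (nat_lit 49))))))))
noncomputable def pc19 : PT := (PT.nd (nat_lit 35720) (PT.nd (nat_lit 1128) (PT.nd (nat_lit 564) (PT.nd (nat_lit 282) (PT.nd (nat_lit 94) (PT.lf (nat_lit 19572) (nat_lit 6) (nat_lit 233) (nat_lit 4) (nat_lit 44) (nat_lit 58) (nat_lit 48)) (PT.nd (nat_lit 94) (PT.lf (nat_lit 19488) (nat_lit 6) (nat_lit 232) (nat_lit 4) (nat_lit 45) (nat_lit 58) (nat_lit 47)) (PT.lf (nat_lit 19404) (nat_lit 3) (nat_lit 231) (nat_lit 2) (nat_lit 46) (nat_lit 58) (nat_lit 46)))) (PT.nd (nat_lit 94) (PT.lf (nat_lit 19488) (nat_lit 6) (nat_lit 232) (nat_lit 2) (nat_lit 47) (nat_lit 58) (nat_lit 45)) (PT.nd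 (nat_lit 94) (PT.lf (nat_lit 19572) (nat_lit 6) (nat_lit 233) (nat_lit 2) (nat_lit 48) (nat_lit 58) (nat_lit 44)) (PT.lf (nat_lit 19656) (nat_lit 6) (nat_lit 234) (nat_lit 2) (nat_lit 49) (nat_lit 58) (nat_lit 43))))) (PT.nd (nat_lit 282) (PT.nd (nat_lit 94) (PT.lf (nat_lit 19740) (nat_lit 6) (nat_lit 235) (nat_lit 2) (nat_lit 50) (nat_lit 58) (nat_lit 42)) (PT.nd (nat_lit 94) (PT.lf (nat_lit 19068) (nat_lit 6) (nat_lit 227) (nat_lit 2) (nat_lit 51) (nat_lit 58) (nat_lit 41)) (PT.lf (nat_lit 18312) (nat_lit 6) (nat_lit 218) (nat_lit 2) (nat_lit 52) (nat_lit 58) (nat_lit 40)))) (PT.nd (nat_lit 94) (PT.lf (nat_lit 17472) (nat_lit 6) (nat_lit 208) (nat_lit 2) (nat_lit 53) (nat_lit 58) (nat_lit 39)) (PT.nd (nat_lit 94) (PT.lf (nat_lit 16548) (nat_lit 6) (nat_lit 197) (nat_lit 2) (nat_lit 54) (nat_lit 58) (nat_lit 38)) (PT.lf (nat_lit 15540) (nat_lit 6) (nat_lit 185) (nat_lit 2) (nat_lit 55) (nat_lit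 58) (nat_lit 37)))))) (PT.nd (nat_lit 564) (PT.nd (nat_lit 282) (PT.nd (nat_lit 94) (PT.lf (nat_lit 14448) (nat_lit 6) (nat_lit 172) (nat_lit 2) (nat_lit 56) (nat_lit 58) (nat_lit 36)) (PT.nd (nat_lit 94) (PT.lf (nat_lit 13272) (nat_lit 6) (nat_lit 158) (nat_lit 2) (nat_lit 57) (nat_lit 58) (nat_lit 35)) (PT.lf (nat_lit 12600) (nat_lit 3) (nat_lit 150) (nat_lit 0) (nat_lit 58) (nat_lit 58) (nat_lit 34)))) (PT.nd (nat_lit 94) (PT.lf (nat_lit 11928) (nat_lit 6) (nat_lit 142) (nat_lit 0) (nat_lit 59) (nat_lit 58) (nat_lit 33)) (PT.nd (nat_lit 94) (PT.lf (nat_lit 11256) (nat_lit 6) (nat_lit 134) (nat_lit 0) (nat_lit 60) (nat_lit 58) (nat_lit 32)) (PT.lf (nat_lit 10668) (nat_lit 6) (nat_lit 127) (nat_lit 0) (nat_lit 61) (nat_lit 58) (nat_lit 31))))) (PT.nd (nat_lit 282) (PT.nd (nat_lit 94) (PT.lf (nat_lit 10080) (nat_lit 6) (nat_lit 120) (nat_lit 0) (nat_lit 62) (nat_lit 58) (nat_lit 30)) (PT.nd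 (nat_lit 94) (PT.lf (nat_lit 9492) (nat_lit 6) (nat_lit 113) (nat_lit 0) (nat_lit 63) (nat_lit 58) (nat_lit 29)) (PT.lf (nat_lit 8904) (nat_lit 6) (nat_lit 106) (nat_lit 0) (nat_lit 64) (nat_lit 58) (nat_lit 28)))) (PT.nd (nat_lit 94) (PT.lf (nat_lit 8400) (nat_lit 6) (nat_lit 100) (nat_lit 0) (nat_lit 65) (nat_lit 58) (nat_lit 27)) (PT.nd (nat_lit 94) (PT.lf (nat_lit 7896) (nat_lit 6) (nat_lit 94) (nat_lit 0) (nat_lit 66) (nat_lit 58) (nat_lit 26)) (PT.lf (nat_lit 7392) (nat_lit 6) (nat_lit 88) (nat_lit 0) (nat_lit 67) (nat_lit 58) (nat_lit 25))))))) (PT.nd (nat_lit 1128) (PT.nd (nat_lit 564) (PT.nd (nat_lit 282) (PT.nd (nat_lit 94) (PT.lf (nat_lit 6552) (nat_lit 6) (nat_lit 78) (nat_lit 5) (nat_lit 23) (nat_lit 59) (nat_lit 68)) (PT.nd (nat_lit 94) (PT.lf (nat_lit 6972) (nat_lit 6) (nat_lit 83) (nat_lit 5) (nat_lit 24) (nat_lit 59) (nat_lit 67)) (PT.lf (nat_lit 7476) (nat_lit 6) (nat_lit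 89) (nat_lit 5) (nat_lit 25) (nat_lit 59) (nat_lit 66)))) (PT.nd (nat_lit 94) (PT.lf (nat_lit 7980) (nat_lit 6) (nat_lit 95) (nat_lit 5) (nat_lit 26) (nat_lit 59) (nat_lit 65)) (PT.nd (nat_lit 94) (PT.lf (nat_lit 8484) (nat_lit 6) (nat_lit 101) (nat_lit 5) (nat_lit 27) (nat_lit 59) (nat_lit 64)) (PT.lf (nat_lit 8988) (nat_lit 6) (nat_lit 107) (nat_lit 5) (nat_lit 28) (nat_lit 59) (nat_lit 63))))) (PT.nd (nat_lit 282) (PT.nd (nat_lit 94) (PT.lf (nat_lit 9576) (nat_lit 6) (nat_lit 114) (nat_lit 5) (nat_lit 29) (nat_lit 59) (nat_lit 62)) (PT.nd (nat_lit 94) (PT.lf (nat_lit 10164) (nat_lit 6) (nat_lit 121) (nat_lit 5) (nat_lit 30) (nat_lit 59) (nat_lit 61)) (PT.lf (nat_lit 10752) (nat_lit 6) (nat_lit 128) (nat_lit 5) (nat_lit 31) (nat_lit 59) (nat_lit 60)))) (PT.nd (nat_lit 94) (PT.lf (nat_lit 11340) (nat_lit 3) (nat_lit 135) (nat_lit 4) (nat_lit 32) (nat_lit 59) (nat_lit 59)) (PT.nd (nat_lit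 94) (PT.lf (nat_lit 11928) (nat_lit 6) (nat_lit 142) (nat_lit 4) (nat_lit 33) (nat_lit 59) (nat_lit 58)) (PT.lf (nat_lit 12516) (nat_lit 6) (nat_lit 149) (nat_lit 4) (nat_lit 34) (nat_lit 59) (nat_lit 57)))))) (PT.nd (nat_lit 564) (PT.nd (nat_lit 282) (PT.nd (nat_lit 94) (PT.lf (nat_lit 13188) (nat_lit 6) (nat_lit 157) (nat_lit 4) (nat_lit 35) (nat_lit 59) (nat_lit 56)) (PT.nd (nat_lit 94) (PT.lf (nat_lit 14364) (nat_lit 6) (nat_lit 171) (nat_lit 4) (nat_lit 36) (nat_lit 59) (nat_lit 55)) (PT.lf (nat_lit 15456) (nat_lit 6) (nat_lit 184) (nat_lit 4) (nat_lit 37) (nat_lit 59) (nat_lit 54)))) (PT.nd (nat_lit 94) (PT.lf (nat_lit 16464) (nat_lit 6) (nat_lit 196) (nat_lit 4) (nat_lit 38) (nat_lit 59) (nat_lit 53)) (PT.nd (nat_lit 94) (PT.lf (nat_lit 17388) (nat_lit 6) (nat_lit 207) (nat_lit 4) (nat_lit 39) (nat_lit 59) (nat_lit 52)) (PT.lf (nat_lit 18228) (nat_lit 6) (nat_lit 217) (nat_lit 4) (nat_lit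 40) (nat_lit 59) (nat_lit 51))))) (PT.nd (nat_lit 282) (PT.nd (nat_lit 94) (PT.lf (nat_lit 18984) (nat_lit 6) (nat_lit 226) (nat_lit 4) (nat_lit 41) (nat_lit 59) (nat_lit 50)) (PT.nd (nat_lit 94) (PT.lf (nat_lit 18900) (nat_lit 6) (nat_lit 225) (nat_lit 4) (nat_lit 42) (nat_lit 59) (nat_lit 49)) (PT.lf (nat_lit 18816) (nat_lit 6) (nat_lit 224) (nat_lit 4) (nat_lit 43) (nat_lit 59) (nat_lit 48)))) (PT.nd (nat_lit 94) (PT.lf (nat_lit 18732) (nat_lit 6) (nat_lit 223) (nat_lit 4) (nat_lit 44) (nat_lit 59) (nat_lit 47)) (PT.nd (nat_lit 94) (PT.lf (nat_lit 18648) (nat_lit 6) (nat_lit 222) (nat_lit 4) (nat_lit 45) (nat_lit 59) (nat_lit 46)) (PT.lf (nat_lit 18648) (nat_lit 6) (nat_lit 222) (nat_lit 2) (nat_lit 46) (nat_lit 59) (nat_lit 45))))))))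
noncomputable def pc20 : PT := (PT.nd (nat_lit 35438) (PT.nd (nat_lit 1034) (PT.nd (nat_lit 470) (PT.nd (nat_lit 188) (PT.nd (nat_lit 94) (PT.lf (nat_lit 18732) (nat_lit 6) (nat_lit 223) (nat_lit 2) (nat_lit 47) (nat_lit 59) (nat_lit 44)) (PT.lf (nat_lit 18816) (nat_lit 6) (nat_lit 224) (nat_lit 2) (nat_lit 48) (nat_lit 59) (nat_lit 43))) (PT.nd (nat_lit 94) (PT.lf (nat_lit 18900) (nat_lit 6) (nat_lit 225) (nat_lit 2) (nat_lit 49) (nat_lit 59) (nat_lit 42)) (PT.nd (nat_lit 94) (PT.lf (nat_lit 18984) (nat_lit 6) (nat_lit 226) (nat_lit 2) (nat_lit 50) (nat_lit 59) (nat_lit 41)) (PT.lf (nat_lit 18228) (nat_lit 6) (nat_lit 217) (nat_lit 2) (nat_lit 51) (nat_lit 59) (nat_lit 40))))) (PT.nd (nat_lit 282) (PT.nd (nat_lit 94) (PT.lf (nat_lit 17388) (nat_lit 6) (nat_lit 207) (nat_lit 2) (nat_lit 52) (nat_lit 59) (nat_lit 39)) (PT.nd (nat_lit 94) (PT.lf (nat_lit 16464) (nat_lit 6) (nat_lit 196) (nat_lit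 2) (nat_lit 53) (nat_lit 59) (nat_lit 38)) (PT.lf (nat_lit 15456) (nat_lit 6) (nat_lit 184) (nat_lit 2) (nat_lit 54) (nat_lit 59) (nat_lit 37)))) (PT.nd (nat_lit 94) (PT.lf (nat_lit 14364) (nat_lit 6) (nat_lit 171) (nat_lit 2) (nat_lit 55) (nat_lit 59) (nat_lit 36)) (PT.nd (nat_lit 94) (PT.lf (nat_lit 13188) (nat_lit 6) (nat_lit 157) (nat_lit 2) (nat_lit 56) (nat_lit 59) (nat_lit 35)) (PT.lf (nat_lit 12516) (nat_lit 6) (nat_lit 149) (nat_lit 2) (nat_lit 57) (nat_lit 59) (nat_lit 34)))))) (PT.nd (nat_lit 564) (PT.nd (nat_lit 282) (PT.nd (nat_lit 94) (PT.lf (nat_lit 11928) (nat_lit 6) (nat_lit 142) (nat_lit 2) (nat_lit 58) (nat_lit 59) (nat_lit 33)) (PT.nd (nat_lit 94) (PT.lf (nat_lit 11340) (nat_lit 3) (nat_lit 135) (nat_lit 0) (nat_lit 59) (nat_lit 59) (nat_lit 32)) (PT.lf (nat_lit 10752) (nat_lit 6) (nat_lit 128) (nat_lit 0) (nat_lit 60) (nat_lit 59) (nat_lit 31)))) (PT.nd (nat_lit 94) (PT.lf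 (nat_lit 10164) (nat_lit 6) (nat_lit 121) (nat_lit 0) (nat_lit 61) (nat_lit 59) (nat_lit 30)) (PT.nd (nat_lit 94) (PT.lf (nat_lit 9576) (nat_lit 6) (nat_lit 114) (nat_lit 0) (nat_lit 62) (nat_lit 59) (nat_lit 29)) (PT.lf (nat_lit 8988) (nat_lit 6) (nat_lit 107) (nat_lit 0) (nat_lit 63) (nat_lit 59) (nat_lit 28))))) (PT.nd (nat_lit 282) (PT.nd (nat_lit 94) (PT.lf (nat_lit 8484) (nat_lit 6) (nat_lit 101) (nat_lit 0) (nat_lit 64) (nat_lit 59) (nat_lit 27)) (PT.nd (nat_lit 94) (PT.lf (nat_lit 7980) (nat_lit 6) (nat_lit 95) (nat_lit 0) (nat_lit 65) (nat_lit 59) (nat_lit 26)) (PT.lf (nat_lit 7476) (nat_lit 6) (nat_lit 89) (nat_lit 0) (nat_lit 66) (nat_lit 59) (nat_lit 25)))) (PT.nd (nat_lit 94) (PT.lf (nat_lit 6972) (nat_lit 6) (nat_lit 83) (nat_lit 0) (nat_lit 67) (nat_lit 59) (nat_lit 24)) (PT.nd (nat_lit 33370) (PT.lf (nat_lit 6552) (nat_lit 6) (nat_lit 78) (nat_lit 0) (nat_lit 68) (nat_lit 59)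 (nat_lit 23)) (PT.lf (nat_lit 6132) (nat_lit 6) (nat_lit 73) (nat_lit 5) (nat_lit 22) (nat_lit 60) (nat_lit 68))))))) (PT.nd (nat_lit 1128) (PT.nd (nat_lit 564) (PT.nd (nat_lit 282) (PT.nd (nat_lit 94) (PT.lf (nat_lit 6636) (nat_lit 6) (nat_lit 79) (nat_lit 5) (nat_lit 23) (nat_lit 60) (nat_lit 67)) (PT.nd (nat_lit 94) (PT.lf (nat_lit 7056) (nat_lit 6) (nat_lit 84) (nat_lit 5) (nat_lit 24) (nat_lit 60) (nat_lit 66)) (PT.lf (nat_lit 7560) (nat_lit 6) (nat_lit 90) (nat_lit 5) (nat_lit 25) (nat_lit 60) (nat_lit 65)))) (PT.nd (nat_lit 94) (PT.lf (nat_lit 8064) (nat_lit 6) (nat_lit 96) (nat_lit 5) (nat_lit 26) (nat_lit 60) (nat_lit 64)) (PT.nd (nat_lit 94) (PT.lf (nat_lit 8568) (nat_lit 6) (nat_lit 102) (nat_lit 5) (nat_lit 27) (nat_lit 60) (nat_lit 63)) (PT.lf (nat_lit 9072) (nat_lit 6) (nat_lit 108) (nat_lit 5) (nat_lit 28) (nat_lit 60) (nat_lit 62))))) (PT.nd (nat_lit 282) (PT.nd (nat_lit 94)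 (PT.lf (nat_lit 9660) (nat_lit 6) (nat_lit 115) (nat_lit 5) (nat_lit 29) (nat_lit 60) (nat_lit 61)) (PT.nd (nat_lit 94) (PT.lf (nat_lit 10248) (nat_lit 3) (nat_lit 122) (nat_lit 4) (nat_lit 30) (nat_lit 60) (nat_lit 60)) (PT.lf (nat_lit 10752) (nat_lit 6) (nat_lit 128) (nat_lit 4) (nat_lit 31) (nat_lit 60) (nat_lit 59)))) (PT.nd (nat_lit 94) (PT.lf (nat_lit 11256) (nat_lit 6) (nat_lit 134) (nat_lit 4) (nat_lit 32) (nat_lit 60) (nat_lit 58)) (PT.nd (nat_lit 94) (PT.lf (nat_lit 11844) (nat_lit 6) (nat_lit 141) (nat_lit 4) (nat_lit 33) (nat_lit 60) (nat_lit 57)) (PT.lf (nat_lit 12432) (nat_lit 6) (nat_lit 148) (nat_lit 4) (nat_lit 34) (nat_lit 60) (nat_lit 56)))))) (PT.nd (nat_lit 564) (PT.nd (nat_lit 282) (PT.nd (nat_lit 94) (PT.lf (nat_lit 13104) (nat_lit 6) (nat_lit 156) (nat_lit 4) (nat_lit 35) (nat_lit 60) (nat_lit 55)) (PT.nd (nat_lit 94) (PT.lf (nat_lit 14280) (nat_lit 6) (nat_lit 170)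 (nat_lit 4) (nat_lit 36) (nat_lit 60) (nat_lit 54)) (PT.lf (nat_lit 15372) (nat_lit 6) (nat_lit 183) (nat_lit 4) (nat_lit 37) (nat_lit 60) (nat_lit 53)))) (PT.nd (nat_lit 94) (PT.lf (nat_lit 16380) (nat_lit 6) (nat_lit 195) (nat_lit 4) (nat_lit 38) (nat_lit 60) (nat_lit 52)) (PT.nd (nat_lit 94) (PT.lf (nat_lit 17304) (nat_lit 6) (nat_lit 206) (nat_lit 4) (nat_lit 39) (nat_lit 60) (nat_lit 51)) (PT.lf (nat_lit 18144) (nat_lit 6) (nat_lit 216) (nat_lit 4) (nat_lit 40) (nat_lit 60) (nat_lit 50))))) (PT.nd (nat_lit 282) (PT.nd (nat_lit 94) (PT.lf (nat_lit 18060) (nat_lit 6) (nat_lit 215) (nat_lit 4) (nat_lit 41) (nat_lit 60) (nat_lit 49)) (PT.nd (nat_lit 94) (PT.lf (nat_lit 17976) (nat_lit 6) (nat_lit 214) (nat_lit 4) (nat_lit 42) (nat_lit 60) (nat_lit 48)) (PT.lf (nat_lit 17892) (nat_lit 6) (nat_lit 213) (nat_lit 4) (nat_lit 43) (nat_lit 60) (nat_lit 47)))) (PT.nd (nat_lit 94) (PT.lf (nat_lit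 17808) (nat_lit 6) (nat_lit 212) (nat_lit 4) (nat_lit 44) (nat_lit 60) (nat_lit 46)) (PT.nd (nat_lit 94) (PT.lf (nat_lit 17724) (nat_lit 3) (nat_lit 211) (nat_lit 2) (nat_lit 45) (nat_lit 60) (nat_lit 45)) (PT.lf (nat_lit 17808) (nat_lit 6) (nat_lit 212) (nat_lit 2) (nat_lit 46) (nat_lit 60) (nat_lit 44))))))))
noncomputable def pc21 : PT := (PT.nd (nat_lit 35344) (PT.nd (nat_lit 1128) (PT.nd (nat_lit 564) (PT.nd (nat_lit 282) (PT.nd (nat_lit 94) (PT.lf (nat_lit 17892) (nat_lit 6) (nat_lit 213) (nat_lit 2) (nat_lit 47) (nat_lit 60) (nat_lit 43)) (PT.nd (nat_lit 94) (PT.lf (nat_lit 17976) (nat_lit 6) (nat_lit 214) (nat_lit 2) (nat_lit 48) (nat_lit 60) (nat_lit 42)) (PT.lf (nat_lit 18060) (nat_lit 6) (nat_lit 215) (nat_lit 2) (nat_lit 49) (nat_lit 60) (nat_lit 41)))) (PT.nd (nat_lit 94) (PT.lf (nat_lit 18144) (nat_lit 6) (nat_lit 216) (nat_lit 2) (nat_lit 50) (nat_lit 60) (nat_lit 40)) (PT.nd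 (nat_lit 94) (PT.lf (nat_lit 17304) (nat_lit 6) (nat_lit 206) (nat_lit 2) (nat_lit 51) (nat_lit 60) (nat_lit 39)) (PT.lf (nat_lit 16380) (nat_lit 6) (nat_lit 195) (nat_lit 2) (nat_lit 52) (nat_lit 60) (nat_lit 38))))) (PT.nd (nat_lit 282) (PT.nd (nat_lit 94) (PT.lf (nat_lit 15372) (nat_lit 6) (nat_lit 183) (nat_lit 2) (nat_lit 53) (nat_lit 60) (nat_lit 37)) (PT.nd (nat_lit 94) (PT.lf (nat_lit 14280) (nat_lit 6) (nat_lit 170) (nat_lit 2) (nat_lit 54) (nat_lit 60) (nat_lit 36)) (PT.lf (nat_lit 13104) (nat_lit 6) (nat_lit 156) (nat_lit 2) (nat_lit 55) (nat_lit 60) (nat_lit 35)))) (PT.nd (nat_lit 94) (PT.lf (nat_lit 12432) (nat_lit 6) (nat_lit 148) (nat_lit 2) (nat_lit 56) (nat_lit 60) (nat_lit 34)) (PT.nd (nat_lit 94) (PT.lf (nat_lit 11844) (nat_lit 6) (nat_lit 141) (nat_lit 2) (nat_lit 57) (nat_lit 60) (nat_lit 33)) (PT.lf (nat_lit 11256) (nat_lit 6) (nat_lit 134) (nat_lit 2) (nat_lit 58) (nat_lit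 60) (nat_lit 32)))))) (PT.nd (nat_lit 564) (PT.nd (nat_lit 282) (PT.nd (nat_lit 94) (PT.lf (nat_lit 10752) (nat_lit 6) (nat_lit 128) (nat_lit 2) (nat_lit 59) (nat_lit 60) (nat_lit 31)) (PT.nd (nat_lit 94) (PT.lf (nat_lit 10248) (nat_lit 3) (nat_lit 122) (nat_lit 0) (nat_lit 60) (nat_lit 60) (nat_lit 30)) (PT.lf (nat_lit 9660) (nat_lit 6) (nat_lit 115) (nat_lit 0) (nat_lit 61) (nat_lit 60) (nat_lit 29)))) (PT.nd (nat_lit 94) (PT.lf (nat_lit 9072) (nat_lit 6) (nat_lit 108) (nat_lit 0) (nat_lit 62) (nat_lit 60) (nat_lit 28)) (PT.nd (nat_lit 94) (PT.lf (nat_lit 8568) (nat_lit 6) (nat_lit 102) (nat_lit 0) (nat_lit 63) (nat_lit 60) (nat_lit 27)) (PT.lf (nat_lit 8064) (nat_lit 6) (nat_lit 96) (nat_lit 0) (nat_lit 64) (nat_lit 60) (nat_lit 26))))) (PT.nd (nat_lit 282) (PT.nd (nat_lit 94) (PT.lf (nat_lit 7560) (nat_lit 6) (nat_lit 90) (nat_lit 0) (nat_lit 65) (nat_lit 60) (nat_lit 25)) (PT.nd (nat_lit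 94) (PT.lf (nat_lit 7056) (nat_lit 6) (nat_lit 84) (nat_lit 0) (nat_lit 66) (nat_lit 60) (nat_lit 24)) (PT.lf (nat_lit 6636) (nat_lit 6) (nat_lit 79) (nat_lit 0) (nat_lit 67) (nat_lit 60) (nat_lit 23)))) (PT.nd (nat_lit 33182) (PT.lf (nat_lit 6132) (nat_lit 6) (nat_lit 73) (nat_lit 0) (nat_lit 68) (nat_lit 60) (nat_lit 22)) (PT.nd (nat_lit 94) (PT.lf (nat_lit 5376) (nat_lit 6) (nat_lit 64) (nat_lit 5) (nat_lit 20) (nat_lit 61) (nat_lit 69)) (PT.lf (nat_lit 5796) (nat_lit 6) (nat_lit 69) (nat_lit 5) (nat_lit 21) (nat_lit 61) (nat_lit 68))))))) (PT.nd (nat_lit 1128) (PT.nd (nat_lit 564) (PT.nd (nat_lit 282) (PT.nd (nat_lit 94) (PT.lf (nat_lit 6216) (nat_lit 6) (nat_lit 74) (nat_lit 5) (nat_lit 22) (nat_lit 61) (nat_lit 67)) (PT.nd (nat_lit 94) (PT.lf (nat_lit 6720) (nat_lit 6) (nat_lit 80) (nat_lit 5) (nat_lit 23) (nat_lit 61) (nat_lit 66)) (PT.lf (nat_lit 7140) (nat_lit 6) (nat_lit 85) (nat_lit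 5) (nat_lit 24) (nat_lit 61) (nat_lit 65)))) (PT.nd (nat_lit 94) (PT.lf (nat_lit 7644) (nat_lit 6) (nat_lit 91) (nat_lit 5) (nat_lit 25) (nat_lit 61) (nat_lit 64)) (PT.nd (nat_lit 94) (PT.lf (nat_lit 8148) (nat_lit 6) (nat_lit 97) (nat_lit 5) (nat_lit 26) (nat_lit 61) (nat_lit 63)) (PT.lf (nat_lit 8652) (nat_lit 6) (nat_lit 103) (nat_lit 5) (nat_lit 27) (nat_lit 61) (nat_lit 62))))) (PT.nd (nat_lit 282) (PT.nd (nat_lit 94) (PT.lf (nat_lit 9156) (nat_lit 3) (nat_lit 109) (nat_lit 4) (nat_lit 28) (nat_lit 61) (nat_lit 61)) (PT.nd (nat_lit 94) (PT.lf (nat_lit 9660) (nat_lit 6) (nat_lit 115) (nat_lit 4) (nat_lit 29) (nat_lit 61) (nat_lit 60)) (PT.lf (nat_lit 10164) (nat_lit 6) (nat_lit 121) (nat_lit 4) (nat_lit 30) (nat_lit 61) (nat_lit 59)))) (PT.nd (nat_lit 94) (PT.lf (nat_lit 10668) (nat_lit 6) (nat_lit 127) (nat_lit 4) (nat_lit 31) (nat_lit 61) (nat_lit 58)) (PT.nd (nat_lit 94) (PT.lf (nat_lit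 11172) (nat_lit 6) (nat_lit 133) (nat_lit 4) (nat_lit 32) (nat_lit 61) (nat_lit 57)) (PT.lf (nat_lit 11760) (nat_lit 6) (nat_lit 140) (nat_lit 4) (nat_lit 33) (nat_lit 61) (nat_lit 56)))))) (PT.nd (nat_lit 564) (PT.nd (nat_lit 282) (PT.nd (nat_lit 94) (PT.lf (nat_lit 12348) (nat_lit 6) (nat_lit 147) (nat_lit 4) (nat_lit 34) (nat_lit 61) (nat_lit 55)) (PT.nd (nat_lit 94) (PT.lf (nat_lit 13020) (nat_lit 6) (nat_lit 155) (nat_lit 4) (nat_lit 35) (nat_lit 61) (nat_lit 54)) (PT.lf (nat_lit 14196) (nat_lit 6) (nat_lit 169) (nat_lit 4) (nat_lit 36) (nat_lit 61) (nat_lit 53)))) (PT.nd (nat_lit 94) (PT.lf (nat_lit 15288) (nat_lit 6) (nat_lit 182) (nat_lit 4) (nat_lit 37) (nat_lit 61) (nat_lit 52)) (PT.nd (nat_lit 94) (PT.lf (nat_lit 16296) (nat_lit 6) (nat_lit 194) (nat_lit 4) (nat_lit 38) (nat_lit 61) (nat_lit 51)) (PT.lf (nat_lit 17220) (nat_lit 6) (nat_lit 205) (nat_lit 4) (nat_lit 39) (nat_lit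 61) (nat_lit 50))))) (PT.nd (nat_lit 282) (PT.nd (nat_lit 94) (PT.lf (nat_lit 17136) (nat_lit 6) (nat_lit 204) (nat_lit 4) (nat_lit 40) (nat_lit 61) (nat_lit 49)) (PT.nd (nat_lit 94) (PT.lf (nat_lit 17052) (nat_lit 6) (nat_lit 203) (nat_lit 4) (nat_lit 41) (nat_lit 61) (nat_lit 48)) (PT.lf (nat_lit 16968) (nat_lit 6) (nat_lit 202) (nat_lit 4) (nat_lit 42) (nat_lit 61) (nat_lit 47)))) (PT.nd (nat_lit 94) (PT.lf (nat_lit 16884) (nat_lit 6) (nat_lit 201) (nat_lit 4) (nat_lit 43) (nat_lit 61) (nat_lit 46)) (PT.nd (nat_lit 94) (PT.lf (nat_lit 16800) (nat_lit 6) (nat_lit 200) (nat_lit 4) (nat_lit 44) (nat_lit 61) (nat_lit 45)) (PT.lf (nat_lit 16800) (nat_lit 6) (nat_lit 200) (nat_lit 2) (nat_lit 45) (nat_lit 61) (nat_lit 44))))))))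
noncomputable def pc22 : PT := (PT.nd (nat_lit 35156) (PT.nd (nat_lit 1128) (PT.nd (nat_lit 564) (PT.nd (nat_lit 282) (PT.nd (nat_lit 94) (PT.lf (nat_lit 16884) (nat_lit 6) (nat_lit 201) (nat_lit 2) (nat_lit 46) (nat_lit 61) (nat_lit 43)) (PT.nd (nat_lit 94) (PT.lf (nat_lit 16968) (nat_lit 6) (nat_lit 202) (nat_lit 2) (nat_lit 47) (nat_lit 61) (nat_lit 42)) (PT.lf (nat_lit 17052) (nat_lit 6) (nat_lit 203) (nat_lit 2) (nat_lit 48) (nat_lit 61) (nat_lit 41)))) (PT.nd (nat_lit 94) (PT.lf (nat_lit 17136) (nat_lit 6) (nat_lit 204) (nat_lit 2) (nat_lit 49) (nat_lit 61) (nat_lit 40)) (PT.nd (nat_lit 94) (PT.lf (nat_lit 17220) (nat_lit 6) (nat_lit 205) (nat_lit 2) (nat_lit 50) (nat_lit 61) (nat_lit 39)) (PT.lf (nat_lit 16296) (nat_lit 6) (nat_lit 194) (nat_lit 2) (nat_lit 51) (nat_lit 61) (nat_lit 38))))) (PT.nd (nat_lit 282) (PT.nd (nat_lit 94) (PT.lf (nat_lit 15288) (nat_lit 6) (nat_lit 182) (nat_lit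 2) (nat_lit 52) (nat_lit 61) (nat_lit 37)) (PT.nd (nat_lit 94) (PT.lf (nat_lit 14196) (nat_lit 6) (nat_lit 169) (nat_lit 2) (nat_lit 53) (nat_lit 61) (nat_lit 36)) (PT.lf (nat_lit 13020) (nat_lit 6) (nat_lit 155) (nat_lit 2) (nat_lit 54) (nat_lit 61) (nat_lit 35)))) (PT.nd (nat_lit 94) (PT.lf (nat_lit 12348) (nat_lit 6) (nat_lit 147) (nat_lit 2) (nat_lit 55) (nat_lit 61) (nat_lit 34)) (PT.nd (nat_lit 94) (PT.lf (nat_lit 11760) (nat_lit 6) (nat_lit 140) (nat_lit 2) (nat_lit 56) (nat_lit 61) (nat_lit 33)) (PT.lf (nat_lit 11172) (nat_lit 6) (nat_lit 133) (nat_lit 2) (nat_lit 57) (nat_lit 61) (nat_lit 32)))))) (PT.nd (nat_lit 564) (PT.nd (nat_lit 282) (PT.nd (nat_lit 94) (PT.lf (nat_lit 10668) (nat_lit 6) (nat_lit 127) (nat_lit 2) (nat_lit 58) (nat_lit 61) (nat_lit 31)) (PT.nd (nat_lit 94) (PT.lf (nat_lit 10164) (nat_lit 6) (nat_lit 121) (nat_lit 2) (nat_lit 59) (nat_lit 61) (nat_lit 30)) (PT.lf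 (nat_lit 9660) (nat_lit 6) (nat_lit 115) (nat_lit 2) (nat_lit 60) (nat_lit 61) (nat_lit 29)))) (PT.nd (nat_lit 94) (PT.lf (nat_lit 9156) (nat_lit 3) (nat_lit 109) (nat_lit 0) (nat_lit 61) (nat_lit 61) (nat_lit 28)) (PT.nd (nat_lit 94) (PT.lf (nat_lit 8652) (nat_lit 6) (nat_lit 103) (nat_lit 0) (nat_lit 62) (nat_lit 61) (nat_lit 27)) (PT.lf (nat_lit 8148) (nat_lit 6) (nat_lit 97) (nat_lit 0) (nat_lit 63) (nat_lit 61) (nat_lit 26))))) (PT.nd (nat_lit 282) (PT.nd (nat_lit 94) (PT.lf (nat_lit 7644) (nat_lit 6) (nat_lit 91) (nat_lit 0) (nat_lit 64) (nat_lit 61) (nat_lit 25)) (PT.nd (nat_lit 94) (PT.lf (nat_lit 7140) (nat_lit 6) (nat_lit 85) (nat_lit 0) (nat_lit 65) (nat_lit 61) (nat_lit 24)) (PT.lf (nat_lit 6720) (nat_lit 6) (nat_lit 80) (nat_lit 0) (nat_lit 66) (nat_lit 61) (nat_lit 23)))) (PT.nd (nat_lit 94) (PT.lf (nat_lit 6216) (nat_lit 6) (nat_lit 74) (nat_lit 0) (nat_lit 67) (nat_lit 61)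 (nat_lit 22)) (PT.nd (nat_lit 94) (PT.lf (nat_lit 5796) (nat_lit 6) (nat_lit 69) (nat_lit 0) (nat_lit 68) (nat_lit 61) (nat_lit 21)) (PT.lf (nat_lit 5376) (nat_lit 6) (nat_lit 64) (nat_lit 0) (nat_lit 69) (nat_lit 61) (nat_lit 20))))))) (PT.nd (nat_lit 1128) (PT.nd (nat_lit 564) (PT.nd (nat_lit 282) (PT.nd (nat_lit 94) (PT.lf (nat_lit 5040) (nat_lit 6) (nat_lit 60) (nat_lit 5) (nat_lit 19) (nat_lit 62) (nat_lit 69)) (PT.nd (nat_lit 94) (PT.lf (nat_lit 5460) (nat_lit 6) (nat_lit 65) (nat_lit 5) (nat_lit 20) (nat_lit 62) (nat_lit 68)) (PT.lf (nat_lit 5880) (nat_lit 6) (nat_lit 70) (nat_lit 5) (nat_lit 21) (nat_lit 62) (nat_lit 67)))) (PT.nd (nat_lit 94) (PT.lf (nat_lit 6300) (nat_lit 6) (nat_lit 75) (nat_lit 5) (nat_lit 22) (nat_lit 62) (nat_lit 66)) (PT.nd (nat_lit 94) (PT.lf (nat_lit 6804) (nat_lit 6) (nat_lit 81) (nat_lit 5) (nat_lit 23) (nat_lit 62) (nat_lit 65)) (PT.lf (nat_lit 7224) (nat_lit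 6) (nat_lit 86) (nat_lit 5) (nat_lit 24) (nat_lit 62) (nat_lit 64))))) (PT.nd (nat_lit 282) (PT.nd (nat_lit 94) (PT.lf (nat_lit 7728) (nat_lit 6) (nat_lit 92) (nat_lit 5) (nat_lit 25) (nat_lit 62) (nat_lit 63)) (PT.nd (nat_lit 94) (PT.lf (nat_lit 8232) (nat_lit 3) (nat_lit 98) (nat_lit 4) (nat_lit 26) (nat_lit 62) (nat_lit 62)) (PT.lf (nat_lit 8652) (nat_lit 6) (nat_lit 103) (nat_lit 4) (nat_lit 27) (nat_lit 62) (nat_lit 61)))) (PT.nd (nat_lit 94) (PT.lf (nat_lit 9072) (nat_lit 6) (nat_lit 108) (nat_lit 4) (nat_lit 28) (nat_lit 62) (nat_lit 60)) (PT.nd (nat_lit 94) (PT.lf (nat_lit 9576) (nat_lit 6) (nat_lit 114) (nat_lit 4) (nat_lit 29) (nat_lit 62) (nat_lit 59)) (PT.lf (nat_lit 10080) (nat_lit 6) (nat_lit 120) (nat_lit 4) (nat_lit 30) (nat_lit 62) (nat_lit 58)))))) (PT.nd (nat_lit 564) (PT.nd (nat_lit 282) (PT.nd (nat_lit 94) (PT.lf (nat_lit 10584) (nat_lit 6) (nat_lit 126) (nat_lit 4) (nat_lit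 31) (nat_lit 62) (nat_lit 57)) (PT.nd (nat_lit 94) (PT.lf (nat_lit 11088) (nat_lit 6) (nat_lit 132) (nat_lit 4) (nat_lit 32) (nat_lit 62) (nat_lit 56)) (PT.lf (nat_lit 11676) (nat_lit 6) (nat_lit 139) (nat_lit 4) (nat_lit 33) (nat_lit 62) (nat_lit 55)))) (PT.nd (nat_lit 94) (PT.lf (nat_lit 12264) (nat_lit 6) (nat_lit 146) (nat_lit 4) (nat_lit 34) (nat_lit 62) (nat_lit 54)) (PT.nd (nat_lit 94) (PT.lf (nat_lit 12936) (nat_lit 6) (nat_lit 154) (nat_lit 4) (nat_lit 35) (nat_lit 62) (nat_lit 53)) (PT.lf (nat_lit 14112) (nat_lit 6) (nat_lit 168) (nat_lit 4) (nat_lit 36) (nat_lit 62) (nat_lit 52))))) (PT.nd (nat_lit 282) (PT.nd (nat_lit 94) (PT.lf (nat_lit 15204) (nat_lit 6) (nat_lit 181) (nat_lit 4) (nat_lit 37) (nat_lit 62) (nat_lit 51)) (PT.nd (nat_lit 94) (PT.lf (nat_lit 16212) (nat_lit 6) (nat_lit 193) (nat_lit 4) (nat_lit 38) (nat_lit 62) (nat_lit 50)) (PT.lf (nat_lit 16128) (nat_lit 6) (nat_lit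 192) (nat_lit 4) (nat_lit 39) (nat_lit 62) (nat_lit 49)))) (PT.nd (nat_lit 94) (PT.lf (nat_lit 16044) (nat_lit 6) (nat_lit 191) (nat_lit 4) (nat_lit 40) (nat_lit 62) (nat_lit 48)) (PT.nd (nat_lit 94) (PT.lf (nat_lit 15960) (nat_lit 6) (nat_lit 190) (nat_lit 4) (nat_lit 41) (nat_lit 62) (nat_lit 47)) (PT.lf (nat_lit 15876) (nat_lit 6) (nat_lit 189) (nat_lit 4) (nat_lit 42) (nat_lit 62) (nat_lit 46))))))))
noncomputable def pc23 : PT := (PT.nd (nat_lit 2256) (PT.nd (nat_lit 1128) (PT.nd (nat_lit 564) (PT.nd (nat_lit 282) (PT.nd (nat_lit 94) (PT.lf (nat_lit 15792) (nat_lit 6) (nat_lit 188) (nat_lit 4) (nat_lit 43) (nat_lit 62) (nat_lit 45)) (PT.nd (nat_lit 94) (PT.lf (nat_lit 15708) (nat_lit 3) (nat_lit 187) (nat_lit 2) (nat_lit 44) (nat_lit 62) (nat_lit 44)) (PT.lf (nat_lit 15792) (nat_lit 6) (nat_lit 188) (nat_lit 2) (nat_lit 45) (nat_lit 62) (nat_lit 43)))) (PT.nd (nat_lit 94) (PT.lf (nat_lit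 15876) (nat_lit 6) (nat_lit 189) (nat_lit 2) (nat_lit 46) (nat_lit 62) (nat_lit 42)) (PT.nd (nat_lit 94) (PT.lf (nat_lit 15960) (nat_lit 6) (nat_lit 190) (nat_lit 2) (nat_lit 47) (nat_lit 62) (nat_lit 41)) (PT.lf (nat_lit 16044) (nat_lit 6) (nat_lit 191) (nat_lit 2) (nat_lit 48) (nat_lit 62) (nat_lit 40))))) (PT.nd (nat_lit 282) (PT.nd (nat_lit 94) (PT.lf (nat_lit 16128) (nat_lit 6) (nat_lit 192) (nat_lit 2) (nat_lit 49) (nat_lit 62) (nat_lit 39)) (PT.nd (nat_lit 94) (PT.lf (nat_lit 16212) (nat_lit 6) (nat_lit 193) (nat_lit 2) (nat_lit 50) (nat_lit 62) (nat_lit 38)) (PT.lf (nat_lit 15204) (nat_lit 6) (nat_lit 181) (nat_lit 2) (nat_lit 51) (nat_lit 62) (nat_lit 37)))) (PT.nd (nat_lit 94) (PT.lf (nat_lit 14112) (nat_lit 6) (nat_lit 168) (nat_lit 2) (nat_lit 52) (nat_lit 62) (nat_lit 36)) (PT.nd (nat_lit 94) (PT.lf (nat_lit 12936) (nat_lit 6) (nat_lit 154) (nat_lit 2) (nat_lit 53) (nat_lit 62)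 (nat_lit 35)) (PT.lf (nat_lit 12264) (nat_lit 6) (nat_lit 146) (nat_lit 2) (nat_lit 54) (nat_lit 62) (nat_lit 34)))))) (PT.nd (nat_lit 564) (PT.nd (nat_lit 282) (PT.nd (nat_lit 94) (PT.lf (nat_lit 11676) (nat_lit 6) (nat_lit 139) (nat_lit 2) (nat_lit 55) (nat_lit 62) (nat_lit 33)) (PT.nd (nat_lit 94) (PT.lf (nat_lit 11088) (nat_lit 6) (nat_lit 132) (nat_lit 2) (nat_lit 56) (nat_lit 62) (nat_lit 32)) (PT.lf (nat_lit 10584) (nat_lit 6) (nat_lit 126) (nat_lit 2) (nat_lit 57) (nat_lit 62) (nat_lit 31)))) (PT.nd (nat_lit 94) (PT.lf (nat_lit 10080) (nat_lit 6) (nat_lit 120) (nat_lit 2) (nat_lit 58) (nat_lit 62) (nat_lit 30)) (PT.nd (nat_lit 94) (PT.lf (nat_lit 9576) (nat_lit 6) (nat_lit 114) (nat_lit 2) (nat_lit 59) (nat_lit 62) (nat_lit 29)) (PT.lf (nat_lit 9072) (nat_lit 6) (nat_lit 108) (nat_lit 2) (nat_lit 60) (nat_lit 62) (nat_lit 28))))) (PT.nd (nat_lit 282) (PT.nd (nat_lit 94) (PT.lf (nat_lit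 8652) (nat_lit 6) (nat_lit 103) (nat_lit 2) (nat_lit 61) (nat_lit 62) (nat_lit 27)) (PT.nd (nat_lit 94) (PT.lf (nat_lit 8232) (nat_lit 3) (nat_lit 98) (nat_lit 0) (nat_lit 62) (nat_lit 62) (nat_lit 26)) (PT.lf (nat_lit 7728) (nat_lit 6) (nat_lit 92) (nat_lit 0) (nat_lit 63) (nat_lit 62) (nat_lit 25)))) (PT.nd (nat_lit 94) (PT.lf (nat_lit 7224) (nat_lit 6) (nat_lit 86) (nat_lit 0) (nat_lit 64) (nat_lit 62) (nat_lit 24)) (PT.nd (nat_lit 94) (PT.lf (nat_lit 6804) (nat_lit 6) (nat_lit 81) (nat_lit 0) (nat_lit 65) (nat_lit 62) (nat_lit 23)) (PT.lf (nat_lit 6300) (nat_lit 6) (nat_lit 75) (nat_lit 0) (nat_lit 66) (nat_lit 62) (nat_lit 22))))))) (PT.nd (nat_lit 33840) (PT.nd (nat_lit 33276) (PT.nd (nat_lit 32994) (PT.nd (nat_lit 94) (PT.lf (nat_lit 5880) (nat_lit 6) (nat_lit 70) (nat_lit 0) (nat_lit 67) (nat_lit 62) (nat_lit 21)) (PT.nd (nat_lit 94) (PT.lf (nat_lit 5460) (nat_lit 6) (nat_lit 65) (nat_lit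 0) (nat_lit 68) (nat_lit 62) (nat_lit 20)) (PT.lf (nat_lit 5040) (nat_lit 6) (nat_lit 60) (nat_lit 0) (nat_lit 69) (nat_lit 62) (nat_lit 19)))) (PT.nd (nat_lit 94) (PT.lf (nat_lit 4368) (nat_lit 6) (nat_lit 52) (nat_lit 5) (nat_lit 17) (nat_lit 63) (nat_lit 70)) (PT.nd (nat_lit 94) (PT.lf (nat_lit 4704) (nat_lit 6) (nat_lit 56) (nat_lit 5) (nat_lit 18) (nat_lit 63) (nat_lit 69)) (PT.lf (nat_lit 5124) (nat_lit 6) (nat_lit 61) (nat_lit 5) (nat_lit 19) (nat_lit 63) (nat_lit 68))))) (PT.nd (nat_lit 282) (PT.nd (nat_lit 94) (PT.lf (nat_lit 5544) (nat_lit 6) (nat_lit 66) (nat_lit 5) (nat_lit 20) (nat_lit 63) (nat_lit 67)) (PT.nd (nat_lit 94) (PT.lf (nat_lit 5964) (nat_lit 6) (nat_lit 71) (nat_lit 5) (nat_lit 21) (nat_lit 63) (nat_lit 66)) (PT.lf (nat_lit 6384) (nat_lit 6) (nat_lit 76) (nat_lit 5) (nat_lit 22) (nat_lit 63) (nat_lit 65)))) (PT.nd (nat_lit 94) (PT.lf (nat_lit 6888) (nat_lit 6) (nat_lit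 82) (nat_lit 5) (nat_lit 23) (nat_lit 63) (nat_lit 64)) (PT.nd (nat_lit 94) (PT.lf (nat_lit 7308) (nat_lit 3) (nat_lit 87) (nat_lit 4) (nat_lit 24) (nat_lit 63) (nat_lit 63)) (PT.lf (nat_lit 7728) (nat_lit 6) (nat_lit 92) (nat_lit 4) (nat_lit 25) (nat_lit 63) (nat_lit 62)))))) (PT.nd (nat_lit 564) (PT.nd (nat_lit 282) (PT.nd (nat_lit 94) (PT.lf (nat_lit 8148) (nat_lit 6) (nat_lit 97) (nat_lit 4) (nat_lit 26) (nat_lit 63) (nat_lit 61)) (PT.nd (nat_lit 94) (PT.lf (nat_lit 8568) (nat_lit 6) (nat_lit 102) (nat_lit 4) (nat_lit 27) (nat_lit 63) (nat_lit 60)) (PT.lf (nat_lit 8988) (nat_lit 6) (nat_lit 107) (nat_lit 4) (nat_lit 28) (nat_lit 63) (nat_lit 59)))) (PT.nd (nat_lit 94) (PT.lf (nat_lit 9492) (nat_lit 6) (nat_lit 113) (nat_lit 4) (nat_lit 29) (nat_lit 63) (nat_lit 58)) (PT.nd (nat_lit 94) (PT.lf (nat_lit 9996) (nat_lit 6) (nat_lit 119) (nat_lit 4) (nat_lit 30) (nat_lit 63) (nat_lit 57)) (PT.lf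 (nat_lit 10500) (nat_lit 6) (nat_lit 125) (nat_lit 4) (nat_lit 31) (nat_lit 63) (nat_lit 56))))) (PT.nd (nat_lit 282) (PT.nd (nat_lit 94) (PT.lf (nat_lit 11004) (nat_lit 6) (nat_lit 131) (nat_lit 4) (nat_lit 32) (nat_lit 63) (nat_lit 55)) (PT.nd (nat_lit 94) (PT.lf (nat_lit 11592) (nat_lit 6) (nat_lit 138) (nat_lit 4) (nat_lit 33) (nat_lit 63) (nat_lit 54)) (PT.lf (nat_lit 12180) (nat_lit 6) (nat_lit 145) (nat_lit 4) (nat_lit 34) (nat_lit 63) (nat_lit 53)))) (PT.nd (nat_lit 94) (PT.lf (nat_lit 12852) (nat_lit 6) (nat_lit 153) (nat_lit 4) (nat_lit 35) (nat_lit 63) (nat_lit 52)) (PT.nd (nat_lit 94) (PT.lf (nat_lit 14028) (nat_lit 6) (nat_lit 167) (nat_lit 4) (nat_lit 36) (nat_lit 63) (nat_lit 51)) (PT.lf (nat_lit 15120) (nat_lit 6) (nat_lit 180) (nat_lit 4) (nat_lit 37) (nat_lit 63) (nat_lit 50))))))))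
noncomputable def pc24 : PT := (PT.nd (nat_lit 2162) (PT.nd (nat_lit 1034) (PT.nd (nat_lit 470) (PT.nd (nat_lit 188) (PT.nd (nat_lit 94) (PT.lf (nat_lit 15036) (nat_lit 6) (nat_lit 179) (nat_lit 4) (nat_lit 38) (nat_lit 63) (nat_lit 49)) (PT.lf (nat_lit 14952) (nat_lit 6) (nat_lit 178) (nat_lit 4) (nat_lit 39) (nat_lit 63) (nat_lit 48))) (PT.nd (nat_lit 94) (PT.lf (nat_lit 14868) (nat_lit 6) (nat_lit 177) (nat_lit 4) (nat_lit 40) (nat_lit 63) (nat_lit 47)) (PT.nd (nat_lit 94) (PT.lf (nat_lit 14784) (nat_lit 6) (nat_lit 176) (nat_lit 4) (nat_lit 41) (nat_lit 63) (nat_lit 46)) (PT.lf (nat_lit 14700) (nat_lit 6) (nat_lit 175) (nat_lit 4) (nat_lit 42) (nat_lit 63) (nat_lit 45))))) (PT.nd (nat_lit 282) (PT.nd (nat_lit 94) (PT.lf (nat_lit 14616) (nat_lit 6) (nat_lit 174) (nat_lit 4) (nat_lit 43) (nat_lit 63) (nat_lit 44)) (PT.nd (nat_lit 94) (PT.lf (nat_lit 14616) (nat_lit 6) (nat_lit 174) (nat_lit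 2) (nat_lit 44) (nat_lit 63) (nat_lit 43)) (PT.lf (nat_lit 14700) (nat_lit 6) (nat_lit 175) (nat_lit 2) (nat_lit 45) (nat_lit 63) (nat_lit 42)))) (PT.nd (nat_lit 94) (PT.lf (nat_lit 14784) (nat_lit 6) (nat_lit 176) (nat_lit 2) (nat_lit 46) (nat_lit 63) (nat_lit 41)) (PT.nd (nat_lit 94) (PT.lf (nat_lit 14868) (nat_lit 6) (nat_lit 177) (nat_lit 2) (nat_lit 47) (nat_lit 63) (nat_lit 40)) (PT.lf (nat_lit 14952) (nat_lit 6) (nat_lit 178) (nat_lit 2) (nat_lit 48) (nat_lit 63) (nat_lit 39)))))) (PT.nd (nat_lit 564) (PT.nd (nat_lit 282) (PT.nd (nat_lit 94) (PT.lf (nat_lit 15036) (nat_lit 6) (nat_lit 179) (nat_lit 2) (nat_lit 49) (nat_lit 63) (nat_lit 38)) (PT.nd (nat_lit 94) (PT.lf (nat_lit 15120) (nat_lit 6) (nat_lit 180) (nat_lit 2) (nat_lit 50) (nat_lit 63) (nat_lit 37)) (PT.lf (nat_lit 14028) (nat_lit 6) (nat_lit 167) (nat_lit 2) (nat_lit 51) (nat_lit 63) (nat_lit 36)))) (PT.nd (nat_lit 94) (PT.lf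 (nat_lit 12852) (nat_lit 6) (nat_lit 153) (nat_lit 2) (nat_lit 52) (nat_lit 63) (nat_lit 35)) (PT.nd (nat_lit 94) (PT.lf (nat_lit 12180) (nat_lit 6) (nat_lit 145) (nat_lit 2) (nat_lit 53) (nat_lit 63) (nat_lit 34)) (PT.lf (nat_lit 11592) (nat_lit 6) (nat_lit 138) (nat_lit 2) (nat_lit 54) (nat_lit 63) (nat_lit 33))))) (PT.nd (nat_lit 282) (PT.nd (nat_lit 94) (PT.lf (nat_lit 11004) (nat_lit 6) (nat_lit 131) (nat_lit 2) (nat_lit 55) (nat_lit 63) (nat_lit 32)) (PT.nd (nat_lit 94) (PT.lf (nat_lit 10500) (nat_lit 6) (nat_lit 125) (nat_lit 2) (nat_lit 56) (nat_lit 63) (nat_lit 31)) (PT.lf (nat_lit 9996) (nat_lit 6) (nat_lit 119) (nat_lit 2) (nat_lit 57) (nat_lit 63) (nat_lit 30)))) (PT.nd (nat_lit 94) (PT.lf (nat_lit 9492) (nat_lit 6) (nat_lit 113) (nat_lit 2) (nat_lit 58) (nat_lit 63) (nat_lit 29)) (PT.nd (nat_lit 94) (PT.lf (nat_lit 8988) (nat_lit 6) (nat_lit 107) (nat_lit 2) (nat_lit 59) (nat_lit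 63) (nat_lit 28)) (PT.lf (nat_lit 8568) (nat_lit 6) (nat_lit 102) (nat_lit 2) (nat_lit 60) (nat_lit 63) (nat_lit 27))))))) (PT.nd (nat_lit 33652) (PT.nd (nat_lit 564) (PT.nd (nat_lit 282) (PT.nd (nat_lit 94) (PT.lf (nat_lit 8148) (nat_lit 6) (nat_lit 97) (nat_lit 2) (nat_lit 61) (nat_lit 63) (nat_lit 26)) (PT.nd (nat_lit 94) (PT.lf (nat_lit 7728) (nat_lit 6) (nat_lit 92) (nat_lit 2) (nat_lit 62) (nat_lit 63) (nat_lit 25)) (PT.lf (nat_lit 7308) (nat_lit 3) (nat_lit 87) (nat_lit 0) (nat_lit 63) (nat_lit 63) (nat_lit 24)))) (PT.nd (nat_lit 94) (PT.lf (nat_lit 6888) (nat_lit 6) (nat_lit 82) (nat_lit 0) (nat_lit 64) (nat_lit 63) (nat_lit 23)) (PT.nd (nat_lit 94) (PT.lf (nat_lit 6384) (nat_lit 6) (nat_lit 76) (nat_lit 0) (nat_lit 65) (nat_lit 63) (nat_lit 22)) (PT.lf (nat_lit 5964) (nat_lit 6) (nat_lit 71) (nat_lit 0) (nat_lit 66) (nat_lit 63) (nat_lit 21))))) (PT.nd (nat_lit 282) (PT.nd (nat_lit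 94) (PT.lf (nat_lit 5544) (nat_lit 6) (nat_lit 66) (nat_lit 0) (nat_lit 67) (nat_lit 63) (nat_lit 20)) (PT.nd (nat_lit 94) (PT.lf (nat_lit 5124) (nat_lit 6) (nat_lit 61) (nat_lit 0) (nat_lit 68) (nat_lit 63) (nat_lit 19)) (PT.lf (nat_lit 4704) (nat_lit 6) (nat_lit 56) (nat_lit 0) (nat_lit 69) (nat_lit 63) (nat_lit 18)))) (PT.nd (nat_lit 32618) (PT.lf (nat_lit 4368) (nat_lit 6) (nat_lit 52) (nat_lit 0) (nat_lit 70) (nat_lit 63) (nat_lit 17)) (PT.nd (nat_lit 94) (PT.lf (nat_lit 4032) (nat_lit 6) (nat_lit 48) (nat_lit 5) (nat_lit 16) (nat_lit 64) (nat_lit 70)) (PT.lf (nat_lit 4452) (nat_lit 6) (nat_lit 53) (nat_lit 5) (nat_lit 17) (nat_lit 64) (nat_lit 69)))))) (PT.nd (nat_lit 564) (PT.nd (nat_lit 282) (PT.nd (nat_lit 94) (PT.lf (nat_lit 4788) (nat_lit 6) (nat_lit 57) (nat_lit 5) (nat_lit 18) (nat_lit 64) (nat_lit 68)) (PT.nd (nat_lit 94) (PT.lf (nat_lit 5208) (nat_lit 6) (nat_lit 62) (nat_lit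 5) (nat_lit 19) (nat_lit 64) (nat_lit 67)) (PT.lf (nat_lit 5628) (nat_lit 6) (nat_lit 67) (nat_lit 5) (nat_lit 20) (nat_lit 64) (nat_lit 66)))) (PT.nd (nat_lit 94) (PT.lf (nat_lit 6048) (nat_lit 6) (nat_lit 72) (nat_lit 5) (nat_lit 21) (nat_lit 64) (nat_lit 65)) (PT.nd (nat_lit 94) (PT.lf (nat_lit 6468) (nat_lit 3) (nat_lit 77) (nat_lit 4) (nat_lit 22) (nat_lit 64) (nat_lit 64)) (PT.lf (nat_lit 6888) (nat_lit 6) (nat_lit 82) (nat_lit 4) (nat_lit 23) (nat_lit 64) (nat_lit 63))))) (PT.nd (nat_lit 282) (PT.nd (nat_lit 94) (PT.lf (nat_lit 7224) (nat_lit 6) (nat_lit 86) (nat_lit 4) (nat_lit 24) (nat_lit 64) (nat_lit 62)) (PT.nd (nat_lit 94) (PT.lf (nat_lit 7644) (nat_lit 6) (nat_lit 91) (nat_lit 4) (nat_lit 25) (nat_lit 64) (nat_lit 61)) (PT.lf (nat_lit 8064) (nat_lit 6) (nat_lit 96) (nat_lit 4) (nat_lit 26) (nat_lit 64) (nat_lit 60)))) (PT.nd (nat_lit 94) (PT.lf (nat_lit 8484) (nat_lit 6) (nat_lit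 101) (nat_lit 4) (nat_lit 27) (nat_lit 64) (nat_lit 59)) (PT.nd (nat_lit 94) (PT.lf (nat_lit 8904) (nat_lit 6) (nat_lit 106) (nat_lit 4) (nat_lit 28) (nat_lit 64) (nat_lit 58)) (PT.lf (nat_lit 9408) (nat_lit 6) (nat_lit 112) (nat_lit 4) (nat_lit 29) (nat_lit 64) (nat_lit 57))))))))
noncomputable def pc25 : PT := (PT.nd (nat_lit 2256) (PT.nd (nat_lit 1128) (PT.nd (nat_lit 564) (PT.nd (nat_lit 282) (PT.nd (nat_lit 94) (PT.lf (nat_lit 9912) (nat_lit 6) (nat_lit 118) (nat_lit 4) (nat_lit 30) (nat_lit 64) (nat_lit 56)) (PT.nd (nat_lit 94) (PT.lf (nat_lit 10416) (nat_lit 6) (nat_lit 124) (nat_lit 4) (nat_lit 31) (nat_lit 64) (nat_lit 55)) (PT.lf (nat_lit 10920) (nat_lit 6) (nat_lit 130) (nat_lit 4) (nat_lit 32) (nat_lit 64) (nat_lit 54)))) (PT.nd (nat_lit 94) (PT.lf (nat_lit 11508) (nat_lit 6) (nat_lit 137) (nat_lit 4) (nat_lit 33) (nat_lit 64) (nat_lit 53)) (PT.nd (nat_lit 94) (PT.lf (nat_lit 12096)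 (nat_lit 6) (nat_lit 144) (nat_lit 4) (nat_lit 34) (nat_lit 64) (nat_lit 52)) (PT.lf (nat_lit 12768) (nat_lit 6) (nat_lit 152) (nat_lit 4) (nat_lit 35) (nat_lit 64) (nat_lit 51))))) (PT.nd (nat_lit 282) (PT.nd (nat_lit 94) (PT.lf (nat_lit 13944) (nat_lit 6) (nat_lit 166) (nat_lit 4) (nat_lit 36) (nat_lit 64) (nat_lit 50)) (PT.nd (nat_lit 94) (PT.lf (nat_lit 13860) (nat_lit 6) (nat_lit 165) (nat_lit 4) (nat_lit 37) (nat_lit 64) (nat_lit 49)) (PT.lf (nat_lit 13776) (nat_lit 6) (nat_lit 164) (nat_lit 4) (nat_lit 38) (nat_lit 64) (nat_lit 48)))) (PT.nd (nat_lit 94) (PT.lf (nat_lit 13692) (nat_lit 6) (nat_lit 163) (nat_lit 4) (nat_lit 39) (nat_lit 64) (nat_lit 47)) (PT.nd (nat_lit 94) (PT.lf (nat_lit 13608) (nat_lit 6) (nat_lit 162) (nat_lit 4) (nat_lit 40) (nat_lit 64) (nat_lit 46)) (PT.lf (nat_lit 13524) (nat_lit 6) (nat_lit 161) (nat_lit 4) (nat_lit 41) (nat_lit 64) (nat_lit 45)))))) (PT.nd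 (nat_lit 564) (PT.nd (nat_lit 282) (PT.nd (nat_lit 94) (PT.lf (nat_lit 13440) (nat_lit 6) (nat_lit 160) (nat_lit 4) (nat_lit 42) (nat_lit 64) (nat_lit 44)) (PT.nd (nat_lit 94) (PT.lf (nat_lit 13356) (nat_lit 3) (nat_lit 159) (nat_lit 2) (nat_lit 43) (nat_lit 64) (nat_lit 43)) (PT.lf (nat_lit 13440) (nat_lit 6) (nat_lit 160) (nat_lit 2) (nat_lit 44) (nat_lit 64) (nat_lit 42)))) (PT.nd (nat_lit 94) (PT.lf (nat_lit 13524) (nat_lit 6) (nat_lit 161) (nat_lit 2) (nat_lit 45) (nat_lit 64) (nat_lit 41)) (PT.nd (nat_lit 94) (PT.lf (nat_lit 13608) (nat_lit 6) (nat_lit 162) (nat_lit 2) (nat_lit 46) (nat_lit 64) (nat_lit 40)) (PT.lf (nat_lit 13692) (nat_lit 6) (nat_lit 163) (nat_lit 2) (nat_lit 47) (nat_lit 64) (nat_lit 39))))) (PT.nd (nat_lit 282) (PT.nd (nat_lit 94) (PT.lf (nat_lit 13776) (nat_lit 6) (nat_lit 164) (nat_lit 2) (nat_lit 48) (nat_lit 64) (nat_lit 38)) (PT.nd (nat_lit 94) (PT.lf (nat_lit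 13860) (nat_lit 6) (nat_lit 165) (nat_lit 2) (nat_lit 49) (nat_lit 64) (nat_lit 37)) (PT.lf (nat_lit 13944) (nat_lit 6) (nat_lit 166) (nat_lit 2) (nat_lit 50) (nat_lit 64) (nat_lit 36)))) (PT.nd (nat_lit 94) (PT.lf (nat_lit 12768) (nat_lit 6) (nat_lit 152) (nat_lit 2) (nat_lit 51) (nat_lit 64) (nat_lit 35)) (PT.nd (nat_lit 94) (PT.lf (nat_lit 12096) (nat_lit 6) (nat_lit 144) (nat_lit 2) (nat_lit 52) (nat_lit 64) (nat_lit 34)) (PT.lf (nat_lit 11508) (nat_lit 6) (nat_lit 137) (nat_lit 2) (nat_lit 53) (nat_lit 64) (nat_lit 33))))))) (PT.nd (nat_lit 1128) (PT.nd (nat_lit 564) (PT.nd (nat_lit 282) (PT.nd (nat_lit 94) (PT.lf (nat_lit 10920) (nat_lit 6) (nat_lit 130) (nat_lit 2) (nat_lit 54) (nat_lit 64) (nat_lit 32)) (PT.nd (nat_lit 94) (PT.lf (nat_lit 10416) (nat_lit 6) (nat_lit 124) (nat_lit 2) (nat_lit 55) (nat_lit 64) (nat_lit 31)) (PT.lf (nat_lit 9912) (nat_lit 6) (nat_lit 118) (nat_lit 2)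 (nat_lit 56) (nat_lit 64) (nat_lit 30)))) (PT.nd (nat_lit 94) (PT.lf (nat_lit 9408) (nat_lit 6) (nat_lit 112) (nat_lit 2) (nat_lit 57) (nat_lit 64) (nat_lit 29)) (PT.nd (nat_lit 94) (PT.lf (nat_lit 8904) (nat_lit 6) (nat_lit 106) (nat_lit 2) (nat_lit 58) (nat_lit 64) (nat_lit 28)) (PT.lf (nat_lit 8484) (nat_lit 6) (nat_lit 101) (nat_lit 2) (nat_lit 59) (nat_lit 64) (nat_lit 27))))) (PT.nd (nat_lit 282) (PT.nd (nat_lit 94) (PT.lf (nat_lit 8064) (nat_lit 6) (nat_lit 96) (nat_lit 2) (nat_lit 60) (nat_lit 64) (nat_lit 26)) (PT.nd (nat_lit 94) (PT.lf (nat_lit 7644) (nat_lit 6) (nat_lit 91) (nat_lit 2) (nat_lit 61) (nat_lit 64) (nat_lit 25)) (PT.lf (nat_lit 7224) (nat_lit 6) (nat_lit 86) (nat_lit 2) (nat_lit 62) (nat_lit 64) (nat_lit 24)))) (PT.nd (nat_lit 94) (PT.lf (nat_lit 6888) (nat_lit 6) (nat_lit 82) (nat_lit 2) (nat_lit 63) (nat_lit 64) (nat_lit 23)) (PT.nd (nat_lit 94) (PT.lf (nat_lit 6468)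 (nat_lit 3) (nat_lit 77) (nat_lit 0) (nat_lit 64) (nat_lit 64) (nat_lit 22)) (PT.lf (nat_lit 6048) (nat_lit 6) (nat_lit 72) (nat_lit 0) (nat_lit 65) (nat_lit 64) (nat_lit 21)))))) (PT.nd (nat_lit 32900) (PT.nd (nat_lit 282) (PT.nd (nat_lit 94) (PT.lf (nat_lit 5628) (nat_lit 6) (nat_lit 67) (nat_lit 0) (nat_lit 66) (nat_lit 64) (nat_lit 20)) (PT.nd (nat_lit 94) (PT.lf (nat_lit 5208) (nat_lit 6) (nat_lit 62) (nat_lit 0) (nat_lit 67) (nat_lit 64) (nat_lit 19)) (PT.lf (nat_lit 4788) (nat_lit 6) (nat_lit 57) (nat_lit 0) (nat_lit 68) (nat_lit 64) (nat_lit 18)))) (PT.nd (nat_lit 94) (PT.lf (nat_lit 4452) (nat_lit 6) (nat_lit 53) (nat_lit 0) (nat_lit 69) (nat_lit 64) (nat_lit 17)) (PT.nd (nat_lit 32430) (PT.lf (nat_lit 4032) (nat_lit 6) (nat_lit 48) (nat_lit 0) (nat_lit 70) (nat_lit 64) (nat_lit 16)) (PT.lf (nat_lit 3444) (nat_lit 6) (nat_lit 41) (nat_lit 5) (nat_lit 14) (nat_lit 65) (nat_lit 71)))))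 (PT.nd (nat_lit 282) (PT.nd (nat_lit 94) (PT.lf (nat_lit 3780) (nat_lit 6) (nat_lit 45) (nat_lit 5) (nat_lit 15) (nat_lit 65) (nat_lit 70)) (PT.nd (nat_lit 94) (PT.lf (nat_lit 4116) (nat_lit 6) (nat_lit 49) (nat_lit 5) (nat_lit 16) (nat_lit 65) (nat_lit 69)) (PT.lf (nat_lit 4536) (nat_lit 6) (nat_lit 54) (nat_lit 5) (nat_lit 17) (nat_lit 65) (nat_lit 68)))) (PT.nd (nat_lit 94) (PT.lf (nat_lit 4872) (nat_lit 6) (nat_lit 58) (nat_lit 5) (nat_lit 18) (nat_lit 65) (nat_lit 67)) (PT.nd (nat_lit 94) (PT.lf (nat_lit 5292) (nat_lit 6) (nat_lit 63) (nat_lit 5) (nat_lit 19) (nat_lit 65) (nat_lit 66)) (PT.lf (nat_lit 5712) (nat_lit 3) (nat_lit 68) (nat_lit 4) (nat_lit 20) (nat_lit 65) (nat_lit 65))))))))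
noncomputable def pc26 : PT := (PT.nd (nat_lit 3572) (PT.nd (nat_lit 1128) (PT.nd (nat_lit 564) (PT.nd (nat_lit 282) (PT.nd (nat_lit 94) (PT.lf (nat_lit 6048) (nat_lit 6) (nat_lit 72) (nat_lit 4) (nat_lit 21) (nat_lit 65) (nat_lit 64)) (PT.nd (nat_lit 94) (PT.lf (nat_lit 6384) (nat_lit 6) (nat_lit 76) (nat_lit 4) (nat_lit 22) (nat_lit 65) (nat_lit 63)) (PT.lf (nat_lit 6804) (nat_lit 6) (nat_lit 81) (nat_lit 4) (nat_lit 23) (nat_lit 65) (nat_lit 62)))) (PT.nd (nat_lit 94) (PT.lf (nat_lit 7140) (nat_lit 6) (nat_lit 85) (nat_lit 4) (nat_lit 24) (nat_lit 65) (nat_lit 61)) (PT.nd (nat_lit 94) (PT.lf (nat_lit 7560) (nat_lit 6) (nat_lit 90) (nat_lit 4) (nat_lit 25) (nat_lit 65) (nat_lit 60)) (PT.lf (nat_lit 7980) (nat_lit 6) (nat_lit 95) (nat_lit 4) (nat_lit 26) (nat_lit 65) (nat_lit 59))))) (PT.nd (nat_lit 282) (PT.nd (nat_lit 94) (PT.lf (nat_lit 8400) (nat_lit 6) (nat_lit 100) (nat_lit 4) (nat_lit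 27) (nat_lit 65) (nat_lit 58)) (PT.nd (nat_lit 94) (PT.lf (nat_lit 8820) (nat_lit 6) (nat_lit 105) (nat_lit 4) (nat_lit 28) (nat_lit 65) (nat_lit 57)) (PT.lf (nat_lit 9324) (nat_lit 6) (nat_lit 111) (nat_lit 4) (nat_lit 29) (nat_lit 65) (nat_lit 56)))) (PT.nd (nat_lit 94) (PT.lf (nat_lit 9828) (nat_lit 6) (nat_lit 117) (nat_lit 4) (nat_lit 30) (nat_lit 65) (nat_lit 55)) (PT.nd (nat_lit 94) (PT.lf (nat_lit 10332) (nat_lit 6) (nat_lit 123) (nat_lit 4) (nat_lit 31) (nat_lit 65) (nat_lit 54)) (PT.lf (nat_lit 10836) (nat_lit 6) (nat_lit 129) (nat_lit 4) (nat_lit 32) (nat_lit 65) (nat_lit 53)))))) (PT.nd (nat_lit 1880) (PT.nd (nat_lit 1598) (PT.nd (nat_lit 94) (PT.lf (nat_lit 11424) (nat_lit 6) (nat_lit 136) (nat_lit 4) (nat_lit 33) (nat_lit 65) (nat_lit 52)) (PT.nd (nat_lit 94) (PT.lf (nat_lit 12012) (nat_lit 6) (nat_lit 143) (nat_lit 4) (nat_lit 34) (nat_lit 65) (nat_lit 51)) (PT.lf (nat_lit 12684)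 (nat_lit 6) (nat_lit 151) (nat_lit 4) (nat_lit 35) (nat_lit 65) (nat_lit 50)))) (PT.nd (nat_lit 94) (PT.lf (nat_lit 12684) (nat_lit 6) (nat_lit 151) (nat_lit 2) (nat_lit 50) (nat_lit 65) (nat_lit 35)) (PT.nd (nat_lit 94) (PT.lf (nat_lit 12012) (nat_lit 6) (nat_lit 143) (nat_lit 2) (nat_lit 51) (nat_lit 65) (nat_lit 34)) (PT.lf (nat_lit 11424) (nat_lit 6) (nat_lit 136) (nat_lit 2) (nat_lit 52) (nat_lit 65) (nat_lit 33))))) (PT.nd (nat_lit 282) (PT.nd (nat_lit 94) (PT.lf (nat_lit 10836) (nat_lit 6) (nat_lit 129) (nat_lit 2) (nat_lit 53) (nat_lit 65) (nat_lit 32)) (PT.nd (nat_lit 94) (PT.lf (nat_lit 10332) (nat_lit 6) (nat_lit 123) (nat_lit 2) (nat_lit 54) (nat_lit 65) (nat_lit 31)) (PT.lf (nat_lit 9828) (nat_lit 6) (nat_lit 117) (nat_lit 2) (nat_lit 55) (nat_lit 65) (nat_lit 30)))) (PT.nd (nat_lit 94) (PT.lf (nat_lit 9324) (nat_lit 6) (nat_lit 111) (nat_lit 2) (nat_lit 56) (nat_lit 65) (nat_lit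 29)) (PT.nd (nat_lit 94) (PT.lf (nat_lit 8820) (nat_lit 6) (nat_lit 105) (nat_lit 2) (nat_lit 57) (nat_lit 65) (nat_lit 28)) (PT.lf (nat_lit 8400) (nat_lit 6) (nat_lit 100) (nat_lit 2) (nat_lit 58) (nat_lit 65) (nat_lit 27))))))) (PT.nd (nat_lit 1128) (PT.nd (nat_lit 564) (PT.nd (nat_lit 282) (PT.nd (nat_lit 94) (PT.lf (nat_lit 7980) (nat_lit 6) (nat_lit 95) (nat_lit 2) (nat_lit 59) (nat_lit 65) (nat_lit 26)) (PT.nd (nat_lit 94) (PT.lf (nat_lit 7560) (nat_lit 6) (nat_lit 90) (nat_lit 2) (nat_lit 60) (nat_lit 65) (nat_lit 25)) (PT.lf (nat_lit 7140) (nat_lit 6) (nat_lit 85) (nat_lit 2) (nat_lit 61) (nat_lit 65) (nat_lit 24)))) (PT.nd (nat_lit 94) (PT.lf (nat_lit 6804) (nat_lit 6) (nat_lit 81) (nat_lit 2) (nat_lit 62) (nat_lit 65) (nat_lit 23)) (PT.nd (nat_lit 94) (PT.lf (nat_lit 6384) (nat_lit 6) (nat_lit 76) (nat_lit 2) (nat_lit 63) (nat_lit 65) (nat_lit 22)) (PT.lf (nat_lit 6048) (nat_lit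 6) (nat_lit 72) (nat_lit 2) (nat_lit 64) (nat_lit 65) (nat_lit 21))))) (PT.nd (nat_lit 282) (PT.nd (nat_lit 94) (PT.lf (nat_lit 5712) (nat_lit 3) (nat_lit 68) (nat_lit 0) (nat_lit 65) (nat_lit 65) (nat_lit 20)) (PT.nd (nat_lit 94) (PT.lf (nat_lit 5292) (nat_lit 6) (nat_lit 63) (nat_lit 0) (nat_lit 66) (nat_lit 65) (nat_lit 19)) (PT.lf (nat_lit 4872) (nat_lit 6) (nat_lit 58) (nat_lit 0) (nat_lit 67) (nat_lit 65) (nat_lit 18)))) (PT.nd (nat_lit 94) (PT.lf (nat_lit 4536) (nat_lit 6) (nat_lit 54) (nat_lit 0) (nat_lit 68) (nat_lit 65) (nat_lit 17)) (PT.nd (nat_lit 94) (PT.lf (nat_lit 4116) (nat_lit 6) (nat_lit 49) (nat_lit 0) (nat_lit 69) (nat_lit 65) (nat_lit 16)) (PT.lf (nat_lit 3780) (nat_lit 6) (nat_lit 45) (nat_lit 0) (nat_lit 70) (nat_lit 65) (nat_lit 15)))))) (PT.nd (nat_lit 32618) (PT.nd (nat_lit 32336) (PT.nd (nat_lit 32148) (PT.lf (nat_lit 3444) (nat_lit 6) (nat_lit 41) (nat_lit 0) (nat_lit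 71) (nat_lit 65) (nat_lit 14)) (PT.nd (nat_lit 94) (PT.lf (nat_lit 2856) (nat_lit 6) (nat_lit 34) (nat_lit 5) (nat_lit 12) (nat_lit 66) (nat_lit 72)) (PT.lf (nat_lit 3192) (nat_lit 6) (nat_lit 38) (nat_lit 5) (nat_lit 13) (nat_lit 66) (nat_lit 71)))) (PT.nd (nat_lit 94) (PT.lf (nat_lit 3528) (nat_lit 6) (nat_lit 42) (nat_lit 5) (nat_lit 14) (nat_lit 66) (nat_lit 70)) (PT.nd (nat_lit 94) (PT.lf (nat_lit 3864) (nat_lit 6) (nat_lit 46) (nat_lit 5) (nat_lit 15) (nat_lit 66) (nat_lit 69)) (PT.lf (nat_lit 4200) (nat_lit 6) (nat_lit 50) (nat_lit 5) (nat_lit 16) (nat_lit 66) (nat_lit 68))))) (PT.nd (nat_lit 282) (PT.nd (nat_lit 94) (PT.lf (nat_lit 4620) (nat_lit 6) (nat_lit 55) (nat_lit 5) (nat_lit 17) (nat_lit 66) (nat_lit 67)) (PT.nd (nat_lit 94) (PT.lf (nat_lit 4956) (nat_lit 3) (nat_lit 59) (nat_lit 4) (nat_lit 18) (nat_lit 66) (nat_lit 66)) (PT.lf (nat_lit 5292) (nat_lit 6) (nat_lit 63) (nat_lit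 4) (nat_lit 19) (nat_lit 66) (nat_lit 65)))) (PT.nd (nat_lit 94) (PT.lf (nat_lit 5628) (nat_lit 6) (nat_lit 67) (nat_lit 4) (nat_lit 20) (nat_lit 66) (nat_lit 64)) (PT.nd (nat_lit 94) (PT.lf (nat_lit 5964) (nat_lit 6) (nat_lit 71) (nat_lit 4) (nat_lit 21) (nat_lit 66) (nat_lit 63)) (PT.lf (nat_lit 6300) (nat_lit 6) (nat_lit 75) (nat_lit 4) (nat_lit 22) (nat_lit 66) (nat_lit 62))))))))
noncomputable def pc27 : PT := (PT.nd (nat_lit 4418) (PT.nd (nat_lit 3290) (PT.nd (nat_lit 564) (PT.nd (nat_lit 282) (PT.nd (nat_lit 94) (PT.lf (nat_lit 6720) (nat_lit 6) (nat_lit 80) (nat_lit 4) (nat_lit 23) (nat_lit 66) (nat_lit 61)) (PT.nd (nat_lit 94) (PT.lf (nat_lit 7056) (nat_lit 6) (nat_lit 84) (nat_lit 4) (nat_lit 24) (nat_lit 66) (nat_lit 60)) (PT.lf (nat_lit 7476) (nat_lit 6) (nat_lit 89) (nat_lit 4) (nat_lit 25) (nat_lit 66) (nat_lit 59)))) (PT.nd (nat_lit 94) (PT.lf (nat_lit 7896) (nat_lit 6) (nat_lit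 94) (nat_lit 4) (nat_lit 26) (nat_lit 66) (nat_lit 58)) (PT.nd (nat_lit 94) (PT.lf (nat_lit 8316) (nat_lit 6) (nat_lit 99) (nat_lit 4) (nat_lit 27) (nat_lit 66) (nat_lit 57)) (PT.lf (nat_lit 8736) (nat_lit 6) (nat_lit 104) (nat_lit 4) (nat_lit 28) (nat_lit 66) (nat_lit 56))))) (PT.nd (nat_lit 2444) (PT.nd (nat_lit 94) (PT.lf (nat_lit 9240) (nat_lit 6) (nat_lit 110) (nat_lit 4) (nat_lit 29) (nat_lit 66) (nat_lit 55)) (PT.nd (nat_lit 2256) (PT.lf (nat_lit 9744) (nat_lit 6) (nat_lit 116) (nat_lit 4) (nat_lit 30) (nat_lit 66) (nat_lit 54)) (PT.lf (nat_lit 9744) (nat_lit 6) (nat_lit 116) (nat_lit 2) (nat_lit 54) (nat_lit 66) (nat_lit 30)))) (PT.nd (nat_lit 94) (PT.lf (nat_lit 9240) (nat_lit 6) (nat_lit 110) (nat_lit 2) (nat_lit 55) (nat_lit 66) (nat_lit 29)) (PT.nd (nat_lit 94) (PT.lf (nat_lit 8736) (nat_lit 6) (nat_lit 104) (nat_lit 2) (nat_lit 56) (nat_lit 66) (nat_lit 28)) (PT.lf (nat_lit 8316)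 (nat_lit 6) (nat_lit 99) (nat_lit 2) (nat_lit 57) (nat_lit 66) (nat_lit 27)))))) (PT.nd (nat_lit 564) (PT.nd (nat_lit 282) (PT.nd (nat_lit 94) (PT.lf (nat_lit 7896) (nat_lit 6) (nat_lit 94) (nat_lit 2) (nat_lit 58) (nat_lit 66) (nat_lit 26)) (PT.nd (nat_lit 94) (PT.lf (nat_lit 7476) (nat_lit 6) (nat_lit 89) (nat_lit 2) (nat_lit 59) (nat_lit 66) (nat_lit 25)) (PT.lf (nat_lit 7056) (nat_lit 6) (nat_lit 84) (nat_lit 2) (nat_lit 60) (nat_lit 66) (nat_lit 24)))) (PT.nd (nat_lit 94) (PT.lf (nat_lit 6720) (nat_lit 6) (nat_lit 80) (nat_lit 2) (nat_lit 61) (nat_lit 66) (nat_lit 23)) (PT.nd (nat_lit 94) (PT.lf (nat_lit 6300) (nat_lit 6) (nat_lit 75) (nat_lit 2) (nat_lit 62) (nat_lit 66) (nat_lit 22)) (PT.lf (nat_lit 5964) (nat_lit 6) (nat_lit 71) (nat_lit 2) (nat_lit 63) (nat_lit 66) (nat_lit 21))))) (PT.nd (nat_lit 282) (PT.nd (nat_lit 94) (PT.lf (nat_lit 5628) (nat_lit 6) (nat_lit 67) (nat_lit 2)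 (nat_lit 64) (nat_lit 66) (nat_lit 20)) (PT.nd (nat_lit 94) (PT.lf (nat_lit 5292) (nat_lit 6) (nat_lit 63) (nat_lit 2) (nat_lit 65) (nat_lit 66) (nat_lit 19)) (PT.lf (nat_lit 4956) (nat_lit 3) (nat_lit 59) (nat_lit 0) (nat_lit 66) (nat_lit 66) (nat_lit 18)))) (PT.nd (nat_lit 94) (PT.lf (nat_lit 4620) (nat_lit 6) (nat_lit 55) (nat_lit 0) (nat_lit 67) (nat_lit 66) (nat_lit 17)) (PT.nd (nat_lit 94) (PT.lf (nat_lit 4200) (nat_lit 6) (nat_lit 50) (nat_lit 0) (nat_lit 68) (nat_lit 66) (nat_lit 16)) (PT.lf (nat_lit 3864) (nat_lit 6) (nat_lit 46) (nat_lit 0) (nat_lit 69) (nat_lit 66) (nat_lit 15))))))) (PT.nd (nat_lit 32994) (PT.nd (nat_lit 32430) (PT.nd (nat_lit 32148) (PT.nd (nat_lit 94) (PT.lf (nat_lit 3528) (nat_lit 6) (nat_lit 42) (nat_lit 0) (nat_lit 70) (nat_lit 66) (nat_lit 14)) (PT.nd (nat_lit 94) (PT.lf (nat_lit 3192) (nat_lit 6) (nat_lit 38) (nat_lit 0) (nat_lit 71) (nat_lit 66) (nat_lit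 13)) (PT.lf (nat_lit 2856) (nat_lit 6) (nat_lit 34) (nat_lit 0) (nat_lit 72) (nat_lit 66) (nat_lit 12)))) (PT.nd (nat_lit 94) (PT.lf (nat_lit 2604) (nat_lit 6) (nat_lit 31) (nat_lit 5) (nat_lit 11) (nat_lit 67) (nat_lit 72)) (PT.nd (nat_lit 94) (PT.lf (nat_lit 2940) (nat_lit 6) (nat_lit 35) (nat_lit 5) (nat_lit 12) (nat_lit 67) (nat_lit 71)) (PT.lf (nat_lit 3276) (nat_lit 6) (nat_lit 39) (nat_lit 5) (nat_lit 13) (nat_lit 67) (nat_lit 70))))) (PT.nd (nat_lit 282) (PT.nd (nat_lit 94) (PT.lf (nat_lit 3612) (nat_lit 6) (nat_lit 43) (nat_lit 5) (nat_lit 14) (nat_lit 67) (nat_lit 69)) (PT.nd (nat_lit 94) (PT.lf (nat_lit 3948) (nat_lit 6) (nat_lit 47) (nat_lit 5) (nat_lit 15) (nat_lit 67) (nat_lit 68)) (PT.lf (nat_lit 4284) (nat_lit 3) (nat_lit 51) (nat_lit 4) (nat_lit 16) (nat_lit 67) (nat_lit 67)))) (PT.nd (nat_lit 94) (PT.lf (nat_lit 4620) (nat_lit 6) (nat_lit 55) (nat_lit 4) (nat_lit 17) (nat_lit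 67) (nat_lit 66)) (PT.nd (nat_lit 94) (PT.lf (nat_lit 4872) (nat_lit 6) (nat_lit 58) (nat_lit 4) (nat_lit 18) (nat_lit 67) (nat_lit 65)) (PT.lf (nat_lit 5208) (nat_lit 6) (nat_lit 62) (nat_lit 4) (nat_lit 19) (nat_lit 67) (nat_lit 64)))))) (PT.nd (nat_lit 564) (PT.nd (nat_lit 282) (PT.nd (nat_lit 94) (PT.lf (nat_lit 5544) (nat_lit 6) (nat_lit 66) (nat_lit 4) (nat_lit 20) (nat_lit 67) (nat_lit 63)) (PT.nd (nat_lit 94) (PT.lf (nat_lit 5880) (nat_lit 6) (nat_lit 70) (nat_lit 4) (nat_lit 21) (nat_lit 67) (nat_lit 62)) (PT.lf (nat_lit 6216) (nat_lit 6) (nat_lit 74) (nat_lit 4) (nat_lit 22) (nat_lit 67) (nat_lit 61)))) (PT.nd (nat_lit 94) (PT.lf (nat_lit 6636) (nat_lit 6) (nat_lit 79) (nat_lit 4) (nat_lit 23) (nat_lit 67) (nat_lit 60)) (PT.nd (nat_lit 94) (PT.lf (nat_lit 6972) (nat_lit 6) (nat_lit 83) (nat_lit 4) (nat_lit 24) (nat_lit 67) (nat_lit 59)) (PT.lf (nat_lit 7392) (nat_lit 6) (nat_lit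 88) (nat_lit 4) (nat_lit 25) (nat_lit 67) (nat_lit 58))))) (PT.nd (nat_lit 3102) (PT.nd (nat_lit 2914) (PT.lf (nat_lit 7812) (nat_lit 6) (nat_lit 93) (nat_lit 4) (nat_lit 26) (nat_lit 67) (nat_lit 57)) (PT.nd (nat_lit 94) (PT.lf (nat_lit 7812) (nat_lit 6) (nat_lit 93) (nat_lit 2) (nat_lit 57) (nat_lit 67) (nat_lit 26)) (PT.lf (nat_lit 7392) (nat_lit 6) (nat_lit 88) (nat_lit 2) (nat_lit 58) (nat_lit 67) (nat_lit 25)))) (PT.nd (nat_lit 94) (PT.lf (nat_lit 6972) (nat_lit 6) (nat_lit 83) (nat_lit 2) (nat_lit 59) (nat_lit 67) (nat_lit 24)) (PT.nd (nat_lit 94) (PT.lf (nat_lit 6636) (nat_lit 6) (nat_lit 79) (nat_lit 2) (nat_lit 60) (nat_lit 67) (nat_lit 23)) (PT.lf (nat_lit 6216) (nat_lit 6) (nat_lit 74) (nat_lit 2) (nat_lit 61) (nat_lit 67) (nat_lit 22))))))))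
noncomputable def pc28 : PT := (PT.nd (nat_lit 33840) (PT.nd (nat_lit 32712) (PT.nd (nat_lit 470) (PT.nd (nat_lit 188) (PT.nd (nat_lit 94) (PT.lf (nat_lit 5880) (nat_lit 6) (nat_lit 70) (nat_lit 2) (nat_lit 62) (nat_lit 67) (nat_lit 21)) (PT.lf (nat_lit 5544) (nat_lit 6) (nat_lit 66) (nat_lit 2) (nat_lit 63) (nat_lit 67) (nat_lit 20))) (PT.nd (nat_lit 94) (PT.lf (nat_lit 5208) (nat_lit 6) (nat_lit 62) (nat_lit 2) (nat_lit 64) (nat_lit 67) (nat_lit 19)) (PT.nd (nat_lit 94) (PT.lf (nat_lit 4872) (nat_lit 6) (nat_lit 58) (nat_lit 2) (nat_lit 65) (nat_lit 67) (nat_lit 18)) (PT.lf (nat_lit 4620) (nat_lit 6) (nat_lit 55) (nat_lit 2) (nat_lit 66) (nat_lit 67) (nat_lit 17))))) (PT.nd (nat_lit 282) (PT.nd (nat_lit 94) (PT.lf (nat_lit 4284) (nat_lit 3) (nat_lit 51) (nat_lit 0) (nat_lit 67) (nat_lit 67) (nat_lit 16)) (PT.nd (nat_lit 94) (PT.lf (nat_lit 3948) (nat_lit 6) (nat_lit 47) (nat_lit 0) (nat_lit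 68) (nat_lit 67) (nat_lit 15)) (PT.lf (nat_lit 3612) (nat_lit 6) (nat_lit 43) (nat_lit 0) (nat_lit 69) (nat_lit 67) (nat_lit 14)))) (PT.nd (nat_lit 94) (PT.lf (nat_lit 3276) (nat_lit 6) (nat_lit 39) (nat_lit 0) (nat_lit 70) (nat_lit 67) (nat_lit 13)) (PT.nd (nat_lit 94) (PT.lf (nat_lit 2940) (nat_lit 6) (nat_lit 35) (nat_lit 0) (nat_lit 71) (nat_lit 67) (nat_lit 12)) (PT.lf (nat_lit 2604) (nat_lit 6) (nat_lit 31) (nat_lit 0) (nat_lit 72) (nat_lit 67) (nat_lit 11)))))) (PT.nd (nat_lit 564) (PT.nd (nat_lit 282) (PT.nd (nat_lit 94) (PT.lf (nat_lit 2100) (nat_lit 6) (nat_lit 25) (nat_lit 5) (nat_lit 9) (nat_lit 68) (nat_lit 73)) (PT.nd (nat_lit 94) (PT.lf (nat_lit 2352) (nat_lit 6) (nat_lit 28) (nat_lit 5) (nat_lit 10) (nat_lit 68) (nat_lit 72)) (PT.lf (nat_lit 2688) (nat_lit 6) (nat_lit 32) (nat_lit 5) (nat_lit 11) (nat_lit 68) (nat_lit 71)))) (PT.nd (nat_lit 94) (PT.lf (nat_lit 3024) (nat_lit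 6) (nat_lit 36) (nat_lit 5) (nat_lit 12) (nat_lit 68) (nat_lit 70)) (PT.nd (nat_lit 94) (PT.lf (nat_lit 3360) (nat_lit 6) (nat_lit 40) (nat_lit 5) (nat_lit 13) (nat_lit 68) (nat_lit 69)) (PT.lf (nat_lit 3696) (nat_lit 3) (nat_lit 44) (nat_lit 4) (nat_lit 14) (nat_lit 68) (nat_lit 68))))) (PT.nd (nat_lit 282) (PT.nd (nat_lit 94) (PT.lf (nat_lit 3948) (nat_lit 6) (nat_lit 47) (nat_lit 4) (nat_lit 15) (nat_lit 68) (nat_lit 67)) (PT.nd (nat_lit 94) (PT.lf (nat_lit 4200) (nat_lit 6) (nat_lit 50) (nat_lit 4) (nat_lit 16) (nat_lit 68) (nat_lit 66)) (PT.lf (nat_lit 4536) (nat_lit 6) (nat_lit 54) (nat_lit 4) (nat_lit 17) (nat_lit 68) (nat_lit 65)))) (PT.nd (nat_lit 94) (PT.lf (nat_lit 4788) (nat_lit 6) (nat_lit 57) (nat_lit 4) (nat_lit 18) (nat_lit 68) (nat_lit 64)) (PT.nd (nat_lit 94) (PT.lf (nat_lit 5124) (nat_lit 6) (nat_lit 61) (nat_lit 4) (nat_lit 19) (nat_lit 68) (nat_lit 63)) (PT.lf (nat_lit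 5460) (nat_lit 6) (nat_lit 65) (nat_lit 4) (nat_lit 20) (nat_lit 68) (nat_lit 62))))))) (PT.nd (nat_lit 4418) (PT.nd (nat_lit 3854) (PT.nd (nat_lit 3572) (PT.nd (nat_lit 94) (PT.lf (nat_lit 5796) (nat_lit 6) (nat_lit 69) (nat_lit 4) (nat_lit 21) (nat_lit 68) (nat_lit 61)) (PT.nd (nat_lit 94) (PT.lf (nat_lit 6132) (nat_lit 6) (nat_lit 73) (nat_lit 4) (nat_lit 22) (nat_lit 68) (nat_lit 60)) (PT.lf (nat_lit 6552) (nat_lit 6) (nat_lit 78) (nat_lit 4) (nat_lit 23) (nat_lit 68) (nat_lit 59)))) (PT.nd (nat_lit 94) (PT.lf (nat_lit 6552) (nat_lit 6) (nat_lit 78) (nat_lit 2) (nat_lit 59) (nat_lit 68) (nat_lit 23)) (PT.nd (nat_lit 94) (PT.lf (nat_lit 6132) (nat_lit 6) (nat_lit 73) (nat_lit 2) (nat_lit 60) (nat_lit 68) (nat_lit 22)) (PT.lf (nat_lit 5796) (nat_lit 6) (nat_lit 69) (nat_lit 2) (nat_lit 61) (nat_lit 68) (nat_lit 21))))) (PT.nd (nat_lit 282) (PT.nd (nat_lit 94) (PT.lf (nat_lit 5460) (nat_lit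 6) (nat_lit 65) (nat_lit 2) (nat_lit 62) (nat_lit 68) (nat_lit 20)) (PT.nd (nat_lit 94) (PT.lf (nat_lit 5124) (nat_lit 6) (nat_lit 61) (nat_lit 2) (nat_lit 63) (nat_lit 68) (nat_lit 19)) (PT.lf (nat_lit 4788) (nat_lit 6) (nat_lit 57) (nat_lit 2) (nat_lit 64) (nat_lit 68) (nat_lit 18)))) (PT.nd (nat_lit 94) (PT.lf (nat_lit 4536) (nat_lit 6) (nat_lit 54) (nat_lit 2) (nat_lit 65) (nat_lit 68) (nat_lit 17)) (PT.nd (nat_lit 94) (PT.lf (nat_lit 4200) (nat_lit 6) (nat_lit 50) (nat_lit 2) (nat_lit 66) (nat_lit 68) (nat_lit 16)) (PT.lf (nat_lit 3948) (nat_lit 6) (nat_lit 47) (nat_lit 2) (nat_lit 67) (nat_lit 68) (nat_lit 15)))))) (PT.nd (nat_lit 31960) (PT.nd (nat_lit 282) (PT.nd (nat_lit 94) (PT.lf (nat_lit 3696) (nat_lit 3) (nat_lit 44) (nat_lit 0) (nat_lit 68) (nat_lit 68) (nat_lit 14)) (PT.nd (nat_lit 94) (PT.lf (nat_lit 3360) (nat_lit 6) (nat_lit 40) (nat_lit 0) (nat_lit 69) (nat_lit 68) (nat_lit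 13)) (PT.lf (nat_lit 3024) (nat_lit 6) (nat_lit 36) (nat_lit 0) (nat_lit 70) (nat_lit 68) (nat_lit 12)))) (PT.nd (nat_lit 94) (PT.lf (nat_lit 2688) (nat_lit 6) (nat_lit 32) (nat_lit 0) (nat_lit 71) (nat_lit 68) (nat_lit 11)) (PT.nd (nat_lit 94) (PT.lf (nat_lit 2352) (nat_lit 6) (nat_lit 28) (nat_lit 0) (nat_lit 72) (nat_lit 68) (nat_lit 10)) (PT.lf (nat_lit 2100) (nat_lit 6) (nat_lit 25) (nat_lit 0) (nat_lit 73) (nat_lit 68) (nat_lit 9))))) (PT.nd (nat_lit 282) (PT.nd (nat_lit 94) (PT.lf (nat_lit 1596) (nat_lit 6) (nat_lit 19) (nat_lit 5) (nat_lit 7) (nat_lit 69) (nat_lit 74)) (PT.nd (nat_lit 94) (PT.lf (nat_lit 1848) (nat_lit 6) (nat_lit 22) (nat_lit 5) (nat_lit 8) (nat_lit 69) (nat_lit 73)) (PT.lf (nat_lit 2184) (nat_lit 6) (nat_lit 26) (nat_lit 5) (nat_lit 9) (nat_lit 69) (nat_lit 72)))) (PT.nd (nat_lit 94) (PT.lf (nat_lit 2436) (nat_lit 6) (nat_lit 29) (nat_lit 5) (nat_lit 10) (nat_lit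 69) (nat_lit 71)) (PT.nd (nat_lit 94) (PT.lf (nat_lit 2772) (nat_lit 6) (nat_lit 33) (nat_lit 5) (nat_lit 11) (nat_lit 69) (nat_lit 70)) (PT.lf (nat_lit 3108) (nat_lit 3) (nat_lit 37) (nat_lit 4) (nat_lit 12) (nat_lit 69) (nat_lit 69))))))))
noncomputable def pc29 : PT := (PT.nd (nat_lit 37224) (PT.nd (nat_lit 4888) (PT.nd (nat_lit 564) (PT.nd (nat_lit 282) (PT.nd (nat_lit 94) (PT.lf (nat_lit 3360) (nat_lit 6) (nat_lit 40) (nat_lit 4) (nat_lit 13) (nat_lit 69) (nat_lit 68)) (PT.nd (nat_lit 94) (PT.lf (nat_lit 3612) (nat_lit 6) (nat_lit 43) (nat_lit 4) (nat_lit 14) (nat_lit 69) (nat_lit 67)) (PT.lf (nat_lit 3864) (nat_lit 6) (nat_lit 46) (nat_lit 4) (nat_lit 15) (nat_lit 69) (nat_lit 66)))) (PT.nd (nat_lit 94) (PT.lf (nat_lit 4116) (nat_lit 6) (nat_lit 49) (nat_lit 4) (nat_lit 16) (nat_lit 69) (nat_lit 65)) (PT.nd (nat_lit 94) (PT.lf (nat_lit 4452) (nat_lit 6) (nat_lit 53) (nat_lit 4) (nat_lit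 17) (nat_lit 69) (nat_lit 64)) (PT.lf (nat_lit 4704) (nat_lit 6) (nat_lit 56) (nat_lit 4) (nat_lit 18) (nat_lit 69) (nat_lit 63))))) (PT.nd (nat_lit 4042) (PT.nd (nat_lit 94) (PT.lf (nat_lit 5040) (nat_lit 6) (nat_lit 60) (nat_lit 4) (nat_lit 19) (nat_lit 69) (nat_lit 62)) (PT.nd (nat_lit 3854) (PT.lf (nat_lit 5376) (nat_lit 6) (nat_lit 64) (nat_lit 4) (nat_lit 20) (nat_lit 69) (nat_lit 61)) (PT.lf (nat_lit 5376) (nat_lit 6) (nat_lit 64) (nat_lit 2) (nat_lit 61) (nat_lit 69) (nat_lit 20)))) (PT.nd (nat_lit 94) (PT.lf (nat_lit 5040) (nat_lit 6) (nat_lit 60) (nat_lit 2) (nat_lit 62) (nat_lit 69) (nat_lit 19)) (PT.nd (nat_lit 94) (PT.lf (nat_lit 4704) (nat_lit 6) (nat_lit 56) (nat_lit 2) (nat_lit 63) (nat_lit 69) (nat_lit 18)) (PT.lf (nat_lit 4452) (nat_lit 6) (nat_lit 53) (nat_lit 2) (nat_lit 64) (nat_lit 69) (nat_lit 17)))))) (PT.nd (nat_lit 564) (PT.nd (nat_lit 282) (PT.nd (nat_lit 94) (PT.lf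 (nat_lit 4116) (nat_lit 6) (nat_lit 49) (nat_lit 2) (nat_lit 65) (nat_lit 69) (nat_lit 16)) (PT.nd (nat_lit 94) (PT.lf (nat_lit 3864) (nat_lit 6) (nat_lit 46) (nat_lit 2) (nat_lit 66) (nat_lit 69) (nat_lit 15)) (PT.lf (nat_lit 3612) (nat_lit 6) (nat_lit 43) (nat_lit 2) (nat_lit 67) (nat_lit 69) (nat_lit 14)))) (PT.nd (nat_lit 94) (PT.lf (nat_lit 3360) (nat_lit 6) (nat_lit 40) (nat_lit 2) (nat_lit 68) (nat_lit 69) (nat_lit 13)) (PT.nd (nat_lit 94) (PT.lf (nat_lit 3108) (nat_lit 3) (nat_lit 37) (nat_lit 0) (nat_lit 69) (nat_lit 69) (nat_lit 12)) (PT.lf (nat_lit 2772) (nat_lit 6) (nat_lit 33) (nat_lit 0) (nat_lit 70) (nat_lit 69) (nat_lit 11))))) (PT.nd (nat_lit 282) (PT.nd (nat_lit 94) (PT.lf (nat_lit 2436) (nat_lit 6) (nat_lit 29) (nat_lit 0) (nat_lit 71) (nat_lit 69) (nat_lit 10)) (PT.nd (nat_lit 94) (PT.lf (nat_lit 2184) (nat_lit 6) (nat_lit 26) (nat_lit 0) (nat_lit 72) (nat_lit 69) (nat_lit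 9)) (PT.lf (nat_lit 1848) (nat_lit 6) (nat_lit 22) (nat_lit 0) (nat_lit 73) (nat_lit 69) (nat_lit 8)))) (PT.nd (nat_lit 31302) (PT.lf (nat_lit 1596) (nat_lit 6) (nat_lit 19) (nat_lit 0) (nat_lit 74) (nat_lit 69) (nat_lit 7)) (PT.nd (nat_lit 94) (PT.lf (nat_lit 1344) (nat_lit 6) (nat_lit 16) (nat_lit 5) (nat_lit 6) (nat_lit 70) (nat_lit 74)) (PT.lf (nat_lit 1680) (nat_lit 6) (nat_lit 20) (nat_lit 5) (nat_lit 7) (nat_lit 70) (nat_lit 73))))))) (PT.nd (nat_lit 5358) (PT.nd (nat_lit 564) (PT.nd (nat_lit 282) (PT.nd (nat_lit 94) (PT.lf (nat_lit 1932) (nat_lit 6) (nat_lit 23) (nat_lit 5) (nat_lit 8) (nat_lit 70) (nat_lit 72)) (PT.nd (nat_lit 94) (PT.lf (nat_lit 2268) (nat_lit 6) (nat_lit 27) (nat_lit 5) (nat_lit 9) (nat_lit 70) (nat_lit 71)) (PT.lf (nat_lit 2520) (nat_lit 3) (nat_lit 30) (nat_lit 4) (nat_lit 10) (nat_lit 70) (nat_lit 70)))) (PT.nd (nat_lit 94) (PT.lf (nat_lit 2772) (nat_lit 6) (nat_lit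 33) (nat_lit 4) (nat_lit 11) (nat_lit 70) (nat_lit 69)) (PT.nd (nat_lit 94) (PT.lf (nat_lit 3024) (nat_lit 6) (nat_lit 36) (nat_lit 4) (nat_lit 12) (nat_lit 70) (nat_lit 68)) (PT.lf (nat_lit 3276) (nat_lit 6) (nat_lit 39) (nat_lit 4) (nat_lit 13) (nat_lit 70) (nat_lit 67))))) (PT.nd (nat_lit 282) (PT.nd (nat_lit 94) (PT.lf (nat_lit 3528) (nat_lit 6) (nat_lit 42) (nat_lit 4) (nat_lit 14) (nat_lit 70) (nat_lit 66)) (PT.nd (nat_lit 94) (PT.lf (nat_lit 3780) (nat_lit 6) (nat_lit 45) (nat_lit 4) (nat_lit 15) (nat_lit 70) (nat_lit 65)) (PT.lf (nat_lit 4032) (nat_lit 6) (nat_lit 48) (nat_lit 4) (nat_lit 16) (nat_lit 70) (nat_lit 64)))) (PT.nd (nat_lit 4324) (PT.lf (nat_lit 4368) (nat_lit 6) (nat_lit 52) (nat_lit 4) (nat_lit 17) (nat_lit 70) (nat_lit 63)) (PT.nd (nat_lit 94) (PT.lf (nat_lit 4368) (nat_lit 6) (nat_lit 52) (nat_lit 2) (nat_lit 63) (nat_lit 70) (nat_lit 17)) (PT.lf (nat_lit 4032) (nat_lit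 6) (nat_lit 48) (nat_lit 2) (nat_lit 64) (nat_lit 70) (nat_lit 16)))))) (PT.nd (nat_lit 564) (PT.nd (nat_lit 282) (PT.nd (nat_lit 94) (PT.lf (nat_lit 3780) (nat_lit 6) (nat_lit 45) (nat_lit 2) (nat_lit 65) (nat_lit 70) (nat_lit 15)) (PT.nd (nat_lit 94) (PT.lf (nat_lit 3528) (nat_lit 6) (nat_lit 42) (nat_lit 2) (nat_lit 66) (nat_lit 70) (nat_lit 14)) (PT.lf (nat_lit 3276) (nat_lit 6) (nat_lit 39) (nat_lit 2) (nat_lit 67) (nat_lit 70) (nat_lit 13)))) (PT.nd (nat_lit 94) (PT.lf (nat_lit 3024) (nat_lit 6) (nat_lit 36) (nat_lit 2) (nat_lit 68) (nat_lit 70) (nat_lit 12)) (PT.nd (nat_lit 94) (PT.lf (nat_lit 2772) (nat_lit 6) (nat_lit 33) (nat_lit 2) (nat_lit 69) (nat_lit 70) (nat_lit 11)) (PT.lf (nat_lit 2520) (nat_lit 3) (nat_lit 30) (nat_lit 0) (nat_lit 70) (nat_lit 70) (nat_lit 10))))) (PT.nd (nat_lit 282) (PT.nd (nat_lit 94) (PT.lf (nat_lit 2268) (nat_lit 6) (nat_lit 27) (nat_lit 0) (nat_lit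 71) (nat_lit 70) (nat_lit 9)) (PT.nd (nat_lit 94) (PT.lf (nat_lit 1932) (nat_lit 6) (nat_lit 23) (nat_lit 0) (nat_lit 72) (nat_lit 70) (nat_lit 8)) (PT.lf (nat_lit 1680) (nat_lit 6) (nat_lit 20) (nat_lit 0) (nat_lit 73) (nat_lit 70) (nat_lit 7)))) (PT.nd (nat_lit 31114) (PT.lf (nat_lit 1344) (nat_lit 6) (nat_lit 16) (nat_lit 0) (nat_lit 74) (nat_lit 70) (nat_lit 6)) (PT.nd (nat_lit 94) (PT.lf (nat_lit 924) (nat_lit 6) (nat_lit 11) (nat_lit 5) (nat_lit 4) (nat_lit 71) (nat_lit 75)) (PT.lf (nat_lit 1176) (nat_lit 6) (nat_lit 14) (nat_lit 5) (nat_lit 5) (nat_lit 71) (nat_lit 74))))))))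
noncomputable def pc30 : PT := (PT.nd (nat_lit 37694) (PT.nd (nat_lit 5828) (PT.nd (nat_lit 564) (PT.nd (nat_lit 282) (PT.nd (nat_lit 94) (PT.lf (nat_lit 1428) (nat_lit 6) (nat_lit 17) (nat_lit 5) (nat_lit 6) (nat_lit 71) (nat_lit 73)) (PT.nd (nat_lit 94) (PT.lf (nat_lit 1764) (nat_lit 6) (nat_lit 21) (nat_lit 5) (nat_lit 7) (nat_lit 71) (nat_lit 72)) (PT.lf (nat_lit 2016) (nat_lit 3) (nat_lit 24) (nat_lit 4) (nat_lit 8) (nat_lit 71) (nat_lit 71)))) (PT.nd (nat_lit 94) (PT.lf (nat_lit 2268) (nat_lit 6) (nat_lit 27) (nat_lit 4) (nat_lit 9) (nat_lit 71) (nat_lit 70)) (PT.nd (nat_lit 94) (PT.lf (nat_lit 2436) (nat_lit 6) (nat_lit 29) (nat_lit 4) (nat_lit 10) (nat_lit 71) (nat_lit 69)) (PT.lf (nat_lit 2688) (nat_lit 6) (nat_lit 32) (nat_lit 4) (nat_lit 11) (nat_lit 71) (nat_lit 68))))) (PT.nd (nat_lit 4982) (PT.nd (nat_lit 94) (PT.lf (nat_lit 2940) (nat_lit 6) (nat_lit 35) (nat_lit 4) (nat_lit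 12) (nat_lit 71) (nat_lit 67)) (PT.nd (nat_lit 94) (PT.lf (nat_lit 3192) (nat_lit 6) (nat_lit 38) (nat_lit 4) (nat_lit 13) (nat_lit 71) (nat_lit 66)) (PT.lf (nat_lit 3444) (nat_lit 6) (nat_lit 41) (nat_lit 4) (nat_lit 14) (nat_lit 71) (nat_lit 65)))) (PT.nd (nat_lit 94) (PT.lf (nat_lit 3444) (nat_lit 6) (nat_lit 41) (nat_lit 2) (nat_lit 65) (nat_lit 71) (nat_lit 14)) (PT.nd (nat_lit 94) (PT.lf (nat_lit 3192) (nat_lit 6) (nat_lit 38) (nat_lit 2) (nat_lit 66) (nat_lit 71) (nat_lit 13)) (PT.lf (nat_lit 2940) (nat_lit 6) (nat_lit 35) (nat_lit 2) (nat_lit 67) (nat_lit 71) (nat_lit 12)))))) (PT.nd (nat_lit 564) (PT.nd (nat_lit 282) (PT.nd (nat_lit 94) (PT.lf (nat_lit 2688) (nat_lit 6) (nat_lit 32) (nat_lit 2) (nat_lit 68) (nat_lit 71) (nat_lit 11)) (PT.nd (nat_lit 94) (PT.lf (nat_lit 2436) (nat_lit 6) (nat_lit 29) (nat_lit 2) (nat_lit 69) (nat_lit 71) (nat_lit 10)) (PT.lf (nat_lit 2268) (nat_lit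 6) (nat_lit 27) (nat_lit 2) (nat_lit 70) (nat_lit 71) (nat_lit 9)))) (PT.nd (nat_lit 94) (PT.lf (nat_lit 2016) (nat_lit 3) (nat_lit 24) (nat_lit 0) (nat_lit 71) (nat_lit 71) (nat_lit 8)) (PT.nd (nat_lit 94) (PT.lf (nat_lit 1764) (nat_lit 6) (nat_lit 21) (nat_lit 0) (nat_lit 72) (nat_lit 71) (nat_lit 7)) (PT.lf (nat_lit 1428) (nat_lit 6) (nat_lit 17) (nat_lit 0) (nat_lit 73) (nat_lit 71) (nat_lit 6))))) (PT.nd (nat_lit 31020) (PT.nd (nat_lit 94) (PT.lf (nat_lit 1176) (nat_lit 6) (nat_lit 14) (nat_lit 0) (nat_lit 74) (nat_lit 71) (nat_lit 5)) (PT.nd (nat_lit 30832) (PT.lf (nat_lit 924) (nat_lit 6) (nat_lit 11) (nat_lit 0) (nat_lit 75) (nat_lit 71) (nat_lit 4)) (PT.lf (nat_lit 504) (nat_lit 6) (nat_lit 6) (nat_lit 5) (nat_lit 2) (nat_lit 72) (nat_lit 76)))) (PT.nd (nat_lit 94) (PT.lf (nat_lit 756) (nat_lit 6) (nat_lit 9) (nat_lit 5) (nat_lit 3) (nat_lit 72) (nat_lit 75)) (PT.nd (nat_lit 94) (PT.lf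 (nat_lit 1008) (nat_lit 6) (nat_lit 12) (nat_lit 5) (nat_lit 4) (nat_lit 72) (nat_lit 74)) (PT.lf (nat_lit 1260) (nat_lit 6) (nat_lit 15) (nat_lit 5) (nat_lit 5) (nat_lit 72) (nat_lit 73))))))) (PT.nd (nat_lit 6110) (PT.nd (nat_lit 564) (PT.nd (nat_lit 282) (PT.nd (nat_lit 94) (PT.lf (nat_lit 1512) (nat_lit 3) (nat_lit 18) (nat_lit 4) (nat_lit 6) (nat_lit 72) (nat_lit 72)) (PT.nd (nat_lit 94) (PT.lf (nat_lit 1764) (nat_lit 6) (nat_lit 21) (nat_lit 4) (nat_lit 7) (nat_lit 72) (nat_lit 71)) (PT.lf (nat_lit 1932) (nat_lit 6) (nat_lit 23) (nat_lit 4) (nat_lit 8) (nat_lit 72) (nat_lit 70)))) (PT.nd (nat_lit 94) (PT.lf (nat_lit 2184) (nat_lit 6) (nat_lit 26) (nat_lit 4) (nat_lit 9) (nat_lit 72) (nat_lit 69)) (PT.nd (nat_lit 94) (PT.lf (nat_lit 2352) (nat_lit 6) (nat_lit 28) (nat_lit 4) (nat_lit 10) (nat_lit 72) (nat_lit 68)) (PT.lf (nat_lit 2604) (nat_lit 6) (nat_lit 31) (nat_lit 4) (nat_lit 11)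 (nat_lit 72) (nat_lit 67))))) (PT.nd (nat_lit 5264) (PT.nd (nat_lit 5076) (PT.lf (nat_lit 2856) (nat_lit 6) (nat_lit 34) (nat_lit 4) (nat_lit 12) (nat_lit 72) (nat_lit 66)) (PT.nd (nat_lit 94) (PT.lf (nat_lit 2856) (nat_lit 6) (nat_lit 34) (nat_lit 2) (nat_lit 66) (nat_lit 72) (nat_lit 12)) (PT.lf (nat_lit 2604) (nat_lit 6) (nat_lit 31) (nat_lit 2) (nat_lit 67) (nat_lit 72) (nat_lit 11)))) (PT.nd (nat_lit 94) (PT.lf (nat_lit 2352) (nat_lit 6) (nat_lit 28) (nat_lit 2) (nat_lit 68) (nat_lit 72) (nat_lit 10)) (PT.nd (nat_lit 94) (PT.lf (nat_lit 2184) (nat_lit 6) (nat_lit 26) (nat_lit 2) (nat_lit 69) (nat_lit 72) (nat_lit 9)) (PT.lf (nat_lit 1932) (nat_lit 6) (nat_lit 23) (nat_lit 2) (nat_lit 70) (nat_lit 72) (nat_lit 8)))))) (PT.nd (nat_lit 31020) (PT.nd (nat_lit 282) (PT.nd (nat_lit 94) (PT.lf (nat_lit 1764) (nat_lit 6) (nat_lit 21) (nat_lit 2) (nat_lit 71) (nat_lit 72) (nat_lit 7)) (PT.nd (nat_lit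 94) (PT.lf (nat_lit 1512) (nat_lit 3) (nat_lit 18) (nat_lit 0) (nat_lit 72) (nat_lit 72) (nat_lit 6)) (PT.lf (nat_lit 1260) (nat_lit 6) (nat_lit 15) (nat_lit 0) (nat_lit 73) (nat_lit 72) (nat_lit 5)))) (PT.nd (nat_lit 94) (PT.lf (nat_lit 1008) (nat_lit 6) (nat_lit 12) (nat_lit 0) (nat_lit 74) (nat_lit 72) (nat_lit 4)) (PT.nd (nat_lit 94) (PT.lf (nat_lit 756) (nat_lit 6) (nat_lit 9) (nat_lit 0) (nat_lit 75) (nat_lit 72) (nat_lit 3)) (PT.lf (nat_lit 504) (nat_lit 6) (nat_lit 6) (nat_lit 0) (nat_lit 76) (nat_lit 72) (nat_lit 2))))) (PT.nd (nat_lit 282) (PT.nd (nat_lit 94) (PT.lf (nat_lit 84) (nat_lit 6) (nat_lit 1) (nat_lit 5) (nat_lit 0) (nat_lit 73) (nat_lit 77)) (PT.nd (nat_lit 94) (PT.lf (nat_lit 336) (nat_lit 6) (nat_lit 4) (nat_lit 5) (nat_lit 1) (nat_lit 73) (nat_lit 76)) (PT.lf (nat_lit 588) (nat_lit 6) (nat_lit 7) (nat_lit 5) (nat_lit 2) (nat_lit 73) (nat_lit 75)))) (PT.nd (nat_lit 94)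 (PT.lf (nat_lit 840) (nat_lit 6) (nat_lit 10) (nat_lit 5) (nat_lit 3) (nat_lit 73) (nat_lit 74)) (PT.nd (nat_lit 94) (PT.lf (nat_lit 1092) (nat_lit 3) (nat_lit 13) (nat_lit 4) (nat_lit 4) (nat_lit 73) (nat_lit 73)) (PT.lf (nat_lit 1260) (nat_lit 6) (nat_lit 15) (nat_lit 4) (nat_lit 5) (nat_lit 73) (nat_lit 72))))))))
noncomputable def pc31 : PT := (PT.nd (nat_lit 43804) (PT.nd (nat_lit 6580) (PT.nd (nat_lit 6016) (PT.nd (nat_lit 282) (PT.nd (nat_lit 94) (PT.lf (nat_lit 1428) (nat_lit 6) (nat_lit 17) (nat_lit 4) (nat_lit 6) (nat_lit 73) (nat_lit 71)) (PT.nd (nat_lit 94) (PT.lf (nat_lit 1680) (nat_lit 6) (nat_lit 20) (nat_lit 4) (nat_lit 7) (nat_lit 73) (nat_lit 70)) (PT.lf (nat_lit 1848) (nat_lit 6) (nat_lit 22) (nat_lit 4) (nat_lit 8) (nat_lit 73) (nat_lit 69)))) (PT.nd (nat_lit 5546) (PT.lf (nat_lit 2100) (nat_lit 6) (nat_lit 25) (nat_lit 4) (nat_lit 9) (nat_lit 73) (nat_lit 68)) (PT.nd (nat_lit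 94) (PT.lf (nat_lit 2100) (nat_lit 6) (nat_lit 25) (nat_lit 2) (nat_lit 68) (nat_lit 73) (nat_lit 9)) (PT.lf (nat_lit 1848) (nat_lit 6) (nat_lit 22) (nat_lit 2) (nat_lit 69) (nat_lit 73) (nat_lit 8))))) (PT.nd (nat_lit 282) (PT.nd (nat_lit 94) (PT.lf (nat_lit 1680) (nat_lit 6) (nat_lit 20) (nat_lit 2) (nat_lit 70) (nat_lit 73) (nat_lit 7)) (PT.nd (nat_lit 94) (PT.lf (nat_lit 1428) (nat_lit 6) (nat_lit 17) (nat_lit 2) (nat_lit 71) (nat_lit 73) (nat_lit 6)) (PT.lf (nat_lit 1260) (nat_lit 6) (nat_lit 15) (nat_lit 2) (nat_lit 72) (nat_lit 73) (nat_lit 5)))) (PT.nd (nat_lit 94) (PT.lf (nat_lit 1092) (nat_lit 3) (nat_lit 13) (nat_lit 0) (nat_lit 73) (nat_lit 73) (nat_lit 4)) (PT.nd (nat_lit 94) (PT.lf (nat_lit 840) (nat_lit 6) (nat_lit 10) (nat_lit 0) (nat_lit 74) (nat_lit 73) (nat_lit 3)) (PT.lf (nat_lit 588) (nat_lit 6) (nat_lit 7) (nat_lit 0) (nat_lit 75) (nat_lit 73) (nat_lit 2)))))) (PT.nd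 (nat_lit 30926) (PT.nd (nat_lit 30644) (PT.nd (nat_lit 94) (PT.lf (nat_lit 336) (nat_lit 6) (nat_lit 4) (nat_lit 0) (nat_lit 76) (nat_lit 73) (nat_lit 1)) (PT.nd (nat_lit 30456) (PT.lf (nat_lit 84) (nat_lit 6) (nat_lit 1) (nat_lit 0) (nat_lit 77) (nat_lit 73) (nat_lit 0)) (PT.lf (nat_lit 168) (nat_lit 6) (nat_lit 2) (nat_lit 5) (nat_lit 0) (nat_lit 74) (nat_lit 76)))) (PT.nd (nat_lit 94) (PT.lf (nat_lit 420) (nat_lit 6) (nat_lit 5) (nat_lit 5) (nat_lit 1) (nat_lit 74) (nat_lit 75)) (PT.nd (nat_lit 94) (PT.lf (nat_lit 672) (nat_lit 3) (nat_lit 8) (nat_lit 4) (nat_lit 2) (nat_lit 74) (nat_lit 74)) (PT.lf (nat_lit 840) (nat_lit 6) (nat_lit 10) (nat_lit 4) (nat_lit 3) (nat_lit 74) (nat_lit 73))))) (PT.nd (nat_lit 282) (PT.nd (nat_lit 94) (PT.lf (nat_lit 1008) (nat_lit 6) (nat_lit 12) (nat_lit 4) (nat_lit 4) (nat_lit 74) (nat_lit 72)) (PT.nd (nat_lit 94) (PT.lf (nat_lit 1176) (nat_lit 6) (nat_lit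 14) (nat_lit 4) (nat_lit 5) (nat_lit 74) (nat_lit 71)) (PT.lf (nat_lit 1344) (nat_lit 6) (nat_lit 16) (nat_lit 4) (nat_lit 6) (nat_lit 74) (nat_lit 70)))) (PT.nd (nat_lit 5828) (PT.lf (nat_lit 1596) (nat_lit 6) (nat_lit 19) (nat_lit 4) (nat_lit 7) (nat_lit 74) (nat_lit 69)) (PT.nd (nat_lit 94) (PT.lf (nat_lit 1596) (nat_lit 6) (nat_lit 19) (nat_lit 2) (nat_lit 69) (nat_lit 74) (nat_lit 7)) (PT.lf (nat_lit 1344) (nat_lit 6) (nat_lit 16) (nat_lit 2) (nat_lit 70) (nat_lit 74) (nat_lit 6))))))) (PT.nd (nat_lit 37788) (PT.nd (nat_lit 31020) (PT.nd (nat_lit 282) (PT.nd (nat_lit 94) (PT.lf (nat_lit 1176) (nat_lit 6) (nat_lit 14) (nat_lit 2) (nat_lit 71) (nat_lit 74) (nat_lit 5)) (PT.nd (nat_lit 94) (PT.lf (nat_lit 1008) (nat_lit 6) (nat_lit 12) (nat_lit 2) (nat_lit 72) (nat_lit 74) (nat_lit 4)) (PT.lf (nat_lit 840) (nat_lit 6) (nat_lit 10) (nat_lit 2) (nat_lit 73) (nat_lit 74) (nat_lit 3)))) (PT.nd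 (nat_lit 94) (PT.lf (nat_lit 672) (nat_lit 3) (nat_lit 8) (nat_lit 0) (nat_lit 74) (nat_lit 74) (nat_lit 2)) (PT.nd (nat_lit 94) (PT.lf (nat_lit 420) (nat_lit 6) (nat_lit 5) (nat_lit 0) (nat_lit 75) (nat_lit 74) (nat_lit 1)) (PT.lf (nat_lit 168) (nat_lit 6) (nat_lit 2) (nat_lit 0) (nat_lit 76) (nat_lit 74) (nat_lit 0))))) (PT.nd (nat_lit 282) (PT.nd (nat_lit 94) (PT.lf (nat_lit 252) (nat_lit 3) (nat_lit 3) (nat_lit 4) (nat_lit 0) (nat_lit 75) (nat_lit 75)) (PT.nd (nat_lit 94) (PT.lf (nat_lit 420) (nat_lit 6) (nat_lit 5) (nat_lit 4) (nat_lit 1) (nat_lit 75) (nat_lit 74)) (PT.lf (nat_lit 588) (nat_lit 6) (nat_lit 7) (nat_lit 4) (nat_lit 2) (nat_lit 75) (nat_lit 73)))) (PT.nd (nat_lit 94) (PT.lf (nat_lit 756) (nat_lit 6) (nat_lit 9) (nat_lit 4) (nat_lit 3) (nat_lit 75) (nat_lit 72)) (PT.nd (nat_lit 6298) (PT.lf (nat_lit 924) (nat_lit 6) (nat_lit 11) (nat_lit 4) (nat_lit 4) (nat_lit 75) (nat_lit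 71)) (PT.lf (nat_lit 924) (nat_lit 6) (nat_lit 11) (nat_lit 2) (nat_lit 71) (nat_lit 75) (nat_lit 4)))))) (PT.nd (nat_lit 31114) (PT.nd (nat_lit 282) (PT.nd (nat_lit 94) (PT.lf (nat_lit 756) (nat_lit 6) (nat_lit 9) (nat_lit 2) (nat_lit 72) (nat_lit 75) (nat_lit 3)) (PT.nd (nat_lit 94) (PT.lf (nat_lit 588) (nat_lit 6) (nat_lit 7) (nat_lit 2) (nat_lit 73) (nat_lit 75) (nat_lit 2)) (PT.lf (nat_lit 420) (nat_lit 6) (nat_lit 5) (nat_lit 2) (nat_lit 74) (nat_lit 75) (nat_lit 1)))) (PT.nd (nat_lit 30644) (PT.lf (nat_lit 252) (nat_lit 3) (nat_lit 3) (nat_lit 0) (nat_lit 75) (nat_lit 75) (nat_lit 0)) (PT.nd (nat_lit 94) (PT.lf (nat_lit 168) (nat_lit 6) (nat_lit 2) (nat_lit 4) (nat_lit 0) (nat_lit 76) (nat_lit 74)) (PT.lf (nat_lit 336) (nat_lit 6) (nat_lit 4) (nat_lit 4) (nat_lit 1) (nat_lit 76) (nat_lit 73))))) (PT.nd (nat_lit 6768) (PT.nd (nat_lit 6580) (PT.lf (nat_lit 504) (nat_lit 6) (nat_lit 6)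 (nat_lit 4) (nat_lit 2) (nat_lit 76) (nat_lit 72)) (PT.nd (nat_lit 94) (PT.lf (nat_lit 504) (nat_lit 6) (nat_lit 6) (nat_lit 2) (nat_lit 72) (nat_lit 76) (nat_lit 2)) (PT.lf (nat_lit 336) (nat_lit 6) (nat_lit 4) (nat_lit 2) (nat_lit 73) (nat_lit 76) (nat_lit 1)))) (PT.nd (nat_lit 30738) (PT.lf (nat_lit 168) (nat_lit 6) (nat_lit 2) (nat_lit 2) (nat_lit 74) (nat_lit 76) (nat_lit 0)) (PT.nd (nat_lit 6862) (PT.lf (nat_lit 84) (nat_lit 6) (nat_lit 1) (nat_lit 4) (nat_lit 0) (nat_lit 77) (nat_lit 73)) (PT.lf (nat_lit 84) (nat_lit 6) (nat_lit 1) (nat_lit 2) (nat_lit 73) (nat_lit 77) (nat_lit 0))))))))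
noncomputable def xc0 : XT := (XT.nd (nat_lit 150306) (nat_lit 0) (nat_lit 0) (XT.nd (nat_lit 75482) (nat_lit 0) (nat_lit 0) (XT.nd (nat_lit 37788) (nat_lit 0) (nat_lit 0) (XT.nd (nat_lit 37506) (nat_lit 0) (nat_lit 252) (XT.nd (nat_lit 94) (nat_lit 252) (nat_lit 0) (XT.lf (nat_lit 0) (nat_lit 2072022992) (nat_lit 168) (nat_lit 1990718464) (nat_lit 168) (nat_lit 1990718464) (nat_lit 3) (nat_lit 4) (nat_lit 5) (nat_lit 5) (nat_lit 5) (nat_lit 4) (nat_lit 262) (nat_lit 169) (nat_lit 169)) (XT.lf (nat_lit 0) (nat_lit 10105414080) (nat_lit 0) (nat_lit 0) (nat_lit 0) (nat_lit 0) (nat_lit 0) (nat_lit 0) (nat_lit 1) (nat_lit 0) (nat_lit 1) (nat_lit 0) (nat_lit 263) (nat_lit 169) (nat_lit 168))) (XT.nd (nat_lit 94) (nat_lit 420) (nat_lit 0) (XT.lf (nat_lit 0) (nat_lit 2493310760) (nat_lit 168) (nat_lit 1686029348) (nat_lit 168) (nat_lit 1686029348) (nat_lit 8) (nat_lit 4) (nat_lit 10) (nat_lit 5)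 (nat_lit 10) (nat_lit 4) (nat_lit 260) (nat_lit 170) (nat_lit 170)) (XT.nd (nat_lit 94) (nat_lit 168) (nat_lit 0) (XT.lf (nat_lit 0) (nat_lit 2510667322) (nat_lit 252) (nat_lit 7382118867) (nat_lit 0) (nat_lit 2025041372) (nat_lit 5) (nat_lit 5) (nat_lit 8) (nat_lit 4) (nat_lit 5) (nat_lit 4) (nat_lit 261) (nat_lit 170) (nat_lit 169)) (XT.lf (nat_lit 0) (nat_lit 4010765804) (nat_lit 168) (nat_lit 4526779268) (nat_lit 168) (nat_lit 3571949501) (nat_lit 3) (nat_lit 4) (nat_lit 5) (nat_lit 5) (nat_lit 5) (nat_lit 4) (nat_lit 262) (nat_lit 170) (nat_lit 168))))) (XT.nd (nat_lit 37412) (nat_lit 0) (nat_lit 252) (XT.nd (nat_lit 37224) (nat_lit 0) (nat_lit 840) (XT.lf (nat_lit 0) (nat_lit 10106274220) (nat_lit 0) (nat_lit 0) (nat_lit 0) (nat_lit 0) (nat_lit 0) (nat_lit 0) (nat_lit 1) (nat_lit 0) (nat_lit 1) (nat_lit 0) (nat_lit 263) (nat_lit 170) (nat_lit 167)) (XT.nd (nat_lit 94) (nat_lit 252) (nat_lit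 0) (XT.lf (nat_lit 0) (nat_lit 2935348925) (nat_lit 168) (nat_lit 1374737040) (nat_lit 168) (nat_lit 1374737040) (nat_lit 13) (nat_lit 4) (nat_lit 15) (nat_lit 5) (nat_lit 15) (nat_lit 4) (nat_lit 258) (nat_lit 171) (nat_lit 171)) (XT.lf (nat_lit 0) (nat_lit 2956991404) (nat_lit 252) (nat_lit 6155244405) (nat_lit 0) (nat_lit 2436776745) (nat_lit 10) (nat_lit 5) (nat_lit 13) (nat_lit 4) (nat_lit 10) (nat_lit 4) (nat_lit 259) (nat_lit 171) (nat_lit 170)))) (XT.nd (nat_lit 94) (nat_lit 420) (nat_lit 0) (XT.lf (nat_lit 0) (nat_lit 4858429956) (nat_lit 168) (nat_lit 3948826901) (nat_lit 168) (nat_lit 2925989384) (nat_lit 8) (nat_lit 4) (nat_lit 10) (nat_lit 5) (nat_lit 10) (nat_lit 4) (nat_lit 260) (nat_lit 171) (nat_lit 169)) (XT.nd (nat_lit 94) (nat_lit 168) (nat_lit 0) (XT.lf (nat_lit 0) (nat_lit 2866609899) (nat_lit 252) (nat_lit 7647194199) (nat_lit 0) (nat_lit 1409157273) (nat_lit 5) (nat_lit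 5) (nat_lit 8) (nat_lit 4) (nat_lit 5) (nat_lit 4) (nat_lit 261) (nat_lit 171) (nat_lit 168)) (XT.lf (nat_lit 0) (nat_lit 3610767517) (nat_lit 168) (nat_lit 5208621974) (nat_lit 168) (nat_lit 3297832327) (nat_lit 3) (nat_lit 4) (nat_lit 5) (nat_lit 5) (nat_lit 5) (nat_lit 4) (nat_lit 262) (nat_lit 171) (nat_lit 167)))))) (XT.nd (nat_lit 37506) (nat_lit 0) (nat_lit 0) (XT.nd (nat_lit 37224) (nat_lit 0) (nat_lit 672) (XT.nd (nat_lit 37036) (nat_lit 0) (nat_lit 1260) (XT.lf (nat_lit 0) (nat_lit 10107995517) (nat_lit 0) (nat_lit 0) (nat_lit 0) (nat_lit 0) (nat_lit 0) (nat_lit 0) (nat_lit 1) (nat_lit 0) (nat_lit 1) (nat_lit 0) (nat_lit 263) (nat_lit 171) (nat_lit 166)) (XT.nd (nat_lit 94) (nat_lit 252) (nat_lit 0) (XT.lf (nat_lit 0) (nat_lit 3399928434) (nat_lit 252) (nat_lit 1055860659) (nat_lit 252) (nat_lit 1055860659) (nat_lit 18) (nat_lit 4) (nat_lit 21) (nat_lit 5) (nat_lit 21) (nat_lit 4)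 (nat_lit 256) (nat_lit 172) (nat_lit 172)) (XT.lf (nat_lit 0) (nat_lit 3426058964) (nat_lit 252) (nat_lit 4900254703) (nat_lit 0) (nat_lit 2868792016) (nat_lit 15) (nat_lit 5) (nat_lit 18) (nat_lit 4) (nat_lit 15) (nat_lit 4) (nat_lit 257) (nat_lit 172) (nat_lit 171)))) (XT.nd (nat_lit 94) (nat_lit 420) (nat_lit 0) (XT.lf (nat_lit 0) (nat_lit 5747464246) (nat_lit 168) (nat_lit 3360157247) (nat_lit 168) (nat_lit 2264468128) (nat_lit 13) (nat_lit 4) (nat_lit 15) (nat_lit 5) (nat_lit 15) (nat_lit 4) (nat_lit 258) (nat_lit 172) (nat_lit 170)) (XT.nd (nat_lit 94) (nat_lit 168) (nat_lit 0) (XT.lf (nat_lit 0) (nat_lit 3352536863) (nat_lit 252) (nat_lit 6410199203) (nat_lit 0) (nat_lit 1791277174) (nat_lit 10) (nat_lit 5) (nat_lit 13) (nat_lit 4) (nat_lit 10) (nat_lit 4) (nat_lit 259) (nat_lit 172) (nat_lit 169)) (XT.lf (nat_lit 0) (nat_lit 4473703540) (nat_lit 168) (nat_lit 4656976650) (nat_lit 168)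 (nat_lit 2610091011) (nat_lit 8) (nat_lit 4) (nat_lit 10) (nat_lit 5) (nat_lit 10) (nat_lit 4) (nat_lit 260) (nat_lit 172) (nat_lit 168))))) (XT.nd (nat_lit 37036) (nat_lit 0) (nat_lit 1512) (XT.nd (nat_lit 94) (nat_lit 420) (nat_lit 0) (XT.lf (nat_lit 0) (nat_lit 3093290387) (nat_lit 252) (nat_lit 8177658600) (nat_lit 0) (nat_lit 662286081) (nat_lit 5) (nat_lit 5) (nat_lit 8) (nat_lit 4) (nat_lit 5) (nat_lit 4) (nat_lit 261) (nat_lit 172) (nat_lit 167)) (XT.nd (nat_lit 94) (nat_lit 252) (nat_lit 0) (XT.lf (nat_lit 0) (nat_lit 2943577696) (nat_lit 168) (nat_lit 6027772057) (nat_lit 168) (nat_lit 3158760969) (nat_lit 3) (nat_lit 4) (nat_lit 5) (nat_lit 5) (nat_lit 5) (nat_lit 4) (nat_lit 262) (nat_lit 172) (nat_lit 166)) (XT.lf (nat_lit 0) (nat_lit 10110580008) (nat_lit 0) (nat_lit 0) (nat_lit 0) (nat_lit 0) (nat_lit 0) (nat_lit 0) (nat_lit 1) (nat_lit 0) (nat_lit 1) (nat_lit 0) (nat_lit 263)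 (nat_lit 172) (nat_lit 165)))) (XT.nd (nat_lit 94) (nat_lit 504) (nat_lit 0) (XT.lf (nat_lit 0) (nat_lit 3888957208) (nat_lit 252) (nat_lit 728366724) (nat_lit 252) (nat_lit 728366724) (nat_lit 24) (nat_lit 4) (nat_lit 27) (nat_lit 5) (nat_lit 27) (nat_lit 4) (nat_lit 254) (nat_lit 173) (nat_lit 173)) (XT.nd (nat_lit 94) (nat_lit 252) (nat_lit 0) (XT.lf (nat_lit 0) (nat_lit 3919795807) (nat_lit 252) (nat_lit 3613142993) (nat_lit 0) (nat_lit 3322837521) (nat_lit 21) (nat_lit 5) (nat_lit 24) (nat_lit 4) (nat_lit 21) (nat_lit 4) (nat_lit 255) (nat_lit 173) (nat_lit 172)) (XT.lf (nat_lit 0) (nat_lit 6681457934) (nat_lit 252) (nat_lit 2758977345) (nat_lit 252) (nat_lit 1585247768) (nat_lit 18) (nat_lit 4) (nat_lit 21) (nat_lit 5) (nat_lit 21) (nat_lit 4) (nat_lit 256) (nat_lit 173) (nat_lit 171))))))) (XT.nd (nat_lit 37600) (nat_lit 0) (nat_lit 168) (XT.nd (nat_lit 470) (nat_lit 420) (nat_lit 0)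 (XT.nd (nat_lit 188) (nat_lit 672) (nat_lit 0) (XT.nd (nat_lit 94) (nat_lit 168) (nat_lit 0) (XT.lf (nat_lit 0) (nat_lit 3863546106) (nat_lit 252) (nat_lit 5145348826) (nat_lit 0) (nat_lit 2191085696) (nat_lit 15) (nat_lit 5) (nat_lit 18) (nat_lit 4) (nat_lit 15) (nat_lit 4) (nat_lit 257) (nat_lit 173) (nat_lit 170)) (XT.lf (nat_lit 0) (nat_lit 5377617574) (nat_lit 168) (nat_lit 4097240417) (nat_lit 168) (nat_lit 1904565348) (nat_lit 13) (nat_lit 4) (nat_lit 15) (nat_lit 5) (nat_lit 15) (nat_lit 4) (nat_lit 258) (nat_lit 173) (nat_lit 169))) (XT.nd (nat_lit 94) (nat_lit 420) (nat_lit 0) (XT.lf (nat_lit 0) (nat_lit 3623881279) (nat_lit 252) (nat_lit 6920410557) (nat_lit 0) (nat_lit 1019728692) (nat_lit 10) (nat_lit 5) (nat_lit 13) (nat_lit 4) (nat_lit 10) (nat_lit 4) (nat_lit 259) (nat_lit 173) (nat_lit 168)) (XT.nd (nat_lit 94) (nat_lit 252) (nat_lit 0) (XT.lf (nat_lit 0) (nat_lit 3831986920)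 (nat_lit 168) (nat_lit 5497346089) (nat_lit 168) (nat_lit 2423989686) (nat_lit 8) (nat_lit 4) (nat_lit 10) (nat_lit 5) (nat_lit 10) (nat_lit 4) (nat_lit 260) (nat_lit 173) (nat_lit 167)) (XT.lf (nat_lit 0) (nat_lit 2971966785) (nat_lit 168) (nat_lit 221478035) (nat_lit 252) (nat_lit 8755129619) (nat_lit 5) (nat_lit 5) (nat_lit 7) (nat_lit 5) (nat_lit 8) (nat_lit 4) (nat_lit 261) (nat_lit 173) (nat_lit 166))))) (XT.nd (nat_lit 36848) (nat_lit 0) (nat_lit 1764) (XT.nd (nat_lit 94) (nat_lit 252) (nat_lit 0) (XT.lf (nat_lit 0) (nat_lit 2008406671) (nat_lit 168) (nat_lit 6985199044) (nat_lit 168) (nat_lit 3154570824) (nat_lit 3) (nat_lit 4) (nat_lit 5) (nat_lit 5) (nat_lit 5) (nat_lit 4) (nat_lit 262) (nat_lit 173) (nat_lit 165)) (XT.nd (nat_lit 36660) (nat_lit 0) (nat_lit 2520) (XT.lf (nat_lit 0) (nat_lit 10114030753) (nat_lit 0) (nat_lit 0) (nat_lit 0) (nat_lit 0) (nat_lit 0) (nat_lit 0) (nat_lit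 1) (nat_lit 0) (nat_lit 1) (nat_lit 0) (nat_lit 263) (nat_lit 173) (nat_lit 164)) (XT.lf (nat_lit 0) (nat_lit 4404468834) (nat_lit 252) (nat_lit 391164827) (nat_lit 252) (nat_lit 391164827) (nat_lit 30) (nat_lit 4) (nat_lit 33) (nat_lit 5) (nat_lit 33) (nat_lit 4) (nat_lit 252) (nat_lit 174) (nat_lit 174)))) (XT.nd (nat_lit 94) (nat_lit 504) (nat_lit 0) (XT.lf (nat_lit 0) (nat_lit 4440254562) (nat_lit 252) (nat_lit 2289684897) (nat_lit 0) (nat_lit 3800777922) (nat_lit 27) (nat_lit 5) (nat_lit 30) (nat_lit 4) (nat_lit 27) (nat_lit 4) (nat_lit 253) (nat_lit 174) (nat_lit 173)) (XT.nd (nat_lit 94) (nat_lit 252) (nat_lit 0) (XT.lf (nat_lit 0) (nat_lit 7664234192) (nat_lit 252) (nat_lit 2143401350) (nat_lit 252) (nat_lit 886072884) (nat_lit 24) (nat_lit 4) (nat_lit 27) (nat_lit 5) (nat_lit 27) (nat_lit 4) (nat_lit 254) (nat_lit 174) (nat_lit 172)) (XT.lf (nat_lit 0) (nat_lit 4401746313) (nat_lit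 252) (nat_lit 3848621645) (nat_lit 0) (nat_lit 2610164910) (nat_lit 21) (nat_lit 5) (nat_lit 24) (nat_lit 4) (nat_lit 21) (nat_lit 4) (nat_lit 255) (nat_lit 174) (nat_lit 171)))))) (XT.nd (nat_lit 564) (nat_lit 252) (nat_lit 0) (XT.nd (nat_lit 282) (nat_lit 672) (nat_lit 0) (XT.nd (nat_lit 94) (nat_lit 420) (nat_lit 0) (XT.lf (nat_lit 0) (nat_lit 6326120994) (nat_lit 252) (nat_lit 3527781925) (nat_lit 252) (nat_lit 1178933575) (nat_lit 18) (nat_lit 4) (nat_lit 21) (nat_lit 5) (nat_lit 21) (nat_lit 4) (nat_lit 256) (nat_lit 174) (nat_lit 170)) (XT.nd (nat_lit 94) (nat_lit 168) (nat_lit 0) (XT.lf (nat_lit 0) (nat_lit 4181771242) (nat_lit 252) (nat_lit 5635827160) (nat_lit 0) (nat_lit 1392137887) (nat_lit 15) (nat_lit 5) (nat_lit 18) (nat_lit 4) (nat_lit 15) (nat_lit 4) (nat_lit 257) (nat_lit 174) (nat_lit 169)) (XT.lf (nat_lit 0) (nat_lit 4760720095) (nat_lit 168) (nat_lit 4961595982) (nat_lit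 168) (nat_lit 1669339768) (nat_lit 13) (nat_lit 4) (nat_lit 15) (nat_lit 5) (nat_lit 15) (nat_lit 4) (nat_lit 258) (nat_lit 174) (nat_lit 168)))) (XT.nd (nat_lit 94) (nat_lit 420) (nat_lit 0) (XT.lf (nat_lit 0) (nat_lit 3771345809) (nat_lit 252) (nat_lit 7686482340) (nat_lit 0) (nat_lit 121218115) (nat_lit 10) (nat_lit 5) (nat_lit 13) (nat_lit 4) (nat_lit 10) (nat_lit 4) (nat_lit 259) (nat_lit 174) (nat_lit 167)) (XT.nd (nat_lit 94) (nat_lit 252) (nat_lit 0) (XT.lf (nat_lit 0) (nat_lit 2932520576) (nat_lit 168) (nat_lit 6470929860) (nat_lit 168) (nat_lit 2367465144) (nat_lit 8) (nat_lit 4) (nat_lit 10) (nat_lit 5) (nat_lit 10) (nat_lit 4) (nat_lit 260) (nat_lit 174) (nat_lit 166)) (XT.lf (nat_lit 0) (nat_lit 1917184729) (nat_lit 168) (nat_lit 1256602115) (nat_lit 252) (nat_lit 8794979968) (nat_lit 5) (nat_lit 5) (nat_lit 7) (nat_lit 5) (nat_lit 8) (nat_lit 4) (nat_lit 261) (nat_lit 174) (nat_lit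 165))))) (XT.nd (nat_lit 36660) (nat_lit 0) (nat_lit 2100) (XT.nd (nat_lit 94) (nat_lit 84) (nat_lit 0) (XT.lf (nat_lit 0) (nat_lit 804147597) (nat_lit 168) (nat_lit 8082036121) (nat_lit 168) (nat_lit 3285256934) (nat_lit 3) (nat_lit 4) (nat_lit 5) (nat_lit 5) (nat_lit 5) (nat_lit 4) (nat_lit 262) (nat_lit 174) (nat_lit 164)) (XT.nd (nat_lit 36472) (nat_lit 0) (nat_lit 2940) (XT.lf (nat_lit 0) (nat_lit 2369461293) (nat_lit 252) (nat_lit 369982478) (nat_lit 84) (nat_lit 9640577823) (nat_lit 2) (nat_lit 5) (nat_lit 5) (nat_lit 5) (nat_lit 3) (nat_lit 4) (nat_lit 263) (nat_lit 174) (nat_lit 163)) (XT.lf (nat_lit 0) (nat_lit 4948631860) (nat_lit 252) (nat_lit 43103013) (nat_lit 252) (nat_lit 43103013) (nat_lit 37) (nat_lit 4) (nat_lit 40) (nat_lit 5) (nat_lit 40) (nat_lit 4) (nat_lit 250) (nat_lit 175) (nat_lit 175)))) (XT.nd (nat_lit 94) (nat_lit 504) (nat_lit 0) (XT.lf (nat_lit 0) (nat_lit 4989624059)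 (nat_lit 336) (nat_lit 925420647) (nat_lit 0) (nat_lit 4304600696) (nat_lit 33) (nat_lit 5) (nat_lit 37) (nat_lit 4) (nat_lit 33) (nat_lit 4) (nat_lit 251) (nat_lit 175) (nat_lit 174)) (XT.nd (nat_lit 94) (nat_lit 252) (nat_lit 0) (XT.lf (nat_lit 0) (nat_lit 8699867502) (nat_lit 252) (nat_lit 1511442738) (nat_lit 252) (nat_lit 164561052) (nat_lit 30) (nat_lit 4) (nat_lit 33) (nat_lit 5) (nat_lit 33) (nat_lit 4) (nat_lit 252) (nat_lit 175) (nat_lit 173)) (XT.lf (nat_lit 0) (nat_lit 4969385463) (nat_lit 252) (nat_lit 2515778705) (nat_lit 0) (nat_lit 3050198674) (nat_lit 27) (nat_lit 5) (nat_lit 30) (nat_lit 4) (nat_lit 27) (nat_lit 4) (nat_lit 253) (nat_lit 175) (nat_lit 172))))))))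
noncomputable def xc1 : XT := (XT.nd (nat_lit 38352) (nat_lit 0) (nat_lit 0) (XT.nd (nat_lit 37224) (nat_lit 0) (nat_lit 504) (XT.nd (nat_lit 470) (nat_lit 924) (nat_lit 0) (XT.nd (nat_lit 188) (nat_lit 672) (nat_lit 0) (XT.nd (nat_lit 94) (nat_lit 252) (nat_lit 0) (XT.lf (nat_lit 0) (nat_lit 7323058969) (nat_lit 252) (nat_lit 2946889314) (nat_lit 252) (nat_lit 430744239) (nat_lit 24) (nat_lit 4) (nat_lit 27) (nat_lit 5) (nat_lit 27) (nat_lit 4) (nat_lit 254) (nat_lit 175) (nat_lit 171)) (XT.lf (nat_lit 0) (nat_lit 4769259463) (nat_lit 252) (nat_lit 4319857655) (nat_lit 0) (nat_lit 1780934472) (nat_lit 21) (nat_lit 5) (nat_lit 24) (nat_lit 4) (nat_lit 21) (nat_lit 4) (nat_lit 255) (nat_lit 175) (nat_lit 170))) (XT.nd (nat_lit 94) (nat_lit 420) (nat_lit 0) (XT.lf (nat_lit 0) (nat_lit 5733425481) (nat_lit 252) (nat_lit 4419044996) (nat_lit 252) (nat_lit 892297834) (nat_lit 18) (nat_lit 4) (nat_lit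 21) (nat_lit 5) (nat_lit 21) (nat_lit 4) (nat_lit 256) (nat_lit 175) (nat_lit 169)) (XT.nd (nat_lit 94) (nat_lit 168) (nat_lit 0) (XT.lf (nat_lit 0) (nat_lit 4381111015) (nat_lit 252) (nat_lit 6372270221) (nat_lit 0) (nat_lit 471002975) (nat_lit 15) (nat_lit 5) (nat_lit 18) (nat_lit 4) (nat_lit 15) (nat_lit 4) (nat_lit 257) (nat_lit 175) (nat_lit 168)) (XT.lf (nat_lit 0) (nat_lit 3896041663) (nat_lit 168) (nat_lit 5954246973) (nat_lit 168) (nat_lit 1558512983) (nat_lit 13) (nat_lit 4) (nat_lit 15) (nat_lit 5) (nat_lit 15) (nat_lit 4) (nat_lit 258) (nat_lit 175) (nat_lit 167))))) (XT.nd (nat_lit 282) (nat_lit 252) (nat_lit 0) (XT.nd (nat_lit 94) (nat_lit 420) (nat_lit 0) (XT.lf (nat_lit 0) (nat_lit 2879104520) (nat_lit 168) (nat_lit 926321684) (nat_lit 252) (nat_lit 7793320787) (nat_lit 10) (nat_lit 5) (nat_lit 12) (nat_lit 5) (nat_lit 13) (nat_lit 4) (nat_lit 259) (nat_lit 175) (nat_lit 166))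 (XT.nd (nat_lit 94) (nat_lit 252) (nat_lit 0) (XT.lf (nat_lit 0) (nat_lit 1774239922) (nat_lit 168) (nat_lit 7578880271) (nat_lit 168) (nat_lit 2440450486) (nat_lit 8) (nat_lit 4) (nat_lit 10) (nat_lit 5) (nat_lit 10) (nat_lit 4) (nat_lit 260) (nat_lit 175) (nat_lit 165)) (XT.lf (nat_lit 0) (nat_lit 597796646) (nat_lit 168) (nat_lit 2428946052) (nat_lit 252) (nat_lit 8967357654) (nat_lit 5) (nat_lit 5) (nat_lit 7) (nat_lit 5) (nat_lit 8) (nat_lit 4) (nat_lit 261) (nat_lit 175) (nat_lit 164)))) (XT.nd (nat_lit 94) (nat_lit 252) (nat_lit 0) (XT.lf (nat_lit 0) (nat_lit 8656428824) (nat_lit 252) (nat_lit 655418922) (nat_lit 0) (nat_lit 2887821322) (nat_lit 5) (nat_lit 5) (nat_lit 8) (nat_lit 4) (nat_lit 5) (nat_lit 4) (nat_lit 262) (nat_lit 175) (nat_lit 163)) (XT.nd (nat_lit 36284) (nat_lit 0) (nat_lit 3192) (XT.lf (nat_lit 0) (nat_lit 2049234872) (nat_lit 252) (nat_lit 1980112144) (nat_lit 84)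 (nat_lit 8381386847) (nat_lit 2) (nat_lit 5) (nat_lit 5) (nat_lit 5) (nat_lit 3) (nat_lit 4) (nat_lit 263) (nat_lit 175) (nat_lit 162)) (XT.lf (nat_lit 0) (nat_lit 320693258) (nat_lit 336) (nat_lit 4247795730) (nat_lit 0) (nat_lit 320693258) (nat_lit 40) (nat_lit 5) (nat_lit 44) (nat_lit 4) (nat_lit 40) (nat_lit 4) (nat_lit 248) (nat_lit 176) (nat_lit 176)))))) (XT.nd (nat_lit 564) (nat_lit 1344) (nat_lit 0) (XT.nd (nat_lit 282) (nat_lit 756) (nat_lit 0) (XT.nd (nat_lit 94) (nat_lit 336) (nat_lit 0) (XT.lf (nat_lit 0) (nat_lit 495601308) (nat_lit 252) (nat_lit 5080160128) (nat_lit 252) (nat_lit 4346345975) (nat_lit 37) (nat_lit 4) (nat_lit 40) (nat_lit 5) (nat_lit 40) (nat_lit 4) (nat_lit 249) (nat_lit 176) (nat_lit 175)) (XT.nd (nat_lit 94) (nat_lit 252) (nat_lit 0) (XT.lf (nat_lit 0) (nat_lit 568615276) (nat_lit 336) (nat_lit 285681247) (nat_lit 84) (nat_lit 9217377509) (nat_lit 36) (nat_lit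 5) (nat_lit 40) (nat_lit 5) (nat_lit 37) (nat_lit 4) (nat_lit 250) (nat_lit 176) (nat_lit 174)) (XT.lf (nat_lit 0) (nat_lit 5568861120) (nat_lit 336) (nat_lit 1142345704) (nat_lit 0) (nat_lit 3512980252) (nat_lit 33) (nat_lit 5) (nat_lit 37) (nat_lit 4) (nat_lit 33) (nat_lit 4) (nat_lit 251) (nat_lit 176) (nat_lit 173)))) (XT.nd (nat_lit 94) (nat_lit 420) (nat_lit 0) (XT.lf (nat_lit 0) (nat_lit 334826166) (nat_lit 336) (nat_lit 2013986259) (nat_lit 84) (nat_lit 8033750903) (nat_lit 29) (nat_lit 5) (nat_lit 33) (nat_lit 5) (nat_lit 30) (nat_lit 4) (nat_lit 252) (nat_lit 176) (nat_lit 172)) (XT.nd (nat_lit 94) (nat_lit 252) (nat_lit 0) (XT.lf (nat_lit 0) (nat_lit 5388796890) (nat_lit 252) (nat_lit 2968233919) (nat_lit 0) (nat_lit 2187628451) (nat_lit 27) (nat_lit 5) (nat_lit 30) (nat_lit 4) (nat_lit 27) (nat_lit 4) (nat_lit 253) (nat_lit 176) (nat_lit 171)) (XT.lf (nat_lit 0) (nat_lit 6753984940)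 (nat_lit 252) (nat_lit 3868148327) (nat_lit 252) (nat_lit 90208598) (nat_lit 24) (nat_lit 4) (nat_lit 27) (nat_lit 5) (nat_lit 27) (nat_lit 4) (nat_lit 254) (nat_lit 176) (nat_lit 170))))) (XT.nd (nat_lit 282) (nat_lit 588) (nat_lit 0) (XT.nd (nat_lit 94) (nat_lit 504) (nat_lit 0) (XT.lf (nat_lit 0) (nat_lit 5022770236) (nat_lit 252) (nat_lit 5027408767) (nat_lit 0) (nat_lit 834164751) (nat_lit 21) (nat_lit 5) (nat_lit 24) (nat_lit 4) (nat_lit 21) (nat_lit 4) (nat_lit 255) (nat_lit 176) (nat_lit 169)) (XT.nd (nat_lit 94) (nat_lit 252) (nat_lit 0) (XT.lf (nat_lit 0) (nat_lit 4902669896) (nat_lit 252) (nat_lit 5433821435) (nat_lit 252) (nat_lit 725001291) (nat_lit 18) (nat_lit 4) (nat_lit 21) (nat_lit 5) (nat_lit 21) (nat_lit 4) (nat_lit 256) (nat_lit 176) (nat_lit 168)) (XT.lf (nat_lit 0) (nat_lit 3881626043) (nat_lit 168) (nat_lit 586712553) (nat_lit 252) (nat_lit 6775374331) (nat_lit 15)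 (nat_lit 5) (nat_lit 17) (nat_lit 5) (nat_lit 18) (nat_lit 4) (nat_lit 257) (nat_lit 176) (nat_lit 167)))) (XT.nd (nat_lit 94) (nat_lit 420) (nat_lit 0) (XT.lf (nat_lit 0) (nat_lit 2782558868) (nat_lit 168) (nat_lit 7076368267) (nat_lit 168) (nat_lit 1571953820) (nat_lit 13) (nat_lit 4) (nat_lit 15) (nat_lit 5) (nat_lit 15) (nat_lit 4) (nat_lit 258) (nat_lit 176) (nat_lit 166)) (XT.nd (nat_lit 94) (nat_lit 168) (nat_lit 0) (XT.lf (nat_lit 0) (nat_lit 1609772022) (nat_lit 168) (nat_lit 2108912739) (nat_lit 252) (nat_lit 7904722994) (nat_lit 10) (nat_lit 5) (nat_lit 12) (nat_lit 5) (nat_lit 13) (nat_lit 4) (nat_lit 259) (nat_lit 176) (nat_lit 165)) (XT.lf (nat_lit 0) (nat_lit 355774047) (nat_lit 168) (nat_lit 8822508665) (nat_lit 168) (nat_lit 2643032093) (nat_lit 8) (nat_lit 4) (nat_lit 10) (nat_lit 5) (nat_lit 10) (nat_lit 4) (nat_lit 260) (nat_lit 176) (nat_lit 164))))))) (XT.nd (nat_lit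 37130) (nat_lit 0) (nat_lit 0) (XT.nd (nat_lit 36566) (nat_lit 0) (nat_lit 1764) (XT.nd (nat_lit 36284) (nat_lit 0) (nat_lit 3192) (XT.nd (nat_lit 94) (nat_lit 420) (nat_lit 0) (XT.lf (nat_lit 0) (nat_lit 2763144105) (nat_lit 252) (nat_lit 965362336) (nat_lit 84) (nat_lit 8295713401) (nat_lit 7) (nat_lit 5) (nat_lit 10) (nat_lit 5) (nat_lit 8) (nat_lit 4) (nat_lit 261) (nat_lit 176) (nat_lit 163)) (XT.nd (nat_lit 94) (nat_lit 252) (nat_lit 0) (XT.lf (nat_lit 0) (nat_lit 8308581535) (nat_lit 252) (nat_lit 2362837589) (nat_lit 0) (nat_lit 1561318140) (nat_lit 5) (nat_lit 5) (nat_lit 8) (nat_lit 4) (nat_lit 5) (nat_lit 4) (nat_lit 262) (nat_lit 176) (nat_lit 162)) (XT.lf (nat_lit 0) (nat_lit 1598778937) (nat_lit 252) (nat_lit 3862538217) (nat_lit 84) (nat_lit 6985369662) (nat_lit 2) (nat_lit 5) (nat_lit 5) (nat_lit 5) (nat_lit 3) (nat_lit 4) (nat_lit 263) (nat_lit 176) (nat_lit 161)))) (XT.nd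 (nat_lit 94) (nat_lit 588) (nat_lit 0) (XT.lf (nat_lit 0) (nat_lit 698509280) (nat_lit 336) (nat_lit 3353115253) (nat_lit 0) (nat_lit 698509280) (nat_lit 47) (nat_lit 5) (nat_lit 51) (nat_lit 4) (nat_lit 47) (nat_lit 4) (nat_lit 246) (nat_lit 177) (nat_lit 177)) (XT.nd (nat_lit 94) (nat_lit 336) (nat_lit 0) (XT.lf (nat_lit 0) (nat_lit 1989774237) (nat_lit 252) (nat_lit 4216988685) (nat_lit 252) (nat_lit 3430908619) (nat_lit 44) (nat_lit 4) (nat_lit 47) (nat_lit 5) (nat_lit 47) (nat_lit 4) (nat_lit 247) (nat_lit 177) (nat_lit 176)) (XT.lf (nat_lit 0) (nat_lit 1177413766) (nat_lit 252) (nat_lit 160665584) (nat_lit 336) (nat_lit 8442483313) (nat_lit 40) (nat_lit 5) (nat_lit 43) (nat_lit 5) (nat_lit 44) (nat_lit 4) (nat_lit 248) (nat_lit 177) (nat_lit 175))))) (XT.nd (nat_lit 282) (nat_lit 840) (nat_lit 0) (XT.nd (nat_lit 94) (nat_lit 336) (nat_lit 0) (XT.lf (nat_lit 0) (nat_lit 282818736) (nat_lit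 252) (nat_lit 5923063916) (nat_lit 252) (nat_lit 3720752934) (nat_lit 37) (nat_lit 4) (nat_lit 40) (nat_lit 5) (nat_lit 40) (nat_lit 4) (nat_lit 249) (nat_lit 177) (nat_lit 174)) (XT.nd (nat_lit 94) (nat_lit 252) (nat_lit 0) (XT.lf (nat_lit 0) (nat_lit 1117889338) (nat_lit 336) (nat_lit 612429542) (nat_lit 84) (nat_lit 8347814054) (nat_lit 36) (nat_lit 5) (nat_lit 40) (nat_lit 5) (nat_lit 37) (nat_lit 4) (nat_lit 250) (nat_lit 177) (nat_lit 173)) (XT.lf (nat_lit 0) (nat_lit 6042997447) (nat_lit 336) (nat_lit 1576452565) (nat_lit 0) (nat_lit 2613825787) (nat_lit 33) (nat_lit 5) (nat_lit 37) (nat_lit 4) (nat_lit 33) (nat_lit 4) (nat_lit 251) (nat_lit 177) (nat_lit 172)))) (XT.nd (nat_lit 94) (nat_lit 504) (nat_lit 0) (XT.lf (nat_lit 0) (nat_lit 722963497) (nat_lit 336) (nat_lit 2575792767) (nat_lit 84) (nat_lit 7095037228) (nat_lit 29) (nat_lit 5) (nat_lit 33) (nat_lit 5) (nat_lit 30) (nat_lit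 4) (nat_lit 252) (nat_lit 177) (nat_lit 171)) (XT.nd (nat_lit 94) (nat_lit 336) (nat_lit 0) (XT.lf (nat_lit 0) (nat_lit 5698985248) (nat_lit 252) (nat_lit 3647586053) (nat_lit 0) (nat_lit 1212046337) (nat_lit 27) (nat_lit 5) (nat_lit 30) (nat_lit 4) (nat_lit 27) (nat_lit 4) (nat_lit 253) (nat_lit 177) (nat_lit 170)) (XT.lf (nat_lit 0) (nat_lit 132854813) (nat_lit 336) (nat_lit 4773846311) (nat_lit 84) (nat_lit 5821916108) (nat_lit 23) (nat_lit 5) (nat_lit 27) (nat_lit 5) (nat_lit 24) (nat_lit 4) (nat_lit 254) (nat_lit 177) (nat_lit 169)))))) (XT.nd (nat_lit 564) (nat_lit 672) (nat_lit 0) (XT.nd (nat_lit 282) (nat_lit 420) (nat_lit 0) (XT.nd (nat_lit 94) (nat_lit 504) (nat_lit 0) (XT.lf (nat_lit 0) (nat_lit 4928585006) (nat_lit 168) (nat_lit 236630244) (nat_lit 252) (nat_lit 5738118746) (nat_lit 21) (nat_lit 5) (nat_lit 23) (nat_lit 5) (nat_lit 24) (nat_lit 4) (nat_lit 255) (nat_lit 177) (nat_lit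 168)) (XT.nd (nat_lit 94) (nat_lit 252) (nat_lit 0) (XT.lf (nat_lit 0) (nat_lit 3832870978) (nat_lit 252) (nat_lit 6573312305) (nat_lit 252) (nat_lit 676845939) (nat_lit 18) (nat_lit 4) (nat_lit 21) (nat_lit 5) (nat_lit 21) (nat_lit 4) (nat_lit 256) (nat_lit 177) (nat_lit 167)) (XT.lf (nat_lit 0) (nat_lit 2661043794) (nat_lit 168) (nat_lit 1782757734) (nat_lit 252) (nat_lit 6823935239) (nat_lit 15) (nat_lit 5) (nat_lit 17) (nat_lit 5) (nat_lit 18) (nat_lit 4) (nat_lit 257) (nat_lit 177) (nat_lit 166)))) (XT.nd (nat_lit 94) (nat_lit 252) (nat_lit 0) (XT.lf (nat_lit 0) (nat_lit 1418953819) (nat_lit 168) (nat_lit 8329287977) (nat_lit 168) (nat_lit 1709678187) (nat_lit 13) (nat_lit 4) (nat_lit 15) (nat_lit 5) (nat_lit 15) (nat_lit 4) (nat_lit 258) (nat_lit 177) (nat_lit 165)) (XT.nd (nat_lit 94) (nat_lit 0) (nat_lit 0) (XT.lf (nat_lit 0) (nat_lit 84494416) (nat_lit 168) (nat_lit 3425142433) (nat_lit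 252) (nat_lit 8143469265) (nat_lit 10) (nat_lit 5) (nat_lit 12) (nat_lit 5) (nat_lit 13) (nat_lit 4) (nat_lit 259) (nat_lit 177) (nat_lit 164)) (XT.lf (nat_lit 0) (nat_lit 8893489458) (nat_lit 252) (nat_lit 1294522565) (nat_lit 0) (nat_lit 1665652228) (nat_lit 10) (nat_lit 5) (nat_lit 13) (nat_lit 4) (nat_lit 10) (nat_lit 4) (nat_lit 260) (nat_lit 177) (nat_lit 163))))) (XT.nd (nat_lit 36096) (nat_lit 0) (nat_lit 3780) (XT.nd (nat_lit 94) (nat_lit 420) (nat_lit 0) (XT.lf (nat_lit 0) (nat_lit 2381307618) (nat_lit 252) (nat_lit 2776933249) (nat_lit 84) (nat_lit 6900968065) (nat_lit 7) (nat_lit 5) (nat_lit 10) (nat_lit 5) (nat_lit 8) (nat_lit 4) (nat_lit 261) (nat_lit 177) (nat_lit 162)) (XT.nd (nat_lit 94) (nat_lit 252) (nat_lit 0) (XT.lf (nat_lit 0) (nat_lit 7833270215) (nat_lit 252) (nat_lit 4338362724) (nat_lit 0) (nat_lit 99365035) (nat_lit 5) (nat_lit 5) (nat_lit 8) (nat_lit 4) (nat_lit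 5) (nat_lit 4) (nat_lit 262) (nat_lit 177) (nat_lit 161)) (XT.lf (nat_lit 0) (nat_lit 1017560340) (nat_lit 252) (nat_lit 6019488688) (nat_lit 84) (nat_lit 5450873978) (nat_lit 2) (nat_lit 5) (nat_lit 5) (nat_lit 5) (nat_lit 3) (nat_lit 4) (nat_lit 263) (nat_lit 177) (nat_lit 160)))) (XT.nd (nat_lit 94) (nat_lit 672) (nat_lit 0) (XT.lf (nat_lit 0) (nat_lit 1091231275) (nat_lit 336) (nat_lit 2435197188) (nat_lit 0) (nat_lit 1091231275) (nat_lit 55) (nat_lit 5) (nat_lit 59) (nat_lit 4) (nat_lit 55) (nat_lit 4) (nat_lit 244) (nat_lit 178) (nat_lit 178)) (XT.nd (nat_lit 94) (nat_lit 336) (nat_lit 0) (XT.lf (nat_lit 0) (nat_lit 3541035739) (nat_lit 336) (nat_lit 3333763174) (nat_lit 336) (nat_lit 2491694556) (nat_lit 51) (nat_lit 4) (nat_lit 55) (nat_lit 5) (nat_lit 55) (nat_lit 4) (nat_lit 245) (nat_lit 178) (nat_lit 177)) (XT.lf (nat_lit 0) (nat_lit 2147311920) (nat_lit 336) (nat_lit 6807532205)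 (nat_lit 0) (nat_lit 547638987) (nat_lit 47) (nat_lit 5) (nat_lit 51) (nat_lit 4) (nat_lit 47) (nat_lit 4) (nat_lit 246) (nat_lit 178) (nat_lit 176))))))))
noncomputable def xc2 : XT := (XT.nd (nat_lit 37788) (nat_lit 0) (nat_lit 84) (XT.nd (nat_lit 1034) (nat_lit 1092) (nat_lit 0) (XT.nd (nat_lit 470) (nat_lit 1512) (nat_lit 0) (XT.nd (nat_lit 188) (nat_lit 588) (nat_lit 0) (XT.nd (nat_lit 94) (nat_lit 336) (nat_lit 0) (XT.lf (nat_lit 0) (nat_lit 1785975513) (nat_lit 252) (nat_lit 5107651066) (nat_lit 252) (nat_lit 2748480484) (nat_lit 44) (nat_lit 4) (nat_lit 47) (nat_lit 5) (nat_lit 47) (nat_lit 4) (nat_lit 247) (nat_lit 178) (nat_lit 175)) (XT.lf (nat_lit 0) (nat_lit 856118442) (nat_lit 252) (nat_lit 1084472799) (nat_lit 336) (nat_lit 7846396308) (nat_lit 40) (nat_lit 5) (nat_lit 43) (nat_lit 5) (nat_lit 44) (nat_lit 4) (nat_lit 248) (nat_lit 178) (nat_lit 174))) (XT.nd (nat_lit 94) (nat_lit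 588) (nat_lit 0) (XT.lf (nat_lit 0) (nat_lit 6734650036) (nat_lit 336) (nat_lit 139755868) (nat_lit 0) (nat_lit 3061235625) (nat_lit 40) (nat_lit 5) (nat_lit 44) (nat_lit 4) (nat_lit 40) (nat_lit 4) (nat_lit 249) (nat_lit 178) (nat_lit 173)) (XT.nd (nat_lit 94) (nat_lit 252) (nat_lit 0) (XT.lf (nat_lit 0) (nat_lit 1564220925) (nat_lit 336) (nat_lit 1152083150) (nat_lit 84) (nat_lit 7372789671) (nat_lit 36) (nat_lit 5) (nat_lit 40) (nat_lit 5) (nat_lit 37) (nat_lit 4) (nat_lit 250) (nat_lit 178) (nat_lit 172)) (XT.lf (nat_lit 0) (nat_lit 6412594218) (nat_lit 336) (nat_lit 2228255029) (nat_lit 0) (nat_lit 1606073084) (nat_lit 33) (nat_lit 5) (nat_lit 37) (nat_lit 4) (nat_lit 33) (nat_lit 4) (nat_lit 251) (nat_lit 178) (nat_lit 171))))) (XT.nd (nat_lit 282) (nat_lit 672) (nat_lit 0) (XT.nd (nat_lit 94) (nat_lit 504) (nat_lit 0) (XT.lf (nat_lit 0) (nat_lit 1004041634) (nat_lit 336) (nat_lit 3360254693)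 (nat_lit 84) (nat_lit 6045342926) (nat_lit 29) (nat_lit 5) (nat_lit 33) (nat_lit 5) (nat_lit 30) (nat_lit 4) (nat_lit 252) (nat_lit 178) (nat_lit 170)) (XT.nd (nat_lit 94) (nat_lit 336) (nat_lit 0) (XT.lf (nat_lit 0) (nat_lit 5900317668) (nat_lit 252) (nat_lit 4554639173) (nat_lit 0) (nat_lit 122297658) (nat_lit 27) (nat_lit 5) (nat_lit 30) (nat_lit 4) (nat_lit 27) (nat_lit 4) (nat_lit 253) (nat_lit 178) (nat_lit 169)) (XT.lf (nat_lit 0) (nat_lit 242338158) (nat_lit 336) (nat_lit 5823284029) (nat_lit 84) (nat_lit 4683978099) (nat_lit 23) (nat_lit 5) (nat_lit 27) (nat_lit 5) (nat_lit 24) (nat_lit 4) (nat_lit 254) (nat_lit 178) (nat_lit 168)))) (XT.nd (nat_lit 94) (nat_lit 504) (nat_lit 0) (XT.lf (nat_lit 0) (nat_lit 3755519400) (nat_lit 168) (nat_lit 1449481209) (nat_lit 252) (nat_lit 5721755871) (nat_lit 21) (nat_lit 5) (nat_lit 23) (nat_lit 5) (nat_lit 24) (nat_lit 4) (nat_lit 255) (nat_lit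 178) (nat_lit 167)) (XT.nd (nat_lit 94) (nat_lit 252) (nat_lit 0) (XT.lf (nat_lit 0) (nat_lit 2522762540) (nat_lit 252) (nat_lit 7838866279) (nat_lit 252) (nat_lit 747774781) (nat_lit 18) (nat_lit 4) (nat_lit 21) (nat_lit 5) (nat_lit 21) (nat_lit 4) (nat_lit 256) (nat_lit 178) (nat_lit 166)) (XT.lf (nat_lit 0) (nat_lit 1194480273) (nat_lit 168) (nat_lit 3107620752) (nat_lit 252) (nat_lit 6994571076) (nat_lit 15) (nat_lit 5) (nat_lit 17) (nat_lit 5) (nat_lit 18) (nat_lit 4) (nat_lit 257) (nat_lit 178) (nat_lit 165)))))) (XT.nd (nat_lit 36190) (nat_lit 0) (nat_lit 3528) (XT.nd (nat_lit 282) (nat_lit 672) (nat_lit 0) (XT.nd (nat_lit 94) (nat_lit 420) (nat_lit 0) (XT.lf (nat_lit 0) (nat_lit 9520289794) (nat_lit 252) (nat_lit 191934470) (nat_lit 0) (nat_lit 1777649857) (nat_lit 15) (nat_lit 5) (nat_lit 18) (nat_lit 4) (nat_lit 15) (nat_lit 4) (nat_lit 258) (nat_lit 178) (nat_lit 164)) (XT.nd (nat_lit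 94) (nat_lit 168) (nat_lit 0) (XT.lf (nat_lit 0) (nat_lit 3196960362) (nat_lit 252) (nat_lit 1660020560) (nat_lit 84) (nat_lit 6830233911) (nat_lit 12) (nat_lit 5) (nat_lit 15) (nat_lit 5) (nat_lit 13) (nat_lit 4) (nat_lit 259) (nat_lit 178) (nat_lit 163)) (XT.lf (nat_lit 0) (nat_lit 8490531467) (nat_lit 252) (nat_lit 3194622465) (nat_lit 0) (nat_lit 205778890) (nat_lit 10) (nat_lit 5) (nat_lit 13) (nat_lit 4) (nat_lit 10) (nat_lit 4) (nat_lit 260) (nat_lit 178) (nat_lit 162)))) (XT.nd (nat_lit 94) (nat_lit 420) (nat_lit 0) (XT.lf (nat_lit 0) (nat_lit 1874120567) (nat_lit 252) (nat_lit 4852614828) (nat_lit 84) (nat_lit 5372606767) (nat_lit 7) (nat_lit 5) (nat_lit 10) (nat_lit 5) (nat_lit 8) (nat_lit 4) (nat_lit 261) (nat_lit 178) (nat_lit 161)) (XT.nd (nat_lit 94) (nat_lit 252) (nat_lit 0) (XT.lf (nat_lit 0) (nat_lit 5712467197) (nat_lit 168) (nat_lit 1534563436) (nat_lit 252) (nat_lit 5066867409)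 (nat_lit 5) (nat_lit 5) (nat_lit 7) (nat_lit 5) (nat_lit 8) (nat_lit 4) (nat_lit 262) (nat_lit 178) (nat_lit 160)) (XT.lf (nat_lit 0) (nat_lit 304891165) (nat_lit 252) (nat_lit 8453516471) (nat_lit 84) (nat_lit 3776083605) (nat_lit 2) (nat_lit 5) (nat_lit 5) (nat_lit 5) (nat_lit 3) (nat_lit 4) (nat_lit 263) (nat_lit 178) (nat_lit 159))))) (XT.nd (nat_lit 282) (nat_lit 924) (nat_lit 0) (XT.nd (nat_lit 94) (nat_lit 672) (nat_lit 0) (XT.lf (nat_lit 0) (nat_lit 1500326852) (nat_lit 420) (nat_lit 1491017345) (nat_lit 0) (nat_lit 1500326852) (nat_lit 63) (nat_lit 5) (nat_lit 68) (nat_lit 4) (nat_lit 63) (nat_lit 4) (nat_lit 242) (nat_lit 179) (nat_lit 179)) (XT.nd (nat_lit 94) (nat_lit 336) (nat_lit 0) (XT.lf (nat_lit 0) (nat_lit 5155120243) (nat_lit 336) (nat_lit 2427654389) (nat_lit 336) (nat_lit 1525609433) (nat_lit 59) (nat_lit 4) (nat_lit 63) (nat_lit 5) (nat_lit 63) (nat_lit 4) (nat_lit 243)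 (nat_lit 179) (nat_lit 178)) (XT.lf (nat_lit 0) (nat_lit 2991892407) (nat_lit 336) (nat_lit 4967318194) (nat_lit 0) (nat_lit 1278282768) (nat_lit 55) (nat_lit 5) (nat_lit 59) (nat_lit 4) (nat_lit 55) (nat_lit 4) (nat_lit 244) (nat_lit 179) (nat_lit 177)))) (XT.nd (nat_lit 94) (nat_lit 588) (nat_lit 0) (XT.lf (nat_lit 0) (nat_lit 3346044432) (nat_lit 336) (nat_lit 4276000926) (nat_lit 336) (nat_lit 1748798420) (nat_lit 51) (nat_lit 4) (nat_lit 55) (nat_lit 5) (nat_lit 55) (nat_lit 4) (nat_lit 245) (nat_lit 179) (nat_lit 176)) (XT.nd (nat_lit 94) (nat_lit 252) (nat_lit 0) (XT.lf (nat_lit 0) (nat_lit 2392833496) (nat_lit 252) (nat_lit 411154743) (nat_lit 336) (nat_lit 6704983602) (nat_lit 47) (nat_lit 5) (nat_lit 50) (nat_lit 5) (nat_lit 51) (nat_lit 4) (nat_lit 246) (nat_lit 179) (nat_lit 175)) (XT.lf (nat_lit 0) (nat_lit 1378136854) (nat_lit 252) (nat_lit 6103949928) (nat_lit 252) (nat_lit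 2168896575) (nat_lit 44) (nat_lit 4) (nat_lit 47) (nat_lit 5) (nat_lit 47) (nat_lit 4) (nat_lit 247) (nat_lit 179) (nat_lit 174))))))) (XT.nd (nat_lit 1128) (nat_lit 756) (nat_lit 0) (XT.nd (nat_lit 564) (nat_lit 1260) (nat_lit 0) (XT.nd (nat_lit 282) (nat_lit 756) (nat_lit 0) (XT.nd (nat_lit 94) (nat_lit 336) (nat_lit 0) (XT.lf (nat_lit 0) (nat_lit 326074937) (nat_lit 252) (nat_lit 2116248144) (nat_lit 336) (nat_lit 7355579604) (nat_lit 40) (nat_lit 5) (nat_lit 43) (nat_lit 5) (nat_lit 44) (nat_lit 4) (nat_lit 248) (nat_lit 179) (nat_lit 173)) (XT.nd (nat_lit 94) (nat_lit 336) (nat_lit 0) (XT.lf (nat_lit 0) (nat_lit 7166624716) (nat_lit 336) (nat_lit 764614337) (nat_lit 0) (nat_lit 2017759113) (nat_lit 40) (nat_lit 5) (nat_lit 44) (nat_lit 4) (nat_lit 40) (nat_lit 4) (nat_lit 249) (nat_lit 179) (nat_lit 172)) (XT.lf (nat_lit 0) (nat_lit 1908138304) (nat_lit 336) (nat_lit 1905280793) (nat_lit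 84) (nat_lit 6291150344) (nat_lit 36) (nat_lit 5) (nat_lit 40) (nat_lit 5) (nat_lit 37) (nat_lit 4) (nat_lit 250) (nat_lit 179) (nat_lit 171)))) (XT.nd (nat_lit 94) (nat_lit 504) (nat_lit 0) (XT.lf (nat_lit 0) (nat_lit 6678088877) (nat_lit 336) (nat_lit 3098524552) (nat_lit 0) (nat_lit 488529391) (nat_lit 33) (nat_lit 5) (nat_lit 37) (nat_lit 4) (nat_lit 33) (nat_lit 4) (nat_lit 251) (nat_lit 179) (nat_lit 170)) (XT.nd (nat_lit 94) (nat_lit 168) (nat_lit 0) (XT.lf (nat_lit 0) (nat_lit 1178393254) (nat_lit 336) (nat_lit 4368300504) (nat_lit 84) (nat_lit 4883425606) (nat_lit 29) (nat_lit 5) (nat_lit 33) (nat_lit 5) (nat_lit 30) (nat_lit 4) (nat_lit 252) (nat_lit 179) (nat_lit 169)) (XT.lf (nat_lit 0) (nat_lit 4897347102) (nat_lit 168) (nat_lit 1108031190) (nat_lit 252) (nat_lit 4594781503) (nat_lit 27) (nat_lit 5) (nat_lit 29) (nat_lit 5) (nat_lit 30) (nat_lit 4) (nat_lit 253) (nat_lit 179)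 (nat_lit 168))))) (XT.nd (nat_lit 282) (nat_lit 504) (nat_lit 0) (XT.nd (nat_lit 94) (nat_lit 420) (nat_lit 0) (XT.lf (nat_lit 0) (nat_lit 240416431) (nat_lit 336) (nat_lit 7106907050) (nat_lit 84) (nat_lit 3428027561) (nat_lit 23) (nat_lit 5) (nat_lit 27) (nat_lit 5) (nat_lit 24) (nat_lit 4) (nat_lit 254) (nat_lit 179) (nat_lit 167)) (XT.nd (nat_lit 94) (nat_lit 252) (nat_lit 0) (XT.lf (nat_lit 0) (nat_lit 2346192630) (nat_lit 168) (nat_lit 2786470749) (nat_lit 252) (nat_lit 5822308399) (nat_lit 21) (nat_lit 5) (nat_lit 23) (nat_lit 5) (nat_lit 24) (nat_lit 4) (nat_lit 255) (nat_lit 179) (nat_lit 166)) (XT.lf (nat_lit 0) (nat_lit 970793969) (nat_lit 252) (nat_lit 9231981235) (nat_lit 252) (nat_lit 937871768) (nat_lit 18) (nat_lit 4) (nat_lit 21) (nat_lit 5) (nat_lit 21) (nat_lit 4) (nat_lit 256) (nat_lit 179) (nat_lit 165)))) (XT.nd (nat_lit 94) (nat_lit 420) (nat_lit 0) (XT.lf (nat_lit 0)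 (nat_lit 4048861070) (nat_lit 336) (nat_lit 508014210) (nat_lit 84) (nat_lit 6773475192) (nat_lit 17) (nat_lit 5) (nat_lit 21) (nat_lit 5) (nat_lit 18) (nat_lit 4) (nat_lit 257) (nat_lit 179) (nat_lit 164)) (XT.nd (nat_lit 94) (nat_lit 252) (nat_lit 0) (XT.lf (nat_lit 0) (nat_lit 9191246943) (nat_lit 252) (nat_lit 2018545784) (nat_lit 0) (nat_lit 316412864) (nat_lit 15) (nat_lit 5) (nat_lit 18) (nat_lit 4) (nat_lit 15) (nat_lit 4) (nat_lit 258) (nat_lit 179) (nat_lit 163)) (XT.lf (nat_lit 0) (nat_lit 2765174362) (nat_lit 252) (nat_lit 3656588269) (nat_lit 84) (nat_lit 5304540529) (nat_lit 12) (nat_lit 5) (nat_lit 15) (nat_lit 5) (nat_lit 13) (nat_lit 4) (nat_lit 259) (nat_lit 179) (nat_lit 162)))))) (XT.nd (nat_lit 36002) (nat_lit 0) (nat_lit 3444) (XT.nd (nat_lit 282) (nat_lit 168) (nat_lit 0) (XT.nd (nat_lit 94) (nat_lit 420) (nat_lit 0) (XT.lf (nat_lit 0) (nat_lit 6562101573) (nat_lit 168)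 (nat_lit 1418673215) (nat_lit 252) (nat_lit 3951975336) (nat_lit 10) (nat_lit 5) (nat_lit 12) (nat_lit 5) (nat_lit 13) (nat_lit 4) (nat_lit 260) (nat_lit 179) (nat_lit 161)) (XT.nd (nat_lit 94) (nat_lit 168) (nat_lit 0) (XT.lf (nat_lit 0) (nat_lit 1240982657) (nat_lit 252) (nat_lit 7194863797) (nat_lit 84) (nat_lit 3708820576) (nat_lit 7) (nat_lit 5) (nat_lit 10) (nat_lit 5) (nat_lit 8) (nat_lit 4) (nat_lit 261) (nat_lit 179) (nat_lit 160)) (XT.lf (nat_lit 0) (nat_lit 3221672013) (nat_lit 168) (nat_lit 3313096694) (nat_lit 252) (nat_lit 5827223544) (nat_lit 5) (nat_lit 5) (nat_lit 7) (nat_lit 5) (nat_lit 8) (nat_lit 4) (nat_lit 262) (nat_lit 179) (nat_lit 159)))) (XT.nd (nat_lit 35532) (nat_lit 0) (nat_lit 5460) (XT.lf (nat_lit 0) (nat_lit 1412571544) (nat_lit 168) (nat_lit 10621057660) (nat_lit 168) (nat_lit 552601931) (nat_lit 3) (nat_lit 4) (nat_lit 5) (nat_lit 5) (nat_lit 5) (nat_lit 4)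 (nat_lit 263) (nat_lit 179) (nat_lit 158)) (XT.nd (nat_lit 94) (nat_lit 336) (nat_lit 0) (XT.lf (nat_lit 0) (nat_lit 1927354424) (nat_lit 420) (nat_lit 517382435) (nat_lit 0) (nat_lit 1927354424) (nat_lit 72) (nat_lit 5) (nat_lit 77) (nat_lit 4) (nat_lit 72) (nat_lit 4) (nat_lit 240) (nat_lit 180) (nat_lit 180)) (XT.lf (nat_lit 0) (nat_lit 6838114198) (nat_lit 336) (nat_lit 1495678983) (nat_lit 336) (nat_lit 529385876) (nat_lit 68) (nat_lit 4) (nat_lit 72) (nat_lit 5) (nat_lit 72) (nat_lit 4) (nat_lit 241) (nat_lit 180) (nat_lit 179))))) (XT.nd (nat_lit 282) (nat_lit 924) (nat_lit 0) (XT.nd (nat_lit 94) (nat_lit 672) (nat_lit 0) (XT.lf (nat_lit 0) (nat_lit 3873239407) (nat_lit 420) (nat_lit 3074660851) (nat_lit 0) (nat_lit 2037577922) (nat_lit 63) (nat_lit 5) (nat_lit 68) (nat_lit 4) (nat_lit 63) (nat_lit 4) (nat_lit 242) (nat_lit 180) (nat_lit 178)) (XT.nd (nat_lit 94) (nat_lit 336) (nat_lit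 0) (XT.lf (nat_lit 0) (nat_lit 4968774963) (nat_lit 336) (nat_lit 3425542100) (nat_lit 336) (nat_lit 718339595) (nat_lit 59) (nat_lit 4) (nat_lit 63) (nat_lit 5) (nat_lit 63) (nat_lit 4) (nat_lit 243) (nat_lit 180) (nat_lit 177)) (XT.lf (nat_lit 0) (nat_lit 3707530355) (nat_lit 336) (nat_lit 5258204366) (nat_lit 0) (nat_lit 278282893) (nat_lit 55) (nat_lit 5) (nat_lit 59) (nat_lit 4) (nat_lit 55) (nat_lit 4) (nat_lit 244) (nat_lit 180) (nat_lit 176)))) (XT.nd (nat_lit 94) (nat_lit 588) (nat_lit 0) (XT.lf (nat_lit 0) (nat_lit 2955831033) (nat_lit 336) (nat_lit 5319523021) (nat_lit 336) (nat_lit 1104195493) (nat_lit 51) (nat_lit 4) (nat_lit 55) (nat_lit 5) (nat_lit 55) (nat_lit 4) (nat_lit 245) (nat_lit 180) (nat_lit 175)) (XT.nd (nat_lit 94) (nat_lit 252) (nat_lit 0) (XT.lf (nat_lit 0) (nat_lit 1884418142) (nat_lit 252) (nat_lit 1486217394) (nat_lit 336) (nat_lit 6149007586) (nat_lit 47) (nat_lit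 5) (nat_lit 50) (nat_lit 5) (nat_lit 51) (nat_lit 4) (nat_lit 246) (nat_lit 180) (nat_lit 174)) (XT.lf (nat_lit 0) (nat_lit 765775552) (nat_lit 252) (nat_lit 7207064466) (nat_lit 252) (nat_lit 1691470912) (nat_lit 44) (nat_lit 4) (nat_lit 47) (nat_lit 5) (nat_lit 47) (nat_lit 4) (nat_lit 247) (nat_lit 180) (nat_lit 173))))))))
noncomputable def xc3 : XT := (XT.nd (nat_lit 37412) (nat_lit 0) (nat_lit 0) (XT.nd (nat_lit 1034) (nat_lit 840) (nat_lit 0) (XT.nd (nat_lit 470) (nat_lit 1176) (nat_lit 0) (XT.nd (nat_lit 188) (nat_lit 924) (nat_lit 0) (XT.nd (nat_lit 94) (nat_lit 252) (nat_lit 0) (XT.lf (nat_lit 0) (nat_lit 2848474250) (nat_lit 336) (nat_lit 403971818) (nat_lit 84) (nat_lit 6560713728) (nat_lit 43) (nat_lit 5) (nat_lit 47) (nat_lit 5) (nat_lit 44) (nat_lit 4) (nat_lit 248) (nat_lit 180) (nat_lit 172)) (XT.lf (nat_lit 0) (nat_lit 7499166755) (nat_lit 336) (nat_lit 1598908946) (nat_lit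 0) (nat_lit 868755895) (nat_lit 40) (nat_lit 5) (nat_lit 44) (nat_lit 4) (nat_lit 40) (nat_lit 4) (nat_lit 249) (nat_lit 180) (nat_lit 171))) (XT.nd (nat_lit 94) (nat_lit 588) (nat_lit 0) (XT.lf (nat_lit 0) (nat_lit 2150048526) (nat_lit 336) (nat_lit 2872913935) (nat_lit 84) (nat_lit 5101615872) (nat_lit 36) (nat_lit 5) (nat_lit 40) (nat_lit 5) (nat_lit 37) (nat_lit 4) (nat_lit 250) (nat_lit 180) (nat_lit 170)) (XT.nd (nat_lit 94) (nat_lit 336) (nat_lit 0) (XT.lf (nat_lit 0) (nat_lit 6090934401) (nat_lit 252) (nat_lit 757299197) (nat_lit 336) (nat_lit 3439429907) (nat_lit 33) (nat_lit 5) (nat_lit 36) (nat_lit 5) (nat_lit 37) (nat_lit 4) (nat_lit 251) (nat_lit 180) (nat_lit 169)) (XT.lf (nat_lit 0) (nat_lit 1246224713) (nat_lit 336) (nat_lit 5601123300) (nat_lit 84) (nat_lit 3607910052) (nat_lit 29) (nat_lit 5) (nat_lit 33) (nat_lit 5) (nat_lit 30) (nat_lit 4) (nat_lit 252) (nat_lit 180) (nat_lit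 168))))) (XT.nd (nat_lit 282) (nat_lit 504) (nat_lit 0) (XT.nd (nat_lit 94) (nat_lit 504) (nat_lit 0) (XT.lf (nat_lit 0) (nat_lit 3543865900) (nat_lit 168) (nat_lit 2460791919) (nat_lit 252) (nat_lit 4623039994) (nat_lit 27) (nat_lit 5) (nat_lit 29) (nat_lit 5) (nat_lit 30) (nat_lit 4) (nat_lit 253) (nat_lit 180) (nat_lit 167)) (XT.nd (nat_lit 94) (nat_lit 168) (nat_lit 0) (XT.lf (nat_lit 0) (nat_lit 127087358) (nat_lit 336) (nat_lit 8626234638) (nat_lit 84) (nat_lit 2052577981) (nat_lit 23) (nat_lit 5) (nat_lit 27) (nat_lit 5) (nat_lit 24) (nat_lit 4) (nat_lit 254) (nat_lit 180) (nat_lit 166)) (XT.lf (nat_lit 0) (nat_lit 698936653) (nat_lit 168) (nat_lit 4249181291) (nat_lit 252) (nat_lit 6039895343) (nat_lit 21) (nat_lit 5) (nat_lit 23) (nat_lit 5) (nat_lit 24) (nat_lit 4) (nat_lit 255) (nat_lit 180) (nat_lit 165)))) (XT.nd (nat_lit 94) (nat_lit 504) (nat_lit 0) (XT.lf (nat_lit 0) (nat_lit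 9938625267) (nat_lit 252) (nat_lit 806168238) (nat_lit 0) (nat_lit 431681132) (nat_lit 21) (nat_lit 5) (nat_lit 24) (nat_lit 4) (nat_lit 21) (nat_lit 4) (nat_lit 256) (nat_lit 180) (nat_lit 164)) (XT.nd (nat_lit 94) (nat_lit 168) (nat_lit 0) (XT.lf (nat_lit 0) (nat_lit 3694075170) (nat_lit 336) (nat_lit 2427507947) (nat_lit 84) (nat_lit 5246868356) (nat_lit 17) (nat_lit 5) (nat_lit 21) (nat_lit 5) (nat_lit 18) (nat_lit 4) (nat_lit 257) (nat_lit 180) (nat_lit 163)) (XT.lf (nat_lit 0) (nat_lit 7457278465) (nat_lit 168) (nat_lit 1302143817) (nat_lit 252) (nat_lit 2807580669) (nat_lit 15) (nat_lit 5) (nat_lit 17) (nat_lit 5) (nat_lit 18) (nat_lit 4) (nat_lit 258) (nat_lit 180) (nat_lit 162)))))) (XT.nd (nat_lit 35814) (nat_lit 0) (nat_lit 4200) (XT.nd (nat_lit 282) (nat_lit 168) (nat_lit 0) (XT.nd (nat_lit 94) (nat_lit 420) (nat_lit 0) (XT.lf (nat_lit 0) (nat_lit 2212826351) (nat_lit 252) (nat_lit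 5909487648) (nat_lit 84) (nat_lit 3648136313) (nat_lit 12) (nat_lit 5) (nat_lit 15) (nat_lit 5) (nat_lit 13) (nat_lit 4) (nat_lit 259) (nat_lit 180) (nat_lit 161)) (XT.nd (nat_lit 94) (nat_lit 252) (nat_lit 0) (XT.lf (nat_lit 0) (nat_lit 4166356245) (nat_lit 168) (nat_lit 3185311138) (nat_lit 252) (nat_lit 4627916471) (nat_lit 10) (nat_lit 5) (nat_lit 12) (nat_lit 5) (nat_lit 13) (nat_lit 4) (nat_lit 260) (nat_lit 180) (nat_lit 160)) (XT.lf (nat_lit 0) (nat_lit 481144523) (nat_lit 252) (nat_lit 9806452383) (nat_lit 84) (nat_lit 1907640277) (nat_lit 7) (nat_lit 5) (nat_lit 10) (nat_lit 5) (nat_lit 8) (nat_lit 4) (nat_lit 261) (nat_lit 180) (nat_lit 159)))) (XT.nd (nat_lit 94) (nat_lit 0) (nat_lit 0) (XT.lf (nat_lit 0) (nat_lit 458474130) (nat_lit 168) (nat_lit 5236034464) (nat_lit 252) (nat_lit 6720868578) (nat_lit 5) (nat_lit 5) (nat_lit 7) (nat_lit 5) (nat_lit 8) (nat_lit 4) (nat_lit 262)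 (nat_lit 180) (nat_lit 158)) (XT.nd (nat_lit 35344) (nat_lit 0) (nat_lit 6048) (XT.lf (nat_lit 0) (nat_lit 11106834308) (nat_lit 252) (nat_lit 1503834394) (nat_lit 0) (nat_lit 31976073) (nat_lit 5) (nat_lit 5) (nat_lit 8) (nat_lit 4) (nat_lit 5) (nat_lit 4) (nat_lit 263) (nat_lit 180) (nat_lit 157)) (XT.lf (nat_lit 0) (nat_lit 500430440) (nat_lit 420) (nat_lit 1879115569) (nat_lit 420) (nat_lit 1879115569) (nat_lit 77) (nat_lit 4) (nat_lit 82) (nat_lit 5) (nat_lit 82) (nat_lit 4) (nat_lit 238) (nat_lit 181) (nat_lit 181))))) (XT.nd (nat_lit 282) (nat_lit 1008) (nat_lit 0) (XT.nd (nat_lit 94) (nat_lit 756) (nat_lit 0) (XT.lf (nat_lit 0) (nat_lit 489083542) (nat_lit 504) (nat_lit 39832324) (nat_lit 84) (nat_lit 8101628482) (nat_lit 76) (nat_lit 5) (nat_lit 82) (nat_lit 5) (nat_lit 77) (nat_lit 4) (nat_lit 239) (nat_lit 181) (nat_lit 180)) (XT.nd (nat_lit 94) (nat_lit 420) (nat_lit 0) (XT.lf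 (nat_lit 0) (nat_lit 4794762540) (nat_lit 420) (nat_lit 1123166052) (nat_lit 0) (nat_lit 2828356065) (nat_lit 72) (nat_lit 5) (nat_lit 77) (nat_lit 4) (nat_lit 72) (nat_lit 4) (nat_lit 240) (nat_lit 181) (nat_lit 179)) (XT.lf (nat_lit 0) (nat_lit 338599494) (nat_lit 420) (nat_lit 2210973031) (nat_lit 84) (nat_lit 6317673870) (nat_lit 67) (nat_lit 5) (nat_lit 72) (nat_lit 5) (nat_lit 68) (nat_lit 4) (nat_lit 241) (nat_lit 181) (nat_lit 178)))) (XT.nd (nat_lit 94) (nat_lit 672) (nat_lit 0) (XT.lf (nat_lit 0) (nat_lit 4656367797) (nat_lit 420) (nat_lit 3352648963) (nat_lit 0) (nat_lit 982872184) (nat_lit 63) (nat_lit 5) (nat_lit 68) (nat_lit 4) (nat_lit 63) (nat_lit 4) (nat_lit 242) (nat_lit 181) (nat_lit 177)) (XT.nd (nat_lit 94) (nat_lit 336) (nat_lit 0) (XT.lf (nat_lit 0) (nat_lit 4595863849) (nat_lit 336) (nat_lit 4520453642) (nat_lit 336) (nat_lit 4889411) (nat_lit 59) (nat_lit 4) (nat_lit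 63) (nat_lit 5) (nat_lit 63) (nat_lit 4) (nat_lit 243) (nat_lit 181) (nat_lit 176)) (XT.lf (nat_lit 0) (nat_lit 3501842123) (nat_lit 252) (nat_lit 837715234) (nat_lit 336) (nat_lit 4915015891) (nat_lit 55) (nat_lit 5) (nat_lit 58) (nat_lit 5) (nat_lit 59) (nat_lit 4) (nat_lit 244) (nat_lit 181) (nat_lit 175))))))) (XT.nd (nat_lit 1128) (nat_lit 1344) (nat_lit 0) (XT.nd (nat_lit 564) (nat_lit 1260) (nat_lit 0) (XT.nd (nat_lit 282) (nat_lit 924) (nat_lit 0) (XT.nd (nat_lit 94) (nat_lit 336) (nat_lit 0) (XT.lf (nat_lit 0) (nat_lit 2369933694) (nat_lit 336) (nat_lit 6465564546) (nat_lit 336) (nat_lit 557122840) (nat_lit 51) (nat_lit 4) (nat_lit 55) (nat_lit 5) (nat_lit 55) (nat_lit 4) (nat_lit 245) (nat_lit 181) (nat_lit 174)) (XT.nd (nat_lit 94) (nat_lit 0) (nat_lit 0) (XT.lf (nat_lit 0) (nat_lit 1175565059) (nat_lit 252) (nat_lit 2666115980) (nat_lit 336) (nat_lit 5693047063) (nat_lit 47) (nat_lit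 5) (nat_lit 50) (nat_lit 5) (nat_lit 51) (nat_lit 4) (nat_lit 246) (nat_lit 181) (nat_lit 173)) (XT.lf (nat_lit 0) (nat_lit 8367044664) (nat_lit 336) (nat_lit 50657887) (nat_lit 0) (nat_lit 1264382790) (nat_lit 47) (nat_lit 5) (nat_lit 51) (nat_lit 4) (nat_lit 47) (nat_lit 4) (nat_lit 247) (nat_lit 181) (nat_lit 172)))) (XT.nd (nat_lit 94) (nat_lit 588) (nat_lit 0) (XT.lf (nat_lit 0) (nat_lit 3160890285) (nat_lit 336) (nat_lit 1332108464) (nat_lit 84) (nat_lit 5339730421) (nat_lit 43) (nat_lit 5) (nat_lit 47) (nat_lit 5) (nat_lit 44) (nat_lit 4) (nat_lit 248) (nat_lit 181) (nat_lit 171)) (XT.nd (nat_lit 94) (nat_lit 336) (nat_lit 0) (XT.lf (nat_lit 0) (nat_lit 7340967727) (nat_lit 252) (nat_lit 396115596) (nat_lit 336) (nat_lit 2251925129) (nat_lit 40) (nat_lit 5) (nat_lit 43) (nat_lit 5) (nat_lit 44) (nat_lit 4) (nat_lit 249) (nat_lit 181) (nat_lit 170)) (XT.lf (nat_lit 0) (nat_lit 2290237911)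 (nat_lit 336) (nat_lit 4056127843) (nat_lit 84) (nat_lit 3802778352) (nat_lit 36) (nat_lit 5) (nat_lit 40) (nat_lit 5) (nat_lit 37) (nat_lit 4) (nat_lit 250) (nat_lit 181) (nat_lit 169))))) (XT.nd (nat_lit 282) (nat_lit 504) (nat_lit 0) (XT.nd (nat_lit 94) (nat_lit 504) (nat_lit 0) (XT.lf (nat_lit 0) (nat_lit 4791993401) (nat_lit 252) (nat_lit 2129641333) (nat_lit 336) (nat_lit 3392932133) (nat_lit 33) (nat_lit 5) (nat_lit 36) (nat_lit 5) (nat_lit 37) (nat_lit 4) (nat_lit 251) (nat_lit 181) (nat_lit 168)) (XT.nd (nat_lit 94) (nat_lit 168) (nat_lit 0) (XT.lf (nat_lit 0) (nat_lit 1207616297) (nat_lit 336) (nat_lit 7060182218) (nat_lit 84) (nat_lit 2217286596) (nat_lit 29) (nat_lit 5) (nat_lit 33) (nat_lit 5) (nat_lit 30) (nat_lit 4) (nat_lit 252) (nat_lit 181) (nat_lit 167)) (XT.lf (nat_lit 0) (nat_lit 1962012847) (nat_lit 168) (nat_lit 3934748277) (nat_lit 252) (nat_lit 4763188825) (nat_lit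 27) (nat_lit 5) (nat_lit 29) (nat_lit 5) (nat_lit 30) (nat_lit 4) (nat_lit 253) (nat_lit 181) (nat_lit 166)))) (XT.nd (nat_lit 94) (nat_lit 252) (nat_lit 0) (XT.lf (nat_lit 0) (nat_lit 457064409) (nat_lit 252) (nat_lit 10284128028) (nat_lit 252) (nat_lit 100051796) (nat_lit 24) (nat_lit 4) (nat_lit 27) (nat_lit 5) (nat_lit 27) (nat_lit 4) (nat_lit 254) (nat_lit 181) (nat_lit 165)) (XT.nd (nat_lit 94) (nat_lit 168) (nat_lit 0) (XT.lf (nat_lit 0) (nat_lit 4664384962) (nat_lit 336) (nat_lit 1161256649) (nat_lit 84) (nat_lit 5199815132) (nat_lit 23) (nat_lit 5) (nat_lit 27) (nat_lit 5) (nat_lit 24) (nat_lit 4) (nat_lit 255) (nat_lit 181) (nat_lit 164)) (XT.lf (nat_lit 0) (nat_lit 8401747962) (nat_lit 168) (nat_lit 1184672200) (nat_lit 252) (nat_lit 1629894456) (nat_lit 21) (nat_lit 5) (nat_lit 23) (nat_lit 5) (nat_lit 24) (nat_lit 4) (nat_lit 256) (nat_lit 181) (nat_lit 163)))))) (XT.nd (nat_lit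 564) (nat_lit 168) (nat_lit 0) (XT.nd (nat_lit 282) (nat_lit 420) (nat_lit 0) (XT.nd (nat_lit 94) (nat_lit 420) (nat_lit 0) (XT.lf (nat_lit 0) (nat_lit 3224014333) (nat_lit 336) (nat_lit 4593356777) (nat_lit 84) (nat_lit 3594114910) (nat_lit 17) (nat_lit 5) (nat_lit 21) (nat_lit 5) (nat_lit 18) (nat_lit 4) (nat_lit 257) (nat_lit 181) (nat_lit 162)) (XT.nd (nat_lit 94) (nat_lit 252) (nat_lit 0) (XT.lf (nat_lit 0) (nat_lit 5154139406) (nat_lit 168) (nat_lit 3060725149) (nat_lit 252) (nat_lit 3397780333) (nat_lit 15) (nat_lit 5) (nat_lit 17) (nat_lit 5) (nat_lit 18) (nat_lit 4) (nat_lit 258) (nat_lit 181) (nat_lit 161)) (XT.lf (nat_lit 0) (nat_lit 1539262583) (nat_lit 252) (nat_lit 8421385171) (nat_lit 84) (nat_lit 1859060785) (nat_lit 12) (nat_lit 5) (nat_lit 15) (nat_lit 5) (nat_lit 13) (nat_lit 4) (nat_lit 259) (nat_lit 181) (nat_lit 160)))) (XT.nd (nat_lit 94) (nat_lit 252) (nat_lit 0) (XT.lf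 (nat_lit 0) (nat_lit 1508666954) (nat_lit 168) (nat_lit 5091451690) (nat_lit 252) (nat_lit 5431452911) (nat_lit 10) (nat_lit 5) (nat_lit 12) (nat_lit 5) (nat_lit 13) (nat_lit 4) (nat_lit 260) (nat_lit 181) (nat_lit 159)) (XT.nd (nat_lit 94) (nat_lit 252) (nat_lit 0) (XT.lf (nat_lit 0) (nat_lit 11816417631) (nat_lit 168) (nat_lit 24029994) (nat_lit 252) (nat_lit 410320147) (nat_lit 10) (nat_lit 5) (nat_lit 12) (nat_lit 5) (nat_lit 13) (nat_lit 4) (nat_lit 261) (nat_lit 181) (nat_lit 158)) (XT.lf (nat_lit 0) (nat_lit 4754006955) (nat_lit 252) (nat_lit 2521888272) (nat_lit 84) (nat_lit 5197214474) (nat_lit 7) (nat_lit 5) (nat_lit 10) (nat_lit 5) (nat_lit 8) (nat_lit 4) (nat_lit 262) (nat_lit 181) (nat_lit 157))))) (XT.nd (nat_lit 35344) (nat_lit 0) (nat_lit 5628) (XT.nd (nat_lit 35156) (nat_lit 0) (nat_lit 6468) (XT.lf (nat_lit 0) (nat_lit 8015348894) (nat_lit 168) (nat_lit 2074587451) (nat_lit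 252) (nat_lit 2613114830) (nat_lit 5) (nat_lit 5) (nat_lit 7) (nat_lit 5) (nat_lit 8) (nat_lit 4) (nat_lit 263) (nat_lit 181) (nat_lit 156)) (XT.nd (nat_lit 94) (nat_lit 420) (nat_lit 0) (XT.lf (nat_lit 0) (nat_lit 1567495651) (nat_lit 420) (nat_lit 1291904908) (nat_lit 420) (nat_lit 1291904908) (nat_lit 87) (nat_lit 4) (nat_lit 92) (nat_lit 5) (nat_lit 92) (nat_lit 4) (nat_lit 236) (nat_lit 182) (nat_lit 182)) (XT.lf (nat_lit 0) (nat_lit 1560429983) (nat_lit 420) (nat_lit 6359830874) (nat_lit 0) (nat_lit 489083542) (nat_lit 82) (nat_lit 5) (nat_lit 87) (nat_lit 4) (nat_lit 82) (nat_lit 4) (nat_lit 237) (nat_lit 182) (nat_lit 181)))) (XT.nd (nat_lit 94) (nat_lit 420) (nat_lit 0) (XT.lf (nat_lit 0) (nat_lit 914665205) (nat_lit 420) (nat_lit 4855613657) (nat_lit 420) (nat_lit 2749149882) (nat_lit 77) (nat_lit 4) (nat_lit 82) (nat_lit 5) (nat_lit 82) (nat_lit 4) (nat_lit 238) (nat_lit 182) (nat_lit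 180)) (XT.nd (nat_lit 94) (nat_lit 336) (nat_lit 0) (XT.lf (nat_lit 0) (nat_lit 1416489091) (nat_lit 504) (nat_lit 224021840) (nat_lit 84) (nat_lit 6993803330) (nat_lit 76) (nat_lit 5) (nat_lit 82) (nat_lit 5) (nat_lit 77) (nat_lit 4) (nat_lit 239) (nat_lit 182) (nat_lit 179)) (XT.lf (nat_lit 0) (nat_lit 5649629760) (nat_lit 420) (nat_lit 1388474228) (nat_lit 0) (nat_lit 1714489422) (nat_lit 72) (nat_lit 5) (nat_lit 77) (nat_lit 4) (nat_lit 72) (nat_lit 4) (nat_lit 240) (nat_lit 182) (nat_lit 178))))))))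
noncomputable def xc4 : XT := (XT.nd (nat_lit 37036) (nat_lit 0) (nat_lit 1344) (XT.nd (nat_lit 1034) (nat_lit 2352) (nat_lit 0) (XT.nd (nat_lit 470) (nat_lit 1512) (nat_lit 0) (XT.nd (nat_lit 188) (nat_lit 1008) (nat_lit 0) (XT.nd (nat_lit 94) (nat_lit 336) (nat_lit 0) (XT.lf (nat_lit 0) (nat_lit 1107193360) (nat_lit 420) (nat_lit 2584046804) (nat_lit 84) (nat_lit 5184109414) (nat_lit 67) (nat_lit 5) (nat_lit 72) (nat_lit 5) (nat_lit 68) (nat_lit 4) (nat_lit 241) (nat_lit 182) (nat_lit 177)) (XT.lf (nat_lit 0) (nat_lit 5184310391) (nat_lit 336) (nat_lit 168533198) (nat_lit 420) (nat_lit 3649672671) (nat_lit 63) (nat_lit 5) (nat_lit 67) (nat_lit 5) (nat_lit 68) (nat_lit 4) (nat_lit 242) (nat_lit 182) (nat_lit 176))) (XT.nd (nat_lit 94) (nat_lit 588) (nat_lit 0) (XT.lf (nat_lit 0) (nat_lit 601627585) (nat_lit 420) (nat_lit 5104958330) (nat_lit 84) (nat_lit 3427218938) (nat_lit 58) (nat_lit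 5) (nat_lit 63) (nat_lit 5) (nat_lit 59) (nat_lit 4) (nat_lit 243) (nat_lit 182) (nat_lit 175)) (XT.nd (nat_lit 94) (nat_lit 336) (nat_lit 0) (XT.lf (nat_lit 0) (nat_lit 2822917473) (nat_lit 252) (nat_lit 2060752308) (nat_lit 336) (nat_lit 4385679792) (nat_lit 55) (nat_lit 5) (nat_lit 58) (nat_lit 5) (nat_lit 59) (nat_lit 4) (nat_lit 244) (nat_lit 182) (nat_lit 174)) (XT.lf (nat_lit 0) (nat_lit 1587658961) (nat_lit 336) (nat_lit 7715481925) (nat_lit 336) (nat_lit 106932959) (nat_lit 51) (nat_lit 4) (nat_lit 55) (nat_lit 5) (nat_lit 55) (nat_lit 4) (nat_lit 245) (nat_lit 182) (nat_lit 173))))) (XT.nd (nat_lit 282) (nat_lit 840) (nat_lit 0) (XT.nd (nat_lit 94) (nat_lit 336) (nat_lit 0) (XT.lf (nat_lit 0) (nat_lit 265435267) (nat_lit 252) (nat_lit 3952247000) (nat_lit 336) (nat_lit 5336562372) (nat_lit 47) (nat_lit 5) (nat_lit 50) (nat_lit 5) (nat_lit 51) (nat_lit 4) (nat_lit 246) (nat_lit 182)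 (nat_lit 172)) (XT.nd (nat_lit 94) (nat_lit 336) (nat_lit 0) (XT.lf (nat_lit 0) (nat_lit 8652433490) (nat_lit 252) (nat_lit 23244642) (nat_lit 336) (nat_lit 1028281615) (nat_lit 47) (nat_lit 5) (nat_lit 50) (nat_lit 5) (nat_lit 51) (nat_lit 4) (nat_lit 247) (nat_lit 182) (nat_lit 171)) (XT.lf (nat_lit 0) (nat_lit 3376307779) (nat_lit 336) (nat_lit 2466827033) (nat_lit 84) (nat_lit 4013626319) (nat_lit 43) (nat_lit 5) (nat_lit 47) (nat_lit 5) (nat_lit 44) (nat_lit 4) (nat_lit 248) (nat_lit 182) (nat_lit 170)))) (XT.nd (nat_lit 94) (nat_lit 588) (nat_lit 0) (XT.lf (nat_lit 0) (nat_lit 6095347240) (nat_lit 252) (nat_lit 1792029876) (nat_lit 336) (nat_lit 2127942628) (nat_lit 40) (nat_lit 5) (nat_lit 43) (nat_lit 5) (nat_lit 44) (nat_lit 4) (nat_lit 249) (nat_lit 182) (nat_lit 169)) (XT.nd (nat_lit 94) (nat_lit 252) (nat_lit 0) (XT.lf (nat_lit 0) (nat_lit 2328872382) (nat_lit 336) (nat_lit 5456322940)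 (nat_lit 84) (nat_lit 2393100513) (nat_lit 36) (nat_lit 5) (nat_lit 40) (nat_lit 5) (nat_lit 37) (nat_lit 4) (nat_lit 250) (nat_lit 182) (nat_lit 168)) (XT.lf (nat_lit 0) (nat_lit 3274022362) (nat_lit 252) (nat_lit 3618787243) (nat_lit 336) (nat_lit 3453270076) (nat_lit 33) (nat_lit 5) (nat_lit 36) (nat_lit 5) (nat_lit 37) (nat_lit 4) (nat_lit 251) (nat_lit 182) (nat_lit 167)))))) (XT.nd (nat_lit 564) (nat_lit 1008) (nat_lit 0) (XT.nd (nat_lit 282) (nat_lit 840) (nat_lit 0) (XT.nd (nat_lit 94) (nat_lit 168) (nat_lit 0) (XT.lf (nat_lit 0) (nat_lit 1062522308) (nat_lit 336) (nat_lit 8747204163) (nat_lit 84) (nat_lit 709909331) (nat_lit 29) (nat_lit 5) (nat_lit 33) (nat_lit 5) (nat_lit 30) (nat_lit 4) (nat_lit 252) (nat_lit 182) (nat_lit 166)) (XT.nd (nat_lit 94) (nat_lit 0) (nat_lit 0) (XT.lf (nat_lit 0) (nat_lit 149915701) (nat_lit 168) (nat_lit 5531644800) (nat_lit 252) (nat_lit 5015393871)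 (nat_lit 27) (nat_lit 5) (nat_lit 29) (nat_lit 5) (nat_lit 30) (nat_lit 4) (nat_lit 253) (nat_lit 182) (nat_lit 165)) (XT.lf (nat_lit 0) (nat_lit 9399510130) (nat_lit 168) (nat_lit 1065942449) (nat_lit 252) (nat_lit 414914949) (nat_lit 27) (nat_lit 5) (nat_lit 29) (nat_lit 5) (nat_lit 30) (nat_lit 4) (nat_lit 254) (nat_lit 182) (nat_lit 164)))) (XT.nd (nat_lit 94) (nat_lit 504) (nat_lit 0) (XT.lf (nat_lit 0) (nat_lit 4278359173) (nat_lit 336) (nat_lit 3242224769) (nat_lit 84) (nat_lit 3546859453) (nat_lit 23) (nat_lit 5) (nat_lit 27) (nat_lit 5) (nat_lit 24) (nat_lit 4) (nat_lit 255) (nat_lit 182) (nat_lit 163)) (XT.nd (nat_lit 94) (nat_lit 336) (nat_lit 0) (XT.lf (nat_lit 0) (nat_lit 6188909109) (nat_lit 168) (nat_lit 2939150635) (nat_lit 252) (nat_lit 2132773239) (nat_lit 21) (nat_lit 5) (nat_lit 23) (nat_lit 5) (nat_lit 24) (nat_lit 4) (nat_lit 256) (nat_lit 182) (nat_lit 162)) (XT.lf (nat_lit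 0) (nat_lit 2638122205) (nat_lit 336) (nat_lit 7008124143) (nat_lit 84) (nat_lit 1813258698) (nat_lit 17) (nat_lit 5) (nat_lit 21) (nat_lit 5) (nat_lit 18) (nat_lit 4) (nat_lit 257) (nat_lit 182) (nat_lit 161))))) (XT.nd (nat_lit 282) (nat_lit 588) (nat_lit 0) (XT.nd (nat_lit 94) (nat_lit 252) (nat_lit 0) (XT.lf (nat_lit 0) (nat_lit 2599250264) (nat_lit 168) (nat_lit 4954071662) (nat_lit 252) (nat_lit 4109989757) (nat_lit 15) (nat_lit 5) (nat_lit 17) (nat_lit 5) (nat_lit 18) (nat_lit 4) (nat_lit 258) (nat_lit 182) (nat_lit 160)) (XT.nd (nat_lit 94) (nat_lit 0) (nat_lit 0) (XT.lf (nat_lit 0) (nat_lit 678117625) (nat_lit 168) (nat_lit 66307022) (nat_lit 252) (nat_lit 11129685637) (nat_lit 12) (nat_lit 5) (nat_lit 14) (nat_lit 5) (nat_lit 15) (nat_lit 5) (nat_lit 259) (nat_lit 182) (nat_lit 159)) (XT.lf (nat_lit 0) (nat_lit 5740995303) (nat_lit 252) (nat_lit 1382047912) (nat_lit 84) (nat_lit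 4965180075) (nat_lit 12) (nat_lit 5) (nat_lit 15) (nat_lit 5) (nat_lit 13) (nat_lit 4) (nat_lit 260) (nat_lit 182) (nat_lit 158)))) (XT.nd (nat_lit 94) (nat_lit 420) (nat_lit 0) (XT.lf (nat_lit 0) (nat_lit 8811942682) (nat_lit 168) (nat_lit 2107558747) (nat_lit 252) (nat_lit 1390081879) (nat_lit 10) (nat_lit 5) (nat_lit 12) (nat_lit 5) (nat_lit 13) (nat_lit 4) (nat_lit 261) (nat_lit 182) (nat_lit 157)) (XT.nd (nat_lit 94) (nat_lit 168) (nat_lit 0) (XT.lf (nat_lit 0) (nat_lit 3691585489) (nat_lit 252) (nat_lit 5764792746) (nat_lit 84) (nat_lit 3079599713) (nat_lit 7) (nat_lit 5) (nat_lit 10) (nat_lit 5) (nat_lit 8) (nat_lit 4) (nat_lit 262) (nat_lit 182) (nat_lit 156)) (XT.lf (nat_lit 0) (nat_lit 4615113524) (nat_lit 168) (nat_lit 4329748387) (nat_lit 252) (nat_lit 3823950364) (nat_lit 5) (nat_lit 5) (nat_lit 7) (nat_lit 5) (nat_lit 8) (nat_lit 4) (nat_lit 263) (nat_lit 182) (nat_lit 155)))))))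 (XT.nd (nat_lit 1034) (nat_lit 2856) (nat_lit 0) (XT.nd (nat_lit 470) (nat_lit 1848) (nat_lit 0) (XT.nd (nat_lit 188) (nat_lit 1260) (nat_lit 0) (XT.nd (nat_lit 94) (nat_lit 504) (nat_lit 0) (XT.lf (nat_lit 0) (nat_lit 2675683576) (nat_lit 420) (nat_lit 687253522) (nat_lit 420) (nat_lit 687253522) (nat_lit 98) (nat_lit 4) (nat_lit 103) (nat_lit 5) (nat_lit 103) (nat_lit 4) (nat_lit 234) (nat_lit 183) (nat_lit 183)) (XT.lf (nat_lit 0) (nat_lit 2679606915) (nat_lit 504) (nat_lit 3988866126) (nat_lit 0) (nat_lit 1531953824) (nat_lit 92) (nat_lit 5) (nat_lit 98) (nat_lit 4) (nat_lit 92) (nat_lit 4) (nat_lit 235) (nat_lit 183) (nat_lit 182))) (XT.nd (nat_lit 94) (nat_lit 840) (nat_lit 0) (XT.lf (nat_lit 0) (nat_lit 3052993439) (nat_lit 420) (nat_lit 3754095961) (nat_lit 420) (nat_lit 1497599303) (nat_lit 87) (nat_lit 4) (nat_lit 92) (nat_lit 5) (nat_lit 92) (nat_lit 4) (nat_lit 236) (nat_lit 183)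 (nat_lit 181)) (XT.nd (nat_lit 94) (nat_lit 420) (nat_lit 0) (XT.lf (nat_lit 0) (nat_lit 1874434512) (nat_lit 336) (nat_lit 681967261) (nat_lit 420) (nat_lit 5856893138) (nat_lit 82) (nat_lit 5) (nat_lit 86) (nat_lit 5) (nat_lit 87) (nat_lit 4) (nat_lit 237) (nat_lit 183) (nat_lit 180)) (XT.lf (nat_lit 0) (nat_lit 655976162) (nat_lit 420) (nat_lit 6042596270) (nat_lit 420) (nat_lit 1827175562) (nat_lit 77) (nat_lit 4) (nat_lit 82) (nat_lit 5) (nat_lit 82) (nat_lit 4) (nat_lit 238) (nat_lit 183) (nat_lit 179))))) (XT.nd (nat_lit 282) (nat_lit 1008) (nat_lit 0) (XT.nd (nat_lit 94) (nat_lit 756) (nat_lit 0) (XT.lf (nat_lit 0) (nat_lit 2260751044) (nat_lit 504) (nat_lit 581085441) (nat_lit 84) (nat_lit 5800425734) (nat_lit 76) (nat_lit 5) (nat_lit 82) (nat_lit 5) (nat_lit 77) (nat_lit 4) (nat_lit 239) (nat_lit 183) (nat_lit 178)) (XT.nd (nat_lit 94) (nat_lit 420) (nat_lit 0) (XT.lf (nat_lit 0)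 (nat_lit 6420322311) (nat_lit 420) (nat_lit 1831003410) (nat_lit 0) (nat_lit 511790576) (nat_lit 72) (nat_lit 5) (nat_lit 77) (nat_lit 4) (nat_lit 72) (nat_lit 4) (nat_lit 240) (nat_lit 183) (nat_lit 177)) (XT.lf (nat_lit 0) (nat_lit 1789308851) (nat_lit 420) (nat_lit 3138829241) (nat_lit 84) (nat_lit 3959566550) (nat_lit 67) (nat_lit 5) (nat_lit 72) (nat_lit 5) (nat_lit 68) (nat_lit 4) (nat_lit 241) (nat_lit 183) (nat_lit 176)))) (XT.nd (nat_lit 94) (nat_lit 672) (nat_lit 0) (XT.lf (nat_lit 0) (nat_lit 4534726428) (nat_lit 336) (nat_lit 1439164383) (nat_lit 420) (nat_lit 3043117904) (nat_lit 63) (nat_lit 5) (nat_lit 67) (nat_lit 5) (nat_lit 68) (nat_lit 4) (nat_lit 242) (nat_lit 183) (nat_lit 175)) (XT.nd (nat_lit 94) (nat_lit 252) (nat_lit 0) (XT.lf (nat_lit 0) (nat_lit 1117884358) (nat_lit 420) (nat_lit 5875573195) (nat_lit 84) (nat_lit 2157282280) (nat_lit 58) (nat_lit 5) (nat_lit 63)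 (nat_lit 5) (nat_lit 59) (nat_lit 4) (nat_lit 243) (nat_lit 183) (nat_lit 174)) (XT.lf (nat_lit 0) (nat_lit 1951519387) (nat_lit 252) (nat_lit 3385819630) (nat_lit 336) (nat_lit 3951136099) (nat_lit 55) (nat_lit 5) (nat_lit 58) (nat_lit 5) (nat_lit 59) (nat_lit 4) (nat_lit 244) (nat_lit 183) (nat_lit 173)))))) (XT.nd (nat_lit 564) (nat_lit 1260) (nat_lit 0) (XT.nd (nat_lit 282) (nat_lit 924) (nat_lit 0) (XT.nd (nat_lit 94) (nat_lit 252) (nat_lit 0) (XT.lf (nat_lit 0) (nat_lit 241308545) (nat_lit 420) (nat_lit 8826598623) (nat_lit 84) (nat_lit 363925047) (nat_lit 50) (nat_lit 5) (nat_lit 55) (nat_lit 5) (nat_lit 51) (nat_lit 4) (nat_lit 245) (nat_lit 183) (nat_lit 172)) (XT.nd (nat_lit 94) (nat_lit 252) (nat_lit 0) (XT.lf (nat_lit 0) (nat_lit 4508522184) (nat_lit 420) (nat_lit 827842232) (nat_lit 84) (nat_lit 4241521084) (nat_lit 50) (nat_lit 5) (nat_lit 55) (nat_lit 5) (nat_lit 51) (nat_lit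 4) (nat_lit 246) (nat_lit 183) (nat_lit 171)) (XT.lf (nat_lit 0) (nat_lit 7458999563) (nat_lit 252) (nat_lit 1446918256) (nat_lit 336) (nat_lit 823803799) (nat_lit 47) (nat_lit 5) (nat_lit 50) (nat_lit 5) (nat_lit 51) (nat_lit 4) (nat_lit 247) (nat_lit 183) (nat_lit 170)))) (XT.nd (nat_lit 94) (nat_lit 588) (nat_lit 0) (XT.lf (nat_lit 0) (nat_lit 3494981695) (nat_lit 336) (nat_lit 3809470549) (nat_lit 84) (nat_lit 2580831879) (nat_lit 43) (nat_lit 5) (nat_lit 47) (nat_lit 5) (nat_lit 44) (nat_lit 4) (nat_lit 248) (nat_lit 183) (nat_lit 169)) (XT.nd (nat_lit 94) (nat_lit 336) (nat_lit 0) (XT.lf (nat_lit 0) (nat_lit 4639837939) (nat_lit 252) (nat_lit 3300483694) (nat_lit 336) (nat_lit 2105821631) (nat_lit 40) (nat_lit 5) (nat_lit 43) (nat_lit 5) (nat_lit 44) (nat_lit 4) (nat_lit 249) (nat_lit 183) (nat_lit 168)) (XT.lf (nat_lit 0) (nat_lit 2265997668) (nat_lit 336) (nat_lit 7075156460) (nat_lit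 84) (nat_lit 870913895) (nat_lit 36) (nat_lit 5) (nat_lit 40) (nat_lit 5) (nat_lit 37) (nat_lit 4) (nat_lit 250) (nat_lit 183) (nat_lit 167))))) (XT.nd (nat_lit 282) (nat_lit 672) (nat_lit 0) (XT.nd (nat_lit 94) (nat_lit 336) (nat_lit 0) (XT.lf (nat_lit 0) (nat_lit 1535224652) (nat_lit 252) (nat_lit 5226499445) (nat_lit 336) (nat_lit 3620515150) (nat_lit 33) (nat_lit 5) (nat_lit 36) (nat_lit 5) (nat_lit 37) (nat_lit 4) (nat_lit 251) (nat_lit 183) (nat_lit 166)) (XT.nd (nat_lit 94) (nat_lit 252) (nat_lit 0) (XT.lf (nat_lit 0) (nat_lit 822507054) (nat_lit 336) (nat_lit 113412189) (nat_lit 84) (nat_lit 9622621028) (nat_lit 32) (nat_lit 5) (nat_lit 36) (nat_lit 5) (nat_lit 33) (nat_lit 5) (nat_lit 252) (nat_lit 183) (nat_lit 165)) (XT.lf (nat_lit 0) (nat_lit 5379910832) (nat_lit 336) (nat_lit 1851612282) (nat_lit 84) (nat_lit 3506492932) (nat_lit 29) (nat_lit 5) (nat_lit 33) (nat_lit 5) (nat_lit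 30) (nat_lit 4) (nat_lit 253) (nat_lit 183) (nat_lit 164)))) (XT.nd (nat_lit 94) (nat_lit 504) (nat_lit 0) (XT.lf (nat_lit 0) (nat_lit 7274802202) (nat_lit 168) (nat_lit 2820400178) (nat_lit 252) (nat_lit 828627841) (nat_lit 27) (nat_lit 5) (nat_lit 29) (nat_lit 5) (nat_lit 30) (nat_lit 4) (nat_lit 254) (nat_lit 183) (nat_lit 163)) (XT.nd (nat_lit 94) (nat_lit 168) (nat_lit 0) (XT.lf (nat_lit 0) (nat_lit 3781796029) (nat_lit 336) (nat_lit 5562278571) (nat_lit 84) (nat_lit 1770220907) (nat_lit 23) (nat_lit 5) (nat_lit 27) (nat_lit 5) (nat_lit 24) (nat_lit 4) (nat_lit 255) (nat_lit 183) (nat_lit 162)) (XT.lf (nat_lit 0) (nat_lit 3734264478) (nat_lit 168) (nat_lit 4823815585) (nat_lit 252) (nat_lit 2752174610) (nat_lit 21) (nat_lit 5) (nat_lit 23) (nat_lit 5) (nat_lit 24) (nat_lit 4) (nat_lit 256) (nat_lit 183) (nat_lit 161))))))))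
noncomputable def xc5 : XT := (XT.nd (nat_lit 36848) (nat_lit 0) (nat_lit 168) (XT.nd (nat_lit 35720) (nat_lit 0) (nat_lit 3528) (XT.nd (nat_lit 470) (nat_lit 420) (nat_lit 0) (XT.nd (nat_lit 188) (nat_lit 588) (nat_lit 0) (XT.nd (nat_lit 94) (nat_lit 0) (nat_lit 0) (XT.lf (nat_lit 0) (nat_lit 1836743180) (nat_lit 252) (nat_lit 100077236) (nat_lit 336) (nat_lit 9575705944) (nat_lit 17) (nat_lit 5) (nat_lit 20) (nat_lit 5) (nat_lit 21) (nat_lit 5) (nat_lit 257) (nat_lit 183) (nat_lit 160)) (XT.lf (nat_lit 0) (nat_lit 6776355860) (nat_lit 336) (nat_lit 205641905) (nat_lit 84) (nat_lit 4736983480) (nat_lit 17) (nat_lit 5) (nat_lit 21) (nat_lit 5) (nat_lit 18) (nat_lit 4) (nat_lit 258) (nat_lit 183) (nat_lit 159))) (XT.nd (nat_lit 94) (nat_lit 420) (nat_lit 0) (XT.lf (nat_lit 0) (nat_lit 9657641475) (nat_lit 168) (nat_lit 2146760252) (nat_lit 252) (nat_lit 127590891) (nat_lit 15) (nat_lit 5) (nat_lit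 17) (nat_lit 5) (nat_lit 18) (nat_lit 4) (nat_lit 259) (nat_lit 183) (nat_lit 158)) (XT.nd (nat_lit 94) (nat_lit 168) (nat_lit 0) (XT.lf (nat_lit 0) (nat_lit 4777307631) (nat_lit 252) (nat_lit 4501014564) (nat_lit 84) (nat_lit 2871142965) (nat_lit 12) (nat_lit 5) (nat_lit 15) (nat_lit 5) (nat_lit 13) (nat_lit 4) (nat_lit 260) (nat_lit 183) (nat_lit 157)) (XT.lf (nat_lit 0) (nat_lit 5541681537) (nat_lit 168) (nat_lit 4334065167) (nat_lit 252) (nat_lit 2497880820) (nat_lit 10) (nat_lit 5) (nat_lit 12) (nat_lit 5) (nat_lit 13) (nat_lit 4) (nat_lit 261) (nat_lit 183) (nat_lit 156))))) (XT.nd (nat_lit 34968) (nat_lit 0) (nat_lit 7308) (XT.nd (nat_lit 94) (nat_lit 168) (nat_lit 0) (XT.lf (nat_lit 0) (nat_lit 2500878355) (nat_lit 252) (nat_lit 9284473080) (nat_lit 84) (nat_lit 818883681) (nat_lit 7) (nat_lit 5) (nat_lit 10) (nat_lit 5) (nat_lit 8) (nat_lit 4) (nat_lit 262) (nat_lit 183) (nat_lit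 155)) (XT.nd (nat_lit 34780) (nat_lit 0) (nat_lit 8736) (XT.lf (nat_lit 0) (nat_lit 934457146) (nat_lit 168) (nat_lit 6735434032) (nat_lit 252) (nat_lit 5170127492) (nat_lit 5) (nat_lit 5) (nat_lit 7) (nat_lit 5) (nat_lit 8) (nat_lit 4) (nat_lit 263) (nat_lit 183) (nat_lit 154)) (XT.lf (nat_lit 0) (nat_lit 3829102662) (nat_lit 504) (nat_lit 63094640) (nat_lit 504) (nat_lit 63094640) (nat_lit 109) (nat_lit 4) (nat_lit 115) (nat_lit 5) (nat_lit 115) (nat_lit 4) (nat_lit 232) (nat_lit 184) (nat_lit 184)))) (XT.nd (nat_lit 94) (nat_lit 924) (nat_lit 0) (XT.lf (nat_lit 0) (nat_lit 3844409073) (nat_lit 504) (nat_lit 1544525094) (nat_lit 0) (nat_lit 2615014390) (nat_lit 103) (nat_lit 5) (nat_lit 109) (nat_lit 4) (nat_lit 103) (nat_lit 4) (nat_lit 233) (nat_lit 184) (nat_lit 183)) (XT.nd (nat_lit 94) (nat_lit 504) (nat_lit 0) (XT.lf (nat_lit 0) (nat_lit 5273516524) (nat_lit 420) (nat_lit 2623067166)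 (nat_lit 420) (nat_lit 205851534) (nat_lit 98) (nat_lit 4) (nat_lit 103) (nat_lit 5) (nat_lit 103) (nat_lit 4) (nat_lit 234) (nat_lit 184) (nat_lit 182)) (XT.lf (nat_lit 0) (nat_lit 3748479718) (nat_lit 504) (nat_lit 4151948222) (nat_lit 0) (nat_lit 304162110) (nat_lit 92) (nat_lit 5) (nat_lit 98) (nat_lit 4) (nat_lit 92) (nat_lit 4) (nat_lit 235) (nat_lit 184) (nat_lit 181)))))) (XT.nd (nat_lit 564) (nat_lit 1680) (nat_lit 0) (XT.nd (nat_lit 282) (nat_lit 840) (nat_lit 0) (XT.nd (nat_lit 94) (nat_lit 840) (nat_lit 0) (XT.lf (nat_lit 0) (nat_lit 2806902796) (nat_lit 420) (nat_lit 5009842860) (nat_lit 420) (nat_lit 494178811) (nat_lit 87) (nat_lit 4) (nat_lit 92) (nat_lit 5) (nat_lit 92) (nat_lit 4) (nat_lit 236) (nat_lit 184) (nat_lit 180)) (XT.nd (nat_lit 94) (nat_lit 420) (nat_lit 0) (XT.lf (nat_lit 0) (nat_lit 1525161921) (nat_lit 336) (nat_lit 1951960095) (nat_lit 420) (nat_lit 4944115545)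 (nat_lit 82) (nat_lit 5) (nat_lit 86) (nat_lit 5) (nat_lit 87) (nat_lit 4) (nat_lit 237) (nat_lit 184) (nat_lit 179)) (XT.lf (nat_lit 0) (nat_lit 224487572) (nat_lit 420) (nat_lit 7320583861) (nat_lit 420) (nat_lit 991216954) (nat_lit 77) (nat_lit 4) (nat_lit 82) (nat_lit 5) (nat_lit 82) (nat_lit 4) (nat_lit 238) (nat_lit 184) (nat_lit 178)))) (XT.nd (nat_lit 94) (nat_lit 756) (nat_lit 0) (XT.lf (nat_lit 0) (nat_lit 3022868647) (nat_lit 504) (nat_lit 1111445739) (nat_lit 84) (nat_lit 4520083241) (nat_lit 76) (nat_lit 5) (nat_lit 82) (nat_lit 5) (nat_lit 77) (nat_lit 4) (nat_lit 239) (nat_lit 184) (nat_lit 177)) (XT.nd (nat_lit 94) (nat_lit 420) (nat_lit 0) (XT.lf (nat_lit 0) (nat_lit 6317370925) (nat_lit 336) (nat_lit 799287215) (nat_lit 420) (nat_lit 1660895927) (nat_lit 72) (nat_lit 5) (nat_lit 76) (nat_lit 5) (nat_lit 77) (nat_lit 4) (nat_lit 240) (nat_lit 184) (nat_lit 176)) (XT.lf (nat_lit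 0) (nat_lit 2385753302) (nat_lit 420) (nat_lit 3875976969) (nat_lit 84) (nat_lit 2642595941) (nat_lit 67) (nat_lit 5) (nat_lit 72) (nat_lit 5) (nat_lit 68) (nat_lit 4) (nat_lit 241) (nat_lit 184) (nat_lit 175))))) (XT.nd (nat_lit 282) (nat_lit 672) (nat_lit 0) (XT.nd (nat_lit 94) (nat_lit 672) (nat_lit 0) (XT.lf (nat_lit 0) (nat_lit 3701316833) (nat_lit 336) (nat_lit 2807722302) (nat_lit 420) (nat_lit 2526736514) (nat_lit 63) (nat_lit 5) (nat_lit 67) (nat_lit 5) (nat_lit 68) (nat_lit 4) (nat_lit 242) (nat_lit 184) (nat_lit 174)) (XT.nd (nat_lit 94) (nat_lit 252) (nat_lit 0) (XT.lf (nat_lit 0) (nat_lit 1544602802) (nat_lit 420) (nat_lit 6838045252) (nat_lit 84) (nat_lit 789385741) (nat_lit 58) (nat_lit 5) (nat_lit 63) (nat_lit 5) (nat_lit 59) (nat_lit 4) (nat_lit 243) (nat_lit 184) (nat_lit 173)) (XT.lf (nat_lit 0) (nat_lit 886616502) (nat_lit 252) (nat_lit 4814485517) (nat_lit 336) (nat_lit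 3610870499) (nat_lit 55) (nat_lit 5) (nat_lit 58) (nat_lit 5) (nat_lit 59) (nat_lit 4) (nat_lit 244) (nat_lit 184) (nat_lit 172)))) (XT.nd (nat_lit 94) (nat_lit 588) (nat_lit 0) (XT.lf (nat_lit 0) (nat_lit 512114472) (nat_lit 336) (nat_lit 575055484) (nat_lit 84) (nat_lit 8370188019) (nat_lit 54) (nat_lit 5) (nat_lit 58) (nat_lit 5) (nat_lit 55) (nat_lit 5) (nat_lit 245) (nat_lit 184) (nat_lit 171)) (XT.nd (nat_lit 94) (nat_lit 252) (nat_lit 0) (XT.lf (nat_lit 0) (nat_lit 4710322758) (nat_lit 420) (nat_lit 2114153720) (nat_lit 84) (nat_lit 2781349970) (nat_lit 50) (nat_lit 5) (nat_lit 55) (nat_lit 5) (nat_lit 51) (nat_lit 4) (nat_lit 246) (nat_lit 184) (nat_lit 170)) (XT.lf (nat_lit 0) (nat_lit 6064632458) (nat_lit 252) (nat_lit 2978988982) (nat_lit 336) (nat_lit 716284519) (nat_lit 47) (nat_lit 5) (nat_lit 50) (nat_lit 5) (nat_lit 51) (nat_lit 4) (nat_lit 247) (nat_lit 184) (nat_lit 169)))))))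 (XT.nd (nat_lit 1128) (nat_lit 672) (nat_lit 0) (XT.nd (nat_lit 564) (nat_lit 1176) (nat_lit 0) (XT.nd (nat_lit 282) (nat_lit 588) (nat_lit 0) (XT.nd (nat_lit 94) (nat_lit 588) (nat_lit 0) (XT.lf (nat_lit 0) (nat_lit 3517052491) (nat_lit 336) (nat_lit 5361628132) (nat_lit 84) (nat_lit 1039651282) (nat_lit 43) (nat_lit 5) (nat_lit 47) (nat_lit 5) (nat_lit 44) (nat_lit 4) (nat_lit 248) (nat_lit 184) (nat_lit 168)) (XT.nd (nat_lit 94) (nat_lit 336) (nat_lit 0) (XT.lf (nat_lit 0) (nat_lit 2972717121) (nat_lit 252) (nat_lit 4923262418) (nat_lit 336) (nat_lit 2185535956) (nat_lit 40) (nat_lit 5) (nat_lit 43) (nat_lit 5) (nat_lit 44) (nat_lit 4) (nat_lit 249) (nat_lit 184) (nat_lit 167)) (XT.lf (nat_lit 0) (nat_lit 1326922597) (nat_lit 252) (nat_lit 783344900) (nat_lit 336) (nat_lit 8139927661) (nat_lit 36) (nat_lit 5) (nat_lit 39) (nat_lit 5) (nat_lit 40) (nat_lit 5) (nat_lit 250) (nat_lit 184)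 (nat_lit 166)))) (XT.nd (nat_lit 94) (nat_lit 588) (nat_lit 0) (XT.lf (nat_lit 0) (nat_lit 6532974716) (nat_lit 336) (nat_lit 416788106) (nat_lit 84) (nat_lit 3473159233) (nat_lit 36) (nat_lit 5) (nat_lit 40) (nat_lit 5) (nat_lit 37) (nat_lit 4) (nat_lit 251) (nat_lit 184) (nat_lit 165)) (XT.nd (nat_lit 94) (nat_lit 252) (nat_lit 0) (XT.lf (nat_lit 0) (nat_lit 507395102) (nat_lit 336) (nat_lit 2190904401) (nat_lit 84) (nat_lit 7902841261) (nat_lit 32) (nat_lit 5) (nat_lit 36) (nat_lit 5) (nat_lit 33) (nat_lit 5) (nat_lit 252) (nat_lit 184) (nat_lit 164)) (XT.lf (nat_lit 0) (nat_lit 4974607175) (nat_lit 336) (nat_lit 4079225569) (nat_lit 84) (nat_lit 1729940503) (nat_lit 29) (nat_lit 5) (nat_lit 33) (nat_lit 5) (nat_lit 30) (nat_lit 4) (nat_lit 253) (nat_lit 184) (nat_lit 163))))) (XT.nd (nat_lit 282) (nat_lit 504) (nat_lit 0) (XT.nd (nat_lit 94) (nat_lit 504) (nat_lit 0) (XT.lf (nat_lit 0)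 (nat_lit 4917998446) (nat_lit 168) (nat_lit 4700619066) (nat_lit 252) (nat_lit 1353464752) (nat_lit 27) (nat_lit 5) (nat_lit 29) (nat_lit 5) (nat_lit 30) (nat_lit 4) (nat_lit 254) (nat_lit 184) (nat_lit 162)) (XT.nd (nat_lit 94) (nat_lit 168) (nat_lit 0) (XT.lf (nat_lit 0) (nat_lit 3040344564) (nat_lit 252) (nat_lit 135270450) (nat_lit 336) (nat_lit 7990400765) (nat_lit 23) (nat_lit 5) (nat_lit 26) (nat_lit 5) (nat_lit 27) (nat_lit 5) (nat_lit 255) (nat_lit 184) (nat_lit 161)) (XT.lf (nat_lit 0) (nat_lit 1034908814) (nat_lit 168) (nat_lit 6840897692) (nat_lit 252) (nat_lit 3488831678) (nat_lit 21) (nat_lit 5) (nat_lit 23) (nat_lit 5) (nat_lit 24) (nat_lit 4) (nat_lit 256) (nat_lit 184) (nat_lit 160)))) (XT.nd (nat_lit 94) (nat_lit 420) (nat_lit 0) (XT.lf (nat_lit 0) (nat_lit 1152051987) (nat_lit 252) (nat_lit 1026858616) (nat_lit 84) (nat_lit 9390555053) (nat_lit 20) (nat_lit 5) (nat_lit 23)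 (nat_lit 5) (nat_lit 21) (nat_lit 5) (nat_lit 257) (nat_lit 184) (nat_lit 159)) (XT.nd (nat_lit 94) (nat_lit 168) (nat_lit 0) (XT.lf (nat_lit 0) (nat_lit 5912536552) (nat_lit 336) (nat_lit 3203845176) (nat_lit 84) (nat_lit 2662305595) (nat_lit 17) (nat_lit 5) (nat_lit 21) (nat_lit 5) (nat_lit 18) (nat_lit 4) (nat_lit 258) (nat_lit 184) (nat_lit 158)) (XT.lf (nat_lit 0) (nat_lit 6514026986) (nat_lit 168) (nat_lit 4348971956) (nat_lit 252) (nat_lit 1131415176) (nat_lit 15) (nat_lit 5) (nat_lit 17) (nat_lit 5) (nat_lit 18) (nat_lit 4) (nat_lit 259) (nat_lit 184) (nat_lit 157)))))) (XT.nd (nat_lit 35062) (nat_lit 0) (nat_lit 6300) (XT.nd (nat_lit 282) (nat_lit 168) (nat_lit 0) (XT.nd (nat_lit 94) (nat_lit 252) (nat_lit 0) (XT.lf (nat_lit 0) (nat_lit 3691105241) (nat_lit 252) (nat_lit 7886132461) (nat_lit 84) (nat_lit 638720293) (nat_lit 12) (nat_lit 5) (nat_lit 15) (nat_lit 5) (nat_lit 13) (nat_lit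 4) (nat_lit 260) (nat_lit 184) (nat_lit 156)) (XT.nd (nat_lit 94) (nat_lit 84) (nat_lit 0) (XT.lf (nat_lit 0) (nat_lit 2001763600) (nat_lit 168) (nat_lit 6706184493) (nat_lit 252) (nat_lit 3735028135) (nat_lit 10) (nat_lit 5) (nat_lit 12) (nat_lit 5) (nat_lit 13) (nat_lit 4) (nat_lit 261) (nat_lit 184) (nat_lit 155)) (XT.lf (nat_lit 0) (nat_lit 1203321108) (nat_lit 252) (nat_lit 416210148) (nat_lit 84) (nat_lit 11057631165) (nat_lit 9) (nat_lit 5) (nat_lit 12) (nat_lit 5) (nat_lit 10) (nat_lit 5) (nat_lit 262) (nat_lit 184) (nat_lit 154)))) (XT.nd (nat_lit 34592) (nat_lit 0) (nat_lit 8568) (XT.lf (nat_lit 0) (nat_lit 6297286716) (nat_lit 252) (nat_lit 2962251376) (nat_lit 84) (nat_lit 3656034536) (nat_lit 7) (nat_lit 5) (nat_lit 10) (nat_lit 5) (nat_lit 8) (nat_lit 4) (nat_lit 263) (nat_lit 184) (nat_lit 153)) (XT.nd (nat_lit 94) (nat_lit 504) (nat_lit 0) (XT.lf (nat_lit 0) (nat_lit 589478270)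 (nat_lit 588) (nat_lit 2686716934) (nat_lit 0) (nat_lit 589478270) (nat_lit 115) (nat_lit 5) (nat_lit 122) (nat_lit 4) (nat_lit 115) (nat_lit 4) (nat_lit 230) (nat_lit 185) (nat_lit 185)) (XT.lf (nat_lit 0) (nat_lit 1004422316) (nat_lit 504) (nat_lit 4066007961) (nat_lit 504) (nat_lit 2749049642) (nat_lit 109) (nat_lit 4) (nat_lit 115) (nat_lit 5) (nat_lit 115) (nat_lit 4) (nat_lit 231) (nat_lit 185) (nat_lit 184))))) (XT.nd (nat_lit 282) (nat_lit 1260) (nat_lit 0) (XT.nd (nat_lit 94) (nat_lit 924) (nat_lit 0) (XT.lf (nat_lit 0) (nat_lit 1104975799) (nat_lit 588) (nat_lit 340756064) (nat_lit 84) (nat_lit 6466445423) (nat_lit 108) (nat_lit 5) (nat_lit 115) (nat_lit 5) (nat_lit 109) (nat_lit 4) (nat_lit 232) (nat_lit 185) (nat_lit 183)) (XT.nd (nat_lit 94) (nat_lit 504) (nat_lit 0) (XT.lf (nat_lit 0) (nat_lit 4999173415) (nat_lit 504) (nat_lit 1699358927) (nat_lit 0) (nat_lit 1309534286) (nat_lit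 103) (nat_lit 5) (nat_lit 109) (nat_lit 4) (nat_lit 103) (nat_lit 4) (nat_lit 233) (nat_lit 185) (nat_lit 182)) (XT.lf (nat_lit 0) (nat_lit 864232092) (nat_lit 504) (nat_lit 3078579912) (nat_lit 84) (nat_lit 4165442748) (nat_lit 97) (nat_lit 5) (nat_lit 103) (nat_lit 5) (nat_lit 98) (nat_lit 4) (nat_lit 234) (nat_lit 185) (nat_lit 181)))) (XT.nd (nat_lit 94) (nat_lit 840) (nat_lit 0) (XT.lf (nat_lit 0) (nat_lit 3722754629) (nat_lit 420) (nat_lit 1028542872) (nat_lit 504) (nat_lit 3461222740) (nat_lit 92) (nat_lit 5) (nat_lit 97) (nat_lit 5) (nat_lit 98) (nat_lit 4) (nat_lit 235) (nat_lit 185) (nat_lit 180)) (XT.nd (nat_lit 94) (nat_lit 336) (nat_lit 0) (XT.lf (nat_lit 0) (nat_lit 417942871) (nat_lit 504) (nat_lit 5929662323) (nat_lit 84) (nat_lit 1973553646) (nat_lit 86) (nat_lit 5) (nat_lit 92) (nat_lit 5) (nat_lit 87) (nat_lit 4) (nat_lit 236) (nat_lit 185) (nat_lit 179)) (XT.lf (nat_lit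 0) (nat_lit 1007053390) (nat_lit 336) (nat_lit 3311051190) (nat_lit 420) (nat_lit 4115272325) (nat_lit 82) (nat_lit 5) (nat_lit 86) (nat_lit 5) (nat_lit 87) (nat_lit 4) (nat_lit 237) (nat_lit 185) (nat_lit 178))))))))
noncomputable def xc6 : XT := (XT.nd (nat_lit 2162) (nat_lit 420) (nat_lit 0) (XT.nd (nat_lit 1034) (nat_lit 2604) (nat_lit 0) (XT.nd (nat_lit 470) (nat_lit 1680) (nat_lit 0) (XT.nd (nat_lit 188) (nat_lit 1092) (nat_lit 0) (XT.nd (nat_lit 94) (nat_lit 504) (nat_lit 0) (XT.lf (nat_lit 0) (nat_lit 8177623841) (nat_lit 336) (nat_lit 138939490) (nat_lit 420) (nat_lit 234296573) (nat_lit 82) (nat_lit 5) (nat_lit 86) (nat_lit 5) (nat_lit 87) (nat_lit 4) (nat_lit 238) (nat_lit 185) (nat_lit 177)) (XT.lf (nat_lit 0) (nat_lit 3703743924) (nat_lit 504) (nat_lit 1815730455) (nat_lit 84) (nat_lit 3151260471) (nat_lit 76) (nat_lit 5) (nat_lit 82) (nat_lit 5) (nat_lit 77) (nat_lit 4) (nat_lit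 239) (nat_lit 185) (nat_lit 176))) (XT.nd (nat_lit 94) (nat_lit 756) (nat_lit 0) (XT.lf (nat_lit 0) (nat_lit 5521272088) (nat_lit 336) (nat_lit 2216154177) (nat_lit 420) (nat_lit 1058568777) (nat_lit 72) (nat_lit 5) (nat_lit 76) (nat_lit 5) (nat_lit 77) (nat_lit 4) (nat_lit 240) (nat_lit 185) (nat_lit 175)) (XT.nd (nat_lit 94) (nat_lit 336) (nat_lit 0) (XT.lf (nat_lit 0) (nat_lit 2897232649) (nat_lit 420) (nat_lit 4796362457) (nat_lit 84) (nat_lit 1231638854) (nat_lit 67) (nat_lit 5) (nat_lit 72) (nat_lit 5) (nat_lit 68) (nat_lit 4) (nat_lit 241) (nat_lit 185) (nat_lit 174)) (XT.lf (nat_lit 0) (nat_lit 2683095203) (nat_lit 336) (nat_lit 4275826746) (nat_lit 420) (nat_lit 2099917326) (nat_lit 63) (nat_lit 5) (nat_lit 67) (nat_lit 5) (nat_lit 68) (nat_lit 4) (nat_lit 242) (nat_lit 185) (nat_lit 173))))) (XT.nd (nat_lit 282) (nat_lit 924) (nat_lit 0) (XT.nd (nat_lit 94) (nat_lit 336) (nat_lit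 0) (XT.lf (nat_lit 0) (nat_lit 1196197045) (nat_lit 336) (nat_lit 693821587) (nat_lit 420) (nat_lit 7307422734) (nat_lit 58) (nat_lit 5) (nat_lit 62) (nat_lit 5) (nat_lit 63) (nat_lit 5) (nat_lit 243) (nat_lit 185) (nat_lit 172)) (XT.nd (nat_lit 94) (nat_lit 336) (nat_lit 0) (XT.lf (nat_lit 0) (nat_lit 5979545924) (nat_lit 420) (nat_lit 364592900) (nat_lit 84) (nat_lit 2995585283) (nat_lit 58) (nat_lit 5) (nat_lit 63) (nat_lit 5) (nat_lit 59) (nat_lit 4) (nat_lit 244) (nat_lit 185) (nat_lit 171)) (XT.lf (nat_lit 0) (nat_lit 703832034) (nat_lit 336) (nat_lit 1941280051) (nat_lit 84) (nat_lit 6841764883) (nat_lit 54) (nat_lit 5) (nat_lit 58) (nat_lit 5) (nat_lit 55) (nat_lit 5) (nat_lit 245) (nat_lit 185) (nat_lit 170)))) (XT.nd (nat_lit 94) (nat_lit 588) (nat_lit 0) (XT.lf (nat_lit 0) (nat_lit 4820365317) (nat_lit 420) (nat_lit 3601040195) (nat_lit 84) (nat_lit 1216798554) (nat_lit 50) (nat_lit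 5) (nat_lit 55) (nat_lit 5) (nat_lit 51) (nat_lit 4) (nat_lit 246) (nat_lit 185) (nat_lit 169)) (XT.nd (nat_lit 94) (nat_lit 336) (nat_lit 0) (XT.lf (nat_lit 0) (nat_lit 4467681838) (nat_lit 252) (nat_lit 4621270141) (nat_lit 336) (nat_lit 705596517) (nat_lit 47) (nat_lit 5) (nat_lit 50) (nat_lit 5) (nat_lit 51) (nat_lit 4) (nat_lit 247) (nat_lit 185) (nat_lit 168)) (XT.lf (nat_lit 0) (nat_lit 2823588387) (nat_lit 252) (nat_lit 625932133) (nat_lit 336) (nat_lit 6506178971) (nat_lit 43) (nat_lit 5) (nat_lit 46) (nat_lit 5) (nat_lit 47) (nat_lit 5) (nat_lit 248) (nat_lit 185) (nat_lit 167)))))) (XT.nd (nat_lit 564) (nat_lit 1260) (nat_lit 0) (XT.nd (nat_lit 282) (nat_lit 756) (nat_lit 0) (XT.nd (nat_lit 94) (nat_lit 336) (nat_lit 0) (XT.lf (nat_lit 0) (nat_lit 1092011623) (nat_lit 252) (nat_lit 6662286729) (nat_lit 336) (nat_lit 2367179953) (nat_lit 40) (nat_lit 5) (nat_lit 43) (nat_lit 5) (nat_lit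 44) (nat_lit 4) (nat_lit 249) (nat_lit 185) (nat_lit 166)) (XT.nd (nat_lit 94) (nat_lit 252) (nat_lit 0) (XT.lf (nat_lit 0) (nat_lit 1871954813) (nat_lit 336) (nat_lit 696579253) (nat_lit 84) (nat_lit 7723822295) (nat_lit 39) (nat_lit 5) (nat_lit 43) (nat_lit 5) (nat_lit 40) (nat_lit 5) (nat_lit 250) (nat_lit 185) (nat_lit 165)) (XT.lf (nat_lit 0) (nat_lit 6221148426) (nat_lit 336) (nat_lit 2554090831) (nat_lit 84) (nat_lit 1692416977) (nat_lit 36) (nat_lit 5) (nat_lit 40) (nat_lit 5) (nat_lit 37) (nat_lit 4) (nat_lit 251) (nat_lit 185) (nat_lit 164)))) (XT.nd (nat_lit 94) (nat_lit 420) (nat_lit 0) (XT.lf (nat_lit 0) (nat_lit 88878029) (nat_lit 336) (nat_lit 4494505701) (nat_lit 84) (nat_lit 6065081709) (nat_lit 32) (nat_lit 5) (nat_lit 36) (nat_lit 5) (nat_lit 33) (nat_lit 5) (nat_lit 252) (nat_lit 185) (nat_lit 163)) (XT.nd (nat_lit 94) (nat_lit 168) (nat_lit 0) (XT.lf (nat_lit 0) (nat_lit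 4293394893) (nat_lit 252) (nat_lit 172021236) (nat_lit 336) (nat_lit 6368855384) (nat_lit 29) (nat_lit 5) (nat_lit 32) (nat_lit 5) (nat_lit 33) (nat_lit 5) (nat_lit 253) (nat_lit 185) (nat_lit 162)) (XT.lf (nat_lit 0) (nat_lit 2326309407) (nat_lit 168) (nat_lit 6708824495) (nat_lit 252) (nat_lit 1990046868) (nat_lit 27) (nat_lit 5) (nat_lit 29) (nat_lit 5) (nat_lit 30) (nat_lit 4) (nat_lit 254) (nat_lit 185) (nat_lit 161))))) (XT.nd (nat_lit 282) (nat_lit 672) (nat_lit 0) (XT.nd (nat_lit 94) (nat_lit 252) (nat_lit 0) (XT.lf (nat_lit 0) (nat_lit 266391728) (nat_lit 252) (nat_lit 2212839331) (nat_lit 336) (nat_lit 8742729731) (nat_lit 23) (nat_lit 5) (nat_lit 26) (nat_lit 5) (nat_lit 27) (nat_lit 5) (nat_lit 255) (nat_lit 185) (nat_lit 160)) (XT.nd (nat_lit 94) (nat_lit 252) (nat_lit 0) (XT.lf (nat_lit 0) (nat_lit 7101739272) (nat_lit 336) (nat_lit 1868991560) (nat_lit 84) (nat_lit 2452571278)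 (nat_lit 23) (nat_lit 5) (nat_lit 27) (nat_lit 5) (nat_lit 24) (nat_lit 4) (nat_lit 256) (nat_lit 185) (nat_lit 159)) (XT.lf (nat_lit 0) (nat_lit 273799432) (nat_lit 252) (nat_lit 4097845129) (nat_lit 84) (nat_lit 7259063870) (nat_lit 20) (nat_lit 5) (nat_lit 23) (nat_lit 5) (nat_lit 21) (nat_lit 5) (nat_lit 257) (nat_lit 185) (nat_lit 158)))) (XT.nd (nat_lit 94) (nat_lit 420) (nat_lit 0) (XT.lf (nat_lit 0) (nat_lit 4931880371) (nat_lit 336) (nat_lit 6457844261) (nat_lit 84) (nat_lit 453789593) (nat_lit 17) (nat_lit 5) (nat_lit 21) (nat_lit 5) (nat_lit 18) (nat_lit 4) (nat_lit 258) (nat_lit 185) (nat_lit 157)) (XT.nd (nat_lit 94) (nat_lit 252) (nat_lit 0) (XT.lf (nat_lit 0) (nat_lit 3111247177) (nat_lit 168) (nat_lit 6692063568) (nat_lit 252) (nat_lit 2258696395) (nat_lit 15) (nat_lit 5) (nat_lit 17) (nat_lit 5) (nat_lit 18) (nat_lit 4) (nat_lit 259) (nat_lit 185) (nat_lit 156)) (XT.lf (nat_lit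 0) (nat_lit 725903098) (nat_lit 168) (nat_lit 1774976484) (nat_lit 252) (nat_lit 9786208712) (nat_lit 12) (nat_lit 5) (nat_lit 14) (nat_lit 5) (nat_lit 15) (nat_lit 5) (nat_lit 260) (nat_lit 185) (nat_lit 155))))))) (XT.nd (nat_lit 35438) (nat_lit 0) (nat_lit 3024) (XT.nd (nat_lit 34874) (nat_lit 0) (nat_lit 6636) (XT.nd (nat_lit 34592) (nat_lit 0) (nat_lit 9072) (XT.nd (nat_lit 94) (nat_lit 420) (nat_lit 0) (XT.lf (nat_lit 0) (nat_lit 7434913001) (nat_lit 252) (nat_lit 1770915082) (nat_lit 84) (nat_lit 3311176775) (nat_lit 12) (nat_lit 5) (nat_lit 15) (nat_lit 5) (nat_lit 13) (nat_lit 4) (nat_lit 261) (nat_lit 185) (nat_lit 154)) (XT.nd (nat_lit 94) (nat_lit 252) (nat_lit 0) (XT.lf (nat_lit 0) (nat_lit 8390193132) (nat_lit 168) (nat_lit 4185318926) (nat_lit 252) (nat_lit 178270834) (nat_lit 10) (nat_lit 5) (nat_lit 12) (nat_lit 5) (nat_lit 13) (nat_lit 4) (nat_lit 262) (nat_lit 185) (nat_lit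 153)) (XT.lf (nat_lit 0) (nat_lit 4805249566) (nat_lit 252) (nat_lit 7120678950) (nat_lit 84) (nat_lit 1070341162) (nat_lit 7) (nat_lit 5) (nat_lit 10) (nat_lit 5) (nat_lit 8) (nat_lit 4) (nat_lit 263) (nat_lit 185) (nat_lit 152)))) (XT.nd (nat_lit 94) (nat_lit 1092) (nat_lit 0) (XT.lf (nat_lit 0) (nat_lit 1267064118) (nat_lit 588) (nat_lit 1247997240) (nat_lit 0) (nat_lit 1267064118) (nat_lit 128) (nat_lit 5) (nat_lit 135) (nat_lit 4) (nat_lit 128) (nat_lit 4) (nat_lit 228) (nat_lit 186) (nat_lit 186)) (XT.nd (nat_lit 94) (nat_lit 588) (nat_lit 0) (XT.lf (nat_lit 0) (nat_lit 3682089770) (nat_lit 504) (nat_lit 2687709858) (nat_lit 504) (nat_lit 1276951183) (nat_lit 122) (nat_lit 4) (nat_lit 128) (nat_lit 5) (nat_lit 128) (nat_lit 4) (nat_lit 229) (nat_lit 186) (nat_lit 185)) (XT.lf (nat_lit 0) (nat_lit 2283064454) (nat_lit 504) (nat_lit 201886400) (nat_lit 588) (nat_lit 5248393111) (nat_lit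 115) (nat_lit 5) (nat_lit 121) (nat_lit 5) (nat_lit 122) (nat_lit 4) (nat_lit 230) (nat_lit 186) (nat_lit 184))))) (XT.nd (nat_lit 282) (nat_lit 1428) (nat_lit 0) (XT.nd (nat_lit 94) (nat_lit 504) (nat_lit 0) (XT.lf (nat_lit 0) (nat_lit 854349718) (nat_lit 504) (nat_lit 5460851849) (nat_lit 504) (nat_lit 1508418173) (nat_lit 109) (nat_lit 4) (nat_lit 115) (nat_lit 5) (nat_lit 115) (nat_lit 4) (nat_lit 231) (nat_lit 186) (nat_lit 183)) (XT.nd (nat_lit 94) (nat_lit 420) (nat_lit 0) (XT.lf (nat_lit 0) (nat_lit 2260671618) (nat_lit 588) (nat_lit 581361614) (nat_lit 84) (nat_lit 5075788241) (nat_lit 108) (nat_lit 5) (nat_lit 115) (nat_lit 5) (nat_lit 109) (nat_lit 4) (nat_lit 232) (nat_lit 186) (nat_lit 182)) (XT.lf (nat_lit 0) (nat_lit 6006229615) (nat_lit 420) (nat_lit 75283369) (nat_lit 504) (nat_lit 1934765301) (nat_lit 103) (nat_lit 5) (nat_lit 108) (nat_lit 5) (nat_lit 109) (nat_lit 4) (nat_lit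 233) (nat_lit 186) (nat_lit 181)))) (XT.nd (nat_lit 94) (nat_lit 924) (nat_lit 0) (XT.lf (nat_lit 0) (nat_lit 1854168181) (nat_lit 504) (nat_lit 3489861856) (nat_lit 84) (nat_lit 2774111774) (nat_lit 97) (nat_lit 5) (nat_lit 103) (nat_lit 5) (nat_lit 98) (nat_lit 4) (nat_lit 234) (nat_lit 186) (nat_lit 180)) (XT.nd (nat_lit 94) (nat_lit 504) (nat_lit 0) (XT.lf (nat_lit 0) (nat_lit 3228813962) (nat_lit 420) (nat_lit 2453374985) (nat_lit 504) (nat_lit 2542284915) (nat_lit 92) (nat_lit 5) (nat_lit 97) (nat_lit 5) (nat_lit 98) (nat_lit 4) (nat_lit 235) (nat_lit 186) (nat_lit 179)) (XT.lf (nat_lit 0) (nat_lit 1240173587) (nat_lit 504) (nat_lit 6528959678) (nat_lit 84) (nat_lit 566276313) (nat_lit 86) (nat_lit 5) (nat_lit 92) (nat_lit 5) (nat_lit 87) (nat_lit 4) (nat_lit 236) (nat_lit 186) (nat_lit 178)))))) (XT.nd (nat_lit 564) (nat_lit 1680) (nat_lit 0) (XT.nd (nat_lit 282) (nat_lit 1092) (nat_lit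 0) (XT.nd (nat_lit 94) (nat_lit 504) (nat_lit 0) (XT.lf (nat_lit 0) (nat_lit 319495697) (nat_lit 336) (nat_lit 4760849135) (nat_lit 420) (nat_lit 3369382479) (nat_lit 82) (nat_lit 5) (nat_lit 86) (nat_lit 5) (nat_lit 87) (nat_lit 4) (nat_lit 237) (nat_lit 186) (nat_lit 177)) (XT.nd (nat_lit 94) (nat_lit 420) (nat_lit 0) (XT.lf (nat_lit 0) (nat_lit 448040502) (nat_lit 420) (nat_lit 1155891707) (nat_lit 84) (nat_lit 6964896939) (nat_lit 81) (nat_lit 5) (nat_lit 86) (nat_lit 5) (nat_lit 82) (nat_lit 5) (nat_lit 238) (nat_lit 186) (nat_lit 176)) (XT.lf (nat_lit 0) (nat_lit 4304182743) (nat_lit 504) (nat_lit 2694773162) (nat_lit 84) (nat_lit 1692337320) (nat_lit 76) (nat_lit 5) (nat_lit 82) (nat_lit 5) (nat_lit 77) (nat_lit 4) (nat_lit 239) (nat_lit 186) (nat_lit 175)))) (XT.nd (nat_lit 94) (nat_lit 756) (nat_lit 0) (XT.lf (nat_lit 0) (nat_lit 4548913093) (nat_lit 336) (nat_lit 3728613568) (nat_lit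 420) (nat_lit 541138600) (nat_lit 72) (nat_lit 5) (nat_lit 76) (nat_lit 5) (nat_lit 77) (nat_lit 4) (nat_lit 240) (nat_lit 186) (nat_lit 174)) (XT.nd (nat_lit 94) (nat_lit 336) (nat_lit 0) (XT.lf (nat_lit 0) (nat_lit 3046132969) (nat_lit 336) (nat_lit 281354187) (nat_lit 420) (nat_lit 5622855754) (nat_lit 67) (nat_lit 5) (nat_lit 71) (nat_lit 5) (nat_lit 72) (nat_lit 5) (nat_lit 241) (nat_lit 186) (nat_lit 173)) (XT.lf (nat_lit 0) (nat_lit 1478856396) (nat_lit 336) (nat_lit 5845215327) (nat_lit 420) (nat_lit 1762155167) (nat_lit 63) (nat_lit 5) (nat_lit 67) (nat_lit 5) (nat_lit 68) (nat_lit 4) (nat_lit 242) (nat_lit 186) (nat_lit 172))))) (XT.nd (nat_lit 282) (nat_lit 924) (nat_lit 0) (XT.nd (nat_lit 94) (nat_lit 672) (nat_lit 0) (XT.lf (nat_lit 0) (nat_lit 2158538224) (nat_lit 420) (nat_lit 138832830) (nat_lit 84) (nat_lit 6929481651) (nat_lit 62) (nat_lit 5) (nat_lit 67) (nat_lit 5) (nat_lit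 63) (nat_lit 5) (nat_lit 243) (nat_lit 186) (nat_lit 171)) (XT.nd (nat_lit 94) (nat_lit 336) (nat_lit 0) (XT.lf (nat_lit 0) (nat_lit 6180904302) (nat_lit 420) (nat_lit 1787505055) (nat_lit 84) (nat_lit 1403076732) (nat_lit 58) (nat_lit 5) (nat_lit 63) (nat_lit 5) (nat_lit 59) (nat_lit 4) (nat_lit 244) (nat_lit 186) (nat_lit 170)) (XT.lf (nat_lit 0) (nat_lit 805747710) (nat_lit 336) (nat_lit 3504583539) (nat_lit 84) (nat_lit 5210475795) (nat_lit 54) (nat_lit 5) (nat_lit 58) (nat_lit 5) (nat_lit 55) (nat_lit 5) (nat_lit 245) (nat_lit 186) (nat_lit 169)))) (XT.nd (nat_lit 94) (nat_lit 588) (nat_lit 0) (XT.lf (nat_lit 0) (nat_lit 4379438302) (nat_lit 336) (nat_lit 464517524) (nat_lit 420) (nat_lit 4830919696) (nat_lit 50) (nat_lit 5) (nat_lit 54) (nat_lit 5) (nat_lit 55) (nat_lit 5) (nat_lit 246) (nat_lit 186) (nat_lit 168)) (XT.nd (nat_lit 94) (nat_lit 336) (nat_lit 0) (XT.lf (nat_lit 0) (nat_lit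 2666257592) (nat_lit 252) (nat_lit 6375705496) (nat_lit 336) (nat_lit 791727145) (nat_lit 47) (nat_lit 5) (nat_lit 50) (nat_lit 5) (nat_lit 51) (nat_lit 4) (nat_lit 247) (nat_lit 186) (nat_lit 167)) (XT.lf (nat_lit 0) (nat_lit 868051960) (nat_lit 252) (nat_lit 2430402862) (nat_lit 336) (nat_lit 6698761075) (nat_lit 43) (nat_lit 5) (nat_lit 46) (nat_lit 5) (nat_lit 47) (nat_lit 5) (nat_lit 248) (nat_lit 186) (nat_lit 166))))))))
noncomputable def xc7 : XT := (XT.nd (nat_lit 36284) (nat_lit 0) (nat_lit 1176) (XT.nd (nat_lit 1034) (nat_lit 840) (nat_lit 0) (XT.nd (nat_lit 470) (nat_lit 1008) (nat_lit 0) (XT.nd (nat_lit 188) (nat_lit 840) (nat_lit 0) (XT.nd (nat_lit 94) (nat_lit 336) (nat_lit 0) (XT.lf (nat_lit 0) (nat_lit 7526302722) (nat_lit 336) (nat_lit 981728097) (nat_lit 84) (nat_lit 1657656439) (nat_lit 43) (nat_lit 5) (nat_lit 47) (nat_lit 5) (nat_lit 44) (nat_lit 4) (nat_lit 249) (nat_lit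 186) (nat_lit 165)) (XT.lf (nat_lit 0) (nat_lit 1550153937) (nat_lit 336) (nat_lit 2906776027) (nat_lit 84) (nat_lit 5881693395) (nat_lit 39) (nat_lit 5) (nat_lit 43) (nat_lit 5) (nat_lit 40) (nat_lit 5) (nat_lit 250) (nat_lit 186) (nat_lit 164))) (XT.nd (nat_lit 94) (nat_lit 588) (nat_lit 0) (XT.lf (nat_lit 0) (nat_lit 5600642946) (nat_lit 252) (nat_lit 210472625) (nat_lit 336) (nat_lit 4705895780) (nat_lit 36) (nat_lit 5) (nat_lit 39) (nat_lit 5) (nat_lit 40) (nat_lit 5) (nat_lit 251) (nat_lit 186) (nat_lit 163)) (XT.nd (nat_lit 94) (nat_lit 336) (nat_lit 0) (XT.lf (nat_lit 0) (nat_lit 3668512112) (nat_lit 252) (nat_lit 6588287442) (nat_lit 336) (nat_lit 443597766) (nat_lit 33) (nat_lit 5) (nat_lit 36) (nat_lit 5) (nat_lit 37) (nat_lit 4) (nat_lit 252) (nat_lit 186) (nat_lit 162)) (XT.lf (nat_lit 0) (nat_lit 1630204735) (nat_lit 252) (nat_lit 2240744676) (nat_lit 336) (nat_lit 7017948696)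 (nat_lit 29) (nat_lit 5) (nat_lit 32) (nat_lit 5) (nat_lit 33) (nat_lit 5) (nat_lit 253) (nat_lit 186) (nat_lit 161))))) (XT.nd (nat_lit 282) (nat_lit 504) (nat_lit 0) (XT.nd (nat_lit 94) (nat_lit 504) (nat_lit 0) (XT.lf (nat_lit 0) (nat_lit 8349669157) (nat_lit 336) (nat_lit 491919675) (nat_lit 84) (nat_lit 2241403463) (nat_lit 29) (nat_lit 5) (nat_lit 33) (nat_lit 5) (nat_lit 30) (nat_lit 4) (nat_lit 254) (nat_lit 186) (nat_lit 160)) (XT.nd (nat_lit 94) (nat_lit 252) (nat_lit 0) (XT.lf (nat_lit 0) (nat_lit 1702304108) (nat_lit 252) (nat_lit 2689831746) (nat_lit 84) (nat_lit 6889693959) (nat_lit 26) (nat_lit 5) (nat_lit 29) (nat_lit 5) (nat_lit 27) (nat_lit 5) (nat_lit 255) (nat_lit 186) (nat_lit 159)) (XT.lf (nat_lit 0) (nat_lit 6227961434) (nat_lit 336) (nat_lit 4995120175) (nat_lit 84) (nat_lit 263479304) (nat_lit 23) (nat_lit 5) (nat_lit 27) (nat_lit 5) (nat_lit 24) (nat_lit 4) (nat_lit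 256) (nat_lit 186) (nat_lit 158)))) (XT.nd (nat_lit 94) (nat_lit 336) (nat_lit 0) (XT.lf (nat_lit 0) (nat_lit 4267056351) (nat_lit 168) (nat_lit 6693566746) (nat_lit 252) (nat_lit 736133284) (nat_lit 21) (nat_lit 5) (nat_lit 23) (nat_lit 5) (nat_lit 24) (nat_lit 4) (nat_lit 257) (nat_lit 186) (nat_lit 157)) (XT.nd (nat_lit 94) (nat_lit 0) (nat_lit 0) (XT.lf (nat_lit 0) (nat_lit 1919732879) (nat_lit 252) (nat_lit 1935054425) (nat_lit 336) (nat_lit 8057996752) (nat_lit 17) (nat_lit 5) (nat_lit 20) (nat_lit 5) (nat_lit 21) (nat_lit 5) (nat_lit 258) (nat_lit 186) (nat_lit 156)) (XT.lf (nat_lit 0) (nat_lit 8630263750) (nat_lit 336) (nat_lit 542147399) (nat_lit 84) (nat_lit 2962224209) (nat_lit 17) (nat_lit 5) (nat_lit 21) (nat_lit 5) (nat_lit 18) (nat_lit 4) (nat_lit 259) (nat_lit 186) (nat_lit 155)))))) (XT.nd (nat_lit 34686) (nat_lit 0) (nat_lit 8064) (XT.nd (nat_lit 282) (nat_lit 252) (nat_lit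 0) (XT.nd (nat_lit 94) (nat_lit 336) (nat_lit 0) (XT.lf (nat_lit 0) (nat_lit 1229511358) (nat_lit 252) (nat_lit 3084755338) (nat_lit 84) (nat_lit 8047823422) (nat_lit 14) (nat_lit 5) (nat_lit 17) (nat_lit 5) (nat_lit 15) (nat_lit 5) (nat_lit 260) (nat_lit 186) (nat_lit 154)) (XT.nd (nat_lit 94) (nat_lit 168) (nat_lit 0) (XT.lf (nat_lit 0) (nat_lit 6060326698) (nat_lit 252) (nat_lit 5770254032) (nat_lit 84) (nat_lit 765038583) (nat_lit 12) (nat_lit 5) (nat_lit 15) (nat_lit 5) (nat_lit 13) (nat_lit 4) (nat_lit 261) (nat_lit 186) (nat_lit 153)) (XT.lf (nat_lit 0) (nat_lit 4229282274) (nat_lit 168) (nat_lit 6887261564) (nat_lit 252) (nat_lit 1718806878) (nat_lit 10) (nat_lit 5) (nat_lit 12) (nat_lit 5) (nat_lit 13) (nat_lit 4) (nat_lit 262) (nat_lit 186) (nat_lit 152)))) (XT.nd (nat_lit 34216) (nat_lit 0) (nat_lit 10668) (XT.lf (nat_lit 0) (nat_lit 1495976346) (nat_lit 168) (nat_lit 1704618700)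 (nat_lit 252) (nat_lit 9881309941) (nat_lit 7) (nat_lit 5) (nat_lit 9) (nat_lit 5) (nat_lit 10) (nat_lit 5) (nat_lit 263) (nat_lit 186) (nat_lit 151)) (XT.nd (nat_lit 94) (nat_lit 84) (nat_lit 0) (XT.lf (nat_lit 0) (nat_lit 243595089) (nat_lit 588) (nat_lit 1730536372) (nat_lit 588) (nat_lit 1730536372) (nat_lit 135) (nat_lit 4) (nat_lit 142) (nat_lit 5) (nat_lit 142) (nat_lit 4) (nat_lit 226) (nat_lit 187) (nat_lit 187)) (XT.lf (nat_lit 0) (nat_lit 238071747) (nat_lit 672) (nat_lit 1026763955) (nat_lit 84) (nat_lit 6221463258) (nat_lit 134) (nat_lit 5) (nat_lit 142) (nat_lit 5) (nat_lit 135) (nat_lit 4) (nat_lit 227) (nat_lit 187) (nat_lit 186))))) (XT.nd (nat_lit 282) (nat_lit 1008) (nat_lit 0) (XT.nd (nat_lit 94) (nat_lit 1092) (nat_lit 0) (XT.lf (nat_lit 0) (nat_lit 3935366722) (nat_lit 588) (nat_lit 2566472799) (nat_lit 0) (nat_lit 1064472818) (nat_lit 128) (nat_lit 5) (nat_lit 135) (nat_lit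 4) (nat_lit 128) (nat_lit 4) (nat_lit 228) (nat_lit 187) (nat_lit 185)) (XT.nd (nat_lit 94) (nat_lit 504) (nat_lit 0) (XT.lf (nat_lit 0) (nat_lit 60295185) (nat_lit 588) (nat_lit 4111245061) (nat_lit 84) (nat_lit 3479294863) (nat_lit 121) (nat_lit 5) (nat_lit 128) (nat_lit 5) (nat_lit 122) (nat_lit 4) (nat_lit 229) (nat_lit 187) (nat_lit 184)) (XT.lf (nat_lit 0) (nat_lit 2048302854) (nat_lit 504) (nat_lit 1685951168) (nat_lit 588) (nat_lit 4004740885) (nat_lit 115) (nat_lit 5) (nat_lit 121) (nat_lit 5) (nat_lit 122) (nat_lit 4) (nat_lit 230) (nat_lit 187) (nat_lit 183)))) (XT.nd (nat_lit 94) (nat_lit 504) (nat_lit 0) (XT.lf (nat_lit 0) (nat_lit 554026901) (nat_lit 504) (nat_lit 6935232206) (nat_lit 504) (nat_lit 342645172) (nat_lit 109) (nat_lit 4) (nat_lit 115) (nat_lit 5) (nat_lit 115) (nat_lit 4) (nat_lit 231) (nat_lit 187) (nat_lit 182)) (XT.nd (nat_lit 94) (nat_lit 420) (nat_lit 0) (XT.lf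 (nat_lit 0) (nat_lit 3345127280) (nat_lit 588) (nat_lit 973073967) (nat_lit 84) (nat_lit 3609371093) (nat_lit 108) (nat_lit 5) (nat_lit 115) (nat_lit 5) (nat_lit 109) (nat_lit 4) (nat_lit 232) (nat_lit 187) (nat_lit 181)) (XT.lf (nat_lit 0) (nat_lit 5536112995) (nat_lit 420) (nat_lit 1571589250) (nat_lit 504) (nat_lit 920366230) (nat_lit 103) (nat_lit 5) (nat_lit 108) (nat_lit 5) (nat_lit 109) (nat_lit 4) (nat_lit 233) (nat_lit 187) (nat_lit 180))))))) (XT.nd (nat_lit 1128) (nat_lit 2772) (nat_lit 0) (XT.nd (nat_lit 564) (nat_lit 1848) (nat_lit 0) (XT.nd (nat_lit 282) (nat_lit 840) (nat_lit 0) (XT.nd (nat_lit 94) (nat_lit 924) (nat_lit 0) (XT.lf (nat_lit 0) (nat_lit 2769795931) (nat_lit 504) (nat_lit 4060957685) (nat_lit 84) (nat_lit 1301434764) (nat_lit 97) (nat_lit 5) (nat_lit 103) (nat_lit 5) (nat_lit 98) (nat_lit 4) (nat_lit 234) (nat_lit 187) (nat_lit 179)) (XT.nd (nat_lit 94) (nat_lit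 504) (nat_lit 0) (XT.lf (nat_lit 0) (nat_lit 2573824225) (nat_lit 420) (nat_lit 3964963964) (nat_lit 504) (nat_lit 1701798241) (nat_lit 92) (nat_lit 5) (nat_lit 97) (nat_lit 5) (nat_lit 98) (nat_lit 4) (nat_lit 235) (nat_lit 187) (nat_lit 178)) (XT.lf (nat_lit 0) (nat_lit 1045820251) (nat_lit 420) (nat_lit 949450321) (nat_lit 504) (nat_lit 6358245434) (nat_lit 86) (nat_lit 5) (nat_lit 91) (nat_lit 5) (nat_lit 92) (nat_lit 5) (nat_lit 236) (nat_lit 187) (nat_lit 177)))) (XT.nd (nat_lit 94) (nat_lit 840) (nat_lit 0) (XT.lf (nat_lit 0) (nat_lit 5770743036) (nat_lit 504) (nat_lit 526118805) (nat_lit 84) (nat_lit 2173236354) (nat_lit 86) (nat_lit 5) (nat_lit 92) (nat_lit 5) (nat_lit 87) (nat_lit 4) (nat_lit 237) (nat_lit 187) (nat_lit 176)) (XT.nd (nat_lit 94) (nat_lit 420) (nat_lit 0) (XT.lf (nat_lit 0) (nat_lit 1046612262) (nat_lit 420) (nat_lit 2112266627) (nat_lit 84) (nat_lit 5432029061) (nat_lit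 81) (nat_lit 5) (nat_lit 86) (nat_lit 5) (nat_lit 82) (nat_lit 5) (nat_lit 238) (nat_lit 187) (nat_lit 175)) (XT.lf (nat_lit 0) (nat_lit 4824895766) (nat_lit 504) (nat_lit 3749614274) (nat_lit 84) (nat_lit 141587043) (nat_lit 76) (nat_lit 5) (nat_lit 82) (nat_lit 5) (nat_lit 77) (nat_lit 4) (nat_lit 239) (nat_lit 187) (nat_lit 174))))) (XT.nd (nat_lit 282) (nat_lit 756) (nat_lit 0) (XT.nd (nat_lit 94) (nat_lit 756) (nat_lit 0) (XT.lf (nat_lit 0) (nat_lit 3399143082) (nat_lit 336) (nat_lit 5338455497) (nat_lit 420) (nat_lit 107992978) (nat_lit 72) (nat_lit 5) (nat_lit 76) (nat_lit 5) (nat_lit 77) (nat_lit 4) (nat_lit 240) (nat_lit 187) (nat_lit 173)) (XT.nd (nat_lit 94) (nat_lit 336) (nat_lit 0) (XT.lf (nat_lit 0) (nat_lit 1766417898) (nat_lit 336) (nat_lit 1922621925) (nat_lit 420) (nat_lit 5290222477) (nat_lit 67) (nat_lit 5) (nat_lit 71) (nat_lit 5) (nat_lit 72) (nat_lit 5) (nat_lit 241)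 (nat_lit 187) (nat_lit 172)) (XT.lf (nat_lit 0) (nat_lit 87175107) (nat_lit 336) (nat_lit 7517745534) (nat_lit 420) (nat_lit 1513050272) (nat_lit 63) (nat_lit 5) (nat_lit 67) (nat_lit 5) (nat_lit 68) (nat_lit 4) (nat_lit 242) (nat_lit 187) (nat_lit 171)))) (XT.nd (nat_lit 94) (nat_lit 672) (nat_lit 0) (XT.lf (nat_lit 0) (nat_lit 2355370839) (nat_lit 420) (nat_lit 1635098590) (nat_lit 84) (nat_lit 5269661994) (nat_lit 62) (nat_lit 5) (nat_lit 67) (nat_lit 5) (nat_lit 63) (nat_lit 5) (nat_lit 243) (nat_lit 187) (nat_lit 170)) (XT.nd (nat_lit 94) (nat_lit 336) (nat_lit 0) (XT.lf (nat_lit 0) (nat_lit 6000291170) (nat_lit 336) (nat_lit 298572229) (nat_lit 420) (nat_lit 3108661979) (nat_lit 58) (nat_lit 5) (nat_lit 62) (nat_lit 5) (nat_lit 63) (nat_lit 5) (nat_lit 244) (nat_lit 187) (nat_lit 169)) (XT.lf (nat_lit 0) (nat_lit 817982124) (nat_lit 336) (nat_lit 5266816237) (nat_lit 84) (nat_lit 3474390003)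 (nat_lit 54) (nat_lit 5) (nat_lit 58) (nat_lit 5) (nat_lit 55) (nat_lit 5) (nat_lit 245) (nat_lit 187) (nat_lit 168)))))) (XT.nd (nat_lit 564) (nat_lit 1260) (nat_lit 0) (XT.nd (nat_lit 282) (nat_lit 840) (nat_lit 0) (XT.nd (nat_lit 94) (nat_lit 336) (nat_lit 0) (XT.lf (nat_lit 0) (nat_lit 2506262530) (nat_lit 336) (nat_lit 2284783785) (nat_lit 420) (nat_lit 4924490565) (nat_lit 50) (nat_lit 5) (nat_lit 54) (nat_lit 5) (nat_lit 55) (nat_lit 5) (nat_lit 246) (nat_lit 187) (nat_lit 167)) (XT.nd (nat_lit 94) (nat_lit 84) (nat_lit 0) (XT.lf (nat_lit 0) (nat_lit 658227600) (nat_lit 252) (nat_lit 8244371552) (nat_lit 336) (nat_lit 974778344) (nat_lit 47) (nat_lit 5) (nat_lit 50) (nat_lit 5) (nat_lit 51) (nat_lit 4) (nat_lit 247) (nat_lit 187) (nat_lit 166)) (XT.lf (nat_lit 0) (nat_lit 3066308164) (nat_lit 336) (nat_lit 1270477003) (nat_lit 84) (nat_lit 5706052989) (nat_lit 46) (nat_lit 5) (nat_lit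 50) (nat_lit 5) (nat_lit 47) (nat_lit 5) (nat_lit 248) (nat_lit 187) (nat_lit 165)))) (XT.nd (nat_lit 94) (nat_lit 588) (nat_lit 0) (XT.lf (nat_lit 0) (nat_lit 6967134250) (nat_lit 252) (nat_lit 250776752) (nat_lit 336) (nat_lit 2996067092) (nat_lit 43) (nat_lit 5) (nat_lit 46) (nat_lit 5) (nat_lit 47) (nat_lit 5) (nat_lit 249) (nat_lit 187) (nat_lit 164)) (XT.nd (nat_lit 94) (nat_lit 252) (nat_lit 0) (XT.lf (nat_lit 0) (nat_lit 1129699225) (nat_lit 336) (nat_lit 5336370667) (nat_lit 84) (nat_lit 3923498489) (nat_lit 39) (nat_lit 5) (nat_lit 43) (nat_lit 5) (nat_lit 40) (nat_lit 5) (nat_lit 250) (nat_lit 187) (nat_lit 163)) (XT.lf (nat_lit 0) (nat_lit 3045677668) (nat_lit 252) (nat_lit 2275023708) (nat_lit 336) (nat_lit 5249703579) (nat_lit 36) (nat_lit 5) (nat_lit 39) (nat_lit 5) (nat_lit 40) (nat_lit 5) (nat_lit 251) (nat_lit 187) (nat_lit 162))))) (XT.nd (nat_lit 282) (nat_lit 672) (nat_lit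 0) (XT.nd (nat_lit 94) (nat_lit 336) (nat_lit 0) (XT.lf (nat_lit 0) (nat_lit 953791430) (nat_lit 252) (nat_lit 8718223249) (nat_lit 336) (nat_lit 1085079218) (nat_lit 33) (nat_lit 5) (nat_lit 36) (nat_lit 5) (nat_lit 37) (nat_lit 4) (nat_lit 252) (nat_lit 187) (nat_lit 161)) (XT.nd (nat_lit 94) (nat_lit 252) (nat_lit 0) (XT.lf (nat_lit 0) (nat_lit 3184906575) (nat_lit 336) (nat_lit 1239016554) (nat_lit 84) (nat_lit 6523990445) (nat_lit 32) (nat_lit 5) (nat_lit 36) (nat_lit 5) (nat_lit 33) (nat_lit 5) (nat_lit 253) (nat_lit 187) (nat_lit 160)) (XT.lf (nat_lit 0) (nat_lit 7584405846) (nat_lit 336) (nat_lit 3493231867) (nat_lit 84) (nat_lit 67142765) (nat_lit 29) (nat_lit 5) (nat_lit 33) (nat_lit 5) (nat_lit 30) (nat_lit 4) (nat_lit 254) (nat_lit 187) (nat_lit 159)))) (XT.nd (nat_lit 94) (nat_lit 420) (nat_lit 0) (XT.lf (nat_lit 0) (nat_lit 818946674) (nat_lit 252) (nat_lit 5882634515) (nat_lit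 84) (nat_lit 4644986393) (nat_lit 26) (nat_lit 5) (nat_lit 29) (nat_lit 5) (nat_lit 27) (nat_lit 5) (nat_lit 255) (nat_lit 187) (nat_lit 158)) (XT.nd (nat_lit 94) (nat_lit 168) (nat_lit 0) (XT.lf (nat_lit 0) (nat_lit 3159970522) (nat_lit 252) (nat_lit 2105395816) (nat_lit 336) (nat_lit 6288705662) (nat_lit 23) (nat_lit 5) (nat_lit 26) (nat_lit 5) (nat_lit 27) (nat_lit 5) (nat_lit 256) (nat_lit 187) (nat_lit 157)) (XT.lf (nat_lit 0) (nat_lit 745218642) (nat_lit 168) (nat_lit 9151323108) (nat_lit 252) (nat_lit 1871277737) (nat_lit 21) (nat_lit 5) (nat_lit 23) (nat_lit 5) (nat_lit 24) (nat_lit 4) (nat_lit 257) (nat_lit 187) (nat_lit 156))))))))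
noncomputable def xc8 : XT := (XT.nd (nat_lit 36096) (nat_lit 0) (nat_lit 252) (XT.nd (nat_lit 34968) (nat_lit 0) (nat_lit 5208) (XT.nd (nat_lit 470) (nat_lit 252) (nat_lit 0) (XT.nd (nat_lit 188) (nat_lit 420) (nat_lit 0) (XT.nd (nat_lit 94) (nat_lit 252) (nat_lit 0) (XT.lf (nat_lit 0) (nat_lit 2685343660) (nat_lit 252) (nat_lit 1770647416) (nat_lit 84) (nat_lit 7530400086) (nat_lit 20) (nat_lit 5) (nat_lit 23) (nat_lit 5) (nat_lit 21) (nat_lit 5) (nat_lit 258) (nat_lit 187) (nat_lit 155)) (XT.lf (nat_lit 0) (nat_lit 7373928281) (nat_lit 336) (nat_lit 4386462330) (nat_lit 84) (nat_lit 450893067) (nat_lit 17) (nat_lit 5) (nat_lit 21) (nat_lit 5) (nat_lit 18) (nat_lit 4) (nat_lit 259) (nat_lit 187) (nat_lit 154))) (XT.nd (nat_lit 94) (nat_lit 252) (nat_lit 0) (XT.lf (nat_lit 0) (nat_lit 5292237752) (nat_lit 168) (nat_lit 6990393886) (nat_lit 252) (nat_lit 159455154) (nat_lit 15) (nat_lit 5)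 (nat_lit 17) (nat_lit 5) (nat_lit 18) (nat_lit 4) (nat_lit 260) (nat_lit 187) (nat_lit 153)) (XT.nd (nat_lit 94) (nat_lit 0) (nat_lit 0) (XT.lf (nat_lit 0) (nat_lit 2610580707) (nat_lit 168) (nat_lit 1971645977) (nat_lit 252) (nat_lit 8096697702) (nat_lit 12) (nat_lit 5) (nat_lit 14) (nat_lit 5) (nat_lit 15) (nat_lit 5) (nat_lit 261) (nat_lit 187) (nat_lit 152)) (XT.lf (nat_lit 0) (nat_lit 9532617443) (nat_lit 252) (nat_lit 207687827) (nat_lit 84) (nat_lit 3182054444) (nat_lit 12) (nat_lit 5) (nat_lit 15) (nat_lit 5) (nat_lit 13) (nat_lit 4) (nat_lit 262) (nat_lit 187) (nat_lit 151))))) (XT.nd (nat_lit 34216) (nat_lit 0) (nat_lit 9996) (XT.nd (nat_lit 34028) (nat_lit 0) (nat_lit 11172) (XT.lf (nat_lit 0) (nat_lit 1511857935) (nat_lit 252) (nat_lit 3113241246) (nat_lit 84) (nat_lit 8546415542) (nat_lit 9) (nat_lit 5) (nat_lit 12) (nat_lit 5) (nat_lit 10) (nat_lit 5) (nat_lit 263) (nat_lit 187)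 (nat_lit 150)) (XT.nd (nat_lit 94) (nat_lit 672) (nat_lit 0) (XT.lf (nat_lit 0) (nat_lit 1817947199) (nat_lit 672) (nat_lit 907479767) (nat_lit 672) (nat_lit 907479767) (nat_lit 150) (nat_lit 4) (nat_lit 158) (nat_lit 5) (nat_lit 158) (nat_lit 4) (nat_lit 224) (nat_lit 188) (nat_lit 188)) (XT.lf (nat_lit 0) (nat_lit 1802205108) (nat_lit 672) (nat_lit 5296578592) (nat_lit 0) (nat_lit 238071747) (nat_lit 142) (nat_lit 5) (nat_lit 150) (nat_lit 4) (nat_lit 142) (nat_lit 4) (nat_lit 225) (nat_lit 188) (nat_lit 187)))) (XT.nd (nat_lit 94) (nat_lit 588) (nat_lit 0) (XT.lf (nat_lit 0) (nat_lit 419263931) (nat_lit 588) (nat_lit 5033761519) (nat_lit 588) (nat_lit 1958388196) (nat_lit 135) (nat_lit 4) (nat_lit 142) (nat_lit 5) (nat_lit 142) (nat_lit 4) (nat_lit 226) (nat_lit 188) (nat_lit 186)) (XT.nd (nat_lit 94) (nat_lit 504) (nat_lit 0) (XT.lf (nat_lit 0) (nat_lit 1648659369) (nat_lit 672) (nat_lit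 1180486735) (nat_lit 84) (nat_lit 4660675688) (nat_lit 134) (nat_lit 5) (nat_lit 142) (nat_lit 5) (nat_lit 135) (nat_lit 4) (nat_lit 227) (nat_lit 188) (nat_lit 185)) (XT.lf (nat_lit 0) (nat_lit 4788898921) (nat_lit 504) (nat_lit 486366998) (nat_lit 588) (nat_lit 2297043345) (nat_lit 128) (nat_lit 5) (nat_lit 134) (nat_lit 5) (nat_lit 135) (nat_lit 4) (nat_lit 228) (nat_lit 188) (nat_lit 184)))))) (XT.nd (nat_lit 564) (nat_lit 2184) (nat_lit 0) (XT.nd (nat_lit 282) (nat_lit 924) (nat_lit 0) (XT.nd (nat_lit 94) (nat_lit 1092) (nat_lit 0) (XT.lf (nat_lit 0) (nat_lit 1299657756) (nat_lit 588) (nat_lit 4417340511) (nat_lit 84) (nat_lit 1941563886) (nat_lit 121) (nat_lit 5) (nat_lit 128) (nat_lit 5) (nat_lit 122) (nat_lit 4) (nat_lit 229) (nat_lit 188) (nat_lit 183)) (XT.nd (nat_lit 94) (nat_lit 588) (nat_lit 0) (XT.lf (nat_lit 0) (nat_lit 1667261728) (nat_lit 504) (nat_lit 3247642090) (nat_lit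 588) (nat_lit 2833873080) (nat_lit 115) (nat_lit 5) (nat_lit 121) (nat_lit 5) (nat_lit 122) (nat_lit 4) (nat_lit 230) (nat_lit 188) (nat_lit 182)) (XT.lf (nat_lit 0) (nat_lit 86922833) (nat_lit 504) (nat_lit 653004427) (nat_lit 588) (nat_lit 7103869085) (nat_lit 108) (nat_lit 5) (nat_lit 114) (nat_lit 5) (nat_lit 115) (nat_lit 5) (nat_lit 231) (nat_lit 188) (nat_lit 181)))) (XT.nd (nat_lit 94) (nat_lit 924) (nat_lit 0) (XT.lf (nat_lit 0) (nat_lit 4359626319) (nat_lit 588) (nat_lit 1516356744) (nat_lit 84) (nat_lit 2065458365) (nat_lit 108) (nat_lit 5) (nat_lit 115) (nat_lit 5) (nat_lit 109) (nat_lit 4) (nat_lit 232) (nat_lit 188) (nat_lit 180)) (XT.nd (nat_lit 94) (nat_lit 420) (nat_lit 0) (XT.lf (nat_lit 0) (nat_lit 19597859) (nat_lit 504) (nat_lit 3130943617) (nat_lit 84) (nat_lit 4893424393) (nat_lit 102) (nat_lit 5) (nat_lit 108) (nat_lit 5) (nat_lit 103) (nat_lit 5) (nat_lit 233) (nat_lit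 188) (nat_lit 179)) (XT.lf (nat_lit 0) (nat_lit 3354866725) (nat_lit 420) (nat_lit 260231873) (nat_lit 504) (nat_lit 4535211004) (nat_lit 97) (nat_lit 5) (nat_lit 102) (nat_lit 5) (nat_lit 103) (nat_lit 5) (nat_lit 234) (nat_lit 188) (nat_lit 178))))) (XT.nd (nat_lit 282) (nat_lit 1260) (nat_lit 0) (XT.nd (nat_lit 94) (nat_lit 504) (nat_lit 0) (XT.lf (nat_lit 0) (nat_lit 1757010189) (nat_lit 420) (nat_lit 5565098887) (nat_lit 504) (nat_lit 938767938) (nat_lit 92) (nat_lit 5) (nat_lit 97) (nat_lit 5) (nat_lit 98) (nat_lit 4) (nat_lit 235) (nat_lit 188) (nat_lit 177)) (XT.nd (nat_lit 94) (nat_lit 0) (nat_lit 0) (XT.lf (nat_lit 0) (nat_lit 111941060) (nat_lit 420) (nat_lit 2569062080) (nat_lit 504) (nat_lit 5694605767) (nat_lit 86) (nat_lit 5) (nat_lit 91) (nat_lit 5) (nat_lit 92) (nat_lit 5) (nat_lit 236) (nat_lit 188) (nat_lit 176)) (XT.lf (nat_lit 0) (nat_lit 6389579412) (nat_lit 504) (nat_lit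 1531883597) (nat_lit 84) (nat_lit 573069455) (nat_lit 86) (nat_lit 5) (nat_lit 92) (nat_lit 5) (nat_lit 87) (nat_lit 4) (nat_lit 237) (nat_lit 188) (nat_lit 175)))) (XT.nd (nat_lit 94) (nat_lit 840) (nat_lit 0) (XT.lf (nat_lit 0) (nat_lit 1567439667) (nat_lit 420) (nat_lit 3240882198) (nat_lit 84) (nat_lit 3808891949) (nat_lit 81) (nat_lit 5) (nat_lit 86) (nat_lit 5) (nat_lit 82) (nat_lit 5) (nat_lit 238) (nat_lit 188) (nat_lit 174)) (XT.nd (nat_lit 94) (nat_lit 420) (nat_lit 0) (XT.lf (nat_lit 0) (nat_lit 3745940654) (nat_lit 420) (nat_lit 1537691837) (nat_lit 504) (nat_lit 3460943629) (nat_lit 76) (nat_lit 5) (nat_lit 81) (nat_lit 5) (nat_lit 82) (nat_lit 5) (nat_lit 239) (nat_lit 188) (nat_lit 173)) (XT.lf (nat_lit 0) (nat_lit 235907614) (nat_lit 420) (nat_lit 6808894086) (nat_lit 84) (nat_lit 1831909969) (nat_lit 71) (nat_lit 5) (nat_lit 76) (nat_lit 5) (nat_lit 72) (nat_lit 5) (nat_lit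 240) (nat_lit 188) (nat_lit 172))))))) (XT.nd (nat_lit 1034) (nat_lit 2016) (nat_lit 0) (XT.nd (nat_lit 470) (nat_lit 1512) (nat_lit 0) (XT.nd (nat_lit 188) (nat_lit 1092) (nat_lit 0) (XT.nd (nat_lit 94) (nat_lit 0) (nat_lit 0) (XT.lf (nat_lit 0) (nat_lit 302744589) (nat_lit 336) (nat_lit 3665532500) (nat_lit 420) (nat_lit 5044240721) (nat_lit 67) (nat_lit 5) (nat_lit 71) (nat_lit 5) (nat_lit 72) (nat_lit 5) (nat_lit 241) (nat_lit 188) (nat_lit 171)) (XT.lf (nat_lit 0) (nat_lit 7692326039) (nat_lit 336) (nat_lit 127537982) (nat_lit 420) (nat_lit 1333612686) (nat_lit 67) (nat_lit 5) (nat_lit 71) (nat_lit 5) (nat_lit 72) (nat_lit 5) (nat_lit 242) (nat_lit 188) (nat_lit 170))) (XT.nd (nat_lit 94) (nat_lit 672) (nat_lit 0) (XT.lf (nat_lit 0) (nat_lit 2467421236) (nat_lit 420) (nat_lit 3321494076) (nat_lit 84) (nat_lit 3508868078) (nat_lit 62) (nat_lit 5) (nat_lit 67) (nat_lit 5) (nat_lit 63) (nat_lit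 5) (nat_lit 243) (nat_lit 188) (nat_lit 169)) (XT.nd (nat_lit 94) (nat_lit 336) (nat_lit 0) (XT.lf (nat_lit 0) (nat_lit 4207846991) (nat_lit 336) (nat_lit 2139571114) (nat_lit 420) (nat_lit 3099981592) (nat_lit 58) (nat_lit 5) (nat_lit 62) (nat_lit 5) (nat_lit 63) (nat_lit 5) (nat_lit 244) (nat_lit 188) (nat_lit 168)) (XT.lf (nat_lit 0) (nat_lit 740549758) (nat_lit 336) (nat_lit 7230063878) (nat_lit 84) (nat_lit 1631452719) (nat_lit 54) (nat_lit 5) (nat_lit 58) (nat_lit 5) (nat_lit 55) (nat_lit 5) (nat_lit 245) (nat_lit 188) (nat_lit 167))))) (XT.nd (nat_lit 282) (nat_lit 840) (nat_lit 0) (XT.nd (nat_lit 94) (nat_lit 336) (nat_lit 0) (XT.lf (nat_lit 0) (nat_lit 429777337) (nat_lit 336) (nat_lit 4217924527) (nat_lit 420) (nat_lit 5113019930) (nat_lit 50) (nat_lit 5) (nat_lit 54) (nat_lit 5) (nat_lit 55) (nat_lit 5) (nat_lit 246) (nat_lit 188) (nat_lit 166)) (XT.nd (nat_lit 94) (nat_lit 336)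 (nat_lit 0) (XT.lf (nat_lit 0) (nat_lit 8398233614) (nat_lit 336) (nat_lit 293095538) (nat_lit 420) (nat_lit 1233610652) (nat_lit 50) (nat_lit 5) (nat_lit 54) (nat_lit 5) (nat_lit 55) (nat_lit 5) (nat_lit 247) (nat_lit 188) (nat_lit 165)) (XT.lf (nat_lit 0) (nat_lit 2750372280) (nat_lit 336) (nat_lit 3599481790) (nat_lit 84) (nat_lit 3742851366) (nat_lit 46) (nat_lit 5) (nat_lit 50) (nat_lit 5) (nat_lit 47) (nat_lit 5) (nat_lit 248) (nat_lit 188) (nat_lit 164)))) (XT.nd (nat_lit 94) (nat_lit 588) (nat_lit 0) (XT.lf (nat_lit 0) (nat_lit 4518027895) (nat_lit 252) (nat_lit 2315982072) (nat_lit 336) (nat_lit 3432214188) (nat_lit 43) (nat_lit 5) (nat_lit 46) (nat_lit 5) (nat_lit 47) (nat_lit 5) (nat_lit 249) (nat_lit 188) (nat_lit 163)) (XT.nd (nat_lit 94) (nat_lit 252) (nat_lit 0) (XT.lf (nat_lit 0) (nat_lit 610093036) (nat_lit 336) (nat_lit 7988238778) (nat_lit 84) (nat_lit 1846919909) (nat_lit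 39) (nat_lit 5) (nat_lit 43) (nat_lit 5) (nat_lit 40) (nat_lit 5) (nat_lit 250) (nat_lit 188) (nat_lit 162)) (XT.lf (nat_lit 0) (nat_lit 265615543) (nat_lit 252) (nat_lit 4464415198) (nat_lit 336) (nat_lit 5898544811) (nat_lit 36) (nat_lit 5) (nat_lit 39) (nat_lit 5) (nat_lit 40) (nat_lit 5) (nat_lit 251) (nat_lit 188) (nat_lit 161)))))) (XT.nd (nat_lit 564) (nat_lit 924) (nat_lit 0) (XT.nd (nat_lit 282) (nat_lit 504) (nat_lit 0) (XT.nd (nat_lit 94) (nat_lit 588) (nat_lit 0) (XT.lf (nat_lit 0) (nat_lit 8869085967) (nat_lit 252) (nat_lit 139056847) (nat_lit 336) (nat_lit 1809683724) (nat_lit 36) (nat_lit 5) (nat_lit 39) (nat_lit 5) (nat_lit 40) (nat_lit 5) (nat_lit 252) (nat_lit 188) (nat_lit 160)) (XT.nd (nat_lit 94) (nat_lit 252) (nat_lit 0) (XT.lf (nat_lit 0) (nat_lit 2413151441) (nat_lit 336) (nat_lit 4304079653) (nat_lit 84) (nat_lit 4293923016) (nat_lit 32) (nat_lit 5) (nat_lit 36) (nat_lit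 5) (nat_lit 33) (nat_lit 5) (nat_lit 253) (nat_lit 188) (nat_lit 159)) (XT.lf (nat_lit 0) (nat_lit 4451227509) (nat_lit 252) (nat_lit 2286770160) (nat_lit 336) (nat_lit 4472636202) (nat_lit 29) (nat_lit 5) (nat_lit 32) (nat_lit 5) (nat_lit 33) (nat_lit 5) (nat_lit 254) (nat_lit 188) (nat_lit 158)))) (XT.nd (nat_lit 94) (nat_lit 336) (nat_lit 0) (XT.lf (nat_lit 0) (nat_lit 2092455637) (nat_lit 168) (nat_lit 9144917568) (nat_lit 252) (nat_lit 178911630) (nat_lit 27) (nat_lit 5) (nat_lit 29) (nat_lit 5) (nat_lit 30) (nat_lit 4) (nat_lit 255) (nat_lit 188) (nat_lit 157)) (XT.nd (nat_lit 94) (nat_lit 252) (nat_lit 0) (XT.lf (nat_lit 0) (nat_lit 4198597944) (nat_lit 252) (nat_lit 414810453) (nat_lit 84) (nat_lit 7013004465) (nat_lit 26) (nat_lit 5) (nat_lit 29) (nat_lit 5) (nat_lit 27) (nat_lit 5) (nat_lit 256) (nat_lit 188) (nat_lit 156)) (XT.lf (nat_lit 0) (nat_lit 8751266577) (nat_lit 336) (nat_lit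 2964803041) (nat_lit 84) (nat_lit 126838467) (nat_lit 23) (nat_lit 5) (nat_lit 27) (nat_lit 5) (nat_lit 24) (nat_lit 4) (nat_lit 257) (nat_lit 188) (nat_lit 155))))) (XT.nd (nat_lit 282) (nat_lit 252) (nat_lit 0) (XT.nd (nat_lit 94) (nat_lit 420) (nat_lit 0) (XT.lf (nat_lit 0) (nat_lit 1421119386) (nat_lit 252) (nat_lit 5676084593) (nat_lit 84) (nat_lit 4967255291) (nat_lit 20) (nat_lit 5) (nat_lit 23) (nat_lit 5) (nat_lit 21) (nat_lit 5) (nat_lit 258) (nat_lit 188) (nat_lit 154)) (XT.nd (nat_lit 94) (nat_lit 168) (nat_lit 0) (XT.lf (nat_lit 0) (nat_lit 3770484000) (nat_lit 252) (nat_lit 2252768066) (nat_lit 336) (nat_lit 6269125538) (nat_lit 17) (nat_lit 5) (nat_lit 20) (nat_lit 5) (nat_lit 21) (nat_lit 5) (nat_lit 259) (nat_lit 188) (nat_lit 153)) (XT.lf (nat_lit 0) (nat_lit 1022680862) (nat_lit 168) (nat_lit 9800770110) (nat_lit 252) (nat_lit 1703527402) (nat_lit 15) (nat_lit 5) (nat_lit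 17) (nat_lit 5) (nat_lit 18) (nat_lit 4) (nat_lit 260) (nat_lit 188) (nat_lit 152)))) (XT.nd (nat_lit 94) (nat_lit 168) (nat_lit 0) (XT.lf (nat_lit 0) (nat_lit 3008362943) (nat_lit 252) (nat_lit 1848390689) (nat_lit 84) (nat_lit 7909932565) (nat_lit 14) (nat_lit 5) (nat_lit 17) (nat_lit 5) (nat_lit 15) (nat_lit 5) (nat_lit 261) (nat_lit 188) (nat_lit 151)) (XT.nd (nat_lit 33934) (nat_lit 0) (nat_lit 13524) (XT.lf (nat_lit 0) (nat_lit 7869799051) (nat_lit 252) (nat_lit 4828408976) (nat_lit 84) (nat_lit 315026909) (nat_lit 12) (nat_lit 5) (nat_lit 15) (nat_lit 5) (nat_lit 13) (nat_lit 4) (nat_lit 262) (nat_lit 188) (nat_lit 150)) (XT.lf (nat_lit 0) (nat_lit 3451780295) (nat_lit 1092) (nat_lit 57801915) (nat_lit 1092) (nat_lit 57801915) (nat_lit 173) (nat_lit 4) (nat_lit 186) (nat_lit 5) (nat_lit 186) (nat_lit 4) (nat_lit 222) (nat_lit 189) (nat_lit 189))))))))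
noncomputable def xc9 : XT := (XT.nd (nat_lit 2162) (nat_lit 3528) (nat_lit 0) (XT.nd (nat_lit 1034) (nat_lit 4032) (nat_lit 0) (XT.nd (nat_lit 470) (nat_lit 2688) (nat_lit 0) (XT.nd (nat_lit 188) (nat_lit 1344) (nat_lit 0) (XT.nd (nat_lit 94) (nat_lit 672) (nat_lit 0) (XT.lf (nat_lit 0) (nat_lit 3452265323) (nat_lit 1260) (nat_lit 1969921440) (nat_lit 0) (nat_lit 1776726564) (nat_lit 158) (nat_lit 5) (nat_lit 173) (nat_lit 4) (nat_lit 158) (nat_lit 4) (nat_lit 223) (nat_lit 189) (nat_lit 188)) (XT.lf (nat_lit 0) (nat_lit 3572138287) (nat_lit 672) (nat_lit 3495081511) (nat_lit 672) (nat_lit 200664723) (nat_lit 150) (nat_lit 4) (nat_lit 158) (nat_lit 5) (nat_lit 158) (nat_lit 4) (nat_lit 224) (nat_lit 189) (nat_lit 187))) (XT.nd (nat_lit 94) (nat_lit 672) (nat_lit 0) (XT.lf (nat_lit 0) (nat_lit 1892925556) (nat_lit 588) (nat_lit 1424752922) (nat_lit 672) (nat_lit 4022796132) (nat_lit 142) (nat_lit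 5) (nat_lit 149) (nat_lit 5) (nat_lit 150) (nat_lit 4) (nat_lit 225) (nat_lit 189) (nat_lit 186)) (XT.nd (nat_lit 94) (nat_lit 84) (nat_lit 0) (XT.lf (nat_lit 0) (nat_lit 215404791) (nat_lit 588) (nat_lit 6678315916) (nat_lit 588) (nat_lit 523929336) (nat_lit 135) (nat_lit 4) (nat_lit 142) (nat_lit 5) (nat_lit 142) (nat_lit 4) (nat_lit 226) (nat_lit 189) (nat_lit 185)) (XT.lf (nat_lit 0) (nat_lit 2994530457) (nat_lit 672) (nat_lit 1471275774) (nat_lit 84) (nat_lit 3031654740) (nat_lit 134) (nat_lit 5) (nat_lit 142) (nat_lit 5) (nat_lit 135) (nat_lit 4) (nat_lit 227) (nat_lit 189) (nat_lit 184))))) (XT.nd (nat_lit 282) (nat_lit 1092) (nat_lit 0) (XT.nd (nat_lit 94) (nat_lit 1092) (nat_lit 0) (XT.lf (nat_lit 0) (nat_lit 4427390677) (nat_lit 504) (nat_lit 2135551726) (nat_lit 588) (nat_lit 1019042853) (nat_lit 128) (nat_lit 5) (nat_lit 134) (nat_lit 5) (nat_lit 135) (nat_lit 4) (nat_lit 228)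 (nat_lit 189) (nat_lit 183)) (XT.nd (nat_lit 94) (nat_lit 504) (nat_lit 0) (XT.lf (nat_lit 0) (nat_lit 2471557349) (nat_lit 588) (nat_lit 4869081697) (nat_lit 84) (nat_lit 329800020) (nat_lit 121) (nat_lit 5) (nat_lit 128) (nat_lit 5) (nat_lit 122) (nat_lit 4) (nat_lit 229) (nat_lit 189) (nat_lit 182)) (XT.lf (nat_lit 0) (nat_lit 1139490083) (nat_lit 504) (nat_lit 4888807542) (nat_lit 588) (nat_lit 1734403888) (nat_lit 115) (nat_lit 5) (nat_lit 121) (nat_lit 5) (nat_lit 122) (nat_lit 4) (nat_lit 230) (nat_lit 189) (nat_lit 181)))) (XT.nd (nat_lit 94) (nat_lit 1008) (nat_lit 0) (XT.lf (nat_lit 0) (nat_lit 1761352438) (nat_lit 588) (nat_lit 533537841) (nat_lit 84) (nat_lit 5564260917) (nat_lit 114) (nat_lit 5) (nat_lit 121) (nat_lit 5) (nat_lit 115) (nat_lit 5) (nat_lit 231) (nat_lit 189) (nat_lit 180)) (XT.nd (nat_lit 94) (nat_lit 504) (nat_lit 0) (XT.lf (nat_lit 0) (nat_lit 5305369470) (nat_lit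 588) (nat_lit 2211852960) (nat_lit 84) (nat_lit 442222720) (nat_lit 108) (nat_lit 5) (nat_lit 115) (nat_lit 5) (nat_lit 109) (nat_lit 4) (nat_lit 232) (nat_lit 189) (nat_lit 179)) (XT.lf (nat_lit 0) (nat_lit 867478276) (nat_lit 504) (nat_lit 3936988638) (nat_lit 84) (nat_lit 3259199695) (nat_lit 102) (nat_lit 5) (nat_lit 108) (nat_lit 5) (nat_lit 103) (nat_lit 5) (nat_lit 233) (nat_lit 189) (nat_lit 178)))))) (XT.nd (nat_lit 564) (nat_lit 1848) (nat_lit 0) (XT.nd (nat_lit 282) (nat_lit 1260) (nat_lit 0) (XT.nd (nat_lit 94) (nat_lit 504) (nat_lit 0) (XT.lf (nat_lit 0) (nat_lit 2464986093) (nat_lit 420) (nat_lit 1938993061) (nat_lit 504) (nat_lit 3768096183) (nat_lit 97) (nat_lit 5) (nat_lit 102) (nat_lit 5) (nat_lit 103) (nat_lit 5) (nat_lit 234) (nat_lit 189) (nat_lit 177)) (XT.nd (nat_lit 94) (nat_lit 84) (nat_lit 0) (XT.lf (nat_lit 0) (nat_lit 777405094) (nat_lit 420) (nat_lit 7255673635)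 (nat_lit 504) (nat_lit 252290902) (nat_lit 92) (nat_lit 5) (nat_lit 97) (nat_lit 5) (nat_lit 98) (nat_lit 4) (nat_lit 235) (nat_lit 189) (nat_lit 176)) (XT.lf (nat_lit 0) (nat_lit 3302753385) (nat_lit 504) (nat_lit 967172396) (nat_lit 84) (nat_lit 4131628682) (nat_lit 91) (nat_lit 5) (nat_lit 97) (nat_lit 5) (nat_lit 92) (nat_lit 5) (nat_lit 236) (nat_lit 189) (nat_lit 175)))) (XT.nd (nat_lit 94) (nat_lit 840) (nat_lit 0) (XT.lf (nat_lit 0) (nat_lit 5803769084) (nat_lit 420) (nat_lit 1142992842) (nat_lit 504) (nat_lit 1575975964) (nat_lit 86) (nat_lit 5) (nat_lit 91) (nat_lit 5) (nat_lit 92) (nat_lit 5) (nat_lit 237) (nat_lit 189) (nat_lit 174)) (XT.nd (nat_lit 94) (nat_lit 420) (nat_lit 0) (XT.lf (nat_lit 0) (nat_lit 2011139153) (nat_lit 420) (nat_lit 4543074221) (nat_lit 84) (nat_lit 2093564498) (nat_lit 81) (nat_lit 5) (nat_lit 86) (nat_lit 5) (nat_lit 82) (nat_lit 5) (nat_lit 238) (nat_lit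 189) (nat_lit 173)) (XT.lf (nat_lit 0) (nat_lit 2348404002) (nat_lit 420) (nat_lit 3318082581) (nat_lit 504) (nat_lit 3110783186) (nat_lit 76) (nat_lit 5) (nat_lit 81) (nat_lit 5) (nat_lit 82) (nat_lit 5) (nat_lit 239) (nat_lit 189) (nat_lit 172))))) (XT.nd (nat_lit 282) (nat_lit 1092) (nat_lit 0) (XT.nd (nat_lit 94) (nat_lit 336) (nat_lit 0) (XT.lf (nat_lit 0) (nat_lit 495891250) (nat_lit 420) (nat_lit 8356283353) (nat_lit 84) (nat_lit 59972461) (nat_lit 71) (nat_lit 5) (nat_lit 76) (nat_lit 5) (nat_lit 72) (nat_lit 5) (nat_lit 240) (nat_lit 189) (nat_lit 171)) (XT.nd (nat_lit 94) (nat_lit 336) (nat_lit 0) (XT.lf (nat_lit 0) (nat_lit 4180533686) (nat_lit 420) (nat_lit 1316085707) (nat_lit 84) (nat_lit 3553004258) (nat_lit 71) (nat_lit 5) (nat_lit 76) (nat_lit 5) (nat_lit 72) (nat_lit 5) (nat_lit 241) (nat_lit 189) (nat_lit 170)) (XT.lf (nat_lit 0) (nat_lit 5979121823) (nat_lit 336) (nat_lit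 1994429316) (nat_lit 420) (nat_lit 1219081342) (nat_lit 67) (nat_lit 5) (nat_lit 71) (nat_lit 5) (nat_lit 72) (nat_lit 5) (nat_lit 242) (nat_lit 189) (nat_lit 169)))) (XT.nd (nat_lit 94) (nat_lit 672) (nat_lit 0) (XT.lf (nat_lit 0) (nat_lit 2494822037) (nat_lit 420) (nat_lit 5200015266) (nat_lit 84) (nat_lit 1645015874) (nat_lit 62) (nat_lit 5) (nat_lit 67) (nat_lit 5) (nat_lit 63) (nat_lit 5) (nat_lit 243) (nat_lit 189) (nat_lit 168)) (XT.nd (nat_lit 94) (nat_lit 336) (nat_lit 0) (XT.lf (nat_lit 0) (nat_lit 2221082853) (nat_lit 336) (nat_lit 4089547045) (nat_lit 420) (nat_lit 3181086200) (nat_lit 58) (nat_lit 5) (nat_lit 62) (nat_lit 5) (nat_lit 63) (nat_lit 5) (nat_lit 244) (nat_lit 189) (nat_lit 167)) (XT.lf (nat_lit 0) (nat_lit 249059654) (nat_lit 252) (nat_lit 327953416) (nat_lit 336) (nat_lit 9072350804) (nat_lit 54) (nat_lit 5) (nat_lit 57) (nat_lit 5) (nat_lit 58) (nat_lit 5) (nat_lit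 245) (nat_lit 189) (nat_lit 166))))))) (XT.nd (nat_lit 1128) (nat_lit 924) (nat_lit 0) (XT.nd (nat_lit 564) (nat_lit 1344) (nat_lit 0) (XT.nd (nat_lit 282) (nat_lit 588) (nat_lit 0) (XT.nd (nat_lit 94) (nat_lit 672) (nat_lit 0) (XT.lf (nat_lit 0) (nat_lit 4434393370) (nat_lit 336) (nat_lit 1810471424) (nat_lit 84) (nat_lit 3564896532) (nat_lit 54) (nat_lit 5) (nat_lit 58) (nat_lit 5) (nat_lit 55) (nat_lit 5) (nat_lit 246) (nat_lit 189) (nat_lit 165)) (XT.nd (nat_lit 94) (nat_lit 336) (nat_lit 0) (XT.lf (nat_lit 0) (nat_lit 6052792389) (nat_lit 336) (nat_lit 2363952195) (nat_lit 420) (nat_lit 1559379412) (nat_lit 50) (nat_lit 5) (nat_lit 54) (nat_lit 5) (nat_lit 55) (nat_lit 5) (nat_lit 247) (nat_lit 189) (nat_lit 164)) (XT.lf (nat_lit 0) (nat_lit 2340601271) (nat_lit 336) (nat_lit 6141401402) (nat_lit 84) (nat_lit 1665212607) (nat_lit 46) (nat_lit 5) (nat_lit 50) (nat_lit 5) (nat_lit 47) (nat_lit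 5) (nat_lit 248) (nat_lit 189) (nat_lit 163)))) (XT.nd (nat_lit 94) (nat_lit 336) (nat_lit 0) (XT.lf (nat_lit 0) (nat_lit 1853301203) (nat_lit 252) (nat_lit 4501945676) (nat_lit 336) (nat_lit 3967901842) (nat_lit 43) (nat_lit 5) (nat_lit 46) (nat_lit 5) (nat_lit 47) (nat_lit 5) (nat_lit 249) (nat_lit 189) (nat_lit 162)) (XT.nd (nat_lit 94) (nat_lit 336) (nat_lit 0) (XT.lf (nat_lit 0) (nat_lit 10149778995) (nat_lit 252) (nat_lit 354420629) (nat_lit 336) (nat_lit 1257401) (nat_lit 43) (nat_lit 5) (nat_lit 46) (nat_lit 5) (nat_lit 47) (nat_lit 5) (nat_lit 250) (nat_lit 189) (nat_lit 161)) (XT.lf (nat_lit 0) (nat_lit 4068965631) (nat_lit 336) (nat_lit 2680642069) (nat_lit 84) (nat_lit 3940914657) (nat_lit 39) (nat_lit 5) (nat_lit 43) (nat_lit 5) (nat_lit 40) (nat_lit 5) (nat_lit 251) (nat_lit 189) (nat_lit 160))))) (XT.nd (nat_lit 282) (nat_lit 504) (nat_lit 0) (XT.nd (nat_lit 94) (nat_lit 588)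 (nat_lit 0) (XT.lf (nat_lit 0) (nat_lit 5798399605) (nat_lit 252) (nat_lit 2480000463) (nat_lit 336) (nat_lit 2603776991) (nat_lit 36) (nat_lit 5) (nat_lit 39) (nat_lit 5) (nat_lit 40) (nat_lit 5) (nat_lit 252) (nat_lit 189) (nat_lit 159)) (XT.nd (nat_lit 94) (nat_lit 252) (nat_lit 0) (XT.lf (nat_lit 0) (nat_lit 1536606595) (nat_lit 336) (nat_lit 7605576001) (nat_lit 84) (nat_lit 1937147710) (nat_lit 32) (nat_lit 5) (nat_lit 36) (nat_lit 5) (nat_lit 33) (nat_lit 5) (nat_lit 253) (nat_lit 189) (nat_lit 158)) (XT.lf (nat_lit 0) (nat_lit 1010391597) (nat_lit 252) (nat_lit 4775795103) (nat_lit 336) (nat_lit 5495257681) (nat_lit 29) (nat_lit 5) (nat_lit 32) (nat_lit 5) (nat_lit 33) (nat_lit 5) (nat_lit 254) (nat_lit 189) (nat_lit 157)))) (XT.nd (nat_lit 94) (nat_lit 504) (nat_lit 0) (XT.lf (nat_lit 0) (nat_lit 9987179940) (nat_lit 252) (nat_lit 213084069) (nat_lit 336) (nat_lit 1289816773) (nat_lit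 29) (nat_lit 5) (nat_lit 32) (nat_lit 5) (nat_lit 33) (nat_lit 5) (nat_lit 255) (nat_lit 189) (nat_lit 156)) (XT.nd (nat_lit 94) (nat_lit 252) (nat_lit 0) (XT.lf (nat_lit 0) (nat_lit 3056694835) (nat_lit 252) (nat_lit 4166248521) (nat_lit 84) (nat_lit 4479665221) (nat_lit 26) (nat_lit 5) (nat_lit 29) (nat_lit 5) (nat_lit 27) (nat_lit 5) (nat_lit 256) (nat_lit 189) (nat_lit 155)) (XT.lf (nat_lit 0) (nat_lit 4980065401) (nat_lit 252) (nat_lit 2549155389) (nat_lit 336) (nat_lit 4392688006) (nat_lit 23) (nat_lit 5) (nat_lit 26) (nat_lit 5) (nat_lit 27) (nat_lit 5) (nat_lit 257) (nat_lit 189) (nat_lit 154)))))) (XT.nd (nat_lit 34216) (nat_lit 0) (nat_lit 10836) (XT.nd (nat_lit 282) (nat_lit 420) (nat_lit 0) (XT.nd (nat_lit 94) (nat_lit 252) (nat_lit 0) (XT.lf (nat_lit 0) (nat_lit 39228227) (nat_lit 252) (nat_lit 9844729580) (nat_lit 84) (nat_lit 2263871622) (nat_lit 20) (nat_lit 5) (nat_lit 23)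 (nat_lit 5) (nat_lit 21) (nat_lit 5) (nat_lit 258) (nat_lit 189) (nat_lit 153)) (XT.nd (nat_lit 94) (nat_lit 252) (nat_lit 0) (XT.lf (nat_lit 0) (nat_lit 4564491493) (nat_lit 252) (nat_lit 543722351) (nat_lit 84) (nat_lit 7270224348) (nat_lit 20) (nat_lit 5) (nat_lit 23) (nat_lit 5) (nat_lit 21) (nat_lit 5) (nat_lit 259) (nat_lit 189) (nat_lit 152)) (XT.lf (nat_lit 0) (nat_lit 9172698983) (nat_lit 252) (nat_lit 109106122) (nat_lit 336) (nat_lit 3334134843) (nat_lit 17) (nat_lit 5) (nat_lit 20) (nat_lit 5) (nat_lit 21) (nat_lit 5) (nat_lit 260) (nat_lit 189) (nat_lit 151)))) (XT.nd (nat_lit 94) (nat_lit 168) (nat_lit 0) (XT.lf (nat_lit 0) (nat_lit 1339297793) (nat_lit 252) (nat_lit 6525114991) (nat_lit 84) (nat_lit 4994510951) (nat_lit 14) (nat_lit 5) (nat_lit 17) (nat_lit 5) (nat_lit 15) (nat_lit 5) (nat_lit 261) (nat_lit 189) (nat_lit 150)) (XT.nd (nat_lit 33746) (nat_lit 0) (nat_lit 14616)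 (XT.lf (nat_lit 0) (nat_lit 3343586666) (nat_lit 168) (nat_lit 2766232407) (nat_lit 252) (nat_lit 6998835421) (nat_lit 12) (nat_lit 5) (nat_lit 14) (nat_lit 5) (nat_lit 15) (nat_lit 5) (nat_lit 262) (nat_lit 189) (nat_lit 149)) (XT.lf (nat_lit 0) (nat_lit 830948799) (nat_lit 1092) (nat_lit 1844959093) (nat_lit 0) (nat_lit 830948799) (nat_lit 186) (nat_lit 5) (nat_lit 199) (nat_lit 4) (nat_lit 186) (nat_lit 4) (nat_lit 220) (nat_lit 190) (nat_lit 190))))) (XT.nd (nat_lit 282) (nat_lit 1428) (nat_lit 0) (XT.nd (nat_lit 94) (nat_lit 1260) (nat_lit 0) (XT.lf (nat_lit 0) (nat_lit 1502491923) (nat_lit 1092) (nat_lit 3682641752) (nat_lit 1092) (nat_lit 1887762745) (nat_lit 173) (nat_lit 4) (nat_lit 186) (nat_lit 5) (nat_lit 186) (nat_lit 4) (nat_lit 221) (nat_lit 190) (nat_lit 189)) (XT.nd (nat_lit 94) (nat_lit 1176) (nat_lit 0) (XT.lf (nat_lit 0) (nat_lit 1581406606) (nat_lit 1176) (nat_lit 310899179)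 (nat_lit 84) (nat_lit 5243900318) (nat_lit 172) (nat_lit 5) (nat_lit 186) (nat_lit 5) (nat_lit 173) (nat_lit 4) (nat_lit 222) (nat_lit 190) (nat_lit 188)) (XT.lf (nat_lit 0) (nat_lit 5067476720) (nat_lit 1260) (nat_lit 2096723284) (nat_lit 0) (nat_lit 38877316) (nat_lit 158) (nat_lit 5) (nat_lit 173) (nat_lit 4) (nat_lit 158) (nat_lit 4) (nat_lit 223) (nat_lit 190) (nat_lit 187)))) (XT.nd (nat_lit 94) (nat_lit 672) (nat_lit 0) (XT.lf (nat_lit 0) (nat_lit 1319109787) (nat_lit 756) (nat_lit 3908344347) (nat_lit 84) (nat_lit 2046119638) (nat_lit 149) (nat_lit 5) (nat_lit 158) (nat_lit 5) (nat_lit 150) (nat_lit 4) (nat_lit 224) (nat_lit 190) (nat_lit 186)) (XT.nd (nat_lit 94) (nat_lit 84) (nat_lit 0) (XT.lf (nat_lit 0) (nat_lit 1610883157) (nat_lit 588) (nat_lit 3163001797) (nat_lit 672) (nat_lit 2574266286) (nat_lit 142) (nat_lit 5) (nat_lit 149) (nat_lit 5) (nat_lit 150) (nat_lit 4) (nat_lit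 225) (nat_lit 190) (nat_lit 185)) (XT.lf (nat_lit 0) (nat_lit 837423493) (nat_lit 672) (nat_lit 142377019) (nat_lit 84) (nat_lit 6447483023) (nat_lit 141) (nat_lit 5) (nat_lit 149) (nat_lit 5) (nat_lit 142) (nat_lit 5) (nat_lit 226) (nat_lit 190) (nat_lit 184))))))))
noncomputable def xc10 : XT := (XT.nd (nat_lit 2162) (nat_lit 2688) (nat_lit 0) (XT.nd (nat_lit 1034) (nat_lit 3360) (nat_lit 0) (XT.nd (nat_lit 470) (nat_lit 2352) (nat_lit 0) (XT.nd (nat_lit 188) (nat_lit 1092) (nat_lit 0) (XT.nd (nat_lit 94) (nat_lit 588) (nat_lit 0) (XT.lf (nat_lit 0) (nat_lit 4277277950) (nat_lit 672) (nat_lit 1899475245) (nat_lit 84) (nat_lit 1332472345) (nat_lit 134) (nat_lit 5) (nat_lit 142) (nat_lit 5) (nat_lit 135) (nat_lit 4) (nat_lit 227) (nat_lit 190) (nat_lit 183)) (XT.lf (nat_lit 0) (nat_lit 187654394) (nat_lit 588) (nat_lit 3670468528) (nat_lit 84) (nat_lit 3737578711) (nat_lit 127) (nat_lit 5)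 (nat_lit 134) (nat_lit 5) (nat_lit 128) (nat_lit 5) (nat_lit 228) (nat_lit 190) (nat_lit 182))) (XT.nd (nat_lit 94) (nat_lit 588) (nat_lit 0) (XT.lf (nat_lit 0) (nat_lit 2203453788) (nat_lit 504) (nat_lit 1389408201) (nat_lit 588) (nat_lit 4093076082) (nat_lit 121) (nat_lit 5) (nat_lit 127) (nat_lit 5) (nat_lit 128) (nat_lit 5) (nat_lit 229) (nat_lit 190) (nat_lit 181)) (XT.nd (nat_lit 94) (nat_lit 84) (nat_lit 0) (XT.lf (nat_lit 0) (nat_lit 464363264) (nat_lit 504) (nat_lit 6611389967) (nat_lit 588) (nat_lit 705032003) (nat_lit 115) (nat_lit 5) (nat_lit 121) (nat_lit 5) (nat_lit 122) (nat_lit 4) (nat_lit 230) (nat_lit 190) (nat_lit 180)) (XT.lf (nat_lit 0) (nat_lit 2717001607) (nat_lit 588) (nat_lit 1300578234) (nat_lit 84) (nat_lit 3861017033) (nat_lit 114) (nat_lit 5) (nat_lit 121) (nat_lit 5) (nat_lit 115) (nat_lit 5) (nat_lit 231) (nat_lit 190) (nat_lit 179))))) (XT.nd (nat_lit 282) (nat_lit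 924) (nat_lit 0) (XT.nd (nat_lit 94) (nat_lit 924) (nat_lit 0) (XT.lf (nat_lit 0) (nat_lit 4906324806) (nat_lit 504) (nat_lit 1291541836) (nat_lit 588) (nat_lit 1783234505) (nat_lit 108) (nat_lit 5) (nat_lit 114) (nat_lit 5) (nat_lit 115) (nat_lit 5) (nat_lit 232) (nat_lit 190) (nat_lit 178)) (XT.nd (nat_lit 94) (nat_lit 420) (nat_lit 0) (XT.lf (nat_lit 0) (nat_lit 1645147188) (nat_lit 504) (nat_lit 4900789698) (nat_lit 84) (nat_lit 1541616043) (nat_lit 102) (nat_lit 5) (nat_lit 108) (nat_lit 5) (nat_lit 103) (nat_lit 5) (nat_lit 233) (nat_lit 190) (nat_lit 177)) (XT.lf (nat_lit 0) (nat_lit 1415892066) (nat_lit 420) (nat_lit 3706642027) (nat_lit 504) (nat_lit 3075496553) (nat_lit 97) (nat_lit 5) (nat_lit 102) (nat_lit 5) (nat_lit 103) (nat_lit 5) (nat_lit 234) (nat_lit 190) (nat_lit 176)))) (XT.nd (nat_lit 94) (nat_lit 840) (nat_lit 0) (XT.lf (nat_lit 0) (nat_lit 362753708) (nat_lit 504) (nat_lit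 370198282) (nat_lit 84) (nat_lit 7580566239) (nat_lit 96) (nat_lit 5) (nat_lit 102) (nat_lit 5) (nat_lit 97) (nat_lit 5) (nat_lit 235) (nat_lit 190) (nat_lit 175)) (XT.nd (nat_lit 94) (nat_lit 420) (nat_lit 0) (XT.lf (nat_lit 0) (nat_lit 3853347776) (nat_lit 504) (nat_lit 2208892997) (nat_lit 84) (nat_lit 2369419441) (nat_lit 91) (nat_lit 5) (nat_lit 97) (nat_lit 5) (nat_lit 92) (nat_lit 5) (nat_lit 236) (nat_lit 190) (nat_lit 174)) (XT.lf (nat_lit 0) (nat_lit 4471317801) (nat_lit 420) (nat_lit 2966463764) (nat_lit 504) (nat_lit 1117147192) (nat_lit 86) (nat_lit 5) (nat_lit 91) (nat_lit 5) (nat_lit 92) (nat_lit 5) (nat_lit 237) (nat_lit 190) (nat_lit 173)))))) (XT.nd (nat_lit 564) (nat_lit 1344) (nat_lit 0) (XT.nd (nat_lit 282) (nat_lit 1092) (nat_lit 0) (XT.nd (nat_lit 94) (nat_lit 504) (nat_lit 0) (XT.lf (nat_lit 0) (nat_lit 2378235873) (nat_lit 420) (nat_lit 6020383939) (nat_lit 84) (nat_lit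 284016490) (nat_lit 81) (nat_lit 5) (nat_lit 86) (nat_lit 5) (nat_lit 82) (nat_lit 5) (nat_lit 238) (nat_lit 190) (nat_lit 172)) (XT.nd (nat_lit 94) (nat_lit 84) (nat_lit 0) (XT.lf (nat_lit 0) (nat_lit 773889445) (nat_lit 420) (nat_lit 5198407547) (nat_lit 504) (nat_lit 2841976226) (nat_lit 76) (nat_lit 5) (nat_lit 81) (nat_lit 5) (nat_lit 82) (nat_lit 5) (nat_lit 239) (nat_lit 190) (nat_lit 171)) (XT.lf (nat_lit 0) (nat_lit 708281799) (nat_lit 504) (nat_lit 1132371994) (nat_lit 84) (nat_lit 7110153143) (nat_lit 75) (nat_lit 5) (nat_lit 81) (nat_lit 5) (nat_lit 76) (nat_lit 5) (nat_lit 240) (nat_lit 190) (nat_lit 170)))) (XT.nd (nat_lit 94) (nat_lit 756) (nat_lit 0) (XT.lf (nat_lit 0) (nat_lit 4316502812) (nat_lit 420) (nat_lit 3111439578) (nat_lit 84) (nat_lit 1663015883) (nat_lit 71) (nat_lit 5) (nat_lit 76) (nat_lit 5) (nat_lit 72) (nat_lit 5) (nat_lit 241) (nat_lit 190) (nat_lit 169))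 (XT.nd (nat_lit 94) (nat_lit 420) (nat_lit 0) (XT.lf (nat_lit 0) (nat_lit 4080433707) (nat_lit 336) (nat_lit 3966526330) (nat_lit 420) (nat_lit 1189196673) (nat_lit 67) (nat_lit 5) (nat_lit 71) (nat_lit 5) (nat_lit 72) (nat_lit 5) (nat_lit 242) (nat_lit 190) (nat_lit 168)) (XT.lf (nat_lit 0) (nat_lit 2109680763) (nat_lit 336) (nat_lit 331619867) (nat_lit 420) (nat_lit 6944960619) (nat_lit 62) (nat_lit 5) (nat_lit 66) (nat_lit 5) (nat_lit 67) (nat_lit 5) (nat_lit 243) (nat_lit 190) (nat_lit 167))))) (XT.nd (nat_lit 282) (nat_lit 672) (nat_lit 0) (XT.nd (nat_lit 94) (nat_lit 336) (nat_lit 0) (XT.lf (nat_lit 0) (nat_lit 37647273) (nat_lit 336) (nat_lit 6150807964) (nat_lit 420) (nat_lit 3352071797) (nat_lit 58) (nat_lit 5) (nat_lit 62) (nat_lit 5) (nat_lit 63) (nat_lit 5) (nat_lit 244) (nat_lit 190) (nat_lit 166)) (XT.nd (nat_lit 94) (nat_lit 252) (nat_lit 0) (XT.lf (nat_lit 0) (nat_lit 366740205)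 (nat_lit 420) (nat_lit 2048227408) (nat_lit 84) (nat_lit 7284784624) (nat_lit 57) (nat_lit 5) (nat_lit 62) (nat_lit 5) (nat_lit 58) (nat_lit 5) (nat_lit 245) (nat_lit 190) (nat_lit 165)) (XT.lf (nat_lit 0) (nat_lit 4137314808) (nat_lit 336) (nat_lit 4244716742) (nat_lit 84) (nat_lit 1481156339) (nat_lit 54) (nat_lit 5) (nat_lit 58) (nat_lit 5) (nat_lit 55) (nat_lit 5) (nat_lit 246) (nat_lit 190) (nat_lit 164)))) (XT.nd (nat_lit 94) (nat_lit 336) (nat_lit 0) (XT.lf (nat_lit 0) (nat_lit 3501019676) (nat_lit 336) (nat_lit 4551632994) (nat_lit 420) (nat_lit 1979243357) (nat_lit 50) (nat_lit 5) (nat_lit 54) (nat_lit 5) (nat_lit 55) (nat_lit 5) (nat_lit 247) (nat_lit 190) (nat_lit 163)) (XT.nd (nat_lit 94) (nat_lit 0) (nat_lit 0) (XT.lf (nat_lit 0) (nat_lit 1300941982) (nat_lit 252) (nat_lit 541602779) (nat_lit 336) (nat_lit 8363676229) (nat_lit 46) (nat_lit 5) (nat_lit 49) (nat_lit 5) (nat_lit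 50) (nat_lit 5) (nat_lit 248) (nat_lit 190) (nat_lit 162)) (XT.lf (nat_lit 0) (nat_lit 5792533727) (nat_lit 336) (nat_lit 1006840696) (nat_lit 84) (nat_lit 3585042992) (nat_lit 46) (nat_lit 5) (nat_lit 50) (nat_lit 5) (nat_lit 47) (nat_lit 5) (nat_lit 249) (nat_lit 190) (nat_lit 161))))))) (XT.nd (nat_lit 1128) (nat_lit 84) (nat_lit 0) (XT.nd (nat_lit 564) (nat_lit 1176) (nat_lit 0) (XT.nd (nat_lit 282) (nat_lit 588) (nat_lit 0) (XT.nd (nat_lit 94) (nat_lit 588) (nat_lit 0) (XT.lf (nat_lit 0) (nat_lit 7206688603) (nat_lit 252) (nat_lit 2685967093) (nat_lit 336) (nat_lit 675779099) (nat_lit 43) (nat_lit 5) (nat_lit 46) (nat_lit 5) (nat_lit 47) (nat_lit 5) (nat_lit 250) (nat_lit 190) (nat_lit 160)) (XT.nd (nat_lit 94) (nat_lit 252) (nat_lit 0) (XT.lf (nat_lit 0) (nat_lit 3311670314) (nat_lit 336) (nat_lit 5847565772) (nat_lit 84) (nat_lit 1597959465) (nat_lit 39) (nat_lit 5) (nat_lit 43) (nat_lit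 5) (nat_lit 40) (nat_lit 5) (nat_lit 251) (nat_lit 190) (nat_lit 159)) (XT.lf (nat_lit 0) (nat_lit 2497869892) (nat_lit 252) (nat_lit 4950302263) (nat_lit 336) (nat_lit 3503230739) (nat_lit 36) (nat_lit 5) (nat_lit 39) (nat_lit 5) (nat_lit 40) (nat_lit 5) (nat_lit 252) (nat_lit 190) (nat_lit 158)))) (XT.nd (nat_lit 94) (nat_lit 504) (nat_lit 0) (XT.lf (nat_lit 0) (nat_lit 560510224) (nat_lit 336) (nat_lit 1338750) (nat_lit 84) (nat_lit 10590454229) (nat_lit 35) (nat_lit 5) (nat_lit 39) (nat_lit 5) (nat_lit 36) (nat_lit 5) (nat_lit 253) (nat_lit 190) (nat_lit 157)) (XT.nd (nat_lit 94) (nat_lit 252) (nat_lit 0) (XT.lf (nat_lit 0) (nat_lit 4756877704) (nat_lit 336) (nat_lit 2613602908) (nat_lit 84) (nat_lit 3985799108) (nat_lit 32) (nat_lit 5) (nat_lit 36) (nat_lit 5) (nat_lit 33) (nat_lit 5) (nat_lit 254) (nat_lit 190) (nat_lit 156)) (XT.lf (nat_lit 0) (nat_lit 6243977012) (nat_lit 252) (nat_lit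 2862056099) (nat_lit 336) (nat_lit 2461155278) (nat_lit 29) (nat_lit 5) (nat_lit 32) (nat_lit 5) (nat_lit 33) (nat_lit 5) (nat_lit 255) (nat_lit 190) (nat_lit 155))))) (XT.nd (nat_lit 282) (nat_lit 672) (nat_lit 0) (XT.nd (nat_lit 94) (nat_lit 252) (nat_lit 0) (XT.lf (nat_lit 0) (nat_lit 1803096620) (nat_lit 252) (nat_lit 8170433829) (nat_lit 84) (nat_lit 1810451192) (nat_lit 26) (nat_lit 5) (nat_lit 29) (nat_lit 5) (nat_lit 27) (nat_lit 5) (nat_lit 256) (nat_lit 190) (nat_lit 154)) (XT.nd (nat_lit 94) (nat_lit 0) (nat_lit 0) (XT.lf (nat_lit 0) (nat_lit 823983000) (nat_lit 252) (nat_lit 5371276403) (nat_lit 336) (nat_lit 5810835166) (nat_lit 23) (nat_lit 5) (nat_lit 26) (nat_lit 5) (nat_lit 27) (nat_lit 5) (nat_lit 257) (nat_lit 190) (nat_lit 153)) (XT.lf (nat_lit 0) (nat_lit 10213393376) (nat_lit 252) (nat_lit 555911132) (nat_lit 336) (nat_lit 1465691461) (nat_lit 23) (nat_lit 5) (nat_lit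 26) (nat_lit 5) (nat_lit 27) (nat_lit 5) (nat_lit 258) (nat_lit 190) (nat_lit 152)))) (XT.nd (nat_lit 94) (nat_lit 420) (nat_lit 0) (XT.lf (nat_lit 0) (nat_lit 3029618536) (nat_lit 252) (nat_lit 5038546127) (nat_lit 84) (nat_lit 4400223189) (nat_lit 20) (nat_lit 5) (nat_lit 23) (nat_lit 5) (nat_lit 21) (nat_lit 5) (nat_lit 259) (nat_lit 190) (nat_lit 151)) (XT.nd (nat_lit 94) (nat_lit 168) (nat_lit 0) (XT.lf (nat_lit 0) (nat_lit 4516218416) (nat_lit 252) (nat_lit 3146290103) (nat_lit 336) (nat_lit 5046335916) (nat_lit 17) (nat_lit 5) (nat_lit 20) (nat_lit 5) (nat_lit 21) (nat_lit 5) (nat_lit 260) (nat_lit 190) (nat_lit 150)) (XT.lf (nat_lit 0) (nat_lit 1467062734) (nat_lit 168) (nat_lit 11022907743) (nat_lit 252) (nat_lit 466611792) (nat_lit 15) (nat_lit 5) (nat_lit 17) (nat_lit 5) (nat_lit 18) (nat_lit 4) (nat_lit 261) (nat_lit 190) (nat_lit 149)))))) (XT.nd (nat_lit 34028) (nat_lit 0) (nat_lit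 9492) (XT.nd (nat_lit 33746) (nat_lit 0) (nat_lit 13272) (XT.nd (nat_lit 33558) (nat_lit 0) (nat_lit 15456) (XT.lf (nat_lit 0) (nat_lit 4245022186) (nat_lit 252) (nat_lit 1747834474) (nat_lit 84) (nat_lit 7216069693) (nat_lit 14) (nat_lit 5) (nat_lit 17) (nat_lit 5) (nat_lit 15) (nat_lit 5) (nat_lit 262) (nat_lit 190) (nat_lit 148)) (XT.nd (nat_lit 94) (nat_lit 84) (nat_lit 0) (XT.lf (nat_lit 0) (nat_lit 55694666) (nat_lit 924) (nat_lit 1698422991) (nat_lit 924) (nat_lit 1698422991) (nat_lit 199) (nat_lit 4) (nat_lit 210) (nat_lit 5) (nat_lit 210) (nat_lit 4) (nat_lit 218) (nat_lit 191) (nat_lit 191)) (XT.lf (nat_lit 0) (nat_lit 54431830) (nat_lit 1008) (nat_lit 1811950489) (nat_lit 84) (nat_lit 5092286929) (nat_lit 198) (nat_lit 5) (nat_lit 210) (nat_lit 5) (nat_lit 199) (nat_lit 4) (nat_lit 219) (nat_lit 191) (nat_lit 190)))) (XT.nd (nat_lit 94) (nat_lit 1176) (nat_lit 0) (XT.lf (nat_lit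 0) (nat_lit 3263348674) (nat_lit 1008) (nat_lit 197962240) (nat_lit 1092) (nat_lit 3554442494) (nat_lit 186) (nat_lit 5) (nat_lit 198) (nat_lit 5) (nat_lit 199) (nat_lit 4) (nat_lit 220) (nat_lit 191) (nat_lit 189)) (XT.nd (nat_lit 94) (nat_lit 84) (nat_lit 0) (XT.lf (nat_lit 0) (nat_lit 1381218983) (nat_lit 1092) (nat_lit 5541324491) (nat_lit 1092) (nat_lit 154563095) (nat_lit 173) (nat_lit 4) (nat_lit 186) (nat_lit 5) (nat_lit 186) (nat_lit 4) (nat_lit 221) (nat_lit 191) (nat_lit 188)) (XT.lf (nat_lit 0) (nat_lit 3217536946) (nat_lit 1176) (nat_lit 514612468) (nat_lit 84) (nat_lit 3409612892) (nat_lit 172) (nat_lit 5) (nat_lit 186) (nat_lit 5) (nat_lit 173) (nat_lit 4) (nat_lit 222) (nat_lit 191) (nat_lit 187))))) (XT.nd (nat_lit 282) (nat_lit 1260) (nat_lit 0) (XT.nd (nat_lit 94) (nat_lit 1344) (nat_lit 0) (XT.lf (nat_lit 0) (nat_lit 4840126354) (nat_lit 1176) (nat_lit 1804249339) (nat_lit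 1260) (nat_lit 566330928) (nat_lit 158) (nat_lit 5) (nat_lit 172) (nat_lit 5) (nat_lit 173) (nat_lit 4) (nat_lit 223) (nat_lit 191) (nat_lit 186)) (XT.nd (nat_lit 94) (nat_lit 588) (nat_lit 0) (XT.lf (nat_lit 0) (nat_lit 2773660488) (nat_lit 756) (nat_lit 4254452638) (nat_lit 84) (nat_lit 255247762) (nat_lit 149) (nat_lit 5) (nat_lit 158) (nat_lit 5) (nat_lit 150) (nat_lit 4) (nat_lit 224) (nat_lit 191) (nat_lit 185)) (XT.lf (nat_lit 0) (nat_lit 1196625009) (nat_lit 588) (nat_lit 4973208883) (nat_lit 672) (nat_lit 1190155528) (nat_lit 142) (nat_lit 5) (nat_lit 149) (nat_lit 5) (nat_lit 150) (nat_lit 4) (nat_lit 225) (nat_lit 191) (nat_lit 184)))) (XT.nd (nat_lit 94) (nat_lit 1176) (nat_lit 0) (XT.lf (nat_lit 0) (nat_lit 2136733923) (nat_lit 672) (nat_lit 643221586) (nat_lit 84) (nat_lit 4660496018) (nat_lit 141) (nat_lit 5) (nat_lit 149) (nat_lit 5) (nat_lit 142) (nat_lit 5) (nat_lit 226)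 (nat_lit 191) (nat_lit 183)) (XT.nd (nat_lit 94) (nat_lit 588) (nat_lit 0) (XT.lf (nat_lit 0) (nat_lit 5054358799) (nat_lit 588) (nat_lit 449064825) (nat_lit 672) (nat_lit 2021530674) (nat_lit 134) (nat_lit 5) (nat_lit 141) (nat_lit 5) (nat_lit 142) (nat_lit 5) (nat_lit 227) (nat_lit 191) (nat_lit 182)) (XT.lf (nat_lit 0) (nat_lit 1307214883) (nat_lit 588) (nat_lit 4340125188) (nat_lit 84) (nat_lit 1965837676) (nat_lit 127) (nat_lit 5) (nat_lit 134) (nat_lit 5) (nat_lit 128) (nat_lit 5) (nat_lit 228) (nat_lit 191) (nat_lit 181))))))))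
noncomputable def xc11 : XT := (XT.nd (nat_lit 2162) (nat_lit 2100) (nat_lit 0) (XT.nd (nat_lit 1034) (nat_lit 3528) (nat_lit 0) (XT.nd (nat_lit 470) (nat_lit 1764) (nat_lit 0) (XT.nd (nat_lit 188) (nat_lit 1512) (nat_lit 0) (XT.nd (nat_lit 94) (nat_lit 84) (nat_lit 0) (XT.lf (nat_lit 0) (nat_lit 1458033853) (nat_lit 504) (nat_lit 3196014134) (nat_lit 588) (nat_lit 3051409305) (nat_lit 121) (nat_lit 5) (nat_lit 127) (nat_lit 5) (nat_lit 128) (nat_lit 5) (nat_lit 229) (nat_lit 191) (nat_lit 180)) (XT.lf (nat_lit 0) (nat_lit 260752729) (nat_lit 588) (nat_lit 360711067) (nat_lit 84) (nat_lit 7181098099) (nat_lit 120) (nat_lit 5) (nat_lit 127) (nat_lit 5) (nat_lit 121) (nat_lit 5) (nat_lit 230) (nat_lit 191) (nat_lit 179))) (XT.nd (nat_lit 94) (nat_lit 1008) (nat_lit 0) (XT.lf (nat_lit 0) (nat_lit 3607037342) (nat_lit 588) (nat_lit 2217077108) (nat_lit 84) (nat_lit 2078075840) (nat_lit 114) (nat_lit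 5) (nat_lit 121) (nat_lit 5) (nat_lit 115) (nat_lit 5) (nat_lit 231) (nat_lit 191) (nat_lit 178)) (XT.nd (nat_lit 94) (nat_lit 504) (nat_lit 0) (XT.lf (nat_lit 0) (nat_lit 3908998138) (nat_lit 504) (nat_lit 3120759316) (nat_lit 588) (nat_lit 976972183) (nat_lit 108) (nat_lit 5) (nat_lit 114) (nat_lit 5) (nat_lit 115) (nat_lit 5) (nat_lit 232) (nat_lit 191) (nat_lit 177)) (XT.lf (nat_lit 0) (nat_lit 2089081620) (nat_lit 420) (nat_lit 267423072) (nat_lit 504) (nat_lit 5759044124) (nat_lit 102) (nat_lit 5) (nat_lit 107) (nat_lit 5) (nat_lit 108) (nat_lit 5) (nat_lit 233) (nat_lit 191) (nat_lit 176))))) (XT.nd (nat_lit 282) (nat_lit 840) (nat_lit 0) (XT.nd (nat_lit 94) (nat_lit 504) (nat_lit 0) (XT.lf (nat_lit 0) (nat_lit 206342963) (nat_lit 420) (nat_lit 5565270917) (nat_lit 504) (nat_lit 2456592373) (nat_lit 97) (nat_lit 5) (nat_lit 102) (nat_lit 5) (nat_lit 103) (nat_lit 5) (nat_lit 234) (nat_lit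 191) (nat_lit 175)) (XT.nd (nat_lit 94) (nat_lit 420) (nat_lit 0) (XT.lf (nat_lit 0) (nat_lit 922180442) (nat_lit 504) (nat_lit 1676621368) (nat_lit 84) (nat_lit 5746241215) (nat_lit 96) (nat_lit 5) (nat_lit 102) (nat_lit 5) (nat_lit 97) (nat_lit 5) (nat_lit 235) (nat_lit 191) (nat_lit 174)) (XT.lf (nat_lit 0) (nat_lit 4332190718) (nat_lit 504) (nat_lit 3617228591) (nat_lit 84) (nat_lit 516586135) (nat_lit 91) (nat_lit 5) (nat_lit 97) (nat_lit 5) (nat_lit 92) (nat_lit 5) (nat_lit 236) (nat_lit 191) (nat_lit 173)))) (XT.nd (nat_lit 94) (nat_lit 420) (nat_lit 0) (XT.lf (nat_lit 0) (nat_lit 2970479993) (nat_lit 420) (nat_lit 4886206128) (nat_lit 504) (nat_lit 734685708) (nat_lit 86) (nat_lit 5) (nat_lit 91) (nat_lit 5) (nat_lit 92) (nat_lit 5) (nat_lit 237) (nat_lit 191) (nat_lit 172)) (XT.nd (nat_lit 94) (nat_lit 0) (nat_lit 0) (XT.lf (nat_lit 0) (nat_lit 1028132685) (nat_lit 336) (nat_lit 1659522275)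 (nat_lit 420) (nat_lit 6033528228) (nat_lit 81) (nat_lit 5) (nat_lit 85) (nat_lit 5) (nat_lit 86) (nat_lit 5) (nat_lit 238) (nat_lit 191) (nat_lit 171)) (XT.lf (nat_lit 0) (nat_lit 6212339034) (nat_lit 420) (nat_lit 957257876) (nat_lit 84) (nat_lit 1685651390) (nat_lit 81) (nat_lit 5) (nat_lit 86) (nat_lit 5) (nat_lit 82) (nat_lit 5) (nat_lit 239) (nat_lit 191) (nat_lit 170)))))) (XT.nd (nat_lit 564) (nat_lit 1512) (nat_lit 0) (XT.nd (nat_lit 282) (nat_lit 840) (nat_lit 0) (XT.nd (nat_lit 94) (nat_lit 672) (nat_lit 0) (XT.lf (nat_lit 0) (nat_lit 849828420) (nat_lit 504) (nat_lit 2988897448) (nat_lit 84) (nat_lit 5154833751) (nat_lit 75) (nat_lit 5) (nat_lit 81) (nat_lit 5) (nat_lit 76) (nat_lit 5) (nat_lit 240) (nat_lit 191) (nat_lit 169)) (XT.nd (nat_lit 94) (nat_lit 336) (nat_lit 0) (XT.lf (nat_lit 0) (nat_lit 4040504934) (nat_lit 336) (nat_lit 336213376) (nat_lit 420) (nat_lit 4759839235)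 (nat_lit 71) (nat_lit 5) (nat_lit 75) (nat_lit 5) (nat_lit 76) (nat_lit 5) (nat_lit 241) (nat_lit 191) (nat_lit 168)) (XT.lf (nat_lit 0) (nat_lit 1994014451) (nat_lit 336) (nat_lit 6046163150) (nat_lit 420) (nat_lit 1243923310) (nat_lit 67) (nat_lit 5) (nat_lit 71) (nat_lit 5) (nat_lit 72) (nat_lit 5) (nat_lit 242) (nat_lit 191) (nat_lit 167)))) (XT.nd (nat_lit 94) (nat_lit 756) (nat_lit 0) (XT.lf (nat_lit 0) (nat_lit 2324562010) (nat_lit 420) (nat_lit 130410829) (nat_lit 84) (nat_lit 6981467803) (nat_lit 66) (nat_lit 5) (nat_lit 71) (nat_lit 5) (nat_lit 67) (nat_lit 5) (nat_lit 243) (nat_lit 191) (nat_lit 166)) (XT.nd (nat_lit 94) (nat_lit 420) (nat_lit 0) (XT.lf (nat_lit 0) (nat_lit 6006878351) (nat_lit 420) (nat_lit 2291871837) (nat_lit 84) (nat_lit 1294225578) (nat_lit 62) (nat_lit 5) (nat_lit 67) (nat_lit 5) (nat_lit 63) (nat_lit 5) (nat_lit 244) (nat_lit 191) (nat_lit 165)) (XT.lf (nat_lit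 0) (nat_lit 72567430) (nat_lit 420) (nat_lit 4540598615) (nat_lit 84) (nat_lit 5141417062) (nat_lit 57) (nat_lit 5) (nat_lit 62) (nat_lit 5) (nat_lit 58) (nat_lit 5) (nat_lit 245) (nat_lit 191) (nat_lit 164))))) (XT.nd (nat_lit 282) (nat_lit 840) (nat_lit 0) (XT.nd (nat_lit 94) (nat_lit 420) (nat_lit 0) (XT.lf (nat_lit 0) (nat_lit 3027202937) (nat_lit 252) (nat_lit 732282182) (nat_lit 336) (nat_lit 6161461631) (nat_lit 54) (nat_lit 5) (nat_lit 57) (nat_lit 5) (nat_lit 58) (nat_lit 5) (nat_lit 246) (nat_lit 191) (nat_lit 163)) (XT.nd (nat_lit 94) (nat_lit 84) (nat_lit 0) (XT.lf (nat_lit 0) (nat_lit 739895260) (nat_lit 336) (nat_lit 6858727220) (nat_lit 420) (nat_lit 2493699427) (nat_lit 50) (nat_lit 5) (nat_lit 54) (nat_lit 5) (nat_lit 55) (nat_lit 5) (nat_lit 247) (nat_lit 191) (nat_lit 162)) (XT.lf (nat_lit 0) (nat_lit 1288184748) (nat_lit 420) (nat_lit 1602227000) (nat_lit 84) (nat_lit 7378240657)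 (nat_lit 49) (nat_lit 5) (nat_lit 54) (nat_lit 5) (nat_lit 50) (nat_lit 5) (nat_lit 248) (nat_lit 191) (nat_lit 161)))) (XT.nd (nat_lit 94) (nat_lit 588) (nat_lit 0) (XT.lf (nat_lit 0) (nat_lit 5156837670) (nat_lit 336) (nat_lit 4042109485) (nat_lit 84) (nat_lit 1250748436) (nat_lit 46) (nat_lit 5) (nat_lit 50) (nat_lit 5) (nat_lit 47) (nat_lit 5) (nat_lit 249) (nat_lit 191) (nat_lit 160)) (XT.nd (nat_lit 94) (nat_lit 336) (nat_lit 0) (XT.lf (nat_lit 0) (nat_lit 4043426234) (nat_lit 252) (nat_lit 5142840346) (nat_lit 336) (nat_lit 1449920648) (nat_lit 43) (nat_lit 5) (nat_lit 46) (nat_lit 5) (nat_lit 47) (nat_lit 5) (nat_lit 250) (nat_lit 191) (nat_lit 159)) (XT.lf (nat_lit 0) (nat_lit 1573580253) (nat_lit 252) (nat_lit 890632252) (nat_lit 336) (nat_lit 8364217803) (nat_lit 39) (nat_lit 5) (nat_lit 42) (nat_lit 5) (nat_lit 43) (nat_lit 5) (nat_lit 251) (nat_lit 191) (nat_lit 158))))))) (XT.nd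 (nat_lit 34404) (nat_lit 0) (nat_lit 9492) (XT.nd (nat_lit 564) (nat_lit 1008) (nat_lit 0) (XT.nd (nat_lit 282) (nat_lit 504) (nat_lit 0) (XT.nd (nat_lit 94) (nat_lit 588) (nat_lit 0) (XT.lf (nat_lit 0) (nat_lit 6528024269) (nat_lit 336) (nat_lit 1012909758) (nat_lit 84) (nat_lit 3484247777) (nat_lit 39) (nat_lit 5) (nat_lit 43) (nat_lit 5) (nat_lit 40) (nat_lit 5) (nat_lit 252) (nat_lit 191) (nat_lit 157)) (XT.nd (nat_lit 94) (nat_lit 336) (nat_lit 0) (XT.lf (nat_lit 0) (nat_lit 7567164614) (nat_lit 252) (nat_lit 3192801811) (nat_lit 336) (nat_lit 467946781) (nat_lit 36) (nat_lit 5) (nat_lit 39) (nat_lit 5) (nat_lit 40) (nat_lit 5) (nat_lit 253) (nat_lit 191) (nat_lit 156)) (XT.lf (nat_lit 0) (nat_lit 3633043300) (nat_lit 336) (nat_lit 6457216828) (nat_lit 84) (nat_lit 1345521654) (nat_lit 32) (nat_lit 5) (nat_lit 36) (nat_lit 5) (nat_lit 33) (nat_lit 5) (nat_lit 254) (nat_lit 191) (nat_lit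 155)))) (XT.nd (nat_lit 94) (nat_lit 252) (nat_lit 0) (XT.lf (nat_lit 0) (nat_lit 2254598708) (nat_lit 252) (nat_lit 5649842976) (nat_lit 336) (nat_lit 3744970262) (nat_lit 29) (nat_lit 5) (nat_lit 32) (nat_lit 5) (nat_lit 33) (nat_lit 5) (nat_lit 255) (nat_lit 191) (nat_lit 154)) (XT.nd (nat_lit 94) (nat_lit 168) (nat_lit 0) (XT.lf (nat_lit 0) (nat_lit 454082352) (nat_lit 336) (nat_lit 560252894) (nat_lit 84) (nat_lit 10855671419) (nat_lit 28) (nat_lit 5) (nat_lit 32) (nat_lit 5) (nat_lit 29) (nat_lit 5) (nat_lit 256) (nat_lit 191) (nat_lit 153)) (XT.lf (nat_lit 0) (nat_lit 4786397569) (nat_lit 252) (nat_lit 3512083068) (nat_lit 84) (nat_lit 3795733622) (nat_lit 26) (nat_lit 5) (nat_lit 29) (nat_lit 5) (nat_lit 27) (nat_lit 5) (nat_lit 257) (nat_lit 191) (nat_lit 152))))) (XT.nd (nat_lit 282) (nat_lit 504) (nat_lit 0) (XT.nd (nat_lit 94) (nat_lit 252) (nat_lit 0) (XT.lf (nat_lit 0) (nat_lit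 5740769927) (nat_lit 252) (nat_lit 3547227893) (nat_lit 336) (nat_lit 3037653407) (nat_lit 23) (nat_lit 5) (nat_lit 26) (nat_lit 5) (nat_lit 27) (nat_lit 5) (nat_lit 258) (nat_lit 191) (nat_lit 151)) (XT.nd (nat_lit 94) (nat_lit 0) (nat_lit 0) (XT.lf (nat_lit 0) (nat_lit 1374805262) (nat_lit 252) (nat_lit 9804800280) (nat_lit 84) (nat_lit 1384197900) (nat_lit 20) (nat_lit 5) (nat_lit 23) (nat_lit 5) (nat_lit 21) (nat_lit 5) (nat_lit 259) (nat_lit 191) (nat_lit 150)) (XT.lf (nat_lit 0) (nat_lit 5925934839) (nat_lit 252) (nat_lit 406615946) (nat_lit 84) (nat_lit 6474570854) (nat_lit 20) (nat_lit 5) (nat_lit 23) (nat_lit 5) (nat_lit 21) (nat_lit 5) (nat_lit 260) (nat_lit 191) (nat_lit 149)))) (XT.nd (nat_lit 94) (nat_lit 252) (nat_lit 0) (XT.lf (nat_lit 0) (nat_lit 9427747839) (nat_lit 252) (nat_lit 1251834632) (nat_lit 336) (nat_lit 2377860503) (nat_lit 17) (nat_lit 5) (nat_lit 20) (nat_lit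 5) (nat_lit 21) (nat_lit 5) (nat_lit 261) (nat_lit 191) (nat_lit 148)) (XT.nd (nat_lit 33370) (nat_lit 0) (nat_lit 17388) (XT.lf (nat_lit 0) (nat_lit 2290180100) (nat_lit 252) (nat_lit 7049885662) (nat_lit 84) (nat_lit 3973509171) (nat_lit 14) (nat_lit 5) (nat_lit 17) (nat_lit 5) (nat_lit 15) (nat_lit 5) (nat_lit 262) (nat_lit 191) (nat_lit 147)) (XT.lf (nat_lit 0) (nat_lit 2067307233) (nat_lit 756) (nat_lit 668285035) (nat_lit 756) (nat_lit 668285035) (nat_lit 221) (nat_lit 4) (nat_lit 230) (nat_lit 5) (nat_lit 230) (nat_lit 4) (nat_lit 216) (nat_lit 192) (nat_lit 192)))))) (XT.nd (nat_lit 564) (nat_lit 3780) (nat_lit 0) (XT.nd (nat_lit 282) (nat_lit 2184) (nat_lit 0) (XT.nd (nat_lit 94) (nat_lit 1008) (nat_lit 0) (XT.lf (nat_lit 0) (nat_lit 2044446269) (nat_lit 924) (nat_lit 4756724073) (nat_lit 0) (nat_lit 54431830) (nat_lit 210) (nat_lit 5) (nat_lit 221) (nat_lit 4) (nat_lit 210) (nat_lit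 4) (nat_lit 217) (nat_lit 192) (nat_lit 191)) (XT.nd (nat_lit 94) (nat_lit 84) (nat_lit 0) (XT.lf (nat_lit 0) (nat_lit 54020422) (nat_lit 924) (nat_lit 5382969341) (nat_lit 924) (nat_lit 1470235637) (nat_lit 199) (nat_lit 4) (nat_lit 210) (nat_lit 5) (nat_lit 210) (nat_lit 4) (nat_lit 218) (nat_lit 192) (nat_lit 190)) (XT.lf (nat_lit 0) (nat_lit 1877486716) (nat_lit 1008) (nat_lit 1949748007) (nat_lit 84) (nat_lit 3134922778) (nat_lit 198) (nat_lit 5) (nat_lit 210) (nat_lit 5) (nat_lit 199) (nat_lit 4) (nat_lit 219) (nat_lit 192) (nat_lit 189)))) (XT.nd (nat_lit 94) (nat_lit 1176) (nat_lit 0) (XT.lf (nat_lit 0) (nat_lit 3066184044) (nat_lit 1008) (nat_lit 2158138573) (nat_lit 1092) (nat_lit 1797020555) (nat_lit 186) (nat_lit 5) (nat_lit 198) (nat_lit 5) (nat_lit 199) (nat_lit 4) (nat_lit 220) (nat_lit 192) (nat_lit 188)) (XT.nd (nat_lit 94) (nat_lit 0) (nat_lit 0) (XT.lf (nat_lit 0) (nat_lit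 1116722352) (nat_lit 1092) (nat_lit 371988549) (nat_lit 1176) (nat_lit 5596083508) (nat_lit 172) (nat_lit 5) (nat_lit 185) (nat_lit 5) (nat_lit 186) (nat_lit 5) (nat_lit 221) (nat_lit 192) (nat_lit 187)) (XT.lf (nat_lit 0) (nat_lit 4797344906) (nat_lit 1176) (nat_lit 841300563) (nat_lit 84) (nat_lit 1512843051) (nat_lit 172) (nat_lit 5) (nat_lit 186) (nat_lit 5) (nat_lit 173) (nat_lit 4) (nat_lit 222) (nat_lit 192) (nat_lit 186))))) (XT.nd (nat_lit 282) (nat_lit 1176) (nat_lit 0) (XT.nd (nat_lit 94) (nat_lit 1344) (nat_lit 0) (XT.lf (nat_lit 0) (nat_lit 922038730) (nat_lit 1260) (nat_lit 2783402728) (nat_lit 84) (nat_lit 3516663286) (nat_lit 157) (nat_lit 5) (nat_lit 172) (nat_lit 5) (nat_lit 158) (nat_lit 5) (nat_lit 223) (nat_lit 192) (nat_lit 185)) (XT.nd (nat_lit 94) (nat_lit 672) (nat_lit 0) (XT.lf (nat_lit 0) (nat_lit 2546162133) (nat_lit 672) (nat_lit 1641385306) (nat_lit 756) (nat_lit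 3109148172) (nat_lit 149) (nat_lit 5) (nat_lit 157) (nat_lit 5) (nat_lit 158) (nat_lit 5) (nat_lit 224) (nat_lit 192) (nat_lit 184)) (XT.lf (nat_lit 0) (nat_lit 128200059) (nat_lit 672) (nat_lit 6727803917) (nat_lit 84) (nat_lit 519948028) (nat_lit 141) (nat_lit 5) (nat_lit 149) (nat_lit 5) (nat_lit 142) (nat_lit 5) (nat_lit 225) (nat_lit 192) (nat_lit 183)))) (XT.nd (nat_lit 94) (nat_lit 1176) (nat_lit 0) (XT.lf (nat_lit 0) (nat_lit 3376493334) (nat_lit 672) (nat_lit 1278242051) (nat_lit 84) (nat_lit 2803020954) (nat_lit 141) (nat_lit 5) (nat_lit 149) (nat_lit 5) (nat_lit 142) (nat_lit 5) (nat_lit 226) (nat_lit 192) (nat_lit 182)) (XT.nd (nat_lit 94) (nat_lit 588) (nat_lit 0) (XT.lf (nat_lit 0) (nat_lit 4347939070) (nat_lit 588) (nat_lit 2337507943) (nat_lit 672) (nat_lit 858832857) (nat_lit 134) (nat_lit 5) (nat_lit 141) (nat_lit 5) (nat_lit 142) (nat_lit 5) (nat_lit 227) (nat_lit 192) (nat_lit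 181)) (XT.lf (nat_lit 0) (nat_lit 2364069757) (nat_lit 588) (nat_lit 5153002818) (nat_lit 84) (nat_lit 117759108) (nat_lit 127) (nat_lit 5) (nat_lit 134) (nat_lit 5) (nat_lit 128) (nat_lit 5) (nat_lit 228) (nat_lit 192) (nat_lit 180))))))))
noncomputable def xc12 : XT := (XT.nd (nat_lit 2162) (nat_lit 2352) (nat_lit 0) (XT.nd (nat_lit 1034) (nat_lit 3276) (nat_lit 0) (XT.nd (nat_lit 470) (nat_lit 1764) (nat_lit 0) (XT.nd (nat_lit 188) (nat_lit 1512) (nat_lit 0) (XT.nd (nat_lit 94) (nat_lit 84) (nat_lit 0) (XT.lf (nat_lit 0) (nat_lit 568106835) (nat_lit 504) (nat_lit 5084504566) (nat_lit 588) (nat_lit 2076540027) (nat_lit 121) (nat_lit 5) (nat_lit 127) (nat_lit 5) (nat_lit 128) (nat_lit 5) (nat_lit 229) (nat_lit 192) (nat_lit 179)) (XT.lf (nat_lit 0) (nat_lit 1165605013) (nat_lit 588) (nat_lit 1342528519) (nat_lit 84) (nat_lit 5319419264) (nat_lit 120) (nat_lit 5) (nat_lit 127) (nat_lit 5)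 (nat_lit 121) (nat_lit 5) (nat_lit 230) (nat_lit 192) (nat_lit 178))) (XT.nd (nat_lit 94) (nat_lit 1008) (nat_lit 0) (XT.lf (nat_lit 0) (nat_lit 4432513067) (nat_lit 588) (nat_lit 3284119208) (nat_lit 84) (nat_lit 213327096) (nat_lit 114) (nat_lit 5) (nat_lit 121) (nat_lit 5) (nat_lit 115) (nat_lit 5) (nat_lit 231) (nat_lit 192) (nat_lit 177)) (XT.nd (nat_lit 94) (nat_lit 504) (nat_lit 0) (XT.lf (nat_lit 0) (nat_lit 2759649858) (nat_lit 504) (nat_lit 5037335023) (nat_lit 588) (nat_lit 239552527) (nat_lit 108) (nat_lit 5) (nat_lit 114) (nat_lit 5) (nat_lit 115) (nat_lit 5) (nat_lit 232) (nat_lit 192) (nat_lit 176)) (XT.lf (nat_lit 0) (nat_lit 816198208) (nat_lit 420) (nat_lit 2201784608) (nat_lit 504) (nat_lit 5129158932) (nat_lit 102) (nat_lit 5) (nat_lit 107) (nat_lit 5) (nat_lit 108) (nat_lit 5) (nat_lit 233) (nat_lit 192) (nat_lit 175))))) (XT.nd (nat_lit 282) (nat_lit 840) (nat_lit 0)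 (XT.nd (nat_lit 94) (nat_lit 924) (nat_lit 0) (XT.lf (nat_lit 0) (nat_lit 6364968387) (nat_lit 504) (nat_lit 1138675173) (nat_lit 84) (nat_lit 758539953) (nat_lit 102) (nat_lit 5) (nat_lit 108) (nat_lit 5) (nat_lit 103) (nat_lit 5) (nat_lit 234) (nat_lit 192) (nat_lit 174)) (XT.nd (nat_lit 94) (nat_lit 420) (nat_lit 0) (XT.lf (nat_lit 0) (nat_lit 1411835390) (nat_lit 504) (nat_lit 3146351865) (nat_lit 84) (nat_lit 3822611245) (nat_lit 96) (nat_lit 5) (nat_lit 102) (nat_lit 5) (nat_lit 97) (nat_lit 5) (nat_lit 235) (nat_lit 192) (nat_lit 173)) (XT.lf (nat_lit 0) (nat_lit 3293922261) (nat_lit 420) (nat_lit 1462218960) (nat_lit 504) (nat_lit 3747919354) (nat_lit 91) (nat_lit 5) (nat_lit 96) (nat_lit 5) (nat_lit 97) (nat_lit 5) (nat_lit 236) (nat_lit 192) (nat_lit 172)))) (XT.nd (nat_lit 94) (nat_lit 420) (nat_lit 0) (XT.lf (nat_lit 0) (nat_lit 1299479308) (nat_lit 420) (nat_lit 6904492093) (nat_lit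 504) (nat_lit 428138843) (nat_lit 86) (nat_lit 5) (nat_lit 91) (nat_lit 5) (nat_lit 92) (nat_lit 5) (nat_lit 237) (nat_lit 192) (nat_lit 171)) (XT.nd (nat_lit 94) (nat_lit 336) (nat_lit 0) (XT.lf (nat_lit 0) (nat_lit 2934358349) (nat_lit 504) (nat_lit 767145945) (nat_lit 84) (nat_lit 5062149008) (nat_lit 85) (nat_lit 5) (nat_lit 91) (nat_lit 5) (nat_lit 86) (nat_lit 5) (nat_lit 238) (nat_lit 192) (nat_lit 170)) (XT.lf (nat_lit 0) (nat_lit 6048639811) (nat_lit 336) (nat_lit 341777453) (nat_lit 420) (nat_lit 2509703033) (nat_lit 81) (nat_lit 5) (nat_lit 85) (nat_lit 5) (nat_lit 86) (nat_lit 5) (nat_lit 239) (nat_lit 192) (nat_lit 169)))))) (XT.nd (nat_lit 564) (nat_lit 1344) (nat_lit 0) (XT.nd (nat_lit 282) (nat_lit 1092) (nat_lit 0) (XT.nd (nat_lit 94) (nat_lit 336) (nat_lit 0) (XT.lf (nat_lit 0) (nat_lit 913813518) (nat_lit 504) (nat_lit 5027822183) (nat_lit 84) (nat_lit 3099060993) (nat_lit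 75) (nat_lit 5) (nat_lit 81) (nat_lit 5) (nat_lit 76) (nat_lit 5) (nat_lit 240) (nat_lit 192) (nat_lit 168)) (XT.nd (nat_lit 94) (nat_lit 0) (nat_lit 0) (XT.lf (nat_lit 0) (nat_lit 1897233623) (nat_lit 336) (nat_lit 2480412098) (nat_lit 420) (nat_lit 4808255919) (nat_lit 71) (nat_lit 5) (nat_lit 75) (nat_lit 5) (nat_lit 76) (nat_lit 5) (nat_lit 241) (nat_lit 192) (nat_lit 167)) (XT.lf (nat_lit 0) (nat_lit 7956344634) (nat_lit 420) (nat_lit 276197505) (nat_lit 84) (nat_lit 1103869479) (nat_lit 71) (nat_lit 5) (nat_lit 76) (nat_lit 5) (nat_lit 72) (nat_lit 5) (nat_lit 242) (nat_lit 192) (nat_lit 166)))) (XT.nd (nat_lit 94) (nat_lit 672) (nat_lit 0) (XT.lf (nat_lit 0) (nat_lit 2149917744) (nat_lit 420) (nat_lit 2514422411) (nat_lit 84) (nat_lit 4825919850) (nat_lit 66) (nat_lit 5) (nat_lit 71) (nat_lit 5) (nat_lit 67) (nat_lit 5) (nat_lit 243) (nat_lit 192) (nat_lit 165)) (XT.nd (nat_lit 94)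 (nat_lit 336) (nat_lit 0) (XT.lf (nat_lit 0) (nat_lit 4821174270) (nat_lit 336) (nat_lit 931399121) (nat_lit 420) (nat_lit 3897009864) (nat_lit 62) (nat_lit 5) (nat_lit 66) (nat_lit 5) (nat_lit 67) (nat_lit 5) (nat_lit 244) (nat_lit 192) (nat_lit 164)) (XT.lf (nat_lit 0) (nat_lit 2573725668) (nat_lit 336) (nat_lit 6924380916) (nat_lit 420) (nat_lit 315788771) (nat_lit 58) (nat_lit 5) (nat_lit 62) (nat_lit 5) (nat_lit 63) (nat_lit 5) (nat_lit 245) (nat_lit 192) (nat_lit 163))))) (XT.nd (nat_lit 282) (nat_lit 588) (nat_lit 0) (XT.nd (nat_lit 94) (nat_lit 420) (nat_lit 0) (XT.lf (nat_lit 0) (nat_lit 212030755) (nat_lit 252) (nat_lit 3098462644) (nat_lit 336) (nat_lit 6672261602) (nat_lit 54) (nat_lit 5) (nat_lit 57) (nat_lit 5) (nat_lit 58) (nat_lit 5) (nat_lit 246) (nat_lit 192) (nat_lit 162)) (XT.nd (nat_lit 94) (nat_lit 420) (nat_lit 0) (XT.lf (nat_lit 0) (nat_lit 7079006513) (nat_lit 336)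 (nat_lit 2183197952) (nat_lit 84) (nat_lit 894397542) (nat_lit 54) (nat_lit 5) (nat_lit 58) (nat_lit 5) (nat_lit 55) (nat_lit 5) (nat_lit 247) (nat_lit 192) (nat_lit 161)) (XT.lf (nat_lit 0) (nat_lit 656531313) (nat_lit 420) (nat_lit 4690226010) (nat_lit 84) (nat_lit 4988537775) (nat_lit 49) (nat_lit 5) (nat_lit 54) (nat_lit 5) (nat_lit 50) (nat_lit 5) (nat_lit 248) (nat_lit 192) (nat_lit 160)))) (XT.nd (nat_lit 94) (nat_lit 336) (nat_lit 0) (XT.lf (nat_lit 0) (nat_lit 3207443655) (nat_lit 252) (nat_lit 1233051749) (nat_lit 336) (nat_lit 6078806989) (nat_lit 46) (nat_lit 5) (nat_lit 49) (nat_lit 5) (nat_lit 50) (nat_lit 5) (nat_lit 249) (nat_lit 192) (nat_lit 159)) (XT.nd (nat_lit 94) (nat_lit 84) (nat_lit 0) (XT.lf (nat_lit 0) (nat_lit 656247930) (nat_lit 252) (nat_lit 7727948281) (nat_lit 336) (nat_lit 2324598303) (nat_lit 43) (nat_lit 5) (nat_lit 46) (nat_lit 5) (nat_lit 47) (nat_lit 5)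 (nat_lit 250) (nat_lit 192) (nat_lit 158)) (XT.lf (nat_lit 0) (nat_lit 1557756469) (nat_lit 336) (nat_lit 1966676236) (nat_lit 84) (nat_lit 7378752377) (nat_lit 42) (nat_lit 5) (nat_lit 46) (nat_lit 5) (nat_lit 43) (nat_lit 5) (nat_lit 251) (nat_lit 192) (nat_lit 157))))))) (XT.nd (nat_lit 34122) (nat_lit 0) (nat_lit 11256) (XT.nd (nat_lit 470) (nat_lit 1260) (nat_lit 0) (XT.nd (nat_lit 188) (nat_lit 588) (nat_lit 0) (XT.nd (nat_lit 94) (nat_lit 252) (nat_lit 0) (XT.lf (nat_lit 0) (nat_lit 5535788571) (nat_lit 336) (nat_lit 4699589923) (nat_lit 84) (nat_lit 867560372) (nat_lit 39) (nat_lit 5) (nat_lit 43) (nat_lit 5) (nat_lit 40) (nat_lit 5) (nat_lit 252) (nat_lit 192) (nat_lit 156)) (XT.lf (nat_lit 0) (nat_lit 3740716336) (nat_lit 252) (nat_lit 5951767448) (nat_lit 336) (nat_lit 1615820129) (nat_lit 36) (nat_lit 5) (nat_lit 39) (nat_lit 5) (nat_lit 40) (nat_lit 5) (nat_lit 253) (nat_lit 192)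 (nat_lit 155))) (XT.nd (nat_lit 94) (nat_lit 252) (nat_lit 0) (XT.lf (nat_lit 0) (nat_lit 955661016) (nat_lit 252) (nat_lit 1462732379) (nat_lit 336) (nat_lit 9101474867) (nat_lit 32) (nat_lit 5) (nat_lit 35) (nat_lit 5) (nat_lit 36) (nat_lit 5) (nat_lit 254) (nat_lit 192) (nat_lit 154)) (XT.nd (nat_lit 94) (nat_lit 252) (nat_lit 0) (XT.lf (nat_lit 0) (nat_lit 6616192264) (nat_lit 336) (nat_lit 1940652917) (nat_lit 84) (nat_lit 3179229229) (nat_lit 32) (nat_lit 5) (nat_lit 36) (nat_lit 5) (nat_lit 33) (nat_lit 5) (nat_lit 255) (nat_lit 192) (nat_lit 153)) (XT.lf (nat_lit 0) (nat_lit 7022007816) (nat_lit 252) (nat_lit 3970742270) (nat_lit 336) (nat_lit 965983425) (nat_lit 29) (nat_lit 5) (nat_lit 32) (nat_lit 5) (nat_lit 33) (nat_lit 5) (nat_lit 256) (nat_lit 192) (nat_lit 152))))) (XT.nd (nat_lit 282) (nat_lit 756) (nat_lit 0) (XT.nd (nat_lit 94) (nat_lit 252) (nat_lit 0) (XT.lf (nat_lit 0)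 (nat_lit 3273032849) (nat_lit 252) (nat_lit 8090112472) (nat_lit 84) (nat_lit 824204561) (nat_lit 26) (nat_lit 5) (nat_lit 29) (nat_lit 5) (nat_lit 27) (nat_lit 5) (nat_lit 257) (nat_lit 192) (nat_lit 151)) (XT.nd (nat_lit 94) (nat_lit 0) (nat_lit 0) (XT.lf (nat_lit 0) (nat_lit 1003315312) (nat_lit 252) (nat_lit 6687816269) (nat_lit 336) (nat_lit 4730577823) (nat_lit 23) (nat_lit 5) (nat_lit 26) (nat_lit 5) (nat_lit 27) (nat_lit 5) (nat_lit 258) (nat_lit 192) (nat_lit 150)) (XT.lf (nat_lit 0) (nat_lit 10504648189) (nat_lit 252) (nat_lit 1793117027) (nat_lit 336) (nat_lit 365319742) (nat_lit 23) (nat_lit 5) (nat_lit 26) (nat_lit 5) (nat_lit 27) (nat_lit 5) (nat_lit 259) (nat_lit 192) (nat_lit 149)))) (XT.nd (nat_lit 94) (nat_lit 504) (nat_lit 0) (XT.lf (nat_lit 0) (nat_lit 4118845817) (nat_lit 252) (nat_lit 5502287811) (nat_lit 84) (nat_lit 3288045651) (nat_lit 20) (nat_lit 5) (nat_lit 23)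 (nat_lit 5) (nat_lit 21) (nat_lit 5) (nat_lit 260) (nat_lit 192) (nat_lit 148)) (XT.nd (nat_lit 94) (nat_lit 252) (nat_lit 0) (XT.lf (nat_lit 0) (nat_lit 4162105390) (nat_lit 252) (nat_lit 4622367883) (nat_lit 336) (nat_lit 4378108048) (nat_lit 17) (nat_lit 5) (nat_lit 20) (nat_lit 5) (nat_lit 21) (nat_lit 5) (nat_lit 261) (nat_lit 192) (nat_lit 147)) (XT.lf (nat_lit 0) (nat_lit 205724369) (nat_lit 252) (nat_lit 12644655676) (nat_lit 84) (nat_lit 573647963) (nat_lit 14) (nat_lit 5) (nat_lit 17) (nat_lit 5) (nat_lit 15) (nat_lit 5) (nat_lit 262) (nat_lit 192) (nat_lit 146)))))) (XT.nd (nat_lit 564) (nat_lit 4200) (nat_lit 0) (XT.nd (nat_lit 282) (nat_lit 1848) (nat_lit 0) (XT.nd (nat_lit 94) (nat_lit 840) (nat_lit 0) (XT.lf (nat_lit 0) (nat_lit 400868295) (nat_lit 756) (nat_lit 2559343638) (nat_lit 0) (nat_lit 400868295) (nat_lit 230) (nat_lit 5) (nat_lit 239) (nat_lit 4) (nat_lit 230) (nat_lit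 4) (nat_lit 214) (nat_lit 193) (nat_lit 193)) (XT.nd (nat_lit 94) (nat_lit 840) (nat_lit 0) (XT.lf (nat_lit 0) (nat_lit 4152185757) (nat_lit 756) (nat_lit 591311421) (nat_lit 0) (nat_lit 2020432540) (nat_lit 230) (nat_lit 5) (nat_lit 239) (nat_lit 4) (nat_lit 230) (nat_lit 4) (nat_lit 215) (nat_lit 193) (nat_lit 192)) (XT.lf (nat_lit 0) (nat_lit 714952891) (nat_lit 840) (nat_lit 2736489028) (nat_lit 84) (nat_lit 3358179588) (nat_lit 220) (nat_lit 5) (nat_lit 230) (nat_lit 5) (nat_lit 221) (nat_lit 4) (nat_lit 216) (nat_lit 193) (nat_lit 191)))) (XT.nd (nat_lit 94) (nat_lit 1008) (nat_lit 0) (XT.lf (nat_lit 0) (nat_lit 1965596376) (nat_lit 840) (nat_lit 2037857666) (nat_lit 924) (nat_lit 2855671132) (nat_lit 210) (nat_lit 5) (nat_lit 220) (nat_lit 5) (nat_lit 221) (nat_lit 4) (nat_lit 217) (nat_lit 193) (nat_lit 190)) (XT.nd (nat_lit 94) (nat_lit 924) (nat_lit 0) (XT.lf (nat_lit 0) (nat_lit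 397373746) (nat_lit 924) (nat_lit 125887974) (nat_lit 84) (nat_lit 6389987990) (nat_lit 209) (nat_lit 5) (nat_lit 220) (nat_lit 5) (nat_lit 210) (nat_lit 5) (nat_lit 218) (nat_lit 193) (nat_lit 189)) (XT.lf (nat_lit 0) (nat_lit 3646631212) (nat_lit 1008) (nat_lit 2204082911) (nat_lit 84) (nat_lit 1119173827) (nat_lit 198) (nat_lit 5) (nat_lit 210) (nat_lit 5) (nat_lit 199) (nat_lit 4) (nat_lit 219) (nat_lit 193) (nat_lit 188))))) (XT.nd (nat_lit 282) (nat_lit 2016) (nat_lit 0) (XT.nd (nat_lit 94) (nat_lit 1176) (nat_lit 0) (XT.lf (nat_lit 0) (nat_lit 2751677798) (nat_lit 1008) (nat_lit 4182394851) (nat_lit 1092) (nat_lit 97079778) (nat_lit 186) (nat_lit 5) (nat_lit 198) (nat_lit 5) (nat_lit 199) (nat_lit 4) (nat_lit 220) (nat_lit 193) (nat_lit 187)) (XT.nd (nat_lit 94) (nat_lit 0) (nat_lit 0) (XT.lf (nat_lit 0) (nat_lit 710539525) (nat_lit 1092) (nat_lit 2379827578) (nat_lit 1176) (nat_lit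 4005664513) (nat_lit 172) (nat_lit 5) (nat_lit 185) (nat_lit 5) (nat_lit 186) (nat_lit 5) (nat_lit 221) (nat_lit 193) (nat_lit 186)) (XT.lf (nat_lit 0) (nat_lit 5868752158) (nat_lit 1092) (nat_lit 459063097) (nat_lit 1176) (nat_lit 837401977) (nat_lit 172) (nat_lit 5) (nat_lit 185) (nat_lit 5) (nat_lit 186) (nat_lit 5) (nat_lit 222) (nat_lit 193) (nat_lit 185)))) (XT.nd (nat_lit 94) (nat_lit 756) (nat_lit 0) (XT.lf (nat_lit 0) (nat_lit 2340706200) (nat_lit 1260) (nat_lit 3330373653) (nat_lit 84) (nat_lit 1566391022) (nat_lit 157) (nat_lit 5) (nat_lit 172) (nat_lit 5) (nat_lit 158) (nat_lit 5) (nat_lit 223) (nat_lit 193) (nat_lit 184)) (XT.nd (nat_lit 94) (nat_lit 84) (nat_lit 0) (XT.lf (nat_lit 0) (nat_lit 1931524164) (nat_lit 672) (nat_lit 3616326236) (nat_lit 756) (nat_lit 1766254100) (nat_lit 149) (nat_lit 5) (nat_lit 157) (nat_lit 5) (nat_lit 158) (nat_lit 5) (nat_lit 224) (nat_lit 193)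 (nat_lit 183)) (XT.lf (nat_lit 0) (nat_lit 1376480407) (nat_lit 756) (nat_lit 61861670) (nat_lit 84) (nat_lit 5956740879) (nat_lit 148) (nat_lit 5) (nat_lit 157) (nat_lit 5) (nat_lit 149) (nat_lit 5) (nat_lit 225) (nat_lit 193) (nat_lit 182))))))))
noncomputable def xc13 : XT := (XT.nd (nat_lit 2162) (nat_lit 2772) (nat_lit 0) (XT.nd (nat_lit 1034) (nat_lit 3444) (nat_lit 0) (XT.nd (nat_lit 470) (nat_lit 2436) (nat_lit 0) (XT.nd (nat_lit 188) (nat_lit 1092) (nat_lit 0) (XT.nd (nat_lit 94) (nat_lit 672) (nat_lit 0) (XT.lf (nat_lit 0) (nat_lit 4558169076) (nat_lit 672) (nat_lit 2048190009) (nat_lit 84) (nat_lit 872859369) (nat_lit 141) (nat_lit 5) (nat_lit 149) (nat_lit 5) (nat_lit 142) (nat_lit 5) (nat_lit 226) (nat_lit 193) (nat_lit 181)) (XT.lf (nat_lit 0) (nat_lit 236316636) (nat_lit 672) (nat_lit 4065073234) (nat_lit 84) (nat_lit 3266272653) (nat_lit 133) (nat_lit 5) (nat_lit 141) (nat_lit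 5) (nat_lit 134) (nat_lit 5) (nat_lit 227) (nat_lit 193) (nat_lit 180))) (XT.nd (nat_lit 94) (nat_lit 588) (nat_lit 0) (XT.lf (nat_lit 0) (nat_lit 1529281775) (nat_lit 504) (nat_lit 1850810110) (nat_lit 588) (nat_lit 4279875416) (nat_lit 127) (nat_lit 5) (nat_lit 133) (nat_lit 5) (nat_lit 134) (nat_lit 5) (nat_lit 228) (nat_lit 193) (nat_lit 179)) (XT.nd (nat_lit 94) (nat_lit 588) (nat_lit 0) (XT.lf (nat_lit 0) (nat_lit 6594941731) (nat_lit 588) (nat_lit 456783043) (nat_lit 84) (nat_lit 705141485) (nat_lit 127) (nat_lit 5) (nat_lit 134) (nat_lit 5) (nat_lit 128) (nat_lit 5) (nat_lit 229) (nat_lit 193) (nat_lit 178)) (XT.lf (nat_lit 0) (nat_lit 2007922282) (nat_lit 588) (nat_lit 2471439059) (nat_lit 84) (nat_lit 3377354207) (nat_lit 120) (nat_lit 5) (nat_lit 127) (nat_lit 5) (nat_lit 121) (nat_lit 5) (nat_lit 230) (nat_lit 193) (nat_lit 177))))) (XT.nd (nat_lit 282) (nat_lit 1344) (nat_lit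 0) (XT.nd (nat_lit 94) (nat_lit 588) (nat_lit 0) (XT.lf (nat_lit 0) (nat_lit 3438491943) (nat_lit 504) (nat_lit 1775698955) (nat_lit 588) (nat_lit 2747053605) (nat_lit 114) (nat_lit 5) (nat_lit 120) (nat_lit 5) (nat_lit 121) (nat_lit 5) (nat_lit 231) (nat_lit 193) (nat_lit 176)) (XT.nd (nat_lit 94) (nat_lit 0) (nat_lit 0) (XT.lf (nat_lit 0) (nat_lit 420149645) (nat_lit 588) (nat_lit 6618430093) (nat_lit 84) (nat_lit 1031812353) (nat_lit 107) (nat_lit 5) (nat_lit 114) (nat_lit 5) (nat_lit 108) (nat_lit 5) (nat_lit 232) (nat_lit 193) (nat_lit 175)) (XT.lf (nat_lit 0) (nat_lit 3619643728) (nat_lit 588) (nat_lit 601253704) (nat_lit 84) (nat_lit 3961846916) (nat_lit 107) (nat_lit 5) (nat_lit 114) (nat_lit 5) (nat_lit 108) (nat_lit 5) (nat_lit 233) (nat_lit 193) (nat_lit 174)))) (XT.nd (nat_lit 94) (nat_lit 924) (nat_lit 0) (XT.lf (nat_lit 0) (nat_lit 5646948130) (nat_lit 420) (nat_lit 1261531892)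 (nat_lit 504) (nat_lit 1391341314) (nat_lit 102) (nat_lit 5) (nat_lit 107) (nat_lit 5) (nat_lit 108) (nat_lit 5) (nat_lit 234) (nat_lit 193) (nat_lit 173)) (XT.nd (nat_lit 94) (nat_lit 420) (nat_lit 0) (XT.lf (nat_lit 0) (nat_lit 1832298096) (nat_lit 504) (nat_lit 4781129308) (nat_lit 84) (nat_lit 1807399570) (nat_lit 96) (nat_lit 5) (nat_lit 102) (nat_lit 5) (nat_lit 97) (nat_lit 5) (nat_lit 235) (nat_lit 193) (nat_lit 172)) (XT.lf (nat_lit 0) (nat_lit 1566027674) (nat_lit 420) (nat_lit 3550335689) (nat_lit 504) (nat_lit 3429834105) (nat_lit 91) (nat_lit 5) (nat_lit 96) (nat_lit 5) (nat_lit 97) (nat_lit 5) (nat_lit 236) (nat_lit 193) (nat_lit 171)))))) (XT.nd (nat_lit 564) (nat_lit 1764) (nat_lit 0) (XT.nd (nat_lit 282) (nat_lit 840) (nat_lit 0) (XT.nd (nat_lit 94) (nat_lit 840) (nat_lit 0) (XT.lf (nat_lit 0) (nat_lit 8141628010) (nat_lit 420) (nat_lit 348359469) (nat_lit 504) (nat_lit 186856871)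 (nat_lit 91) (nat_lit 5) (nat_lit 96) (nat_lit 5) (nat_lit 97) (nat_lit 5) (nat_lit 237) (nat_lit 193) (nat_lit 170)) (XT.nd (nat_lit 94) (nat_lit 336) (nat_lit 0) (XT.lf (nat_lit 0) (nat_lit 3120079889) (nat_lit 504) (nat_lit 2712833621) (nat_lit 84) (nat_lit 2977132937) (nat_lit 85) (nat_lit 5) (nat_lit 91) (nat_lit 5) (nat_lit 86) (nat_lit 5) (nat_lit 238) (nat_lit 193) (nat_lit 169)) (XT.lf (nat_lit 0) (nat_lit 4003546730) (nat_lit 336) (nat_lit 2511123326) (nat_lit 420) (nat_lit 2433994791) (nat_lit 81) (nat_lit 5) (nat_lit 85) (nat_lit 5) (nat_lit 86) (nat_lit 5) (nat_lit 239) (nat_lit 193) (nat_lit 168)))) (XT.nd (nat_lit 94) (nat_lit 336) (nat_lit 0) (XT.lf (nat_lit 0) (nat_lit 900312825) (nat_lit 504) (nat_lit 7251559419) (nat_lit 84) (nat_lit 940401707) (nat_lit 75) (nat_lit 5) (nat_lit 81) (nat_lit 5) (nat_lit 76) (nat_lit 5) (nat_lit 240) (nat_lit 193) (nat_lit 167)) (XT.nd (nat_lit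 94) (nat_lit 336) (nat_lit 0) (XT.lf (nat_lit 0) (nat_lit 4305153557) (nat_lit 504) (nat_lit 423386215) (nat_lit 84) (nat_lit 4511003826) (nat_lit 75) (nat_lit 5) (nat_lit 81) (nat_lit 5) (nat_lit 76) (nat_lit 5) (nat_lit 241) (nat_lit 193) (nat_lit 166)) (XT.lf (nat_lit 0) (nat_lit 6689546759) (nat_lit 336) (nat_lit 1139728496) (nat_lit 420) (nat_lit 1562688525) (nat_lit 71) (nat_lit 5) (nat_lit 75) (nat_lit 5) (nat_lit 76) (nat_lit 5) (nat_lit 242) (nat_lit 193) (nat_lit 165))))) (XT.nd (nat_lit 282) (nat_lit 1008) (nat_lit 0) (XT.nd (nat_lit 94) (nat_lit 336) (nat_lit 0) (XT.lf (nat_lit 0) (nat_lit 1893654748) (nat_lit 420) (nat_lit 5093011123) (nat_lit 84) (nat_lit 2561939893) (nat_lit 66) (nat_lit 5) (nat_lit 71) (nat_lit 5) (nat_lit 67) (nat_lit 5) (nat_lit 243) (nat_lit 193) (nat_lit 164)) (XT.nd (nat_lit 94) (nat_lit 0) (nat_lit 0) (XT.lf (nat_lit 0) (nat_lit 2128771439) (nat_lit 336)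 (nat_lit 3301690742) (nat_lit 420) (nat_lit 4279771519) (nat_lit 62) (nat_lit 5) (nat_lit 66) (nat_lit 5) (nat_lit 67) (nat_lit 5) (nat_lit 244) (nat_lit 193) (nat_lit 163)) (XT.lf (nat_lit 0) (nat_lit 9085501582) (nat_lit 420) (nat_lit 264482910) (nat_lit 84) (nat_lit 527728591) (nat_lit 62) (nat_lit 5) (nat_lit 67) (nat_lit 5) (nat_lit 63) (nat_lit 5) (nat_lit 245) (nat_lit 193) (nat_lit 162)))) (XT.nd (nat_lit 94) (nat_lit 588) (nat_lit 0) (XT.lf (nat_lit 0) (nat_lit 2804263841) (nat_lit 420) (nat_lit 2749119728) (nat_lit 84) (nat_lit 4494796281) (nat_lit 57) (nat_lit 5) (nat_lit 62) (nat_lit 5) (nat_lit 58) (nat_lit 5) (nat_lit 246) (nat_lit 193) (nat_lit 161)) (XT.nd (nat_lit 94) (nat_lit 336) (nat_lit 0) (XT.lf (nat_lit 0) (nat_lit 4906217644) (nat_lit 252) (nat_lit 1590425826) (nat_lit 336) (nat_lit 3728048059) (nat_lit 54) (nat_lit 5) (nat_lit 57) (nat_lit 5) (nat_lit 58) (nat_lit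 5) (nat_lit 247) (nat_lit 193) (nat_lit 160)) (XT.lf (nat_lit 0) (nat_lit 2409729090) (nat_lit 336) (nat_lit 7927751052) (nat_lit 420) (nat_lit 69228142) (nat_lit 50) (nat_lit 5) (nat_lit 54) (nat_lit 5) (nat_lit 55) (nat_lit 5) (nat_lit 248) (nat_lit 193) (nat_lit 159))))))) (XT.nd (nat_lit 1128) (nat_lit 252) (nat_lit 0) (XT.nd (nat_lit 564) (nat_lit 1260) (nat_lit 0) (XT.nd (nat_lit 282) (nat_lit 588) (nat_lit 0) (XT.nd (nat_lit 94) (nat_lit 588) (nat_lit 0) (XT.lf (nat_lit 0) (nat_lit 3647129591) (nat_lit 420) (nat_lit 223444655) (nat_lit 84) (nat_lit 6722589491) (nat_lit 49) (nat_lit 5) (nat_lit 54) (nat_lit 5) (nat_lit 50) (nat_lit 5) (nat_lit 249) (nat_lit 193) (nat_lit 158)) (XT.nd (nat_lit 94) (nat_lit 336) (nat_lit 0) (XT.lf (nat_lit 0) (nat_lit 7518463288) (nat_lit 336) (nat_lit 2891765390) (nat_lit 84) (nat_lit 374960030) (nat_lit 46) (nat_lit 5) (nat_lit 50) (nat_lit 5) (nat_lit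 47) (nat_lit 5) (nat_lit 250) (nat_lit 193) (nat_lit 157)) (XT.lf (nat_lit 0) (nat_lit 570717601) (nat_lit 336) (nat_lit 5701142671) (nat_lit 84) (nat_lit 4710405993) (nat_lit 42) (nat_lit 5) (nat_lit 46) (nat_lit 5) (nat_lit 43) (nat_lit 5) (nat_lit 251) (nat_lit 193) (nat_lit 156)))) (XT.nd (nat_lit 94) (nat_lit 336) (nat_lit 0) (XT.lf (nat_lit 0) (nat_lit 2540386676) (nat_lit 252) (nat_lit 1923504332) (nat_lit 336) (nat_lit 6721099094) (nat_lit 39) (nat_lit 5) (nat_lit 42) (nat_lit 5) (nat_lit 43) (nat_lit 5) (nat_lit 252) (nat_lit 193) (nat_lit 155)) (XT.nd (nat_lit 94) (nat_lit 336) (nat_lit 0) (XT.lf (nat_lit 0) (nat_lit 8525965368) (nat_lit 336) (nat_lit 318896918) (nat_lit 84) (nat_lit 2548804593) (nat_lit 39) (nat_lit 5) (nat_lit 43) (nat_lit 5) (nat_lit 40) (nat_lit 5) (nat_lit 253) (nat_lit 193) (nat_lit 154)) (XT.lf (nat_lit 0) (nat_lit 1149206398) (nat_lit 336) (nat_lit 3255876821)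 (nat_lit 84) (nat_lit 7202235402) (nat_lit 35) (nat_lit 5) (nat_lit 39) (nat_lit 5) (nat_lit 36) (nat_lit 5) (nat_lit 254) (nat_lit 193) (nat_lit 153))))) (XT.nd (nat_lit 282) (nat_lit 672) (nat_lit 0) (XT.nd (nat_lit 94) (nat_lit 336) (nat_lit 0) (XT.lf (nat_lit 0) (nat_lit 5245581745) (nat_lit 336) (nat_lit 6334896232) (nat_lit 84) (nat_lit 246596614) (nat_lit 32) (nat_lit 5) (nat_lit 36) (nat_lit 5) (nat_lit 33) (nat_lit 5) (nat_lit 255) (nat_lit 193) (nat_lit 152)) (XT.nd (nat_lit 94) (nat_lit 84) (nat_lit 0) (XT.lf (nat_lit 0) (nat_lit 2474774524) (nat_lit 252) (nat_lit 7066658288) (nat_lit 336) (nat_lit 2511125618) (nat_lit 29) (nat_lit 5) (nat_lit 32) (nat_lit 5) (nat_lit 33) (nat_lit 5) (nat_lit 256) (nat_lit 193) (nat_lit 151)) (XT.lf (nat_lit 0) (nat_lit 1677853302) (nat_lit 336) (nat_lit 660011738) (nat_lit 84) (nat_lit 9946889858) (nat_lit 28) (nat_lit 5) (nat_lit 32) (nat_lit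 5) (nat_lit 29) (nat_lit 5) (nat_lit 257) (nat_lit 193) (nat_lit 150)))) (XT.nd (nat_lit 94) (nat_lit 504) (nat_lit 0) (XT.lf (nat_lit 0) (nat_lit 6021435383) (nat_lit 252) (nat_lit 3913776707) (nat_lit 84) (nat_lit 2586510413) (nat_lit 26) (nat_lit 5) (nat_lit 29) (nat_lit 5) (nat_lit 27) (nat_lit 5) (nat_lit 258) (nat_lit 193) (nat_lit 149)) (XT.nd (nat_lit 94) (nat_lit 252) (nat_lit 0) (XT.lf (nat_lit 0) (nat_lit 5447079961) (nat_lit 252) (nat_lit 5107142165) (nat_lit 336) (nat_lit 2211460574) (nat_lit 23) (nat_lit 5) (nat_lit 26) (nat_lit 5) (nat_lit 27) (nat_lit 5) (nat_lit 259) (nat_lit 193) (nat_lit 148)) (XT.lf (nat_lit 0) (nat_lit 2137065978) (nat_lit 168) (nat_lit 52298991) (nat_lit 252) (nat_lit 10827513998) (nat_lit 20) (nat_lit 5) (nat_lit 22) (nat_lit 5) (nat_lit 23) (nat_lit 5) (nat_lit 260) (nat_lit 193) (nat_lit 147)))))) (XT.nd (nat_lit 33464) (nat_lit 0) (nat_lit 13020)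 (XT.nd (nat_lit 33182) (nat_lit 0) (nat_lit 17892) (XT.nd (nat_lit 94) (nat_lit 252) (nat_lit 0) (XT.lf (nat_lit 0) (nat_lit 6779677801) (nat_lit 252) (nat_lit 1358075447) (nat_lit 84) (nat_lit 5135163773) (nat_lit 20) (nat_lit 5) (nat_lit 23) (nat_lit 5) (nat_lit 21) (nat_lit 5) (nat_lit 261) (nat_lit 193) (nat_lit 146)) (XT.nd (nat_lit 32994) (nat_lit 0) (nat_lit 19236) (XT.lf (nat_lit 0) (nat_lit 8595129257) (nat_lit 252) (nat_lit 2976138396) (nat_lit 336) (nat_lit 1965227190) (nat_lit 17) (nat_lit 5) (nat_lit 20) (nat_lit 5) (nat_lit 21) (nat_lit 5) (nat_lit 262) (nat_lit 193) (nat_lit 145)) (XT.lf (nat_lit 0) (nat_lit 1516383996) (nat_lit 588) (nat_lit 291014850) (nat_lit 0) (nat_lit 1516383996) (nat_lit 246) (nat_lit 5) (nat_lit 253) (nat_lit 4) (nat_lit 246) (nat_lit 4) (nat_lit 212) (nat_lit 194) (nat_lit 194)))) (XT.nd (nat_lit 94) (nat_lit 756) (nat_lit 0) (XT.lf (nat_lit 0) (nat_lit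 3804736088) (nat_lit 588) (nat_lit 2581353830) (nat_lit 588) (nat_lit 297766490) (nat_lit 239) (nat_lit 4) (nat_lit 246) (nat_lit 5) (nat_lit 246) (nat_lit 4) (nat_lit 213) (nat_lit 194) (nat_lit 193)) (XT.nd (nat_lit 94) (nat_lit 0) (nat_lit 0) (XT.lf (nat_lit 0) (nat_lit 1535584259) (nat_lit 672) (nat_lit 1425367179) (nat_lit 756) (nat_lit 3762859258) (nat_lit 230) (nat_lit 5) (nat_lit 238) (nat_lit 5) (nat_lit 239) (nat_lit 4) (nat_lit 214) (nat_lit 194) (nat_lit 192)) (XT.lf (nat_lit 0) (nat_lit 6069530105) (nat_lit 672) (nat_lit 166949129) (nat_lit 756) (nat_lit 531722973) (nat_lit 230) (nat_lit 5) (nat_lit 238) (nat_lit 5) (nat_lit 239) (nat_lit 4) (nat_lit 215) (nat_lit 194) (nat_lit 191))))) (XT.nd (nat_lit 282) (nat_lit 3108) (nat_lit 0) (XT.nd (nat_lit 94) (nat_lit 924) (nat_lit 0) (XT.lf (nat_lit 0) (nat_lit 2684615971) (nat_lit 840) (nat_lit 2924603679) (nat_lit 84) (nat_lit 1206075011)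 (nat_lit 220) (nat_lit 5) (nat_lit 230) (nat_lit 5) (nat_lit 221) (nat_lit 4) (nat_lit 216) (nat_lit 194) (nat_lit 190)) (XT.nd (nat_lit 94) (nat_lit 84) (nat_lit 0) (XT.lf (nat_lit 0) (nat_lit 1721071384) (nat_lit 840) (nat_lit 4191256787) (nat_lit 924) (nat_lit 954597770) (nat_lit 210) (nat_lit 5) (nat_lit 220) (nat_lit 5) (nat_lit 221) (nat_lit 4) (nat_lit 217) (nat_lit 194) (nat_lit 189)) (XT.lf (nat_lit 0) (nat_lit 2198027043) (nat_lit 924) (nat_lit 451011505) (nat_lit 84) (nat_lit 4273276570) (nat_lit 209) (nat_lit 5) (nat_lit 220) (nat_lit 5) (nat_lit 210) (nat_lit 5) (nat_lit 218) (nat_lit 194) (nat_lit 188)))) (XT.nd (nat_lit 94) (nat_lit 2184) (nat_lit 0) (XT.lf (nat_lit 0) (nat_lit 4395317150) (nat_lit 924) (nat_lit 979556445) (nat_lit 1008) (nat_lit 1606614143) (nat_lit 198) (nat_lit 5) (nat_lit 209) (nat_lit 5) (nat_lit 210) (nat_lit 5) (nat_lit 219) (nat_lit 194) (nat_lit 187))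 (XT.nd (nat_lit 94) (nat_lit 1092) (nat_lit 0) (XT.lf (nat_lit 0) (nat_lit 1512305855) (nat_lit 1092) (nat_lit 4742976360) (nat_lit 84) (nat_lit 789307122) (nat_lit 185) (nat_lit 5) (nat_lit 198) (nat_lit 5) (nat_lit 186) (nat_lit 5) (nat_lit 220) (nat_lit 194) (nat_lit 186)) (XT.lf (nat_lit 0) (nat_lit 182073603) (nat_lit 1092) (nat_lit 4456242911) (nat_lit 1176) (nat_lit 2473187379) (nat_lit 172) (nat_lit 5) (nat_lit 185) (nat_lit 5) (nat_lit 186) (nat_lit 5) (nat_lit 221) (nat_lit 194) (nat_lit 185))))))))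
noncomputable def xc14 : XT := (XT.nd (nat_lit 2162) (nat_lit 4116) (nat_lit 0) (XT.nd (nat_lit 1034) (nat_lit 3948) (nat_lit 0) (XT.nd (nat_lit 470) (nat_lit 2352) (nat_lit 0) (XT.nd (nat_lit 188) (nat_lit 1344) (nat_lit 0) (XT.nd (nat_lit 94) (nat_lit 1176) (nat_lit 0) (XT.lf (nat_lit 0) (nat_lit 626599390) (nat_lit 1176) (nat_lit 1900679159) (nat_lit 84) (nat_lit 4654984936) (nat_lit 171) (nat_lit 5) (nat_lit 185) (nat_lit 5) (nat_lit 172) (nat_lit 5) (nat_lit 222) (nat_lit 194) (nat_lit 184)) (XT.lf (nat_lit 0) (nat_lit 3245868786) (nat_lit 1176) (nat_lit 463487182) (nat_lit 1260) (nat_lit 3547507339) (nat_lit 157) (nat_lit 5) (nat_lit 171) (nat_lit 5) (nat_lit 172) (nat_lit 5) (nat_lit 223) (nat_lit 194) (nat_lit 183))) (XT.nd (nat_lit 94) (nat_lit 672) (nat_lit 0) (XT.lf (nat_lit 0) (nat_lit 1187278714) (nat_lit 672) (nat_lit 5665990685) (nat_lit 756) (nat_lit 482440609) (nat_lit 149)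 (nat_lit 5) (nat_lit 157) (nat_lit 5) (nat_lit 158) (nat_lit 5) (nat_lit 224) (nat_lit 194) (nat_lit 182)) (XT.nd (nat_lit 94) (nat_lit 588) (nat_lit 0) (XT.lf (nat_lit 0) (nat_lit 2581960488) (nat_lit 756) (nat_lit 894480830) (nat_lit 84) (nat_lit 3941469327) (nat_lit 148) (nat_lit 5) (nat_lit 157) (nat_lit 5) (nat_lit 149) (nat_lit 5) (nat_lit 225) (nat_lit 194) (nat_lit 181)) (XT.lf (nat_lit 0) (nat_lit 4537526067) (nat_lit 588) (nat_lit 1158542334) (nat_lit 672) (nat_lit 1808343068) (nat_lit 141) (nat_lit 5) (nat_lit 148) (nat_lit 5) (nat_lit 149) (nat_lit 5) (nat_lit 226) (nat_lit 194) (nat_lit 180))))) (XT.nd (nat_lit 282) (nat_lit 1176) (nat_lit 0) (XT.nd (nat_lit 94) (nat_lit 504) (nat_lit 0) (XT.lf (nat_lit 0) (nat_lit 1252607456) (nat_lit 672) (nat_lit 5084015871) (nat_lit 84) (nat_lit 1258289783) (nat_lit 133) (nat_lit 5) (nat_lit 141) (nat_lit 5) (nat_lit 134) (nat_lit 5) (nat_lit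 227) (nat_lit 194) (nat_lit 179)) (XT.nd (nat_lit 94) (nat_lit 0) (nat_lit 0) (XT.lf (nat_lit 0) (nat_lit 433309920) (nat_lit 504) (nat_lit 3904791236) (nat_lit 588) (nat_lit 3351156585) (nat_lit 127) (nat_lit 5) (nat_lit 133) (nat_lit 5) (nat_lit 134) (nat_lit 5) (nat_lit 228) (nat_lit 194) (nat_lit 178)) (XT.lf (nat_lit 0) (nat_lit 6160847824) (nat_lit 504) (nat_lit 1338977209) (nat_lit 588) (nat_lit 288191076) (nat_lit 127) (nat_lit 5) (nat_lit 133) (nat_lit 5) (nat_lit 134) (nat_lit 5) (nat_lit 229) (nat_lit 194) (nat_lit 177)))) (XT.nd (nat_lit 94) (nat_lit 588) (nat_lit 0) (XT.lf (nat_lit 0) (nat_lit 2788701480) (nat_lit 588) (nat_lit 3748778839) (nat_lit 84) (nat_lit 1352604348) (nat_lit 120) (nat_lit 5) (nat_lit 127) (nat_lit 5) (nat_lit 121) (nat_lit 5) (nat_lit 230) (nat_lit 194) (nat_lit 176)) (XT.nd (nat_lit 94) (nat_lit 84) (nat_lit 0) (XT.lf (nat_lit 0) (nat_lit 2078605601) (nat_lit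 504) (nat_lit 3857998074) (nat_lit 588) (nat_lit 2060052773) (nat_lit 114) (nat_lit 5) (nat_lit 120) (nat_lit 5) (nat_lit 121) (nat_lit 5) (nat_lit 231) (nat_lit 194) (nat_lit 175)) (XT.lf (nat_lit 0) (nat_lit 1020685569) (nat_lit 588) (nat_lit 24129945) (nat_lit 84) (nat_lit 7063201676) (nat_lit 113) (nat_lit 5) (nat_lit 120) (nat_lit 5) (nat_lit 114) (nat_lit 5) (nat_lit 232) (nat_lit 194) (nat_lit 174)))))) (XT.nd (nat_lit 564) (nat_lit 1596) (nat_lit 0) (XT.nd (nat_lit 282) (nat_lit 924) (nat_lit 0) (XT.nd (nat_lit 94) (nat_lit 924) (nat_lit 0) (XT.lf (nat_lit 0) (nat_lit 4166216047) (nat_lit 588) (nat_lit 2156778180) (nat_lit 84) (nat_lit 1899263946) (nat_lit 107) (nat_lit 5) (nat_lit 114) (nat_lit 5) (nat_lit 108) (nat_lit 5) (nat_lit 233) (nat_lit 194) (nat_lit 173)) (XT.nd (nat_lit 94) (nat_lit 504) (nat_lit 0) (XT.lf (nat_lit 0) (nat_lit 4003055231) (nat_lit 420) (nat_lit 3393058537)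 (nat_lit 504) (nat_lit 945284244) (nat_lit 102) (nat_lit 5) (nat_lit 107) (nat_lit 5) (nat_lit 108) (nat_lit 5) (nat_lit 234) (nat_lit 194) (nat_lit 172)) (XT.lf (nat_lit 0) (nat_lit 1878726349) (nat_lit 420) (nat_lit 308780334) (nat_lit 504) (nat_lit 6277548720) (nat_lit 96) (nat_lit 5) (nat_lit 101) (nat_lit 5) (nat_lit 102) (nat_lit 5) (nat_lit 235) (nat_lit 194) (nat_lit 171)))) (XT.nd (nat_lit 94) (nat_lit 924) (nat_lit 0) (XT.lf (nat_lit 0) (nat_lit 5411080528) (nat_lit 504) (nat_lit 323354522) (nat_lit 84) (nat_lit 2858108047) (nat_lit 96) (nat_lit 5) (nat_lit 102) (nat_lit 5) (nat_lit 97) (nat_lit 5) (nat_lit 236) (nat_lit 194) (nat_lit 170)) (XT.nd (nat_lit 94) (nat_lit 420) (nat_lit 0) (XT.lf (nat_lit 0) (nat_lit 17106147) (nat_lit 504) (nat_lit 2531649680) (nat_lit 84) (nat_lit 6175915642) (nat_lit 90) (nat_lit 5) (nat_lit 96) (nat_lit 5) (nat_lit 91) (nat_lit 5) (nat_lit 237) (nat_lit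 194) (nat_lit 169)) (XT.lf (nat_lit 0) (nat_lit 3233583785) (nat_lit 504) (nat_lit 4834545373) (nat_lit 84) (nat_lit 792689320) (nat_lit 85) (nat_lit 5) (nat_lit 91) (nat_lit 5) (nat_lit 86) (nat_lit 5) (nat_lit 238) (nat_lit 194) (nat_lit 168))))) (XT.nd (nat_lit 282) (nat_lit 756) (nat_lit 0) (XT.nd (nat_lit 94) (nat_lit 504) (nat_lit 0) (XT.lf (nat_lit 0) (nat_lit 1780180799) (nat_lit 336) (nat_lit 4785846151) (nat_lit 420) (nat_lit 2435585074) (nat_lit 81) (nat_lit 5) (nat_lit 85) (nat_lit 5) (nat_lit 86) (nat_lit 5) (nat_lit 239) (nat_lit 194) (nat_lit 167)) (XT.nd (nat_lit 94) (nat_lit 420) (nat_lit 0) (XT.lf (nat_lit 0) (nat_lit 830306820) (nat_lit 420) (nat_lit 517990352) (nat_lit 84) (nat_lit 7799320389) (nat_lit 80) (nat_lit 5) (nat_lit 85) (nat_lit 5) (nat_lit 81) (nat_lit 5) (nat_lit 240) (nat_lit 194) (nat_lit 166)) (XT.lf (nat_lit 0) (nat_lit 4177578910) (nat_lit 504) (nat_lit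 2886610623) (nat_lit 84) (nat_lit 2232712577) (nat_lit 75) (nat_lit 5) (nat_lit 81) (nat_lit 5) (nat_lit 76) (nat_lit 5) (nat_lit 241) (nat_lit 194) (nat_lit 165)))) (XT.nd (nat_lit 94) (nat_lit 420) (nat_lit 0) (XT.lf (nat_lit 0) (nat_lit 4117725352) (nat_lit 336) (nat_lit 3519984193) (nat_lit 420) (nat_lit 1813852433) (nat_lit 71) (nat_lit 5) (nat_lit 75) (nat_lit 5) (nat_lit 76) (nat_lit 5) (nat_lit 242) (nat_lit 194) (nat_lit 164)) (XT.nd (nat_lit 94) (nat_lit 0) (nat_lit 0) (XT.lf (nat_lit 0) (nat_lit 1555469716) (nat_lit 420) (nat_lit 7869228917) (nat_lit 84) (nat_lit 186848341) (nat_lit 66) (nat_lit 5) (nat_lit 71) (nat_lit 5) (nat_lit 67) (nat_lit 5) (nat_lit 243) (nat_lit 194) (nat_lit 163)) (XT.lf (nat_lit 0) (nat_lit 5033921288) (nat_lit 420) (nat_lit 746696188) (nat_lit 84) (nat_lit 3994599889) (nat_lit 66) (nat_lit 5) (nat_lit 71) (nat_lit 5) (nat_lit 67) (nat_lit 5) (nat_lit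 244) (nat_lit 194) (nat_lit 162))))))) (XT.nd (nat_lit 1128) (nat_lit 1260) (nat_lit 0) (XT.nd (nat_lit 564) (nat_lit 1176) (nat_lit 0) (XT.nd (nat_lit 282) (nat_lit 672) (nat_lit 0) (XT.nd (nat_lit 94) (nat_lit 672) (nat_lit 0) (XT.lf (nat_lit 0) (nat_lit 6676265715) (nat_lit 336) (nat_lit 1964138655) (nat_lit 420) (nat_lit 1303991849) (nat_lit 62) (nat_lit 5) (nat_lit 66) (nat_lit 5) (nat_lit 67) (nat_lit 5) (nat_lit 245) (nat_lit 194) (nat_lit 161)) (XT.nd (nat_lit 94) (nat_lit 252) (nat_lit 0) (XT.lf (nat_lit 0) (nat_lit 2213557967) (nat_lit 420) (nat_lit 5913964270) (nat_lit 84) (nat_lit 1990708873) (nat_lit 57) (nat_lit 5) (nat_lit 62) (nat_lit 5) (nat_lit 58) (nat_lit 5) (nat_lit 246) (nat_lit 194) (nat_lit 160)) (XT.lf (nat_lit 0) (nat_lit 1616924437) (nat_lit 252) (nat_lit 4219506734) (nat_lit 336) (nat_lit 4460744341) (nat_lit 54) (nat_lit 5) (nat_lit 57) (nat_lit 5) (nat_lit 58)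 (nat_lit 5) (nat_lit 247) (nat_lit 194) (nat_lit 159)))) (XT.nd (nat_lit 94) (nat_lit 672) (nat_lit 0) (XT.lf (nat_lit 0) (nat_lit 9453081297) (nat_lit 252) (nat_lit 137086542) (nat_lit 336) (nat_lit 892072928) (nat_lit 54) (nat_lit 5) (nat_lit 57) (nat_lit 5) (nat_lit 58) (nat_lit 5) (nat_lit 248) (nat_lit 194) (nat_lit 158)) (XT.nd (nat_lit 94) (nat_lit 252) (nat_lit 0) (XT.lf (nat_lit 0) (nat_lit 2797238904) (nat_lit 420) (nat_lit 3801737663) (nat_lit 84) (nat_lit 4071640160) (nat_lit 49) (nat_lit 5) (nat_lit 54) (nat_lit 5) (nat_lit 50) (nat_lit 5) (nat_lit 249) (nat_lit 194) (nat_lit 157)) (XT.lf (nat_lit 0) (nat_lit 4186696446) (nat_lit 252) (nat_lit 2405036208) (nat_lit 336) (nat_lit 4273598440) (nat_lit 46) (nat_lit 5) (nat_lit 49) (nat_lit 5) (nat_lit 50) (nat_lit 5) (nat_lit 250) (nat_lit 194) (nat_lit 156))))) (XT.nd (nat_lit 282) (nat_lit 588) (nat_lit 0) (XT.nd (nat_lit 94) (nat_lit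 336) (nat_lit 0) (XT.lf (nat_lit 0) (nat_lit 1390378272) (nat_lit 252) (nat_lit 9148229488) (nat_lit 336) (nat_lit 527567613) (nat_lit 43) (nat_lit 5) (nat_lit 46) (nat_lit 5) (nat_lit 47) (nat_lit 5) (nat_lit 251) (nat_lit 194) (nat_lit 155)) (XT.nd (nat_lit 94) (nat_lit 252) (nat_lit 0) (XT.lf (nat_lit 0) (nat_lit 3318526238) (nat_lit 336) (nat_lit 1535180100) (nat_lit 84) (nat_lit 6417465074) (nat_lit 42) (nat_lit 5) (nat_lit 46) (nat_lit 5) (nat_lit 43) (nat_lit 5) (nat_lit 252) (nat_lit 194) (nat_lit 154)) (XT.lf (nat_lit 0) (nat_lit 6945033202) (nat_lit 252) (nat_lit 358768479) (nat_lit 336) (nat_lit 4178734469) (nat_lit 39) (nat_lit 5) (nat_lit 42) (nat_lit 5) (nat_lit 43) (nat_lit 5) (nat_lit 253) (nat_lit 194) (nat_lit 153)))) (XT.nd (nat_lit 94) (nat_lit 336) (nat_lit 0) (XT.lf (nat_lit 0) (nat_lit 4003695489) (nat_lit 252) (nat_lit 7475780353) (nat_lit 336) (nat_lit 220040820) (nat_lit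 36) (nat_lit 5) (nat_lit 39) (nat_lit 5) (nat_lit 40) (nat_lit 5) (nat_lit 254) (nat_lit 194) (nat_lit 152)) (XT.nd (nat_lit 94) (nat_lit 0) (nat_lit 0) (XT.lf (nat_lit 0) (nat_lit 905589145) (nat_lit 252) (nat_lit 2892506426) (nat_lit 336) (nat_lit 8124175859) (nat_lit 32) (nat_lit 5) (nat_lit 35) (nat_lit 5) (nat_lit 36) (nat_lit 5) (nat_lit 255) (nat_lit 194) (nat_lit 151)) (XT.lf (nat_lit 0) (nat_lit 8005118663) (nat_lit 336) (nat_lit 2279094339) (nat_lit 84) (nat_lit 1866651246) (nat_lit 32) (nat_lit 5) (nat_lit 36) (nat_lit 5) (nat_lit 33) (nat_lit 5) (nat_lit 256) (nat_lit 194) (nat_lit 150)))))) (XT.nd (nat_lit 33276) (nat_lit 0) (nat_lit 17808) (XT.nd (nat_lit 282) (nat_lit 504) (nat_lit 0) (XT.nd (nat_lit 94) (nat_lit 420) (nat_lit 0) (XT.lf (nat_lit 0) (nat_lit 25110521) (nat_lit 336) (nat_lit 5595777665) (nat_lit 84) (nat_lit 6764741525) (nat_lit 28) (nat_lit 5) (nat_lit 32) (nat_lit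 5) (nat_lit 29) (nat_lit 5) (nat_lit 257) (nat_lit 194) (nat_lit 149)) (XT.nd (nat_lit 94) (nat_lit 252) (nat_lit 0) (XT.lf (nat_lit 0) (nat_lit 3540420416) (nat_lit 168) (nat_lit 714054684) (nat_lit 252) (nat_lit 8372119827) (nat_lit 26) (nat_lit 5) (nat_lit 28) (nat_lit 5) (nat_lit 29) (nat_lit 5) (nat_lit 258) (nat_lit 194) (nat_lit 148)) (XT.lf (nat_lit 0) (nat_lit 114826059) (nat_lit 252) (nat_lit 8577362755) (nat_lit 336) (nat_lit 4181693866) (nat_lit 23) (nat_lit 5) (nat_lit 26) (nat_lit 5) (nat_lit 27) (nat_lit 5) (nat_lit 259) (nat_lit 194) (nat_lit 147)))) (XT.nd (nat_lit 94) (nat_lit 420) (nat_lit 0) (XT.lf (nat_lit 0) (nat_lit 212395151) (nat_lit 336) (nat_lit 3376904424) (nat_lit 84) (nat_lit 9538347069) (nat_lit 22) (nat_lit 5) (nat_lit 26) (nat_lit 5) (nat_lit 23) (nat_lit 5) (nat_lit 260) (nat_lit 194) (nat_lit 146)) (XT.nd (nat_lit 94) (nat_lit 252) (nat_lit 0) (XT.lf (nat_lit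 0) (nat_lit 4696957143) (nat_lit 252) (nat_lit 7069865705) (nat_lit 84) (nat_lit 1620563130) (nat_lit 20) (nat_lit 5) (nat_lit 23) (nat_lit 5) (nat_lit 21) (nat_lit 5) (nat_lit 261) (nat_lit 194) (nat_lit 145)) (XT.lf (nat_lit 0) (nat_lit 2704148668) (nat_lit 252) (nat_lit 6692288482) (nat_lit 336) (nat_lit 4257750495) (nat_lit 17) (nat_lit 5) (nat_lit 20) (nat_lit 5) (nat_lit 21) (nat_lit 5) (nat_lit 262) (nat_lit 194) (nat_lit 144))))) (XT.nd (nat_lit 282) (nat_lit 1428) (nat_lit 0) (XT.nd (nat_lit 94) (nat_lit 588) (nat_lit 0) (XT.lf (nat_lit 0) (nat_lit 2103704487) (nat_lit 420) (nat_lit 594330374) (nat_lit 420) (nat_lit 594330374) (nat_lit 253) (nat_lit 4) (nat_lit 258) (nat_lit 5) (nat_lit 258) (nat_lit 4) (nat_lit 210) (nat_lit 195) (nat_lit 195)) (XT.nd (nat_lit 94) (nat_lit 0) (nat_lit 0) (XT.lf (nat_lit 0) (nat_lit 1778049315) (nat_lit 504) (nat_lit 297766490) (nat_lit 588) (nat_lit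 4539505301) (nat_lit 246) (nat_lit 5) (nat_lit 252) (nat_lit 5) (nat_lit 253) (nat_lit 4) (nat_lit 211) (nat_lit 195) (nat_lit 194)) (XT.lf (nat_lit 0) (nat_lit 5332798699) (nat_lit 588) (nat_lit 631290402) (nat_lit 0) (nat_lit 685698462) (nat_lit 246) (nat_lit 5) (nat_lit 253) (nat_lit 4) (nat_lit 246) (nat_lit 4) (nat_lit 212) (nat_lit 195) (nat_lit 193)))) (XT.nd (nat_lit 94) (nat_lit 756) (nat_lit 0) (XT.lf (nat_lit 0) (nat_lit 1891533100) (nat_lit 672) (nat_lit 3004194957) (nat_lit 84) (nat_lit 1791780850) (nat_lit 238) (nat_lit 5) (nat_lit 246) (nat_lit 5) (nat_lit 239) (nat_lit 4) (nat_lit 213) (nat_lit 195) (nat_lit 192)) (XT.nd (nat_lit 94) (nat_lit 84) (nat_lit 0) (XT.lf (nat_lit 0) (nat_lit 1354633632) (nat_lit 672) (nat_lit 3726374557) (nat_lit 756) (nat_lit 1648526078) (nat_lit 230) (nat_lit 5) (nat_lit 238) (nat_lit 5) (nat_lit 239) (nat_lit 4) (nat_lit 214) (nat_lit 195) (nat_lit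 191)) (XT.lf (nat_lit 0) (nat_lit 1487081975) (nat_lit 756) (nat_lit 952266620) (nat_lit 84) (nat_lit 4336047533) (nat_lit 229) (nat_lit 5) (nat_lit 238) (nat_lit 5) (nat_lit 230) (nat_lit 5) (nat_lit 215) (nat_lit 195) (nat_lit 190))))))))
noncomputable def xc15 : XT := (XT.nd (nat_lit 2162) (nat_lit 5460) (nat_lit 0) (XT.nd (nat_lit 1034) (nat_lit 4704) (nat_lit 0) (XT.nd (nat_lit 470) (nat_lit 3696) (nat_lit 0) (XT.nd (nat_lit 188) (nat_lit 2016) (nat_lit 0) (XT.nd (nat_lit 94) (nat_lit 924) (nat_lit 0) (XT.lf (nat_lit 0) (nat_lit 3590657555) (nat_lit 756) (nat_lit 1025828551) (nat_lit 840) (nat_lit 2208415861) (nat_lit 220) (nat_lit 5) (nat_lit 229) (nat_lit 5) (nat_lit 230) (nat_lit 5) (nat_lit 216) (nat_lit 195) (nat_lit 189)) (XT.lf (nat_lit 0) (nat_lit 873408600) (nat_lit 924) (nat_lit 5523336866) (nat_lit 84) (nat_lit 481941453) (nat_lit 209) (nat_lit 5) (nat_lit 220) (nat_lit 5)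 (nat_lit 210) (nat_lit 5) (nat_lit 217) (nat_lit 195) (nat_lit 188))) (XT.nd (nat_lit 94) (nat_lit 2016) (nat_lit 0) (XT.lf (nat_lit 0) (nat_lit 3949012174) (nat_lit 924) (nat_lit 889000352) (nat_lit 84) (nat_lit 2097629476) (nat_lit 209) (nat_lit 5) (nat_lit 220) (nat_lit 5) (nat_lit 210) (nat_lit 5) (nat_lit 218) (nat_lit 195) (nat_lit 187)) (XT.nd (nat_lit 94) (nat_lit 1008) (nat_lit 0) (XT.lf (nat_lit 0) (nat_lit 68345361) (nat_lit 1008) (nat_lit 3099795325) (nat_lit 84) (nat_lit 3828713292) (nat_lit 197) (nat_lit 5) (nat_lit 209) (nat_lit 5) (nat_lit 198) (nat_lit 5) (nat_lit 219) (nat_lit 195) (nat_lit 186)) (XT.lf (nat_lit 0) (nat_lit 1717075407) (nat_lit 1008) (nat_lit 1365318240) (nat_lit 1092) (nat_lit 3979330890) (nat_lit 185) (nat_lit 5) (nat_lit 197) (nat_lit 5) (nat_lit 198) (nat_lit 5) (nat_lit 220) (nat_lit 195) (nat_lit 185))))) (XT.nd (nat_lit 282) (nat_lit 1344) (nat_lit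 0) (XT.nd (nat_lit 94) (nat_lit 2352) (nat_lit 0) (XT.lf (nat_lit 0) (nat_lit 6139620268) (nat_lit 1092) (nat_lit 458659835) (nat_lit 84) (nat_lit 532766431) (nat_lit 185) (nat_lit 5) (nat_lit 198) (nat_lit 5) (nat_lit 186) (nat_lit 5) (nat_lit 221) (nat_lit 195) (nat_lit 184)) (XT.nd (nat_lit 94) (nat_lit 1176) (nat_lit 0) (XT.lf (nat_lit 0) (nat_lit 2018540528) (nat_lit 1176) (nat_lit 2638983851) (nat_lit 84) (nat_lit 2545671673) (nat_lit 171) (nat_lit 5) (nat_lit 185) (nat_lit 5) (nat_lit 172) (nat_lit 5) (nat_lit 222) (nat_lit 195) (nat_lit 183)) (XT.lf (nat_lit 0) (nat_lit 2440258987) (nat_lit 1176) (nat_lit 2602851465) (nat_lit 1260) (nat_lit 2236721953) (nat_lit 157) (nat_lit 5) (nat_lit 171) (nat_lit 5) (nat_lit 172) (nat_lit 5) (nat_lit 223) (nat_lit 195) (nat_lit 182)))) (XT.nd (nat_lit 94) (nat_lit 588) (nat_lit 0) (XT.lf (nat_lit 0) (nat_lit 298976166) (nat_lit 672) (nat_lit 432792467)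 (nat_lit 756) (nat_lit 6629310230) (nat_lit 148) (nat_lit 5) (nat_lit 156) (nat_lit 5) (nat_lit 157) (nat_lit 5) (nat_lit 224) (nat_lit 195) (nat_lit 181)) (XT.nd (nat_lit 94) (nat_lit 588) (nat_lit 0) (XT.lf (nat_lit 0) (nat_lit 3732849208) (nat_lit 756) (nat_lit 1859395043) (nat_lit 84) (nat_lit 1852680464) (nat_lit 148) (nat_lit 5) (nat_lit 157) (nat_lit 5) (nat_lit 149) (nat_lit 5) (nat_lit 225) (nat_lit 195) (nat_lit 180)) (XT.lf (nat_lit 0) (nat_lit 3500113803) (nat_lit 588) (nat_lit 3289333307) (nat_lit 672) (nat_lit 743991279) (nat_lit 141) (nat_lit 5) (nat_lit 148) (nat_lit 5) (nat_lit 149) (nat_lit 5) (nat_lit 226) (nat_lit 195) (nat_lit 179)))))) (XT.nd (nat_lit 564) (nat_lit 2352) (nat_lit 0) (XT.nd (nat_lit 282) (nat_lit 1092) (nat_lit 0) (XT.nd (nat_lit 94) (nat_lit 588) (nat_lit 0) (XT.lf (nat_lit 0) (nat_lit 1371809971) (nat_lit 588) (nat_lit 848358436) (nat_lit 672) (nat_lit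 5405899561) (nat_lit 133) (nat_lit 5) (nat_lit 140) (nat_lit 5) (nat_lit 141) (nat_lit 5) (nat_lit 227) (nat_lit 195) (nat_lit 178)) (XT.nd (nat_lit 94) (nat_lit 588) (nat_lit 0) (XT.lf (nat_lit 0) (nat_lit 5246869427) (nat_lit 672) (nat_lit 787719005) (nat_lit 84) (nat_lit 1687881911) (nat_lit 133) (nat_lit 5) (nat_lit 141) (nat_lit 5) (nat_lit 134) (nat_lit 5) (nat_lit 228) (nat_lit 195) (nat_lit 177)) (XT.lf (nat_lit 0) (nat_lit 520897865) (nat_lit 588) (nat_lit 2957302315) (nat_lit 84) (nat_lit 4344659677) (nat_lit 126) (nat_lit 5) (nat_lit 133) (nat_lit 5) (nat_lit 127) (nat_lit 5) (nat_lit 229) (nat_lit 195) (nat_lit 176)))) (XT.nd (nat_lit 94) (nat_lit 588) (nat_lit 0) (XT.lf (nat_lit 0) (nat_lit 2742704935) (nat_lit 504) (nat_lit 774794662) (nat_lit 588) (nat_lit 4409897902) (nat_lit 120) (nat_lit 5) (nat_lit 126) (nat_lit 5) (nat_lit 127) (nat_lit 5) (nat_lit 230) (nat_lit 195) (nat_lit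 175)) (XT.nd (nat_lit 94) (nat_lit 84) (nat_lit 0) (XT.lf (nat_lit 0) (nat_lit 567088801) (nat_lit 504) (nat_lit 6031085556) (nat_lit 588) (nat_lit 1438147882) (nat_lit 114) (nat_lit 5) (nat_lit 120) (nat_lit 5) (nat_lit 121) (nat_lit 5) (nat_lit 231) (nat_lit 195) (nat_lit 174)) (XT.lf (nat_lit 0) (nat_lit 1587126228) (nat_lit 588) (nat_lit 1632595320) (nat_lit 84) (nat_lit 4929166612) (nat_lit 113) (nat_lit 5) (nat_lit 120) (nat_lit 5) (nat_lit 114) (nat_lit 5) (nat_lit 232) (nat_lit 195) (nat_lit 173))))) (XT.nd (nat_lit 282) (nat_lit 1344) (nat_lit 0) (XT.nd (nat_lit 94) (nat_lit 504) (nat_lit 0) (XT.lf (nat_lit 0) (nat_lit 4392329031) (nat_lit 504) (nat_lit 259818384) (nat_lit 588) (nat_lit 3613799552) (nat_lit 107) (nat_lit 5) (nat_lit 113) (nat_lit 5) (nat_lit 114) (nat_lit 5) (nat_lit 233) (nat_lit 195) (nat_lit 172)) (XT.nd (nat_lit 94) (nat_lit 84) (nat_lit 0) (XT.lf (nat_lit 0)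 (nat_lit 2198834499) (nat_lit 420) (nat_lit 5620964427) (nat_lit 504) (nat_lit 567466498) (nat_lit 102) (nat_lit 5) (nat_lit 107) (nat_lit 5) (nat_lit 108) (nat_lit 5) (nat_lit 234) (nat_lit 195) (nat_lit 171)) (XT.lf (nat_lit 0) (nat_lit 2496916137) (nat_lit 504) (nat_lit 67876648) (nat_lit 84) (nat_lit 5948077145) (nat_lit 101) (nat_lit 5) (nat_lit 107) (nat_lit 5) (nat_lit 102) (nat_lit 5) (nat_lit 235) (nat_lit 195) (nat_lit 170)))) (XT.nd (nat_lit 94) (nat_lit 924) (nat_lit 0) (XT.lf (nat_lit 0) (nat_lit 5656307557) (nat_lit 504) (nat_lit 2344580199) (nat_lit 84) (nat_lit 641716251) (nat_lit 96) (nat_lit 5) (nat_lit 102) (nat_lit 5) (nat_lit 97) (nat_lit 5) (nat_lit 236) (nat_lit 195) (nat_lit 169)) (XT.nd (nat_lit 94) (nat_lit 420) (nat_lit 0) (XT.lf (nat_lit 0) (nat_lit 146581708) (nat_lit 504) (nat_lit 4703203323) (nat_lit 84) (nat_lit 3927015526) (nat_lit 90) (nat_lit 5) (nat_lit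 96) (nat_lit 5) (nat_lit 91) (nat_lit 5) (nat_lit 237) (nat_lit 195) (nat_lit 168)) (XT.lf (nat_lit 0) (nat_lit 1763611116) (nat_lit 420) (nat_lit 1528423183) (nat_lit 504) (nat_lit 5623399143) (nat_lit 85) (nat_lit 5) (nat_lit 90) (nat_lit 5) (nat_lit 91) (nat_lit 5) (nat_lit 238) (nat_lit 195) (nat_lit 167))))))) (XT.nd (nat_lit 1128) (nat_lit 2184) (nat_lit 0) (XT.nd (nat_lit 564) (nat_lit 1680) (nat_lit 0) (XT.nd (nat_lit 282) (nat_lit 756) (nat_lit 0) (XT.nd (nat_lit 94) (nat_lit 840) (nat_lit 0) (XT.lf (nat_lit 0) (nat_lit 6551502429) (nat_lit 504) (nat_lit 609938724) (nat_lit 84) (nat_lit 1897339960) (nat_lit 85) (nat_lit 5) (nat_lit 91) (nat_lit 5) (nat_lit 86) (nat_lit 5) (nat_lit 239) (nat_lit 195) (nat_lit 166)) (XT.nd (nat_lit 94) (nat_lit 420) (nat_lit 0) (XT.lf (nat_lit 0) (nat_lit 717361989) (nat_lit 420) (nat_lit 3028569433) (nat_lit 84) (nat_lit 5460383875) (nat_lit 80) (nat_lit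 5) (nat_lit 85) (nat_lit 5) (nat_lit 81) (nat_lit 5) (nat_lit 240) (nat_lit 195) (nat_lit 165)) (XT.lf (nat_lit 0) (nat_lit 3818603583) (nat_lit 420) (nat_lit 156774749) (nat_lit 504) (nat_lit 5383345467) (nat_lit 75) (nat_lit 5) (nat_lit 80) (nat_lit 5) (nat_lit 81) (nat_lit 5) (nat_lit 241) (nat_lit 195) (nat_lit 164)))) (XT.nd (nat_lit 94) (nat_lit 420) (nat_lit 0) (XT.lf (nat_lit 0) (nat_lit 1354731252) (nat_lit 336) (nat_lit 6014104688) (nat_lit 420) (nat_lit 2146881282) (nat_lit 71) (nat_lit 5) (nat_lit 75) (nat_lit 5) (nat_lit 76) (nat_lit 5) (nat_lit 242) (nat_lit 195) (nat_lit 163)) (XT.nd (nat_lit 94) (nat_lit 336) (nat_lit 0) (XT.lf (nat_lit 0) (nat_lit 1174516402) (nat_lit 420) (nat_lit 1167286895) (nat_lit 84) (nat_lit 7335970441) (nat_lit 70) (nat_lit 5) (nat_lit 75) (nat_lit 5) (nat_lit 71) (nat_lit 5) (nat_lit 243) (nat_lit 195) (nat_lit 162)) (XT.lf (nat_lit 0) (nat_lit 4579948474)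 (nat_lit 420) (nat_lit 3773086398) (nat_lit 84) (nat_lit 1490964940) (nat_lit 66) (nat_lit 5) (nat_lit 71) (nat_lit 5) (nat_lit 67) (nat_lit 5) (nat_lit 244) (nat_lit 195) (nat_lit 161))))) (XT.nd (nat_lit 282) (nat_lit 924) (nat_lit 0) (XT.nd (nat_lit 94) (nat_lit 420) (nat_lit 0) (XT.lf (nat_lit 0) (nat_lit 3530966361) (nat_lit 336) (nat_lit 4588086002) (nat_lit 420) (nat_lit 1896484575) (nat_lit 62) (nat_lit 5) (nat_lit 66) (nat_lit 5) (nat_lit 67) (nat_lit 5) (nat_lit 245) (nat_lit 195) (nat_lit 160)) (XT.nd (nat_lit 94) (nat_lit 0) (nat_lit 0) (XT.lf (nat_lit 0) (nat_lit 894545346) (nat_lit 336) (nat_lit 647988795) (nat_lit 420) (nat_lit 8650287536) (nat_lit 57) (nat_lit 5) (nat_lit 61) (nat_lit 5) (nat_lit 62) (nat_lit 5) (nat_lit 246) (nat_lit 195) (nat_lit 159)) (XT.lf (nat_lit 0) (nat_lit 5108425811) (nat_lit 420) (nat_lit 1845010249) (nat_lit 84) (nat_lit 3420324373) (nat_lit 57)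 (nat_lit 5) (nat_lit 62) (nat_lit 5) (nat_lit 58) (nat_lit 5) (nat_lit 247) (nat_lit 195) (nat_lit 158)))) (XT.nd (nat_lit 94) (nat_lit 672) (nat_lit 0) (XT.lf (nat_lit 0) (nat_lit 5900711030) (nat_lit 252) (nat_lit 2909214409) (nat_lit 336) (nat_lit 1750728545) (nat_lit 54) (nat_lit 5) (nat_lit 57) (nat_lit 5) (nat_lit 58) (nat_lit 5) (nat_lit 248) (nat_lit 195) (nat_lit 157)) (XT.nd (nat_lit 94) (nat_lit 252) (nat_lit 0) (XT.lf (nat_lit 0) (nat_lit 1854079614) (nat_lit 420) (nat_lit 7604397006) (nat_lit 84) (nat_lit 1294527235) (nat_lit 49) (nat_lit 5) (nat_lit 54) (nat_lit 5) (nat_lit 50) (nat_lit 5) (nat_lit 249) (nat_lit 195) (nat_lit 156)) (XT.lf (nat_lit 0) (nat_lit 247658895) (nat_lit 252) (nat_lit 5326865748) (nat_lit 336) (nat_lit 5375785285) (nat_lit 46) (nat_lit 5) (nat_lit 49) (nat_lit 5) (nat_lit 50) (nat_lit 5) (nat_lit 250) (nat_lit 195) (nat_lit 155)))))) (XT.nd (nat_lit 564)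 (nat_lit 1008) (nat_lit 0) (XT.nd (nat_lit 282) (nat_lit 588) (nat_lit 0) (XT.nd (nat_lit 94) (nat_lit 588) (nat_lit 0) (XT.lf (nat_lit 0) (nat_lit 8462453995) (nat_lit 252) (nat_lit 992106834) (nat_lit 336) (nat_lit 1698932741) (nat_lit 46) (nat_lit 5) (nat_lit 49) (nat_lit 5) (nat_lit 50) (nat_lit 5) (nat_lit 251) (nat_lit 195) (nat_lit 154)) (XT.nd (nat_lit 94) (nat_lit 252) (nat_lit 0) (XT.lf (nat_lit 0) (nat_lit 2101936353) (nat_lit 336) (nat_lit 5790489150) (nat_lit 84) (nat_lit 3469033370) (nat_lit 42) (nat_lit 5) (nat_lit 46) (nat_lit 5) (nat_lit 43) (nat_lit 5) (nat_lit 252) (nat_lit 195) (nat_lit 153)) (XT.lf (nat_lit 0) (nat_lit 2544015664) (nat_lit 252) (nat_lit 3465466576) (nat_lit 336) (nat_lit 5566061905) (nat_lit 39) (nat_lit 5) (nat_lit 42) (nat_lit 5) (nat_lit 43) (nat_lit 5) (nat_lit 253) (nat_lit 195) (nat_lit 152)))) (XT.nd (nat_lit 94) (nat_lit 588) (nat_lit 0) (XT.lf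 (nat_lit 0) (nat_lit 10077511784) (nat_lit 336) (nat_lit 592687458) (nat_lit 84) (nat_lit 1126092977) (nat_lit 39) (nat_lit 5) (nat_lit 43) (nat_lit 5) (nat_lit 40) (nat_lit 5) (nat_lit 254) (nat_lit 195) (nat_lit 151)) (XT.nd (nat_lit 94) (nat_lit 252) (nat_lit 0) (XT.lf (nat_lit 0) (nat_lit 2288123805) (nat_lit 336) (nat_lit 3851634402) (nat_lit 84) (nat_lit 5881455776) (nat_lit 35) (nat_lit 5) (nat_lit 39) (nat_lit 5) (nat_lit 36) (nat_lit 5) (nat_lit 255) (nat_lit 195) (nat_lit 150)) (XT.lf (nat_lit 0) (nat_lit 5001419627) (nat_lit 252) (nat_lit 1400691681) (nat_lit 336) (nat_lit 5850951738) (nat_lit 32) (nat_lit 5) (nat_lit 35) (nat_lit 5) (nat_lit 36) (nat_lit 5) (nat_lit 256) (nat_lit 195) (nat_lit 149))))) (XT.nd (nat_lit 282) (nat_lit 504) (nat_lit 0) (XT.nd (nat_lit 94) (nat_lit 252) (nat_lit 0) (XT.lf (nat_lit 0) (nat_lit 1672166251) (nat_lit 252) (nat_lit 9036432098) (nat_lit 336)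 (nat_lit 1782730629) (nat_lit 29) (nat_lit 5) (nat_lit 32) (nat_lit 5) (nat_lit 33) (nat_lit 5) (nat_lit 257) (nat_lit 195) (nat_lit 148)) (XT.nd (nat_lit 94) (nat_lit 168) (nat_lit 0) (XT.lf (nat_lit 0) (nat_lit 2420626140) (nat_lit 336) (nat_lit 1788483893) (nat_lit 84) (nat_lit 8526204430) (nat_lit 28) (nat_lit 5) (nat_lit 32) (nat_lit 5) (nat_lit 29) (nat_lit 5) (nat_lit 258) (nat_lit 195) (nat_lit 147)) (XT.lf (nat_lit 0) (nat_lit 6770725696) (nat_lit 252) (nat_lit 5373751845) (nat_lit 84) (nat_lit 841191170) (nat_lit 26) (nat_lit 5) (nat_lit 29) (nat_lit 5) (nat_lit 27) (nat_lit 5) (nat_lit 259) (nat_lit 195) (nat_lit 146)))) (XT.nd (nat_lit 94) (nat_lit 252) (nat_lit 0) (XT.lf (nat_lit 0) (nat_lit 4095193429) (nat_lit 252) (nat_lit 7240772025) (nat_lit 336) (nat_lit 1906618868) (nat_lit 23) (nat_lit 5) (nat_lit 26) (nat_lit 5) (nat_lit 27) (nat_lit 5) (nat_lit 260) (nat_lit 195) (nat_lit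 145)) (XT.nd (nat_lit 94) (nat_lit 0) (nat_lit 0) (XT.lf (nat_lit 0) (nat_lit 409110371) (nat_lit 168) (nat_lit 2101779410) (nat_lit 252) (nat_lit 10996037368) (nat_lit 20) (nat_lit 5) (nat_lit 22) (nat_lit 5) (nat_lit 23) (nat_lit 5) (nat_lit 261) (nat_lit 195) (nat_lit 144)) (XT.lf (nat_lit 0) (nat_lit 7131244938) (nat_lit 252) (nat_lit 3405772700) (nat_lit 84) (nat_lit 3239480548) (nat_lit 20) (nat_lit 5) (nat_lit 23) (nat_lit 5) (nat_lit 21) (nat_lit 5) (nat_lit 262) (nat_lit 195) (nat_lit 143))))))))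
noncomputable def xc16 : XT := (XT.nd (nat_lit 34592) (nat_lit 0) (nat_lit 2100) (XT.nd (nat_lit 33464) (nat_lit 0) (nat_lit 9156) (XT.nd (nat_lit 32900) (nat_lit 0) (nat_lit 16128) (XT.nd (nat_lit 32618) (nat_lit 0) (nat_lit 19236) (XT.nd (nat_lit 32524) (nat_lit 0) (nat_lit 20244) (XT.lf (nat_lit 0) (nat_lit 6665738091) (nat_lit 252) (nat_lit 5295795017) (nat_lit 336) (nat_lit 2092283382) (nat_lit 17) (nat_lit 5) (nat_lit 20) (nat_lit 5) (nat_lit 21) (nat_lit 5) (nat_lit 263) (nat_lit 195) (nat_lit 142)) (XT.lf (nat_lit 0) (nat_lit 670967538) (nat_lit 420) (nat_lit 1924669842) (nat_lit 0) (nat_lit 670967538) (nat_lit 258) (nat_lit 5) (nat_lit 263) (nat_lit 4) (nat_lit 258) (nat_lit 4) (nat_lit 208) (nat_lit 196) (nat_lit 196))) (XT.nd (nat_lit 94) (nat_lit 588) (nat_lit 0) (XT.lf (nat_lit 0) (nat_lit 87658406) (nat_lit 420) (nat_lit 4501176913) (nat_lit 420) (nat_lit 1969322809) (nat_lit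 253) (nat_lit 4) (nat_lit 258) (nat_lit 5) (nat_lit 258) (nat_lit 4) (nat_lit 209) (nat_lit 196) (nat_lit 195)) (XT.nd (nat_lit 94) (nat_lit 504) (nat_lit 0) (XT.lf (nat_lit 0) (nat_lit 1247379544) (nat_lit 504) (nat_lit 2439672578) (nat_lit 84) (nat_lit 2899442064) (nat_lit 252) (nat_lit 5) (nat_lit 258) (nat_lit 5) (nat_lit 253) (nat_lit 4) (nat_lit 210) (nat_lit 196) (nat_lit 194)) (XT.lf (nat_lit 0) (nat_lit 1653855365) (nat_lit 504) (nat_lit 2766517221) (nat_lit 588) (nat_lit 2198507287) (nat_lit 246) (nat_lit 5) (nat_lit 252) (nat_lit 5) (nat_lit 253) (nat_lit 4) (nat_lit 211) (nat_lit 196) (nat_lit 193))))) (XT.nd (nat_lit 282) (nat_lit 1680) (nat_lit 0) (XT.nd (nat_lit 94) (nat_lit 1344) (nat_lit 0) (XT.lf (nat_lit 0) (nat_lit 930656931) (nat_lit 588) (nat_lit 809249560) (nat_lit 84) (nat_lit 4915495175) (nat_lit 245) (nat_lit 5) (nat_lit 252) (nat_lit 5) (nat_lit 246) (nat_lit 5)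 (nat_lit 212) (nat_lit 196) (nat_lit 192)) (XT.nd (nat_lit 94) (nat_lit 756) (nat_lit 0) (XT.lf (nat_lit 0) (nat_lit 3453091086) (nat_lit 588) (nat_lit 580783652) (nat_lit 672) (nat_lit 2661375163) (nat_lit 238) (nat_lit 5) (nat_lit 245) (nat_lit 5) (nat_lit 246) (nat_lit 5) (nat_lit 213) (nat_lit 196) (nat_lit 191)) (XT.lf (nat_lit 0) (nat_lit 406194078) (nat_lit 756) (nat_lit 5674421371) (nat_lit 84) (nat_lit 658880324) (nat_lit 229) (nat_lit 5) (nat_lit 238) (nat_lit 5) (nat_lit 230) (nat_lit 5) (nat_lit 214) (nat_lit 196) (nat_lit 190)))) (XT.nd (nat_lit 94) (nat_lit 1680) (nat_lit 0) (XT.lf (nat_lit 0) (nat_lit 3446796243) (nat_lit 756) (nat_lit 1317775420) (nat_lit 84) (nat_lit 2022160022) (nat_lit 229) (nat_lit 5) (nat_lit 238) (nat_lit 5) (nat_lit 230) (nat_lit 5) (nat_lit 215) (nat_lit 196) (nat_lit 189)) (XT.nd (nat_lit 94) (nat_lit 924) (nat_lit 0) (XT.lf (nat_lit 0) (nat_lit 3169591789)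 (nat_lit 756) (nat_lit 3346238983) (nat_lit 840) (nat_lit 322519688) (nat_lit 220) (nat_lit 5) (nat_lit 229) (nat_lit 5) (nat_lit 230) (nat_lit 5) (nat_lit 216) (nat_lit 196) (nat_lit 188)) (XT.lf (nat_lit 0) (nat_lit 847096977) (nat_lit 840) (nat_lit 1803297414) (nat_lit 924) (nat_lit 4243320785) (nat_lit 209) (nat_lit 5) (nat_lit 219) (nat_lit 5) (nat_lit 220) (nat_lit 5) (nat_lit 217) (nat_lit 196) (nat_lit 187)))))) (XT.nd (nat_lit 564) (nat_lit 2604) (nat_lit 0) (XT.nd (nat_lit 282) (nat_lit 2352) (nat_lit 0) (XT.nd (nat_lit 94) (nat_lit 2016) (nat_lit 0) (XT.lf (nat_lit 0) (nat_lit 5511226836) (nat_lit 840) (nat_lit 142765436) (nat_lit 924) (nat_lit 1299198186) (nat_lit 209) (nat_lit 5) (nat_lit 219) (nat_lit 5) (nat_lit 220) (nat_lit 5) (nat_lit 218) (nat_lit 196) (nat_lit 186)) (XT.nd (nat_lit 94) (nat_lit 1008) (nat_lit 0) (XT.lf (nat_lit 0) (nat_lit 1656720651) (nat_lit 1008) (nat_lit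 3749354949) (nat_lit 84) (nat_lit 1609796605) (nat_lit 197) (nat_lit 5) (nat_lit 209) (nat_lit 5) (nat_lit 198) (nat_lit 5) (nat_lit 219) (nat_lit 196) (nat_lit 185)) (XT.lf (nat_lit 0) (nat_lit 1004142704) (nat_lit 1008) (nat_lit 3607641559) (nat_lit 1092) (nat_lit 2471022964) (nat_lit 185) (nat_lit 5) (nat_lit 197) (nat_lit 5) (nat_lit 198) (nat_lit 5) (nat_lit 220) (nat_lit 196) (nat_lit 184)))) (XT.nd (nat_lit 94) (nat_lit 2268) (nat_lit 0) (XT.lf (nat_lit 0) (nat_lit 448608065) (nat_lit 1092) (nat_lit 1240129641) (nat_lit 84) (nat_lit 5465169326) (nat_lit 184) (nat_lit 5) (nat_lit 197) (nat_lit 5) (nat_lit 185) (nat_lit 5) (nat_lit 221) (nat_lit 196) (nat_lit 183)) (XT.nd (nat_lit 94) (nat_lit 1176) (nat_lit 0) (XT.lf (nat_lit 0) (nat_lit 3359056383) (nat_lit 1176) (nat_lit 3502922531) (nat_lit 84) (nat_lit 366387355) (nat_lit 171) (nat_lit 5) (nat_lit 185) (nat_lit 5) (nat_lit 172) (nat_lit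 5) (nat_lit 222) (nat_lit 196) (nat_lit 182)) (XT.lf (nat_lit 0) (nat_lit 1507797230) (nat_lit 1176) (nat_lit 4817893141) (nat_lit 1260) (nat_lit 981340010) (nat_lit 157) (nat_lit 5) (nat_lit 171) (nat_lit 5) (nat_lit 172) (nat_lit 5) (nat_lit 223) (nat_lit 196) (nat_lit 181))))) (XT.nd (nat_lit 282) (nat_lit 1176) (nat_lit 0) (XT.nd (nat_lit 94) (nat_lit 1344) (nat_lit 0) (XT.lf (nat_lit 0) (nat_lit 1908358318) (nat_lit 1260) (nat_lit 729380630) (nat_lit 84) (nat_lit 4751809782) (nat_lit 156) (nat_lit 5) (nat_lit 171) (nat_lit 5) (nat_lit 157) (nat_lit 5) (nat_lit 224) (nat_lit 196) (nat_lit 180)) (XT.nd (nat_lit 94) (nat_lit 672) (nat_lit 0) (XT.lf (nat_lit 0) (nat_lit 4514728127) (nat_lit 672) (nat_lit 319338723) (nat_lit 756) (nat_lit 2641965752) (nat_lit 148) (nat_lit 5) (nat_lit 156) (nat_lit 5) (nat_lit 157) (nat_lit 5) (nat_lit 225) (nat_lit 196) (nat_lit 179)) (XT.lf (nat_lit 0) (nat_lit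 257003702) (nat_lit 672) (nat_lit 5241748615) (nat_lit 84) (nat_lit 2067826991) (nat_lit 140) (nat_lit 5) (nat_lit 148) (nat_lit 5) (nat_lit 141) (nat_lit 5) (nat_lit 226) (nat_lit 196) (nat_lit 178)))) (XT.nd (nat_lit 94) (nat_lit 588) (nat_lit 0) (XT.lf (nat_lit 0) (nat_lit 77960441) (nat_lit 588) (nat_lit 3067999543) (nat_lit 672) (nat_lit 4515000454) (nat_lit 133) (nat_lit 5) (nat_lit 140) (nat_lit 5) (nat_lit 141) (nat_lit 5) (nat_lit 227) (nat_lit 196) (nat_lit 177)) (XT.nd (nat_lit 94) (nat_lit 588) (nat_lit 0) (XT.lf (nat_lit 0) (nat_lit 5613564464) (nat_lit 588) (nat_lit 496894539) (nat_lit 672) (nat_lit 1649080880) (nat_lit 133) (nat_lit 5) (nat_lit 140) (nat_lit 5) (nat_lit 141) (nat_lit 5) (nat_lit 228) (nat_lit 196) (nat_lit 176)) (XT.lf (nat_lit 0) (nat_lit 1264902625) (nat_lit 588) (nat_lit 4437318333) (nat_lit 84) (nat_lit 2159618223) (nat_lit 126) (nat_lit 5) (nat_lit 133)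 (nat_lit 5) (nat_lit 127) (nat_lit 5) (nat_lit 229) (nat_lit 196) (nat_lit 175))))))) (XT.nd (nat_lit 1034) (nat_lit 3192) (nat_lit 0) (XT.nd (nat_lit 470) (nat_lit 1848) (nat_lit 0) (XT.nd (nat_lit 188) (nat_lit 1512) (nat_lit 0) (XT.nd (nat_lit 94) (nat_lit 0) (nat_lit 0) (XT.lf (nat_lit 0) (nat_lit 1179770376) (nat_lit 504) (nat_lit 3023184768) (nat_lit 588) (nat_lit 3765470902) (nat_lit 120) (nat_lit 5) (nat_lit 126) (nat_lit 5) (nat_lit 127) (nat_lit 5) (nat_lit 230) (nat_lit 196) (nat_lit 174)) (XT.lf (nat_lit 0) (nat_lit 7004487061) (nat_lit 504) (nat_lit 209768558) (nat_lit 588) (nat_lit 865523269) (nat_lit 120) (nat_lit 5) (nat_lit 126) (nat_lit 5) (nat_lit 127) (nat_lit 5) (nat_lit 231) (nat_lit 196) (nat_lit 173))) (XT.nd (nat_lit 94) (nat_lit 924) (nat_lit 0) (XT.lf (nat_lit 0) (nat_lit 2092065079) (nat_lit 588) (nat_lit 3396361059) (nat_lit 84) (nat_lit 2705609926) (nat_lit 113)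 (nat_lit 5) (nat_lit 120) (nat_lit 5) (nat_lit 114) (nat_lit 5) (nat_lit 232) (nat_lit 196) (nat_lit 172)) (XT.nd (nat_lit 94) (nat_lit 420) (nat_lit 0) (XT.lf (nat_lit 0) (nat_lit 2539547348) (nat_lit 504) (nat_lit 2558282153) (nat_lit 588) (nat_lit 3215339358) (nat_lit 107) (nat_lit 5) (nat_lit 113) (nat_lit 5) (nat_lit 114) (nat_lit 5) (nat_lit 233) (nat_lit 196) (nat_lit 171)) (XT.lf (nat_lit 0) (nat_lit 232150502) (nat_lit 420) (nat_lit 7947886456) (nat_lit 504) (nat_lit 257440901) (nat_lit 102) (nat_lit 5) (nat_lit 107) (nat_lit 5) (nat_lit 108) (nat_lit 5) (nat_lit 234) (nat_lit 196) (nat_lit 170))))) (XT.nd (nat_lit 282) (nat_lit 840) (nat_lit 0) (XT.nd (nat_lit 94) (nat_lit 924) (nat_lit 0) (XT.lf (nat_lit 0) (nat_lit 2762319375) (nat_lit 504) (nat_lit 2136252933) (nat_lit 84) (nat_lit 3665704899) (nat_lit 101) (nat_lit 5) (nat_lit 107) (nat_lit 5) (nat_lit 102) (nat_lit 5) (nat_lit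 235) (nat_lit 196) (nat_lit 169)) (XT.nd (nat_lit 94) (nat_lit 504) (nat_lit 0) (XT.lf (nat_lit 0) (nat_lit 4141754584) (nat_lit 420) (nat_lit 1712208884) (nat_lit 504) (nat_lit 2842418975) (nat_lit 96) (nat_lit 5) (nat_lit 101) (nat_lit 5) (nat_lit 102) (nat_lit 5) (nat_lit 236) (nat_lit 196) (nat_lit 168)) (XT.lf (nat_lit 0) (nat_lit 205959897) (nat_lit 504) (nat_lit 7050365475) (nat_lit 84) (nat_lit 1577040804) (nat_lit 90) (nat_lit 5) (nat_lit 96) (nat_lit 5) (nat_lit 91) (nat_lit 5) (nat_lit 237) (nat_lit 196) (nat_lit 167)))) (XT.nd (nat_lit 94) (nat_lit 840) (nat_lit 0) (XT.lf (nat_lit 0) (nat_lit 3296329475) (nat_lit 504) (nat_lit 670829997) (nat_lit 84) (nat_lit 5006767494) (nat_lit 90) (nat_lit 5) (nat_lit 96) (nat_lit 5) (nat_lit 91) (nat_lit 5) (nat_lit 238) (nat_lit 196) (nat_lit 166)) (XT.nd (nat_lit 94) (nat_lit 420) (nat_lit 0) (XT.lf (nat_lit 0) (nat_lit 5974474578) (nat_lit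 420) (nat_lit 517288916) (nat_lit 504) (nat_lit 2627752337) (nat_lit 85) (nat_lit 5) (nat_lit 90) (nat_lit 5) (nat_lit 91) (nat_lit 5) (nat_lit 239) (nat_lit 196) (nat_lit 165)) (XT.lf (nat_lit 0) (nat_lit 529990307) (nat_lit 420) (nat_lit 5724886205) (nat_lit 84) (nat_lit 3014657525) (nat_lit 80) (nat_lit 5) (nat_lit 85) (nat_lit 5) (nat_lit 81) (nat_lit 5) (nat_lit 240) (nat_lit 196) (nat_lit 164)))))) (XT.nd (nat_lit 564) (nat_lit 1596) (nat_lit 0) (XT.nd (nat_lit 282) (nat_lit 756) (nat_lit 0) (XT.nd (nat_lit 94) (nat_lit 420) (nat_lit 0) (XT.lf (nat_lit 0) (nat_lit 1012187564) (nat_lit 420) (nat_lit 2711089817) (nat_lit 504) (nat_lit 5700930681) (nat_lit 75) (nat_lit 5) (nat_lit 80) (nat_lit 5) (nat_lit 81) (nat_lit 5) (nat_lit 241) (nat_lit 196) (nat_lit 163)) (XT.nd (nat_lit 94) (nat_lit 420) (nat_lit 0) (XT.lf (nat_lit 0) (nat_lit 7040193797) (nat_lit 504) (nat_lit 1566365561) (nat_lit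 84) (nat_lit 977321071) (nat_lit 75) (nat_lit 5) (nat_lit 81) (nat_lit 5) (nat_lit 76) (nat_lit 5) (nat_lit 242) (nat_lit 196) (nat_lit 162)) (XT.lf (nat_lit 0) (nat_lit 735883714) (nat_lit 420) (nat_lit 4236049390) (nat_lit 84) (nat_lit 4775937445) (nat_lit 70) (nat_lit 5) (nat_lit 75) (nat_lit 5) (nat_lit 71) (nat_lit 5) (nat_lit 243) (nat_lit 196) (nat_lit 161)))) (XT.nd (nat_lit 94) (nat_lit 420) (nat_lit 0) (XT.lf (nat_lit 0) (nat_lit 2901920766) (nat_lit 336) (nat_lit 1155238409) (nat_lit 420) (nat_lit 5859882929) (nat_lit 66) (nat_lit 5) (nat_lit 70) (nat_lit 5) (nat_lit 71) (nat_lit 5) (nat_lit 244) (nat_lit 196) (nat_lit 160)) (XT.nd (nat_lit 94) (nat_lit 84) (nat_lit 0) (XT.lf (nat_lit 0) (nat_lit 179836439) (nat_lit 336) (nat_lit 7334975612) (nat_lit 420) (nat_lit 2576617966) (nat_lit 62) (nat_lit 5) (nat_lit 66) (nat_lit 5) (nat_lit 67) (nat_lit 5) (nat_lit 245) (nat_lit 196) (nat_lit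 159)) (XT.lf (nat_lit 0) (nat_lit 836810753) (nat_lit 420) (nat_lit 2591361060) (nat_lit 84) (nat_lit 6842243581) (nat_lit 61) (nat_lit 5) (nat_lit 66) (nat_lit 5) (nat_lit 62) (nat_lit 5) (nat_lit 246) (nat_lit 196) (nat_lit 158))))) (XT.nd (nat_lit 282) (nat_lit 924) (nat_lit 0) (XT.nd (nat_lit 94) (nat_lit 336) (nat_lit 0) (XT.lf (nat_lit 0) (nat_lit 4311169294) (nat_lit 420) (nat_lit 5484897643) (nat_lit 84) (nat_lit 658490873) (nat_lit 57) (nat_lit 5) (nat_lit 62) (nat_lit 5) (nat_lit 58) (nat_lit 5) (nat_lit 247) (nat_lit 196) (nat_lit 157)) (XT.nd (nat_lit 94) (nat_lit 84) (nat_lit 0) (XT.lf (nat_lit 0) (nat_lit 2130357024) (nat_lit 252) (nat_lit 5810667255) (nat_lit 336) (nat_lit 2702934645) (nat_lit 54) (nat_lit 5) (nat_lit 57) (nat_lit 5) (nat_lit 58) (nat_lit 5) (nat_lit 248) (nat_lit 196) (nat_lit 156)) (XT.lf (nat_lit 0) (nat_lit 843989215) (nat_lit 336) (nat_lit 796053581) (nat_lit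 84) (nat_lit 9199418957) (nat_lit 53) (nat_lit 5) (nat_lit 57) (nat_lit 5) (nat_lit 54) (nat_lit 5) (nat_lit 249) (nat_lit 196) (nat_lit 155)))) (XT.nd (nat_lit 94) (nat_lit 588) (nat_lit 0) (XT.lf (nat_lit 0) (nat_lit 4505081508) (nat_lit 420) (nat_lit 3834954871) (nat_lit 84) (nat_lit 2698808793) (nat_lit 49) (nat_lit 5) (nat_lit 54) (nat_lit 5) (nat_lit 50) (nat_lit 5) (nat_lit 250) (nat_lit 196) (nat_lit 154)) (XT.nd (nat_lit 94) (nat_lit 336) (nat_lit 0) (XT.lf (nat_lit 0) (nat_lit 4245914563) (nat_lit 252) (nat_lit 4066827168) (nat_lit 336) (nat_lit 2931820239) (nat_lit 46) (nat_lit 5) (nat_lit 49) (nat_lit 5) (nat_lit 50) (nat_lit 5) (nat_lit 251) (nat_lit 196) (nat_lit 153)) (XT.lf (nat_lit 0) (nat_lit 784376059) (nat_lit 336) (nat_lit 10288178378) (nat_lit 84) (nat_lit 384395600) (nat_lit 42) (nat_lit 5) (nat_lit 46) (nat_lit 5) (nat_lit 43) (nat_lit 5) (nat_lit 252) (nat_lit 196)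 (nat_lit 152))))))))
noncomputable def xc17 : XT := (XT.nd (nat_lit 34404) (nat_lit 0) (nat_lit 5292) (XT.nd (nat_lit 33276) (nat_lit 0) (nat_lit 16128) (XT.nd (nat_lit 470) (nat_lit 1260) (nat_lit 0) (XT.nd (nat_lit 188) (nat_lit 588) (nat_lit 0) (XT.nd (nat_lit 94) (nat_lit 252) (nat_lit 0) (XT.lf (nat_lit 0) (nat_lit 4635853672) (nat_lit 336) (nat_lit 2055723075) (nat_lit 84) (nat_lit 4981420952) (nat_lit 42) (nat_lit 5) (nat_lit 46) (nat_lit 5) (nat_lit 43) (nat_lit 5) (nat_lit 253) (nat_lit 196) (nat_lit 151)) (XT.lf (nat_lit 0) (nat_lit 6525600104) (nat_lit 252) (nat_lit 2114734643) (nat_lit 336) (nat_lit 3255635222) (nat_lit 39) (nat_lit 5) (nat_lit 42) (nat_lit 5) (nat_lit 43) (nat_lit 5) (nat_lit 254) (nat_lit 196) (nat_lit 150))) (XT.nd (nat_lit 94) (nat_lit 252) (nat_lit 0) (XT.lf (nat_lit 0) (nat_lit 680123396) (nat_lit 336) (nat_lit 8845185160) (nat_lit 84) (nat_lit 2599892257)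 (nat_lit 35) (nat_lit 5) (nat_lit 39) (nat_lit 5) (nat_lit 36) (nat_lit 5) (nat_lit 255) (nat_lit 196) (nat_lit 149)) (XT.nd (nat_lit 94) (nat_lit 252) (nat_lit 0) (XT.lf (nat_lit 0) (nat_lit 4711975473) (nat_lit 336) (nat_lit 148776341) (nat_lit 84) (nat_lit 7499172802) (nat_lit 35) (nat_lit 5) (nat_lit 39) (nat_lit 5) (nat_lit 36) (nat_lit 5) (nat_lit 256) (nat_lit 196) (nat_lit 148)) (XT.lf (nat_lit 0) (nat_lit 8933383949) (nat_lit 336) (nat_lit 3631217084) (nat_lit 84) (nat_lit 36567264) (nat_lit 32) (nat_lit 5) (nat_lit 36) (nat_lit 5) (nat_lit 33) (nat_lit 5) (nat_lit 257) (nat_lit 196) (nat_lit 147))))) (XT.nd (nat_lit 282) (nat_lit 756) (nat_lit 0) (XT.nd (nat_lit 94) (nat_lit 168) (nat_lit 0) (XT.lf (nat_lit 0) (nat_lit 510369394) (nat_lit 336) (nat_lit 7309500846) (nat_lit 84) (nat_lit 5028396750) (nat_lit 28) (nat_lit 5) (nat_lit 32) (nat_lit 5) (nat_lit 29) (nat_lit 5) (nat_lit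 258) (nat_lit 196) (nat_lit 146)) (XT.nd (nat_lit 94) (nat_lit 0) (nat_lit 0) (XT.lf (nat_lit 0) (nat_lit 1929652253) (nat_lit 168) (nat_lit 2832615308) (nat_lit 252) (nat_lit 8339790727) (nat_lit 26) (nat_lit 5) (nat_lit 28) (nat_lit 5) (nat_lit 29) (nat_lit 5) (nat_lit 259) (nat_lit 196) (nat_lit 145)) (XT.lf (nat_lit 0) (nat_lit 9225329077) (nat_lit 252) (nat_lit 1807062493) (nat_lit 84) (nat_lit 2330158566) (nat_lit 26) (nat_lit 5) (nat_lit 29) (nat_lit 5) (nat_lit 27) (nat_lit 5) (nat_lit 260) (nat_lit 196) (nat_lit 144)))) (XT.nd (nat_lit 94) (nat_lit 420) (nat_lit 0) (XT.lf (nat_lit 0) (nat_lit 280574856) (nat_lit 336) (nat_lit 5682344652) (nat_lit 84) (nat_lit 7666603486) (nat_lit 22) (nat_lit 5) (nat_lit 26) (nat_lit 5) (nat_lit 23) (nat_lit 5) (nat_lit 261) (nat_lit 196) (nat_lit 143)) (XT.nd (nat_lit 94) (nat_lit 252) (nat_lit 0) (XT.lf (nat_lit 0) (nat_lit 4143743658) (nat_lit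 168) (nat_lit 630954052) (nat_lit 252) (nat_lit 9128814451) (nat_lit 20) (nat_lit 5) (nat_lit 22) (nat_lit 5) (nat_lit 23) (nat_lit 5) (nat_lit 262) (nat_lit 196) (nat_lit 142)) (XT.lf (nat_lit 0) (nat_lit 129422683) (nat_lit 252) (nat_lit 9371828489) (nat_lit 336) (nat_lit 4683210008) (nat_lit 17) (nat_lit 5) (nat_lit 20) (nat_lit 5) (nat_lit 21) (nat_lit 5) (nat_lit 263) (nat_lit 196) (nat_lit 141)))))) (XT.nd (nat_lit 564) (nat_lit 3024) (nat_lit 0) (XT.nd (nat_lit 282) (nat_lit 1092) (nat_lit 0) (XT.nd (nat_lit 94) (nat_lit 420) (nat_lit 0) (XT.lf (nat_lit 0) (nat_lit 748662325) (nat_lit 252) (nat_lit 1248940115) (nat_lit 252) (nat_lit 1248940115) (nat_lit 263) (nat_lit 4) (nat_lit 266) (nat_lit 5) (nat_lit 266) (nat_lit 4) (nat_lit 206) (nat_lit 197) (nat_lit 197)) (XT.nd (nat_lit 94) (nat_lit 336) (nat_lit 0) (XT.lf (nat_lit 0) (nat_lit 731686949) (nat_lit 336) (nat_lit 1223202469) (nat_lit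 84) (nat_lit 4557492329) (nat_lit 262) (nat_lit 5) (nat_lit 266) (nat_lit 5) (nat_lit 263) (nat_lit 4) (nat_lit 207) (nat_lit 197) (nat_lit 196)) (XT.lf (nat_lit 0) (nat_lit 2624971069) (nat_lit 336) (nat_lit 1285410000) (nat_lit 420) (nat_lit 2624649572) (nat_lit 258) (nat_lit 5) (nat_lit 262) (nat_lit 5) (nat_lit 263) (nat_lit 4) (nat_lit 208) (nat_lit 197) (nat_lit 195)))) (XT.nd (nat_lit 94) (nat_lit 1008) (nat_lit 0) (XT.lf (nat_lit 0) (nat_lit 509447240) (nat_lit 420) (nat_lit 17299597) (nat_lit 84) (nat_lit 6035600074) (nat_lit 257) (nat_lit 5) (nat_lit 262) (nat_lit 5) (nat_lit 258) (nat_lit 5) (nat_lit 209) (nat_lit 197) (nat_lit 194)) (XT.nd (nat_lit 94) (nat_lit 588) (nat_lit 0) (XT.lf (nat_lit 0) (nat_lit 3612280329) (nat_lit 504) (nat_lit 2611081375) (nat_lit 84) (nat_lit 368975849) (nat_lit 252) (nat_lit 5) (nat_lit 258) (nat_lit 5) (nat_lit 253) (nat_lit 4) (nat_lit 210) (nat_lit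 197) (nat_lit 193)) (XT.lf (nat_lit 0) (nat_lit 92707073) (nat_lit 588) (nat_lit 5194792482) (nat_lit 84) (nat_lit 1339408167) (nat_lit 245) (nat_lit 5) (nat_lit 252) (nat_lit 5) (nat_lit 246) (nat_lit 5) (nat_lit 211) (nat_lit 197) (nat_lit 192))))) (XT.nd (nat_lit 282) (nat_lit 1680) (nat_lit 0) (XT.nd (nat_lit 94) (nat_lit 1344) (nat_lit 0) (XT.lf (nat_lit 0) (nat_lit 3111900001) (nat_lit 588) (nat_lit 1108638595) (nat_lit 84) (nat_lit 2444137817) (nat_lit 245) (nat_lit 5) (nat_lit 252) (nat_lit 5) (nat_lit 246) (nat_lit 5) (nat_lit 212) (nat_lit 197) (nat_lit 191)) (XT.nd (nat_lit 94) (nat_lit 756) (nat_lit 0) (XT.lf (nat_lit 0) (nat_lit 3102145618) (nat_lit 588) (nat_lit 3050973274) (nat_lit 672) (nat_lit 553575719) (nat_lit 238) (nat_lit 5) (nat_lit 245) (nat_lit 5) (nat_lit 246) (nat_lit 5) (nat_lit 213) (nat_lit 197) (nat_lit 190)) (XT.lf (nat_lit 0) (nat_lit 632559813) (nat_lit 672)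 (nat_lit 1763966152) (nat_lit 756) (nat_lit 4356031143) (nat_lit 229) (nat_lit 5) (nat_lit 237) (nat_lit 5) (nat_lit 238) (nat_lit 5) (nat_lit 214) (nat_lit 197) (nat_lit 189)))) (XT.nd (nat_lit 94) (nat_lit 1680) (nat_lit 0) (XT.lf (nat_lit 0) (nat_lit 5008604137) (nat_lit 672) (nat_lit 357171249) (nat_lit 756) (nat_lit 1436514980) (nat_lit 229) (nat_lit 5) (nat_lit 237) (nat_lit 5) (nat_lit 238) (nat_lit 5) (nat_lit 215) (nat_lit 197) (nat_lit 188)) (XT.nd (nat_lit 94) (nat_lit 840) (nat_lit 0) (XT.lf (nat_lit 0) (nat_lit 1480658865) (nat_lit 840) (nat_lit 4231791174) (nat_lit 84) (nat_lit 1143096455) (nat_lit 219) (nat_lit 5) (nat_lit 229) (nat_lit 5) (nat_lit 220) (nat_lit 5) (nat_lit 216) (nat_lit 197) (nat_lit 187)) (XT.lf (nat_lit 0) (nat_lit 221098674) (nat_lit 840) (nat_lit 4165115669) (nat_lit 924) (nat_lit 2526672693) (nat_lit 209) (nat_lit 5) (nat_lit 219) (nat_lit 5) (nat_lit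 220) (nat_lit 5) (nat_lit 217) (nat_lit 197) (nat_lit 186))))))) (XT.nd (nat_lit 1128) (nat_lit 3864) (nat_lit 0) (XT.nd (nat_lit 564) (nat_lit 2520) (nat_lit 0) (XT.nd (nat_lit 282) (nat_lit 2436) (nat_lit 0) (XT.nd (nat_lit 94) (nat_lit 1932) (nat_lit 0) (XT.lf (nat_lit 0) (nat_lit 355613755) (nat_lit 924) (nat_lit 2137663213) (nat_lit 84) (nat_lit 4480755530) (nat_lit 208) (nat_lit 5) (nat_lit 219) (nat_lit 5) (nat_lit 209) (nat_lit 5) (nat_lit 218) (nat_lit 197) (nat_lit 185)) (XT.nd (nat_lit 94) (nat_lit 1008) (nat_lit 0) (XT.lf (nat_lit 0) (nat_lit 2513505479) (nat_lit 924) (nat_lit 691014405) (nat_lit 1008) (nat_lit 3834402107) (nat_lit 197) (nat_lit 5) (nat_lit 208) (nat_lit 5) (nat_lit 209) (nat_lit 5) (nat_lit 219) (nat_lit 197) (nat_lit 184)) (XT.lf (nat_lit 0) (nat_lit 171284627) (nat_lit 1008) (nat_lit 5922004611) (nat_lit 1092) (nat_lit 1014888076) (nat_lit 185) (nat_lit 5) (nat_lit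 197) (nat_lit 5) (nat_lit 198) (nat_lit 5) (nat_lit 220) (nat_lit 197) (nat_lit 183)))) (XT.nd (nat_lit 94) (nat_lit 2352) (nat_lit 0) (XT.lf (nat_lit 0) (nat_lit 1823021080) (nat_lit 1092) (nat_lit 2160803697) (nat_lit 84) (nat_lit 3196589162) (nat_lit 184) (nat_lit 5) (nat_lit 197) (nat_lit 5) (nat_lit 185) (nat_lit 5) (nat_lit 221) (nat_lit 197) (nat_lit 182)) (XT.nd (nat_lit 94) (nat_lit 1260) (nat_lit 0) (XT.lf (nat_lit 0) (nat_lit 2742038531) (nat_lit 1092) (nat_lit 1929190355) (nat_lit 1176) (nat_lit 2585822709) (nat_lit 171) (nat_lit 5) (nat_lit 184) (nat_lit 5) (nat_lit 185) (nat_lit 5) (nat_lit 222) (nat_lit 197) (nat_lit 181)) (XT.lf (nat_lit 0) (nat_lit 215133170) (nat_lit 1260) (nat_lit 6893562206) (nat_lit 84) (nat_lit 229708206) (nat_lit 156) (nat_lit 5) (nat_lit 171) (nat_lit 5) (nat_lit 157) (nat_lit 5) (nat_lit 223) (nat_lit 197) (nat_lit 180))))) (XT.nd (nat_lit 282) (nat_lit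 1176) (nat_lit 0) (XT.nd (nat_lit 94) (nat_lit 1344) (nat_lit 0) (XT.lf (nat_lit 0) (nat_lit 3037173421) (nat_lit 1260) (nat_lit 1880953433) (nat_lit 84) (nat_lit 2504001621) (nat_lit 156) (nat_lit 5) (nat_lit 171) (nat_lit 5) (nat_lit 157) (nat_lit 5) (nat_lit 224) (nat_lit 197) (nat_lit 179)) (XT.nd (nat_lit 94) (nat_lit 672) (nat_lit 0) (XT.lf (nat_lit 0) (nat_lit 3290656909) (nat_lit 672) (nat_lit 2614714853) (nat_lit 756) (nat_lit 1605253442) (nat_lit 148) (nat_lit 5) (nat_lit 156) (nat_lit 5) (nat_lit 157) (nat_lit 5) (nat_lit 225) (nat_lit 197) (nat_lit 178)) (XT.lf (nat_lit 0) (nat_lit 1003256675) (nat_lit 588) (nat_lit 185005829) (nat_lit 672) (nat_lit 6415373251) (nat_lit 140) (nat_lit 5) (nat_lit 147) (nat_lit 5) (nat_lit 148) (nat_lit 5) (nat_lit 226) (nat_lit 197) (nat_lit 177)))) (XT.nd (nat_lit 94) (nat_lit 1176) (nat_lit 0) (XT.lf (nat_lit 0) (nat_lit 4031856240) (nat_lit 672)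 (nat_lit 1326558713) (nat_lit 84) (nat_lit 2341189621) (nat_lit 140) (nat_lit 5) (nat_lit 148) (nat_lit 5) (nat_lit 141) (nat_lit 5) (nat_lit 227) (nat_lit 197) (nat_lit 176)) (XT.nd (nat_lit 94) (nat_lit 588) (nat_lit 0) (XT.lf (nat_lit 0) (nat_lit 4132612867) (nat_lit 588) (nat_lit 2807112433) (nat_lit 672) (nat_lit 860440768) (nat_lit 133) (nat_lit 5) (nat_lit 140) (nat_lit 5) (nat_lit 141) (nat_lit 5) (nat_lit 228) (nat_lit 197) (nat_lit 175)) (XT.lf (nat_lit 0) (nat_lit 1838035447) (nat_lit 504) (nat_lit 114478401) (nat_lit 588) (nat_lit 5952554115) (nat_lit 126) (nat_lit 5) (nat_lit 132) (nat_lit 5) (nat_lit 133) (nat_lit 5) (nat_lit 229) (nat_lit 197) (nat_lit 174)))))) (XT.nd (nat_lit 564) (nat_lit 1764) (nat_lit 0) (XT.nd (nat_lit 282) (nat_lit 1008) (nat_lit 0) (XT.nd (nat_lit 94) (nat_lit 1092) (nat_lit 0) (XT.lf (nat_lit 0) (nat_lit 4836401924) (nat_lit 588) (nat_lit 521293233)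 (nat_lit 84) (nat_lit 2655855426) (nat_lit 126) (nat_lit 5) (nat_lit 133) (nat_lit 5) (nat_lit 127) (nat_lit 5) (nat_lit 230) (nat_lit 197) (nat_lit 173)) (XT.nd (nat_lit 94) (nat_lit 588) (nat_lit 0) (XT.lf (nat_lit 0) (nat_lit 5245977753) (nat_lit 504) (nat_lit 2556876509) (nat_lit 588) (nat_lit 323618848) (nat_lit 120) (nat_lit 5) (nat_lit 126) (nat_lit 5) (nat_lit 127) (nat_lit 5) (nat_lit 231) (nat_lit 197) (nat_lit 172)) (XT.lf (nat_lit 0) (nat_lit 2536099755) (nat_lit 588) (nat_lit 5317514714) (nat_lit 84) (nat_lit 389899874) (nat_lit 113) (nat_lit 5) (nat_lit 120) (nat_lit 5) (nat_lit 114) (nat_lit 5) (nat_lit 232) (nat_lit 197) (nat_lit 171)))) (XT.nd (nat_lit 94) (nat_lit 504) (nat_lit 0) (XT.lf (nat_lit 0) (nat_lit 527352735) (nat_lit 504) (nat_lit 4954784222) (nat_lit 588) (nat_lit 2882600634) (nat_lit 107) (nat_lit 5) (nat_lit 113) (nat_lit 5) (nat_lit 114) (nat_lit 5) (nat_lit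 233) (nat_lit 197) (nat_lit 170)) (XT.nd (nat_lit 94) (nat_lit 420) (nat_lit 0) (XT.lf (nat_lit 0) (nat_lit 28390647) (nat_lit 588) (nat_lit 1877825421) (nat_lit 84) (nat_lit 6584383152) (nat_lit 106) (nat_lit 5) (nat_lit 113) (nat_lit 5) (nat_lit 107) (nat_lit 5) (nat_lit 234) (nat_lit 197) (nat_lit 169)) (XT.lf (nat_lit 0) (nat_lit 2963097474) (nat_lit 504) (nat_lit 4371449341) (nat_lit 84) (nat_lit 1285523925) (nat_lit 101) (nat_lit 5) (nat_lit 107) (nat_lit 5) (nat_lit 102) (nat_lit 5) (nat_lit 235) (nat_lit 197) (nat_lit 168))))) (XT.nd (nat_lit 282) (nat_lit 840) (nat_lit 0) (XT.nd (nat_lit 94) (nat_lit 504) (nat_lit 0) (XT.lf (nat_lit 0) (nat_lit 1808828447) (nat_lit 420) (nat_lit 4184826069) (nat_lit 504) (nat_lit 2760659505) (nat_lit 96) (nat_lit 5) (nat_lit 101) (nat_lit 5) (nat_lit 102) (nat_lit 5) (nat_lit 236) (nat_lit 197) (nat_lit 167)) (XT.nd (nat_lit 94) (nat_lit 420) (nat_lit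 0) (XT.lf (nat_lit 0) (nat_lit 213015386) (nat_lit 504) (nat_lit 676138110) (nat_lit 84) (nat_lit 8004662129) (nat_lit 95) (nat_lit 5) (nat_lit 101) (nat_lit 5) (nat_lit 96) (nat_lit 5) (nat_lit 237) (nat_lit 197) (nat_lit 166)) (XT.lf (nat_lit 0) (nat_lit 3251446182) (nat_lit 504) (nat_lit 3242069869) (nat_lit 84) (nat_lit 2542678222) (nat_lit 90) (nat_lit 5) (nat_lit 96) (nat_lit 5) (nat_lit 91) (nat_lit 5) (nat_lit 238) (nat_lit 197) (nat_lit 165)))) (XT.nd (nat_lit 94) (nat_lit 420) (nat_lit 0) (XT.lf (nat_lit 0) (nat_lit 3298410846) (nat_lit 420) (nat_lit 3085575546) (nat_lit 504) (nat_lit 2799998029) (nat_lit 85) (nat_lit 5) (nat_lit 90) (nat_lit 5) (nat_lit 91) (nat_lit 5) (nat_lit 239) (nat_lit 197) (nat_lit 164)) (XT.nd (nat_lit 94) (nat_lit 0) (nat_lit 0) (XT.lf (nat_lit 0) (nat_lit 267970005) (nat_lit 420) (nat_lit 8610131962) (nat_lit 84) (nat_lit 459246637) (nat_lit 80) (nat_lit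 5) (nat_lit 85) (nat_lit 5) (nat_lit 81) (nat_lit 5) (nat_lit 240) (nat_lit 197) (nat_lit 163)) (XT.lf (nat_lit 0) (nat_lit 3417650864) (nat_lit 420) (nat_lit 1940903301) (nat_lit 84) (nat_lit 4134994682) (nat_lit 80) (nat_lit 5) (nat_lit 85) (nat_lit 5) (nat_lit 81) (nat_lit 5) (nat_lit 241) (nat_lit 197) (nat_lit 162))))))))
noncomputable def xc18 : XT := (XT.nd (nat_lit 34216) (nat_lit 0) (nat_lit 9492) (XT.nd (nat_lit 1034) (nat_lit 2184) (nat_lit 0) (XT.nd (nat_lit 470) (nat_lit 1260) (nat_lit 0) (XT.nd (nat_lit 188) (nat_lit 756) (nat_lit 0) (XT.nd (nat_lit 94) (nat_lit 420) (nat_lit 0) (XT.lf (nat_lit 0) (nat_lit 4986543820) (nat_lit 420) (nat_lit 1683024237) (nat_lit 504) (nat_lit 2985928128) (nat_lit 75) (nat_lit 5) (nat_lit 80) (nat_lit 5) (nat_lit 81) (nat_lit 5) (nat_lit 242) (nat_lit 197) (nat_lit 161)) (XT.lf (nat_lit 0) (nat_lit 217484571) (nat_lit 420) (nat_lit 7504952579)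 (nat_lit 84) (nat_lit 2100238102) (nat_lit 70) (nat_lit 5) (nat_lit 75) (nat_lit 5) (nat_lit 71) (nat_lit 5) (nat_lit 243) (nat_lit 197) (nat_lit 160))) (XT.nd (nat_lit 94) (nat_lit 756) (nat_lit 0) (XT.lf (nat_lit 0) (nat_lit 3475843570) (nat_lit 420) (nat_lit 476809908) (nat_lit 84) (nat_lit 6041395404) (nat_lit 70) (nat_lit 5) (nat_lit 75) (nat_lit 5) (nat_lit 71) (nat_lit 5) (nat_lit 244) (nat_lit 197) (nat_lit 159)) (XT.nd (nat_lit 94) (nat_lit 420) (nat_lit 0) (XT.lf (nat_lit 0) (nat_lit 6864640887) (nat_lit 420) (nat_lit 3304426588) (nat_lit 84) (nat_lit 1779263) (nat_lit 66) (nat_lit 5) (nat_lit 71) (nat_lit 5) (nat_lit 67) (nat_lit 5) (nat_lit 245) (nat_lit 197) (nat_lit 158)) (XT.lf (nat_lit 0) (nat_lit 55664120) (nat_lit 420) (nat_lit 6269076303) (nat_lit 84) (nat_lit 4027759771) (nat_lit 61) (nat_lit 5) (nat_lit 66) (nat_lit 5) (nat_lit 62) (nat_lit 5) (nat_lit 246) (nat_lit 197)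 (nat_lit 157))))) (XT.nd (nat_lit 282) (nat_lit 672) (nat_lit 0) (XT.nd (nat_lit 94) (nat_lit 252) (nat_lit 0) (XT.lf (nat_lit 0) (nat_lit 1170282572) (nat_lit 336) (nat_lit 2280832802) (nat_lit 420) (nat_lit 7088288991) (nat_lit 57) (nat_lit 5) (nat_lit 61) (nat_lit 5) (nat_lit 62) (nat_lit 5) (nat_lit 247) (nat_lit 197) (nat_lit 156)) (XT.nd (nat_lit 94) (nat_lit 252) (nat_lit 0) (XT.lf (nat_lit 0) (nat_lit 7003187569) (nat_lit 420) (nat_lit 1820213668) (nat_lit 84) (nat_lit 1908126639) (nat_lit 57) (nat_lit 5) (nat_lit 62) (nat_lit 5) (nat_lit 58) (nat_lit 5) (nat_lit 248) (nat_lit 197) (nat_lit 155)) (XT.lf (nat_lit 0) (nat_lit 6017606527) (nat_lit 252) (nat_lit 4699030638) (nat_lit 336) (nat_lit 212441624) (nat_lit 54) (nat_lit 5) (nat_lit 57) (nat_lit 5) (nat_lit 58) (nat_lit 5) (nat_lit 249) (nat_lit 197) (nat_lit 154)))) (XT.nd (nat_lit 94) (nat_lit 252) (nat_lit 0) (XT.lf (nat_lit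 0) (nat_lit 2984136249) (nat_lit 336) (nat_lit 363686302) (nat_lit 420) (nat_lit 7784420082) (nat_lit 49) (nat_lit 5) (nat_lit 53) (nat_lit 5) (nat_lit 54) (nat_lit 5) (nat_lit 250) (nat_lit 197) (nat_lit 153)) (XT.nd (nat_lit 94) (nat_lit 252) (nat_lit 0) (XT.lf (nat_lit 0) (nat_lit 7076919884) (nat_lit 420) (nat_lit 201906215) (nat_lit 84) (nat_lit 4061883035) (nat_lit 49) (nat_lit 5) (nat_lit 54) (nat_lit 5) (nat_lit 50) (nat_lit 5) (nat_lit 251) (nat_lit 197) (nat_lit 152)) (XT.lf (nat_lit 0) (nat_lit 8118844294) (nat_lit 252) (nat_lit 2858862606) (nat_lit 336) (nat_lit 577324068) (nat_lit 46) (nat_lit 5) (nat_lit 49) (nat_lit 5) (nat_lit 50) (nat_lit 5) (nat_lit 252) (nat_lit 197) (nat_lit 151)))))) (XT.nd (nat_lit 564) (nat_lit 1008) (nat_lit 0) (XT.nd (nat_lit 282) (nat_lit 588) (nat_lit 0) (XT.nd (nat_lit 94) (nat_lit 252) (nat_lit 0) (XT.lf (nat_lit 0) (nat_lit 3188978541) (nat_lit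 336) (nat_lit 6843981341) (nat_lit 84) (nat_lit 1741783180) (nat_lit 42) (nat_lit 5) (nat_lit 46) (nat_lit 5) (nat_lit 43) (nat_lit 5) (nat_lit 253) (nat_lit 197) (nat_lit 150)) (XT.nd (nat_lit 94) (nat_lit 0) (nat_lit 0) (XT.lf (nat_lit 0) (nat_lit 1583875873) (nat_lit 252) (nat_lit 5528643087) (nat_lit 336) (nat_lit 4888029294) (nat_lit 39) (nat_lit 5) (nat_lit 42) (nat_lit 5) (nat_lit 43) (nat_lit 5) (nat_lit 254) (nat_lit 197) (nat_lit 149)) (XT.lf (nat_lit 0) (nat_lit 10387727482) (nat_lit 252) (nat_lit 814600888) (nat_lit 336) (nat_lit 1030915181) (nat_lit 39) (nat_lit 5) (nat_lit 42) (nat_lit 5) (nat_lit 43) (nat_lit 5) (nat_lit 255) (nat_lit 197) (nat_lit 148)))) (XT.nd (nat_lit 94) (nat_lit 252) (nat_lit 0) (XT.lf (nat_lit 0) (nat_lit 2968437217) (nat_lit 336) (nat_lit 5446877495) (nat_lit 84) (nat_lit 4055010296) (nat_lit 35) (nat_lit 5) (nat_lit 39) (nat_lit 5) (nat_lit 36) (nat_lit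 5) (nat_lit 256) (nat_lit 197) (nat_lit 147)) (XT.nd (nat_lit 94) (nat_lit 0) (nat_lit 0) (XT.lf (nat_lit 0) (nat_lit 3508060812) (nat_lit 252) (nat_lit 3595853028) (nat_lit 336) (nat_lit 5610662464) (nat_lit 32) (nat_lit 5) (nat_lit 35) (nat_lit 5) (nat_lit 36) (nat_lit 5) (nat_lit 257) (nat_lit 197) (nat_lit 146)) (XT.lf (nat_lit 0) (nat_lit 11414926057) (nat_lit 336) (nat_lit 156749875) (nat_lit 84) (nat_lit 1394622677) (nat_lit 32) (nat_lit 5) (nat_lit 36) (nat_lit 5) (nat_lit 33) (nat_lit 5) (nat_lit 258) (nat_lit 197) (nat_lit 145))))) (XT.nd (nat_lit 282) (nat_lit 252) (nat_lit 0) (XT.nd (nat_lit 94) (nat_lit 420) (nat_lit 0) (XT.lf (nat_lit 0) (nat_lit 2688057474) (nat_lit 336) (nat_lit 3954725050) (nat_lit 84) (nat_lit 6579579931) (nat_lit 28) (nat_lit 5) (nat_lit 32) (nat_lit 5) (nat_lit 29) (nat_lit 5) (nat_lit 259) (nat_lit 197) (nat_lit 144)) (XT.nd (nat_lit 94) (nat_lit 252)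 (nat_lit 0) (XT.lf (nat_lit 0) (nat_lit 5566635120) (nat_lit 168) (nat_lit 1488870682) (nat_lit 252) (nat_lit 6430694964) (nat_lit 26) (nat_lit 5) (nat_lit 28) (nat_lit 5) (nat_lit 29) (nat_lit 5) (nat_lit 260) (nat_lit 197) (nat_lit 143)) (XT.lf (nat_lit 0) (nat_lit 1672737012) (nat_lit 252) (nat_lit 9964295920) (nat_lit 336) (nat_lit 2120097853) (nat_lit 23) (nat_lit 5) (nat_lit 26) (nat_lit 5) (nat_lit 27) (nat_lit 5) (nat_lit 261) (nat_lit 197) (nat_lit 142)))) (XT.nd (nat_lit 94) (nat_lit 168) (nat_lit 0) (XT.lf (nat_lit 0) (nat_lit 2352689165) (nat_lit 336) (nat_lit 2368222859) (nat_lit 84) (nat_lit 9313463978) (nat_lit 22) (nat_lit 5) (nat_lit 26) (nat_lit 5) (nat_lit 23) (nat_lit 5) (nat_lit 262) (nat_lit 197) (nat_lit 141)) (XT.nd (nat_lit 32148) (nat_lit 0) (nat_lit 20664) (XT.lf (nat_lit 0) (nat_lit 6981850492) (nat_lit 252) (nat_lit 6566100719) (nat_lit 84) (nat_lit 770782534)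 (nat_lit 20) (nat_lit 5) (nat_lit 23) (nat_lit 5) (nat_lit 21) (nat_lit 5) (nat_lit 263) (nat_lit 197) (nat_lit 140)) (XT.lf (nat_lit 0) (nat_lit 167296016) (nat_lit 252) (nat_lit 2897948145) (nat_lit 0) (nat_lit 167296016) (nat_lit 266) (nat_lit 5) (nat_lit 269) (nat_lit 4) (nat_lit 266) (nat_lit 4) (nat_lit 204) (nat_lit 198) (nat_lit 198))))))) (XT.nd (nat_lit 1128) (nat_lit 7224) (nat_lit 0) (XT.nd (nat_lit 564) (nat_lit 2772) (nat_lit 0) (XT.nd (nat_lit 282) (nat_lit 840) (nat_lit 0) (XT.nd (nat_lit 94) (nat_lit 336) (nat_lit 0) (XT.lf (nat_lit 0) (nat_lit 3538798850) (nat_lit 252) (nat_lit 2207447376) (nat_lit 0) (nat_lit 731686949) (nat_lit 266) (nat_lit 5) (nat_lit 269) (nat_lit 4) (nat_lit 266) (nat_lit 4) (nat_lit 205) (nat_lit 198) (nat_lit 197)) (XT.nd (nat_lit 94) (nat_lit 0) (nat_lit 0) (XT.lf (nat_lit 0) (nat_lit 233795229) (nat_lit 336) (nat_lit 5043524020) (nat_lit 84) (nat_lit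 1218040137) (nat_lit 262) (nat_lit 5) (nat_lit 266) (nat_lit 5) (nat_lit 263) (nat_lit 4) (nat_lit 206) (nat_lit 198) (nat_lit 196)) (XT.lf (nat_lit 0) (nat_lit 3340613832) (nat_lit 336) (nat_lit 1341617161) (nat_lit 84) (nat_lit 1833764803) (nat_lit 262) (nat_lit 5) (nat_lit 266) (nat_lit 5) (nat_lit 263) (nat_lit 4) (nat_lit 207) (nat_lit 198) (nat_lit 195)))) (XT.nd (nat_lit 94) (nat_lit 504) (nat_lit 0) (XT.lf (nat_lit 0) (nat_lit 2461477910) (nat_lit 336) (nat_lit 3992133059) (nat_lit 420) (nat_lit 87333116) (nat_lit 258) (nat_lit 5) (nat_lit 262) (nat_lit 5) (nat_lit 263) (nat_lit 4) (nat_lit 208) (nat_lit 198) (nat_lit 194)) (XT.nd (nat_lit 94) (nat_lit 420) (nat_lit 0) (XT.lf (nat_lit 0) (nat_lit 2926343927) (nat_lit 420) (nat_lit 257336098) (nat_lit 84) (nat_lit 3385791916) (nat_lit 257) (nat_lit 5) (nat_lit 262) (nat_lit 5) (nat_lit 258) (nat_lit 5) (nat_lit 209) (nat_lit 198) (nat_lit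 193)) (XT.lf (nat_lit 0) (nat_lit 3698128726) (nat_lit 420) (nat_lit 2262877254) (nat_lit 504) (nat_lit 640842589) (nat_lit 252) (nat_lit 5) (nat_lit 257) (nat_lit 5) (nat_lit 258) (nat_lit 5) (nat_lit 210) (nat_lit 198) (nat_lit 192))))) (XT.nd (nat_lit 282) (nat_lit 1512) (nat_lit 0) (XT.nd (nat_lit 94) (nat_lit 672) (nat_lit 0) (XT.lf (nat_lit 0) (nat_lit 1074650762) (nat_lit 504) (nat_lit 1229217280) (nat_lit 588) (nat_lit 4334263941) (nat_lit 245) (nat_lit 5) (nat_lit 251) (nat_lit 5) (nat_lit 252) (nat_lit 5) (nat_lit 211) (nat_lit 198) (nat_lit 191)) (XT.nd (nat_lit 94) (nat_lit 672) (nat_lit 0) (XT.lf (nat_lit 0) (nat_lit 5170237856) (nat_lit 504) (nat_lit 81951477) (nat_lit 588) (nat_lit 1426191848) (nat_lit 245) (nat_lit 5) (nat_lit 251) (nat_lit 5) (nat_lit 252) (nat_lit 5) (nat_lit 212) (nat_lit 198) (nat_lit 190)) (XT.lf (nat_lit 0) (nat_lit 1474564456) (nat_lit 672) (nat_lit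 4088177932) (nat_lit 84) (nat_lit 1159240769) (nat_lit 237) (nat_lit 5) (nat_lit 245) (nat_lit 5) (nat_lit 238) (nat_lit 5) (nat_lit 213) (nat_lit 198) (nat_lit 189)))) (XT.nd (nat_lit 94) (nat_lit 840) (nat_lit 0) (XT.lf (nat_lit 0) (nat_lit 87475606) (nat_lit 672) (nat_lit 4263244136) (nat_lit 756) (nat_lit 2419058839) (nat_lit 229) (nat_lit 5) (nat_lit 237) (nat_lit 5) (nat_lit 238) (nat_lit 5) (nat_lit 214) (nat_lit 198) (nat_lit 188)) (XT.nd (nat_lit 94) (nat_lit 756) (nat_lit 0) (XT.lf (nat_lit 0) (nat_lit 434564811) (nat_lit 756) (nat_lit 2405271991) (nat_lit 84) (nat_lit 3981388947) (nat_lit 228) (nat_lit 5) (nat_lit 237) (nat_lit 5) (nat_lit 229) (nat_lit 5) (nat_lit 215) (nat_lit 198) (nat_lit 187)) (XT.lf (nat_lit 0) (nat_lit 1951885872) (nat_lit 756) (nat_lit 1293911959) (nat_lit 840) (nat_lit 3630691751) (nat_lit 219) (nat_lit 5) (nat_lit 228) (nat_lit 5) (nat_lit 229) (nat_lit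 5) (nat_lit 216) (nat_lit 198) (nat_lit 186)))))) (XT.nd (nat_lit 564) (nat_lit 3192) (nat_lit 0) (XT.nd (nat_lit 282) (nat_lit 2184) (nat_lit 0) (XT.nd (nat_lit 94) (nat_lit 1848) (nat_lit 0) (XT.lf (nat_lit 0) (nat_lit 6083196761) (nat_lit 840) (nat_lit 505960570) (nat_lit 84) (nat_lit 347058271) (nat_lit 219) (nat_lit 5) (nat_lit 229) (nat_lit 5) (nat_lit 220) (nat_lit 5) (nat_lit 217) (nat_lit 198) (nat_lit 185)) (XT.nd (nat_lit 94) (nat_lit 924) (nat_lit 0) (XT.lf (nat_lit 0) (nat_lit 1934884133) (nat_lit 924) (nat_lit 2962899651) (nat_lit 84) (nat_lit 2100899809) (nat_lit 208) (nat_lit 5) (nat_lit 219) (nat_lit 5) (nat_lit 209) (nat_lit 5) (nat_lit 218) (nat_lit 198) (nat_lit 184)) (XT.lf (nat_lit 0) (nat_lit 1625301936) (nat_lit 924) (nat_lit 3099703148) (nat_lit 1008) (nat_lit 2340625482) (nat_lit 197) (nat_lit 5) (nat_lit 208) (nat_lit 5) (nat_lit 209) (nat_lit 5) (nat_lit 219) (nat_lit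 198) (nat_lit 183)))) (XT.nd (nat_lit 94) (nat_lit 2100) (nat_lit 0) (XT.lf (nat_lit 0) (nat_lit 404185168) (nat_lit 1008) (nat_lit 782627058) (nat_lit 84) (nat_lit 5950121481) (nat_lit 196) (nat_lit 5) (nat_lit 208) (nat_lit 5) (nat_lit 197) (nat_lit 5) (nat_lit 220) (nat_lit 198) (nat_lit 182)) (XT.nd (nat_lit 94) (nat_lit 1092) (nat_lit 0) (XT.lf (nat_lit 0) (nat_lit 3149775442) (nat_lit 1092) (nat_lit 3204581141) (nat_lit 84) (nat_lit 856843715) (nat_lit 184) (nat_lit 5) (nat_lit 197) (nat_lit 5) (nat_lit 185) (nat_lit 5) (nat_lit 221) (nat_lit 198) (nat_lit 181)) (XT.lf (nat_lit 0) (nat_lit 1629895870) (nat_lit 1092) (nat_lit 4310229013) (nat_lit 1176) (nat_lit 1349738112) (nat_lit 171) (nat_lit 5) (nat_lit 184) (nat_lit 5) (nat_lit 185) (nat_lit 5) (nat_lit 222) (nat_lit 198) (nat_lit 180))))) (XT.nd (nat_lit 282) (nat_lit 1260) (nat_lit 0) (XT.nd (nat_lit 94) (nat_lit 1848) (nat_lit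 0) (XT.lf (nat_lit 0) (nat_lit 1370668388) (nat_lit 1176) (nat_lit 765021107) (nat_lit 84) (nat_lit 5236881717) (nat_lit 170) (nat_lit 5) (nat_lit 184) (nat_lit 5) (nat_lit 171) (nat_lit 5) (nat_lit 223) (nat_lit 198) (nat_lit 179)) (XT.nd (nat_lit 94) (nat_lit 672) (nat_lit 0) (XT.lf (nat_lit 0) (nat_lit 4116218741) (nat_lit 1260) (nat_lit 3163884282) (nat_lit 84) (nat_lit 178870227) (nat_lit 156) (nat_lit 5) (nat_lit 171) (nat_lit 5) (nat_lit 157) (nat_lit 5) (nat_lit 224) (nat_lit 198) (nat_lit 178)) (XT.lf (nat_lit 0) (nat_lit 1933728263) (nat_lit 672) (nat_lit 4993181886) (nat_lit 756) (nat_lit 622572574) (nat_lit 148) (nat_lit 5) (nat_lit 156) (nat_lit 5) (nat_lit 157) (nat_lit 5) (nat_lit 225) (nat_lit 198) (nat_lit 177)))) (XT.nd (nat_lit 94) (nat_lit 1176) (nat_lit 0) (XT.lf (nat_lit 0) (nat_lit 2095574962) (nat_lit 756) (nat_lit 469936641) (nat_lit 84) (nat_lit 5078456489) (nat_lit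 147) (nat_lit 5) (nat_lit 156) (nat_lit 5) (nat_lit 148) (nat_lit 5) (nat_lit 226) (nat_lit 198) (nat_lit 176)) (XT.nd (nat_lit 94) (nat_lit 588) (nat_lit 0) (XT.lf (nat_lit 0) (nat_lit 4866227756) (nat_lit 672) (nat_lit 2869209463) (nat_lit 84) (nat_lit 7052625) (nat_lit 140) (nat_lit 5) (nat_lit 148) (nat_lit 5) (nat_lit 141) (nat_lit 5) (nat_lit 227) (nat_lit 198) (nat_lit 175)) (XT.lf (nat_lit 0) (nat_lit 2510060188) (nat_lit 588) (nat_lit 5206346674) (nat_lit 672) (nat_lit 128663624) (nat_lit 133) (nat_lit 5) (nat_lit 140) (nat_lit 5) (nat_lit 141) (nat_lit 5) (nat_lit 228) (nat_lit 198) (nat_lit 174))))))))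
noncomputable def xc19 : XT := (XT.nd (nat_lit 2162) (nat_lit 2436) (nat_lit 0) (XT.nd (nat_lit 1034) (nat_lit 3024) (nat_lit 0) (XT.nd (nat_lit 470) (nat_lit 2352) (nat_lit 0) (XT.nd (nat_lit 188) (nat_lit 1092) (nat_lit 0) (XT.nd (nat_lit 94) (nat_lit 0) (nat_lit 0) (XT.lf (nat_lit 0) (nat_lit 79010645) (nat_lit 504) (nat_lit 2529895084) (nat_lit 588) (nat_lit 5342839024) (nat_lit 126) (nat_lit 5) (nat_lit 132) (nat_lit 5) (nat_lit 133) (nat_lit 5) (nat_lit 229) (nat_lit 198) (nat_lit 173)) (XT.lf (nat_lit 0) (nat_lit 5427481130) (nat_lit 588) (nat_lit 2344405102) (nat_lit 84) (nat_lit 290627085) (nat_lit 126) (nat_lit 5) (nat_lit 133) (nat_lit 5) (nat_lit 127) (nat_lit 5) (nat_lit 230) (nat_lit 198) (nat_lit 172))) (XT.nd (nat_lit 94) (nat_lit 504) (nat_lit 0) (XT.lf (nat_lit 0) (nat_lit 154496085) (nat_lit 588) (nat_lit 4842489095) (nat_lit 84) (nat_lit 3180432108) (nat_lit 119) (nat_lit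 5) (nat_lit 126) (nat_lit 5) (nat_lit 120) (nat_lit 5) (nat_lit 231) (nat_lit 198) (nat_lit 171)) (XT.nd (nat_lit 94) (nat_lit 0) (nat_lit 0) (XT.lf (nat_lit 0) (nat_lit 875207790) (nat_lit 504) (nat_lit 2067585360) (nat_lit 588) (nat_lit 5353782098) (nat_lit 113) (nat_lit 5) (nat_lit 119) (nat_lit 5) (nat_lit 120) (nat_lit 5) (nat_lit 232) (nat_lit 198) (nat_lit 170)) (XT.lf (nat_lit 0) (nat_lit 5823871708) (nat_lit 588) (nat_lit 1609300104) (nat_lit 84) (nat_lit 986900236) (nat_lit 113) (nat_lit 5) (nat_lit 120) (nat_lit 5) (nat_lit 114) (nat_lit 5) (nat_lit 233) (nat_lit 198) (nat_lit 169))))) (XT.nd (nat_lit 282) (nat_lit 1344) (nat_lit 0) (XT.nd (nat_lit 94) (nat_lit 420) (nat_lit 0) (XT.lf (nat_lit 0) (nat_lit 254021300) (nat_lit 588) (nat_lit 4154979174) (nat_lit 84) (nat_lit 4138721165) (nat_lit 106) (nat_lit 5) (nat_lit 113) (nat_lit 5) (nat_lit 107) (nat_lit 5) (nat_lit 234) (nat_lit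 198) (nat_lit 168)) (XT.nd (nat_lit 94) (nat_lit 0) (nat_lit 0) (XT.lf (nat_lit 0) (nat_lit 1890101219) (nat_lit 420) (nat_lit 1223013853) (nat_lit 504) (nat_lit 5566724544) (nat_lit 101) (nat_lit 5) (nat_lit 106) (nat_lit 5) (nat_lit 107) (nat_lit 5) (nat_lit 235) (nat_lit 198) (nat_lit 167)) (XT.lf (nat_lit 0) (nat_lit 6075984365) (nat_lit 504) (nat_lit 680163729) (nat_lit 84) (nat_lit 2060303875) (nat_lit 101) (nat_lit 5) (nat_lit 107) (nat_lit 5) (nat_lit 102) (nat_lit 5) (nat_lit 236) (nat_lit 198) (nat_lit 166)))) (XT.nd (nat_lit 94) (nat_lit 840) (nat_lit 0) (XT.lf (nat_lit 0) (nat_lit 191285376) (nat_lit 504) (nat_lit 3287057634) (nat_lit 84) (nat_lit 5479053931) (nat_lit 95) (nat_lit 5) (nat_lit 101) (nat_lit 5) (nat_lit 96) (nat_lit 5) (nat_lit 237) (nat_lit 198) (nat_lit 165)) (XT.nd (nat_lit 94) (nat_lit 420) (nat_lit 0) (XT.lf (nat_lit 0) (nat_lit 3109528148) (nat_lit 420) (nat_lit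 28469946) (nat_lit 504) (nat_lit 5964987628) (nat_lit 90) (nat_lit 5) (nat_lit 95) (nat_lit 5) (nat_lit 96) (nat_lit 5) (nat_lit 238) (nat_lit 198) (nat_lit 164)) (XT.lf (nat_lit 0) (nat_lit 439871865) (nat_lit 420) (nat_lit 5766540784) (nat_lit 504) (nat_lit 3046607619) (nat_lit 85) (nat_lit 5) (nat_lit 90) (nat_lit 5) (nat_lit 91) (nat_lit 5) (nat_lit 239) (nat_lit 198) (nat_lit 163)))))) (XT.nd (nat_lit 564) (nat_lit 1428) (nat_lit 0) (XT.nd (nat_lit 282) (nat_lit 756) (nat_lit 0) (XT.nd (nat_lit 94) (nat_lit 840) (nat_lit 0) (XT.lf (nat_lit 0) (nat_lit 7156139144) (nat_lit 420) (nat_lit 2233336260) (nat_lit 504) (nat_lit 18576741) (nat_lit 85) (nat_lit 5) (nat_lit 90) (nat_lit 5) (nat_lit 91) (nat_lit 5) (nat_lit 240) (nat_lit 198) (nat_lit 162)) (XT.nd (nat_lit 94) (nat_lit 420) (nat_lit 0) (XT.lf (nat_lit 0) (nat_lit 3049436777) (nat_lit 420) (nat_lit 5061869265) (nat_lit 84) (nat_lit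 1455826689) (nat_lit 80) (nat_lit 5) (nat_lit 85) (nat_lit 5) (nat_lit 81) (nat_lit 5) (nat_lit 241) (nat_lit 198) (nat_lit 161)) (XT.lf (nat_lit 0) (nat_lit 1750288628) (nat_lit 420) (nat_lit 4484827716) (nat_lit 504) (nat_lit 3496282043) (nat_lit 75) (nat_lit 5) (nat_lit 80) (nat_lit 5) (nat_lit 81) (nat_lit 5) (nat_lit 242) (nat_lit 198) (nat_lit 160)))) (XT.nd (nat_lit 94) (nat_lit 756) (nat_lit 0) (XT.lf (nat_lit 0) (nat_lit 8838105868) (nat_lit 420) (nat_lit 693640769) (nat_lit 504) (nat_lit 369685886) (nat_lit 75) (nat_lit 5) (nat_lit 80) (nat_lit 5) (nat_lit 81) (nat_lit 5) (nat_lit 243) (nat_lit 198) (nat_lit 159)) (XT.nd (nat_lit 94) (nat_lit 336) (nat_lit 0) (XT.lf (nat_lit 0) (nat_lit 2847515783) (nat_lit 420) (nat_lit 3992262429) (nat_lit 84) (nat_lit 3234905999) (nat_lit 70) (nat_lit 5) (nat_lit 75) (nat_lit 5) (nat_lit 71) (nat_lit 5) (nat_lit 244) (nat_lit 198) (nat_lit 158))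 (XT.lf (nat_lit 0) (nat_lit 3227374310) (nat_lit 336) (nat_lit 2939822081) (nat_lit 420) (nat_lit 4086704761) (nat_lit 66) (nat_lit 5) (nat_lit 70) (nat_lit 5) (nat_lit 71) (nat_lit 5) (nat_lit 245) (nat_lit 198) (nat_lit 157))))) (XT.nd (nat_lit 282) (nat_lit 672) (nat_lit 0) (XT.nd (nat_lit 94) (nat_lit 420) (nat_lit 0) (XT.lf (nat_lit 0) (nat_lit 266706737) (nat_lit 336) (nat_lit 9341859994) (nat_lit 420) (nat_lit 830631424) (nat_lit 62) (nat_lit 5) (nat_lit 66) (nat_lit 5) (nat_lit 67) (nat_lit 5) (nat_lit 246) (nat_lit 198) (nat_lit 156)) (XT.nd (nat_lit 94) (nat_lit 336) (nat_lit 0) (XT.lf (nat_lit 0) (nat_lit 2542614085) (nat_lit 420) (nat_lit 2792063093) (nat_lit 84) (nat_lit 5293185462) (nat_lit 61) (nat_lit 5) (nat_lit 66) (nat_lit 5) (nat_lit 62) (nat_lit 5) (nat_lit 247) (nat_lit 198) (nat_lit 155)) (XT.lf (nat_lit 0) (nat_lit 4865531622) (nat_lit 336) (nat_lit 1148057274) (nat_lit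 420) (nat_lit 4809235665) (nat_lit 57) (nat_lit 5) (nat_lit 61) (nat_lit 5) (nat_lit 62) (nat_lit 5) (nat_lit 248) (nat_lit 198) (nat_lit 154)))) (XT.nd (nat_lit 94) (nat_lit 420) (nat_lit 0) (XT.lf (nat_lit 0) (nat_lit 1756126831) (nat_lit 252) (nat_lit 7883908903) (nat_lit 336) (nat_lit 1383384837) (nat_lit 54) (nat_lit 5) (nat_lit 57) (nat_lit 5) (nat_lit 58) (nat_lit 5) (nat_lit 249) (nat_lit 198) (nat_lit 153)) (XT.nd (nat_lit 94) (nat_lit 336) (nat_lit 0) (XT.lf (nat_lit 0) (nat_lit 2143605110) (nat_lit 336) (nat_lit 1467021879) (nat_lit 84) (nat_lit 7618507922) (nat_lit 53) (nat_lit 5) (nat_lit 57) (nat_lit 5) (nat_lit 54) (nat_lit 5) (nat_lit 250) (nat_lit 198) (nat_lit 152)) (XT.lf (nat_lit 0) (nat_lit 5793324510) (nat_lit 420) (nat_lit 4789219630) (nat_lit 84) (nat_lit 857835500) (nat_lit 49) (nat_lit 5) (nat_lit 54) (nat_lit 5) (nat_lit 50) (nat_lit 5) (nat_lit 251) (nat_lit 198)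 (nat_lit 151))))))) (XT.nd (nat_lit 32994) (nat_lit 0) (nat_lit 18228) (XT.nd (nat_lit 564) (nat_lit 1260) (nat_lit 0) (XT.nd (nat_lit 282) (nat_lit 588) (nat_lit 0) (XT.nd (nat_lit 94) (nat_lit 336) (nat_lit 0) (XT.lf (nat_lit 0) (nat_lit 3384558267) (nat_lit 252) (nat_lit 6231409750) (nat_lit 336) (nat_lit 2041468479) (nat_lit 46) (nat_lit 5) (nat_lit 49) (nat_lit 5) (nat_lit 50) (nat_lit 5) (nat_lit 252) (nat_lit 198) (nat_lit 150)) (XT.nd (nat_lit 94) (nat_lit 252) (nat_lit 0) (XT.lf (nat_lit 0) (nat_lit 1657747668) (nat_lit 336) (nat_lit 21091468) (nat_lit 84) (nat_lit 10202390405) (nat_lit 45) (nat_lit 5) (nat_lit 49) (nat_lit 5) (nat_lit 46) (nat_lit 5) (nat_lit 253) (nat_lit 198) (nat_lit 149)) (XT.lf (nat_lit 0) (nat_lit 5519687117) (nat_lit 336) (nat_lit 3532181538) (nat_lit 84) (nat_lit 3057322112) (nat_lit 42) (nat_lit 5) (nat_lit 46) (nat_lit 5) (nat_lit 43) (nat_lit 5) (nat_lit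 254) (nat_lit 198) (nat_lit 148)))) (XT.nd (nat_lit 94) (nat_lit 336) (nat_lit 0) (XT.lf (nat_lit 0) (nat_lit 5150163098) (nat_lit 252) (nat_lit 4394464950) (nat_lit 336) (nat_lit 2799528412) (nat_lit 39) (nat_lit 5) (nat_lit 42) (nat_lit 5) (nat_lit 43) (nat_lit 5) (nat_lit 255) (nat_lit 198) (nat_lit 147)) (XT.nd (nat_lit 94) (nat_lit 0) (nat_lit 0) (XT.lf (nat_lit 0) (nat_lit 1113706365) (nat_lit 336) (nat_lit 11012558098) (nat_lit 84) (nat_lit 460080858) (nat_lit 35) (nat_lit 5) (nat_lit 39) (nat_lit 5) (nat_lit 36) (nat_lit 5) (nat_lit 256) (nat_lit 198) (nat_lit 146)) (XT.lf (nat_lit 0) (nat_lit 5186276371) (nat_lit 336) (nat_lit 2176164014) (nat_lit 84) (nat_lit 5470357963) (nat_lit 35) (nat_lit 5) (nat_lit 39) (nat_lit 5) (nat_lit 36) (nat_lit 5) (nat_lit 257) (nat_lit 198) (nat_lit 145))))) (XT.nd (nat_lit 282) (nat_lit 672) (nat_lit 0) (XT.nd (nat_lit 94) (nat_lit 336) (nat_lit 0)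 (XT.lf (nat_lit 0) (nat_lit 7052735441) (nat_lit 252) (nat_lit 2380400451) (nat_lit 336) (nat_lit 3653630106) (nat_lit 32) (nat_lit 5) (nat_lit 35) (nat_lit 5) (nat_lit 36) (nat_lit 5) (nat_lit 258) (nat_lit 198) (nat_lit 144)) (XT.nd (nat_lit 94) (nat_lit 0) (nat_lit 0) (XT.lf (nat_lit 0) (nat_lit 515653482) (nat_lit 336) (nat_lit 10079761437) (nat_lit 84) (nat_lit 2752358229) (nat_lit 28) (nat_lit 5) (nat_lit 32) (nat_lit 5) (nat_lit 29) (nat_lit 5) (nat_lit 259) (nat_lit 198) (nat_lit 143)) (XT.lf (nat_lit 0) (nat_lit 4798359375) (nat_lit 336) (nat_lit 722598921) (nat_lit 84) (nat_lit 8093619150) (nat_lit 28) (nat_lit 5) (nat_lit 32) (nat_lit 5) (nat_lit 29) (nat_lit 5) (nat_lit 260) (nat_lit 198) (nat_lit 142)))) (XT.nd (nat_lit 94) (nat_lit 504) (nat_lit 0) (XT.lf (nat_lit 0) (nat_lit 9093582487) (nat_lit 168) (nat_lit 194031486) (nat_lit 252) (nat_lit 4601123030) (nat_lit 26) (nat_lit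 5) (nat_lit 28) (nat_lit 5) (nat_lit 29) (nat_lit 5) (nat_lit 261) (nat_lit 198) (nat_lit 141)) (XT.nd (nat_lit 94) (nat_lit 252) (nat_lit 0) (XT.lf (nat_lit 0) (nat_lit 5079261512) (nat_lit 252) (nat_lit 8934905922) (nat_lit 336) (nat_lit 155518587) (nat_lit 23) (nat_lit 5) (nat_lit 26) (nat_lit 5) (nat_lit 27) (nat_lit 5) (nat_lit 262) (nat_lit 198) (nat_lit 140)) (XT.lf (nat_lit 0) (nat_lit 847533231) (nat_lit 168) (nat_lit 3522117089) (nat_lit 252) (nat_lit 10088217246) (nat_lit 20) (nat_lit 5) (nat_lit 22) (nat_lit 5) (nat_lit 23) (nat_lit 5) (nat_lit 263) (nat_lit 198) (nat_lit 139)))))) (XT.nd (nat_lit 564) (nat_lit 2100) (nat_lit 0) (XT.nd (nat_lit 282) (nat_lit 336) (nat_lit 0) (XT.nd (nat_lit 94) (nat_lit 252) (nat_lit 0) (XT.lf (nat_lit 0) (nat_lit 74733480) (nat_lit 84) (nat_lit 1574509605) (nat_lit 84) (nat_lit 1574509605) (nat_lit 269) (nat_lit 4) (nat_lit 270) (nat_lit 5) (nat_lit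 270) (nat_lit 4) (nat_lit 202) (nat_lit 199) (nat_lit 199)) (XT.nd (nat_lit 94) (nat_lit 168) (nat_lit 0) (XT.lf (nat_lit 0) (nat_lit 73038952) (nat_lit 168) (nat_lit 2858414177) (nat_lit 84) (nat_lit 3523696208) (nat_lit 268) (nat_lit 5) (nat_lit 270) (nat_lit 5) (nat_lit 269) (nat_lit 4) (nat_lit 203) (nat_lit 199) (nat_lit 198)) (XT.lf (nat_lit 0) (nat_lit 598398662) (nat_lit 168) (nat_lit 2601015552) (nat_lit 252) (nat_lit 3267084994) (nat_lit 266) (nat_lit 5) (nat_lit 268) (nat_lit 5) (nat_lit 269) (nat_lit 4) (nat_lit 204) (nat_lit 199) (nat_lit 197)))) (XT.nd (nat_lit 94) (nat_lit 336) (nat_lit 0) (XT.lf (nat_lit 0) (nat_lit 4165302732) (nat_lit 168) (nat_lit 2166306062) (nat_lit 252) (nat_lit 150263662) (nat_lit 266) (nat_lit 5) (nat_lit 268) (nat_lit 5) (nat_lit 269) (nat_lit 4) (nat_lit 205) (nat_lit 199) (nat_lit 196)) (XT.nd (nat_lit 94) (nat_lit 0) (nat_lit 0) (XT.lf (nat_lit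 0) (nat_lit 1273921854) (nat_lit 252) (nat_lit 1611962472) (nat_lit 336) (nat_lit 3614900858) (nat_lit 262) (nat_lit 5) (nat_lit 265) (nat_lit 5) (nat_lit 266) (nat_lit 5) (nat_lit 206) (nat_lit 199) (nat_lit 195)) (XT.lf (nat_lit 0) (nat_lit 4964886651) (nat_lit 252) (nat_lit 956639250) (nat_lit 336) (nat_lit 602386889) (nat_lit 262) (nat_lit 5) (nat_lit 265) (nat_lit 5) (nat_lit 266) (nat_lit 5) (nat_lit 207) (nat_lit 199) (nat_lit 194))))) (XT.nd (nat_lit 282) (nat_lit 1176) (nat_lit 0) (XT.nd (nat_lit 94) (nat_lit 504) (nat_lit 0) (XT.lf (nat_lit 0) (nat_lit 2179234670) (nat_lit 336) (nat_lit 175973263) (nat_lit 420) (nat_lit 4195277069) (nat_lit 257) (nat_lit 5) (nat_lit 261) (nat_lit 5) (nat_lit 262) (nat_lit 5) (nat_lit 208) (nat_lit 199) (nat_lit 193)) (XT.nd (nat_lit 94) (nat_lit 504) (nat_lit 0) (XT.lf (nat_lit 0) (nat_lit 5304182731) (nat_lit 420) (nat_lit 589058932) (nat_lit 84)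 (nat_lit 687932410) (nat_lit 257) (nat_lit 5) (nat_lit 262) (nat_lit 5) (nat_lit 258) (nat_lit 5) (nat_lit 209) (nat_lit 199) (nat_lit 192)) (XT.lf (nat_lit 0) (nat_lit 1622509220) (nat_lit 504) (nat_lit 3316001153) (nat_lit 84) (nat_lit 1676595783) (nat_lit 251) (nat_lit 5) (nat_lit 257) (nat_lit 5) (nat_lit 252) (nat_lit 5) (nat_lit 210) (nat_lit 199) (nat_lit 191)))) (XT.nd (nat_lit 94) (nat_lit 672) (nat_lit 0) (XT.lf (nat_lit 0) (nat_lit 604127435) (nat_lit 504) (nat_lit 3885503096) (nat_lit 588) (nat_lit 2163716180) (nat_lit 245) (nat_lit 5) (nat_lit 251) (nat_lit 5) (nat_lit 252) (nat_lit 5) (nat_lit 211) (nat_lit 199) (nat_lit 190)) (XT.nd (nat_lit 94) (nat_lit 588) (nat_lit 0) (XT.lf (nat_lit 0) (nat_lit 670522571) (nat_lit 588) (nat_lit 2043468411) (nat_lit 84) (nat_lit 3981308093) (nat_lit 244) (nat_lit 5) (nat_lit 251) (nat_lit 5) (nat_lit 245) (nat_lit 5) (nat_lit 212) (nat_lit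 199) (nat_lit 189)) (XT.lf (nat_lit 0) (nat_lit 2042657036) (nat_lit 588) (nat_lit 1421299226) (nat_lit 672) (nat_lit 3277013076) (nat_lit 237) (nat_lit 5) (nat_lit 244) (nat_lit 5) (nat_lit 245) (nat_lit 5) (nat_lit 213) (nat_lit 199) (nat_lit 188))))))))
noncomputable def xc20 : XT := (XT.nd (nat_lit 2162) (nat_lit 5796) (nat_lit 0) (XT.nd (nat_lit 1034) (nat_lit 4620) (nat_lit 0) (XT.nd (nat_lit 470) (nat_lit 4368) (nat_lit 0) (XT.nd (nat_lit 188) (nat_lit 1680) (nat_lit 0) (XT.nd (nat_lit 94) (nat_lit 756) (nat_lit 0) (XT.lf (nat_lit 0) (nat_lit 6240600729) (nat_lit 588) (nat_lit 29579097) (nat_lit 672) (nat_lit 521032546) (nat_lit 237) (nat_lit 5) (nat_lit 244) (nat_lit 5) (nat_lit 245) (nat_lit 5) (nat_lit 214) (nat_lit 199) (nat_lit 187)) (XT.lf (nat_lit 0) (nat_lit 2230174948) (nat_lit 756) (nat_lit 3140759237) (nat_lit 84) (nat_lit 1473063463) (nat_lit 228) (nat_lit 5) (nat_lit 237)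 (nat_lit 5) (nat_lit 229) (nat_lit 5) (nat_lit 215) (nat_lit 199) (nat_lit 186))) (XT.nd (nat_lit 94) (nat_lit 924) (nat_lit 0) (XT.lf (nat_lit 0) (nat_lit 1157590485) (nat_lit 756) (nat_lit 3824048979) (nat_lit 840) (nat_lit 1919713915) (nat_lit 219) (nat_lit 5) (nat_lit 228) (nat_lit 5) (nat_lit 229) (nat_lit 5) (nat_lit 216) (nat_lit 199) (nat_lit 185)) (XT.nd (nat_lit 94) (nat_lit 840) (nat_lit 0) (XT.lf (nat_lit 0) (nat_lit 784284688) (nat_lit 840) (nat_lit 1372174970) (nat_lit 84) (nat_lit 4806182884) (nat_lit 218) (nat_lit 5) (nat_lit 228) (nat_lit 5) (nat_lit 219) (nat_lit 5) (nat_lit 217) (nat_lit 199) (nat_lit 184)) (XT.lf (nat_lit 0) (nat_lit 3119417952) (nat_lit 840) (nat_lit 354472139) (nat_lit 924) (nat_lit 3553651245) (nat_lit 208) (nat_lit 5) (nat_lit 218) (nat_lit 5) (nat_lit 219) (nat_lit 5) (nat_lit 218) (nat_lit 199) (nat_lit 183))))) (XT.nd (nat_lit 282) (nat_lit 2352)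 (nat_lit 0) (XT.nd (nat_lit 94) (nat_lit 1092) (nat_lit 0) (XT.lf (nat_lit 0) (nat_lit 619850447) (nat_lit 924) (nat_lit 5581772682) (nat_lit 1008) (nat_lit 895048758) (nat_lit 197) (nat_lit 5) (nat_lit 208) (nat_lit 5) (nat_lit 209) (nat_lit 5) (nat_lit 219) (nat_lit 199) (nat_lit 182)) (XT.nd (nat_lit 94) (nat_lit 1008) (nat_lit 0) (XT.lf (nat_lit 0) (nat_lit 1770359021) (nat_lit 1008) (nat_lit 1877216126) (nat_lit 84) (nat_lit 3521468032) (nat_lit 196) (nat_lit 5) (nat_lit 208) (nat_lit 5) (nat_lit 197) (nat_lit 5) (nat_lit 220) (nat_lit 199) (nat_lit 181)) (XT.lf (nat_lit 0) (nat_lit 2855235023) (nat_lit 1008) (nat_lit 1592955387) (nat_lit 1092) (nat_lit 2797490920) (nat_lit 184) (nat_lit 5) (nat_lit 196) (nat_lit 5) (nat_lit 197) (nat_lit 5) (nat_lit 221) (nat_lit 199) (nat_lit 180)))) (XT.nd (nat_lit 94) (nat_lit 1260) (nat_lit 0) (XT.lf (nat_lit 0) (nat_lit 392022702) (nat_lit 1092)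 (nat_lit 6771046451) (nat_lit 1176) (nat_lit 163916349) (nat_lit 171) (nat_lit 5) (nat_lit 184) (nat_lit 5) (nat_lit 185) (nat_lit 5) (nat_lit 222) (nat_lit 199) (nat_lit 179)) (XT.nd (nat_lit 94) (nat_lit 1176) (nat_lit 0) (XT.lf (nat_lit 0) (nat_lit 2486204876) (nat_lit 1176) (nat_lit 2095450014) (nat_lit 84) (nat_lit 2829095305) (nat_lit 170) (nat_lit 5) (nat_lit 184) (nat_lit 5) (nat_lit 171) (nat_lit 5) (nat_lit 223) (nat_lit 199) (nat_lit 178)) (XT.lf (nat_lit 0) (nat_lit 2894165002) (nat_lit 1176) (nat_lit 2277988093) (nat_lit 1260) (nat_lit 2327085213) (nat_lit 156) (nat_lit 5) (nat_lit 170) (nat_lit 5) (nat_lit 171) (nat_lit 5) (nat_lit 224) (nat_lit 199) (nat_lit 177)))))) (XT.nd (nat_lit 564) (nat_lit 2100) (nat_lit 0) (XT.nd (nat_lit 282) (nat_lit 1176) (nat_lit 0) (XT.nd (nat_lit 94) (nat_lit 588) (nat_lit 0) (XT.lf (nat_lit 0) (nat_lit 300273483) (nat_lit 756) (nat_lit 7153738301)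 (nat_lit 84) (nat_lit 138519550) (nat_lit 147) (nat_lit 5) (nat_lit 156) (nat_lit 5) (nat_lit 148) (nat_lit 5) (nat_lit 225) (nat_lit 199) (nat_lit 176)) (XT.nd (nat_lit 94) (nat_lit 588) (nat_lit 0) (XT.lf (nat_lit 0) (nat_lit 2963813432) (nat_lit 756) (nat_lit 2057089025) (nat_lit 84) (nat_lit 2667288651) (nat_lit 147) (nat_lit 5) (nat_lit 156) (nat_lit 5) (nat_lit 148) (nat_lit 5) (nat_lit 226) (nat_lit 199) (nat_lit 175)) (XT.lf (nat_lit 0) (nat_lit 3207638488) (nat_lit 588) (nat_lit 2469065636) (nat_lit 672) (nat_lit 2112030409) (nat_lit 140) (nat_lit 5) (nat_lit 147) (nat_lit 5) (nat_lit 148) (nat_lit 5) (nat_lit 227) (nat_lit 199) (nat_lit 174)))) (XT.nd (nat_lit 94) (nat_lit 504) (nat_lit 0) (XT.lf (nat_lit 0) (nat_lit 534711190) (nat_lit 672) (nat_lit 7156416328) (nat_lit 84) (nat_lit 202965405) (nat_lit 132) (nat_lit 5) (nat_lit 140) (nat_lit 5) (nat_lit 133) (nat_lit 5) (nat_lit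 228) (nat_lit 199) (nat_lit 173)) (XT.nd (nat_lit 94) (nat_lit 504) (nat_lit 0) (XT.lf (nat_lit 0) (nat_lit 3230614794) (nat_lit 672) (nat_lit 1787677992) (nat_lit 84) (nat_lit 2983780423) (nat_lit 132) (nat_lit 5) (nat_lit 140) (nat_lit 5) (nat_lit 133) (nat_lit 5) (nat_lit 229) (nat_lit 199) (nat_lit 172)) (XT.lf (nat_lit 0) (nat_lit 3771796145) (nat_lit 504) (nat_lit 2216649263) (nat_lit 588) (nat_lit 2126522432) (nat_lit 126) (nat_lit 5) (nat_lit 132) (nat_lit 5) (nat_lit 133) (nat_lit 5) (nat_lit 230) (nat_lit 199) (nat_lit 171))))) (XT.nd (nat_lit 282) (nat_lit 1008) (nat_lit 0) (XT.nd (nat_lit 94) (nat_lit 504) (nat_lit 0) (XT.lf (nat_lit 0) (nat_lit 566990374) (nat_lit 588) (nat_lit 6964773116) (nat_lit 84) (nat_lit 700867003) (nat_lit 119) (nat_lit 5) (nat_lit 126) (nat_lit 5) (nat_lit 120) (nat_lit 5) (nat_lit 231) (nat_lit 199) (nat_lit 170)) (XT.nd (nat_lit 94) (nat_lit 504) (nat_lit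 0) (XT.lf (nat_lit 0) (nat_lit 3310040951) (nat_lit 588) (nat_lit 1308648899) (nat_lit 84) (nat_lit 3734682230) (nat_lit 119) (nat_lit 5) (nat_lit 126) (nat_lit 5) (nat_lit 120) (nat_lit 5) (nat_lit 232) (nat_lit 199) (nat_lit 169)) (XT.lf (nat_lit 0) (nat_lit 4566947033) (nat_lit 504) (nat_lit 1563247595) (nat_lit 588) (nat_lit 2348806624) (nat_lit 113) (nat_lit 5) (nat_lit 119) (nat_lit 5) (nat_lit 120) (nat_lit 5) (nat_lit 233) (nat_lit 199) (nat_lit 168)))) (XT.nd (nat_lit 94) (nat_lit 420) (nat_lit 0) (XT.lf (nat_lit 0) (nat_lit 417322709) (nat_lit 588) (nat_lit 6598755310) (nat_lit 84) (nat_lit 1593223244) (nat_lit 106) (nat_lit 5) (nat_lit 113) (nat_lit 5) (nat_lit 107) (nat_lit 5) (nat_lit 234) (nat_lit 199) (nat_lit 167)) (XT.nd (nat_lit 94) (nat_lit 420) (nat_lit 0) (XT.lf (nat_lit 0) (nat_lit 3222014424) (nat_lit 588) (nat_lit 637800686) (nat_lit 84) (nat_lit 4883508202) (nat_lit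 106) (nat_lit 5) (nat_lit 113) (nat_lit 5) (nat_lit 107) (nat_lit 5) (nat_lit 235) (nat_lit 199) (nat_lit 166)) (XT.lf (nat_lit 0) (nat_lit 5577101463) (nat_lit 420) (nat_lit 544352768) (nat_lit 504) (nat_lit 2760701467) (nat_lit 101) (nat_lit 5) (nat_lit 106) (nat_lit 5) (nat_lit 107) (nat_lit 5) (nat_lit 236) (nat_lit 199) (nat_lit 165))))))) (XT.nd (nat_lit 1034) (nat_lit 2436) (nat_lit 0) (XT.nd (nat_lit 470) (nat_lit 1596) (nat_lit 0) (XT.nd (nat_lit 188) (nat_lit 840) (nat_lit 0) (XT.nd (nat_lit 94) (nat_lit 420) (nat_lit 0) (XT.lf (nat_lit 0) (nat_lit 102691056) (nat_lit 504) (nat_lit 6075089704) (nat_lit 84) (nat_lit 2847736474) (nat_lit 95) (nat_lit 5) (nat_lit 101) (nat_lit 5) (nat_lit 96) (nat_lit 5) (nat_lit 237) (nat_lit 199) (nat_lit 164)) (XT.lf (nat_lit 0) (nat_lit 215165170) (nat_lit 420) (nat_lit 2770604231) (nat_lit 504) (nat_lit 6187563818) (nat_lit 90) (nat_lit 5) (nat_lit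 95) (nat_lit 5) (nat_lit 96) (nat_lit 5) (nat_lit 238) (nat_lit 199) (nat_lit 163))) (XT.nd (nat_lit 94) (nat_lit 840) (nat_lit 0) (XT.lf (nat_lit 0) (nat_lit 5987852108) (nat_lit 504) (nat_lit 2545469927) (nat_lit 84) (nat_lit 792367344) (nat_lit 90) (nat_lit 5) (nat_lit 96) (nat_lit 5) (nat_lit 91) (nat_lit 5) (nat_lit 239) (nat_lit 199) (nat_lit 162)) (XT.nd (nat_lit 94) (nat_lit 420) (nat_lit 0) (XT.lf (nat_lit 0) (nat_lit 4071000635) (nat_lit 420) (nat_lit 5040606976) (nat_lit 504) (nat_lit 371189399) (nat_lit 85) (nat_lit 5) (nat_lit 90) (nat_lit 5) (nat_lit 91) (nat_lit 5) (nat_lit 240) (nat_lit 199) (nat_lit 161)) (XT.lf (nat_lit 0) (nat_lit 1252288879) (nat_lit 336) (nat_lit 1369896075) (nat_lit 420) (nat_lit 7022722356) (nat_lit 80) (nat_lit 5) (nat_lit 84) (nat_lit 5) (nat_lit 85) (nat_lit 5) (nat_lit 241) (nat_lit 199) (nat_lit 160))))) (XT.nd (nat_lit 282) (nat_lit 756) (nat_lit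 0) (XT.nd (nat_lit 94) (nat_lit 840) (nat_lit 0) (XT.lf (nat_lit 0) (nat_lit 5743940709) (nat_lit 420) (nat_lit 1645375733) (nat_lit 84) (nat_lit 2422093857) (nat_lit 80) (nat_lit 5) (nat_lit 85) (nat_lit 5) (nat_lit 81) (nat_lit 5) (nat_lit 242) (nat_lit 199) (nat_lit 159)) (XT.nd (nat_lit 94) (nat_lit 420) (nat_lit 0) (XT.lf (nat_lit 0) (nat_lit 5364237633) (nat_lit 420) (nat_lit 3628956766) (nat_lit 504) (nat_lit 989908217) (nat_lit 75) (nat_lit 5) (nat_lit 80) (nat_lit 5) (nat_lit 81) (nat_lit 5) (nat_lit 243) (nat_lit 199) (nat_lit 158)) (XT.lf (nat_lit 0) (nat_lit 2139098504) (nat_lit 420) (nat_lit 7714396549) (nat_lit 84) (nat_lit 306680154) (nat_lit 70) (nat_lit 5) (nat_lit 75) (nat_lit 5) (nat_lit 71) (nat_lit 5) (nat_lit 244) (nat_lit 199) (nat_lit 157)))) (XT.nd (nat_lit 94) (nat_lit 756) (nat_lit 0) (XT.lf (nat_lit 0) (nat_lit 5395235268) (nat_lit 420) (nat_lit 607649399) (nat_lit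 84) (nat_lit 4338731516) (nat_lit 70) (nat_lit 5) (nat_lit 75) (nat_lit 5) (nat_lit 71) (nat_lit 5) (nat_lit 245) (nat_lit 199) (nat_lit 156)) (XT.nd (nat_lit 94) (nat_lit 420) (nat_lit 0) (XT.lf (nat_lit 0) (nat_lit 6824494829) (nat_lit 336) (nat_lit 1962646412) (nat_lit 420) (nat_lit 1741503198) (nat_lit 66) (nat_lit 5) (nat_lit 70) (nat_lit 5) (nat_lit 71) (nat_lit 5) (nat_lit 246) (nat_lit 199) (nat_lit 155)) (XT.lf (nat_lit 0) (nat_lit 1560757475) (nat_lit 420) (nat_lit 6947518871) (nat_lit 84) (nat_lit 2212595133) (nat_lit 61) (nat_lit 5) (nat_lit 66) (nat_lit 5) (nat_lit 62) (nat_lit 5) (nat_lit 247) (nat_lit 199) (nat_lit 154)))))) (XT.nd (nat_lit 564) (nat_lit 1092) (nat_lit 0) (XT.nd (nat_lit 282) (nat_lit 672) (nat_lit 0) (XT.nd (nat_lit 94) (nat_lit 336) (nat_lit 0) (XT.lf (nat_lit 0) (nat_lit 573884901) (nat_lit 336) (nat_lit 4383890685) (nat_lit 420) (nat_lit 5960646297) (nat_lit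 57) (nat_lit 5) (nat_lit 61) (nat_lit 5) (nat_lit 62) (nat_lit 5) (nat_lit 248) (nat_lit 199) (nat_lit 153)) (XT.nd (nat_lit 94) (nat_lit 336) (nat_lit 0) (XT.lf (nat_lit 0) (nat_lit 8447143261) (nat_lit 336) (nat_lit 56259838) (nat_lit 420) (nat_lit 2618443470) (nat_lit 57) (nat_lit 5) (nat_lit 61) (nat_lit 5) (nat_lit 62) (nat_lit 5) (nat_lit 249) (nat_lit 199) (nat_lit 152)) (XT.lf (nat_lit 0) (nat_lit 879402509) (nat_lit 336) (nat_lit 6084002891) (nat_lit 84) (nat_lit 4366637334) (nat_lit 53) (nat_lit 5) (nat_lit 57) (nat_lit 5) (nat_lit 54) (nat_lit 5) (nat_lit 250) (nat_lit 199) (nat_lit 151)))) (XT.nd (nat_lit 94) (nat_lit 336) (nat_lit 0) (XT.lf (nat_lit 0) (nat_lit 1898290921) (nat_lit 336) (nat_lit 2543173259) (nat_lit 420) (nat_lit 7102891303) (nat_lit 49) (nat_lit 5) (nat_lit 53) (nat_lit 5) (nat_lit 54) (nat_lit 5) (nat_lit 251) (nat_lit 199) (nat_lit 150)) (XT.nd (nat_lit 94)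 (nat_lit 336) (nat_lit 0) (XT.lf (nat_lit 0) (nat_lit 8173525343) (nat_lit 420) (nat_lit 1558978747) (nat_lit 84) (nat_lit 2032078631) (nat_lit 49) (nat_lit 5) (nat_lit 54) (nat_lit 5) (nat_lit 50) (nat_lit 5) (nat_lit 252) (nat_lit 199) (nat_lit 149)) (XT.lf (nat_lit 0) (nat_lit 100911282) (nat_lit 336) (nat_lit 5129510685) (nat_lit 84) (nat_lit 6760041515) (nat_lit 45) (nat_lit 5) (nat_lit 49) (nat_lit 5) (nat_lit 46) (nat_lit 5) (nat_lit 253) (nat_lit 199) (nat_lit 148))))) (XT.nd (nat_lit 282) (nat_lit 588) (nat_lit 0) (XT.nd (nat_lit 94) (nat_lit 252) (nat_lit 0) (XT.lf (nat_lit 0) (nat_lit 3348170582) (nat_lit 252) (nat_lit 497582557) (nat_lit 336) (nat_lit 8376769985) (nat_lit 42) (nat_lit 5) (nat_lit 45) (nat_lit 5) (nat_lit 46) (nat_lit 5) (nat_lit 254) (nat_lit 199) (nat_lit 147)) (XT.nd (nat_lit 94) (nat_lit 252) (nat_lit 0) (XT.lf (nat_lit 0) (nat_lit 7784424465) (nat_lit 336)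 (nat_lit 340594796) (nat_lit 84) (nat_lit 4335488993) (nat_lit 42) (nat_lit 5) (nat_lit 46) (nat_lit 5) (nat_lit 43) (nat_lit 5) (nat_lit 255) (nat_lit 199) (nat_lit 146)) (XT.lf (nat_lit 0) (nat_lit 8607836314) (nat_lit 252) (nat_lit 3308867135) (nat_lit 336) (nat_lit 788168018) (nat_lit 39) (nat_lit 5) (nat_lit 42) (nat_lit 5) (nat_lit 43) (nat_lit 5) (nat_lit 256) (nat_lit 199) (nat_lit 145)))) (XT.nd (nat_lit 94) (nat_lit 252) (nat_lit 0) (XT.lf (nat_lit 0) (nat_lit 3195143915) (nat_lit 336) (nat_lit 8053694063) (nat_lit 84) (nat_lit 1706543405) (nat_lit 35) (nat_lit 5) (nat_lit 39) (nat_lit 5) (nat_lit 36) (nat_lit 5) (nat_lit 257) (nat_lit 199) (nat_lit 144)) (XT.nd (nat_lit 94) (nat_lit 0) (nat_lit 0) (XT.lf (nat_lit 0) (nat_lit 1001591789) (nat_lit 252) (nat_lit 6350753346) (nat_lit 336) (nat_lit 5860141937) (nat_lit 32) (nat_lit 5) (nat_lit 35) (nat_lit 5) (nat_lit 36) (nat_lit 5)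 (nat_lit 258) (nat_lit 199) (nat_lit 143)) (XT.lf (nat_lit 0) (nat_lit 10493954446) (nat_lit 252) (nat_lit 1211589626) (nat_lit 336) (nat_lit 1771280041) (nat_lit 32) (nat_lit 5) (nat_lit 35) (nat_lit 5) (nat_lit 36) (nat_lit 5) (nat_lit 259) (nat_lit 199) (nat_lit 142))))))))
noncomputable def xc21 : XT := (XT.nd (nat_lit 33840) (nat_lit 0) (nat_lit 4872) (XT.nd (nat_lit 32712) (nat_lit 0) (nat_lit 15624) (XT.nd (nat_lit 32148) (nat_lit 0) (nat_lit 20160) (XT.nd (nat_lit 188) (nat_lit 336) (nat_lit 0) (XT.nd (nat_lit 94) (nat_lit 168) (nat_lit 0) (XT.lf (nat_lit 0) (nat_lit 2481739895) (nat_lit 336) (nat_lit 7175991246) (nat_lit 84) (nat_lit 4089032720) (nat_lit 28) (nat_lit 5) (nat_lit 32) (nat_lit 5) (nat_lit 29) (nat_lit 5) (nat_lit 260) (nat_lit 199) (nat_lit 141)) (XT.lf (nat_lit 0) (nat_lit 2454193743) (nat_lit 168) (nat_lit 4421616045) (nat_lit 252) (nat_lit 7148445094) (nat_lit 26)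 (nat_lit 5) (nat_lit 28) (nat_lit 5) (nat_lit 29) (nat_lit 5) (nat_lit 261) (nat_lit 199) (nat_lit 140))) (XT.nd (nat_lit 94) (nat_lit 336) (nat_lit 0) (XT.lf (nat_lit 0) (nat_lit 11477626121) (nat_lit 252) (nat_lit 1799331180) (nat_lit 84) (nat_lit 1032612398) (nat_lit 26) (nat_lit 5) (nat_lit 29) (nat_lit 5) (nat_lit 27) (nat_lit 5) (nat_lit 262) (nat_lit 199) (nat_lit 139)) (XT.nd (nat_lit 31772) (nat_lit 0) (nat_lit 20916) (XT.lf (nat_lit 0) (nat_lit 1702759153) (nat_lit 336) (nat_lit 6238267705) (nat_lit 84) (nat_lit 6659558453) (nat_lit 22) (nat_lit 5) (nat_lit 26) (nat_lit 5) (nat_lit 23) (nat_lit 5) (nat_lit 263) (nat_lit 199) (nat_lit 138)) (XT.lf (nat_lit 0) (nat_lit 1073741823) (nat_lit 0) (nat_lit 0) (nat_lit 0) (nat_lit 0) (nat_lit 271) (nat_lit 0) (nat_lit 1) (nat_lit 0) (nat_lit 1) (nat_lit 0) (nat_lit 200) (nat_lit 200) (nat_lit 200))))) (XT.nd (nat_lit 282) (nat_lit 504) (nat_lit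 0) (XT.nd (nat_lit 94) (nat_lit 168) (nat_lit 0) (XT.lf (nat_lit 0) (nat_lit 3185334094) (nat_lit 84) (nat_lit 3185334094) (nat_lit 0) (nat_lit 73038952) (nat_lit 270) (nat_lit 5) (nat_lit 271) (nat_lit 0) (nat_lit 270) (nat_lit 4) (nat_lit 201) (nat_lit 200) (nat_lit 199)) (XT.nd (nat_lit 94) (nat_lit 84) (nat_lit 0) (XT.lf (nat_lit 0) (nat_lit 110215672) (nat_lit 84) (nat_lit 6229559260) (nat_lit 84) (nat_lit 110215672) (nat_lit 269) (nat_lit 4) (nat_lit 270) (nat_lit 5) (nat_lit 270) (nat_lit 4) (nat_lit 202) (nat_lit 200) (nat_lit 198)) (XT.lf (nat_lit 0) (nat_lit 2973543461) (nat_lit 168) (nat_lit 2973543461) (nat_lit 84) (nat_lit 511791453) (nat_lit 268) (nat_lit 5) (nat_lit 270) (nat_lit 5) (nat_lit 269) (nat_lit 4) (nat_lit 203) (nat_lit 200) (nat_lit 197)))) (XT.nd (nat_lit 94) (nat_lit 336) (nat_lit 0) (XT.lf (nat_lit 0) (nat_lit 441515086) (nat_lit 168) (nat_lit 5589605991) (nat_lit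 252) (nat_lit 441515086) (nat_lit 266) (nat_lit 5) (nat_lit 268) (nat_lit 5) (nat_lit 269) (nat_lit 4) (nat_lit 204) (nat_lit 200) (nat_lit 196)) (XT.nd (nat_lit 94) (nat_lit 252) (nat_lit 0) (XT.lf (nat_lit 0) (nat_lit 2548690694) (nat_lit 252) (nat_lit 2548690694) (nat_lit 84) (nat_lit 1391893143) (nat_lit 265) (nat_lit 5) (nat_lit 268) (nat_lit 5) (nat_lit 266) (nat_lit 5) (nat_lit 205) (nat_lit 200) (nat_lit 195)) (XT.lf (nat_lit 0) (nat_lit 995858676) (nat_lit 252) (nat_lit 4518750104) (nat_lit 336) (nat_lit 995858676) (nat_lit 262) (nat_lit 5) (nat_lit 265) (nat_lit 5) (nat_lit 266) (nat_lit 5) (nat_lit 206) (nat_lit 200) (nat_lit 194)))))) (XT.nd (nat_lit 564) (nat_lit 3024) (nat_lit 0) (XT.nd (nat_lit 282) (nat_lit 1008) (nat_lit 0) (XT.nd (nat_lit 94) (nat_lit 420) (nat_lit 0) (XT.lf (nat_lit 0) (nat_lit 1908226451) (nat_lit 336) (nat_lit 1908226451) (nat_lit 84) (nat_lit 2718550307)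 (nat_lit 261) (nat_lit 5) (nat_lit 265) (nat_lit 5) (nat_lit 262) (nat_lit 5) (nat_lit 207) (nat_lit 200) (nat_lit 193)) (XT.nd (nat_lit 94) (nat_lit 84) (nat_lit 0) (XT.lf (nat_lit 0) (nat_lit 1776524663) (nat_lit 336) (nat_lit 3010568607) (nat_lit 420) (nat_lit 1776524663) (nat_lit 257) (nat_lit 5) (nat_lit 261) (nat_lit 5) (nat_lit 262) (nat_lit 5) (nat_lit 208) (nat_lit 200) (nat_lit 192)) (XT.lf (nat_lit 0) (nat_lit 1048310843) (nat_lit 420) (nat_lit 1048310843) (nat_lit 84) (nat_lit 4499604715) (nat_lit 256) (nat_lit 5) (nat_lit 261) (nat_lit 5) (nat_lit 257) (nat_lit 5) (nat_lit 209) (nat_lit 200) (nat_lit 191)))) (XT.nd (nat_lit 94) (nat_lit 588) (nat_lit 0) (XT.lf (nat_lit 0) (nat_lit 2788125348) (nat_lit 420) (nat_lit 1056024527) (nat_lit 504) (nat_lit 2788125348) (nat_lit 251) (nat_lit 5) (nat_lit 256) (nat_lit 5) (nat_lit 257) (nat_lit 5) (nat_lit 210) (nat_lit 200) (nat_lit 190))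 (XT.nd (nat_lit 94) (nat_lit 84) (nat_lit 0) (XT.lf (nat_lit 0) (nat_lit 35792941) (nat_lit 504) (nat_lit 6601518486) (nat_lit 588) (nat_lit 35792941) (nat_lit 245) (nat_lit 5) (nat_lit 251) (nat_lit 5) (nat_lit 252) (nat_lit 5) (nat_lit 211) (nat_lit 200) (nat_lit 189)) (XT.lf (nat_lit 0) (nat_lit 2695167116) (nat_lit 588) (nat_lit 2695167116) (nat_lit 84) (nat_lit 1325818697) (nat_lit 244) (nat_lit 5) (nat_lit 251) (nat_lit 5) (nat_lit 245) (nat_lit 5) (nat_lit 212) (nat_lit 200) (nat_lit 188))))) (XT.nd (nat_lit 282) (nat_lit 1680) (nat_lit 0) (XT.nd (nat_lit 94) (nat_lit 756) (nat_lit 0) (XT.lf (nat_lit 0) (nat_lit 1336396645) (nat_lit 588) (nat_lit 4091166231) (nat_lit 672) (nat_lit 1336396645) (nat_lit 237) (nat_lit 5) (nat_lit 244) (nat_lit 5) (nat_lit 245) (nat_lit 5) (nat_lit 213) (nat_lit 200) (nat_lit 187)) (XT.nd (nat_lit 94) (nat_lit 672) (nat_lit 0) (XT.lf (nat_lit 0) (nat_lit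 1335003233) (nat_lit 672) (nat_lit 1335003233) (nat_lit 84) (nat_lit 4145476228) (nat_lit 236) (nat_lit 5) (nat_lit 244) (nat_lit 5) (nat_lit 237) (nat_lit 5) (nat_lit 214) (nat_lit 200) (nat_lit 186)) (XT.lf (nat_lit 0) (nat_lit 2873214758) (nat_lit 672) (nat_lit 1124325248) (nat_lit 756) (nat_lit 2873214758) (nat_lit 228) (nat_lit 5) (nat_lit 236) (nat_lit 5) (nat_lit 237) (nat_lit 5) (nat_lit 215) (nat_lit 200) (nat_lit 185)))) (XT.nd (nat_lit 94) (nat_lit 924) (nat_lit 0) (XT.lf (nat_lit 0) (nat_lit 253417218) (nat_lit 756) (nat_lit 6423789001) (nat_lit 840) (nat_lit 253417218) (nat_lit 219) (nat_lit 5) (nat_lit 228) (nat_lit 5) (nat_lit 229) (nat_lit 5) (nat_lit 216) (nat_lit 200) (nat_lit 184)) (XT.nd (nat_lit 94) (nat_lit 840) (nat_lit 0) (XT.lf (nat_lit 0) (nat_lit 2364279134) (nat_lit 840) (nat_lit 2364279134) (nat_lit 84) (nat_lit 2264402722) (nat_lit 218) (nat_lit 5) (nat_lit 228)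 (nat_lit 5) (nat_lit 219) (nat_lit 5) (nat_lit 217) (nat_lit 200) (nat_lit 183)) (XT.lf (nat_lit 0) (nat_lit 2064659041) (nat_lit 840) (nat_lit 2930593812) (nat_lit 924) (nat_lit 2064659041) (nat_lit 208) (nat_lit 5) (nat_lit 218) (nat_lit 5) (nat_lit 219) (nat_lit 5) (nat_lit 218) (nat_lit 200) (nat_lit 182))))))) (XT.nd (nat_lit 1128) (nat_lit 3864) (nat_lit 0) (XT.nd (nat_lit 564) (nat_lit 2520) (nat_lit 0) (XT.nd (nat_lit 282) (nat_lit 2352) (nat_lit 0) (XT.nd (nat_lit 94) (nat_lit 1932) (nat_lit 0) (XT.lf (nat_lit 0) (nat_lit 509851655) (nat_lit 924) (nat_lit 509851655) (nat_lit 84) (nat_lit 6111579371) (nat_lit 207) (nat_lit 5) (nat_lit 218) (nat_lit 5) (nat_lit 208) (nat_lit 5) (nat_lit 219) (nat_lit 200) (nat_lit 181)) (XT.nd (nat_lit 94) (nat_lit 1008) (nat_lit 0) (XT.lf (nat_lit 0) (nat_lit 3092674732) (nat_lit 1008) (nat_lit 3092674732) (nat_lit 84) (nat_lit 1020135616) (nat_lit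 196) (nat_lit 5) (nat_lit 208) (nat_lit 5) (nat_lit 197) (nat_lit 5) (nat_lit 220) (nat_lit 200) (nat_lit 180)) (XT.lf (nat_lit 0) (nat_lit 1571470405) (nat_lit 1008) (nat_lit 4141206446) (nat_lit 1092) (nat_lit 1571470405) (nat_lit 184) (nat_lit 5) (nat_lit 196) (nat_lit 5) (nat_lit 197) (nat_lit 5) (nat_lit 221) (nat_lit 200) (nat_lit 179)))) (XT.nd (nat_lit 94) (nat_lit 2268) (nat_lit 0) (XT.lf (nat_lit 0) (nat_lit 984267376) (nat_lit 1092) (nat_lit 984267376) (nat_lit 84) (nat_lit 5398383884) (nat_lit 183) (nat_lit 5) (nat_lit 196) (nat_lit 5) (nat_lit 184) (nat_lit 5) (nat_lit 222) (nat_lit 200) (nat_lit 178)) (XT.nd (nat_lit 94) (nat_lit 1176) (nat_lit 0) (XT.lf (nat_lit 0) (nat_lit 3555457440) (nat_lit 1176) (nat_lit 3555457440) (nat_lit 84) (nat_lit 342337033) (nat_lit 170) (nat_lit 5) (nat_lit 184) (nat_lit 5) (nat_lit 171) (nat_lit 5) (nat_lit 223) (nat_lit 200) (nat_lit 177)) (XT.lf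 (nat_lit 0) (nat_lit 1359957117) (nat_lit 1176) (nat_lit 4823842020) (nat_lit 1260) (nat_lit 1359957117) (nat_lit 156) (nat_lit 5) (nat_lit 170) (nat_lit 5) (nat_lit 171) (nat_lit 5) (nat_lit 224) (nat_lit 200) (nat_lit 176))))) (XT.nd (nat_lit 282) (nat_lit 1176) (nat_lit 0) (XT.nd (nat_lit 94) (nat_lit 1260) (nat_lit 0) (XT.lf (nat_lit 0) (nat_lit 1198953413) (nat_lit 1260) (nat_lit 1198953413) (nat_lit 84) (nat_lit 5240393471) (nat_lit 155) (nat_lit 5) (nat_lit 170) (nat_lit 5) (nat_lit 156) (nat_lit 5) (nat_lit 225) (nat_lit 200) (nat_lit 175)) (XT.nd (nat_lit 94) (nat_lit 588) (nat_lit 0) (XT.lf (nat_lit 0) (nat_lit 3782827106) (nat_lit 756) (nat_lit 3782827106) (nat_lit 84) (nat_lit 171094178) (nat_lit 147) (nat_lit 5) (nat_lit 156) (nat_lit 5) (nat_lit 148) (nat_lit 5) (nat_lit 226) (nat_lit 200) (nat_lit 174)) (XT.lf (nat_lit 0) (nat_lit 1401524290) (nat_lit 588) (nat_lit 5036270538)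 (nat_lit 672) (nat_lit 1401524290) (nat_lit 140) (nat_lit 5) (nat_lit 147) (nat_lit 5) (nat_lit 148) (nat_lit 5) (nat_lit 227) (nat_lit 200) (nat_lit 173)))) (XT.nd (nat_lit 94) (nat_lit 1092) (nat_lit 0) (XT.lf (nat_lit 0) (nat_lit 1181165997) (nat_lit 672) (nat_lit 1181165997) (nat_lit 84) (nat_lit 5583746375) (nat_lit 139) (nat_lit 5) (nat_lit 147) (nat_lit 5) (nat_lit 140) (nat_lit 5) (nat_lit 228) (nat_lit 200) (nat_lit 172)) (XT.nd (nat_lit 94) (nat_lit 504) (nat_lit 0) (XT.lf (nat_lit 0) (nat_lit 3800539303) (nat_lit 672) (nat_lit 3800539303) (nat_lit 84) (nat_lit 455658607) (nat_lit 132) (nat_lit 5) (nat_lit 140) (nat_lit 5) (nat_lit 133) (nat_lit 5) (nat_lit 229) (nat_lit 200) (nat_lit 171)) (XT.lf (nat_lit 0) (nat_lit 1672063790) (nat_lit 504) (nat_lit 4827560367) (nat_lit 588) (nat_lit 1672063790) (nat_lit 126) (nat_lit 5) (nat_lit 132) (nat_lit 5) (nat_lit 133) (nat_lit 5) (nat_lit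 230) (nat_lit 200) (nat_lit 170)))))) (XT.nd (nat_lit 564) (nat_lit 1764) (nat_lit 0) (XT.nd (nat_lit 282) (nat_lit 1008) (nat_lit 0) (XT.nd (nat_lit 94) (nat_lit 1008) (nat_lit 0) (XT.lf (nat_lit 0) (nat_lit 953949213) (nat_lit 588) (nat_lit 953949213) (nat_lit 84) (nat_lit 6383276781) (nat_lit 125) (nat_lit 5) (nat_lit 132) (nat_lit 5) (nat_lit 126) (nat_lit 5) (nat_lit 231) (nat_lit 200) (nat_lit 169)) (XT.nd (nat_lit 94) (nat_lit 504) (nat_lit 0) (XT.lf (nat_lit 0) (nat_lit 3630446152) (nat_lit 588) (nat_lit 3630446152) (nat_lit 84) (nat_lit 1153353868) (nat_lit 119) (nat_lit 5) (nat_lit 126) (nat_lit 5) (nat_lit 120) (nat_lit 5) (nat_lit 232) (nat_lit 200) (nat_lit 168)) (XT.lf (nat_lit 0) (nat_lit 2151426090) (nat_lit 504) (nat_lit 4239124873) (nat_lit 588) (nat_lit 2151426090) (nat_lit 113) (nat_lit 5) (nat_lit 119) (nat_lit 5) (nat_lit 120) (nat_lit 5) (nat_lit 233) (nat_lit 200) (nat_lit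 167)))) (XT.nd (nat_lit 94) (nat_lit 924) (nat_lit 0) (XT.lf (nat_lit 0) (nat_lit 536635241) (nat_lit 588) (nat_lit 536635241) (nat_lit 84) (nat_lit 7601505349) (nat_lit 112) (nat_lit 5) (nat_lit 119) (nat_lit 5) (nat_lit 113) (nat_lit 5) (nat_lit 234) (nat_lit 200) (nat_lit 166)) (XT.nd (nat_lit 94) (nat_lit 420) (nat_lit 0) (XT.lf (nat_lit 0) (nat_lit 3290965119) (nat_lit 588) (nat_lit 3290965119) (nat_lit 84) (nat_lit 2228630306) (nat_lit 106) (nat_lit 5) (nat_lit 113) (nat_lit 5) (nat_lit 107) (nat_lit 5) (nat_lit 235) (nat_lit 200) (nat_lit 165)) (XT.lf (nat_lit 0) (nat_lit 2822963813) (nat_lit 420) (nat_lit 3305628735) (nat_lit 504) (nat_lit 2822963813) (nat_lit 101) (nat_lit 5) (nat_lit 106) (nat_lit 5) (nat_lit 107) (nat_lit 5) (nat_lit 236) (nat_lit 200) (nat_lit 164))))) (XT.nd (nat_lit 282) (nat_lit 840) (nat_lit 0) (XT.nd (nat_lit 94) (nat_lit 504) (nat_lit 0) (XT.lf (nat_lit 0)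 (nat_lit 54099089) (nat_lit 420) (nat_lit 8990037855) (nat_lit 504) (nat_lit 54099089) (nat_lit 96) (nat_lit 5) (nat_lit 101) (nat_lit 5) (nat_lit 102) (nat_lit 5) (nat_lit 237) (nat_lit 200) (nat_lit 163)) (XT.nd (nat_lit 94) (nat_lit 420) (nat_lit 0) (XT.lf (nat_lit 0) (nat_lit 2797484889) (nat_lit 504) (nat_lit 2797484889) (nat_lit 84) (nat_lit 3652248571) (nat_lit 95) (nat_lit 5) (nat_lit 101) (nat_lit 5) (nat_lit 96) (nat_lit 5) (nat_lit 238) (nat_lit 200) (nat_lit 162)) (XT.lf (nat_lit 0) (nat_lit 3673137975) (nat_lit 420) (nat_lit 2055771592) (nat_lit 504) (nat_lit 3673137975) (nat_lit 90) (nat_lit 5) (nat_lit 95) (nat_lit 5) (nat_lit 96) (nat_lit 5) (nat_lit 239) (nat_lit 200) (nat_lit 161)))) (XT.nd (nat_lit 94) (nat_lit 420) (nat_lit 0) (XT.lf (nat_lit 0) (nat_lit 797778024) (nat_lit 420) (nat_lit 7966686157) (nat_lit 504) (nat_lit 797778024) (nat_lit 85) (nat_lit 5) (nat_lit 90)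 (nat_lit 5) (nat_lit 91) (nat_lit 5) (nat_lit 240) (nat_lit 200) (nat_lit 160)) (XT.nd (nat_lit 94) (nat_lit 336) (nat_lit 0) (XT.lf (nat_lit 0) (nat_lit 2162716216) (nat_lit 504) (nat_lit 2162716216) (nat_lit 84) (nat_lit 5400575776) (nat_lit 84) (nat_lit 5) (nat_lit 90) (nat_lit 5) (nat_lit 85) (nat_lit 5) (nat_lit 241) (nat_lit 200) (nat_lit 159)) (XT.lf (nat_lit 0) (nat_lit 4691179161) (nat_lit 336) (nat_lit 512964371) (nat_lit 420) (nat_lit 4691179161) (nat_lit 80) (nat_lit 5) (nat_lit 84) (nat_lit 5) (nat_lit 85) (nat_lit 5) (nat_lit 242) (nat_lit 200) (nat_lit 158))))))))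
noncomputable def xc22 : XT := (XT.nd (nat_lit 33934) (nat_lit 0) (nat_lit 10416) (XT.nd (nat_lit 1034) (nat_lit 1932) (nat_lit 0) (XT.nd (nat_lit 470) (nat_lit 1596) (nat_lit 0) (XT.nd (nat_lit 188) (nat_lit 756) (nat_lit 0) (XT.nd (nat_lit 94) (nat_lit 84) (nat_lit 0) (XT.lf (nat_lit 0) (nat_lit 1690076463) (nat_lit 420) (nat_lit 6689447643) (nat_lit 504) (nat_lit 1690076463) (nat_lit 75) (nat_lit 5) (nat_lit 80) (nat_lit 5) (nat_lit 81) (nat_lit 5) (nat_lit 243) (nat_lit 200) (nat_lit 157)) (XT.lf (nat_lit 0) (nat_lit 1396994634) (nat_lit 504) (nat_lit 1396994634) (nat_lit 84) (nat_lit 7454980340) (nat_lit 74) (nat_lit 5) (nat_lit 80) (nat_lit 5) (nat_lit 75) (nat_lit 5) (nat_lit 244) (nat_lit 200) (nat_lit 156))) (XT.nd (nat_lit 94) (nat_lit 420) (nat_lit 0) (XT.lf (nat_lit 0) (nat_lit 4579238868) (nat_lit 420) (nat_lit 4579238868) (nat_lit 84) (nat_lit 1274519087) (nat_lit 70) (nat_lit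 5) (nat_lit 75) (nat_lit 5) (nat_lit 71) (nat_lit 5) (nat_lit 245) (nat_lit 200) (nat_lit 155)) (XT.nd (nat_lit 94) (nat_lit 84) (nat_lit 0) (XT.lf (nat_lit 0) (nat_lit 2722832289) (nat_lit 336) (nat_lit 5176861294) (nat_lit 420) (nat_lit 2722832289) (nat_lit 66) (nat_lit 5) (nat_lit 70) (nat_lit 5) (nat_lit 71) (nat_lit 5) (nat_lit 246) (nat_lit 200) (nat_lit 154)) (XT.lf (nat_lit 0) (nat_lit 508541018) (nat_lit 420) (nat_lit 508541018) (nat_lit 84) (nat_lit 9801313410) (nat_lit 65) (nat_lit 5) (nat_lit 70) (nat_lit 5) (nat_lit 66) (nat_lit 5) (nat_lit 247) (nat_lit 200) (nat_lit 153))))) (XT.nd (nat_lit 282) (nat_lit 672) (nat_lit 0) (XT.nd (nat_lit 94) (nat_lit 588) (nat_lit 0) (XT.lf (nat_lit 0) (nat_lit 3856713162) (nat_lit 420) (nat_lit 3856713162) (nat_lit 84) (nat_lit 3304229135) (nat_lit 61) (nat_lit 5) (nat_lit 66) (nat_lit 5) (nat_lit 62) (nat_lit 5) (nat_lit 248) (nat_lit 200)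 (nat_lit 152)) (XT.nd (nat_lit 94) (nat_lit 252) (nat_lit 0) (XT.lf (nat_lit 0) (nat_lit 3889930325) (nat_lit 336) (nat_lit 3443626916) (nat_lit 420) (nat_lit 3889930325) (nat_lit 57) (nat_lit 5) (nat_lit 61) (nat_lit 5) (nat_lit 62) (nat_lit 5) (nat_lit 249) (nat_lit 200) (nat_lit 151)) (XT.lf (nat_lit 0) (nat_lit 490656504) (nat_lit 252) (nat_lit 10454744918) (nat_lit 336) (nat_lit 490656504) (nat_lit 54) (nat_lit 5) (nat_lit 57) (nat_lit 5) (nat_lit 58) (nat_lit 5) (nat_lit 250) (nat_lit 200) (nat_lit 150)))) (XT.nd (nat_lit 94) (nat_lit 588) (nat_lit 0) (XT.lf (nat_lit 0) (nat_lit 3037410436) (nat_lit 336) (nat_lit 3037410436) (nat_lit 84) (nat_lit 5577320348) (nat_lit 53) (nat_lit 5) (nat_lit 57) (nat_lit 5) (nat_lit 54) (nat_lit 5) (nat_lit 251) (nat_lit 200) (nat_lit 149)) (XT.nd (nat_lit 94) (nat_lit 252) (nat_lit 0) (XT.lf (nat_lit 0) (nat_lit 5187102865) (nat_lit 336) (nat_lit 1501010275)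 (nat_lit 420) (nat_lit 5187102865) (nat_lit 49) (nat_lit 5) (nat_lit 53) (nat_lit 5) (nat_lit 54) (nat_lit 5) (nat_lit 252) (nat_lit 200) (nat_lit 148)) (XT.lf (nat_lit 0) (nat_lit 1594554361) (nat_lit 252) (nat_lit 8915469514) (nat_lit 336) (nat_lit 1594554361) (nat_lit 46) (nat_lit 5) (nat_lit 49) (nat_lit 5) (nat_lit 50) (nat_lit 5) (nat_lit 253) (nat_lit 200) (nat_lit 147)))))) (XT.nd (nat_lit 564) (nat_lit 756) (nat_lit 0) (XT.nd (nat_lit 282) (nat_lit 588) (nat_lit 0) (XT.nd (nat_lit 94) (nat_lit 504) (nat_lit 0) (XT.lf (nat_lit 0) (nat_lit 2126354756) (nat_lit 336) (nat_lit 2126354756) (nat_lit 84) (nat_lit 8086653286) (nat_lit 45) (nat_lit 5) (nat_lit 49) (nat_lit 5) (nat_lit 46) (nat_lit 5) (nat_lit 254) (nat_lit 200) (nat_lit 146)) (XT.nd (nat_lit 94) (nat_lit 252) (nat_lit 0) (XT.lf (nat_lit 0) (nat_lit 5976112256) (nat_lit 336) (nat_lit 5976112256) (nat_lit 84) (nat_lit 628235399)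 (nat_lit 42) (nat_lit 5) (nat_lit 46) (nat_lit 5) (nat_lit 43) (nat_lit 5) (nat_lit 255) (nat_lit 200) (nat_lit 145)) (XT.lf (nat_lit 0) (nat_lit 2805892872) (nat_lit 252) (nat_lit 7216062632) (nat_lit 336) (nat_lit 2805892872) (nat_lit 39) (nat_lit 5) (nat_lit 42) (nat_lit 5) (nat_lit 43) (nat_lit 5) (nat_lit 256) (nat_lit 200) (nat_lit 144)))) (XT.nd (nat_lit 94) (nat_lit 504) (nat_lit 0) (XT.lf (nat_lit 0) (nat_lit 1127190015) (nat_lit 336) (nat_lit 1127190015) (nat_lit 84) (nat_lit 10828124408) (nat_lit 38) (nat_lit 5) (nat_lit 42) (nat_lit 5) (nat_lit 39) (nat_lit 5) (nat_lit 257) (nat_lit 200) (nat_lit 143)) (XT.nd (nat_lit 94) (nat_lit 252) (nat_lit 0) (XT.lf (nat_lit 0) (nat_lit 5213630189) (nat_lit 336) (nat_lit 5213630189) (nat_lit 84) (nat_lit 2914826385) (nat_lit 35) (nat_lit 5) (nat_lit 39) (nat_lit 5) (nat_lit 36) (nat_lit 5) (nat_lit 258) (nat_lit 200) (nat_lit 142)) (XT.lf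 (nat_lit 0) (nat_lit 4122998482) (nat_lit 252) (nat_lit 5363247258) (nat_lit 336) (nat_lit 4122998482) (nat_lit 32) (nat_lit 5) (nat_lit 35) (nat_lit 5) (nat_lit 36) (nat_lit 5) (nat_lit 259) (nat_lit 200) (nat_lit 141))))) (XT.nd (nat_lit 282) (nat_lit 252) (nat_lit 0) (XT.nd (nat_lit 94) (nat_lit 420) (nat_lit 0) (XT.lf (nat_lit 0) (nat_lit 42312028) (nat_lit 336) (nat_lit 42312028) (nat_lit 84) (nat_lit 13800413178) (nat_lit 31) (nat_lit 5) (nat_lit 35) (nat_lit 5) (nat_lit 32) (nat_lit 5) (nat_lit 260) (nat_lit 200) (nat_lit 140)) (XT.nd (nat_lit 94) (nat_lit 168) (nat_lit 0) (XT.lf (nat_lit 0) (nat_lit 4387115613) (nat_lit 336) (nat_lit 4387115613) (nat_lit 84) (nat_lit 5390021351) (nat_lit 28) (nat_lit 5) (nat_lit 32) (nat_lit 5) (nat_lit 29) (nat_lit 5) (nat_lit 261) (nat_lit 200) (nat_lit 139)) (XT.lf (nat_lit 0) (nat_lit 5545467467) (nat_lit 168) (nat_lit 3361501176) (nat_lit 252)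 (nat_lit 5545467467) (nat_lit 26) (nat_lit 5) (nat_lit 28) (nat_lit 5) (nat_lit 29) (nat_lit 5) (nat_lit 262) (nat_lit 200) (nat_lit 138)))) (XT.nd (nat_lit 31866) (nat_lit 0) (nat_lit 20496) (XT.lf (nat_lit 0) (nat_lit 1114171052) (nat_lit 252) (nat_lit 12520621792) (nat_lit 336) (nat_lit 1114171052) (nat_lit 23) (nat_lit 5) (nat_lit 26) (nat_lit 5) (nat_lit 27) (nat_lit 5) (nat_lit 263) (nat_lit 200) (nat_lit 137)) (XT.nd (nat_lit 94) (nat_lit 252) (nat_lit 0) (XT.lf (nat_lit 0) (nat_lit 1574509605) (nat_lit 0) (nat_lit 1574509605) (nat_lit 84) (nat_lit 74733480) (nat_lit 270) (nat_lit 5) (nat_lit 270) (nat_lit 3) (nat_lit 271) (nat_lit 0) (nat_lit 201) (nat_lit 201) (nat_lit 198)) (XT.lf (nat_lit 0) (nat_lit 2858414177) (nat_lit 252) (nat_lit 73038952) (nat_lit 252) (nat_lit 3523696208) (nat_lit 267) (nat_lit 3) (nat_lit 270) (nat_lit 3) (nat_lit 270) (nat_lit 5) (nat_lit 202) (nat_lit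 201) (nat_lit 197))))))) (XT.nd (nat_lit 1128) (nat_lit 7476) (nat_lit 0) (XT.nd (nat_lit 564) (nat_lit 1680) (nat_lit 0) (XT.nd (nat_lit 282) (nat_lit 672) (nat_lit 0) (XT.nd (nat_lit 94) (nat_lit 252) (nat_lit 0) (XT.lf (nat_lit 84) (nat_lit 3267084994) (nat_lit 0) (nat_lit 2601015552) (nat_lit 252) (nat_lit 598398662) (nat_lit 268) (nat_lit 5) (nat_lit 267) (nat_lit 3) (nat_lit 270) (nat_lit 5) (nat_lit 203) (nat_lit 201) (nat_lit 196)) (XT.nd (nat_lit 94) (nat_lit 0) (nat_lit 0) (XT.lf (nat_lit 84) (nat_lit 150263662) (nat_lit 0) (nat_lit 2166306062) (nat_lit 336) (nat_lit 4165302732) (nat_lit 265) (nat_lit 5) (nat_lit 264) (nat_lit 5) (nat_lit 268) (nat_lit 5) (nat_lit 204) (nat_lit 201) (nat_lit 195)) (XT.lf (nat_lit 84) (nat_lit 3614900858) (nat_lit 0) (nat_lit 1611962472) (nat_lit 336) (nat_lit 1273921854) (nat_lit 265) (nat_lit 5) (nat_lit 264) (nat_lit 5) (nat_lit 268) (nat_lit 5)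 (nat_lit 205) (nat_lit 201) (nat_lit 194)))) (XT.nd (nat_lit 94) (nat_lit 336) (nat_lit 0) (XT.lf (nat_lit 84) (nat_lit 602386889) (nat_lit 0) (nat_lit 956639250) (nat_lit 420) (nat_lit 4964886651) (nat_lit 261) (nat_lit 5) (nat_lit 260) (nat_lit 5) (nat_lit 265) (nat_lit 5) (nat_lit 206) (nat_lit 201) (nat_lit 193)) (XT.nd (nat_lit 94) (nat_lit 336) (nat_lit 0) (XT.lf (nat_lit 84) (nat_lit 4195277069) (nat_lit 0) (nat_lit 175973263) (nat_lit 420) (nat_lit 2179234670) (nat_lit 261) (nat_lit 5) (nat_lit 260) (nat_lit 5) (nat_lit 265) (nat_lit 5) (nat_lit 207) (nat_lit 201) (nat_lit 192)) (XT.lf (nat_lit 0) (nat_lit 589058932) (nat_lit 420) (nat_lit 5304182731) (nat_lit 84) (nat_lit 687932410) (nat_lit 256) (nat_lit 5) (nat_lit 261) (nat_lit 5) (nat_lit 257) (nat_lit 5) (nat_lit 208) (nat_lit 201) (nat_lit 191))))) (XT.nd (nat_lit 282) (nat_lit 1176) (nat_lit 0) (XT.nd (nat_lit 94) (nat_lit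 504) (nat_lit 0) (XT.lf (nat_lit 0) (nat_lit 3316001153) (nat_lit 420) (nat_lit 1622509220) (nat_lit 84) (nat_lit 1676595783) (nat_lit 256) (nat_lit 5) (nat_lit 261) (nat_lit 5) (nat_lit 257) (nat_lit 5) (nat_lit 209) (nat_lit 201) (nat_lit 190)) (XT.nd (nat_lit 94) (nat_lit 84) (nat_lit 0) (XT.lf (nat_lit 0) (nat_lit 2163716180) (nat_lit 420) (nat_lit 3885503096) (nat_lit 504) (nat_lit 604127435) (nat_lit 251) (nat_lit 5) (nat_lit 256) (nat_lit 5) (nat_lit 257) (nat_lit 5) (nat_lit 210) (nat_lit 201) (nat_lit 189)) (XT.lf (nat_lit 0) (nat_lit 2043468411) (nat_lit 504) (nat_lit 670522571) (nat_lit 84) (nat_lit 3981308093) (nat_lit 250) (nat_lit 5) (nat_lit 256) (nat_lit 5) (nat_lit 251) (nat_lit 5) (nat_lit 211) (nat_lit 201) (nat_lit 188)))) (XT.nd (nat_lit 94) (nat_lit 672) (nat_lit 0) (XT.lf (nat_lit 0) (nat_lit 3277013076) (nat_lit 504) (nat_lit 1421299226) (nat_lit 588) (nat_lit 2042657036)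 (nat_lit 244) (nat_lit 5) (nat_lit 250) (nat_lit 5) (nat_lit 251) (nat_lit 5) (nat_lit 212) (nat_lit 201) (nat_lit 187)) (XT.nd (nat_lit 94) (nat_lit 0) (nat_lit 0) (XT.lf (nat_lit 0) (nat_lit 521032546) (nat_lit 588) (nat_lit 29579097) (nat_lit 672) (nat_lit 6240600729) (nat_lit 236) (nat_lit 5) (nat_lit 243) (nat_lit 5) (nat_lit 244) (nat_lit 5) (nat_lit 213) (nat_lit 201) (nat_lit 186)) (XT.lf (nat_lit 0) (nat_lit 3140759237) (nat_lit 672) (nat_lit 2230174948) (nat_lit 84) (nat_lit 1473063463) (nat_lit 236) (nat_lit 5) (nat_lit 244) (nat_lit 5) (nat_lit 237) (nat_lit 5) (nat_lit 214) (nat_lit 201) (nat_lit 185)))))) (XT.nd (nat_lit 564) (nat_lit 4116) (nat_lit 0) (XT.nd (nat_lit 282) (nat_lit 1848) (nat_lit 0) (XT.nd (nat_lit 94) (nat_lit 840) (nat_lit 0) (XT.lf (nat_lit 0) (nat_lit 1919713915) (nat_lit 672) (nat_lit 3824048979) (nat_lit 756) (nat_lit 1157590485) (nat_lit 228) (nat_lit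 5) (nat_lit 236) (nat_lit 5) (nat_lit 237) (nat_lit 5) (nat_lit 215) (nat_lit 201) (nat_lit 184)) (XT.nd (nat_lit 94) (nat_lit 756) (nat_lit 0) (XT.lf (nat_lit 0) (nat_lit 1372174970) (nat_lit 756) (nat_lit 784284688) (nat_lit 84) (nat_lit 4806182884) (nat_lit 227) (nat_lit 5) (nat_lit 236) (nat_lit 5) (nat_lit 228) (nat_lit 5) (nat_lit 216) (nat_lit 201) (nat_lit 183)) (XT.lf (nat_lit 0) (nat_lit 3553651245) (nat_lit 756) (nat_lit 354472139) (nat_lit 840) (nat_lit 3119417952) (nat_lit 218) (nat_lit 5) (nat_lit 227) (nat_lit 5) (nat_lit 228) (nat_lit 5) (nat_lit 217) (nat_lit 201) (nat_lit 182)))) (XT.nd (nat_lit 94) (nat_lit 1008) (nat_lit 0) (XT.lf (nat_lit 0) (nat_lit 895048758) (nat_lit 840) (nat_lit 5581772682) (nat_lit 924) (nat_lit 619850447) (nat_lit 208) (nat_lit 5) (nat_lit 218) (nat_lit 5) (nat_lit 219) (nat_lit 5) (nat_lit 218) (nat_lit 201) (nat_lit 181)) (XT.nd (nat_lit 94) (nat_lit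 924) (nat_lit 0) (XT.lf (nat_lit 0) (nat_lit 1877216126) (nat_lit 924) (nat_lit 1770359021) (nat_lit 84) (nat_lit 3521468032) (nat_lit 207) (nat_lit 5) (nat_lit 218) (nat_lit 5) (nat_lit 208) (nat_lit 5) (nat_lit 219) (nat_lit 201) (nat_lit 180)) (XT.lf (nat_lit 0) (nat_lit 2797490920) (nat_lit 924) (nat_lit 1592955387) (nat_lit 1008) (nat_lit 2855235023) (nat_lit 196) (nat_lit 5) (nat_lit 207) (nat_lit 5) (nat_lit 208) (nat_lit 5) (nat_lit 220) (nat_lit 201) (nat_lit 179))))) (XT.nd (nat_lit 282) (nat_lit 1932) (nat_lit 0) (XT.nd (nat_lit 94) (nat_lit 1176) (nat_lit 0) (XT.lf (nat_lit 0) (nat_lit 163916349) (nat_lit 1008) (nat_lit 6771046451) (nat_lit 1092) (nat_lit 392022702) (nat_lit 184) (nat_lit 5) (nat_lit 196) (nat_lit 5) (nat_lit 197) (nat_lit 5) (nat_lit 221) (nat_lit 201) (nat_lit 178)) (XT.nd (nat_lit 94) (nat_lit 1092) (nat_lit 0) (XT.lf (nat_lit 0) (nat_lit 2095450014) (nat_lit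 1092) (nat_lit 2486204876) (nat_lit 84) (nat_lit 2829095305) (nat_lit 183) (nat_lit 5) (nat_lit 196) (nat_lit 5) (nat_lit 184) (nat_lit 5) (nat_lit 222) (nat_lit 201) (nat_lit 177)) (XT.lf (nat_lit 0) (nat_lit 2327085213) (nat_lit 1092) (nat_lit 2277988093) (nat_lit 1176) (nat_lit 2894165002) (nat_lit 170) (nat_lit 5) (nat_lit 183) (nat_lit 5) (nat_lit 184) (nat_lit 5) (nat_lit 223) (nat_lit 201) (nat_lit 176)))) (XT.nd (nat_lit 94) (nat_lit 1932) (nat_lit 0) (XT.lf (nat_lit 0) (nat_lit 7153738301) (nat_lit 1176) (nat_lit 300273483) (nat_lit 84) (nat_lit 138519550) (nat_lit 170) (nat_lit 5) (nat_lit 184) (nat_lit 5) (nat_lit 171) (nat_lit 5) (nat_lit 224) (nat_lit 201) (nat_lit 175)) (XT.nd (nat_lit 94) (nat_lit 672) (nat_lit 0) (XT.lf (nat_lit 0) (nat_lit 2057089025) (nat_lit 1260) (nat_lit 2963813432) (nat_lit 84) (nat_lit 2667288651) (nat_lit 155) (nat_lit 5) (nat_lit 170) (nat_lit 5) (nat_lit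 156) (nat_lit 5) (nat_lit 225) (nat_lit 201) (nat_lit 174)) (XT.lf (nat_lit 0) (nat_lit 2112030409) (nat_lit 672) (nat_lit 2469065636) (nat_lit 756) (nat_lit 3207638488) (nat_lit 147) (nat_lit 5) (nat_lit 155) (nat_lit 5) (nat_lit 156) (nat_lit 5) (nat_lit 226) (nat_lit 201) (nat_lit 173))))))))
noncomputable def xc23 : XT := (XT.nd (nat_lit 2162) (nat_lit 2940) (nat_lit 0) (XT.nd (nat_lit 1034) (nat_lit 3360) (nat_lit 0) (XT.nd (nat_lit 470) (nat_lit 2016) (nat_lit 0) (XT.nd (nat_lit 188) (nat_lit 1176) (nat_lit 0) (XT.nd (nat_lit 94) (nat_lit 672) (nat_lit 0) (XT.lf (nat_lit 0) (nat_lit 7156416328) (nat_lit 756) (nat_lit 534711190) (nat_lit 84) (nat_lit 202965405) (nat_lit 147) (nat_lit 5) (nat_lit 156) (nat_lit 5) (nat_lit 148) (nat_lit 5) (nat_lit 227) (nat_lit 201) (nat_lit 172)) (XT.lf (nat_lit 0) (nat_lit 1787677992) (nat_lit 672) (nat_lit 3230614794) (nat_lit 84) (nat_lit 2983780423)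 (nat_lit 139) (nat_lit 5) (nat_lit 147) (nat_lit 5) (nat_lit 140) (nat_lit 5) (nat_lit 228) (nat_lit 201) (nat_lit 171))) (XT.nd (nat_lit 94) (nat_lit 588) (nat_lit 0) (XT.lf (nat_lit 0) (nat_lit 2126522432) (nat_lit 588) (nat_lit 2216649263) (nat_lit 672) (nat_lit 3771796145) (nat_lit 132) (nat_lit 5) (nat_lit 139) (nat_lit 5) (nat_lit 140) (nat_lit 5) (nat_lit 229) (nat_lit 201) (nat_lit 170)) (XT.nd (nat_lit 94) (nat_lit 588) (nat_lit 0) (XT.lf (nat_lit 0) (nat_lit 6964773116) (nat_lit 672) (nat_lit 566990374) (nat_lit 84) (nat_lit 700867003) (nat_lit 132) (nat_lit 5) (nat_lit 140) (nat_lit 5) (nat_lit 133) (nat_lit 5) (nat_lit 230) (nat_lit 201) (nat_lit 169)) (XT.lf (nat_lit 0) (nat_lit 1308648899) (nat_lit 588) (nat_lit 3310040951) (nat_lit 84) (nat_lit 3734682230) (nat_lit 125) (nat_lit 5) (nat_lit 132) (nat_lit 5) (nat_lit 126) (nat_lit 5) (nat_lit 231) (nat_lit 201) (nat_lit 168)))))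 (XT.nd (nat_lit 282) (nat_lit 924) (nat_lit 0) (XT.nd (nat_lit 94) (nat_lit 588) (nat_lit 0) (XT.lf (nat_lit 0) (nat_lit 2348806624) (nat_lit 504) (nat_lit 1563247595) (nat_lit 588) (nat_lit 4566947033) (nat_lit 119) (nat_lit 5) (nat_lit 125) (nat_lit 5) (nat_lit 126) (nat_lit 5) (nat_lit 232) (nat_lit 201) (nat_lit 167)) (XT.nd (nat_lit 94) (nat_lit 588) (nat_lit 0) (XT.lf (nat_lit 0) (nat_lit 6598755310) (nat_lit 588) (nat_lit 417322709) (nat_lit 84) (nat_lit 1593223244) (nat_lit 119) (nat_lit 5) (nat_lit 126) (nat_lit 5) (nat_lit 120) (nat_lit 5) (nat_lit 233) (nat_lit 201) (nat_lit 166)) (XT.lf (nat_lit 0) (nat_lit 637800686) (nat_lit 588) (nat_lit 3222014424) (nat_lit 84) (nat_lit 4883508202) (nat_lit 112) (nat_lit 5) (nat_lit 119) (nat_lit 5) (nat_lit 113) (nat_lit 5) (nat_lit 234) (nat_lit 201) (nat_lit 165)))) (XT.nd (nat_lit 94) (nat_lit 420) (nat_lit 0) (XT.lf (nat_lit 0) (nat_lit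 2760701467) (nat_lit 504) (nat_lit 544352768) (nat_lit 588) (nat_lit 5577101463) (nat_lit 106) (nat_lit 5) (nat_lit 112) (nat_lit 5) (nat_lit 113) (nat_lit 5) (nat_lit 235) (nat_lit 201) (nat_lit 164)) (XT.nd (nat_lit 94) (nat_lit 420) (nat_lit 0) (XT.lf (nat_lit 0) (nat_lit 6075089704) (nat_lit 588) (nat_lit 102691056) (nat_lit 84) (nat_lit 2847736474) (nat_lit 106) (nat_lit 5) (nat_lit 113) (nat_lit 5) (nat_lit 107) (nat_lit 5) (nat_lit 236) (nat_lit 201) (nat_lit 163)) (XT.lf (nat_lit 0) (nat_lit 6187563818) (nat_lit 420) (nat_lit 2770604231) (nat_lit 504) (nat_lit 215165170) (nat_lit 101) (nat_lit 5) (nat_lit 106) (nat_lit 5) (nat_lit 107) (nat_lit 5) (nat_lit 237) (nat_lit 201) (nat_lit 162)))))) (XT.nd (nat_lit 564) (nat_lit 1596) (nat_lit 0) (XT.nd (nat_lit 282) (nat_lit 840) (nat_lit 0) (XT.nd (nat_lit 94) (nat_lit 420) (nat_lit 0) (XT.lf (nat_lit 0) (nat_lit 2545469927) (nat_lit 504)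 (nat_lit 5987852108) (nat_lit 84) (nat_lit 792367344) (nat_lit 95) (nat_lit 5) (nat_lit 101) (nat_lit 5) (nat_lit 96) (nat_lit 5) (nat_lit 238) (nat_lit 201) (nat_lit 161)) (XT.nd (nat_lit 94) (nat_lit 0) (nat_lit 0) (XT.lf (nat_lit 0) (nat_lit 371189399) (nat_lit 420) (nat_lit 5040606976) (nat_lit 504) (nat_lit 4071000635) (nat_lit 90) (nat_lit 5) (nat_lit 95) (nat_lit 5) (nat_lit 96) (nat_lit 5) (nat_lit 239) (nat_lit 201) (nat_lit 160)) (XT.lf (nat_lit 0) (nat_lit 7022722356) (nat_lit 420) (nat_lit 1369896075) (nat_lit 504) (nat_lit 1252288879) (nat_lit 90) (nat_lit 5) (nat_lit 95) (nat_lit 5) (nat_lit 96) (nat_lit 5) (nat_lit 240) (nat_lit 201) (nat_lit 159)))) (XT.nd (nat_lit 94) (nat_lit 336) (nat_lit 0) (XT.lf (nat_lit 0) (nat_lit 1645375733) (nat_lit 504) (nat_lit 5743940709) (nat_lit 84) (nat_lit 2422093857) (nat_lit 84) (nat_lit 5) (nat_lit 90) (nat_lit 5) (nat_lit 85) (nat_lit 5)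 (nat_lit 241) (nat_lit 201) (nat_lit 158)) (XT.nd (nat_lit 94) (nat_lit 0) (nat_lit 0) (XT.lf (nat_lit 0) (nat_lit 989908217) (nat_lit 336) (nat_lit 3628956766) (nat_lit 420) (nat_lit 5364237633) (nat_lit 80) (nat_lit 5) (nat_lit 84) (nat_lit 5) (nat_lit 85) (nat_lit 5) (nat_lit 242) (nat_lit 201) (nat_lit 157)) (XT.lf (nat_lit 0) (nat_lit 7714396549) (nat_lit 420) (nat_lit 2139098504) (nat_lit 84) (nat_lit 306680154) (nat_lit 80) (nat_lit 5) (nat_lit 85) (nat_lit 5) (nat_lit 81) (nat_lit 5) (nat_lit 243) (nat_lit 201) (nat_lit 156))))) (XT.nd (nat_lit 282) (nat_lit 756) (nat_lit 0) (XT.nd (nat_lit 94) (nat_lit 336) (nat_lit 0) (XT.lf (nat_lit 0) (nat_lit 607649399) (nat_lit 504) (nat_lit 5395235268) (nat_lit 84) (nat_lit 4338731516) (nat_lit 74) (nat_lit 5) (nat_lit 80) (nat_lit 5) (nat_lit 75) (nat_lit 5) (nat_lit 244) (nat_lit 201) (nat_lit 155)) (XT.nd (nat_lit 94) (nat_lit 0) (nat_lit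 0) (XT.lf (nat_lit 0) (nat_lit 1741503198) (nat_lit 336) (nat_lit 1962646412) (nat_lit 420) (nat_lit 6824494829) (nat_lit 70) (nat_lit 5) (nat_lit 74) (nat_lit 5) (nat_lit 75) (nat_lit 5) (nat_lit 245) (nat_lit 201) (nat_lit 154)) (XT.lf (nat_lit 0) (nat_lit 6947518871) (nat_lit 420) (nat_lit 1560757475) (nat_lit 84) (nat_lit 2212595133) (nat_lit 70) (nat_lit 5) (nat_lit 75) (nat_lit 5) (nat_lit 71) (nat_lit 5) (nat_lit 246) (nat_lit 201) (nat_lit 153)))) (XT.nd (nat_lit 94) (nat_lit 420) (nat_lit 0) (XT.lf (nat_lit 0) (nat_lit 5960646297) (nat_lit 336) (nat_lit 4383890685) (nat_lit 420) (nat_lit 573884901) (nat_lit 66) (nat_lit 5) (nat_lit 70) (nat_lit 5) (nat_lit 71) (nat_lit 5) (nat_lit 247) (nat_lit 201) (nat_lit 152)) (XT.nd (nat_lit 94) (nat_lit 0) (nat_lit 0) (XT.lf (nat_lit 0) (nat_lit 2618443470) (nat_lit 336) (nat_lit 56259838) (nat_lit 420) (nat_lit 8447143261) (nat_lit 61) (nat_lit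 5) (nat_lit 65) (nat_lit 5) (nat_lit 66) (nat_lit 5) (nat_lit 248) (nat_lit 201) (nat_lit 151)) (XT.lf (nat_lit 0) (nat_lit 6084002891) (nat_lit 420) (nat_lit 879402509) (nat_lit 84) (nat_lit 4366637334) (nat_lit 61) (nat_lit 5) (nat_lit 66) (nat_lit 5) (nat_lit 62) (nat_lit 5) (nat_lit 249) (nat_lit 201) (nat_lit 150))))))) (XT.nd (nat_lit 1128) (nat_lit 168) (nat_lit 0) (XT.nd (nat_lit 564) (nat_lit 1176) (nat_lit 0) (XT.nd (nat_lit 282) (nat_lit 924) (nat_lit 0) (XT.nd (nat_lit 94) (nat_lit 336) (nat_lit 0) (XT.lf (nat_lit 0) (nat_lit 7102891303) (nat_lit 336) (nat_lit 2543173259) (nat_lit 420) (nat_lit 1898290921) (nat_lit 57) (nat_lit 5) (nat_lit 61) (nat_lit 5) (nat_lit 62) (nat_lit 5) (nat_lit 250) (nat_lit 201) (nat_lit 149)) (XT.nd (nat_lit 94) (nat_lit 0) (nat_lit 0) (XT.lf (nat_lit 0) (nat_lit 1558978747) (nat_lit 336) (nat_lit 8173525343) (nat_lit 84) (nat_lit 2032078631) (nat_lit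 53) (nat_lit 5) (nat_lit 57) (nat_lit 5) (nat_lit 54) (nat_lit 5) (nat_lit 251) (nat_lit 201) (nat_lit 148)) (XT.lf (nat_lit 0) (nat_lit 5129510685) (nat_lit 336) (nat_lit 100911282) (nat_lit 84) (nat_lit 6760041515) (nat_lit 53) (nat_lit 5) (nat_lit 57) (nat_lit 5) (nat_lit 54) (nat_lit 5) (nat_lit 252) (nat_lit 201) (nat_lit 147)))) (XT.nd (nat_lit 94) (nat_lit 588) (nat_lit 0) (XT.lf (nat_lit 0) (nat_lit 8376769985) (nat_lit 336) (nat_lit 497582557) (nat_lit 420) (nat_lit 3348170582) (nat_lit 49) (nat_lit 5) (nat_lit 53) (nat_lit 5) (nat_lit 54) (nat_lit 5) (nat_lit 253) (nat_lit 201) (nat_lit 146)) (XT.nd (nat_lit 94) (nat_lit 252) (nat_lit 0) (XT.lf (nat_lit 0) (nat_lit 340594796) (nat_lit 336) (nat_lit 7784424465) (nat_lit 84) (nat_lit 4335488993) (nat_lit 45) (nat_lit 5) (nat_lit 49) (nat_lit 5) (nat_lit 46) (nat_lit 5) (nat_lit 254) (nat_lit 201) (nat_lit 145)) (XT.lf (nat_lit 0) (nat_lit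 788168018) (nat_lit 252) (nat_lit 3308867135) (nat_lit 336) (nat_lit 8607836314) (nat_lit 42) (nat_lit 5) (nat_lit 45) (nat_lit 5) (nat_lit 46) (nat_lit 5) (nat_lit 255) (nat_lit 201) (nat_lit 144))))) (XT.nd (nat_lit 282) (nat_lit 588) (nat_lit 0) (XT.nd (nat_lit 94) (nat_lit 588) (nat_lit 0) (XT.lf (nat_lit 0) (nat_lit 8053694063) (nat_lit 336) (nat_lit 3195143915) (nat_lit 84) (nat_lit 1706543405) (nat_lit 42) (nat_lit 5) (nat_lit 46) (nat_lit 5) (nat_lit 43) (nat_lit 5) (nat_lit 256) (nat_lit 201) (nat_lit 143)) (XT.nd (nat_lit 94) (nat_lit 336) (nat_lit 0) (XT.lf (nat_lit 0) (nat_lit 5860141937) (nat_lit 252) (nat_lit 6350753346) (nat_lit 336) (nat_lit 1001591789) (nat_lit 39) (nat_lit 5) (nat_lit 42) (nat_lit 5) (nat_lit 43) (nat_lit 5) (nat_lit 257) (nat_lit 201) (nat_lit 142)) (XT.lf (nat_lit 0) (nat_lit 1771280041) (nat_lit 252) (nat_lit 1211589626) (nat_lit 336) (nat_lit 10493954446)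 (nat_lit 35) (nat_lit 5) (nat_lit 38) (nat_lit 5) (nat_lit 39) (nat_lit 5) (nat_lit 258) (nat_lit 201) (nat_lit 141)))) (XT.nd (nat_lit 94) (nat_lit 588) (nat_lit 0) (XT.lf (nat_lit 0) (nat_lit 7175991246) (nat_lit 336) (nat_lit 2481739895) (nat_lit 84) (nat_lit 4089032720) (nat_lit 35) (nat_lit 5) (nat_lit 39) (nat_lit 5) (nat_lit 36) (nat_lit 5) (nat_lit 259) (nat_lit 201) (nat_lit 140)) (XT.nd (nat_lit 94) (nat_lit 336) (nat_lit 0) (XT.lf (nat_lit 0) (nat_lit 7148445094) (nat_lit 252) (nat_lit 4421616045) (nat_lit 336) (nat_lit 2454193743) (nat_lit 32) (nat_lit 5) (nat_lit 35) (nat_lit 5) (nat_lit 36) (nat_lit 5) (nat_lit 260) (nat_lit 201) (nat_lit 139)) (XT.lf (nat_lit 0) (nat_lit 1799331180) (nat_lit 336) (nat_lit 11477626121) (nat_lit 84) (nat_lit 1032612398) (nat_lit 28) (nat_lit 5) (nat_lit 32) (nat_lit 5) (nat_lit 29) (nat_lit 5) (nat_lit 261) (nat_lit 201) (nat_lit 138)))))) (XT.nd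 (nat_lit 32430) (nat_lit 0) (nat_lit 18732) (XT.nd (nat_lit 32148) (nat_lit 0) (nat_lit 19656) (XT.nd (nat_lit 94) (nat_lit 168) (nat_lit 0) (XT.lf (nat_lit 0) (nat_lit 6238267705) (nat_lit 336) (nat_lit 1702759153) (nat_lit 84) (nat_lit 6659558453) (nat_lit 28) (nat_lit 5) (nat_lit 32) (nat_lit 5) (nat_lit 29) (nat_lit 5) (nat_lit 262) (nat_lit 201) (nat_lit 137)) (XT.nd (nat_lit 31960) (nat_lit 0) (nat_lit 20244) (XT.lf (nat_lit 0) (nat_lit 8545110363) (nat_lit 168) (nat_lit 2345058237) (nat_lit 252) (nat_lit 4009601812) (nat_lit 26) (nat_lit 5) (nat_lit 28) (nat_lit 5) (nat_lit 29) (nat_lit 5) (nat_lit 263) (nat_lit 201) (nat_lit 136)) (XT.lf (nat_lit 0) (nat_lit 2897948145) (nat_lit 252) (nat_lit 167296016) (nat_lit 252) (nat_lit 167296016) (nat_lit 267) (nat_lit 3) (nat_lit 270) (nat_lit 3) (nat_lit 270) (nat_lit 5) (nat_lit 202) (nat_lit 202) (nat_lit 196)))) (XT.nd (nat_lit 94) (nat_lit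 336) (nat_lit 0) (XT.lf (nat_lit 0) (nat_lit 2207447376) (nat_lit 252) (nat_lit 3538798850) (nat_lit 336) (nat_lit 731686949) (nat_lit 264) (nat_lit 5) (nat_lit 267) (nat_lit 3) (nat_lit 268) (nat_lit 5) (nat_lit 203) (nat_lit 202) (nat_lit 195)) (XT.nd (nat_lit 94) (nat_lit 336) (nat_lit 0) (XT.lf (nat_lit 0) (nat_lit 5043524020) (nat_lit 252) (nat_lit 233795229) (nat_lit 336) (nat_lit 1218040137) (nat_lit 264) (nat_lit 5) (nat_lit 267) (nat_lit 3) (nat_lit 268) (nat_lit 5) (nat_lit 204) (nat_lit 202) (nat_lit 194)) (XT.lf (nat_lit 0) (nat_lit 1341617161) (nat_lit 336) (nat_lit 3340613832) (nat_lit 420) (nat_lit 1833764803) (nat_lit 260) (nat_lit 5) (nat_lit 264) (nat_lit 5) (nat_lit 265) (nat_lit 5) (nat_lit 205) (nat_lit 202) (nat_lit 193))))) (XT.nd (nat_lit 282) (nat_lit 504) (nat_lit 0) (XT.nd (nat_lit 94) (nat_lit 420) (nat_lit 0) (XT.lf (nat_lit 84) (nat_lit 87333116) (nat_lit 0) (nat_lit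 3992133059) (nat_lit 420) (nat_lit 2461477910) (nat_lit 261) (nat_lit 5) (nat_lit 260) (nat_lit 5) (nat_lit 265) (nat_lit 5) (nat_lit 206) (nat_lit 202) (nat_lit 192)) (XT.nd (nat_lit 94) (nat_lit 0) (nat_lit 0) (XT.lf (nat_lit 0) (nat_lit 257336098) (nat_lit 420) (nat_lit 2926343927) (nat_lit 504) (nat_lit 3385791916) (nat_lit 255) (nat_lit 5) (nat_lit 260) (nat_lit 5) (nat_lit 261) (nat_lit 5) (nat_lit 207) (nat_lit 202) (nat_lit 191)) (XT.lf (nat_lit 84) (nat_lit 640842589) (nat_lit 0) (nat_lit 2262877254) (nat_lit 504) (nat_lit 3698128726) (nat_lit 256) (nat_lit 5) (nat_lit 255) (nat_lit 5) (nat_lit 261) (nat_lit 5) (nat_lit 208) (nat_lit 202) (nat_lit 190)))) (XT.nd (nat_lit 94) (nat_lit 504) (nat_lit 0) (XT.lf (nat_lit 84) (nat_lit 4334263941) (nat_lit 0) (nat_lit 1229217280) (nat_lit 504) (nat_lit 1074650762) (nat_lit 256) (nat_lit 5) (nat_lit 255) (nat_lit 5) (nat_lit 261) (nat_lit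 5) (nat_lit 209) (nat_lit 202) (nat_lit 189)) (XT.nd (nat_lit 94) (nat_lit 0) (nat_lit 84) (XT.lf (nat_lit 84) (nat_lit 1426191848) (nat_lit 0) (nat_lit 81951477) (nat_lit 588) (nat_lit 5170237856) (nat_lit 250) (nat_lit 5) (nat_lit 249) (nat_lit 5) (nat_lit 256) (nat_lit 5) (nat_lit 210) (nat_lit 202) (nat_lit 188)) (XT.lf (nat_lit 0) (nat_lit 4088177932) (nat_lit 504) (nat_lit 1474564456) (nat_lit 84) (nat_lit 1159240769) (nat_lit 250) (nat_lit 5) (nat_lit 256) (nat_lit 5) (nat_lit 251) (nat_lit 5) (nat_lit 211) (nat_lit 202) (nat_lit 187))))))))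
noncomputable def xc24 : XT := (XT.nd (nat_lit 2162) (nat_lit 5880) (nat_lit 0) (XT.nd (nat_lit 1034) (nat_lit 5964) (nat_lit 0) (XT.nd (nat_lit 470) (nat_lit 3696) (nat_lit 0) (XT.nd (nat_lit 188) (nat_lit 1344) (nat_lit 0) (XT.nd (nat_lit 94) (nat_lit 84) (nat_lit 0) (XT.lf (nat_lit 0) (nat_lit 2419058839) (nat_lit 504) (nat_lit 4263244136) (nat_lit 588) (nat_lit 87475606) (nat_lit 244) (nat_lit 5) (nat_lit 250) (nat_lit 5) (nat_lit 251) (nat_lit 5) (nat_lit 212) (nat_lit 202) (nat_lit 186)) (XT.lf (nat_lit 0) (nat_lit 2405271991) (nat_lit 588) (nat_lit 434564811) (nat_lit 84) (nat_lit 3981388947) (nat_lit 243) (nat_lit 5) (nat_lit 250) (nat_lit 5) (nat_lit 244) (nat_lit 5) (nat_lit 213) (nat_lit 202) (nat_lit 185))) (XT.nd (nat_lit 94) (nat_lit 756) (nat_lit 0) (XT.lf (nat_lit 0) (nat_lit 3630691751) (nat_lit 588) (nat_lit 1293911959) (nat_lit 672) (nat_lit 1951885872) (nat_lit 236) (nat_lit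 5) (nat_lit 243) (nat_lit 5) (nat_lit 244) (nat_lit 5) (nat_lit 214) (nat_lit 202) (nat_lit 184)) (XT.nd (nat_lit 94) (nat_lit 0) (nat_lit 0) (XT.lf (nat_lit 0) (nat_lit 505960570) (nat_lit 756) (nat_lit 6083196761) (nat_lit 84) (nat_lit 347058271) (nat_lit 227) (nat_lit 5) (nat_lit 236) (nat_lit 5) (nat_lit 228) (nat_lit 5) (nat_lit 215) (nat_lit 202) (nat_lit 183)) (XT.lf (nat_lit 0) (nat_lit 2962899651) (nat_lit 756) (nat_lit 1934884133) (nat_lit 84) (nat_lit 2100899809) (nat_lit 227) (nat_lit 5) (nat_lit 236) (nat_lit 5) (nat_lit 228) (nat_lit 5) (nat_lit 216) (nat_lit 202) (nat_lit 182))))) (XT.nd (nat_lit 282) (nat_lit 2016) (nat_lit 0) (XT.nd (nat_lit 94) (nat_lit 924) (nat_lit 0) (XT.lf (nat_lit 0) (nat_lit 2340625482) (nat_lit 756) (nat_lit 3099703148) (nat_lit 840) (nat_lit 1625301936) (nat_lit 218) (nat_lit 5) (nat_lit 227) (nat_lit 5) (nat_lit 228) (nat_lit 5) (nat_lit 217) (nat_lit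 202) (nat_lit 181)) (XT.nd (nat_lit 94) (nat_lit 840) (nat_lit 0) (XT.lf (nat_lit 0) (nat_lit 782627058) (nat_lit 840) (nat_lit 404185168) (nat_lit 84) (nat_lit 5950121481) (nat_lit 217) (nat_lit 5) (nat_lit 227) (nat_lit 5) (nat_lit 218) (nat_lit 5) (nat_lit 218) (nat_lit 202) (nat_lit 180)) (XT.lf (nat_lit 0) (nat_lit 3204581141) (nat_lit 924) (nat_lit 3149775442) (nat_lit 84) (nat_lit 856843715) (nat_lit 207) (nat_lit 5) (nat_lit 218) (nat_lit 5) (nat_lit 208) (nat_lit 5) (nat_lit 219) (nat_lit 202) (nat_lit 179)))) (XT.nd (nat_lit 94) (nat_lit 1092) (nat_lit 0) (XT.lf (nat_lit 0) (nat_lit 1349738112) (nat_lit 924) (nat_lit 4310229013) (nat_lit 1008) (nat_lit 1629895870) (nat_lit 196) (nat_lit 5) (nat_lit 207) (nat_lit 5) (nat_lit 208) (nat_lit 5) (nat_lit 220) (nat_lit 202) (nat_lit 178)) (XT.nd (nat_lit 94) (nat_lit 1008) (nat_lit 0) (XT.lf (nat_lit 0) (nat_lit 765021107) (nat_lit 1008)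 (nat_lit 1370668388) (nat_lit 84) (nat_lit 5236881717) (nat_lit 195) (nat_lit 5) (nat_lit 207) (nat_lit 5) (nat_lit 196) (nat_lit 5) (nat_lit 221) (nat_lit 202) (nat_lit 177)) (XT.lf (nat_lit 0) (nat_lit 3163884282) (nat_lit 1092) (nat_lit 4116218741) (nat_lit 84) (nat_lit 178870227) (nat_lit 183) (nat_lit 5) (nat_lit 196) (nat_lit 5) (nat_lit 184) (nat_lit 5) (nat_lit 222) (nat_lit 202) (nat_lit 176)))))) (XT.nd (nat_lit 564) (nat_lit 2268) (nat_lit 0) (XT.nd (nat_lit 282) (nat_lit 1344) (nat_lit 0) (XT.nd (nat_lit 94) (nat_lit 1260) (nat_lit 0) (XT.lf (nat_lit 0) (nat_lit 622572574) (nat_lit 1092) (nat_lit 4993181886) (nat_lit 1176) (nat_lit 1933728263) (nat_lit 170) (nat_lit 5) (nat_lit 183) (nat_lit 5) (nat_lit 184) (nat_lit 5) (nat_lit 223) (nat_lit 202) (nat_lit 175)) (XT.nd (nat_lit 94) (nat_lit 1176) (nat_lit 0) (XT.lf (nat_lit 0) (nat_lit 469936641) (nat_lit 1176) (nat_lit 2095574962)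 (nat_lit 84) (nat_lit 5078456489) (nat_lit 169) (nat_lit 5) (nat_lit 183) (nat_lit 5) (nat_lit 170) (nat_lit 5) (nat_lit 224) (nat_lit 202) (nat_lit 174)) (XT.lf (nat_lit 0) (nat_lit 2869209463) (nat_lit 1260) (nat_lit 4866227756) (nat_lit 84) (nat_lit 7052625) (nat_lit 155) (nat_lit 5) (nat_lit 170) (nat_lit 5) (nat_lit 156) (nat_lit 5) (nat_lit 225) (nat_lit 202) (nat_lit 173)))) (XT.nd (nat_lit 94) (nat_lit 672) (nat_lit 0) (XT.lf (nat_lit 0) (nat_lit 128663624) (nat_lit 672) (nat_lit 5206346674) (nat_lit 756) (nat_lit 2510060188) (nat_lit 147) (nat_lit 5) (nat_lit 155) (nat_lit 5) (nat_lit 156) (nat_lit 5) (nat_lit 226) (nat_lit 202) (nat_lit 172)) (XT.nd (nat_lit 94) (nat_lit 672) (nat_lit 0) (XT.lf (nat_lit 0) (nat_lit 5342839024) (nat_lit 672) (nat_lit 2529895084) (nat_lit 756) (nat_lit 79010645) (nat_lit 147) (nat_lit 5) (nat_lit 155) (nat_lit 5) (nat_lit 156) (nat_lit 5) (nat_lit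 227) (nat_lit 202) (nat_lit 171)) (XT.lf (nat_lit 0) (nat_lit 2344405102) (nat_lit 672) (nat_lit 5427481130) (nat_lit 84) (nat_lit 290627085) (nat_lit 139) (nat_lit 5) (nat_lit 147) (nat_lit 5) (nat_lit 140) (nat_lit 5) (nat_lit 228) (nat_lit 202) (nat_lit 170))))) (XT.nd (nat_lit 282) (nat_lit 1092) (nat_lit 0) (XT.nd (nat_lit 94) (nat_lit 1176) (nat_lit 0) (XT.lf (nat_lit 0) (nat_lit 4842489095) (nat_lit 672) (nat_lit 154496085) (nat_lit 84) (nat_lit 3180432108) (nat_lit 139) (nat_lit 5) (nat_lit 147) (nat_lit 5) (nat_lit 140) (nat_lit 5) (nat_lit 229) (nat_lit 202) (nat_lit 169)) (XT.nd (nat_lit 94) (nat_lit 588) (nat_lit 0) (XT.lf (nat_lit 0) (nat_lit 5353782098) (nat_lit 588) (nat_lit 2067585360) (nat_lit 672) (nat_lit 875207790) (nat_lit 132) (nat_lit 5) (nat_lit 139) (nat_lit 5) (nat_lit 140) (nat_lit 5) (nat_lit 230) (nat_lit 202) (nat_lit 168)) (XT.lf (nat_lit 0) (nat_lit 1609300104)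 (nat_lit 588) (nat_lit 5823871708) (nat_lit 84) (nat_lit 986900236) (nat_lit 125) (nat_lit 5) (nat_lit 132) (nat_lit 5) (nat_lit 126) (nat_lit 5) (nat_lit 231) (nat_lit 202) (nat_lit 167)))) (XT.nd (nat_lit 94) (nat_lit 1092) (nat_lit 0) (XT.lf (nat_lit 0) (nat_lit 4154979174) (nat_lit 588) (nat_lit 254021300) (nat_lit 84) (nat_lit 4138721165) (nat_lit 125) (nat_lit 5) (nat_lit 132) (nat_lit 5) (nat_lit 126) (nat_lit 5) (nat_lit 232) (nat_lit 202) (nat_lit 166)) (XT.nd (nat_lit 94) (nat_lit 588) (nat_lit 0) (XT.lf (nat_lit 0) (nat_lit 5566724544) (nat_lit 504) (nat_lit 1223013853) (nat_lit 588) (nat_lit 1890101219) (nat_lit 119) (nat_lit 5) (nat_lit 125) (nat_lit 5) (nat_lit 126) (nat_lit 5) (nat_lit 233) (nat_lit 202) (nat_lit 165)) (XT.lf (nat_lit 0) (nat_lit 680163729) (nat_lit 588) (nat_lit 6075984365) (nat_lit 84) (nat_lit 2060303875) (nat_lit 112) (nat_lit 5) (nat_lit 119) (nat_lit 5)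 (nat_lit 113) (nat_lit 5) (nat_lit 234) (nat_lit 202) (nat_lit 164))))))) (XT.nd (nat_lit 1034) (nat_lit 2688) (nat_lit 0) (XT.nd (nat_lit 470) (nat_lit 1764) (nat_lit 0) (XT.nd (nat_lit 188) (nat_lit 924) (nat_lit 0) (XT.nd (nat_lit 94) (nat_lit 504) (nat_lit 0) (XT.lf (nat_lit 0) (nat_lit 3287057634) (nat_lit 588) (nat_lit 191285376) (nat_lit 84) (nat_lit 5479053931) (nat_lit 112) (nat_lit 5) (nat_lit 119) (nat_lit 5) (nat_lit 113) (nat_lit 5) (nat_lit 235) (nat_lit 202) (nat_lit 163)) (XT.lf (nat_lit 0) (nat_lit 5964987628) (nat_lit 504) (nat_lit 28469946) (nat_lit 588) (nat_lit 3109528148) (nat_lit 106) (nat_lit 5) (nat_lit 112) (nat_lit 5) (nat_lit 113) (nat_lit 5) (nat_lit 236) (nat_lit 202) (nat_lit 162))) (XT.nd (nat_lit 94) (nat_lit 504) (nat_lit 0) (XT.lf (nat_lit 0) (nat_lit 3046607619) (nat_lit 420) (nat_lit 5766540784) (nat_lit 504) (nat_lit 439871865) (nat_lit 101) (nat_lit 5)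 (nat_lit 106) (nat_lit 5) (nat_lit 107) (nat_lit 5) (nat_lit 237) (nat_lit 202) (nat_lit 161)) (XT.nd (nat_lit 94) (nat_lit 0) (nat_lit 0) (XT.lf (nat_lit 0) (nat_lit 18576741) (nat_lit 420) (nat_lit 2233336260) (nat_lit 504) (nat_lit 7156139144) (nat_lit 95) (nat_lit 5) (nat_lit 100) (nat_lit 5) (nat_lit 101) (nat_lit 5) (nat_lit 238) (nat_lit 202) (nat_lit 160)) (XT.lf (nat_lit 0) (nat_lit 5061869265) (nat_lit 504) (nat_lit 3049436777) (nat_lit 84) (nat_lit 1455826689) (nat_lit 95) (nat_lit 5) (nat_lit 101) (nat_lit 5) (nat_lit 96) (nat_lit 5) (nat_lit 239) (nat_lit 202) (nat_lit 159))))) (XT.nd (nat_lit 282) (nat_lit 840) (nat_lit 0) (XT.nd (nat_lit 94) (nat_lit 504) (nat_lit 0) (XT.lf (nat_lit 0) (nat_lit 3496282043) (nat_lit 420) (nat_lit 4484827716) (nat_lit 504) (nat_lit 1750288628) (nat_lit 90) (nat_lit 5) (nat_lit 95) (nat_lit 5) (nat_lit 96) (nat_lit 5) (nat_lit 240) (nat_lit 202)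 (nat_lit 158)) (XT.nd (nat_lit 94) (nat_lit 0) (nat_lit 0) (XT.lf (nat_lit 0) (nat_lit 369685886) (nat_lit 420) (nat_lit 693640769) (nat_lit 504) (nat_lit 8838105868) (nat_lit 84) (nat_lit 5) (nat_lit 89) (nat_lit 5) (nat_lit 90) (nat_lit 5) (nat_lit 241) (nat_lit 202) (nat_lit 157)) (XT.lf (nat_lit 0) (nat_lit 3992262429) (nat_lit 504) (nat_lit 2847515783) (nat_lit 84) (nat_lit 3234905999) (nat_lit 84) (nat_lit 5) (nat_lit 90) (nat_lit 5) (nat_lit 85) (nat_lit 5) (nat_lit 242) (nat_lit 202) (nat_lit 156)))) (XT.nd (nat_lit 94) (nat_lit 504) (nat_lit 0) (XT.lf (nat_lit 0) (nat_lit 4086704761) (nat_lit 336) (nat_lit 2939822081) (nat_lit 420) (nat_lit 3227374310) (nat_lit 80) (nat_lit 5) (nat_lit 84) (nat_lit 5) (nat_lit 85) (nat_lit 5) (nat_lit 243) (nat_lit 202) (nat_lit 155)) (XT.nd (nat_lit 94) (nat_lit 84) (nat_lit 0) (XT.lf (nat_lit 0) (nat_lit 830631424) (nat_lit 420) (nat_lit 9341859994)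 (nat_lit 504) (nat_lit 266706737) (nat_lit 75) (nat_lit 5) (nat_lit 80) (nat_lit 5) (nat_lit 81) (nat_lit 5) (nat_lit 244) (nat_lit 202) (nat_lit 154)) (XT.lf (nat_lit 0) (nat_lit 2792063093) (nat_lit 504) (nat_lit 2542614085) (nat_lit 84) (nat_lit 5293185462) (nat_lit 74) (nat_lit 5) (nat_lit 80) (nat_lit 5) (nat_lit 75) (nat_lit 5) (nat_lit 245) (nat_lit 202) (nat_lit 153)))))) (XT.nd (nat_lit 564) (nat_lit 1176) (nat_lit 0) (XT.nd (nat_lit 282) (nat_lit 756) (nat_lit 0) (XT.nd (nat_lit 94) (nat_lit 420) (nat_lit 0) (XT.lf (nat_lit 0) (nat_lit 4809235665) (nat_lit 336) (nat_lit 1148057274) (nat_lit 420) (nat_lit 4865531622) (nat_lit 70) (nat_lit 5) (nat_lit 74) (nat_lit 5) (nat_lit 75) (nat_lit 5) (nat_lit 246) (nat_lit 202) (nat_lit 152)) (XT.nd (nat_lit 94) (nat_lit 84) (nat_lit 0) (XT.lf (nat_lit 0) (nat_lit 1383384837) (nat_lit 336) (nat_lit 7883908903) (nat_lit 420) (nat_lit 1756126831)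 (nat_lit 66) (nat_lit 5) (nat_lit 70) (nat_lit 5) (nat_lit 71) (nat_lit 5) (nat_lit 247) (nat_lit 202) (nat_lit 151)) (XT.lf (nat_lit 0) (nat_lit 1467021879) (nat_lit 420) (nat_lit 2143605110) (nat_lit 84) (nat_lit 7618507922) (nat_lit 65) (nat_lit 5) (nat_lit 70) (nat_lit 5) (nat_lit 66) (nat_lit 5) (nat_lit 248) (nat_lit 202) (nat_lit 150)))) (XT.nd (nat_lit 94) (nat_lit 420) (nat_lit 0) (XT.lf (nat_lit 0) (nat_lit 4789219630) (nat_lit 420) (nat_lit 5793324510) (nat_lit 84) (nat_lit 857835500) (nat_lit 61) (nat_lit 5) (nat_lit 66) (nat_lit 5) (nat_lit 62) (nat_lit 5) (nat_lit 249) (nat_lit 202) (nat_lit 149)) (XT.nd (nat_lit 94) (nat_lit 84) (nat_lit 0) (XT.lf (nat_lit 0) (nat_lit 2041468479) (nat_lit 336) (nat_lit 6231409750) (nat_lit 420) (nat_lit 3384558267) (nat_lit 57) (nat_lit 5) (nat_lit 61) (nat_lit 5) (nat_lit 62) (nat_lit 5) (nat_lit 250) (nat_lit 202) (nat_lit 148)) (XT.lf (nat_lit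 0) (nat_lit 21091468) (nat_lit 420) (nat_lit 1657747668) (nat_lit 84) (nat_lit 10202390405) (nat_lit 56) (nat_lit 5) (nat_lit 61) (nat_lit 5) (nat_lit 57) (nat_lit 5) (nat_lit 251) (nat_lit 202) (nat_lit 147))))) (XT.nd (nat_lit 282) (nat_lit 588) (nat_lit 0) (XT.nd (nat_lit 94) (nat_lit 336) (nat_lit 0) (XT.lf (nat_lit 0) (nat_lit 3532181538) (nat_lit 336) (nat_lit 5519687117) (nat_lit 84) (nat_lit 3057322112) (nat_lit 53) (nat_lit 5) (nat_lit 57) (nat_lit 5) (nat_lit 54) (nat_lit 5) (nat_lit 252) (nat_lit 202) (nat_lit 146)) (XT.nd (nat_lit 94) (nat_lit 0) (nat_lit 0) (XT.lf (nat_lit 0) (nat_lit 2799528412) (nat_lit 336) (nat_lit 4394464950) (nat_lit 420) (nat_lit 5150163098) (nat_lit 49) (nat_lit 5) (nat_lit 53) (nat_lit 5) (nat_lit 54) (nat_lit 5) (nat_lit 253) (nat_lit 202) (nat_lit 145)) (XT.lf (nat_lit 0) (nat_lit 11012558098) (nat_lit 420) (nat_lit 1113706365) (nat_lit 84) (nat_lit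 460080858) (nat_lit 49) (nat_lit 5) (nat_lit 54) (nat_lit 5) (nat_lit 50) (nat_lit 5) (nat_lit 254) (nat_lit 202) (nat_lit 144)))) (XT.nd (nat_lit 94) (nat_lit 252) (nat_lit 0) (XT.lf (nat_lit 0) (nat_lit 2176164014) (nat_lit 336) (nat_lit 5186276371) (nat_lit 84) (nat_lit 5470357963) (nat_lit 45) (nat_lit 5) (nat_lit 49) (nat_lit 5) (nat_lit 46) (nat_lit 5) (nat_lit 255) (nat_lit 202) (nat_lit 143)) (XT.nd (nat_lit 94) (nat_lit 0) (nat_lit 0) (XT.lf (nat_lit 0) (nat_lit 3653630106) (nat_lit 252) (nat_lit 2380400451) (nat_lit 336) (nat_lit 7052735441) (nat_lit 42) (nat_lit 5) (nat_lit 45) (nat_lit 5) (nat_lit 46) (nat_lit 5) (nat_lit 256) (nat_lit 202) (nat_lit 142)) (XT.lf (nat_lit 0) (nat_lit 10079761437) (nat_lit 336) (nat_lit 515653482) (nat_lit 84) (nat_lit 2752358229) (nat_lit 42) (nat_lit 5) (nat_lit 46) (nat_lit 5) (nat_lit 43) (nat_lit 5) (nat_lit 257) (nat_lit 202) (nat_lit 141))))))))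
noncomputable def xc25 : XT := (XT.nd (nat_lit 34122) (nat_lit 0) (nat_lit 4872) (XT.nd (nat_lit 32994) (nat_lit 0) (nat_lit 15204) (XT.nd (nat_lit 470) (nat_lit 168) (nat_lit 0) (XT.nd (nat_lit 188) (nat_lit 588) (nat_lit 0) (XT.nd (nat_lit 94) (nat_lit 252) (nat_lit 0) (XT.lf (nat_lit 0) (nat_lit 722598921) (nat_lit 336) (nat_lit 4798359375) (nat_lit 84) (nat_lit 8093619150) (nat_lit 38) (nat_lit 5) (nat_lit 42) (nat_lit 5) (nat_lit 39) (nat_lit 5) (nat_lit 258) (nat_lit 202) (nat_lit 140)) (XT.lf (nat_lit 0) (nat_lit 4601123030) (nat_lit 252) (nat_lit 194031486) (nat_lit 336) (nat_lit 9093582487) (nat_lit 35) (nat_lit 5) (nat_lit 38) (nat_lit 5) (nat_lit 39) (nat_lit 5) (nat_lit 259) (nat_lit 202) (nat_lit 139))) (XT.nd (nat_lit 94) (nat_lit 336) (nat_lit 0) (XT.lf (nat_lit 0) (nat_lit 155518587) (nat_lit 252) (nat_lit 8934905922) (nat_lit 336) (nat_lit 5079261512) (nat_lit 32) (nat_lit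 5) (nat_lit 35) (nat_lit 5) (nat_lit 36) (nat_lit 5) (nat_lit 260) (nat_lit 202) (nat_lit 138)) (XT.nd (nat_lit 94) (nat_lit 336) (nat_lit 0) (XT.lf (nat_lit 0) (nat_lit 10088217246) (nat_lit 252) (nat_lit 3522117089) (nat_lit 336) (nat_lit 847533231) (nat_lit 32) (nat_lit 5) (nat_lit 35) (nat_lit 5) (nat_lit 36) (nat_lit 5) (nat_lit 261) (nat_lit 202) (nat_lit 137)) (XT.lf (nat_lit 0) (nat_lit 3502503950) (nat_lit 336) (nat_lit 9137405348) (nat_lit 84) (nat_lit 2113088474) (nat_lit 28) (nat_lit 5) (nat_lit 32) (nat_lit 5) (nat_lit 29) (nat_lit 5) (nat_lit 262) (nat_lit 202) (nat_lit 136))))) (XT.nd (nat_lit 32242) (nat_lit 0) (nat_lit 19152) (XT.nd (nat_lit 32054) (nat_lit 0) (nat_lit 19572) (XT.lf (nat_lit 0) (nat_lit 907434860) (nat_lit 168) (nat_lit 7144013597) (nat_lit 252) (nat_lit 7004337891) (nat_lit 26) (nat_lit 5) (nat_lit 28) (nat_lit 5) (nat_lit 29) (nat_lit 5) (nat_lit 263) (nat_lit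 202) (nat_lit 135)) (XT.nd (nat_lit 94) (nat_lit 420) (nat_lit 0) (XT.lf (nat_lit 0) (nat_lit 1248940115) (nat_lit 0) (nat_lit 1248940115) (nat_lit 252) (nat_lit 748662325) (nat_lit 264) (nat_lit 5) (nat_lit 264) (nat_lit 3) (nat_lit 267) (nat_lit 3) (nat_lit 203) (nat_lit 203) (nat_lit 194)) (XT.lf (nat_lit 0) (nat_lit 1223202469) (nat_lit 420) (nat_lit 731686949) (nat_lit 420) (nat_lit 4557492329) (nat_lit 259) (nat_lit 3) (nat_lit 264) (nat_lit 3) (nat_lit 264) (nat_lit 5) (nat_lit 204) (nat_lit 203) (nat_lit 193)))) (XT.nd (nat_lit 94) (nat_lit 420) (nat_lit 0) (XT.lf (nat_lit 84) (nat_lit 2624649572) (nat_lit 0) (nat_lit 1285410000) (nat_lit 420) (nat_lit 2624971069) (nat_lit 260) (nat_lit 5) (nat_lit 259) (nat_lit 3) (nat_lit 264) (nat_lit 5) (nat_lit 205) (nat_lit 203) (nat_lit 192)) (XT.nd (nat_lit 94) (nat_lit 0) (nat_lit 84) (XT.lf (nat_lit 0) (nat_lit 17299597) (nat_lit 420) (nat_lit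 509447240) (nat_lit 504) (nat_lit 6035600074) (nat_lit 254) (nat_lit 5) (nat_lit 259) (nat_lit 3) (nat_lit 260) (nat_lit 5) (nat_lit 206) (nat_lit 203) (nat_lit 191)) (XT.lf (nat_lit 0) (nat_lit 2611081375) (nat_lit 420) (nat_lit 3612280329) (nat_lit 504) (nat_lit 368975849) (nat_lit 255) (nat_lit 5) (nat_lit 260) (nat_lit 5) (nat_lit 261) (nat_lit 5) (nat_lit 207) (nat_lit 203) (nat_lit 190)))))) (XT.nd (nat_lit 564) (nat_lit 2940) (nat_lit 0) (XT.nd (nat_lit 282) (nat_lit 588) (nat_lit 0) (XT.nd (nat_lit 94) (nat_lit 504) (nat_lit 0) (XT.lf (nat_lit 0) (nat_lit 5194792482) (nat_lit 420) (nat_lit 92707073) (nat_lit 504) (nat_lit 1339408167) (nat_lit 255) (nat_lit 5) (nat_lit 260) (nat_lit 5) (nat_lit 261) (nat_lit 5) (nat_lit 208) (nat_lit 203) (nat_lit 189)) (XT.nd (nat_lit 94) (nat_lit 0) (nat_lit 0) (XT.lf (nat_lit 0) (nat_lit 1108638595) (nat_lit 504) (nat_lit 3111900001) (nat_lit 588)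 (nat_lit 2444137817) (nat_lit 249) (nat_lit 5) (nat_lit 255) (nat_lit 5) (nat_lit 256) (nat_lit 5) (nat_lit 209) (nat_lit 203) (nat_lit 188)) (XT.lf (nat_lit 84) (nat_lit 553575719) (nat_lit 0) (nat_lit 3050973274) (nat_lit 588) (nat_lit 3102145618) (nat_lit 250) (nat_lit 5) (nat_lit 249) (nat_lit 5) (nat_lit 256) (nat_lit 5) (nat_lit 210) (nat_lit 203) (nat_lit 187)))) (XT.nd (nat_lit 94) (nat_lit 588) (nat_lit 0) (XT.lf (nat_lit 84) (nat_lit 4356031143) (nat_lit 0) (nat_lit 1763966152) (nat_lit 588) (nat_lit 632559813) (nat_lit 250) (nat_lit 5) (nat_lit 249) (nat_lit 5) (nat_lit 256) (nat_lit 5) (nat_lit 211) (nat_lit 203) (nat_lit 186)) (XT.nd (nat_lit 94) (nat_lit 0) (nat_lit 84) (XT.lf (nat_lit 84) (nat_lit 1436514980) (nat_lit 0) (nat_lit 357171249) (nat_lit 672) (nat_lit 5008604137) (nat_lit 243) (nat_lit 5) (nat_lit 242) (nat_lit 5) (nat_lit 250) (nat_lit 5) (nat_lit 212) (nat_lit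 203) (nat_lit 185)) (XT.lf (nat_lit 0) (nat_lit 4231791174) (nat_lit 588) (nat_lit 1480658865) (nat_lit 84) (nat_lit 1143096455) (nat_lit 243) (nat_lit 5) (nat_lit 250) (nat_lit 5) (nat_lit 244) (nat_lit 5) (nat_lit 213) (nat_lit 203) (nat_lit 184))))) (XT.nd (nat_lit 282) (nat_lit 1680) (nat_lit 0) (XT.nd (nat_lit 94) (nat_lit 756) (nat_lit 0) (XT.lf (nat_lit 0) (nat_lit 2526672693) (nat_lit 588) (nat_lit 4165115669) (nat_lit 672) (nat_lit 221098674) (nat_lit 236) (nat_lit 5) (nat_lit 243) (nat_lit 5) (nat_lit 244) (nat_lit 5) (nat_lit 214) (nat_lit 203) (nat_lit 183)) (XT.nd (nat_lit 94) (nat_lit 672) (nat_lit 0) (XT.lf (nat_lit 0) (nat_lit 2137663213) (nat_lit 672) (nat_lit 355613755) (nat_lit 84) (nat_lit 4480755530) (nat_lit 235) (nat_lit 5) (nat_lit 243) (nat_lit 5) (nat_lit 236) (nat_lit 5) (nat_lit 215) (nat_lit 203) (nat_lit 182)) (XT.lf (nat_lit 0) (nat_lit 3834402107) (nat_lit 672)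 (nat_lit 691014405) (nat_lit 756) (nat_lit 2513505479) (nat_lit 227) (nat_lit 5) (nat_lit 235) (nat_lit 5) (nat_lit 236) (nat_lit 5) (nat_lit 216) (nat_lit 203) (nat_lit 181)))) (XT.nd (nat_lit 94) (nat_lit 924) (nat_lit 0) (XT.lf (nat_lit 0) (nat_lit 1014888076) (nat_lit 756) (nat_lit 5922004611) (nat_lit 840) (nat_lit 171284627) (nat_lit 218) (nat_lit 5) (nat_lit 227) (nat_lit 5) (nat_lit 228) (nat_lit 5) (nat_lit 217) (nat_lit 203) (nat_lit 180)) (XT.nd (nat_lit 94) (nat_lit 840) (nat_lit 0) (XT.lf (nat_lit 0) (nat_lit 2160803697) (nat_lit 840) (nat_lit 1823021080) (nat_lit 84) (nat_lit 3196589162) (nat_lit 217) (nat_lit 5) (nat_lit 227) (nat_lit 5) (nat_lit 218) (nat_lit 5) (nat_lit 218) (nat_lit 203) (nat_lit 179)) (XT.lf (nat_lit 0) (nat_lit 2585822709) (nat_lit 840) (nat_lit 1929190355) (nat_lit 924) (nat_lit 2742038531) (nat_lit 207) (nat_lit 5) (nat_lit 217) (nat_lit 5) (nat_lit 218)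 (nat_lit 5) (nat_lit 219) (nat_lit 203) (nat_lit 178))))))) (XT.nd (nat_lit 1128) (nat_lit 3948) (nat_lit 0) (XT.nd (nat_lit 564) (nat_lit 2016) (nat_lit 0) (XT.nd (nat_lit 282) (nat_lit 2352) (nat_lit 0) (XT.nd (nat_lit 94) (nat_lit 2016) (nat_lit 0) (XT.lf (nat_lit 0) (nat_lit 6893562206) (nat_lit 924) (nat_lit 215133170) (nat_lit 84) (nat_lit 229708206) (nat_lit 207) (nat_lit 5) (nat_lit 218) (nat_lit 5) (nat_lit 208) (nat_lit 5) (nat_lit 220) (nat_lit 203) (nat_lit 177)) (XT.nd (nat_lit 94) (nat_lit 1008) (nat_lit 0) (XT.lf (nat_lit 0) (nat_lit 1880953433) (nat_lit 1008) (nat_lit 3037173421) (nat_lit 84) (nat_lit 2504001621) (nat_lit 195) (nat_lit 5) (nat_lit 207) (nat_lit 5) (nat_lit 196) (nat_lit 5) (nat_lit 221) (nat_lit 203) (nat_lit 176)) (XT.lf (nat_lit 0) (nat_lit 1605253442) (nat_lit 1008) (nat_lit 2614714853) (nat_lit 1092) (nat_lit 3290656909) (nat_lit 183) (nat_lit 5) (nat_lit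 195) (nat_lit 5) (nat_lit 196) (nat_lit 5) (nat_lit 222) (nat_lit 203) (nat_lit 175)))) (XT.nd (nat_lit 94) (nat_lit 2352) (nat_lit 0) (XT.lf (nat_lit 0) (nat_lit 6415373251) (nat_lit 1008) (nat_lit 185005829) (nat_lit 1092) (nat_lit 1003256675) (nat_lit 183) (nat_lit 5) (nat_lit 195) (nat_lit 5) (nat_lit 196) (nat_lit 5) (nat_lit 223) (nat_lit 203) (nat_lit 174)) (XT.nd (nat_lit 94) (nat_lit 1176) (nat_lit 0) (XT.lf (nat_lit 0) (nat_lit 1326558713) (nat_lit 1176) (nat_lit 4031856240) (nat_lit 84) (nat_lit 2341189621) (nat_lit 169) (nat_lit 5) (nat_lit 183) (nat_lit 5) (nat_lit 170) (nat_lit 5) (nat_lit 224) (nat_lit 203) (nat_lit 173)) (XT.lf (nat_lit 0) (nat_lit 860440768) (nat_lit 1176) (nat_lit 2807112433) (nat_lit 1260) (nat_lit 4132612867) (nat_lit 155) (nat_lit 5) (nat_lit 169) (nat_lit 5) (nat_lit 170) (nat_lit 5) (nat_lit 225) (nat_lit 203) (nat_lit 172))))) (XT.nd (nat_lit 282) (nat_lit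 672) (nat_lit 0) (XT.nd (nat_lit 94) (nat_lit 1344) (nat_lit 0) (XT.lf (nat_lit 0) (nat_lit 5952554115) (nat_lit 1176) (nat_lit 114478401) (nat_lit 1260) (nat_lit 1838035447) (nat_lit 155) (nat_lit 5) (nat_lit 169) (nat_lit 5) (nat_lit 170) (nat_lit 5) (nat_lit 226) (nat_lit 203) (nat_lit 171)) (XT.nd (nat_lit 94) (nat_lit 588) (nat_lit 0) (XT.lf (nat_lit 0) (nat_lit 521293233) (nat_lit 756) (nat_lit 4836401924) (nat_lit 84) (nat_lit 2655855426) (nat_lit 146) (nat_lit 5) (nat_lit 155) (nat_lit 5) (nat_lit 147) (nat_lit 5) (nat_lit 227) (nat_lit 203) (nat_lit 170)) (XT.lf (nat_lit 0) (nat_lit 323618848) (nat_lit 588) (nat_lit 2556876509) (nat_lit 672) (nat_lit 5245977753) (nat_lit 139) (nat_lit 5) (nat_lit 146) (nat_lit 5) (nat_lit 147) (nat_lit 5) (nat_lit 228) (nat_lit 203) (nat_lit 169)))) (XT.nd (nat_lit 94) (nat_lit 672) (nat_lit 0) (XT.lf (nat_lit 0) (nat_lit 5317514714) (nat_lit 672)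 (nat_lit 2536099755) (nat_lit 84) (nat_lit 389899874) (nat_lit 139) (nat_lit 5) (nat_lit 147) (nat_lit 5) (nat_lit 140) (nat_lit 5) (nat_lit 229) (nat_lit 203) (nat_lit 168)) (XT.nd (nat_lit 94) (nat_lit 84) (nat_lit 0) (XT.lf (nat_lit 0) (nat_lit 2882600634) (nat_lit 588) (nat_lit 4954784222) (nat_lit 672) (nat_lit 527352735) (nat_lit 132) (nat_lit 5) (nat_lit 139) (nat_lit 5) (nat_lit 140) (nat_lit 5) (nat_lit 230) (nat_lit 203) (nat_lit 167)) (XT.lf (nat_lit 0) (nat_lit 1877825421) (nat_lit 672) (nat_lit 28390647) (nat_lit 84) (nat_lit 6584383152) (nat_lit 131) (nat_lit 5) (nat_lit 139) (nat_lit 5) (nat_lit 132) (nat_lit 5) (nat_lit 231) (nat_lit 203) (nat_lit 166)))))) (XT.nd (nat_lit 564) (nat_lit 1848) (nat_lit 0) (XT.nd (nat_lit 282) (nat_lit 1008) (nat_lit 0) (XT.nd (nat_lit 94) (nat_lit 588) (nat_lit 0) (XT.lf (nat_lit 0) (nat_lit 4371449341) (nat_lit 588) (nat_lit 2963097474) (nat_lit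 84) (nat_lit 1285523925) (nat_lit 125) (nat_lit 5) (nat_lit 132) (nat_lit 5) (nat_lit 126) (nat_lit 5) (nat_lit 232) (nat_lit 203) (nat_lit 165)) (XT.nd (nat_lit 94) (nat_lit 84) (nat_lit 0) (XT.lf (nat_lit 0) (nat_lit 2760659505) (nat_lit 504) (nat_lit 4184826069) (nat_lit 588) (nat_lit 1808828447) (nat_lit 119) (nat_lit 5) (nat_lit 125) (nat_lit 5) (nat_lit 126) (nat_lit 5) (nat_lit 233) (nat_lit 203) (nat_lit 164)) (XT.lf (nat_lit 0) (nat_lit 676138110) (nat_lit 588) (nat_lit 213015386) (nat_lit 84) (nat_lit 8004662129) (nat_lit 118) (nat_lit 5) (nat_lit 125) (nat_lit 5) (nat_lit 119) (nat_lit 5) (nat_lit 234) (nat_lit 203) (nat_lit 163)))) (XT.nd (nat_lit 94) (nat_lit 504) (nat_lit 0) (XT.lf (nat_lit 0) (nat_lit 3242069869) (nat_lit 588) (nat_lit 3251446182) (nat_lit 84) (nat_lit 2542678222) (nat_lit 112) (nat_lit 5) (nat_lit 119) (nat_lit 5) (nat_lit 113) (nat_lit 5) (nat_lit 235) (nat_lit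 203) (nat_lit 162)) (XT.nd (nat_lit 94) (nat_lit 0) (nat_lit 0) (XT.lf (nat_lit 0) (nat_lit 2799998029) (nat_lit 504) (nat_lit 3085575546) (nat_lit 588) (nat_lit 3298410846) (nat_lit 106) (nat_lit 5) (nat_lit 112) (nat_lit 5) (nat_lit 113) (nat_lit 5) (nat_lit 236) (nat_lit 203) (nat_lit 161)) (XT.lf (nat_lit 0) (nat_lit 8610131962) (nat_lit 588) (nat_lit 267970005) (nat_lit 84) (nat_lit 459246637) (nat_lit 106) (nat_lit 5) (nat_lit 113) (nat_lit 5) (nat_lit 107) (nat_lit 5) (nat_lit 237) (nat_lit 203) (nat_lit 160))))) (XT.nd (nat_lit 282) (nat_lit 924) (nat_lit 0) (XT.nd (nat_lit 94) (nat_lit 420) (nat_lit 0) (XT.lf (nat_lit 0) (nat_lit 1940903301) (nat_lit 504) (nat_lit 3417650864) (nat_lit 84) (nat_lit 4134994682) (nat_lit 100) (nat_lit 5) (nat_lit 106) (nat_lit 5) (nat_lit 101) (nat_lit 5) (nat_lit 238) (nat_lit 203) (nat_lit 159)) (XT.nd (nat_lit 94) (nat_lit 0) (nat_lit 0) (XT.lf (nat_lit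 0) (nat_lit 2985928128) (nat_lit 420) (nat_lit 1683024237) (nat_lit 504) (nat_lit 4986543820) (nat_lit 95) (nat_lit 5) (nat_lit 100) (nat_lit 5) (nat_lit 101) (nat_lit 5) (nat_lit 239) (nat_lit 203) (nat_lit 158)) (XT.lf (nat_lit 0) (nat_lit 7504952579) (nat_lit 504) (nat_lit 217484571) (nat_lit 84) (nat_lit 2100238102) (nat_lit 95) (nat_lit 5) (nat_lit 101) (nat_lit 5) (nat_lit 96) (nat_lit 5) (nat_lit 240) (nat_lit 203) (nat_lit 157)))) (XT.nd (nat_lit 94) (nat_lit 420) (nat_lit 0) (XT.lf (nat_lit 0) (nat_lit 476809908) (nat_lit 504) (nat_lit 3475843570) (nat_lit 84) (nat_lit 6041395404) (nat_lit 89) (nat_lit 5) (nat_lit 95) (nat_lit 5) (nat_lit 90) (nat_lit 5) (nat_lit 241) (nat_lit 203) (nat_lit 156)) (XT.nd (nat_lit 94) (nat_lit 0) (nat_lit 0) (XT.lf (nat_lit 0) (nat_lit 3304426588) (nat_lit 504) (nat_lit 6864640887) (nat_lit 84) (nat_lit 1779263) (nat_lit 84) (nat_lit 5) (nat_lit 90)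 (nat_lit 5) (nat_lit 85) (nat_lit 5) (nat_lit 242) (nat_lit 203) (nat_lit 155)) (XT.lf (nat_lit 0) (nat_lit 6269076303) (nat_lit 504) (nat_lit 55664120) (nat_lit 84) (nat_lit 4027759771) (nat_lit 84) (nat_lit 5) (nat_lit 90) (nat_lit 5) (nat_lit 85) (nat_lit 5) (nat_lit 243) (nat_lit 203) (nat_lit 154))))))))
noncomputable def xc26 : XT := (XT.nd (nat_lit 34216) (nat_lit 0) (nat_lit 8736) (XT.nd (nat_lit 1034) (nat_lit 1764) (nat_lit 0) (XT.nd (nat_lit 470) (nat_lit 1344) (nat_lit 0) (XT.nd (nat_lit 188) (nat_lit 756) (nat_lit 0) (XT.nd (nat_lit 94) (nat_lit 504) (nat_lit 0) (XT.lf (nat_lit 0) (nat_lit 7088288991) (nat_lit 336) (nat_lit 2280832802) (nat_lit 420) (nat_lit 1170282572) (nat_lit 80) (nat_lit 5) (nat_lit 84) (nat_lit 5) (nat_lit 85) (nat_lit 5) (nat_lit 244) (nat_lit 203) (nat_lit 153)) (XT.lf (nat_lit 0) (nat_lit 1820213668) (nat_lit 504) (nat_lit 7003187569) (nat_lit 84) (nat_lit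 1908126639) (nat_lit 74) (nat_lit 5) (nat_lit 80) (nat_lit 5) (nat_lit 75) (nat_lit 5) (nat_lit 245) (nat_lit 203) (nat_lit 152))) (XT.nd (nat_lit 94) (nat_lit 420) (nat_lit 0) (XT.lf (nat_lit 0) (nat_lit 212441624) (nat_lit 336) (nat_lit 4699030638) (nat_lit 420) (nat_lit 6017606527) (nat_lit 70) (nat_lit 5) (nat_lit 74) (nat_lit 5) (nat_lit 75) (nat_lit 5) (nat_lit 246) (nat_lit 203) (nat_lit 151)) (XT.nd (nat_lit 94) (nat_lit 420) (nat_lit 0) (XT.lf (nat_lit 0) (nat_lit 7784420082) (nat_lit 336) (nat_lit 363686302) (nat_lit 420) (nat_lit 2984136249) (nat_lit 70) (nat_lit 5) (nat_lit 74) (nat_lit 5) (nat_lit 75) (nat_lit 5) (nat_lit 247) (nat_lit 203) (nat_lit 150)) (XT.lf (nat_lit 0) (nat_lit 201906215) (nat_lit 420) (nat_lit 7076919884) (nat_lit 84) (nat_lit 4061883035) (nat_lit 65) (nat_lit 5) (nat_lit 70) (nat_lit 5) (nat_lit 66) (nat_lit 5) (nat_lit 248) (nat_lit 203) (nat_lit 149)))))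 (XT.nd (nat_lit 282) (nat_lit 672) (nat_lit 0) (XT.nd (nat_lit 94) (nat_lit 336) (nat_lit 0) (XT.lf (nat_lit 0) (nat_lit 577324068) (nat_lit 336) (nat_lit 2858862606) (nat_lit 420) (nat_lit 8118844294) (nat_lit 61) (nat_lit 5) (nat_lit 65) (nat_lit 5) (nat_lit 66) (nat_lit 5) (nat_lit 249) (nat_lit 203) (nat_lit 148)) (XT.nd (nat_lit 94) (nat_lit 336) (nat_lit 0) (XT.lf (nat_lit 0) (nat_lit 6843981341) (nat_lit 420) (nat_lit 3188978541) (nat_lit 84) (nat_lit 1741783180) (nat_lit 61) (nat_lit 5) (nat_lit 66) (nat_lit 5) (nat_lit 62) (nat_lit 5) (nat_lit 250) (nat_lit 203) (nat_lit 147)) (XT.lf (nat_lit 0) (nat_lit 4888029294) (nat_lit 336) (nat_lit 5528643087) (nat_lit 420) (nat_lit 1583875873) (nat_lit 57) (nat_lit 5) (nat_lit 61) (nat_lit 5) (nat_lit 62) (nat_lit 5) (nat_lit 251) (nat_lit 203) (nat_lit 146)))) (XT.nd (nat_lit 94) (nat_lit 336) (nat_lit 0) (XT.lf (nat_lit 0) (nat_lit 1030915181)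 (nat_lit 252) (nat_lit 814600888) (nat_lit 336) (nat_lit 10387727482) (nat_lit 53) (nat_lit 5) (nat_lit 56) (nat_lit 5) (nat_lit 57) (nat_lit 5) (nat_lit 252) (nat_lit 203) (nat_lit 145)) (XT.nd (nat_lit 94) (nat_lit 336) (nat_lit 0) (XT.lf (nat_lit 0) (nat_lit 5446877495) (nat_lit 336) (nat_lit 2968437217) (nat_lit 84) (nat_lit 4055010296) (nat_lit 53) (nat_lit 5) (nat_lit 57) (nat_lit 5) (nat_lit 54) (nat_lit 5) (nat_lit 253) (nat_lit 203) (nat_lit 144)) (XT.lf (nat_lit 0) (nat_lit 5610662464) (nat_lit 336) (nat_lit 3595853028) (nat_lit 420) (nat_lit 3508060812) (nat_lit 49) (nat_lit 5) (nat_lit 53) (nat_lit 5) (nat_lit 54) (nat_lit 5) (nat_lit 254) (nat_lit 203) (nat_lit 143)))))) (XT.nd (nat_lit 564) (nat_lit 588) (nat_lit 0) (XT.nd (nat_lit 282) (nat_lit 588) (nat_lit 0) (XT.nd (nat_lit 94) (nat_lit 252) (nat_lit 0) (XT.lf (nat_lit 0) (nat_lit 156749875) (nat_lit 336) (nat_lit 11414926057)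 (nat_lit 84) (nat_lit 1394622677) (nat_lit 45) (nat_lit 5) (nat_lit 49) (nat_lit 5) (nat_lit 46) (nat_lit 5) (nat_lit 255) (nat_lit 203) (nat_lit 142)) (XT.nd (nat_lit 94) (nat_lit 252) (nat_lit 0) (XT.lf (nat_lit 0) (nat_lit 3954725050) (nat_lit 336) (nat_lit 2688057474) (nat_lit 84) (nat_lit 6579579931) (nat_lit 45) (nat_lit 5) (nat_lit 49) (nat_lit 5) (nat_lit 46) (nat_lit 5) (nat_lit 256) (nat_lit 203) (nat_lit 141)) (XT.lf (nat_lit 0) (nat_lit 6430694964) (nat_lit 252) (nat_lit 1488870682) (nat_lit 336) (nat_lit 5566635120) (nat_lit 42) (nat_lit 5) (nat_lit 45) (nat_lit 5) (nat_lit 46) (nat_lit 5) (nat_lit 257) (nat_lit 203) (nat_lit 140)))) (XT.nd (nat_lit 94) (nat_lit 336) (nat_lit 0) (XT.lf (nat_lit 0) (nat_lit 2120097853) (nat_lit 252) (nat_lit 9964295920) (nat_lit 336) (nat_lit 1672737012) (nat_lit 39) (nat_lit 5) (nat_lit 42) (nat_lit 5) (nat_lit 43) (nat_lit 5) (nat_lit 258) (nat_lit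 203) (nat_lit 139)) (XT.nd (nat_lit 94) (nat_lit 252) (nat_lit 0) (XT.lf (nat_lit 0) (nat_lit 2368222859) (nat_lit 336) (nat_lit 2352689165) (nat_lit 84) (nat_lit 9313463978) (nat_lit 38) (nat_lit 5) (nat_lit 42) (nat_lit 5) (nat_lit 39) (nat_lit 5) (nat_lit 259) (nat_lit 203) (nat_lit 138)) (XT.lf (nat_lit 0) (nat_lit 6566100719) (nat_lit 336) (nat_lit 6981850492) (nat_lit 84) (nat_lit 770782534) (nat_lit 35) (nat_lit 5) (nat_lit 39) (nat_lit 5) (nat_lit 36) (nat_lit 5) (nat_lit 260) (nat_lit 203) (nat_lit 137))))) (XT.nd (nat_lit 32336) (nat_lit 0) (nat_lit 18984) (XT.nd (nat_lit 94) (nat_lit 336) (nat_lit 0) (XT.lf (nat_lit 0) (nat_lit 2759586446) (nat_lit 252) (nat_lit 8229023264) (nat_lit 336) (nat_lit 3621714609) (nat_lit 32) (nat_lit 5) (nat_lit 35) (nat_lit 5) (nat_lit 36) (nat_lit 5) (nat_lit 261) (nat_lit 203) (nat_lit 136)) (XT.nd (nat_lit 94) (nat_lit 252) (nat_lit 0) (XT.lf (nat_lit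 0) (nat_lit 686887436) (nat_lit 336) (nat_lit 1966239895) (nat_lit 84) (nat_lit 12257060876) (nat_lit 31) (nat_lit 5) (nat_lit 35) (nat_lit 5) (nat_lit 32) (nat_lit 5) (nat_lit 262) (nat_lit 203) (nat_lit 135)) (XT.lf (nat_lit 0) (nat_lit 5156232272) (nat_lit 336) (nat_lit 6897586365) (nat_lit 84) (nat_lit 3161944134) (nat_lit 28) (nat_lit 5) (nat_lit 32) (nat_lit 5) (nat_lit 29) (nat_lit 5) (nat_lit 263) (nat_lit 203) (nat_lit 134)))) (XT.nd (nat_lit 94) (nat_lit 420) (nat_lit 0) (XT.lf (nat_lit 0) (nat_lit 1924669842) (nat_lit 420) (nat_lit 670967538) (nat_lit 420) (nat_lit 670967538) (nat_lit 259) (nat_lit 3) (nat_lit 264) (nat_lit 3) (nat_lit 264) (nat_lit 5) (nat_lit 204) (nat_lit 204) (nat_lit 192)) (XT.nd (nat_lit 94) (nat_lit 420) (nat_lit 0) (XT.lf (nat_lit 84) (nat_lit 1969322809) (nat_lit 0) (nat_lit 4501176913) (nat_lit 420) (nat_lit 87658406) (nat_lit 260) (nat_lit 5) (nat_lit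 259) (nat_lit 3) (nat_lit 264) (nat_lit 5) (nat_lit 205) (nat_lit 204) (nat_lit 191)) (XT.lf (nat_lit 0) (nat_lit 2439672578) (nat_lit 420) (nat_lit 1247379544) (nat_lit 504) (nat_lit 2899442064) (nat_lit 254) (nat_lit 5) (nat_lit 259) (nat_lit 3) (nat_lit 260) (nat_lit 5) (nat_lit 206) (nat_lit 204) (nat_lit 190))))))) (XT.nd (nat_lit 1128) (nat_lit 7140) (nat_lit 0) (XT.nd (nat_lit 564) (nat_lit 2100) (nat_lit 0) (XT.nd (nat_lit 282) (nat_lit 504) (nat_lit 0) (XT.nd (nat_lit 94) (nat_lit 504) (nat_lit 0) (XT.lf (nat_lit 84) (nat_lit 2198507287) (nat_lit 0) (nat_lit 2766517221) (nat_lit 504) (nat_lit 1653855365) (nat_lit 255) (nat_lit 5) (nat_lit 254) (nat_lit 5) (nat_lit 260) (nat_lit 5) (nat_lit 207) (nat_lit 204) (nat_lit 189)) (XT.nd (nat_lit 94) (nat_lit 0) (nat_lit 0) (XT.lf (nat_lit 0) (nat_lit 809249560) (nat_lit 504) (nat_lit 930656931) (nat_lit 588) (nat_lit 4915495175) (nat_lit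 248) (nat_lit 5) (nat_lit 254) (nat_lit 5) (nat_lit 255) (nat_lit 5) (nat_lit 208) (nat_lit 204) (nat_lit 188)) (XT.lf (nat_lit 84) (nat_lit 2661375163) (nat_lit 0) (nat_lit 580783652) (nat_lit 588) (nat_lit 3453091086) (nat_lit 249) (nat_lit 5) (nat_lit 248) (nat_lit 5) (nat_lit 255) (nat_lit 5) (nat_lit 209) (nat_lit 204) (nat_lit 187)))) (XT.nd (nat_lit 94) (nat_lit 588) (nat_lit 0) (XT.lf (nat_lit 0) (nat_lit 5674421371) (nat_lit 504) (nat_lit 406194078) (nat_lit 588) (nat_lit 658880324) (nat_lit 249) (nat_lit 5) (nat_lit 255) (nat_lit 5) (nat_lit 256) (nat_lit 5) (nat_lit 210) (nat_lit 204) (nat_lit 186)) (XT.nd (nat_lit 94) (nat_lit 0) (nat_lit 0) (XT.lf (nat_lit 0) (nat_lit 1317775420) (nat_lit 588) (nat_lit 3446796243) (nat_lit 672) (nat_lit 2022160022) (nat_lit 242) (nat_lit 5) (nat_lit 249) (nat_lit 5) (nat_lit 250) (nat_lit 5) (nat_lit 211) (nat_lit 204) (nat_lit 185)) (XT.lf (nat_lit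 84) (nat_lit 322519688) (nat_lit 0) (nat_lit 3346238983) (nat_lit 672) (nat_lit 3169591789) (nat_lit 243) (nat_lit 5) (nat_lit 242) (nat_lit 5) (nat_lit 250) (nat_lit 5) (nat_lit 212) (nat_lit 204) (nat_lit 184))))) (XT.nd (nat_lit 282) (nat_lit 1428) (nat_lit 0) (XT.nd (nat_lit 94) (nat_lit 672) (nat_lit 0) (XT.lf (nat_lit 84) (nat_lit 4243320785) (nat_lit 0) (nat_lit 1803297414) (nat_lit 672) (nat_lit 847096977) (nat_lit 243) (nat_lit 5) (nat_lit 242) (nat_lit 5) (nat_lit 250) (nat_lit 5) (nat_lit 213) (nat_lit 204) (nat_lit 183)) (XT.nd (nat_lit 94) (nat_lit 0) (nat_lit 84) (XT.lf (nat_lit 84) (nat_lit 1299198186) (nat_lit 0) (nat_lit 142765436) (nat_lit 756) (nat_lit 5511226836) (nat_lit 235) (nat_lit 5) (nat_lit 234) (nat_lit 5) (nat_lit 243) (nat_lit 5) (nat_lit 214) (nat_lit 204) (nat_lit 182)) (XT.lf (nat_lit 0) (nat_lit 3749354949) (nat_lit 672) (nat_lit 1656720651) (nat_lit 84) (nat_lit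 1609796605) (nat_lit 235) (nat_lit 5) (nat_lit 243) (nat_lit 5) (nat_lit 236) (nat_lit 5) (nat_lit 215) (nat_lit 204) (nat_lit 181)))) (XT.nd (nat_lit 94) (nat_lit 840) (nat_lit 0) (XT.lf (nat_lit 0) (nat_lit 2471022964) (nat_lit 672) (nat_lit 3607641559) (nat_lit 756) (nat_lit 1004142704) (nat_lit 227) (nat_lit 5) (nat_lit 235) (nat_lit 5) (nat_lit 236) (nat_lit 5) (nat_lit 216) (nat_lit 204) (nat_lit 180)) (XT.nd (nat_lit 94) (nat_lit 756) (nat_lit 0) (XT.lf (nat_lit 0) (nat_lit 1240129641) (nat_lit 756) (nat_lit 448608065) (nat_lit 84) (nat_lit 5465169326) (nat_lit 226) (nat_lit 5) (nat_lit 235) (nat_lit 5) (nat_lit 227) (nat_lit 5) (nat_lit 217) (nat_lit 204) (nat_lit 179)) (XT.lf (nat_lit 0) (nat_lit 3502922531) (nat_lit 840) (nat_lit 3359056383) (nat_lit 84) (nat_lit 366387355) (nat_lit 217) (nat_lit 5) (nat_lit 227) (nat_lit 5) (nat_lit 218) (nat_lit 5) (nat_lit 218) (nat_lit 204) (nat_lit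 178)))))) (XT.nd (nat_lit 564) (nat_lit 3108) (nat_lit 0) (XT.nd (nat_lit 282) (nat_lit 2184) (nat_lit 0) (XT.nd (nat_lit 94) (nat_lit 1008) (nat_lit 0) (XT.lf (nat_lit 0) (nat_lit 981340010) (nat_lit 840) (nat_lit 4817893141) (nat_lit 924) (nat_lit 1507797230) (nat_lit 207) (nat_lit 5) (nat_lit 217) (nat_lit 5) (nat_lit 218) (nat_lit 5) (nat_lit 219) (nat_lit 204) (nat_lit 177)) (XT.nd (nat_lit 94) (nat_lit 924) (nat_lit 0) (XT.lf (nat_lit 0) (nat_lit 729380630) (nat_lit 924) (nat_lit 1908358318) (nat_lit 84) (nat_lit 4751809782) (nat_lit 206) (nat_lit 5) (nat_lit 217) (nat_lit 5) (nat_lit 207) (nat_lit 5) (nat_lit 220) (nat_lit 204) (nat_lit 176)) (XT.lf (nat_lit 0) (nat_lit 2641965752) (nat_lit 924) (nat_lit 319338723) (nat_lit 1008) (nat_lit 4514728127) (nat_lit 195) (nat_lit 5) (nat_lit 206) (nat_lit 5) (nat_lit 207) (nat_lit 5) (nat_lit 221) (nat_lit 204) (nat_lit 175)))) (XT.nd (nat_lit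 94) (nat_lit 2184) (nat_lit 0) (XT.lf (nat_lit 0) (nat_lit 5241748615) (nat_lit 1008) (nat_lit 257003702) (nat_lit 84) (nat_lit 2067826991) (nat_lit 195) (nat_lit 5) (nat_lit 207) (nat_lit 5) (nat_lit 196) (nat_lit 5) (nat_lit 222) (nat_lit 204) (nat_lit 174)) (XT.nd (nat_lit 94) (nat_lit 1176) (nat_lit 0) (XT.lf (nat_lit 0) (nat_lit 4515000454) (nat_lit 1008) (nat_lit 3067999543) (nat_lit 1092) (nat_lit 77960441) (nat_lit 183) (nat_lit 5) (nat_lit 195) (nat_lit 5) (nat_lit 196) (nat_lit 5) (nat_lit 223) (nat_lit 204) (nat_lit 173)) (XT.lf (nat_lit 0) (nat_lit 1649080880) (nat_lit 1092) (nat_lit 496894539) (nat_lit 1176) (nat_lit 5613564464) (nat_lit 169) (nat_lit 5) (nat_lit 182) (nat_lit 5) (nat_lit 183) (nat_lit 5) (nat_lit 224) (nat_lit 204) (nat_lit 172))))) (XT.nd (nat_lit 282) (nat_lit 1176) (nat_lit 0) (XT.nd (nat_lit 94) (nat_lit 1932) (nat_lit 0) (XT.lf (nat_lit 0) (nat_lit 4437318333)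 (nat_lit 1176) (nat_lit 1264902625) (nat_lit 84) (nat_lit 2159618223) (nat_lit 169) (nat_lit 5) (nat_lit 183) (nat_lit 5) (nat_lit 170) (nat_lit 5) (nat_lit 225) (nat_lit 204) (nat_lit 171)) (XT.nd (nat_lit 94) (nat_lit 756) (nat_lit 0) (XT.lf (nat_lit 0) (nat_lit 3765470902) (nat_lit 1176) (nat_lit 3023184768) (nat_lit 1260) (nat_lit 1179770376) (nat_lit 155) (nat_lit 5) (nat_lit 169) (nat_lit 5) (nat_lit 170) (nat_lit 5) (nat_lit 226) (nat_lit 204) (nat_lit 170)) (XT.lf (nat_lit 0) (nat_lit 865523269) (nat_lit 672) (nat_lit 209768558) (nat_lit 756) (nat_lit 7004487061) (nat_lit 146) (nat_lit 5) (nat_lit 154) (nat_lit 5) (nat_lit 155) (nat_lit 5) (nat_lit 227) (nat_lit 204) (nat_lit 169)))) (XT.nd (nat_lit 94) (nat_lit 1176) (nat_lit 0) (XT.lf (nat_lit 0) (nat_lit 3396361059) (nat_lit 756) (nat_lit 2092065079) (nat_lit 84) (nat_lit 2705609926) (nat_lit 146) (nat_lit 5) (nat_lit 155) (nat_lit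 5) (nat_lit 147) (nat_lit 5) (nat_lit 228) (nat_lit 204) (nat_lit 168)) (XT.nd (nat_lit 94) (nat_lit 588) (nat_lit 0) (XT.lf (nat_lit 0) (nat_lit 3215339358) (nat_lit 588) (nat_lit 2558282153) (nat_lit 672) (nat_lit 2539547348) (nat_lit 139) (nat_lit 5) (nat_lit 146) (nat_lit 5) (nat_lit 147) (nat_lit 5) (nat_lit 229) (nat_lit 204) (nat_lit 167)) (XT.lf (nat_lit 0) (nat_lit 257440901) (nat_lit 588) (nat_lit 7947886456) (nat_lit 672) (nat_lit 232150502) (nat_lit 132) (nat_lit 5) (nat_lit 139) (nat_lit 5) (nat_lit 140) (nat_lit 5) (nat_lit 230) (nat_lit 204) (nat_lit 166))))))))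
noncomputable def xc27 : XT := (XT.nd (nat_lit 2162) (nat_lit 2100) (nat_lit 0) (XT.nd (nat_lit 1034) (nat_lit 3108) (nat_lit 0) (XT.nd (nat_lit 470) (nat_lit 1848) (nat_lit 0) (XT.nd (nat_lit 188) (nat_lit 1092) (nat_lit 0) (XT.nd (nat_lit 94) (nat_lit 504) (nat_lit 0) (XT.lf (nat_lit 0) (nat_lit 2136252933) (nat_lit 672) (nat_lit 2762319375) (nat_lit 84) (nat_lit 3665704899) (nat_lit 131) (nat_lit 5) (nat_lit 139) (nat_lit 5) (nat_lit 132) (nat_lit 5) (nat_lit 231) (nat_lit 204) (nat_lit 165)) (XT.lf (nat_lit 0) (nat_lit 2842418975) (nat_lit 504) (nat_lit 1712208884) (nat_lit 588) (nat_lit 4141754584) (nat_lit 125) (nat_lit 5) (nat_lit 131) (nat_lit 5) (nat_lit 132) (nat_lit 5) (nat_lit 232) (nat_lit 204) (nat_lit 164))) (XT.nd (nat_lit 94) (nat_lit 1092) (nat_lit 0) (XT.lf (nat_lit 0) (nat_lit 7050365475) (nat_lit 588) (nat_lit 205959897) (nat_lit 84) (nat_lit 1577040804) (nat_lit 125)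 (nat_lit 5) (nat_lit 132) (nat_lit 5) (nat_lit 126) (nat_lit 5) (nat_lit 233) (nat_lit 204) (nat_lit 163)) (XT.nd (nat_lit 94) (nat_lit 504) (nat_lit 0) (XT.lf (nat_lit 0) (nat_lit 670829997) (nat_lit 588) (nat_lit 3296329475) (nat_lit 84) (nat_lit 5006767494) (nat_lit 118) (nat_lit 5) (nat_lit 125) (nat_lit 5) (nat_lit 119) (nat_lit 5) (nat_lit 234) (nat_lit 204) (nat_lit 162)) (XT.lf (nat_lit 0) (nat_lit 2627752337) (nat_lit 504) (nat_lit 517288916) (nat_lit 588) (nat_lit 5974474578) (nat_lit 112) (nat_lit 5) (nat_lit 118) (nat_lit 5) (nat_lit 119) (nat_lit 5) (nat_lit 235) (nat_lit 204) (nat_lit 161))))) (XT.nd (nat_lit 282) (nat_lit 840) (nat_lit 0) (XT.nd (nat_lit 94) (nat_lit 1008) (nat_lit 0) (XT.lf (nat_lit 0) (nat_lit 5724886205) (nat_lit 588) (nat_lit 529990307) (nat_lit 84) (nat_lit 3014657525) (nat_lit 112) (nat_lit 5) (nat_lit 119) (nat_lit 5) (nat_lit 113) (nat_lit 5) (nat_lit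 236) (nat_lit 204) (nat_lit 160)) (XT.nd (nat_lit 94) (nat_lit 504) (nat_lit 0) (XT.lf (nat_lit 0) (nat_lit 5700930681) (nat_lit 504) (nat_lit 2711089817) (nat_lit 588) (nat_lit 1012187564) (nat_lit 106) (nat_lit 5) (nat_lit 112) (nat_lit 5) (nat_lit 113) (nat_lit 5) (nat_lit 237) (nat_lit 204) (nat_lit 159)) (XT.lf (nat_lit 0) (nat_lit 1566365561) (nat_lit 504) (nat_lit 7040193797) (nat_lit 84) (nat_lit 977321071) (nat_lit 100) (nat_lit 5) (nat_lit 106) (nat_lit 5) (nat_lit 101) (nat_lit 5) (nat_lit 238) (nat_lit 204) (nat_lit 158)))) (XT.nd (nat_lit 94) (nat_lit 840) (nat_lit 0) (XT.lf (nat_lit 0) (nat_lit 4236049390) (nat_lit 504) (nat_lit 735883714) (nat_lit 84) (nat_lit 4775937445) (nat_lit 100) (nat_lit 5) (nat_lit 106) (nat_lit 5) (nat_lit 101) (nat_lit 5) (nat_lit 239) (nat_lit 204) (nat_lit 157)) (XT.nd (nat_lit 94) (nat_lit 420) (nat_lit 0) (XT.lf (nat_lit 0) (nat_lit 5859882929)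 (nat_lit 420) (nat_lit 1155238409) (nat_lit 504) (nat_lit 2901920766) (nat_lit 95) (nat_lit 5) (nat_lit 100) (nat_lit 5) (nat_lit 101) (nat_lit 5) (nat_lit 240) (nat_lit 204) (nat_lit 156)) (XT.lf (nat_lit 0) (nat_lit 2576617966) (nat_lit 420) (nat_lit 7334975612) (nat_lit 504) (nat_lit 179836439) (nat_lit 90) (nat_lit 5) (nat_lit 95) (nat_lit 5) (nat_lit 96) (nat_lit 5) (nat_lit 241) (nat_lit 204) (nat_lit 155)))))) (XT.nd (nat_lit 564) (nat_lit 1428) (nat_lit 0) (XT.nd (nat_lit 282) (nat_lit 840) (nat_lit 0) (XT.nd (nat_lit 94) (nat_lit 756) (nat_lit 0) (XT.lf (nat_lit 0) (nat_lit 2591361060) (nat_lit 504) (nat_lit 836810753) (nat_lit 84) (nat_lit 6842243581) (nat_lit 89) (nat_lit 5) (nat_lit 95) (nat_lit 5) (nat_lit 90) (nat_lit 5) (nat_lit 242) (nat_lit 204) (nat_lit 154)) (XT.nd (nat_lit 94) (nat_lit 336) (nat_lit 0) (XT.lf (nat_lit 0) (nat_lit 5484897643) (nat_lit 504) (nat_lit 4311169294)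 (nat_lit 84) (nat_lit 658490873) (nat_lit 84) (nat_lit 5) (nat_lit 90) (nat_lit 5) (nat_lit 85) (nat_lit 5) (nat_lit 243) (nat_lit 204) (nat_lit 153)) (XT.lf (nat_lit 0) (nat_lit 2702934645) (nat_lit 336) (nat_lit 5810667255) (nat_lit 420) (nat_lit 2130357024) (nat_lit 80) (nat_lit 5) (nat_lit 84) (nat_lit 5) (nat_lit 85) (nat_lit 5) (nat_lit 244) (nat_lit 204) (nat_lit 152)))) (XT.nd (nat_lit 94) (nat_lit 756) (nat_lit 0) (XT.lf (nat_lit 0) (nat_lit 796053581) (nat_lit 420) (nat_lit 843989215) (nat_lit 84) (nat_lit 9199418957) (nat_lit 79) (nat_lit 5) (nat_lit 84) (nat_lit 5) (nat_lit 80) (nat_lit 5) (nat_lit 245) (nat_lit 204) (nat_lit 151)) (XT.nd (nat_lit 94) (nat_lit 336) (nat_lit 0) (XT.lf (nat_lit 0) (nat_lit 3834954871) (nat_lit 504) (nat_lit 4505081508) (nat_lit 84) (nat_lit 2698808793) (nat_lit 74) (nat_lit 5) (nat_lit 80) (nat_lit 5) (nat_lit 75) (nat_lit 5) (nat_lit 246) (nat_lit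 204) (nat_lit 150)) (XT.lf (nat_lit 0) (nat_lit 2931820239) (nat_lit 336) (nat_lit 4066827168) (nat_lit 420) (nat_lit 4245914563) (nat_lit 70) (nat_lit 5) (nat_lit 74) (nat_lit 5) (nat_lit 75) (nat_lit 5) (nat_lit 247) (nat_lit 204) (nat_lit 149))))) (XT.nd (nat_lit 282) (nat_lit 672) (nat_lit 0) (XT.nd (nat_lit 94) (nat_lit 756) (nat_lit 0) (XT.lf (nat_lit 0) (nat_lit 10288178378) (nat_lit 420) (nat_lit 784376059) (nat_lit 84) (nat_lit 384395600) (nat_lit 70) (nat_lit 5) (nat_lit 75) (nat_lit 5) (nat_lit 71) (nat_lit 5) (nat_lit 248) (nat_lit 204) (nat_lit 148)) (XT.nd (nat_lit 94) (nat_lit 336) (nat_lit 0) (XT.lf (nat_lit 0) (nat_lit 2055723075) (nat_lit 420) (nat_lit 4635853672) (nat_lit 84) (nat_lit 4981420952) (nat_lit 65) (nat_lit 5) (nat_lit 70) (nat_lit 5) (nat_lit 66) (nat_lit 5) (nat_lit 249) (nat_lit 204) (nat_lit 147)) (XT.lf (nat_lit 0) (nat_lit 3255635222) (nat_lit 336) (nat_lit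 2114734643) (nat_lit 420) (nat_lit 6525600104) (nat_lit 61) (nat_lit 5) (nat_lit 65) (nat_lit 5) (nat_lit 66) (nat_lit 5) (nat_lit 250) (nat_lit 204) (nat_lit 146)))) (XT.nd (nat_lit 94) (nat_lit 672) (nat_lit 0) (XT.lf (nat_lit 0) (nat_lit 8845185160) (nat_lit 420) (nat_lit 680123396) (nat_lit 84) (nat_lit 2599892257) (nat_lit 61) (nat_lit 5) (nat_lit 66) (nat_lit 5) (nat_lit 62) (nat_lit 5) (nat_lit 251) (nat_lit 204) (nat_lit 145)) (XT.nd (nat_lit 94) (nat_lit 252) (nat_lit 0) (XT.lf (nat_lit 0) (nat_lit 148776341) (nat_lit 420) (nat_lit 4711975473) (nat_lit 84) (nat_lit 7499172802) (nat_lit 56) (nat_lit 5) (nat_lit 61) (nat_lit 5) (nat_lit 57) (nat_lit 5) (nat_lit 252) (nat_lit 204) (nat_lit 144)) (XT.lf (nat_lit 0) (nat_lit 3631217084) (nat_lit 336) (nat_lit 8933383949) (nat_lit 84) (nat_lit 36567264) (nat_lit 53) (nat_lit 5) (nat_lit 57) (nat_lit 5) (nat_lit 54) (nat_lit 5) (nat_lit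 253) (nat_lit 204) (nat_lit 143))))))) (XT.nd (nat_lit 33276) (nat_lit 0) (nat_lit 15876) (XT.nd (nat_lit 564) (nat_lit 924) (nat_lit 0) (XT.nd (nat_lit 282) (nat_lit 504) (nat_lit 0) (XT.nd (nat_lit 94) (nat_lit 672) (nat_lit 0) (XT.lf (nat_lit 0) (nat_lit 7309500846) (nat_lit 336) (nat_lit 510369394) (nat_lit 84) (nat_lit 5028396750) (nat_lit 53) (nat_lit 5) (nat_lit 57) (nat_lit 5) (nat_lit 54) (nat_lit 5) (nat_lit 254) (nat_lit 204) (nat_lit 142)) (XT.nd (nat_lit 94) (nat_lit 336) (nat_lit 0) (XT.lf (nat_lit 0) (nat_lit 8339790727) (nat_lit 336) (nat_lit 2832615308) (nat_lit 420) (nat_lit 1929652253) (nat_lit 49) (nat_lit 5) (nat_lit 53) (nat_lit 5) (nat_lit 54) (nat_lit 5) (nat_lit 255) (nat_lit 204) (nat_lit 141)) (XT.lf (nat_lit 0) (nat_lit 1807062493) (nat_lit 336) (nat_lit 9225329077) (nat_lit 84) (nat_lit 2330158566) (nat_lit 45) (nat_lit 5) (nat_lit 49) (nat_lit 5) (nat_lit 46)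 (nat_lit 5) (nat_lit 256) (nat_lit 204) (nat_lit 140)))) (XT.nd (nat_lit 94) (nat_lit 504) (nat_lit 0) (XT.lf (nat_lit 0) (nat_lit 5682344652) (nat_lit 336) (nat_lit 280574856) (nat_lit 84) (nat_lit 7666603486) (nat_lit 45) (nat_lit 5) (nat_lit 49) (nat_lit 5) (nat_lit 46) (nat_lit 5) (nat_lit 257) (nat_lit 204) (nat_lit 139)) (XT.nd (nat_lit 94) (nat_lit 252) (nat_lit 0) (XT.lf (nat_lit 0) (nat_lit 9128814451) (nat_lit 252) (nat_lit 630954052) (nat_lit 336) (nat_lit 4143743658) (nat_lit 42) (nat_lit 5) (nat_lit 45) (nat_lit 5) (nat_lit 46) (nat_lit 5) (nat_lit 258) (nat_lit 204) (nat_lit 138)) (XT.lf (nat_lit 0) (nat_lit 4683210008) (nat_lit 252) (nat_lit 9371828489) (nat_lit 336) (nat_lit 129422683) (nat_lit 39) (nat_lit 5) (nat_lit 42) (nat_lit 5) (nat_lit 43) (nat_lit 5) (nat_lit 259) (nat_lit 204) (nat_lit 137))))) (XT.nd (nat_lit 282) (nat_lit 336) (nat_lit 0) (XT.nd (nat_lit 94) (nat_lit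 252) (nat_lit 0) (XT.lf (nat_lit 0) (nat_lit 4913631) (nat_lit 252) (nat_lit 3958849948) (nat_lit 336) (nat_lit 10508872731) (nat_lit 35) (nat_lit 5) (nat_lit 38) (nat_lit 5) (nat_lit 39) (nat_lit 5) (nat_lit 260) (nat_lit 204) (nat_lit 136)) (XT.nd (nat_lit 94) (nat_lit 252) (nat_lit 0) (XT.lf (nat_lit 0) (nat_lit 8294528812) (nat_lit 336) (nat_lit 4772396151) (nat_lit 84) (nat_lit 1700512953) (nat_lit 35) (nat_lit 5) (nat_lit 39) (nat_lit 5) (nat_lit 36) (nat_lit 5) (nat_lit 261) (nat_lit 204) (nat_lit 135)) (XT.lf (nat_lit 0) (nat_lit 5282015944) (nat_lit 252) (nat_lit 7566161004) (nat_lit 336) (nat_lit 2221884916) (nat_lit 32) (nat_lit 5) (nat_lit 35) (nat_lit 5) (nat_lit 36) (nat_lit 5) (nat_lit 262) (nat_lit 204) (nat_lit 134)))) (XT.nd (nat_lit 32242) (nat_lit 0) (nat_lit 18984) (XT.lf (nat_lit 0) (nat_lit 350135152) (nat_lit 252) (nat_lit 1806216718) (nat_lit 336) (nat_lit 13225103107)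 (nat_lit 28) (nat_lit 5) (nat_lit 31) (nat_lit 5) (nat_lit 32) (nat_lit 5) (nat_lit 263) (nat_lit 204) (nat_lit 133)) (XT.nd (nat_lit 94) (nat_lit 0) (nat_lit 0) (XT.lf (nat_lit 0) (nat_lit 594330374) (nat_lit 0) (nat_lit 594330374) (nat_lit 420) (nat_lit 2103704487) (nat_lit 254) (nat_lit 5) (nat_lit 254) (nat_lit 3) (nat_lit 259) (nat_lit 3) (nat_lit 205) (nat_lit 205) (nat_lit 190)) (XT.lf (nat_lit 0) (nat_lit 4539505301) (nat_lit 0) (nat_lit 297766490) (nat_lit 420) (nat_lit 1778049315) (nat_lit 254) (nat_lit 5) (nat_lit 254) (nat_lit 3) (nat_lit 259) (nat_lit 3) (nat_lit 206) (nat_lit 205) (nat_lit 189)))))) (XT.nd (nat_lit 564) (nat_lit 2016) (nat_lit 0) (XT.nd (nat_lit 282) (nat_lit 588) (nat_lit 0) (XT.nd (nat_lit 94) (nat_lit 0) (nat_lit 0) (XT.lf (nat_lit 0) (nat_lit 631290402) (nat_lit 504) (nat_lit 5332798699) (nat_lit 588) (nat_lit 685698462) (nat_lit 248) (nat_lit 5) (nat_lit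 254) (nat_lit 5) (nat_lit 255) (nat_lit 5) (nat_lit 207) (nat_lit 205) (nat_lit 188)) (XT.nd (nat_lit 94) (nat_lit 0) (nat_lit 0) (XT.lf (nat_lit 0) (nat_lit 3004194957) (nat_lit 504) (nat_lit 1891533100) (nat_lit 588) (nat_lit 1791780850) (nat_lit 248) (nat_lit 5) (nat_lit 254) (nat_lit 5) (nat_lit 255) (nat_lit 5) (nat_lit 208) (nat_lit 205) (nat_lit 187)) (XT.lf (nat_lit 84) (nat_lit 1648526078) (nat_lit 0) (nat_lit 3726374557) (nat_lit 588) (nat_lit 1354633632) (nat_lit 249) (nat_lit 5) (nat_lit 248) (nat_lit 5) (nat_lit 255) (nat_lit 5) (nat_lit 209) (nat_lit 205) (nat_lit 186)))) (XT.nd (nat_lit 94) (nat_lit 0) (nat_lit 0) (XT.lf (nat_lit 0) (nat_lit 952266620) (nat_lit 588) (nat_lit 1487081975) (nat_lit 672) (nat_lit 4336047533) (nat_lit 241) (nat_lit 5) (nat_lit 248) (nat_lit 5) (nat_lit 249) (nat_lit 5) (nat_lit 210) (nat_lit 205) (nat_lit 185)) (XT.nd (nat_lit 94) (nat_lit 0) (nat_lit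 84) (XT.lf (nat_lit 84) (nat_lit 2208415861) (nat_lit 0) (nat_lit 1025828551) (nat_lit 672) (nat_lit 3590657555) (nat_lit 242) (nat_lit 5) (nat_lit 241) (nat_lit 5) (nat_lit 249) (nat_lit 5) (nat_lit 211) (nat_lit 205) (nat_lit 184)) (XT.lf (nat_lit 0) (nat_lit 5523336866) (nat_lit 588) (nat_lit 873408600) (nat_lit 672) (nat_lit 481941453) (nat_lit 242) (nat_lit 5) (nat_lit 249) (nat_lit 5) (nat_lit 250) (nat_lit 5) (nat_lit 212) (nat_lit 205) (nat_lit 183))))) (XT.nd (nat_lit 282) (nat_lit 1428) (nat_lit 0) (XT.nd (nat_lit 94) (nat_lit 0) (nat_lit 0) (XT.lf (nat_lit 0) (nat_lit 889000352) (nat_lit 672) (nat_lit 3949012174) (nat_lit 756) (nat_lit 2097629476) (nat_lit 234) (nat_lit 5) (nat_lit 242) (nat_lit 5) (nat_lit 243) (nat_lit 5) (nat_lit 213) (nat_lit 205) (nat_lit 182)) (XT.nd (nat_lit 94) (nat_lit 0) (nat_lit 0) (XT.lf (nat_lit 0) (nat_lit 3099795325) (nat_lit 672) (nat_lit 68345361)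 (nat_lit 756) (nat_lit 3828713292) (nat_lit 234) (nat_lit 5) (nat_lit 242) (nat_lit 5) (nat_lit 243) (nat_lit 5) (nat_lit 214) (nat_lit 205) (nat_lit 181)) (XT.lf (nat_lit 84) (nat_lit 3979330890) (nat_lit 0) (nat_lit 1365318240) (nat_lit 756) (nat_lit 1717075407) (nat_lit 235) (nat_lit 5) (nat_lit 234) (nat_lit 5) (nat_lit 243) (nat_lit 5) (nat_lit 215) (nat_lit 205) (nat_lit 180)))) (XT.nd (nat_lit 94) (nat_lit 756) (nat_lit 0) (XT.lf (nat_lit 0) (nat_lit 458659835) (nat_lit 756) (nat_lit 6139620268) (nat_lit 84) (nat_lit 532766431) (nat_lit 226) (nat_lit 5) (nat_lit 235) (nat_lit 5) (nat_lit 227) (nat_lit 5) (nat_lit 216) (nat_lit 205) (nat_lit 179)) (XT.nd (nat_lit 94) (nat_lit 756) (nat_lit 0) (XT.lf (nat_lit 0) (nat_lit 2638983851) (nat_lit 756) (nat_lit 2018540528) (nat_lit 84) (nat_lit 2545671673) (nat_lit 226) (nat_lit 5) (nat_lit 235) (nat_lit 5) (nat_lit 227) (nat_lit 5) (nat_lit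 217) (nat_lit 205) (nat_lit 178)) (XT.lf (nat_lit 0) (nat_lit 2236721953) (nat_lit 756) (nat_lit 2602851465) (nat_lit 840) (nat_lit 2440258987) (nat_lit 217) (nat_lit 5) (nat_lit 226) (nat_lit 5) (nat_lit 227) (nat_lit 5) (nat_lit 218) (nat_lit 205) (nat_lit 177))))))))
noncomputable def xc28 : XT := (XT.nd (nat_lit 2162) (nat_lit 5292) (nat_lit 0) (XT.nd (nat_lit 1034) (nat_lit 3696) (nat_lit 0) (XT.nd (nat_lit 470) (nat_lit 3612) (nat_lit 0) (XT.nd (nat_lit 188) (nat_lit 2016) (nat_lit 0) (XT.nd (nat_lit 94) (nat_lit 924) (nat_lit 0) (XT.lf (nat_lit 0) (nat_lit 6629310230) (nat_lit 756) (nat_lit 432792467) (nat_lit 840) (nat_lit 298976166) (nat_lit 217) (nat_lit 5) (nat_lit 226) (nat_lit 5) (nat_lit 227) (nat_lit 5) (nat_lit 219) (nat_lit 205) (nat_lit 176)) (XT.lf (nat_lit 0) (nat_lit 1859395043) (nat_lit 924) (nat_lit 3732849208) (nat_lit 84) (nat_lit 1852680464) (nat_lit 206) (nat_lit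 5) (nat_lit 217) (nat_lit 5) (nat_lit 207) (nat_lit 5) (nat_lit 220) (nat_lit 205) (nat_lit 175))) (XT.nd (nat_lit 94) (nat_lit 1092) (nat_lit 0) (XT.lf (nat_lit 0) (nat_lit 743991279) (nat_lit 924) (nat_lit 3289333307) (nat_lit 1008) (nat_lit 3500113803) (nat_lit 195) (nat_lit 5) (nat_lit 206) (nat_lit 5) (nat_lit 207) (nat_lit 5) (nat_lit 221) (nat_lit 205) (nat_lit 174)) (XT.nd (nat_lit 94) (nat_lit 1092) (nat_lit 0) (XT.lf (nat_lit 0) (nat_lit 5405899561) (nat_lit 924) (nat_lit 848358436) (nat_lit 1008) (nat_lit 1371809971) (nat_lit 195) (nat_lit 5) (nat_lit 206) (nat_lit 5) (nat_lit 207) (nat_lit 5) (nat_lit 222) (nat_lit 205) (nat_lit 173)) (XT.lf (nat_lit 0) (nat_lit 787719005) (nat_lit 1092) (nat_lit 5246869427) (nat_lit 84) (nat_lit 1687881911) (nat_lit 182) (nat_lit 5) (nat_lit 195) (nat_lit 5) (nat_lit 183) (nat_lit 5) (nat_lit 223) (nat_lit 205) (nat_lit 172))))) (XT.nd (nat_lit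 282) (nat_lit 1344) (nat_lit 0) (XT.nd (nat_lit 94) (nat_lit 2268) (nat_lit 0) (XT.lf (nat_lit 0) (nat_lit 2957302315) (nat_lit 1092) (nat_lit 520897865) (nat_lit 84) (nat_lit 4344659677) (nat_lit 182) (nat_lit 5) (nat_lit 195) (nat_lit 5) (nat_lit 183) (nat_lit 5) (nat_lit 224) (nat_lit 205) (nat_lit 171)) (XT.nd (nat_lit 94) (nat_lit 1176) (nat_lit 0) (XT.lf (nat_lit 0) (nat_lit 4409897902) (nat_lit 1092) (nat_lit 774794662) (nat_lit 1176) (nat_lit 2742704935) (nat_lit 169) (nat_lit 5) (nat_lit 182) (nat_lit 5) (nat_lit 183) (nat_lit 5) (nat_lit 225) (nat_lit 205) (nat_lit 170)) (XT.lf (nat_lit 0) (nat_lit 1438147882) (nat_lit 1176) (nat_lit 6031085556) (nat_lit 1260) (nat_lit 567088801) (nat_lit 155) (nat_lit 5) (nat_lit 169) (nat_lit 5) (nat_lit 170) (nat_lit 5) (nat_lit 226) (nat_lit 205) (nat_lit 169)))) (XT.nd (nat_lit 94) (nat_lit 1260) (nat_lit 0) (XT.lf (nat_lit 0) (nat_lit 1632595320)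 (nat_lit 1260) (nat_lit 1587126228) (nat_lit 84) (nat_lit 4929166612) (nat_lit 154) (nat_lit 5) (nat_lit 169) (nat_lit 5) (nat_lit 155) (nat_lit 5) (nat_lit 227) (nat_lit 205) (nat_lit 168)) (XT.nd (nat_lit 94) (nat_lit 588) (nat_lit 0) (XT.lf (nat_lit 0) (nat_lit 3613799552) (nat_lit 672) (nat_lit 259818384) (nat_lit 756) (nat_lit 4392329031) (nat_lit 146) (nat_lit 5) (nat_lit 154) (nat_lit 5) (nat_lit 155) (nat_lit 5) (nat_lit 228) (nat_lit 205) (nat_lit 167)) (XT.lf (nat_lit 0) (nat_lit 567466498) (nat_lit 588) (nat_lit 5620964427) (nat_lit 672) (nat_lit 2198834499) (nat_lit 139) (nat_lit 5) (nat_lit 146) (nat_lit 5) (nat_lit 147) (nat_lit 5) (nat_lit 229) (nat_lit 205) (nat_lit 166)))))) (XT.nd (nat_lit 564) (nat_lit 1932) (nat_lit 0) (XT.nd (nat_lit 282) (nat_lit 1092) (nat_lit 0) (XT.nd (nat_lit 94) (nat_lit 588) (nat_lit 0) (XT.lf (nat_lit 0) (nat_lit 67876648) (nat_lit 672) (nat_lit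 2496916137) (nat_lit 84) (nat_lit 5948077145) (nat_lit 138) (nat_lit 5) (nat_lit 146) (nat_lit 5) (nat_lit 139) (nat_lit 5) (nat_lit 230) (nat_lit 205) (nat_lit 165)) (XT.nd (nat_lit 94) (nat_lit 0) (nat_lit 0) (XT.lf (nat_lit 0) (nat_lit 2344580199) (nat_lit 672) (nat_lit 5656307557) (nat_lit 84) (nat_lit 641716251) (nat_lit 131) (nat_lit 5) (nat_lit 139) (nat_lit 5) (nat_lit 132) (nat_lit 5) (nat_lit 231) (nat_lit 205) (nat_lit 164)) (XT.lf (nat_lit 0) (nat_lit 4703203323) (nat_lit 672) (nat_lit 146581708) (nat_lit 84) (nat_lit 3927015526) (nat_lit 131) (nat_lit 5) (nat_lit 139) (nat_lit 5) (nat_lit 132) (nat_lit 5) (nat_lit 232) (nat_lit 205) (nat_lit 163)))) (XT.nd (nat_lit 94) (nat_lit 588) (nat_lit 0) (XT.lf (nat_lit 0) (nat_lit 5623399143) (nat_lit 504) (nat_lit 1528423183) (nat_lit 588) (nat_lit 1763611116) (nat_lit 125) (nat_lit 5) (nat_lit 131) (nat_lit 5) (nat_lit 132) (nat_lit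 5) (nat_lit 233) (nat_lit 205) (nat_lit 162)) (XT.nd (nat_lit 94) (nat_lit 0) (nat_lit 0) (XT.lf (nat_lit 0) (nat_lit 609938724) (nat_lit 588) (nat_lit 6551502429) (nat_lit 84) (nat_lit 1897339960) (nat_lit 118) (nat_lit 5) (nat_lit 125) (nat_lit 5) (nat_lit 119) (nat_lit 5) (nat_lit 234) (nat_lit 205) (nat_lit 161)) (XT.lf (nat_lit 0) (nat_lit 3028569433) (nat_lit 588) (nat_lit 717361989) (nat_lit 84) (nat_lit 5460383875) (nat_lit 118) (nat_lit 5) (nat_lit 125) (nat_lit 5) (nat_lit 119) (nat_lit 5) (nat_lit 235) (nat_lit 205) (nat_lit 160))))) (XT.nd (nat_lit 282) (nat_lit 840) (nat_lit 0) (XT.nd (nat_lit 94) (nat_lit 588) (nat_lit 0) (XT.lf (nat_lit 0) (nat_lit 5383345467) (nat_lit 504) (nat_lit 156774749) (nat_lit 588) (nat_lit 3818603583) (nat_lit 112) (nat_lit 5) (nat_lit 118) (nat_lit 5) (nat_lit 119) (nat_lit 5) (nat_lit 236) (nat_lit 205) (nat_lit 159)) (XT.nd (nat_lit 94) (nat_lit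 84) (nat_lit 0) (XT.lf (nat_lit 0) (nat_lit 2146881282) (nat_lit 504) (nat_lit 6014104688) (nat_lit 588) (nat_lit 1354731252) (nat_lit 106) (nat_lit 5) (nat_lit 112) (nat_lit 5) (nat_lit 113) (nat_lit 5) (nat_lit 237) (nat_lit 205) (nat_lit 158)) (XT.lf (nat_lit 0) (nat_lit 1167286895) (nat_lit 588) (nat_lit 1174516402) (nat_lit 84) (nat_lit 7335970441) (nat_lit 105) (nat_lit 5) (nat_lit 112) (nat_lit 5) (nat_lit 106) (nat_lit 5) (nat_lit 238) (nat_lit 205) (nat_lit 157)))) (XT.nd (nat_lit 94) (nat_lit 420) (nat_lit 0) (XT.lf (nat_lit 0) (nat_lit 3773086398) (nat_lit 504) (nat_lit 4579948474) (nat_lit 84) (nat_lit 1490964940) (nat_lit 100) (nat_lit 5) (nat_lit 106) (nat_lit 5) (nat_lit 101) (nat_lit 5) (nat_lit 239) (nat_lit 205) (nat_lit 156)) (XT.nd (nat_lit 94) (nat_lit 0) (nat_lit 0) (XT.lf (nat_lit 0) (nat_lit 1896484575) (nat_lit 420) (nat_lit 4588086002) (nat_lit 504) (nat_lit 3530966361)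 (nat_lit 95) (nat_lit 5) (nat_lit 100) (nat_lit 5) (nat_lit 101) (nat_lit 5) (nat_lit 240) (nat_lit 205) (nat_lit 155)) (XT.lf (nat_lit 0) (nat_lit 8650287536) (nat_lit 420) (nat_lit 647988795) (nat_lit 504) (nat_lit 894545346) (nat_lit 95) (nat_lit 5) (nat_lit 100) (nat_lit 5) (nat_lit 101) (nat_lit 5) (nat_lit 241) (nat_lit 205) (nat_lit 154))))))) (XT.nd (nat_lit 1034) (nat_lit 2100) (nat_lit 0) (XT.nd (nat_lit 470) (nat_lit 1428) (nat_lit 0) (XT.nd (nat_lit 188) (nat_lit 840) (nat_lit 0) (XT.nd (nat_lit 94) (nat_lit 420) (nat_lit 0) (XT.lf (nat_lit 0) (nat_lit 1845010249) (nat_lit 504) (nat_lit 5108425811) (nat_lit 84) (nat_lit 3420324373) (nat_lit 89) (nat_lit 5) (nat_lit 95) (nat_lit 5) (nat_lit 90) (nat_lit 5) (nat_lit 242) (nat_lit 205) (nat_lit 153)) (XT.lf (nat_lit 0) (nat_lit 1750728545) (nat_lit 420) (nat_lit 2909214409) (nat_lit 504) (nat_lit 5900711030) (nat_lit 84) (nat_lit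 5) (nat_lit 89) (nat_lit 5) (nat_lit 90) (nat_lit 5) (nat_lit 243) (nat_lit 205) (nat_lit 152))) (XT.nd (nat_lit 94) (nat_lit 840) (nat_lit 0) (XT.lf (nat_lit 0) (nat_lit 7604397006) (nat_lit 504) (nat_lit 1854079614) (nat_lit 84) (nat_lit 1294527235) (nat_lit 84) (nat_lit 5) (nat_lit 90) (nat_lit 5) (nat_lit 85) (nat_lit 5) (nat_lit 244) (nat_lit 205) (nat_lit 151)) (XT.nd (nat_lit 94) (nat_lit 504) (nat_lit 0) (XT.lf (nat_lit 0) (nat_lit 5375785285) (nat_lit 336) (nat_lit 5326865748) (nat_lit 420) (nat_lit 247658895) (nat_lit 80) (nat_lit 5) (nat_lit 84) (nat_lit 5) (nat_lit 85) (nat_lit 5) (nat_lit 245) (nat_lit 205) (nat_lit 150)) (XT.lf (nat_lit 0) (nat_lit 1698932741) (nat_lit 420) (nat_lit 992106834) (nat_lit 504) (nat_lit 8462453995) (nat_lit 74) (nat_lit 5) (nat_lit 79) (nat_lit 5) (nat_lit 80) (nat_lit 5) (nat_lit 246) (nat_lit 205) (nat_lit 149))))) (XT.nd (nat_lit 282) (nat_lit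 672) (nat_lit 0) (XT.nd (nat_lit 94) (nat_lit 756) (nat_lit 0) (XT.lf (nat_lit 0) (nat_lit 5790489150) (nat_lit 504) (nat_lit 2101936353) (nat_lit 84) (nat_lit 3469033370) (nat_lit 74) (nat_lit 5) (nat_lit 80) (nat_lit 5) (nat_lit 75) (nat_lit 5) (nat_lit 247) (nat_lit 205) (nat_lit 148)) (XT.nd (nat_lit 94) (nat_lit 420) (nat_lit 0) (XT.lf (nat_lit 0) (nat_lit 5566061905) (nat_lit 336) (nat_lit 3465466576) (nat_lit 420) (nat_lit 2544015664) (nat_lit 70) (nat_lit 5) (nat_lit 74) (nat_lit 5) (nat_lit 75) (nat_lit 5) (nat_lit 248) (nat_lit 205) (nat_lit 147)) (XT.lf (nat_lit 0) (nat_lit 592687458) (nat_lit 420) (nat_lit 10077511784) (nat_lit 84) (nat_lit 1126092977) (nat_lit 65) (nat_lit 5) (nat_lit 70) (nat_lit 5) (nat_lit 66) (nat_lit 5) (nat_lit 249) (nat_lit 205) (nat_lit 146)))) (XT.nd (nat_lit 94) (nat_lit 672) (nat_lit 0) (XT.lf (nat_lit 0) (nat_lit 3851634402) (nat_lit 420) (nat_lit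 2288123805) (nat_lit 84) (nat_lit 5881455776) (nat_lit 65) (nat_lit 5) (nat_lit 70) (nat_lit 5) (nat_lit 66) (nat_lit 5) (nat_lit 250) (nat_lit 205) (nat_lit 145)) (XT.nd (nat_lit 94) (nat_lit 336) (nat_lit 0) (XT.lf (nat_lit 0) (nat_lit 5850951738) (nat_lit 336) (nat_lit 1400691681) (nat_lit 420) (nat_lit 5001419627) (nat_lit 61) (nat_lit 5) (nat_lit 65) (nat_lit 5) (nat_lit 66) (nat_lit 5) (nat_lit 251) (nat_lit 205) (nat_lit 144)) (XT.lf (nat_lit 0) (nat_lit 1782730629) (nat_lit 336) (nat_lit 9036432098) (nat_lit 420) (nat_lit 1672166251) (nat_lit 57) (nat_lit 5) (nat_lit 61) (nat_lit 5) (nat_lit 62) (nat_lit 5) (nat_lit 252) (nat_lit 205) (nat_lit 143)))))) (XT.nd (nat_lit 564) (nat_lit 840) (nat_lit 0) (XT.nd (nat_lit 282) (nat_lit 588) (nat_lit 0) (XT.nd (nat_lit 94) (nat_lit 588) (nat_lit 0) (XT.lf (nat_lit 0) (nat_lit 1788483893) (nat_lit 420) (nat_lit 2420626140) (nat_lit 84) (nat_lit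 8526204430) (nat_lit 56) (nat_lit 5) (nat_lit 61) (nat_lit 5) (nat_lit 57) (nat_lit 5) (nat_lit 253) (nat_lit 205) (nat_lit 142)) (XT.nd (nat_lit 94) (nat_lit 336) (nat_lit 0) (XT.lf (nat_lit 0) (nat_lit 5373751845) (nat_lit 336) (nat_lit 6770725696) (nat_lit 84) (nat_lit 841191170) (nat_lit 53) (nat_lit 5) (nat_lit 57) (nat_lit 5) (nat_lit 54) (nat_lit 5) (nat_lit 254) (nat_lit 205) (nat_lit 141)) (XT.lf (nat_lit 0) (nat_lit 1906618868) (nat_lit 336) (nat_lit 7240772025) (nat_lit 420) (nat_lit 4095193429) (nat_lit 49) (nat_lit 5) (nat_lit 53) (nat_lit 5) (nat_lit 54) (nat_lit 5) (nat_lit 255) (nat_lit 205) (nat_lit 140)))) (XT.nd (nat_lit 94) (nat_lit 588) (nat_lit 0) (XT.lf (nat_lit 0) (nat_lit 10996037368) (nat_lit 336) (nat_lit 2101779410) (nat_lit 420) (nat_lit 409110371) (nat_lit 49) (nat_lit 5) (nat_lit 53) (nat_lit 5) (nat_lit 54) (nat_lit 5) (nat_lit 256) (nat_lit 205) (nat_lit 139))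 (XT.nd (nat_lit 94) (nat_lit 252) (nat_lit 0) (XT.lf (nat_lit 0) (nat_lit 3405772700) (nat_lit 336) (nat_lit 7131244938) (nat_lit 84) (nat_lit 3239480548) (nat_lit 45) (nat_lit 5) (nat_lit 49) (nat_lit 5) (nat_lit 46) (nat_lit 5) (nat_lit 257) (nat_lit 205) (nat_lit 138)) (XT.lf (nat_lit 0) (nat_lit 2092283382) (nat_lit 252) (nat_lit 5295795017) (nat_lit 336) (nat_lit 6665738091) (nat_lit 42) (nat_lit 5) (nat_lit 45) (nat_lit 5) (nat_lit 46) (nat_lit 5) (nat_lit 258) (nat_lit 205) (nat_lit 137))))) (XT.nd (nat_lit 282) (nat_lit 252) (nat_lit 0) (XT.nd (nat_lit 94) (nat_lit 588) (nat_lit 0) (XT.lf (nat_lit 0) (nat_lit 11562643724) (nat_lit 336) (nat_lit 2584318954) (nat_lit 84) (nat_lit 192027494) (nat_lit 42) (nat_lit 5) (nat_lit 46) (nat_lit 5) (nat_lit 43) (nat_lit 5) (nat_lit 259) (nat_lit 205) (nat_lit 136)) (XT.nd (nat_lit 94) (nat_lit 252) (nat_lit 0) (XT.lf (nat_lit 0) (nat_lit 1330532307)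 (nat_lit 336) (nat_lit 7474973455) (nat_lit 84) (nat_lit 5824313135) (nat_lit 38) (nat_lit 5) (nat_lit 42) (nat_lit 5) (nat_lit 39) (nat_lit 5) (nat_lit 260) (nat_lit 205) (nat_lit 135)) (XT.lf (nat_lit 0) (nat_lit 2335539512) (nat_lit 252) (nat_lit 3204948638) (nat_lit 336) (nat_lit 9388360682) (nat_lit 35) (nat_lit 5) (nat_lit 38) (nat_lit 5) (nat_lit 39) (nat_lit 5) (nat_lit 261) (nat_lit 205) (nat_lit 134)))) (XT.nd (nat_lit 94) (nat_lit 252) (nat_lit 0) (XT.lf (nat_lit 0) (nat_lit 9983810055) (nat_lit 336) (nat_lit 2648763622) (nat_lit 84) (nat_lit 2602760521) (nat_lit 35) (nat_lit 5) (nat_lit 39) (nat_lit 5) (nat_lit 36) (nat_lit 5) (nat_lit 262) (nat_lit 205) (nat_lit 133)) (XT.nd (nat_lit 32336) (nat_lit 0) (nat_lit 18060) (XT.lf (nat_lit 0) (nat_lit 7731437807) (nat_lit 252) (nat_lit 6943321782) (nat_lit 336) (nat_lit 874563064) (nat_lit 32) (nat_lit 5) (nat_lit 35) (nat_lit 5) (nat_lit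 36) (nat_lit 5) (nat_lit 263) (nat_lit 205) (nat_lit 132)) (XT.lf (nat_lit 0) (nat_lit 291014850) (nat_lit 588) (nat_lit 1516383996) (nat_lit 588) (nat_lit 1516383996) (nat_lit 247) (nat_lit 3) (nat_lit 254) (nat_lit 3) (nat_lit 254) (nat_lit 5) (nat_lit 206) (nat_lit 206) (nat_lit 188))))))))
noncomputable def xc29 : XT := (XT.nd (nat_lit 2162) (nat_lit 7476) (nat_lit 0) (XT.nd (nat_lit 1034) (nat_lit 6636) (nat_lit 0) (XT.nd (nat_lit 470) (nat_lit 1260) (nat_lit 0) (XT.nd (nat_lit 188) (nat_lit 588) (nat_lit 0) (XT.nd (nat_lit 94) (nat_lit 0) (nat_lit 0) (XT.lf (nat_lit 84) (nat_lit 297766490) (nat_lit 0) (nat_lit 2581353830) (nat_lit 588) (nat_lit 3804736088) (nat_lit 248) (nat_lit 5) (nat_lit 247) (nat_lit 3) (nat_lit 254) (nat_lit 5) (nat_lit 207) (nat_lit 206) (nat_lit 187)) (XT.lf (nat_lit 84) (nat_lit 3762859258) (nat_lit 0) (nat_lit 1425367179) (nat_lit 588) (nat_lit 1535584259) (nat_lit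 248) (nat_lit 5) (nat_lit 247) (nat_lit 3) (nat_lit 254) (nat_lit 5) (nat_lit 208) (nat_lit 206) (nat_lit 186))) (XT.nd (nat_lit 94) (nat_lit 0) (nat_lit 84) (XT.lf (nat_lit 84) (nat_lit 531722973) (nat_lit 0) (nat_lit 166949129) (nat_lit 672) (nat_lit 6069530105) (nat_lit 241) (nat_lit 5) (nat_lit 240) (nat_lit 5) (nat_lit 248) (nat_lit 5) (nat_lit 209) (nat_lit 206) (nat_lit 185)) (XT.nd (nat_lit 94) (nat_lit 0) (nat_lit 0) (XT.lf (nat_lit 0) (nat_lit 2924603679) (nat_lit 588) (nat_lit 2684615971) (nat_lit 672) (nat_lit 1206075011) (nat_lit 241) (nat_lit 5) (nat_lit 248) (nat_lit 5) (nat_lit 249) (nat_lit 5) (nat_lit 210) (nat_lit 206) (nat_lit 184)) (XT.lf (nat_lit 84) (nat_lit 954597770) (nat_lit 0) (nat_lit 4191256787) (nat_lit 672) (nat_lit 1721071384) (nat_lit 242) (nat_lit 5) (nat_lit 241) (nat_lit 5) (nat_lit 249) (nat_lit 5) (nat_lit 211) (nat_lit 206) (nat_lit 183))))) (XT.nd (nat_lit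 282) (nat_lit 672) (nat_lit 0) (XT.nd (nat_lit 94) (nat_lit 0) (nat_lit 0) (XT.lf (nat_lit 0) (nat_lit 451011505) (nat_lit 672) (nat_lit 2198027043) (nat_lit 756) (nat_lit 4273276570) (nat_lit 233) (nat_lit 5) (nat_lit 241) (nat_lit 5) (nat_lit 242) (nat_lit 5) (nat_lit 212) (nat_lit 206) (nat_lit 182)) (XT.nd (nat_lit 94) (nat_lit 0) (nat_lit 84) (XT.lf (nat_lit 84) (nat_lit 1606614143) (nat_lit 0) (nat_lit 979556445) (nat_lit 756) (nat_lit 4395317150) (nat_lit 234) (nat_lit 5) (nat_lit 233) (nat_lit 5) (nat_lit 242) (nat_lit 5) (nat_lit 213) (nat_lit 206) (nat_lit 181)) (XT.lf (nat_lit 0) (nat_lit 4742976360) (nat_lit 672) (nat_lit 1512305855) (nat_lit 756) (nat_lit 789307122) (nat_lit 234) (nat_lit 5) (nat_lit 242) (nat_lit 5) (nat_lit 243) (nat_lit 5) (nat_lit 214) (nat_lit 206) (nat_lit 180)))) (XT.nd (nat_lit 94) (nat_lit 756) (nat_lit 0) (XT.lf (nat_lit 84) (nat_lit 2473187379) (nat_lit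 0) (nat_lit 4456242911) (nat_lit 756) (nat_lit 182073603) (nat_lit 235) (nat_lit 5) (nat_lit 234) (nat_lit 5) (nat_lit 243) (nat_lit 5) (nat_lit 215) (nat_lit 206) (nat_lit 179)) (XT.nd (nat_lit 94) (nat_lit 0) (nat_lit 0) (XT.lf (nat_lit 0) (nat_lit 1900679159) (nat_lit 756) (nat_lit 626599390) (nat_lit 840) (nat_lit 4654984936) (nat_lit 225) (nat_lit 5) (nat_lit 234) (nat_lit 5) (nat_lit 235) (nat_lit 5) (nat_lit 216) (nat_lit 206) (nat_lit 178)) (XT.lf (nat_lit 84) (nat_lit 3547507339) (nat_lit 0) (nat_lit 463487182) (nat_lit 840) (nat_lit 3245868786) (nat_lit 226) (nat_lit 5) (nat_lit 225) (nat_lit 5) (nat_lit 235) (nat_lit 5) (nat_lit 217) (nat_lit 206) (nat_lit 177)))))) (XT.nd (nat_lit 564) (nat_lit 3024) (nat_lit 0) (XT.nd (nat_lit 282) (nat_lit 2016) (nat_lit 0) (XT.nd (nat_lit 94) (nat_lit 924) (nat_lit 0) (XT.lf (nat_lit 0) (nat_lit 482440609) (nat_lit 756) (nat_lit 5665990685)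 (nat_lit 840) (nat_lit 1187278714) (nat_lit 217) (nat_lit 5) (nat_lit 226) (nat_lit 5) (nat_lit 227) (nat_lit 5) (nat_lit 218) (nat_lit 206) (nat_lit 176)) (XT.nd (nat_lit 94) (nat_lit 840) (nat_lit 0) (XT.lf (nat_lit 0) (nat_lit 894480830) (nat_lit 840) (nat_lit 2581960488) (nat_lit 84) (nat_lit 3941469327) (nat_lit 216) (nat_lit 5) (nat_lit 226) (nat_lit 5) (nat_lit 217) (nat_lit 5) (nat_lit 219) (nat_lit 206) (nat_lit 175)) (XT.lf (nat_lit 0) (nat_lit 1808343068) (nat_lit 840) (nat_lit 1158542334) (nat_lit 924) (nat_lit 4537526067) (nat_lit 206) (nat_lit 5) (nat_lit 216) (nat_lit 5) (nat_lit 217) (nat_lit 5) (nat_lit 220) (nat_lit 206) (nat_lit 174)))) (XT.nd (nat_lit 94) (nat_lit 2016) (nat_lit 0) (XT.lf (nat_lit 0) (nat_lit 5084015871) (nat_lit 924) (nat_lit 1252607456) (nat_lit 84) (nat_lit 1258289783) (nat_lit 206) (nat_lit 5) (nat_lit 217) (nat_lit 5) (nat_lit 207) (nat_lit 5) (nat_lit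 221) (nat_lit 206) (nat_lit 173)) (XT.nd (nat_lit 94) (nat_lit 1092) (nat_lit 0) (XT.lf (nat_lit 0) (nat_lit 3351156585) (nat_lit 924) (nat_lit 3904791236) (nat_lit 1008) (nat_lit 433309920) (nat_lit 195) (nat_lit 5) (nat_lit 206) (nat_lit 5) (nat_lit 207) (nat_lit 5) (nat_lit 222) (nat_lit 206) (nat_lit 172)) (XT.lf (nat_lit 0) (nat_lit 288191076) (nat_lit 1008) (nat_lit 1338977209) (nat_lit 1092) (nat_lit 6160847824) (nat_lit 182) (nat_lit 5) (nat_lit 194) (nat_lit 5) (nat_lit 195) (nat_lit 5) (nat_lit 223) (nat_lit 206) (nat_lit 171))))) (XT.nd (nat_lit 282) (nat_lit 1848) (nat_lit 0) (XT.nd (nat_lit 94) (nat_lit 1176) (nat_lit 0) (XT.lf (nat_lit 0) (nat_lit 3748778839) (nat_lit 1092) (nat_lit 2788701480) (nat_lit 84) (nat_lit 1352604348) (nat_lit 182) (nat_lit 5) (nat_lit 195) (nat_lit 5) (nat_lit 183) (nat_lit 5) (nat_lit 224) (nat_lit 206) (nat_lit 170)) (XT.nd (nat_lit 94) (nat_lit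 84) (nat_lit 0) (XT.lf (nat_lit 0) (nat_lit 2060052773) (nat_lit 1092) (nat_lit 3857998074) (nat_lit 1176) (nat_lit 2078605601) (nat_lit 169) (nat_lit 5) (nat_lit 182) (nat_lit 5) (nat_lit 183) (nat_lit 5) (nat_lit 225) (nat_lit 206) (nat_lit 169)) (XT.lf (nat_lit 0) (nat_lit 24129945) (nat_lit 1176) (nat_lit 1020685569) (nat_lit 84) (nat_lit 7063201676) (nat_lit 168) (nat_lit 5) (nat_lit 182) (nat_lit 5) (nat_lit 169) (nat_lit 5) (nat_lit 226) (nat_lit 206) (nat_lit 168)))) (XT.nd (nat_lit 94) (nat_lit 672) (nat_lit 0) (XT.lf (nat_lit 0) (nat_lit 2156778180) (nat_lit 1260) (nat_lit 4166216047) (nat_lit 84) (nat_lit 1899263946) (nat_lit 154) (nat_lit 5) (nat_lit 169) (nat_lit 5) (nat_lit 155) (nat_lit 5) (nat_lit 227) (nat_lit 206) (nat_lit 167)) (XT.nd (nat_lit 94) (nat_lit 0) (nat_lit 0) (XT.lf (nat_lit 0) (nat_lit 945284244) (nat_lit 672) (nat_lit 3393058537) (nat_lit 756) (nat_lit 4003055231)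 (nat_lit 146) (nat_lit 5) (nat_lit 154) (nat_lit 5) (nat_lit 155) (nat_lit 5) (nat_lit 228) (nat_lit 206) (nat_lit 166)) (XT.lf (nat_lit 0) (nat_lit 6277548720) (nat_lit 672) (nat_lit 308780334) (nat_lit 756) (nat_lit 1878726349) (nat_lit 146) (nat_lit 5) (nat_lit 154) (nat_lit 5) (nat_lit 155) (nat_lit 5) (nat_lit 229) (nat_lit 206) (nat_lit 165))))))) (XT.nd (nat_lit 1128) (nat_lit 3192) (nat_lit 0) (XT.nd (nat_lit 564) (nat_lit 1932) (nat_lit 0) (XT.nd (nat_lit 282) (nat_lit 1092) (nat_lit 0) (XT.nd (nat_lit 94) (nat_lit 588) (nat_lit 0) (XT.lf (nat_lit 0) (nat_lit 323354522) (nat_lit 672) (nat_lit 5411080528) (nat_lit 84) (nat_lit 2858108047) (nat_lit 138) (nat_lit 5) (nat_lit 146) (nat_lit 5) (nat_lit 139) (nat_lit 5) (nat_lit 230) (nat_lit 206) (nat_lit 164)) (XT.nd (nat_lit 94) (nat_lit 588) (nat_lit 0) (XT.lf (nat_lit 0) (nat_lit 2531649680) (nat_lit 672) (nat_lit 17106147) (nat_lit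 84) (nat_lit 6175915642) (nat_lit 138) (nat_lit 5) (nat_lit 146) (nat_lit 5) (nat_lit 139) (nat_lit 5) (nat_lit 231) (nat_lit 206) (nat_lit 163)) (XT.lf (nat_lit 0) (nat_lit 4834545373) (nat_lit 672) (nat_lit 3233583785) (nat_lit 84) (nat_lit 792689320) (nat_lit 131) (nat_lit 5) (nat_lit 139) (nat_lit 5) (nat_lit 132) (nat_lit 5) (nat_lit 232) (nat_lit 206) (nat_lit 162)))) (XT.nd (nat_lit 94) (nat_lit 588) (nat_lit 0) (XT.lf (nat_lit 0) (nat_lit 2435585074) (nat_lit 504) (nat_lit 4785846151) (nat_lit 588) (nat_lit 1780180799) (nat_lit 125) (nat_lit 5) (nat_lit 131) (nat_lit 5) (nat_lit 132) (nat_lit 5) (nat_lit 233) (nat_lit 206) (nat_lit 161)) (XT.nd (nat_lit 94) (nat_lit 504) (nat_lit 0) (XT.lf (nat_lit 0) (nat_lit 517990352) (nat_lit 588) (nat_lit 830306820) (nat_lit 84) (nat_lit 7799320389) (nat_lit 124) (nat_lit 5) (nat_lit 131) (nat_lit 5) (nat_lit 125) (nat_lit 5) (nat_lit 234) (nat_lit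 206) (nat_lit 160)) (XT.lf (nat_lit 0) (nat_lit 2886610623) (nat_lit 588) (nat_lit 4177578910) (nat_lit 84) (nat_lit 2232712577) (nat_lit 118) (nat_lit 5) (nat_lit 125) (nat_lit 5) (nat_lit 119) (nat_lit 5) (nat_lit 235) (nat_lit 206) (nat_lit 159))))) (XT.nd (nat_lit 282) (nat_lit 840) (nat_lit 0) (XT.nd (nat_lit 94) (nat_lit 588) (nat_lit 0) (XT.lf (nat_lit 0) (nat_lit 1813852433) (nat_lit 504) (nat_lit 3519984193) (nat_lit 588) (nat_lit 4117725352) (nat_lit 112) (nat_lit 5) (nat_lit 118) (nat_lit 5) (nat_lit 119) (nat_lit 5) (nat_lit 236) (nat_lit 206) (nat_lit 158)) (XT.nd (nat_lit 94) (nat_lit 588) (nat_lit 0) (XT.lf (nat_lit 0) (nat_lit 7869228917) (nat_lit 588) (nat_lit 1555469716) (nat_lit 84) (nat_lit 186848341) (nat_lit 112) (nat_lit 5) (nat_lit 119) (nat_lit 5) (nat_lit 113) (nat_lit 5) (nat_lit 237) (nat_lit 206) (nat_lit 157)) (XT.lf (nat_lit 0) (nat_lit 746696188) (nat_lit 588)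 (nat_lit 5033921288) (nat_lit 84) (nat_lit 3994599889) (nat_lit 105) (nat_lit 5) (nat_lit 112) (nat_lit 5) (nat_lit 106) (nat_lit 5) (nat_lit 238) (nat_lit 206) (nat_lit 156)))) (XT.nd (nat_lit 94) (nat_lit 420) (nat_lit 0) (XT.lf (nat_lit 0) (nat_lit 1303991849) (nat_lit 420) (nat_lit 1964138655) (nat_lit 504) (nat_lit 6676265715) (nat_lit 100) (nat_lit 5) (nat_lit 105) (nat_lit 5) (nat_lit 106) (nat_lit 5) (nat_lit 239) (nat_lit 206) (nat_lit 155)) (XT.nd (nat_lit 94) (nat_lit 420) (nat_lit 0) (XT.lf (nat_lit 0) (nat_lit 5913964270) (nat_lit 504) (nat_lit 2213557967) (nat_lit 84) (nat_lit 1990708873) (nat_lit 100) (nat_lit 5) (nat_lit 106) (nat_lit 5) (nat_lit 101) (nat_lit 5) (nat_lit 240) (nat_lit 206) (nat_lit 154)) (XT.lf (nat_lit 0) (nat_lit 4460744341) (nat_lit 420) (nat_lit 4219506734) (nat_lit 504) (nat_lit 1616924437) (nat_lit 95) (nat_lit 5) (nat_lit 100) (nat_lit 5) (nat_lit 101)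 (nat_lit 5) (nat_lit 241) (nat_lit 206) (nat_lit 153)))))) (XT.nd (nat_lit 564) (nat_lit 1428) (nat_lit 0) (XT.nd (nat_lit 282) (nat_lit 840) (nat_lit 0) (XT.nd (nat_lit 94) (nat_lit 420) (nat_lit 0) (XT.lf (nat_lit 0) (nat_lit 892072928) (nat_lit 420) (nat_lit 137086542) (nat_lit 504) (nat_lit 9453081297) (nat_lit 89) (nat_lit 5) (nat_lit 94) (nat_lit 5) (nat_lit 95) (nat_lit 5) (nat_lit 242) (nat_lit 206) (nat_lit 152)) (XT.nd (nat_lit 94) (nat_lit 420) (nat_lit 0) (XT.lf (nat_lit 0) (nat_lit 3801737663) (nat_lit 504) (nat_lit 2797238904) (nat_lit 84) (nat_lit 4071640160) (nat_lit 89) (nat_lit 5) (nat_lit 95) (nat_lit 5) (nat_lit 90) (nat_lit 5) (nat_lit 243) (nat_lit 206) (nat_lit 151)) (XT.lf (nat_lit 0) (nat_lit 4273598440) (nat_lit 420) (nat_lit 2405036208) (nat_lit 504) (nat_lit 4186696446) (nat_lit 84) (nat_lit 5) (nat_lit 89) (nat_lit 5) (nat_lit 90) (nat_lit 5) (nat_lit 244) (nat_lit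 206) (nat_lit 150)))) (XT.nd (nat_lit 94) (nat_lit 504) (nat_lit 0) (XT.lf (nat_lit 0) (nat_lit 527567613) (nat_lit 336) (nat_lit 9148229488) (nat_lit 420) (nat_lit 1390378272) (nat_lit 80) (nat_lit 5) (nat_lit 84) (nat_lit 5) (nat_lit 85) (nat_lit 5) (nat_lit 245) (nat_lit 206) (nat_lit 149)) (XT.nd (nat_lit 94) (nat_lit 420) (nat_lit 0) (XT.lf (nat_lit 0) (nat_lit 1535180100) (nat_lit 420) (nat_lit 3318526238) (nat_lit 84) (nat_lit 6417465074) (nat_lit 79) (nat_lit 5) (nat_lit 84) (nat_lit 5) (nat_lit 80) (nat_lit 5) (nat_lit 246) (nat_lit 206) (nat_lit 148)) (XT.lf (nat_lit 0) (nat_lit 4178734469) (nat_lit 420) (nat_lit 358768479) (nat_lit 504) (nat_lit 6945033202) (nat_lit 74) (nat_lit 5) (nat_lit 79) (nat_lit 5) (nat_lit 80) (nat_lit 5) (nat_lit 247) (nat_lit 206) (nat_lit 147))))) (XT.nd (nat_lit 282) (nat_lit 672) (nat_lit 0) (XT.nd (nat_lit 94) (nat_lit 420) (nat_lit 0) (XT.lf (nat_lit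 0) (nat_lit 220040820) (nat_lit 336) (nat_lit 7475780353) (nat_lit 420) (nat_lit 4003695489) (nat_lit 70) (nat_lit 5) (nat_lit 74) (nat_lit 5) (nat_lit 75) (nat_lit 5) (nat_lit 248) (nat_lit 206) (nat_lit 146)) (XT.nd (nat_lit 94) (nat_lit 420) (nat_lit 0) (XT.lf (nat_lit 0) (nat_lit 8124175859) (nat_lit 336) (nat_lit 2892506426) (nat_lit 420) (nat_lit 905589145) (nat_lit 70) (nat_lit 5) (nat_lit 74) (nat_lit 5) (nat_lit 75) (nat_lit 5) (nat_lit 249) (nat_lit 206) (nat_lit 145)) (XT.lf (nat_lit 0) (nat_lit 2279094339) (nat_lit 420) (nat_lit 8005118663) (nat_lit 84) (nat_lit 1866651246) (nat_lit 65) (nat_lit 5) (nat_lit 70) (nat_lit 5) (nat_lit 66) (nat_lit 5) (nat_lit 250) (nat_lit 206) (nat_lit 144)))) (XT.nd (nat_lit 94) (nat_lit 672) (nat_lit 0) (XT.lf (nat_lit 0) (nat_lit 5595777665) (nat_lit 420) (nat_lit 25110521) (nat_lit 84) (nat_lit 6764741525) (nat_lit 65) (nat_lit 5) (nat_lit 70)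 (nat_lit 5) (nat_lit 66) (nat_lit 5) (nat_lit 251) (nat_lit 206) (nat_lit 143)) (XT.nd (nat_lit 94) (nat_lit 336) (nat_lit 0) (XT.lf (nat_lit 0) (nat_lit 8372119827) (nat_lit 336) (nat_lit 714054684) (nat_lit 420) (nat_lit 3540420416) (nat_lit 61) (nat_lit 5) (nat_lit 65) (nat_lit 5) (nat_lit 66) (nat_lit 5) (nat_lit 252) (nat_lit 206) (nat_lit 142)) (XT.lf (nat_lit 0) (nat_lit 4181693866) (nat_lit 336) (nat_lit 8577362755) (nat_lit 420) (nat_lit 114826059) (nat_lit 57) (nat_lit 5) (nat_lit 61) (nat_lit 5) (nat_lit 62) (nat_lit 5) (nat_lit 253) (nat_lit 206) (nat_lit 141))))))))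
noncomputable def xc30 : XT := (XT.nd (nat_lit 34498) (nat_lit 0) (nat_lit 4536) (XT.nd (nat_lit 33370) (nat_lit 0) (nat_lit 15120) (XT.nd (nat_lit 470) (nat_lit 840) (nat_lit 0) (XT.nd (nat_lit 188) (nat_lit 672) (nat_lit 0) (XT.nd (nat_lit 94) (nat_lit 252) (nat_lit 0) (XT.lf (nat_lit 0) (nat_lit 3376904424) (nat_lit 420) (nat_lit 212395151) (nat_lit 84) (nat_lit 9538347069) (nat_lit 56) (nat_lit 5) (nat_lit 61) (nat_lit 5) (nat_lit 57) (nat_lit 5) (nat_lit 254) (nat_lit 206) (nat_lit 140)) (XT.lf (nat_lit 0) (nat_lit 7069865705) (nat_lit 336) (nat_lit 4696957143) (nat_lit 84) (nat_lit 1620563130) (nat_lit 53) (nat_lit 5) (nat_lit 57) (nat_lit 5) (nat_lit 54) (nat_lit 5) (nat_lit 255) (nat_lit 206) (nat_lit 139))) (XT.nd (nat_lit 94) (nat_lit 336) (nat_lit 0) (XT.lf (nat_lit 0) (nat_lit 4257750495) (nat_lit 336) (nat_lit 6692288482) (nat_lit 420) (nat_lit 2704148668) (nat_lit 49) (nat_lit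 5) (nat_lit 53) (nat_lit 5) (nat_lit 54) (nat_lit 5) (nat_lit 256) (nat_lit 206) (nat_lit 138)) (XT.nd (nat_lit 94) (nat_lit 252) (nat_lit 0) (XT.lf (nat_lit 0) (nat_lit 1035046746) (nat_lit 420) (nat_lit 353288913) (nat_lit 84) (nat_lit 12540788441) (nat_lit 48) (nat_lit 5) (nat_lit 53) (nat_lit 5) (nat_lit 49) (nat_lit 5) (nat_lit 257) (nat_lit 206) (nat_lit 137)) (XT.lf (nat_lit 0) (nat_lit 4958345903) (nat_lit 336) (nat_lit 5124570541) (nat_lit 84) (nat_lit 4125591189) (nat_lit 45) (nat_lit 5) (nat_lit 49) (nat_lit 5) (nat_lit 46) (nat_lit 5) (nat_lit 258) (nat_lit 206) (nat_lit 136))))) (XT.nd (nat_lit 282) (nat_lit 252) (nat_lit 0) (XT.nd (nat_lit 94) (nat_lit 336) (nat_lit 0) (XT.lf (nat_lit 0) (nat_lit 4396058346) (nat_lit 252) (nat_lit 4660355534) (nat_lit 336) (nat_lit 5439944841) (nat_lit 42) (nat_lit 5) (nat_lit 45) (nat_lit 5) (nat_lit 46) (nat_lit 5) (nat_lit 259) (nat_lit 206)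 (nat_lit 135)) (XT.nd (nat_lit 94) (nat_lit 336) (nat_lit 0) (XT.lf (nat_lit 0) (nat_lit 13338252320) (nat_lit 336) (nat_lit 480817460) (nat_lit 84) (nat_lit 973802985) (nat_lit 42) (nat_lit 5) (nat_lit 46) (nat_lit 5) (nat_lit 43) (nat_lit 5) (nat_lit 260) (nat_lit 206) (nat_lit 134)) (XT.lf (nat_lit 0) (nat_lit 2741377825) (nat_lit 336) (nat_lit 5536005689) (nat_lit 84) (nat_lit 6816729352) (nat_lit 38) (nat_lit 5) (nat_lit 42) (nat_lit 5) (nat_lit 39) (nat_lit 5) (nat_lit 261) (nat_lit 206) (nat_lit 133)))) (XT.nd (nat_lit 94) (nat_lit 0) (nat_lit 0) (XT.lf (nat_lit 0) (nat_lit 4592787050) (nat_lit 252) (nat_lit 2483999893) (nat_lit 336) (nat_lit 8327588238) (nat_lit 35) (nat_lit 5) (nat_lit 38) (nat_lit 5) (nat_lit 39) (nat_lit 5) (nat_lit 262) (nat_lit 206) (nat_lit 132)) (XT.nd (nat_lit 32430) (nat_lit 0) (nat_lit 17808) (XT.lf (nat_lit 0) (nat_lit 11639199424) (nat_lit 336) (nat_lit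 603108759) (nat_lit 84) (nat_lit 3480554251) (nat_lit 35) (nat_lit 5) (nat_lit 39) (nat_lit 5) (nat_lit 36) (nat_lit 5) (nat_lit 263) (nat_lit 206) (nat_lit 131)) (XT.lf (nat_lit 0) (nat_lit 2559343638) (nat_lit 588) (nat_lit 400868295) (nat_lit 588) (nat_lit 400868295) (nat_lit 247) (nat_lit 3) (nat_lit 254) (nat_lit 3) (nat_lit 254) (nat_lit 5) (nat_lit 207) (nat_lit 207) (nat_lit 186)))))) (XT.nd (nat_lit 564) (nat_lit 1428) (nat_lit 0) (XT.nd (nat_lit 282) (nat_lit 672) (nat_lit 0) (XT.nd (nat_lit 94) (nat_lit 0) (nat_lit 0) (XT.lf (nat_lit 0) (nat_lit 591311421) (nat_lit 588) (nat_lit 4152185757) (nat_lit 672) (nat_lit 2020432540) (nat_lit 240) (nat_lit 5) (nat_lit 247) (nat_lit 3) (nat_lit 248) (nat_lit 5) (nat_lit 208) (nat_lit 207) (nat_lit 185)) (XT.nd (nat_lit 94) (nat_lit 0) (nat_lit 0) (XT.lf (nat_lit 0) (nat_lit 2736489028) (nat_lit 588) (nat_lit 714952891) (nat_lit 672) (nat_lit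 3358179588) (nat_lit 240) (nat_lit 5) (nat_lit 247) (nat_lit 3) (nat_lit 248) (nat_lit 5) (nat_lit 209) (nat_lit 207) (nat_lit 184)) (XT.lf (nat_lit 84) (nat_lit 2855671132) (nat_lit 0) (nat_lit 2037857666) (nat_lit 672) (nat_lit 1965596376) (nat_lit 241) (nat_lit 5) (nat_lit 240) (nat_lit 5) (nat_lit 248) (nat_lit 5) (nat_lit 210) (nat_lit 207) (nat_lit 183)))) (XT.nd (nat_lit 94) (nat_lit 0) (nat_lit 84) (XT.lf (nat_lit 0) (nat_lit 125887974) (nat_lit 672) (nat_lit 397373746) (nat_lit 756) (nat_lit 6389987990) (nat_lit 232) (nat_lit 5) (nat_lit 240) (nat_lit 5) (nat_lit 241) (nat_lit 5) (nat_lit 211) (nat_lit 207) (nat_lit 182)) (XT.nd (nat_lit 94) (nat_lit 0) (nat_lit 0) (XT.lf (nat_lit 0) (nat_lit 2204082911) (nat_lit 672) (nat_lit 3646631212) (nat_lit 756) (nat_lit 1119173827) (nat_lit 233) (nat_lit 5) (nat_lit 241) (nat_lit 5) (nat_lit 242) (nat_lit 5) (nat_lit 212) (nat_lit 207) (nat_lit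 181)) (XT.lf (nat_lit 84) (nat_lit 97079778) (nat_lit 0) (nat_lit 4182394851) (nat_lit 756) (nat_lit 2751677798) (nat_lit 234) (nat_lit 5) (nat_lit 233) (nat_lit 5) (nat_lit 242) (nat_lit 5) (nat_lit 213) (nat_lit 207) (nat_lit 180))))) (XT.nd (nat_lit 282) (nat_lit 756) (nat_lit 0) (XT.nd (nat_lit 94) (nat_lit 756) (nat_lit 0) (XT.lf (nat_lit 84) (nat_lit 4005664513) (nat_lit 0) (nat_lit 2379827578) (nat_lit 756) (nat_lit 710539525) (nat_lit 234) (nat_lit 5) (nat_lit 233) (nat_lit 5) (nat_lit 242) (nat_lit 5) (nat_lit 214) (nat_lit 207) (nat_lit 179)) (XT.nd (nat_lit 94) (nat_lit 0) (nat_lit 84) (XT.lf (nat_lit 84) (nat_lit 837401977) (nat_lit 0) (nat_lit 459063097) (nat_lit 840) (nat_lit 5868752158) (nat_lit 225) (nat_lit 5) (nat_lit 224) (nat_lit 5) (nat_lit 234) (nat_lit 5) (nat_lit 215) (nat_lit 207) (nat_lit 178)) (XT.lf (nat_lit 0) (nat_lit 3330373653) (nat_lit 756) (nat_lit 2340706200)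 (nat_lit 840) (nat_lit 1566391022) (nat_lit 225) (nat_lit 5) (nat_lit 234) (nat_lit 5) (nat_lit 235) (nat_lit 5) (nat_lit 216) (nat_lit 207) (nat_lit 177)))) (XT.nd (nat_lit 94) (nat_lit 840) (nat_lit 0) (XT.lf (nat_lit 84) (nat_lit 1766254100) (nat_lit 0) (nat_lit 3616326236) (nat_lit 840) (nat_lit 1931524164) (nat_lit 226) (nat_lit 5) (nat_lit 225) (nat_lit 5) (nat_lit 235) (nat_lit 5) (nat_lit 217) (nat_lit 207) (nat_lit 176)) (XT.nd (nat_lit 94) (nat_lit 0) (nat_lit 84) (XT.lf (nat_lit 0) (nat_lit 61861670) (nat_lit 840) (nat_lit 1376480407) (nat_lit 924) (nat_lit 5956740879) (nat_lit 215) (nat_lit 5) (nat_lit 225) (nat_lit 5) (nat_lit 226) (nat_lit 5) (nat_lit 218) (nat_lit 207) (nat_lit 175)) (XT.lf (nat_lit 0) (nat_lit 2048190009) (nat_lit 840) (nat_lit 4558169076) (nat_lit 84) (nat_lit 872859369) (nat_lit 216) (nat_lit 5) (nat_lit 226) (nat_lit 5) (nat_lit 217) (nat_lit 5) (nat_lit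 219) (nat_lit 207) (nat_lit 174))))))) (XT.nd (nat_lit 1128) (nat_lit 4116) (nat_lit 0) (XT.nd (nat_lit 564) (nat_lit 3696) (nat_lit 0) (XT.nd (nat_lit 282) (nat_lit 1008) (nat_lit 0) (XT.nd (nat_lit 94) (nat_lit 1848) (nat_lit 0) (XT.lf (nat_lit 0) (nat_lit 4065073234) (nat_lit 840) (nat_lit 236316636) (nat_lit 84) (nat_lit 3266272653) (nat_lit 216) (nat_lit 5) (nat_lit 226) (nat_lit 5) (nat_lit 217) (nat_lit 5) (nat_lit 220) (nat_lit 207) (nat_lit 173)) (XT.nd (nat_lit 94) (nat_lit 1008) (nat_lit 0) (XT.lf (nat_lit 0) (nat_lit 4279875416) (nat_lit 840) (nat_lit 1850810110) (nat_lit 924) (nat_lit 1529281775) (nat_lit 206) (nat_lit 5) (nat_lit 216) (nat_lit 5) (nat_lit 217) (nat_lit 5) (nat_lit 221) (nat_lit 207) (nat_lit 172)) (XT.lf (nat_lit 0) (nat_lit 456783043) (nat_lit 1008) (nat_lit 6594941731) (nat_lit 84) (nat_lit 705141485) (nat_lit 194) (nat_lit 5) (nat_lit 206) (nat_lit 5) (nat_lit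 195) (nat_lit 5) (nat_lit 222) (nat_lit 207) (nat_lit 171)))) (XT.nd (nat_lit 94) (nat_lit 1008) (nat_lit 0) (XT.lf (nat_lit 0) (nat_lit 2471439059) (nat_lit 1008) (nat_lit 2007922282) (nat_lit 84) (nat_lit 3377354207) (nat_lit 194) (nat_lit 5) (nat_lit 206) (nat_lit 5) (nat_lit 195) (nat_lit 5) (nat_lit 223) (nat_lit 207) (nat_lit 170)) (XT.nd (nat_lit 94) (nat_lit 0) (nat_lit 0) (XT.lf (nat_lit 0) (nat_lit 2747053605) (nat_lit 1008) (nat_lit 1775698955) (nat_lit 1092) (nat_lit 3438491943) (nat_lit 182) (nat_lit 5) (nat_lit 194) (nat_lit 5) (nat_lit 195) (nat_lit 5) (nat_lit 224) (nat_lit 207) (nat_lit 169)) (XT.lf (nat_lit 0) (nat_lit 6618430093) (nat_lit 1092) (nat_lit 420149645) (nat_lit 84) (nat_lit 1031812353) (nat_lit 182) (nat_lit 5) (nat_lit 195) (nat_lit 5) (nat_lit 183) (nat_lit 5) (nat_lit 225) (nat_lit 207) (nat_lit 168))))) (XT.nd (nat_lit 282) (nat_lit 1344) (nat_lit 0) (XT.nd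 (nat_lit 94) (nat_lit 1176) (nat_lit 0) (XT.lf (nat_lit 0) (nat_lit 601253704) (nat_lit 1176) (nat_lit 3619643728) (nat_lit 84) (nat_lit 3961846916) (nat_lit 168) (nat_lit 5) (nat_lit 182) (nat_lit 5) (nat_lit 169) (nat_lit 5) (nat_lit 226) (nat_lit 207) (nat_lit 167)) (XT.nd (nat_lit 94) (nat_lit 0) (nat_lit 0) (XT.lf (nat_lit 0) (nat_lit 1391341314) (nat_lit 1176) (nat_lit 1261531892) (nat_lit 1260) (nat_lit 5646948130) (nat_lit 154) (nat_lit 5) (nat_lit 168) (nat_lit 5) (nat_lit 169) (nat_lit 5) (nat_lit 227) (nat_lit 207) (nat_lit 166)) (XT.lf (nat_lit 0) (nat_lit 4781129308) (nat_lit 1260) (nat_lit 1832298096) (nat_lit 84) (nat_lit 1807399570) (nat_lit 154) (nat_lit 5) (nat_lit 169) (nat_lit 5) (nat_lit 155) (nat_lit 5) (nat_lit 228) (nat_lit 207) (nat_lit 165)))) (XT.nd (nat_lit 94) (nat_lit 672) (nat_lit 0) (XT.lf (nat_lit 0) (nat_lit 3429834105) (nat_lit 672) (nat_lit 3550335689) (nat_lit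 756) (nat_lit 1566027674) (nat_lit 146) (nat_lit 5) (nat_lit 154) (nat_lit 5) (nat_lit 155) (nat_lit 5) (nat_lit 229) (nat_lit 207) (nat_lit 164)) (XT.nd (nat_lit 94) (nat_lit 0) (nat_lit 0) (XT.lf (nat_lit 0) (nat_lit 186856871) (nat_lit 588) (nat_lit 348359469) (nat_lit 672) (nat_lit 8141628010) (nat_lit 138) (nat_lit 5) (nat_lit 145) (nat_lit 5) (nat_lit 146) (nat_lit 5) (nat_lit 230) (nat_lit 207) (nat_lit 163)) (XT.lf (nat_lit 0) (nat_lit 2712833621) (nat_lit 672) (nat_lit 3120079889) (nat_lit 84) (nat_lit 2977132937) (nat_lit 138) (nat_lit 5) (nat_lit 146) (nat_lit 5) (nat_lit 139) (nat_lit 5) (nat_lit 231) (nat_lit 207) (nat_lit 162)))))) (XT.nd (nat_lit 564) (nat_lit 1932) (nat_lit 0) (XT.nd (nat_lit 282) (nat_lit 1008) (nat_lit 0) (XT.nd (nat_lit 94) (nat_lit 588) (nat_lit 0) (XT.lf (nat_lit 0) (nat_lit 2433994791) (nat_lit 588) (nat_lit 2511123326) (nat_lit 672) (nat_lit 4003546730)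 (nat_lit 131) (nat_lit 5) (nat_lit 138) (nat_lit 5) (nat_lit 139) (nat_lit 5) (nat_lit 232) (nat_lit 207) (nat_lit 161)) (XT.nd (nat_lit 94) (nat_lit 588) (nat_lit 0) (XT.lf (nat_lit 0) (nat_lit 7251559419) (nat_lit 672) (nat_lit 900312825) (nat_lit 84) (nat_lit 940401707) (nat_lit 131) (nat_lit 5) (nat_lit 139) (nat_lit 5) (nat_lit 132) (nat_lit 5) (nat_lit 233) (nat_lit 207) (nat_lit 160)) (XT.lf (nat_lit 0) (nat_lit 423386215) (nat_lit 588) (nat_lit 4305153557) (nat_lit 84) (nat_lit 4511003826) (nat_lit 124) (nat_lit 5) (nat_lit 131) (nat_lit 5) (nat_lit 125) (nat_lit 5) (nat_lit 234) (nat_lit 207) (nat_lit 159)))) (XT.nd (nat_lit 94) (nat_lit 504) (nat_lit 0) (XT.lf (nat_lit 0) (nat_lit 1562688525) (nat_lit 504) (nat_lit 1139728496) (nat_lit 588) (nat_lit 6689546759) (nat_lit 118) (nat_lit 5) (nat_lit 124) (nat_lit 5) (nat_lit 125) (nat_lit 5) (nat_lit 235) (nat_lit 207) (nat_lit 158))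 (XT.nd (nat_lit 94) (nat_lit 504) (nat_lit 0) (XT.lf (nat_lit 0) (nat_lit 5093011123) (nat_lit 588) (nat_lit 1893654748) (nat_lit 84) (nat_lit 2561939893) (nat_lit 118) (nat_lit 5) (nat_lit 125) (nat_lit 5) (nat_lit 119) (nat_lit 5) (nat_lit 236) (nat_lit 207) (nat_lit 157)) (XT.lf (nat_lit 0) (nat_lit 4279771519) (nat_lit 504) (nat_lit 3301690742) (nat_lit 588) (nat_lit 2128771439) (nat_lit 112) (nat_lit 5) (nat_lit 118) (nat_lit 5) (nat_lit 119) (nat_lit 5) (nat_lit 237) (nat_lit 207) (nat_lit 156))))) (XT.nd (nat_lit 282) (nat_lit 924) (nat_lit 0) (XT.nd (nat_lit 94) (nat_lit 420) (nat_lit 0) (XT.lf (nat_lit 0) (nat_lit 264482910) (nat_lit 588) (nat_lit 9085501582) (nat_lit 84) (nat_lit 527728591) (nat_lit 105) (nat_lit 5) (nat_lit 112) (nat_lit 5) (nat_lit 106) (nat_lit 5) (nat_lit 238) (nat_lit 207) (nat_lit 155)) (XT.nd (nat_lit 94) (nat_lit 420) (nat_lit 0) (XT.lf (nat_lit 0) (nat_lit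 2749119728) (nat_lit 588) (nat_lit 2804263841) (nat_lit 84) (nat_lit 4494796281) (nat_lit 105) (nat_lit 5) (nat_lit 112) (nat_lit 5) (nat_lit 106) (nat_lit 5) (nat_lit 239) (nat_lit 207) (nat_lit 154)) (XT.lf (nat_lit 0) (nat_lit 3728048059) (nat_lit 420) (nat_lit 1590425826) (nat_lit 504) (nat_lit 4906217644) (nat_lit 100) (nat_lit 5) (nat_lit 105) (nat_lit 5) (nat_lit 106) (nat_lit 5) (nat_lit 240) (nat_lit 207) (nat_lit 153)))) (XT.nd (nat_lit 94) (nat_lit 504) (nat_lit 0) (XT.lf (nat_lit 0) (nat_lit 69228142) (nat_lit 420) (nat_lit 7927751052) (nat_lit 504) (nat_lit 2409729090) (nat_lit 95) (nat_lit 5) (nat_lit 100) (nat_lit 5) (nat_lit 101) (nat_lit 5) (nat_lit 241) (nat_lit 207) (nat_lit 152)) (XT.nd (nat_lit 94) (nat_lit 420) (nat_lit 0) (XT.lf (nat_lit 0) (nat_lit 223444655) (nat_lit 504) (nat_lit 3647129591) (nat_lit 84) (nat_lit 6722589491) (nat_lit 94) (nat_lit 5) (nat_lit 100)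 (nat_lit 5) (nat_lit 95) (nat_lit 5) (nat_lit 242) (nat_lit 207) (nat_lit 151)) (XT.lf (nat_lit 0) (nat_lit 2891765390) (nat_lit 504) (nat_lit 7518463288) (nat_lit 84) (nat_lit 374960030) (nat_lit 89) (nat_lit 5) (nat_lit 95) (nat_lit 5) (nat_lit 90) (nat_lit 5) (nat_lit 243) (nat_lit 207) (nat_lit 150))))))))
noncomputable def xc31 : XT := (XT.nd (nat_lit 34592) (nat_lit 0) (nat_lit 7476) (XT.nd (nat_lit 1034) (nat_lit 1764) (nat_lit 0) (XT.nd (nat_lit 470) (nat_lit 1512) (nat_lit 0) (XT.nd (nat_lit 188) (nat_lit 840) (nat_lit 0) (XT.nd (nat_lit 94) (nat_lit 420) (nat_lit 0) (XT.lf (nat_lit 0) (nat_lit 5701142671) (nat_lit 504) (nat_lit 570717601) (nat_lit 84) (nat_lit 4710405993) (nat_lit 89) (nat_lit 5) (nat_lit 95) (nat_lit 5) (nat_lit 90) (nat_lit 5) (nat_lit 244) (nat_lit 207) (nat_lit 149)) (XT.lf (nat_lit 0) (nat_lit 6721099094) (nat_lit 420) (nat_lit 1923504332) (nat_lit 504) (nat_lit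 2540386676) (nat_lit 84) (nat_lit 5) (nat_lit 89) (nat_lit 5) (nat_lit 90) (nat_lit 5) (nat_lit 245) (nat_lit 207) (nat_lit 148))) (XT.nd (nat_lit 94) (nat_lit 420) (nat_lit 0) (XT.lf (nat_lit 0) (nat_lit 318896918) (nat_lit 420) (nat_lit 8525965368) (nat_lit 84) (nat_lit 2548804593) (nat_lit 79) (nat_lit 5) (nat_lit 84) (nat_lit 5) (nat_lit 80) (nat_lit 5) (nat_lit 246) (nat_lit 207) (nat_lit 147)) (XT.nd (nat_lit 94) (nat_lit 420) (nat_lit 0) (XT.lf (nat_lit 0) (nat_lit 3255876821) (nat_lit 420) (nat_lit 1149206398) (nat_lit 84) (nat_lit 7202235402) (nat_lit 79) (nat_lit 5) (nat_lit 84) (nat_lit 5) (nat_lit 80) (nat_lit 5) (nat_lit 247) (nat_lit 207) (nat_lit 146)) (XT.lf (nat_lit 0) (nat_lit 6334896232) (nat_lit 504) (nat_lit 5245581745) (nat_lit 84) (nat_lit 246596614) (nat_lit 74) (nat_lit 5) (nat_lit 80) (nat_lit 5) (nat_lit 75) (nat_lit 5) (nat_lit 248) (nat_lit 207) (nat_lit 145)))))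 (XT.nd (nat_lit 282) (nat_lit 756) (nat_lit 0) (XT.nd (nat_lit 94) (nat_lit 420) (nat_lit 0) (XT.lf (nat_lit 0) (nat_lit 2511125618) (nat_lit 336) (nat_lit 7066658288) (nat_lit 420) (nat_lit 2474774524) (nat_lit 70) (nat_lit 5) (nat_lit 74) (nat_lit 5) (nat_lit 75) (nat_lit 5) (nat_lit 249) (nat_lit 207) (nat_lit 144)) (XT.nd (nat_lit 94) (nat_lit 336) (nat_lit 0) (XT.lf (nat_lit 0) (nat_lit 660011738) (nat_lit 420) (nat_lit 1677853302) (nat_lit 84) (nat_lit 9946889858) (nat_lit 69) (nat_lit 5) (nat_lit 74) (nat_lit 5) (nat_lit 70) (nat_lit 5) (nat_lit 250) (nat_lit 207) (nat_lit 143)) (XT.lf (nat_lit 0) (nat_lit 3913776707) (nat_lit 420) (nat_lit 6021435383) (nat_lit 84) (nat_lit 2586510413) (nat_lit 65) (nat_lit 5) (nat_lit 70) (nat_lit 5) (nat_lit 66) (nat_lit 5) (nat_lit 251) (nat_lit 207) (nat_lit 142)))) (XT.nd (nat_lit 94) (nat_lit 420) (nat_lit 0) (XT.lf (nat_lit 0) (nat_lit 2211460574)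 (nat_lit 336) (nat_lit 5107142165) (nat_lit 420) (nat_lit 5447079961) (nat_lit 61) (nat_lit 5) (nat_lit 65) (nat_lit 5) (nat_lit 66) (nat_lit 5) (nat_lit 252) (nat_lit 207) (nat_lit 141)) (XT.nd (nat_lit 94) (nat_lit 420) (nat_lit 0) (XT.lf (nat_lit 0) (nat_lit 10827513998) (nat_lit 336) (nat_lit 52298991) (nat_lit 420) (nat_lit 2137065978) (nat_lit 61) (nat_lit 5) (nat_lit 65) (nat_lit 5) (nat_lit 66) (nat_lit 5) (nat_lit 253) (nat_lit 207) (nat_lit 140)) (XT.lf (nat_lit 0) (nat_lit 1358075447) (nat_lit 420) (nat_lit 6779677801) (nat_lit 84) (nat_lit 5135163773) (nat_lit 56) (nat_lit 5) (nat_lit 61) (nat_lit 5) (nat_lit 57) (nat_lit 5) (nat_lit 254) (nat_lit 207) (nat_lit 139)))))) (XT.nd (nat_lit 564) (nat_lit 588) (nat_lit 0) (XT.nd (nat_lit 282) (nat_lit 588) (nat_lit 0) (XT.nd (nat_lit 94) (nat_lit 336) (nat_lit 0) (XT.lf (nat_lit 0) (nat_lit 1965227190) (nat_lit 252) (nat_lit 2976138396)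 (nat_lit 336) (nat_lit 8595129257) (nat_lit 53) (nat_lit 5) (nat_lit 56) (nat_lit 5) (nat_lit 57) (nat_lit 5) (nat_lit 255) (nat_lit 207) (nat_lit 138)) (XT.nd (nat_lit 94) (nat_lit 336) (nat_lit 0) (XT.lf (nat_lit 0) (nat_lit 8725075522) (nat_lit 336) (nat_lit 2704246436) (nat_lit 84) (nat_lit 2377350770) (nat_lit 53) (nat_lit 5) (nat_lit 57) (nat_lit 5) (nat_lit 54) (nat_lit 5) (nat_lit 256) (nat_lit 207) (nat_lit 137)) (XT.lf (nat_lit 0) (nat_lit 6539283575) (nat_lit 336) (nat_lit 6177926487) (nat_lit 420) (nat_lit 1366436960) (nat_lit 49) (nat_lit 5) (nat_lit 53) (nat_lit 5) (nat_lit 54) (nat_lit 5) (nat_lit 257) (nat_lit 207) (nat_lit 136)))) (XT.nd (nat_lit 94) (nat_lit 252) (nat_lit 0) (XT.lf (nat_lit 0) (nat_lit 1766169859) (nat_lit 252) (nat_lit 677322796) (nat_lit 336) (nat_lit 11925123114) (nat_lit 45) (nat_lit 5) (nat_lit 48) (nat_lit 5) (nat_lit 49) (nat_lit 5) (nat_lit 258) (nat_lit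 207) (nat_lit 135)) (XT.nd (nat_lit 94) (nat_lit 252) (nat_lit 0) (XT.lf (nat_lit 0) (nat_lit 6469955323) (nat_lit 336) (nat_lit 3197680216) (nat_lit 84) (nat_lit 4991337504) (nat_lit 45) (nat_lit 5) (nat_lit 49) (nat_lit 5) (nat_lit 46) (nat_lit 5) (nat_lit 259) (nat_lit 207) (nat_lit 134)) (XT.lf (nat_lit 0) (nat_lit 6632158056) (nat_lit 252) (nat_lit 4057249575) (nat_lit 336) (nat_lit 4268262971) (nat_lit 42) (nat_lit 5) (nat_lit 45) (nat_lit 5) (nat_lit 46) (nat_lit 5) (nat_lit 260) (nat_lit 207) (nat_lit 133))))) (XT.nd (nat_lit 32712) (nat_lit 0) (nat_lit 17220) (XT.nd (nat_lit 94) (nat_lit 336) (nat_lit 0) (XT.lf (nat_lit 0) (nat_lit 1586402743) (nat_lit 252) (nat_lit 13516129162) (nat_lit 336) (nat_lit 162680980) (nat_lit 39) (nat_lit 5) (nat_lit 42) (nat_lit 5) (nat_lit 43) (nat_lit 5) (nat_lit 261) (nat_lit 207) (nat_lit 132)) (XT.nd (nat_lit 94) (nat_lit 252) (nat_lit 0) (XT.lf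 (nat_lit 0) (nat_lit 4110893121) (nat_lit 336) (nat_lit 3675489862) (nat_lit 84) (nat_lit 7791448986) (nat_lit 38) (nat_lit 5) (nat_lit 42) (nat_lit 5) (nat_lit 39) (nat_lit 5) (nat_lit 262) (nat_lit 207) (nat_lit 131)) (XT.lf (nat_lit 0) (nat_lit 6784390538) (nat_lit 252) (nat_lit 1793211636) (nat_lit 336) (nat_lit 7322066668) (nat_lit 35) (nat_lit 5) (nat_lit 38) (nat_lit 5) (nat_lit 39) (nat_lit 5) (nat_lit 263) (nat_lit 207) (nat_lit 130)))) (XT.nd (nat_lit 94) (nat_lit 0) (nat_lit 0) (XT.lf (nat_lit 0) (nat_lit 668285035) (nat_lit 0) (nat_lit 668285035) (nat_lit 588) (nat_lit 2067307233) (nat_lit 240) (nat_lit 5) (nat_lit 240) (nat_lit 3) (nat_lit 247) (nat_lit 3) (nat_lit 208) (nat_lit 208) (nat_lit 184)) (XT.nd (nat_lit 94) (nat_lit 0) (nat_lit 0) (XT.lf (nat_lit 0) (nat_lit 4756724073) (nat_lit 588) (nat_lit 2044446269) (nat_lit 672) (nat_lit 54431830) (nat_lit 240) (nat_lit 5) (nat_lit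 247) (nat_lit 3) (nat_lit 248) (nat_lit 5) (nat_lit 209) (nat_lit 208) (nat_lit 183)) (XT.lf (nat_lit 84) (nat_lit 1470235637) (nat_lit 0) (nat_lit 5382969341) (nat_lit 672) (nat_lit 54020422) (nat_lit 241) (nat_lit 5) (nat_lit 240) (nat_lit 5) (nat_lit 248) (nat_lit 5) (nat_lit 210) (nat_lit 208) (nat_lit 182))))))) (XT.nd (nat_lit 1128) (nat_lit 6804) (nat_lit 0) (XT.nd (nat_lit 564) (nat_lit 1596) (nat_lit 0) (XT.nd (nat_lit 282) (nat_lit 672) (nat_lit 0) (XT.nd (nat_lit 94) (nat_lit 0) (nat_lit 0) (XT.lf (nat_lit 0) (nat_lit 1949748007) (nat_lit 672) (nat_lit 1877486716) (nat_lit 756) (nat_lit 3134922778) (nat_lit 232) (nat_lit 5) (nat_lit 240) (nat_lit 5) (nat_lit 241) (nat_lit 5) (nat_lit 211) (nat_lit 208) (nat_lit 181)) (XT.nd (nat_lit 94) (nat_lit 0) (nat_lit 0) (XT.lf (nat_lit 84) (nat_lit 1797020555) (nat_lit 0) (nat_lit 2158138573) (nat_lit 756) (nat_lit 3066184044) (nat_lit 233)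 (nat_lit 5) (nat_lit 232) (nat_lit 5) (nat_lit 241) (nat_lit 5) (nat_lit 212) (nat_lit 208) (nat_lit 180)) (XT.lf (nat_lit 84) (nat_lit 5596083508) (nat_lit 0) (nat_lit 371988549) (nat_lit 756) (nat_lit 1116722352) (nat_lit 233) (nat_lit 5) (nat_lit 232) (nat_lit 5) (nat_lit 241) (nat_lit 5) (nat_lit 213) (nat_lit 208) (nat_lit 179)))) (XT.nd (nat_lit 94) (nat_lit 0) (nat_lit 0) (XT.lf (nat_lit 0) (nat_lit 841300563) (nat_lit 756) (nat_lit 4797344906) (nat_lit 840) (nat_lit 1512843051) (nat_lit 224) (nat_lit 5) (nat_lit 233) (nat_lit 5) (nat_lit 234) (nat_lit 5) (nat_lit 214) (nat_lit 208) (nat_lit 178)) (XT.nd (nat_lit 94) (nat_lit 0) (nat_lit 0) (XT.lf (nat_lit 0) (nat_lit 2783402728) (nat_lit 756) (nat_lit 922038730) (nat_lit 840) (nat_lit 3516663286) (nat_lit 224) (nat_lit 5) (nat_lit 233) (nat_lit 5) (nat_lit 234) (nat_lit 5) (nat_lit 215) (nat_lit 208) (nat_lit 177)) (XT.lf (nat_lit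 84) (nat_lit 3109148172) (nat_lit 0) (nat_lit 1641385306) (nat_lit 840) (nat_lit 2546162133) (nat_lit 225) (nat_lit 5) (nat_lit 224) (nat_lit 5) (nat_lit 234) (nat_lit 5) (nat_lit 216) (nat_lit 208) (nat_lit 176))))) (XT.nd (nat_lit 282) (nat_lit 840) (nat_lit 0) (XT.nd (nat_lit 94) (nat_lit 840) (nat_lit 0) (XT.lf (nat_lit 0) (nat_lit 6727803917) (nat_lit 756) (nat_lit 128200059) (nat_lit 840) (nat_lit 519948028) (nat_lit 225) (nat_lit 5) (nat_lit 234) (nat_lit 5) (nat_lit 235) (nat_lit 5) (nat_lit 217) (nat_lit 208) (nat_lit 175)) (XT.nd (nat_lit 94) (nat_lit 0) (nat_lit 0) (XT.lf (nat_lit 0) (nat_lit 1278242051) (nat_lit 840) (nat_lit 3376493334) (nat_lit 924) (nat_lit 2803020954) (nat_lit 215) (nat_lit 5) (nat_lit 225) (nat_lit 5) (nat_lit 226) (nat_lit 5) (nat_lit 218) (nat_lit 208) (nat_lit 174)) (XT.lf (nat_lit 84) (nat_lit 858832857) (nat_lit 0) (nat_lit 2337507943) (nat_lit 924) (nat_lit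 4347939070) (nat_lit 216) (nat_lit 5) (nat_lit 215) (nat_lit 5) (nat_lit 226) (nat_lit 5) (nat_lit 219) (nat_lit 208) (nat_lit 173)))) (XT.nd (nat_lit 94) (nat_lit 924) (nat_lit 0) (XT.lf (nat_lit 0) (nat_lit 5153002818) (nat_lit 840) (nat_lit 2364069757) (nat_lit 84) (nat_lit 117759108) (nat_lit 216) (nat_lit 5) (nat_lit 226) (nat_lit 5) (nat_lit 217) (nat_lit 5) (nat_lit 220) (nat_lit 208) (nat_lit 172)) (XT.nd (nat_lit 94) (nat_lit 84) (nat_lit 0) (XT.lf (nat_lit 0) (nat_lit 2076540027) (nat_lit 840) (nat_lit 5084504566) (nat_lit 924) (nat_lit 568106835) (nat_lit 206) (nat_lit 5) (nat_lit 216) (nat_lit 5) (nat_lit 217) (nat_lit 5) (nat_lit 221) (nat_lit 208) (nat_lit 171)) (XT.lf (nat_lit 0) (nat_lit 1342528519) (nat_lit 924) (nat_lit 1165605013) (nat_lit 84) (nat_lit 5319419264) (nat_lit 205) (nat_lit 5) (nat_lit 216) (nat_lit 5) (nat_lit 206) (nat_lit 5) (nat_lit 222) (nat_lit 208) (nat_lit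 170)))))) (XT.nd (nat_lit 564) (nat_lit 2520) (nat_lit 0) (XT.nd (nat_lit 282) (nat_lit 2352) (nat_lit 0) (XT.nd (nat_lit 94) (nat_lit 1008) (nat_lit 0) (XT.lf (nat_lit 0) (nat_lit 3284119208) (nat_lit 1008) (nat_lit 4432513067) (nat_lit 84) (nat_lit 213327096) (nat_lit 194) (nat_lit 5) (nat_lit 206) (nat_lit 5) (nat_lit 195) (nat_lit 5) (nat_lit 223) (nat_lit 208) (nat_lit 169)) (XT.nd (nat_lit 94) (nat_lit 0) (nat_lit 0) (XT.lf (nat_lit 0) (nat_lit 239552527) (nat_lit 1008) (nat_lit 5037335023) (nat_lit 1092) (nat_lit 2759649858) (nat_lit 182) (nat_lit 5) (nat_lit 194) (nat_lit 5) (nat_lit 195) (nat_lit 5) (nat_lit 224) (nat_lit 208) (nat_lit 168)) (XT.lf (nat_lit 0) (nat_lit 5129158932) (nat_lit 1008) (nat_lit 2201784608) (nat_lit 1092) (nat_lit 816198208) (nat_lit 182) (nat_lit 5) (nat_lit 194) (nat_lit 5) (nat_lit 195) (nat_lit 5) (nat_lit 225) (nat_lit 208) (nat_lit 167)))) (XT.nd (nat_lit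 94) (nat_lit 1176) (nat_lit 0) (XT.lf (nat_lit 0) (nat_lit 1138675173) (nat_lit 1176) (nat_lit 6364968387) (nat_lit 84) (nat_lit 758539953) (nat_lit 168) (nat_lit 5) (nat_lit 182) (nat_lit 5) (nat_lit 169) (nat_lit 5) (nat_lit 226) (nat_lit 208) (nat_lit 166)) (XT.nd (nat_lit 94) (nat_lit 1176) (nat_lit 0) (XT.lf (nat_lit 0) (nat_lit 3146351865) (nat_lit 1176) (nat_lit 1411835390) (nat_lit 84) (nat_lit 3822611245) (nat_lit 168) (nat_lit 5) (nat_lit 182) (nat_lit 5) (nat_lit 169) (nat_lit 5) (nat_lit 227) (nat_lit 208) (nat_lit 165)) (XT.lf (nat_lit 0) (nat_lit 3747919354) (nat_lit 1176) (nat_lit 1462218960) (nat_lit 1260) (nat_lit 3293922261) (nat_lit 154) (nat_lit 5) (nat_lit 168) (nat_lit 5) (nat_lit 169) (nat_lit 5) (nat_lit 228) (nat_lit 208) (nat_lit 164))))) (XT.nd (nat_lit 282) (nat_lit 1176) (nat_lit 0) (XT.nd (nat_lit 94) (nat_lit 672) (nat_lit 0) (XT.lf (nat_lit 0) (nat_lit 428138843)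 (nat_lit 672) (nat_lit 6904492093) (nat_lit 756) (nat_lit 1299479308) (nat_lit 146) (nat_lit 5) (nat_lit 154) (nat_lit 5) (nat_lit 155) (nat_lit 5) (nat_lit 229) (nat_lit 208) (nat_lit 163)) (XT.nd (nat_lit 94) (nat_lit 588) (nat_lit 0) (XT.lf (nat_lit 0) (nat_lit 767145945) (nat_lit 756) (nat_lit 2934358349) (nat_lit 84) (nat_lit 5062149008) (nat_lit 145) (nat_lit 5) (nat_lit 154) (nat_lit 5) (nat_lit 146) (nat_lit 5) (nat_lit 230) (nat_lit 208) (nat_lit 162)) (XT.lf (nat_lit 0) (nat_lit 2509703033) (nat_lit 588) (nat_lit 341777453) (nat_lit 672) (nat_lit 6048639811) (nat_lit 138) (nat_lit 5) (nat_lit 145) (nat_lit 5) (nat_lit 146) (nat_lit 5) (nat_lit 231) (nat_lit 208) (nat_lit 161)))) (XT.nd (nat_lit 94) (nat_lit 1176) (nat_lit 0) (XT.lf (nat_lit 0) (nat_lit 5027822183) (nat_lit 672) (nat_lit 913813518) (nat_lit 84) (nat_lit 3099060993) (nat_lit 138) (nat_lit 5) (nat_lit 146) (nat_lit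 5) (nat_lit 139) (nat_lit 5) (nat_lit 232) (nat_lit 208) (nat_lit 160)) (XT.nd (nat_lit 94) (nat_lit 588) (nat_lit 0) (XT.lf (nat_lit 0) (nat_lit 4808255919) (nat_lit 588) (nat_lit 2480412098) (nat_lit 672) (nat_lit 1897233623) (nat_lit 131) (nat_lit 5) (nat_lit 138) (nat_lit 5) (nat_lit 139) (nat_lit 5) (nat_lit 233) (nat_lit 208) (nat_lit 159)) (XT.lf (nat_lit 0) (nat_lit 276197505) (nat_lit 588) (nat_lit 7956344634) (nat_lit 84) (nat_lit 1103869479) (nat_lit 124) (nat_lit 5) (nat_lit 131) (nat_lit 5) (nat_lit 125) (nat_lit 5) (nat_lit 234) (nat_lit 208) (nat_lit 158))))))))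
noncomputable def xc32 : XT := (XT.nd (nat_lit 2162) (nat_lit 1260) (nat_lit 0) (XT.nd (nat_lit 1034) (nat_lit 2604) (nat_lit 0) (XT.nd (nat_lit 470) (nat_lit 1764) (nat_lit 0) (XT.nd (nat_lit 188) (nat_lit 1092) (nat_lit 0) (XT.nd (nat_lit 94) (nat_lit 504) (nat_lit 0) (XT.lf (nat_lit 0) (nat_lit 2514422411) (nat_lit 588) (nat_lit 2149917744) (nat_lit 84) (nat_lit 4825919850) (nat_lit 124) (nat_lit 5) (nat_lit 131) (nat_lit 5) (nat_lit 125) (nat_lit 5) (nat_lit 235) (nat_lit 208) (nat_lit 157)) (XT.lf (nat_lit 0) (nat_lit 3897009864) (nat_lit 504) (nat_lit 931399121) (nat_lit 588) (nat_lit 4821174270) (nat_lit 118) (nat_lit 5) (nat_lit 124) (nat_lit 5) (nat_lit 125) (nat_lit 5) (nat_lit 236) (nat_lit 208) (nat_lit 156))) (XT.nd (nat_lit 94) (nat_lit 588) (nat_lit 0) (XT.lf (nat_lit 0) (nat_lit 315788771) (nat_lit 504) (nat_lit 6924380916) (nat_lit 588) (nat_lit 2573725668) (nat_lit 112) (nat_lit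 5) (nat_lit 118) (nat_lit 5) (nat_lit 119) (nat_lit 5) (nat_lit 237) (nat_lit 208) (nat_lit 155)) (XT.nd (nat_lit 94) (nat_lit 588) (nat_lit 0) (XT.lf (nat_lit 0) (nat_lit 6672261602) (nat_lit 504) (nat_lit 3098462644) (nat_lit 588) (nat_lit 212030755) (nat_lit 112) (nat_lit 5) (nat_lit 118) (nat_lit 5) (nat_lit 119) (nat_lit 5) (nat_lit 238) (nat_lit 208) (nat_lit 154)) (XT.lf (nat_lit 0) (nat_lit 2183197952) (nat_lit 588) (nat_lit 7079006513) (nat_lit 84) (nat_lit 894397542) (nat_lit 105) (nat_lit 5) (nat_lit 112) (nat_lit 5) (nat_lit 106) (nat_lit 5) (nat_lit 239) (nat_lit 208) (nat_lit 153))))) (XT.nd (nat_lit 282) (nat_lit 924) (nat_lit 0) (XT.nd (nat_lit 94) (nat_lit 840) (nat_lit 0) (XT.lf (nat_lit 0) (nat_lit 4690226010) (nat_lit 588) (nat_lit 656531313) (nat_lit 84) (nat_lit 4988537775) (nat_lit 105) (nat_lit 5) (nat_lit 112) (nat_lit 5) (nat_lit 106) (nat_lit 5) (nat_lit 240) (nat_lit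 208) (nat_lit 152)) (XT.nd (nat_lit 94) (nat_lit 420) (nat_lit 0) (XT.lf (nat_lit 0) (nat_lit 6078806989) (nat_lit 420) (nat_lit 1233051749) (nat_lit 504) (nat_lit 3207443655) (nat_lit 100) (nat_lit 5) (nat_lit 105) (nat_lit 5) (nat_lit 106) (nat_lit 5) (nat_lit 241) (nat_lit 208) (nat_lit 151)) (XT.lf (nat_lit 0) (nat_lit 2324598303) (nat_lit 420) (nat_lit 7727948281) (nat_lit 504) (nat_lit 656247930) (nat_lit 95) (nat_lit 5) (nat_lit 100) (nat_lit 5) (nat_lit 101) (nat_lit 5) (nat_lit 242) (nat_lit 208) (nat_lit 150)))) (XT.nd (nat_lit 94) (nat_lit 840) (nat_lit 0) (XT.lf (nat_lit 0) (nat_lit 1966676236) (nat_lit 504) (nat_lit 1557756469) (nat_lit 84) (nat_lit 7378752377) (nat_lit 94) (nat_lit 5) (nat_lit 100) (nat_lit 5) (nat_lit 95) (nat_lit 5) (nat_lit 243) (nat_lit 208) (nat_lit 149)) (XT.nd (nat_lit 94) (nat_lit 420) (nat_lit 0) (XT.lf (nat_lit 0) (nat_lit 4699589923) (nat_lit 504)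 (nat_lit 5535788571) (nat_lit 84) (nat_lit 867560372) (nat_lit 89) (nat_lit 5) (nat_lit 95) (nat_lit 5) (nat_lit 90) (nat_lit 5) (nat_lit 244) (nat_lit 208) (nat_lit 148)) (XT.lf (nat_lit 0) (nat_lit 1615820129) (nat_lit 420) (nat_lit 5951767448) (nat_lit 504) (nat_lit 3740716336) (nat_lit 84) (nat_lit 5) (nat_lit 89) (nat_lit 5) (nat_lit 90) (nat_lit 5) (nat_lit 245) (nat_lit 208) (nat_lit 147)))))) (XT.nd (nat_lit 564) (nat_lit 1008) (nat_lit 0) (XT.nd (nat_lit 282) (nat_lit 756) (nat_lit 0) (XT.nd (nat_lit 94) (nat_lit 840) (nat_lit 0) (XT.lf (nat_lit 0) (nat_lit 9101474867) (nat_lit 420) (nat_lit 1462732379) (nat_lit 504) (nat_lit 955661016) (nat_lit 84) (nat_lit 5) (nat_lit 89) (nat_lit 5) (nat_lit 90) (nat_lit 5) (nat_lit 246) (nat_lit 208) (nat_lit 146)) (XT.nd (nat_lit 94) (nat_lit 420) (nat_lit 0) (XT.lf (nat_lit 0) (nat_lit 1940652917) (nat_lit 420) (nat_lit 6616192264) (nat_lit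 84) (nat_lit 3179229229) (nat_lit 79) (nat_lit 5) (nat_lit 84) (nat_lit 5) (nat_lit 80) (nat_lit 5) (nat_lit 247) (nat_lit 208) (nat_lit 145)) (XT.lf (nat_lit 0) (nat_lit 965983425) (nat_lit 420) (nat_lit 3970742270) (nat_lit 504) (nat_lit 7022007816) (nat_lit 74) (nat_lit 5) (nat_lit 79) (nat_lit 5) (nat_lit 80) (nat_lit 5) (nat_lit 248) (nat_lit 208) (nat_lit 144)))) (XT.nd (nat_lit 94) (nat_lit 756) (nat_lit 0) (XT.lf (nat_lit 0) (nat_lit 8090112472) (nat_lit 504) (nat_lit 3273032849) (nat_lit 84) (nat_lit 824204561) (nat_lit 74) (nat_lit 5) (nat_lit 80) (nat_lit 5) (nat_lit 75) (nat_lit 5) (nat_lit 249) (nat_lit 208) (nat_lit 143)) (XT.nd (nat_lit 94) (nat_lit 420) (nat_lit 0) (XT.lf (nat_lit 0) (nat_lit 4730577823) (nat_lit 336) (nat_lit 6687816269) (nat_lit 420) (nat_lit 1003315312) (nat_lit 70) (nat_lit 5) (nat_lit 74) (nat_lit 5) (nat_lit 75) (nat_lit 5) (nat_lit 250) (nat_lit 208)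 (nat_lit 142)) (XT.lf (nat_lit 0) (nat_lit 365319742) (nat_lit 336) (nat_lit 1793117027) (nat_lit 420) (nat_lit 10504648189) (nat_lit 65) (nat_lit 5) (nat_lit 69) (nat_lit 5) (nat_lit 70) (nat_lit 5) (nat_lit 251) (nat_lit 208) (nat_lit 141))))) (XT.nd (nat_lit 282) (nat_lit 672) (nat_lit 0) (XT.nd (nat_lit 94) (nat_lit 336) (nat_lit 0) (XT.lf (nat_lit 0) (nat_lit 5502287811) (nat_lit 420) (nat_lit 4118845817) (nat_lit 84) (nat_lit 3288045651) (nat_lit 65) (nat_lit 5) (nat_lit 70) (nat_lit 5) (nat_lit 66) (nat_lit 5) (nat_lit 252) (nat_lit 208) (nat_lit 140)) (XT.nd (nat_lit 94) (nat_lit 0) (nat_lit 0) (XT.lf (nat_lit 0) (nat_lit 4378108048) (nat_lit 336) (nat_lit 4622367883) (nat_lit 420) (nat_lit 4162105390) (nat_lit 61) (nat_lit 5) (nat_lit 65) (nat_lit 5) (nat_lit 66) (nat_lit 5) (nat_lit 253) (nat_lit 208) (nat_lit 139)) (XT.lf (nat_lit 0) (nat_lit 12644655676) (nat_lit 420) (nat_lit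 205724369) (nat_lit 84) (nat_lit 573647963) (nat_lit 61) (nat_lit 5) (nat_lit 66) (nat_lit 5) (nat_lit 62) (nat_lit 5) (nat_lit 254) (nat_lit 208) (nat_lit 138)))) (XT.nd (nat_lit 94) (nat_lit 252) (nat_lit 0) (XT.lf (nat_lit 0) (nat_lit 2781813549) (nat_lit 420) (nat_lit 4948854378) (nat_lit 84) (nat_lit 5958633999) (nat_lit 56) (nat_lit 5) (nat_lit 61) (nat_lit 5) (nat_lit 57) (nat_lit 5) (nat_lit 255) (nat_lit 208) (nat_lit 137)) (XT.nd (nat_lit 94) (nat_lit 0) (nat_lit 0) (XT.lf (nat_lit 0) (nat_lit 4078544462) (nat_lit 252) (nat_lit 2388216540) (nat_lit 336) (nat_lit 7496175494) (nat_lit 53) (nat_lit 5) (nat_lit 56) (nat_lit 5) (nat_lit 57) (nat_lit 5) (nat_lit 256) (nat_lit 208) (nat_lit 136)) (XT.lf (nat_lit 0) (nat_lit 10344616406) (nat_lit 336) (nat_lit 785215204) (nat_lit 84) (nat_lit 3114078951) (nat_lit 53) (nat_lit 5) (nat_lit 57) (nat_lit 5) (nat_lit 54) (nat_lit 5) (nat_lit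 257) (nat_lit 208) (nat_lit 135))))))) (XT.nd (nat_lit 33558) (nat_lit 0) (nat_lit 12096) (XT.nd (nat_lit 470) (nat_lit 0) (nat_lit 0) (XT.nd (nat_lit 188) (nat_lit 588) (nat_lit 0) (XT.nd (nat_lit 94) (nat_lit 336) (nat_lit 0) (XT.lf (nat_lit 0) (nat_lit 8758881097) (nat_lit 336) (nat_lit 5695335185) (nat_lit 420) (nat_lit 77141751) (nat_lit 49) (nat_lit 5) (nat_lit 53) (nat_lit 5) (nat_lit 54) (nat_lit 5) (nat_lit 258) (nat_lit 208) (nat_lit 134)) (XT.lf (nat_lit 0) (nat_lit 3814022588) (nat_lit 336) (nat_lit 11000696108) (nat_lit 84) (nat_lit 11823355) (nat_lit 45) (nat_lit 5) (nat_lit 49) (nat_lit 5) (nat_lit 46) (nat_lit 5) (nat_lit 259) (nat_lit 208) (nat_lit 133))) (XT.nd (nat_lit 94) (nat_lit 588) (nat_lit 0) (XT.lf (nat_lit 0) (nat_lit 7945503915) (nat_lit 336) (nat_lit 1343391837) (nat_lit 84) (nat_lit 5839422842) (nat_lit 45) (nat_lit 5) (nat_lit 49) (nat_lit 5) (nat_lit 46) (nat_lit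 5) (nat_lit 260) (nat_lit 208) (nat_lit 132)) (XT.nd (nat_lit 94) (nat_lit 336) (nat_lit 0) (XT.lf (nat_lit 0) (nat_lit 8808074732) (nat_lit 252) (nat_lit 3483980232) (nat_lit 336) (nat_lit 3146135977) (nat_lit 42) (nat_lit 5) (nat_lit 45) (nat_lit 5) (nat_lit 46) (nat_lit 5) (nat_lit 261) (nat_lit 208) (nat_lit 131)) (XT.lf (nat_lit 0) (nat_lit 1065942548) (nat_lit 336) (nat_lit 12170884686) (nat_lit 84) (nat_lit 2519666278) (nat_lit 38) (nat_lit 5) (nat_lit 42) (nat_lit 5) (nat_lit 39) (nat_lit 5) (nat_lit 262) (nat_lit 208) (nat_lit 130))))) (XT.nd (nat_lit 32806) (nat_lit 0) (nat_lit 15540) (XT.nd (nat_lit 32618) (nat_lit 0) (nat_lit 16212) (XT.lf (nat_lit 0) (nat_lit 5443662871) (nat_lit 336) (nat_lit 1886443356) (nat_lit 84) (nat_lit 8751338765) (nat_lit 38) (nat_lit 5) (nat_lit 42) (nat_lit 5) (nat_lit 39) (nat_lit 5) (nat_lit 263) (nat_lit 208) (nat_lit 129)) (XT.nd (nat_lit 94) (nat_lit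 756) (nat_lit 0) (XT.lf (nat_lit 0) (nat_lit 1698422991) (nat_lit 0) (nat_lit 1698422991) (nat_lit 588) (nat_lit 55694666) (nat_lit 240) (nat_lit 5) (nat_lit 240) (nat_lit 3) (nat_lit 247) (nat_lit 3) (nat_lit 209) (nat_lit 209) (nat_lit 182)) (XT.lf (nat_lit 0) (nat_lit 1811950489) (nat_lit 756) (nat_lit 54431830) (nat_lit 756) (nat_lit 5092286929) (nat_lit 231) (nat_lit 3) (nat_lit 240) (nat_lit 3) (nat_lit 240) (nat_lit 5) (nat_lit 210) (nat_lit 209) (nat_lit 181)))) (XT.nd (nat_lit 94) (nat_lit 672) (nat_lit 0) (XT.lf (nat_lit 84) (nat_lit 3554442494) (nat_lit 0) (nat_lit 197962240) (nat_lit 756) (nat_lit 3263348674) (nat_lit 232) (nat_lit 5) (nat_lit 231) (nat_lit 3) (nat_lit 240) (nat_lit 5) (nat_lit 211) (nat_lit 209) (nat_lit 180)) (XT.nd (nat_lit 94) (nat_lit 756) (nat_lit 0) (XT.lf (nat_lit 84) (nat_lit 154563095) (nat_lit 0) (nat_lit 5541324491) (nat_lit 756) (nat_lit 1381218983)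 (nat_lit 233) (nat_lit 5) (nat_lit 232) (nat_lit 5) (nat_lit 241) (nat_lit 5) (nat_lit 212) (nat_lit 209) (nat_lit 179)) (XT.lf (nat_lit 0) (nat_lit 514612468) (nat_lit 756) (nat_lit 3217536946) (nat_lit 840) (nat_lit 3409612892) (nat_lit 223) (nat_lit 5) (nat_lit 232) (nat_lit 5) (nat_lit 233) (nat_lit 5) (nat_lit 213) (nat_lit 209) (nat_lit 178)))))) (XT.nd (nat_lit 564) (nat_lit 2688) (nat_lit 0) (XT.nd (nat_lit 282) (nat_lit 756) (nat_lit 0) (XT.nd (nat_lit 94) (nat_lit 0) (nat_lit 84) (XT.lf (nat_lit 84) (nat_lit 566330928) (nat_lit 0) (nat_lit 1804249339) (nat_lit 840) (nat_lit 4840126354) (nat_lit 224) (nat_lit 5) (nat_lit 223) (nat_lit 5) (nat_lit 233) (nat_lit 5) (nat_lit 214) (nat_lit 209) (nat_lit 177)) (XT.nd (nat_lit 94) (nat_lit 0) (nat_lit 0) (XT.lf (nat_lit 0) (nat_lit 4254452638) (nat_lit 756) (nat_lit 2773660488) (nat_lit 840) (nat_lit 255247762) (nat_lit 224) (nat_lit 5)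 (nat_lit 233) (nat_lit 5) (nat_lit 234) (nat_lit 5) (nat_lit 215) (nat_lit 209) (nat_lit 176)) (XT.lf (nat_lit 84) (nat_lit 1190155528) (nat_lit 0) (nat_lit 4973208883) (nat_lit 840) (nat_lit 1196625009) (nat_lit 225) (nat_lit 5) (nat_lit 224) (nat_lit 5) (nat_lit 234) (nat_lit 5) (nat_lit 216) (nat_lit 209) (nat_lit 175)))) (XT.nd (nat_lit 94) (nat_lit 0) (nat_lit 0) (XT.lf (nat_lit 0) (nat_lit 643221586) (nat_lit 840) (nat_lit 2136733923) (nat_lit 924) (nat_lit 4660496018) (nat_lit 214) (nat_lit 5) (nat_lit 224) (nat_lit 5) (nat_lit 225) (nat_lit 5) (nat_lit 217) (nat_lit 209) (nat_lit 174)) (XT.nd (nat_lit 94) (nat_lit 0) (nat_lit 84) (XT.lf (nat_lit 84) (nat_lit 2021530674) (nat_lit 0) (nat_lit 449064825) (nat_lit 924) (nat_lit 5054358799) (nat_lit 215) (nat_lit 5) (nat_lit 214) (nat_lit 5) (nat_lit 225) (nat_lit 5) (nat_lit 218) (nat_lit 209) (nat_lit 173)) (XT.lf (nat_lit 0) (nat_lit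 4340125188) (nat_lit 840) (nat_lit 1307214883) (nat_lit 924) (nat_lit 1965837676) (nat_lit 215) (nat_lit 5) (nat_lit 225) (nat_lit 5) (nat_lit 226) (nat_lit 5) (nat_lit 219) (nat_lit 209) (nat_lit 172))))) (XT.nd (nat_lit 282) (nat_lit 1848) (nat_lit 0) (XT.nd (nat_lit 94) (nat_lit 924) (nat_lit 0) (XT.lf (nat_lit 84) (nat_lit 3051409305) (nat_lit 0) (nat_lit 3196014134) (nat_lit 924) (nat_lit 1458033853) (nat_lit 216) (nat_lit 5) (nat_lit 215) (nat_lit 5) (nat_lit 226) (nat_lit 5) (nat_lit 220) (nat_lit 209) (nat_lit 171)) (XT.nd (nat_lit 94) (nat_lit 0) (nat_lit 84) (XT.lf (nat_lit 0) (nat_lit 360711067) (nat_lit 924) (nat_lit 260752729) (nat_lit 1008) (nat_lit 7181098099) (nat_lit 204) (nat_lit 5) (nat_lit 215) (nat_lit 5) (nat_lit 216) (nat_lit 5) (nat_lit 221) (nat_lit 209) (nat_lit 170)) (XT.lf (nat_lit 0) (nat_lit 2217077108) (nat_lit 924) (nat_lit 3607037342) (nat_lit 84) (nat_lit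 2078075840) (nat_lit 205) (nat_lit 5) (nat_lit 216) (nat_lit 5) (nat_lit 206) (nat_lit 5) (nat_lit 222) (nat_lit 209) (nat_lit 169)))) (XT.nd (nat_lit 94) (nat_lit 1008) (nat_lit 0) (XT.lf (nat_lit 0) (nat_lit 976972183) (nat_lit 924) (nat_lit 3120759316) (nat_lit 1008) (nat_lit 3908998138) (nat_lit 194) (nat_lit 5) (nat_lit 205) (nat_lit 5) (nat_lit 206) (nat_lit 5) (nat_lit 223) (nat_lit 209) (nat_lit 168)) (XT.nd (nat_lit 94) (nat_lit 1008) (nat_lit 0) (XT.lf (nat_lit 0) (nat_lit 5759044124) (nat_lit 924) (nat_lit 267423072) (nat_lit 1008) (nat_lit 2089081620) (nat_lit 194) (nat_lit 5) (nat_lit 205) (nat_lit 5) (nat_lit 206) (nat_lit 5) (nat_lit 224) (nat_lit 209) (nat_lit 167)) (XT.lf (nat_lit 0) (nat_lit 2456592373) (nat_lit 1008) (nat_lit 5565270917) (nat_lit 1092) (nat_lit 206342963) (nat_lit 182) (nat_lit 5) (nat_lit 194) (nat_lit 5) (nat_lit 195) (nat_lit 5) (nat_lit 225) (nat_lit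 209) (nat_lit 166))))))))
noncomputable def xc33 : XT := (XT.nd (nat_lit 2162) (nat_lit 3444) (nat_lit 0) (XT.nd (nat_lit 1034) (nat_lit 3780) (nat_lit 0) (XT.nd (nat_lit 470) (nat_lit 1764) (nat_lit 0) (XT.nd (nat_lit 188) (nat_lit 1932) (nat_lit 0) (XT.nd (nat_lit 94) (nat_lit 1092) (nat_lit 0) (XT.lf (nat_lit 0) (nat_lit 1676621368) (nat_lit 1092) (nat_lit 922180442) (nat_lit 84) (nat_lit 5746241215) (nat_lit 181) (nat_lit 5) (nat_lit 194) (nat_lit 5) (nat_lit 182) (nat_lit 5) (nat_lit 226) (nat_lit 209) (nat_lit 165)) (XT.lf (nat_lit 0) (nat_lit 3617228591) (nat_lit 1176) (nat_lit 4332190718) (nat_lit 84) (nat_lit 516586135) (nat_lit 168) (nat_lit 5) (nat_lit 182) (nat_lit 5) (nat_lit 169) (nat_lit 5) (nat_lit 227) (nat_lit 209) (nat_lit 164))) (XT.nd (nat_lit 94) (nat_lit 756) (nat_lit 0) (XT.lf (nat_lit 0) (nat_lit 734685708) (nat_lit 1176) (nat_lit 4886206128) (nat_lit 1260) (nat_lit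 2970479993) (nat_lit 154) (nat_lit 5) (nat_lit 168) (nat_lit 5) (nat_lit 169) (nat_lit 5) (nat_lit 228) (nat_lit 209) (nat_lit 163)) (XT.nd (nat_lit 94) (nat_lit 756) (nat_lit 0) (XT.lf (nat_lit 0) (nat_lit 6033528228) (nat_lit 1176) (nat_lit 1659522275) (nat_lit 1260) (nat_lit 1028132685) (nat_lit 154) (nat_lit 5) (nat_lit 168) (nat_lit 5) (nat_lit 169) (nat_lit 5) (nat_lit 229) (nat_lit 209) (nat_lit 162)) (XT.lf (nat_lit 0) (nat_lit 957257876) (nat_lit 756) (nat_lit 6212339034) (nat_lit 84) (nat_lit 1685651390) (nat_lit 145) (nat_lit 5) (nat_lit 154) (nat_lit 5) (nat_lit 146) (nat_lit 5) (nat_lit 230) (nat_lit 209) (nat_lit 161))))) (XT.nd (nat_lit 282) (nat_lit 588) (nat_lit 0) (XT.nd (nat_lit 94) (nat_lit 1176) (nat_lit 0) (XT.lf (nat_lit 0) (nat_lit 2988897448) (nat_lit 756) (nat_lit 849828420) (nat_lit 84) (nat_lit 5154833751) (nat_lit 145) (nat_lit 5) (nat_lit 154) (nat_lit 5) (nat_lit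 146) (nat_lit 5) (nat_lit 231) (nat_lit 209) (nat_lit 160)) (XT.nd (nat_lit 94) (nat_lit 588) (nat_lit 0) (XT.lf (nat_lit 0) (nat_lit 4759839235) (nat_lit 588) (nat_lit 336213376) (nat_lit 672) (nat_lit 4040504934) (nat_lit 138) (nat_lit 5) (nat_lit 145) (nat_lit 5) (nat_lit 146) (nat_lit 5) (nat_lit 232) (nat_lit 209) (nat_lit 159)) (XT.lf (nat_lit 0) (nat_lit 1243923310) (nat_lit 588) (nat_lit 6046163150) (nat_lit 672) (nat_lit 1994014451) (nat_lit 131) (nat_lit 5) (nat_lit 138) (nat_lit 5) (nat_lit 139) (nat_lit 5) (nat_lit 233) (nat_lit 209) (nat_lit 158)))) (XT.nd (nat_lit 94) (nat_lit 504) (nat_lit 0) (XT.lf (nat_lit 0) (nat_lit 130410829) (nat_lit 672) (nat_lit 2324562010) (nat_lit 84) (nat_lit 6981467803) (nat_lit 130) (nat_lit 5) (nat_lit 138) (nat_lit 5) (nat_lit 131) (nat_lit 5) (nat_lit 234) (nat_lit 209) (nat_lit 157)) (XT.nd (nat_lit 94) (nat_lit 0) (nat_lit 0) (XT.lf (nat_lit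 0) (nat_lit 2291871837) (nat_lit 588) (nat_lit 6006878351) (nat_lit 84) (nat_lit 1294225578) (nat_lit 124) (nat_lit 5) (nat_lit 131) (nat_lit 5) (nat_lit 125) (nat_lit 5) (nat_lit 235) (nat_lit 209) (nat_lit 156)) (XT.lf (nat_lit 0) (nat_lit 4540598615) (nat_lit 588) (nat_lit 72567430) (nat_lit 84) (nat_lit 5141417062) (nat_lit 124) (nat_lit 5) (nat_lit 131) (nat_lit 5) (nat_lit 125) (nat_lit 5) (nat_lit 236) (nat_lit 209) (nat_lit 155)))))) (XT.nd (nat_lit 564) (nat_lit 1764) (nat_lit 0) (XT.nd (nat_lit 282) (nat_lit 924) (nat_lit 0) (XT.nd (nat_lit 94) (nat_lit 588) (nat_lit 0) (XT.lf (nat_lit 0) (nat_lit 6161461631) (nat_lit 504) (nat_lit 732282182) (nat_lit 588) (nat_lit 3027202937) (nat_lit 118) (nat_lit 5) (nat_lit 124) (nat_lit 5) (nat_lit 125) (nat_lit 5) (nat_lit 237) (nat_lit 209) (nat_lit 154)) (XT.nd (nat_lit 94) (nat_lit 84) (nat_lit 0) (XT.lf (nat_lit 0) (nat_lit 2493699427)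 (nat_lit 504) (nat_lit 6858727220) (nat_lit 588) (nat_lit 739895260) (nat_lit 112) (nat_lit 5) (nat_lit 118) (nat_lit 5) (nat_lit 119) (nat_lit 5) (nat_lit 238) (nat_lit 209) (nat_lit 153)) (XT.lf (nat_lit 0) (nat_lit 1602227000) (nat_lit 588) (nat_lit 1288184748) (nat_lit 84) (nat_lit 7378240657) (nat_lit 111) (nat_lit 5) (nat_lit 118) (nat_lit 5) (nat_lit 112) (nat_lit 5) (nat_lit 239) (nat_lit 209) (nat_lit 152)))) (XT.nd (nat_lit 94) (nat_lit 420) (nat_lit 0) (XT.lf (nat_lit 0) (nat_lit 4042109485) (nat_lit 588) (nat_lit 5156837670) (nat_lit 84) (nat_lit 1250748436) (nat_lit 105) (nat_lit 5) (nat_lit 112) (nat_lit 5) (nat_lit 106) (nat_lit 5) (nat_lit 240) (nat_lit 209) (nat_lit 151)) (XT.nd (nat_lit 94) (nat_lit 0) (nat_lit 0) (XT.lf (nat_lit 0) (nat_lit 1449920648) (nat_lit 420) (nat_lit 5142840346) (nat_lit 504) (nat_lit 4043426234) (nat_lit 100) (nat_lit 5) (nat_lit 105) (nat_lit 5)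 (nat_lit 106) (nat_lit 5) (nat_lit 241) (nat_lit 209) (nat_lit 150)) (XT.lf (nat_lit 0) (nat_lit 8364217803) (nat_lit 420) (nat_lit 890632252) (nat_lit 504) (nat_lit 1573580253) (nat_lit 100) (nat_lit 5) (nat_lit 105) (nat_lit 5) (nat_lit 106) (nat_lit 5) (nat_lit 242) (nat_lit 209) (nat_lit 149))))) (XT.nd (nat_lit 282) (nat_lit 840) (nat_lit 0) (XT.nd (nat_lit 94) (nat_lit 420) (nat_lit 0) (XT.lf (nat_lit 0) (nat_lit 1012909758) (nat_lit 504) (nat_lit 6528024269) (nat_lit 84) (nat_lit 3484247777) (nat_lit 94) (nat_lit 5) (nat_lit 100) (nat_lit 5) (nat_lit 95) (nat_lit 5) (nat_lit 243) (nat_lit 209) (nat_lit 148)) (XT.nd (nat_lit 94) (nat_lit 0) (nat_lit 0) (XT.lf (nat_lit 0) (nat_lit 467946781) (nat_lit 420) (nat_lit 3192801811) (nat_lit 504) (nat_lit 7567164614) (nat_lit 89) (nat_lit 5) (nat_lit 94) (nat_lit 5) (nat_lit 95) (nat_lit 5) (nat_lit 244) (nat_lit 209) (nat_lit 147)) (XT.lf (nat_lit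 0) (nat_lit 6457216828) (nat_lit 504) (nat_lit 3633043300) (nat_lit 84) (nat_lit 1345521654) (nat_lit 89) (nat_lit 5) (nat_lit 95) (nat_lit 5) (nat_lit 90) (nat_lit 5) (nat_lit 245) (nat_lit 209) (nat_lit 146)))) (XT.nd (nat_lit 94) (nat_lit 420) (nat_lit 0) (XT.lf (nat_lit 0) (nat_lit 3744970262) (nat_lit 420) (nat_lit 5649842976) (nat_lit 504) (nat_lit 2254598708) (nat_lit 84) (nat_lit 5) (nat_lit 89) (nat_lit 5) (nat_lit 90) (nat_lit 5) (nat_lit 246) (nat_lit 209) (nat_lit 145)) (XT.nd (nat_lit 94) (nat_lit 336) (nat_lit 0) (XT.lf (nat_lit 0) (nat_lit 560252894) (nat_lit 504) (nat_lit 454082352) (nat_lit 84) (nat_lit 10855671419) (nat_lit 83) (nat_lit 5) (nat_lit 89) (nat_lit 5) (nat_lit 84) (nat_lit 5) (nat_lit 247) (nat_lit 209) (nat_lit 144)) (XT.lf (nat_lit 0) (nat_lit 3512083068) (nat_lit 420) (nat_lit 4786397569) (nat_lit 84) (nat_lit 3795733622) (nat_lit 79) (nat_lit 5) (nat_lit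 84) (nat_lit 5) (nat_lit 80) (nat_lit 5) (nat_lit 248) (nat_lit 209) (nat_lit 143))))))) (XT.nd (nat_lit 1128) (nat_lit 588) (nat_lit 0) (XT.nd (nat_lit 564) (nat_lit 1344) (nat_lit 0) (XT.nd (nat_lit 282) (nat_lit 672) (nat_lit 0) (XT.nd (nat_lit 94) (nat_lit 420) (nat_lit 0) (XT.lf (nat_lit 0) (nat_lit 3037653407) (nat_lit 420) (nat_lit 3547227893) (nat_lit 504) (nat_lit 5740769927) (nat_lit 74) (nat_lit 5) (nat_lit 79) (nat_lit 5) (nat_lit 80) (nat_lit 5) (nat_lit 249) (nat_lit 209) (nat_lit 142)) (XT.nd (nat_lit 94) (nat_lit 420) (nat_lit 0) (XT.lf (nat_lit 0) (nat_lit 9804800280) (nat_lit 504) (nat_lit 1374805262) (nat_lit 84) (nat_lit 1384197900) (nat_lit 74) (nat_lit 5) (nat_lit 80) (nat_lit 5) (nat_lit 75) (nat_lit 5) (nat_lit 250) (nat_lit 209) (nat_lit 141)) (XT.lf (nat_lit 0) (nat_lit 406615946) (nat_lit 420) (nat_lit 5925934839) (nat_lit 84) (nat_lit 6474570854) (nat_lit 69) (nat_lit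 5) (nat_lit 74) (nat_lit 5) (nat_lit 70) (nat_lit 5) (nat_lit 251) (nat_lit 209) (nat_lit 140)))) (XT.nd (nat_lit 94) (nat_lit 336) (nat_lit 0) (XT.lf (nat_lit 0) (nat_lit 2377860503) (nat_lit 336) (nat_lit 1251834632) (nat_lit 420) (nat_lit 9427747839) (nat_lit 65) (nat_lit 5) (nat_lit 69) (nat_lit 5) (nat_lit 70) (nat_lit 5) (nat_lit 252) (nat_lit 209) (nat_lit 139)) (XT.nd (nat_lit 94) (nat_lit 336) (nat_lit 0) (XT.lf (nat_lit 0) (nat_lit 7049885662) (nat_lit 420) (nat_lit 2290180100) (nat_lit 84) (nat_lit 3973509171) (nat_lit 65) (nat_lit 5) (nat_lit 70) (nat_lit 5) (nat_lit 66) (nat_lit 5) (nat_lit 253) (nat_lit 209) (nat_lit 138)) (XT.lf (nat_lit 0) (nat_lit 6481675657) (nat_lit 336) (nat_lit 4164743764) (nat_lit 420) (nat_lit 2930269807) (nat_lit 61) (nat_lit 5) (nat_lit 65) (nat_lit 5) (nat_lit 66) (nat_lit 5) (nat_lit 254) (nat_lit 209) (nat_lit 137))))) (XT.nd (nat_lit 282) (nat_lit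 672) (nat_lit 0) (XT.nd (nat_lit 94) (nat_lit 252) (nat_lit 0) (XT.lf (nat_lit 0) (nat_lit 538851485) (nat_lit 420) (nat_lit 12104626796) (nat_lit 84) (nat_lit 1204252873) (nat_lit 56) (nat_lit 5) (nat_lit 61) (nat_lit 5) (nat_lit 57) (nat_lit 5) (nat_lit 255) (nat_lit 209) (nat_lit 136)) (XT.nd (nat_lit 94) (nat_lit 252) (nat_lit 0) (XT.lf (nat_lit 0) (nat_lit 4163879547) (nat_lit 420) (nat_lit 3191459463) (nat_lit 84) (nat_lit 6768123894) (nat_lit 56) (nat_lit 5) (nat_lit 61) (nat_lit 5) (nat_lit 57) (nat_lit 5) (nat_lit 256) (nat_lit 209) (nat_lit 135)) (XT.lf (nat_lit 0) (nat_lit 6129888184) (nat_lit 252) (nat_lit 1825733780) (nat_lit 336) (nat_lit 6451828960) (nat_lit 53) (nat_lit 5) (nat_lit 56) (nat_lit 5) (nat_lit 57) (nat_lit 5) (nat_lit 257) (nat_lit 209) (nat_lit 134)))) (XT.nd (nat_lit 94) (nat_lit 336) (nat_lit 0) (XT.lf (nat_lit 0) (nat_lit 1091850885) (nat_lit 336) (nat_lit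 10853778108) (nat_lit 420) (nat_lit 2753455151) (nat_lit 49) (nat_lit 5) (nat_lit 53) (nat_lit 5) (nat_lit 54) (nat_lit 5) (nat_lit 258) (nat_lit 209) (nat_lit 133)) (XT.nd (nat_lit 94) (nat_lit 252) (nat_lit 0) (XT.lf (nat_lit 0) (nat_lit 1141882537) (nat_lit 420) (nat_lit 4086960777) (nat_lit 84) (nat_lit 9768446400) (nat_lit 48) (nat_lit 5) (nat_lit 53) (nat_lit 5) (nat_lit 49) (nat_lit 5) (nat_lit 259) (nat_lit 209) (nat_lit 132)) (XT.lf (nat_lit 0) (nat_lit 5154373432) (nat_lit 336) (nat_lit 9486003384) (nat_lit 84) (nat_lit 662854106) (nat_lit 45) (nat_lit 5) (nat_lit 49) (nat_lit 5) (nat_lit 46) (nat_lit 5) (nat_lit 260) (nat_lit 209) (nat_lit 131)))))) (XT.nd (nat_lit 33182) (nat_lit 0) (nat_lit 14700) (XT.nd (nat_lit 32900) (nat_lit 0) (nat_lit 15456) (XT.nd (nat_lit 94) (nat_lit 336) (nat_lit 0) (XT.lf (nat_lit 0) (nat_lit 455390546) (nat_lit 252) (nat_lit 8939328397) (nat_lit 336)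 (nat_lit 6222101519) (nat_lit 42) (nat_lit 5) (nat_lit 45) (nat_lit 5) (nat_lit 46) (nat_lit 5) (nat_lit 261) (nat_lit 209) (nat_lit 130)) (XT.nd (nat_lit 94) (nat_lit 336) (nat_lit 0) (XT.lf (nat_lit 0) (nat_lit 10930907179) (nat_lit 252) (nat_lit 2938204469) (nat_lit 336) (nat_lit 2069276759) (nat_lit 42) (nat_lit 5) (nat_lit 45) (nat_lit 5) (nat_lit 46) (nat_lit 5) (nat_lit 262) (nat_lit 209) (nat_lit 129)) (XT.lf (nat_lit 0) (nat_lit 2251935069) (nat_lit 336) (nat_lit 10744026373) (nat_lit 84) (nat_lit 3271805386) (nat_lit 38) (nat_lit 5) (nat_lit 42) (nat_lit 5) (nat_lit 39) (nat_lit 5) (nat_lit 263) (nat_lit 209) (nat_lit 128)))) (XT.nd (nat_lit 94) (nat_lit 756) (nat_lit 0) (XT.lf (nat_lit 0) (nat_lit 1844959093) (nat_lit 756) (nat_lit 830948799) (nat_lit 756) (nat_lit 830948799) (nat_lit 231) (nat_lit 3) (nat_lit 240) (nat_lit 3) (nat_lit 240) (nat_lit 5) (nat_lit 210) (nat_lit 210)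 (nat_lit 180)) (XT.nd (nat_lit 94) (nat_lit 756) (nat_lit 0) (XT.lf (nat_lit 84) (nat_lit 1887762745) (nat_lit 0) (nat_lit 3682641752) (nat_lit 756) (nat_lit 1502491923) (nat_lit 232) (nat_lit 5) (nat_lit 231) (nat_lit 3) (nat_lit 240) (nat_lit 5) (nat_lit 211) (nat_lit 210) (nat_lit 179)) (XT.lf (nat_lit 0) (nat_lit 310899179) (nat_lit 756) (nat_lit 1581406606) (nat_lit 840) (nat_lit 5243900318) (nat_lit 222) (nat_lit 5) (nat_lit 231) (nat_lit 3) (nat_lit 232) (nat_lit 5) (nat_lit 212) (nat_lit 210) (nat_lit 178))))) (XT.nd (nat_lit 282) (nat_lit 840) (nat_lit 0) (XT.nd (nat_lit 94) (nat_lit 0) (nat_lit 0) (XT.lf (nat_lit 0) (nat_lit 2096723284) (nat_lit 756) (nat_lit 5067476720) (nat_lit 840) (nat_lit 38877316) (nat_lit 223) (nat_lit 5) (nat_lit 232) (nat_lit 5) (nat_lit 233) (nat_lit 5) (nat_lit 213) (nat_lit 210) (nat_lit 177)) (XT.nd (nat_lit 94) (nat_lit 0) (nat_lit 0) (XT.lf (nat_lit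 0) (nat_lit 3908344347) (nat_lit 756) (nat_lit 1319109787) (nat_lit 840) (nat_lit 2046119638) (nat_lit 223) (nat_lit 5) (nat_lit 232) (nat_lit 5) (nat_lit 233) (nat_lit 5) (nat_lit 214) (nat_lit 210) (nat_lit 176)) (XT.lf (nat_lit 84) (nat_lit 2574266286) (nat_lit 0) (nat_lit 3163001797) (nat_lit 840) (nat_lit 1610883157) (nat_lit 224) (nat_lit 5) (nat_lit 223) (nat_lit 5) (nat_lit 233) (nat_lit 5) (nat_lit 215) (nat_lit 210) (nat_lit 175)))) (XT.nd (nat_lit 94) (nat_lit 0) (nat_lit 84) (XT.lf (nat_lit 0) (nat_lit 142377019) (nat_lit 840) (nat_lit 837423493) (nat_lit 924) (nat_lit 6447483023) (nat_lit 213) (nat_lit 5) (nat_lit 223) (nat_lit 5) (nat_lit 224) (nat_lit 5) (nat_lit 216) (nat_lit 210) (nat_lit 174)) (XT.nd (nat_lit 94) (nat_lit 0) (nat_lit 0) (XT.lf (nat_lit 0) (nat_lit 1899475245) (nat_lit 840) (nat_lit 4277277950) (nat_lit 924) (nat_lit 1332472345) (nat_lit 214) (nat_lit 5) (nat_lit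 224) (nat_lit 5) (nat_lit 225) (nat_lit 5) (nat_lit 217) (nat_lit 210) (nat_lit 173)) (XT.lf (nat_lit 0) (nat_lit 3670468528) (nat_lit 840) (nat_lit 187654394) (nat_lit 924) (nat_lit 3737578711) (nat_lit 214) (nat_lit 5) (nat_lit 224) (nat_lit 5) (nat_lit 225) (nat_lit 5) (nat_lit 218) (nat_lit 210) (nat_lit 172))))))))
noncomputable def xc34 : XT := (XT.nd (nat_lit 2162) (nat_lit 5292) (nat_lit 0) (XT.nd (nat_lit 1034) (nat_lit 4116) (nat_lit 0) (XT.nd (nat_lit 470) (nat_lit 4200) (nat_lit 0) (XT.nd (nat_lit 188) (nat_lit 840) (nat_lit 0) (XT.nd (nat_lit 94) (nat_lit 0) (nat_lit 84) (XT.lf (nat_lit 84) (nat_lit 4093076082) (nat_lit 0) (nat_lit 1389408201) (nat_lit 924) (nat_lit 2203453788) (nat_lit 215) (nat_lit 5) (nat_lit 214) (nat_lit 5) (nat_lit 225) (nat_lit 5) (nat_lit 219) (nat_lit 210) (nat_lit 171)) (XT.lf (nat_lit 84) (nat_lit 705032003) (nat_lit 0) (nat_lit 6611389967) (nat_lit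 924) (nat_lit 464363264) (nat_lit 216) (nat_lit 5) (nat_lit 215) (nat_lit 5) (nat_lit 226) (nat_lit 5) (nat_lit 220) (nat_lit 210) (nat_lit 170))) (XT.nd (nat_lit 94) (nat_lit 0) (nat_lit 0) (XT.lf (nat_lit 0) (nat_lit 1300578234) (nat_lit 924) (nat_lit 2717001607) (nat_lit 1008) (nat_lit 3861017033) (nat_lit 204) (nat_lit 5) (nat_lit 215) (nat_lit 5) (nat_lit 216) (nat_lit 5) (nat_lit 221) (nat_lit 210) (nat_lit 169)) (XT.nd (nat_lit 94) (nat_lit 0) (nat_lit 84) (XT.lf (nat_lit 84) (nat_lit 1783234505) (nat_lit 0) (nat_lit 1291541836) (nat_lit 1008) (nat_lit 4906324806) (nat_lit 205) (nat_lit 5) (nat_lit 204) (nat_lit 5) (nat_lit 216) (nat_lit 5) (nat_lit 222) (nat_lit 210) (nat_lit 168)) (XT.lf (nat_lit 0) (nat_lit 4900789698) (nat_lit 924) (nat_lit 1645147188) (nat_lit 84) (nat_lit 1541616043) (nat_lit 205) (nat_lit 5) (nat_lit 216) (nat_lit 5) (nat_lit 206) (nat_lit 5) (nat_lit 223) (nat_lit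 210) (nat_lit 167))))) (XT.nd (nat_lit 282) (nat_lit 2268) (nat_lit 0) (XT.nd (nat_lit 94) (nat_lit 1092) (nat_lit 0) (XT.lf (nat_lit 0) (nat_lit 3075496553) (nat_lit 924) (nat_lit 3706642027) (nat_lit 1008) (nat_lit 1415892066) (nat_lit 194) (nat_lit 5) (nat_lit 205) (nat_lit 5) (nat_lit 206) (nat_lit 5) (nat_lit 224) (nat_lit 210) (nat_lit 166)) (XT.nd (nat_lit 94) (nat_lit 1008) (nat_lit 0) (XT.lf (nat_lit 0) (nat_lit 370198282) (nat_lit 1008) (nat_lit 362753708) (nat_lit 84) (nat_lit 7580566239) (nat_lit 193) (nat_lit 5) (nat_lit 205) (nat_lit 5) (nat_lit 194) (nat_lit 5) (nat_lit 225) (nat_lit 210) (nat_lit 165)) (XT.lf (nat_lit 0) (nat_lit 2208892997) (nat_lit 1092) (nat_lit 3853347776) (nat_lit 84) (nat_lit 2369419441) (nat_lit 181) (nat_lit 5) (nat_lit 194) (nat_lit 5) (nat_lit 182) (nat_lit 5) (nat_lit 226) (nat_lit 210) (nat_lit 164)))) (XT.nd (nat_lit 94) (nat_lit 1176) (nat_lit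 0) (XT.lf (nat_lit 0) (nat_lit 1117147192) (nat_lit 1092) (nat_lit 2966463764) (nat_lit 1176) (nat_lit 4471317801) (nat_lit 168) (nat_lit 5) (nat_lit 181) (nat_lit 5) (nat_lit 182) (nat_lit 5) (nat_lit 227) (nat_lit 210) (nat_lit 163)) (XT.nd (nat_lit 94) (nat_lit 1176) (nat_lit 0) (XT.lf (nat_lit 0) (nat_lit 6020383939) (nat_lit 1176) (nat_lit 2378235873) (nat_lit 84) (nat_lit 284016490) (nat_lit 168) (nat_lit 5) (nat_lit 182) (nat_lit 5) (nat_lit 169) (nat_lit 5) (nat_lit 228) (nat_lit 210) (nat_lit 162)) (XT.lf (nat_lit 0) (nat_lit 2841976226) (nat_lit 1176) (nat_lit 5198407547) (nat_lit 1260) (nat_lit 773889445) (nat_lit 154) (nat_lit 5) (nat_lit 168) (nat_lit 5) (nat_lit 169) (nat_lit 5) (nat_lit 229) (nat_lit 210) (nat_lit 161)))))) (XT.nd (nat_lit 564) (nat_lit 2100) (nat_lit 0) (XT.nd (nat_lit 282) (nat_lit 672) (nat_lit 0) (XT.nd (nat_lit 94) (nat_lit 1260) (nat_lit 0) (XT.lf (nat_lit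 0) (nat_lit 1132371994) (nat_lit 1260) (nat_lit 708281799) (nat_lit 84) (nat_lit 7110153143) (nat_lit 153) (nat_lit 5) (nat_lit 168) (nat_lit 5) (nat_lit 154) (nat_lit 5) (nat_lit 230) (nat_lit 210) (nat_lit 160)) (XT.nd (nat_lit 94) (nat_lit 588) (nat_lit 0) (XT.lf (nat_lit 0) (nat_lit 3111439578) (nat_lit 756) (nat_lit 4316502812) (nat_lit 84) (nat_lit 1663015883) (nat_lit 145) (nat_lit 5) (nat_lit 154) (nat_lit 5) (nat_lit 146) (nat_lit 5) (nat_lit 231) (nat_lit 210) (nat_lit 159)) (XT.lf (nat_lit 0) (nat_lit 1189196673) (nat_lit 588) (nat_lit 3966526330) (nat_lit 672) (nat_lit 4080433707) (nat_lit 138) (nat_lit 5) (nat_lit 145) (nat_lit 5) (nat_lit 146) (nat_lit 5) (nat_lit 232) (nat_lit 210) (nat_lit 158)))) (XT.nd (nat_lit 94) (nat_lit 672) (nat_lit 0) (XT.lf (nat_lit 0) (nat_lit 6944960619) (nat_lit 588) (nat_lit 331619867) (nat_lit 672) (nat_lit 2109680763) (nat_lit 138) (nat_lit 5)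 (nat_lit 145) (nat_lit 5) (nat_lit 146) (nat_lit 5) (nat_lit 233) (nat_lit 210) (nat_lit 157)) (XT.nd (nat_lit 94) (nat_lit 84) (nat_lit 0) (XT.lf (nat_lit 0) (nat_lit 3352071797) (nat_lit 588) (nat_lit 6150807964) (nat_lit 672) (nat_lit 37647273) (nat_lit 131) (nat_lit 5) (nat_lit 138) (nat_lit 5) (nat_lit 139) (nat_lit 5) (nat_lit 234) (nat_lit 210) (nat_lit 156)) (XT.lf (nat_lit 0) (nat_lit 2048227408) (nat_lit 672) (nat_lit 366740205) (nat_lit 84) (nat_lit 7284784624) (nat_lit 130) (nat_lit 5) (nat_lit 138) (nat_lit 5) (nat_lit 131) (nat_lit 5) (nat_lit 235) (nat_lit 210) (nat_lit 155))))) (XT.nd (nat_lit 282) (nat_lit 1092) (nat_lit 0) (XT.nd (nat_lit 94) (nat_lit 504) (nat_lit 0) (XT.lf (nat_lit 0) (nat_lit 4244716742) (nat_lit 588) (nat_lit 4137314808) (nat_lit 84) (nat_lit 1481156339) (nat_lit 124) (nat_lit 5) (nat_lit 131) (nat_lit 5) (nat_lit 125) (nat_lit 5) (nat_lit 236) (nat_lit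 210) (nat_lit 154)) (XT.nd (nat_lit 94) (nat_lit 0) (nat_lit 0) (XT.lf (nat_lit 0) (nat_lit 1979243357) (nat_lit 504) (nat_lit 4551632994) (nat_lit 588) (nat_lit 3501019676) (nat_lit 118) (nat_lit 5) (nat_lit 124) (nat_lit 5) (nat_lit 125) (nat_lit 5) (nat_lit 237) (nat_lit 210) (nat_lit 153)) (XT.lf (nat_lit 0) (nat_lit 8363676229) (nat_lit 504) (nat_lit 541602779) (nat_lit 588) (nat_lit 1300941982) (nat_lit 118) (nat_lit 5) (nat_lit 124) (nat_lit 5) (nat_lit 125) (nat_lit 5) (nat_lit 238) (nat_lit 210) (nat_lit 152)))) (XT.nd (nat_lit 94) (nat_lit 504) (nat_lit 0) (XT.lf (nat_lit 0) (nat_lit 1006840696) (nat_lit 588) (nat_lit 5792533727) (nat_lit 84) (nat_lit 3585042992) (nat_lit 111) (nat_lit 5) (nat_lit 118) (nat_lit 5) (nat_lit 112) (nat_lit 5) (nat_lit 239) (nat_lit 210) (nat_lit 151)) (XT.nd (nat_lit 94) (nat_lit 0) (nat_lit 0) (XT.lf (nat_lit 0) (nat_lit 675779099) (nat_lit 504) (nat_lit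 2685967093) (nat_lit 588) (nat_lit 7206688603) (nat_lit 105) (nat_lit 5) (nat_lit 111) (nat_lit 5) (nat_lit 112) (nat_lit 5) (nat_lit 240) (nat_lit 210) (nat_lit 150)) (XT.lf (nat_lit 0) (nat_lit 5847565772) (nat_lit 588) (nat_lit 3311670314) (nat_lit 84) (nat_lit 1597959465) (nat_lit 105) (nat_lit 5) (nat_lit 112) (nat_lit 5) (nat_lit 106) (nat_lit 5) (nat_lit 241) (nat_lit 210) (nat_lit 149))))))) (XT.nd (nat_lit 1128) (nat_lit 1932) (nat_lit 0) (XT.nd (nat_lit 564) (nat_lit 1596) (nat_lit 0) (XT.nd (nat_lit 282) (nat_lit 840) (nat_lit 0) (XT.nd (nat_lit 94) (nat_lit 504) (nat_lit 0) (XT.lf (nat_lit 0) (nat_lit 3503230739) (nat_lit 420) (nat_lit 4950302263) (nat_lit 504) (nat_lit 2497869892) (nat_lit 100) (nat_lit 5) (nat_lit 105) (nat_lit 5) (nat_lit 106) (nat_lit 5) (nat_lit 242) (nat_lit 210) (nat_lit 148)) (XT.nd (nat_lit 94) (nat_lit 420) (nat_lit 0) (XT.lf (nat_lit 0) (nat_lit 1338750)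 (nat_lit 504) (nat_lit 560510224) (nat_lit 84) (nat_lit 10590454229) (nat_lit 99) (nat_lit 5) (nat_lit 105) (nat_lit 5) (nat_lit 100) (nat_lit 5) (nat_lit 243) (nat_lit 210) (nat_lit 147)) (XT.lf (nat_lit 0) (nat_lit 2613602908) (nat_lit 504) (nat_lit 4756877704) (nat_lit 84) (nat_lit 3985799108) (nat_lit 94) (nat_lit 5) (nat_lit 100) (nat_lit 5) (nat_lit 95) (nat_lit 5) (nat_lit 244) (nat_lit 210) (nat_lit 146)))) (XT.nd (nat_lit 94) (nat_lit 420) (nat_lit 0) (XT.lf (nat_lit 0) (nat_lit 2461155278) (nat_lit 420) (nat_lit 2862056099) (nat_lit 504) (nat_lit 6243977012) (nat_lit 89) (nat_lit 5) (nat_lit 94) (nat_lit 5) (nat_lit 95) (nat_lit 5) (nat_lit 245) (nat_lit 210) (nat_lit 145)) (XT.nd (nat_lit 94) (nat_lit 420) (nat_lit 0) (XT.lf (nat_lit 0) (nat_lit 8170433829) (nat_lit 504) (nat_lit 1803096620) (nat_lit 84) (nat_lit 1810451192) (nat_lit 89) (nat_lit 5) (nat_lit 95) (nat_lit 5) (nat_lit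 90) (nat_lit 5) (nat_lit 246) (nat_lit 210) (nat_lit 144)) (XT.lf (nat_lit 0) (nat_lit 5810835166) (nat_lit 420) (nat_lit 5371276403) (nat_lit 504) (nat_lit 823983000) (nat_lit 84) (nat_lit 5) (nat_lit 89) (nat_lit 5) (nat_lit 90) (nat_lit 5) (nat_lit 247) (nat_lit 210) (nat_lit 143))))) (XT.nd (nat_lit 282) (nat_lit 756) (nat_lit 0) (XT.nd (nat_lit 94) (nat_lit 420) (nat_lit 0) (XT.lf (nat_lit 0) (nat_lit 1465691461) (nat_lit 336) (nat_lit 555911132) (nat_lit 420) (nat_lit 10213393376) (nat_lit 79) (nat_lit 5) (nat_lit 83) (nat_lit 5) (nat_lit 84) (nat_lit 5) (nat_lit 248) (nat_lit 210) (nat_lit 142)) (XT.nd (nat_lit 94) (nat_lit 420) (nat_lit 0) (XT.lf (nat_lit 0) (nat_lit 5038546127) (nat_lit 420) (nat_lit 3029618536) (nat_lit 84) (nat_lit 4400223189) (nat_lit 79) (nat_lit 5) (nat_lit 84) (nat_lit 5) (nat_lit 80) (nat_lit 5) (nat_lit 249) (nat_lit 210) (nat_lit 141)) (XT.lf (nat_lit 0)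 (nat_lit 5046335916) (nat_lit 420) (nat_lit 3146290103) (nat_lit 504) (nat_lit 4516218416) (nat_lit 74) (nat_lit 5) (nat_lit 79) (nat_lit 5) (nat_lit 80) (nat_lit 5) (nat_lit 250) (nat_lit 210) (nat_lit 140)))) (XT.nd (nat_lit 94) (nat_lit 420) (nat_lit 0) (XT.lf (nat_lit 0) (nat_lit 466611792) (nat_lit 336) (nat_lit 11022907743) (nat_lit 420) (nat_lit 1467062734) (nat_lit 70) (nat_lit 5) (nat_lit 74) (nat_lit 5) (nat_lit 75) (nat_lit 5) (nat_lit 251) (nat_lit 210) (nat_lit 139)) (XT.nd (nat_lit 94) (nat_lit 336) (nat_lit 0) (XT.lf (nat_lit 0) (nat_lit 1747834474) (nat_lit 420) (nat_lit 4245022186) (nat_lit 84) (nat_lit 7216069693) (nat_lit 69) (nat_lit 5) (nat_lit 74) (nat_lit 5) (nat_lit 70) (nat_lit 5) (nat_lit 252) (nat_lit 210) (nat_lit 138)) (XT.lf (nat_lit 0) (nat_lit 4327877911) (nat_lit 336) (nat_lit 731769648) (nat_lit 420) (nat_lit 8409203961) (nat_lit 65) (nat_lit 5) (nat_lit 69)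 (nat_lit 5) (nat_lit 70) (nat_lit 5) (nat_lit 253) (nat_lit 210) (nat_lit 137)))))) (XT.nd (nat_lit 564) (nat_lit 588) (nat_lit 0) (XT.nd (nat_lit 282) (nat_lit 588) (nat_lit 0) (XT.nd (nat_lit 94) (nat_lit 756) (nat_lit 0) (XT.lf (nat_lit 0) (nat_lit 8561555255) (nat_lit 420) (nat_lit 528682856) (nat_lit 84) (nat_lit 4645039618) (nat_lit 65) (nat_lit 5) (nat_lit 70) (nat_lit 5) (nat_lit 66) (nat_lit 5) (nat_lit 254) (nat_lit 210) (nat_lit 136)) (XT.nd (nat_lit 94) (nat_lit 420) (nat_lit 0) (XT.lf (nat_lit 0) (nat_lit 8529191802) (nat_lit 336) (nat_lit 3732286738) (nat_lit 420) (nat_lit 1746909606) (nat_lit 61) (nat_lit 5) (nat_lit 65) (nat_lit 5) (nat_lit 66) (nat_lit 5) (nat_lit 255) (nat_lit 210) (nat_lit 135)) (XT.lf (nat_lit 0) (nat_lit 1798969764) (nat_lit 420) (nat_lit 10662970070) (nat_lit 84) (nat_lit 1827017865) (nat_lit 56) (nat_lit 5) (nat_lit 61) (nat_lit 5) (nat_lit 57) (nat_lit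 5) (nat_lit 256) (nat_lit 210) (nat_lit 134)))) (XT.nd (nat_lit 94) (nat_lit 588) (nat_lit 0) (XT.lf (nat_lit 0) (nat_lit 5508898885) (nat_lit 420) (nat_lit 1500920289) (nat_lit 84) (nat_lit 7565990009) (nat_lit 56) (nat_lit 5) (nat_lit 61) (nat_lit 5) (nat_lit 57) (nat_lit 5) (nat_lit 257) (nat_lit 210) (nat_lit 133)) (XT.nd (nat_lit 94) (nat_lit 336) (nat_lit 0) (XT.lf (nat_lit 0) (nat_lit 8126127813) (nat_lit 252) (nat_lit 1286520886) (nat_lit 336) (nat_lit 5457812707) (nat_lit 53) (nat_lit 5) (nat_lit 56) (nat_lit 5) (nat_lit 57) (nat_lit 5) (nat_lit 258) (nat_lit 210) (nat_lit 132)) (XT.lf (nat_lit 0) (nat_lit 2925583391) (nat_lit 336) (nat_lit 10603365888) (nat_lit 420) (nat_lit 1643819997) (nat_lit 49) (nat_lit 5) (nat_lit 53) (nat_lit 5) (nat_lit 54) (nat_lit 5) (nat_lit 259) (nat_lit 210) (nat_lit 131))))) (XT.nd (nat_lit 282) (nat_lit 0) (nat_lit 0) (XT.nd (nat_lit 94) (nat_lit 504)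 (nat_lit 0) (XT.lf (nat_lit 0) (nat_lit 2320651103) (nat_lit 420) (nat_lit 2468784077) (nat_lit 84) (nat_lit 10692901580) (nat_lit 48) (nat_lit 5) (nat_lit 53) (nat_lit 5) (nat_lit 49) (nat_lit 5) (nat_lit 260) (nat_lit 210) (nat_lit 130)) (XT.nd (nat_lit 94) (nat_lit 252) (nat_lit 0) (XT.lf (nat_lit 0) (nat_lit 6461393276) (nat_lit 336) (nat_lit 8044607272) (nat_lit 84) (nat_lit 1293411869) (nat_lit 45) (nat_lit 5) (nat_lit 49) (nat_lit 5) (nat_lit 46) (nat_lit 5) (nat_lit 261) (nat_lit 210) (nat_lit 129)) (XT.lf (nat_lit 0) (nat_lit 2224517458) (nat_lit 252) (nat_lit 8607069555) (nat_lit 336) (nat_lit 5293040312) (nat_lit 42) (nat_lit 5) (nat_lit 45) (nat_lit 5) (nat_lit 46) (nat_lit 5) (nat_lit 262) (nat_lit 210) (nat_lit 128)))) (XT.nd (nat_lit 32806) (nat_lit 0) (nat_lit 15120) (XT.lf (nat_lit 0) (nat_lit 13007390615) (nat_lit 252) (nat_lit 2417722461) (nat_lit 336) (nat_lit 1033648537)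 (nat_lit 42) (nat_lit 5) (nat_lit 45) (nat_lit 5) (nat_lit 46) (nat_lit 5) (nat_lit 263) (nat_lit 210) (nat_lit 127)) (XT.nd (nat_lit 94) (nat_lit 0) (nat_lit 0) (XT.lf (nat_lit 0) (nat_lit 57801915) (nat_lit 0) (nat_lit 57801915) (nat_lit 756) (nat_lit 3451780295) (nat_lit 222) (nat_lit 5) (nat_lit 222) (nat_lit 3) (nat_lit 231) (nat_lit 3) (nat_lit 211) (nat_lit 211) (nat_lit 178)) (XT.lf (nat_lit 0) (nat_lit 1969921440) (nat_lit 756) (nat_lit 3452265323) (nat_lit 840) (nat_lit 1776726564) (nat_lit 222) (nat_lit 5) (nat_lit 231) (nat_lit 3) (nat_lit 232) (nat_lit 5) (nat_lit 212) (nat_lit 211) (nat_lit 177))))))))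
noncomputable def xc35 : XT := (XT.nd (nat_lit 2162) (nat_lit 6468) (nat_lit 0) (XT.nd (nat_lit 1034) (nat_lit 6132) (nat_lit 0) (XT.nd (nat_lit 470) (nat_lit 840) (nat_lit 0) (XT.nd (nat_lit 188) (nat_lit 756) (nat_lit 0) (XT.nd (nat_lit 94) (nat_lit 0) (nat_lit 0) (XT.lf (nat_lit 84) (nat_lit 200664723) (nat_lit 0) (nat_lit 3495081511) (nat_lit 840) (nat_lit 3572138287) (nat_lit 223) (nat_lit 5) (nat_lit 222) (nat_lit 5) (nat_lit 232) (nat_lit 5) (nat_lit 213) (nat_lit 211) (nat_lit 176)) (XT.lf (nat_lit 84) (nat_lit 4022796132) (nat_lit 0) (nat_lit 1424752922) (nat_lit 840) (nat_lit 1892925556) (nat_lit 223) (nat_lit 5) (nat_lit 222) (nat_lit 5) (nat_lit 232) (nat_lit 5) (nat_lit 214) (nat_lit 211) (nat_lit 175))) (XT.nd (nat_lit 94) (nat_lit 840) (nat_lit 0) (XT.lf (nat_lit 84) (nat_lit 523929336) (nat_lit 0) (nat_lit 6678315916) (nat_lit 840) (nat_lit 215404791) (nat_lit 224) (nat_lit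 5) (nat_lit 223) (nat_lit 5) (nat_lit 233) (nat_lit 5) (nat_lit 215) (nat_lit 211) (nat_lit 174)) (XT.nd (nat_lit 94) (nat_lit 0) (nat_lit 0) (XT.lf (nat_lit 0) (nat_lit 1471275774) (nat_lit 840) (nat_lit 2994530457) (nat_lit 924) (nat_lit 3031654740) (nat_lit 213) (nat_lit 5) (nat_lit 223) (nat_lit 5) (nat_lit 224) (nat_lit 5) (nat_lit 216) (nat_lit 211) (nat_lit 173)) (XT.lf (nat_lit 84) (nat_lit 1019042853) (nat_lit 0) (nat_lit 2135551726) (nat_lit 924) (nat_lit 4427390677) (nat_lit 214) (nat_lit 5) (nat_lit 213) (nat_lit 5) (nat_lit 224) (nat_lit 5) (nat_lit 217) (nat_lit 211) (nat_lit 172))))) (XT.nd (nat_lit 282) (nat_lit 0) (nat_lit 84) (XT.nd (nat_lit 94) (nat_lit 924) (nat_lit 0) (XT.lf (nat_lit 0) (nat_lit 4869081697) (nat_lit 840) (nat_lit 2471557349) (nat_lit 924) (nat_lit 329800020) (nat_lit 214) (nat_lit 5) (nat_lit 224) (nat_lit 5) (nat_lit 225) (nat_lit 5) (nat_lit 218) (nat_lit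 211) (nat_lit 171)) (XT.nd (nat_lit 94) (nat_lit 924) (nat_lit 0) (XT.lf (nat_lit 84) (nat_lit 1734403888) (nat_lit 0) (nat_lit 4888807542) (nat_lit 924) (nat_lit 1139490083) (nat_lit 215) (nat_lit 5) (nat_lit 214) (nat_lit 5) (nat_lit 225) (nat_lit 5) (nat_lit 219) (nat_lit 211) (nat_lit 170)) (XT.lf (nat_lit 0) (nat_lit 533537841) (nat_lit 924) (nat_lit 1761352438) (nat_lit 1008) (nat_lit 5564260917) (nat_lit 203) (nat_lit 5) (nat_lit 214) (nat_lit 5) (nat_lit 215) (nat_lit 5) (nat_lit 220) (nat_lit 211) (nat_lit 169)))) (XT.nd (nat_lit 94) (nat_lit 0) (nat_lit 0) (XT.lf (nat_lit 0) (nat_lit 2211852960) (nat_lit 924) (nat_lit 5305369470) (nat_lit 1008) (nat_lit 442222720) (nat_lit 204) (nat_lit 5) (nat_lit 215) (nat_lit 5) (nat_lit 216) (nat_lit 5) (nat_lit 221) (nat_lit 211) (nat_lit 168)) (XT.nd (nat_lit 94) (nat_lit 0) (nat_lit 0) (XT.lf (nat_lit 0) (nat_lit 3936988638) (nat_lit 924)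 (nat_lit 867478276) (nat_lit 1008) (nat_lit 3259199695) (nat_lit 204) (nat_lit 5) (nat_lit 215) (nat_lit 5) (nat_lit 216) (nat_lit 5) (nat_lit 222) (nat_lit 211) (nat_lit 167)) (XT.lf (nat_lit 84) (nat_lit 3768096183) (nat_lit 0) (nat_lit 1938993061) (nat_lit 1008) (nat_lit 2464986093) (nat_lit 205) (nat_lit 5) (nat_lit 204) (nat_lit 5) (nat_lit 216) (nat_lit 5) (nat_lit 223) (nat_lit 211) (nat_lit 166)))))) (XT.nd (nat_lit 564) (nat_lit 3192) (nat_lit 0) (XT.nd (nat_lit 282) (nat_lit 1092) (nat_lit 0) (XT.nd (nat_lit 94) (nat_lit 1092) (nat_lit 0) (XT.lf (nat_lit 0) (nat_lit 252290902) (nat_lit 924) (nat_lit 7255673635) (nat_lit 1008) (nat_lit 777405094) (nat_lit 194) (nat_lit 5) (nat_lit 205) (nat_lit 5) (nat_lit 206) (nat_lit 5) (nat_lit 224) (nat_lit 211) (nat_lit 165)) (XT.nd (nat_lit 94) (nat_lit 1008) (nat_lit 0) (XT.lf (nat_lit 0) (nat_lit 967172396) (nat_lit 1008) (nat_lit 3302753385)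 (nat_lit 84) (nat_lit 4131628682) (nat_lit 193) (nat_lit 5) (nat_lit 205) (nat_lit 5) (nat_lit 194) (nat_lit 5) (nat_lit 225) (nat_lit 211) (nat_lit 164)) (XT.lf (nat_lit 0) (nat_lit 1575975964) (nat_lit 1008) (nat_lit 1142992842) (nat_lit 1092) (nat_lit 5803769084) (nat_lit 181) (nat_lit 5) (nat_lit 193) (nat_lit 5) (nat_lit 194) (nat_lit 5) (nat_lit 226) (nat_lit 211) (nat_lit 163)))) (XT.nd (nat_lit 94) (nat_lit 1092) (nat_lit 0) (XT.lf (nat_lit 0) (nat_lit 4543074221) (nat_lit 1092) (nat_lit 2011139153) (nat_lit 84) (nat_lit 2093564498) (nat_lit 181) (nat_lit 5) (nat_lit 194) (nat_lit 5) (nat_lit 182) (nat_lit 5) (nat_lit 227) (nat_lit 211) (nat_lit 162)) (XT.nd (nat_lit 94) (nat_lit 0) (nat_lit 0) (XT.lf (nat_lit 0) (nat_lit 3110783186) (nat_lit 1092) (nat_lit 3318082581) (nat_lit 1176) (nat_lit 2348404002) (nat_lit 168) (nat_lit 5) (nat_lit 181) (nat_lit 5) (nat_lit 182) (nat_lit 5)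 (nat_lit 228) (nat_lit 211) (nat_lit 161)) (XT.lf (nat_lit 0) (nat_lit 8356283353) (nat_lit 1176) (nat_lit 495891250) (nat_lit 84) (nat_lit 59972461) (nat_lit 168) (nat_lit 5) (nat_lit 182) (nat_lit 5) (nat_lit 169) (nat_lit 5) (nat_lit 229) (nat_lit 211) (nat_lit 160))))) (XT.nd (nat_lit 282) (nat_lit 1260) (nat_lit 0) (XT.nd (nat_lit 94) (nat_lit 672) (nat_lit 0) (XT.lf (nat_lit 0) (nat_lit 1316085707) (nat_lit 1260) (nat_lit 4180533686) (nat_lit 84) (nat_lit 3553004258) (nat_lit 153) (nat_lit 5) (nat_lit 168) (nat_lit 5) (nat_lit 154) (nat_lit 5) (nat_lit 230) (nat_lit 211) (nat_lit 159)) (XT.nd (nat_lit 94) (nat_lit 0) (nat_lit 0) (XT.lf (nat_lit 0) (nat_lit 1219081342) (nat_lit 672) (nat_lit 1994429316) (nat_lit 756) (nat_lit 5979121823) (nat_lit 145) (nat_lit 5) (nat_lit 153) (nat_lit 5) (nat_lit 154) (nat_lit 5) (nat_lit 231) (nat_lit 211) (nat_lit 158)) (XT.lf (nat_lit 0) (nat_lit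 5200015266) (nat_lit 756) (nat_lit 2494822037) (nat_lit 84) (nat_lit 1645015874) (nat_lit 145) (nat_lit 5) (nat_lit 154) (nat_lit 5) (nat_lit 146) (nat_lit 5) (nat_lit 232) (nat_lit 211) (nat_lit 157)))) (XT.nd (nat_lit 94) (nat_lit 672) (nat_lit 0) (XT.lf (nat_lit 0) (nat_lit 3181086200) (nat_lit 588) (nat_lit 4089547045) (nat_lit 672) (nat_lit 2221082853) (nat_lit 138) (nat_lit 5) (nat_lit 145) (nat_lit 5) (nat_lit 146) (nat_lit 5) (nat_lit 233) (nat_lit 211) (nat_lit 156)) (XT.nd (nat_lit 94) (nat_lit 672) (nat_lit 0) (XT.lf (nat_lit 0) (nat_lit 9072350804) (nat_lit 588) (nat_lit 327953416) (nat_lit 672) (nat_lit 249059654) (nat_lit 138) (nat_lit 5) (nat_lit 145) (nat_lit 5) (nat_lit 146) (nat_lit 5) (nat_lit 234) (nat_lit 211) (nat_lit 155)) (XT.lf (nat_lit 0) (nat_lit 1810471424) (nat_lit 672) (nat_lit 4434393370) (nat_lit 84) (nat_lit 3564896532) (nat_lit 130) (nat_lit 5) (nat_lit 138)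 (nat_lit 5) (nat_lit 131) (nat_lit 5) (nat_lit 235) (nat_lit 211) (nat_lit 154))))))) (XT.nd (nat_lit 1128) (nat_lit 3024) (nat_lit 0) (XT.nd (nat_lit 564) (nat_lit 1344) (nat_lit 0) (XT.nd (nat_lit 282) (nat_lit 1092) (nat_lit 0) (XT.nd (nat_lit 94) (nat_lit 504) (nat_lit 0) (XT.lf (nat_lit 0) (nat_lit 1559379412) (nat_lit 504) (nat_lit 2363952195) (nat_lit 588) (nat_lit 6052792389) (nat_lit 124) (nat_lit 5) (nat_lit 130) (nat_lit 5) (nat_lit 131) (nat_lit 5) (nat_lit 236) (nat_lit 211) (nat_lit 153)) (XT.nd (nat_lit 94) (nat_lit 504) (nat_lit 0) (XT.lf (nat_lit 0) (nat_lit 6141401402) (nat_lit 588) (nat_lit 2340601271) (nat_lit 84) (nat_lit 1665212607) (nat_lit 124) (nat_lit 5) (nat_lit 131) (nat_lit 5) (nat_lit 125) (nat_lit 5) (nat_lit 237) (nat_lit 211) (nat_lit 152)) (XT.lf (nat_lit 0) (nat_lit 3967901842) (nat_lit 504) (nat_lit 4501945676) (nat_lit 588) (nat_lit 1853301203) (nat_lit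 118) (nat_lit 5) (nat_lit 124) (nat_lit 5) (nat_lit 125) (nat_lit 5) (nat_lit 238) (nat_lit 211) (nat_lit 151)))) (XT.nd (nat_lit 94) (nat_lit 504) (nat_lit 0) (XT.lf (nat_lit 0) (nat_lit 1257401) (nat_lit 504) (nat_lit 354420629) (nat_lit 588) (nat_lit 10149778995) (nat_lit 111) (nat_lit 5) (nat_lit 117) (nat_lit 5) (nat_lit 118) (nat_lit 5) (nat_lit 239) (nat_lit 211) (nat_lit 150)) (XT.nd (nat_lit 94) (nat_lit 504) (nat_lit 0) (XT.lf (nat_lit 0) (nat_lit 2680642069) (nat_lit 588) (nat_lit 4068965631) (nat_lit 84) (nat_lit 3940914657) (nat_lit 111) (nat_lit 5) (nat_lit 118) (nat_lit 5) (nat_lit 112) (nat_lit 5) (nat_lit 240) (nat_lit 211) (nat_lit 149)) (XT.lf (nat_lit 0) (nat_lit 2603776991) (nat_lit 504) (nat_lit 2480000463) (nat_lit 588) (nat_lit 5798399605) (nat_lit 105) (nat_lit 5) (nat_lit 111) (nat_lit 5) (nat_lit 112) (nat_lit 5) (nat_lit 241) (nat_lit 211) (nat_lit 148))))) (XT.nd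 (nat_lit 282) (nat_lit 420) (nat_lit 0) (XT.nd (nat_lit 94) (nat_lit 924) (nat_lit 0) (XT.lf (nat_lit 0) (nat_lit 7605576001) (nat_lit 588) (nat_lit 1536606595) (nat_lit 84) (nat_lit 1937147710) (nat_lit 105) (nat_lit 5) (nat_lit 112) (nat_lit 5) (nat_lit 106) (nat_lit 5) (nat_lit 242) (nat_lit 211) (nat_lit 147)) (XT.nd (nat_lit 94) (nat_lit 504) (nat_lit 0) (XT.lf (nat_lit 0) (nat_lit 5495257681) (nat_lit 420) (nat_lit 4775795103) (nat_lit 504) (nat_lit 1010391597) (nat_lit 100) (nat_lit 5) (nat_lit 105) (nat_lit 5) (nat_lit 106) (nat_lit 5) (nat_lit 243) (nat_lit 211) (nat_lit 146)) (XT.lf (nat_lit 0) (nat_lit 1289816773) (nat_lit 420) (nat_lit 213084069) (nat_lit 504) (nat_lit 9987179940) (nat_lit 94) (nat_lit 5) (nat_lit 99) (nat_lit 5) (nat_lit 100) (nat_lit 5) (nat_lit 244) (nat_lit 211) (nat_lit 145)))) (XT.nd (nat_lit 94) (nat_lit 420) (nat_lit 0) (XT.lf (nat_lit 0) (nat_lit 4166248521)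 (nat_lit 504) (nat_lit 3056694835) (nat_lit 84) (nat_lit 4479665221) (nat_lit 94) (nat_lit 5) (nat_lit 100) (nat_lit 5) (nat_lit 95) (nat_lit 5) (nat_lit 245) (nat_lit 211) (nat_lit 144)) (XT.nd (nat_lit 94) (nat_lit 0) (nat_lit 0) (XT.lf (nat_lit 0) (nat_lit 4392688006) (nat_lit 420) (nat_lit 2549155389) (nat_lit 504) (nat_lit 4980065401) (nat_lit 89) (nat_lit 5) (nat_lit 94) (nat_lit 5) (nat_lit 95) (nat_lit 5) (nat_lit 246) (nat_lit 211) (nat_lit 143)) (XT.lf (nat_lit 0) (nat_lit 9844729580) (nat_lit 504) (nat_lit 39228227) (nat_lit 84) (nat_lit 2263871622) (nat_lit 89) (nat_lit 5) (nat_lit 95) (nat_lit 5) (nat_lit 90) (nat_lit 5) (nat_lit 247) (nat_lit 211) (nat_lit 142)))))) (XT.nd (nat_lit 564) (nat_lit 1344) (nat_lit 0) (XT.nd (nat_lit 282) (nat_lit 840) (nat_lit 0) (XT.nd (nat_lit 94) (nat_lit 336) (nat_lit 0) (XT.lf (nat_lit 0) (nat_lit 543722351) (nat_lit 504) (nat_lit 4564491493)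 (nat_lit 84) (nat_lit 7270224348) (nat_lit 83) (nat_lit 5) (nat_lit 89) (nat_lit 5) (nat_lit 84) (nat_lit 5) (nat_lit 248) (nat_lit 211) (nat_lit 141)) (XT.nd (nat_lit 94) (nat_lit 0) (nat_lit 0) (XT.lf (nat_lit 0) (nat_lit 3334134843) (nat_lit 336) (nat_lit 109106122) (nat_lit 420) (nat_lit 9172698983) (nat_lit 79) (nat_lit 5) (nat_lit 83) (nat_lit 5) (nat_lit 84) (nat_lit 5) (nat_lit 249) (nat_lit 211) (nat_lit 140)) (XT.lf (nat_lit 0) (nat_lit 6525114991) (nat_lit 420) (nat_lit 1339297793) (nat_lit 84) (nat_lit 4994510951) (nat_lit 79) (nat_lit 5) (nat_lit 84) (nat_lit 5) (nat_lit 80) (nat_lit 5) (nat_lit 250) (nat_lit 211) (nat_lit 139)))) (XT.nd (nat_lit 94) (nat_lit 420) (nat_lit 0) (XT.lf (nat_lit 0) (nat_lit 6998835421) (nat_lit 420) (nat_lit 2766232407) (nat_lit 504) (nat_lit 3343586666) (nat_lit 74) (nat_lit 5) (nat_lit 79) (nat_lit 5) (nat_lit 80) (nat_lit 5) (nat_lit 251) (nat_lit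 211) (nat_lit 138)) (XT.nd (nat_lit 94) (nat_lit 84) (nat_lit 0) (XT.lf (nat_lit 0) (nat_lit 2277661892) (nat_lit 336) (nat_lit 10881486917) (nat_lit 420) (nat_lit 206551476) (nat_lit 70) (nat_lit 5) (nat_lit 74) (nat_lit 5) (nat_lit 75) (nat_lit 5) (nat_lit 252) (nat_lit 211) (nat_lit 137)) (XT.lf (nat_lit 0) (nat_lit 3047765216) (nat_lit 420) (nat_lit 2630830689) (nat_lit 84) (nat_lit 7949286391) (nat_lit 69) (nat_lit 5) (nat_lit 74) (nat_lit 5) (nat_lit 70) (nat_lit 5) (nat_lit 253) (nat_lit 211) (nat_lit 136))))) (XT.nd (nat_lit 282) (nat_lit 672) (nat_lit 0) (XT.nd (nat_lit 94) (nat_lit 336) (nat_lit 0) (XT.lf (nat_lit 0) (nat_lit 6222024216) (nat_lit 336) (nat_lit 230994323) (nat_lit 420) (nat_lit 7444672869) (nat_lit 65) (nat_lit 5) (nat_lit 69) (nat_lit 5) (nat_lit 70) (nat_lit 5) (nat_lit 254) (nat_lit 211) (nat_lit 135)) (XT.nd (nat_lit 94) (nat_lit 0) (nat_lit 0) (XT.lf (nat_lit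 0) (nat_lit 1199207702) (nat_lit 336) (nat_lit 8856183450) (nat_lit 420) (nat_lit 4118824947) (nat_lit 61) (nat_lit 5) (nat_lit 65) (nat_lit 5) (nat_lit 66) (nat_lit 5) (nat_lit 255) (nat_lit 211) (nat_lit 134)) (XT.lf (nat_lit 0) (nat_lit 10527316771) (nat_lit 336) (nat_lit 3323139363) (nat_lit 420) (nat_lit 607631694) (nat_lit 61) (nat_lit 5) (nat_lit 65) (nat_lit 5) (nat_lit 66) (nat_lit 5) (nat_lit 256) (nat_lit 211) (nat_lit 133)))) (XT.nd (nat_lit 94) (nat_lit 252) (nat_lit 0) (XT.lf (nat_lit 0) (nat_lit 3020661777) (nat_lit 420) (nat_lit 9294879089) (nat_lit 84) (nat_lit 2432974870) (nat_lit 56) (nat_lit 5) (nat_lit 61) (nat_lit 5) (nat_lit 57) (nat_lit 5) (nat_lit 257) (nat_lit 211) (nat_lit 132)) (XT.nd (nat_lit 94) (nat_lit 0) (nat_lit 0) (XT.lf (nat_lit 0) (nat_lit 131949932) (nat_lit 252) (nat_lit 6690774648) (nat_lit 336) (nat_lit 8224002425) (nat_lit 53) (nat_lit 5) (nat_lit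 56) (nat_lit 5) (nat_lit 57) (nat_lit 5) (nat_lit 258) (nat_lit 211) (nat_lit 131)) (XT.lf (nat_lit 0) (nat_lit 10073772273) (nat_lit 252) (nat_lit 768536141) (nat_lit 336) (nat_lit 4510111546) (nat_lit 53) (nat_lit 5) (nat_lit 56) (nat_lit 5) (nat_lit 57) (nat_lit 5) (nat_lit 259) (nat_lit 211) (nat_lit 130))))))))
noncomputable def xc36 : XT := (XT.nd (nat_lit 35062) (nat_lit 0) (nat_lit 2016) (XT.nd (nat_lit 33934) (nat_lit 0) (nat_lit 9072) (XT.nd (nat_lit 33370) (nat_lit 0) (nat_lit 14028) (XT.nd (nat_lit 188) (nat_lit 252) (nat_lit 0) (XT.nd (nat_lit 94) (nat_lit 84) (nat_lit 0) (XT.lf (nat_lit 0) (nat_lit 4704113818) (nat_lit 336) (nat_lit 10386097076) (nat_lit 420) (nat_lit 575534113) (nat_lit 49) (nat_lit 5) (nat_lit 53) (nat_lit 5) (nat_lit 54) (nat_lit 5) (nat_lit 260) (nat_lit 211) (nat_lit 129)) (XT.lf (nat_lit 0) (nat_lit 3464958376) (nat_lit 420) (nat_lit 911073499) (nat_lit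 84) (nat_lit 11610978715) (nat_lit 48) (nat_lit 5) (nat_lit 53) (nat_lit 5) (nat_lit 49) (nat_lit 5) (nat_lit 261) (nat_lit 211) (nat_lit 128))) (XT.nd (nat_lit 32994) (nat_lit 0) (nat_lit 14868) (XT.lf (nat_lit 0) (nat_lit 7739250854) (nat_lit 336) (nat_lit 6670674835) (nat_lit 84) (nat_lit 1905656353) (nat_lit 45) (nat_lit 5) (nat_lit 49) (nat_lit 5) (nat_lit 46) (nat_lit 5) (nat_lit 262) (nat_lit 211) (nat_lit 127)) (XT.nd (nat_lit 94) (nat_lit 0) (nat_lit 0) (XT.lf (nat_lit 0) (nat_lit 907479767) (nat_lit 0) (nat_lit 907479767) (nat_lit 756) (nat_lit 1817947199) (nat_lit 222) (nat_lit 5) (nat_lit 222) (nat_lit 3) (nat_lit 231) (nat_lit 3) (nat_lit 212) (nat_lit 212) (nat_lit 176)) (XT.lf (nat_lit 0) (nat_lit 5296578592) (nat_lit 756) (nat_lit 1802205108) (nat_lit 840) (nat_lit 238071747) (nat_lit 222) (nat_lit 5) (nat_lit 231) (nat_lit 3) (nat_lit 232) (nat_lit 5) (nat_lit 213) (nat_lit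 212) (nat_lit 175))))) (XT.nd (nat_lit 282) (nat_lit 0) (nat_lit 84) (XT.nd (nat_lit 94) (nat_lit 840) (nat_lit 0) (XT.lf (nat_lit 84) (nat_lit 1958388196) (nat_lit 0) (nat_lit 5033761519) (nat_lit 840) (nat_lit 419263931) (nat_lit 223) (nat_lit 5) (nat_lit 222) (nat_lit 5) (nat_lit 232) (nat_lit 5) (nat_lit 214) (nat_lit 212) (nat_lit 174)) (XT.nd (nat_lit 94) (nat_lit 0) (nat_lit 0) (XT.lf (nat_lit 0) (nat_lit 1180486735) (nat_lit 840) (nat_lit 1648659369) (nat_lit 924) (nat_lit 4660675688) (nat_lit 212) (nat_lit 5) (nat_lit 222) (nat_lit 5) (nat_lit 223) (nat_lit 5) (nat_lit 215) (nat_lit 212) (nat_lit 173)) (XT.lf (nat_lit 84) (nat_lit 2297043345) (nat_lit 0) (nat_lit 486366998) (nat_lit 924) (nat_lit 4788898921) (nat_lit 213) (nat_lit 5) (nat_lit 212) (nat_lit 5) (nat_lit 223) (nat_lit 5) (nat_lit 216) (nat_lit 212) (nat_lit 172)))) (XT.nd (nat_lit 94) (nat_lit 0) (nat_lit 0) (XT.lf (nat_lit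 0) (nat_lit 4417340511) (nat_lit 840) (nat_lit 1299657756) (nat_lit 924) (nat_lit 1941563886) (nat_lit 213) (nat_lit 5) (nat_lit 223) (nat_lit 5) (nat_lit 224) (nat_lit 5) (nat_lit 217) (nat_lit 212) (nat_lit 171)) (XT.nd (nat_lit 94) (nat_lit 0) (nat_lit 0) (XT.lf (nat_lit 84) (nat_lit 2833873080) (nat_lit 0) (nat_lit 3247642090) (nat_lit 924) (nat_lit 1667261728) (nat_lit 214) (nat_lit 5) (nat_lit 213) (nat_lit 5) (nat_lit 224) (nat_lit 5) (nat_lit 218) (nat_lit 212) (nat_lit 170)) (XT.lf (nat_lit 84) (nat_lit 7103869085) (nat_lit 0) (nat_lit 653004427) (nat_lit 924) (nat_lit 86922833) (nat_lit 214) (nat_lit 5) (nat_lit 213) (nat_lit 5) (nat_lit 224) (nat_lit 5) (nat_lit 219) (nat_lit 212) (nat_lit 169)))))) (XT.nd (nat_lit 564) (nat_lit 3360) (nat_lit 0) (XT.nd (nat_lit 282) (nat_lit 840) (nat_lit 0) (XT.nd (nat_lit 94) (nat_lit 0) (nat_lit 0) (XT.lf (nat_lit 0) (nat_lit 1516356744) (nat_lit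 924) (nat_lit 4359626319) (nat_lit 1008) (nat_lit 2065458365) (nat_lit 203) (nat_lit 5) (nat_lit 214) (nat_lit 5) (nat_lit 215) (nat_lit 5) (nat_lit 220) (nat_lit 212) (nat_lit 168)) (XT.nd (nat_lit 94) (nat_lit 0) (nat_lit 0) (XT.lf (nat_lit 0) (nat_lit 3130943617) (nat_lit 924) (nat_lit 19597859) (nat_lit 1008) (nat_lit 4893424393) (nat_lit 203) (nat_lit 5) (nat_lit 214) (nat_lit 5) (nat_lit 215) (nat_lit 5) (nat_lit 221) (nat_lit 212) (nat_lit 167)) (XT.lf (nat_lit 84) (nat_lit 4535211004) (nat_lit 0) (nat_lit 260231873) (nat_lit 1008) (nat_lit 3354866725) (nat_lit 204) (nat_lit 5) (nat_lit 203) (nat_lit 5) (nat_lit 215) (nat_lit 5) (nat_lit 222) (nat_lit 212) (nat_lit 166)))) (XT.nd (nat_lit 94) (nat_lit 924) (nat_lit 0) (XT.lf (nat_lit 84) (nat_lit 938767938) (nat_lit 0) (nat_lit 5565098887) (nat_lit 1008) (nat_lit 1757010189) (nat_lit 205) (nat_lit 5) (nat_lit 204) (nat_lit 5) (nat_lit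 216) (nat_lit 5) (nat_lit 223) (nat_lit 212) (nat_lit 165)) (XT.nd (nat_lit 94) (nat_lit 924) (nat_lit 0) (XT.lf (nat_lit 84) (nat_lit 5694605767) (nat_lit 0) (nat_lit 2569062080) (nat_lit 1008) (nat_lit 111941060) (nat_lit 205) (nat_lit 5) (nat_lit 204) (nat_lit 5) (nat_lit 216) (nat_lit 5) (nat_lit 224) (nat_lit 212) (nat_lit 164)) (XT.lf (nat_lit 0) (nat_lit 1531883597) (nat_lit 1008) (nat_lit 6389579412) (nat_lit 84) (nat_lit 573069455) (nat_lit 193) (nat_lit 5) (nat_lit 205) (nat_lit 5) (nat_lit 194) (nat_lit 5) (nat_lit 225) (nat_lit 212) (nat_lit 163))))) (XT.nd (nat_lit 282) (nat_lit 2352) (nat_lit 0) (XT.nd (nat_lit 94) (nat_lit 1008) (nat_lit 0) (XT.lf (nat_lit 0) (nat_lit 3240882198) (nat_lit 1008) (nat_lit 1567439667) (nat_lit 84) (nat_lit 3808891949) (nat_lit 193) (nat_lit 5) (nat_lit 205) (nat_lit 5) (nat_lit 194) (nat_lit 5) (nat_lit 226) (nat_lit 212) (nat_lit 162)) (XT.nd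 (nat_lit 94) (nat_lit 0) (nat_lit 0) (XT.lf (nat_lit 0) (nat_lit 3460943629) (nat_lit 1008) (nat_lit 1537691837) (nat_lit 1092) (nat_lit 3745940654) (nat_lit 181) (nat_lit 5) (nat_lit 193) (nat_lit 5) (nat_lit 194) (nat_lit 5) (nat_lit 227) (nat_lit 212) (nat_lit 161)) (XT.lf (nat_lit 0) (nat_lit 6808894086) (nat_lit 1092) (nat_lit 235907614) (nat_lit 84) (nat_lit 1831909969) (nat_lit 181) (nat_lit 5) (nat_lit 194) (nat_lit 5) (nat_lit 182) (nat_lit 5) (nat_lit 228) (nat_lit 212) (nat_lit 160)))) (XT.nd (nat_lit 94) (nat_lit 1260) (nat_lit 0) (XT.lf (nat_lit 0) (nat_lit 5044240721) (nat_lit 1092) (nat_lit 3665532500) (nat_lit 1176) (nat_lit 302744589) (nat_lit 168) (nat_lit 5) (nat_lit 181) (nat_lit 5) (nat_lit 182) (nat_lit 5) (nat_lit 229) (nat_lit 212) (nat_lit 159)) (XT.nd (nat_lit 94) (nat_lit 0) (nat_lit 0) (XT.lf (nat_lit 0) (nat_lit 1333612686) (nat_lit 1176) (nat_lit 127537982) (nat_lit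 1260) (nat_lit 7692326039) (nat_lit 153) (nat_lit 5) (nat_lit 167) (nat_lit 5) (nat_lit 168) (nat_lit 5) (nat_lit 230) (nat_lit 212) (nat_lit 158)) (XT.lf (nat_lit 0) (nat_lit 3321494076) (nat_lit 1260) (nat_lit 2467421236) (nat_lit 84) (nat_lit 3508868078) (nat_lit 153) (nat_lit 5) (nat_lit 168) (nat_lit 5) (nat_lit 154) (nat_lit 5) (nat_lit 231) (nat_lit 212) (nat_lit 157))))))) (XT.nd (nat_lit 1034) (nat_lit 3024) (nat_lit 0) (XT.nd (nat_lit 470) (nat_lit 2100) (nat_lit 0) (XT.nd (nat_lit 188) (nat_lit 1260) (nat_lit 0) (XT.nd (nat_lit 94) (nat_lit 0) (nat_lit 0) (XT.lf (nat_lit 0) (nat_lit 3099981592) (nat_lit 672) (nat_lit 2139571114) (nat_lit 756) (nat_lit 4207846991) (nat_lit 145) (nat_lit 5) (nat_lit 153) (nat_lit 5) (nat_lit 154) (nat_lit 5) (nat_lit 232) (nat_lit 212) (nat_lit 156)) (XT.lf (nat_lit 0) (nat_lit 7230063878) (nat_lit 756) (nat_lit 740549758) (nat_lit 84) (nat_lit 1631452719)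 (nat_lit 145) (nat_lit 5) (nat_lit 154) (nat_lit 5) (nat_lit 146) (nat_lit 5) (nat_lit 233) (nat_lit 212) (nat_lit 155))) (XT.nd (nat_lit 94) (nat_lit 672) (nat_lit 0) (XT.lf (nat_lit 0) (nat_lit 5113019930) (nat_lit 588) (nat_lit 4217924527) (nat_lit 672) (nat_lit 429777337) (nat_lit 138) (nat_lit 5) (nat_lit 145) (nat_lit 5) (nat_lit 146) (nat_lit 5) (nat_lit 234) (nat_lit 212) (nat_lit 154)) (XT.nd (nat_lit 94) (nat_lit 0) (nat_lit 0) (XT.lf (nat_lit 0) (nat_lit 1233610652) (nat_lit 588) (nat_lit 293095538) (nat_lit 672) (nat_lit 8398233614) (nat_lit 130) (nat_lit 5) (nat_lit 137) (nat_lit 5) (nat_lit 138) (nat_lit 5) (nat_lit 235) (nat_lit 212) (nat_lit 153)) (XT.lf (nat_lit 0) (nat_lit 3599481790) (nat_lit 672) (nat_lit 2750372280) (nat_lit 84) (nat_lit 3742851366) (nat_lit 130) (nat_lit 5) (nat_lit 138) (nat_lit 5) (nat_lit 131) (nat_lit 5) (nat_lit 236) (nat_lit 212) (nat_lit 152)))))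 (XT.nd (nat_lit 282) (nat_lit 1092) (nat_lit 0) (XT.nd (nat_lit 94) (nat_lit 504) (nat_lit 0) (XT.lf (nat_lit 0) (nat_lit 3432214188) (nat_lit 504) (nat_lit 2315982072) (nat_lit 588) (nat_lit 4518027895) (nat_lit 124) (nat_lit 5) (nat_lit 130) (nat_lit 5) (nat_lit 131) (nat_lit 5) (nat_lit 237) (nat_lit 212) (nat_lit 151)) (XT.nd (nat_lit 94) (nat_lit 504) (nat_lit 0) (XT.lf (nat_lit 0) (nat_lit 7988238778) (nat_lit 588) (nat_lit 610093036) (nat_lit 84) (nat_lit 1846919909) (nat_lit 124) (nat_lit 5) (nat_lit 131) (nat_lit 5) (nat_lit 125) (nat_lit 5) (nat_lit 238) (nat_lit 212) (nat_lit 150)) (XT.lf (nat_lit 0) (nat_lit 5898544811) (nat_lit 504) (nat_lit 4464415198) (nat_lit 588) (nat_lit 265615543) (nat_lit 118) (nat_lit 5) (nat_lit 124) (nat_lit 5) (nat_lit 125) (nat_lit 5) (nat_lit 239) (nat_lit 212) (nat_lit 149)))) (XT.nd (nat_lit 94) (nat_lit 504) (nat_lit 0) (XT.lf (nat_lit 0) (nat_lit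 1809683724) (nat_lit 504) (nat_lit 139056847) (nat_lit 588) (nat_lit 8869085967) (nat_lit 111) (nat_lit 5) (nat_lit 117) (nat_lit 5) (nat_lit 118) (nat_lit 5) (nat_lit 240) (nat_lit 212) (nat_lit 148)) (XT.nd (nat_lit 94) (nat_lit 504) (nat_lit 0) (XT.lf (nat_lit 0) (nat_lit 4304079653) (nat_lit 588) (nat_lit 2413151441) (nat_lit 84) (nat_lit 4293923016) (nat_lit 111) (nat_lit 5) (nat_lit 118) (nat_lit 5) (nat_lit 112) (nat_lit 5) (nat_lit 241) (nat_lit 212) (nat_lit 147)) (XT.lf (nat_lit 0) (nat_lit 4472636202) (nat_lit 504) (nat_lit 2286770160) (nat_lit 588) (nat_lit 4451227509) (nat_lit 105) (nat_lit 5) (nat_lit 111) (nat_lit 5) (nat_lit 112) (nat_lit 5) (nat_lit 242) (nat_lit 212) (nat_lit 146)))))) (XT.nd (nat_lit 564) (nat_lit 1260) (nat_lit 0) (XT.nd (nat_lit 282) (nat_lit 840) (nat_lit 0) (XT.nd (nat_lit 94) (nat_lit 504) (nat_lit 0) (XT.lf (nat_lit 0) (nat_lit 178911630) (nat_lit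 420) (nat_lit 9144917568) (nat_lit 504) (nat_lit 2092455637) (nat_lit 100) (nat_lit 5) (nat_lit 105) (nat_lit 5) (nat_lit 106) (nat_lit 5) (nat_lit 243) (nat_lit 212) (nat_lit 145)) (XT.nd (nat_lit 94) (nat_lit 420) (nat_lit 0) (XT.lf (nat_lit 0) (nat_lit 414810453) (nat_lit 504) (nat_lit 4198597944) (nat_lit 84) (nat_lit 7013004465) (nat_lit 99) (nat_lit 5) (nat_lit 105) (nat_lit 5) (nat_lit 100) (nat_lit 5) (nat_lit 244) (nat_lit 212) (nat_lit 144)) (XT.lf (nat_lit 0) (nat_lit 2964803041) (nat_lit 504) (nat_lit 8751266577) (nat_lit 84) (nat_lit 126838467) (nat_lit 94) (nat_lit 5) (nat_lit 100) (nat_lit 5) (nat_lit 95) (nat_lit 5) (nat_lit 245) (nat_lit 212) (nat_lit 143)))) (XT.nd (nat_lit 94) (nat_lit 840) (nat_lit 0) (XT.lf (nat_lit 0) (nat_lit 5676084593) (nat_lit 504) (nat_lit 1421119386) (nat_lit 84) (nat_lit 4967255291) (nat_lit 94) (nat_lit 5) (nat_lit 100) (nat_lit 5) (nat_lit 95)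 (nat_lit 5) (nat_lit 246) (nat_lit 212) (nat_lit 142)) (XT.nd (nat_lit 94) (nat_lit 420) (nat_lit 0) (XT.lf (nat_lit 0) (nat_lit 6269125538) (nat_lit 420) (nat_lit 2252768066) (nat_lit 504) (nat_lit 3770484000) (nat_lit 89) (nat_lit 5) (nat_lit 94) (nat_lit 5) (nat_lit 95) (nat_lit 5) (nat_lit 247) (nat_lit 212) (nat_lit 141)) (XT.lf (nat_lit 0) (nat_lit 1703527402) (nat_lit 420) (nat_lit 9800770110) (nat_lit 504) (nat_lit 1022680862) (nat_lit 84) (nat_lit 5) (nat_lit 89) (nat_lit 5) (nat_lit 90) (nat_lit 5) (nat_lit 248) (nat_lit 212) (nat_lit 140))))) (XT.nd (nat_lit 282) (nat_lit 420) (nat_lit 0) (XT.nd (nat_lit 94) (nat_lit 756) (nat_lit 0) (XT.lf (nat_lit 0) (nat_lit 1848390689) (nat_lit 504) (nat_lit 3008362943) (nat_lit 84) (nat_lit 7909932565) (nat_lit 83) (nat_lit 5) (nat_lit 89) (nat_lit 5) (nat_lit 84) (nat_lit 5) (nat_lit 249) (nat_lit 212) (nat_lit 139)) (XT.nd (nat_lit 94) (nat_lit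 420) (nat_lit 0) (XT.lf (nat_lit 0) (nat_lit 4828408976) (nat_lit 420) (nat_lit 7869799051) (nat_lit 84) (nat_lit 315026909) (nat_lit 79) (nat_lit 5) (nat_lit 84) (nat_lit 5) (nat_lit 80) (nat_lit 5) (nat_lit 250) (nat_lit 212) (nat_lit 138)) (XT.lf (nat_lit 0) (nat_lit 297491023) (nat_lit 420) (nat_lit 7682421838) (nat_lit 504) (nat_lit 5286148545) (nat_lit 74) (nat_lit 5) (nat_lit 79) (nat_lit 5) (nat_lit 80) (nat_lit 5) (nat_lit 251) (nat_lit 212) (nat_lit 137)))) (XT.nd (nat_lit 94) (nat_lit 420) (nat_lit 0) (XT.lf (nat_lit 0) (nat_lit 8901595540) (nat_lit 420) (nat_lit 2405464274) (nat_lit 504) (nat_lit 2218390075) (nat_lit 74) (nat_lit 5) (nat_lit 79) (nat_lit 5) (nat_lit 80) (nat_lit 5) (nat_lit 252) (nat_lit 212) (nat_lit 136)) (XT.nd (nat_lit 94) (nat_lit 0) (nat_lit 0) (XT.lf (nat_lit 0) (nat_lit 987932763) (nat_lit 420) (nat_lit 9770580974) (nat_lit 84) (nat_lit 3033179110) (nat_lit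 69) (nat_lit 5) (nat_lit 74) (nat_lit 5) (nat_lit 70) (nat_lit 5) (nat_lit 253) (nat_lit 212) (nat_lit 135)) (XT.lf (nat_lit 0) (nat_lit 4310829480) (nat_lit 420) (nat_lit 1077347652) (nat_lit 84) (nat_lit 8676207308) (nat_lit 69) (nat_lit 5) (nat_lit 74) (nat_lit 5) (nat_lit 70) (nat_lit 5) (nat_lit 254) (nat_lit 212) (nat_lit 134))))))))
noncomputable def xc37 : XT := (XT.nd (nat_lit 35156) (nat_lit 0) (nat_lit 2856) (XT.nd (nat_lit 34028) (nat_lit 0) (nat_lit 11424) (XT.nd (nat_lit 470) (nat_lit 672) (nat_lit 0) (XT.nd (nat_lit 188) (nat_lit 672) (nat_lit 0) (XT.nd (nat_lit 94) (nat_lit 336) (nat_lit 0) (XT.lf (nat_lit 0) (nat_lit 7817098942) (nat_lit 420) (nat_lit 6280585706) (nat_lit 84) (nat_lit 246588093) (nat_lit 65) (nat_lit 5) (nat_lit 70) (nat_lit 5) (nat_lit 66) (nat_lit 5) (nat_lit 255) (nat_lit 212) (nat_lit 133)) (XT.lf (nat_lit 0) (nat_lit 2883308720) (nat_lit 336) (nat_lit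 8644625801) (nat_lit 420) (nat_lit 3103157977) (nat_lit 61) (nat_lit 5) (nat_lit 65) (nat_lit 5) (nat_lit 66) (nat_lit 5) (nat_lit 256) (nat_lit 212) (nat_lit 132))) (XT.nd (nat_lit 94) (nat_lit 588) (nat_lit 0) (XT.lf (nat_lit 0) (nat_lit 480556802) (nat_lit 420) (nat_lit 2449334035) (nat_lit 84) (nat_lit 11996143467) (nat_lit 60) (nat_lit 5) (nat_lit 65) (nat_lit 5) (nat_lit 61) (nat_lit 5) (nat_lit 257) (nat_lit 212) (nat_lit 131)) (XT.nd (nat_lit 94) (nat_lit 252) (nat_lit 0) (XT.lf (nat_lit 0) (nat_lit 4208069992) (nat_lit 420) (nat_lit 7994682405) (nat_lit 84) (nat_lit 3024102413) (nat_lit 56) (nat_lit 5) (nat_lit 61) (nat_lit 5) (nat_lit 57) (nat_lit 5) (nat_lit 258) (nat_lit 212) (nat_lit 130)) (XT.lf (nat_lit 0) (nat_lit 1743553675) (nat_lit 252) (nat_lit 6380977871) (nat_lit 336) (nat_lit 7411625499) (nat_lit 53) (nat_lit 5) (nat_lit 56) (nat_lit 5) (nat_lit 57) (nat_lit 5) (nat_lit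 259) (nat_lit 212) (nat_lit 129))))) (XT.nd (nat_lit 33276) (nat_lit 0) (nat_lit 13944) (XT.nd (nat_lit 94) (nat_lit 672) (nat_lit 0) (XT.lf (nat_lit 0) (nat_lit 11978997293) (nat_lit 252) (nat_lit 269856268) (nat_lit 336) (nat_lit 3604953846) (nat_lit 53) (nat_lit 5) (nat_lit 56) (nat_lit 5) (nat_lit 57) (nat_lit 5) (nat_lit 260) (nat_lit 212) (nat_lit 128)) (XT.nd (nat_lit 94) (nat_lit 252) (nat_lit 0) (XT.lf (nat_lit 0) (nat_lit 444963522) (nat_lit 420) (nat_lit 9750131323) (nat_lit 84) (nat_lit 5983233820) (nat_lit 48) (nat_lit 5) (nat_lit 53) (nat_lit 5) (nat_lit 49) (nat_lit 5) (nat_lit 261) (nat_lit 212) (nat_lit 127)) (XT.lf (nat_lit 0) (nat_lit 605571589) (nat_lit 252) (nat_lit 3979808440) (nat_lit 336) (nat_lit 11926205747) (nat_lit 45) (nat_lit 5) (nat_lit 48) (nat_lit 5) (nat_lit 49) (nat_lit 5) (nat_lit 262) (nat_lit 212) (nat_lit 126)))) (XT.nd (nat_lit 94) (nat_lit 924) (nat_lit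 0) (XT.lf (nat_lit 0) (nat_lit 1730536372) (nat_lit 0) (nat_lit 1730536372) (nat_lit 756) (nat_lit 243595089) (nat_lit 222) (nat_lit 5) (nat_lit 222) (nat_lit 3) (nat_lit 231) (nat_lit 3) (nat_lit 213) (nat_lit 213) (nat_lit 174)) (XT.nd (nat_lit 94) (nat_lit 0) (nat_lit 84) (XT.lf (nat_lit 0) (nat_lit 1026763955) (nat_lit 924) (nat_lit 238071747) (nat_lit 924) (nat_lit 6221463258) (nat_lit 211) (nat_lit 3) (nat_lit 222) (nat_lit 3) (nat_lit 222) (nat_lit 5) (nat_lit 214) (nat_lit 213) (nat_lit 173)) (XT.lf (nat_lit 0) (nat_lit 2566472799) (nat_lit 840) (nat_lit 3935366722) (nat_lit 924) (nat_lit 1064472818) (nat_lit 212) (nat_lit 5) (nat_lit 222) (nat_lit 5) (nat_lit 223) (nat_lit 5) (nat_lit 215) (nat_lit 213) (nat_lit 172)))))) (XT.nd (nat_lit 564) (nat_lit 1764) (nat_lit 0) (XT.nd (nat_lit 282) (nat_lit 840) (nat_lit 0) (XT.nd (nat_lit 94) (nat_lit 0) (nat_lit 0) (XT.lf (nat_lit 0) (nat_lit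 4111245061) (nat_lit 840) (nat_lit 60295185) (nat_lit 924) (nat_lit 3479294863) (nat_lit 212) (nat_lit 5) (nat_lit 222) (nat_lit 5) (nat_lit 223) (nat_lit 5) (nat_lit 216) (nat_lit 213) (nat_lit 171)) (XT.nd (nat_lit 94) (nat_lit 0) (nat_lit 84) (XT.lf (nat_lit 84) (nat_lit 4004740885) (nat_lit 0) (nat_lit 1685951168) (nat_lit 924) (nat_lit 2048302854) (nat_lit 213) (nat_lit 5) (nat_lit 212) (nat_lit 5) (nat_lit 223) (nat_lit 5) (nat_lit 217) (nat_lit 213) (nat_lit 170)) (XT.lf (nat_lit 84) (nat_lit 342645172) (nat_lit 0) (nat_lit 6935232206) (nat_lit 924) (nat_lit 554026901) (nat_lit 214) (nat_lit 5) (nat_lit 213) (nat_lit 5) (nat_lit 224) (nat_lit 5) (nat_lit 218) (nat_lit 213) (nat_lit 169)))) (XT.nd (nat_lit 94) (nat_lit 0) (nat_lit 0) (XT.lf (nat_lit 0) (nat_lit 973073967) (nat_lit 924) (nat_lit 3345127280) (nat_lit 1008) (nat_lit 3609371093) (nat_lit 202) (nat_lit 5) (nat_lit 213) (nat_lit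 5) (nat_lit 214) (nat_lit 5) (nat_lit 219) (nat_lit 213) (nat_lit 168)) (XT.nd (nat_lit 94) (nat_lit 0) (nat_lit 84) (XT.lf (nat_lit 84) (nat_lit 920366230) (nat_lit 0) (nat_lit 1571589250) (nat_lit 1008) (nat_lit 5536112995) (nat_lit 203) (nat_lit 5) (nat_lit 202) (nat_lit 5) (nat_lit 214) (nat_lit 5) (nat_lit 220) (nat_lit 213) (nat_lit 167)) (XT.lf (nat_lit 0) (nat_lit 4060957685) (nat_lit 924) (nat_lit 2769795931) (nat_lit 1008) (nat_lit 1301434764) (nat_lit 203) (nat_lit 5) (nat_lit 214) (nat_lit 5) (nat_lit 215) (nat_lit 5) (nat_lit 221) (nat_lit 213) (nat_lit 166))))) (XT.nd (nat_lit 282) (nat_lit 924) (nat_lit 0) (XT.nd (nat_lit 94) (nat_lit 924) (nat_lit 0) (XT.lf (nat_lit 84) (nat_lit 1701798241) (nat_lit 0) (nat_lit 3964963964) (nat_lit 1008) (nat_lit 2573824225) (nat_lit 204) (nat_lit 5) (nat_lit 203) (nat_lit 5) (nat_lit 215) (nat_lit 5) (nat_lit 222) (nat_lit 213) (nat_lit 165))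 (XT.nd (nat_lit 94) (nat_lit 924) (nat_lit 0) (XT.lf (nat_lit 84) (nat_lit 6358245434) (nat_lit 0) (nat_lit 949450321) (nat_lit 1008) (nat_lit 1045820251) (nat_lit 204) (nat_lit 5) (nat_lit 203) (nat_lit 5) (nat_lit 215) (nat_lit 5) (nat_lit 223) (nat_lit 213) (nat_lit 164)) (XT.lf (nat_lit 0) (nat_lit 526118805) (nat_lit 1008) (nat_lit 5770743036) (nat_lit 1092) (nat_lit 2173236354) (nat_lit 192) (nat_lit 5) (nat_lit 204) (nat_lit 5) (nat_lit 205) (nat_lit 5) (nat_lit 224) (nat_lit 213) (nat_lit 163)))) (XT.nd (nat_lit 94) (nat_lit 924) (nat_lit 0) (XT.lf (nat_lit 0) (nat_lit 2112266627) (nat_lit 1008) (nat_lit 1046612262) (nat_lit 1092) (nat_lit 5432029061) (nat_lit 192) (nat_lit 5) (nat_lit 204) (nat_lit 5) (nat_lit 205) (nat_lit 5) (nat_lit 225) (nat_lit 213) (nat_lit 162)) (XT.nd (nat_lit 94) (nat_lit 1008) (nat_lit 0) (XT.lf (nat_lit 0) (nat_lit 3749614274) (nat_lit 1008) (nat_lit 4824895766)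 (nat_lit 84) (nat_lit 141587043) (nat_lit 193) (nat_lit 5) (nat_lit 205) (nat_lit 5) (nat_lit 194) (nat_lit 5) (nat_lit 226) (nat_lit 213) (nat_lit 161)) (XT.lf (nat_lit 0) (nat_lit 107992978) (nat_lit 1008) (nat_lit 5338455497) (nat_lit 1092) (nat_lit 3399143082) (nat_lit 181) (nat_lit 5) (nat_lit 193) (nat_lit 5) (nat_lit 194) (nat_lit 5) (nat_lit 227) (nat_lit 213) (nat_lit 160))))))) (XT.nd (nat_lit 1128) (nat_lit 3276) (nat_lit 0) (XT.nd (nat_lit 564) (nat_lit 2268) (nat_lit 0) (XT.nd (nat_lit 282) (nat_lit 1848) (nat_lit 0) (XT.nd (nat_lit 94) (nat_lit 1176) (nat_lit 0) (XT.lf (nat_lit 0) (nat_lit 5290222477) (nat_lit 1008) (nat_lit 1922621925) (nat_lit 1092) (nat_lit 1766417898) (nat_lit 181) (nat_lit 5) (nat_lit 193) (nat_lit 5) (nat_lit 194) (nat_lit 5) (nat_lit 228) (nat_lit 213) (nat_lit 159)) (XT.nd (nat_lit 94) (nat_lit 84) (nat_lit 0) (XT.lf (nat_lit 0) (nat_lit 1513050272) (nat_lit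 1092) (nat_lit 7517745534) (nat_lit 1176) (nat_lit 87175107) (nat_lit 168) (nat_lit 5) (nat_lit 181) (nat_lit 5) (nat_lit 182) (nat_lit 5) (nat_lit 229) (nat_lit 213) (nat_lit 158)) (XT.lf (nat_lit 0) (nat_lit 1635098590) (nat_lit 1176) (nat_lit 2355370839) (nat_lit 84) (nat_lit 5269661994) (nat_lit 167) (nat_lit 5) (nat_lit 181) (nat_lit 5) (nat_lit 168) (nat_lit 5) (nat_lit 230) (nat_lit 213) (nat_lit 157)))) (XT.nd (nat_lit 94) (nat_lit 672) (nat_lit 0) (XT.lf (nat_lit 0) (nat_lit 3108661979) (nat_lit 1176) (nat_lit 298572229) (nat_lit 1260) (nat_lit 6000291170) (nat_lit 153) (nat_lit 5) (nat_lit 167) (nat_lit 5) (nat_lit 168) (nat_lit 5) (nat_lit 231) (nat_lit 213) (nat_lit 156)) (XT.nd (nat_lit 94) (nat_lit 672) (nat_lit 0) (XT.lf (nat_lit 0) (nat_lit 5266816237) (nat_lit 1260) (nat_lit 817982124) (nat_lit 84) (nat_lit 3474390003) (nat_lit 153) (nat_lit 5) (nat_lit 168) (nat_lit 5) (nat_lit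 154) (nat_lit 5) (nat_lit 232) (nat_lit 213) (nat_lit 155)) (XT.lf (nat_lit 0) (nat_lit 4924490565) (nat_lit 672) (nat_lit 2284783785) (nat_lit 756) (nat_lit 2506262530) (nat_lit 145) (nat_lit 5) (nat_lit 153) (nat_lit 5) (nat_lit 154) (nat_lit 5) (nat_lit 233) (nat_lit 213) (nat_lit 154))))) (XT.nd (nat_lit 282) (nat_lit 1008) (nat_lit 0) (XT.nd (nat_lit 94) (nat_lit 672) (nat_lit 0) (XT.lf (nat_lit 0) (nat_lit 974778344) (nat_lit 588) (nat_lit 8244371552) (nat_lit 672) (nat_lit 658227600) (nat_lit 138) (nat_lit 5) (nat_lit 145) (nat_lit 5) (nat_lit 146) (nat_lit 5) (nat_lit 234) (nat_lit 213) (nat_lit 153)) (XT.nd (nat_lit 94) (nat_lit 588) (nat_lit 0) (XT.lf (nat_lit 0) (nat_lit 1270477003) (nat_lit 672) (nat_lit 3066308164) (nat_lit 84) (nat_lit 5706052989) (nat_lit 137) (nat_lit 5) (nat_lit 145) (nat_lit 5) (nat_lit 138) (nat_lit 5) (nat_lit 235) (nat_lit 213) (nat_lit 152)) (XT.lf (nat_lit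 0) (nat_lit 2996067092) (nat_lit 588) (nat_lit 250776752) (nat_lit 672) (nat_lit 6967134250) (nat_lit 130) (nat_lit 5) (nat_lit 137) (nat_lit 5) (nat_lit 138) (nat_lit 5) (nat_lit 236) (nat_lit 213) (nat_lit 151)))) (XT.nd (nat_lit 94) (nat_lit 1008) (nat_lit 0) (XT.lf (nat_lit 0) (nat_lit 5336370667) (nat_lit 672) (nat_lit 1129699225) (nat_lit 84) (nat_lit 3923498489) (nat_lit 130) (nat_lit 5) (nat_lit 138) (nat_lit 5) (nat_lit 131) (nat_lit 5) (nat_lit 237) (nat_lit 213) (nat_lit 150)) (XT.nd (nat_lit 94) (nat_lit 504) (nat_lit 0) (XT.lf (nat_lit 0) (nat_lit 5249703579) (nat_lit 504) (nat_lit 2275023708) (nat_lit 588) (nat_lit 3045677668) (nat_lit 124) (nat_lit 5) (nat_lit 130) (nat_lit 5) (nat_lit 131) (nat_lit 5) (nat_lit 238) (nat_lit 213) (nat_lit 149)) (XT.lf (nat_lit 0) (nat_lit 1085079218) (nat_lit 504) (nat_lit 8718223249) (nat_lit 588) (nat_lit 953791430) (nat_lit 118) (nat_lit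 5) (nat_lit 124) (nat_lit 5) (nat_lit 125) (nat_lit 5) (nat_lit 239) (nat_lit 213) (nat_lit 148)))))) (XT.nd (nat_lit 564) (nat_lit 1680) (nat_lit 0) (XT.nd (nat_lit 282) (nat_lit 1008) (nat_lit 0) (XT.nd (nat_lit 94) (nat_lit 504) (nat_lit 0) (XT.lf (nat_lit 0) (nat_lit 1239016554) (nat_lit 588) (nat_lit 3184906575) (nat_lit 84) (nat_lit 6523990445) (nat_lit 117) (nat_lit 5) (nat_lit 124) (nat_lit 5) (nat_lit 118) (nat_lit 5) (nat_lit 240) (nat_lit 213) (nat_lit 147)) (XT.nd (nat_lit 94) (nat_lit 0) (nat_lit 0) (XT.lf (nat_lit 0) (nat_lit 3493231867) (nat_lit 588) (nat_lit 7584405846) (nat_lit 84) (nat_lit 67142765) (nat_lit 111) (nat_lit 5) (nat_lit 118) (nat_lit 5) (nat_lit 112) (nat_lit 5) (nat_lit 241) (nat_lit 213) (nat_lit 146)) (XT.lf (nat_lit 0) (nat_lit 5882634515) (nat_lit 588) (nat_lit 818946674) (nat_lit 84) (nat_lit 4644986393) (nat_lit 111) (nat_lit 5) (nat_lit 118) (nat_lit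 5) (nat_lit 112) (nat_lit 5) (nat_lit 242) (nat_lit 213) (nat_lit 145)))) (XT.nd (nat_lit 94) (nat_lit 504) (nat_lit 0) (XT.lf (nat_lit 0) (nat_lit 6288705662) (nat_lit 504) (nat_lit 2105395816) (nat_lit 588) (nat_lit 3159970522) (nat_lit 105) (nat_lit 5) (nat_lit 111) (nat_lit 5) (nat_lit 112) (nat_lit 5) (nat_lit 243) (nat_lit 213) (nat_lit 144)) (XT.nd (nat_lit 94) (nat_lit 84) (nat_lit 0) (XT.lf (nat_lit 0) (nat_lit 1871277737) (nat_lit 420) (nat_lit 9151323108) (nat_lit 504) (nat_lit 745218642) (nat_lit 100) (nat_lit 5) (nat_lit 105) (nat_lit 5) (nat_lit 106) (nat_lit 5) (nat_lit 244) (nat_lit 213) (nat_lit 143)) (XT.lf (nat_lit 0) (nat_lit 1770647416) (nat_lit 504) (nat_lit 2685343660) (nat_lit 84) (nat_lit 7530400086) (nat_lit 99) (nat_lit 5) (nat_lit 105) (nat_lit 5) (nat_lit 100) (nat_lit 5) (nat_lit 245) (nat_lit 213) (nat_lit 142))))) (XT.nd (nat_lit 282) (nat_lit 840) (nat_lit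 0) (XT.nd (nat_lit 94) (nat_lit 420) (nat_lit 0) (XT.lf (nat_lit 0) (nat_lit 4386462330) (nat_lit 504) (nat_lit 7373928281) (nat_lit 84) (nat_lit 450893067) (nat_lit 94) (nat_lit 5) (nat_lit 100) (nat_lit 5) (nat_lit 95) (nat_lit 5) (nat_lit 246) (nat_lit 213) (nat_lit 141)) (XT.nd (nat_lit 94) (nat_lit 0) (nat_lit 0) (XT.lf (nat_lit 0) (nat_lit 159455154) (nat_lit 420) (nat_lit 6990393886) (nat_lit 504) (nat_lit 5292237752) (nat_lit 89) (nat_lit 5) (nat_lit 94) (nat_lit 5) (nat_lit 95) (nat_lit 5) (nat_lit 247) (nat_lit 213) (nat_lit 140)) (XT.lf (nat_lit 0) (nat_lit 8096697702) (nat_lit 420) (nat_lit 1971645977) (nat_lit 504) (nat_lit 2610580707) (nat_lit 89) (nat_lit 5) (nat_lit 94) (nat_lit 5) (nat_lit 95) (nat_lit 5) (nat_lit 248) (nat_lit 213) (nat_lit 139)))) (XT.nd (nat_lit 94) (nat_lit 336) (nat_lit 0) (XT.lf (nat_lit 0) (nat_lit 207687827) (nat_lit 504) (nat_lit 9532617443) (nat_lit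 84) (nat_lit 3182054444) (nat_lit 83) (nat_lit 5) (nat_lit 89) (nat_lit 5) (nat_lit 84) (nat_lit 5) (nat_lit 249) (nat_lit 213) (nat_lit 138)) (XT.nd (nat_lit 94) (nat_lit 336) (nat_lit 0) (XT.lf (nat_lit 0) (nat_lit 3113241246) (nat_lit 504) (nat_lit 1511857935) (nat_lit 84) (nat_lit 8546415542) (nat_lit 83) (nat_lit 5) (nat_lit 89) (nat_lit 5) (nat_lit 84) (nat_lit 5) (nat_lit 250) (nat_lit 213) (nat_lit 137)) (XT.lf (nat_lit 0) (nat_lit 6179146436) (nat_lit 420) (nat_lit 6525030572) (nat_lit 84) (nat_lit 723160140) (nat_lit 79) (nat_lit 5) (nat_lit 84) (nat_lit 5) (nat_lit 80) (nat_lit 5) (nat_lit 251) (nat_lit 213) (nat_lit 136))))))))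
noncomputable def xc38 : XT := (XT.nd (nat_lit 35250) (nat_lit 0) (nat_lit 3444) (XT.nd (nat_lit 34122) (nat_lit 0) (nat_lit 12012) (XT.nd (nat_lit 470) (nat_lit 1428) (nat_lit 0) (XT.nd (nat_lit 188) (nat_lit 756) (nat_lit 0) (XT.nd (nat_lit 94) (nat_lit 0) (nat_lit 0) (XT.lf (nat_lit 0) (nat_lit 1909643190) (nat_lit 420) (nat_lit 7509194267) (nat_lit 504) (nat_lit 4270949132) (nat_lit 74) (nat_lit 5) (nat_lit 79) (nat_lit 5) (nat_lit 80) (nat_lit 5) (nat_lit 252) (nat_lit 213) (nat_lit 135)) (XT.lf (nat_lit 0) (nat_lit 10760726244) (nat_lit 420) (nat_lit 2062493847) (nat_lit 504) (nat_lit 1136406083) (nat_lit 74) (nat_lit 5) (nat_lit 79) (nat_lit 5) (nat_lit 80) (nat_lit 5) (nat_lit 253) (nat_lit 213) (nat_lit 134))) (XT.nd (nat_lit 94) (nat_lit 336) (nat_lit 0) (XT.lf (nat_lit 0) (nat_lit 2139797831) (nat_lit 420) (nat_lit 8522636224) (nat_lit 84) (nat_lit 3572862981) (nat_lit 69) (nat_lit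 5) (nat_lit 74) (nat_lit 5) (nat_lit 70) (nat_lit 5) (nat_lit 254) (nat_lit 213) (nat_lit 133)) (XT.nd (nat_lit 94) (nat_lit 0) (nat_lit 0) (XT.lf (nat_lit 0) (nat_lit 430864561) (nat_lit 336) (nat_lit 5115149463) (nat_lit 420) (nat_lit 8972673179) (nat_lit 65) (nat_lit 5) (nat_lit 69) (nat_lit 5) (nat_lit 70) (nat_lit 5) (nat_lit 255) (nat_lit 213) (nat_lit 132)) (XT.lf (nat_lit 0) (nat_lit 9155729130) (nat_lit 420) (nat_lit 4949783336) (nat_lit 84) (nat_lit 703533711) (nat_lit 65) (nat_lit 5) (nat_lit 70) (nat_lit 5) (nat_lit 66) (nat_lit 5) (nat_lit 256) (nat_lit 213) (nat_lit 131))))) (XT.nd (nat_lit 282) (nat_lit 672) (nat_lit 0) (XT.nd (nat_lit 94) (nat_lit 420) (nat_lit 0) (XT.lf (nat_lit 0) (nat_lit 4517169284) (nat_lit 336) (nat_lit 8460339405) (nat_lit 420) (nat_lit 2129058670) (nat_lit 61) (nat_lit 5) (nat_lit 65) (nat_lit 5) (nat_lit 66) (nat_lit 5) (nat_lit 257) (nat_lit 213)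 (nat_lit 130)) (XT.nd (nat_lit 94) (nat_lit 336) (nat_lit 0) (XT.lf (nat_lit 0) (nat_lit 1519753270) (nat_lit 420) (nat_lit 1030235200) (nat_lit 84) (nat_lit 12862673839) (nat_lit 60) (nat_lit 5) (nat_lit 65) (nat_lit 5) (nat_lit 61) (nat_lit 5) (nat_lit 258) (nat_lit 213) (nat_lit 129)) (XT.lf (nat_lit 0) (nat_lit 5365117012) (nat_lit 420) (nat_lit 6757058354) (nat_lit 84) (nat_lit 3602277602) (nat_lit 56) (nat_lit 5) (nat_lit 61) (nat_lit 5) (nat_lit 57) (nat_lit 5) (nat_lit 259) (nat_lit 213) (nat_lit 128)))) (XT.nd (nat_lit 94) (nat_lit 420) (nat_lit 0) (XT.lf (nat_lit 0) (nat_lit 3304716208) (nat_lit 252) (nat_lit 6096506649) (nat_lit 336) (nat_lit 6643968040) (nat_lit 53) (nat_lit 5) (nat_lit 56) (nat_lit 5) (nat_lit 57) (nat_lit 5) (nat_lit 260) (nat_lit 213) (nat_lit 127)) (XT.nd (nat_lit 94) (nat_lit 420) (nat_lit 0) (XT.lf (nat_lit 0) (nat_lit 13638693692) (nat_lit 336) (nat_lit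 2529817172) (nat_lit 84) (nat_lit 206540243) (nat_lit 53) (nat_lit 5) (nat_lit 57) (nat_lit 5) (nat_lit 54) (nat_lit 5) (nat_lit 261) (nat_lit 213) (nat_lit 126)) (XT.lf (nat_lit 0) (nat_lit 1419378542) (nat_lit 420) (nat_lit 8608485663) (nat_lit 84) (nat_lit 6683146518) (nat_lit 48) (nat_lit 5) (nat_lit 53) (nat_lit 5) (nat_lit 49) (nat_lit 5) (nat_lit 262) (nat_lit 213) (nat_lit 125)))))) (XT.nd (nat_lit 564) (nat_lit 840) (nat_lit 0) (XT.nd (nat_lit 282) (nat_lit 840) (nat_lit 0) (XT.nd (nat_lit 94) (nat_lit 0) (nat_lit 0) (XT.lf (nat_lit 0) (nat_lit 1247997240) (nat_lit 924) (nat_lit 1267064118) (nat_lit 924) (nat_lit 1267064118) (nat_lit 211) (nat_lit 3) (nat_lit 222) (nat_lit 3) (nat_lit 222) (nat_lit 5) (nat_lit 214) (nat_lit 214) (nat_lit 172)) (XT.nd (nat_lit 94) (nat_lit 0) (nat_lit 0) (XT.lf (nat_lit 84) (nat_lit 1276951183) (nat_lit 0) (nat_lit 2687709858) (nat_lit 924) (nat_lit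 3682089770) (nat_lit 212) (nat_lit 5) (nat_lit 211) (nat_lit 3) (nat_lit 222) (nat_lit 5) (nat_lit 215) (nat_lit 214) (nat_lit 171)) (XT.lf (nat_lit 84) (nat_lit 5248393111) (nat_lit 0) (nat_lit 201886400) (nat_lit 924) (nat_lit 2283064454) (nat_lit 212) (nat_lit 5) (nat_lit 211) (nat_lit 3) (nat_lit 222) (nat_lit 5) (nat_lit 216) (nat_lit 214) (nat_lit 170)))) (XT.nd (nat_lit 94) (nat_lit 924) (nat_lit 0) (XT.lf (nat_lit 84) (nat_lit 1508418173) (nat_lit 0) (nat_lit 5460851849) (nat_lit 924) (nat_lit 854349718) (nat_lit 213) (nat_lit 5) (nat_lit 212) (nat_lit 5) (nat_lit 223) (nat_lit 5) (nat_lit 217) (nat_lit 214) (nat_lit 169)) (XT.nd (nat_lit 94) (nat_lit 0) (nat_lit 0) (XT.lf (nat_lit 0) (nat_lit 581361614) (nat_lit 924) (nat_lit 2260671618) (nat_lit 1008) (nat_lit 5075788241) (nat_lit 201) (nat_lit 5) (nat_lit 212) (nat_lit 5) (nat_lit 213) (nat_lit 5) (nat_lit 218) (nat_lit 214) (nat_lit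 168)) (XT.lf (nat_lit 84) (nat_lit 1934765301) (nat_lit 0) (nat_lit 75283369) (nat_lit 1008) (nat_lit 6006229615) (nat_lit 202) (nat_lit 5) (nat_lit 201) (nat_lit 5) (nat_lit 213) (nat_lit 5) (nat_lit 219) (nat_lit 214) (nat_lit 167))))) (XT.nd (nat_lit 282) (nat_lit 924) (nat_lit 0) (XT.nd (nat_lit 94) (nat_lit 0) (nat_lit 0) (XT.lf (nat_lit 0) (nat_lit 3489861856) (nat_lit 924) (nat_lit 1854168181) (nat_lit 1008) (nat_lit 2774111774) (nat_lit 202) (nat_lit 5) (nat_lit 213) (nat_lit 5) (nat_lit 214) (nat_lit 5) (nat_lit 220) (nat_lit 214) (nat_lit 166)) (XT.nd (nat_lit 94) (nat_lit 0) (nat_lit 84) (XT.lf (nat_lit 84) (nat_lit 2542284915) (nat_lit 0) (nat_lit 2453374985) (nat_lit 1008) (nat_lit 3228813962) (nat_lit 203) (nat_lit 5) (nat_lit 202) (nat_lit 5) (nat_lit 214) (nat_lit 5) (nat_lit 221) (nat_lit 214) (nat_lit 165)) (XT.lf (nat_lit 0) (nat_lit 6528959678) (nat_lit 924) (nat_lit 1240173587)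 (nat_lit 1008) (nat_lit 566276313) (nat_lit 203) (nat_lit 5) (nat_lit 214) (nat_lit 5) (nat_lit 215) (nat_lit 5) (nat_lit 222) (nat_lit 214) (nat_lit 164)))) (XT.nd (nat_lit 94) (nat_lit 1008) (nat_lit 0) (XT.lf (nat_lit 84) (nat_lit 3369382479) (nat_lit 0) (nat_lit 4760849135) (nat_lit 1008) (nat_lit 319495697) (nat_lit 204) (nat_lit 5) (nat_lit 203) (nat_lit 5) (nat_lit 215) (nat_lit 5) (nat_lit 223) (nat_lit 214) (nat_lit 163)) (XT.nd (nat_lit 94) (nat_lit 0) (nat_lit 84) (XT.lf (nat_lit 0) (nat_lit 1155891707) (nat_lit 1008) (nat_lit 448040502) (nat_lit 1092) (nat_lit 6964896939) (nat_lit 191) (nat_lit 5) (nat_lit 203) (nat_lit 5) (nat_lit 204) (nat_lit 5) (nat_lit 224) (nat_lit 214) (nat_lit 162)) (XT.lf (nat_lit 0) (nat_lit 2694773162) (nat_lit 1008) (nat_lit 4304182743) (nat_lit 1092) (nat_lit 1692337320) (nat_lit 192) (nat_lit 5) (nat_lit 204) (nat_lit 5) (nat_lit 205) (nat_lit 5)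 (nat_lit 225) (nat_lit 214) (nat_lit 161))))))) (XT.nd (nat_lit 1128) (nat_lit 3444) (nat_lit 0) (XT.nd (nat_lit 564) (nat_lit 3108) (nat_lit 0) (XT.nd (nat_lit 282) (nat_lit 1176) (nat_lit 0) (XT.nd (nat_lit 94) (nat_lit 924) (nat_lit 0) (XT.lf (nat_lit 84) (nat_lit 541138600) (nat_lit 0) (nat_lit 3728613568) (nat_lit 1092) (nat_lit 4548913093) (nat_lit 193) (nat_lit 5) (nat_lit 192) (nat_lit 5) (nat_lit 205) (nat_lit 5) (nat_lit 226) (nat_lit 214) (nat_lit 160)) (XT.nd (nat_lit 94) (nat_lit 924) (nat_lit 0) (XT.lf (nat_lit 84) (nat_lit 5622855754) (nat_lit 0) (nat_lit 281354187) (nat_lit 1092) (nat_lit 3046132969) (nat_lit 193) (nat_lit 5) (nat_lit 192) (nat_lit 5) (nat_lit 205) (nat_lit 5) (nat_lit 227) (nat_lit 214) (nat_lit 159)) (XT.lf (nat_lit 0) (nat_lit 1762155167) (nat_lit 1008) (nat_lit 5845215327) (nat_lit 1092) (nat_lit 1478856396) (nat_lit 181) (nat_lit 5) (nat_lit 193) (nat_lit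 5) (nat_lit 194) (nat_lit 5) (nat_lit 228) (nat_lit 214) (nat_lit 158)))) (XT.nd (nat_lit 94) (nat_lit 1092) (nat_lit 0) (XT.lf (nat_lit 0) (nat_lit 138832830) (nat_lit 1092) (nat_lit 2158538224) (nat_lit 84) (nat_lit 6929481651) (nat_lit 180) (nat_lit 5) (nat_lit 193) (nat_lit 5) (nat_lit 181) (nat_lit 5) (nat_lit 229) (nat_lit 214) (nat_lit 157)) (XT.nd (nat_lit 94) (nat_lit 0) (nat_lit 0) (XT.lf (nat_lit 0) (nat_lit 1787505055) (nat_lit 1176) (nat_lit 6180904302) (nat_lit 84) (nat_lit 1403076732) (nat_lit 167) (nat_lit 5) (nat_lit 181) (nat_lit 5) (nat_lit 168) (nat_lit 5) (nat_lit 230) (nat_lit 214) (nat_lit 156)) (XT.lf (nat_lit 0) (nat_lit 3504583539) (nat_lit 1176) (nat_lit 805747710) (nat_lit 84) (nat_lit 5210475795) (nat_lit 167) (nat_lit 5) (nat_lit 181) (nat_lit 5) (nat_lit 168) (nat_lit 5) (nat_lit 231) (nat_lit 214) (nat_lit 155))))) (XT.nd (nat_lit 282) (nat_lit 1260) (nat_lit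 0) (XT.nd (nat_lit 94) (nat_lit 672) (nat_lit 0) (XT.lf (nat_lit 0) (nat_lit 4830919696) (nat_lit 1176) (nat_lit 464517524) (nat_lit 1260) (nat_lit 4379438302) (nat_lit 153) (nat_lit 5) (nat_lit 167) (nat_lit 5) (nat_lit 168) (nat_lit 5) (nat_lit 232) (nat_lit 214) (nat_lit 154)) (XT.nd (nat_lit 94) (nat_lit 0) (nat_lit 0) (XT.lf (nat_lit 0) (nat_lit 791727145) (nat_lit 672) (nat_lit 6375705496) (nat_lit 756) (nat_lit 2666257592) (nat_lit 145) (nat_lit 5) (nat_lit 153) (nat_lit 5) (nat_lit 154) (nat_lit 5) (nat_lit 233) (nat_lit 214) (nat_lit 153)) (XT.lf (nat_lit 0) (nat_lit 6698761075) (nat_lit 672) (nat_lit 2430402862) (nat_lit 756) (nat_lit 868051960) (nat_lit 145) (nat_lit 5) (nat_lit 153) (nat_lit 5) (nat_lit 154) (nat_lit 5) (nat_lit 234) (nat_lit 214) (nat_lit 152)))) (XT.nd (nat_lit 94) (nat_lit 588) (nat_lit 0) (XT.lf (nat_lit 0) (nat_lit 981728097) (nat_lit 672) (nat_lit 7526302722)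 (nat_lit 84) (nat_lit 1657656439) (nat_lit 137) (nat_lit 5) (nat_lit 145) (nat_lit 5) (nat_lit 138) (nat_lit 5) (nat_lit 235) (nat_lit 214) (nat_lit 151)) (XT.nd (nat_lit 94) (nat_lit 588) (nat_lit 0) (XT.lf (nat_lit 0) (nat_lit 2906776027) (nat_lit 672) (nat_lit 1550153937) (nat_lit 84) (nat_lit 5881693395) (nat_lit 137) (nat_lit 5) (nat_lit 145) (nat_lit 5) (nat_lit 138) (nat_lit 5) (nat_lit 236) (nat_lit 214) (nat_lit 150)) (XT.lf (nat_lit 0) (nat_lit 4705895780) (nat_lit 588) (nat_lit 210472625) (nat_lit 672) (nat_lit 5600642946) (nat_lit 130) (nat_lit 5) (nat_lit 137) (nat_lit 5) (nat_lit 138) (nat_lit 5) (nat_lit 237) (nat_lit 214) (nat_lit 149)))))) (XT.nd (nat_lit 564) (nat_lit 1344) (nat_lit 0) (XT.nd (nat_lit 282) (nat_lit 1008) (nat_lit 0) (XT.nd (nat_lit 94) (nat_lit 588) (nat_lit 0) (XT.lf (nat_lit 0) (nat_lit 443597766) (nat_lit 504) (nat_lit 6588287442) (nat_lit 588) (nat_lit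 3668512112) (nat_lit 124) (nat_lit 5) (nat_lit 130) (nat_lit 5) (nat_lit 131) (nat_lit 5) (nat_lit 238) (nat_lit 214) (nat_lit 148)) (XT.nd (nat_lit 94) (nat_lit 588) (nat_lit 0) (XT.lf (nat_lit 0) (nat_lit 7017948696) (nat_lit 504) (nat_lit 2240744676) (nat_lit 588) (nat_lit 1630204735) (nat_lit 124) (nat_lit 5) (nat_lit 130) (nat_lit 5) (nat_lit 131) (nat_lit 5) (nat_lit 239) (nat_lit 214) (nat_lit 147)) (XT.lf (nat_lit 0) (nat_lit 491919675) (nat_lit 588) (nat_lit 8349669157) (nat_lit 84) (nat_lit 2241403463) (nat_lit 117) (nat_lit 5) (nat_lit 124) (nat_lit 5) (nat_lit 118) (nat_lit 5) (nat_lit 240) (nat_lit 214) (nat_lit 146)))) (XT.nd (nat_lit 94) (nat_lit 1008) (nat_lit 0) (XT.lf (nat_lit 0) (nat_lit 2689831746) (nat_lit 588) (nat_lit 1702304108) (nat_lit 84) (nat_lit 6889693959) (nat_lit 117) (nat_lit 5) (nat_lit 124) (nat_lit 5) (nat_lit 118) (nat_lit 5) (nat_lit 241) (nat_lit 214)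 (nat_lit 145)) (XT.nd (nat_lit 94) (nat_lit 504) (nat_lit 0) (XT.lf (nat_lit 0) (nat_lit 4995120175) (nat_lit 588) (nat_lit 6227961434) (nat_lit 84) (nat_lit 263479304) (nat_lit 111) (nat_lit 5) (nat_lit 118) (nat_lit 5) (nat_lit 112) (nat_lit 5) (nat_lit 242) (nat_lit 214) (nat_lit 144)) (XT.lf (nat_lit 0) (nat_lit 736133284) (nat_lit 504) (nat_lit 6693566746) (nat_lit 588) (nat_lit 4267056351) (nat_lit 105) (nat_lit 5) (nat_lit 111) (nat_lit 5) (nat_lit 112) (nat_lit 5) (nat_lit 243) (nat_lit 214) (nat_lit 143))))) (XT.nd (nat_lit 282) (nat_lit 840) (nat_lit 0) (XT.nd (nat_lit 94) (nat_lit 504) (nat_lit 0) (XT.lf (nat_lit 0) (nat_lit 8057996752) (nat_lit 504) (nat_lit 1935054425) (nat_lit 588) (nat_lit 1919732879) (nat_lit 105) (nat_lit 5) (nat_lit 111) (nat_lit 5) (nat_lit 112) (nat_lit 5) (nat_lit 244) (nat_lit 214) (nat_lit 142)) (XT.nd (nat_lit 94) (nat_lit 0) (nat_lit 0) (XT.lf (nat_lit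 0) (nat_lit 542147399) (nat_lit 504) (nat_lit 8630263750) (nat_lit 84) (nat_lit 2962224209) (nat_lit 99) (nat_lit 5) (nat_lit 105) (nat_lit 5) (nat_lit 100) (nat_lit 5) (nat_lit 245) (nat_lit 214) (nat_lit 141)) (XT.lf (nat_lit 0) (nat_lit 3084755338) (nat_lit 504) (nat_lit 1229511358) (nat_lit 84) (nat_lit 8047823422) (nat_lit 99) (nat_lit 5) (nat_lit 105) (nat_lit 5) (nat_lit 100) (nat_lit 5) (nat_lit 246) (nat_lit 214) (nat_lit 140)))) (XT.nd (nat_lit 94) (nat_lit 420) (nat_lit 0) (XT.lf (nat_lit 0) (nat_lit 5770254032) (nat_lit 504) (nat_lit 6060326698) (nat_lit 84) (nat_lit 765038583) (nat_lit 94) (nat_lit 5) (nat_lit 100) (nat_lit 5) (nat_lit 95) (nat_lit 5) (nat_lit 247) (nat_lit 214) (nat_lit 139)) (XT.nd (nat_lit 94) (nat_lit 0) (nat_lit 0) (XT.lf (nat_lit 0) (nat_lit 1718806878) (nat_lit 420) (nat_lit 6887261564) (nat_lit 504) (nat_lit 4229282274) (nat_lit 89) (nat_lit 5) (nat_lit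 94) (nat_lit 5) (nat_lit 95) (nat_lit 5) (nat_lit 248) (nat_lit 214) (nat_lit 138)) (XT.lf (nat_lit 0) (nat_lit 9881309941) (nat_lit 420) (nat_lit 1704618700) (nat_lit 504) (nat_lit 1495976346) (nat_lit 89) (nat_lit 5) (nat_lit 94) (nat_lit 5) (nat_lit 95) (nat_lit 5) (nat_lit 249) (nat_lit 214) (nat_lit 137))))))))
noncomputable def xc39 : XT := (XT.nd (nat_lit 35344) (nat_lit 0) (nat_lit 3444) (XT.nd (nat_lit 1034) (nat_lit 252) (nat_lit 0) (XT.nd (nat_lit 470) (nat_lit 1512) (nat_lit 0) (XT.nd (nat_lit 188) (nat_lit 756) (nat_lit 0) (XT.nd (nat_lit 94) (nat_lit 0) (nat_lit 0) (XT.lf (nat_lit 0) (nat_lit 1374528768) (nat_lit 504) (nat_lit 8318628415) (nat_lit 84) (nat_lit 3640900105) (nat_lit 83) (nat_lit 5) (nat_lit 89) (nat_lit 5) (nat_lit 84) (nat_lit 5) (nat_lit 250) (nat_lit 214) (nat_lit 136)) (XT.lf (nat_lit 0) (nat_lit 4342563981) (nat_lit 504) (nat_lit 69477660) (nat_lit 84) (nat_lit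 9181263521) (nat_lit 83) (nat_lit 5) (nat_lit 89) (nat_lit 5) (nat_lit 84) (nat_lit 5) (nat_lit 251) (nat_lit 214) (nat_lit 135))) (XT.nd (nat_lit 94) (nat_lit 420) (nat_lit 0) (XT.lf (nat_lit 0) (nat_lit 7498586434) (nat_lit 420) (nat_lit 5240921920) (nat_lit 84) (nat_lit 1119174650) (nat_lit 79) (nat_lit 5) (nat_lit 84) (nat_lit 5) (nat_lit 80) (nat_lit 5) (nat_lit 252) (nat_lit 214) (nat_lit 134)) (XT.nd (nat_lit 94) (nat_lit 0) (nat_lit 0) (XT.lf (nat_lit 0) (nat_lit 3471722112) (nat_lit 420) (nat_lit 7359299470) (nat_lit 504) (nat_lit 3300019168) (nat_lit 74) (nat_lit 5) (nat_lit 79) (nat_lit 5) (nat_lit 80) (nat_lit 5) (nat_lit 253) (nat_lit 214) (nat_lit 133)) (XT.lf (nat_lit 0) (nat_lit 12582029355) (nat_lit 420) (nat_lit 1735921135) (nat_lit 504) (nat_lit 93655481) (nat_lit 74) (nat_lit 5) (nat_lit 79) (nat_lit 5) (nat_lit 80) (nat_lit 5) (nat_lit 254) (nat_lit 214) (nat_lit 132)))))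 (XT.nd (nat_lit 282) (nat_lit 756) (nat_lit 0) (XT.nd (nat_lit 94) (nat_lit 336) (nat_lit 0) (XT.lf (nat_lit 0) (nat_lit 3257690519) (nat_lit 420) (nat_lit 7336725749) (nat_lit 84) (nat_lit 4102611174) (nat_lit 69) (nat_lit 5) (nat_lit 74) (nat_lit 5) (nat_lit 70) (nat_lit 5) (nat_lit 255) (nat_lit 214) (nat_lit 131)) (XT.nd (nat_lit 94) (nat_lit 0) (nat_lit 0) (XT.lf (nat_lit 0) (nat_lit 1913226686) (nat_lit 336) (nat_lit 4850975743) (nat_lit 420) (nat_lit 8226796098) (nat_lit 65) (nat_lit 5) (nat_lit 69) (nat_lit 5) (nat_lit 70) (nat_lit 5) (nat_lit 256) (nat_lit 214) (nat_lit 130)) (XT.lf (nat_lit 0) (nat_lit 10470398161) (nat_lit 420) (nat_lit 3675502712) (nat_lit 84) (nat_lit 1146664272) (nat_lit 65) (nat_lit 5) (nat_lit 70) (nat_lit 5) (nat_lit 66) (nat_lit 5) (nat_lit 257) (nat_lit 214) (nat_lit 129)))) (XT.nd (nat_lit 94) (nat_lit 420) (nat_lit 0) (XT.lf (nat_lit 0) (nat_lit 6106290544)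 (nat_lit 336) (nat_lit 8301973188) (nat_lit 420) (nat_lit 1192854507) (nat_lit 61) (nat_lit 5) (nat_lit 65) (nat_lit 5) (nat_lit 66) (nat_lit 5) (nat_lit 258) (nat_lit 214) (nat_lit 128)) (XT.nd (nat_lit 94) (nat_lit 0) (nat_lit 0) (XT.lf (nat_lit 0) (nat_lit 346330081) (nat_lit 336) (nat_lit 2184873266) (nat_lit 420) (nat_lit 13387363088) (nat_lit 56) (nat_lit 5) (nat_lit 60) (nat_lit 5) (nat_lit 61) (nat_lit 5) (nat_lit 259) (nat_lit 214) (nat_lit 127)) (XT.lf (nat_lit 0) (nat_lit 6495522140) (nat_lit 420) (nat_lit 5577010846) (nat_lit 84) (nat_lit 4169283925) (nat_lit 56) (nat_lit 5) (nat_lit 61) (nat_lit 5) (nat_lit 57) (nat_lit 5) (nat_lit 260) (nat_lit 214) (nat_lit 126)))))) (XT.nd (nat_lit 33746) (nat_lit 0) (nat_lit 11508) (XT.nd (nat_lit 33464) (nat_lit 0) (nat_lit 12348) (XT.nd (nat_lit 94) (nat_lit 0) (nat_lit 0) (XT.lf (nat_lit 0) (nat_lit 4820776294) (nat_lit 252) (nat_lit 5835842563)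 (nat_lit 336) (nat_lit 5917731358) (nat_lit 53) (nat_lit 5) (nat_lit 56) (nat_lit 5) (nat_lit 57) (nat_lit 5) (nat_lit 261) (nat_lit 214) (nat_lit 125)) (XT.nd (nat_lit 33276) (nat_lit 0) (nat_lit 13272) (XT.lf (nat_lit 0) (nat_lit 15016178450) (nat_lit 336) (nat_lit 1239099386) (nat_lit 84) (nat_lit 661395493) (nat_lit 53) (nat_lit 5) (nat_lit 57) (nat_lit 5) (nat_lit 54) (nat_lit 5) (nat_lit 262) (nat_lit 214) (nat_lit 124)) (XT.lf (nat_lit 0) (nat_lit 2686716934) (nat_lit 924) (nat_lit 589478270) (nat_lit 924) (nat_lit 589478270) (nat_lit 211) (nat_lit 3) (nat_lit 222) (nat_lit 3) (nat_lit 222) (nat_lit 5) (nat_lit 215) (nat_lit 215) (nat_lit 170)))) (XT.nd (nat_lit 94) (nat_lit 924) (nat_lit 0) (XT.lf (nat_lit 84) (nat_lit 2749049642) (nat_lit 0) (nat_lit 4066007961) (nat_lit 924) (nat_lit 1004422316) (nat_lit 212) (nat_lit 5) (nat_lit 211) (nat_lit 3) (nat_lit 222) (nat_lit 5) (nat_lit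 216) (nat_lit 215) (nat_lit 169)) (XT.nd (nat_lit 94) (nat_lit 0) (nat_lit 84) (XT.lf (nat_lit 0) (nat_lit 340756064) (nat_lit 924) (nat_lit 1104975799) (nat_lit 1008) (nat_lit 6466445423) (nat_lit 200) (nat_lit 5) (nat_lit 211) (nat_lit 3) (nat_lit 212) (nat_lit 5) (nat_lit 217) (nat_lit 215) (nat_lit 168)) (XT.lf (nat_lit 0) (nat_lit 1699358927) (nat_lit 924) (nat_lit 4999173415) (nat_lit 1008) (nat_lit 1309534286) (nat_lit 201) (nat_lit 5) (nat_lit 212) (nat_lit 5) (nat_lit 213) (nat_lit 5) (nat_lit 218) (nat_lit 215) (nat_lit 167))))) (XT.nd (nat_lit 282) (nat_lit 924) (nat_lit 0) (XT.nd (nat_lit 94) (nat_lit 0) (nat_lit 0) (XT.lf (nat_lit 0) (nat_lit 3078579912) (nat_lit 924) (nat_lit 864232092) (nat_lit 1008) (nat_lit 4165442748) (nat_lit 201) (nat_lit 5) (nat_lit 212) (nat_lit 5) (nat_lit 213) (nat_lit 5) (nat_lit 219) (nat_lit 215) (nat_lit 166)) (XT.nd (nat_lit 94) (nat_lit 0) (nat_lit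 84) (XT.lf (nat_lit 84) (nat_lit 3461222740) (nat_lit 0) (nat_lit 1028542872) (nat_lit 1008) (nat_lit 3722754629) (nat_lit 202) (nat_lit 5) (nat_lit 201) (nat_lit 5) (nat_lit 213) (nat_lit 5) (nat_lit 220) (nat_lit 215) (nat_lit 165)) (XT.lf (nat_lit 0) (nat_lit 5929662323) (nat_lit 924) (nat_lit 417942871) (nat_lit 1008) (nat_lit 1973553646) (nat_lit 202) (nat_lit 5) (nat_lit 213) (nat_lit 5) (nat_lit 214) (nat_lit 5) (nat_lit 221) (nat_lit 215) (nat_lit 164)))) (XT.nd (nat_lit 94) (nat_lit 1008) (nat_lit 0) (XT.lf (nat_lit 84) (nat_lit 4115272325) (nat_lit 0) (nat_lit 3311051190) (nat_lit 1008) (nat_lit 1007053390) (nat_lit 203) (nat_lit 5) (nat_lit 202) (nat_lit 5) (nat_lit 214) (nat_lit 5) (nat_lit 222) (nat_lit 215) (nat_lit 163)) (XT.nd (nat_lit 94) (nat_lit 0) (nat_lit 84) (XT.lf (nat_lit 84) (nat_lit 234296573) (nat_lit 0) (nat_lit 138939490) (nat_lit 1092) (nat_lit 8177623841) (nat_lit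 191) (nat_lit 5) (nat_lit 190) (nat_lit 5) (nat_lit 203) (nat_lit 5) (nat_lit 223) (nat_lit 215) (nat_lit 162)) (XT.lf (nat_lit 0) (nat_lit 1815730455) (nat_lit 1008) (nat_lit 3703743924) (nat_lit 1092) (nat_lit 3151260471) (nat_lit 191) (nat_lit 5) (nat_lit 203) (nat_lit 5) (nat_lit 204) (nat_lit 5) (nat_lit 224) (nat_lit 215) (nat_lit 161))))))) (XT.nd (nat_lit 1128) (nat_lit 3612) (nat_lit 0) (XT.nd (nat_lit 564) (nat_lit 3612) (nat_lit 0) (XT.nd (nat_lit 282) (nat_lit 924) (nat_lit 0) (XT.nd (nat_lit 94) (nat_lit 0) (nat_lit 84) (XT.lf (nat_lit 84) (nat_lit 1058568777) (nat_lit 0) (nat_lit 2216154177) (nat_lit 1092) (nat_lit 5521272088) (nat_lit 192) (nat_lit 5) (nat_lit 191) (nat_lit 5) (nat_lit 204) (nat_lit 5) (nat_lit 225) (nat_lit 215) (nat_lit 160)) (XT.nd (nat_lit 94) (nat_lit 0) (nat_lit 0) (XT.lf (nat_lit 0) (nat_lit 4796362457) (nat_lit 1008) (nat_lit 2897232649) (nat_lit 1092)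 (nat_lit 1231638854) (nat_lit 192) (nat_lit 5) (nat_lit 204) (nat_lit 5) (nat_lit 205) (nat_lit 5) (nat_lit 226) (nat_lit 215) (nat_lit 159)) (XT.lf (nat_lit 84) (nat_lit 2099917326) (nat_lit 0) (nat_lit 4275826746) (nat_lit 1092) (nat_lit 2683095203) (nat_lit 193) (nat_lit 5) (nat_lit 192) (nat_lit 5) (nat_lit 205) (nat_lit 5) (nat_lit 227) (nat_lit 215) (nat_lit 158)))) (XT.nd (nat_lit 94) (nat_lit 1008) (nat_lit 0) (XT.lf (nat_lit 84) (nat_lit 7307422734) (nat_lit 0) (nat_lit 693821587) (nat_lit 1092) (nat_lit 1196197045) (nat_lit 193) (nat_lit 5) (nat_lit 192) (nat_lit 5) (nat_lit 205) (nat_lit 5) (nat_lit 228) (nat_lit 215) (nat_lit 157)) (XT.nd (nat_lit 94) (nat_lit 0) (nat_lit 0) (XT.lf (nat_lit 0) (nat_lit 364592900) (nat_lit 1092) (nat_lit 5979545924) (nat_lit 84) (nat_lit 2995585283) (nat_lit 180) (nat_lit 5) (nat_lit 193) (nat_lit 5) (nat_lit 181) (nat_lit 5) (nat_lit 229) (nat_lit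 215) (nat_lit 156)) (XT.lf (nat_lit 0) (nat_lit 1941280051) (nat_lit 1092) (nat_lit 703832034) (nat_lit 84) (nat_lit 6841764883) (nat_lit 180) (nat_lit 5) (nat_lit 193) (nat_lit 5) (nat_lit 181) (nat_lit 5) (nat_lit 230) (nat_lit 215) (nat_lit 155))))) (XT.nd (nat_lit 282) (nat_lit 1344) (nat_lit 0) (XT.nd (nat_lit 94) (nat_lit 1176) (nat_lit 0) (XT.lf (nat_lit 0) (nat_lit 3601040195) (nat_lit 1176) (nat_lit 4820365317) (nat_lit 84) (nat_lit 1216798554) (nat_lit 167) (nat_lit 5) (nat_lit 181) (nat_lit 5) (nat_lit 168) (nat_lit 5) (nat_lit 231) (nat_lit 215) (nat_lit 154)) (XT.nd (nat_lit 94) (nat_lit 0) (nat_lit 0) (XT.lf (nat_lit 0) (nat_lit 705596517) (nat_lit 1176) (nat_lit 4621270141) (nat_lit 1260) (nat_lit 4467681838) (nat_lit 153) (nat_lit 5) (nat_lit 167) (nat_lit 5) (nat_lit 168) (nat_lit 5) (nat_lit 232) (nat_lit 215) (nat_lit 153)) (XT.lf (nat_lit 0) (nat_lit 6506178971) (nat_lit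 1176) (nat_lit 625932133) (nat_lit 1260) (nat_lit 2823588387) (nat_lit 153) (nat_lit 5) (nat_lit 167) (nat_lit 5) (nat_lit 168) (nat_lit 5) (nat_lit 233) (nat_lit 215) (nat_lit 152)))) (XT.nd (nat_lit 94) (nat_lit 672) (nat_lit 0) (XT.lf (nat_lit 0) (nat_lit 2367179953) (nat_lit 672) (nat_lit 6662286729) (nat_lit 756) (nat_lit 1092011623) (nat_lit 145) (nat_lit 5) (nat_lit 153) (nat_lit 5) (nat_lit 154) (nat_lit 5) (nat_lit 234) (nat_lit 215) (nat_lit 151)) (XT.nd (nat_lit 94) (nat_lit 588) (nat_lit 0) (XT.lf (nat_lit 0) (nat_lit 696579253) (nat_lit 756) (nat_lit 1871954813) (nat_lit 84) (nat_lit 7723822295) (nat_lit 144) (nat_lit 5) (nat_lit 153) (nat_lit 5) (nat_lit 145) (nat_lit 5) (nat_lit 235) (nat_lit 215) (nat_lit 150)) (XT.lf (nat_lit 0) (nat_lit 2554090831) (nat_lit 672) (nat_lit 6221148426) (nat_lit 84) (nat_lit 1692416977) (nat_lit 137) (nat_lit 5) (nat_lit 145) (nat_lit 5) (nat_lit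 138) (nat_lit 5) (nat_lit 236) (nat_lit 215) (nat_lit 149)))))) (XT.nd (nat_lit 564) (nat_lit 1932) (nat_lit 0) (XT.nd (nat_lit 282) (nat_lit 588) (nat_lit 0) (XT.nd (nat_lit 94) (nat_lit 1092) (nat_lit 0) (XT.lf (nat_lit 0) (nat_lit 4494505701) (nat_lit 672) (nat_lit 88878029) (nat_lit 84) (nat_lit 6065081709) (nat_lit 137) (nat_lit 5) (nat_lit 145) (nat_lit 5) (nat_lit 138) (nat_lit 5) (nat_lit 237) (nat_lit 215) (nat_lit 148)) (XT.nd (nat_lit 94) (nat_lit 504) (nat_lit 0) (XT.lf (nat_lit 0) (nat_lit 6368855384) (nat_lit 588) (nat_lit 172021236) (nat_lit 672) (nat_lit 4293394893) (nat_lit 130) (nat_lit 5) (nat_lit 137) (nat_lit 5) (nat_lit 138) (nat_lit 5) (nat_lit 238) (nat_lit 215) (nat_lit 147)) (XT.lf (nat_lit 0) (nat_lit 1990046868) (nat_lit 504) (nat_lit 6708824495) (nat_lit 588) (nat_lit 2326309407) (nat_lit 124) (nat_lit 5) (nat_lit 130) (nat_lit 5) (nat_lit 131) (nat_lit 5) (nat_lit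 239) (nat_lit 215) (nat_lit 146)))) (XT.nd (nat_lit 94) (nat_lit 588) (nat_lit 0) (XT.lf (nat_lit 0) (nat_lit 8742729731) (nat_lit 504) (nat_lit 2212839331) (nat_lit 588) (nat_lit 266391728) (nat_lit 124) (nat_lit 5) (nat_lit 130) (nat_lit 5) (nat_lit 131) (nat_lit 5) (nat_lit 240) (nat_lit 215) (nat_lit 145)) (XT.nd (nat_lit 94) (nat_lit 0) (nat_lit 0) (XT.lf (nat_lit 0) (nat_lit 1868991560) (nat_lit 588) (nat_lit 7101739272) (nat_lit 84) (nat_lit 2452571278) (nat_lit 117) (nat_lit 5) (nat_lit 124) (nat_lit 5) (nat_lit 118) (nat_lit 5) (nat_lit 241) (nat_lit 215) (nat_lit 144)) (XT.lf (nat_lit 0) (nat_lit 4097845129) (nat_lit 588) (nat_lit 273799432) (nat_lit 84) (nat_lit 7259063870) (nat_lit 117) (nat_lit 5) (nat_lit 124) (nat_lit 5) (nat_lit 118) (nat_lit 5) (nat_lit 242) (nat_lit 215) (nat_lit 143))))) (XT.nd (nat_lit 282) (nat_lit 924) (nat_lit 0) (XT.nd (nat_lit 94) (nat_lit 504) (nat_lit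 0) (XT.lf (nat_lit 0) (nat_lit 6457844261) (nat_lit 588) (nat_lit 4931880371) (nat_lit 84) (nat_lit 453789593) (nat_lit 111) (nat_lit 5) (nat_lit 118) (nat_lit 5) (nat_lit 112) (nat_lit 5) (nat_lit 243) (nat_lit 215) (nat_lit 142)) (XT.nd (nat_lit 94) (nat_lit 0) (nat_lit 0) (XT.lf (nat_lit 0) (nat_lit 2258696395) (nat_lit 504) (nat_lit 6692063568) (nat_lit 588) (nat_lit 3111247177) (nat_lit 105) (nat_lit 5) (nat_lit 111) (nat_lit 5) (nat_lit 112) (nat_lit 5) (nat_lit 244) (nat_lit 215) (nat_lit 141)) (XT.lf (nat_lit 0) (nat_lit 9786208712) (nat_lit 504) (nat_lit 1774976484) (nat_lit 588) (nat_lit 725903098) (nat_lit 105) (nat_lit 5) (nat_lit 111) (nat_lit 5) (nat_lit 112) (nat_lit 5) (nat_lit 245) (nat_lit 215) (nat_lit 140)))) (XT.nd (nat_lit 94) (nat_lit 420) (nat_lit 0) (XT.lf (nat_lit 0) (nat_lit 1770915082) (nat_lit 504) (nat_lit 7434913001) (nat_lit 84) (nat_lit 3311176775) (nat_lit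 99) (nat_lit 5) (nat_lit 105) (nat_lit 5) (nat_lit 100) (nat_lit 5) (nat_lit 246) (nat_lit 215) (nat_lit 139)) (XT.nd (nat_lit 94) (nat_lit 0) (nat_lit 0) (XT.lf (nat_lit 0) (nat_lit 178270834) (nat_lit 420) (nat_lit 4185318926) (nat_lit 504) (nat_lit 8390193132) (nat_lit 94) (nat_lit 5) (nat_lit 99) (nat_lit 5) (nat_lit 100) (nat_lit 5) (nat_lit 247) (nat_lit 215) (nat_lit 138)) (XT.lf (nat_lit 0) (nat_lit 7120678950) (nat_lit 504) (nat_lit 4805249566) (nat_lit 84) (nat_lit 1070341162) (nat_lit 94) (nat_lit 5) (nat_lit 100) (nat_lit 5) (nat_lit 95) (nat_lit 5) (nat_lit 248) (nat_lit 215) (nat_lit 137))))))))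
noncomputable def xc40 : XT := (XT.nd (nat_lit 35438) (nat_lit 0) (nat_lit 3864) (XT.nd (nat_lit 1034) (nat_lit 672) (nat_lit 0) (XT.nd (nat_lit 470) (nat_lit 1512) (nat_lit 0) (XT.nd (nat_lit 188) (nat_lit 840) (nat_lit 0) (XT.nd (nat_lit 94) (nat_lit 0) (nat_lit 0) (XT.lf (nat_lit 0) (nat_lit 3229426780) (nat_lit 420) (nat_lit 6803644331) (nat_lit 504) (nat_lit 3212114221) (nat_lit 89) (nat_lit 5) (nat_lit 94) (nat_lit 5) (nat_lit 95) (nat_lit 5) (nat_lit 249) (nat_lit 215) (nat_lit 136)) (XT.lf (nat_lit 0) (nat_lit 11628568023) (nat_lit 420) (nat_lit 1450588193) (nat_lit 504) (nat_lit 422545245) (nat_lit 89) (nat_lit 5) (nat_lit 94) (nat_lit 5) (nat_lit 95) (nat_lit 5) (nat_lit 250) (nat_lit 215) (nat_lit 135))) (XT.nd (nat_lit 94) (nat_lit 336) (nat_lit 0) (XT.lf (nat_lit 0) (nat_lit 2505110020) (nat_lit 504) (nat_lit 7165050649) (nat_lit 84) (nat_lit 4092702078) (nat_lit 83) (nat_lit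 5) (nat_lit 89) (nat_lit 5) (nat_lit 84) (nat_lit 5) (nat_lit 251) (nat_lit 215) (nat_lit 134)) (XT.nd (nat_lit 94) (nat_lit 0) (nat_lit 0) (XT.lf (nat_lit 0) (nat_lit 1354681200) (nat_lit 336) (nat_lit 4200833969) (nat_lit 420) (nat_lit 8476422024) (nat_lit 79) (nat_lit 5) (nat_lit 83) (nat_lit 5) (nat_lit 84) (nat_lit 5) (nat_lit 252) (nat_lit 215) (nat_lit 133)) (XT.lf (nat_lit 0) (nat_lit 8790857839) (nat_lit 420) (nat_lit 4012433514) (nat_lit 84) (nat_lit 1504401824) (nat_lit 79) (nat_lit 5) (nat_lit 84) (nat_lit 5) (nat_lit 80) (nat_lit 5) (nat_lit 253) (nat_lit 215) (nat_lit 132))))) (XT.nd (nat_lit 282) (nat_lit 672) (nat_lit 0) (XT.nd (nat_lit 94) (nat_lit 420) (nat_lit 0) (XT.lf (nat_lit 0) (nat_lit 4989056243) (nat_lit 420) (nat_lit 7231599593) (nat_lit 504) (nat_lit 2369602143) (nat_lit 74) (nat_lit 5) (nat_lit 79) (nat_lit 5) (nat_lit 80) (nat_lit 5) (nat_lit 254) (nat_lit 215)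 (nat_lit 131)) (XT.nd (nat_lit 94) (nat_lit 336) (nat_lit 0) (XT.lf (nat_lit 0) (nat_lit 892899514) (nat_lit 504) (nat_lit 520996213) (nat_lit 84) (nat_lit 13467587028) (nat_lit 73) (nat_lit 5) (nat_lit 79) (nat_lit 5) (nat_lit 74) (nat_lit 5) (nat_lit 255) (nat_lit 215) (nat_lit 130)) (XT.lf (nat_lit 0) (nat_lit 4345361126) (nat_lit 420) (nat_lit 6207992007) (nat_lit 84) (nat_lit 4623992468) (nat_lit 69) (nat_lit 5) (nat_lit 74) (nat_lit 5) (nat_lit 70) (nat_lit 5) (nat_lit 256) (nat_lit 215) (nat_lit 129)))) (XT.nd (nat_lit 94) (nat_lit 336) (nat_lit 0) (XT.lf (nat_lit 0) (nat_lit 3349912941) (nat_lit 336) (nat_lit 4607024264) (nat_lit 420) (nat_lit 7525286702) (nat_lit 65) (nat_lit 5) (nat_lit 69) (nat_lit 5) (nat_lit 70) (nat_lit 5) (nat_lit 257) (nat_lit 215) (nat_lit 128)) (XT.nd (nat_lit 94) (nat_lit 336) (nat_lit 0) (XT.lf (nat_lit 0) (nat_lit 11764975715) (nat_lit 420) (nat_lit 2452867059)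 (nat_lit 84) (nat_lit 1577478174) (nat_lit 65) (nat_lit 5) (nat_lit 70) (nat_lit 5) (nat_lit 66) (nat_lit 5) (nat_lit 258) (nat_lit 215) (nat_lit 127)) (XT.lf (nat_lit 0) (nat_lit 7655883509) (nat_lit 336) (nat_lit 8168282083) (nat_lit 420) (nat_lit 291085343) (nat_lit 61) (nat_lit 5) (nat_lit 65) (nat_lit 5) (nat_lit 66) (nat_lit 5) (nat_lit 259) (nat_lit 215) (nat_lit 126)))))) (XT.nd (nat_lit 33840) (nat_lit 0) (nat_lit 11508) (XT.nd (nat_lit 33558) (nat_lit 0) (nat_lit 12348) (XT.nd (nat_lit 94) (nat_lit 252) (nat_lit 0) (XT.lf (nat_lit 0) (nat_lit 1700244319) (nat_lit 336) (nat_lit 1825444075) (nat_lit 420) (nat_lit 12918321615) (nat_lit 56) (nat_lit 5) (nat_lit 60) (nat_lit 5) (nat_lit 61) (nat_lit 5) (nat_lit 260) (nat_lit 215) (nat_lit 125)) (XT.nd (nat_lit 94) (nat_lit 252) (nat_lit 0) (XT.lf (nat_lit 0) (nat_lit 7602816902) (nat_lit 420) (nat_lit 4449846731) (nat_lit 84) (nat_lit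 4726818568) (nat_lit 56) (nat_lit 5) (nat_lit 61) (nat_lit 5) (nat_lit 57) (nat_lit 5) (nat_lit 261) (nat_lit 215) (nat_lit 124)) (XT.lf (nat_lit 0) (nat_lit 6296787200) (nat_lit 252) (nat_lit 5597573943) (nat_lit 336) (nat_lit 5229824709) (nat_lit 53) (nat_lit 5) (nat_lit 56) (nat_lit 5) (nat_lit 57) (nat_lit 5) (nat_lit 262) (nat_lit 215) (nat_lit 123)))) (XT.nd (nat_lit 94) (nat_lit 0) (nat_lit 0) (XT.lf (nat_lit 0) (nat_lit 63094640) (nat_lit 0) (nat_lit 63094640) (nat_lit 924) (nat_lit 3829102662) (nat_lit 200) (nat_lit 5) (nat_lit 200) (nat_lit 3) (nat_lit 211) (nat_lit 3) (nat_lit 216) (nat_lit 216) (nat_lit 168)) (XT.nd (nat_lit 94) (nat_lit 0) (nat_lit 0) (XT.lf (nat_lit 0) (nat_lit 1544525094) (nat_lit 924) (nat_lit 3844409073) (nat_lit 1008) (nat_lit 2615014390) (nat_lit 200) (nat_lit 5) (nat_lit 211) (nat_lit 3) (nat_lit 212) (nat_lit 5) (nat_lit 217) (nat_lit 216) (nat_lit 167))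 (XT.lf (nat_lit 84) (nat_lit 205851534) (nat_lit 0) (nat_lit 2623067166) (nat_lit 1008) (nat_lit 5273516524) (nat_lit 201) (nat_lit 5) (nat_lit 200) (nat_lit 5) (nat_lit 212) (nat_lit 5) (nat_lit 218) (nat_lit 216) (nat_lit 166))))) (XT.nd (nat_lit 282) (nat_lit 924) (nat_lit 0) (XT.nd (nat_lit 94) (nat_lit 0) (nat_lit 0) (XT.lf (nat_lit 0) (nat_lit 4151948222) (nat_lit 924) (nat_lit 3748479718) (nat_lit 1008) (nat_lit 304162110) (nat_lit 201) (nat_lit 5) (nat_lit 212) (nat_lit 5) (nat_lit 213) (nat_lit 5) (nat_lit 219) (nat_lit 216) (nat_lit 165)) (XT.nd (nat_lit 94) (nat_lit 0) (nat_lit 0) (XT.lf (nat_lit 84) (nat_lit 494178811) (nat_lit 0) (nat_lit 5009842860) (nat_lit 1008) (nat_lit 2806902796) (nat_lit 202) (nat_lit 5) (nat_lit 201) (nat_lit 5) (nat_lit 213) (nat_lit 5) (nat_lit 220) (nat_lit 216) (nat_lit 164)) (XT.lf (nat_lit 84) (nat_lit 4944115545) (nat_lit 0) (nat_lit 1951960095)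 (nat_lit 1008) (nat_lit 1525161921) (nat_lit 202) (nat_lit 5) (nat_lit 201) (nat_lit 5) (nat_lit 213) (nat_lit 5) (nat_lit 221) (nat_lit 216) (nat_lit 163)))) (XT.nd (nat_lit 94) (nat_lit 1008) (nat_lit 0) (XT.lf (nat_lit 84) (nat_lit 991216954) (nat_lit 0) (nat_lit 7320583861) (nat_lit 1008) (nat_lit 224487572) (nat_lit 203) (nat_lit 5) (nat_lit 202) (nat_lit 5) (nat_lit 214) (nat_lit 5) (nat_lit 222) (nat_lit 216) (nat_lit 162)) (XT.nd (nat_lit 94) (nat_lit 0) (nat_lit 0) (XT.lf (nat_lit 0) (nat_lit 1111445739) (nat_lit 1008) (nat_lit 3022868647) (nat_lit 1092) (nat_lit 4520083241) (nat_lit 190) (nat_lit 5) (nat_lit 202) (nat_lit 5) (nat_lit 203) (nat_lit 5) (nat_lit 223) (nat_lit 216) (nat_lit 161)) (XT.lf (nat_lit 84) (nat_lit 1660895927) (nat_lit 0) (nat_lit 799287215) (nat_lit 1092) (nat_lit 6317370925) (nat_lit 191) (nat_lit 5) (nat_lit 190) (nat_lit 5) (nat_lit 203) (nat_lit 5) (nat_lit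 224) (nat_lit 216) (nat_lit 160))))))) (XT.nd (nat_lit 1034) (nat_lit 3780) (nat_lit 0) (XT.nd (nat_lit 470) (nat_lit 2940) (nat_lit 0) (XT.nd (nat_lit 188) (nat_lit 1008) (nat_lit 0) (XT.nd (nat_lit 94) (nat_lit 0) (nat_lit 0) (XT.lf (nat_lit 0) (nat_lit 3875976969) (nat_lit 1008) (nat_lit 2385753302) (nat_lit 1092) (nat_lit 2642595941) (nat_lit 191) (nat_lit 5) (nat_lit 203) (nat_lit 5) (nat_lit 204) (nat_lit 5) (nat_lit 225) (nat_lit 216) (nat_lit 159)) (XT.lf (nat_lit 84) (nat_lit 2526736514) (nat_lit 0) (nat_lit 2807722302) (nat_lit 1092) (nat_lit 3701316833) (nat_lit 192) (nat_lit 5) (nat_lit 191) (nat_lit 5) (nat_lit 204) (nat_lit 5) (nat_lit 226) (nat_lit 216) (nat_lit 158))) (XT.nd (nat_lit 94) (nat_lit 1092) (nat_lit 0) (XT.lf (nat_lit 0) (nat_lit 6838045252) (nat_lit 1008) (nat_lit 1544602802) (nat_lit 1092) (nat_lit 789385741) (nat_lit 192) (nat_lit 5) (nat_lit 204) (nat_lit 5)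 (nat_lit 205) (nat_lit 5) (nat_lit 227) (nat_lit 216) (nat_lit 157)) (XT.nd (nat_lit 94) (nat_lit 1092) (nat_lit 0) (XT.lf (nat_lit 84) (nat_lit 3610870499) (nat_lit 0) (nat_lit 4814485517) (nat_lit 1092) (nat_lit 886616502) (nat_lit 193) (nat_lit 5) (nat_lit 192) (nat_lit 5) (nat_lit 205) (nat_lit 5) (nat_lit 228) (nat_lit 216) (nat_lit 156)) (XT.lf (nat_lit 0) (nat_lit 575055484) (nat_lit 1092) (nat_lit 512114472) (nat_lit 1176) (nat_lit 8370188019) (nat_lit 179) (nat_lit 5) (nat_lit 192) (nat_lit 5) (nat_lit 193) (nat_lit 5) (nat_lit 229) (nat_lit 216) (nat_lit 155))))) (XT.nd (nat_lit 282) (nat_lit 1932) (nat_lit 0) (XT.nd (nat_lit 94) (nat_lit 1092) (nat_lit 0) (XT.lf (nat_lit 0) (nat_lit 2114153720) (nat_lit 1092) (nat_lit 4710322758) (nat_lit 84) (nat_lit 2781349970) (nat_lit 180) (nat_lit 5) (nat_lit 193) (nat_lit 5) (nat_lit 181) (nat_lit 5) (nat_lit 230) (nat_lit 216) (nat_lit 154))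 (XT.nd (nat_lit 94) (nat_lit 0) (nat_lit 0) (XT.lf (nat_lit 0) (nat_lit 716284519) (nat_lit 1092) (nat_lit 2978988982) (nat_lit 1176) (nat_lit 6064632458) (nat_lit 167) (nat_lit 5) (nat_lit 180) (nat_lit 5) (nat_lit 181) (nat_lit 5) (nat_lit 231) (nat_lit 216) (nat_lit 153)) (XT.lf (nat_lit 0) (nat_lit 5361628132) (nat_lit 1176) (nat_lit 3517052491) (nat_lit 84) (nat_lit 1039651282) (nat_lit 167) (nat_lit 5) (nat_lit 181) (nat_lit 5) (nat_lit 168) (nat_lit 5) (nat_lit 232) (nat_lit 216) (nat_lit 152)))) (XT.nd (nat_lit 94) (nat_lit 756) (nat_lit 0) (XT.lf (nat_lit 0) (nat_lit 2185535956) (nat_lit 1176) (nat_lit 4923262418) (nat_lit 1260) (nat_lit 2972717121) (nat_lit 153) (nat_lit 5) (nat_lit 167) (nat_lit 5) (nat_lit 168) (nat_lit 5) (nat_lit 233) (nat_lit 216) (nat_lit 151)) (XT.nd (nat_lit 94) (nat_lit 756) (nat_lit 0) (XT.lf (nat_lit 0) (nat_lit 8139927661) (nat_lit 1176) (nat_lit 783344900)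 (nat_lit 1260) (nat_lit 1326922597) (nat_lit 153) (nat_lit 5) (nat_lit 167) (nat_lit 5) (nat_lit 168) (nat_lit 5) (nat_lit 234) (nat_lit 216) (nat_lit 150)) (XT.lf (nat_lit 0) (nat_lit 416788106) (nat_lit 756) (nat_lit 6532974716) (nat_lit 84) (nat_lit 3473159233) (nat_lit 144) (nat_lit 5) (nat_lit 153) (nat_lit 5) (nat_lit 145) (nat_lit 5) (nat_lit 235) (nat_lit 216) (nat_lit 149)))))) (XT.nd (nat_lit 564) (nat_lit 2016) (nat_lit 0) (XT.nd (nat_lit 282) (nat_lit 588) (nat_lit 0) (XT.nd (nat_lit 94) (nat_lit 1176) (nat_lit 0) (XT.lf (nat_lit 0) (nat_lit 2190904401) (nat_lit 756) (nat_lit 507395102) (nat_lit 84) (nat_lit 7902841261) (nat_lit 144) (nat_lit 5) (nat_lit 153) (nat_lit 5) (nat_lit 145) (nat_lit 5) (nat_lit 236) (nat_lit 216) (nat_lit 148)) (XT.nd (nat_lit 94) (nat_lit 588) (nat_lit 0) (XT.lf (nat_lit 0) (nat_lit 4079225569) (nat_lit 672) (nat_lit 4974607175) (nat_lit 84) (nat_lit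 1729940503) (nat_lit 137) (nat_lit 5) (nat_lit 145) (nat_lit 5) (nat_lit 138) (nat_lit 5) (nat_lit 237) (nat_lit 216) (nat_lit 147)) (XT.lf (nat_lit 0) (nat_lit 1353464752) (nat_lit 588) (nat_lit 4700619066) (nat_lit 672) (nat_lit 4917998446) (nat_lit 130) (nat_lit 5) (nat_lit 137) (nat_lit 5) (nat_lit 138) (nat_lit 5) (nat_lit 238) (nat_lit 216) (nat_lit 146)))) (XT.nd (nat_lit 94) (nat_lit 588) (nat_lit 0) (XT.lf (nat_lit 0) (nat_lit 7990400765) (nat_lit 588) (nat_lit 135270450) (nat_lit 672) (nat_lit 3040344564) (nat_lit 130) (nat_lit 5) (nat_lit 137) (nat_lit 5) (nat_lit 138) (nat_lit 5) (nat_lit 239) (nat_lit 216) (nat_lit 145)) (XT.nd (nat_lit 94) (nat_lit 84) (nat_lit 0) (XT.lf (nat_lit 0) (nat_lit 3488831678) (nat_lit 504) (nat_lit 6840897692) (nat_lit 588) (nat_lit 1034908814) (nat_lit 124) (nat_lit 5) (nat_lit 130) (nat_lit 5) (nat_lit 131) (nat_lit 5) (nat_lit 240) (nat_lit 216)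 (nat_lit 144)) (XT.lf (nat_lit 0) (nat_lit 1026858616) (nat_lit 588) (nat_lit 1152051987) (nat_lit 84) (nat_lit 9390555053) (nat_lit 123) (nat_lit 5) (nat_lit 130) (nat_lit 5) (nat_lit 124) (nat_lit 5) (nat_lit 241) (nat_lit 216) (nat_lit 143))))) (XT.nd (nat_lit 282) (nat_lit 1008) (nat_lit 0) (XT.nd (nat_lit 94) (nat_lit 504) (nat_lit 0) (XT.lf (nat_lit 0) (nat_lit 3203845176) (nat_lit 588) (nat_lit 5912536552) (nat_lit 84) (nat_lit 2662305595) (nat_lit 117) (nat_lit 5) (nat_lit 124) (nat_lit 5) (nat_lit 118) (nat_lit 5) (nat_lit 242) (nat_lit 216) (nat_lit 142)) (XT.nd (nat_lit 94) (nat_lit 0) (nat_lit 0) (XT.lf (nat_lit 0) (nat_lit 1131415176) (nat_lit 504) (nat_lit 4348971956) (nat_lit 588) (nat_lit 6514026986) (nat_lit 111) (nat_lit 5) (nat_lit 117) (nat_lit 5) (nat_lit 118) (nat_lit 5) (nat_lit 243) (nat_lit 216) (nat_lit 141)) (XT.lf (nat_lit 0) (nat_lit 7886132461) (nat_lit 588) (nat_lit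 3691105241) (nat_lit 84) (nat_lit 638720293) (nat_lit 111) (nat_lit 5) (nat_lit 118) (nat_lit 5) (nat_lit 112) (nat_lit 5) (nat_lit 244) (nat_lit 216) (nat_lit 140)))) (XT.nd (nat_lit 94) (nat_lit 504) (nat_lit 0) (XT.lf (nat_lit 0) (nat_lit 3735028135) (nat_lit 504) (nat_lit 6706184493) (nat_lit 588) (nat_lit 2001763600) (nat_lit 105) (nat_lit 5) (nat_lit 111) (nat_lit 5) (nat_lit 112) (nat_lit 5) (nat_lit 245) (nat_lit 216) (nat_lit 139)) (XT.nd (nat_lit 94) (nat_lit 420) (nat_lit 0) (XT.lf (nat_lit 0) (nat_lit 416210148) (nat_lit 588) (nat_lit 1203321108) (nat_lit 84) (nat_lit 11057631165) (nat_lit 104) (nat_lit 5) (nat_lit 111) (nat_lit 5) (nat_lit 105) (nat_lit 5) (nat_lit 246) (nat_lit 216) (nat_lit 138)) (XT.lf (nat_lit 0) (nat_lit 2962251376) (nat_lit 504) (nat_lit 6297286716) (nat_lit 84) (nat_lit 3656034536) (nat_lit 99) (nat_lit 5) (nat_lit 105) (nat_lit 5) (nat_lit 100) (nat_lit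 5) (nat_lit 247) (nat_lit 216) (nat_lit 137))))))))
noncomputable def xc41 : XT := (XT.nd (nat_lit 35532) (nat_lit 0) (nat_lit 3612) (XT.nd (nat_lit 1034) (nat_lit 756) (nat_lit 0) (XT.nd (nat_lit 470) (nat_lit 1512) (nat_lit 0) (XT.nd (nat_lit 188) (nat_lit 924) (nat_lit 0) (XT.nd (nat_lit 94) (nat_lit 0) (nat_lit 0) (XT.lf (nat_lit 0) (nat_lit 1566422173) (nat_lit 420) (nat_lit 4056454241) (nat_lit 504) (nat_lit 7538559245) (nat_lit 94) (nat_lit 5) (nat_lit 99) (nat_lit 5) (nat_lit 100) (nat_lit 5) (nat_lit 248) (nat_lit 216) (nat_lit 136)) (XT.lf (nat_lit 0) (nat_lit 8442008039) (nat_lit 504) (nat_lit 3603797074) (nat_lit 84) (nat_lit 1367810317) (nat_lit 94) (nat_lit 5) (nat_lit 100) (nat_lit 5) (nat_lit 95) (nat_lit 5) (nat_lit 249) (nat_lit 216) (nat_lit 135))) (XT.nd (nat_lit 94) (nat_lit 504) (nat_lit 0) (XT.lf (nat_lit 0) (nat_lit 4696478198) (nat_lit 420) (nat_lit 6738687668) (nat_lit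 504) (nat_lit 2236818147) (nat_lit 89) (nat_lit 5) (nat_lit 94) (nat_lit 5) (nat_lit 95) (nat_lit 5) (nat_lit 250) (nat_lit 216) (nat_lit 134)) (XT.nd (nat_lit 94) (nat_lit 420) (nat_lit 0) (XT.lf (nat_lit 0) (nat_lit 599689935) (nat_lit 504) (nat_lit 601757708) (nat_lit 84) (nat_lit 12737035137) (nat_lit 88) (nat_lit 5) (nat_lit 94) (nat_lit 5) (nat_lit 89) (nat_lit 5) (nat_lit 251) (nat_lit 216) (nat_lit 133)) (XT.lf (nat_lit 0) (nat_lit 3603288762) (nat_lit 504) (nat_lit 6067156731) (nat_lit 84) (nat_lit 4538749955) (nat_lit 83) (nat_lit 5) (nat_lit 89) (nat_lit 5) (nat_lit 84) (nat_lit 5) (nat_lit 252) (nat_lit 216) (nat_lit 132))))) (XT.nd (nat_lit 282) (nat_lit 756) (nat_lit 0) (XT.nd (nat_lit 94) (nat_lit 420) (nat_lit 0) (XT.lf (nat_lit 0) (nat_lit 2735390008) (nat_lit 336) (nat_lit 4005752361) (nat_lit 420) (nat_lit 7747221180) (nat_lit 79) (nat_lit 5) (nat_lit 83) (nat_lit 5) (nat_lit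 84) (nat_lit 5) (nat_lit 253) (nat_lit 216) (nat_lit 131)) (XT.nd (nat_lit 94) (nat_lit 420) (nat_lit 0) (XT.lf (nat_lit 0) (nat_lit 10059886674) (nat_lit 420) (nat_lit 2834825632) (nat_lit 84) (nat_lit 1880102924) (nat_lit 79) (nat_lit 5) (nat_lit 84) (nat_lit 5) (nat_lit 80) (nat_lit 5) (nat_lit 254) (nat_lit 216) (nat_lit 130)) (XT.lf (nat_lit 0) (nat_lit 6466689718) (nat_lit 420) (nat_lit 7125046909) (nat_lit 504) (nat_lit 1476162858) (nat_lit 74) (nat_lit 5) (nat_lit 79) (nat_lit 5) (nat_lit 80) (nat_lit 5) (nat_lit 255) (nat_lit 216) (nat_lit 129)))) (XT.nd (nat_lit 94) (nat_lit 336) (nat_lit 0) (XT.lf (nat_lit 0) (nat_lit 758306060) (nat_lit 336) (nat_lit 1096261978) (nat_lit 420) (nat_lit 13515202017) (nat_lit 69) (nat_lit 5) (nat_lit 73) (nat_lit 5) (nat_lit 74) (nat_lit 5) (nat_lit 256) (nat_lit 216) (nat_lit 128)) (XT.nd (nat_lit 94) (nat_lit 336) (nat_lit 0) (XT.lf (nat_lit 0)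 (nat_lit 5406362803) (nat_lit 420) (nat_lit 5131874783) (nat_lit 84) (nat_lit 5138503121) (nat_lit 69) (nat_lit 5) (nat_lit 74) (nat_lit 5) (nat_lit 70) (nat_lit 5) (nat_lit 257) (nat_lit 216) (nat_lit 127)) (XT.lf (nat_lit 0) (nat_lit 4745811271) (nat_lit 336) (nat_lit 4382043475) (nat_lit 420) (nat_lit 6865012131) (nat_lit 65) (nat_lit 5) (nat_lit 69) (nat_lit 5) (nat_lit 70) (nat_lit 5) (nat_lit 258) (nat_lit 216) (nat_lit 126)))))) (XT.nd (nat_lit 33934) (nat_lit 0) (nat_lit 11172) (XT.nd (nat_lit 282) (nat_lit 0) (nat_lit 0) (XT.nd (nat_lit 94) (nat_lit 756) (nat_lit 0) (XT.lf (nat_lit 0) (nat_lit 13043153859) (nat_lit 420) (nat_lit 1277284703) (nat_lit 84) (nat_lit 1997394479) (nat_lit 65) (nat_lit 5) (nat_lit 70) (nat_lit 5) (nat_lit 66) (nat_lit 5) (nat_lit 259) (nat_lit 216) (nat_lit 125)) (XT.nd (nat_lit 94) (nat_lit 336) (nat_lit 0) (XT.lf (nat_lit 0) (nat_lit 566371807) (nat_lit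 420) (nat_lit 7485065741) (nat_lit 84) (nat_lit 8597836169) (nat_lit 60) (nat_lit 5) (nat_lit 65) (nat_lit 5) (nat_lit 61) (nat_lit 5) (nat_lit 260) (nat_lit 216) (nat_lit 124)) (XT.lf (nat_lit 0) (nat_lit 3012330699) (nat_lit 336) (nat_lit 1482417530) (nat_lit 420) (nat_lit 12495204003) (nat_lit 56) (nat_lit 5) (nat_lit 60) (nat_lit 5) (nat_lit 61) (nat_lit 5) (nat_lit 261) (nat_lit 216) (nat_lit 123)))) (XT.nd (nat_lit 33464) (nat_lit 0) (nat_lit 12096) (XT.lf (nat_lit 0) (nat_lit 8690359623) (nat_lit 420) (nat_lit 3371154628) (nat_lit 84) (nat_lit 5276499282) (nat_lit 56) (nat_lit 5) (nat_lit 61) (nat_lit 5) (nat_lit 57) (nat_lit 5) (nat_lit 262) (nat_lit 216) (nat_lit 122)) (XT.nd (nat_lit 94) (nat_lit 0) (nat_lit 0) (XT.lf (nat_lit 0) (nat_lit 687253522) (nat_lit 0) (nat_lit 687253522) (nat_lit 924) (nat_lit 2675683576) (nat_lit 200) (nat_lit 5) (nat_lit 200) (nat_lit 3) (nat_lit 211)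 (nat_lit 3) (nat_lit 217) (nat_lit 217) (nat_lit 166)) (XT.lf (nat_lit 0) (nat_lit 3988866126) (nat_lit 924) (nat_lit 2679606915) (nat_lit 1008) (nat_lit 1531953824) (nat_lit 200) (nat_lit 5) (nat_lit 211) (nat_lit 3) (nat_lit 212) (nat_lit 5) (nat_lit 218) (nat_lit 217) (nat_lit 165))))) (XT.nd (nat_lit 282) (nat_lit 924) (nat_lit 0) (XT.nd (nat_lit 94) (nat_lit 0) (nat_lit 0) (XT.lf (nat_lit 84) (nat_lit 1497599303) (nat_lit 0) (nat_lit 3754095961) (nat_lit 1008) (nat_lit 3052993439) (nat_lit 201) (nat_lit 5) (nat_lit 200) (nat_lit 5) (nat_lit 212) (nat_lit 5) (nat_lit 219) (nat_lit 217) (nat_lit 164)) (XT.nd (nat_lit 94) (nat_lit 0) (nat_lit 84) (XT.lf (nat_lit 84) (nat_lit 5856893138) (nat_lit 0) (nat_lit 681967261) (nat_lit 1008) (nat_lit 1874434512) (nat_lit 201) (nat_lit 5) (nat_lit 200) (nat_lit 5) (nat_lit 212) (nat_lit 5) (nat_lit 220) (nat_lit 217) (nat_lit 163)) (XT.lf (nat_lit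 84) (nat_lit 1827175562) (nat_lit 0) (nat_lit 6042596270) (nat_lit 1008) (nat_lit 655976162) (nat_lit 202) (nat_lit 5) (nat_lit 201) (nat_lit 5) (nat_lit 213) (nat_lit 5) (nat_lit 221) (nat_lit 217) (nat_lit 162)))) (XT.nd (nat_lit 94) (nat_lit 0) (nat_lit 84) (XT.lf (nat_lit 0) (nat_lit 581085441) (nat_lit 1008) (nat_lit 2260751044) (nat_lit 1092) (nat_lit 5800425734) (nat_lit 189) (nat_lit 5) (nat_lit 201) (nat_lit 5) (nat_lit 202) (nat_lit 5) (nat_lit 222) (nat_lit 217) (nat_lit 161)) (XT.nd (nat_lit 94) (nat_lit 0) (nat_lit 0) (XT.lf (nat_lit 0) (nat_lit 1831003410) (nat_lit 1008) (nat_lit 6420322311) (nat_lit 1092) (nat_lit 511790576) (nat_lit 190) (nat_lit 5) (nat_lit 202) (nat_lit 5) (nat_lit 203) (nat_lit 5) (nat_lit 223) (nat_lit 217) (nat_lit 160)) (XT.lf (nat_lit 0) (nat_lit 3138829241) (nat_lit 1008) (nat_lit 1789308851) (nat_lit 1092) (nat_lit 3959566550) (nat_lit 190) (nat_lit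 5) (nat_lit 202) (nat_lit 5) (nat_lit 203) (nat_lit 5) (nat_lit 224) (nat_lit 217) (nat_lit 159))))))) (XT.nd (nat_lit 1128) (nat_lit 3780) (nat_lit 0) (XT.nd (nat_lit 564) (nat_lit 2940) (nat_lit 0) (XT.nd (nat_lit 282) (nat_lit 924) (nat_lit 0) (XT.nd (nat_lit 94) (nat_lit 0) (nat_lit 84) (XT.lf (nat_lit 84) (nat_lit 3043117904) (nat_lit 0) (nat_lit 1439164383) (nat_lit 1092) (nat_lit 4534726428) (nat_lit 191) (nat_lit 5) (nat_lit 190) (nat_lit 5) (nat_lit 203) (nat_lit 5) (nat_lit 225) (nat_lit 217) (nat_lit 158)) (XT.nd (nat_lit 94) (nat_lit 0) (nat_lit 0) (XT.lf (nat_lit 0) (nat_lit 5875573195) (nat_lit 1008) (nat_lit 1117884358) (nat_lit 1092) (nat_lit 2157282280) (nat_lit 191) (nat_lit 5) (nat_lit 203) (nat_lit 5) (nat_lit 204) (nat_lit 5) (nat_lit 226) (nat_lit 217) (nat_lit 157)) (XT.lf (nat_lit 84) (nat_lit 3951136099) (nat_lit 0) (nat_lit 3385819630) (nat_lit 1092) (nat_lit 1951519387)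 (nat_lit 192) (nat_lit 5) (nat_lit 191) (nat_lit 5) (nat_lit 204) (nat_lit 5) (nat_lit 227) (nat_lit 217) (nat_lit 156)))) (XT.nd (nat_lit 94) (nat_lit 1092) (nat_lit 0) (XT.lf (nat_lit 0) (nat_lit 8826598623) (nat_lit 1008) (nat_lit 241308545) (nat_lit 1092) (nat_lit 363925047) (nat_lit 192) (nat_lit 5) (nat_lit 204) (nat_lit 5) (nat_lit 205) (nat_lit 5) (nat_lit 228) (nat_lit 217) (nat_lit 155)) (XT.nd (nat_lit 94) (nat_lit 0) (nat_lit 0) (XT.lf (nat_lit 0) (nat_lit 827842232) (nat_lit 1092) (nat_lit 4508522184) (nat_lit 1176) (nat_lit 4241521084) (nat_lit 179) (nat_lit 5) (nat_lit 192) (nat_lit 5) (nat_lit 193) (nat_lit 5) (nat_lit 229) (nat_lit 217) (nat_lit 154)) (XT.lf (nat_lit 84) (nat_lit 823803799) (nat_lit 0) (nat_lit 1446918256) (nat_lit 1176) (nat_lit 7458999563) (nat_lit 180) (nat_lit 5) (nat_lit 179) (nat_lit 5) (nat_lit 193) (nat_lit 5) (nat_lit 230) (nat_lit 217) (nat_lit 153)))))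 (XT.nd (nat_lit 282) (nat_lit 1932) (nat_lit 0) (XT.nd (nat_lit 94) (nat_lit 1092) (nat_lit 0) (XT.lf (nat_lit 0) (nat_lit 3809470549) (nat_lit 1092) (nat_lit 3494981695) (nat_lit 84) (nat_lit 2580831879) (nat_lit 180) (nat_lit 5) (nat_lit 193) (nat_lit 5) (nat_lit 181) (nat_lit 5) (nat_lit 231) (nat_lit 217) (nat_lit 152)) (XT.nd (nat_lit 94) (nat_lit 0) (nat_lit 0) (XT.lf (nat_lit 0) (nat_lit 2105821631) (nat_lit 1092) (nat_lit 3300483694) (nat_lit 1176) (nat_lit 4639837939) (nat_lit 167) (nat_lit 5) (nat_lit 180) (nat_lit 5) (nat_lit 181) (nat_lit 5) (nat_lit 232) (nat_lit 217) (nat_lit 151)) (XT.lf (nat_lit 0) (nat_lit 7075156460) (nat_lit 1176) (nat_lit 2265997668) (nat_lit 84) (nat_lit 870913895) (nat_lit 167) (nat_lit 5) (nat_lit 181) (nat_lit 5) (nat_lit 168) (nat_lit 5) (nat_lit 233) (nat_lit 217) (nat_lit 150)))) (XT.nd (nat_lit 94) (nat_lit 756) (nat_lit 0) (XT.lf (nat_lit 0) (nat_lit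 3620515150) (nat_lit 1176) (nat_lit 5226499445) (nat_lit 1260) (nat_lit 1535224652) (nat_lit 153) (nat_lit 5) (nat_lit 167) (nat_lit 5) (nat_lit 168) (nat_lit 5) (nat_lit 234) (nat_lit 217) (nat_lit 149)) (XT.nd (nat_lit 94) (nat_lit 672) (nat_lit 0) (XT.lf (nat_lit 0) (nat_lit 113412189) (nat_lit 1260) (nat_lit 822507054) (nat_lit 84) (nat_lit 9622621028) (nat_lit 152) (nat_lit 5) (nat_lit 167) (nat_lit 5) (nat_lit 153) (nat_lit 5) (nat_lit 235) (nat_lit 217) (nat_lit 148)) (XT.lf (nat_lit 0) (nat_lit 1851612282) (nat_lit 756) (nat_lit 5379910832) (nat_lit 84) (nat_lit 3506492932) (nat_lit 144) (nat_lit 5) (nat_lit 153) (nat_lit 5) (nat_lit 145) (nat_lit 5) (nat_lit 236) (nat_lit 217) (nat_lit 147)))))) (XT.nd (nat_lit 564) (nat_lit 1512) (nat_lit 0) (XT.nd (nat_lit 282) (nat_lit 1092) (nat_lit 0) (XT.nd (nat_lit 94) (nat_lit 588) (nat_lit 0) (XT.lf (nat_lit 0) (nat_lit 828627841) (nat_lit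 588) (nat_lit 2820400178) (nat_lit 672) (nat_lit 7274802202) (nat_lit 137) (nat_lit 5) (nat_lit 144) (nat_lit 5) (nat_lit 145) (nat_lit 5) (nat_lit 237) (nat_lit 217) (nat_lit 146)) (XT.nd (nat_lit 94) (nat_lit 588) (nat_lit 0) (XT.lf (nat_lit 0) (nat_lit 5562278571) (nat_lit 672) (nat_lit 3781796029) (nat_lit 84) (nat_lit 1770220907) (nat_lit 137) (nat_lit 5) (nat_lit 145) (nat_lit 5) (nat_lit 138) (nat_lit 5) (nat_lit 238) (nat_lit 217) (nat_lit 145)) (XT.lf (nat_lit 0) (nat_lit 2752174610) (nat_lit 588) (nat_lit 4823815585) (nat_lit 672) (nat_lit 3734264478) (nat_lit 130) (nat_lit 5) (nat_lit 137) (nat_lit 5) (nat_lit 138) (nat_lit 5) (nat_lit 239) (nat_lit 217) (nat_lit 144)))) (XT.nd (nat_lit 94) (nat_lit 1092) (nat_lit 0) (XT.lf (nat_lit 0) (nat_lit 9575705944) (nat_lit 588) (nat_lit 100077236) (nat_lit 672) (nat_lit 1836743180) (nat_lit 130) (nat_lit 5) (nat_lit 137) (nat_lit 5) (nat_lit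 138) (nat_lit 5) (nat_lit 240) (nat_lit 217) (nat_lit 143)) (XT.nd (nat_lit 94) (nat_lit 504) (nat_lit 0) (XT.lf (nat_lit 0) (nat_lit 205641905) (nat_lit 588) (nat_lit 6776355860) (nat_lit 84) (nat_lit 4736983480) (nat_lit 123) (nat_lit 5) (nat_lit 130) (nat_lit 5) (nat_lit 124) (nat_lit 5) (nat_lit 241) (nat_lit 217) (nat_lit 142)) (XT.lf (nat_lit 0) (nat_lit 127590891) (nat_lit 504) (nat_lit 2146760252) (nat_lit 588) (nat_lit 9657641475) (nat_lit 117) (nat_lit 5) (nat_lit 123) (nat_lit 5) (nat_lit 124) (nat_lit 5) (nat_lit 242) (nat_lit 217) (nat_lit 141))))) (XT.nd (nat_lit 282) (nat_lit 1008) (nat_lit 0) (XT.nd (nat_lit 94) (nat_lit 504) (nat_lit 0) (XT.lf (nat_lit 0) (nat_lit 4501014564) (nat_lit 588) (nat_lit 4777307631) (nat_lit 84) (nat_lit 2871142965) (nat_lit 117) (nat_lit 5) (nat_lit 124) (nat_lit 5) (nat_lit 118) (nat_lit 5) (nat_lit 243) (nat_lit 217) (nat_lit 140)) (XT.nd (nat_lit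 94) (nat_lit 0) (nat_lit 0) (XT.lf (nat_lit 0) (nat_lit 2497880820) (nat_lit 504) (nat_lit 4334065167) (nat_lit 588) (nat_lit 5541681537) (nat_lit 111) (nat_lit 5) (nat_lit 117) (nat_lit 5) (nat_lit 118) (nat_lit 5) (nat_lit 244) (nat_lit 217) (nat_lit 139)) (XT.lf (nat_lit 0) (nat_lit 9284473080) (nat_lit 588) (nat_lit 2500878355) (nat_lit 84) (nat_lit 818883681) (nat_lit 111) (nat_lit 5) (nat_lit 118) (nat_lit 5) (nat_lit 112) (nat_lit 5) (nat_lit 245) (nat_lit 217) (nat_lit 138)))) (XT.nd (nat_lit 94) (nat_lit 504) (nat_lit 0) (XT.lf (nat_lit 0) (nat_lit 5170127492) (nat_lit 504) (nat_lit 6735434032) (nat_lit 588) (nat_lit 934457146) (nat_lit 105) (nat_lit 5) (nat_lit 111) (nat_lit 5) (nat_lit 112) (nat_lit 5) (nat_lit 246) (nat_lit 217) (nat_lit 137)) (XT.nd (nat_lit 94) (nat_lit 0) (nat_lit 0) (XT.lf (nat_lit 0) (nat_lit 40665754) (nat_lit 420) (nat_lit 1464554400) (nat_lit 504) (nat_lit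 11578037460) (nat_lit 99) (nat_lit 5) (nat_lit 104) (nat_lit 5) (nat_lit 105) (nat_lit 5) (nat_lit 247) (nat_lit 217) (nat_lit 136)) (XT.lf (nat_lit 0) (nat_lit 4120194467) (nat_lit 504) (nat_lit 5212785461) (nat_lit 84) (nat_lit 3997738492) (nat_lit 99) (nat_lit 5) (nat_lit 105) (nat_lit 5) (nat_lit 100) (nat_lit 5) (nat_lit 248) (nat_lit 217) (nat_lit 135))))))))
noncomputable def xc42 : XT := (XT.nd (nat_lit 35626) (nat_lit 0) (nat_lit 3192) (XT.nd (nat_lit 1034) (nat_lit 756) (nat_lit 0) (XT.nd (nat_lit 470) (nat_lit 1512) (nat_lit 0) (XT.nd (nat_lit 188) (nat_lit 924) (nat_lit 0) (XT.nd (nat_lit 94) (nat_lit 0) (nat_lit 0) (XT.lf (nat_lit 0) (nat_lit 2911276457) (nat_lit 420) (nat_lit 3941387177) (nat_lit 504) (nat_lit 6733267744) (nat_lit 94) (nat_lit 5) (nat_lit 99) (nat_lit 5) (nat_lit 100) (nat_lit 5) (nat_lit 249) (nat_lit 217) (nat_lit 134)) (XT.lf (nat_lit 0) (nat_lit 9738300114)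 (nat_lit 504) (nat_lit 2451359899) (nat_lit 84) (nat_lit 1658403195) (nat_lit 94) (nat_lit 5) (nat_lit 100) (nat_lit 5) (nat_lit 95) (nat_lit 5) (nat_lit 250) (nat_lit 217) (nat_lit 133))) (XT.nd (nat_lit 94) (nat_lit 504) (nat_lit 0) (XT.lf (nat_lit 0) (nat_lit 6124848477) (nat_lit 420) (nat_lit 6691609379) (nat_lit 504) (nat_lit 1299708457) (nat_lit 89) (nat_lit 5) (nat_lit 94) (nat_lit 5) (nat_lit 95) (nat_lit 5) (nat_lit 251) (nat_lit 217) (nat_lit 132)) (XT.nd (nat_lit 94) (nat_lit 0) (nat_lit 0) (XT.lf (nat_lit 0) (nat_lit 635075293) (nat_lit 420) (nat_lit 951496226) (nat_lit 504) (nat_lit 12805951923) (nat_lit 83) (nat_lit 5) (nat_lit 88) (nat_lit 5) (nat_lit 89) (nat_lit 5) (nat_lit 252) (nat_lit 217) (nat_lit 131)) (XT.lf (nat_lit 0) (nat_lit 4672716330) (nat_lit 504) (nat_lit 5020508695) (nat_lit 84) (nat_lit 4980276327) (nat_lit 83) (nat_lit 5) (nat_lit 89) (nat_lit 5) (nat_lit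 84) (nat_lit 5) (nat_lit 253) (nat_lit 217) (nat_lit 130))))) (XT.nd (nat_lit 282) (nat_lit 756) (nat_lit 0) (XT.nd (nat_lit 94) (nat_lit 420) (nat_lit 0) (XT.lf (nat_lit 0) (nat_lit 4075773776) (nat_lit 336) (nat_lit 3826589604) (nat_lit 420) (nat_lit 7060708057) (nat_lit 79) (nat_lit 5) (nat_lit 83) (nat_lit 5) (nat_lit 84) (nat_lit 5) (nat_lit 254) (nat_lit 217) (nat_lit 129)) (XT.nd (nat_lit 94) (nat_lit 420) (nat_lit 0) (XT.lf (nat_lit 0) (nat_lit 11309412110) (nat_lit 420) (nat_lit 1703637233) (nat_lit 84) (nat_lit 2247474391) (nat_lit 79) (nat_lit 5) (nat_lit 84) (nat_lit 5) (nat_lit 80) (nat_lit 5) (nat_lit 255) (nat_lit 217) (nat_lit 128)) (XT.lf (nat_lit 0) (nat_lit 7909403709) (nat_lit 420) (nat_lit 7038678334) (nat_lit 504) (nat_lit 616371711) (nat_lit 74) (nat_lit 5) (nat_lit 79) (nat_lit 5) (nat_lit 80) (nat_lit 5) (nat_lit 256) (nat_lit 217) (nat_lit 127)))) (XT.nd (nat_lit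 94) (nat_lit 336) (nat_lit 0) (XT.lf (nat_lit 0) (nat_lit 2007790111) (nat_lit 336) (nat_lit 785980909) (nat_lit 420) (nat_lit 13083340729) (nat_lit 69) (nat_lit 5) (nat_lit 73) (nat_lit 5) (nat_lit 74) (nat_lit 5) (nat_lit 257) (nat_lit 217) (nat_lit 126)) (XT.nd (nat_lit 94) (nat_lit 336) (nat_lit 0) (XT.lf (nat_lit 0) (nat_lit 6444066480) (nat_lit 420) (nat_lit 4104090512) (nat_lit 84) (nat_lit 5647572805) (nat_lit 69) (nat_lit 5) (nat_lit 74) (nat_lit 5) (nat_lit 70) (nat_lit 5) (nat_lit 258) (nat_lit 217) (nat_lit 125)) (XT.lf (nat_lit 0) (nat_lit 6105549409) (nat_lit 336) (nat_lit 4174868297) (nat_lit 420) (nat_lit 6243041431) (nat_lit 65) (nat_lit 5) (nat_lit 69) (nat_lit 5) (nat_lit 70) (nat_lit 5) (nat_lit 259) (nat_lit 217) (nat_lit 124)))))) (XT.nd (nat_lit 34028) (nat_lit 0) (nat_lit 11088) (XT.nd (nat_lit 33746) (nat_lit 0) (nat_lit 12096) (XT.nd (nat_lit 94) (nat_lit 756) (nat_lit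 0) (XT.lf (nat_lit 0) (nat_lit 14308461644) (nat_lit 420) (nat_lit 144428741) (nat_lit 84) (nat_lit 2407758904) (nat_lit 65) (nat_lit 5) (nat_lit 70) (nat_lit 5) (nat_lit 66) (nat_lit 5) (nat_lit 260) (nat_lit 217) (nat_lit 123)) (XT.nd (nat_lit 94) (nat_lit 336) (nat_lit 0) (XT.lf (nat_lit 0) (nat_lit 1389773886) (nat_lit 420) (nat_lit 6564263781) (nat_lit 84) (nat_lit 9249835364) (nat_lit 60) (nat_lit 5) (nat_lit 65) (nat_lit 5) (nat_lit 61) (nat_lit 5) (nat_lit 261) (nat_lit 217) (nat_lit 122)) (XT.lf (nat_lit 0) (nat_lit 4287057081) (nat_lit 336) (nat_lit 1154440689) (nat_lit 420) (nat_lit 12115472624) (nat_lit 56) (nat_lit 5) (nat_lit 60) (nat_lit 5) (nat_lit 61) (nat_lit 5) (nat_lit 262) (nat_lit 217) (nat_lit 121)))) (XT.nd (nat_lit 94) (nat_lit 0) (nat_lit 0) (XT.lf (nat_lit 0) (nat_lit 1291904908) (nat_lit 0) (nat_lit 1291904908) (nat_lit 924) (nat_lit 1567495651) (nat_lit 200) (nat_lit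 5) (nat_lit 200) (nat_lit 3) (nat_lit 211) (nat_lit 3) (nat_lit 218) (nat_lit 218) (nat_lit 164)) (XT.nd (nat_lit 94) (nat_lit 0) (nat_lit 0) (XT.lf (nat_lit 0) (nat_lit 6359830874) (nat_lit 924) (nat_lit 1560429983) (nat_lit 1008) (nat_lit 489083542) (nat_lit 200) (nat_lit 5) (nat_lit 211) (nat_lit 3) (nat_lit 212) (nat_lit 5) (nat_lit 219) (nat_lit 218) (nat_lit 163)) (XT.lf (nat_lit 84) (nat_lit 2749149882) (nat_lit 0) (nat_lit 4855613657) (nat_lit 1008) (nat_lit 914665205) (nat_lit 201) (nat_lit 5) (nat_lit 200) (nat_lit 5) (nat_lit 212) (nat_lit 5) (nat_lit 220) (nat_lit 218) (nat_lit 162))))) (XT.nd (nat_lit 282) (nat_lit 0) (nat_lit 84) (XT.nd (nat_lit 94) (nat_lit 0) (nat_lit 84) (XT.lf (nat_lit 0) (nat_lit 224021840) (nat_lit 1008) (nat_lit 1416489091) (nat_lit 1092) (nat_lit 6993803330) (nat_lit 188) (nat_lit 5) (nat_lit 200) (nat_lit 5) (nat_lit 201) (nat_lit 5) (nat_lit 221) (nat_lit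 218) (nat_lit 161)) (XT.nd (nat_lit 94) (nat_lit 0) (nat_lit 0) (XT.lf (nat_lit 0) (nat_lit 1388474228) (nat_lit 1008) (nat_lit 5649629760) (nat_lit 1092) (nat_lit 1714489422) (nat_lit 189) (nat_lit 5) (nat_lit 201) (nat_lit 5) (nat_lit 202) (nat_lit 5) (nat_lit 222) (nat_lit 218) (nat_lit 160)) (XT.lf (nat_lit 0) (nat_lit 2584046804) (nat_lit 1008) (nat_lit 1107193360) (nat_lit 1092) (nat_lit 5184109414) (nat_lit 189) (nat_lit 5) (nat_lit 201) (nat_lit 5) (nat_lit 202) (nat_lit 5) (nat_lit 223) (nat_lit 218) (nat_lit 159)))) (XT.nd (nat_lit 94) (nat_lit 0) (nat_lit 84) (XT.lf (nat_lit 84) (nat_lit 3649672671) (nat_lit 0) (nat_lit 168533198) (nat_lit 1092) (nat_lit 5184310391) (nat_lit 190) (nat_lit 5) (nat_lit 189) (nat_lit 5) (nat_lit 202) (nat_lit 5) (nat_lit 224) (nat_lit 218) (nat_lit 158)) (XT.nd (nat_lit 94) (nat_lit 0) (nat_lit 0) (XT.lf (nat_lit 0) (nat_lit 5104958330) (nat_lit 1008)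 (nat_lit 601627585) (nat_lit 1092) (nat_lit 3427218938) (nat_lit 190) (nat_lit 5) (nat_lit 202) (nat_lit 5) (nat_lit 203) (nat_lit 5) (nat_lit 225) (nat_lit 218) (nat_lit 157)) (XT.lf (nat_lit 84) (nat_lit 4385679792) (nat_lit 0) (nat_lit 2060752308) (nat_lit 1092) (nat_lit 2822917473) (nat_lit 191) (nat_lit 5) (nat_lit 190) (nat_lit 5) (nat_lit 203) (nat_lit 5) (nat_lit 226) (nat_lit 218) (nat_lit 156))))))) (XT.nd (nat_lit 1128) (nat_lit 3612) (nat_lit 0) (XT.nd (nat_lit 564) (nat_lit 3444) (nat_lit 0) (XT.nd (nat_lit 282) (nat_lit 0) (nat_lit 84) (XT.nd (nat_lit 94) (nat_lit 1092) (nat_lit 0) (XT.lf (nat_lit 84) (nat_lit 106932959) (nat_lit 0) (nat_lit 7715481925) (nat_lit 1092) (nat_lit 1587658961) (nat_lit 192) (nat_lit 5) (nat_lit 191) (nat_lit 5) (nat_lit 204) (nat_lit 5) (nat_lit 227) (nat_lit 218) (nat_lit 155)) (XT.nd (nat_lit 94) (nat_lit 1092) (nat_lit 0) (XT.lf (nat_lit 84) (nat_lit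 5336562372) (nat_lit 0) (nat_lit 3952247000) (nat_lit 1092) (nat_lit 265435267) (nat_lit 192) (nat_lit 5) (nat_lit 191) (nat_lit 5) (nat_lit 204) (nat_lit 5) (nat_lit 228) (nat_lit 218) (nat_lit 154)) (XT.lf (nat_lit 84) (nat_lit 1028281615) (nat_lit 0) (nat_lit 23244642) (nat_lit 1176) (nat_lit 8652433490) (nat_lit 179) (nat_lit 5) (nat_lit 178) (nat_lit 5) (nat_lit 192) (nat_lit 5) (nat_lit 229) (nat_lit 218) (nat_lit 153)))) (XT.nd (nat_lit 94) (nat_lit 0) (nat_lit 0) (XT.lf (nat_lit 0) (nat_lit 2466827033) (nat_lit 1092) (nat_lit 3376307779) (nat_lit 1176) (nat_lit 4013626319) (nat_lit 179) (nat_lit 5) (nat_lit 192) (nat_lit 5) (nat_lit 193) (nat_lit 5) (nat_lit 230) (nat_lit 218) (nat_lit 152)) (XT.nd (nat_lit 94) (nat_lit 0) (nat_lit 84) (XT.lf (nat_lit 84) (nat_lit 2127942628) (nat_lit 0) (nat_lit 1792029876) (nat_lit 1176) (nat_lit 6095347240) (nat_lit 180) (nat_lit 5) (nat_lit 179)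 (nat_lit 5) (nat_lit 193) (nat_lit 5) (nat_lit 231) (nat_lit 218) (nat_lit 151)) (XT.lf (nat_lit 0) (nat_lit 5456322940) (nat_lit 1092) (nat_lit 2328872382) (nat_lit 84) (nat_lit 2393100513) (nat_lit 180) (nat_lit 5) (nat_lit 193) (nat_lit 5) (nat_lit 181) (nat_lit 5) (nat_lit 232) (nat_lit 218) (nat_lit 150))))) (XT.nd (nat_lit 282) (nat_lit 1344) (nat_lit 0) (XT.nd (nat_lit 94) (nat_lit 1176) (nat_lit 0) (XT.lf (nat_lit 0) (nat_lit 3453270076) (nat_lit 1092) (nat_lit 3618787243) (nat_lit 1176) (nat_lit 3274022362) (nat_lit 167) (nat_lit 5) (nat_lit 180) (nat_lit 5) (nat_lit 181) (nat_lit 5) (nat_lit 233) (nat_lit 218) (nat_lit 149)) (XT.nd (nat_lit 94) (nat_lit 1176) (nat_lit 0) (XT.lf (nat_lit 0) (nat_lit 8747204163) (nat_lit 1176) (nat_lit 1062522308) (nat_lit 84) (nat_lit 709909331) (nat_lit 167) (nat_lit 5) (nat_lit 181) (nat_lit 5) (nat_lit 168) (nat_lit 5) (nat_lit 234) (nat_lit 218)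 (nat_lit 148)) (XT.lf (nat_lit 0) (nat_lit 5015393871) (nat_lit 1176) (nat_lit 5531644800) (nat_lit 1260) (nat_lit 149915701) (nat_lit 153) (nat_lit 5) (nat_lit 167) (nat_lit 5) (nat_lit 168) (nat_lit 5) (nat_lit 235) (nat_lit 218) (nat_lit 147)))) (XT.nd (nat_lit 94) (nat_lit 588) (nat_lit 0) (XT.lf (nat_lit 0) (nat_lit 414914949) (nat_lit 672) (nat_lit 1065942449) (nat_lit 756) (nat_lit 9399510130) (nat_lit 144) (nat_lit 5) (nat_lit 152) (nat_lit 5) (nat_lit 153) (nat_lit 5) (nat_lit 236) (nat_lit 218) (nat_lit 146)) (XT.nd (nat_lit 94) (nat_lit 588) (nat_lit 0) (XT.lf (nat_lit 0) (nat_lit 3242224769) (nat_lit 756) (nat_lit 4278359173) (nat_lit 84) (nat_lit 3546859453) (nat_lit 144) (nat_lit 5) (nat_lit 153) (nat_lit 5) (nat_lit 145) (nat_lit 5) (nat_lit 237) (nat_lit 218) (nat_lit 145)) (XT.lf (nat_lit 0) (nat_lit 2132773239) (nat_lit 588) (nat_lit 2939150635) (nat_lit 672) (nat_lit 6188909109)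 (nat_lit 137) (nat_lit 5) (nat_lit 144) (nat_lit 5) (nat_lit 145) (nat_lit 5) (nat_lit 238) (nat_lit 218) (nat_lit 144)))))) (XT.nd (nat_lit 564) (nat_lit 1932) (nat_lit 0) (XT.nd (nat_lit 282) (nat_lit 1092) (nat_lit 0) (XT.nd (nat_lit 94) (nat_lit 588) (nat_lit 0) (XT.lf (nat_lit 0) (nat_lit 7008124143) (nat_lit 672) (nat_lit 2638122205) (nat_lit 84) (nat_lit 1813258698) (nat_lit 137) (nat_lit 5) (nat_lit 145) (nat_lit 5) (nat_lit 138) (nat_lit 5) (nat_lit 239) (nat_lit 218) (nat_lit 143)) (XT.nd (nat_lit 94) (nat_lit 0) (nat_lit 0) (XT.lf (nat_lit 0) (nat_lit 4109989757) (nat_lit 588) (nat_lit 4954071662) (nat_lit 672) (nat_lit 2599250264) (nat_lit 130) (nat_lit 5) (nat_lit 137) (nat_lit 5) (nat_lit 138) (nat_lit 5) (nat_lit 240) (nat_lit 218) (nat_lit 142)) (XT.lf (nat_lit 0) (nat_lit 11129685637) (nat_lit 588) (nat_lit 66307022) (nat_lit 672) (nat_lit 678117625) (nat_lit 130) (nat_lit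 5) (nat_lit 137) (nat_lit 5) (nat_lit 138) (nat_lit 5) (nat_lit 241) (nat_lit 218) (nat_lit 141)))) (XT.nd (nat_lit 94) (nat_lit 504) (nat_lit 0) (XT.lf (nat_lit 0) (nat_lit 1382047912) (nat_lit 588) (nat_lit 5740995303) (nat_lit 84) (nat_lit 4965180075) (nat_lit 123) (nat_lit 5) (nat_lit 130) (nat_lit 5) (nat_lit 124) (nat_lit 5) (nat_lit 242) (nat_lit 218) (nat_lit 140)) (XT.nd (nat_lit 94) (nat_lit 0) (nat_lit 0) (XT.lf (nat_lit 0) (nat_lit 1390081879) (nat_lit 504) (nat_lit 2107558747) (nat_lit 588) (nat_lit 8811942682) (nat_lit 117) (nat_lit 5) (nat_lit 123) (nat_lit 5) (nat_lit 124) (nat_lit 5) (nat_lit 243) (nat_lit 218) (nat_lit 139)) (XT.lf (nat_lit 0) (nat_lit 5764792746) (nat_lit 588) (nat_lit 3691585489) (nat_lit 84) (nat_lit 3079599713) (nat_lit 117) (nat_lit 5) (nat_lit 124) (nat_lit 5) (nat_lit 118) (nat_lit 5) (nat_lit 244) (nat_lit 218) (nat_lit 138))))) (XT.nd (nat_lit 282)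 (nat_lit 840) (nat_lit 0) (XT.nd (nat_lit 94) (nat_lit 588) (nat_lit 0) (XT.lf (nat_lit 0) (nat_lit 3823950364) (nat_lit 504) (nat_lit 4329748387) (nat_lit 588) (nat_lit 4615113524) (nat_lit 111) (nat_lit 5) (nat_lit 117) (nat_lit 5) (nat_lit 118) (nat_lit 5) (nat_lit 245) (nat_lit 218) (nat_lit 137)) (XT.nd (nat_lit 94) (nat_lit 588) (nat_lit 0) (XT.lf (nat_lit 0) (nat_lit 10657132952) (nat_lit 588) (nat_lit 1356720545) (nat_lit 84) (nat_lit 994860232) (nat_lit 111) (nat_lit 5) (nat_lit 118) (nat_lit 5) (nat_lit 112) (nat_lit 5) (nat_lit 246) (nat_lit 218) (nat_lit 136)) (XT.lf (nat_lit 0) (nat_lit 92437636) (nat_lit 588) (nat_lit 6685840285) (nat_lit 84) (nat_lit 6475200084) (nat_lit 104) (nat_lit 5) (nat_lit 111) (nat_lit 5) (nat_lit 105) (nat_lit 5) (nat_lit 247) (nat_lit 218) (nat_lit 135)))) (XT.nd (nat_lit 94) (nat_lit 420) (nat_lit 0) (XT.lf (nat_lit 0) (nat_lit 1269653436) (nat_lit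 420) (nat_lit 1304507863) (nat_lit 504) (nat_lit 10931441285) (nat_lit 99) (nat_lit 5) (nat_lit 104) (nat_lit 5) (nat_lit 105) (nat_lit 5) (nat_lit 248) (nat_lit 218) (nat_lit 134)) (XT.nd (nat_lit 94) (nat_lit 420) (nat_lit 0) (XT.lf (nat_lit 0) (nat_lit 5248568271) (nat_lit 504) (nat_lit 4177088968) (nat_lit 84) (nat_lit 4337190480) (nat_lit 99) (nat_lit 5) (nat_lit 105) (nat_lit 5) (nat_lit 100) (nat_lit 5) (nat_lit 249) (nat_lit 218) (nat_lit 133)) (XT.lf (nat_lit 0) (nat_lit 4217427482) (nat_lit 420) (nat_lit 3839383372) (nat_lit 504) (nat_lit 5970877482) (nat_lit 94) (nat_lit 5) (nat_lit 99) (nat_lit 5) (nat_lit 100) (nat_lit 5) (nat_lit 250) (nat_lit 218) (nat_lit 132))))))))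
noncomputable def xc43 : XT := (XT.nd (nat_lit 35720) (nat_lit 0) (nat_lit 2352) (XT.nd (nat_lit 1034) (nat_lit 84) (nat_lit 0) (XT.nd (nat_lit 470) (nat_lit 1512) (nat_lit 0) (XT.nd (nat_lit 188) (nat_lit 840) (nat_lit 0) (XT.nd (nat_lit 94) (nat_lit 420) (nat_lit 0) (XT.lf (nat_lit 0) (nat_lit 11013418472) (nat_lit 504) (nat_lit 1343598651) (nat_lit 84) (nat_lit 1943028573) (nat_lit 94) (nat_lit 5) (nat_lit 100) (nat_lit 5) (nat_lit 95) (nat_lit 5) (nat_lit 251) (nat_lit 218) (nat_lit 131)) (XT.lf (nat_lit 0) (nat_lit 7519169669) (nat_lit 420) (nat_lit 6661695324) (nat_lit 504) (nat_lit 397313051) (nat_lit 89) (nat_lit 5) (nat_lit 94) (nat_lit 5) (nat_lit 95) (nat_lit 5) (nat_lit 252) (nat_lit 218) (nat_lit 130))) (XT.nd (nat_lit 94) (nat_lit 336) (nat_lit 0) (XT.lf (nat_lit 0) (nat_lit 1845049789) (nat_lit 420) (nat_lit 705351094) (nat_lit 504) (nat_lit 12314070403) (nat_lit 83) (nat_lit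 5) (nat_lit 88) (nat_lit 5) (nat_lit 89) (nat_lit 5) (nat_lit 253) (nat_lit 218) (nat_lit 129)) (XT.nd (nat_lit 94) (nat_lit 336) (nat_lit 0) (XT.lf (nat_lit 0) (nat_lit 5716853677) (nat_lit 504) (nat_lit 4020937908) (nat_lit 84) (nat_lit 5418461584) (nat_lit 83) (nat_lit 5) (nat_lit 89) (nat_lit 5) (nat_lit 84) (nat_lit 5) (nat_lit 254) (nat_lit 218) (nat_lit 128)) (XT.lf (nat_lit 0) (nat_lit 5380315394) (nat_lit 336) (nat_lit 3662390445) (nat_lit 420) (nat_lit 6413841507) (nat_lit 79) (nat_lit 5) (nat_lit 83) (nat_lit 5) (nat_lit 84) (nat_lit 5) (nat_lit 255) (nat_lit 218) (nat_lit 127))))) (XT.nd (nat_lit 282) (nat_lit 672) (nat_lit 0) (XT.nd (nat_lit 94) (nat_lit 840) (nat_lit 0) (XT.lf (nat_lit 0) (nat_lit 12543001483) (nat_lit 420) (nat_lit 614666160) (nat_lit 84) (nat_lit 2607652824) (nat_lit 79) (nat_lit 5) (nat_lit 84) (nat_lit 5) (nat_lit 80) (nat_lit 5) (nat_lit 256) (nat_lit 218)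 (nat_lit 126)) (XT.nd (nat_lit 94) (nat_lit 336) (nat_lit 0) (XT.lf (nat_lit 0) (nat_lit 208082417) (nat_lit 504) (nat_lit 6761072601) (nat_lit 84) (nat_lit 9111198723) (nat_lit 73) (nat_lit 5) (nat_lit 79) (nat_lit 5) (nat_lit 74) (nat_lit 5) (nat_lit 257) (nat_lit 218) (nat_lit 125)) (XT.lf (nat_lit 0) (nat_lit 3219693457) (nat_lit 336) (nat_lit 488021512) (nat_lit 420) (nat_lit 12696530021) (nat_lit 69) (nat_lit 5) (nat_lit 73) (nat_lit 5) (nat_lit 74) (nat_lit 5) (nat_lit 258) (nat_lit 218) (nat_lit 124)))) (XT.nd (nat_lit 94) (nat_lit 672) (nat_lit 0) (XT.lf (nat_lit 0) (nat_lit 7461674880) (nat_lit 420) (nat_lit 3120612965) (nat_lit 84) (nat_lit 6152570182) (nat_lit 69) (nat_lit 5) (nat_lit 74) (nat_lit 5) (nat_lit 70) (nat_lit 5) (nat_lit 259) (nat_lit 218) (nat_lit 123)) (XT.nd (nat_lit 94) (nat_lit 336) (nat_lit 0) (XT.lf (nat_lit 0) (nat_lit 7433514443) (nat_lit 336) (nat_lit 3984414485)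 (nat_lit 420) (nat_lit 5656631898) (nat_lit 65) (nat_lit 5) (nat_lit 69) (nat_lit 5) (nat_lit 70) (nat_lit 5) (nat_lit 260) (nat_lit 218) (nat_lit 122)) (XT.lf (nat_lit 0) (nat_lit 971817229) (nat_lit 336) (nat_lit 14603289733) (nat_lit 420) (nat_lit 1848860332) (nat_lit 61) (nat_lit 5) (nat_lit 65) (nat_lit 5) (nat_lit 66) (nat_lit 5) (nat_lit 261) (nat_lit 218) (nat_lit 121)))))) (XT.nd (nat_lit 34122) (nat_lit 0) (nat_lit 9912) (XT.nd (nat_lit 33840) (nat_lit 0) (nat_lit 10752) (XT.nd (nat_lit 33652) (nat_lit 0) (nat_lit 10668) (XT.lf (nat_lit 0) (nat_lit 2188565628) (nat_lit 420) (nat_lit 5689875917) (nat_lit 84) (nat_lit 9901311804) (nat_lit 60) (nat_lit 5) (nat_lit 65) (nat_lit 5) (nat_lit 61) (nat_lit 5) (nat_lit 262) (nat_lit 218) (nat_lit 120)) (XT.nd (nat_lit 94) (nat_lit 1092) (nat_lit 0) (XT.lf (nat_lit 0) (nat_lit 1879115569) (nat_lit 0) (nat_lit 1879115569) (nat_lit 924) (nat_lit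 500430440) (nat_lit 200) (nat_lit 5) (nat_lit 200) (nat_lit 3) (nat_lit 211) (nat_lit 3) (nat_lit 219) (nat_lit 219) (nat_lit 162)) (XT.lf (nat_lit 0) (nat_lit 39832324) (nat_lit 1092) (nat_lit 489083542) (nat_lit 1092) (nat_lit 8101628482) (nat_lit 187) (nat_lit 3) (nat_lit 200) (nat_lit 3) (nat_lit 200) (nat_lit 5) (nat_lit 220) (nat_lit 219) (nat_lit 161)))) (XT.nd (nat_lit 94) (nat_lit 0) (nat_lit 0) (XT.lf (nat_lit 0) (nat_lit 1123166052) (nat_lit 1008) (nat_lit 4794762540) (nat_lit 1092) (nat_lit 2828356065) (nat_lit 188) (nat_lit 5) (nat_lit 200) (nat_lit 5) (nat_lit 201) (nat_lit 5) (nat_lit 221) (nat_lit 219) (nat_lit 160)) (XT.nd (nat_lit 94) (nat_lit 0) (nat_lit 84) (XT.lf (nat_lit 0) (nat_lit 2210973031) (nat_lit 1008) (nat_lit 338599494) (nat_lit 1092) (nat_lit 6317673870) (nat_lit 188) (nat_lit 5) (nat_lit 200) (nat_lit 5) (nat_lit 201) (nat_lit 5) (nat_lit 222) (nat_lit 219)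 (nat_lit 159)) (XT.lf (nat_lit 0) (nat_lit 3352648963) (nat_lit 1008) (nat_lit 4656367797) (nat_lit 1092) (nat_lit 982872184) (nat_lit 189) (nat_lit 5) (nat_lit 201) (nat_lit 5) (nat_lit 202) (nat_lit 5) (nat_lit 223) (nat_lit 219) (nat_lit 158))))) (XT.nd (nat_lit 282) (nat_lit 924) (nat_lit 0) (XT.nd (nat_lit 94) (nat_lit 0) (nat_lit 0) (XT.lf (nat_lit 84) (nat_lit 4889411) (nat_lit 0) (nat_lit 4520453642) (nat_lit 1092) (nat_lit 4595863849) (nat_lit 190) (nat_lit 5) (nat_lit 189) (nat_lit 5) (nat_lit 202) (nat_lit 5) (nat_lit 224) (nat_lit 219) (nat_lit 157)) (XT.nd (nat_lit 94) (nat_lit 0) (nat_lit 84) (XT.lf (nat_lit 84) (nat_lit 4915015891) (nat_lit 0) (nat_lit 837715234) (nat_lit 1092) (nat_lit 3501842123) (nat_lit 190) (nat_lit 5) (nat_lit 189) (nat_lit 5) (nat_lit 202) (nat_lit 5) (nat_lit 225) (nat_lit 219) (nat_lit 156)) (XT.lf (nat_lit 84) (nat_lit 557122840) (nat_lit 0) (nat_lit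 6465564546) (nat_lit 1092) (nat_lit 2369933694) (nat_lit 191) (nat_lit 5) (nat_lit 190) (nat_lit 5) (nat_lit 203) (nat_lit 5) (nat_lit 226) (nat_lit 219) (nat_lit 155)))) (XT.nd (nat_lit 94) (nat_lit 1008) (nat_lit 0) (XT.lf (nat_lit 84) (nat_lit 5693047063) (nat_lit 0) (nat_lit 2666115980) (nat_lit 1092) (nat_lit 1175565059) (nat_lit 191) (nat_lit 5) (nat_lit 190) (nat_lit 5) (nat_lit 203) (nat_lit 5) (nat_lit 227) (nat_lit 219) (nat_lit 154)) (XT.nd (nat_lit 94) (nat_lit 0) (nat_lit 0) (XT.lf (nat_lit 0) (nat_lit 50657887) (nat_lit 1092) (nat_lit 8367044664) (nat_lit 1176) (nat_lit 1264382790) (nat_lit 178) (nat_lit 5) (nat_lit 191) (nat_lit 5) (nat_lit 192) (nat_lit 5) (nat_lit 228) (nat_lit 219) (nat_lit 153)) (XT.lf (nat_lit 0) (nat_lit 1332108464) (nat_lit 1092) (nat_lit 3160890285) (nat_lit 1176) (nat_lit 5339730421) (nat_lit 178) (nat_lit 5) (nat_lit 191) (nat_lit 5) (nat_lit 192)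 (nat_lit 5) (nat_lit 229) (nat_lit 219) (nat_lit 152))))))) (XT.nd (nat_lit 1128) (nat_lit 3528) (nat_lit 0) (XT.nd (nat_lit 564) (nat_lit 1932) (nat_lit 0) (XT.nd (nat_lit 282) (nat_lit 2100) (nat_lit 0) (XT.nd (nat_lit 94) (nat_lit 0) (nat_lit 84) (XT.lf (nat_lit 84) (nat_lit 2251925129) (nat_lit 0) (nat_lit 396115596) (nat_lit 1176) (nat_lit 7340967727) (nat_lit 179) (nat_lit 5) (nat_lit 178) (nat_lit 5) (nat_lit 192) (nat_lit 5) (nat_lit 230) (nat_lit 219) (nat_lit 151)) (XT.nd (nat_lit 94) (nat_lit 0) (nat_lit 0) (XT.lf (nat_lit 0) (nat_lit 4056127843) (nat_lit 1092) (nat_lit 2290237911) (nat_lit 1176) (nat_lit 3802778352) (nat_lit 179) (nat_lit 5) (nat_lit 192) (nat_lit 5) (nat_lit 193) (nat_lit 5) (nat_lit 231) (nat_lit 219) (nat_lit 150)) (XT.lf (nat_lit 84) (nat_lit 3392932133) (nat_lit 0) (nat_lit 2129641333) (nat_lit 1176) (nat_lit 4791993401) (nat_lit 180) (nat_lit 5) (nat_lit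 179) (nat_lit 5) (nat_lit 193) (nat_lit 5) (nat_lit 232) (nat_lit 219) (nat_lit 149)))) (XT.nd (nat_lit 94) (nat_lit 2268) (nat_lit 0) (XT.lf (nat_lit 0) (nat_lit 7060182218) (nat_lit 1092) (nat_lit 1207616297) (nat_lit 84) (nat_lit 2217286596) (nat_lit 180) (nat_lit 5) (nat_lit 193) (nat_lit 5) (nat_lit 181) (nat_lit 5) (nat_lit 233) (nat_lit 219) (nat_lit 148)) (XT.nd (nat_lit 94) (nat_lit 1176) (nat_lit 0) (XT.lf (nat_lit 0) (nat_lit 4763188825) (nat_lit 1092) (nat_lit 3934748277) (nat_lit 1176) (nat_lit 1962012847) (nat_lit 167) (nat_lit 5) (nat_lit 180) (nat_lit 5) (nat_lit 181) (nat_lit 5) (nat_lit 234) (nat_lit 219) (nat_lit 147)) (XT.lf (nat_lit 0) (nat_lit 100051796) (nat_lit 1176) (nat_lit 10284128028) (nat_lit 1260) (nat_lit 457064409) (nat_lit 153) (nat_lit 5) (nat_lit 167) (nat_lit 5) (nat_lit 168) (nat_lit 5) (nat_lit 235) (nat_lit 219) (nat_lit 146))))) (XT.nd (nat_lit 282)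 (nat_lit 1176) (nat_lit 0) (XT.nd (nat_lit 94) (nat_lit 672) (nat_lit 0) (XT.lf (nat_lit 0) (nat_lit 1161256649) (nat_lit 1260) (nat_lit 4664384962) (nat_lit 84) (nat_lit 5199815132) (nat_lit 152) (nat_lit 5) (nat_lit 167) (nat_lit 5) (nat_lit 153) (nat_lit 5) (nat_lit 236) (nat_lit 219) (nat_lit 145)) (XT.nd (nat_lit 94) (nat_lit 0) (nat_lit 0) (XT.lf (nat_lit 0) (nat_lit 1629894456) (nat_lit 672) (nat_lit 1184672200) (nat_lit 756) (nat_lit 8401747962) (nat_lit 144) (nat_lit 5) (nat_lit 152) (nat_lit 5) (nat_lit 153) (nat_lit 5) (nat_lit 237) (nat_lit 219) (nat_lit 144)) (XT.lf (nat_lit 0) (nat_lit 4593356777) (nat_lit 756) (nat_lit 3224014333) (nat_lit 84) (nat_lit 3594114910) (nat_lit 144) (nat_lit 5) (nat_lit 153) (nat_lit 5) (nat_lit 145) (nat_lit 5) (nat_lit 238) (nat_lit 219) (nat_lit 143)))) (XT.nd (nat_lit 94) (nat_lit 588) (nat_lit 0) (XT.lf (nat_lit 0) (nat_lit 3397780333) (nat_lit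 588) (nat_lit 3060725149) (nat_lit 672) (nat_lit 5154139406) (nat_lit 137) (nat_lit 5) (nat_lit 144) (nat_lit 5) (nat_lit 145) (nat_lit 5) (nat_lit 239) (nat_lit 219) (nat_lit 142)) (XT.nd (nat_lit 94) (nat_lit 588) (nat_lit 0) (XT.lf (nat_lit 0) (nat_lit 8421385171) (nat_lit 672) (nat_lit 1539262583) (nat_lit 84) (nat_lit 1859060785) (nat_lit 137) (nat_lit 5) (nat_lit 145) (nat_lit 5) (nat_lit 138) (nat_lit 5) (nat_lit 240) (nat_lit 219) (nat_lit 141)) (XT.lf (nat_lit 0) (nat_lit 5431452911) (nat_lit 588) (nat_lit 5091451690) (nat_lit 672) (nat_lit 1508666954) (nat_lit 130) (nat_lit 5) (nat_lit 137) (nat_lit 5) (nat_lit 138) (nat_lit 5) (nat_lit 241) (nat_lit 219) (nat_lit 140)))))) (XT.nd (nat_lit 564) (nat_lit 1932) (nat_lit 0) (XT.nd (nat_lit 282) (nat_lit 504) (nat_lit 0) (XT.nd (nat_lit 94) (nat_lit 504) (nat_lit 0) (XT.lf (nat_lit 0) (nat_lit 410320147) (nat_lit 504) (nat_lit 24029994)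 (nat_lit 588) (nat_lit 11816417631) (nat_lit 123) (nat_lit 5) (nat_lit 129) (nat_lit 5) (nat_lit 130) (nat_lit 5) (nat_lit 242) (nat_lit 219) (nat_lit 139)) (XT.nd (nat_lit 94) (nat_lit 504) (nat_lit 0) (XT.lf (nat_lit 0) (nat_lit 2521888272) (nat_lit 588) (nat_lit 4754006955) (nat_lit 84) (nat_lit 5197214474) (nat_lit 123) (nat_lit 5) (nat_lit 130) (nat_lit 5) (nat_lit 124) (nat_lit 5) (nat_lit 243) (nat_lit 219) (nat_lit 138)) (XT.lf (nat_lit 0) (nat_lit 2613114830) (nat_lit 504) (nat_lit 2074587451) (nat_lit 588) (nat_lit 8015348894) (nat_lit 117) (nat_lit 5) (nat_lit 123) (nat_lit 5) (nat_lit 124) (nat_lit 5) (nat_lit 244) (nat_lit 219) (nat_lit 137)))) (XT.nd (nat_lit 94) (nat_lit 504) (nat_lit 0) (XT.lf (nat_lit 0) (nat_lit 6999249864) (nat_lit 588) (nat_lit 2651169371) (nat_lit 84) (nat_lit 3288173813) (nat_lit 117) (nat_lit 5) (nat_lit 124) (nat_lit 5) (nat_lit 118) (nat_lit 5) (nat_lit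 245) (nat_lit 219) (nat_lit 136)) (XT.nd (nat_lit 94) (nat_lit 0) (nat_lit 0) (XT.lf (nat_lit 0) (nat_lit 5114075789) (nat_lit 504) (nat_lit 4335653453) (nat_lit 588) (nat_lit 3730618677) (nat_lit 111) (nat_lit 5) (nat_lit 117) (nat_lit 5) (nat_lit 118) (nat_lit 5) (nat_lit 246) (nat_lit 219) (nat_lit 135)) (XT.lf (nat_lit 0) (nat_lit 12008174860) (nat_lit 588) (nat_lit 254411321) (nat_lit 84) (nat_lit 1167201049) (nat_lit 111) (nat_lit 5) (nat_lit 118) (nat_lit 5) (nat_lit 112) (nat_lit 5) (nat_lit 247) (nat_lit 219) (nat_lit 134))))) (XT.nd (nat_lit 282) (nat_lit 924) (nat_lit 0) (XT.nd (nat_lit 94) (nat_lit 420) (nat_lit 0) (XT.lf (nat_lit 0) (nat_lit 1064349991) (nat_lit 588) (nat_lit 5760685035) (nat_lit 84) (nat_lit 6858411013) (nat_lit 104) (nat_lit 5) (nat_lit 111) (nat_lit 5) (nat_lit 105) (nat_lit 5) (nat_lit 248) (nat_lit 219) (nat_lit 133)) (XT.nd (nat_lit 94) (nat_lit 0) (nat_lit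 0) (XT.lf (nat_lit 0) (nat_lit 2460035791) (nat_lit 420) (nat_lit 1152909282) (nat_lit 504) (nat_lit 10332149517) (nat_lit 99) (nat_lit 5) (nat_lit 104) (nat_lit 5) (nat_lit 105) (nat_lit 5) (nat_lit 249) (nat_lit 219) (nat_lit 132)) (XT.lf (nat_lit 0) (nat_lit 6350998584) (nat_lit 504) (nat_lit 3186136638) (nat_lit 84) (nat_lit 4675256603) (nat_lit 99) (nat_lit 5) (nat_lit 105) (nat_lit 5) (nat_lit 100) (nat_lit 5) (nat_lit 250) (nat_lit 219) (nat_lit 131)))) (XT.nd (nat_lit 94) (nat_lit 504) (nat_lit 0) (XT.lf (nat_lit 0) (nat_lit 5489223632) (nat_lit 420) (nat_lit 3749763698) (nat_lit 504) (nat_lit 5248163515) (nat_lit 94) (nat_lit 5) (nat_lit 99) (nat_lit 5) (nat_lit 100) (nat_lit 5) (nat_lit 251) (nat_lit 219) (nat_lit 130)) (XT.nd (nat_lit 94) (nat_lit 504) (nat_lit 0) (XT.lf (nat_lit 0) (nat_lit 12271046492) (nat_lit 504) (nat_lit 276424651) (nat_lit 84) (nat_lit 2222550609) (nat_lit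 94) (nat_lit 5) (nat_lit 100) (nat_lit 5) (nat_lit 95) (nat_lit 5) (nat_lit 252) (nat_lit 219) (nat_lit 129)) (XT.lf (nat_lit 0) (nat_lit 462902481) (nat_lit 504) (nat_lit 6179930877) (nat_lit 84) (nat_lit 8415473375) (nat_lit 88) (nat_lit 5) (nat_lit 94) (nat_lit 5) (nat_lit 89) (nat_lit 5) (nat_lit 253) (nat_lit 219) (nat_lit 128))))))))
noncomputable def xc44 : XT := (XT.nd (nat_lit 35814) (nat_lit 0) (nat_lit 1848) (XT.nd (nat_lit 34686) (nat_lit 0) (nat_lit 9744) (XT.nd (nat_lit 470) (nat_lit 1008) (nat_lit 0) (XT.nd (nat_lit 188) (nat_lit 840) (nat_lit 0) (XT.nd (nat_lit 94) (nat_lit 0) (nat_lit 0) (XT.lf (nat_lit 0) (nat_lit 3018400935) (nat_lit 420) (nat_lit 469171150) (nat_lit 504) (nat_lit 11867478944) (nat_lit 83) (nat_lit 5) (nat_lit 88) (nat_lit 5) (nat_lit 89) (nat_lit 5) (nat_lit 254) (nat_lit 219) (nat_lit 127)) (XT.lf (nat_lit 0) (nat_lit 6738985868) (nat_lit 504) (nat_lit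 3064526259) (nat_lit 84) (nat_lit 5854438422) (nat_lit 83) (nat_lit 5) (nat_lit 89) (nat_lit 5) (nat_lit 84) (nat_lit 5) (nat_lit 255) (nat_lit 219) (nat_lit 126))) (XT.nd (nat_lit 94) (nat_lit 504) (nat_lit 0) (XT.lf (nat_lit 0) (nat_lit 6653262747) (nat_lit 336) (nat_lit 3512266757) (nat_lit 420) (nat_lit 5803775486) (nat_lit 79) (nat_lit 5) (nat_lit 83) (nat_lit 5) (nat_lit 84) (nat_lit 5) (nat_lit 256) (nat_lit 219) (nat_lit 125)) (XT.nd (nat_lit 94) (nat_lit 84) (nat_lit 0) (XT.lf (nat_lit 0) (nat_lit 446165887) (nat_lit 420) (nat_lit 13322869772) (nat_lit 504) (nat_lit 2520525005) (nat_lit 74) (nat_lit 5) (nat_lit 79) (nat_lit 5) (nat_lit 80) (nat_lit 5) (nat_lit 257) (nat_lit 219) (nat_lit 124)) (XT.lf (nat_lit 0) (nat_lit 991637518) (nat_lit 504) (nat_lit 5919695606) (nat_lit 84) (nat_lit 9704663470) (nat_lit 73) (nat_lit 5) (nat_lit 79) (nat_lit 5) (nat_lit 74) (nat_lit 5) (nat_lit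 258) (nat_lit 219) (nat_lit 123))))) (XT.nd (nat_lit 282) (nat_lit 336) (nat_lit 0) (XT.nd (nat_lit 94) (nat_lit 336) (nat_lit 0) (XT.lf (nat_lit 0) (nat_lit 4398107196) (nat_lit 336) (nat_lit 201273725) (nat_lit 420) (nat_lit 12352346288) (nat_lit 69) (nat_lit 5) (nat_lit 73) (nat_lit 5) (nat_lit 74) (nat_lit 5) (nat_lit 259) (nat_lit 219) (nat_lit 122)) (XT.nd (nat_lit 94) (nat_lit 336) (nat_lit 0) (XT.lf (nat_lit 0) (nat_lit 8462235656) (nat_lit 420) (nat_lit 2177655171) (nat_lit 84) (nat_lit 6654808156) (nat_lit 69) (nat_lit 5) (nat_lit 74) (nat_lit 5) (nat_lit 70) (nat_lit 5) (nat_lit 260) (nat_lit 219) (nat_lit 121)) (XT.lf (nat_lit 0) (nat_lit 8733871167) (nat_lit 336) (nat_lit 3809673373) (nat_lit 420) (nat_lit 5103216330) (nat_lit 65) (nat_lit 5) (nat_lit 69) (nat_lit 5) (nat_lit 70) (nat_lit 5) (nat_lit 261) (nat_lit 219) (nat_lit 120)))) (XT.nd (nat_lit 33746) (nat_lit 0) (nat_lit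 10584) (XT.lf (nat_lit 0) (nat_lit 2055814774) (nat_lit 336) (nat_lit 14780940218) (nat_lit 420) (nat_lit 1171972983) (nat_lit 61) (nat_lit 5) (nat_lit 65) (nat_lit 5) (nat_lit 66) (nat_lit 5) (nat_lit 262) (nat_lit 219) (nat_lit 119)) (XT.nd (nat_lit 94) (nat_lit 0) (nat_lit 0) (XT.lf (nat_lit 0) (nat_lit 517382435) (nat_lit 1092) (nat_lit 1927354424) (nat_lit 1092) (nat_lit 1927354424) (nat_lit 187) (nat_lit 3) (nat_lit 200) (nat_lit 3) (nat_lit 200) (nat_lit 5) (nat_lit 220) (nat_lit 220) (nat_lit 160)) (XT.lf (nat_lit 84) (nat_lit 529385876) (nat_lit 0) (nat_lit 1495678983) (nat_lit 1092) (nat_lit 6838114198) (nat_lit 188) (nat_lit 5) (nat_lit 187) (nat_lit 3) (nat_lit 200) (nat_lit 5) (nat_lit 221) (nat_lit 220) (nat_lit 159)))))) (XT.nd (nat_lit 564) (nat_lit 924) (nat_lit 0) (XT.nd (nat_lit 282) (nat_lit 0) (nat_lit 84) (XT.nd (nat_lit 94) (nat_lit 0) (nat_lit 0) (XT.lf (nat_lit 0)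 (nat_lit 3074660851) (nat_lit 1008) (nat_lit 3873239407) (nat_lit 1092) (nat_lit 2037577922) (nat_lit 188) (nat_lit 5) (nat_lit 200) (nat_lit 5) (nat_lit 201) (nat_lit 5) (nat_lit 222) (nat_lit 220) (nat_lit 158)) (XT.nd (nat_lit 94) (nat_lit 0) (nat_lit 84) (XT.lf (nat_lit 84) (nat_lit 718339595) (nat_lit 0) (nat_lit 3425542100) (nat_lit 1092) (nat_lit 4968774963) (nat_lit 189) (nat_lit 5) (nat_lit 188) (nat_lit 5) (nat_lit 201) (nat_lit 5) (nat_lit 223) (nat_lit 220) (nat_lit 157)) (XT.lf (nat_lit 0) (nat_lit 5258204366) (nat_lit 1008) (nat_lit 3707530355) (nat_lit 1092) (nat_lit 278282893) (nat_lit 189) (nat_lit 5) (nat_lit 201) (nat_lit 5) (nat_lit 202) (nat_lit 5) (nat_lit 224) (nat_lit 220) (nat_lit 156)))) (XT.nd (nat_lit 94) (nat_lit 0) (nat_lit 0) (XT.lf (nat_lit 84) (nat_lit 1104195493) (nat_lit 0) (nat_lit 5319523021) (nat_lit 1092) (nat_lit 2955831033) (nat_lit 190) (nat_lit 5)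 (nat_lit 189) (nat_lit 5) (nat_lit 202) (nat_lit 5) (nat_lit 225) (nat_lit 220) (nat_lit 155)) (XT.nd (nat_lit 94) (nat_lit 0) (nat_lit 84) (XT.lf (nat_lit 84) (nat_lit 6149007586) (nat_lit 0) (nat_lit 1486217394) (nat_lit 1092) (nat_lit 1884418142) (nat_lit 190) (nat_lit 5) (nat_lit 189) (nat_lit 5) (nat_lit 202) (nat_lit 5) (nat_lit 226) (nat_lit 220) (nat_lit 154)) (XT.lf (nat_lit 84) (nat_lit 1691470912) (nat_lit 0) (nat_lit 7207064466) (nat_lit 1092) (nat_lit 765775552) (nat_lit 191) (nat_lit 5) (nat_lit 190) (nat_lit 5) (nat_lit 203) (nat_lit 5) (nat_lit 227) (nat_lit 220) (nat_lit 153))))) (XT.nd (nat_lit 282) (nat_lit 0) (nat_lit 84) (XT.nd (nat_lit 94) (nat_lit 0) (nat_lit 84) (XT.lf (nat_lit 0) (nat_lit 403971818) (nat_lit 1092) (nat_lit 2848474250) (nat_lit 1176) (nat_lit 6560713728) (nat_lit 177) (nat_lit 5) (nat_lit 190) (nat_lit 5) (nat_lit 191) (nat_lit 5) (nat_lit 228) (nat_lit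 220) (nat_lit 152)) (XT.nd (nat_lit 94) (nat_lit 0) (nat_lit 0) (XT.lf (nat_lit 0) (nat_lit 1598908946) (nat_lit 1092) (nat_lit 7499166755) (nat_lit 1176) (nat_lit 868755895) (nat_lit 178) (nat_lit 5) (nat_lit 191) (nat_lit 5) (nat_lit 192) (nat_lit 5) (nat_lit 229) (nat_lit 220) (nat_lit 151)) (XT.lf (nat_lit 0) (nat_lit 2872913935) (nat_lit 1092) (nat_lit 2150048526) (nat_lit 1176) (nat_lit 5101615872) (nat_lit 178) (nat_lit 5) (nat_lit 191) (nat_lit 5) (nat_lit 192) (nat_lit 5) (nat_lit 230) (nat_lit 220) (nat_lit 150)))) (XT.nd (nat_lit 94) (nat_lit 0) (nat_lit 84) (XT.lf (nat_lit 84) (nat_lit 3439429907) (nat_lit 0) (nat_lit 757299197) (nat_lit 1176) (nat_lit 6090934401) (nat_lit 179) (nat_lit 5) (nat_lit 178) (nat_lit 5) (nat_lit 192) (nat_lit 5) (nat_lit 231) (nat_lit 220) (nat_lit 149)) (XT.nd (nat_lit 94) (nat_lit 0) (nat_lit 0) (XT.lf (nat_lit 0) (nat_lit 5601123300) (nat_lit 1092)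 (nat_lit 1246224713) (nat_lit 1176) (nat_lit 3607910052) (nat_lit 179) (nat_lit 5) (nat_lit 192) (nat_lit 5) (nat_lit 193) (nat_lit 5) (nat_lit 232) (nat_lit 220) (nat_lit 148)) (XT.lf (nat_lit 84) (nat_lit 4623039994) (nat_lit 0) (nat_lit 2460791919) (nat_lit 1176) (nat_lit 3543865900) (nat_lit 180) (nat_lit 5) (nat_lit 179) (nat_lit 5) (nat_lit 193) (nat_lit 5) (nat_lit 233) (nat_lit 220) (nat_lit 147))))))) (XT.nd (nat_lit 1034) (nat_lit 3360) (nat_lit 0) (XT.nd (nat_lit 470) (nat_lit 1764) (nat_lit 0) (XT.nd (nat_lit 188) (nat_lit 1932) (nat_lit 0) (XT.nd (nat_lit 94) (nat_lit 1092) (nat_lit 0) (XT.lf (nat_lit 0) (nat_lit 8626234638) (nat_lit 1092) (nat_lit 127087358) (nat_lit 84) (nat_lit 2052577981) (nat_lit 180) (nat_lit 5) (nat_lit 193) (nat_lit 5) (nat_lit 181) (nat_lit 5) (nat_lit 234) (nat_lit 220) (nat_lit 146)) (XT.lf (nat_lit 0) (nat_lit 6039895343) (nat_lit 1092) (nat_lit 4249181291)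 (nat_lit 1176) (nat_lit 698936653) (nat_lit 167) (nat_lit 5) (nat_lit 180) (nat_lit 5) (nat_lit 181) (nat_lit 5) (nat_lit 235) (nat_lit 220) (nat_lit 145))) (XT.nd (nat_lit 94) (nat_lit 672) (nat_lit 0) (XT.lf (nat_lit 0) (nat_lit 806168238) (nat_lit 1260) (nat_lit 9938625267) (nat_lit 84) (nat_lit 431681132) (nat_lit 152) (nat_lit 5) (nat_lit 167) (nat_lit 5) (nat_lit 153) (nat_lit 5) (nat_lit 236) (nat_lit 220) (nat_lit 144)) (XT.nd (nat_lit 94) (nat_lit 672) (nat_lit 0) (XT.lf (nat_lit 0) (nat_lit 2427507947) (nat_lit 1260) (nat_lit 3694075170) (nat_lit 84) (nat_lit 5246868356) (nat_lit 152) (nat_lit 5) (nat_lit 167) (nat_lit 5) (nat_lit 153) (nat_lit 5) (nat_lit 237) (nat_lit 220) (nat_lit 143)) (XT.lf (nat_lit 0) (nat_lit 2807580669) (nat_lit 672) (nat_lit 1302143817) (nat_lit 756) (nat_lit 7457278465) (nat_lit 144) (nat_lit 5) (nat_lit 152) (nat_lit 5) (nat_lit 153) (nat_lit 5) (nat_lit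 238) (nat_lit 220) (nat_lit 142))))) (XT.nd (nat_lit 282) (nat_lit 1176) (nat_lit 0) (XT.nd (nat_lit 94) (nat_lit 588) (nat_lit 0) (XT.lf (nat_lit 0) (nat_lit 5909487648) (nat_lit 756) (nat_lit 2212826351) (nat_lit 84) (nat_lit 3648136313) (nat_lit 144) (nat_lit 5) (nat_lit 153) (nat_lit 5) (nat_lit 145) (nat_lit 5) (nat_lit 239) (nat_lit 220) (nat_lit 141)) (XT.nd (nat_lit 94) (nat_lit 0) (nat_lit 0) (XT.lf (nat_lit 0) (nat_lit 4627916471) (nat_lit 588) (nat_lit 3185311138) (nat_lit 672) (nat_lit 4166356245) (nat_lit 137) (nat_lit 5) (nat_lit 144) (nat_lit 5) (nat_lit 145) (nat_lit 5) (nat_lit 240) (nat_lit 220) (nat_lit 140)) (XT.lf (nat_lit 0) (nat_lit 9806452383) (nat_lit 672) (nat_lit 481144523) (nat_lit 84) (nat_lit 1907640277) (nat_lit 137) (nat_lit 5) (nat_lit 145) (nat_lit 5) (nat_lit 138) (nat_lit 5) (nat_lit 241) (nat_lit 220) (nat_lit 139)))) (XT.nd (nat_lit 94) (nat_lit 588) (nat_lit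 0) (XT.lf (nat_lit 0) (nat_lit 6720868578) (nat_lit 588) (nat_lit 5236034464) (nat_lit 672) (nat_lit 458474130) (nat_lit 130) (nat_lit 5) (nat_lit 137) (nat_lit 5) (nat_lit 138) (nat_lit 5) (nat_lit 242) (nat_lit 220) (nat_lit 138)) (XT.nd (nat_lit 94) (nat_lit 0) (nat_lit 0) (XT.lf (nat_lit 0) (nat_lit 1503834394) (nat_lit 588) (nat_lit 11106834308) (nat_lit 84) (nat_lit 31976073) (nat_lit 123) (nat_lit 5) (nat_lit 130) (nat_lit 5) (nat_lit 124) (nat_lit 5) (nat_lit 243) (nat_lit 220) (nat_lit 137)) (XT.lf (nat_lit 0) (nat_lit 3629052056) (nat_lit 588) (nat_lit 3811458195) (nat_lit 84) (nat_lit 5433496870) (nat_lit 123) (nat_lit 5) (nat_lit 130) (nat_lit 5) (nat_lit 124) (nat_lit 5) (nat_lit 244) (nat_lit 220) (nat_lit 136)))))) (XT.nd (nat_lit 564) (nat_lit 1344) (nat_lit 0) (XT.nd (nat_lit 282) (nat_lit 1008) (nat_lit 0) (XT.nd (nat_lit 94) (nat_lit 504) (nat_lit 0) (XT.lf (nat_lit 0) (nat_lit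 3800870225) (nat_lit 504) (nat_lit 2047558951) (nat_lit 588) (nat_lit 7264345784) (nat_lit 117) (nat_lit 5) (nat_lit 123) (nat_lit 5) (nat_lit 124) (nat_lit 5) (nat_lit 245) (nat_lit 220) (nat_lit 135)) (XT.nd (nat_lit 94) (nat_lit 504) (nat_lit 0) (XT.lf (nat_lit 0) (nat_lit 8208250188) (nat_lit 588) (nat_lit 1652106010) (nat_lit 84) (nat_lit 3497346676) (nat_lit 117) (nat_lit 5) (nat_lit 124) (nat_lit 5) (nat_lit 118) (nat_lit 5) (nat_lit 246) (nat_lit 220) (nat_lit 134)) (XT.lf (nat_lit 0) (nat_lit 6372474880) (nat_lit 504) (nat_lit 4351448440) (nat_lit 588) (nat_lit 2884715902) (nat_lit 111) (nat_lit 5) (nat_lit 117) (nat_lit 5) (nat_lit 118) (nat_lit 5) (nat_lit 247) (nat_lit 220) (nat_lit 133)))) (XT.nd (nat_lit 94) (nat_lit 504) (nat_lit 0) (XT.lf (nat_lit 0) (nat_lit 828822651) (nat_lit 504) (nat_lit 12521886105) (nat_lit 588) (nat_lit 516842355) (nat_lit 105) (nat_lit 5) (nat_lit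 111) (nat_lit 5) (nat_lit 112) (nat_lit 5) (nat_lit 248) (nat_lit 220) (nat_lit 132)) (XT.nd (nat_lit 94) (nat_lit 420) (nat_lit 0) (XT.lf (nat_lit 0) (nat_lit 2005872621) (nat_lit 588) (nat_lit 4880221065) (nat_lit 84) (nat_lit 7244623501) (nat_lit 104) (nat_lit 5) (nat_lit 111) (nat_lit 5) (nat_lit 105) (nat_lit 5) (nat_lit 249) (nat_lit 220) (nat_lit 131)) (XT.lf (nat_lit 0) (nat_lit 3615888482) (nat_lit 420) (nat_lit 1009120187) (nat_lit 504) (nat_lit 9777167863) (nat_lit 99) (nat_lit 5) (nat_lit 104) (nat_lit 5) (nat_lit 105) (nat_lit 5) (nat_lit 250) (nat_lit 220) (nat_lit 130))))) (XT.nd (nat_lit 282) (nat_lit 504) (nat_lit 0) (XT.nd (nat_lit 94) (nat_lit 840) (nat_lit 0) (XT.lf (nat_lit 0) (nat_lit 7430928215) (nat_lit 504) (nat_lit 2236109313) (nat_lit 84) (nat_lit 5012770446) (nat_lit 99) (nat_lit 5) (nat_lit 105) (nat_lit 5) (nat_lit 100) (nat_lit 5) (nat_lit 251) (nat_lit 220)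 (nat_lit 129)) (XT.nd (nat_lit 94) (nat_lit 420) (nat_lit 0) (XT.lf (nat_lit 0) (nat_lit 6730786295) (nat_lit 420) (nat_lit 3671900811) (nat_lit 504) (nat_lit 4562102285) (nat_lit 94) (nat_lit 5) (nat_lit 99) (nat_lit 5) (nat_lit 100) (nat_lit 5) (nat_lit 252) (nat_lit 220) (nat_lit 128)) (XT.lf (nat_lit 0) (nat_lit 771511528) (nat_lit 420) (nat_lit 12751787061) (nat_lit 504) (nat_lit 1734877132) (nat_lit 89) (nat_lit 5) (nat_lit 94) (nat_lit 5) (nat_lit 95) (nat_lit 5) (nat_lit 253) (nat_lit 220) (nat_lit 127)))) (XT.nd (nat_lit 94) (nat_lit 420) (nat_lit 0) (XT.lf (nat_lit 0) (nat_lit 1286401692) (nat_lit 504) (nat_lit 5349239329) (nat_lit 84) (nat_lit 8921451031) (nat_lit 88) (nat_lit 5) (nat_lit 94) (nat_lit 5) (nat_lit 89) (nat_lit 5) (nat_lit 254) (nat_lit 220) (nat_lit 126)) (XT.nd (nat_lit 94) (nat_lit 0) (nat_lit 0) (XT.lf (nat_lit 0) (nat_lit 4159097737) (nat_lit 420) (nat_lit 242069788)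 (nat_lit 504) (nat_lit 11463606725) (nat_lit 83) (nat_lit 5) (nat_lit 88) (nat_lit 5) (nat_lit 89) (nat_lit 5) (nat_lit 255) (nat_lit 220) (nat_lit 125)) (XT.lf (nat_lit 0) (nat_lit 7742235669) (nat_lit 504) (nat_lit 2147588570) (nat_lit 84) (nat_lit 6289296095) (nat_lit 83) (nat_lit 5) (nat_lit 89) (nat_lit 5) (nat_lit 84) (nat_lit 5) (nat_lit 256) (nat_lit 220) (nat_lit 124))))))))
noncomputable def xc45 : XT := (XT.nd (nat_lit 35908) (nat_lit 0) (nat_lit 336) (XT.nd (nat_lit 34780) (nat_lit 0) (nat_lit 7308) (XT.nd (nat_lit 470) (nat_lit 336) (nat_lit 0) (XT.nd (nat_lit 188) (nat_lit 420) (nat_lit 0) (XT.nd (nat_lit 94) (nat_lit 420) (nat_lit 0) (XT.lf (nat_lit 0) (nat_lit 7898646549) (nat_lit 336) (nat_lit 3375393201) (nat_lit 420) (nat_lit 5227845830) (nat_lit 79) (nat_lit 5) (nat_lit 83) (nat_lit 5) (nat_lit 84) (nat_lit 5) (nat_lit 257) (nat_lit 220) (nat_lit 123)) (XT.lf (nat_lit 0)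 (nat_lit 1485940888) (nat_lit 420) (nat_lit 13506481751) (nat_lit 504) (nat_lit 1841321173) (nat_lit 74) (nat_lit 5) (nat_lit 79) (nat_lit 5) (nat_lit 80) (nat_lit 5) (nat_lit 258) (nat_lit 220) (nat_lit 122))) (XT.nd (nat_lit 94) (nat_lit 336) (nat_lit 0) (XT.lf (nat_lit 0) (nat_lit 1751003252) (nat_lit 504) (nat_lit 5120546849) (nat_lit 84) (nat_lit 10300643331) (nat_lit 73) (nat_lit 5) (nat_lit 79) (nat_lit 5) (nat_lit 74) (nat_lit 5) (nat_lit 259) (nat_lit 220) (nat_lit 121)) (XT.nd (nat_lit 94) (nat_lit 0) (nat_lit 0) (XT.lf (nat_lit 0) (nat_lit 5472436357) (nat_lit 420) (nat_lit 11974077292) (nat_lit 84) (nat_lit 73601313) (nat_lit 69) (nat_lit 5) (nat_lit 74) (nat_lit 5) (nat_lit 70) (nat_lit 5) (nat_lit 260) (nat_lit 220) (nat_lit 120)) (XT.lf (nat_lit 0) (nat_lit 9448653727) (nat_lit 420) (nat_lit 1271652515) (nat_lit 84) (nat_lit 7155548811) (nat_lit 69) (nat_lit 5) (nat_lit 74)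 (nat_lit 5) (nat_lit 70) (nat_lit 5) (nat_lit 261) (nat_lit 220) (nat_lit 119))))) (XT.nd (nat_lit 34028) (nat_lit 0) (nat_lit 10332) (XT.nd (nat_lit 33840) (nat_lit 0) (nat_lit 10248) (XT.lf (nat_lit 0) (nat_lit 10010579291) (nat_lit 336) (nat_lit 3649706969) (nat_lit 420) (nat_lit 4580391124) (nat_lit 65) (nat_lit 5) (nat_lit 69) (nat_lit 5) (nat_lit 70) (nat_lit 5) (nat_lit 262) (nat_lit 220) (nat_lit 118)) (XT.nd (nat_lit 94) (nat_lit 0) (nat_lit 0) (XT.lf (nat_lit 0) (nat_lit 1491017345) (nat_lit 1092) (nat_lit 1500326852) (nat_lit 1092) (nat_lit 1500326852) (nat_lit 187) (nat_lit 3) (nat_lit 200) (nat_lit 3) (nat_lit 200) (nat_lit 5) (nat_lit 221) (nat_lit 221) (nat_lit 158)) (XT.lf (nat_lit 84) (nat_lit 1525609433) (nat_lit 0) (nat_lit 2427654389) (nat_lit 1092) (nat_lit 5155120243) (nat_lit 188) (nat_lit 5) (nat_lit 187) (nat_lit 3) (nat_lit 200) (nat_lit 5) (nat_lit 222) (nat_lit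 221) (nat_lit 157)))) (XT.nd (nat_lit 94) (nat_lit 0) (nat_lit 0) (XT.lf (nat_lit 0) (nat_lit 4967318194) (nat_lit 1008) (nat_lit 2991892407) (nat_lit 1092) (nat_lit 1278282768) (nat_lit 188) (nat_lit 5) (nat_lit 200) (nat_lit 5) (nat_lit 201) (nat_lit 5) (nat_lit 223) (nat_lit 221) (nat_lit 156)) (XT.nd (nat_lit 94) (nat_lit 0) (nat_lit 0) (XT.lf (nat_lit 84) (nat_lit 1748798420) (nat_lit 0) (nat_lit 4276000926) (nat_lit 1092) (nat_lit 3346044432) (nat_lit 189) (nat_lit 5) (nat_lit 188) (nat_lit 5) (nat_lit 201) (nat_lit 5) (nat_lit 224) (nat_lit 221) (nat_lit 155)) (XT.lf (nat_lit 84) (nat_lit 6704983602) (nat_lit 0) (nat_lit 411154743) (nat_lit 1092) (nat_lit 2392833496) (nat_lit 189) (nat_lit 5) (nat_lit 188) (nat_lit 5) (nat_lit 201) (nat_lit 5) (nat_lit 225) (nat_lit 221) (nat_lit 154)))))) (XT.nd (nat_lit 564) (nat_lit 2100) (nat_lit 0) (XT.nd (nat_lit 282) (nat_lit 0) (nat_lit 0) (XT.nd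 (nat_lit 94) (nat_lit 1008) (nat_lit 0) (XT.lf (nat_lit 84) (nat_lit 2168896575) (nat_lit 0) (nat_lit 6103949928) (nat_lit 1092) (nat_lit 1378136854) (nat_lit 190) (nat_lit 5) (nat_lit 189) (nat_lit 5) (nat_lit 202) (nat_lit 5) (nat_lit 226) (nat_lit 221) (nat_lit 153)) (XT.nd (nat_lit 94) (nat_lit 1008) (nat_lit 0) (XT.lf (nat_lit 84) (nat_lit 7355579604) (nat_lit 0) (nat_lit 2116248144) (nat_lit 1092) (nat_lit 326074937) (nat_lit 190) (nat_lit 5) (nat_lit 189) (nat_lit 5) (nat_lit 202) (nat_lit 5) (nat_lit 227) (nat_lit 221) (nat_lit 152)) (XT.lf (nat_lit 0) (nat_lit 764614337) (nat_lit 1092) (nat_lit 7166624716) (nat_lit 1176) (nat_lit 2017759113) (nat_lit 177) (nat_lit 5) (nat_lit 190) (nat_lit 5) (nat_lit 191) (nat_lit 5) (nat_lit 228) (nat_lit 221) (nat_lit 151)))) (XT.nd (nat_lit 94) (nat_lit 0) (nat_lit 84) (XT.lf (nat_lit 0) (nat_lit 1905280793) (nat_lit 1092) (nat_lit 1908138304)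 (nat_lit 1176) (nat_lit 6291150344) (nat_lit 177) (nat_lit 5) (nat_lit 190) (nat_lit 5) (nat_lit 191) (nat_lit 5) (nat_lit 229) (nat_lit 221) (nat_lit 150)) (XT.nd (nat_lit 94) (nat_lit 0) (nat_lit 0) (XT.lf (nat_lit 0) (nat_lit 3098524552) (nat_lit 1092) (nat_lit 6678088877) (nat_lit 1176) (nat_lit 488529391) (nat_lit 178) (nat_lit 5) (nat_lit 191) (nat_lit 5) (nat_lit 192) (nat_lit 5) (nat_lit 230) (nat_lit 221) (nat_lit 149)) (XT.lf (nat_lit 0) (nat_lit 4368300504) (nat_lit 1092) (nat_lit 1178393254) (nat_lit 1176) (nat_lit 4883425606) (nat_lit 178) (nat_lit 5) (nat_lit 191) (nat_lit 5) (nat_lit 192) (nat_lit 5) (nat_lit 231) (nat_lit 221) (nat_lit 148))))) (XT.nd (nat_lit 282) (nat_lit 2184) (nat_lit 0) (XT.nd (nat_lit 94) (nat_lit 0) (nat_lit 84) (XT.lf (nat_lit 84) (nat_lit 4594781503) (nat_lit 0) (nat_lit 1108031190) (nat_lit 1176) (nat_lit 4897347102) (nat_lit 179) (nat_lit 5) (nat_lit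 178) (nat_lit 5) (nat_lit 192) (nat_lit 5) (nat_lit 232) (nat_lit 221) (nat_lit 147)) (XT.nd (nat_lit 94) (nat_lit 0) (nat_lit 0) (XT.lf (nat_lit 0) (nat_lit 7106907050) (nat_lit 1092) (nat_lit 240416431) (nat_lit 1176) (nat_lit 3428027561) (nat_lit 179) (nat_lit 5) (nat_lit 192) (nat_lit 5) (nat_lit 193) (nat_lit 5) (nat_lit 233) (nat_lit 221) (nat_lit 146)) (XT.lf (nat_lit 84) (nat_lit 5822308399) (nat_lit 0) (nat_lit 2786470749) (nat_lit 1176) (nat_lit 2346192630) (nat_lit 180) (nat_lit 5) (nat_lit 179) (nat_lit 5) (nat_lit 193) (nat_lit 5) (nat_lit 234) (nat_lit 221) (nat_lit 145)))) (XT.nd (nat_lit 94) (nat_lit 1260) (nat_lit 0) (XT.lf (nat_lit 0) (nat_lit 937871768) (nat_lit 1092) (nat_lit 9231981235) (nat_lit 1176) (nat_lit 970793969) (nat_lit 167) (nat_lit 5) (nat_lit 180) (nat_lit 5) (nat_lit 181) (nat_lit 5) (nat_lit 235) (nat_lit 221) (nat_lit 144)) (XT.nd (nat_lit 94) (nat_lit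 1176) (nat_lit 0) (XT.lf (nat_lit 0) (nat_lit 508014210) (nat_lit 1176) (nat_lit 4048861070) (nat_lit 84) (nat_lit 6773475192) (nat_lit 166) (nat_lit 5) (nat_lit 180) (nat_lit 5) (nat_lit 167) (nat_lit 5) (nat_lit 236) (nat_lit 221) (nat_lit 143)) (XT.lf (nat_lit 0) (nat_lit 2018545784) (nat_lit 1260) (nat_lit 9191246943) (nat_lit 84) (nat_lit 316412864) (nat_lit 152) (nat_lit 5) (nat_lit 167) (nat_lit 5) (nat_lit 153) (nat_lit 5) (nat_lit 237) (nat_lit 221) (nat_lit 142))))))) (XT.nd (nat_lit 1128) (nat_lit 2940) (nat_lit 0) (XT.nd (nat_lit 564) (nat_lit 2100) (nat_lit 0) (XT.nd (nat_lit 282) (nat_lit 1260) (nat_lit 0) (XT.nd (nat_lit 94) (nat_lit 672) (nat_lit 0) (XT.lf (nat_lit 0) (nat_lit 3656588269) (nat_lit 1260) (nat_lit 2765174362) (nat_lit 84) (nat_lit 5304540529) (nat_lit 152) (nat_lit 5) (nat_lit 167) (nat_lit 5) (nat_lit 153) (nat_lit 5) (nat_lit 238) (nat_lit 221) (nat_lit 141))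 (XT.nd (nat_lit 94) (nat_lit 0) (nat_lit 0) (XT.lf (nat_lit 0) (nat_lit 3951975336) (nat_lit 672) (nat_lit 1418673215) (nat_lit 756) (nat_lit 6562101573) (nat_lit 144) (nat_lit 5) (nat_lit 152) (nat_lit 5) (nat_lit 153) (nat_lit 5) (nat_lit 239) (nat_lit 221) (nat_lit 140)) (XT.lf (nat_lit 0) (nat_lit 7194863797) (nat_lit 756) (nat_lit 1240982657) (nat_lit 84) (nat_lit 3708820576) (nat_lit 144) (nat_lit 5) (nat_lit 153) (nat_lit 5) (nat_lit 145) (nat_lit 5) (nat_lit 240) (nat_lit 221) (nat_lit 139)))) (XT.nd (nat_lit 94) (nat_lit 672) (nat_lit 0) (XT.lf (nat_lit 0) (nat_lit 5827223544) (nat_lit 588) (nat_lit 3313096694) (nat_lit 672) (nat_lit 3221672013) (nat_lit 137) (nat_lit 5) (nat_lit 144) (nat_lit 5) (nat_lit 145) (nat_lit 5) (nat_lit 241) (nat_lit 221) (nat_lit 138)) (XT.nd (nat_lit 94) (nat_lit 84) (nat_lit 0) (XT.lf (nat_lit 0) (nat_lit 552601931) (nat_lit 588) (nat_lit 10621057660)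 (nat_lit 672) (nat_lit 1412571544) (nat_lit 130) (nat_lit 5) (nat_lit 137) (nat_lit 5) (nat_lit 138) (nat_lit 5) (nat_lit 242) (nat_lit 221) (nat_lit 137)) (XT.lf (nat_lit 0) (nat_lit 542550647) (nat_lit 672) (nat_lit 4838960306) (nat_lit 84) (nat_lit 7433368553) (nat_lit 129) (nat_lit 5) (nat_lit 137) (nat_lit 5) (nat_lit 130) (nat_lit 5) (nat_lit 243) (nat_lit 221) (nat_lit 136))))) (XT.nd (nat_lit 282) (nat_lit 1092) (nat_lit 0) (XT.nd (nat_lit 94) (nat_lit 504) (nat_lit 0) (XT.lf (nat_lit 0) (nat_lit 2540910815) (nat_lit 588) (nat_lit 10424134859) (nat_lit 84) (nat_lit 85636191) (nat_lit 123) (nat_lit 5) (nat_lit 130) (nat_lit 5) (nat_lit 124) (nat_lit 5) (nat_lit 244) (nat_lit 221) (nat_lit 135)) (XT.nd (nat_lit 94) (nat_lit 504) (nat_lit 0) (XT.lf (nat_lit 0) (nat_lit 4707220779) (nat_lit 588) (nat_lit 2909652807) (nat_lit 84) (nat_lit 5674433469) (nat_lit 123) (nat_lit 5) (nat_lit 130)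 (nat_lit 5) (nat_lit 124) (nat_lit 5) (nat_lit 245) (nat_lit 221) (nat_lit 134)) (XT.lf (nat_lit 0) (nat_lit 4957305081) (nat_lit 504) (nat_lit 2026209386) (nat_lit 588) (nat_lit 6555643958) (nat_lit 117) (nat_lit 5) (nat_lit 123) (nat_lit 5) (nat_lit 124) (nat_lit 5) (nat_lit 246) (nat_lit 221) (nat_lit 133)))) (XT.nd (nat_lit 94) (nat_lit 1092) (nat_lit 0) (XT.lf (nat_lit 0) (nat_lit 9395468072) (nat_lit 588) (nat_lit 690672059) (nat_lit 84) (nat_lit 3707584825) (nat_lit 117) (nat_lit 5) (nat_lit 124) (nat_lit 5) (nat_lit 118) (nat_lit 5) (nat_lit 247) (nat_lit 221) (nat_lit 132)) (XT.nd (nat_lit 94) (nat_lit 588) (nat_lit 0) (XT.lf (nat_lit 0) (nat_lit 7603148961) (nat_lit 504) (nat_lit 4376835664) (nat_lit 588) (nat_lit 2074131631) (nat_lit 111) (nat_lit 5) (nat_lit 117) (nat_lit 5) (nat_lit 118) (nat_lit 5) (nat_lit 248) (nat_lit 221) (nat_lit 131)) (XT.lf (nat_lit 0) (nat_lit 350888542)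 (nat_lit 588) (nat_lit 12443628066) (nat_lit 84) (nat_lit 1528028211) (nat_lit 104) (nat_lit 5) (nat_lit 111) (nat_lit 5) (nat_lit 105) (nat_lit 5) (nat_lit 249) (nat_lit 221) (nat_lit 130)))))) (XT.nd (nat_lit 564) (nat_lit 1596) (nat_lit 0) (XT.nd (nat_lit 282) (nat_lit 924) (nat_lit 0) (XT.nd (nat_lit 94) (nat_lit 420) (nat_lit 0) (XT.lf (nat_lit 0) (nat_lit 2920224238) (nat_lit 588) (nat_lit 4040888126) (nat_lit 84) (nat_lit 7634634812) (nat_lit 104) (nat_lit 5) (nat_lit 111) (nat_lit 5) (nat_lit 105) (nat_lit 5) (nat_lit 250) (nat_lit 221) (nat_lit 129)) (XT.nd (nat_lit 94) (nat_lit 0) (nat_lit 0) (XT.lf (nat_lit 0) (nat_lit 4741068994) (nat_lit 420) (nat_lit 872541875) (nat_lit 504) (nat_lit 9263706401) (nat_lit 99) (nat_lit 5) (nat_lit 104) (nat_lit 5) (nat_lit 105) (nat_lit 5) (nat_lit 251) (nat_lit 221) (nat_lit 128)) (XT.lf (nat_lit 0) (nat_lit 8491631190) (nat_lit 504) (nat_lit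 1323412223) (nat_lit 84) (nat_lit 5350536124) (nat_lit 99) (nat_lit 5) (nat_lit 105) (nat_lit 5) (nat_lit 100) (nat_lit 5) (nat_lit 252) (nat_lit 221) (nat_lit 127)))) (XT.nd (nat_lit 94) (nat_lit 504) (nat_lit 0) (XT.lf (nat_lit 0) (nat_lit 7946027131) (nat_lit 420) (nat_lit 3605215943) (nat_lit 504) (nat_lit 3909857778) (nat_lit 94) (nat_lit 5) (nat_lit 99) (nat_lit 5) (nat_lit 100) (nat_lit 5) (nat_lit 253) (nat_lit 221) (nat_lit 126)) (XT.nd (nat_lit 94) (nat_lit 84) (nat_lit 0) (XT.lf (nat_lit 0) (nat_lit 1792001929) (nat_lit 420) (nat_lit 12975717333) (nat_lit 504) (nat_lit 997503927) (nat_lit 89) (nat_lit 5) (nat_lit 94) (nat_lit 5) (nat_lit 95) (nat_lit 5) (nat_lit 254) (nat_lit 221) (nat_lit 125)) (XT.lf (nat_lit 0) (nat_lit 2085046721) (nat_lit 504) (nat_lit 4559087152) (nat_lit 84) (nat_lit 9431079667) (nat_lit 88) (nat_lit 5) (nat_lit 94) (nat_lit 5) (nat_lit 89) (nat_lit 5) (nat_lit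 255) (nat_lit 221) (nat_lit 124))))) (XT.nd (nat_lit 282) (nat_lit 840) (nat_lit 0) (XT.nd (nat_lit 94) (nat_lit 336) (nat_lit 0) (XT.lf (nat_lit 0) (nat_lit 5270898994) (nat_lit 420) (nat_lit 23211509) (nat_lit 504) (nat_lit 11100069272) (nat_lit 83) (nat_lit 5) (nat_lit 88) (nat_lit 5) (nat_lit 89) (nat_lit 5) (nat_lit 256) (nat_lit 221) (nat_lit 123)) (XT.nd (nat_lit 94) (nat_lit 336) (nat_lit 0) (XT.lf (nat_lit 0) (nat_lit 8729576301) (nat_lit 504) (nat_lit 1266656143) (nat_lit 84) (nat_lit 6724084417) (nat_lit 83) (nat_lit 5) (nat_lit 89) (nat_lit 5) (nat_lit 84) (nat_lit 5) (nat_lit 257) (nat_lit 221) (nat_lit 122)) (XT.lf (nat_lit 0) (nat_lit 9120297064) (nat_lit 336) (nat_lit 3251003183) (nat_lit 420) (nat_lit 4683557910) (nat_lit 79) (nat_lit 5) (nat_lit 83) (nat_lit 5) (nat_lit 84) (nat_lit 5) (nat_lit 258) (nat_lit 221) (nat_lit 121)))) (XT.nd (nat_lit 94) (nat_lit 420) (nat_lit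 0) (XT.lf (nat_lit 0) (nat_lit 2494012387) (nat_lit 420) (nat_lit 13715315906) (nat_lit 504) (nat_lit 1189370571) (nat_lit 74) (nat_lit 5) (nat_lit 79) (nat_lit 5) (nat_lit 80) (nat_lit 5) (nat_lit 259) (nat_lit 221) (nat_lit 120)) (XT.nd (nat_lit 94) (nat_lit 336) (nat_lit 0) (XT.lf (nat_lit 0) (nat_lit 2488764755) (nat_lit 504) (nat_lit 4360338600) (nat_lit 84) (nat_lit 10900440172) (nat_lit 73) (nat_lit 5) (nat_lit 79) (nat_lit 5) (nat_lit 74) (nat_lit 5) (nat_lit 260) (nat_lit 221) (nat_lit 119)) (XT.lf (nat_lit 0) (nat_lit 6330870010) (nat_lit 420) (nat_lit 11444164600) (nat_lit 84) (nat_lit 334942933) (nat_lit 69) (nat_lit 5) (nat_lit 74) (nat_lit 5) (nat_lit 70) (nat_lit 5) (nat_lit 261) (nat_lit 221) (nat_lit 118))))))))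
noncomputable def xc46 : XT := (XT.nd (nat_lit 36002) (nat_lit 0) (nat_lit 0) (XT.nd (nat_lit 34874) (nat_lit 0) (nat_lit 5124) (XT.nd (nat_lit 34310) (nat_lit 0) (nat_lit 8988) (XT.nd (nat_lit 34028) (nat_lit 0) (nat_lit 9912) (XT.nd (nat_lit 33934) (nat_lit 0) (nat_lit 9912) (XT.lf (nat_lit 0) (nat_lit 10423702869) (nat_lit 420) (nat_lit 399246925) (nat_lit 84) (nat_lit 7656008068) (nat_lit 69) (nat_lit 5) (nat_lit 74) (nat_lit 5) (nat_lit 70) (nat_lit 5) (nat_lit 262) (nat_lit 221) (nat_lit 117)) (XT.lf (nat_lit 0) (nat_lit 2435197188) (nat_lit 1092) (nat_lit 1091231275) (nat_lit 1092) (nat_lit 1091231275) (nat_lit 187) (nat_lit 3) (nat_lit 200) (nat_lit 3) (nat_lit 200) (nat_lit 5) (nat_lit 222) (nat_lit 222) (nat_lit 156))) (XT.nd (nat_lit 94) (nat_lit 0) (nat_lit 84) (XT.lf (nat_lit 84) (nat_lit 2491694556) (nat_lit 0) (nat_lit 3333763174) (nat_lit 1092) (nat_lit 3541035739) (nat_lit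 188) (nat_lit 5) (nat_lit 187) (nat_lit 3) (nat_lit 200) (nat_lit 5) (nat_lit 223) (nat_lit 222) (nat_lit 155)) (XT.nd (nat_lit 94) (nat_lit 0) (nat_lit 0) (XT.lf (nat_lit 0) (nat_lit 6807532205) (nat_lit 1008) (nat_lit 2147311920) (nat_lit 1092) (nat_lit 547638987) (nat_lit 188) (nat_lit 5) (nat_lit 200) (nat_lit 5) (nat_lit 201) (nat_lit 5) (nat_lit 224) (nat_lit 222) (nat_lit 154)) (XT.lf (nat_lit 84) (nat_lit 2748480484) (nat_lit 0) (nat_lit 5107651066) (nat_lit 1092) (nat_lit 1785975513) (nat_lit 189) (nat_lit 5) (nat_lit 188) (nat_lit 5) (nat_lit 201) (nat_lit 5) (nat_lit 225) (nat_lit 222) (nat_lit 153))))) (XT.nd (nat_lit 282) (nat_lit 0) (nat_lit 84) (XT.nd (nat_lit 94) (nat_lit 1008) (nat_lit 0) (XT.lf (nat_lit 84) (nat_lit 7846396308) (nat_lit 0) (nat_lit 1084472799) (nat_lit 1092) (nat_lit 856118442) (nat_lit 189) (nat_lit 5) (nat_lit 188) (nat_lit 5) (nat_lit 201) (nat_lit 5)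 (nat_lit 226) (nat_lit 222) (nat_lit 152)) (XT.nd (nat_lit 94) (nat_lit 0) (nat_lit 0) (XT.lf (nat_lit 0) (nat_lit 139755868) (nat_lit 1092) (nat_lit 6734650036) (nat_lit 1176) (nat_lit 3061235625) (nat_lit 176) (nat_lit 5) (nat_lit 189) (nat_lit 5) (nat_lit 190) (nat_lit 5) (nat_lit 227) (nat_lit 222) (nat_lit 151)) (XT.lf (nat_lit 0) (nat_lit 1152083150) (nat_lit 1092) (nat_lit 1564220925) (nat_lit 1176) (nat_lit 7372789671) (nat_lit 176) (nat_lit 5) (nat_lit 189) (nat_lit 5) (nat_lit 190) (nat_lit 5) (nat_lit 228) (nat_lit 222) (nat_lit 150)))) (XT.nd (nat_lit 94) (nat_lit 0) (nat_lit 0) (XT.lf (nat_lit 0) (nat_lit 2228255029) (nat_lit 1092) (nat_lit 6412594218) (nat_lit 1176) (nat_lit 1606073084) (nat_lit 177) (nat_lit 5) (nat_lit 190) (nat_lit 5) (nat_lit 191) (nat_lit 5) (nat_lit 229) (nat_lit 222) (nat_lit 149)) (XT.nd (nat_lit 94) (nat_lit 0) (nat_lit 84) (XT.lf (nat_lit 0) (nat_lit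 3360254693) (nat_lit 1092) (nat_lit 1004041634) (nat_lit 1176) (nat_lit 6045342926) (nat_lit 177) (nat_lit 5) (nat_lit 190) (nat_lit 5) (nat_lit 191) (nat_lit 5) (nat_lit 230) (nat_lit 222) (nat_lit 148)) (XT.lf (nat_lit 0) (nat_lit 4554639173) (nat_lit 1092) (nat_lit 5900317668) (nat_lit 1176) (nat_lit 122297658) (nat_lit 178) (nat_lit 5) (nat_lit 191) (nat_lit 5) (nat_lit 192) (nat_lit 5) (nat_lit 231) (nat_lit 222) (nat_lit 147)))))) (XT.nd (nat_lit 564) (nat_lit 3024) (nat_lit 0) (XT.nd (nat_lit 282) (nat_lit 1008) (nat_lit 0) (XT.nd (nat_lit 94) (nat_lit 0) (nat_lit 0) (XT.lf (nat_lit 0) (nat_lit 5823284029) (nat_lit 1092) (nat_lit 242338158) (nat_lit 1176) (nat_lit 4683978099) (nat_lit 178) (nat_lit 5) (nat_lit 191) (nat_lit 5) (nat_lit 192) (nat_lit 5) (nat_lit 232) (nat_lit 222) (nat_lit 146)) (XT.nd (nat_lit 94) (nat_lit 0) (nat_lit 84) (XT.lf (nat_lit 84) (nat_lit 5721755871) (nat_lit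 0) (nat_lit 1449481209) (nat_lit 1176) (nat_lit 3755519400) (nat_lit 179) (nat_lit 5) (nat_lit 178) (nat_lit 5) (nat_lit 192) (nat_lit 5) (nat_lit 233) (nat_lit 222) (nat_lit 145)) (XT.lf (nat_lit 84) (nat_lit 747774781) (nat_lit 0) (nat_lit 7838866279) (nat_lit 1176) (nat_lit 2522762540) (nat_lit 180) (nat_lit 5) (nat_lit 179) (nat_lit 5) (nat_lit 193) (nat_lit 5) (nat_lit 234) (nat_lit 222) (nat_lit 144)))) (XT.nd (nat_lit 94) (nat_lit 1092) (nat_lit 0) (XT.lf (nat_lit 84) (nat_lit 6994571076) (nat_lit 0) (nat_lit 3107620752) (nat_lit 1176) (nat_lit 1194480273) (nat_lit 180) (nat_lit 5) (nat_lit 179) (nat_lit 5) (nat_lit 193) (nat_lit 5) (nat_lit 235) (nat_lit 222) (nat_lit 143)) (XT.nd (nat_lit 94) (nat_lit 0) (nat_lit 0) (XT.lf (nat_lit 0) (nat_lit 191934470) (nat_lit 1176) (nat_lit 9520289794) (nat_lit 84) (nat_lit 1777649857) (nat_lit 166) (nat_lit 5) (nat_lit 180) (nat_lit 5) (nat_lit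 167) (nat_lit 5) (nat_lit 236) (nat_lit 222) (nat_lit 142)) (XT.lf (nat_lit 0) (nat_lit 1660020560) (nat_lit 1176) (nat_lit 3196960362) (nat_lit 84) (nat_lit 6830233911) (nat_lit 166) (nat_lit 5) (nat_lit 180) (nat_lit 5) (nat_lit 167) (nat_lit 5) (nat_lit 237) (nat_lit 222) (nat_lit 141))))) (XT.nd (nat_lit 282) (nat_lit 1176) (nat_lit 0) (XT.nd (nat_lit 94) (nat_lit 672) (nat_lit 0) (XT.lf (nat_lit 0) (nat_lit 3194622465) (nat_lit 1260) (nat_lit 8490531467) (nat_lit 84) (nat_lit 205778890) (nat_lit 152) (nat_lit 5) (nat_lit 167) (nat_lit 5) (nat_lit 153) (nat_lit 5) (nat_lit 238) (nat_lit 222) (nat_lit 140)) (XT.nd (nat_lit 94) (nat_lit 672) (nat_lit 0) (XT.lf (nat_lit 0) (nat_lit 4852614828) (nat_lit 1260) (nat_lit 1874120567) (nat_lit 84) (nat_lit 5372606767) (nat_lit 152) (nat_lit 5) (nat_lit 167) (nat_lit 5) (nat_lit 153) (nat_lit 5) (nat_lit 239) (nat_lit 222) (nat_lit 139)) (XT.lf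 (nat_lit 0) (nat_lit 5066867409) (nat_lit 672) (nat_lit 1534563436) (nat_lit 756) (nat_lit 5712467197) (nat_lit 144) (nat_lit 5) (nat_lit 152) (nat_lit 5) (nat_lit 153) (nat_lit 5) (nat_lit 240) (nat_lit 222) (nat_lit 138)))) (XT.nd (nat_lit 94) (nat_lit 1176) (nat_lit 0) (XT.lf (nat_lit 0) (nat_lit 8453516471) (nat_lit 756) (nat_lit 304891165) (nat_lit 84) (nat_lit 3776083605) (nat_lit 144) (nat_lit 5) (nat_lit 153) (nat_lit 5) (nat_lit 145) (nat_lit 5) (nat_lit 241) (nat_lit 222) (nat_lit 137)) (XT.nd (nat_lit 94) (nat_lit 588) (nat_lit 0) (XT.lf (nat_lit 0) (nat_lit 6999535020) (nat_lit 588) (nat_lit 3444270990) (nat_lit 672) (nat_lit 2316430859) (nat_lit 137) (nat_lit 5) (nat_lit 144) (nat_lit 5) (nat_lit 145) (nat_lit 5) (nat_lit 242) (nat_lit 222) (nat_lit 136)) (XT.lf (nat_lit 0) (nat_lit 1563461978) (nat_lit 588) (nat_lit 10962473137) (nat_lit 672) (nat_lit 467172201) (nat_lit 130)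 (nat_lit 5) (nat_lit 137) (nat_lit 5) (nat_lit 138) (nat_lit 5) (nat_lit 243) (nat_lit 222) (nat_lit 135))))))) (XT.nd (nat_lit 1128) (nat_lit 1680) (nat_lit 0) (XT.nd (nat_lit 564) (nat_lit 1848) (nat_lit 0) (XT.nd (nat_lit 282) (nat_lit 1008) (nat_lit 0) (XT.nd (nat_lit 94) (nat_lit 504) (nat_lit 0) (XT.lf (nat_lit 0) (nat_lit 1500942902) (nat_lit 672) (nat_lit 4028540110) (nat_lit 84) (nat_lit 7701038173) (nat_lit 129) (nat_lit 5) (nat_lit 137) (nat_lit 5) (nat_lit 130) (nat_lit 5) (nat_lit 244) (nat_lit 222) (nat_lit 134)) (XT.nd (nat_lit 94) (nat_lit 0) (nat_lit 0) (XT.lf (nat_lit 0) (nat_lit 3548830037) (nat_lit 588) (nat_lit 9788780134) (nat_lit 84) (nat_lit 137681002) (nat_lit 123) (nat_lit 5) (nat_lit 130) (nat_lit 5) (nat_lit 124) (nat_lit 5) (nat_lit 245) (nat_lit 222) (nat_lit 133)) (XT.lf (nat_lit 0) (nat_lit 5759883983) (nat_lit 588) (nat_lit 2045114380) (nat_lit 84) (nat_lit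 5920427572) (nat_lit 123) (nat_lit 5) (nat_lit 130) (nat_lit 5) (nat_lit 124) (nat_lit 5) (nat_lit 246) (nat_lit 222) (nat_lit 132)))) (XT.nd (nat_lit 94) (nat_lit 504) (nat_lit 0) (XT.lf (nat_lit 0) (nat_lit 6086169715) (nat_lit 504) (nat_lit 2010297030) (nat_lit 588) (nat_lit 5886163701) (nat_lit 117) (nat_lit 5) (nat_lit 123) (nat_lit 5) (nat_lit 124) (nat_lit 5) (nat_lit 247) (nat_lit 222) (nat_lit 131)) (XT.nd (nat_lit 94) (nat_lit 0) (nat_lit 0) (XT.lf (nat_lit 0) (nat_lit 242132531) (nat_lit 504) (nat_lit 10324968269) (nat_lit 588) (nat_lit 3679906832) (nat_lit 111) (nat_lit 5) (nat_lit 117) (nat_lit 5) (nat_lit 118) (nat_lit 5) (nat_lit 248) (nat_lit 222) (nat_lit 130)) (XT.lf (nat_lit 0) (nat_lit 8809899526) (nat_lit 504) (nat_lit 4411549828) (nat_lit 588) (nat_lit 1295785186) (nat_lit 111) (nat_lit 5) (nat_lit 117) (nat_lit 5) (nat_lit 118) (nat_lit 5) (nat_lit 249) (nat_lit 222)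 (nat_lit 129))))) (XT.nd (nat_lit 282) (nat_lit 840) (nat_lit 0) (XT.nd (nat_lit 94) (nat_lit 420) (nat_lit 0) (XT.lf (nat_lit 0) (nat_lit 1178769714) (nat_lit 588) (nat_lit 11903173718) (nat_lit 84) (nat_lit 1713344453) (nat_lit 104) (nat_lit 5) (nat_lit 111) (nat_lit 5) (nat_lit 105) (nat_lit 5) (nat_lit 250) (nat_lit 222) (nat_lit 128)) (XT.nd (nat_lit 94) (nat_lit 420) (nat_lit 0) (XT.lf (nat_lit 0) (nat_lit 3810451480) (nat_lit 588) (nat_lit 3239342080) (nat_lit 84) (nat_lit 8029224088) (nat_lit 104) (nat_lit 5) (nat_lit 111) (nat_lit 5) (nat_lit 105) (nat_lit 5) (nat_lit 251) (nat_lit 222) (nat_lit 127)) (XT.lf (nat_lit 0) (nat_lit 5839232986) (nat_lit 420) (nat_lit 742612668) (nat_lit 504) (nat_lit 8789166177) (nat_lit 99) (nat_lit 5) (nat_lit 104) (nat_lit 5) (nat_lit 105) (nat_lit 5) (nat_lit 252) (nat_lit 222) (nat_lit 126)))) (XT.nd (nat_lit 94) (nat_lit 840) (nat_lit 0) (XT.lf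 (nat_lit 0) (nat_lit 9536226073) (nat_lit 504) (nat_lit 444659032) (nat_lit 84) (nat_lit 5689331143) (nat_lit 99) (nat_lit 5) (nat_lit 105) (nat_lit 5) (nat_lit 100) (nat_lit 5) (nat_lit 253) (nat_lit 222) (nat_lit 125)) (XT.nd (nat_lit 94) (nat_lit 420) (nat_lit 0) (XT.lf (nat_lit 0) (nat_lit 9138664269) (nat_lit 420) (nat_lit 3549175909) (nat_lit 504) (nat_lit 3288768578) (nat_lit 94) (nat_lit 5) (nat_lit 99) (nat_lit 5) (nat_lit 100) (nat_lit 5) (nat_lit 254) (nat_lit 222) (nat_lit 124)) (XT.lf (nat_lit 0) (nat_lit 2782153207) (nat_lit 420) (nat_lit 13222271206) (nat_lit 504) (nat_lit 287387364) (nat_lit 89) (nat_lit 5) (nat_lit 94) (nat_lit 5) (nat_lit 95) (nat_lit 5) (nat_lit 255) (nat_lit 222) (nat_lit 123)))))) (XT.nd (nat_lit 564) (nat_lit 336) (nat_lit 0) (XT.nd (nat_lit 282) (nat_lit 840) (nat_lit 0) (XT.nd (nat_lit 94) (nat_lit 420) (nat_lit 0) (XT.lf (nat_lit 0) (nat_lit 2861536597)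 (nat_lit 504) (nat_lit 3806264664) (nat_lit 84) (nat_lit 9945421790) (nat_lit 88) (nat_lit 5) (nat_lit 94) (nat_lit 5) (nat_lit 89) (nat_lit 5) (nat_lit 256) (nat_lit 222) (nat_lit 122)) (XT.nd (nat_lit 94) (nat_lit 0) (nat_lit 0) (XT.lf (nat_lit 0) (nat_lit 6171274262) (nat_lit 504) (nat_lit 10588561722) (nat_lit 84) (nat_lit 183924637) (nat_lit 83) (nat_lit 5) (nat_lit 89) (nat_lit 5) (nat_lit 84) (nat_lit 5) (nat_lit 257) (nat_lit 222) (nat_lit 121)) (XT.lf (nat_lit 0) (nat_lit 9703843422) (nat_lit 504) (nat_lit 418461370) (nat_lit 84) (nat_lit 7159817541) (nat_lit 83) (nat_lit 5) (nat_lit 89) (nat_lit 5) (nat_lit 84) (nat_lit 5) (nat_lit 258) (nat_lit 222) (nat_lit 120)))) (XT.nd (nat_lit 94) (nat_lit 504) (nat_lit 0) (XT.lf (nat_lit 0) (nat_lit 10321859802) (nat_lit 336) (nat_lit 3138385083) (nat_lit 420) (nat_lit 4168575088) (nat_lit 79) (nat_lit 5) (nat_lit 83) (nat_lit 5) (nat_lit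 84) (nat_lit 5) (nat_lit 259) (nat_lit 222) (nat_lit 119)) (XT.nd (nat_lit 94) (nat_lit 84) (nat_lit 0) (XT.lf (nat_lit 0) (nat_lit 3473798392) (nat_lit 420) (nat_lit 13949005299) (nat_lit 504) (nat_lit 562234423) (nat_lit 74) (nat_lit 5) (nat_lit 79) (nat_lit 5) (nat_lit 80) (nat_lit 5) (nat_lit 260) (nat_lit 222) (nat_lit 118)) (XT.lf (nat_lit 0) (nat_lit 3207369470) (nat_lit 504) (nat_lit 3635984932) (nat_lit 84) (nat_lit 11505320721) (nat_lit 73) (nat_lit 5) (nat_lit 79) (nat_lit 5) (nat_lit 74) (nat_lit 5) (nat_lit 261) (nat_lit 222) (nat_lit 117))))) (XT.nd (nat_lit 34216) (nat_lit 0) (nat_lit 8904) (XT.nd (nat_lit 34028) (nat_lit 0) (nat_lit 9912) (XT.lf (nat_lit 0) (nat_lit 7175007234) (nat_lit 420) (nat_lit 10958803667) (nat_lit 84) (nat_lit 588226369) (nat_lit 69) (nat_lit 5) (nat_lit 74) (nat_lit 5) (nat_lit 70) (nat_lit 5) (nat_lit 262) (nat_lit 222) (nat_lit 116)) (XT.nd (nat_lit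 94) (nat_lit 0) (nat_lit 0) (XT.lf (nat_lit 0) (nat_lit 3353115253) (nat_lit 1092) (nat_lit 698509280) (nat_lit 1092) (nat_lit 698509280) (nat_lit 187) (nat_lit 3) (nat_lit 200) (nat_lit 3) (nat_lit 200) (nat_lit 5) (nat_lit 223) (nat_lit 223) (nat_lit 154)) (XT.lf (nat_lit 84) (nat_lit 3430908619) (nat_lit 0) (nat_lit 4216988685) (nat_lit 1092) (nat_lit 1989774237) (nat_lit 188) (nat_lit 5) (nat_lit 187) (nat_lit 3) (nat_lit 200) (nat_lit 5) (nat_lit 224) (nat_lit 223) (nat_lit 153)))) (XT.nd (nat_lit 94) (nat_lit 1008) (nat_lit 0) (XT.lf (nat_lit 84) (nat_lit 8442483313) (nat_lit 0) (nat_lit 160665584) (nat_lit 1092) (nat_lit 1177413766) (nat_lit 188) (nat_lit 5) (nat_lit 187) (nat_lit 3) (nat_lit 200) (nat_lit 5) (nat_lit 225) (nat_lit 223) (nat_lit 152)) (XT.nd (nat_lit 94) (nat_lit 1092) (nat_lit 0) (XT.lf (nat_lit 84) (nat_lit 3720752934) (nat_lit 0) (nat_lit 5923063916) (nat_lit 1092)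 (nat_lit 282818736) (nat_lit 189) (nat_lit 5) (nat_lit 188) (nat_lit 5) (nat_lit 201) (nat_lit 5) (nat_lit 226) (nat_lit 223) (nat_lit 151)) (XT.lf (nat_lit 0) (nat_lit 612429542) (nat_lit 1092) (nat_lit 1117889338) (nat_lit 1176) (nat_lit 8347814054) (nat_lit 175) (nat_lit 5) (nat_lit 188) (nat_lit 5) (nat_lit 189) (nat_lit 5) (nat_lit 227) (nat_lit 223) (nat_lit 150))))))))
noncomputable def xc47 : XT := (XT.nd (nat_lit 2162) (nat_lit 3192) (nat_lit 0) (XT.nd (nat_lit 1034) (nat_lit 4620) (nat_lit 0) (XT.nd (nat_lit 470) (nat_lit 840) (nat_lit 0) (XT.nd (nat_lit 188) (nat_lit 0) (nat_lit 84) (XT.nd (nat_lit 94) (nat_lit 0) (nat_lit 0) (XT.lf (nat_lit 0) (nat_lit 1576452565) (nat_lit 1092) (nat_lit 6042997447) (nat_lit 1176) (nat_lit 2613825787) (nat_lit 176) (nat_lit 5) (nat_lit 189) (nat_lit 5) (nat_lit 190) (nat_lit 5) (nat_lit 228) (nat_lit 223) (nat_lit 149)) (XT.lf (nat_lit 0) (nat_lit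 2575792767) (nat_lit 1092) (nat_lit 722963497) (nat_lit 1176) (nat_lit 7095037228) (nat_lit 176) (nat_lit 5) (nat_lit 189) (nat_lit 5) (nat_lit 190) (nat_lit 5) (nat_lit 229) (nat_lit 223) (nat_lit 148))) (XT.nd (nat_lit 94) (nat_lit 0) (nat_lit 0) (XT.lf (nat_lit 0) (nat_lit 3647586053) (nat_lit 1092) (nat_lit 5698985248) (nat_lit 1176) (nat_lit 1212046337) (nat_lit 177) (nat_lit 5) (nat_lit 190) (nat_lit 5) (nat_lit 191) (nat_lit 5) (nat_lit 230) (nat_lit 223) (nat_lit 147)) (XT.nd (nat_lit 94) (nat_lit 0) (nat_lit 0) (XT.lf (nat_lit 0) (nat_lit 4773846311) (nat_lit 1092) (nat_lit 132854813) (nat_lit 1176) (nat_lit 5821916108) (nat_lit 177) (nat_lit 5) (nat_lit 190) (nat_lit 5) (nat_lit 191) (nat_lit 5) (nat_lit 231) (nat_lit 223) (nat_lit 146)) (XT.lf (nat_lit 84) (nat_lit 5738118746) (nat_lit 0) (nat_lit 236630244) (nat_lit 1176) (nat_lit 4928585006) (nat_lit 178) (nat_lit 5) (nat_lit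 177) (nat_lit 5) (nat_lit 191) (nat_lit 5) (nat_lit 232) (nat_lit 223) (nat_lit 145))))) (XT.nd (nat_lit 282) (nat_lit 1008) (nat_lit 0) (XT.nd (nat_lit 94) (nat_lit 0) (nat_lit 0) (XT.lf (nat_lit 84) (nat_lit 676845939) (nat_lit 0) (nat_lit 6573312305) (nat_lit 1176) (nat_lit 3832870978) (nat_lit 179) (nat_lit 5) (nat_lit 178) (nat_lit 5) (nat_lit 192) (nat_lit 5) (nat_lit 233) (nat_lit 223) (nat_lit 144)) (XT.nd (nat_lit 94) (nat_lit 0) (nat_lit 84) (XT.lf (nat_lit 84) (nat_lit 6823935239) (nat_lit 0) (nat_lit 1782757734) (nat_lit 1176) (nat_lit 2661043794) (nat_lit 179) (nat_lit 5) (nat_lit 178) (nat_lit 5) (nat_lit 192) (nat_lit 5) (nat_lit 234) (nat_lit 223) (nat_lit 143)) (XT.lf (nat_lit 84) (nat_lit 1709678187) (nat_lit 0) (nat_lit 8329287977) (nat_lit 1176) (nat_lit 1418953819) (nat_lit 180) (nat_lit 5) (nat_lit 179) (nat_lit 5) (nat_lit 193) (nat_lit 5) (nat_lit 235) (nat_lit 223)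 (nat_lit 142)))) (XT.nd (nat_lit 94) (nat_lit 1092) (nat_lit 0) (XT.lf (nat_lit 84) (nat_lit 8143469265) (nat_lit 0) (nat_lit 3425142433) (nat_lit 1176) (nat_lit 84494416) (nat_lit 180) (nat_lit 5) (nat_lit 179) (nat_lit 5) (nat_lit 193) (nat_lit 5) (nat_lit 236) (nat_lit 223) (nat_lit 141)) (XT.nd (nat_lit 94) (nat_lit 0) (nat_lit 0) (XT.lf (nat_lit 0) (nat_lit 1294522565) (nat_lit 1176) (nat_lit 8893489458) (nat_lit 84) (nat_lit 1665652228) (nat_lit 166) (nat_lit 5) (nat_lit 180) (nat_lit 5) (nat_lit 167) (nat_lit 5) (nat_lit 237) (nat_lit 223) (nat_lit 140)) (XT.lf (nat_lit 0) (nat_lit 2776933249) (nat_lit 1176) (nat_lit 2381307618) (nat_lit 84) (nat_lit 6900968065) (nat_lit 166) (nat_lit 5) (nat_lit 180) (nat_lit 5) (nat_lit 167) (nat_lit 5) (nat_lit 238) (nat_lit 223) (nat_lit 139)))))) (XT.nd (nat_lit 564) (nat_lit 1512) (nat_lit 0) (XT.nd (nat_lit 282) (nat_lit 1260) (nat_lit 0) (XT.nd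 (nat_lit 94) (nat_lit 672) (nat_lit 0) (XT.lf (nat_lit 0) (nat_lit 4338362724) (nat_lit 1260) (nat_lit 7833270215) (nat_lit 84) (nat_lit 99365035) (nat_lit 152) (nat_lit 5) (nat_lit 167) (nat_lit 5) (nat_lit 153) (nat_lit 5) (nat_lit 239) (nat_lit 223) (nat_lit 138)) (XT.nd (nat_lit 94) (nat_lit 672) (nat_lit 0) (XT.lf (nat_lit 0) (nat_lit 6019488688) (nat_lit 1260) (nat_lit 1017560340) (nat_lit 84) (nat_lit 5450873978) (nat_lit 152) (nat_lit 5) (nat_lit 167) (nat_lit 5) (nat_lit 153) (nat_lit 5) (nat_lit 240) (nat_lit 223) (nat_lit 137)) (XT.lf (nat_lit 0) (nat_lit 6155849055) (nat_lit 672) (nat_lit 1650105786) (nat_lit 756) (nat_lit 4904858046) (nat_lit 144) (nat_lit 5) (nat_lit 152) (nat_lit 5) (nat_lit 153) (nat_lit 5) (nat_lit 241) (nat_lit 223) (nat_lit 136)))) (XT.nd (nat_lit 94) (nat_lit 672) (nat_lit 0) (XT.lf (nat_lit 0) (nat_lit 612728718) (nat_lit 588) (nat_lit 9083376801) (nat_lit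 672) (nat_lit 3243957857) (nat_lit 137) (nat_lit 5) (nat_lit 144) (nat_lit 5) (nat_lit 145) (nat_lit 5) (nat_lit 242) (nat_lit 223) (nat_lit 135)) (XT.nd (nat_lit 94) (nat_lit 672) (nat_lit 0) (XT.lf (nat_lit 0) (nat_lit 8148491909) (nat_lit 588) (nat_lit 3579024692) (nat_lit 672) (nat_lit 1447192351) (nat_lit 137) (nat_lit 5) (nat_lit 144) (nat_lit 5) (nat_lit 145) (nat_lit 5) (nat_lit 243) (nat_lit 223) (nat_lit 134)) (XT.lf (nat_lit 0) (nat_lit 435076041) (nat_lit 672) (nat_lit 10877644416) (nat_lit 84) (nat_lit 2103566926) (nat_lit 129) (nat_lit 5) (nat_lit 137) (nat_lit 5) (nat_lit 130) (nat_lit 5) (nat_lit 244) (nat_lit 223) (nat_lit 133))))) (XT.nd (nat_lit 282) (nat_lit 1008) (nat_lit 0) (XT.nd (nat_lit 94) (nat_lit 504) (nat_lit 0) (XT.lf (nat_lit 0) (nat_lit 2430418639) (nat_lit 672) (nat_lit 3254900347) (nat_lit 84) (nat_lit 7977577445) (nat_lit 129) (nat_lit 5) (nat_lit 137) (nat_lit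 5) (nat_lit 130) (nat_lit 5) (nat_lit 245) (nat_lit 223) (nat_lit 132)) (XT.nd (nat_lit 94) (nat_lit 0) (nat_lit 0) (XT.lf (nat_lit 0) (nat_lit 4530923607) (nat_lit 588) (nat_lit 9197690554) (nat_lit 84) (nat_lit 188286244) (nat_lit 123) (nat_lit 5) (nat_lit 130) (nat_lit 5) (nat_lit 124) (nat_lit 5) (nat_lit 246) (nat_lit 223) (nat_lit 131)) (XT.lf (nat_lit 0) (nat_lit 6790353854) (nat_lit 588) (nat_lit 1214570789) (nat_lit 84) (nat_lit 6171880611) (nat_lit 123) (nat_lit 5) (nat_lit 130) (nat_lit 5) (nat_lit 124) (nat_lit 5) (nat_lit 247) (nat_lit 223) (nat_lit 130)))) (XT.nd (nat_lit 94) (nat_lit 504) (nat_lit 0) (XT.lf (nat_lit 0) (nat_lit 7191023463) (nat_lit 504) (nat_lit 1999600986) (nat_lit 588) (nat_lit 5253020714) (nat_lit 117) (nat_lit 5) (nat_lit 123) (nat_lit 5) (nat_lit 124) (nat_lit 5) (nat_lit 248) (nat_lit 223) (nat_lit 129)) (XT.nd (nat_lit 94) (nat_lit 0) (nat_lit 0) (XT.lf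 (nat_lit 0) (nat_lit 1159438427) (nat_lit 504) (nat_lit 10571873478) (nat_lit 588) (nat_lit 2986538304) (nat_lit 111) (nat_lit 5) (nat_lit 117) (nat_lit 5) (nat_lit 118) (nat_lit 5) (nat_lit 249) (nat_lit 223) (nat_lit 128)) (XT.lf (nat_lit 0) (nat_lit 9996343843) (nat_lit 504) (nat_lit 4455356313) (nat_lit 588) (nat_lit 546775090) (nat_lit 111) (nat_lit 5) (nat_lit 117) (nat_lit 5) (nat_lit 118) (nat_lit 5) (nat_lit 250) (nat_lit 223) (nat_lit 127))))))) (XT.nd (nat_lit 35156) (nat_lit 0) (nat_lit 8484) (XT.nd (nat_lit 564) (nat_lit 1260) (nat_lit 0) (XT.nd (nat_lit 282) (nat_lit 924) (nat_lit 0) (XT.nd (nat_lit 94) (nat_lit 420) (nat_lit 0) (XT.lf (nat_lit 0) (nat_lit 1981398049) (nat_lit 588) (nat_lit 11408695783) (nat_lit 84) (nat_lit 1896381129) (nat_lit 104) (nat_lit 5) (nat_lit 111) (nat_lit 5) (nat_lit 105) (nat_lit 5) (nat_lit 251) (nat_lit 223) (nat_lit 126)) (XT.nd (nat_lit 94)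 (nat_lit 420) (nat_lit 0) (XT.lf (nat_lit 0) (nat_lit 4679441819) (nat_lit 588) (nat_lit 2472439811) (nat_lit 84) (nat_lit 8429154777) (nat_lit 104) (nat_lit 5) (nat_lit 111) (nat_lit 5) (nat_lit 105) (nat_lit 5) (nat_lit 252) (nat_lit 223) (nat_lit 125)) (XT.lf (nat_lit 0) (nat_lit 6913849625) (nat_lit 420) (nat_lit 618805354) (nat_lit 504) (nat_lit 8351126700) (nat_lit 99) (nat_lit 5) (nat_lit 104) (nat_lit 5) (nat_lit 105) (nat_lit 5) (nat_lit 253) (nat_lit 223) (nat_lit 124)))) (XT.nd (nat_lit 94) (nat_lit 504) (nat_lit 0) (XT.lf (nat_lit 0) (nat_lit 412700781) (nat_lit 420) (nat_lit 10159586079) (nat_lit 504) (nat_lit 5621806706) (nat_lit 94) (nat_lit 5) (nat_lit 99) (nat_lit 5) (nat_lit 100) (nat_lit 5) (nat_lit 254) (nat_lit 223) (nat_lit 123)) (XT.nd (nat_lit 94) (nat_lit 504) (nat_lit 0) (XT.lf (nat_lit 0) (nat_lit 10312237501) (nat_lit 420) (nat_lit 3503290326) (nat_lit 504) (nat_lit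 2696335772) (nat_lit 94) (nat_lit 5) (nat_lit 99) (nat_lit 5) (nat_lit 100) (nat_lit 5) (nat_lit 255) (nat_lit 223) (nat_lit 122)) (XT.lf (nat_lit 0) (nat_lit 389021385) (nat_lit 504) (nat_lit 13097645681) (nat_lit 84) (nat_lit 3351683816) (nat_lit 88) (nat_lit 5) (nat_lit 94) (nat_lit 5) (nat_lit 89) (nat_lit 5) (nat_lit 256) (nat_lit 223) (nat_lit 121))))) (XT.nd (nat_lit 282) (nat_lit 504) (nat_lit 0) (XT.nd (nat_lit 94) (nat_lit 756) (nat_lit 0) (XT.lf (nat_lit 0) (nat_lit 3618427515) (nat_lit 504) (nat_lit 3087757597) (nat_lit 84) (nat_lit 10465514946) (nat_lit 88) (nat_lit 5) (nat_lit 94) (nat_lit 5) (nat_lit 89) (nat_lit 5) (nat_lit 257) (nat_lit 223) (nat_lit 120)) (XT.nd (nat_lit 94) (nat_lit 336) (nat_lit 0) (XT.lf (nat_lit 0) (nat_lit 7033386688) (nat_lit 504) (nat_lit 10096815741) (nat_lit 84) (nat_lit 383975690) (nat_lit 83) (nat_lit 5) (nat_lit 89) (nat_lit 5) (nat_lit 84) (nat_lit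 5) (nat_lit 258) (nat_lit 223) (nat_lit 119)) (XT.lf (nat_lit 0) (nat_lit 409358584) (nat_lit 336) (nat_lit 10262948924) (nat_lit 420) (nat_lit 7192680072) (nat_lit 79) (nat_lit 5) (nat_lit 83) (nat_lit 5) (nat_lit 84) (nat_lit 5) (nat_lit 259) (nat_lit 223) (nat_lit 118)))) (XT.nd (nat_lit 94) (nat_lit 504) (nat_lit 0) (XT.lf (nat_lit 0) (nat_lit 11506810246) (nat_lit 336) (nat_lit 3036878740) (nat_lit 420) (nat_lit 3680707942) (nat_lit 79) (nat_lit 5) (nat_lit 83) (nat_lit 5) (nat_lit 84) (nat_lit 5) (nat_lit 260) (nat_lit 223) (nat_lit 117)) (XT.nd (nat_lit 94) (nat_lit 0) (nat_lit 0) (XT.lf (nat_lit 0) (nat_lit 41424763) (nat_lit 504) (nat_lit 14165339674) (nat_lit 84) (nat_lit 4386621938) (nat_lit 73) (nat_lit 5) (nat_lit 79) (nat_lit 5) (nat_lit 74) (nat_lit 5) (nat_lit 261) (nat_lit 223) (nat_lit 116)) (XT.lf (nat_lit 0) (nat_lit 3909137494) (nat_lit 504) (nat_lit 2944587708) (nat_lit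 84) (nat_lit 12116520697) (nat_lit 73) (nat_lit 5) (nat_lit 79) (nat_lit 5) (nat_lit 74) (nat_lit 5) (nat_lit 262) (nat_lit 223) (nat_lit 115)))))) (XT.nd (nat_lit 564) (nat_lit 0) (nat_lit 168) (XT.nd (nat_lit 282) (nat_lit 0) (nat_lit 84) (XT.nd (nat_lit 94) (nat_lit 1092) (nat_lit 0) (XT.lf (nat_lit 0) (nat_lit 4247795730) (nat_lit 1092) (nat_lit 320693258) (nat_lit 1092) (nat_lit 320693258) (nat_lit 187) (nat_lit 3) (nat_lit 200) (nat_lit 3) (nat_lit 200) (nat_lit 5) (nat_lit 224) (nat_lit 224) (nat_lit 152)) (XT.nd (nat_lit 94) (nat_lit 1092) (nat_lit 0) (XT.lf (nat_lit 84) (nat_lit 4346345975) (nat_lit 0) (nat_lit 5080160128) (nat_lit 1092) (nat_lit 495601308) (nat_lit 188) (nat_lit 5) (nat_lit 187) (nat_lit 3) (nat_lit 200) (nat_lit 5) (nat_lit 225) (nat_lit 224) (nat_lit 151)) (XT.lf (nat_lit 0) (nat_lit 285681247) (nat_lit 1092) (nat_lit 568615276) (nat_lit 1176) (nat_lit 9217377509)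 (nat_lit 174) (nat_lit 5) (nat_lit 187) (nat_lit 3) (nat_lit 188) (nat_lit 5) (nat_lit 226) (nat_lit 224) (nat_lit 150)))) (XT.nd (nat_lit 94) (nat_lit 0) (nat_lit 0) (XT.lf (nat_lit 0) (nat_lit 1142345704) (nat_lit 1092) (nat_lit 5568861120) (nat_lit 1176) (nat_lit 3512980252) (nat_lit 175) (nat_lit 5) (nat_lit 188) (nat_lit 5) (nat_lit 189) (nat_lit 5) (nat_lit 227) (nat_lit 224) (nat_lit 149)) (XT.nd (nat_lit 94) (nat_lit 0) (nat_lit 84) (XT.lf (nat_lit 0) (nat_lit 2013986259) (nat_lit 1092) (nat_lit 334826166) (nat_lit 1176) (nat_lit 8033750903) (nat_lit 175) (nat_lit 5) (nat_lit 188) (nat_lit 5) (nat_lit 189) (nat_lit 5) (nat_lit 228) (nat_lit 224) (nat_lit 148)) (XT.lf (nat_lit 0) (nat_lit 2968233919) (nat_lit 1092) (nat_lit 5388796890) (nat_lit 1176) (nat_lit 2187628451) (nat_lit 176) (nat_lit 5) (nat_lit 189) (nat_lit 5) (nat_lit 190) (nat_lit 5) (nat_lit 229) (nat_lit 224) (nat_lit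 147))))) (XT.nd (nat_lit 282) (nat_lit 0) (nat_lit 84) (XT.nd (nat_lit 94) (nat_lit 0) (nat_lit 84) (XT.lf (nat_lit 84) (nat_lit 90208598) (nat_lit 0) (nat_lit 3868148327) (nat_lit 1176) (nat_lit 6753984940) (nat_lit 177) (nat_lit 5) (nat_lit 176) (nat_lit 5) (nat_lit 190) (nat_lit 5) (nat_lit 230) (nat_lit 224) (nat_lit 146)) (XT.nd (nat_lit 94) (nat_lit 0) (nat_lit 0) (XT.lf (nat_lit 0) (nat_lit 5027408767) (nat_lit 1092) (nat_lit 5022770236) (nat_lit 1176) (nat_lit 834164751) (nat_lit 177) (nat_lit 5) (nat_lit 190) (nat_lit 5) (nat_lit 191) (nat_lit 5) (nat_lit 231) (nat_lit 224) (nat_lit 145)) (XT.lf (nat_lit 84) (nat_lit 725001291) (nat_lit 0) (nat_lit 5433821435) (nat_lit 1176) (nat_lit 4902669896) (nat_lit 178) (nat_lit 5) (nat_lit 177) (nat_lit 5) (nat_lit 191) (nat_lit 5) (nat_lit 232) (nat_lit 224) (nat_lit 144)))) (XT.nd (nat_lit 94) (nat_lit 0) (nat_lit 84) (XT.lf (nat_lit 84)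 (nat_lit 6775374331) (nat_lit 0) (nat_lit 586712553) (nat_lit 1176) (nat_lit 3881626043) (nat_lit 178) (nat_lit 5) (nat_lit 177) (nat_lit 5) (nat_lit 191) (nat_lit 5) (nat_lit 233) (nat_lit 224) (nat_lit 143)) (XT.nd (nat_lit 94) (nat_lit 0) (nat_lit 0) (XT.lf (nat_lit 84) (nat_lit 1571953820) (nat_lit 0) (nat_lit 7076368267) (nat_lit 1176) (nat_lit 2782558868) (nat_lit 179) (nat_lit 5) (nat_lit 178) (nat_lit 5) (nat_lit 192) (nat_lit 5) (nat_lit 234) (nat_lit 224) (nat_lit 142)) (XT.lf (nat_lit 84) (nat_lit 7904722994) (nat_lit 0) (nat_lit 2108912739) (nat_lit 1176) (nat_lit 1609772022) (nat_lit 179) (nat_lit 5) (nat_lit 178) (nat_lit 5) (nat_lit 192) (nat_lit 5) (nat_lit 235) (nat_lit 224) (nat_lit 141))))))))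
noncomputable def xc48 : XT := (XT.nd (nat_lit 2162) (nat_lit 1260) (nat_lit 0) (XT.nd (nat_lit 1034) (nat_lit 3444) (nat_lit 0) (XT.nd (nat_lit 470) (nat_lit 1932) (nat_lit 0) (XT.nd (nat_lit 188) (nat_lit 1092) (nat_lit 0) (XT.nd (nat_lit 94) (nat_lit 1176) (nat_lit 0) (XT.lf (nat_lit 84) (nat_lit 2643032093) (nat_lit 0) (nat_lit 8822508665) (nat_lit 1176) (nat_lit 355774047) (nat_lit 180) (nat_lit 5) (nat_lit 179) (nat_lit 5) (nat_lit 193) (nat_lit 5) (nat_lit 236) (nat_lit 224) (nat_lit 140)) (XT.lf (nat_lit 0) (nat_lit 965362336) (nat_lit 1176) (nat_lit 2763144105) (nat_lit 1260) (nat_lit 8295713401) (nat_lit 165) (nat_lit 5) (nat_lit 179) (nat_lit 5) (nat_lit 180) (nat_lit 5) (nat_lit 237) (nat_lit 224) (nat_lit 139))) (XT.nd (nat_lit 94) (nat_lit 1176) (nat_lit 0) (XT.lf (nat_lit 0) (nat_lit 2362837589) (nat_lit 1176) (nat_lit 8308581535) (nat_lit 84) (nat_lit 1561318140) (nat_lit 166)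 (nat_lit 5) (nat_lit 180) (nat_lit 5) (nat_lit 167) (nat_lit 5) (nat_lit 238) (nat_lit 224) (nat_lit 138)) (XT.nd (nat_lit 94) (nat_lit 1176) (nat_lit 0) (XT.lf (nat_lit 0) (nat_lit 3862538217) (nat_lit 1176) (nat_lit 1598778937) (nat_lit 84) (nat_lit 6985369662) (nat_lit 166) (nat_lit 5) (nat_lit 180) (nat_lit 5) (nat_lit 167) (nat_lit 5) (nat_lit 239) (nat_lit 224) (nat_lit 137)) (XT.lf (nat_lit 0) (nat_lit 5450264659) (nat_lit 1176) (nat_lit 3293731) (nat_lit 1260) (nat_lit 7213207159) (nat_lit 152) (nat_lit 5) (nat_lit 166) (nat_lit 5) (nat_lit 167) (nat_lit 5) (nat_lit 240) (nat_lit 224) (nat_lit 136))))) (XT.nd (nat_lit 282) (nat_lit 672) (nat_lit 0) (XT.nd (nat_lit 94) (nat_lit 1260) (nat_lit 0) (XT.lf (nat_lit 0) (nat_lit 7160911151) (nat_lit 1260) (nat_lit 192333908) (nat_lit 84) (nat_lit 5539179340) (nat_lit 152) (nat_lit 5) (nat_lit 167) (nat_lit 5) (nat_lit 153) (nat_lit 5) (nat_lit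 241) (nat_lit 224) (nat_lit 135)) (XT.nd (nat_lit 94) (nat_lit 588) (nat_lit 0) (XT.lf (nat_lit 0) (nat_lit 7222330667) (nat_lit 672) (nat_lit 1765580909) (nat_lit 756) (nat_lit 4135973570) (nat_lit 144) (nat_lit 5) (nat_lit 152) (nat_lit 5) (nat_lit 153) (nat_lit 5) (nat_lit 242) (nat_lit 224) (nat_lit 134)) (XT.lf (nat_lit 0) (nat_lit 1507578245) (nat_lit 588) (nat_lit 9415018870) (nat_lit 672) (nat_lit 2439319001) (nat_lit 137) (nat_lit 5) (nat_lit 144) (nat_lit 5) (nat_lit 145) (nat_lit 5) (nat_lit 243) (nat_lit 224) (nat_lit 133)))) (XT.nd (nat_lit 94) (nat_lit 672) (nat_lit 0) (XT.lf (nat_lit 0) (nat_lit 9277557747) (nat_lit 588) (nat_lit 3717550345) (nat_lit 672) (nat_lit 610716179) (nat_lit 137) (nat_lit 5) (nat_lit 144) (nat_lit 5) (nat_lit 145) (nat_lit 5) (nat_lit 244) (nat_lit 224) (nat_lit 132)) (XT.nd (nat_lit 94) (nat_lit 0) (nat_lit 0) (XT.lf (nat_lit 0) (nat_lit 1297591369)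 (nat_lit 672) (nat_lit 10374653113) (nat_lit 84) (nat_lit 2183957891) (nat_lit 129) (nat_lit 5) (nat_lit 137) (nat_lit 5) (nat_lit 130) (nat_lit 5) (nat_lit 245) (nat_lit 224) (nat_lit 131)) (XT.lf (nat_lit 0) (nat_lit 3334118718) (nat_lit 672) (nat_lit 2514996876) (nat_lit 84) (nat_lit 8263329971) (nat_lit 129) (nat_lit 5) (nat_lit 137) (nat_lit 5) (nat_lit 130) (nat_lit 5) (nat_lit 246) (nat_lit 224) (nat_lit 130)))))) (XT.nd (nat_lit 564) (nat_lit 1344) (nat_lit 0) (XT.nd (nat_lit 282) (nat_lit 1092) (nat_lit 0) (XT.nd (nat_lit 94) (nat_lit 504) (nat_lit 0) (XT.lf (nat_lit 0) (nat_lit 5490350312) (nat_lit 588) (nat_lit 8647993692) (nat_lit 84) (nat_lit 237618364) (nat_lit 123) (nat_lit 5) (nat_lit 130) (nat_lit 5) (nat_lit 124) (nat_lit 5) (nat_lit 247) (nat_lit 224) (nat_lit 129)) (XT.nd (nat_lit 94) (nat_lit 504) (nat_lit 0) (XT.lf (nat_lit 0) (nat_lit 7801778923) (nat_lit 588) (nat_lit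 414939673) (nat_lit 84) (nat_lit 6429193149) (nat_lit 123) (nat_lit 5) (nat_lit 130) (nat_lit 5) (nat_lit 124) (nat_lit 5) (nat_lit 248) (nat_lit 224) (nat_lit 128)) (XT.lf (nat_lit 0) (nat_lit 8275249421) (nat_lit 504) (nat_lit 1993919967) (nat_lit 588) (nat_lit 4653512798) (nat_lit 117) (nat_lit 5) (nat_lit 123) (nat_lit 5) (nat_lit 124) (nat_lit 5) (nat_lit 249) (nat_lit 224) (nat_lit 127)))) (XT.nd (nat_lit 94) (nat_lit 588) (nat_lit 0) (XT.lf (nat_lit 0) (nat_lit 2048422475) (nat_lit 504) (nat_lit 10835031312) (nat_lit 588) (nat_lit 2323567070) (nat_lit 111) (nat_lit 5) (nat_lit 117) (nat_lit 5) (nat_lit 118) (nat_lit 5) (nat_lit 250) (nat_lit 224) (nat_lit 126)) (XT.nd (nat_lit 94) (nat_lit 504) (nat_lit 0) (XT.lf (nat_lit 0) (nat_lit 171651378) (nat_lit 588) (nat_lit 4334372784) (nat_lit 84) (nat_lit 10992252791) (nat_lit 110) (nat_lit 5) (nat_lit 117) (nat_lit 5) (nat_lit 111) (nat_lit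 5) (nat_lit 251) (nat_lit 224) (nat_lit 125)) (XT.lf (nat_lit 0) (nat_lit 2761495325) (nat_lit 588) (nat_lit 10957488792) (nat_lit 84) (nat_lit 2077641277) (nat_lit 104) (nat_lit 5) (nat_lit 111) (nat_lit 5) (nat_lit 105) (nat_lit 5) (nat_lit 252) (nat_lit 224) (nat_lit 124))))) (XT.nd (nat_lit 282) (nat_lit 504) (nat_lit 0) (XT.nd (nat_lit 94) (nat_lit 840) (nat_lit 0) (XT.lf (nat_lit 0) (nat_lit 5529935659) (nat_lit 588) (nat_lit 1737225114) (nat_lit 84) (nat_lit 8835176941) (nat_lit 104) (nat_lit 5) (nat_lit 111) (nat_lit 5) (nat_lit 105) (nat_lit 5) (nat_lit 253) (nat_lit 224) (nat_lit 123)) (XT.nd (nat_lit 94) (nat_lit 420) (nat_lit 0) (XT.lf (nat_lit 0) (nat_lit 7968215966) (nat_lit 420) (nat_lit 500624800) (nat_lit 504) (nat_lit 7947334272) (nat_lit 99) (nat_lit 5) (nat_lit 104) (nat_lit 5) (nat_lit 105) (nat_lit 5) (nat_lit 254) (nat_lit 224) (nat_lit 122)) (XT.lf (nat_lit 0) (nat_lit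 1251995533) (nat_lit 420) (nat_lit 10350817254) (nat_lit 504) (nat_lit 5134956698) (nat_lit 94) (nat_lit 5) (nat_lit 99) (nat_lit 5) (nat_lit 100) (nat_lit 5) (nat_lit 255) (nat_lit 224) (nat_lit 121)))) (XT.nd (nat_lit 94) (nat_lit 504) (nat_lit 0) (XT.lf (nat_lit 0) (nat_lit 11470122553) (nat_lit 420) (nat_lit 3467109026) (nat_lit 504) (nat_lit 2130211638) (nat_lit 94) (nat_lit 5) (nat_lit 99) (nat_lit 5) (nat_lit 100) (nat_lit 5) (nat_lit 256) (nat_lit 224) (nat_lit 120)) (XT.nd (nat_lit 94) (nat_lit 0) (nat_lit 0) (XT.lf (nat_lit 0) (nat_lit 1037165769) (nat_lit 504) (nat_lit 12733139290) (nat_lit 84) (nat_lit 3635179603) (nat_lit 88) (nat_lit 5) (nat_lit 94) (nat_lit 5) (nat_lit 89) (nat_lit 5) (nat_lit 257) (nat_lit 224) (nat_lit 119)) (XT.lf (nat_lit 0) (nat_lit 4358143623) (nat_lit 504) (nat_lit 2400733470) (nat_lit 84) (nat_lit 10992374977) (nat_lit 88) (nat_lit 5) (nat_lit 94) (nat_lit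 5) (nat_lit 89) (nat_lit 5) (nat_lit 258) (nat_lit 224) (nat_lit 118))))))) (XT.nd (nat_lit 35156) (nat_lit 0) (nat_lit 5964) (XT.nd (nat_lit 34592) (nat_lit 0) (nat_lit 8484) (XT.nd (nat_lit 188) (nat_lit 504) (nat_lit 0) (XT.nd (nat_lit 94) (nat_lit 336) (nat_lit 0) (XT.lf (nat_lit 0) (nat_lit 7882713127) (nat_lit 504) (nat_lit 9645195409) (nat_lit 84) (nat_lit 578155290) (nat_lit 83) (nat_lit 5) (nat_lit 89) (nat_lit 5) (nat_lit 84) (nat_lit 5) (nat_lit 259) (nat_lit 224) (nat_lit 117)) (XT.lf (nat_lit 0) (nat_lit 1219517392) (nat_lit 336) (nat_lit 10417949411) (nat_lit 420) (nat_lit 6832088344) (nat_lit 79) (nat_lit 5) (nat_lit 83) (nat_lit 5) (nat_lit 84) (nat_lit 5) (nat_lit 260) (nat_lit 224) (nat_lit 116))) (XT.nd (nat_lit 94) (nat_lit 504) (nat_lit 0) (XT.lf (nat_lit 0) (nat_lit 12678467694) (nat_lit 336) (nat_lit 2945872177) (nat_lit 420) (nat_lit 3217904188) (nat_lit 79) (nat_lit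 5) (nat_lit 83) (nat_lit 5) (nat_lit 84) (nat_lit 5) (nat_lit 261) (nat_lit 224) (nat_lit 115)) (XT.nd (nat_lit 34216) (nat_lit 0) (nat_lit 8484) (XT.lf (nat_lit 0) (nat_lit 612449598) (nat_lit 504) (nat_lit 13870153910) (nat_lit 84) (nat_lit 4741616267) (nat_lit 73) (nat_lit 5) (nat_lit 79) (nat_lit 5) (nat_lit 74) (nat_lit 5) (nat_lit 262) (nat_lit 224) (nat_lit 114)) (XT.lf (nat_lit 0) (nat_lit 43103013) (nat_lit 0) (nat_lit 43103013) (nat_lit 1092) (nat_lit 4948631860) (nat_lit 174) (nat_lit 5) (nat_lit 174) (nat_lit 3) (nat_lit 187) (nat_lit 3) (nat_lit 225) (nat_lit 225) (nat_lit 150))))) (XT.nd (nat_lit 282) (nat_lit 0) (nat_lit 84) (XT.nd (nat_lit 94) (nat_lit 0) (nat_lit 0) (XT.lf (nat_lit 0) (nat_lit 925420647) (nat_lit 1092) (nat_lit 4989624059) (nat_lit 1176) (nat_lit 4304600696) (nat_lit 174) (nat_lit 5) (nat_lit 187) (nat_lit 3) (nat_lit 188) (nat_lit 5) (nat_lit 226) (nat_lit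 225) (nat_lit 149)) (XT.nd (nat_lit 94) (nat_lit 0) (nat_lit 84) (XT.lf (nat_lit 84) (nat_lit 164561052) (nat_lit 0) (nat_lit 1511442738) (nat_lit 1176) (nat_lit 8699867502) (nat_lit 175) (nat_lit 5) (nat_lit 174) (nat_lit 5) (nat_lit 188) (nat_lit 5) (nat_lit 227) (nat_lit 225) (nat_lit 148)) (XT.lf (nat_lit 0) (nat_lit 2515778705) (nat_lit 1092) (nat_lit 4969385463) (nat_lit 1176) (nat_lit 3050198674) (nat_lit 175) (nat_lit 5) (nat_lit 188) (nat_lit 5) (nat_lit 189) (nat_lit 5) (nat_lit 228) (nat_lit 225) (nat_lit 147)))) (XT.nd (nat_lit 94) (nat_lit 0) (nat_lit 84) (XT.lf (nat_lit 84) (nat_lit 430744239) (nat_lit 0) (nat_lit 2946889314) (nat_lit 1176) (nat_lit 7323058969) (nat_lit 176) (nat_lit 5) (nat_lit 175) (nat_lit 5) (nat_lit 189) (nat_lit 5) (nat_lit 229) (nat_lit 225) (nat_lit 146)) (XT.nd (nat_lit 94) (nat_lit 0) (nat_lit 0) (XT.lf (nat_lit 0) (nat_lit 4319857655) (nat_lit 1092)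 (nat_lit 4769259463) (nat_lit 1176) (nat_lit 1780934472) (nat_lit 176) (nat_lit 5) (nat_lit 189) (nat_lit 5) (nat_lit 190) (nat_lit 5) (nat_lit 230) (nat_lit 225) (nat_lit 145)) (XT.lf (nat_lit 84) (nat_lit 892297834) (nat_lit 0) (nat_lit 4419044996) (nat_lit 1176) (nat_lit 5733425481) (nat_lit 177) (nat_lit 5) (nat_lit 176) (nat_lit 5) (nat_lit 190) (nat_lit 5) (nat_lit 231) (nat_lit 225) (nat_lit 144)))))) (XT.nd (nat_lit 564) (nat_lit 1764) (nat_lit 0) (XT.nd (nat_lit 282) (nat_lit 1008) (nat_lit 0) (XT.nd (nat_lit 94) (nat_lit 0) (nat_lit 0) (XT.lf (nat_lit 0) (nat_lit 6372270221) (nat_lit 1092) (nat_lit 4381111015) (nat_lit 1176) (nat_lit 471002975) (nat_lit 177) (nat_lit 5) (nat_lit 190) (nat_lit 5) (nat_lit 191) (nat_lit 5) (nat_lit 232) (nat_lit 225) (nat_lit 143)) (XT.nd (nat_lit 94) (nat_lit 0) (nat_lit 0) (XT.lf (nat_lit 84) (nat_lit 1558512983) (nat_lit 0) (nat_lit 5954246973)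 (nat_lit 1176) (nat_lit 3896041663) (nat_lit 178) (nat_lit 5) (nat_lit 177) (nat_lit 5) (nat_lit 191) (nat_lit 5) (nat_lit 233) (nat_lit 225) (nat_lit 142)) (XT.lf (nat_lit 84) (nat_lit 7793320787) (nat_lit 0) (nat_lit 926321684) (nat_lit 1176) (nat_lit 2879104520) (nat_lit 178) (nat_lit 5) (nat_lit 177) (nat_lit 5) (nat_lit 191) (nat_lit 5) (nat_lit 234) (nat_lit 225) (nat_lit 141)))) (XT.nd (nat_lit 94) (nat_lit 1092) (nat_lit 0) (XT.lf (nat_lit 84) (nat_lit 2440450486) (nat_lit 0) (nat_lit 7578880271) (nat_lit 1176) (nat_lit 1774239922) (nat_lit 179) (nat_lit 5) (nat_lit 178) (nat_lit 5) (nat_lit 192) (nat_lit 5) (nat_lit 235) (nat_lit 225) (nat_lit 140)) (XT.nd (nat_lit 94) (nat_lit 1092) (nat_lit 0) (XT.lf (nat_lit 84) (nat_lit 8967357654) (nat_lit 0) (nat_lit 2428946052) (nat_lit 1176) (nat_lit 597796646) (nat_lit 179) (nat_lit 5) (nat_lit 178) (nat_lit 5) (nat_lit 192) (nat_lit 5) (nat_lit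 236) (nat_lit 225) (nat_lit 139)) (XT.lf (nat_lit 0) (nat_lit 655418922) (nat_lit 1176) (nat_lit 8656428824) (nat_lit 1260) (nat_lit 2887821322) (nat_lit 165) (nat_lit 5) (nat_lit 179) (nat_lit 5) (nat_lit 180) (nat_lit 5) (nat_lit 237) (nat_lit 225) (nat_lit 138))))) (XT.nd (nat_lit 282) (nat_lit 1764) (nat_lit 0) (XT.nd (nat_lit 94) (nat_lit 0) (nat_lit 84) (XT.lf (nat_lit 0) (nat_lit 1980112144) (nat_lit 1176) (nat_lit 2049234872) (nat_lit 1260) (nat_lit 8381386847) (nat_lit 165) (nat_lit 5) (nat_lit 179) (nat_lit 5) (nat_lit 180) (nat_lit 5) (nat_lit 238) (nat_lit 225) (nat_lit 137)) (XT.nd (nat_lit 94) (nat_lit 0) (nat_lit 0) (XT.lf (nat_lit 0) (nat_lit 3400524638) (nat_lit 1176) (nat_lit 7762788219) (nat_lit 84) (nat_lit 1464145641) (nat_lit 166) (nat_lit 5) (nat_lit 180) (nat_lit 5) (nat_lit 167) (nat_lit 5) (nat_lit 239) (nat_lit 225) (nat_lit 136)) (XT.lf (nat_lit 0) (nat_lit 4920420516)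 (nat_lit 1176) (nat_lit 846433137) (nat_lit 84) (nat_lit 7083172930) (nat_lit 166) (nat_lit 5) (nat_lit 180) (nat_lit 5) (nat_lit 167) (nat_lit 5) (nat_lit 240) (nat_lit 225) (nat_lit 135)))) (XT.nd (nat_lit 94) (nat_lit 672) (nat_lit 0) (XT.lf (nat_lit 0) (nat_lit 6440111803) (nat_lit 1176) (nat_lit 104715955) (nat_lit 1260) (nat_lit 6533760767) (nat_lit 152) (nat_lit 5) (nat_lit 166) (nat_lit 5) (nat_lit 167) (nat_lit 5) (nat_lit 241) (nat_lit 225) (nat_lit 134)) (XT.nd (nat_lit 94) (nat_lit 0) (nat_lit 0) (XT.lf (nat_lit 0) (nat_lit 618564226) (nat_lit 672) (nat_lit 7668727034) (nat_lit 756) (nat_lit 5025716805) (nat_lit 144) (nat_lit 5) (nat_lit 152) (nat_lit 5) (nat_lit 153) (nat_lit 5) (nat_lit 242) (nat_lit 225) (nat_lit 133)) (XT.lf (nat_lit 0) (nat_lit 8269554953) (nat_lit 672) (nat_lit 1881259806) (nat_lit 756) (nat_lit 3402714948) (nat_lit 144) (nat_lit 5) (nat_lit 152) (nat_lit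 5) (nat_lit 153) (nat_lit 5) (nat_lit 243) (nat_lit 225) (nat_lit 132))))))))
noncomputable def xc49 : XT := (XT.nd (nat_lit 36378) (nat_lit 0) (nat_lit 2604) (XT.nd (nat_lit 1034) (nat_lit 2100) (nat_lit 0) (XT.nd (nat_lit 470) (nat_lit 1596) (nat_lit 0) (XT.nd (nat_lit 188) (nat_lit 1092) (nat_lit 0) (XT.nd (nat_lit 94) (nat_lit 84) (nat_lit 0) (XT.lf (nat_lit 0) (nat_lit 2375675485) (nat_lit 588) (nat_lit 9757355921) (nat_lit 672) (nat_lit 1667566757) (nat_lit 137) (nat_lit 5) (nat_lit 144) (nat_lit 5) (nat_lit 145) (nat_lit 5) (nat_lit 244) (nat_lit 225) (nat_lit 131)) (XT.lf (nat_lit 0) (nat_lit 191606804) (nat_lit 672) (nat_lit 3666175059) (nat_lit 84) (nat_lit 10196164953) (nat_lit 136) (nat_lit 5) (nat_lit 144) (nat_lit 5) (nat_lit 137) (nat_lit 5) (nat_lit 245) (nat_lit 225) (nat_lit 130))) (XT.nd (nat_lit 94) (nat_lit 504) (nat_lit 0) (XT.lf (nat_lit 0) (nat_lit 2133959171) (nat_lit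 672) (nat_lit 9912814298) (nat_lit 84) (nat_lit 2266712664) (nat_lit 129) (nat_lit 5) (nat_lit 137) (nat_lit 5) (nat_lit 130) (nat_lit 5) (nat_lit 246) (nat_lit 225) (nat_lit 129)) (XT.nd (nat_lit 94) (nat_lit 504) (nat_lit 0) (XT.lf (nat_lit 0) (nat_lit 4215017804) (nat_lit 672) (nat_lit 1805967009) (nat_lit 84) (nat_lit 8558649175) (nat_lit 129) (nat_lit 5) (nat_lit 137) (nat_lit 5) (nat_lit 130) (nat_lit 5) (nat_lit 247) (nat_lit 225) (nat_lit 128)) (XT.lf (nat_lit 0) (nat_lit 6430109369) (nat_lit 588) (nat_lit 8137010578) (nat_lit 84) (nat_lit 285835216) (nat_lit 123) (nat_lit 5) (nat_lit 130) (nat_lit 5) (nat_lit 124) (nat_lit 5) (nat_lit 248) (nat_lit 225) (nat_lit 127))))) (XT.nd (nat_lit 282) (nat_lit 588) (nat_lit 0) (XT.nd (nat_lit 94) (nat_lit 504) (nat_lit 0) (XT.lf (nat_lit 0) (nat_lit 364960372) (nat_lit 504) (nat_lit 8436263001) (nat_lit 588) (nat_lit 6331871906) (nat_lit 117)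 (nat_lit 5) (nat_lit 123) (nat_lit 5) (nat_lit 124) (nat_lit 5) (nat_lit 249) (nat_lit 225) (nat_lit 126)) (XT.nd (nat_lit 94) (nat_lit 504) (nat_lit 0) (XT.lf (nat_lit 0) (nat_lit 9342068277) (nat_lit 504) (nat_lit 1993071161) (nat_lit 588) (nat_lit 4085107404) (nat_lit 117) (nat_lit 5) (nat_lit 123) (nat_lit 5) (nat_lit 124) (nat_lit 5) (nat_lit 250) (nat_lit 225) (nat_lit 125)) (XT.lf (nat_lit 0) (nat_lit 2912111198) (nat_lit 504) (nat_lit 11114504567) (nat_lit 588) (nat_lit 1688422385) (nat_lit 111) (nat_lit 5) (nat_lit 117) (nat_lit 5) (nat_lit 118) (nat_lit 5) (nat_lit 251) (nat_lit 225) (nat_lit 124)))) (XT.nd (nat_lit 94) (nat_lit 504) (nat_lit 0) (XT.lf (nat_lit 0) (nat_lit 854204205) (nat_lit 588) (nat_lit 3705168235) (nat_lit 84) (nat_lit 11457665131) (nat_lit 110) (nat_lit 5) (nat_lit 117) (nat_lit 5) (nat_lit 111) (nat_lit 5) (nat_lit 252) (nat_lit 225) (nat_lit 123)) (XT.nd (nat_lit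 94) (nat_lit 0) (nat_lit 0) (XT.lf (nat_lit 0) (nat_lit 3521638847) (nat_lit 588) (nat_lit 10547039459) (nat_lit 84) (nat_lit 2257606786) (nat_lit 104) (nat_lit 5) (nat_lit 111) (nat_lit 5) (nat_lit 105) (nat_lit 5) (nat_lit 253) (nat_lit 225) (nat_lit 122)) (XT.lf (nat_lit 0) (nat_lit 6364537692) (nat_lit 588) (nat_lit 1030915490) (nat_lit 84) (nat_lit 9248029452) (nat_lit 104) (nat_lit 5) (nat_lit 111) (nat_lit 5) (nat_lit 105) (nat_lit 5) (nat_lit 254) (nat_lit 225) (nat_lit 121)))))) (XT.nd (nat_lit 564) (nat_lit 336) (nat_lit 0) (XT.nd (nat_lit 282) (nat_lit 924) (nat_lit 0) (XT.nd (nat_lit 94) (nat_lit 420) (nat_lit 0) (XT.lf (nat_lit 0) (nat_lit 9005470446) (nat_lit 420) (nat_lit 387605705) (nat_lit 504) (nat_lit 7575691104) (nat_lit 99) (nat_lit 5) (nat_lit 104) (nat_lit 5) (nat_lit 105) (nat_lit 5) (nat_lit 255) (nat_lit 225) (nat_lit 120)) (XT.nd (nat_lit 94) (nat_lit 0) (nat_lit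 0) (XT.lf (nat_lit 0) (nat_lit 2065821887) (nat_lit 420) (nat_lit 10559669325) (nat_lit 504) (nat_lit 4676519906) (nat_lit 94) (nat_lit 5) (nat_lit 99) (nat_lit 5) (nat_lit 100) (nat_lit 5) (nat_lit 256) (nat_lit 225) (nat_lit 119)) (XT.lf (nat_lit 0) (nat_lit 12615544485) (nat_lit 420) (nat_lit 3440219646) (nat_lit 504) (nat_lit 1588189067) (nat_lit 94) (nat_lit 5) (nat_lit 99) (nat_lit 5) (nat_lit 100) (nat_lit 5) (nat_lit 257) (nat_lit 225) (nat_lit 118)))) (XT.nd (nat_lit 94) (nat_lit 420) (nat_lit 0) (XT.lf (nat_lit 0) (nat_lit 1665805841) (nat_lit 504) (nat_lit 12410590814) (nat_lit 84) (nat_lit 3917548095) (nat_lit 88) (nat_lit 5) (nat_lit 94) (nat_lit 5) (nat_lit 89) (nat_lit 5) (nat_lit 258) (nat_lit 225) (nat_lit 117)) (XT.nd (nat_lit 94) (nat_lit 420) (nat_lit 0) (XT.lf (nat_lit 0) (nat_lit 5082987124) (nat_lit 504) (nat_lit 1742528850) (nat_lit 84) (nat_lit 11526999121) (nat_lit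 88) (nat_lit 5) (nat_lit 94) (nat_lit 5) (nat_lit 89) (nat_lit 5) (nat_lit 259) (nat_lit 225) (nat_lit 116)) (XT.lf (nat_lit 0) (nat_lit 8721662445) (nat_lit 504) (nat_lit 9231292842) (nat_lit 84) (nat_lit 767113871) (nat_lit 83) (nat_lit 5) (nat_lit 89) (nat_lit 5) (nat_lit 84) (nat_lit 5) (nat_lit 260) (nat_lit 225) (nat_lit 115))))) (XT.nd (nat_lit 34498) (nat_lit 0) (nat_lit 7980) (XT.nd (nat_lit 94) (nat_lit 0) (nat_lit 0) (XT.lf (nat_lit 0) (nat_lit 2005117495) (nat_lit 336) (nat_lit 10591952212) (nat_lit 420) (nat_lit 6499589666) (nat_lit 79) (nat_lit 5) (nat_lit 83) (nat_lit 5) (nat_lit 84) (nat_lit 5) (nat_lit 261) (nat_lit 225) (nat_lit 114)) (XT.nd (nat_lit 34310) (nat_lit 0) (nat_lit 7980) (XT.lf (nat_lit 0) (nat_lit 13840008261) (nat_lit 336) (nat_lit 2864798545) (nat_lit 420) (nat_lit 2778239269) (nat_lit 79) (nat_lit 5) (nat_lit 83) (nat_lit 5) (nat_lit 84) (nat_lit 5) (nat_lit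 262) (nat_lit 225) (nat_lit 113)) (XT.lf (nat_lit 0) (nat_lit 391164827) (nat_lit 0) (nat_lit 391164827) (nat_lit 1092) (nat_lit 4404468834) (nat_lit 174) (nat_lit 5) (nat_lit 174) (nat_lit 3) (nat_lit 187) (nat_lit 3) (nat_lit 226) (nat_lit 226) (nat_lit 148)))) (XT.nd (nat_lit 94) (nat_lit 0) (nat_lit 0) (XT.lf (nat_lit 0) (nat_lit 2289684897) (nat_lit 1092) (nat_lit 4440254562) (nat_lit 1176) (nat_lit 3800777922) (nat_lit 174) (nat_lit 5) (nat_lit 187) (nat_lit 3) (nat_lit 188) (nat_lit 5) (nat_lit 227) (nat_lit 226) (nat_lit 147)) (XT.nd (nat_lit 94) (nat_lit 0) (nat_lit 84) (XT.lf (nat_lit 84) (nat_lit 886072884) (nat_lit 0) (nat_lit 2143401350) (nat_lit 1176) (nat_lit 7664234192) (nat_lit 175) (nat_lit 5) (nat_lit 174) (nat_lit 5) (nat_lit 188) (nat_lit 5) (nat_lit 228) (nat_lit 226) (nat_lit 146)) (XT.lf (nat_lit 0) (nat_lit 3848621645) (nat_lit 1092) (nat_lit 4401746313) (nat_lit 1176)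 (nat_lit 2610164910) (nat_lit 175) (nat_lit 5) (nat_lit 188) (nat_lit 5) (nat_lit 189) (nat_lit 5) (nat_lit 229) (nat_lit 226) (nat_lit 145))))))) (XT.nd (nat_lit 1128) (nat_lit 4536) (nat_lit 0) (XT.nd (nat_lit 564) (nat_lit 924) (nat_lit 0) (XT.nd (nat_lit 282) (nat_lit 0) (nat_lit 168) (XT.nd (nat_lit 94) (nat_lit 0) (nat_lit 84) (XT.lf (nat_lit 84) (nat_lit 1178933575) (nat_lit 0) (nat_lit 3527781925) (nat_lit 1176) (nat_lit 6326120994) (nat_lit 176) (nat_lit 5) (nat_lit 175) (nat_lit 5) (nat_lit 189) (nat_lit 5) (nat_lit 230) (nat_lit 226) (nat_lit 144)) (XT.nd (nat_lit 94) (nat_lit 0) (nat_lit 0) (XT.lf (nat_lit 0) (nat_lit 5635827160) (nat_lit 1092) (nat_lit 4181771242) (nat_lit 1176) (nat_lit 1392137887) (nat_lit 176) (nat_lit 5) (nat_lit 189) (nat_lit 5) (nat_lit 190) (nat_lit 5) (nat_lit 231) (nat_lit 226) (nat_lit 143)) (XT.lf (nat_lit 84) (nat_lit 1669339768) (nat_lit 0) (nat_lit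 4961595982) (nat_lit 1176) (nat_lit 4760720095) (nat_lit 177) (nat_lit 5) (nat_lit 176) (nat_lit 5) (nat_lit 190) (nat_lit 5) (nat_lit 232) (nat_lit 226) (nat_lit 142)))) (XT.nd (nat_lit 94) (nat_lit 0) (nat_lit 0) (XT.lf (nat_lit 0) (nat_lit 7686482340) (nat_lit 1092) (nat_lit 3771345809) (nat_lit 1176) (nat_lit 121218115) (nat_lit 177) (nat_lit 5) (nat_lit 190) (nat_lit 5) (nat_lit 191) (nat_lit 5) (nat_lit 233) (nat_lit 226) (nat_lit 141)) (XT.nd (nat_lit 94) (nat_lit 0) (nat_lit 0) (XT.lf (nat_lit 84) (nat_lit 2367465144) (nat_lit 0) (nat_lit 6470929860) (nat_lit 1176) (nat_lit 2932520576) (nat_lit 178) (nat_lit 5) (nat_lit 177) (nat_lit 5) (nat_lit 191) (nat_lit 5) (nat_lit 234) (nat_lit 226) (nat_lit 140)) (XT.lf (nat_lit 84) (nat_lit 8794979968) (nat_lit 0) (nat_lit 1256602115) (nat_lit 1176) (nat_lit 1917184729) (nat_lit 178) (nat_lit 5) (nat_lit 177) (nat_lit 5) (nat_lit 191) (nat_lit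 5) (nat_lit 235) (nat_lit 226) (nat_lit 139))))) (XT.nd (nat_lit 282) (nat_lit 0) (nat_lit 84) (XT.nd (nat_lit 94) (nat_lit 1176) (nat_lit 0) (XT.lf (nat_lit 84) (nat_lit 3285256934) (nat_lit 0) (nat_lit 8082036121) (nat_lit 1176) (nat_lit 804147597) (nat_lit 179) (nat_lit 5) (nat_lit 178) (nat_lit 5) (nat_lit 192) (nat_lit 5) (nat_lit 236) (nat_lit 226) (nat_lit 138)) (XT.nd (nat_lit 94) (nat_lit 0) (nat_lit 84) (XT.lf (nat_lit 0) (nat_lit 369982478) (nat_lit 1176) (nat_lit 2369461293) (nat_lit 1260) (nat_lit 9640577823) (nat_lit 164) (nat_lit 5) (nat_lit 178) (nat_lit 5) (nat_lit 179) (nat_lit 5) (nat_lit 237) (nat_lit 226) (nat_lit 137)) (XT.lf (nat_lit 0) (nat_lit 1626148078) (nat_lit 1176) (nat_lit 8176196803) (nat_lit 1260) (nat_lit 2791139973) (nat_lit 165) (nat_lit 5) (nat_lit 179) (nat_lit 5) (nat_lit 180) (nat_lit 5) (nat_lit 238) (nat_lit 226) (nat_lit 136)))) (XT.nd (nat_lit 94)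 (nat_lit 0) (nat_lit 84) (XT.lf (nat_lit 0) (nat_lit 2965154711) (nat_lit 1176) (nat_lit 1364236323) (nat_lit 1260) (nat_lit 8483667661) (nat_lit 165) (nat_lit 5) (nat_lit 179) (nat_lit 5) (nat_lit 180) (nat_lit 5) (nat_lit 239) (nat_lit 226) (nat_lit 135)) (XT.nd (nat_lit 94) (nat_lit 0) (nat_lit 0) (XT.lf (nat_lit 0) (nat_lit 4411034268) (nat_lit 1176) (nat_lit 7253516664) (nat_lit 84) (nat_lit 1373666420) (nat_lit 166) (nat_lit 5) (nat_lit 180) (nat_lit 5) (nat_lit 167) (nat_lit 5) (nat_lit 240) (nat_lit 226) (nat_lit 134)) (XT.lf (nat_lit 0) (nat_lit 5953979454) (nat_lit 1176) (nat_lit 121498738) (nat_lit 84) (nat_lit 7194152273) (nat_lit 166) (nat_lit 5) (nat_lit 180) (nat_lit 5) (nat_lit 167) (nat_lit 5) (nat_lit 241) (nat_lit 226) (nat_lit 133)))))) (XT.nd (nat_lit 564) (nat_lit 1596) (nat_lit 0) (XT.nd (nat_lit 282) (nat_lit 1260) (nat_lit 0) (XT.nd (nat_lit 94) (nat_lit 672) (nat_lit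 0) (XT.lf (nat_lit 0) (nat_lit 7411472804) (nat_lit 1176) (nat_lit 202952129) (nat_lit 1260) (nat_lit 5892495703) (nat_lit 152) (nat_lit 5) (nat_lit 166) (nat_lit 5) (nat_lit 167) (nat_lit 5) (nat_lit 242) (nat_lit 226) (nat_lit 132)) (XT.nd (nat_lit 94) (nat_lit 0) (nat_lit 0) (XT.lf (nat_lit 0) (nat_lit 1407791475) (nat_lit 672) (nat_lit 7989193895) (nat_lit 756) (nat_lit 4353290615) (nat_lit 144) (nat_lit 5) (nat_lit 152) (nat_lit 5) (nat_lit 153) (nat_lit 5) (nat_lit 243) (nat_lit 226) (nat_lit 131)) (XT.lf (nat_lit 0) (nat_lit 9300610150) (nat_lit 672) (nat_lit 1997404783) (nat_lit 756) (nat_lit 2702171056) (nat_lit 144) (nat_lit 5) (nat_lit 152) (nat_lit 5) (nat_lit 153) (nat_lit 5) (nat_lit 244) (nat_lit 226) (nat_lit 130)))) (XT.nd (nat_lit 94) (nat_lit 672) (nat_lit 0) (XT.lf (nat_lit 0) (nat_lit 3219945274) (nat_lit 588) (nat_lit 10110822948) (nat_lit 672) (nat_lit 925793052) (nat_lit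 137) (nat_lit 5) (nat_lit 144) (nat_lit 5) (nat_lit 145) (nat_lit 5) (nat_lit 245) (nat_lit 226) (nat_lit 129)) (XT.nd (nat_lit 94) (nat_lit 588) (nat_lit 0) (XT.lf (nat_lit 0) (nat_lit 953864714) (nat_lit 672) (nat_lit 3041579390) (nat_lit 84) (nat_lit 10523946542) (nat_lit 136) (nat_lit 5) (nat_lit 144) (nat_lit 5) (nat_lit 137) (nat_lit 5) (nat_lit 246) (nat_lit 226) (nat_lit 128)) (XT.lf (nat_lit 0) (nat_lit 2947009994) (nat_lit 672) (nat_lit 9489661583) (nat_lit 84) (nat_lit 2351943892) (nat_lit 129) (nat_lit 5) (nat_lit 137) (nat_lit 5) (nat_lit 130) (nat_lit 5) (nat_lit 247) (nat_lit 226) (nat_lit 127))))) (XT.nd (nat_lit 282) (nat_lit 588) (nat_lit 0) (XT.nd (nat_lit 94) (nat_lit 1008) (nat_lit 0) (XT.lf (nat_lit 0) (nat_lit 5075936908) (nat_lit 672) (nat_lit 1125116709) (nat_lit 84) (nat_lit 8863898789) (nat_lit 129) (nat_lit 5) (nat_lit 137) (nat_lit 5) (nat_lit 130) (nat_lit 5)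 (nat_lit 248) (nat_lit 226) (nat_lit 126)) (XT.nd (nat_lit 94) (nat_lit 504) (nat_lit 0) (XT.lf (nat_lit 0) (nat_lit 7353052805) (nat_lit 588) (nat_lit 7662242931) (nat_lit 84) (nat_lit 333086720) (nat_lit 123) (nat_lit 5) (nat_lit 130) (nat_lit 5) (nat_lit 124) (nat_lit 5) (nat_lit 249) (nat_lit 226) (nat_lit 125)) (XT.lf (nat_lit 0) (nat_lit 1128637489) (nat_lit 504) (nat_lit 8663284859) (nat_lit 588) (nat_lit 5846938301) (nat_lit 117) (nat_lit 5) (nat_lit 123) (nat_lit 5) (nat_lit 124) (nat_lit 5) (nat_lit 250) (nat_lit 226) (nat_lit 124)))) (XT.nd (nat_lit 94) (nat_lit 588) (nat_lit 0) (XT.lf (nat_lit 0) (nat_lit 10394551299) (nat_lit 504) (nat_lit 1996889186) (nat_lit 588) (nat_lit 3545430007) (nat_lit 117) (nat_lit 5) (nat_lit 123) (nat_lit 5) (nat_lit 124) (nat_lit 5) (nat_lit 251) (nat_lit 226) (nat_lit 123)) (XT.nd (nat_lit 94) (nat_lit 84) (nat_lit 0) (XT.lf (nat_lit 0) (nat_lit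 3753369903) (nat_lit 504) (nat_lit 11410391882) (nat_lit 588) (nat_lit 1078685194) (nat_lit 111) (nat_lit 5) (nat_lit 117) (nat_lit 5) (nat_lit 118) (nat_lit 5) (nat_lit 252) (nat_lit 226) (nat_lit 122)) (XT.lf (nat_lit 0) (nat_lit 1515663376) (nat_lit 588) (nat_lit 3105863525) (nat_lit 84) (nat_lit 11934002313) (nat_lit 110) (nat_lit 5) (nat_lit 117) (nat_lit 5) (nat_lit 111) (nat_lit 5) (nat_lit 253) (nat_lit 226) (nat_lit 121))))))))
noncomputable def xc50 : XT := (XT.nd (nat_lit 36472) (nat_lit 0) (nat_lit 336) (XT.nd (nat_lit 35344) (nat_lit 0) (nat_lit 7140) (XT.nd (nat_lit 470) (nat_lit 1260) (nat_lit 0) (XT.nd (nat_lit 188) (nat_lit 840) (nat_lit 0) (XT.nd (nat_lit 94) (nat_lit 0) (nat_lit 0) (XT.lf (nat_lit 0) (nat_lit 4264272327) (nat_lit 588) (nat_lit 10175014339) (nat_lit 84) (nat_lit 2436740239) (nat_lit 104) (nat_lit 5) (nat_lit 111) (nat_lit 5) (nat_lit 105) (nat_lit 5) (nat_lit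 254) (nat_lit 226) (nat_lit 120)) (XT.lf (nat_lit 0) (nat_lit 7185727546) (nat_lit 588) (nat_lit 350889802) (nat_lit 84) (nat_lit 9668442093) (nat_lit 104) (nat_lit 5) (nat_lit 111) (nat_lit 5) (nat_lit 105) (nat_lit 5) (nat_lit 255) (nat_lit 226) (nat_lit 119))) (XT.nd (nat_lit 94) (nat_lit 420) (nat_lit 0) (XT.lf (nat_lit 0) (nat_lit 10028605547) (nat_lit 420) (nat_lit 279310520) (nat_lit 504) (nat_lit 7234245164) (nat_lit 99) (nat_lit 5) (nat_lit 104) (nat_lit 5) (nat_lit 105) (nat_lit 5) (nat_lit 256) (nat_lit 226) (nat_lit 118)) (XT.nd (nat_lit 94) (nat_lit 0) (nat_lit 0) (XT.lf (nat_lit 0) (nat_lit 2856934971) (nat_lit 420) (nat_lit 10786032441) (nat_lit 504) (nat_lit 4244468655) (nat_lit 94) (nat_lit 5) (nat_lit 99) (nat_lit 5) (nat_lit 100) (nat_lit 5) (nat_lit 257) (nat_lit 226) (nat_lit 117)) (XT.lf (nat_lit 0) (nat_lit 13751590298) (nat_lit 420) (nat_lit 3422245391) (nat_lit 504)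 (nat_lit 1068191677) (nat_lit 94) (nat_lit 5) (nat_lit 99) (nat_lit 5) (nat_lit 100) (nat_lit 5) (nat_lit 258) (nat_lit 226) (nat_lit 116))))) (XT.nd (nat_lit 282) (nat_lit 336) (nat_lit 0) (XT.nd (nat_lit 94) (nat_lit 420) (nat_lit 0) (XT.lf (nat_lit 0) (nat_lit 2277064093) (nat_lit 504) (nat_lit 12127830777) (nat_lit 84) (nat_lit 4199484520) (nat_lit 88) (nat_lit 5) (nat_lit 94) (nat_lit 5) (nat_lit 89) (nat_lit 5) (nat_lit 259) (nat_lit 226) (nat_lit 115)) (XT.nd (nat_lit 94) (nat_lit 420) (nat_lit 0) (XT.lf (nat_lit 0) (nat_lit 5795147757) (nat_lit 504) (nat_lit 1110637442) (nat_lit 84) (nat_lit 12070368962) (nat_lit 88) (nat_lit 5) (nat_lit 94) (nat_lit 5) (nat_lit 89) (nat_lit 5) (nat_lit 260) (nat_lit 226) (nat_lit 114)) (XT.lf (nat_lit 0) (nat_lit 9552537899) (nat_lit 504) (nat_lit 8852869358) (nat_lit 84) (nat_lit 951467718) (nat_lit 83) (nat_lit 5) (nat_lit 89) (nat_lit 5) (nat_lit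 84) (nat_lit 5) (nat_lit 261) (nat_lit 226) (nat_lit 113)))) (XT.nd (nat_lit 34404) (nat_lit 0) (nat_lit 7980) (XT.lf (nat_lit 0) (nat_lit 2768817571) (nat_lit 336) (nat_lit 10784719661) (nat_lit 420) (nat_lit 6193460265) (nat_lit 79) (nat_lit 5) (nat_lit 83) (nat_lit 5) (nat_lit 84) (nat_lit 5) (nat_lit 262) (nat_lit 226) (nat_lit 112)) (XT.nd (nat_lit 94) (nat_lit 0) (nat_lit 0) (XT.lf (nat_lit 0) (nat_lit 728366724) (nat_lit 0) (nat_lit 728366724) (nat_lit 1092) (nat_lit 3888957208) (nat_lit 174) (nat_lit 5) (nat_lit 174) (nat_lit 3) (nat_lit 187) (nat_lit 3) (nat_lit 227) (nat_lit 227) (nat_lit 146)) (XT.lf (nat_lit 0) (nat_lit 3613142993) (nat_lit 1092) (nat_lit 3919795807) (nat_lit 1176) (nat_lit 3322837521) (nat_lit 174) (nat_lit 5) (nat_lit 187) (nat_lit 3) (nat_lit 188) (nat_lit 5) (nat_lit 228) (nat_lit 227) (nat_lit 145)))))) (XT.nd (nat_lit 564) (nat_lit 840) (nat_lit 0) (XT.nd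 (nat_lit 282) (nat_lit 0) (nat_lit 168) (XT.nd (nat_lit 94) (nat_lit 0) (nat_lit 84) (XT.lf (nat_lit 84) (nat_lit 1585247768) (nat_lit 0) (nat_lit 2758977345) (nat_lit 1176) (nat_lit 6681457934) (nat_lit 175) (nat_lit 5) (nat_lit 174) (nat_lit 5) (nat_lit 188) (nat_lit 5) (nat_lit 229) (nat_lit 227) (nat_lit 144)) (XT.nd (nat_lit 94) (nat_lit 0) (nat_lit 0) (XT.lf (nat_lit 0) (nat_lit 5145348826) (nat_lit 1092) (nat_lit 3863546106) (nat_lit 1176) (nat_lit 2191085696) (nat_lit 175) (nat_lit 5) (nat_lit 188) (nat_lit 5) (nat_lit 189) (nat_lit 5) (nat_lit 230) (nat_lit 227) (nat_lit 143)) (XT.lf (nat_lit 84) (nat_lit 1904565348) (nat_lit 0) (nat_lit 4097240417) (nat_lit 1176) (nat_lit 5377617574) (nat_lit 176) (nat_lit 5) (nat_lit 175) (nat_lit 5) (nat_lit 189) (nat_lit 5) (nat_lit 231) (nat_lit 227) (nat_lit 142)))) (XT.nd (nat_lit 94) (nat_lit 0) (nat_lit 0) (XT.lf (nat_lit 0) (nat_lit 6920410557)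 (nat_lit 1092) (nat_lit 3623881279) (nat_lit 1176) (nat_lit 1019728692) (nat_lit 176) (nat_lit 5) (nat_lit 189) (nat_lit 5) (nat_lit 190) (nat_lit 5) (nat_lit 232) (nat_lit 227) (nat_lit 141)) (XT.nd (nat_lit 94) (nat_lit 0) (nat_lit 0) (XT.lf (nat_lit 84) (nat_lit 2423989686) (nat_lit 0) (nat_lit 5497346089) (nat_lit 1176) (nat_lit 3831986920) (nat_lit 177) (nat_lit 5) (nat_lit 176) (nat_lit 5) (nat_lit 190) (nat_lit 5) (nat_lit 233) (nat_lit 227) (nat_lit 140)) (XT.lf (nat_lit 84) (nat_lit 8755129619) (nat_lit 0) (nat_lit 221478035) (nat_lit 1176) (nat_lit 2971966785) (nat_lit 177) (nat_lit 5) (nat_lit 176) (nat_lit 5) (nat_lit 190) (nat_lit 5) (nat_lit 234) (nat_lit 227) (nat_lit 139))))) (XT.nd (nat_lit 282) (nat_lit 0) (nat_lit 0) (XT.nd (nat_lit 94) (nat_lit 1092) (nat_lit 0) (XT.lf (nat_lit 84) (nat_lit 3154570824) (nat_lit 0) (nat_lit 6985199044) (nat_lit 1176) (nat_lit 2008406671)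 (nat_lit 178) (nat_lit 5) (nat_lit 177) (nat_lit 5) (nat_lit 191) (nat_lit 5) (nat_lit 235) (nat_lit 227) (nat_lit 138)) (XT.nd (nat_lit 94) (nat_lit 1092) (nat_lit 0) (XT.lf (nat_lit 84) (nat_lit 9783233638) (nat_lit 0) (nat_lit 1578637913) (nat_lit 1176) (nat_lit 992255155) (nat_lit 178) (nat_lit 5) (nat_lit 177) (nat_lit 5) (nat_lit 191) (nat_lit 5) (nat_lit 236) (nat_lit 227) (nat_lit 137)) (XT.lf (nat_lit 0) (nat_lit 128291905) (nat_lit 1176) (nat_lit 8457179243) (nat_lit 1260) (nat_lit 3979334544) (nat_lit 164) (nat_lit 5) (nat_lit 178) (nat_lit 5) (nat_lit 179) (nat_lit 5) (nat_lit 237) (nat_lit 227) (nat_lit 136)))) (XT.nd (nat_lit 94) (nat_lit 0) (nat_lit 84) (XT.lf (nat_lit 0) (nat_lit 1292799531) (nat_lit 1176) (nat_lit 1746356327) (nat_lit 1260) (nat_lit 9742321124) (nat_lit 164) (nat_lit 5) (nat_lit 178) (nat_lit 5) (nat_lit 179) (nat_lit 5) (nat_lit 238) (nat_lit 227) (nat_lit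 135)) (XT.nd (nat_lit 94) (nat_lit 0) (nat_lit 0) (XT.lf (nat_lit 0) (nat_lit 2567834895) (nat_lit 1176) (nat_lit 7731231547) (nat_lit 1260) (nat_lit 2704223375) (nat_lit 165) (nat_lit 5) (nat_lit 179) (nat_lit 5) (nat_lit 180) (nat_lit 5) (nat_lit 239) (nat_lit 227) (nat_lit 134)) (XT.lf (nat_lit 0) (nat_lit 3923786946) (nat_lit 1176) (nat_lit 705576726) (nat_lit 1260) (nat_lit 8602232263) (nat_lit 165) (nat_lit 5) (nat_lit 179) (nat_lit 5) (nat_lit 180) (nat_lit 5) (nat_lit 240) (nat_lit 227) (nat_lit 133))))))) (XT.nd (nat_lit 1128) (nat_lit 2856) (nat_lit 0) (XT.nd (nat_lit 564) (nat_lit 1680) (nat_lit 0) (XT.nd (nat_lit 282) (nat_lit 1260) (nat_lit 0) (XT.nd (nat_lit 94) (nat_lit 1176) (nat_lit 0) (XT.lf (nat_lit 0) (nat_lit 5397637104) (nat_lit 1176) (nat_lit 6778346695) (nat_lit 84) (nat_lit 1289443576) (nat_lit 166) (nat_lit 5) (nat_lit 180) (nat_lit 5) (nat_lit 167) (nat_lit 5) (nat_lit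 241) (nat_lit 227) (nat_lit 132)) (XT.nd (nat_lit 94) (nat_lit 0) (nat_lit 0) (XT.lf (nat_lit 0) (nat_lit 592062822) (nat_lit 1176) (nat_lit 6380976811) (nat_lit 1260) (nat_lit 6732654417) (nat_lit 152) (nat_lit 5) (nat_lit 166) (nat_lit 5) (nat_lit 167) (nat_lit 5) (nat_lit 242) (nat_lit 227) (nat_lit 131)) (XT.lf (nat_lit 0) (nat_lit 8367233276) (nat_lit 1176) (nat_lit 298338602) (nat_lit 1260) (nat_lit 5286628509) (nat_lit 152) (nat_lit 5) (nat_lit 166) (nat_lit 5) (nat_lit 167) (nat_lit 5) (nat_lit 243) (nat_lit 227) (nat_lit 130)))) (XT.nd (nat_lit 94) (nat_lit 588) (nat_lit 0) (XT.lf (nat_lit 0) (nat_lit 2173605986) (nat_lit 672) (nat_lit 8317415570) (nat_lit 756) (nat_lit 3713734129) (nat_lit 144) (nat_lit 5) (nat_lit 152) (nat_lit 5) (nat_lit 153) (nat_lit 5) (nat_lit 244) (nat_lit 227) (nat_lit 129)) (XT.nd (nat_lit 94) (nat_lit 588) (nat_lit 0) (XT.lf (nat_lit 0) (nat_lit 10318442433)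 (nat_lit 672) (nat_lit 2114270363) (nat_lit 756) (nat_lit 2031605345) (nat_lit 144) (nat_lit 5) (nat_lit 152) (nat_lit 5) (nat_lit 153) (nat_lit 5) (nat_lit 245) (nat_lit 227) (nat_lit 128)) (XT.lf (nat_lit 0) (nat_lit 4043158094) (nat_lit 588) (nat_lit 10475866137) (nat_lit 672) (nat_lit 211257918) (nat_lit 137) (nat_lit 5) (nat_lit 144) (nat_lit 5) (nat_lit 145) (nat_lit 5) (nat_lit 246) (nat_lit 227) (nat_lit 127))))) (XT.nd (nat_lit 282) (nat_lit 1008) (nat_lit 0) (XT.nd (nat_lit 94) (nat_lit 588) (nat_lit 0) (XT.lf (nat_lit 0) (nat_lit 1692565549) (nat_lit 672) (nat_lit 2445183451) (nat_lit 84) (nat_lit 10865134273) (nat_lit 136) (nat_lit 5) (nat_lit 144) (nat_lit 5) (nat_lit 137) (nat_lit 5) (nat_lit 247) (nat_lit 227) (nat_lit 126)) (XT.nd (nat_lit 94) (nat_lit 0) (nat_lit 0) (XT.lf (nat_lit 0) (nat_lit 3739424407) (nat_lit 672) (nat_lit 9102902013) (nat_lit 84) (nat_lit 2439766172)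 (nat_lit 129) (nat_lit 5) (nat_lit 137) (nat_lit 5) (nat_lit 130) (nat_lit 5) (nat_lit 248) (nat_lit 227) (nat_lit 125)) (XT.lf (nat_lit 0) (nat_lit 5919555147) (nat_lit 672) (nat_lit 469908620) (nat_lit 84) (nat_lit 9179453357) (nat_lit 129) (nat_lit 5) (nat_lit 137) (nat_lit 5) (nat_lit 130) (nat_lit 5) (nat_lit 249) (nat_lit 227) (nat_lit 124)))) (XT.nd (nat_lit 94) (nat_lit 504) (nat_lit 0) (XT.lf (nat_lit 0) (nat_lit 8261897071) (nat_lit 588) (nat_lit 7221361230) (nat_lit 84) (nat_lit 379515482) (nat_lit 123) (nat_lit 5) (nat_lit 130) (nat_lit 5) (nat_lit 124) (nat_lit 5) (nat_lit 250) (nat_lit 227) (nat_lit 123)) (XT.nd (nat_lit 94) (nat_lit 0) (nat_lit 0) (XT.lf (nat_lit 0) (nat_lit 1869116256) (nat_lit 504) (nat_lit 8902790200) (nat_lit 588) (nat_lit 5392009976) (nat_lit 117) (nat_lit 5) (nat_lit 123) (nat_lit 5) (nat_lit 124) (nat_lit 5) (nat_lit 251) (nat_lit 227) (nat_lit 122))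 (XT.lf (nat_lit 0) (nat_lit 11435632532) (nat_lit 504) (nat_lit 2005225111) (nat_lit 588) (nat_lit 3032253230) (nat_lit 117) (nat_lit 5) (nat_lit 123) (nat_lit 5) (nat_lit 124) (nat_lit 5) (nat_lit 252) (nat_lit 227) (nat_lit 121)))))) (XT.nd (nat_lit 564) (nat_lit 924) (nat_lit 0) (XT.nd (nat_lit 282) (nat_lit 840) (nat_lit 0) (XT.nd (nat_lit 94) (nat_lit 588) (nat_lit 0) (XT.lf (nat_lit 0) (nat_lit 4574914809) (nat_lit 504) (nat_lit 11722826759) (nat_lit 588) (nat_lit 492077371) (nat_lit 111) (nat_lit 5) (nat_lit 117) (nat_lit 5) (nat_lit 118) (nat_lit 5) (nat_lit 253) (nat_lit 227) (nat_lit 120)) (XT.nd (nat_lit 94) (nat_lit 504) (nat_lit 0) (XT.lf (nat_lit 0) (nat_lit 2158281502) (nat_lit 588) (nat_lit 2534052893) (nat_lit 84) (nat_lit 12422003396) (nat_lit 110) (nat_lit 5) (nat_lit 117) (nat_lit 5) (nat_lit 111) (nat_lit 5) (nat_lit 254) (nat_lit 227) (nat_lit 119)) (XT.lf (nat_lit 0)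 (nat_lit 4991716095) (nat_lit 588) (nat_lit 9839248314) (nat_lit 84) (nat_lit 2615486639) (nat_lit 104) (nat_lit 5) (nat_lit 111) (nat_lit 5) (nat_lit 105) (nat_lit 5) (nat_lit 255) (nat_lit 227) (nat_lit 118)))) (XT.nd (nat_lit 94) (nat_lit 420) (nat_lit 0) (XT.lf (nat_lit 0) (nat_lit 312406883) (nat_lit 420) (nat_lit 7686943785) (nat_lit 504) (nat_lit 9788211560) (nat_lit 99) (nat_lit 5) (nat_lit 104) (nat_lit 5) (nat_lit 105) (nat_lit 5) (nat_lit 256) (nat_lit 227) (nat_lit 117)) (XT.nd (nat_lit 94) (nat_lit 420) (nat_lit 0) (XT.lf (nat_lit 0) (nat_lit 11040479700) (nat_lit 420) (nat_lit 175327481) (nat_lit 504) (nat_lit 6921180701) (nat_lit 99) (nat_lit 5) (nat_lit 104) (nat_lit 5) (nat_lit 105) (nat_lit 5) (nat_lit 257) (nat_lit 227) (nat_lit 116)) (XT.lf (nat_lit 0) (nat_lit 3627943884) (nat_lit 420) (nat_lit 11029841217) (nat_lit 504) (nat_lit 3836905245) (nat_lit 94) (nat_lit 5) (nat_lit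 99) (nat_lit 5) (nat_lit 100) (nat_lit 5) (nat_lit 258) (nat_lit 227) (nat_lit 115))))) (XT.nd (nat_lit 282) (nat_lit 420) (nat_lit 0) (XT.nd (nat_lit 94) (nat_lit 504) (nat_lit 0) (XT.lf (nat_lit 0) (nat_lit 14881220779) (nat_lit 420) (nat_lit 3412842956) (nat_lit 504) (nat_lit 568264557) (nat_lit 94) (nat_lit 5) (nat_lit 99) (nat_lit 5) (nat_lit 100) (nat_lit 5) (nat_lit 259) (nat_lit 227) (nat_lit 114)) (XT.nd (nat_lit 94) (nat_lit 0) (nat_lit 0) (XT.lf (nat_lit 0) (nat_lit 2872950789) (nat_lit 504) (nat_lit 11882855657) (nat_lit 84) (nat_lit 4481659591) (nat_lit 88) (nat_lit 5) (nat_lit 94) (nat_lit 5) (nat_lit 89) (nat_lit 5) (nat_lit 260) (nat_lit 227) (nat_lit 113)) (XT.lf (nat_lit 0) (nat_lit 6496711700) (nat_lit 504) (nat_lit 502698934) (nat_lit 84) (nat_lit 12623453240) (nat_lit 88) (nat_lit 5) (nat_lit 94) (nat_lit 5) (nat_lit 89) (nat_lit 5) (nat_lit 261) (nat_lit 227) (nat_lit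 112)))) (XT.nd (nat_lit 34498) (nat_lit 0) (nat_lit 7644) (XT.lf (nat_lit 0) (nat_lit 10377546070) (nat_lit 504) (nat_lit 8507844540) (nat_lit 84) (nat_lit 1131801561) (nat_lit 83) (nat_lit 5) (nat_lit 89) (nat_lit 5) (nat_lit 84) (nat_lit 5) (nat_lit 262) (nat_lit 227) (nat_lit 111)) (XT.nd (nat_lit 94) (nat_lit 0) (nat_lit 0) (XT.lf (nat_lit 0) (nat_lit 1055860659) (nat_lit 0) (nat_lit 1055860659) (nat_lit 1092) (nat_lit 3399928434) (nat_lit 174) (nat_lit 5) (nat_lit 174) (nat_lit 3) (nat_lit 187) (nat_lit 3) (nat_lit 228) (nat_lit 228) (nat_lit 144)) (XT.lf (nat_lit 0) (nat_lit 4900254703) (nat_lit 1092) (nat_lit 3426058964) (nat_lit 1176) (nat_lit 2868792016) (nat_lit 174) (nat_lit 5) (nat_lit 187) (nat_lit 3) (nat_lit 188) (nat_lit 5) (nat_lit 229) (nat_lit 228) (nat_lit 143))))))))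
noncomputable def xc51 : XT := (XT.nd (nat_lit 2162) (nat_lit 2856) (nat_lit 0) (XT.nd (nat_lit 1034) (nat_lit 3948) (nat_lit 0) (XT.nd (nat_lit 470) (nat_lit 840) (nat_lit 0) (XT.nd (nat_lit 188) (nat_lit 0) (nat_lit 84) (XT.nd (nat_lit 94) (nat_lit 0) (nat_lit 84) (XT.lf (nat_lit 84) (nat_lit 2264468128) (nat_lit 0) (nat_lit 3360157247) (nat_lit 1176) (nat_lit 5747464246) (nat_lit 175) (nat_lit 5) (nat_lit 174) (nat_lit 5) (nat_lit 188) (nat_lit 5) (nat_lit 230) (nat_lit 228) (nat_lit 142)) (XT.lf (nat_lit 0) (nat_lit 6410199203) (nat_lit 1092) (nat_lit 3352536863) (nat_lit 1176) (nat_lit 1791277174) (nat_lit 175) (nat_lit 5) (nat_lit 188) (nat_lit 5) (nat_lit 189) (nat_lit 5) (nat_lit 231) (nat_lit 228) (nat_lit 141))) (XT.nd (nat_lit 94) (nat_lit 0) (nat_lit 84) (XT.lf (nat_lit 84) (nat_lit 2610091011) (nat_lit 0) (nat_lit 4656976650) (nat_lit 1176) (nat_lit 4473703540) (nat_lit 176) (nat_lit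 5) (nat_lit 175) (nat_lit 5) (nat_lit 189) (nat_lit 5) (nat_lit 232) (nat_lit 228) (nat_lit 140)) (XT.nd (nat_lit 94) (nat_lit 0) (nat_lit 0) (XT.lf (nat_lit 0) (nat_lit 8177658600) (nat_lit 1092) (nat_lit 3093290387) (nat_lit 1176) (nat_lit 662286081) (nat_lit 176) (nat_lit 5) (nat_lit 189) (nat_lit 5) (nat_lit 190) (nat_lit 5) (nat_lit 233) (nat_lit 228) (nat_lit 139)) (XT.lf (nat_lit 84) (nat_lit 3158760969) (nat_lit 0) (nat_lit 6027772057) (nat_lit 1176) (nat_lit 2943577696) (nat_lit 177) (nat_lit 5) (nat_lit 176) (nat_lit 5) (nat_lit 190) (nat_lit 5) (nat_lit 234) (nat_lit 228) (nat_lit 138))))) (XT.nd (nat_lit 282) (nat_lit 1008) (nat_lit 0) (XT.nd (nat_lit 94) (nat_lit 0) (nat_lit 84) (XT.lf (nat_lit 84) (nat_lit 9689512435) (nat_lit 0) (nat_lit 555818032) (nat_lit 1176) (nat_lit 2088035124) (nat_lit 177) (nat_lit 5) (nat_lit 176) (nat_lit 5) (nat_lit 190) (nat_lit 5) (nat_lit 235)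 (nat_lit 228) (nat_lit 137)) (XT.nd (nat_lit 94) (nat_lit 0) (nat_lit 0) (XT.lf (nat_lit 84) (nat_lit 3922400485) (nat_lit 0) (nat_lit 7498332918) (nat_lit 1176) (nat_lit 1120216809) (nat_lit 178) (nat_lit 5) (nat_lit 177) (nat_lit 5) (nat_lit 191) (nat_lit 5) (nat_lit 236) (nat_lit 228) (nat_lit 136)) (XT.lf (nat_lit 84) (nat_lit 10760834914) (nat_lit 0) (nat_lit 1893457300) (nat_lit 1176) (nat_lit 100912496) (nat_lit 178) (nat_lit 5) (nat_lit 177) (nat_lit 5) (nat_lit 191) (nat_lit 5) (nat_lit 237) (nat_lit 228) (nat_lit 135)))) (XT.nd (nat_lit 94) (nat_lit 0) (nat_lit 0) (XT.lf (nat_lit 0) (nat_lit 1011881317) (nat_lit 1176) (nat_lit 8071020022) (nat_lit 1260) (nat_lit 3890904081) (nat_lit 164) (nat_lit 5) (nat_lit 178) (nat_lit 5) (nat_lit 179) (nat_lit 5) (nat_lit 238) (nat_lit 228) (nat_lit 134)) (XT.nd (nat_lit 94) (nat_lit 0) (nat_lit 84) (XT.lf (nat_lit 0) (nat_lit 2187418718) (nat_lit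 1176) (nat_lit 1148386533) (nat_lit 1260) (nat_lit 9863295434) (nat_lit 164) (nat_lit 5) (nat_lit 178) (nat_lit 5) (nat_lit 179) (nat_lit 5) (nat_lit 239) (nat_lit 228) (nat_lit 133)) (XT.lf (nat_lit 0) (nat_lit 3483652905) (nat_lit 1176) (nat_lit 7319304971) (nat_lit 1260) (nat_lit 2626539052) (nat_lit 165) (nat_lit 5) (nat_lit 179) (nat_lit 5) (nat_lit 180) (nat_lit 5) (nat_lit 240) (nat_lit 228) (nat_lit 132)))))) (XT.nd (nat_lit 564) (nat_lit 2268) (nat_lit 0) (XT.nd (nat_lit 282) (nat_lit 672) (nat_lit 0) (XT.nd (nat_lit 94) (nat_lit 1092) (nat_lit 0) (XT.lf (nat_lit 0) (nat_lit 4859132811) (nat_lit 1176) (nat_lit 70832608) (nat_lit 1260) (nat_lit 8736805909) (nat_lit 165) (nat_lit 5) (nat_lit 179) (nat_lit 5) (nat_lit 180) (nat_lit 5) (nat_lit 241) (nat_lit 228) (nat_lit 131)) (XT.nd (nat_lit 94) (nat_lit 1176) (nat_lit 0) (XT.lf (nat_lit 0) (nat_lit 6363437539) (nat_lit 1176) (nat_lit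 6335019340) (nat_lit 84) (nat_lit 1211069545) (nat_lit 166) (nat_lit 5) (nat_lit 180) (nat_lit 5) (nat_lit 167) (nat_lit 5) (nat_lit 242) (nat_lit 228) (nat_lit 130)) (XT.lf (nat_lit 0) (nat_lit 1285595575) (nat_lit 1176) (nat_lit 6689608727) (nat_lit 1260) (nat_lit 6183655250) (nat_lit 152) (nat_lit 5) (nat_lit 166) (nat_lit 5) (nat_lit 167) (nat_lit 5) (nat_lit 243) (nat_lit 228) (nat_lit 129)))) (XT.nd (nat_lit 94) (nat_lit 672) (nat_lit 0) (XT.lf (nat_lit 0) (nat_lit 9310144947) (nat_lit 1176) (nat_lit 391193716) (nat_lit 1260) (nat_lit 4713552225) (nat_lit 152) (nat_lit 5) (nat_lit 166) (nat_lit 5) (nat_lit 167) (nat_lit 5) (nat_lit 244) (nat_lit 228) (nat_lit 128)) (XT.nd (nat_lit 94) (nat_lit 0) (nat_lit 0) (XT.lf (nat_lit 0) (nat_lit 2918581643) (nat_lit 672) (nat_lit 8653893630) (nat_lit 756) (nat_lit 3104447483) (nat_lit 144) (nat_lit 5) (nat_lit 152) (nat_lit 5) (nat_lit 153) (nat_lit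 5) (nat_lit 245) (nat_lit 228) (nat_lit 127)) (XT.lf (nat_lit 0) (nat_lit 11325867577) (nat_lit 672) (nat_lit 2232104141) (nat_lit 756) (nat_lit 1388443570) (nat_lit 144) (nat_lit 5) (nat_lit 152) (nat_lit 5) (nat_lit 153) (nat_lit 5) (nat_lit 246) (nat_lit 228) (nat_lit 126))))) (XT.nd (nat_lit 282) (nat_lit 1008) (nat_lit 0) (XT.nd (nat_lit 94) (nat_lit 588) (nat_lit 0) (XT.lf (nat_lit 0) (nat_lit 467770147) (nat_lit 672) (nat_lit 10379653842) (nat_lit 84) (nat_lit 4374652052) (nat_lit 136) (nat_lit 5) (nat_lit 144) (nat_lit 5) (nat_lit 137) (nat_lit 5) (nat_lit 247) (nat_lit 228) (nat_lit 125)) (XT.nd (nat_lit 94) (nat_lit 588) (nat_lit 0) (XT.lf (nat_lit 0) (nat_lit 2410224976) (nat_lit 672) (nat_lit 1874645740) (nat_lit 84) (nat_lit 11220068786) (nat_lit 136) (nat_lit 5) (nat_lit 144) (nat_lit 5) (nat_lit 137) (nat_lit 5) (nat_lit 248) (nat_lit 228) (nat_lit 124)) (XT.lf (nat_lit 0) (nat_lit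 4513744307) (nat_lit 672) (nat_lit 8750404865) (nat_lit 84) (nat_lit 2530296260) (nat_lit 129) (nat_lit 5) (nat_lit 137) (nat_lit 5) (nat_lit 130) (nat_lit 5) (nat_lit 249) (nat_lit 228) (nat_lit 123)))) (XT.nd (nat_lit 94) (nat_lit 504) (nat_lit 0) (XT.lf (nat_lit 0) (nat_lit 165808729) (nat_lit 504) (nat_lit 6584459517) (nat_lit 588) (nat_lit 9341737474) (nat_lit 123) (nat_lit 5) (nat_lit 129) (nat_lit 5) (nat_lit 130) (nat_lit 5) (nat_lit 250) (nat_lit 228) (nat_lit 122)) (XT.nd (nat_lit 94) (nat_lit 504) (nat_lit 0) (XT.lf (nat_lit 0) (nat_lit 9159233944) (nat_lit 588) (nat_lit 6812193585) (nat_lit 84) (nat_lit 425257370) (nat_lit 123) (nat_lit 5) (nat_lit 130) (nat_lit 5) (nat_lit 124) (nat_lit 5) (nat_lit 251) (nat_lit 228) (nat_lit 121)) (XT.lf (nat_lit 0) (nat_lit 2588904347) (nat_lit 504) (nat_lit 9154914236) (nat_lit 588) (nat_lit 4965013585) (nat_lit 117) (nat_lit 5) (nat_lit 123)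 (nat_lit 5) (nat_lit 124) (nat_lit 5) (nat_lit 252) (nat_lit 228) (nat_lit 120))))))) (XT.nd (nat_lit 35626) (nat_lit 0) (nat_lit 6720) (XT.nd (nat_lit 564) (nat_lit 1344) (nat_lit 0) (XT.nd (nat_lit 282) (nat_lit 924) (nat_lit 0) (XT.nd (nat_lit 94) (nat_lit 588) (nat_lit 0) (XT.lf (nat_lit 0) (nat_lit 12468120272) (nat_lit 504) (nat_lit 2017945554) (nat_lit 588) (nat_lit 2543486692) (nat_lit 117) (nat_lit 5) (nat_lit 123) (nat_lit 5) (nat_lit 124) (nat_lit 5) (nat_lit 253) (nat_lit 228) (nat_lit 119)) (XT.nd (nat_lit 94) (nat_lit 0) (nat_lit 0) (XT.lf (nat_lit 0) (nat_lit 71880691) (nat_lit 588) (nat_lit 11979247834) (nat_lit 84) (nat_lit 5306595544) (nat_lit 110) (nat_lit 5) (nat_lit 117) (nat_lit 5) (nat_lit 111) (nat_lit 5) (nat_lit 254) (nat_lit 228) (nat_lit 118)) (XT.lf (nat_lit 0) (nat_lit 2784191171) (nat_lit 588) (nat_lit 1987475911) (nat_lit 84) (nat_lit 12922409588) (nat_lit 110)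 (nat_lit 5) (nat_lit 117) (nat_lit 5) (nat_lit 111) (nat_lit 5) (nat_lit 255) (nat_lit 228) (nat_lit 117)))) (XT.nd (nat_lit 94) (nat_lit 420) (nat_lit 0) (XT.lf (nat_lit 0) (nat_lit 5706176664) (nat_lit 588) (nat_lit 9537733862) (nat_lit 84) (nat_lit 2794275041) (nat_lit 104) (nat_lit 5) (nat_lit 111) (nat_lit 5) (nat_lit 105) (nat_lit 5) (nat_lit 256) (nat_lit 228) (nat_lit 116)) (XT.nd (nat_lit 94) (nat_lit 0) (nat_lit 0) (XT.lf (nat_lit 0) (nat_lit 961865721) (nat_lit 420) (nat_lit 7846074830) (nat_lit 504) (nat_lit 9583684912) (nat_lit 99) (nat_lit 5) (nat_lit 104) (nat_lit 5) (nat_lit 105) (nat_lit 5) (nat_lit 257) (nat_lit 228) (nat_lit 115)) (XT.lf (nat_lit 0) (nat_lit 12043828469) (nat_lit 420) (nat_lit 75268786) (nat_lit 504) (nat_lit 6634809414) (nat_lit 99) (nat_lit 5) (nat_lit 104) (nat_lit 5) (nat_lit 105) (nat_lit 5) (nat_lit 258) (nat_lit 228) (nat_lit 114))))) (XT.nd (nat_lit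 282) (nat_lit 420) (nat_lit 0) (XT.nd (nat_lit 94) (nat_lit 504) (nat_lit 0) (XT.lf (nat_lit 0) (nat_lit 4381322713) (nat_lit 420) (nat_lit 11291073076) (nat_lit 504) (nat_lit 3452053131) (nat_lit 94) (nat_lit 5) (nat_lit 99) (nat_lit 5) (nat_lit 100) (nat_lit 5) (nat_lit 259) (nat_lit 228) (nat_lit 113)) (XT.nd (nat_lit 94) (nat_lit 504) (nat_lit 0) (XT.lf (nat_lit 0) (nat_lit 16007281664) (nat_lit 420) (nat_lit 3411700591) (nat_lit 504) (nat_lit 86565607) (nat_lit 94) (nat_lit 5) (nat_lit 99) (nat_lit 5) (nat_lit 100) (nat_lit 5) (nat_lit 260) (nat_lit 228) (nat_lit 112)) (XT.lf (nat_lit 0) (nat_lit 3455372445) (nat_lit 504) (nat_lit 11673817617) (nat_lit 84) (nat_lit 4764721893) (nat_lit 88) (nat_lit 5) (nat_lit 94) (nat_lit 5) (nat_lit 89) (nat_lit 5) (nat_lit 261) (nat_lit 228) (nat_lit 111)))) (XT.nd (nat_lit 34592) (nat_lit 0) (nat_lit 7644) (XT.lf (nat_lit 0) (nat_lit 85448914) (nat_lit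 420) (nat_lit 7105173092) (nat_lit 504) (nat_lit 13102713715) (nat_lit 83) (nat_lit 5) (nat_lit 88) (nat_lit 5) (nat_lit 89) (nat_lit 5) (nat_lit 262) (nat_lit 228) (nat_lit 110)) (XT.nd (nat_lit 94) (nat_lit 0) (nat_lit 0) (XT.lf (nat_lit 0) (nat_lit 1374737040) (nat_lit 0) (nat_lit 1374737040) (nat_lit 1092) (nat_lit 2935348925) (nat_lit 174) (nat_lit 5) (nat_lit 174) (nat_lit 3) (nat_lit 187) (nat_lit 3) (nat_lit 229) (nat_lit 229) (nat_lit 142)) (XT.lf (nat_lit 0) (nat_lit 6155244405) (nat_lit 1092) (nat_lit 2956991404) (nat_lit 1176) (nat_lit 2436776745) (nat_lit 174) (nat_lit 5) (nat_lit 187) (nat_lit 3) (nat_lit 188) (nat_lit 5) (nat_lit 230) (nat_lit 229) (nat_lit 141)))))) (XT.nd (nat_lit 564) (nat_lit 924) (nat_lit 0) (XT.nd (nat_lit 282) (nat_lit 0) (nat_lit 168) (XT.nd (nat_lit 94) (nat_lit 0) (nat_lit 84) (XT.lf (nat_lit 84) (nat_lit 2925989384) (nat_lit 0) (nat_lit 3948826901)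 (nat_lit 1176) (nat_lit 4858429956) (nat_lit 175) (nat_lit 5) (nat_lit 174) (nat_lit 5) (nat_lit 188) (nat_lit 5) (nat_lit 231) (nat_lit 229) (nat_lit 140)) (XT.nd (nat_lit 94) (nat_lit 0) (nat_lit 0) (XT.lf (nat_lit 0) (nat_lit 7647194199) (nat_lit 1092) (nat_lit 2866609899) (nat_lit 1176) (nat_lit 1409157273) (nat_lit 175) (nat_lit 5) (nat_lit 188) (nat_lit 5) (nat_lit 189) (nat_lit 5) (nat_lit 232) (nat_lit 229) (nat_lit 139)) (XT.lf (nat_lit 84) (nat_lit 3297832327) (nat_lit 0) (nat_lit 5208621974) (nat_lit 1176) (nat_lit 3610767517) (nat_lit 176) (nat_lit 5) (nat_lit 175) (nat_lit 5) (nat_lit 189) (nat_lit 5) (nat_lit 233) (nat_lit 229) (nat_lit 138)))) (XT.nd (nat_lit 94) (nat_lit 0) (nat_lit 0) (XT.lf (nat_lit 0) (nat_lit 9411421446) (nat_lit 1092) (nat_lit 2587840657) (nat_lit 1176) (nat_lit 318472125) (nat_lit 176) (nat_lit 5) (nat_lit 189) (nat_lit 5) (nat_lit 190) (nat_lit 5) (nat_lit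 234) (nat_lit 229) (nat_lit 137)) (XT.nd (nat_lit 94) (nat_lit 0) (nat_lit 0) (XT.lf (nat_lit 84) (nat_lit 3876035747) (nat_lit 0) (nat_lit 6554288298) (nat_lit 1176) (nat_lit 2092061371) (nat_lit 177) (nat_lit 5) (nat_lit 176) (nat_lit 5) (nat_lit 190) (nat_lit 5) (nat_lit 235) (nat_lit 229) (nat_lit 136)) (XT.lf (nat_lit 84) (nat_lit 10614846475) (nat_lit 0) (nat_lit 880145303) (nat_lit 1176) (nat_lit 1238853991) (nat_lit 177) (nat_lit 5) (nat_lit 176) (nat_lit 5) (nat_lit 190) (nat_lit 5) (nat_lit 236) (nat_lit 229) (nat_lit 135))))) (XT.nd (nat_lit 282) (nat_lit 0) (nat_lit 84) (XT.nd (nat_lit 94) (nat_lit 1176) (nat_lit 0) (XT.lf (nat_lit 84) (nat_lit 4673392811) (nat_lit 0) (nat_lit 8011564001) (nat_lit 1176) (nat_lit 264669238) (nat_lit 178) (nat_lit 5) (nat_lit 177) (nat_lit 5) (nat_lit 191) (nat_lit 5) (nat_lit 237) (nat_lit 229) (nat_lit 134)) (XT.nd (nat_lit 94) (nat_lit 0) (nat_lit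 84) (XT.lf (nat_lit 0) (nat_lit 742819646) (nat_lit 1176) (nat_lit 1450452257) (nat_lit 1260) (nat_lit 10978834347) (nat_lit 163) (nat_lit 5) (nat_lit 177) (nat_lit 5) (nat_lit 178) (nat_lit 5) (nat_lit 238) (nat_lit 229) (nat_lit 133)) (XT.lf (nat_lit 0) (nat_lit 1867945668) (nat_lit 1176) (nat_lit 7716701602) (nat_lit 1260) (nat_lit 3814518643) (nat_lit 164) (nat_lit 5) (nat_lit 178) (nat_lit 5) (nat_lit 179) (nat_lit 5) (nat_lit 239) (nat_lit 229) (nat_lit 132)))) (XT.nd (nat_lit 94) (nat_lit 0) (nat_lit 84) (XT.lf (nat_lit 0) (nat_lit 3056875479) (nat_lit 1176) (nat_lit 573310380) (nat_lit 1260) (nat_lit 10003131951) (nat_lit 164) (nat_lit 5) (nat_lit 178) (nat_lit 5) (nat_lit 179) (nat_lit 5) (nat_lit 240) (nat_lit 229) (nat_lit 131)) (XT.nd (nat_lit 94) (nat_lit 0) (nat_lit 0) (XT.lf (nat_lit 0) (nat_lit 4376608120) (nat_lit 1176) (nat_lit 6938341221) (nat_lit 1260) (nat_lit 2557594021)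 (nat_lit 165) (nat_lit 5) (nat_lit 179) (nat_lit 5) (nat_lit 180) (nat_lit 5) (nat_lit 241) (nat_lit 229) (nat_lit 130)) (XT.lf (nat_lit 84) (nat_lit 554863013) (nat_lit 0) (nat_lit 5225475787) (nat_lit 1260) (nat_lit 8338479751) (nat_lit 166) (nat_lit 5) (nat_lit 165) (nat_lit 5) (nat_lit 180) (nat_lit 5) (nat_lit 242) (nat_lit 229) (nat_lit 129))))))))
noncomputable def xc52 : XT := (XT.nd (nat_lit 36754) (nat_lit 0) (nat_lit 2436) (XT.nd (nat_lit 1034) (nat_lit 2436) (nat_lit 0) (XT.nd (nat_lit 470) (nat_lit 2268) (nat_lit 0) (XT.nd (nat_lit 188) (nat_lit 672) (nat_lit 0) (XT.nd (nat_lit 94) (nat_lit 1176) (nat_lit 0) (XT.lf (nat_lit 0) (nat_lit 7311386574) (nat_lit 1176) (nat_lit 5921426116) (nat_lit 84) (nat_lit 1138164154) (nat_lit 166) (nat_lit 5) (nat_lit 180) (nat_lit 5) (nat_lit 167) (nat_lit 5) (nat_lit 243) (nat_lit 229) (nat_lit 128)) (XT.lf (nat_lit 0) (nat_lit 1958667272) (nat_lit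 1176) (nat_lit 7003371374) (nat_lit 1260) (nat_lit 5667611414) (nat_lit 152) (nat_lit 5) (nat_lit 166) (nat_lit 5) (nat_lit 167) (nat_lit 5) (nat_lit 244) (nat_lit 229) (nat_lit 127))) (XT.nd (nat_lit 94) (nat_lit 672) (nat_lit 0) (XT.lf (nat_lit 0) (nat_lit 10242836591) (nat_lit 1176) (nat_lit 481819159) (nat_lit 1260) (nat_lit 4170824360) (nat_lit 152) (nat_lit 5) (nat_lit 166) (nat_lit 5) (nat_lit 167) (nat_lit 5) (nat_lit 245) (nat_lit 229) (nat_lit 126)) (XT.nd (nat_lit 94) (nat_lit 0) (nat_lit 0) (XT.lf (nat_lit 0) (nat_lit 3645156792) (nat_lit 672) (nat_lit 8999131902) (nat_lit 756) (nat_lit 2522989172) (nat_lit 144) (nat_lit 5) (nat_lit 152) (nat_lit 5) (nat_lit 153) (nat_lit 5) (nat_lit 246) (nat_lit 229) (nat_lit 125)) (XT.lf (nat_lit 0) (nat_lit 12325581919) (nat_lit 672) (nat_lit 2351147587) (nat_lit 756) (nat_lit 770262309) (nat_lit 144) (nat_lit 5) (nat_lit 152) (nat_lit 5) (nat_lit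 153) (nat_lit 5) (nat_lit 247) (nat_lit 229) (nat_lit 124))))) (XT.nd (nat_lit 282) (nat_lit 1008) (nat_lit 0) (XT.nd (nat_lit 94) (nat_lit 588) (nat_lit 0) (XT.lf (nat_lit 0) (nat_lit 1120296336) (nat_lit 672) (nat_lit 10109010198) (nat_lit 84) (nat_lit 4503276771) (nat_lit 136) (nat_lit 5) (nat_lit 144) (nat_lit 5) (nat_lit 137) (nat_lit 5) (nat_lit 248) (nat_lit 229) (nat_lit 123)) (XT.nd (nat_lit 94) (nat_lit 588) (nat_lit 0) (XT.lf (nat_lit 0) (nat_lit 3109224622) (nat_lit 672) (nat_lit 1327764110) (nat_lit 84) (nat_lit 11589111191) (nat_lit 136) (nat_lit 5) (nat_lit 144) (nat_lit 5) (nat_lit 137) (nat_lit 5) (nat_lit 249) (nat_lit 229) (nat_lit 122)) (XT.lf (nat_lit 0) (nat_lit 5272383526) (nat_lit 672) (nat_lit 8430191201) (nat_lit 84) (nat_lit 2623653260) (nat_lit 129) (nat_lit 5) (nat_lit 137) (nat_lit 5) (nat_lit 130) (nat_lit 5) (nat_lit 250) (nat_lit 229) (nat_lit 121)))) (XT.nd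 (nat_lit 94) (nat_lit 504) (nat_lit 0) (XT.lf (nat_lit 0) (nat_lit 790947614) (nat_lit 504) (nat_lit 6782826807) (nat_lit 588) (nat_lit 9060897862) (nat_lit 123) (nat_lit 5) (nat_lit 129) (nat_lit 5) (nat_lit 130) (nat_lit 5) (nat_lit 251) (nat_lit 229) (nat_lit 120)) (XT.nd (nat_lit 94) (nat_lit 504) (nat_lit 0) (XT.lf (nat_lit 0) (nat_lit 10047540778) (nat_lit 588) (nat_lit 6432715357) (nat_lit 84) (nat_lit 470442057) (nat_lit 123) (nat_lit 5) (nat_lit 130) (nat_lit 5) (nat_lit 124) (nat_lit 5) (nat_lit 252) (nat_lit 229) (nat_lit 119)) (XT.lf (nat_lit 0) (nat_lit 3290376484) (nat_lit 504) (nat_lit 9419816974) (nat_lit 588) (nat_lit 4564010894) (nat_lit 117) (nat_lit 5) (nat_lit 123) (nat_lit 5) (nat_lit 124) (nat_lit 5) (nat_lit 253) (nat_lit 229) (nat_lit 118)))))) (XT.nd (nat_lit 564) (nat_lit 924) (nat_lit 0) (XT.nd (nat_lit 282) (nat_lit 924) (nat_lit 0) (XT.nd (nat_lit 94) (nat_lit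 588) (nat_lit 0) (XT.lf (nat_lit 0) (nat_lit 13494707847) (nat_lit 504) (nat_lit 2034931851) (nat_lit 588) (nat_lit 2077167503) (nat_lit 117) (nat_lit 5) (nat_lit 123) (nat_lit 5) (nat_lit 124) (nat_lit 5) (nat_lit 254) (nat_lit 229) (nat_lit 117)) (XT.nd (nat_lit 94) (nat_lit 0) (nat_lit 0) (XT.lf (nat_lit 0) (nat_lit 606154792) (nat_lit 588) (nat_lit 11784735196) (nat_lit 84) (nat_lit 5555742883) (nat_lit 110) (nat_lit 5) (nat_lit 117) (nat_lit 5) (nat_lit 111) (nat_lit 5) (nat_lit 255) (nat_lit 229) (nat_lit 116)) (XT.lf (nat_lit 0) (nat_lit 3395413975) (nat_lit 588) (nat_lit 1464007314) (nat_lit 84) (nat_lit 13435965900) (nat_lit 110) (nat_lit 5) (nat_lit 117) (nat_lit 5) (nat_lit 111) (nat_lit 5) (nat_lit 256) (nat_lit 229) (nat_lit 115)))) (XT.nd (nat_lit 94) (nat_lit 420) (nat_lit 0) (XT.lf (nat_lit 0) (nat_lit 6409755721) (nat_lit 588) (nat_lit 9268611053) (nat_lit 84) (nat_lit 2973520087)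 (nat_lit 104) (nat_lit 5) (nat_lit 111) (nat_lit 5) (nat_lit 105) (nat_lit 5) (nat_lit 257) (nat_lit 229) (nat_lit 114)) (XT.nd (nat_lit 94) (nat_lit 0) (nat_lit 0) (XT.lf (nat_lit 0) (nat_lit 1591600566) (nat_lit 420) (nat_lit 8018083433) (nat_lit 504) (nat_lit 9408377062) (nat_lit 99) (nat_lit 5) (nat_lit 104) (nat_lit 5) (nat_lit 105) (nat_lit 5) (nat_lit 258) (nat_lit 229) (nat_lit 113)) (XT.lf (nat_lit 0) (nat_lit 13020280508) (nat_lit 504) (nat_lit 6352567655) (nat_lit 84) (nat_lit 20749720) (nat_lit 99) (nat_lit 5) (nat_lit 105) (nat_lit 5) (nat_lit 100) (nat_lit 5) (nat_lit 259) (nat_lit 229) (nat_lit 112))))) (XT.nd (nat_lit 34874) (nat_lit 0) (nat_lit 7224) (XT.nd (nat_lit 94) (nat_lit 504) (nat_lit 0) (XT.lf (nat_lit 0) (nat_lit 5119420850) (nat_lit 420) (nat_lit 11569746751) (nat_lit 504) (nat_lit 3088248702) (nat_lit 94) (nat_lit 5) (nat_lit 99) (nat_lit 5) (nat_lit 100) (nat_lit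 5) (nat_lit 260) (nat_lit 229) (nat_lit 111)) (XT.nd (nat_lit 94) (nat_lit 420) (nat_lit 0) (XT.lf (nat_lit 0) (nat_lit 370057111) (nat_lit 504) (nat_lit 3044112648) (nat_lit 84) (nat_lit 16758090483) (nat_lit 93) (nat_lit 5) (nat_lit 99) (nat_lit 5) (nat_lit 94) (nat_lit 5) (nat_lit 261) (nat_lit 229) (nat_lit 110)) (XT.lf (nat_lit 0) (nat_lit 4026139768) (nat_lit 504) (nat_lit 11499014935) (nat_lit 84) (nat_lit 5049300146) (nat_lit 88) (nat_lit 5) (nat_lit 94) (nat_lit 5) (nat_lit 89) (nat_lit 5) (nat_lit 262) (nat_lit 229) (nat_lit 109)))) (XT.nd (nat_lit 94) (nat_lit 0) (nat_lit 0) (XT.lf (nat_lit 0) (nat_lit 1686029348) (nat_lit 0) (nat_lit 1686029348) (nat_lit 1092) (nat_lit 2493310760) (nat_lit 174) (nat_lit 5) (nat_lit 174) (nat_lit 3) (nat_lit 187) (nat_lit 3) (nat_lit 230) (nat_lit 230) (nat_lit 140)) (XT.nd (nat_lit 94) (nat_lit 0) (nat_lit 0) (XT.lf (nat_lit 0) (nat_lit 7382118867)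 (nat_lit 1092) (nat_lit 2510667322) (nat_lit 1176) (nat_lit 2025041372) (nat_lit 174) (nat_lit 5) (nat_lit 187) (nat_lit 3) (nat_lit 188) (nat_lit 5) (nat_lit 231) (nat_lit 230) (nat_lit 139)) (XT.lf (nat_lit 84) (nat_lit 3571949501) (nat_lit 0) (nat_lit 4526779268) (nat_lit 1176) (nat_lit 4010765804) (nat_lit 175) (nat_lit 5) (nat_lit 174) (nat_lit 5) (nat_lit 188) (nat_lit 5) (nat_lit 232) (nat_lit 230) (nat_lit 138))))))) (XT.nd (nat_lit 1034) (nat_lit 3864) (nat_lit 0) (XT.nd (nat_lit 470) (nat_lit 1008) (nat_lit 0) (XT.nd (nat_lit 188) (nat_lit 0) (nat_lit 0) (XT.nd (nat_lit 94) (nat_lit 0) (nat_lit 0) (XT.lf (nat_lit 0) (nat_lit 8860154428) (nat_lit 1092) (nat_lit 2403786209) (nat_lit 1176) (nat_lit 1043238588) (nat_lit 175) (nat_lit 5) (nat_lit 188) (nat_lit 5) (nat_lit 189) (nat_lit 5) (nat_lit 233) (nat_lit 230) (nat_lit 137)) (XT.lf (nat_lit 84) (nat_lit 3969991161) (nat_lit 0) (nat_lit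 5753733742) (nat_lit 1176) (nat_lit 2785415615) (nat_lit 176) (nat_lit 5) (nat_lit 175) (nat_lit 5) (nat_lit 189) (nat_lit 5) (nat_lit 234) (nat_lit 230) (nat_lit 136))) (XT.nd (nat_lit 94) (nat_lit 0) (nat_lit 84) (XT.lf (nat_lit 84) (nat_lit 10612237164) (nat_lit 0) (nat_lit 13275151) (nat_lit 1176) (nat_lit 2092378421) (nat_lit 176) (nat_lit 5) (nat_lit 175) (nat_lit 5) (nat_lit 189) (nat_lit 5) (nat_lit 235) (nat_lit 230) (nat_lit 135)) (XT.nd (nat_lit 94) (nat_lit 0) (nat_lit 0) (XT.lf (nat_lit 84) (nat_lit 4578074877) (nat_lit 0) (nat_lit 7078252292) (nat_lit 1176) (nat_lit 1274208773) (nat_lit 177) (nat_lit 5) (nat_lit 176) (nat_lit 5) (nat_lit 190) (nat_lit 5) (nat_lit 236) (nat_lit 230) (nat_lit 134)) (XT.lf (nat_lit 84) (nat_lit 11533591107) (nat_lit 0) (nat_lit 1195553195) (nat_lit 1176) (nat_lit 421272097) (nat_lit 177) (nat_lit 5) (nat_lit 176) (nat_lit 5) (nat_lit 190) (nat_lit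 5) (nat_lit 237) (nat_lit 230) (nat_lit 133))))) (XT.nd (nat_lit 282) (nat_lit 0) (nat_lit 84) (XT.nd (nat_lit 94) (nat_lit 0) (nat_lit 0) (XT.lf (nat_lit 0) (nat_lit 548603083) (nat_lit 1176) (nat_lit 7971006936) (nat_lit 1260) (nat_lit 4854788411) (nat_lit 163) (nat_lit 5) (nat_lit 177) (nat_lit 5) (nat_lit 178) (nat_lit 5) (nat_lit 238) (nat_lit 230) (nat_lit 132)) (XT.nd (nat_lit 94) (nat_lit 0) (nat_lit 84) (XT.lf (nat_lit 0) (nat_lit 1557537678) (nat_lit 1176) (nat_lit 929389808) (nat_lit 1260) (nat_lit 11118597306) (nat_lit 163) (nat_lit 5) (nat_lit 177) (nat_lit 5) (nat_lit 178) (nat_lit 5) (nat_lit 239) (nat_lit 230) (nat_lit 131)) (XT.lf (nat_lit 0) (nat_lit 2699407926) (nat_lit 1176) (nat_lit 7392322697) (nat_lit 1260) (nat_lit 3749593150) (nat_lit 164) (nat_lit 5) (nat_lit 178) (nat_lit 5) (nat_lit 179) (nat_lit 5) (nat_lit 240) (nat_lit 230) (nat_lit 130)))) (XT.nd (nat_lit 94)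 (nat_lit 0) (nat_lit 84) (XT.lf (nat_lit 0) (nat_lit 3904044053) (nat_lit 1176) (nat_lit 19015411) (nat_lit 1260) (nat_lit 10161518241) (nat_lit 164) (nat_lit 5) (nat_lit 178) (nat_lit 5) (nat_lit 179) (nat_lit 5) (nat_lit 241) (nat_lit 230) (nat_lit 129)) (XT.nd (nat_lit 94) (nat_lit 0) (nat_lit 0) (XT.lf (nat_lit 0) (nat_lit 5249551699) (nat_lit 1176) (nat_lit 6586406694) (nat_lit 1260) (nat_lit 2496932307) (nat_lit 165) (nat_lit 5) (nat_lit 179) (nat_lit 5) (nat_lit 180) (nat_lit 5) (nat_lit 242) (nat_lit 230) (nat_lit 128)) (XT.lf (nat_lit 84) (nat_lit 1162278849) (nat_lit 0) (nat_lit 5522345851) (nat_lit 1260) (nat_lit 7903783409) (nat_lit 166) (nat_lit 5) (nat_lit 165) (nat_lit 5) (nat_lit 180) (nat_lit 5) (nat_lit 243) (nat_lit 230) (nat_lit 127)))))) (XT.nd (nat_lit 564) (nat_lit 1596) (nat_lit 0) (XT.nd (nat_lit 282) (nat_lit 1344) (nat_lit 0) (XT.nd (nat_lit 94) (nat_lit 1176) (nat_lit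 0) (XT.lf (nat_lit 0) (nat_lit 8244293874) (nat_lit 1176) (nat_lit 5535599038) (nat_lit 84) (nat_lit 1070372814) (nat_lit 166) (nat_lit 5) (nat_lit 180) (nat_lit 5) (nat_lit 167) (nat_lit 5) (nat_lit 244) (nat_lit 230) (nat_lit 126)) (XT.nd (nat_lit 94) (nat_lit 0) (nat_lit 0) (XT.lf (nat_lit 0) (nat_lit 2613536154) (nat_lit 1176) (nat_lit 7322821414) (nat_lit 1260) (nat_lit 5182207579) (nat_lit 152) (nat_lit 5) (nat_lit 166) (nat_lit 5) (nat_lit 167) (nat_lit 5) (nat_lit 245) (nat_lit 230) (nat_lit 125)) (XT.lf (nat_lit 0) (nat_lit 11167824305) (nat_lit 1176) (nat_lit 570501228) (nat_lit 1260) (nat_lit 3656155642) (nat_lit 152) (nat_lit 5) (nat_lit 166) (nat_lit 5) (nat_lit 167) (nat_lit 5) (nat_lit 246) (nat_lit 230) (nat_lit 124)))) (XT.nd (nat_lit 94) (nat_lit 672) (nat_lit 0) (XT.lf (nat_lit 0) (nat_lit 4355644504) (nat_lit 672) (nat_lit 9353637558) (nat_lit 756) (nat_lit 1967065014)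 (nat_lit 144) (nat_lit 5) (nat_lit 152) (nat_lit 5) (nat_lit 153) (nat_lit 5) (nat_lit 247) (nat_lit 230) (nat_lit 123)) (XT.nd (nat_lit 94) (nat_lit 672) (nat_lit 0) (XT.lf (nat_lit 0) (nat_lit 13320172672) (nat_lit 672) (nat_lit 2471636825) (nat_lit 756) (nat_lit 174778225) (nat_lit 144) (nat_lit 5) (nat_lit 152) (nat_lit 5) (nat_lit 153) (nat_lit 5) (nat_lit 248) (nat_lit 230) (nat_lit 122)) (XT.lf (nat_lit 0) (nat_lit 1753363493) (nat_lit 672) (nat_lit 9871043689) (nat_lit 84) (nat_lit 4638031551) (nat_lit 136) (nat_lit 5) (nat_lit 144) (nat_lit 5) (nat_lit 137) (nat_lit 5) (nat_lit 249) (nat_lit 230) (nat_lit 121))))) (XT.nd (nat_lit 282) (nat_lit 504) (nat_lit 0) (XT.nd (nat_lit 94) (nat_lit 1092) (nat_lit 0) (XT.lf (nat_lit 0) (nat_lit 3791822154) (nat_lit 672) (nat_lit 802465935) (nat_lit 84) (nat_lit 11972643217) (nat_lit 136) (nat_lit 5) (nat_lit 144) (nat_lit 5) (nat_lit 137) (nat_lit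 5) (nat_lit 250) (nat_lit 230) (nat_lit 120)) (XT.nd (nat_lit 94) (nat_lit 504) (nat_lit 0) (XT.lf (nat_lit 0) (nat_lit 6017637776) (nat_lit 672) (nat_lit 8140424130) (nat_lit 84) (nat_lit 2719958831) (nat_lit 129) (nat_lit 5) (nat_lit 137) (nat_lit 5) (nat_lit 130) (nat_lit 5) (nat_lit 251) (nat_lit 230) (nat_lit 119)) (XT.lf (nat_lit 0) (nat_lit 1396787171) (nat_lit 504) (nat_lit 6990270513) (nat_lit 588) (nat_lit 8810641088) (nat_lit 123) (nat_lit 5) (nat_lit 129) (nat_lit 5) (nat_lit 130) (nat_lit 5) (nat_lit 252) (nat_lit 230) (nat_lit 118)))) (XT.nd (nat_lit 94) (nat_lit 504) (nat_lit 0) (XT.lf (nat_lit 0) (nat_lit 10929190139) (nat_lit 588) (nat_lit 6081039462) (nat_lit 84) (nat_lit 515193538) (nat_lit 123) (nat_lit 5) (nat_lit 130) (nat_lit 5) (nat_lit 124) (nat_lit 5) (nat_lit 253) (nat_lit 230) (nat_lit 117)) (XT.nd (nat_lit 94) (nat_lit 0) (nat_lit 0) (XT.lf (nat_lit 0) (nat_lit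 3975784459) (nat_lit 504) (nat_lit 9697682744) (nat_lit 588) (nat_lit 4187189707) (nat_lit 117) (nat_lit 5) (nat_lit 123) (nat_lit 5) (nat_lit 124) (nat_lit 5) (nat_lit 254) (nat_lit 230) (nat_lit 116)) (XT.lf (nat_lit 0) (nat_lit 14517983780) (nat_lit 504) (nat_lit 2056079273) (nat_lit 588) (nat_lit 1631451391) (nat_lit 117) (nat_lit 5) (nat_lit 123) (nat_lit 5) (nat_lit 124) (nat_lit 5) (nat_lit 255) (nat_lit 230) (nat_lit 115))))))))
noncomputable def xc53 : XT := (XT.nd (nat_lit 36848) (nat_lit 0) (nat_lit 84) (XT.nd (nat_lit 35720) (nat_lit 0) (nat_lit 4956) (XT.nd (nat_lit 470) (nat_lit 504) (nat_lit 0) (XT.nd (nat_lit 188) (nat_lit 924) (nat_lit 0) (XT.nd (nat_lit 94) (nat_lit 0) (nat_lit 0) (XT.lf (nat_lit 0) (nat_lit 1123772252) (nat_lit 588) (nat_lit 11624224838) (nat_lit 84) (nat_lit 5809393861) (nat_lit 110) (nat_lit 5) (nat_lit 117) (nat_lit 5) (nat_lit 111) (nat_lit 5) (nat_lit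 256) (nat_lit 230) (nat_lit 114)) (XT.lf (nat_lit 0) (nat_lit 3993868964) (nat_lit 588) (nat_lit 961647483) (nat_lit 84) (nat_lit 13963422752) (nat_lit 110) (nat_lit 5) (nat_lit 117) (nat_lit 5) (nat_lit 111) (nat_lit 5) (nat_lit 257) (nat_lit 230) (nat_lit 113))) (XT.nd (nat_lit 94) (nat_lit 420) (nat_lit 0) (XT.lf (nat_lit 0) (nat_lit 7104458555) (nat_lit 588) (nat_lit 9030158238) (nat_lit 84) (nat_lit 3153623461) (nat_lit 104) (nat_lit 5) (nat_lit 111) (nat_lit 5) (nat_lit 105) (nat_lit 5) (nat_lit 258) (nat_lit 230) (nat_lit 112)) (XT.nd (nat_lit 94) (nat_lit 0) (nat_lit 0) (XT.lf (nat_lit 0) (nat_lit 2203743884) (nat_lit 420) (nat_lit 8202934406) (nat_lit 504) (nat_lit 9260891971) (nat_lit 99) (nat_lit 5) (nat_lit 104) (nat_lit 5) (nat_lit 105) (nat_lit 5) (nat_lit 259) (nat_lit 230) (nat_lit 111)) (XT.lf (nat_lit 0) (nat_lit 13922099087) (nat_lit 504) (nat_lit 6022740355) (nat_lit 84)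 (nat_lit 111920560) (nat_lit 99) (nat_lit 5) (nat_lit 105) (nat_lit 5) (nat_lit 100) (nat_lit 5) (nat_lit 260) (nat_lit 230) (nat_lit 110))))) (XT.nd (nat_lit 34968) (nat_lit 0) (nat_lit 6804) (XT.nd (nat_lit 94) (nat_lit 84) (nat_lit 0) (XT.lf (nat_lit 0) (nat_lit 5844472682) (nat_lit 420) (nat_lit 11865920932) (nat_lit 504) (nat_lit 2743933580) (nat_lit 94) (nat_lit 5) (nat_lit 99) (nat_lit 5) (nat_lit 100) (nat_lit 5) (nat_lit 261) (nat_lit 230) (nat_lit 109)) (XT.nd (nat_lit 34780) (nat_lit 0) (nat_lit 6804) (XT.lf (nat_lit 0) (nat_lit 810203214) (nat_lit 504) (nat_lit 2613332889) (nat_lit 84) (nat_lit 17439801454) (nat_lit 93) (nat_lit 5) (nat_lit 99) (nat_lit 5) (nat_lit 94) (nat_lit 5) (nat_lit 262) (nat_lit 230) (nat_lit 108)) (XT.lf (nat_lit 0) (nat_lit 1990718464) (nat_lit 0) (nat_lit 1990718464) (nat_lit 1092) (nat_lit 2072022992) (nat_lit 174) (nat_lit 5) (nat_lit 174) (nat_lit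 3) (nat_lit 187) (nat_lit 3) (nat_lit 231) (nat_lit 231) (nat_lit 138)))) (XT.nd (nat_lit 94) (nat_lit 0) (nat_lit 0) (XT.lf (nat_lit 0) (nat_lit 8584683938) (nat_lit 1092) (nat_lit 2085278964) (nat_lit 1176) (nat_lit 1631941943) (nat_lit 174) (nat_lit 5) (nat_lit 187) (nat_lit 3) (nat_lit 188) (nat_lit 5) (nat_lit 232) (nat_lit 231) (nat_lit 137)) (XT.nd (nat_lit 94) (nat_lit 0) (nat_lit 84) (XT.lf (nat_lit 84) (nat_lit 4204377931) (nat_lit 0) (nat_lit 5095721735) (nat_lit 1176) (nat_lit 3201100179) (nat_lit 175) (nat_lit 5) (nat_lit 174) (nat_lit 5) (nat_lit 188) (nat_lit 5) (nat_lit 233) (nat_lit 231) (nat_lit 136)) (XT.lf (nat_lit 0) (nat_lit 10052715368) (nat_lit 1092) (nat_lit 1962207474) (nat_lit 1176) (nat_lit 692121711) (nat_lit 175) (nat_lit 5) (nat_lit 188) (nat_lit 5) (nat_lit 189) (nat_lit 5) (nat_lit 234) (nat_lit 231) (nat_lit 135)))))) (XT.nd (nat_lit 564) (nat_lit 840) (nat_lit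 0) (XT.nd (nat_lit 282) (nat_lit 1092) (nat_lit 0) (XT.nd (nat_lit 94) (nat_lit 0) (nat_lit 0) (XT.lf (nat_lit 84) (nat_lit 4628658653) (nat_lit 0) (nat_lit 6293801439) (nat_lit 1176) (nat_lit 1994456175) (nat_lit 176) (nat_lit 5) (nat_lit 175) (nat_lit 5) (nat_lit 189) (nat_lit 5) (nat_lit 235) (nat_lit 231) (nat_lit 134)) (XT.nd (nat_lit 94) (nat_lit 0) (nat_lit 84) (XT.lf (nat_lit 84) (nat_lit 11485808268) (nat_lit 0) (nat_lit 340973614) (nat_lit 1176) (nat_lit 1307206848) (nat_lit 176) (nat_lit 5) (nat_lit 175) (nat_lit 5) (nat_lit 189) (nat_lit 5) (nat_lit 236) (nat_lit 231) (nat_lit 133)) (XT.lf (nat_lit 84) (nat_lit 5267027309) (nat_lit 0) (nat_lit 7600969678) (nat_lit 1176) (nat_lit 486978269) (nat_lit 177) (nat_lit 5) (nat_lit 176) (nat_lit 5) (nat_lit 190) (nat_lit 5) (nat_lit 237) (nat_lit 231) (nat_lit 132)))) (XT.nd (nat_lit 94) (nat_lit 0) (nat_lit 84) (XT.lf (nat_lit 0) (nat_lit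 359344829) (nat_lit 1176) (nat_lit 1139492340) (nat_lit 1260) (nat_lit 12084522211) (nat_lit 162) (nat_lit 5) (nat_lit 176) (nat_lit 5) (nat_lit 177) (nat_lit 5) (nat_lit 238) (nat_lit 231) (nat_lit 131)) (XT.nd (nat_lit 94) (nat_lit 0) (nat_lit 0) (XT.lf (nat_lit 0) (nat_lit 1329851865) (nat_lit 1176) (nat_lit 7697501090) (nat_lit 1260) (nat_lit 4788477751) (nat_lit 163) (nat_lit 5) (nat_lit 177) (nat_lit 5) (nat_lit 178) (nat_lit 5) (nat_lit 239) (nat_lit 231) (nat_lit 130)) (XT.lf (nat_lit 0) (nat_lit 2348329443) (nat_lit 1176) (nat_lit 428110635) (nat_lit 1260) (nat_lit 11279508353) (nat_lit 163) (nat_lit 5) (nat_lit 177) (nat_lit 5) (nat_lit 178) (nat_lit 5) (nat_lit 240) (nat_lit 231) (nat_lit 129))))) (XT.nd (nat_lit 282) (nat_lit 1008) (nat_lit 0) (XT.nd (nat_lit 94) (nat_lit 0) (nat_lit 0) (XT.lf (nat_lit 0) (nat_lit 3509034965) (nat_lit 1176) (nat_lit 7096115990) (nat_lit 1260) (nat_lit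 3695588979) (nat_lit 164) (nat_lit 5) (nat_lit 178) (nat_lit 5) (nat_lit 179) (nat_lit 5) (nat_lit 241) (nat_lit 231) (nat_lit 128)) (XT.nd (nat_lit 94) (nat_lit 0) (nat_lit 84) (XT.lf (nat_lit 84) (nat_lit 528473791) (nat_lit 0) (nat_lit 4209064159) (nat_lit 1260) (nat_lit 9815610143) (nat_lit 165) (nat_lit 5) (nat_lit 164) (nat_lit 5) (nat_lit 179) (nat_lit 5) (nat_lit 242) (nat_lit 231) (nat_lit 127)) (XT.lf (nat_lit 0) (nat_lit 6105191812) (nat_lit 1176) (nat_lit 6261700729) (nat_lit 1260) (nat_lit 2444132630) (nat_lit 165) (nat_lit 5) (nat_lit 179) (nat_lit 5) (nat_lit 180) (nat_lit 5) (nat_lit 243) (nat_lit 231) (nat_lit 126)))) (XT.nd (nat_lit 94) (nat_lit 1092) (nat_lit 0) (XT.lf (nat_lit 84) (nat_lit 1751858822) (nat_lit 0) (nat_lit 5822028023) (nat_lit 1260) (nat_lit 7502180038) (nat_lit 166) (nat_lit 5) (nat_lit 165) (nat_lit 5) (nat_lit 180) (nat_lit 5) (nat_lit 244) (nat_lit 231)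 (nat_lit 125)) (XT.nd (nat_lit 94) (nat_lit 1176) (nat_lit 0) (XT.lf (nat_lit 0) (nat_lit 9164839092) (nat_lit 1176) (nat_lit 5175701286) (nat_lit 84) (nat_lit 1007364827) (nat_lit 166) (nat_lit 5) (nat_lit 180) (nat_lit 5) (nat_lit 167) (nat_lit 5) (nat_lit 245) (nat_lit 231) (nat_lit 124)) (XT.lf (nat_lit 0) (nat_lit 3252341739) (nat_lit 1176) (nat_lit 7648509920) (nat_lit 1260) (nat_lit 4725278014) (nat_lit 152) (nat_lit 5) (nat_lit 166) (nat_lit 5) (nat_lit 167) (nat_lit 5) (nat_lit 246) (nat_lit 231) (nat_lit 123))))))) (XT.nd (nat_lit 1128) (nat_lit 1344) (nat_lit 0) (XT.nd (nat_lit 564) (nat_lit 1596) (nat_lit 0) (XT.nd (nat_lit 282) (nat_lit 1176) (nat_lit 0) (XT.nd (nat_lit 94) (nat_lit 756) (nat_lit 0) (XT.lf (nat_lit 0) (nat_lit 12087521169) (nat_lit 1176) (nat_lit 657512014) (nat_lit 1260) (nat_lit 3167399514) (nat_lit 152) (nat_lit 5) (nat_lit 166) (nat_lit 5) (nat_lit 167) (nat_lit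 5) (nat_lit 247) (nat_lit 231) (nat_lit 122)) (XT.nd (nat_lit 94) (nat_lit 84) (nat_lit 0) (XT.lf (nat_lit 0) (nat_lit 5052242192) (nat_lit 672) (nat_lit 9717922189) (nat_lit 756) (nat_lit 1434517831) (nat_lit 144) (nat_lit 5) (nat_lit 152) (nat_lit 5) (nat_lit 153) (nat_lit 5) (nat_lit 248) (nat_lit 231) (nat_lit 121)) (XT.lf (nat_lit 0) (nat_lit 391088600) (nat_lit 756) (nat_lit 2198100038) (nat_lit 84) (nat_lit 13916424316) (nat_lit 143) (nat_lit 5) (nat_lit 152) (nat_lit 5) (nat_lit 144) (nat_lit 5) (nat_lit 249) (nat_lit 231) (nat_lit 120)))) (XT.nd (nat_lit 94) (nat_lit 588) (nat_lit 0) (XT.lf (nat_lit 0) (nat_lit 2369102878) (nat_lit 672) (nat_lit 9664095514) (nat_lit 84) (nat_lit 4779022689) (nat_lit 136) (nat_lit 5) (nat_lit 144) (nat_lit 5) (nat_lit 137) (nat_lit 5) (nat_lit 250) (nat_lit 231) (nat_lit 119)) (XT.nd (nat_lit 94) (nat_lit 588) (nat_lit 0) (XT.lf (nat_lit 0) (nat_lit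 4460160725) (nat_lit 672) (nat_lit 296798906) (nat_lit 84) (nat_lit 12371067404) (nat_lit 136) (nat_lit 5) (nat_lit 144) (nat_lit 5) (nat_lit 137) (nat_lit 5) (nat_lit 251) (nat_lit 231) (nat_lit 118)) (XT.lf (nat_lit 0) (nat_lit 6751693991) (nat_lit 672) (nat_lit 7879399735) (nat_lit 84) (nat_lit 2819337376) (nat_lit 129) (nat_lit 5) (nat_lit 137) (nat_lit 5) (nat_lit 130) (nat_lit 5) (nat_lit 252) (nat_lit 231) (nat_lit 117))))) (XT.nd (nat_lit 282) (nat_lit 588) (nat_lit 0) (XT.nd (nat_lit 94) (nat_lit 504) (nat_lit 0) (XT.lf (nat_lit 0) (nat_lit 1985389899) (nat_lit 504) (nat_lit 7206966451) (nat_lit 588) (nat_lit 8589350572) (nat_lit 123) (nat_lit 5) (nat_lit 129) (nat_lit 5) (nat_lit 130) (nat_lit 5) (nat_lit 253) (nat_lit 231) (nat_lit 116)) (XT.nd (nat_lit 94) (nat_lit 504) (nat_lit 0) (XT.lf (nat_lit 0) (nat_lit 11806458868) (nat_lit 588) (nat_lit 5755407330) (nat_lit 84) (nat_lit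 559630604) (nat_lit 123) (nat_lit 5) (nat_lit 130) (nat_lit 5) (nat_lit 124) (nat_lit 5) (nat_lit 254) (nat_lit 231) (nat_lit 115)) (XT.lf (nat_lit 0) (nat_lit 4647266536) (nat_lit 504) (nat_lit 9988719811) (nat_lit 588) (nat_lit 3832855382) (nat_lit 117) (nat_lit 5) (nat_lit 123) (nat_lit 5) (nat_lit 124) (nat_lit 5) (nat_lit 255) (nat_lit 231) (nat_lit 114)))) (XT.nd (nat_lit 94) (nat_lit 588) (nat_lit 0) (XT.lf (nat_lit 0) (nat_lit 15540441348) (nat_lit 504) (nat_lit 2081296320) (nat_lit 588) (nat_lit 1204604397) (nat_lit 117) (nat_lit 5) (nat_lit 123) (nat_lit 5) (nat_lit 124) (nat_lit 5) (nat_lit 256) (nat_lit 231) (nat_lit 113)) (XT.nd (nat_lit 94) (nat_lit 0) (nat_lit 0) (XT.lf (nat_lit 0) (nat_lit 1626500898) (nat_lit 588) (nat_lit 11496193396) (nat_lit 84) (nat_lit 6067986458) (nat_lit 110) (nat_lit 5) (nat_lit 117) (nat_lit 5) (nat_lit 111) (nat_lit 5) (nat_lit 257) (nat_lit 231)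 (nat_lit 112)) (XT.lf (nat_lit 0) (nat_lit 4581380578) (nat_lit 588) (nat_lit 478513540) (nat_lit 84) (nat_lit 14505537536) (nat_lit 110) (nat_lit 5) (nat_lit 117) (nat_lit 5) (nat_lit 111) (nat_lit 5) (nat_lit 258) (nat_lit 231) (nat_lit 111)))))) (XT.nd (nat_lit 35344) (nat_lit 0) (nat_lit 5712) (XT.nd (nat_lit 282) (nat_lit 420) (nat_lit 0) (XT.nd (nat_lit 94) (nat_lit 420) (nat_lit 0) (XT.lf (nat_lit 0) (nat_lit 7792201989) (nat_lit 588) (nat_lit 8820783355) (nat_lit 84) (nat_lit 3334975260) (nat_lit 104) (nat_lit 5) (nat_lit 111) (nat_lit 5) (nat_lit 105) (nat_lit 5) (nat_lit 259) (nat_lit 231) (nat_lit 110)) (XT.nd (nat_lit 94) (nat_lit 0) (nat_lit 0) (XT.lf (nat_lit 0) (nat_lit 2800315092) (nat_lit 420) (nat_lit 8400623638) (nat_lit 504) (nat_lit 9139945556) (nat_lit 99) (nat_lit 5) (nat_lit 104) (nat_lit 5) (nat_lit 105) (nat_lit 5) (nat_lit 260) (nat_lit 231) (nat_lit 109)) (XT.lf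 (nat_lit 0) (nat_lit 14825819857) (nat_lit 504) (nat_lit 5718082308) (nat_lit 84) (nat_lit 200268782) (nat_lit 99) (nat_lit 5) (nat_lit 105) (nat_lit 5) (nat_lit 100) (nat_lit 5) (nat_lit 261) (nat_lit 231) (nat_lit 108)))) (XT.nd (nat_lit 34874) (nat_lit 0) (nat_lit 6720) (XT.lf (nat_lit 0) (nat_lit 6558606675) (nat_lit 420) (nat_lit 12179693047) (nat_lit 504) (nat_lit 2417647442) (nat_lit 94) (nat_lit 5) (nat_lit 99) (nat_lit 5) (nat_lit 100) (nat_lit 5) (nat_lit 262) (nat_lit 231) (nat_lit 107)) (XT.nd (nat_lit 94) (nat_lit 0) (nat_lit 0) (XT.lf (nat_lit 0) (nat_lit 2289736735) (nat_lit 0) (nat_lit 2289736735) (nat_lit 1092) (nat_lit 1669803527) (nat_lit 174) (nat_lit 5) (nat_lit 174) (nat_lit 3) (nat_lit 187) (nat_lit 3) (nat_lit 232) (nat_lit 232) (nat_lit 136)) (XT.lf (nat_lit 0) (nat_lit 9766560194) (nat_lit 1092) (nat_lit 1679128424) (nat_lit 1176) (nat_lit 1255933464) (nat_lit 174)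 (nat_lit 5) (nat_lit 187) (nat_lit 3) (nat_lit 188) (nat_lit 5) (nat_lit 233) (nat_lit 232) (nat_lit 135))))) (XT.nd (nat_lit 282) (nat_lit 1008) (nat_lit 0) (XT.nd (nat_lit 94) (nat_lit 0) (nat_lit 84) (XT.lf (nat_lit 84) (nat_lit 4825204007) (nat_lit 0) (nat_lit 5657282986) (nat_lit 1176) (nat_lit 2426263912) (nat_lit 175) (nat_lit 5) (nat_lit 174) (nat_lit 5) (nat_lit 188) (nat_lit 5) (nat_lit 234) (nat_lit 232) (nat_lit 134)) (XT.nd (nat_lit 94) (nat_lit 0) (nat_lit 0) (XT.lf (nat_lit 0) (nat_lit 11228342091) (nat_lit 1092) (nat_lit 1540127657) (nat_lit 1176) (nat_lit 354489007) (nat_lit 175) (nat_lit 5) (nat_lit 188) (nat_lit 5) (nat_lit 189) (nat_lit 5) (nat_lit 235) (nat_lit 232) (nat_lit 133)) (XT.lf (nat_lit 84) (nat_lit 5275823835) (nat_lit 0) (nat_lit 6830252443) (nat_lit 1176) (nat_lit 1234885505) (nat_lit 176) (nat_lit 5) (nat_lit 175) (nat_lit 5) (nat_lit 189) (nat_lit 5) (nat_lit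 236) (nat_lit 232) (nat_lit 132)))) (XT.nd (nat_lit 94) (nat_lit 1092) (nat_lit 0) (XT.lf (nat_lit 84) (nat_lit 12356567237) (nat_lit 0) (nat_lit 658383974) (nat_lit 1176) (nat_lit 551629005) (nat_lit 176) (nat_lit 5) (nat_lit 175) (nat_lit 5) (nat_lit 189) (nat_lit 5) (nat_lit 237) (nat_lit 232) (nat_lit 131)) (XT.nd (nat_lit 94) (nat_lit 0) (nat_lit 0) (XT.lf (nat_lit 0) (nat_lit 266318965) (nat_lit 1176) (nat_lit 7854237599) (nat_lit 1260) (nat_lit 5675477424) (nat_lit 162) (nat_lit 5) (nat_lit 176) (nat_lit 5) (nat_lit 177) (nat_lit 5) (nat_lit 238) (nat_lit 232) (nat_lit 130)) (XT.lf (nat_lit 0) (nat_lit 1105171299) (nat_lit 1176) (nat_lit 685487970) (nat_lit 1260) (nat_lit 12242453960) (nat_lit 162) (nat_lit 5) (nat_lit 176) (nat_lit 5) (nat_lit 177) (nat_lit 5) (nat_lit 239) (nat_lit 232) (nat_lit 129))))))))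
noncomputable def xc54 : XT := (XT.nd (nat_lit 37130) (nat_lit 0) (nat_lit 1512) (XT.nd (nat_lit 1034) (nat_lit 3696) (nat_lit 0) (XT.nd (nat_lit 470) (nat_lit 1680) (nat_lit 0) (XT.nd (nat_lit 188) (nat_lit 0) (nat_lit 84) (XT.nd (nat_lit 94) (nat_lit 0) (nat_lit 0) (XT.lf (nat_lit 0) (nat_lit 2087776339) (nat_lit 1176) (nat_lit 7451157284) (nat_lit 1260) (nat_lit 4735552870) (nat_lit 163) (nat_lit 5) (nat_lit 177) (nat_lit 5) (nat_lit 178) (nat_lit 5) (nat_lit 240) (nat_lit 232) (nat_lit 128)) (XT.lf (nat_lit 84) (nat_lit 56501940) (nat_lit 0) (nat_lit 3061971928) (nat_lit 1260) (nat_lit 11405354407) (nat_lit 164) (nat_lit 5) (nat_lit 163) (nat_lit 5) (nat_lit 178) (nat_lit 5) (nat_lit 241) (nat_lit 232) (nat_lit 127))) (XT.nd (nat_lit 94) (nat_lit 0) (nat_lit 0) (XT.lf (nat_lit 0) (nat_lit 4299449276) (nat_lit 1176) (nat_lit 6826439487) (nat_lit 1260) (nat_lit 3652011135) (nat_lit 164)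 (nat_lit 5) (nat_lit 178) (nat_lit 5) (nat_lit 179) (nat_lit 5) (nat_lit 242) (nat_lit 232) (nat_lit 126)) (XT.nd (nat_lit 94) (nat_lit 0) (nat_lit 84) (XT.lf (nat_lit 84) (nat_lit 1059104936) (nat_lit 0) (nat_lit 4494975428) (nat_lit 1260) (nat_lit 9485652411) (nat_lit 165) (nat_lit 5) (nat_lit 164) (nat_lit 5) (nat_lit 179) (nat_lit 5) (nat_lit 243) (nat_lit 232) (nat_lit 125)) (XT.lf (nat_lit 0) (nat_lit 6946104783) (nat_lit 1176) (nat_lit 5962546923) (nat_lit 1260) (nat_lit 2398806253) (nat_lit 165) (nat_lit 5) (nat_lit 179) (nat_lit 5) (nat_lit 180) (nat_lit 5) (nat_lit 244) (nat_lit 232) (nat_lit 124))))) (XT.nd (nat_lit 282) (nat_lit 756) (nat_lit 0) (XT.nd (nat_lit 94) (nat_lit 1092) (nat_lit 0) (XT.lf (nat_lit 84) (nat_lit 2325578104) (nat_lit 0) (nat_lit 6125124605) (nat_lit 1260) (nat_lit 7131615973) (nat_lit 166) (nat_lit 5) (nat_lit 165) (nat_lit 5) (nat_lit 180) (nat_lit 5) (nat_lit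 245) (nat_lit 232) (nat_lit 123)) (XT.nd (nat_lit 94) (nat_lit 1176) (nat_lit 0) (XT.lf (nat_lit 0) (nat_lit 10075582491) (nat_lit 1176) (nat_lit 4840018496) (nat_lit 84) (nat_lit 948831808) (nat_lit 166) (nat_lit 5) (nat_lit 180) (nat_lit 5) (nat_lit 167) (nat_lit 5) (nat_lit 246) (nat_lit 232) (nat_lit 122)) (XT.lf (nat_lit 0) (nat_lit 3877113810) (nat_lit 1176) (nat_lit 7980983847) (nat_lit 1260) (nat_lit 4294796487) (nat_lit 152) (nat_lit 5) (nat_lit 166) (nat_lit 5) (nat_lit 167) (nat_lit 5) (nat_lit 247) (nat_lit 232) (nat_lit 121)))) (XT.nd (nat_lit 94) (nat_lit 756) (nat_lit 0) (XT.lf (nat_lit 0) (nat_lit 13004246352) (nat_lit 1176) (nat_lit 743110519) (nat_lit 1260) (nat_lit 2702542307) (nat_lit 152) (nat_lit 5) (nat_lit 166) (nat_lit 5) (nat_lit 167) (nat_lit 5) (nat_lit 248) (nat_lit 232) (nat_lit 120)) (XT.nd (nat_lit 94) (nat_lit 84) (nat_lit 0) (XT.lf (nat_lit 0) (nat_lit 5737040639)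 (nat_lit 672) (nat_lit 10092502841) (nat_lit 756) (nat_lit 923317793) (nat_lit 144) (nat_lit 5) (nat_lit 152) (nat_lit 5) (nat_lit 153) (nat_lit 5) (nat_lit 249) (nat_lit 232) (nat_lit 119)) (XT.lf (nat_lit 0) (nat_lit 934900990) (nat_lit 756) (nat_lit 1771942242) (nat_lit 84) (nat_lit 14357911826) (nat_lit 143) (nat_lit 5) (nat_lit 152) (nat_lit 5) (nat_lit 144) (nat_lit 5) (nat_lit 250) (nat_lit 232) (nat_lit 118)))))) (XT.nd (nat_lit 564) (nat_lit 1512) (nat_lit 0) (XT.nd (nat_lit 282) (nat_lit 1008) (nat_lit 0) (XT.nd (nat_lit 94) (nat_lit 588) (nat_lit 0) (XT.lf (nat_lit 0) (nat_lit 2969533357) (nat_lit 672) (nat_lit 9486635150) (nat_lit 84) (nat_lit 4926367395) (nat_lit 136) (nat_lit 5) (nat_lit 144) (nat_lit 5) (nat_lit 137) (nat_lit 5) (nat_lit 251) (nat_lit 232) (nat_lit 117)) (XT.nd (nat_lit 94) (nat_lit 0) (nat_lit 0) (XT.lf (nat_lit 0) (nat_lit 195510645) (nat_lit 588) (nat_lit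 4922945590) (nat_lit 672) (nat_lit 12591475098) (nat_lit 129) (nat_lit 5) (nat_lit 136) (nat_lit 5) (nat_lit 137) (nat_lit 5) (nat_lit 252) (nat_lit 232) (nat_lit 116)) (XT.lf (nat_lit 0) (nat_lit 7476639087) (nat_lit 672) (nat_lit 7645538603) (nat_lit 84) (nat_lit 2921916247) (nat_lit 129) (nat_lit 5) (nat_lit 137) (nat_lit 5) (nat_lit 130) (nat_lit 5) (nat_lit 253) (nat_lit 232) (nat_lit 115)))) (XT.nd (nat_lit 94) (nat_lit 504) (nat_lit 0) (XT.lf (nat_lit 0) (nat_lit 2558708439) (nat_lit 504) (nat_lit 7433106022) (nat_lit 588) (nat_lit 8395531806) (nat_lit 123) (nat_lit 5) (nat_lit 129) (nat_lit 5) (nat_lit 130) (nat_lit 5) (nat_lit 254) (nat_lit 232) (nat_lit 114)) (XT.nd (nat_lit 94) (nat_lit 504) (nat_lit 0) (XT.lf (nat_lit 0) (nat_lit 12681536615) (nat_lit 588) (nat_lit 5454180468) (nat_lit 84) (nat_lit 603867297) (nat_lit 123) (nat_lit 5) (nat_lit 130) (nat_lit 5) (nat_lit 124) (nat_lit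 5) (nat_lit 255) (nat_lit 232) (nat_lit 113)) (XT.lf (nat_lit 0) (nat_lit 5306856262) (nat_lit 504) (nat_lit 10293160050) (nat_lit 588) (nat_lit 3499422912) (nat_lit 117) (nat_lit 5) (nat_lit 123) (nat_lit 5) (nat_lit 124) (nat_lit 5) (nat_lit 256) (nat_lit 232) (nat_lit 112))))) (XT.nd (nat_lit 282) (nat_lit 924) (nat_lit 0) (XT.nd (nat_lit 94) (nat_lit 588) (nat_lit 0) (XT.lf (nat_lit 0) (nat_lit 16564487614) (nat_lit 504) (nat_lit 2110504054) (nat_lit 588) (nat_lit 794995109) (nat_lit 117) (nat_lit 5) (nat_lit 123) (nat_lit 5) (nat_lit 124) (nat_lit 5) (nat_lit 257) (nat_lit 232) (nat_lit 111)) (XT.nd (nat_lit 94) (nat_lit 0) (nat_lit 0) (XT.lf (nat_lit 0) (nat_lit 2116014131) (nat_lit 588) (nat_lit 11399244604) (nat_lit 84) (nat_lit 6331955344) (nat_lit 110) (nat_lit 5) (nat_lit 117) (nat_lit 5) (nat_lit 111) (nat_lit 5) (nat_lit 258) (nat_lit 232) (nat_lit 110)) (XT.lf (nat_lit 0) (nat_lit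 5159686097) (nat_lit 588) (nat_lit 12831021) (nat_lit 84) (nat_lit 15063076142) (nat_lit 110) (nat_lit 5) (nat_lit 117) (nat_lit 5) (nat_lit 111) (nat_lit 5) (nat_lit 259) (nat_lit 232) (nat_lit 109)))) (XT.nd (nat_lit 94) (nat_lit 420) (nat_lit 0) (XT.lf (nat_lit 0) (nat_lit 8474821831) (nat_lit 588) (nat_lit 8639015852) (nat_lit 84) (nat_lit 3517955295) (nat_lit 104) (nat_lit 5) (nat_lit 111) (nat_lit 5) (nat_lit 105) (nat_lit 5) (nat_lit 260) (nat_lit 232) (nat_lit 108)) (XT.nd (nat_lit 35062) (nat_lit 0) (nat_lit 6300) (XT.lf (nat_lit 0) (nat_lit 3383229079) (nat_lit 420) (nat_lit 8611177032) (nat_lit 504) (nat_lit 9044358917) (nat_lit 99) (nat_lit 5) (nat_lit 104) (nat_lit 5) (nat_lit 105) (nat_lit 5) (nat_lit 261) (nat_lit 232) (nat_lit 107)) (XT.lf (nat_lit 0) (nat_lit 2583971782) (nat_lit 0) (nat_lit 2583971782) (nat_lit 1092) (nat_lit 1285071530) (nat_lit 174) (nat_lit 5) (nat_lit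 174) (nat_lit 3) (nat_lit 187) (nat_lit 3) (nat_lit 233) (nat_lit 233) (nat_lit 134))))))) (XT.nd (nat_lit 1128) (nat_lit 3696) (nat_lit 0) (XT.nd (nat_lit 564) (nat_lit 0) (nat_lit 84) (XT.nd (nat_lit 282) (nat_lit 1092) (nat_lit 0) (XT.nd (nat_lit 94) (nat_lit 0) (nat_lit 0) (XT.lf (nat_lit 0) (nat_lit 10931197632) (nat_lit 1092) (nat_lit 1290619987) (nat_lit 1176) (nat_lit 895562963) (nat_lit 174) (nat_lit 5) (nat_lit 187) (nat_lit 3) (nat_lit 188) (nat_lit 5) (nat_lit 234) (nat_lit 233) (nat_lit 133)) (XT.nd (nat_lit 94) (nat_lit 0) (nat_lit 84) (XT.lf (nat_lit 84) (nat_lit 5436264819) (nat_lit 0) (nat_lit 6213019450) (nat_lit 1176) (nat_lit 1683276059) (nat_lit 175) (nat_lit 5) (nat_lit 174) (nat_lit 5) (nat_lit 188) (nat_lit 5) (nat_lit 235) (nat_lit 233) (nat_lit 132)) (XT.lf (nat_lit 0) (nat_lit 12390343082) (nat_lit 1092) (nat_lit 1135905140) (nat_lit 1176) (nat_lit 29098773) (nat_lit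 175) (nat_lit 5) (nat_lit 188) (nat_lit 5) (nat_lit 189) (nat_lit 5) (nat_lit 236) (nat_lit 233) (nat_lit 131)))) (XT.nd (nat_lit 94) (nat_lit 1176) (nat_lit 0) (XT.lf (nat_lit 84) (nat_lit 5913381708) (nat_lit 0) (nat_lit 7364457447) (nat_lit 1176) (nat_lit 503874534) (nat_lit 176) (nat_lit 5) (nat_lit 175) (nat_lit 5) (nat_lit 189) (nat_lit 5) (nat_lit 237) (nat_lit 233) (nat_lit 130)) (XT.nd (nat_lit 94) (nat_lit 0) (nat_lit 84) (XT.lf (nat_lit 0) (nat_lit 173098250) (nat_lit 1176) (nat_lit 791452040) (nat_lit 1260) (nat_lit 13051494781) (nat_lit 161) (nat_lit 5) (nat_lit 175) (nat_lit 5) (nat_lit 176) (nat_lit 5) (nat_lit 238) (nat_lit 233) (nat_lit 129)) (XT.lf (nat_lit 0) (nat_lit 984093656) (nat_lit 1176) (nat_lit 7651950793) (nat_lit 1260) (nat_lit 5618054855) (nat_lit 162) (nat_lit 5) (nat_lit 176) (nat_lit 5) (nat_lit 177) (nat_lit 5) (nat_lit 239) (nat_lit 233) (nat_lit 128)))))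 (XT.nd (nat_lit 282) (nat_lit 0) (nat_lit 168) (XT.nd (nat_lit 94) (nat_lit 0) (nat_lit 84) (XT.lf (nat_lit 0) (nat_lit 1828348456) (nat_lit 1176) (nat_lit 248431621) (nat_lit 1260) (nat_lit 12423534749) (nat_lit 162) (nat_lit 5) (nat_lit 176) (nat_lit 5) (nat_lit 177) (nat_lit 5) (nat_lit 240) (nat_lit 233) (nat_lit 127)) (XT.nd (nat_lit 94) (nat_lit 0) (nat_lit 0) (XT.lf (nat_lit 0) (nat_lit 2824929035) (nat_lit 1176) (nat_lit 7230483723) (nat_lit 1260) (nat_lit 4695437944) (nat_lit 163) (nat_lit 5) (nat_lit 177) (nat_lit 5) (nat_lit 178) (nat_lit 5) (nat_lit 241) (nat_lit 233) (nat_lit 126)) (XT.lf (nat_lit 84) (nat_lit 534454570) (nat_lit 0) (nat_lit 3340092963) (nat_lit 1260) (nat_lit 11134972284) (nat_lit 164) (nat_lit 5) (nat_lit 163) (nat_lit 5) (nat_lit 178) (nat_lit 5) (nat_lit 242) (nat_lit 233) (nat_lit 125)))) (XT.nd (nat_lit 94) (nat_lit 0) (nat_lit 0) (XT.lf (nat_lit 0) (nat_lit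 5073139959) (nat_lit 1176) (nat_lit 6581768461) (nat_lit 1260) (nat_lit 3618405627) (nat_lit 164) (nat_lit 5) (nat_lit 178) (nat_lit 5) (nat_lit 179) (nat_lit 5) (nat_lit 243) (nat_lit 233) (nat_lit 124)) (XT.nd (nat_lit 94) (nat_lit 0) (nat_lit 84) (XT.lf (nat_lit 84) (nat_lit 1574256703) (nat_lit 0) (nat_lit 4781678573) (nat_lit 1260) (nat_lit 9188926973) (nat_lit 165) (nat_lit 5) (nat_lit 164) (nat_lit 5) (nat_lit 179) (nat_lit 5) (nat_lit 244) (nat_lit 233) (nat_lit 123)) (XT.lf (nat_lit 0) (nat_lit 7774745541) (nat_lit 1176) (nat_lit 5687385024) (nat_lit 1260) (nat_lit 2360594975) (nat_lit 165) (nat_lit 5) (nat_lit 179) (nat_lit 5) (nat_lit 180) (nat_lit 5) (nat_lit 245) (nat_lit 233) (nat_lit 122)))))) (XT.nd (nat_lit 564) (nat_lit 2184) (nat_lit 0) (XT.nd (nat_lit 282) (nat_lit 756) (nat_lit 0) (XT.nd (nat_lit 94) (nat_lit 1092) (nat_lit 0) (XT.lf (nat_lit 84) (nat_lit 2885308162) (nat_lit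 0) (nat_lit 6432225477) (nat_lit 1260) (nat_lit 6790179224) (nat_lit 166) (nat_lit 5) (nat_lit 165) (nat_lit 5) (nat_lit 180) (nat_lit 5) (nat_lit 246) (nat_lit 233) (nat_lit 121)) (XT.nd (nat_lit 94) (nat_lit 1176) (nat_lit 0) (XT.lf (nat_lit 0) (nat_lit 10978974950) (nat_lit 1176) (nat_lit 4526950628) (nat_lit 84) (nat_lit 894486218) (nat_lit 166) (nat_lit 5) (nat_lit 180) (nat_lit 5) (nat_lit 167) (nat_lit 5) (nat_lit 247) (nat_lit 233) (nat_lit 120)) (XT.lf (nat_lit 0) (nat_lit 4489780853) (nat_lit 1176) (nat_lit 8320787446) (nat_lit 1260) (nat_lit 3888866838) (nat_lit 152) (nat_lit 5) (nat_lit 166) (nat_lit 5) (nat_lit 167) (nat_lit 5) (nat_lit 248) (nat_lit 233) (nat_lit 119)))) (XT.nd (nat_lit 94) (nat_lit 756) (nat_lit 0) (XT.lf (nat_lit 0) (nat_lit 13920233680) (nat_lit 1176) (nat_lit 827543700) (nat_lit 1260) (nat_lit 2259694064) (nat_lit 152) (nat_lit 5) (nat_lit 166) (nat_lit 5)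 (nat_lit 167) (nat_lit 5) (nat_lit 249) (nat_lit 233) (nat_lit 118)) (XT.nd (nat_lit 94) (nat_lit 84) (nat_lit 0) (XT.lf (nat_lit 0) (nat_lit 6412032464) (nat_lit 672) (nat_lit 10477903034) (nat_lit 756) (nat_lit 431553390) (nat_lit 144) (nat_lit 5) (nat_lit 152) (nat_lit 5) (nat_lit 153) (nat_lit 5) (nat_lit 250) (nat_lit 233) (nat_lit 117)) (XT.lf (nat_lit 0) (nat_lit 1462499221) (nat_lit 756) (nat_lit 1364319110) (nat_lit 84) (nat_lit 14817882469) (nat_lit 143) (nat_lit 5) (nat_lit 152) (nat_lit 5) (nat_lit 144) (nat_lit 5) (nat_lit 251) (nat_lit 233) (nat_lit 116))))) (XT.nd (nat_lit 282) (nat_lit 1008) (nat_lit 0) (XT.nd (nat_lit 94) (nat_lit 588) (nat_lit 0) (XT.lf (nat_lit 0) (nat_lit 3556569902) (nat_lit 672) (nat_lit 9337252451) (nat_lit 84) (nat_lit 5080193706) (nat_lit 136) (nat_lit 5) (nat_lit 144) (nat_lit 5) (nat_lit 137) (nat_lit 5) (nat_lit 252) (nat_lit 233) (nat_lit 115))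 (XT.nd (nat_lit 94) (nat_lit 0) (nat_lit 0) (XT.lf (nat_lit 0) (nat_lit 678280003) (nat_lit 588) (nat_lit 5091391110) (nat_lit 672) (nat_lit 12543585406) (nat_lit 129) (nat_lit 5) (nat_lit 136) (nat_lit 5) (nat_lit 137) (nat_lit 5) (nat_lit 253) (nat_lit 233) (nat_lit 114)) (XT.lf (nat_lit 0) (nat_lit 8194468209) (nat_lit 672) (nat_lit 7437377947) (nat_lit 84) (nat_lit 3027825933) (nat_lit 129) (nat_lit 5) (nat_lit 137) (nat_lit 5) (nat_lit 130) (nat_lit 5) (nat_lit 254) (nat_lit 233) (nat_lit 113)))) (XT.nd (nat_lit 94) (nat_lit 504) (nat_lit 0) (XT.lf (nat_lit 0) (nat_lit 3118593830) (nat_lit 504) (nat_lit 7668896133) (nat_lit 588) (nat_lit 8227804753) (nat_lit 123) (nat_lit 5) (nat_lit 129) (nat_lit 5) (nat_lit 130) (nat_lit 5) (nat_lit 255) (nat_lit 233) (nat_lit 112)) (XT.nd (nat_lit 94) (nat_lit 504) (nat_lit 0) (XT.lf (nat_lit 0) (nat_lit 13556533888) (nat_lit 588) (nat_lit 5175832584)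 (nat_lit 84) (nat_lit 648013339) (nat_lit 123) (nat_lit 5) (nat_lit 130) (nat_lit 5) (nat_lit 124) (nat_lit 5) (nat_lit 256) (nat_lit 233) (nat_lit 111)) (XT.lf (nat_lit 0) (nat_lit 5956490742) (nat_lit 504) (nat_lit 10611258684) (nat_lit 588) (nat_lit 3185409532) (nat_lit 117) (nat_lit 5) (nat_lit 123) (nat_lit 5) (nat_lit 124) (nat_lit 5) (nat_lit 257) (nat_lit 233) (nat_lit 110))))))))
noncomputable def xc55 : XT := (XT.nd (nat_lit 37224) (nat_lit 0) (nat_lit 0) (XT.nd (nat_lit 36096) (nat_lit 0) (nat_lit 3276) (XT.nd (nat_lit 35532) (nat_lit 0) (nat_lit 4788) (XT.nd (nat_lit 188) (nat_lit 504) (nat_lit 0) (XT.nd (nat_lit 94) (nat_lit 588) (nat_lit 0) (XT.lf (nat_lit 0) (nat_lit 17592451938) (nat_lit 504) (nat_lit 2143635494) (nat_lit 588) (nat_lit 401087395) (nat_lit 117) (nat_lit 5) (nat_lit 123) (nat_lit 5) (nat_lit 124) (nat_lit 5) (nat_lit 258) (nat_lit 233) (nat_lit 109)) (XT.lf (nat_lit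 0) (nat_lit 2593898006) (nat_lit 588) (nat_lit 11332101747) (nat_lit 84) (nat_lit 6601733001) (nat_lit 110) (nat_lit 5) (nat_lit 117) (nat_lit 5) (nat_lit 111) (nat_lit 5) (nat_lit 259) (nat_lit 233) (nat_lit 108))) (XT.nd (nat_lit 94) (nat_lit 0) (nat_lit 0) (XT.lf (nat_lit 0) (nat_lit 447214177) (nat_lit 504) (nat_lit 5288211378) (nat_lit 588) (nat_lit 15194583203) (nat_lit 104) (nat_lit 5) (nat_lit 110) (nat_lit 5) (nat_lit 111) (nat_lit 5) (nat_lit 260) (nat_lit 233) (nat_lit 107)) (XT.nd (nat_lit 35156) (nat_lit 0) (nat_lit 5880) (XT.lf (nat_lit 0) (nat_lit 9154079883) (nat_lit 588) (nat_lit 8483499150) (nat_lit 84) (nat_lit 3702934323) (nat_lit 104) (nat_lit 5) (nat_lit 111) (nat_lit 5) (nat_lit 105) (nat_lit 5) (nat_lit 261) (nat_lit 233) (nat_lit 106)) (XT.lf (nat_lit 0) (nat_lit 2874270079) (nat_lit 0) (nat_lit 2874270079) (nat_lit 1092) (nat_lit 916340316) (nat_lit 174) (nat_lit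 5) (nat_lit 174) (nat_lit 3) (nat_lit 187) (nat_lit 3) (nat_lit 234) (nat_lit 234) (nat_lit 132))))) (XT.nd (nat_lit 282) (nat_lit 1092) (nat_lit 0) (XT.nd (nat_lit 94) (nat_lit 0) (nat_lit 0) (XT.lf (nat_lit 0) (nat_lit 12081889463) (nat_lit 1092) (nat_lit 918252951) (nat_lit 1176) (nat_lit 549462992) (nat_lit 174) (nat_lit 5) (nat_lit 187) (nat_lit 3) (nat_lit 188) (nat_lit 5) (nat_lit 235) (nat_lit 234) (nat_lit 131)) (XT.nd (nat_lit 94) (nat_lit 0) (nat_lit 0) (XT.lf (nat_lit 84) (nat_lit 6039312610) (nat_lit 0) (nat_lit 6764421370) (nat_lit 1176) (nat_lit 969330593) (nat_lit 175) (nat_lit 5) (nat_lit 174) (nat_lit 5) (nat_lit 188) (nat_lit 5) (nat_lit 236) (nat_lit 234) (nat_lit 130)) (XT.lf (nat_lit 84) (nat_lit 13253297523) (nat_lit 0) (nat_lit 291837410) (nat_lit 1176) (nat_lit 459409663) (nat_lit 175) (nat_lit 5) (nat_lit 174) (nat_lit 5) (nat_lit 188) (nat_lit 5) (nat_lit 237) (nat_lit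 234) (nat_lit 129)))) (XT.nd (nat_lit 94) (nat_lit 0) (nat_lit 0) (XT.lf (nat_lit 0) (nat_lit 196680624) (nat_lit 1176) (nat_lit 7698734171) (nat_lit 1260) (nat_lit 6344139442) (nat_lit 161) (nat_lit 5) (nat_lit 175) (nat_lit 5) (nat_lit 176) (nat_lit 5) (nat_lit 238) (nat_lit 234) (nat_lit 128)) (XT.nd (nat_lit 94) (nat_lit 0) (nat_lit 84) (XT.lf (nat_lit 0) (nat_lit 861635823) (nat_lit 1176) (nat_lit 394825629) (nat_lit 1260) (nat_lit 13226258427) (nat_lit 161) (nat_lit 5) (nat_lit 175) (nat_lit 5) (nat_lit 176) (nat_lit 5) (nat_lit 239) (nat_lit 234) (nat_lit 127)) (XT.lf (nat_lit 0) (nat_lit 1679885883) (nat_lit 1176) (nat_lit 7474311652) (nat_lit 1260) (nat_lit 5575648031) (nat_lit 162) (nat_lit 5) (nat_lit 176) (nat_lit 5) (nat_lit 177) (nat_lit 5) (nat_lit 240) (nat_lit 234) (nat_lit 126)))))) (XT.nd (nat_lit 564) (nat_lit 1596) (nat_lit 0) (XT.nd (nat_lit 282) (nat_lit 0) (nat_lit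 168) (XT.nd (nat_lit 94) (nat_lit 0) (nat_lit 84) (XT.lf (nat_lit 84) (nat_lit 177286760) (nat_lit 0) (nat_lit 2356013738) (nat_lit 1260) (nat_lit 12452091752) (nat_lit 163) (nat_lit 5) (nat_lit 162) (nat_lit 5) (nat_lit 177) (nat_lit 5) (nat_lit 241) (nat_lit 234) (nat_lit 125)) (XT.nd (nat_lit 94) (nat_lit 0) (nat_lit 0) (XT.lf (nat_lit 0) (nat_lit 3543727826) (nat_lit 1176) (nat_lit 7034098796) (nat_lit 1260) (nat_lit 4667606436) (nat_lit 163) (nat_lit 5) (nat_lit 177) (nat_lit 5) (nat_lit 178) (nat_lit 5) (nat_lit 242) (nat_lit 234) (nat_lit 124)) (XT.lf (nat_lit 84) (nat_lit 997488293) (nat_lit 0) (nat_lit 3616581755) (nat_lit 1260) (nat_lit 10899645996) (nat_lit 164) (nat_lit 5) (nat_lit 163) (nat_lit 5) (nat_lit 178) (nat_lit 5) (nat_lit 243) (nat_lit 234) (nat_lit 123)))) (XT.nd (nat_lit 94) (nat_lit 0) (nat_lit 0) (XT.lf (nat_lit 0) (nat_lit 5832473022) (nat_lit 1176) (nat_lit 6360687935)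 (nat_lit 1260) (nat_lit 3594357020) (nat_lit 164) (nat_lit 5) (nat_lit 178) (nat_lit 5) (nat_lit 179) (nat_lit 5) (nat_lit 244) (nat_lit 234) (nat_lit 122)) (XT.nd (nat_lit 94) (nat_lit 0) (nat_lit 84) (XT.lf (nat_lit 84) (nat_lit 2075651372) (nat_lit 0) (nat_lit 5069814008) (nat_lit 1260) (nat_lit 8923619515) (nat_lit 165) (nat_lit 5) (nat_lit 164) (nat_lit 5) (nat_lit 179) (nat_lit 5) (nat_lit 245) (nat_lit 234) (nat_lit 121)) (XT.lf (nat_lit 0) (nat_lit 8593457439) (nat_lit 1176) (nat_lit 5434763375) (nat_lit 1260) (nat_lit 2329169266) (nat_lit 165) (nat_lit 5) (nat_lit 179) (nat_lit 5) (nat_lit 180) (nat_lit 5) (nat_lit 246) (nat_lit 234) (nat_lit 120))))) (XT.nd (nat_lit 282) (nat_lit 756) (nat_lit 0) (XT.nd (nat_lit 94) (nat_lit 1092) (nat_lit 0) (XT.lf (nat_lit 84) (nat_lit 3432824624) (nat_lit 0) (nat_lit 6743909892) (nat_lit 1260) (nat_lit 6476090245) (nat_lit 166) (nat_lit 5) (nat_lit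 165) (nat_lit 5) (nat_lit 180) (nat_lit 5) (nat_lit 247) (nat_lit 234) (nat_lit 119)) (XT.nd (nat_lit 94) (nat_lit 1176) (nat_lit 0) (XT.lf (nat_lit 0) (nat_lit 11877367357) (nat_lit 1176) (nat_lit 4235004379) (nat_lit 84) (nat_lit 844059983) (nat_lit 166) (nat_lit 5) (nat_lit 180) (nat_lit 5) (nat_lit 167) (nat_lit 5) (nat_lit 248) (nat_lit 234) (nat_lit 118)) (XT.lf (nat_lit 0) (nat_lit 5092177970) (nat_lit 1176) (nat_lit 8668463618) (nat_lit 1260) (nat_lit 3505714159) (nat_lit 152) (nat_lit 5) (nat_lit 166) (nat_lit 5) (nat_lit 167) (nat_lit 5) (nat_lit 249) (nat_lit 234) (nat_lit 117)))) (XT.nd (nat_lit 94) (nat_lit 756) (nat_lit 0) (XT.lf (nat_lit 0) (nat_lit 14837639721) (nat_lit 1176) (nat_lit 911047451) (nat_lit 1260) (nat_lit 1837079957) (nat_lit 152) (nat_lit 5) (nat_lit 166) (nat_lit 5) (nat_lit 167) (nat_lit 5) (nat_lit 250) (nat_lit 234) (nat_lit 116)) (XT.nd (nat_lit 94) (nat_lit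 0) (nat_lit 0) (XT.lf (nat_lit 0) (nat_lit 41611617) (nat_lit 756) (nat_lit 10832551145) (nat_lit 84) (nat_lit 7037017462) (nat_lit 143) (nat_lit 5) (nat_lit 152) (nat_lit 5) (nat_lit 144) (nat_lit 5) (nat_lit 251) (nat_lit 234) (nat_lit 115)) (XT.lf (nat_lit 0) (nat_lit 1975659385) (nat_lit 756) (nat_lit 973655278) (nat_lit 84) (nat_lit 15296781622) (nat_lit 143) (nat_lit 5) (nat_lit 152) (nat_lit 5) (nat_lit 144) (nat_lit 5) (nat_lit 252) (nat_lit 234) (nat_lit 114))))))) (XT.nd (nat_lit 36284) (nat_lit 0) (nat_lit 4704) (XT.nd (nat_lit 564) (nat_lit 1092) (nat_lit 0) (XT.nd (nat_lit 282) (nat_lit 1008) (nat_lit 0) (XT.nd (nat_lit 94) (nat_lit 588) (nat_lit 0) (XT.lf (nat_lit 0) (nat_lit 4132031553) (nat_lit 672) (nat_lit 9214650300) (nat_lit 84) (nat_lit 5240640408) (nat_lit 136) (nat_lit 5) (nat_lit 144) (nat_lit 5) (nat_lit 137) (nat_lit 5) (nat_lit 253) (nat_lit 234) (nat_lit 113)) (XT.nd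 (nat_lit 94) (nat_lit 0) (nat_lit 0) (XT.lf (nat_lit 0) (nat_lit 1146302270) (nat_lit 588) (nat_lit 5265988710) (nat_lit 672) (nat_lit 12526505670) (nat_lit 129) (nat_lit 5) (nat_lit 136) (nat_lit 5) (nat_lit 137) (nat_lit 5) (nat_lit 254) (nat_lit 234) (nat_lit 112)) (XT.lf (nat_lit 0) (nat_lit 8907092472) (nat_lit 672) (nat_lit 7253564251) (nat_lit 84) (nat_lit 3137200263) (nat_lit 129) (nat_lit 5) (nat_lit 137) (nat_lit 5) (nat_lit 130) (nat_lit 5) (nat_lit 255) (nat_lit 234) (nat_lit 111)))) (XT.nd (nat_lit 94) (nat_lit 504) (nat_lit 0) (XT.lf (nat_lit 0) (nat_lit 3666803259) (nat_lit 504) (nat_lit 7914559148) (nat_lit 588) (nat_lit 8084896765) (nat_lit 123) (nat_lit 5) (nat_lit 129) (nat_lit 5) (nat_lit 130) (nat_lit 5) (nat_lit 256) (nat_lit 234) (nat_lit 110)) (XT.nd (nat_lit 94) (nat_lit 504) (nat_lit 0) (XT.lf (nat_lit 0) (nat_lit 14433489638) (nat_lit 588) (nat_lit 4918942243) (nat_lit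 84) (nat_lit 692174528) (nat_lit 123) (nat_lit 5) (nat_lit 130) (nat_lit 5) (nat_lit 124) (nat_lit 5) (nat_lit 257) (nat_lit 234) (nat_lit 109)) (XT.lf (nat_lit 0) (nat_lit 6598018408) (nat_lit 504) (nat_lit 10943294089) (nat_lit 588) (nat_lit 2889427810) (nat_lit 117) (nat_lit 5) (nat_lit 123) (nat_lit 5) (nat_lit 124) (nat_lit 5) (nat_lit 258) (nat_lit 234) (nat_lit 108))))) (XT.nd (nat_lit 35438) (nat_lit 0) (nat_lit 5880) (XT.nd (nat_lit 94) (nat_lit 1092) (nat_lit 0) (XT.lf (nat_lit 0) (nat_lit 18626594026) (nat_lit 504) (nat_lit 2180635057) (nat_lit 588) (nat_lit 21433613) (nat_lit 117) (nat_lit 5) (nat_lit 123) (nat_lit 5) (nat_lit 124) (nat_lit 5) (nat_lit 259) (nat_lit 234) (nat_lit 107)) (XT.nd (nat_lit 94) (nat_lit 504) (nat_lit 0) (XT.lf (nat_lit 0) (nat_lit 3061657883) (nat_lit 588) (nat_lit 11293600644) (nat_lit 84) (nat_lit 6877750803) (nat_lit 110) (nat_lit 5) (nat_lit 117)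 (nat_lit 5) (nat_lit 111) (nat_lit 5) (nat_lit 260) (nat_lit 234) (nat_lit 106)) (XT.lf (nat_lit 0) (nat_lit 893030633) (nat_lit 504) (nat_lit 5412153320) (nat_lit 588) (nat_lit 15344459464) (nat_lit 104) (nat_lit 5) (nat_lit 110) (nat_lit 5) (nat_lit 111) (nat_lit 5) (nat_lit 261) (nat_lit 234) (nat_lit 105)))) (XT.nd (nat_lit 94) (nat_lit 0) (nat_lit 0) (XT.lf (nat_lit 0) (nat_lit 3161440311) (nat_lit 0) (nat_lit 3161440311) (nat_lit 1092) (nat_lit 562210712) (nat_lit 174) (nat_lit 5) (nat_lit 174) (nat_lit 3) (nat_lit 187) (nat_lit 3) (nat_lit 235) (nat_lit 235) (nat_lit 130)) (XT.nd (nat_lit 94) (nat_lit 0) (nat_lit 0) (XT.lf (nat_lit 0) (nat_lit 13221785083) (nat_lit 1092) (nat_lit 560614926) (nat_lit 1176) (nat_lit 216345554) (nat_lit 174) (nat_lit 5) (nat_lit 187) (nat_lit 3) (nat_lit 188) (nat_lit 5) (nat_lit 236) (nat_lit 235) (nat_lit 129)) (XT.lf (nat_lit 84) (nat_lit 6636021719)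 (nat_lit 0) (nat_lit 7312918505) (nat_lit 1176) (nat_lit 281783964) (nat_lit 175) (nat_lit 5) (nat_lit 174) (nat_lit 5) (nat_lit 188) (nat_lit 5) (nat_lit 237) (nat_lit 235) (nat_lit 128)))))) (XT.nd (nat_lit 564) (nat_lit 0) (nat_lit 252) (XT.nd (nat_lit 282) (nat_lit 0) (nat_lit 168) (XT.nd (nat_lit 94) (nat_lit 0) (nat_lit 84) (XT.lf (nat_lit 0) (nat_lit 216562238) (nat_lit 1176) (nat_lit 384134491) (nat_lit 1260) (nat_lit 13870347911) (nat_lit 160) (nat_lit 5) (nat_lit 174) (nat_lit 5) (nat_lit 175) (nat_lit 5) (nat_lit 238) (nat_lit 235) (nat_lit 127)) (XT.nd (nat_lit 94) (nat_lit 0) (nat_lit 0) (XT.lf (nat_lit 0) (nat_lit 862964576) (nat_lit 1176) (nat_lit 7558211865) (nat_lit 1260) (nat_lit 6293683190) (nat_lit 161) (nat_lit 5) (nat_lit 175) (nat_lit 5) (nat_lit 176) (nat_lit 5) (nat_lit 239) (nat_lit 235) (nat_lit 126)) (XT.lf (nat_lit 0) (nat_lit 1528894651) (nat_lit 1176) (nat_lit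 12530514) (nat_lit 1260) (nat_lit 13425891354) (nat_lit 161) (nat_lit 5) (nat_lit 175) (nat_lit 5) (nat_lit 176) (nat_lit 5) (nat_lit 240) (nat_lit 235) (nat_lit 125)))) (XT.nd (nat_lit 94) (nat_lit 0) (nat_lit 0) (XT.lf (nat_lit 0) (nat_lit 2356058209) (nat_lit 1176) (nat_lit 7320073294) (nat_lit 1260) (nat_lit 5547650487) (nat_lit 162) (nat_lit 5) (nat_lit 176) (nat_lit 5) (nat_lit 177) (nat_lit 5) (nat_lit 241) (nat_lit 235) (nat_lit 124)) (XT.nd (nat_lit 94) (nat_lit 0) (nat_lit 84) (XT.lf (nat_lit 84) (nat_lit 594590225) (nat_lit 0) (nat_lit 2628455172) (nat_lit 1260) (nat_lit 12265797805) (nat_lit 163) (nat_lit 5) (nat_lit 162) (nat_lit 5) (nat_lit 177) (nat_lit 5) (nat_lit 242) (nat_lit 235) (nat_lit 123)) (XT.lf (nat_lit 0) (nat_lit 4246466110) (nat_lit 1176) (nat_lit 6860724135) (nat_lit 1260) (nat_lit 4651578195) (nat_lit 163) (nat_lit 5) (nat_lit 177) (nat_lit 5) (nat_lit 178) (nat_lit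 5) (nat_lit 243) (nat_lit 235) (nat_lit 122))))) (XT.nd (nat_lit 282) (nat_lit 0) (nat_lit 168) (XT.nd (nat_lit 94) (nat_lit 0) (nat_lit 84) (XT.lf (nat_lit 84) (nat_lit 1447185152) (nat_lit 0) (nat_lit 3892136923) (nat_lit 1260) (nat_lit 10697642445) (nat_lit 164) (nat_lit 5) (nat_lit 163) (nat_lit 5) (nat_lit 178) (nat_lit 5) (nat_lit 244) (nat_lit 235) (nat_lit 121)) (XT.nd (nat_lit 94) (nat_lit 0) (nat_lit 0) (XT.lf (nat_lit 0) (nat_lit 6579701052) (nat_lit 1176) (nat_lit 6161885681) (nat_lit 1260) (nat_lit 3579486172) (nat_lit 164) (nat_lit 5) (nat_lit 178) (nat_lit 5) (nat_lit 179) (nat_lit 5) (nat_lit 245) (nat_lit 235) (nat_lit 120)) (XT.lf (nat_lit 84) (nat_lit 2564920967) (nat_lit 0) (nat_lit 5360003826) (nat_lit 1260) (nat_lit 8688050189) (nat_lit 165) (nat_lit 5) (nat_lit 164) (nat_lit 5) (nat_lit 179) (nat_lit 5) (nat_lit 246) (nat_lit 235) (nat_lit 119)))) (XT.nd (nat_lit 94)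 (nat_lit 0) (nat_lit 0) (XT.lf (nat_lit 0) (nat_lit 9404481481) (nat_lit 1176) (nat_lit 5203331863) (nat_lit 1260) (nat_lit 2304226532) (nat_lit 165) (nat_lit 5) (nat_lit 179) (nat_lit 5) (nat_lit 180) (nat_lit 5) (nat_lit 247) (nat_lit 235) (nat_lit 118)) (XT.nd (nat_lit 94) (nat_lit 0) (nat_lit 84) (XT.lf (nat_lit 84) (nat_lit 3969814651) (nat_lit 0) (nat_lit 7060748178) (nat_lit 1260) (nat_lit 6187693307) (nat_lit 166) (nat_lit 5) (nat_lit 165) (nat_lit 5) (nat_lit 180) (nat_lit 5) (nat_lit 248) (nat_lit 235) (nat_lit 117)) (XT.lf (nat_lit 0) (nat_lit 12773019469) (nat_lit 1176) (nat_lit 3962786094) (nat_lit 84) (nat_lit 797303217) (nat_lit 166) (nat_lit 5) (nat_lit 180) (nat_lit 5) (nat_lit 167) (nat_lit 5) (nat_lit 249) (nat_lit 235) (nat_lit 116))))))))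
noncomputable def xc56 : XT := (XT.nd (nat_lit 37412) (nat_lit 0) (nat_lit 0) (XT.nd (nat_lit 1034) (nat_lit 504) (nat_lit 0) (XT.nd (nat_lit 470) (nat_lit 1680) (nat_lit 0) (XT.nd (nat_lit 188) (nat_lit 1344) (nat_lit 0) (XT.nd (nat_lit 94) (nat_lit 0) (nat_lit 0) (XT.lf (nat_lit 0) (nat_lit 5686054308) (nat_lit 1176) (nat_lit 9024555227) (nat_lit 1260) (nat_lit 3143676571) (nat_lit 152) (nat_lit 5) (nat_lit 166) (nat_lit 5) (nat_lit 167) (nat_lit 5) (nat_lit 250) (nat_lit 235) (nat_lit 115)) (XT.lf (nat_lit 0) (nat_lit 15758551419) (nat_lit 1176) (nat_lit 993847526) (nat_lit 1260) (nat_lit 1433032264) (nat_lit 152) (nat_lit 5) (nat_lit 166) (nat_lit 5) (nat_lit 167) (nat_lit 5) (nat_lit 251) (nat_lit 235) (nat_lit 114))) (XT.nd (nat_lit 94) (nat_lit 588) (nat_lit 0) (XT.lf (nat_lit 0) (nat_lit 489418450) (nat_lit 756) (nat_lit 10788101062) (nat_lit 84) (nat_lit 7244929755) (nat_lit 143)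 (nat_lit 5) (nat_lit 152) (nat_lit 5) (nat_lit 144) (nat_lit 5) (nat_lit 252) (nat_lit 235) (nat_lit 113)) (XT.nd (nat_lit 94) (nat_lit 588) (nat_lit 0) (XT.lf (nat_lit 0) (nat_lit 2476063913) (nat_lit 756) (nat_lit 598468118) (nat_lit 84) (nat_lit 15795083647) (nat_lit 143) (nat_lit 5) (nat_lit 152) (nat_lit 5) (nat_lit 144) (nat_lit 5) (nat_lit 253) (nat_lit 235) (nat_lit 112)) (XT.lf (nat_lit 0) (nat_lit 4697648904) (nat_lit 672) (nat_lit 9117637762) (nat_lit 84) (nat_lit 5407857005) (nat_lit 136) (nat_lit 5) (nat_lit 144) (nat_lit 5) (nat_lit 137) (nat_lit 5) (nat_lit 254) (nat_lit 235) (nat_lit 111))))) (XT.nd (nat_lit 282) (nat_lit 588) (nat_lit 0) (XT.nd (nat_lit 94) (nat_lit 504) (nat_lit 0) (XT.lf (nat_lit 0) (nat_lit 1601165286) (nat_lit 588) (nat_lit 5446936659) (nat_lit 672) (nat_lit 12539154259) (nat_lit 129) (nat_lit 5) (nat_lit 136) (nat_lit 5) (nat_lit 137) (nat_lit 5) (nat_lit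 255) (nat_lit 235) (nat_lit 110)) (XT.nd (nat_lit 94) (nat_lit 504) (nat_lit 0) (XT.lf (nat_lit 0) (nat_lit 9616346252) (nat_lit 672) (nat_lit 7092846432) (nat_lit 84) (nat_lit 3250176602) (nat_lit 129) (nat_lit 5) (nat_lit 137) (nat_lit 5) (nat_lit 130) (nat_lit 5) (nat_lit 256) (nat_lit 235) (nat_lit 109)) (XT.lf (nat_lit 0) (nat_lit 4205007315) (nat_lit 504) (nat_lit 8170332890) (nat_lit 588) (nat_lit 7965635983) (nat_lit 123) (nat_lit 5) (nat_lit 129) (nat_lit 5) (nat_lit 130) (nat_lit 5) (nat_lit 257) (nat_lit 235) (nat_lit 108)))) (XT.nd (nat_lit 94) (nat_lit 588) (nat_lit 0) (XT.lf (nat_lit 0) (nat_lit 15314378420) (nat_lit 588) (nat_lit 4682186010) (nat_lit 84) (nat_lit 736453120) (nat_lit 123) (nat_lit 5) (nat_lit 130) (nat_lit 5) (nat_lit 124) (nat_lit 5) (nat_lit 258) (nat_lit 235) (nat_lit 107)) (XT.nd (nat_lit 94) (nat_lit 84) (nat_lit 0) (XT.lf (nat_lit 0) (nat_lit 7233206318)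 (nat_lit 504) (nat_lit 11289567663) (nat_lit 588) (nat_lit 2610179193) (nat_lit 117) (nat_lit 5) (nat_lit 123) (nat_lit 5) (nat_lit 124) (nat_lit 5) (nat_lit 259) (nat_lit 235) (nat_lit 106)) (XT.lf (nat_lit 0) (nat_lit 337501609) (nat_lit 588) (nat_lit 1879974019) (nat_lit 84) (nat_lit 19327627529) (nat_lit 116) (nat_lit 5) (nat_lit 123) (nat_lit 5) (nat_lit 117) (nat_lit 5) (nat_lit 260) (nat_lit 235) (nat_lit 105)))))) (XT.nd (nat_lit 35814) (nat_lit 0) (nat_lit 4284) (XT.nd (nat_lit 35532) (nat_lit 0) (nat_lit 4200) (XT.nd (nat_lit 35344) (nat_lit 0) (nat_lit 5376) (XT.lf (nat_lit 0) (nat_lit 3520724656) (nat_lit 588) (nat_lit 11282683136) (nat_lit 84) (nat_lit 7160440058) (nat_lit 110) (nat_lit 5) (nat_lit 117) (nat_lit 5) (nat_lit 111) (nat_lit 5) (nat_lit 261) (nat_lit 235) (nat_lit 104)) (XT.nd (nat_lit 94) (nat_lit 0) (nat_lit 0) (XT.lf (nat_lit 0) (nat_lit 3446256542) (nat_lit 0)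 (nat_lit 3446256542) (nat_lit 1092) (nat_lit 221364841) (nat_lit 174) (nat_lit 5) (nat_lit 174) (nat_lit 3) (nat_lit 187) (nat_lit 3) (nat_lit 236) (nat_lit 236) (nat_lit 128)) (XT.lf (nat_lit 0) (nat_lit 14247659673) (nat_lit 0) (nat_lit 107439697) (nat_lit 1092) (nat_lit 110132974) (nat_lit 174) (nat_lit 5) (nat_lit 174) (nat_lit 3) (nat_lit 187) (nat_lit 3) (nat_lit 237) (nat_lit 236) (nat_lit 127)))) (XT.nd (nat_lit 94) (nat_lit 0) (nat_lit 0) (XT.lf (nat_lit 0) (nat_lit 373198227) (nat_lit 1176) (nat_lit 7482283662) (nat_lit 1260) (nat_lit 6850393270) (nat_lit 160) (nat_lit 5) (nat_lit 174) (nat_lit 5) (nat_lit 175) (nat_lit 5) (nat_lit 238) (nat_lit 236) (nat_lit 126)) (XT.nd (nat_lit 94) (nat_lit 0) (nat_lit 84) (XT.lf (nat_lit 0) (nat_lit 860114632) (nat_lit 1176) (nat_lit 35275984) (nat_lit 1260) (nat_lit 14059881541) (nat_lit 160) (nat_lit 5) (nat_lit 174) (nat_lit 5) (nat_lit 175)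 (nat_lit 5) (nat_lit 239) (nat_lit 236) (nat_lit 125)) (XT.lf (nat_lit 0) (nat_lit 1508725413) (nat_lit 1176) (nat_lit 7440030428) (nat_lit 1260) (nat_lit 6259579379) (nat_lit 161) (nat_lit 5) (nat_lit 175) (nat_lit 5) (nat_lit 176) (nat_lit 5) (nat_lit 240) (nat_lit 236) (nat_lit 124))))) (XT.nd (nat_lit 282) (nat_lit 0) (nat_lit 168) (XT.nd (nat_lit 94) (nat_lit 0) (nat_lit 84) (XT.lf (nat_lit 84) (nat_lit 365085638) (nat_lit 0) (nat_lit 1816129301) (nat_lit 1260) (nat_lit 13288999344) (nat_lit 162) (nat_lit 5) (nat_lit 161) (nat_lit 5) (nat_lit 176) (nat_lit 5) (nat_lit 241) (nat_lit 236) (nat_lit 123)) (XT.nd (nat_lit 94) (nat_lit 0) (nat_lit 0) (XT.lf (nat_lit 0) (nat_lit 3014847647) (nat_lit 1176) (nat_lit 7188085455) (nat_lit 1260) (nat_lit 5533509799) (nat_lit 162) (nat_lit 5) (nat_lit 176) (nat_lit 5) (nat_lit 177) (nat_lit 5) (nat_lit 242) (nat_lit 236) (nat_lit 122)) (XT.lf (nat_lit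 84) (nat_lit 999165664) (nat_lit 0) (nat_lit 2897800355) (nat_lit 1260) (nat_lit 12114347704) (nat_lit 163) (nat_lit 5) (nat_lit 162) (nat_lit 5) (nat_lit 177) (nat_lit 5) (nat_lit 243) (nat_lit 236) (nat_lit 121)))) (XT.nd (nat_lit 94) (nat_lit 0) (nat_lit 0) (XT.lf (nat_lit 0) (nat_lit 4935322358) (nat_lit 1176) (nat_lit 6709178152) (nat_lit 1260) (nat_lit 4646916778) (nat_lit 163) (nat_lit 5) (nat_lit 177) (nat_lit 5) (nat_lit 178) (nat_lit 5) (nat_lit 244) (nat_lit 236) (nat_lit 120)) (XT.nd (nat_lit 94) (nat_lit 0) (nat_lit 84) (XT.lf (nat_lit 84) (nat_lit 1885042652) (nat_lit 0) (nat_lit 4167431292) (nat_lit 1260) (nat_lit 10527364688) (nat_lit 164) (nat_lit 5) (nat_lit 163) (nat_lit 5) (nat_lit 178) (nat_lit 5) (nat_lit 245) (nat_lit 236) (nat_lit 119)) (XT.lf (nat_lit 0) (nat_lit 7316972292) (nat_lit 1176) (nat_lit 5984145690) (nat_lit 1260) (nat_lit 3573448116) (nat_lit 164) (nat_lit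 5) (nat_lit 178) (nat_lit 5) (nat_lit 179) (nat_lit 5) (nat_lit 246) (nat_lit 236) (nat_lit 118))))))) (XT.nd (nat_lit 1034) (nat_lit 1596) (nat_lit 0) (XT.nd (nat_lit 470) (nat_lit 1932) (nat_lit 0) (XT.nd (nat_lit 188) (nat_lit 1008) (nat_lit 0) (XT.nd (nat_lit 94) (nat_lit 0) (nat_lit 84) (XT.lf (nat_lit 84) (nat_lit 3043614106) (nat_lit 0) (nat_lit 5652853863) (nat_lit 1260) (nat_lit 8480665158) (nat_lit 165) (nat_lit 5) (nat_lit 164) (nat_lit 5) (nat_lit 179) (nat_lit 5) (nat_lit 247) (nat_lit 236) (nat_lit 117)) (XT.lf (nat_lit 0) (nat_lit 10209964999) (nat_lit 1176) (nat_lit 4991835344) (nat_lit 1260) (nat_lit 2285489496) (nat_lit 165) (nat_lit 5) (nat_lit 179) (nat_lit 5) (nat_lit 180) (nat_lit 5) (nat_lit 248) (nat_lit 236) (nat_lit 116))) (XT.nd (nat_lit 94) (nat_lit 1092) (nat_lit 0) (XT.lf (nat_lit 84) (nat_lit 4497883852) (nat_lit 0) (nat_lit 7383303373) (nat_lit 1260) (nat_lit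 5923448462) (nat_lit 166) (nat_lit 5) (nat_lit 165) (nat_lit 5) (nat_lit 180) (nat_lit 5) (nat_lit 249) (nat_lit 236) (nat_lit 115)) (XT.nd (nat_lit 94) (nat_lit 1176) (nat_lit 0) (XT.lf (nat_lit 0) (nat_lit 13668108248) (nat_lit 1176) (nat_lit 3708995160) (nat_lit 84) (nat_lit 753983022) (nat_lit 166) (nat_lit 5) (nat_lit 180) (nat_lit 5) (nat_lit 167) (nat_lit 5) (nat_lit 250) (nat_lit 236) (nat_lit 114)) (XT.lf (nat_lit 0) (nat_lit 6273080033) (nat_lit 1176) (nat_lit 9389606364) (nat_lit 1260) (nat_lit 2801197530) (nat_lit 152) (nat_lit 5) (nat_lit 166) (nat_lit 5) (nat_lit 167) (nat_lit 5) (nat_lit 251) (nat_lit 236) (nat_lit 113))))) (XT.nd (nat_lit 282) (nat_lit 1176) (nat_lit 0) (XT.nd (nat_lit 94) (nat_lit 756) (nat_lit 0) (XT.lf (nat_lit 0) (nat_lit 16684993302) (nat_lit 1176) (nat_lit 1076160405) (nat_lit 1260) (nat_lit 1045982866) (nat_lit 152) (nat_lit 5) (nat_lit 166) (nat_lit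 5) (nat_lit 167) (nat_lit 5) (nat_lit 252) (nat_lit 236) (nat_lit 112)) (XT.nd (nat_lit 94) (nat_lit 0) (nat_lit 0) (XT.lf (nat_lit 0) (nat_lit 923220994) (nat_lit 756) (nat_lit 10770259387) (nat_lit 84) (nat_lit 7462671059) (nat_lit 143) (nat_lit 5) (nat_lit 152) (nat_lit 5) (nat_lit 144) (nat_lit 5) (nat_lit 253) (nat_lit 236) (nat_lit 111)) (XT.lf (nat_lit 0) (nat_lit 2965308661) (nat_lit 756) (nat_lit 237361157) (nat_lit 84) (nat_lit 16313292021) (nat_lit 143) (nat_lit 5) (nat_lit 152) (nat_lit 5) (nat_lit 144) (nat_lit 5) (nat_lit 254) (nat_lit 236) (nat_lit 110)))) (XT.nd (nat_lit 94) (nat_lit 588) (nat_lit 0) (XT.lf (nat_lit 0) (nat_lit 5255071118) (nat_lit 672) (nat_lit 9045123729) (nat_lit 84) (nat_lit 5582003696) (nat_lit 136) (nat_lit 5) (nat_lit 144) (nat_lit 5) (nat_lit 137) (nat_lit 5) (nat_lit 255) (nat_lit 236) (nat_lit 109)) (XT.nd (nat_lit 94) (nat_lit 0) (nat_lit 0) (XT.lf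 (nat_lit 0) (nat_lit 2044372573) (nat_lit 588) (nat_lit 5634441302) (nat_lit 672) (nat_lit 12580555304) (nat_lit 129) (nat_lit 5) (nat_lit 136) (nat_lit 5) (nat_lit 137) (nat_lit 5) (nat_lit 256) (nat_lit 236) (nat_lit 108)) (XT.lf (nat_lit 0) (nat_lit 10323994049) (nat_lit 672) (nat_lit 6954069459) (nat_lit 84) (nat_lit 3366896055) (nat_lit 129) (nat_lit 5) (nat_lit 137) (nat_lit 5) (nat_lit 130) (nat_lit 5) (nat_lit 257) (nat_lit 236) (nat_lit 107)))))) (XT.nd (nat_lit 35814) (nat_lit 0) (nat_lit 4116) (XT.nd (nat_lit 282) (nat_lit 588) (nat_lit 0) (XT.nd (nat_lit 94) (nat_lit 504) (nat_lit 0) (XT.lf (nat_lit 0) (nat_lit 4734796814) (nat_lit 504) (nat_lit 8436470669) (nat_lit 588) (nat_lit 7868945208) (nat_lit 123) (nat_lit 5) (nat_lit 129) (nat_lit 5) (nat_lit 130) (nat_lit 5) (nat_lit 258) (nat_lit 236) (nat_lit 106)) (XT.nd (nat_lit 94) (nat_lit 504) (nat_lit 0) (XT.lf (nat_lit 0) (nat_lit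 16201117173) (nat_lit 588) (nat_lit 4464332061) (nat_lit 84) (nat_lit 780948187) (nat_lit 123) (nat_lit 5) (nat_lit 130) (nat_lit 5) (nat_lit 124) (nat_lit 5) (nat_lit 259) (nat_lit 236) (nat_lit 105)) (XT.lf (nat_lit 0) (nat_lit 7863747023) (nat_lit 504) (nat_lit 11650403742) (nat_lit 588) (nat_lit 2346447980) (nat_lit 117) (nat_lit 5) (nat_lit 123) (nat_lit 5) (nat_lit 124) (nat_lit 5) (nat_lit 260) (nat_lit 236) (nat_lit 104)))) (XT.nd (nat_lit 94) (nat_lit 504) (nat_lit 0) (XT.lf (nat_lit 0) (nat_lit 684614777) (nat_lit 588) (nat_lit 1573377134) (nat_lit 84) (nat_lit 20029454335) (nat_lit 116) (nat_lit 5) (nat_lit 123) (nat_lit 5) (nat_lit 117) (nat_lit 5) (nat_lit 261) (nat_lit 236) (nat_lit 103)) (XT.nd (nat_lit 35344) (nat_lit 0) (nat_lit 4116) (XT.lf (nat_lit 0) (nat_lit 3972460599) (nat_lit 588) (nat_lit 11298391039) (nat_lit 84) (nat_lit 7450233016) (nat_lit 110) (nat_lit 5) (nat_lit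 117) (nat_lit 5) (nat_lit 111) (nat_lit 5) (nat_lit 262) (nat_lit 236) (nat_lit 102)) (XT.lf (nat_lit 0) (nat_lit 105003580) (nat_lit 1260) (nat_lit 3623218589) (nat_lit 1260) (nat_lit 3623218589) (nat_lit 159) (nat_lit 3) (nat_lit 174) (nat_lit 3) (nat_lit 174) (nat_lit 5) (nat_lit 237) (nat_lit 237) (nat_lit 126))))) (XT.nd (nat_lit 282) (nat_lit 0) (nat_lit 168) (XT.nd (nat_lit 94) (nat_lit 0) (nat_lit 84) (XT.lf (nat_lit 84) (nat_lit 107439697) (nat_lit 0) (nat_lit 417950946) (nat_lit 1260) (nat_lit 14423881506) (nat_lit 160) (nat_lit 5) (nat_lit 159) (nat_lit 3) (nat_lit 174) (nat_lit 5) (nat_lit 238) (nat_lit 237) (nat_lit 125)) (XT.nd (nat_lit 94) (nat_lit 0) (nat_lit 0) (XT.lf (nat_lit 0) (nat_lit 1000726556) (nat_lit 1176) (nat_lit 7394112176) (nat_lit 1260) (nat_lit 6804235733) (nat_lit 160) (nat_lit 5) (nat_lit 174) (nat_lit 5) (nat_lit 175) (nat_lit 5) (nat_lit 239) (nat_lit 237)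 (nat_lit 124)) (XT.lf (nat_lit 84) (nat_lit 308702896) (nat_lit 0) (nat_lit 1178642696) (nat_lit 1260) (nat_lit 13970461648) (nat_lit 161) (nat_lit 5) (nat_lit 160) (nat_lit 5) (nat_lit 175) (nat_lit 5) (nat_lit 240) (nat_lit 237) (nat_lit 123)))) (XT.nd (nat_lit 94) (nat_lit 0) (nat_lit 0) (XT.lf (nat_lit 0) (nat_lit 2136159920) (nat_lit 1176) (nat_lit 7343159350) (nat_lit 1260) (nat_lit 6241195664) (nat_lit 161) (nat_lit 5) (nat_lit 175) (nat_lit 5) (nat_lit 176) (nat_lit 5) (nat_lit 241) (nat_lit 237) (nat_lit 122)) (XT.nd (nat_lit 94) (nat_lit 0) (nat_lit 84) (XT.lf (nat_lit 84) (nat_lit 731062644) (nat_lit 0) (nat_lit 2085627430) (nat_lit 1260) (nat_lit 13175412068) (nat_lit 162) (nat_lit 5) (nat_lit 161) (nat_lit 5) (nat_lit 176) (nat_lit 5) (nat_lit 242) (nat_lit 237) (nat_lit 121)) (XT.lf (nat_lit 0) (nat_lit 3658375111) (nat_lit 1176) (nat_lit 7077288549) (nat_lit 1260) (nat_lit 5532724470)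 (nat_lit 162) (nat_lit 5) (nat_lit 176) (nat_lit 5) (nat_lit 177) (nat_lit 5) (nat_lit 243) (nat_lit 237) (nat_lit 120))))))))
noncomputable def xc57 : XT := (XT.nd (nat_lit 37506) (nat_lit 0) (nat_lit 84) (XT.nd (nat_lit 1034) (nat_lit 2268) (nat_lit 0) (XT.nd (nat_lit 470) (nat_lit 1596) (nat_lit 0) (XT.nd (nat_lit 188) (nat_lit 0) (nat_lit 84) (XT.nd (nat_lit 94) (nat_lit 0) (nat_lit 84) (XT.lf (nat_lit 84) (nat_lit 1392384992) (nat_lit 0) (nat_lit 3164780792) (nat_lit 1260) (nat_lit 11996210710) (nat_lit 163) (nat_lit 5) (nat_lit 162) (nat_lit 5) (nat_lit 177) (nat_lit 5) (nat_lit 244) (nat_lit 237) (nat_lit 119)) (XT.lf (nat_lit 0) (nat_lit 5612369064) (nat_lit 1176) (nat_lit 6578370012) (nat_lit 1260) (nat_lit 4653226953) (nat_lit 163) (nat_lit 5) (nat_lit 177) (nat_lit 5) (nat_lit 178) (nat_lit 5) (nat_lit 245) (nat_lit 237) (nat_lit 118))) (XT.nd (nat_lit 94) (nat_lit 0) (nat_lit 84)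 (XT.lf (nat_lit 84) (nat_lit 2312480107) (nat_lit 0) (nat_lit 4443114325) (nat_lit 1260) (nat_lit 10387343616) (nat_lit 164) (nat_lit 5) (nat_lit 163) (nat_lit 5) (nat_lit 178) (nat_lit 5) (nat_lit 246) (nat_lit 237) (nat_lit 117)) (XT.nd (nat_lit 94) (nat_lit 0) (nat_lit 0) (XT.lf (nat_lit 0) (nat_lit 8046339166) (nat_lit 1176) (nat_lit 5826342089) (nat_lit 1260) (nat_lit 3575930107) (nat_lit 164) (nat_lit 5) (nat_lit 178) (nat_lit 5) (nat_lit 179) (nat_lit 5) (nat_lit 247) (nat_lit 237) (nat_lit 116)) (XT.lf (nat_lit 84) (nat_lit 3513202427) (nat_lit 0) (nat_lit 5948955660) (nat_lit 1260) (nat_lit 8300028720) (nat_lit 165) (nat_lit 5) (nat_lit 164) (nat_lit 5) (nat_lit 179) (nat_lit 5) (nat_lit 248) (nat_lit 237) (nat_lit 115))))) (XT.nd (nat_lit 282) (nat_lit 1848) (nat_lit 0) (XT.nd (nat_lit 94) (nat_lit 0) (nat_lit 0) (XT.lf (nat_lit 0) (nat_lit 11011969812) (nat_lit 1176) (nat_lit 4799107509)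 (nat_lit 1260) (nat_lit 2272704701) (nat_lit 165) (nat_lit 5) (nat_lit 179) (nat_lit 5) (nat_lit 180) (nat_lit 5) (nat_lit 249) (nat_lit 237) (nat_lit 114)) (XT.nd (nat_lit 94) (nat_lit 0) (nat_lit 84) (XT.lf (nat_lit 84) (nat_lit 5018562780) (nat_lit 0) (nat_lit 7712132779) (nat_lit 1260) (nat_lit 5681924040) (nat_lit 166) (nat_lit 5) (nat_lit 165) (nat_lit 5) (nat_lit 180) (nat_lit 5) (nat_lit 250) (nat_lit 237) (nat_lit 113)) (XT.lf (nat_lit 0) (nat_lit 14564735727) (nat_lit 1176) (nat_lit 3472417824) (nat_lit 84) (nat_lit 713882374) (nat_lit 166) (nat_lit 5) (nat_lit 180) (nat_lit 5) (nat_lit 167) (nat_lit 5) (nat_lit 251) (nat_lit 237) (nat_lit 112)))) (XT.nd (nat_lit 94) (nat_lit 756) (nat_lit 0) (XT.lf (nat_lit 0) (nat_lit 6854852890) (nat_lit 1176) (nat_lit 9764163569) (nat_lit 1260) (nat_lit 2476818643) (nat_lit 152) (nat_lit 5) (nat_lit 166) (nat_lit 5) (nat_lit 167) (nat_lit 5)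 (nat_lit 252) (nat_lit 237) (nat_lit 111)) (XT.nd (nat_lit 94) (nat_lit 756) (nat_lit 0) (XT.lf (nat_lit 0) (nat_lit 17618934306) (nat_lit 1176) (nat_lit 1158194118) (nat_lit 1260) (nat_lit 674456228) (nat_lit 152) (nat_lit 5) (nat_lit 166) (nat_lit 5) (nat_lit 167) (nat_lit 5) (nat_lit 253) (nat_lit 237) (nat_lit 110)) (XT.lf (nat_lit 0) (nat_lit 1344502339) (nat_lit 756) (nat_lit 10778084799) (nat_lit 84) (nat_lit 7690415702) (nat_lit 143) (nat_lit 5) (nat_lit 152) (nat_lit 5) (nat_lit 144) (nat_lit 5) (nat_lit 254) (nat_lit 237) (nat_lit 109)))))) (XT.nd (nat_lit 564) (nat_lit 588) (nat_lit 0) (XT.nd (nat_lit 282) (nat_lit 504) (nat_lit 0) (XT.nd (nat_lit 94) (nat_lit 588) (nat_lit 0) (XT.lf (nat_lit 0) (nat_lit 113556908) (nat_lit 588) (nat_lit 3332617906) (nat_lit 672) (nat_lit 16739647877) (nat_lit 136) (nat_lit 5) (nat_lit 143) (nat_lit 5) (nat_lit 144) (nat_lit 5) (nat_lit 255) (nat_lit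 237) (nat_lit 108)) (XT.nd (nat_lit 94) (nat_lit 588) (nat_lit 0) (XT.lf (nat_lit 0) (nat_lit 5805872514) (nat_lit 672) (nat_lit 8996110999) (nat_lit 84) (nat_lit 5763251392) (nat_lit 136) (nat_lit 5) (nat_lit 144) (nat_lit 5) (nat_lit 137) (nat_lit 5) (nat_lit 256) (nat_lit 237) (nat_lit 107)) (XT.lf (nat_lit 0) (nat_lit 2477349686) (nat_lit 588) (nat_lit 5828717259) (nat_lit 672) (nat_lit 12649832845) (nat_lit 129) (nat_lit 5) (nat_lit 136) (nat_lit 5) (nat_lit 137) (nat_lit 5) (nat_lit 257) (nat_lit 237) (nat_lit 106)))) (XT.nd (nat_lit 94) (nat_lit 504) (nat_lit 0) (XT.lf (nat_lit 0) (nat_lit 11031736957) (nat_lit 672) (nat_lit 6836168419) (nat_lit 84) (nat_lit 3487503662) (nat_lit 129) (nat_lit 5) (nat_lit 137) (nat_lit 5) (nat_lit 130) (nat_lit 5) (nat_lit 258) (nat_lit 237) (nat_lit 105)) (XT.nd (nat_lit 94) (nat_lit 0) (nat_lit 0) (XT.lf (nat_lit 0) (nat_lit 5257689193) (nat_lit 504)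 (nat_lit 8713241345) (nat_lit 588) (nat_lit 7793836193) (nat_lit 123) (nat_lit 5) (nat_lit 129) (nat_lit 5) (nat_lit 130) (nat_lit 5) (nat_lit 259) (nat_lit 237) (nat_lit 104)) (XT.lf (nat_lit 0) (nat_lit 17095571624) (nat_lit 588) (nat_lit 4264234214) (nat_lit 84) (nat_lit 825755955) (nat_lit 123) (nat_lit 5) (nat_lit 130) (nat_lit 5) (nat_lit 124) (nat_lit 5) (nat_lit 260) (nat_lit 237) (nat_lit 103))))) (XT.nd (nat_lit 35626) (nat_lit 0) (nat_lit 3612) (XT.nd (nat_lit 94) (nat_lit 84) (nat_lit 0) (XT.lf (nat_lit 0) (nat_lit 8491265021) (nat_lit 504) (nat_lit 12026149587) (nat_lit 588) (nat_lit 2097095694) (nat_lit 117) (nat_lit 5) (nat_lit 123) (nat_lit 5) (nat_lit 124) (nat_lit 5) (nat_lit 261) (nat_lit 237) (nat_lit 102)) (XT.nd (nat_lit 35438) (nat_lit 0) (nat_lit 3612) (XT.lf (nat_lit 0) (nat_lit 1021583003) (nat_lit 588) (nat_lit 1280809706) (nat_lit 84) (nat_lit 20754158921) (nat_lit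 116) (nat_lit 5) (nat_lit 123) (nat_lit 5) (nat_lit 117) (nat_lit 5) (nat_lit 262) (nat_lit 237) (nat_lit 101)) (XT.lf (nat_lit 0) (nat_lit 415730192) (nat_lit 1260) (nat_lit 3591132095) (nat_lit 1260) (nat_lit 3591132095) (nat_lit 159) (nat_lit 3) (nat_lit 174) (nat_lit 3) (nat_lit 174) (nat_lit 5) (nat_lit 238) (nat_lit 238) (nat_lit 124)))) (XT.nd (nat_lit 94) (nat_lit 0) (nat_lit 84) (XT.lf (nat_lit 84) (nat_lit 425375267) (nat_lit 0) (nat_lit 715240841) (nat_lit 1260) (nat_lit 14310991278) (nat_lit 160) (nat_lit 5) (nat_lit 159) (nat_lit 3) (nat_lit 174) (nat_lit 5) (nat_lit 239) (nat_lit 238) (nat_lit 123)) (XT.nd (nat_lit 94) (nat_lit 0) (nat_lit 0) (XT.lf (nat_lit 0) (nat_lit 1609362937) (nat_lit 1176) (nat_lit 7326129361) (nat_lit 1260) (nat_lit 6775473390) (nat_lit 160) (nat_lit 5) (nat_lit 174) (nat_lit 5) (nat_lit 175) (nat_lit 5) (nat_lit 240) (nat_lit 238) (nat_lit 122)) (XT.lf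 (nat_lit 84) (nat_lit 642558771) (nat_lit 0) (nat_lit 1454656882) (nat_lit 1260) (nat_lit 13882091386) (nat_lit 161) (nat_lit 5) (nat_lit 160) (nat_lit 5) (nat_lit 175) (nat_lit 5) (nat_lit 241) (nat_lit 238) (nat_lit 121))))))) (XT.nd (nat_lit 1128) (nat_lit 2940) (nat_lit 0) (XT.nd (nat_lit 564) (nat_lit 756) (nat_lit 0) (XT.nd (nat_lit 282) (nat_lit 0) (nat_lit 84) (XT.nd (nat_lit 94) (nat_lit 0) (nat_lit 0) (XT.lf (nat_lit 0) (nat_lit 2747347948) (nat_lit 1176) (nat_lit 7266652558) (nat_lit 1260) (nat_lit 6237957666) (nat_lit 161) (nat_lit 5) (nat_lit 175) (nat_lit 5) (nat_lit 176) (nat_lit 5) (nat_lit 242) (nat_lit 238) (nat_lit 120)) (XT.nd (nat_lit 94) (nat_lit 0) (nat_lit 84) (XT.lf (nat_lit 84) (nat_lit 1086364890) (nat_lit 0) (nat_lit 2350865613) (nat_lit 1260) (nat_lit 13096326744) (nat_lit 162) (nat_lit 5) (nat_lit 161) (nat_lit 5) (nat_lit 176) (nat_lit 5) (nat_lit 243) (nat_lit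 238) (nat_lit 119)) (XT.lf (nat_lit 0) (nat_lit 4288654274) (nat_lit 1176) (nat_lit 6986708137) (nat_lit 1260) (nat_lit 5544841042) (nat_lit 162) (nat_lit 5) (nat_lit 176) (nat_lit 5) (nat_lit 177) (nat_lit 5) (nat_lit 244) (nat_lit 238) (nat_lit 118)))) (XT.nd (nat_lit 94) (nat_lit 0) (nat_lit 84) (XT.lf (nat_lit 84) (nat_lit 1775547302) (nat_lit 0) (nat_lit 3430097747) (nat_lit 1260) (nat_lit 11909985376) (nat_lit 163) (nat_lit 5) (nat_lit 162) (nat_lit 5) (nat_lit 177) (nat_lit 5) (nat_lit 245) (nat_lit 238) (nat_lit 117)) (XT.nd (nat_lit 94) (nat_lit 0) (nat_lit 0) (XT.lf (nat_lit 0) (nat_lit 6279581158) (nat_lit 1176) (nat_lit 6467294028) (nat_lit 1260) (nat_lit 4670152382) (nat_lit 163) (nat_lit 5) (nat_lit 177) (nat_lit 5) (nat_lit 178) (nat_lit 5) (nat_lit 246) (nat_lit 238) (nat_lit 116)) (XT.lf (nat_lit 84) (nat_lit 2730844587) (nat_lit 0) (nat_lit 4719814429) (nat_lit 1260) (nat_lit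 10276230207) (nat_lit 164) (nat_lit 5) (nat_lit 163) (nat_lit 5) (nat_lit 178) (nat_lit 5) (nat_lit 247) (nat_lit 238) (nat_lit 115))))) (XT.nd (nat_lit 282) (nat_lit 1008) (nat_lit 0) (XT.nd (nat_lit 94) (nat_lit 0) (nat_lit 0) (XT.lf (nat_lit 0) (nat_lit 8769766301) (nat_lit 1176) (nat_lit 5687433469) (nat_lit 1260) (nat_lit 3586649805) (nat_lit 164) (nat_lit 5) (nat_lit 178) (nat_lit 5) (nat_lit 179) (nat_lit 5) (nat_lit 248) (nat_lit 238) (nat_lit 114)) (XT.nd (nat_lit 94) (nat_lit 0) (nat_lit 84) (XT.lf (nat_lit 84) (nat_lit 3975086612) (nat_lit 0) (nat_lit 6248888318) (nat_lit 1260) (nat_lit 8144815969) (nat_lit 165) (nat_lit 5) (nat_lit 164) (nat_lit 5) (nat_lit 179) (nat_lit 5) (nat_lit 249) (nat_lit 238) (nat_lit 113)) (XT.lf (nat_lit 0) (nat_lit 11812479926) (nat_lit 1176) (nat_lit 4624065165) (nat_lit 1260) (nat_lit 2265641111) (nat_lit 165) (nat_lit 5) (nat_lit 179) (nat_lit 5)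 (nat_lit 180) (nat_lit 5) (nat_lit 250) (nat_lit 238) (nat_lit 112)))) (XT.nd (nat_lit 94) (nat_lit 1092) (nat_lit 0) (XT.lf (nat_lit 84) (nat_lit 5533313034) (nat_lit 0) (nat_lit 8047789450) (nat_lit 1260) (nat_lit 5461789661) (nat_lit 166) (nat_lit 5) (nat_lit 165) (nat_lit 5) (nat_lit 180) (nat_lit 5) (nat_lit 251) (nat_lit 238) (nat_lit 111)) (XT.nd (nat_lit 94) (nat_lit 1176) (nat_lit 0) (XT.lf (nat_lit 0) (nat_lit 15464936438) (nat_lit 1176) (nat_lit 3251921441) (nat_lit 84) (nat_lit 676799080) (nat_lit 166) (nat_lit 5) (nat_lit 180) (nat_lit 5) (nat_lit 167) (nat_lit 5) (nat_lit 252) (nat_lit 238) (nat_lit 110)) (XT.lf (nat_lit 0) (nat_lit 7432904373) (nat_lit 1176) (nat_lit 10148777022) (nat_lit 1260) (nat_lit 2169172959) (nat_lit 152) (nat_lit 5) (nat_lit 166) (nat_lit 5) (nat_lit 167) (nat_lit 5) (nat_lit 253) (nat_lit 238) (nat_lit 109)))))) (XT.nd (nat_lit 564) (nat_lit 1008) (nat_lit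 0) (XT.nd (nat_lit 282) (nat_lit 588) (nat_lit 0) (XT.nd (nat_lit 94) (nat_lit 1344) (nat_lit 0) (XT.lf (nat_lit 0) (nat_lit 18562294235) (nat_lit 1176) (nat_lit 1240149007) (nat_lit 1260) (nat_lit 317062836) (nat_lit 152) (nat_lit 5) (nat_lit 166) (nat_lit 5) (nat_lit 167) (nat_lit 5) (nat_lit 254) (nat_lit 238) (nat_lit 108)) (XT.nd (nat_lit 94) (nat_lit 588) (nat_lit 0) (XT.lf (nat_lit 0) (nat_lit 1754666280) (nat_lit 756) (nat_lit 10810727539) (nat_lit 84) (nat_lit 7928355397) (nat_lit 143) (nat_lit 5) (nat_lit 152) (nat_lit 5) (nat_lit 144) (nat_lit 5) (nat_lit 255) (nat_lit 238) (nat_lit 107)) (XT.lf (nat_lit 0) (nat_lit 458193075) (nat_lit 588) (nat_lit 3463220961) (nat_lit 672) (nat_lit 16958500641) (nat_lit 136) (nat_lit 5) (nat_lit 143) (nat_lit 5) (nat_lit 144) (nat_lit 5) (nat_lit 256) (nat_lit 238) (nat_lit 106)))) (XT.nd (nat_lit 94) (nat_lit 588) (nat_lit 0) (XT.lf (nat_lit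 0) (nat_lit 6351558770) (nat_lit 672) (nat_lit 8969690783) (nat_lit 84) (nat_lit 5951781748) (nat_lit 136) (nat_lit 5) (nat_lit 144) (nat_lit 5) (nat_lit 137) (nat_lit 5) (nat_lit 257) (nat_lit 238) (nat_lit 105)) (XT.nd (nat_lit 94) (nat_lit 0) (nat_lit 0) (XT.lf (nat_lit 0) (nat_lit 2901450164) (nat_lit 588) (nat_lit 6029987655) (nat_lit 672) (nat_lit 12746205415) (nat_lit 129) (nat_lit 5) (nat_lit 136) (nat_lit 5) (nat_lit 137) (nat_lit 5) (nat_lit 258) (nat_lit 238) (nat_lit 104)) (XT.lf (nat_lit 0) (nat_lit 11741218767) (nat_lit 672) (nat_lit 6738162993) (nat_lit 84) (nat_lit 3612148610) (nat_lit 129) (nat_lit 5) (nat_lit 137) (nat_lit 5) (nat_lit 130) (nat_lit 5) (nat_lit 259) (nat_lit 238) (nat_lit 103))))) (XT.nd (nat_lit 35720) (nat_lit 0) (nat_lit 3528) (XT.nd (nat_lit 94) (nat_lit 504) (nat_lit 0) (XT.lf (nat_lit 0) (nat_lit 5775134523) (nat_lit 504) (nat_lit 9000929433) (nat_lit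 588) (nat_lit 7739404332) (nat_lit 123) (nat_lit 5) (nat_lit 129) (nat_lit 5) (nat_lit 130) (nat_lit 5) (nat_lit 260) (nat_lit 238) (nat_lit 102)) (XT.nd (nat_lit 94) (nat_lit 504) (nat_lit 0) (XT.lf (nat_lit 0) (nat_lit 17999562364) (nat_lit 588) (nat_lit 4080826370) (nat_lit 84) (nat_lit 870970122) (nat_lit 123) (nat_lit 5) (nat_lit 130) (nat_lit 5) (nat_lit 124) (nat_lit 5) (nat_lit 261) (nat_lit 238) (nat_lit 101)) (XT.lf (nat_lit 0) (nat_lit 9117322843) (nat_lit 504) (nat_lit 12417175410) (nat_lit 588) (nat_lit 1861055814) (nat_lit 117) (nat_lit 5) (nat_lit 123) (nat_lit 5) (nat_lit 124) (nat_lit 5) (nat_lit 262) (nat_lit 238) (nat_lit 100)))) (XT.nd (nat_lit 94) (nat_lit 0) (nat_lit 0) (XT.lf (nat_lit 0) (nat_lit 716916596) (nat_lit 1260) (nat_lit 3568487667) (nat_lit 1260) (nat_lit 3568487667) (nat_lit 159) (nat_lit 3) (nat_lit 174) (nat_lit 3) (nat_lit 174) (nat_lit 5) (nat_lit 239)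 (nat_lit 239) (nat_lit 122)) (XT.nd (nat_lit 94) (nat_lit 0) (nat_lit 84) (XT.lf (nat_lit 84) (nat_lit 733549295) (nat_lit 0) (nat_lit 1004141910) (nat_lit 1260) (nat_lit 14235222067) (nat_lit 160) (nat_lit 5) (nat_lit 159) (nat_lit 3) (nat_lit 174) (nat_lit 5) (nat_lit 240) (nat_lit 239) (nat_lit 121)) (XT.lf (nat_lit 0) (nat_lit 2201162601) (nat_lit 1176) (nat_lit 7277494305) (nat_lit 1260) (nat_lit 6763451063) (nat_lit 160) (nat_lit 5) (nat_lit 174) (nat_lit 5) (nat_lit 175) (nat_lit 5) (nat_lit 241) (nat_lit 239) (nat_lit 120))))))))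
noncomputable def xc58 : XT := (XT.nd (nat_lit 37694) (nat_lit 0) (nat_lit 0) (XT.nd (nat_lit 1034) (nat_lit 3108) (nat_lit 0) (XT.nd (nat_lit 470) (nat_lit 0) (nat_lit 252) (XT.nd (nat_lit 188) (nat_lit 0) (nat_lit 84) (XT.nd (nat_lit 94) (nat_lit 0) (nat_lit 84) (XT.lf (nat_lit 84) (nat_lit 966620148) (nat_lit 0) (nat_lit 1724722425) (nat_lit 1260) (nat_lit 13829014860) (nat_lit 161) (nat_lit 5) (nat_lit 160) (nat_lit 5) (nat_lit 175) (nat_lit 5) (nat_lit 242) (nat_lit 239) (nat_lit 119)) (XT.lf (nat_lit 0) (nat_lit 3344261205) (nat_lit 1176) (nat_lit 7209643365) (nat_lit 1260) (nat_lit 6249345676) (nat_lit 161) (nat_lit 5) (nat_lit 175) (nat_lit 5) (nat_lit 176) (nat_lit 5) (nat_lit 243) (nat_lit 239) (nat_lit 118))) (XT.nd (nat_lit 94) (nat_lit 0) (nat_lit 84) (XT.lf (nat_lit 84) (nat_lit 1432180192) (nat_lit 0) (nat_lit 2612605147) (nat_lit 1260) (nat_lit 13050392600) (nat_lit 162) (nat_lit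 5) (nat_lit 161) (nat_lit 5) (nat_lit 176) (nat_lit 5) (nat_lit 244) (nat_lit 239) (nat_lit 117)) (XT.nd (nat_lit 94) (nat_lit 0) (nat_lit 0) (XT.lf (nat_lit 0) (nat_lit 4907599885) (nat_lit 1176) (nat_lit 6915449778) (nat_lit 1260) (nat_lit 5569451416) (nat_lit 162) (nat_lit 5) (nat_lit 176) (nat_lit 5) (nat_lit 177) (nat_lit 5) (nat_lit 245) (nat_lit 239) (nat_lit 116)) (XT.lf (nat_lit 84) (nat_lit 2149884355) (nat_lit 0) (nat_lit 3694424899) (nat_lit 1260) (nat_lit 11854391904) (nat_lit 163) (nat_lit 5) (nat_lit 162) (nat_lit 5) (nat_lit 177) (nat_lit 5) (nat_lit 246) (nat_lit 239) (nat_lit 115))))) (XT.nd (nat_lit 282) (nat_lit 0) (nat_lit 84) (XT.nd (nat_lit 94) (nat_lit 0) (nat_lit 0) (XT.lf (nat_lit 0) (nat_lit 6938843898) (nat_lit 1176) (nat_lit 6375024442) (nat_lit 1260) (nat_lit 4697373485) (nat_lit 163) (nat_lit 5) (nat_lit 177) (nat_lit 5) (nat_lit 178) (nat_lit 5) (nat_lit 247)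 (nat_lit 239) (nat_lit 114)) (XT.nd (nat_lit 94) (nat_lit 0) (nat_lit 84) (XT.lf (nat_lit 84) (nat_lit 3141416494) (nat_lit 0) (nat_lit 4998141124) (nat_lit 1260) (nat_lit 10192788334) (nat_lit 164) (nat_lit 5) (nat_lit 163) (nat_lit 5) (nat_lit 178) (nat_lit 5) (nat_lit 248) (nat_lit 239) (nat_lit 113)) (XT.lf (nat_lit 0) (nat_lit 9489138063) (nat_lit 1176) (nat_lit 5566457615) (nat_lit 1260) (nat_lit 3605353584) (nat_lit 164) (nat_lit 5) (nat_lit 178) (nat_lit 5) (nat_lit 179) (nat_lit 5) (nat_lit 249) (nat_lit 239) (nat_lit 112)))) (XT.nd (nat_lit 94) (nat_lit 0) (nat_lit 84) (XT.lf (nat_lit 84) (nat_lit 4430602050) (nat_lit 0) (nat_lit 6553220274) (nat_lit 1260) (nat_lit 8013805967) (nat_lit 165) (nat_lit 5) (nat_lit 164) (nat_lit 5) (nat_lit 179) (nat_lit 5) (nat_lit 250) (nat_lit 239) (nat_lit 111)) (XT.nd (nat_lit 94) (nat_lit 0) (nat_lit 0) (XT.lf (nat_lit 0) (nat_lit 12613408773)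 (nat_lit 1176) (nat_lit 4465702908) (nat_lit 1260) (nat_lit 2264088817) (nat_lit 165) (nat_lit 5) (nat_lit 179) (nat_lit 5) (nat_lit 180) (nat_lit 5) (nat_lit 251) (nat_lit 239) (nat_lit 110)) (XT.lf (nat_lit 84) (nat_lit 6043532988) (nat_lit 0) (nat_lit 8390823628) (nat_lit 1260) (nat_lit 5261809710) (nat_lit 166) (nat_lit 5) (nat_lit 165) (nat_lit 5) (nat_lit 180) (nat_lit 5) (nat_lit 252) (nat_lit 239) (nat_lit 109)))))) (XT.nd (nat_lit 564) (nat_lit 1092) (nat_lit 0) (XT.nd (nat_lit 282) (nat_lit 1260) (nat_lit 0) (XT.nd (nat_lit 94) (nat_lit 1260) (nat_lit 0) (XT.lf (nat_lit 0) (nat_lit 16370684427) (nat_lit 1176) (nat_lit 3046449086) (nat_lit 84) (nat_lit 642544808) (nat_lit 166) (nat_lit 5) (nat_lit 180) (nat_lit 5) (nat_lit 167) (nat_lit 5) (nat_lit 253) (nat_lit 239) (nat_lit 108)) (XT.nd (nat_lit 94) (nat_lit 84) (nat_lit 0) (XT.lf (nat_lit 0) (nat_lit 8008705522) (nat_lit 1176)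 (nat_lit 10544001700) (nat_lit 1260) (nat_lit 1876978690) (nat_lit 152) (nat_lit 5) (nat_lit 166) (nat_lit 5) (nat_lit 167) (nat_lit 5) (nat_lit 254) (nat_lit 239) (nat_lit 107)) (XT.lf (nat_lit 0) (nat_lit 26883242) (nat_lit 1260) (nat_lit 1295018001) (nat_lit 84) (nat_lit 19489749436) (nat_lit 151) (nat_lit 5) (nat_lit 166) (nat_lit 5) (nat_lit 152) (nat_lit 5) (nat_lit 255) (nat_lit 239) (nat_lit 106)))) (XT.nd (nat_lit 94) (nat_lit 588) (nat_lit 0) (XT.lf (nat_lit 0) (nat_lit 2155043271) (nat_lit 756) (nat_lit 10867424337) (nat_lit 84) (nat_lit 8176699101) (nat_lit 143) (nat_lit 5) (nat_lit 152) (nat_lit 5) (nat_lit 144) (nat_lit 5) (nat_lit 256) (nat_lit 239) (nat_lit 105)) (XT.nd (nat_lit 94) (nat_lit 0) (nat_lit 0) (XT.lf (nat_lit 0) (nat_lit 792241151) (nat_lit 588) (nat_lit 3597466838) (nat_lit 672) (nat_lit 17209417145) (nat_lit 136) (nat_lit 5) (nat_lit 143) (nat_lit 5) (nat_lit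 144) (nat_lit 5) (nat_lit 257) (nat_lit 239) (nat_lit 104)) (XT.lf (nat_lit 0) (nat_lit 6893572743) (nat_lit 672) (nat_lit 8965037601) (nat_lit 84) (nat_lit 6147787224) (nat_lit 136) (nat_lit 5) (nat_lit 144) (nat_lit 5) (nat_lit 137) (nat_lit 5) (nat_lit 258) (nat_lit 239) (nat_lit 103))))) (XT.nd (nat_lit 282) (nat_lit 0) (nat_lit 0) (XT.nd (nat_lit 94) (nat_lit 504) (nat_lit 0) (XT.lf (nat_lit 0) (nat_lit 3317961119) (nat_lit 588) (nat_lit 6238484343) (nat_lit 672) (nat_lit 12868981029) (nat_lit 129) (nat_lit 5) (nat_lit 136) (nat_lit 5) (nat_lit 137) (nat_lit 5) (nat_lit 259) (nat_lit 239) (nat_lit 102)) (XT.nd (nat_lit 94) (nat_lit 504) (nat_lit 0) (XT.lf (nat_lit 0) (nat_lit 12454031727) (nat_lit 672) (nat_lit 6659152310) (nat_lit 84) (nat_lit 3740984435) (nat_lit 129) (nat_lit 5) (nat_lit 137) (nat_lit 5) (nat_lit 130) (nat_lit 5) (nat_lit 260) (nat_lit 239) (nat_lit 101)) (XT.lf (nat_lit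 0) (nat_lit 6288521165) (nat_lit 504) (nat_lit 9299835230) (nat_lit 588) (nat_lit 7704823726) (nat_lit 123) (nat_lit 5) (nat_lit 129) (nat_lit 5) (nat_lit 130) (nat_lit 5) (nat_lit 261) (nat_lit 239) (nat_lit 100)))) (XT.nd (nat_lit 35626) (nat_lit 0) (nat_lit 3024) (XT.lf (nat_lit 0) (nat_lit 18914870609) (nat_lit 588) (nat_lit 3913117318) (nat_lit 84) (nat_lit 916682164) (nat_lit 123) (nat_lit 5) (nat_lit 130) (nat_lit 5) (nat_lit 124) (nat_lit 5) (nat_lit 262) (nat_lit 239) (nat_lit 99)) (XT.nd (nat_lit 94) (nat_lit 0) (nat_lit 0) (XT.lf (nat_lit 0) (nat_lit 1009586309) (nat_lit 1260) (nat_lit 3554913311) (nat_lit 1260) (nat_lit 3554913311) (nat_lit 159) (nat_lit 3) (nat_lit 174) (nat_lit 3) (nat_lit 174) (nat_lit 5) (nat_lit 240) (nat_lit 240) (nat_lit 120)) (XT.lf (nat_lit 84) (nat_lit 1033009040) (nat_lit 0) (nat_lit 1285610141) (nat_lit 1260) (nat_lit 14195142248) (nat_lit 160) (nat_lit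 5) (nat_lit 159) (nat_lit 3) (nat_lit 174) (nat_lit 5) (nat_lit 241) (nat_lit 240) (nat_lit 119))))))) (XT.nd (nat_lit 1128) (nat_lit 3108) (nat_lit 0) (XT.nd (nat_lit 564) (nat_lit 0) (nat_lit 252) (XT.nd (nat_lit 282) (nat_lit 0) (nat_lit 84) (XT.nd (nat_lit 94) (nat_lit 0) (nat_lit 0) (XT.lf (nat_lit 0) (nat_lit 2778072097) (nat_lit 1176) (nat_lit 7247439555) (nat_lit 1260) (nat_lit 6767574688) (nat_lit 160) (nat_lit 5) (nat_lit 174) (nat_lit 5) (nat_lit 175) (nat_lit 5) (nat_lit 242) (nat_lit 240) (nat_lit 118)) (XT.nd (nat_lit 94) (nat_lit 0) (nat_lit 84) (XT.lf (nat_lit 84) (nat_lit 1281972375) (nat_lit 0) (nat_lit 1989668962) (nat_lit 1260) (nat_lit 13809915045) (nat_lit 161) (nat_lit 5) (nat_lit 160) (nat_lit 5) (nat_lit 175) (nat_lit 5) (nat_lit 243) (nat_lit 240) (nat_lit 117)) (XT.lf (nat_lit 0) (nat_lit 3928771505) (nat_lit 1176) (nat_lit 7171339763) (nat_lit 1260) (nat_lit 6274891595)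 (nat_lit 161) (nat_lit 5) (nat_lit 175) (nat_lit 5) (nat_lit 176) (nat_lit 5) (nat_lit 244) (nat_lit 240) (nat_lit 116)))) (XT.nd (nat_lit 94) (nat_lit 0) (nat_lit 84) (XT.lf (nat_lit 84) (nat_lit 1769634119) (nat_lit 0) (nat_lit 2871573446) (nat_lit 1260) (nat_lit 13036381685) (nat_lit 162) (nat_lit 5) (nat_lit 161) (nat_lit 5) (nat_lit 176) (nat_lit 5) (nat_lit 245) (nat_lit 240) (nat_lit 115)) (XT.nd (nat_lit 94) (nat_lit 0) (nat_lit 0) (XT.lf (nat_lit 0) (nat_lit 5517035570) (nat_lit 1176) (nat_lit 6862694241) (nat_lit 1260) (nat_lit 5606190367) (nat_lit 162) (nat_lit 5) (nat_lit 176) (nat_lit 5) (nat_lit 177) (nat_lit 5) (nat_lit 246) (nat_lit 240) (nat_lit 114)) (XT.lf (nat_lit 84) (nat_lit 2516565717) (nat_lit 0) (nat_lit 3958410842) (nat_lit 1260) (nat_lit 11828265063) (nat_lit 163) (nat_lit 5) (nat_lit 162) (nat_lit 5) (nat_lit 177) (nat_lit 5) (nat_lit 247) (nat_lit 240) (nat_lit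 113))))) (XT.nd (nat_lit 282) (nat_lit 0) (nat_lit 84) (XT.nd (nat_lit 94) (nat_lit 0) (nat_lit 0) (XT.lf (nat_lit 0) (nat_lit 7591960289) (nat_lit 1176) (nat_lit 6300710564) (nat_lit 1260) (nat_lit 4734605445) (nat_lit 163) (nat_lit 5) (nat_lit 177) (nat_lit 5) (nat_lit 178) (nat_lit 5) (nat_lit 248) (nat_lit 240) (nat_lit 112)) (XT.nd (nat_lit 94) (nat_lit 0) (nat_lit 84) (XT.lf (nat_lit 84) (nat_lit 3545414797) (nat_lit 0) (nat_lit 5278687107) (nat_lit 1260) (nat_lit 10135888064) (nat_lit 164) (nat_lit 5) (nat_lit 163) (nat_lit 5) (nat_lit 178) (nat_lit 5) (nat_lit 249) (nat_lit 240) (nat_lit 111)) (XT.lf (nat_lit 0) (nat_lit 10206265659) (nat_lit 1176) (nat_lit 5462526576) (nat_lit 1260) (nat_lit 3631814979) (nat_lit 164) (nat_lit 5) (nat_lit 178) (nat_lit 5) (nat_lit 179) (nat_lit 5) (nat_lit 250) (nat_lit 240) (nat_lit 110)))) (XT.nd (nat_lit 94) (nat_lit 0) (nat_lit 84) (XT.lf (nat_lit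 84) (nat_lit 4881024152) (nat_lit 0) (nat_lit 6862510976) (nat_lit 1260) (nat_lit 7905875388) (nat_lit 165) (nat_lit 5) (nat_lit 164) (nat_lit 5) (nat_lit 179) (nat_lit 5) (nat_lit 251) (nat_lit 240) (nat_lit 109)) (XT.nd (nat_lit 94) (nat_lit 0) (nat_lit 0) (XT.lf (nat_lit 0) (nat_lit 13416606054) (nat_lit 1176) (nat_lit 4323088147) (nat_lit 1260) (nat_lit 2267857835) (nat_lit 165) (nat_lit 5) (nat_lit 179) (nat_lit 5) (nat_lit 180) (nat_lit 5) (nat_lit 252) (nat_lit 240) (nat_lit 108)) (XT.lf (nat_lit 84) (nat_lit 6550563187) (nat_lit 0) (nat_lit 8741784116) (nat_lit 1260) (nat_lit 5080837257) (nat_lit 166) (nat_lit 5) (nat_lit 165) (nat_lit 5) (nat_lit 180) (nat_lit 5) (nat_lit 253) (nat_lit 240) (nat_lit 107)))))) (XT.nd (nat_lit 564) (nat_lit 1092) (nat_lit 0) (XT.nd (nat_lit 282) (nat_lit 1260) (nat_lit 0) (XT.nd (nat_lit 94) (nat_lit 1260) (nat_lit 0) (XT.lf (nat_lit 0) (nat_lit 17283899893)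 (nat_lit 1176) (nat_lit 2855014541) (nat_lit 84) (nat_lit 610944174) (nat_lit 166) (nat_lit 5) (nat_lit 180) (nat_lit 5) (nat_lit 167) (nat_lit 5) (nat_lit 254) (nat_lit 240) (nat_lit 106)) (XT.nd (nat_lit 94) (nat_lit 84) (nat_lit 0) (XT.lf (nat_lit 0) (nat_lit 8583672397) (nat_lit 1176) (nat_lit 10950398508) (nat_lit 1260) (nat_lit 1599033351) (nat_lit 152) (nat_lit 5) (nat_lit 166) (nat_lit 5) (nat_lit 167) (nat_lit 5) (nat_lit 255) (nat_lit 240) (nat_lit 105)) (XT.lf (nat_lit 0) (nat_lit 352314797) (nat_lit 1260) (nat_lit 1048117582) (nat_lit 84) (nat_lit 20128268901) (nat_lit 151) (nat_lit 5) (nat_lit 166) (nat_lit 5) (nat_lit 152) (nat_lit 5) (nat_lit 256) (nat_lit 240) (nat_lit 104)))) (XT.nd (nat_lit 94) (nat_lit 588) (nat_lit 0) (XT.lf (nat_lit 0) (nat_lit 2546896001) (nat_lit 756) (nat_lit 10947493713) (nat_lit 84) (nat_lit 8435672913) (nat_lit 143) (nat_lit 5) (nat_lit 152) (nat_lit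 5) (nat_lit 144) (nat_lit 5) (nat_lit 257) (nat_lit 240) (nat_lit 103)) (XT.nd (nat_lit 94) (nat_lit 0) (nat_lit 0) (XT.lf (nat_lit 0) (nat_lit 1116836561) (nat_lit 588) (nat_lit 3735544756) (nat_lit 672) (nat_lit 17491897024) (nat_lit 136) (nat_lit 5) (nat_lit 143) (nat_lit 5) (nat_lit 144) (nat_lit 5) (nat_lit 258) (nat_lit 240) (nat_lit 102)) (XT.lf (nat_lit 0) (nat_lit 7433299949) (nat_lit 672) (nat_lit 8981404541) (nat_lit 84) (nat_lit 6351471167) (nat_lit 136) (nat_lit 5) (nat_lit 144) (nat_lit 5) (nat_lit 137) (nat_lit 5) (nat_lit 259) (nat_lit 240) (nat_lit 101))))) (XT.nd (nat_lit 35908) (nat_lit 0) (nat_lit 3024) (XT.nd (nat_lit 94) (nat_lit 504) (nat_lit 0) (XT.lf (nat_lit 0) (nat_lit 3728108474) (nat_lit 588) (nat_lit 6454448154) (nat_lit 672) (nat_lit 13017552544) (nat_lit 129) (nat_lit 5) (nat_lit 136) (nat_lit 5) (nat_lit 137) (nat_lit 5) (nat_lit 260) (nat_lit 240) (nat_lit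 100)) (XT.nd (nat_lit 94) (nat_lit 504) (nat_lit 0) (XT.lf (nat_lit 0) (nat_lit 13171721996) (nat_lit 672) (nat_lit 6598310170) (nat_lit 84) (nat_lit 3874169232) (nat_lit 129) (nat_lit 5) (nat_lit 137) (nat_lit 5) (nat_lit 130) (nat_lit 5) (nat_lit 261) (nat_lit 240) (nat_lit 99)) (XT.lf (nat_lit 0) (nat_lit 6799181083) (nat_lit 504) (nat_lit 9610274986) (nat_lit 588) (nat_lit 7689342604) (nat_lit 123) (nat_lit 5) (nat_lit 129) (nat_lit 5) (nat_lit 130) (nat_lit 5) (nat_lit 262) (nat_lit 240) (nat_lit 98)))) (XT.nd (nat_lit 94) (nat_lit 0) (nat_lit 0) (XT.lf (nat_lit 0) (nat_lit 1294708412) (nat_lit 1260) (nat_lit 3550070721) (nat_lit 1260) (nat_lit 3550070721) (nat_lit 159) (nat_lit 3) (nat_lit 174) (nat_lit 3) (nat_lit 174) (nat_lit 5) (nat_lit 241) (nat_lit 241) (nat_lit 118)) (XT.nd (nat_lit 94) (nat_lit 0) (nat_lit 84) (XT.lf (nat_lit 84) (nat_lit 1324746069) (nat_lit 0) (nat_lit 1560551900)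 (nat_lit 1260) (nat_lit 14189451662) (nat_lit 160) (nat_lit 5) (nat_lit 159) (nat_lit 3) (nat_lit 174) (nat_lit 5) (nat_lit 242) (nat_lit 241) (nat_lit 117)) (XT.lf (nat_lit 0) (nat_lit 3341937499) (nat_lit 1176) (nat_lit 7235266850) (nat_lit 1260) (nat_lit 6787307862) (nat_lit 160) (nat_lit 5) (nat_lit 174) (nat_lit 5) (nat_lit 175) (nat_lit 5) (nat_lit 243) (nat_lit 241) (nat_lit 116))))))))
noncomputable def xc59 : XT := (XT.nd (nat_lit 37882) (nat_lit 0) (nat_lit 0) (XT.nd (nat_lit 1034) (nat_lit 2604) (nat_lit 0) (XT.nd (nat_lit 470) (nat_lit 0) (nat_lit 252) (XT.nd (nat_lit 188) (nat_lit 0) (nat_lit 84) (XT.nd (nat_lit 94) (nat_lit 0) (nat_lit 84) (XT.lf (nat_lit 84) (nat_lit 1589643827) (nat_lit 0) (nat_lit 2250286163) (nat_lit 1260) (nat_lit 13823598522) (nat_lit 161) (nat_lit 5) (nat_lit 160) (nat_lit 5) (nat_lit 175) (nat_lit 5) (nat_lit 244) (nat_lit 241) (nat_lit 115)) (XT.lf (nat_lit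 0) (nat_lit 4502658500) (nat_lit 1176) (nat_lit 7151020060) (nat_lit 1260) (nat_lit 6314176103) (nat_lit 161) (nat_lit 5) (nat_lit 175) (nat_lit 5) (nat_lit 176) (nat_lit 5) (nat_lit 245) (nat_lit 241) (nat_lit 114))) (XT.nd (nat_lit 94) (nat_lit 0) (nat_lit 84) (XT.lf (nat_lit 84) (nat_lit 2099794722) (nat_lit 0) (nat_lit 3128466875) (nat_lit 1260) (nat_lit 13053181865) (nat_lit 162) (nat_lit 5) (nat_lit 161) (nat_lit 5) (nat_lit 176) (nat_lit 5) (nat_lit 246) (nat_lit 241) (nat_lit 113)) (XT.nd (nat_lit 94) (nat_lit 0) (nat_lit 0) (XT.lf (nat_lit 0) (nat_lit 6118701152) (nat_lit 1176) (nat_lit 6827693058) (nat_lit 1260) (nat_lit 5654733247) (nat_lit 162) (nat_lit 5) (nat_lit 176) (nat_lit 5) (nat_lit 177) (nat_lit 5) (nat_lit 247) (nat_lit 241) (nat_lit 112)) (XT.lf (nat_lit 84) (nat_lit 2876703590) (nat_lit 0) (nat_lit 4222681443) (nat_lit 1260) (nat_lit 11830547595) (nat_lit 163) (nat_lit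 5) (nat_lit 162) (nat_lit 5) (nat_lit 177) (nat_lit 5) (nat_lit 248) (nat_lit 241) (nat_lit 111))))) (XT.nd (nat_lit 282) (nat_lit 0) (nat_lit 84) (XT.nd (nat_lit 94) (nat_lit 0) (nat_lit 0) (XT.lf (nat_lit 0) (nat_lit 8240658063) (nat_lit 1176) (nat_lit 6243572261) (nat_lit 1260) (nat_lit 4781596374) (nat_lit 163) (nat_lit 5) (nat_lit 177) (nat_lit 5) (nat_lit 178) (nat_lit 5) (nat_lit 249) (nat_lit 241) (nat_lit 110)) (XT.nd (nat_lit 94) (nat_lit 0) (nat_lit 84) (XT.lf (nat_lit 84) (nat_lit 3944001947) (nat_lit 0) (nat_lit 5562030195) (nat_lit 1260) (nat_lit 10104499442) (nat_lit 164) (nat_lit 5) (nat_lit 163) (nat_lit 5) (nat_lit 178) (nat_lit 5) (nat_lit 250) (nat_lit 241) (nat_lit 109)) (XT.lf (nat_lit 0) (nat_lit 10922893824) (nat_lit 1176) (nat_lit 5374822099) (nat_lit 1260) (nat_lit 3665833234) (nat_lit 164) (nat_lit 5) (nat_lit 178) (nat_lit 5) (nat_lit 179) (nat_lit 5) (nat_lit 251)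 (nat_lit 241) (nat_lit 108)))) (XT.nd (nat_lit 94) (nat_lit 0) (nat_lit 84) (XT.lf (nat_lit 84) (nat_lit 5327573344) (nat_lit 0) (nat_lit 7177312497) (nat_lit 1260) (nat_lit 7819992598) (nat_lit 165) (nat_lit 5) (nat_lit 164) (nat_lit 5) (nat_lit 179) (nat_lit 5) (nat_lit 252) (nat_lit 241) (nat_lit 107)) (XT.nd (nat_lit 94) (nat_lit 0) (nat_lit 0) (XT.lf (nat_lit 0) (nat_lit 14223864200) (nat_lit 1176) (nat_lit 4195356476) (nat_lit 1260) (nat_lit 2276776988) (nat_lit 165) (nat_lit 5) (nat_lit 179) (nat_lit 5) (nat_lit 180) (nat_lit 5) (nat_lit 253) (nat_lit 241) (nat_lit 106)) (XT.lf (nat_lit 84) (nat_lit 7055691420) (nat_lit 0) (nat_lit 9101219604) (nat_lit 1260) (nat_lit 4917808392) (nat_lit 166) (nat_lit 5) (nat_lit 165) (nat_lit 5) (nat_lit 180) (nat_lit 5) (nat_lit 254) (nat_lit 241) (nat_lit 105)))))) (XT.nd (nat_lit 564) (nat_lit 588) (nat_lit 0) (XT.nd (nat_lit 282) (nat_lit 1260)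 (nat_lit 0) (XT.nd (nat_lit 94) (nat_lit 1260) (nat_lit 0) (XT.lf (nat_lit 0) (nat_lit 18206455481) (nat_lit 1176) (nat_lit 2676697605) (nat_lit 84) (nat_lit 581833905) (nat_lit 166) (nat_lit 5) (nat_lit 180) (nat_lit 5) (nat_lit 167) (nat_lit 5) (nat_lit 255) (nat_lit 241) (nat_lit 104)) (XT.nd (nat_lit 94) (nat_lit 84) (nat_lit 0) (XT.lf (nat_lit 0) (nat_lit 9159171230) (nat_lit 1176) (nat_lit 11368535380) (nat_lit 1260) (nat_lit 1334208282) (nat_lit 152) (nat_lit 5) (nat_lit 166) (nat_lit 5) (nat_lit 167) (nat_lit 5) (nat_lit 256) (nat_lit 241) (nat_lit 103)) (XT.lf (nat_lit 0) (nat_lit 667561301) (nat_lit 1260) (nat_lit 812005554) (nat_lit 84) (nat_lit 20792036927) (nat_lit 151) (nat_lit 5) (nat_lit 166) (nat_lit 5) (nat_lit 152) (nat_lit 5) (nat_lit 257) (nat_lit 241) (nat_lit 102)))) (XT.nd (nat_lit 94) (nat_lit 588) (nat_lit 0) (XT.lf (nat_lit 0) (nat_lit 2931424618) (nat_lit 756) (nat_lit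 11050331621) (nat_lit 84) (nat_lit 8705520027) (nat_lit 143) (nat_lit 5) (nat_lit 152) (nat_lit 5) (nat_lit 144) (nat_lit 5) (nat_lit 258) (nat_lit 241) (nat_lit 101)) (XT.nd (nat_lit 94) (nat_lit 0) (nat_lit 0) (XT.lf (nat_lit 0) (nat_lit 1433054332) (nat_lit 588) (nat_lit 3877646454) (nat_lit 672) (nat_lit 17805530282) (nat_lit 136) (nat_lit 5) (nat_lit 143) (nat_lit 5) (nat_lit 144) (nat_lit 5) (nat_lit 259) (nat_lit 241) (nat_lit 100)) (XT.lf (nat_lit 0) (nat_lit 7972073732) (nat_lit 672) (nat_lit 9018118864) (nat_lit 84) (nat_lit 6563047919) (nat_lit 136) (nat_lit 5) (nat_lit 144) (nat_lit 5) (nat_lit 137) (nat_lit 5) (nat_lit 260) (nat_lit 241) (nat_lit 99))))) (XT.nd (nat_lit 36002) (nat_lit 0) (nat_lit 2520) (XT.nd (nat_lit 94) (nat_lit 0) (nat_lit 0) (XT.lf (nat_lit 0) (nat_lit 4133061889) (nat_lit 588) (nat_lit 6678129153) (nat_lit 672) (nat_lit 13191393380) (nat_lit 129) (nat_lit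 5) (nat_lit 136) (nat_lit 5) (nat_lit 137) (nat_lit 5) (nat_lit 261) (nat_lit 241) (nat_lit 98)) (XT.nd (nat_lit 35814) (nat_lit 0) (nat_lit 2520) (XT.lf (nat_lit 0) (nat_lit 13895794795) (nat_lit 672) (nat_lit 6554880589) (nat_lit 84) (nat_lit 4011865874) (nat_lit 129) (nat_lit 5) (nat_lit 137) (nat_lit 5) (nat_lit 130) (nat_lit 5) (nat_lit 262) (nat_lit 241) (nat_lit 97)) (XT.lf (nat_lit 0) (nat_lit 1573201653) (nat_lit 1260) (nat_lit 3553653349) (nat_lit 1260) (nat_lit 3553653349) (nat_lit 159) (nat_lit 3) (nat_lit 174) (nat_lit 3) (nat_lit 174) (nat_lit 5) (nat_lit 242) (nat_lit 242) (nat_lit 116)))) (XT.nd (nat_lit 94) (nat_lit 0) (nat_lit 84) (XT.lf (nat_lit 84) (nat_lit 1609700444) (nat_lit 0) (nat_lit 1829827711) (nat_lit 1260) (nat_lit 14216974146) (nat_lit 160) (nat_lit 5) (nat_lit 159) (nat_lit 3) (nat_lit 174) (nat_lit 5) (nat_lit 243) (nat_lit 242) (nat_lit 115)) (XT.nd (nat_lit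 94) (nat_lit 0) (nat_lit 0) (XT.lf (nat_lit 0) (nat_lit 3894512097) (nat_lit 1176) (nat_lit 7240343156) (nat_lit 1260) (nat_lit 6822168648) (nat_lit 160) (nat_lit 5) (nat_lit 174) (nat_lit 5) (nat_lit 175) (nat_lit 5) (nat_lit 244) (nat_lit 242) (nat_lit 114)) (XT.lf (nat_lit 84) (nat_lit 1890610231) (nat_lit 0) (nat_lit 2507326921) (nat_lit 1260) (nat_lit 13868988522) (nat_lit 161) (nat_lit 5) (nat_lit 160) (nat_lit 5) (nat_lit 175) (nat_lit 5) (nat_lit 245) (nat_lit 242) (nat_lit 113))))))) (XT.nd (nat_lit 1128) (nat_lit 1932) (nat_lit 0) (XT.nd (nat_lit 564) (nat_lit 756) (nat_lit 0) (XT.nd (nat_lit 282) (nat_lit 0) (nat_lit 84) (XT.nd (nat_lit 94) (nat_lit 0) (nat_lit 0) (XT.lf (nat_lit 0) (nat_lit 5067616940) (nat_lit 1176) (nat_lit 7148028818) (nat_lit 1260) (nat_lit 6366826030) (nat_lit 161) (nat_lit 5) (nat_lit 175) (nat_lit 5) (nat_lit 176) (nat_lit 5) (nat_lit 246) (nat_lit 242)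 (nat_lit 112)) (XT.nd (nat_lit 94) (nat_lit 0) (nat_lit 84) (XT.lf (nat_lit 84) (nat_lit 2423676960) (nat_lit 0) (nat_lit 3383953421) (nat_lit 1260) (nat_lit 13099790316) (nat_lit 162) (nat_lit 5) (nat_lit 161) (nat_lit 5) (nat_lit 176) (nat_lit 5) (nat_lit 247) (nat_lit 242) (nat_lit 111)) (XT.lf (nat_lit 0) (nat_lit 6714259541) (nat_lit 1176) (nat_lit 6809764389) (nat_lit 1260) (nat_lit 5714793854) (nat_lit 162) (nat_lit 5) (nat_lit 176) (nat_lit 5) (nat_lit 177) (nat_lit 5) (nat_lit 248) (nat_lit 242) (nat_lit 110)))) (XT.nd (nat_lit 94) (nat_lit 0) (nat_lit 84) (XT.lf (nat_lit 84) (nat_lit 3231357339) (nat_lit 0) (nat_lit 4487842067) (nat_lit 1260) (nat_lit 11860284109) (nat_lit 163) (nat_lit 5) (nat_lit 162) (nat_lit 5) (nat_lit 177) (nat_lit 5) (nat_lit 249) (nat_lit 242) (nat_lit 109)) (XT.nd (nat_lit 94) (nat_lit 0) (nat_lit 0) (XT.lf (nat_lit 0) (nat_lit 8886596243) (nat_lit 1176)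 (nat_lit 6202895747) (nat_lit 1260) (nat_lit 4838125613) (nat_lit 163) (nat_lit 5) (nat_lit 177) (nat_lit 5) (nat_lit 178) (nat_lit 5) (nat_lit 250) (nat_lit 242) (nat_lit 108)) (XT.lf (nat_lit 84) (nat_lit 4338288492) (nat_lit 0) (nat_lit 5848735175) (nat_lit 1260) (nat_lit 10097686708) (nat_lit 164) (nat_lit 5) (nat_lit 163) (nat_lit 5) (nat_lit 178) (nat_lit 5) (nat_lit 251) (nat_lit 242) (nat_lit 107))))) (XT.nd (nat_lit 282) (nat_lit 1008) (nat_lit 0) (XT.nd (nat_lit 94) (nat_lit 0) (nat_lit 0) (XT.lf (nat_lit 0) (nat_lit 11640707131) (nat_lit 1176) (nat_lit 5302591359) (nat_lit 1260) (nat_lit 3707231967) (nat_lit 164) (nat_lit 5) (nat_lit 178) (nat_lit 5) (nat_lit 179) (nat_lit 5) (nat_lit 252) (nat_lit 242) (nat_lit 106)) (XT.nd (nat_lit 94) (nat_lit 0) (nat_lit 84) (XT.lf (nat_lit 84) (nat_lit 5771419770) (nat_lit 0) (nat_lit 7498171063) (nat_lit 1260) (nat_lit 7755212162) (nat_lit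 165) (nat_lit 5) (nat_lit 164) (nat_lit 5) (nat_lit 179) (nat_lit 5) (nat_lit 253) (nat_lit 242) (nat_lit 105)) (XT.lf (nat_lit 0) (nat_lit 15036924479) (nat_lit 1176) (nat_lit 4081707355) (nat_lit 1260) (nat_lit 2290692873) (nat_lit 165) (nat_lit 5) (nat_lit 179) (nat_lit 5) (nat_lit 180) (nat_lit 5) (nat_lit 254) (nat_lit 242) (nat_lit 104)))) (XT.nd (nat_lit 94) (nat_lit 1092) (nat_lit 0) (XT.lf (nat_lit 84) (nat_lit 7560157500) (nat_lit 0) (nat_lit 9469679948) (nat_lit 1260) (nat_lit 4771736937) (nat_lit 166) (nat_lit 5) (nat_lit 165) (nat_lit 5) (nat_lit 180) (nat_lit 5) (nat_lit 255) (nat_lit 242) (nat_lit 103)) (XT.nd (nat_lit 94) (nat_lit 1176) (nat_lit 0) (XT.lf (nat_lit 0) (nat_lit 19140182244) (nat_lit 1176) (nat_lit 2510639721) (nat_lit 84) (nat_lit 555062042) (nat_lit 166) (nat_lit 5) (nat_lit 180) (nat_lit 5) (nat_lit 167) (nat_lit 5) (nat_lit 256) (nat_lit 242) (nat_lit 102))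 (XT.lf (nat_lit 0) (nat_lit 9736523292) (nat_lit 1176) (nat_lit 11798988367) (nat_lit 1260) (nat_lit 1081443519) (nat_lit 152) (nat_lit 5) (nat_lit 166) (nat_lit 5) (nat_lit 167) (nat_lit 5) (nat_lit 257) (nat_lit 242) (nat_lit 101)))))) (XT.nd (nat_lit 36378) (nat_lit 0) (nat_lit 2520) (XT.nd (nat_lit 282) (nat_lit 588) (nat_lit 0) (XT.nd (nat_lit 94) (nat_lit 1260) (nat_lit 0) (XT.lf (nat_lit 0) (nat_lit 973700794) (nat_lit 1260) (nat_lit 585767629) (nat_lit 84) (nat_lit 21481744372) (nat_lit 151) (nat_lit 5) (nat_lit 166) (nat_lit 5) (nat_lit 152) (nat_lit 5) (nat_lit 258) (nat_lit 242) (nat_lit 100)) (XT.nd (nat_lit 94) (nat_lit 588) (nat_lit 0) (XT.lf (nat_lit 0) (nat_lit 3309771645) (nat_lit 756) (nat_lit 11175407426) (nat_lit 84) (nat_lit 8986500713) (nat_lit 143) (nat_lit 5) (nat_lit 152) (nat_lit 5) (nat_lit 144) (nat_lit 5) (nat_lit 259) (nat_lit 242) (nat_lit 99)) (XT.lf (nat_lit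 0) (nat_lit 1741913647) (nat_lit 588) (nat_lit 4023966550) (nat_lit 672) (nat_lit 18149993288) (nat_lit 136) (nat_lit 5) (nat_lit 143) (nat_lit 5) (nat_lit 144) (nat_lit 5) (nat_lit 260) (nat_lit 242) (nat_lit 98)))) (XT.nd (nat_lit 94) (nat_lit 588) (nat_lit 0) (XT.lf (nat_lit 0) (nat_lit 8511180128) (nat_lit 672) (nat_lit 9074577935) (nat_lit 84) (nat_lit 6782742937) (nat_lit 136) (nat_lit 5) (nat_lit 144) (nat_lit 5) (nat_lit 137) (nat_lit 5) (nat_lit 261) (nat_lit 242) (nat_lit 97)) (XT.nd (nat_lit 35908) (nat_lit 0) (nat_lit 2520) (XT.lf (nat_lit 0) (nat_lit 4533939380) (nat_lit 588) (nat_lit 6909786904) (nat_lit 672) (nat_lit 13390053569) (nat_lit 129) (nat_lit 5) (nat_lit 136) (nat_lit 5) (nat_lit 137) (nat_lit 5) (nat_lit 262) (nat_lit 242) (nat_lit 96)) (XT.lf (nat_lit 0) (nat_lit 1845938287) (nat_lit 1260) (nat_lit 3565384624) (nat_lit 1260) (nat_lit 3565384624) (nat_lit 159) (nat_lit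 3) (nat_lit 174) (nat_lit 3) (nat_lit 174) (nat_lit 5) (nat_lit 243) (nat_lit 243) (nat_lit 114))))) (XT.nd (nat_lit 282) (nat_lit 0) (nat_lit 168) (XT.nd (nat_lit 94) (nat_lit 0) (nat_lit 84) (XT.lf (nat_lit 84) (nat_lit 1888764656) (nat_lit 0) (nat_lit 2094255815) (nat_lit 1260) (nat_lit 14276650601) (nat_lit 160) (nat_lit 5) (nat_lit 159) (nat_lit 3) (nat_lit 174) (nat_lit 5) (nat_lit 244) (nat_lit 243) (nat_lit 113)) (XT.nd (nat_lit 94) (nat_lit 0) (nat_lit 0) (XT.lf (nat_lit 0) (nat_lit 4437463616) (nat_lit 1176) (nat_lit 7262096987) (nat_lit 1260) (nat_lit 6871726609) (nat_lit 160) (nat_lit 5) (nat_lit 174) (nat_lit 5) (nat_lit 175) (nat_lit 5) (nat_lit 245) (nat_lit 243) (nat_lit 112)) (XT.lf (nat_lit 84) (nat_lit 2185798714) (nat_lit 0) (nat_lit 2761510344) (nat_lit 1260) (nat_lit 13945118471) (nat_lit 161) (nat_lit 5) (nat_lit 160) (nat_lit 5) (nat_lit 175) (nat_lit 5) (nat_lit 246)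 (nat_lit 243) (nat_lit 111)))) (XT.nd (nat_lit 94) (nat_lit 0) (nat_lit 0) (XT.lf (nat_lit 0) (nat_lit 5625263486) (nat_lit 1176) (nat_lit 7161773089) (nat_lit 1260) (nat_lit 6432511927) (nat_lit 161) (nat_lit 5) (nat_lit 175) (nat_lit 5) (nat_lit 176) (nat_lit 5) (nat_lit 247) (nat_lit 243) (nat_lit 110)) (XT.nd (nat_lit 94) (nat_lit 0) (nat_lit 84) (XT.lf (nat_lit 84) (nat_lit 2742246858) (nat_lit 0) (nat_lit 3638675210) (nat_lit 1260) (nat_lit 13175307491) (nat_lit 162) (nat_lit 5) (nat_lit 161) (nat_lit 5) (nat_lit 176) (nat_lit 5) (nat_lit 248) (nat_lit 243) (nat_lit 109)) (XT.lf (nat_lit 0) (nat_lit 7305303199) (nat_lit 1176) (nat_lit 6808289179) (nat_lit 1260) (nat_lit 5786122468) (nat_lit 162) (nat_lit 5) (nat_lit 176) (nat_lit 5) (nat_lit 177) (nat_lit 5) (nat_lit 249) (nat_lit 243) (nat_lit 108))))))))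
noncomputable def xc60 : XT := (XT.nd (nat_lit 38070) (nat_lit 0) (nat_lit 0) (XT.nd (nat_lit 1034) (nat_lit 588) (nat_lit 0) (XT.nd (nat_lit 470) (nat_lit 1596) (nat_lit 0) (XT.nd (nat_lit 188) (nat_lit 0) (nat_lit 84) (XT.nd (nat_lit 94) (nat_lit 0) (nat_lit 84) (XT.lf (nat_lit 84) (nat_lit 3581537739) (nat_lit 0) (nat_lit 4754479678) (nat_lit 1260) (nat_lit 11916615409) (nat_lit 163) (nat_lit 5) (nat_lit 162) (nat_lit 5) (nat_lit 177) (nat_lit 5) (nat_lit 250) (nat_lit 243) (nat_lit 107)) (XT.lf (nat_lit 0) (nat_lit 9531371327) (nat_lit 1176) (nat_lit 6178029684) (nat_lit 1260) (nat_lit 4904002161) (nat_lit 163) (nat_lit 5) (nat_lit 177) (nat_lit 5) (nat_lit 178) (nat_lit 5) (nat_lit 251) (nat_lit 243) (nat_lit 106))) (XT.nd (nat_lit 94) (nat_lit 0) (nat_lit 84) (XT.lf (nat_lit 84) (nat_lit 4729337417) (nat_lit 0) (nat_lit 6139355558) (nat_lit 1260) (nat_lit 10114602942) (nat_lit 164) (nat_lit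 5) (nat_lit 163) (nat_lit 5) (nat_lit 178) (nat_lit 5) (nat_lit 252) (nat_lit 243) (nat_lit 105)) (XT.nd (nat_lit 94) (nat_lit 0) (nat_lit 0) (XT.lf (nat_lit 0) (nat_lit 12361335945) (nat_lit 1176) (nat_lit 5245143000) (nat_lit 1260) (nat_lit 3755857936) (nat_lit 164) (nat_lit 5) (nat_lit 178) (nat_lit 5) (nat_lit 179) (nat_lit 5) (nat_lit 253) (nat_lit 243) (nat_lit 104)) (XT.lf (nat_lit 84) (nat_lit 6213687715) (nat_lit 0) (nat_lit 7825628524) (nat_lit 1260) (nat_lit 7710669720) (nat_lit 165) (nat_lit 5) (nat_lit 164) (nat_lit 5) (nat_lit 179) (nat_lit 5) (nat_lit 254) (nat_lit 243) (nat_lit 103))))) (XT.nd (nat_lit 282) (nat_lit 1848) (nat_lit 0) (XT.nd (nat_lit 94) (nat_lit 0) (nat_lit 0) (XT.lf (nat_lit 0) (nat_lit 15857482776) (nat_lit 1176) (nat_lit 3981400086) (nat_lit 1260) (nat_lit 2309468902) (nat_lit 165) (nat_lit 5) (nat_lit 179) (nat_lit 5) (nat_lit 180) (nat_lit 5) (nat_lit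 255) (nat_lit 243) (nat_lit 102)) (XT.nd (nat_lit 94) (nat_lit 0) (nat_lit 84) (XT.lf (nat_lit 84) (nat_lit 8065157777) (nat_lit 0) (nat_lit 9847717415) (nat_lit 1260) (nat_lit 4641709527) (nat_lit 166) (nat_lit 5) (nat_lit 165) (nat_lit 5) (nat_lit 180) (nat_lit 5) (nat_lit 256) (nat_lit 243) (nat_lit 101)) (XT.lf (nat_lit 0) (nat_lit 20086875312) (nat_lit 1176) (nat_lit 2356039896) (nat_lit 84) (nat_lit 530487207) (nat_lit 166) (nat_lit 5) (nat_lit 180) (nat_lit 5) (nat_lit 167) (nat_lit 5) (nat_lit 257) (nat_lit 243) (nat_lit 100)))) (XT.nd (nat_lit 94) (nat_lit 756) (nat_lit 0) (XT.lf (nat_lit 0) (nat_lit 10317009482) (nat_lit 1176) (nat_lit 12242342698) (nat_lit 1260) (nat_lit 839743012) (nat_lit 152) (nat_lit 5) (nat_lit 166) (nat_lit 5) (nat_lit 167) (nat_lit 5) (nat_lit 258) (nat_lit 243) (nat_lit 99)) (XT.nd (nat_lit 94) (nat_lit 672) (nat_lit 0) (XT.lf (nat_lit 0) (nat_lit 1271753668)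 (nat_lit 1260) (nat_lit 368543417) (nat_lit 84) (nat_lit 22198119091) (nat_lit 151) (nat_lit 5) (nat_lit 166) (nat_lit 5) (nat_lit 152) (nat_lit 5) (nat_lit 259) (nat_lit 243) (nat_lit 98)) (XT.lf (nat_lit 0) (nat_lit 3683026582) (nat_lit 756) (nat_lit 11322260190) (nat_lit 84) (nat_lit 9278892351) (nat_lit 143) (nat_lit 5) (nat_lit 152) (nat_lit 5) (nat_lit 144) (nat_lit 5) (nat_lit 260) (nat_lit 243) (nat_lit 97)))))) (XT.nd (nat_lit 36472) (nat_lit 0) (nat_lit 2100) (XT.nd (nat_lit 36190) (nat_lit 0) (nat_lit 1932) (XT.nd (nat_lit 94) (nat_lit 0) (nat_lit 0) (XT.lf (nat_lit 0) (nat_lit 2044382095) (nat_lit 588) (nat_lit 4174702899) (nat_lit 672) (nat_lit 18525045098) (nat_lit 136) (nat_lit 5) (nat_lit 143) (nat_lit 5) (nat_lit 144) (nat_lit 5) (nat_lit 261) (nat_lit 243) (nat_lit 96)) (XT.nd (nat_lit 36002) (nat_lit 0) (nat_lit 1932) (XT.lf (nat_lit 0) (nat_lit 9051862457) (nat_lit 672)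 (nat_lit 9150245443) (nat_lit 84) (nat_lit 7010792949) (nat_lit 136) (nat_lit 5) (nat_lit 144) (nat_lit 5) (nat_lit 137) (nat_lit 5) (nat_lit 262) (nat_lit 243) (nat_lit 95)) (XT.lf (nat_lit 0) (nat_lit 2113747672) (nat_lit 1260) (nat_lit 3585016286) (nat_lit 1260) (nat_lit 3585016286) (nat_lit 159) (nat_lit 3) (nat_lit 174) (nat_lit 3) (nat_lit 174) (nat_lit 5) (nat_lit 244) (nat_lit 244) (nat_lit 112)))) (XT.nd (nat_lit 94) (nat_lit 0) (nat_lit 84) (XT.lf (nat_lit 84) (nat_lit 2162787307) (nat_lit 0) (nat_lit 2354615502) (nat_lit 1260) (nat_lit 14367532569) (nat_lit 160) (nat_lit 5) (nat_lit 159) (nat_lit 3) (nat_lit 174) (nat_lit 5) (nat_lit 245) (nat_lit 244) (nat_lit 111)) (XT.nd (nat_lit 94) (nat_lit 0) (nat_lit 0) (XT.lf (nat_lit 0) (nat_lit 4972380990) (nat_lit 1176) (nat_lit 7300014992) (nat_lit 1260) (nat_lit 6935600067) (nat_lit 160) (nat_lit 5) (nat_lit 174) (nat_lit 5) (nat_lit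 175) (nat_lit 5) (nat_lit 246) (nat_lit 244) (nat_lit 110)) (XT.lf (nat_lit 84) (nat_lit 2476091606) (nat_lit 0) (nat_lit 3013524573) (nat_lit 1260) (nat_lit 14051126018) (nat_lit 161) (nat_lit 5) (nat_lit 160) (nat_lit 5) (nat_lit 175) (nat_lit 5) (nat_lit 247) (nat_lit 244) (nat_lit 109))))) (XT.nd (nat_lit 282) (nat_lit 0) (nat_lit 84) (XT.nd (nat_lit 94) (nat_lit 0) (nat_lit 0) (XT.lf (nat_lit 0) (nat_lit 6177143113) (nat_lit 1176) (nat_lit 7191718923) (nat_lit 1260) (nat_lit 6510945825) (nat_lit 161) (nat_lit 5) (nat_lit 175) (nat_lit 5) (nat_lit 176) (nat_lit 5) (nat_lit 248) (nat_lit 244) (nat_lit 108)) (XT.nd (nat_lit 94) (nat_lit 0) (nat_lit 84) (XT.lf (nat_lit 84) (nat_lit 3056425414) (nat_lit 0) (nat_lit 3893250873) (nat_lit 1260) (nat_lit 13278931539) (nat_lit 162) (nat_lit 5) (nat_lit 161) (nat_lit 5) (nat_lit 176) (nat_lit 5) (nat_lit 249) (nat_lit 244) (nat_lit 107)) (XT.lf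 (nat_lit 0) (nat_lit 7893360230) (nat_lit 1176) (nat_lit 6822707599) (nat_lit 1260) (nat_lit 5868504037) (nat_lit 162) (nat_lit 5) (nat_lit 176) (nat_lit 5) (nat_lit 177) (nat_lit 5) (nat_lit 250) (nat_lit 244) (nat_lit 106)))) (XT.nd (nat_lit 94) (nat_lit 0) (nat_lit 84) (XT.lf (nat_lit 84) (nat_lit 3928210978) (nat_lit 0) (nat_lit 5023164829) (nat_lit 1260) (nat_lit 11998773246) (nat_lit 163) (nat_lit 5) (nat_lit 162) (nat_lit 5) (nat_lit 177) (nat_lit 5) (nat_lit 251) (nat_lit 244) (nat_lit 105)) (XT.nd (nat_lit 94) (nat_lit 0) (nat_lit 0) (XT.lf (nat_lit 0) (nat_lit 10176523120) (nat_lit 1176) (nat_lit 6168381553) (nat_lit 1260) (nat_lit 4979063227) (nat_lit 163) (nat_lit 5) (nat_lit 177) (nat_lit 5) (nat_lit 178) (nat_lit 5) (nat_lit 252) (nat_lit 244) (nat_lit 104)) (XT.lf (nat_lit 84) (nat_lit 5118168227) (nat_lit 0) (nat_lit 6434435249) (nat_lit 1260) (nat_lit 10154485078) (nat_lit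 164) (nat_lit 5) (nat_lit 163) (nat_lit 5) (nat_lit 178) (nat_lit 5) (nat_lit 253) (nat_lit 244) (nat_lit 103))))))) (XT.nd (nat_lit 37130) (nat_lit 0) (nat_lit 2016) (XT.nd (nat_lit 564) (nat_lit 1344) (nat_lit 0) (XT.nd (nat_lit 282) (nat_lit 1008) (nat_lit 0) (XT.nd (nat_lit 94) (nat_lit 0) (nat_lit 0) (XT.lf (nat_lit 0) (nat_lit 13086362048) (nat_lit 1176) (nat_lit 5201843445) (nat_lit 1260) (nat_lit 3811579902) (nat_lit 164) (nat_lit 5) (nat_lit 178) (nat_lit 5) (nat_lit 179) (nat_lit 5) (nat_lit 254) (nat_lit 244) (nat_lit 102)) (XT.nd (nat_lit 94) (nat_lit 0) (nat_lit 84) (XT.lf (nat_lit 84) (nat_lit 6655459771) (nat_lit 0) (nat_lit 8160223764) (nat_lit 1260) (nat_lit 7685577241) (nat_lit 165) (nat_lit 5) (nat_lit 164) (nat_lit 5) (nat_lit 179) (nat_lit 5) (nat_lit 255) (nat_lit 244) (nat_lit 101)) (XT.lf (nat_lit 0) (nat_lit 16687195077) (nat_lit 1176) (nat_lit 3893750067) (nat_lit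 1260) (nat_lit 2332984417) (nat_lit 165) (nat_lit 5) (nat_lit 179) (nat_lit 5) (nat_lit 180) (nat_lit 5) (nat_lit 256) (nat_lit 244) (nat_lit 100)))) (XT.nd (nat_lit 94) (nat_lit 1092) (nat_lit 0) (XT.lf (nat_lit 84) (nat_lit 8571849384) (nat_lit 0) (nat_lit 10235887880) (nat_lit 1260) (nat_lit 4526881020) (nat_lit 166) (nat_lit 5) (nat_lit 165) (nat_lit 5) (nat_lit 180) (nat_lit 5) (nat_lit 257) (nat_lit 244) (nat_lit 99)) (XT.nd (nat_lit 94) (nat_lit 1176) (nat_lit 0) (XT.lf (nat_lit 0) (nat_lit 21048299283) (nat_lit 1176) (nat_lit 2212150884) (nat_lit 84) (nat_lit 507977914) (nat_lit 166) (nat_lit 5) (nat_lit 180) (nat_lit 5) (nat_lit 167) (nat_lit 5) (nat_lit 258) (nat_lit 244) (nat_lit 98)) (XT.lf (nat_lit 0) (nat_lit 10901874680) (nat_lit 1176) (nat_lit 12699193839) (nat_lit 1260) (nat_lit 608170140) (nat_lit 152) (nat_lit 5) (nat_lit 166) (nat_lit 5) (nat_lit 167) (nat_lit 5) (nat_lit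 259) (nat_lit 244) (nat_lit 97))))) (XT.nd (nat_lit 36284) (nat_lit 0) (nat_lit 1932) (XT.nd (nat_lit 94) (nat_lit 1260) (nat_lit 0) (XT.lf (nat_lit 0) (nat_lit 1562686990) (nat_lit 1260) (nat_lit 159522598) (nat_lit 84) (nat_lit 22941926386) (nat_lit 151) (nat_lit 5) (nat_lit 166) (nat_lit 5) (nat_lit 152) (nat_lit 5) (nat_lit 260) (nat_lit 244) (nat_lit 96)) (XT.nd (nat_lit 94) (nat_lit 588) (nat_lit 0) (XT.lf (nat_lit 0) (nat_lit 4052230236) (nat_lit 756) (nat_lit 11490495239) (nat_lit 84) (nat_lit 9582989497) (nat_lit 143) (nat_lit 5) (nat_lit 152) (nat_lit 5) (nat_lit 144) (nat_lit 5) (nat_lit 261) (nat_lit 244) (nat_lit 95)) (XT.lf (nat_lit 0) (nat_lit 2341379675) (nat_lit 588) (nat_lit 4330056941) (nat_lit 672) (nat_lit 18930524102) (nat_lit 136) (nat_lit 5) (nat_lit 143) (nat_lit 5) (nat_lit 144) (nat_lit 5) (nat_lit 262) (nat_lit 244) (nat_lit 94)))) (XT.nd (nat_lit 94) (nat_lit 0)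 (nat_lit 0) (XT.lf (nat_lit 0) (nat_lit 2377419658) (nat_lit 1260) (nat_lit 3612326858) (nat_lit 1260) (nat_lit 3612326858) (nat_lit 159) (nat_lit 3) (nat_lit 174) (nat_lit 3) (nat_lit 174) (nat_lit 5) (nat_lit 245) (nat_lit 245) (nat_lit 110)) (XT.nd (nat_lit 94) (nat_lit 0) (nat_lit 84) (XT.lf (nat_lit 84) (nat_lit 2432576568) (nat_lit 0) (nat_lit 2611650242) (nat_lit 1260) (nat_lit 14488776285) (nat_lit 160) (nat_lit 5) (nat_lit 159) (nat_lit 3) (nat_lit 174) (nat_lit 5) (nat_lit 246) (nat_lit 245) (nat_lit 109)) (XT.lf (nat_lit 0) (nat_lit 5500780725) (nat_lit 1176) (nat_lit 7353638797) (nat_lit 1260) (nat_lit 7013453565) (nat_lit 160) (nat_lit 5) (nat_lit 174) (nat_lit 5) (nat_lit 175) (nat_lit 5) (nat_lit 247) (nat_lit 245) (nat_lit 108)))))) (XT.nd (nat_lit 564) (nat_lit 0) (nat_lit 252) (XT.nd (nat_lit 282) (nat_lit 0) (nat_lit 168) (XT.nd (nat_lit 94) (nat_lit 0) (nat_lit 84) (XT.lf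 (nat_lit 84) (nat_lit 2762330006) (nat_lit 0) (nat_lit 3264029431) (nat_lit 1260) (nat_lit 14186247502) (nat_lit 161) (nat_lit 5) (nat_lit 160) (nat_lit 5) (nat_lit 175) (nat_lit 5) (nat_lit 248) (nat_lit 245) (nat_lit 107)) (XT.nd (nat_lit 94) (nat_lit 0) (nat_lit 0) (XT.lf (nat_lit 0) (nat_lit 6724735132) (nat_lit 1176) (nat_lit 7237388128) (nat_lit 1260) (nat_lit 6601879156) (nat_lit 161) (nat_lit 5) (nat_lit 175) (nat_lit 5) (nat_lit 176) (nat_lit 5) (nat_lit 249) (nat_lit 245) (nat_lit 106)) (XT.lf (nat_lit 84) (nat_lit 3367092259) (nat_lit 0) (nat_lit 4148277780) (nat_lit 1260) (nat_lit 13409953133) (nat_lit 162) (nat_lit 5) (nat_lit 161) (nat_lit 5) (nat_lit 176) (nat_lit 5) (nat_lit 250) (nat_lit 245) (nat_lit 105)))) (XT.nd (nat_lit 94) (nat_lit 0) (nat_lit 0) (XT.lf (nat_lit 0) (nat_lit 8479900114) (nat_lit 1176) (nat_lit 6852515736) (nat_lit 1260) (nat_lit 5961756501) (nat_lit 162)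 (nat_lit 5) (nat_lit 176) (nat_lit 5) (nat_lit 177) (nat_lit 5) (nat_lit 251) (nat_lit 245) (nat_lit 104)) (XT.nd (nat_lit 94) (nat_lit 0) (nat_lit 84) (XT.lf (nat_lit 84) (nat_lit 4272302407) (nat_lit 0) (nat_lit 5294453543) (nat_lit 1260) (nat_lit 12106075450) (nat_lit 163) (nat_lit 5) (nat_lit 162) (nat_lit 5) (nat_lit 177) (nat_lit 5) (nat_lit 252) (nat_lit 245) (nat_lit 103)) (XT.lf (nat_lit 0) (nat_lit 10823540232) (nat_lit 1176) (nat_lit 6173414285) (nat_lit 1260) (nat_lit 5063172902) (nat_lit 163) (nat_lit 5) (nat_lit 177) (nat_lit 5) (nat_lit 178) (nat_lit 5) (nat_lit 253) (nat_lit 245) (nat_lit 102))))) (XT.nd (nat_lit 282) (nat_lit 0) (nat_lit 168) (XT.nd (nat_lit 94) (nat_lit 0) (nat_lit 84) (XT.lf (nat_lit 84) (nat_lit 5505760789) (nat_lit 0) (nat_lit 6734510139) (nat_lit 1260) (nat_lit 10216649305) (nat_lit 164) (nat_lit 5) (nat_lit 163) (nat_lit 5) (nat_lit 178) (nat_lit 5)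 (nat_lit 254) (nat_lit 245) (nat_lit 101)) (XT.nd (nat_lit 94) (nat_lit 0) (nat_lit 0) (XT.lf (nat_lit 0) (nat_lit 13817323967) (nat_lit 1176) (nat_lit 5172113468) (nat_lit 1260) (nat_lit 3874287575) (nat_lit 164) (nat_lit 5) (nat_lit 178) (nat_lit 5) (nat_lit 179) (nat_lit 5) (nat_lit 255) (nat_lit 245) (nat_lit 100)) (XT.lf (nat_lit 84) (nat_lit 7097780764) (nat_lit 0) (nat_lit 8502494054) (nat_lit 1260) (nat_lit 7679218602) (nat_lit 165) (nat_lit 5) (nat_lit 164) (nat_lit 5) (nat_lit 179) (nat_lit 5) (nat_lit 256) (nat_lit 245) (nat_lit 99)))) (XT.nd (nat_lit 94) (nat_lit 0) (nat_lit 0) (XT.lf (nat_lit 0) (nat_lit 17527682671) (nat_lit 1176) (nat_lit 3818125304) (nat_lit 1260) (nat_lit 2361133869) (nat_lit 165) (nat_lit 5) (nat_lit 179) (nat_lit 5) (nat_lit 180) (nat_lit 5) (nat_lit 257) (nat_lit 245) (nat_lit 98)) (XT.nd (nat_lit 94) (nat_lit 0) (nat_lit 84) (XT.lf (nat_lit 84) (nat_lit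 9081354261) (nat_lit 0) (nat_lit 10634752003) (nat_lit 1260) (nat_lit 4426470223) (nat_lit 166) (nat_lit 5) (nat_lit 165) (nat_lit 5) (nat_lit 180) (nat_lit 5) (nat_lit 258) (nat_lit 245) (nat_lit 97)) (XT.lf (nat_lit 0) (nat_lit 22026193367) (nat_lit 1176) (nat_lit 2078275637) (nat_lit 84) (nat_lit 487411935) (nat_lit 166) (nat_lit 5) (nat_lit 180) (nat_lit 5) (nat_lit 167) (nat_lit 5) (nat_lit 259) (nat_lit 245) (nat_lit 96))))))))
noncomputable def xc61 : XT := (XT.nd (nat_lit 74448) (nat_lit 0) (nat_lit 672) (XT.nd (nat_lit 37130) (nat_lit 0) (nat_lit 0) (XT.nd (nat_lit 36566) (nat_lit 0) (nat_lit 1428) (XT.nd (nat_lit 188) (nat_lit 0) (nat_lit 0) (XT.nd (nat_lit 94) (nat_lit 756) (nat_lit 0) (XT.lf (nat_lit 0) (nat_lit 11492331858) (nat_lit 1176) (nat_lit 13170148525) (nat_lit 1260) (nat_lit 385843522) (nat_lit 152) (nat_lit 5) (nat_lit 166) (nat_lit 5) (nat_lit 167) (nat_lit 5) (nat_lit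 260) (nat_lit 245) (nat_lit 95)) (XT.lf (nat_lit 0) (nat_lit 43034428) (nat_lit 672) (nat_lit 1804863622) (nat_lit 756) (nat_lit 23671414587) (nat_lit 143) (nat_lit 5) (nat_lit 151) (nat_lit 5) (nat_lit 152) (nat_lit 5) (nat_lit 261) (nat_lit 245) (nat_lit 94))) (XT.nd (nat_lit 36190) (nat_lit 0) (nat_lit 1344) (XT.lf (nat_lit 0) (nat_lit 4418378791) (nat_lit 756) (nat_lit 11679781005) (nat_lit 84) (nat_lit 9899103983) (nat_lit 143) (nat_lit 5) (nat_lit 152) (nat_lit 5) (nat_lit 144) (nat_lit 5) (nat_lit 262) (nat_lit 245) (nat_lit 93)) (XT.nd (nat_lit 94) (nat_lit 0) (nat_lit 0) (XT.lf (nat_lit 0) (nat_lit 2637707753) (nat_lit 1260) (nat_lit 3647120222) (nat_lit 1260) (nat_lit 3647120222) (nat_lit 159) (nat_lit 3) (nat_lit 174) (nat_lit 3) (nat_lit 174) (nat_lit 5) (nat_lit 246) (nat_lit 246) (nat_lit 108)) (XT.lf (nat_lit 84) (nat_lit 2698903433) (nat_lit 0) (nat_lit 2866070623) (nat_lit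 1260) (nat_lit 14639637172) (nat_lit 160) (nat_lit 5) (nat_lit 159) (nat_lit 3) (nat_lit 174) (nat_lit 5) (nat_lit 247) (nat_lit 246) (nat_lit 107))))) (XT.nd (nat_lit 282) (nat_lit 0) (nat_lit 84) (XT.nd (nat_lit 94) (nat_lit 0) (nat_lit 0) (XT.lf (nat_lit 0) (nat_lit 6024112877) (nat_lit 1176) (nat_lit 7422562077) (nat_lit 1260) (nat_lit 7104995523) (nat_lit 160) (nat_lit 5) (nat_lit 174) (nat_lit 5) (nat_lit 175) (nat_lit 5) (nat_lit 248) (nat_lit 246) (nat_lit 106)) (XT.nd (nat_lit 94) (nat_lit 0) (nat_lit 84) (XT.lf (nat_lit 84) (nat_lit 3045317135) (nat_lit 0) (nat_lit 3513658917) (nat_lit 1260) (nat_lit 14349812838) (nat_lit 161) (nat_lit 5) (nat_lit 160) (nat_lit 5) (nat_lit 175) (nat_lit 5) (nat_lit 249) (nat_lit 246) (nat_lit 105)) (XT.lf (nat_lit 0) (nat_lit 7269458848) (nat_lit 1176) (nat_lit 7298355274) (nat_lit 1260) (nat_lit 6705100849) (nat_lit 161) (nat_lit 5) (nat_lit 175)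 (nat_lit 5) (nat_lit 176) (nat_lit 5) (nat_lit 250) (nat_lit 246) (nat_lit 104)))) (XT.nd (nat_lit 94) (nat_lit 0) (nat_lit 84) (XT.lf (nat_lit 84) (nat_lit 3675089109) (nat_lit 0) (nat_lit 4404334151) (nat_lit 1260) (nat_lit 13567750688) (nat_lit 162) (nat_lit 5) (nat_lit 161) (nat_lit 5) (nat_lit 176) (nat_lit 5) (nat_lit 251) (nat_lit 246) (nat_lit 103)) (XT.nd (nat_lit 94) (nat_lit 0) (nat_lit 0) (XT.lf (nat_lit 0) (nat_lit 9066339108) (nat_lit 1176) (nat_lit 6897262533) (nat_lit 1260) (nat_lit 6065729255) (nat_lit 162) (nat_lit 5) (nat_lit 176) (nat_lit 5) (nat_lit 177) (nat_lit 5) (nat_lit 252) (nat_lit 246) (nat_lit 102)) (XT.lf (nat_lit 84) (nat_lit 4614700078) (nat_lit 0) (nat_lit 5568889101) (nat_lit 1260) (nat_lit 12237921433) (nat_lit 163) (nat_lit 5) (nat_lit 162) (nat_lit 5) (nat_lit 177) (nat_lit 5) (nat_lit 253) (nat_lit 246) (nat_lit 101)))))) (XT.nd (nat_lit 564) (nat_lit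 1680) (nat_lit 0) (XT.nd (nat_lit 282) (nat_lit 0) (nat_lit 84) (XT.nd (nat_lit 94) (nat_lit 0) (nat_lit 0) (XT.lf (nat_lit 0) (nat_lit 11473865274) (nat_lit 1176) (nat_lit 6192643138) (nat_lit 1260) (nat_lit 5156220926) (nat_lit 163) (nat_lit 5) (nat_lit 177) (nat_lit 5) (nat_lit 178) (nat_lit 5) (nat_lit 254) (nat_lit 246) (nat_lit 100)) (XT.nd (nat_lit 94) (nat_lit 0) (nat_lit 84) (XT.lf (nat_lit 84) (nat_lit 5893058953) (nat_lit 0) (nat_lit 7040109618) (nat_lit 1260) (nat_lit 10300486785) (nat_lit 164) (nat_lit 5) (nat_lit 163) (nat_lit 5) (nat_lit 178) (nat_lit 5) (nat_lit 255) (nat_lit 246) (nat_lit 99)) (XT.lf (nat_lit 0) (nat_lit 14555722013) (nat_lit 1176) (nat_lit 5155425010) (nat_lit 1260) (nat_lit 3943890652) (nat_lit 164) (nat_lit 5) (nat_lit 178) (nat_lit 5) (nat_lit 179) (nat_lit 5) (nat_lit 256) (nat_lit 246) (nat_lit 98)))) (XT.nd (nat_lit 94) (nat_lit 0) (nat_lit 84) (XT.lf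 (nat_lit 84) (nat_lit 7541661470) (nat_lit 0) (nat_lit 8852976356) (nat_lit 1260) (nat_lit 7690945495) (nat_lit 165) (nat_lit 5) (nat_lit 164) (nat_lit 5) (nat_lit 179) (nat_lit 5) (nat_lit 257) (nat_lit 246) (nat_lit 97)) (XT.nd (nat_lit 94) (nat_lit 0) (nat_lit 0) (XT.lf (nat_lit 0) (nat_lit 18380537096) (nat_lit 1176) (nat_lit 3753943157) (nat_lit 1260) (nat_lit 2393826062) (nat_lit 165) (nat_lit 5) (nat_lit 179) (nat_lit 5) (nat_lit 180) (nat_lit 5) (nat_lit 258) (nat_lit 246) (nat_lit 96)) (XT.lf (nat_lit 84) (nat_lit 9594762956) (nat_lit 0) (nat_lit 11044876370) (nat_lit 1260) (nat_lit 4339755912) (nat_lit 166) (nat_lit 5) (nat_lit 165) (nat_lit 5) (nat_lit 180) (nat_lit 5) (nat_lit 259) (nat_lit 246) (nat_lit 95))))) (XT.nd (nat_lit 36472) (nat_lit 0) (nat_lit 1344) (XT.nd (nat_lit 94) (nat_lit 1932) (nat_lit 0) (XT.lf (nat_lit 0) (nat_lit 23022276285) (nat_lit 1176) (nat_lit 1953763980)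 (nat_lit 84) (nat_lit 468675691) (nat_lit 166) (nat_lit 5) (nat_lit 180) (nat_lit 5) (nat_lit 167) (nat_lit 5) (nat_lit 260) (nat_lit 246) (nat_lit 94)) (XT.nd (nat_lit 94) (nat_lit 756) (nat_lit 0) (XT.lf (nat_lit 0) (nat_lit 12089565984) (nat_lit 1176) (nat_lit 13655825796) (nat_lit 1260) (nat_lit 171933102) (nat_lit 152) (nat_lit 5) (nat_lit 166) (nat_lit 5) (nat_lit 167) (nat_lit 5) (nat_lit 261) (nat_lit 246) (nat_lit 93)) (XT.lf (nat_lit 0) (nat_lit 242417670) (nat_lit 672) (nat_lit 1887104075) (nat_lit 756) (nat_lit 24275373680) (nat_lit 143) (nat_lit 5) (nat_lit 151) (nat_lit 5) (nat_lit 152) (nat_lit 5) (nat_lit 262) (nat_lit 246) (nat_lit 92)))) (XT.nd (nat_lit 94) (nat_lit 0) (nat_lit 0) (XT.lf (nat_lit 0) (nat_lit 2895332113) (nat_lit 1260) (nat_lit 3689224306) (nat_lit 1260) (nat_lit 3689224306) (nat_lit 159) (nat_lit 3) (nat_lit 174) (nat_lit 3) (nat_lit 174) (nat_lit 5) (nat_lit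 247) (nat_lit 247) (nat_lit 106)) (XT.nd (nat_lit 94) (nat_lit 0) (nat_lit 84) (XT.lf (nat_lit 84) (nat_lit 2962504761) (nat_lit 0) (nat_lit 3118557122) (nat_lit 1260) (nat_lit 14819464757) (nat_lit 160) (nat_lit 5) (nat_lit 159) (nat_lit 3) (nat_lit 174) (nat_lit 5) (nat_lit 248) (nat_lit 247) (nat_lit 105)) (XT.lf (nat_lit 0) (nat_lit 6543766673) (nat_lit 1176) (nat_lit 7506427851) (nat_lit 1260) (nat_lit 7209976075) (nat_lit 160) (nat_lit 5) (nat_lit 174) (nat_lit 5) (nat_lit 175) (nat_lit 5) (nat_lit 249) (nat_lit 247) (nat_lit 104))))))) (XT.nd (nat_lit 1128) (nat_lit 756) (nat_lit 0) (XT.nd (nat_lit 564) (nat_lit 0) (nat_lit 252) (XT.nd (nat_lit 282) (nat_lit 0) (nat_lit 168) (XT.nd (nat_lit 94) (nat_lit 0) (nat_lit 84) (XT.lf (nat_lit 84) (nat_lit 3325821487) (nat_lit 0) (nat_lit 3763023551) (nat_lit 1260) (nat_lit 14541240795) (nat_lit 161) (nat_lit 5) (nat_lit 160) (nat_lit 5) (nat_lit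 175) (nat_lit 5) (nat_lit 250) (nat_lit 247) (nat_lit 103)) (XT.nd (nat_lit 94) (nat_lit 0) (nat_lit 0) (XT.lf (nat_lit 0) (nat_lit 7812678899) (nat_lit 1176) (nat_lit 7374244918) (nat_lit 1260) (nat_lit 6820435564) (nat_lit 161) (nat_lit 5) (nat_lit 175) (nat_lit 5) (nat_lit 176) (nat_lit 5) (nat_lit 251) (nat_lit 247) (nat_lit 102)) (XT.lf (nat_lit 84) (nat_lit 3981223000) (nat_lit 0) (nat_lit 4661981050) (nat_lit 1260) (nat_lit 13751785953) (nat_lit 162) (nat_lit 5) (nat_lit 161) (nat_lit 5) (nat_lit 176) (nat_lit 5) (nat_lit 252) (nat_lit 247) (nat_lit 101)))) (XT.nd (nat_lit 94) (nat_lit 0) (nat_lit 0) (XT.lf (nat_lit 0) (nat_lit 9654045341) (nat_lit 1176) (nat_lit 6956546949) (nat_lit 1260) (nat_lit 6180301736) (nat_lit 162) (nat_lit 5) (nat_lit 176) (nat_lit 5) (nat_lit 177) (nat_lit 5) (nat_lit 253) (nat_lit 247) (nat_lit 100)) (XT.nd (nat_lit 94) (nat_lit 0) (nat_lit 84) (XT.lf (nat_lit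 84) (nat_lit 4956258070) (nat_lit 0) (nat_lit 5847003733) (nat_lit 1260) (nat_lit 12393788036) (nat_lit 163) (nat_lit 5) (nat_lit 162) (nat_lit 5) (nat_lit 177) (nat_lit 5) (nat_lit 254) (nat_lit 247) (nat_lit 99)) (XT.lf (nat_lit 0) (nat_lit 12128899773) (nat_lit 1176) (nat_lit 6225632797) (nat_lit 1260) (nat_lit 5258121573) (nat_lit 163) (nat_lit 5) (nat_lit 177) (nat_lit 5) (nat_lit 178) (nat_lit 5) (nat_lit 255) (nat_lit 247) (nat_lit 98))))) (XT.nd (nat_lit 282) (nat_lit 0) (nat_lit 168) (XT.nd (nat_lit 94) (nat_lit 0) (nat_lit 84) (XT.lf (nat_lit 84) (nat_lit 6280973964) (nat_lit 0) (nat_lit 7351758035) (nat_lit 1260) (nat_lit 10405459706) (nat_lit 164) (nat_lit 5) (nat_lit 163) (nat_lit 5) (nat_lit 178) (nat_lit 5) (nat_lit 256) (nat_lit 247) (nat_lit 97)) (XT.nd (nat_lit 94) (nat_lit 0) (nat_lit 0) (XT.lf (nat_lit 0) (nat_lit 15303023069) (nat_lit 1176) (nat_lit 5151298218) (nat_lit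 1260) (nat_lit 4020317930) (nat_lit 164) (nat_lit 5) (nat_lit 178) (nat_lit 5) (nat_lit 179) (nat_lit 5) (nat_lit 257) (nat_lit 247) (nat_lit 96)) (XT.lf (nat_lit 84) (nat_lit 7988082109) (nat_lit 0) (nat_lit 9212208587) (nat_lit 1260) (nat_lit 7720173621) (nat_lit 165) (nat_lit 5) (nat_lit 164) (nat_lit 5) (nat_lit 179) (nat_lit 5) (nat_lit 258) (nat_lit 247) (nat_lit 95)))) (XT.nd (nat_lit 94) (nat_lit 0) (nat_lit 0) (XT.lf (nat_lit 0) (nat_lit 19247324850) (nat_lit 1176) (nat_lit 3700667317) (nat_lit 1260) (nat_lit 2430983456) (nat_lit 165) (nat_lit 5) (nat_lit 179) (nat_lit 5) (nat_lit 180) (nat_lit 5) (nat_lit 259) (nat_lit 247) (nat_lit 94)) (XT.nd (nat_lit 94) (nat_lit 0) (nat_lit 84) (XT.lf (nat_lit 84) (nat_lit 10113138221) (nat_lit 0) (nat_lit 11466834610) (nat_lit 1260) (nat_lit 4266073125) (nat_lit 166) (nat_lit 5) (nat_lit 165) (nat_lit 5) (nat_lit 180) (nat_lit 5) (nat_lit 260)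 (nat_lit 247) (nat_lit 93)) (XT.lf (nat_lit 0) (nat_lit 24038250965) (nat_lit 1176) (nat_lit 1838009516) (nat_lit 84) (nat_lit 451663708) (nat_lit 166) (nat_lit 5) (nat_lit 180) (nat_lit 5) (nat_lit 167) (nat_lit 5) (nat_lit 261) (nat_lit 247) (nat_lit 92)))))) (XT.nd (nat_lit 36848) (nat_lit 0) (nat_lit 840) (XT.nd (nat_lit 36566) (nat_lit 0) (nat_lit 756) (XT.nd (nat_lit 36378) (nat_lit 0) (nat_lit 672) (XT.lf (nat_lit 0) (nat_lit 33564807) (nat_lit 1260) (nat_lit 14122897157) (nat_lit 84) (nat_lit 12660776862) (nat_lit 151) (nat_lit 5) (nat_lit 166) (nat_lit 5) (nat_lit 152) (nat_lit 5) (nat_lit 262) (nat_lit 247) (nat_lit 91)) (XT.nd (nat_lit 94) (nat_lit 0) (nat_lit 0) (XT.lf (nat_lit 0) (nat_lit 3150982339) (nat_lit 1260) (nat_lit 3738489868) (nat_lit 1260) (nat_lit 3738489868) (nat_lit 159) (nat_lit 3) (nat_lit 174) (nat_lit 3) (nat_lit 174) (nat_lit 5) (nat_lit 248) (nat_lit 248) (nat_lit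 104)) (XT.lf (nat_lit 84) (nat_lit 3224086156) (nat_lit 0) (nat_lit 3369762704) (nat_lit 1260) (nat_lit 15027697969) (nat_lit 160) (nat_lit 5) (nat_lit 159) (nat_lit 3) (nat_lit 174) (nat_lit 5) (nat_lit 249) (nat_lit 248) (nat_lit 103)))) (XT.nd (nat_lit 94) (nat_lit 0) (nat_lit 0) (XT.lf (nat_lit 0) (nat_lit 7061075802) (nat_lit 1176) (nat_lit 7604925984) (nat_lit 1260) (nat_lit 7328185078) (nat_lit 160) (nat_lit 5) (nat_lit 174) (nat_lit 5) (nat_lit 175) (nat_lit 5) (nat_lit 250) (nat_lit 248) (nat_lit 102)) (XT.nd (nat_lit 94) (nat_lit 0) (nat_lit 84) (XT.lf (nat_lit 84) (nat_lit 3604579788) (nat_lit 0) (nat_lit 4012712593) (nat_lit 1260) (nat_lit 14760034635) (nat_lit 161) (nat_lit 5) (nat_lit 160) (nat_lit 5) (nat_lit 175) (nat_lit 5) (nat_lit 251) (nat_lit 248) (nat_lit 101)) (XT.lf (nat_lit 0) (nat_lit 8355710273) (nat_lit 1176) (nat_lit 7464729039) (nat_lit 1260) (nat_lit 6947742081)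 (nat_lit 161) (nat_lit 5) (nat_lit 175) (nat_lit 5) (nat_lit 176) (nat_lit 5) (nat_lit 252) (nat_lit 248) (nat_lit 100))))) (XT.nd (nat_lit 282) (nat_lit 0) (nat_lit 168) (XT.nd (nat_lit 94) (nat_lit 0) (nat_lit 84) (XT.lf (nat_lit 84) (nat_lit 4286269343) (nat_lit 0) (nat_lit 4921764267) (nat_lit 1260) (nat_lit 13961599934) (nat_lit 162) (nat_lit 5) (nat_lit 161) (nat_lit 5) (nat_lit 176) (nat_lit 5) (nat_lit 253) (nat_lit 248) (nat_lit 99)) (XT.nd (nat_lit 94) (nat_lit 0) (nat_lit 0) (XT.lf (nat_lit 0) (nat_lit 10244343625) (nat_lit 1176) (nat_lit 7030015335) (nat_lit 1260) (nat_lit 6305382123) (nat_lit 162) (nat_lit 5) (nat_lit 176) (nat_lit 5) (nat_lit 177) (nat_lit 5) (nat_lit 254) (nat_lit 248) (nat_lit 98)) (XT.lf (nat_lit 84) (nat_lit 5297799626) (nat_lit 0) (nat_lit 6129320234) (nat_lit 1260) (nat_lit 12573225687) (nat_lit 163) (nat_lit 5) (nat_lit 162) (nat_lit 5) (nat_lit 177) (nat_lit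 5) (nat_lit 255) (nat_lit 248) (nat_lit 97)))) (XT.nd (nat_lit 94) (nat_lit 0) (nat_lit 0) (XT.lf (nat_lit 0) (nat_lit 12790008819) (nat_lit 1176) (nat_lit 6271994693) (nat_lit 1260) (nat_lit 5368812612) (nat_lit 163) (nat_lit 5) (nat_lit 177) (nat_lit 5) (nat_lit 178) (nat_lit 5) (nat_lit 256) (nat_lit 248) (nat_lit 96)) (XT.nd (nat_lit 94) (nat_lit 0) (nat_lit 84) (XT.lf (nat_lit 84) (nat_lit 6670387692) (nat_lit 0) (nat_lit 7669976079) (nat_lit 1260) (nat_lit 10531097628) (nat_lit 164) (nat_lit 5) (nat_lit 163) (nat_lit 5) (nat_lit 178) (nat_lit 5) (nat_lit 257) (nat_lit 248) (nat_lit 95)) (XT.lf (nat_lit 0) (nat_lit 16060665130) (nat_lit 1176) (nat_lit 5159298695) (nat_lit 1260) (nat_lit 4103516495) (nat_lit 164) (nat_lit 5) (nat_lit 178) (nat_lit 5) (nat_lit 179) (nat_lit 5) (nat_lit 258) (nat_lit 248) (nat_lit 94))))))))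
noncomputable def xc62 : XT := (XT.nd (nat_lit 75012) (nat_lit 0) (nat_lit 0) (XT.nd (nat_lit 37412) (nat_lit 0) (nat_lit 0) (XT.nd (nat_lit 36848) (nat_lit 0) (nat_lit 0) (XT.nd (nat_lit 188) (nat_lit 420) (nat_lit 0) (XT.nd (nat_lit 94) (nat_lit 0) (nat_lit 84) (XT.lf (nat_lit 84) (nat_lit 8437995668) (nat_lit 0) (nat_lit 9580730834) (nat_lit 1260) (nat_lit 7766379170) (nat_lit 165) (nat_lit 5) (nat_lit 164) (nat_lit 5) (nat_lit 179) (nat_lit 5) (nat_lit 259) (nat_lit 248) (nat_lit 93)) (XT.lf (nat_lit 0) (nat_lit 20129591881) (nat_lit 1176) (nat_lit 3657804993) (nat_lit 1260) (nat_lit 2472541522) (nat_lit 165) (nat_lit 5) (nat_lit 179) (nat_lit 5) (nat_lit 180) (nat_lit 5) (nat_lit 260) (nat_lit 248) (nat_lit 92))) (XT.nd (nat_lit 94) (nat_lit 504) (nat_lit 0) (XT.lf (nat_lit 84) (nat_lit 10637518430) (nat_lit 0) (nat_lit 11901208494) (nat_lit 1260) (nat_lit 4204809714) (nat_lit 166) (nat_lit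 5) (nat_lit 165) (nat_lit 5) (nat_lit 180) (nat_lit 5) (nat_lit 261) (nat_lit 248) (nat_lit 91)) (XT.nd (nat_lit 36472) (nat_lit 588) (nat_lit 0) (XT.lf (nat_lit 0) (nat_lit 25075809040) (nat_lit 1176) (nat_lit 1730446734) (nat_lit 84) (nat_lit 436278087) (nat_lit 166) (nat_lit 5) (nat_lit 180) (nat_lit 5) (nat_lit 167) (nat_lit 5) (nat_lit 262) (nat_lit 248) (nat_lit 90)) (XT.lf (nat_lit 0) (nat_lit 3405320119) (nat_lit 1260) (nat_lit 3794789379) (nat_lit 1260) (nat_lit 3794789379) (nat_lit 159) (nat_lit 3) (nat_lit 174) (nat_lit 3) (nat_lit 174) (nat_lit 5) (nat_lit 249) (nat_lit 249) (nat_lit 102))))) (XT.nd (nat_lit 282) (nat_lit 0) (nat_lit 168) (XT.nd (nat_lit 94) (nat_lit 0) (nat_lit 84) (XT.lf (nat_lit 84) (nat_lit 3484324655) (nat_lit 0) (nat_lit 3620315272) (nat_lit 1260) (nat_lit 15263860818) (nat_lit 160) (nat_lit 5) (nat_lit 159) (nat_lit 3) (nat_lit 174) (nat_lit 5) (nat_lit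 250) (nat_lit 249) (nat_lit 101)) (XT.nd (nat_lit 94) (nat_lit 0) (nat_lit 0) (XT.lf (nat_lit 0) (nat_lit 7577323394) (nat_lit 1176) (nat_lit 7717790879) (nat_lit 1260) (nat_lit 7459450283) (nat_lit 160) (nat_lit 5) (nat_lit 174) (nat_lit 5) (nat_lit 175) (nat_lit 5) (nat_lit 251) (nat_lit 249) (nat_lit 100)) (XT.lf (nat_lit 84) (nat_lit 3882299789) (nat_lit 0) (nat_lit 4263296130) (nat_lit 1260) (nat_lit 15005778102) (nat_lit 161) (nat_lit 5) (nat_lit 160) (nat_lit 5) (nat_lit 175) (nat_lit 5) (nat_lit 252) (nat_lit 249) (nat_lit 99)))) (XT.nd (nat_lit 94) (nat_lit 0) (nat_lit 0) (XT.lf (nat_lit 0) (nat_lit 8899823054) (nat_lit 1176) (nat_lit 7569524671) (nat_lit 1260) (nat_lit 7086911814) (nat_lit 161) (nat_lit 5) (nat_lit 175) (nat_lit 5) (nat_lit 176) (nat_lit 5) (nat_lit 253) (nat_lit 249) (nat_lit 98)) (XT.nd (nat_lit 94) (nat_lit 0) (nat_lit 84) (XT.lf (nat_lit 84) (nat_lit 4590974795)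 (nat_lit 0) (nat_lit 5184216107) (nat_lit 1260) (nat_lit 14196809151) (nat_lit 162) (nat_lit 5) (nat_lit 161) (nat_lit 5) (nat_lit 176) (nat_lit 5) (nat_lit 254) (nat_lit 249) (nat_lit 97)) (XT.lf (nat_lit 0) (nat_lit 10838520004) (nat_lit 1176) (nat_lit 7117359011) (nat_lit 1260) (nat_lit 6440906153) (nat_lit 162) (nat_lit 5) (nat_lit 176) (nat_lit 5) (nat_lit 177) (nat_lit 5) (nat_lit 255) (nat_lit 249) (nat_lit 96)))))) (XT.nd (nat_lit 564) (nat_lit 252) (nat_lit 0) (XT.nd (nat_lit 282) (nat_lit 0) (nat_lit 168) (XT.nd (nat_lit 94) (nat_lit 0) (nat_lit 84) (XT.lf (nat_lit 84) (nat_lit 5640120112) (nat_lit 0) (nat_lit 6416353497) (nat_lit 1260) (nat_lit 12775854872) (nat_lit 163) (nat_lit 5) (nat_lit 162) (nat_lit 5) (nat_lit 177) (nat_lit 5) (nat_lit 256) (nat_lit 249) (nat_lit 95)) (XT.nd (nat_lit 94) (nat_lit 0) (nat_lit 0) (XT.lf (nat_lit 0) (nat_lit 13458525475) (nat_lit 1176) (nat_lit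 6331384514) (nat_lit 1260) (nat_lit 5488254377) (nat_lit 163) (nat_lit 5) (nat_lit 177) (nat_lit 5) (nat_lit 178) (nat_lit 5) (nat_lit 257) (nat_lit 249) (nat_lit 94)) (XT.lf (nat_lit 84) (nat_lit 7062155668) (nat_lit 0) (nat_lit 7995282124) (nat_lit 1260) (nat_lit 10676994111) (nat_lit 164) (nat_lit 5) (nat_lit 163) (nat_lit 5) (nat_lit 178) (nat_lit 5) (nat_lit 258) (nat_lit 249) (nat_lit 93)))) (XT.nd (nat_lit 94) (nat_lit 0) (nat_lit 0) (XT.lf (nat_lit 0) (nat_lit 16830061628) (nat_lit 1176) (nat_lit 5179034961) (nat_lit 1260) (nat_lit 4193450980) (nat_lit 164) (nat_lit 5) (nat_lit 178) (nat_lit 5) (nat_lit 179) (nat_lit 5) (nat_lit 259) (nat_lit 249) (nat_lit 92)) (XT.nd (nat_lit 94) (nat_lit 0) (nat_lit 84) (XT.lf (nat_lit 84) (nat_lit 8892331034) (nat_lit 0) (nat_lit 9959086539) (nat_lit 1260) (nat_lit 7829095551) (nat_lit 165) (nat_lit 5) (nat_lit 164) (nat_lit 5) (nat_lit 179) (nat_lit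 5) (nat_lit 260) (nat_lit 249) (nat_lit 91)) (XT.lf (nat_lit 0) (nat_lit 21028867881) (nat_lit 1176) (nat_lit 3624904291) (nat_lit 1260) (nat_lit 2518448158) (nat_lit 165) (nat_lit 5) (nat_lit 179) (nat_lit 5) (nat_lit 180) (nat_lit 5) (nat_lit 261) (nat_lit 249) (nat_lit 90))))) (XT.nd (nat_lit 36754) (nat_lit 0) (nat_lit 84) (XT.nd (nat_lit 36566) (nat_lit 504) (nat_lit 0) (XT.lf (nat_lit 84) (nat_lit 11168920815) (nat_lit 0) (nat_lit 12348589011) (nat_lit 1260) (nat_lit 4155403133) (nat_lit 166) (nat_lit 5) (nat_lit 165) (nat_lit 5) (nat_lit 180) (nat_lit 5) (nat_lit 262) (nat_lit 249) (nat_lit 89)) (XT.nd (nat_lit 94) (nat_lit 0) (nat_lit 0) (XT.lf (nat_lit 0) (nat_lit 3658981713) (nat_lit 1260) (nat_lit 3858015994) (nat_lit 1260) (nat_lit 3858015994) (nat_lit 159) (nat_lit 3) (nat_lit 174) (nat_lit 3) (nat_lit 174) (nat_lit 5) (nat_lit 250) (nat_lit 250) (nat_lit 100)) (XT.lf (nat_lit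 84) (nat_lit 3743871280) (nat_lit 0) (nat_lit 3870819976) (nat_lit 1260) (nat_lit 15527558403) (nat_lit 160) (nat_lit 5) (nat_lit 159) (nat_lit 3) (nat_lit 174) (nat_lit 5) (nat_lit 251) (nat_lit 250) (nat_lit 99)))) (XT.nd (nat_lit 94) (nat_lit 0) (nat_lit 0) (XT.lf (nat_lit 0) (nat_lit 8093746722) (nat_lit 1176) (nat_lit 7844799355) (nat_lit 1260) (nat_lit 7603635644) (nat_lit 160) (nat_lit 5) (nat_lit 174) (nat_lit 5) (nat_lit 175) (nat_lit 5) (nat_lit 252) (nat_lit 250) (nat_lit 98)) (XT.nd (nat_lit 94) (nat_lit 0) (nat_lit 84) (XT.lf (nat_lit 84) (nat_lit 4159662891) (nat_lit 0) (nat_lit 4515327052) (nat_lit 1260) (nat_lit 15278131732) (nat_lit 161) (nat_lit 5) (nat_lit 160) (nat_lit 5) (nat_lit 175) (nat_lit 5) (nat_lit 253) (nat_lit 250) (nat_lit 97)) (XT.lf (nat_lit 0) (nat_lit 9446246891) (nat_lit 1176) (nat_lit 7688391723) (nat_lit 1260) (nat_lit 7237867457) (nat_lit 161) (nat_lit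 5) (nat_lit 175) (nat_lit 5) (nat_lit 176) (nat_lit 5) (nat_lit 254) (nat_lit 250) (nat_lit 96))))))) (XT.nd (nat_lit 37694) (nat_lit 0) (nat_lit 0) (XT.nd (nat_lit 564) (nat_lit 168) (nat_lit 0) (XT.nd (nat_lit 282) (nat_lit 0) (nat_lit 168) (XT.nd (nat_lit 94) (nat_lit 0) (nat_lit 84) (XT.lf (nat_lit 84) (nat_lit 4896059973) (nat_lit 0) (nat_lit 5449857085) (nat_lit 1260) (nat_lit 14457102190) (nat_lit 162) (nat_lit 5) (nat_lit 161) (nat_lit 5) (nat_lit 176) (nat_lit 5) (nat_lit 255) (nat_lit 250) (nat_lit 95)) (XT.nd (nat_lit 94) (nat_lit 0) (nat_lit 0) (XT.lf (nat_lit 0) (nat_lit 11437826058) (nat_lit 1176) (nat_lit 7218312023) (nat_lit 1260) (nat_lit 6586836043) (nat_lit 162) (nat_lit 5) (nat_lit 176) (nat_lit 5) (nat_lit 177) (nat_lit 5) (nat_lit 256) (nat_lit 250) (nat_lit 94)) (XT.lf (nat_lit 84) (nat_lit 5983989811) (nat_lit 0) (nat_lit 6708611981) (nat_lit 1260) (nat_lit 13001362880)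 (nat_lit 163) (nat_lit 5) (nat_lit 162) (nat_lit 5) (nat_lit 177) (nat_lit 5) (nat_lit 257) (nat_lit 250) (nat_lit 93)))) (XT.nd (nat_lit 94) (nat_lit 0) (nat_lit 0) (XT.lf (nat_lit 0) (nat_lit 14135754966) (nat_lit 1176) (nat_lit 6403499909) (nat_lit 1260) (nat_lit 5616428905) (nat_lit 163) (nat_lit 5) (nat_lit 177) (nat_lit 5) (nat_lit 178) (nat_lit 5) (nat_lit 258) (nat_lit 250) (nat_lit 92)) (XT.nd (nat_lit 94) (nat_lit 0) (nat_lit 84) (XT.lf (nat_lit 84) (nat_lit 7457109974) (nat_lit 0) (nat_lit 8328193506) (nat_lit 1260) (nat_lit 10842803602) (nat_lit 164) (nat_lit 5) (nat_lit 163) (nat_lit 5) (nat_lit 178) (nat_lit 5) (nat_lit 259) (nat_lit 250) (nat_lit 91)) (XT.lf (nat_lit 0) (nat_lit 17612605552) (nat_lit 1176) (nat_lit 5210156081) (nat_lit 1260) (nat_lit 4290102888) (nat_lit 164) (nat_lit 5) (nat_lit 178) (nat_lit 5) (nat_lit 179) (nat_lit 5) (nat_lit 260) (nat_lit 250) (nat_lit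 90))))) (XT.nd (nat_lit 36848) (nat_lit 0) (nat_lit 0) (XT.nd (nat_lit 94) (nat_lit 420) (nat_lit 0) (XT.lf (nat_lit 84) (nat_lit 9351995971) (nat_lit 0) (nat_lit 10347823650) (nat_lit 1260) (nat_lit 7907910376) (nat_lit 165) (nat_lit 5) (nat_lit 164) (nat_lit 5) (nat_lit 179) (nat_lit 5) (nat_lit 261) (nat_lit 250) (nat_lit 89)) (XT.nd (nat_lit 36660) (nat_lit 504) (nat_lit 0) (XT.lf (nat_lit 0) (nat_lit 21946670396) (nat_lit 1176) (nat_lit 3601551780) (nat_lit 1260) (nat_lit 2568663141) (nat_lit 165) (nat_lit 5) (nat_lit 179) (nat_lit 5) (nat_lit 180) (nat_lit 5) (nat_lit 262) (nat_lit 250) (nat_lit 88)) (XT.lf (nat_lit 0) (nat_lit 3912580287) (nat_lit 1260) (nat_lit 3928082597) (nat_lit 1260) (nat_lit 3928082597) (nat_lit 159) (nat_lit 3) (nat_lit 174) (nat_lit 3) (nat_lit 174) (nat_lit 5) (nat_lit 251) (nat_lit 251) (nat_lit 98)))) (XT.nd (nat_lit 94) (nat_lit 0) (nat_lit 84) (XT.lf (nat_lit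 84) (nat_lit 4003353424) (nat_lit 0) (nat_lit 4121861390) (nat_lit 1260) (nat_lit 15818473255) (nat_lit 160) (nat_lit 5) (nat_lit 159) (nat_lit 3) (nat_lit 174) (nat_lit 5) (nat_lit 252) (nat_lit 251) (nat_lit 97)) (XT.nd (nat_lit 94) (nat_lit 0) (nat_lit 0) (XT.lf (nat_lit 0) (nat_lit 8611541622) (nat_lit 1176) (nat_lit 7985768691) (nat_lit 1260) (nat_lit 7760639786) (nat_lit 160) (nat_lit 5) (nat_lit 174) (nat_lit 5) (nat_lit 175) (nat_lit 5) (nat_lit 253) (nat_lit 251) (nat_lit 96)) (XT.lf (nat_lit 84) (nat_lit 4437326622) (nat_lit 0) (nat_lit 4769342923) (nat_lit 1260) (nat_lit 15576829466) (nat_lit 161) (nat_lit 5) (nat_lit 160) (nat_lit 5) (nat_lit 175) (nat_lit 5) (nat_lit 254) (nat_lit 251) (nat_lit 95)))))) (XT.nd (nat_lit 564) (nat_lit 168) (nat_lit 0) (XT.nd (nat_lit 282) (nat_lit 0) (nat_lit 84) (XT.nd (nat_lit 94) (nat_lit 0) (nat_lit 0) (XT.lf (nat_lit 0) (nat_lit 9996175230)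 (nat_lit 1176) (nat_lit 7821130969) (nat_lit 1260) (nat_lit 7400561746) (nat_lit 161) (nat_lit 5) (nat_lit 175) (nat_lit 5) (nat_lit 176) (nat_lit 5) (nat_lit 255) (nat_lit 251) (nat_lit 94)) (XT.nd (nat_lit 94) (nat_lit 0) (nat_lit 84) (XT.lf (nat_lit 84) (nat_lit 5202222007) (nat_lit 0) (nat_lit 5719197537) (nat_lit 1260) (nat_lit 14742236540) (nat_lit 162) (nat_lit 5) (nat_lit 161) (nat_lit 5) (nat_lit 176) (nat_lit 5) (nat_lit 256) (nat_lit 251) (nat_lit 93)) (XT.lf (nat_lit 0) (nat_lit 12043482980) (nat_lit 1176) (nat_lit 7332649084) (nat_lit 1260) (nat_lit 6743159499) (nat_lit 162) (nat_lit 5) (nat_lit 176) (nat_lit 5) (nat_lit 177) (nat_lit 5) (nat_lit 257) (nat_lit 251) (nat_lit 92)))) (XT.nd (nat_lit 94) (nat_lit 0) (nat_lit 84) (XT.lf (nat_lit 84) (nat_lit 6330156560) (nat_lit 0) (nat_lit 7006599110) (nat_lit 1260) (nat_lit 13249500816) (nat_lit 163) (nat_lit 5) (nat_lit 162) (nat_lit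 5) (nat_lit 177) (nat_lit 5) (nat_lit 258) (nat_lit 251) (nat_lit 91)) (XT.nd (nat_lit 94) (nat_lit 0) (nat_lit 0) (XT.lf (nat_lit 0) (nat_lit 14822978652) (nat_lit 1176) (nat_lit 6488078368) (nat_lit 1260) (nat_lit 5753339163) (nat_lit 163) (nat_lit 5) (nat_lit 177) (nat_lit 5) (nat_lit 178) (nat_lit 5) (nat_lit 259) (nat_lit 251) (nat_lit 90)) (XT.lf (nat_lit 84) (nat_lit 7856061969) (nat_lit 0) (nat_lit 8669227766) (nat_lit 1260) (nat_lit 11028238573) (nat_lit 164) (nat_lit 5) (nat_lit 163) (nat_lit 5) (nat_lit 178) (nat_lit 5) (nat_lit 260) (nat_lit 251) (nat_lit 89))))) (XT.nd (nat_lit 36942) (nat_lit 0) (nat_lit 0) (XT.nd (nat_lit 94) (nat_lit 420) (nat_lit 0) (XT.lf (nat_lit 0) (nat_lit 18409673382) (nat_lit 1176) (nat_lit 5252349483) (nat_lit 1260) (nat_lit 4393469983) (nat_lit 164) (nat_lit 5) (nat_lit 178) (nat_lit 5) (nat_lit 179) (nat_lit 5) (nat_lit 261) (nat_lit 251) (nat_lit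 88)) (XT.nd (nat_lit 36754) (nat_lit 420) (nat_lit 0) (XT.lf (nat_lit 84) (nat_lit 9817879952) (nat_lit 0) (nat_lit 10747495746) (nat_lit 1260) (nat_lit 8002462665) (nat_lit 165) (nat_lit 5) (nat_lit 164) (nat_lit 5) (nat_lit 179) (nat_lit 5) (nat_lit 262) (nat_lit 251) (nat_lit 87)) (XT.lf (nat_lit 0) (nat_lit 4166708130) (nat_lit 1260) (nat_lit 4004920940) (nat_lit 1260) (nat_lit 4004920940) (nat_lit 159) (nat_lit 3) (nat_lit 174) (nat_lit 3) (nat_lit 174) (nat_lit 5) (nat_lit 252) (nat_lit 252) (nat_lit 96)))) (XT.nd (nat_lit 94) (nat_lit 0) (nat_lit 84) (XT.lf (nat_lit 84) (nat_lit 4263377115) (nat_lit 0) (nat_lit 4374005570) (nat_lit 1260) (nat_lit 16136361979) (nat_lit 160) (nat_lit 5) (nat_lit 159) (nat_lit 3) (nat_lit 174) (nat_lit 5) (nat_lit 253) (nat_lit 252) (nat_lit 95)) (XT.nd (nat_lit 94) (nat_lit 0) (nat_lit 0) (XT.lf (nat_lit 0) (nat_lit 9131866688) (nat_lit 1176) (nat_lit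 8140554834) (nat_lit 1260) (nat_lit 7930394592) (nat_lit 160) (nat_lit 5) (nat_lit 174) (nat_lit 5) (nat_lit 175) (nat_lit 5) (nat_lit 254) (nat_lit 252) (nat_lit 94)) (XT.lf (nat_lit 84) (nat_lit 4715926975) (nat_lit 0) (nat_lit 5025867744) (nat_lit 1260) (nat_lit 15901675547) (nat_lit 161) (nat_lit 5) (nat_lit 160) (nat_lit 5) (nat_lit 175) (nat_lit 5) (nat_lit 255) (nat_lit 252) (nat_lit 93))))))))
noncomputable def xc63 : XT := (XT.nd (nat_lit 75764) (nat_lit 0) (nat_lit 0) (XT.nd (nat_lit 37788) (nat_lit 0) (nat_lit 0) (XT.nd (nat_lit 470) (nat_lit 168) (nat_lit 0) (XT.nd (nat_lit 188) (nat_lit 0) (nat_lit 84) (XT.nd (nat_lit 94) (nat_lit 0) (nat_lit 0) (XT.lf (nat_lit 0) (nat_lit 10550769311) (nat_lit 1176) (nat_lit 7967582202) (nat_lit 1260) (nat_lit 7574976332) (nat_lit 161) (nat_lit 5) (nat_lit 175) (nat_lit 5) (nat_lit 176) (nat_lit 5) (nat_lit 256) (nat_lit 252) (nat_lit 92)) (XT.lf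 (nat_lit 84) (nat_lit 5510136958) (nat_lit 0) (nat_lit 5992739148) (nat_lit 1260) (nat_lit 15052035700) (nat_lit 162) (nat_lit 5) (nat_lit 161) (nat_lit 5) (nat_lit 176) (nat_lit 5) (nat_lit 257) (nat_lit 252) (nat_lit 91))) (XT.nd (nat_lit 94) (nat_lit 0) (nat_lit 0) (XT.lf (nat_lit 0) (nat_lit 12656685447) (nat_lit 1176) (nat_lit 7460183668) (nat_lit 1260) (nat_lit 6909888833) (nat_lit 162) (nat_lit 5) (nat_lit 176) (nat_lit 5) (nat_lit 177) (nat_lit 5) (nat_lit 258) (nat_lit 252) (nat_lit 90)) (XT.nd (nat_lit 94) (nat_lit 0) (nat_lit 84) (XT.lf (nat_lit 84) (nat_lit 6679348257) (nat_lit 0) (nat_lit 7310814615) (nat_lit 1260) (nat_lit 13520080866) (nat_lit 163) (nat_lit 5) (nat_lit 162) (nat_lit 5) (nat_lit 177) (nat_lit 5) (nat_lit 259) (nat_lit 252) (nat_lit 89)) (XT.lf (nat_lit 0) (nat_lit 15521457821) (nat_lit 1176) (nat_lit 6584895258) (nat_lit 1260) (nat_lit 5899008349) (nat_lit 163)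 (nat_lit 5) (nat_lit 177) (nat_lit 5) (nat_lit 178) (nat_lit 5) (nat_lit 260) (nat_lit 252) (nat_lit 88))))) (XT.nd (nat_lit 37036) (nat_lit 0) (nat_lit 0) (XT.nd (nat_lit 94) (nat_lit 336) (nat_lit 0) (XT.lf (nat_lit 84) (nat_lit 8259804875) (nat_lit 0) (nat_lit 9018903848) (nat_lit 1260) (nat_lit 11233066891) (nat_lit 164) (nat_lit 5) (nat_lit 163) (nat_lit 5) (nat_lit 178) (nat_lit 5) (nat_lit 261) (nat_lit 252) (nat_lit 87)) (XT.nd (nat_lit 36848) (nat_lit 420) (nat_lit 0) (XT.lf (nat_lit 0) (nat_lit 19222628847) (nat_lit 1176) (nat_lit 5305338932) (nat_lit 1260) (nat_lit 4503565728) (nat_lit 164) (nat_lit 5) (nat_lit 178) (nat_lit 5) (nat_lit 179) (nat_lit 5) (nat_lit 262) (nat_lit 252) (nat_lit 86)) (XT.lf (nat_lit 0) (nat_lit 4421938730) (nat_lit 1260) (nat_lit 4088480839) (nat_lit 1260) (nat_lit 4088480839) (nat_lit 159) (nat_lit 3) (nat_lit 174) (nat_lit 3) (nat_lit 174) (nat_lit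 5) (nat_lit 253) (nat_lit 253) (nat_lit 94)))) (XT.nd (nat_lit 94) (nat_lit 0) (nat_lit 84) (XT.lf (nat_lit 84) (nat_lit 4524529149) (nat_lit 0) (nat_lit 4627801995) (nat_lit 1260) (nat_lit 16481052182) (nat_lit 160) (nat_lit 5) (nat_lit 159) (nat_lit 3) (nat_lit 174) (nat_lit 5) (nat_lit 254) (nat_lit 253) (nat_lit 93)) (XT.nd (nat_lit 94) (nat_lit 0) (nat_lit 0) (XT.lf (nat_lit 0) (nat_lit 9655847220) (nat_lit 1176) (nat_lit 8309050755) (nat_lit 1260) (nat_lit 8112863921) (nat_lit 160) (nat_lit 5) (nat_lit 174) (nat_lit 5) (nat_lit 175) (nat_lit 5) (nat_lit 255) (nat_lit 253) (nat_lit 92)) (XT.lf (nat_lit 84) (nat_lit 4996080613) (nat_lit 0) (nat_lit 5285413637) (nat_lit 1260) (nat_lit 16252541689) (nat_lit 161) (nat_lit 5) (nat_lit 160) (nat_lit 5) (nat_lit 175) (nat_lit 5) (nat_lit 256) (nat_lit 253) (nat_lit 91)))))) (XT.nd (nat_lit 37412) (nat_lit 168) (nat_lit 0) (XT.nd (nat_lit 282)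 (nat_lit 0) (nat_lit 84) (XT.nd (nat_lit 94) (nat_lit 0) (nat_lit 0) (XT.lf (nat_lit 0) (nat_lit 11111161968) (nat_lit 1176) (nat_lit 8127622541) (nat_lit 1260) (nat_lit 7761120760) (nat_lit 161) (nat_lit 5) (nat_lit 175) (nat_lit 5) (nat_lit 176) (nat_lit 5) (nat_lit 257) (nat_lit 253) (nat_lit 90)) (XT.nd (nat_lit 94) (nat_lit 0) (nat_lit 84) (XT.lf (nat_lit 84) (nat_lit 5820462107) (nat_lit 0) (nat_lit 6270976415) (nat_lit 1260) (nat_lit 15386386536) (nat_lit 162) (nat_lit 5) (nat_lit 161) (nat_lit 5) (nat_lit 176) (nat_lit 5) (nat_lit 258) (nat_lit 253) (nat_lit 89)) (XT.lf (nat_lit 0) (nat_lit 13278605294) (nat_lit 1176) (nat_lit 7600766272) (nat_lit 1260) (nat_lit 7087060155) (nat_lit 162) (nat_lit 5) (nat_lit 176) (nat_lit 5) (nat_lit 177) (nat_lit 5) (nat_lit 259) (nat_lit 253) (nat_lit 88)))) (XT.nd (nat_lit 94) (nat_lit 0) (nat_lit 84) (XT.lf (nat_lit 84) (nat_lit 7032275220) (nat_lit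 0) (nat_lit 7621755823) (nat_lit 1260) (nat_lit 13812973790) (nat_lit 163) (nat_lit 5) (nat_lit 162) (nat_lit 5) (nat_lit 177) (nat_lit 5) (nat_lit 260) (nat_lit 253) (nat_lit 87)) (XT.nd (nat_lit 94) (nat_lit 0) (nat_lit 0) (XT.lf (nat_lit 0) (nat_lit 16232437301) (nat_lit 1176) (nat_lit 6693762025) (nat_lit 1260) (nat_lit 6053479255) (nat_lit 163) (nat_lit 5) (nat_lit 177) (nat_lit 5) (nat_lit 178) (nat_lit 5) (nat_lit 261) (nat_lit 253) (nat_lit 86)) (XT.lf (nat_lit 84) (nat_lit 8669116242) (nat_lit 0) (nat_lit 9377743256) (nat_lit 1260) (nat_lit 11457109404) (nat_lit 164) (nat_lit 5) (nat_lit 163) (nat_lit 5) (nat_lit 178) (nat_lit 5) (nat_lit 262) (nat_lit 253) (nat_lit 85))))) (XT.nd (nat_lit 282) (nat_lit 0) (nat_lit 84) (XT.nd (nat_lit 94) (nat_lit 0) (nat_lit 0) (XT.lf (nat_lit 0) (nat_lit 4678828750) (nat_lit 1260) (nat_lit 4178729448) (nat_lit 1260) (nat_lit 4178729448) (nat_lit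 159) (nat_lit 3) (nat_lit 174) (nat_lit 3) (nat_lit 174) (nat_lit 5) (nat_lit 254) (nat_lit 254) (nat_lit 92)) (XT.nd (nat_lit 94) (nat_lit 0) (nat_lit 84) (XT.lf (nat_lit 84) (nat_lit 4787379101) (nat_lit 0) (nat_lit 4883785408) (nat_lit 1260) (nat_lit 16852439672) (nat_lit 160) (nat_lit 5) (nat_lit 159) (nat_lit 3) (nat_lit 174) (nat_lit 5) (nat_lit 255) (nat_lit 254) (nat_lit 91)) (XT.lf (nat_lit 0) (nat_lit 10184578972) (nat_lit 1176) (nat_lit 8491184950) (nat_lit 1260) (nat_lit 8308042441) (nat_lit 160) (nat_lit 5) (nat_lit 174) (nat_lit 5) (nat_lit 175) (nat_lit 5) (nat_lit 256) (nat_lit 254) (nat_lit 90)))) (XT.nd (nat_lit 94) (nat_lit 0) (nat_lit 84) (XT.lf (nat_lit 84) (nat_lit 5278386963) (nat_lit 0) (nat_lit 5548482438) (nat_lit 1260) (nat_lit 16629364497) (nat_lit 161) (nat_lit 5) (nat_lit 160) (nat_lit 5) (nat_lit 175) (nat_lit 5) (nat_lit 257) (nat_lit 254) (nat_lit 89)) (XT.nd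 (nat_lit 94) (nat_lit 0) (nat_lit 0) (XT.lf (nat_lit 0) (nat_lit 11678461217) (nat_lit 1176) (nat_lit 8301164885) (nat_lit 1260) (nat_lit 7959031551) (nat_lit 161) (nat_lit 5) (nat_lit 175) (nat_lit 5) (nat_lit 176) (nat_lit 5) (nat_lit 258) (nat_lit 254) (nat_lit 88)) (XT.lf (nat_lit 84) (nat_lit 6133838115) (nat_lit 0) (nat_lit 6554398041) (nat_lit 1260) (nat_lit 15745236874) (nat_lit 162) (nat_lit 5) (nat_lit 161) (nat_lit 5) (nat_lit 176) (nat_lit 5) (nat_lit 259) (nat_lit 254) (nat_lit 87))))))) (XT.nd (nat_lit 75200) (nat_lit 0) (nat_lit 0) (XT.nd (nat_lit 37506) (nat_lit 0) (nat_lit 0) (XT.nd (nat_lit 37224) (nat_lit 252) (nat_lit 0) (XT.nd (nat_lit 94) (nat_lit 0) (nat_lit 0) (XT.lf (nat_lit 0) (nat_lit 13910395015) (nat_lit 1176) (nat_lit 7754282812) (nat_lit 1260) (nat_lit 7274732655) (nat_lit 162) (nat_lit 5) (nat_lit 176) (nat_lit 5) (nat_lit 177) (nat_lit 5) (nat_lit 260) (nat_lit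 254) (nat_lit 86)) (XT.nd (nat_lit 94) (nat_lit 0) (nat_lit 84) (XT.lf (nat_lit 84) (nat_lit 7389632442) (nat_lit 0) (nat_lit 7939918892) (nat_lit 1260) (nat_lit 14128106646) (nat_lit 163) (nat_lit 5) (nat_lit 162) (nat_lit 5) (nat_lit 177) (nat_lit 5) (nat_lit 261) (nat_lit 254) (nat_lit 85)) (XT.lf (nat_lit 0) (nat_lit 16957148916) (nat_lit 1176) (nat_lit 6814524531) (nat_lit 1260) (nat_lit 6216813714) (nat_lit 163) (nat_lit 5) (nat_lit 177) (nat_lit 5) (nat_lit 178) (nat_lit 5) (nat_lit 262) (nat_lit 254) (nat_lit 84)))) (XT.nd (nat_lit 94) (nat_lit 0) (nat_lit 0) (XT.lf (nat_lit 0) (nat_lit 4937919889) (nat_lit 1260) (nat_lit 4275650600) (nat_lit 1260) (nat_lit 4275650600) (nat_lit 159) (nat_lit 3) (nat_lit 174) (nat_lit 3) (nat_lit 174) (nat_lit 5) (nat_lit 255) (nat_lit 255) (nat_lit 90)) (XT.nd (nat_lit 94) (nat_lit 0) (nat_lit 84) (XT.lf (nat_lit 84) (nat_lit 5052481239) (nat_lit 0)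 (nat_lit 5142477558) (nat_lit 1260) (nat_lit 17250485906) (nat_lit 160) (nat_lit 5) (nat_lit 159) (nat_lit 3) (nat_lit 174) (nat_lit 5) (nat_lit 256) (nat_lit 255) (nat_lit 89)) (XT.lf (nat_lit 0) (nat_lit 10719131700) (nat_lit 1176) (nat_lit 8686920071) (nat_lit 1260) (nat_lit 8515954579) (nat_lit 160) (nat_lit 5) (nat_lit 174) (nat_lit 5) (nat_lit 175) (nat_lit 5) (nat_lit 257) (nat_lit 255) (nat_lit 88))))) (XT.nd (nat_lit 282) (nat_lit 84) (nat_lit 0) (XT.nd (nat_lit 94) (nat_lit 0) (nat_lit 84) (XT.lf (nat_lit 84) (nat_lit 5563430191) (nat_lit 0) (nat_lit 5815567206) (nat_lit 1260) (nat_lit 17032143122) (nat_lit 161) (nat_lit 5) (nat_lit 160) (nat_lit 5) (nat_lit 175) (nat_lit 5) (nat_lit 258) (nat_lit 255) (nat_lit 87)) (XT.nd (nat_lit 94) (nat_lit 0) (nat_lit 0) (XT.lf (nat_lit 0) (nat_lit 12253753678) (nat_lit 1176) (nat_lit 8488156500) (nat_lit 1260) (nat_lit 8168771372) (nat_lit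 161) (nat_lit 5) (nat_lit 175) (nat_lit 5) (nat_lit 176) (nat_lit 5) (nat_lit 259) (nat_lit 255) (nat_lit 86)) (XT.lf (nat_lit 84) (nat_lit 6450891077) (nat_lit 0) (nat_lit 6843488269) (nat_lit 1260) (nat_lit 16128593319) (nat_lit 162) (nat_lit 5) (nat_lit 161) (nat_lit 5) (nat_lit 176) (nat_lit 5) (nat_lit 260) (nat_lit 255) (nat_lit 85)))) (XT.nd (nat_lit 37224) (nat_lit 252) (nat_lit 0) (XT.lf (nat_lit 0) (nat_lit 14553191102) (nat_lit 1176) (nat_lit 7920653161) (nat_lit 1260) (nat_lit 7472987958) (nat_lit 162) (nat_lit 5) (nat_lit 176) (nat_lit 5) (nat_lit 177) (nat_lit 5) (nat_lit 261) (nat_lit 255) (nat_lit 84)) (XT.nd (nat_lit 94) (nat_lit 0) (nat_lit 0) (XT.lf (nat_lit 0) (nat_lit 5199740652) (nat_lit 1260) (nat_lit 4379244200) (nat_lit 1260) (nat_lit 4379244200) (nat_lit 159) (nat_lit 3) (nat_lit 174) (nat_lit 3) (nat_lit 174) (nat_lit 5) (nat_lit 256) (nat_lit 256) (nat_lit 88))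 (XT.lf (nat_lit 84) (nat_lit 5320376329) (nat_lit 0) (nat_lit 5404388855) (nat_lit 1260) (nat_lit 17675215684) (nat_lit 160) (nat_lit 5) (nat_lit 159) (nat_lit 3) (nat_lit 174) (nat_lit 5) (nat_lit 257) (nat_lit 256) (nat_lit 87)))))) (XT.nd (nat_lit 37788) (nat_lit 0) (nat_lit 0) (XT.nd (nat_lit 282) (nat_lit 84) (nat_lit 0) (XT.nd (nat_lit 94) (nat_lit 0) (nat_lit 0) (XT.lf (nat_lit 0) (nat_lit 11260552530) (nat_lit 1176) (nat_lit 8896251683) (nat_lit 1260) (nat_lit 8736653567) (nat_lit 160) (nat_lit 5) (nat_lit 174) (nat_lit 5) (nat_lit 175) (nat_lit 5) (nat_lit 258) (nat_lit 256) (nat_lit 86)) (XT.nd (nat_lit 94) (nat_lit 0) (nat_lit 84) (XT.lf (nat_lit 84) (nat_lit 5851781076) (nat_lit 0) (nat_lit 6087153677) (nat_lit 1260) (nat_lit 17460937149) (nat_lit 161) (nat_lit 5) (nat_lit 160) (nat_lit 5) (nat_lit 175) (nat_lit 5) (nat_lit 259) (nat_lit 256) (nat_lit 85)) (XT.lf (nat_lit 0) (nat_lit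 12838107827) (nat_lit 1176) (nat_lit 8688577733) (nat_lit 1260) (nat_lit 8390428298) (nat_lit 161) (nat_lit 5) (nat_lit 175) (nat_lit 5) (nat_lit 176) (nat_lit 5) (nat_lit 260) (nat_lit 256) (nat_lit 84)))) (XT.nd (nat_lit 37318) (nat_lit 168) (nat_lit 0) (XT.lf (nat_lit 84) (nat_lit 6772234474) (nat_lit 0) (nat_lit 7138728154) (nat_lit 1260) (nat_lit 16536519279) (nat_lit 162) (nat_lit 5) (nat_lit 161) (nat_lit 5) (nat_lit 176) (nat_lit 5) (nat_lit 261) (nat_lit 256) (nat_lit 83)) (XT.nd (nat_lit 94) (nat_lit 0) (nat_lit 0) (XT.lf (nat_lit 0) (nat_lit 5464808021) (nat_lit 1260) (nat_lit 4489525686) (nat_lit 1260) (nat_lit 4489525686) (nat_lit 159) (nat_lit 3) (nat_lit 174) (nat_lit 3) (nat_lit 174) (nat_lit 5) (nat_lit 257) (nat_lit 257) (nat_lit 86)) (XT.lf (nat_lit 84) (nat_lit 5591593347) (nat_lit 0) (nat_lit 5670019940) (nat_lit 1260) (nat_lit 18126715065) (nat_lit 160) (nat_lit 5) (nat_lit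 159) (nat_lit 3) (nat_lit 174) (nat_lit 5) (nat_lit 258) (nat_lit 257) (nat_lit 85))))) (XT.nd (nat_lit 37600) (nat_lit 84) (nat_lit 0) (XT.nd (nat_lit 94) (nat_lit 0) (nat_lit 0) (XT.lf (nat_lit 0) (nat_lit 11809869161) (nat_lit 1176) (nat_lit 9119207142) (nat_lit 1260) (nat_lit 8970220593) (nat_lit 160) (nat_lit 5) (nat_lit 174) (nat_lit 5) (nat_lit 175) (nat_lit 5) (nat_lit 259) (nat_lit 257) (nat_lit 84)) (XT.nd (nat_lit 94) (nat_lit 0) (nat_lit 84) (XT.lf (nat_lit 84) (nat_lit 6143998793) (nat_lit 0) (nat_lit 6363721636) (nat_lit 1260) (nat_lit 17915864686) (nat_lit 161) (nat_lit 5) (nat_lit 160) (nat_lit 5) (nat_lit 175) (nat_lit 5) (nat_lit 260) (nat_lit 257) (nat_lit 83)) (XT.lf (nat_lit 0) (nat_lit 13432577095) (nat_lit 1176) (nat_lit 8902440846) (nat_lit 1260) (nat_lit 8624115158) (nat_lit 161) (nat_lit 5) (nat_lit 175) (nat_lit 5) (nat_lit 176) (nat_lit 5) (nat_lit 261) (nat_lit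 257) (nat_lit 82)))) (XT.nd (nat_lit 94) (nat_lit 0) (nat_lit 0) (XT.lf (nat_lit 0) (nat_lit 5733629054) (nat_lit 1260) (nat_lit 4606525536) (nat_lit 1260) (nat_lit 4606525536) (nat_lit 159) (nat_lit 3) (nat_lit 174) (nat_lit 3) (nat_lit 174) (nat_lit 5) (nat_lit 258) (nat_lit 258) (nat_lit 84)) (XT.nd (nat_lit 94) (nat_lit 0) (nat_lit 84) (XT.lf (nat_lit 84) (nat_lit 5866651116) (nat_lit 0) (nat_lit 5939863179) (nat_lit 1260) (nat_lit 18605129491) (nat_lit 160) (nat_lit 5) (nat_lit 159) (nat_lit 3) (nat_lit 174) (nat_lit 5) (nat_lit 259) (nat_lit 258) (nat_lit 83)) (XT.lf (nat_lit 0) (nat_lit 12368092916) (nat_lit 1176) (nat_lit 9355844584) (nat_lit 1260) (nat_lit 9216764047) (nat_lit 160) (nat_lit 5) (nat_lit 174) (nat_lit 5) (nat_lit 175) (nat_lit 5) (nat_lit 260) (nat_lit 258) (nat_lit 82))))))))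
noncomputable def ec0 : XT := (XT.nd (nat_lit 150776) (nat_lit 0) (nat_lit 0) (XT.nd (nat_lit 112706) (nat_lit 0) (nat_lit 0) (XT.nd (nat_lit 75106) (nat_lit 0) (nat_lit 0) (XT.nd (nat_lit 37694) (nat_lit 0) (nat_lit 0) (XT.nd (nat_lit 37506) (nat_lit 0) (nat_lit 0) (XT.lf (nat_lit 1260) (nat_lit 1442334374) (nat_lit 84) (nat_lit 554129198) (nat_lit 0) (nat_lit 554129198) (nat_lit 174) (nat_lit 1) (nat_lit 160) (nat_lit 1) (nat_lit 159) (nat_lit 0) (nat_lit 227) (nat_lit 187) (nat_lit 186)) (XT.nd (nat_lit 94) (nat_lit 0) (nat_lit 84) (XT.lf (nat_lit 1260) (nat_lit 1492816078) (nat_lit 84) (nat_lit 573523720) (nat_lit 0) (nat_lit 573523720) (nat_lit 174) (nat_lit 1) (nat_lit 160) (nat_lit 1) (nat_lit 159) (nat_lit 0) (nat_lit 225) (nat_lit 188) (nat_lit 187)) (XT.lf (nat_lit 1260) (nat_lit 722146904) (nat_lit 0) (nat_lit 1150900046) (nat_lit 1176) (nat_lit 722146904) (nat_lit 175) (nat_lit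 1) (nat_lit 160) (nat_lit 1) (nat_lit 174) (nat_lit 1) (nat_lit 226) (nat_lit 188) (nat_lit 186)))) (XT.nd (nat_lit 37224) (nat_lit 84) (nat_lit 0) (XT.lf (nat_lit 1260) (nat_lit 1384291378) (nat_lit 84) (nat_lit 583649838) (nat_lit 0) (nat_lit 583649838) (nat_lit 175) (nat_lit 1) (nat_lit 161) (nat_lit 1) (nat_lit 160) (nat_lit 1) (nat_lit 227) (nat_lit 188) (nat_lit 185)) (XT.nd (nat_lit 94) (nat_lit 0) (nat_lit 0) (XT.lf (nat_lit 1260) (nat_lit 394650351) (nat_lit 0) (nat_lit 600442486) (nat_lit 1260) (nat_lit 394650351) (nat_lit 174) (nat_lit 1) (nat_lit 159) (nat_lit 0) (nat_lit 174) (nat_lit 0) (nat_lit 222) (nat_lit 189) (nat_lit 189)) (XT.lf (nat_lit 1260) (nat_lit 1545064640) (nat_lit 84) (nat_lit 593597050) (nat_lit 0) (nat_lit 593597050) (nat_lit 174) (nat_lit 1) (nat_lit 160) (nat_lit 1) (nat_lit 159) (nat_lit 0) (nat_lit 223) (nat_lit 189) (nat_lit 188))))) (XT.nd (nat_lit 282)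 (nat_lit 84) (nat_lit 0) (XT.nd (nat_lit 94) (nat_lit 0) (nat_lit 0) (XT.lf (nat_lit 1260) (nat_lit 747422045) (nat_lit 0) (nat_lit 1191181548) (nat_lit 1176) (nat_lit 747422045) (nat_lit 175) (nat_lit 1) (nat_lit 160) (nat_lit 1) (nat_lit 174) (nat_lit 1) (nat_lit 224) (nat_lit 189) (nat_lit 187)) (XT.nd (nat_lit 94) (nat_lit 0) (nat_lit 84) (XT.lf (nat_lit 1260) (nat_lit 1432741576) (nat_lit 84) (nat_lit 604077582) (nat_lit 0) (nat_lit 604077582) (nat_lit 175) (nat_lit 1) (nat_lit 161) (nat_lit 1) (nat_lit 160) (nat_lit 1) (nat_lit 225) (nat_lit 189) (nat_lit 186)) (XT.lf (nat_lit 1260) (nat_lit 678108295) (nat_lit 0) (nat_lit 1240518615) (nat_lit 1176) (nat_lit 678108295) (nat_lit 176) (nat_lit 1) (nat_lit 161) (nat_lit 1) (nat_lit 175) (nat_lit 1) (nat_lit 226) (nat_lit 189) (nat_lit 185)))) (XT.nd (nat_lit 37130) (nat_lit 0) (nat_lit 0) (XT.nd (nat_lit 37036) (nat_lit 168) (nat_lit 0)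 (XT.lf (nat_lit 1260) (nat_lit 1268136686) (nat_lit 84) (nat_lit 642726057) (nat_lit 0) (nat_lit 642726057) (nat_lit 176) (nat_lit 1) (nat_lit 162) (nat_lit 1) (nat_lit 161) (nat_lit 1) (nat_lit 227) (nat_lit 189) (nat_lit 184)) (XT.lf (nat_lit 1260) (nat_lit 408463113) (nat_lit 0) (nat_lit 621457973) (nat_lit 1260) (nat_lit 408463113) (nat_lit 174) (nat_lit 1) (nat_lit 159) (nat_lit 0) (nat_lit 174) (nat_lit 0) (nat_lit 220) (nat_lit 190) (nat_lit 190))) (XT.nd (nat_lit 94) (nat_lit 0) (nat_lit 84) (XT.lf (nat_lit 1260) (nat_lit 1599141903) (nat_lit 84) (nat_lit 614372947) (nat_lit 0) (nat_lit 614372947) (nat_lit 174) (nat_lit 1) (nat_lit 160) (nat_lit 1) (nat_lit 159) (nat_lit 0) (nat_lit 221) (nat_lit 190) (nat_lit 189)) (XT.lf (nat_lit 1260) (nat_lit 773581817) (nat_lit 0) (nat_lit 1232872902) (nat_lit 1176) (nat_lit 773581817) (nat_lit 175) (nat_lit 1) (nat_lit 160) (nat_lit 1) (nat_lit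 174) (nat_lit 1) (nat_lit 222) (nat_lit 190) (nat_lit 188)))))) (XT.nd (nat_lit 37412) (nat_lit 0) (nat_lit 84) (XT.nd (nat_lit 282) (nat_lit 84) (nat_lit 0) (XT.nd (nat_lit 94) (nat_lit 0) (nat_lit 84) (XT.lf (nat_lit 1260) (nat_lit 1482887531) (nat_lit 84) (nat_lit 625220297) (nat_lit 0) (nat_lit 625220297) (nat_lit 175) (nat_lit 1) (nat_lit 161) (nat_lit 1) (nat_lit 160) (nat_lit 1) (nat_lit 223) (nat_lit 190) (nat_lit 187)) (XT.nd (nat_lit 94) (nat_lit 0) (nat_lit 0) (XT.lf (nat_lit 1260) (nat_lit 701842085) (nat_lit 0) (nat_lit 1283936767) (nat_lit 1176) (nat_lit 701842085) (nat_lit 176) (nat_lit 1) (nat_lit 161) (nat_lit 1) (nat_lit 175) (nat_lit 1) (nat_lit 224) (nat_lit 190) (nat_lit 186)) (XT.lf (nat_lit 1260) (nat_lit 1312521470) (nat_lit 84) (nat_lit 665221469) (nat_lit 0) (nat_lit 665221469) (nat_lit 176) (nat_lit 1) (nat_lit 162) (nat_lit 1) (nat_lit 161) (nat_lit 1) (nat_lit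 225) (nat_lit 190) (nat_lit 185)))) (XT.nd (nat_lit 36942) (nat_lit 252) (nat_lit 0) (XT.nd (nat_lit 94) (nat_lit 0) (nat_lit 0) (XT.lf (nat_lit 1260) (nat_lit 604652702) (nat_lit 0) (nat_lit 1390000747) (nat_lit 1176) (nat_lit 604652702) (nat_lit 177) (nat_lit 1) (nat_lit 162) (nat_lit 1) (nat_lit 176) (nat_lit 1) (nat_lit 226) (nat_lit 190) (nat_lit 184)) (XT.lf (nat_lit 1260) (nat_lit 1093732822) (nat_lit 84) (nat_lit 731427776) (nat_lit 0) (nat_lit 731427776) (nat_lit 177) (nat_lit 1) (nat_lit 163) (nat_lit 1) (nat_lit 162) (nat_lit 1) (nat_lit 227) (nat_lit 190) (nat_lit 183))) (XT.nd (nat_lit 94) (nat_lit 0) (nat_lit 0) (XT.lf (nat_lit 1260) (nat_lit 422759322) (nat_lit 0) (nat_lit 643209002) (nat_lit 1260) (nat_lit 422759322) (nat_lit 174) (nat_lit 1) (nat_lit 159) (nat_lit 0) (nat_lit 174) (nat_lit 0) (nat_lit 218) (nat_lit 191) (nat_lit 191)) (XT.lf (nat_lit 1260) (nat_lit 1655111869)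 (nat_lit 84) (nat_lit 635876000) (nat_lit 0) (nat_lit 635876000) (nat_lit 174) (nat_lit 1) (nat_lit 160) (nat_lit 1) (nat_lit 159) (nat_lit 0) (nat_lit 219) (nat_lit 191) (nat_lit 190))))) (XT.nd (nat_lit 282) (nat_lit 0) (nat_lit 84) (XT.nd (nat_lit 94) (nat_lit 0) (nat_lit 0) (XT.lf (nat_lit 1260) (nat_lit 800657181) (nat_lit 0) (nat_lit 1276023454) (nat_lit 1176) (nat_lit 800657181) (nat_lit 175) (nat_lit 1) (nat_lit 160) (nat_lit 1) (nat_lit 174) (nat_lit 1) (nat_lit 220) (nat_lit 191) (nat_lit 189)) (XT.nd (nat_lit 94) (nat_lit 0) (nat_lit 84) (XT.lf (nat_lit 1260) (nat_lit 1534788595) (nat_lit 84) (nat_lit 647103008) (nat_lit 0) (nat_lit 647103008) (nat_lit 175) (nat_lit 1) (nat_lit 161) (nat_lit 1) (nat_lit 160) (nat_lit 1) (nat_lit 221) (nat_lit 191) (nat_lit 188)) (XT.lf (nat_lit 1260) (nat_lit 726406558) (nat_lit 0) (nat_lit 1328874553) (nat_lit 1176) (nat_lit 726406558) (nat_lit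 176) (nat_lit 1) (nat_lit 161) (nat_lit 1) (nat_lit 175) (nat_lit 1) (nat_lit 222) (nat_lit 191) (nat_lit 187)))) (XT.nd (nat_lit 188) (nat_lit 0) (nat_lit 84) (XT.nd (nat_lit 94) (nat_lit 0) (nat_lit 84) (XT.lf (nat_lit 1260) (nat_lit 1358459722) (nat_lit 84) (nat_lit 688504220) (nat_lit 0) (nat_lit 688504220) (nat_lit 176) (nat_lit 1) (nat_lit 162) (nat_lit 1) (nat_lit 161) (nat_lit 1) (nat_lit 223) (nat_lit 191) (nat_lit 186)) (XT.lf (nat_lit 1260) (nat_lit 625815546) (nat_lit 0) (nat_lit 1438650774) (nat_lit 1176) (nat_lit 625815546) (nat_lit 177) (nat_lit 1) (nat_lit 162) (nat_lit 1) (nat_lit 176) (nat_lit 1) (nat_lit 224) (nat_lit 191) (nat_lit 185))) (XT.nd (nat_lit 94) (nat_lit 0) (nat_lit 84) (XT.lf (nat_lit 1260) (nat_lit 1132013471) (nat_lit 84) (nat_lit 757027748) (nat_lit 0) (nat_lit 757027748) (nat_lit 177) (nat_lit 1) (nat_lit 163) (nat_lit 1) (nat_lit 162) (nat_lit 1) (nat_lit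 225) (nat_lit 191) (nat_lit 184)) (XT.lf (nat_lit 1260) (nat_lit 501693184) (nat_lit 0) (nat_lit 1599523367) (nat_lit 1176) (nat_lit 501693184) (nat_lit 178) (nat_lit 1) (nat_lit 163) (nat_lit 1) (nat_lit 177) (nat_lit 1) (nat_lit 226) (nat_lit 191) (nat_lit 183))))))) (XT.nd (nat_lit 74166) (nat_lit 0) (nat_lit 0) (XT.nd (nat_lit 37130) (nat_lit 0) (nat_lit 168) (XT.nd (nat_lit 36848) (nat_lit 0) (nat_lit 84) (XT.nd (nat_lit 36660) (nat_lit 336) (nat_lit 0) (XT.lf (nat_lit 1260) (nat_lit 860873365) (nat_lit 84) (nat_lit 849859982) (nat_lit 0) (nat_lit 849859982) (nat_lit 178) (nat_lit 1) (nat_lit 164) (nat_lit 1) (nat_lit 163) (nat_lit 1) (nat_lit 227) (nat_lit 191) (nat_lit 182)) (XT.nd (nat_lit 94) (nat_lit 0) (nat_lit 0) (XT.lf (nat_lit 1260) (nat_lit 437555898) (nat_lit 0) (nat_lit 665721317) (nat_lit 1260) (nat_lit 437555898) (nat_lit 174) (nat_lit 1) (nat_lit 159) (nat_lit 0) (nat_lit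 174) (nat_lit 0) (nat_lit 216) (nat_lit 192) (nat_lit 192)) (XT.lf (nat_lit 1260) (nat_lit 1713040785) (nat_lit 84) (nat_lit 658131660) (nat_lit 0) (nat_lit 658131660) (nat_lit 174) (nat_lit 1) (nat_lit 160) (nat_lit 1) (nat_lit 159) (nat_lit 0) (nat_lit 217) (nat_lit 192) (nat_lit 191)))) (XT.nd (nat_lit 94) (nat_lit 0) (nat_lit 0) (XT.lf (nat_lit 1260) (nat_lit 828680182) (nat_lit 0) (nat_lit 1320684275) (nat_lit 1176) (nat_lit 828680182) (nat_lit 175) (nat_lit 1) (nat_lit 160) (nat_lit 1) (nat_lit 174) (nat_lit 1) (nat_lit 218) (nat_lit 192) (nat_lit 190)) (XT.nd (nat_lit 94) (nat_lit 0) (nat_lit 84) (XT.lf (nat_lit 1260) (nat_lit 1588506196) (nat_lit 84) (nat_lit 669751613) (nat_lit 0) (nat_lit 669751613) (nat_lit 175) (nat_lit 1) (nat_lit 161) (nat_lit 1) (nat_lit 160) (nat_lit 1) (nat_lit 219) (nat_lit 192) (nat_lit 189)) (XT.lf (nat_lit 1260) (nat_lit 751830788) (nat_lit 0) (nat_lit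 1375385163) (nat_lit 1176) (nat_lit 751830788) (nat_lit 176) (nat_lit 1) (nat_lit 161) (nat_lit 1) (nat_lit 175) (nat_lit 1) (nat_lit 220) (nat_lit 192) (nat_lit 188))))) (XT.nd (nat_lit 282) (nat_lit 0) (nat_lit 168) (XT.nd (nat_lit 94) (nat_lit 0) (nat_lit 84) (XT.lf (nat_lit 1260) (nat_lit 1406005812) (nat_lit 84) (nat_lit 712601868) (nat_lit 0) (nat_lit 712601868) (nat_lit 176) (nat_lit 1) (nat_lit 162) (nat_lit 1) (nat_lit 161) (nat_lit 1) (nat_lit 221) (nat_lit 192) (nat_lit 187)) (XT.nd (nat_lit 94) (nat_lit 0) (nat_lit 0) (XT.lf (nat_lit 1260) (nat_lit 647719090) (nat_lit 0) (nat_lit 1489003551) (nat_lit 1176) (nat_lit 647719090) (nat_lit 177) (nat_lit 1) (nat_lit 162) (nat_lit 1) (nat_lit 176) (nat_lit 1) (nat_lit 222) (nat_lit 192) (nat_lit 186)) (XT.lf (nat_lit 1260) (nat_lit 1171633942) (nat_lit 84) (nat_lit 783523720) (nat_lit 0) (nat_lit 783523720) (nat_lit 177) (nat_lit 1) (nat_lit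 163) (nat_lit 1) (nat_lit 162) (nat_lit 1) (nat_lit 223) (nat_lit 192) (nat_lit 185)))) (XT.nd (nat_lit 188) (nat_lit 0) (nat_lit 84) (XT.nd (nat_lit 94) (nat_lit 0) (nat_lit 0) (XT.lf (nat_lit 1260) (nat_lit 519252445) (nat_lit 0) (nat_lit 1655506685) (nat_lit 1176) (nat_lit 519252445) (nat_lit 178) (nat_lit 1) (nat_lit 163) (nat_lit 1) (nat_lit 177) (nat_lit 1) (nat_lit 224) (nat_lit 192) (nat_lit 184)) (XT.lf (nat_lit 1260) (nat_lit 891003933) (nat_lit 84) (nat_lit 879605081) (nat_lit 0) (nat_lit 879605081) (nat_lit 178) (nat_lit 1) (nat_lit 164) (nat_lit 1) (nat_lit 163) (nat_lit 1) (nat_lit 225) (nat_lit 192) (nat_lit 183))) (XT.nd (nat_lit 94) (nat_lit 0) (nat_lit 0) (XT.lf (nat_lit 1260) (nat_lit 369107880) (nat_lit 0) (nat_lit 1869334459) (nat_lit 1176) (nat_lit 369107880) (nat_lit 179) (nat_lit 1) (nat_lit 164) (nat_lit 1) (nat_lit 178) (nat_lit 1) (nat_lit 226) (nat_lit 192) (nat_lit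 182)) (XT.lf (nat_lit 1260) (nat_lit 569282708) (nat_lit 84) (nat_lit 998162846) (nat_lit 0) (nat_lit 998162846) (nat_lit 179) (nat_lit 1) (nat_lit 165) (nat_lit 1) (nat_lit 164) (nat_lit 1) (nat_lit 227) (nat_lit 192) (nat_lit 181)))))) (XT.nd (nat_lit 658) (nat_lit 0) (nat_lit 252) (XT.nd (nat_lit 282) (nat_lit 0) (nat_lit 84) (XT.nd (nat_lit 94) (nat_lit 0) (nat_lit 0) (XT.lf (nat_lit 1260) (nat_lit 452870355) (nat_lit 0) (nat_lit 689021563) (nat_lit 1260) (nat_lit 452870355) (nat_lit 174) (nat_lit 1) (nat_lit 159) (nat_lit 0) (nat_lit 174) (nat_lit 0) (nat_lit 214) (nat_lit 193) (nat_lit 193)) (XT.nd (nat_lit 94) (nat_lit 0) (nat_lit 84) (XT.lf (nat_lit 1260) (nat_lit 1772997212) (nat_lit 84) (nat_lit 681166268) (nat_lit 0) (nat_lit 681166268) (nat_lit 174) (nat_lit 1) (nat_lit 160) (nat_lit 1) (nat_lit 159) (nat_lit 0) (nat_lit 215) (nat_lit 193) (nat_lit 192)) (XT.lf (nat_lit 1260) (nat_lit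 857683988) (nat_lit 0) (nat_lit 1366908224) (nat_lit 1176) (nat_lit 857683988) (nat_lit 175) (nat_lit 1) (nat_lit 160) (nat_lit 1) (nat_lit 174) (nat_lit 1) (nat_lit 216) (nat_lit 193) (nat_lit 191)))) (XT.nd (nat_lit 188) (nat_lit 0) (nat_lit 84) (XT.nd (nat_lit 94) (nat_lit 0) (nat_lit 84) (XT.lf (nat_lit 1260) (nat_lit 1644103912) (nat_lit 84) (nat_lit 693192919) (nat_lit 0) (nat_lit 693192919) (nat_lit 175) (nat_lit 1) (nat_lit 161) (nat_lit 1) (nat_lit 160) (nat_lit 1) (nat_lit 217) (nat_lit 193) (nat_lit 190)) (XT.lf (nat_lit 1260) (nat_lit 778144866) (nat_lit 0) (nat_lit 1423523644) (nat_lit 1176) (nat_lit 778144866) (nat_lit 176) (nat_lit 1) (nat_lit 161) (nat_lit 1) (nat_lit 175) (nat_lit 1) (nat_lit 218) (nat_lit 193) (nat_lit 189))) (XT.nd (nat_lit 94) (nat_lit 0) (nat_lit 84) (XT.lf (nat_lit 1260) (nat_lit 1455216015) (nat_lit 84) (nat_lit 737542933) (nat_lit 0) (nat_lit 737542933)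 (nat_lit 176) (nat_lit 1) (nat_lit 162) (nat_lit 1) (nat_lit 161) (nat_lit 1) (nat_lit 219) (nat_lit 193) (nat_lit 188)) (XT.lf (nat_lit 1260) (nat_lit 670389259) (nat_lit 0) (nat_lit 1541118675) (nat_lit 1176) (nat_lit 670389259) (nat_lit 177) (nat_lit 1) (nat_lit 162) (nat_lit 1) (nat_lit 176) (nat_lit 1) (nat_lit 220) (nat_lit 193) (nat_lit 187))))) (XT.nd (nat_lit 282) (nat_lit 0) (nat_lit 168) (XT.nd (nat_lit 94) (nat_lit 0) (nat_lit 84) (XT.lf (nat_lit 1260) (nat_lit 1212641130) (nat_lit 84) (nat_lit 810947050) (nat_lit 0) (nat_lit 810947050) (nat_lit 177) (nat_lit 1) (nat_lit 163) (nat_lit 1) (nat_lit 162) (nat_lit 1) (nat_lit 221) (nat_lit 193) (nat_lit 186)) (XT.nd (nat_lit 94) (nat_lit 0) (nat_lit 0) (XT.lf (nat_lit 1260) (nat_lit 537426281) (nat_lit 0) (nat_lit 1713449419) (nat_lit 1176) (nat_lit 537426281) (nat_lit 178) (nat_lit 1) (nat_lit 163) (nat_lit 1) (nat_lit 177) (nat_lit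 1) (nat_lit 222) (nat_lit 193) (nat_lit 185)) (XT.lf (nat_lit 1260) (nat_lit 922189070) (nat_lit 84) (nat_lit 910391259) (nat_lit 0) (nat_lit 910391259) (nat_lit 178) (nat_lit 1) (nat_lit 164) (nat_lit 1) (nat_lit 163) (nat_lit 1) (nat_lit 223) (nat_lit 193) (nat_lit 184)))) (XT.nd (nat_lit 188) (nat_lit 0) (nat_lit 84) (XT.nd (nat_lit 94) (nat_lit 0) (nat_lit 0) (XT.lf (nat_lit 1260) (nat_lit 382026656) (nat_lit 0) (nat_lit 1934761165) (nat_lit 1176) (nat_lit 382026656) (nat_lit 179) (nat_lit 1) (nat_lit 164) (nat_lit 1) (nat_lit 178) (nat_lit 1) (nat_lit 224) (nat_lit 193) (nat_lit 183)) (XT.lf (nat_lit 1260) (nat_lit 589207603) (nat_lit 84) (nat_lit 1033098546) (nat_lit 0) (nat_lit 1033098546) (nat_lit 179) (nat_lit 1) (nat_lit 165) (nat_lit 1) (nat_lit 164) (nat_lit 1) (nat_lit 225) (nat_lit 193) (nat_lit 182))) (XT.nd (nat_lit 94) (nat_lit 0) (nat_lit 0) (XT.lf (nat_lit 1260) (nat_lit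 206739867) (nat_lit 0) (nat_lit 2199753366) (nat_lit 1176) (nat_lit 206739867) (nat_lit 180) (nat_lit 1) (nat_lit 165) (nat_lit 1) (nat_lit 179) (nat_lit 1) (nat_lit 226) (nat_lit 193) (nat_lit 181)) (XT.lf (nat_lit 1260) (nat_lit 218615733) (nat_lit 84) (nat_lit 1176511897) (nat_lit 0) (nat_lit 1176511897) (nat_lit 180) (nat_lit 1) (nat_lit 166) (nat_lit 1) (nat_lit 165) (nat_lit 1) (nat_lit 227) (nat_lit 193) (nat_lit 180))))))))
noncomputable def ec1 : XT := (XT.nd (nat_lit 38540) (nat_lit 1260) (nat_lit 0) (XT.nd (nat_lit 1222) (nat_lit 672) (nat_lit 0) (XT.nd (nat_lit 564) (nat_lit 0) (nat_lit 252) (XT.nd (nat_lit 282) (nat_lit 0) (nat_lit 84) (XT.nd (nat_lit 94) (nat_lit 0) (nat_lit 0) (XT.lf (nat_lit 1260) (nat_lit 468720817) (nat_lit 0) (nat_lit 713137318) (nat_lit 1260) (nat_lit 468720817) (nat_lit 174) (nat_lit 1) (nat_lit 159) (nat_lit 0) (nat_lit 174) (nat_lit 0) (nat_lit 212)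 (nat_lit 194) (nat_lit 194)) (XT.nd (nat_lit 94) (nat_lit 0) (nat_lit 84) (XT.lf (nat_lit 1260) (nat_lit 1835052115) (nat_lit 84) (nat_lit 705007088) (nat_lit 0) (nat_lit 705007088) (nat_lit 174) (nat_lit 1) (nat_lit 160) (nat_lit 1) (nat_lit 159) (nat_lit 0) (nat_lit 213) (nat_lit 194) (nat_lit 193)) (XT.lf (nat_lit 1260) (nat_lit 887702928) (nat_lit 0) (nat_lit 1414750012) (nat_lit 1176) (nat_lit 887702928) (nat_lit 175) (nat_lit 1) (nat_lit 160) (nat_lit 1) (nat_lit 174) (nat_lit 1) (nat_lit 214) (nat_lit 194) (nat_lit 192)))) (XT.nd (nat_lit 94) (nat_lit 0) (nat_lit 84) (XT.lf (nat_lit 1260) (nat_lit 1701647549) (nat_lit 84) (nat_lit 717454672) (nat_lit 0) (nat_lit 717454672) (nat_lit 175) (nat_lit 1) (nat_lit 161) (nat_lit 1) (nat_lit 160) (nat_lit 1) (nat_lit 215) (nat_lit 194) (nat_lit 191)) (XT.nd (nat_lit 94) (nat_lit 0) (nat_lit 0) (XT.lf (nat_lit 1260) (nat_lit 805379936) (nat_lit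 0) (nat_lit 1473346971) (nat_lit 1176) (nat_lit 805379936) (nat_lit 176) (nat_lit 1) (nat_lit 161) (nat_lit 1) (nat_lit 175) (nat_lit 1) (nat_lit 216) (nat_lit 194) (nat_lit 190)) (XT.lf (nat_lit 1260) (nat_lit 1506148576) (nat_lit 84) (nat_lit 763356936) (nat_lit 0) (nat_lit 763356936) (nat_lit 176) (nat_lit 1) (nat_lit 162) (nat_lit 1) (nat_lit 161) (nat_lit 1) (nat_lit 217) (nat_lit 194) (nat_lit 189))))) (XT.nd (nat_lit 282) (nat_lit 0) (nat_lit 84) (XT.nd (nat_lit 94) (nat_lit 0) (nat_lit 0) (XT.lf (nat_lit 1260) (nat_lit 693852883) (nat_lit 0) (nat_lit 1595057829) (nat_lit 1176) (nat_lit 693852883) (nat_lit 177) (nat_lit 1) (nat_lit 162) (nat_lit 1) (nat_lit 176) (nat_lit 1) (nat_lit 218) (nat_lit 194) (nat_lit 188)) (XT.nd (nat_lit 94) (nat_lit 0) (nat_lit 84) (XT.lf (nat_lit 1260) (nat_lit 1255083570) (nat_lit 84) (nat_lit 839330197) (nat_lit 0) (nat_lit 839330197) (nat_lit 177) (nat_lit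 1) (nat_lit 163) (nat_lit 1) (nat_lit 162) (nat_lit 1) (nat_lit 219) (nat_lit 194) (nat_lit 187)) (XT.lf (nat_lit 1260) (nat_lit 556236200) (nat_lit 0) (nat_lit 1773420148) (nat_lit 1176) (nat_lit 556236200) (nat_lit 178) (nat_lit 1) (nat_lit 163) (nat_lit 1) (nat_lit 177) (nat_lit 1) (nat_lit 220) (nat_lit 194) (nat_lit 186)))) (XT.nd (nat_lit 188) (nat_lit 0) (nat_lit 84) (XT.nd (nat_lit 94) (nat_lit 0) (nat_lit 84) (XT.lf (nat_lit 1260) (nat_lit 954465688) (nat_lit 84) (nat_lit 942254953) (nat_lit 0) (nat_lit 942254953) (nat_lit 178) (nat_lit 1) (nat_lit 164) (nat_lit 1) (nat_lit 163) (nat_lit 1) (nat_lit 221) (nat_lit 194) (nat_lit 185)) (XT.lf (nat_lit 1260) (nat_lit 395397589) (nat_lit 0) (nat_lit 2002477806) (nat_lit 1176) (nat_lit 395397589) (nat_lit 179) (nat_lit 1) (nat_lit 164) (nat_lit 1) (nat_lit 178) (nat_lit 1) (nat_lit 222) (nat_lit 194) (nat_lit 184))) (XT.nd (nat_lit 94)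 (nat_lit 0) (nat_lit 84) (XT.lf (nat_lit 1260) (nat_lit 609829869) (nat_lit 84) (nat_lit 1069256995) (nat_lit 0) (nat_lit 1069256995) (nat_lit 179) (nat_lit 1) (nat_lit 165) (nat_lit 1) (nat_lit 164) (nat_lit 1) (nat_lit 223) (nat_lit 194) (nat_lit 183)) (XT.lf (nat_lit 1260) (nat_lit 213975763) (nat_lit 0) (nat_lit 2276744733) (nat_lit 1176) (nat_lit 213975763) (nat_lit 180) (nat_lit 1) (nat_lit 165) (nat_lit 1) (nat_lit 179) (nat_lit 1) (nat_lit 224) (nat_lit 194) (nat_lit 182)))))) (XT.nd (nat_lit 36660) (nat_lit 0) (nat_lit 840) (XT.nd (nat_lit 36284) (nat_lit 0) (nat_lit 672) (XT.nd (nat_lit 94) (nat_lit 1176) (nat_lit 0) (XT.lf (nat_lit 1260) (nat_lit 226267284) (nat_lit 84) (nat_lit 1217689814) (nat_lit 0) (nat_lit 1217689814) (nat_lit 180) (nat_lit 1) (nat_lit 166) (nat_lit 1) (nat_lit 165) (nat_lit 1) (nat_lit 225) (nat_lit 194) (nat_lit 181)) (XT.nd (nat_lit 94) (nat_lit 1260) (nat_lit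 0) (XT.lf (nat_lit 84) (nat_lit 14396970) (nat_lit 0) (nat_lit 2591171162) (nat_lit 1176) (nat_lit 14396970) (nat_lit 167) (nat_lit 1) (nat_lit 166) (nat_lit 1) (nat_lit 180) (nat_lit 1) (nat_lit 226) (nat_lit 194) (nat_lit 180)) (XT.lf (nat_lit 84) (nat_lit 1195709821) (nat_lit 0) (nat_lit 187199510) (nat_lit 1260) (nat_lit 1195709821) (nat_lit 152) (nat_lit 1) (nat_lit 151) (nat_lit 1) (nat_lit 166) (nat_lit 1) (nat_lit 227) (nat_lit 194) (nat_lit 179)))) (XT.nd (nat_lit 188) (nat_lit 0) (nat_lit 84) (XT.nd (nat_lit 94) (nat_lit 0) (nat_lit 0) (XT.lf (nat_lit 1260) (nat_lit 485126046) (nat_lit 0) (nat_lit 738097124) (nat_lit 1260) (nat_lit 485126046) (nat_lit 174) (nat_lit 1) (nat_lit 159) (nat_lit 0) (nat_lit 174) (nat_lit 0) (nat_lit 210) (nat_lit 195) (nat_lit 195)) (XT.lf (nat_lit 1260) (nat_lit 1899278939) (nat_lit 84) (nat_lit 729682336) (nat_lit 0) (nat_lit 729682336) (nat_lit 174)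 (nat_lit 1) (nat_lit 160) (nat_lit 1) (nat_lit 159) (nat_lit 0) (nat_lit 211) (nat_lit 195) (nat_lit 194))) (XT.nd (nat_lit 94) (nat_lit 0) (nat_lit 0) (XT.lf (nat_lit 1260) (nat_lit 918772530) (nat_lit 0) (nat_lit 1464266263) (nat_lit 1176) (nat_lit 918772530) (nat_lit 175) (nat_lit 1) (nat_lit 160) (nat_lit 1) (nat_lit 174) (nat_lit 1) (nat_lit 212) (nat_lit 195) (nat_lit 193)) (XT.lf (nat_lit 1260) (nat_lit 1761205214) (nat_lit 84) (nat_lit 742565585) (nat_lit 0) (nat_lit 742565585) (nat_lit 175) (nat_lit 1) (nat_lit 161) (nat_lit 1) (nat_lit 160) (nat_lit 1) (nat_lit 213) (nat_lit 195) (nat_lit 192))))) (XT.nd (nat_lit 282) (nat_lit 0) (nat_lit 84) (XT.nd (nat_lit 94) (nat_lit 0) (nat_lit 0) (XT.lf (nat_lit 1260) (nat_lit 833568234) (nat_lit 0) (nat_lit 1524914115) (nat_lit 1176) (nat_lit 833568234) (nat_lit 176) (nat_lit 1) (nat_lit 161) (nat_lit 1) (nat_lit 175) (nat_lit 1) (nat_lit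 214) (nat_lit 195) (nat_lit 191)) (XT.nd (nat_lit 94) (nat_lit 0) (nat_lit 84) (XT.lf (nat_lit 1260) (nat_lit 1558863776) (nat_lit 84) (nat_lit 790074429) (nat_lit 0) (nat_lit 790074429) (nat_lit 176) (nat_lit 1) (nat_lit 162) (nat_lit 1) (nat_lit 161) (nat_lit 1) (nat_lit 215) (nat_lit 195) (nat_lit 190)) (XT.lf (nat_lit 1260) (nat_lit 718137734) (nat_lit 0) (nat_lit 1650884853) (nat_lit 1176) (nat_lit 718137734) (nat_lit 177) (nat_lit 1) (nat_lit 162) (nat_lit 1) (nat_lit 176) (nat_lit 1) (nat_lit 216) (nat_lit 195) (nat_lit 189)))) (XT.nd (nat_lit 188) (nat_lit 0) (nat_lit 84) (XT.nd (nat_lit 94) (nat_lit 0) (nat_lit 84) (XT.lf (nat_lit 1260) (nat_lit 1299011495) (nat_lit 84) (nat_lit 868706754) (nat_lit 0) (nat_lit 868706754) (nat_lit 177) (nat_lit 1) (nat_lit 163) (nat_lit 1) (nat_lit 162) (nat_lit 1) (nat_lit 217) (nat_lit 195) (nat_lit 188)) (XT.lf (nat_lit 1260) (nat_lit 575704467)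 (nat_lit 0) (nat_lit 1835489854) (nat_lit 1176) (nat_lit 575704467) (nat_lit 178) (nat_lit 1) (nat_lit 163) (nat_lit 1) (nat_lit 177) (nat_lit 1) (nat_lit 218) (nat_lit 195) (nat_lit 187))) (XT.nd (nat_lit 94) (nat_lit 0) (nat_lit 84) (XT.lf (nat_lit 1260) (nat_lit 987871987) (nat_lit 84) (nat_lit 975233876) (nat_lit 0) (nat_lit 975233876) (nat_lit 178) (nat_lit 1) (nat_lit 164) (nat_lit 1) (nat_lit 163) (nat_lit 1) (nat_lit 219) (nat_lit 195) (nat_lit 186)) (XT.lf (nat_lit 1260) (nat_lit 409236505) (nat_lit 0) (nat_lit 2072564529) (nat_lit 1176) (nat_lit 409236505) (nat_lit 179) (nat_lit 1) (nat_lit 164) (nat_lit 1) (nat_lit 178) (nat_lit 1) (nat_lit 220) (nat_lit 195) (nat_lit 185))))))) (XT.nd (nat_lit 37130) (nat_lit 588) (nat_lit 0) (XT.nd (nat_lit 36472) (nat_lit 0) (nat_lit 1344) (XT.nd (nat_lit 282) (nat_lit 1764) (nat_lit 0) (XT.nd (nat_lit 94) (nat_lit 0) (nat_lit 84) (XT.lf (nat_lit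 1260) (nat_lit 631173915) (nat_lit 84) (nat_lit 1106680990) (nat_lit 0) (nat_lit 1106680990) (nat_lit 179) (nat_lit 1) (nat_lit 165) (nat_lit 1) (nat_lit 164) (nat_lit 1) (nat_lit 221) (nat_lit 195) (nat_lit 184)) (XT.nd (nat_lit 94) (nat_lit 0) (nat_lit 0) (XT.lf (nat_lit 1260) (nat_lit 221464914) (nat_lit 0) (nat_lit 2356430799) (nat_lit 1176) (nat_lit 221464914) (nat_lit 180) (nat_lit 1) (nat_lit 165) (nat_lit 1) (nat_lit 179) (nat_lit 1) (nat_lit 222) (nat_lit 195) (nat_lit 183)) (XT.lf (nat_lit 1260) (nat_lit 234186639) (nat_lit 84) (nat_lit 1260308957) (nat_lit 0) (nat_lit 1260308957) (nat_lit 180) (nat_lit 1) (nat_lit 166) (nat_lit 1) (nat_lit 165) (nat_lit 1) (nat_lit 223) (nat_lit 195) (nat_lit 182)))) (XT.nd (nat_lit 94) (nat_lit 1932) (nat_lit 0) (XT.lf (nat_lit 84) (nat_lit 14900864) (nat_lit 0) (nat_lit 2681862153) (nat_lit 1176) (nat_lit 14900864) (nat_lit 167) (nat_lit 1) (nat_lit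 166) (nat_lit 1) (nat_lit 180) (nat_lit 1) (nat_lit 224) (nat_lit 195) (nat_lit 181)) (XT.nd (nat_lit 94) (nat_lit 672) (nat_lit 0) (XT.lf (nat_lit 84) (nat_lit 1237559664) (nat_lit 0) (nat_lit 193751493) (nat_lit 1260) (nat_lit 1237559664) (nat_lit 152) (nat_lit 1) (nat_lit 151) (nat_lit 1) (nat_lit 166) (nat_lit 1) (nat_lit 225) (nat_lit 195) (nat_lit 180)) (XT.lf (nat_lit 756) (nat_lit 2215876714) (nat_lit 0) (nat_lit 205775435) (nat_lit 672) (nat_lit 205775435) (nat_lit 152) (nat_lit 1) (nat_lit 143) (nat_lit 1) (nat_lit 151) (nat_lit 1) (nat_lit 226) (nat_lit 195) (nat_lit 179))))) (XT.nd (nat_lit 282) (nat_lit 0) (nat_lit 84) (XT.nd (nat_lit 94) (nat_lit 0) (nat_lit 0) (XT.lf (nat_lit 1260) (nat_lit 502105457) (nat_lit 0) (nat_lit 763930523) (nat_lit 1260) (nat_lit 502105457) (nat_lit 174) (nat_lit 1) (nat_lit 159) (nat_lit 0) (nat_lit 174) (nat_lit 0) (nat_lit 208) (nat_lit 196) (nat_lit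 196)) (XT.nd (nat_lit 94) (nat_lit 0) (nat_lit 84) (XT.lf (nat_lit 1260) (nat_lit 1965753702) (nat_lit 84) (nat_lit 755221217) (nat_lit 0) (nat_lit 755221217) (nat_lit 174) (nat_lit 1) (nat_lit 160) (nat_lit 1) (nat_lit 159) (nat_lit 0) (nat_lit 209) (nat_lit 196) (nat_lit 195)) (XT.lf (nat_lit 1260) (nat_lit 950929569) (nat_lit 0) (nat_lit 1515515582) (nat_lit 1176) (nat_lit 950929569) (nat_lit 175) (nat_lit 1) (nat_lit 160) (nat_lit 1) (nat_lit 174) (nat_lit 1) (nat_lit 210) (nat_lit 196) (nat_lit 194)))) (XT.nd (nat_lit 188) (nat_lit 0) (nat_lit 84) (XT.nd (nat_lit 94) (nat_lit 0) (nat_lit 84) (XT.lf (nat_lit 1260) (nat_lit 1822847396) (nat_lit 84) (nat_lit 768555381) (nat_lit 0) (nat_lit 768555381) (nat_lit 175) (nat_lit 1) (nat_lit 161) (nat_lit 1) (nat_lit 160) (nat_lit 1) (nat_lit 211) (nat_lit 196) (nat_lit 193)) (XT.lf (nat_lit 1260) (nat_lit 862743122) (nat_lit 0) (nat_lit 1578286109)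 (nat_lit 1176) (nat_lit 862743122) (nat_lit 176) (nat_lit 1) (nat_lit 161) (nat_lit 1) (nat_lit 175) (nat_lit 1) (nat_lit 212) (nat_lit 196) (nat_lit 192))) (XT.nd (nat_lit 94) (nat_lit 0) (nat_lit 84) (XT.lf (nat_lit 1260) (nat_lit 1613424008) (nat_lit 84) (nat_lit 817727034) (nat_lit 0) (nat_lit 817727034) (nat_lit 176) (nat_lit 1) (nat_lit 162) (nat_lit 1) (nat_lit 161) (nat_lit 1) (nat_lit 213) (nat_lit 196) (nat_lit 191)) (XT.lf (nat_lit 1260) (nat_lit 743272554) (nat_lit 0) (nat_lit 1708665823) (nat_lit 1176) (nat_lit 743272554) (nat_lit 177) (nat_lit 1) (nat_lit 162) (nat_lit 1) (nat_lit 176) (nat_lit 1) (nat_lit 214) (nat_lit 196) (nat_lit 190)))))) (XT.nd (nat_lit 658) (nat_lit 2184) (nat_lit 0) (XT.nd (nat_lit 282) (nat_lit 0) (nat_lit 168) (XT.nd (nat_lit 94) (nat_lit 0) (nat_lit 84) (XT.lf (nat_lit 1260) (nat_lit 1344476897) (nat_lit 84) (nat_lit 899111490) (nat_lit 0) (nat_lit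 899111490) (nat_lit 177) (nat_lit 1) (nat_lit 163) (nat_lit 1) (nat_lit 162) (nat_lit 1) (nat_lit 215) (nat_lit 196) (nat_lit 189)) (XT.nd (nat_lit 94) (nat_lit 0) (nat_lit 0) (XT.lf (nat_lit 1260) (nat_lit 595854124) (nat_lit 0) (nat_lit 1899731999) (nat_lit 1176) (nat_lit 595854124) (nat_lit 178) (nat_lit 1) (nat_lit 163) (nat_lit 1) (nat_lit 177) (nat_lit 1) (nat_lit 216) (nat_lit 196) (nat_lit 188)) (XT.lf (nat_lit 1260) (nat_lit 1022447506) (nat_lit 84) (nat_lit 1009367062) (nat_lit 0) (nat_lit 1009367062) (nat_lit 178) (nat_lit 1) (nat_lit 164) (nat_lit 1) (nat_lit 163) (nat_lit 1) (nat_lit 217) (nat_lit 196) (nat_lit 187)))) (XT.nd (nat_lit 188) (nat_lit 0) (nat_lit 84) (XT.nd (nat_lit 94) (nat_lit 0) (nat_lit 0) (XT.lf (nat_lit 1260) (nat_lit 423559782) (nat_lit 0) (nat_lit 2145104288) (nat_lit 1176) (nat_lit 423559782) (nat_lit 179) (nat_lit 1) (nat_lit 164) (nat_lit 1) (nat_lit 178)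 (nat_lit 1) (nat_lit 218) (nat_lit 196) (nat_lit 186)) (XT.lf (nat_lit 1260) (nat_lit 653265002) (nat_lit 84) (nat_lit 1145414825) (nat_lit 0) (nat_lit 1145414825) (nat_lit 179) (nat_lit 1) (nat_lit 165) (nat_lit 1) (nat_lit 164) (nat_lit 1) (nat_lit 219) (nat_lit 196) (nat_lit 185))) (XT.nd (nat_lit 94) (nat_lit 0) (nat_lit 0) (XT.lf (nat_lit 1260) (nat_lit 229216186) (nat_lit 0) (nat_lit 2438905877) (nat_lit 1176) (nat_lit 229216186) (nat_lit 180) (nat_lit 1) (nat_lit 165) (nat_lit 1) (nat_lit 179) (nat_lit 1) (nat_lit 220) (nat_lit 196) (nat_lit 184)) (XT.lf (nat_lit 1260) (nat_lit 242383171) (nat_lit 84) (nat_lit 1304419771) (nat_lit 0) (nat_lit 1304419771) (nat_lit 180) (nat_lit 1) (nat_lit 166) (nat_lit 1) (nat_lit 165) (nat_lit 1) (nat_lit 221) (nat_lit 196) (nat_lit 183))))) (XT.nd (nat_lit 282) (nat_lit 588) (nat_lit 0) (XT.nd (nat_lit 94) (nat_lit 1932) (nat_lit 0) (XT.lf (nat_lit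 84) (nat_lit 15422394) (nat_lit 0) (nat_lit 2775727328) (nat_lit 1176) (nat_lit 15422394) (nat_lit 167) (nat_lit 1) (nat_lit 166) (nat_lit 1) (nat_lit 180) (nat_lit 1) (nat_lit 222) (nat_lit 196) (nat_lit 182)) (XT.nd (nat_lit 94) (nat_lit 672) (nat_lit 0) (XT.lf (nat_lit 84) (nat_lit 1280874253) (nat_lit 0) (nat_lit 200532796) (nat_lit 1260) (nat_lit 1280874253) (nat_lit 152) (nat_lit 1) (nat_lit 151) (nat_lit 1) (nat_lit 166) (nat_lit 1) (nat_lit 223) (nat_lit 196) (nat_lit 181)) (XT.lf (nat_lit 756) (nat_lit 2293432399) (nat_lit 0) (nat_lit 212977576) (nat_lit 672) (nat_lit 212977576) (nat_lit 152) (nat_lit 1) (nat_lit 143) (nat_lit 1) (nat_lit 151) (nat_lit 1) (nat_lit 224) (nat_lit 196) (nat_lit 180)))) (XT.nd (nat_lit 35908) (nat_lit 0) (nat_lit 1932) (XT.nd (nat_lit 94) (nat_lit 588) (nat_lit 0) (XT.lf (nat_lit 84) (nat_lit 1003870817) (nat_lit 0) (nat_lit 669308297) (nat_lit 756) (nat_lit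 1003870817) (nat_lit 144) (nat_lit 1) (nat_lit 143) (nat_lit 1) (nat_lit 152) (nat_lit 1) (nat_lit 225) (nat_lit 196) (nat_lit 179)) (XT.lf (nat_lit 672) (nat_lit 1724081360) (nat_lit 0) (nat_lit 455902311) (nat_lit 588) (nat_lit 455902311) (nat_lit 144) (nat_lit 1) (nat_lit 136) (nat_lit 1) (nat_lit 143) (nat_lit 1) (nat_lit 226) (nat_lit 196) (nat_lit 178))) (XT.nd (nat_lit 94) (nat_lit 0) (nat_lit 0) (XT.lf (nat_lit 1260) (nat_lit 519679148) (nat_lit 0) (nat_lit 790668091) (nat_lit 1260) (nat_lit 519679148) (nat_lit 174) (nat_lit 1) (nat_lit 159) (nat_lit 0) (nat_lit 174) (nat_lit 0) (nat_lit 206) (nat_lit 197) (nat_lit 197)) (XT.lf (nat_lit 1260) (nat_lit 2034555081) (nat_lit 84) (nat_lit 781653960) (nat_lit 0) (nat_lit 781653960) (nat_lit 174) (nat_lit 1) (nat_lit 160) (nat_lit 1) (nat_lit 159) (nat_lit 0) (nat_lit 207) (nat_lit 197) (nat_lit 196))))))))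
noncomputable def ec2 : XT := (XT.nd (nat_lit 38070) (nat_lit 504) (nat_lit 0) (XT.nd (nat_lit 1222) (nat_lit 2604) (nat_lit 0) (XT.nd (nat_lit 564) (nat_lit 0) (nat_lit 252) (XT.nd (nat_lit 282) (nat_lit 0) (nat_lit 84) (XT.nd (nat_lit 94) (nat_lit 0) (nat_lit 0) (XT.lf (nat_lit 1260) (nat_lit 984212104) (nat_lit 0) (nat_lit 1568558627) (nat_lit 1176) (nat_lit 984212104) (nat_lit 175) (nat_lit 1) (nat_lit 160) (nat_lit 1) (nat_lit 174) (nat_lit 1) (nat_lit 208) (nat_lit 197) (nat_lit 195)) (XT.nd (nat_lit 94) (nat_lit 0) (nat_lit 84) (XT.lf (nat_lit 1260) (nat_lit 1886647055) (nat_lit 84) (nat_lit 795454819) (nat_lit 0) (nat_lit 795454819) (nat_lit 175) (nat_lit 1) (nat_lit 161) (nat_lit 1) (nat_lit 160) (nat_lit 1) (nat_lit 209) (nat_lit 197) (nat_lit 194)) (XT.lf (nat_lit 1260) (nat_lit 892939131) (nat_lit 0) (nat_lit 1633526123) (nat_lit 1176) (nat_lit 892939131) (nat_lit 176) (nat_lit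 1) (nat_lit 161) (nat_lit 1) (nat_lit 175) (nat_lit 1) (nat_lit 210) (nat_lit 197) (nat_lit 193)))) (XT.nd (nat_lit 94) (nat_lit 0) (nat_lit 84) (XT.lf (nat_lit 1260) (nat_lit 1669893849) (nat_lit 84) (nat_lit 846347480) (nat_lit 0) (nat_lit 846347480) (nat_lit 176) (nat_lit 1) (nat_lit 162) (nat_lit 1) (nat_lit 161) (nat_lit 1) (nat_lit 211) (nat_lit 197) (nat_lit 192)) (XT.nd (nat_lit 94) (nat_lit 0) (nat_lit 0) (XT.lf (nat_lit 1260) (nat_lit 769287094) (nat_lit 0) (nat_lit 1768469126) (nat_lit 1176) (nat_lit 769287094) (nat_lit 177) (nat_lit 1) (nat_lit 162) (nat_lit 1) (nat_lit 176) (nat_lit 1) (nat_lit 212) (nat_lit 197) (nat_lit 191)) (XT.lf (nat_lit 1260) (nat_lit 1391533588) (nat_lit 84) (nat_lit 930580392) (nat_lit 0) (nat_lit 930580392) (nat_lit 177) (nat_lit 1) (nat_lit 163) (nat_lit 1) (nat_lit 162) (nat_lit 1) (nat_lit 213) (nat_lit 197) (nat_lit 190))))) (XT.nd (nat_lit 282)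 (nat_lit 0) (nat_lit 84) (XT.nd (nat_lit 94) (nat_lit 0) (nat_lit 0) (XT.lf (nat_lit 1260) (nat_lit 616709018) (nat_lit 0) (nat_lit 1966222619) (nat_lit 1176) (nat_lit 616709018) (nat_lit 178) (nat_lit 1) (nat_lit 163) (nat_lit 1) (nat_lit 177) (nat_lit 1) (nat_lit 214) (nat_lit 197) (nat_lit 189)) (XT.nd (nat_lit 94) (nat_lit 0) (nat_lit 84) (XT.lf (nat_lit 1260) (nat_lit 1058233169) (nat_lit 84) (nat_lit 1044694909) (nat_lit 0) (nat_lit 1044694909) (nat_lit 178) (nat_lit 1) (nat_lit 164) (nat_lit 1) (nat_lit 163) (nat_lit 1) (nat_lit 215) (nat_lit 197) (nat_lit 188)) (XT.lf (nat_lit 1260) (nat_lit 438384375) (nat_lit 0) (nat_lit 2220182938) (nat_lit 1176) (nat_lit 438384375) (nat_lit 179) (nat_lit 1) (nat_lit 164) (nat_lit 1) (nat_lit 178) (nat_lit 1) (nat_lit 216) (nat_lit 197) (nat_lit 187)))) (XT.nd (nat_lit 188) (nat_lit 0) (nat_lit 84) (XT.nd (nat_lit 94) (nat_lit 0) (nat_lit 84) (XT.lf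 (nat_lit 1260) (nat_lit 676129277) (nat_lit 84) (nat_lit 1185504343) (nat_lit 0) (nat_lit 1185504343) (nat_lit 179) (nat_lit 1) (nat_lit 165) (nat_lit 1) (nat_lit 164) (nat_lit 1) (nat_lit 217) (nat_lit 197) (nat_lit 186)) (XT.lf (nat_lit 1260) (nat_lit 237238753) (nat_lit 0) (nat_lit 2524267583) (nat_lit 1176) (nat_lit 237238753) (nat_lit 180) (nat_lit 1) (nat_lit 165) (nat_lit 1) (nat_lit 179) (nat_lit 1) (nat_lit 218) (nat_lit 197) (nat_lit 185))) (XT.nd (nat_lit 94) (nat_lit 0) (nat_lit 84) (XT.lf (nat_lit 1260) (nat_lit 250866582) (nat_lit 84) (nat_lit 1350074463) (nat_lit 0) (nat_lit 1350074463) (nat_lit 180) (nat_lit 1) (nat_lit 166) (nat_lit 1) (nat_lit 165) (nat_lit 1) (nat_lit 219) (nat_lit 197) (nat_lit 184)) (XT.lf (nat_lit 84) (nat_lit 15962178) (nat_lit 0) (nat_lit 2872877785) (nat_lit 1176) (nat_lit 15962178) (nat_lit 167) (nat_lit 1) (nat_lit 166) (nat_lit 1) (nat_lit 180)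 (nat_lit 1) (nat_lit 220) (nat_lit 197) (nat_lit 183)))))) (XT.nd (nat_lit 36190) (nat_lit 0) (nat_lit 2520) (XT.nd (nat_lit 282) (nat_lit 1176) (nat_lit 0) (XT.nd (nat_lit 94) (nat_lit 672) (nat_lit 0) (XT.lf (nat_lit 84) (nat_lit 1325704852) (nat_lit 0) (nat_lit 207551443) (nat_lit 1260) (nat_lit 1325704852) (nat_lit 152) (nat_lit 1) (nat_lit 151) (nat_lit 1) (nat_lit 166) (nat_lit 1) (nat_lit 221) (nat_lit 197) (nat_lit 182)) (XT.nd (nat_lit 94) (nat_lit 0) (nat_lit 0) (XT.lf (nat_lit 756) (nat_lit 2373702533) (nat_lit 0) (nat_lit 220431791) (nat_lit 672) (nat_lit 220431791) (nat_lit 152) (nat_lit 1) (nat_lit 143) (nat_lit 1) (nat_lit 151) (nat_lit 1) (nat_lit 222) (nat_lit 197) (nat_lit 181)) (XT.lf (nat_lit 84) (nat_lit 1039006296) (nat_lit 0) (nat_lit 692734088) (nat_lit 756) (nat_lit 1039006296) (nat_lit 144) (nat_lit 1) (nat_lit 143) (nat_lit 1) (nat_lit 152) (nat_lit 1) (nat_lit 223)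 (nat_lit 197) (nat_lit 180)))) (XT.nd (nat_lit 188) (nat_lit 588) (nat_lit 0) (XT.nd (nat_lit 94) (nat_lit 0) (nat_lit 0) (XT.lf (nat_lit 672) (nat_lit 1784424207) (nat_lit 0) (nat_lit 471858892) (nat_lit 588) (nat_lit 471858892) (nat_lit 144) (nat_lit 1) (nat_lit 136) (nat_lit 1) (nat_lit 143) (nat_lit 1) (nat_lit 224) (nat_lit 197) (nat_lit 179)) (XT.lf (nat_lit 84) (nat_lit 740092864) (nat_lit 0) (nat_lit 1206096431) (nat_lit 672) (nat_lit 740092864) (nat_lit 137) (nat_lit 1) (nat_lit 136) (nat_lit 1) (nat_lit 144) (nat_lit 1) (nat_lit 225) (nat_lit 197) (nat_lit 178))) (XT.nd (nat_lit 35626) (nat_lit 0) (nat_lit 2520) (XT.lf (nat_lit 672) (nat_lit 1172485224) (nat_lit 0) (nat_lit 736443835) (nat_lit 588) (nat_lit 736443835) (nat_lit 137) (nat_lit 1) (nat_lit 129) (nat_lit 1) (nat_lit 136) (nat_lit 1) (nat_lit 226) (nat_lit 197) (nat_lit 177)) (XT.lf (nat_lit 1260) (nat_lit 537867918) (nat_lit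 0) (nat_lit 818341475) (nat_lit 1260) (nat_lit 537867918) (nat_lit 174) (nat_lit 1) (nat_lit 159) (nat_lit 0) (nat_lit 174) (nat_lit 0) (nat_lit 204) (nat_lit 198) (nat_lit 198))))) (XT.nd (nat_lit 282) (nat_lit 0) (nat_lit 168) (XT.nd (nat_lit 94) (nat_lit 0) (nat_lit 84) (XT.lf (nat_lit 1260) (nat_lit 2105764509) (nat_lit 84) (nat_lit 809011849) (nat_lit 0) (nat_lit 809011849) (nat_lit 174) (nat_lit 1) (nat_lit 160) (nat_lit 1) (nat_lit 159) (nat_lit 0) (nat_lit 205) (nat_lit 198) (nat_lit 197)) (XT.nd (nat_lit 94) (nat_lit 0) (nat_lit 0) (XT.lf (nat_lit 1260) (nat_lit 1018659528) (nat_lit 0) (nat_lit 1623458179) (nat_lit 1176) (nat_lit 1018659528) (nat_lit 175) (nat_lit 1) (nat_lit 160) (nat_lit 1) (nat_lit 174) (nat_lit 1) (nat_lit 206) (nat_lit 198) (nat_lit 196)) (XT.lf (nat_lit 1260) (nat_lit 1952679702) (nat_lit 84) (nat_lit 823295738) (nat_lit 0) (nat_lit 823295738) (nat_lit 175)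 (nat_lit 1) (nat_lit 161) (nat_lit 1) (nat_lit 160) (nat_lit 1) (nat_lit 207) (nat_lit 198) (nat_lit 195)))) (XT.nd (nat_lit 188) (nat_lit 0) (nat_lit 84) (XT.nd (nat_lit 94) (nat_lit 0) (nat_lit 0) (XT.lf (nat_lit 1260) (nat_lit 924192001) (nat_lit 0) (nat_lit 1690699537) (nat_lit 1176) (nat_lit 924192001) (nat_lit 176) (nat_lit 1) (nat_lit 161) (nat_lit 1) (nat_lit 175) (nat_lit 1) (nat_lit 208) (nat_lit 198) (nat_lit 194)) (XT.lf (nat_lit 1260) (nat_lit 1728340133) (nat_lit 84) (nat_lit 875969642) (nat_lit 0) (nat_lit 875969642) (nat_lit 176) (nat_lit 1) (nat_lit 162) (nat_lit 1) (nat_lit 161) (nat_lit 1) (nat_lit 209) (nat_lit 198) (nat_lit 193))) (XT.nd (nat_lit 94) (nat_lit 0) (nat_lit 0) (XT.lf (nat_lit 1260) (nat_lit 796212142) (nat_lit 0) (nat_lit 1830365546) (nat_lit 1176) (nat_lit 796212142) (nat_lit 177) (nat_lit 1) (nat_lit 162) (nat_lit 1) (nat_lit 176) (nat_lit 1) (nat_lit 210)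 (nat_lit 198) (nat_lit 192)) (XT.lf (nat_lit 1260) (nat_lit 1440237264) (nat_lit 84) (nat_lit 963150706) (nat_lit 0) (nat_lit 963150706) (nat_lit 177) (nat_lit 1) (nat_lit 163) (nat_lit 1) (nat_lit 162) (nat_lit 1) (nat_lit 211) (nat_lit 198) (nat_lit 191))))))) (XT.nd (nat_lit 1222) (nat_lit 504) (nat_lit 0) (XT.nd (nat_lit 564) (nat_lit 2856) (nat_lit 0) (XT.nd (nat_lit 282) (nat_lit 0) (nat_lit 84) (XT.nd (nat_lit 94) (nat_lit 0) (nat_lit 0) (XT.lf (nat_lit 1260) (nat_lit 638293834) (nat_lit 0) (nat_lit 2035040410) (nat_lit 1176) (nat_lit 638293834) (nat_lit 178) (nat_lit 1) (nat_lit 163) (nat_lit 1) (nat_lit 177) (nat_lit 1) (nat_lit 212) (nat_lit 198) (nat_lit 190)) (XT.nd (nat_lit 94) (nat_lit 0) (nat_lit 84) (XT.lf (nat_lit 1260) (nat_lit 1095271330) (nat_lit 84) (nat_lit 1081259231) (nat_lit 0) (nat_lit 1081259231) (nat_lit 178) (nat_lit 1) (nat_lit 164) (nat_lit 1) (nat_lit 163) (nat_lit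 1) (nat_lit 213) (nat_lit 198) (nat_lit 189)) (XT.lf (nat_lit 1260) (nat_lit 453727828) (nat_lit 0) (nat_lit 2297889341) (nat_lit 1176) (nat_lit 453727828) (nat_lit 179) (nat_lit 1) (nat_lit 164) (nat_lit 1) (nat_lit 178) (nat_lit 1) (nat_lit 214) (nat_lit 198) (nat_lit 188)))) (XT.nd (nat_lit 94) (nat_lit 0) (nat_lit 84) (XT.lf (nat_lit 1260) (nat_lit 699793802) (nat_lit 84) (nat_lit 1226996995) (nat_lit 0) (nat_lit 1226996995) (nat_lit 179) (nat_lit 1) (nat_lit 165) (nat_lit 1) (nat_lit 164) (nat_lit 1) (nat_lit 215) (nat_lit 198) (nat_lit 187)) (XT.nd (nat_lit 94) (nat_lit 0) (nat_lit 0) (XT.lf (nat_lit 1260) (nat_lit 245542109) (nat_lit 0) (nat_lit 2612616948) (nat_lit 1176) (nat_lit 245542109) (nat_lit 180) (nat_lit 1) (nat_lit 165) (nat_lit 1) (nat_lit 179) (nat_lit 1) (nat_lit 216) (nat_lit 198) (nat_lit 186)) (XT.lf (nat_lit 1260) (nat_lit 259646913) (nat_lit 84) (nat_lit 1397327069)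 (nat_lit 0) (nat_lit 1397327069) (nat_lit 180) (nat_lit 1) (nat_lit 166) (nat_lit 1) (nat_lit 165) (nat_lit 1) (nat_lit 217) (nat_lit 198) (nat_lit 185))))) (XT.nd (nat_lit 282) (nat_lit 1176) (nat_lit 0) (XT.nd (nat_lit 94) (nat_lit 1932) (nat_lit 0) (XT.lf (nat_lit 84) (nat_lit 16520854) (nat_lit 0) (nat_lit 2973428507) (nat_lit 1176) (nat_lit 16520854) (nat_lit 167) (nat_lit 1) (nat_lit 166) (nat_lit 1) (nat_lit 180) (nat_lit 1) (nat_lit 218) (nat_lit 198) (nat_lit 184)) (XT.nd (nat_lit 94) (nat_lit 672) (nat_lit 0) (XT.lf (nat_lit 84) (nat_lit 1372104521) (nat_lit 0) (nat_lit 214815744) (nat_lit 1260) (nat_lit 1372104521) (nat_lit 152) (nat_lit 1) (nat_lit 151) (nat_lit 1) (nat_lit 166) (nat_lit 1) (nat_lit 219) (nat_lit 198) (nat_lit 183)) (XT.lf (nat_lit 756) (nat_lit 2456782122) (nat_lit 0) (nat_lit 228146903) (nat_lit 672) (nat_lit 228146903) (nat_lit 152) (nat_lit 1) (nat_lit 143)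 (nat_lit 1) (nat_lit 151) (nat_lit 1) (nat_lit 220) (nat_lit 198) (nat_lit 182)))) (XT.nd (nat_lit 188) (nat_lit 588) (nat_lit 0) (XT.nd (nat_lit 94) (nat_lit 588) (nat_lit 0) (XT.lf (nat_lit 84) (nat_lit 1075371516) (nat_lit 0) (nat_lit 716979781) (nat_lit 756) (nat_lit 1075371516) (nat_lit 144) (nat_lit 1) (nat_lit 143) (nat_lit 1) (nat_lit 152) (nat_lit 1) (nat_lit 221) (nat_lit 198) (nat_lit 181)) (XT.lf (nat_lit 672) (nat_lit 1846879055) (nat_lit 0) (nat_lit 488373953) (nat_lit 588) (nat_lit 488373953) (nat_lit 144) (nat_lit 1) (nat_lit 136) (nat_lit 1) (nat_lit 143) (nat_lit 1) (nat_lit 222) (nat_lit 198) (nat_lit 180))) (XT.nd (nat_lit 94) (nat_lit 588) (nat_lit 0) (XT.lf (nat_lit 84) (nat_lit 765996115) (nat_lit 0) (nat_lit 1248309806) (nat_lit 672) (nat_lit 765996115) (nat_lit 137) (nat_lit 1) (nat_lit 136) (nat_lit 1) (nat_lit 144) (nat_lit 1) (nat_lit 223) (nat_lit 198) (nat_lit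 179)) (XT.lf (nat_lit 672) (nat_lit 1213522206) (nat_lit 0) (nat_lit 762219369) (nat_lit 588) (nat_lit 762219369) (nat_lit 137) (nat_lit 1) (nat_lit 129) (nat_lit 1) (nat_lit 136) (nat_lit 1) (nat_lit 224) (nat_lit 198) (nat_lit 178)))))) (XT.nd (nat_lit 36002) (nat_lit 0) (nat_lit 3192) (XT.nd (nat_lit 35626) (nat_lit 0) (nat_lit 3024) (XT.nd (nat_lit 94) (nat_lit 504) (nat_lit 0) (XT.lf (nat_lit 84) (nat_lit 445913605) (nat_lit 0) (nat_lit 1804751224) (nat_lit 672) (nat_lit 445913605) (nat_lit 130) (nat_lit 1) (nat_lit 129) (nat_lit 1) (nat_lit 137) (nat_lit 1) (nat_lit 225) (nat_lit 198) (nat_lit 177)) (XT.nd (nat_lit 35438) (nat_lit 0) (nat_lit 3024) (XT.lf (nat_lit 588) (nat_lit 560435450) (nat_lit 0) (nat_lit 1047732049) (nat_lit 504) (nat_lit 1047732049) (nat_lit 130) (nat_lit 1) (nat_lit 123) (nat_lit 1) (nat_lit 129) (nat_lit 1) (nat_lit 226) (nat_lit 198) (nat_lit 176)) (XT.lf (nat_lit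 1260) (nat_lit 556693296) (nat_lit 0) (nat_lit 846983426) (nat_lit 1260) (nat_lit 556693296) (nat_lit 174) (nat_lit 1) (nat_lit 159) (nat_lit 0) (nat_lit 174) (nat_lit 0) (nat_lit 202) (nat_lit 199) (nat_lit 199)))) (XT.nd (nat_lit 188) (nat_lit 0) (nat_lit 84) (XT.nd (nat_lit 94) (nat_lit 0) (nat_lit 84) (XT.lf (nat_lit 1260) (nat_lit 2179466267) (nat_lit 84) (nat_lit 837327263) (nat_lit 0) (nat_lit 837327263) (nat_lit 174) (nat_lit 1) (nat_lit 160) (nat_lit 1) (nat_lit 159) (nat_lit 0) (nat_lit 203) (nat_lit 199) (nat_lit 198)) (XT.lf (nat_lit 1260) (nat_lit 1054312611) (nat_lit 0) (nat_lit 1680279215) (nat_lit 1176) (nat_lit 1054312611) (nat_lit 175) (nat_lit 1) (nat_lit 160) (nat_lit 1) (nat_lit 174) (nat_lit 1) (nat_lit 204) (nat_lit 199) (nat_lit 197))) (XT.nd (nat_lit 94) (nat_lit 0) (nat_lit 84) (XT.lf (nat_lit 1260) (nat_lit 2021023492) (nat_lit 84) (nat_lit 852111089) (nat_lit 0)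 (nat_lit 852111089) (nat_lit 175) (nat_lit 1) (nat_lit 161) (nat_lit 1) (nat_lit 160) (nat_lit 1) (nat_lit 205) (nat_lit 199) (nat_lit 196)) (XT.lf (nat_lit 1260) (nat_lit 956538721) (nat_lit 0) (nat_lit 1749874021) (nat_lit 1176) (nat_lit 956538721) (nat_lit 176) (nat_lit 1) (nat_lit 161) (nat_lit 1) (nat_lit 175) (nat_lit 1) (nat_lit 206) (nat_lit 199) (nat_lit 195))))) (XT.nd (nat_lit 282) (nat_lit 0) (nat_lit 168) (XT.nd (nat_lit 94) (nat_lit 0) (nat_lit 84) (XT.lf (nat_lit 1260) (nat_lit 1788832038) (nat_lit 84) (nat_lit 906628579) (nat_lit 0) (nat_lit 906628579) (nat_lit 176) (nat_lit 1) (nat_lit 162) (nat_lit 1) (nat_lit 161) (nat_lit 1) (nat_lit 207) (nat_lit 199) (nat_lit 194)) (XT.nd (nat_lit 94) (nat_lit 0) (nat_lit 0) (XT.lf (nat_lit 1260) (nat_lit 824079567) (nat_lit 0) (nat_lit 1894428340) (nat_lit 1176) (nat_lit 824079567) (nat_lit 177) (nat_lit 1) (nat_lit 162) (nat_lit 1)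 (nat_lit 176) (nat_lit 1) (nat_lit 208) (nat_lit 199) (nat_lit 193)) (XT.lf (nat_lit 1260) (nat_lit 1490645568) (nat_lit 84) (nat_lit 996860981) (nat_lit 0) (nat_lit 996860981) (nat_lit 177) (nat_lit 1) (nat_lit 163) (nat_lit 1) (nat_lit 162) (nat_lit 1) (nat_lit 209) (nat_lit 199) (nat_lit 192)))) (XT.nd (nat_lit 188) (nat_lit 0) (nat_lit 84) (XT.nd (nat_lit 94) (nat_lit 0) (nat_lit 0) (XT.lf (nat_lit 1260) (nat_lit 660634118) (nat_lit 0) (nat_lit 2106266825) (nat_lit 1176) (nat_lit 660634118) (nat_lit 178) (nat_lit 1) (nat_lit 163) (nat_lit 1) (nat_lit 177) (nat_lit 1) (nat_lit 210) (nat_lit 199) (nat_lit 191)) (XT.lf (nat_lit 1260) (nat_lit 1133605827) (nat_lit 84) (nat_lit 1119103304) (nat_lit 0) (nat_lit 1119103304) (nat_lit 178) (nat_lit 1) (nat_lit 164) (nat_lit 1) (nat_lit 163) (nat_lit 1) (nat_lit 211) (nat_lit 199) (nat_lit 190))) (XT.nd (nat_lit 94) (nat_lit 0) (nat_lit 0) (XT.lf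 (nat_lit 1260) (nat_lit 469608302) (nat_lit 0) (nat_lit 2378315468) (nat_lit 1176) (nat_lit 469608302) (nat_lit 179) (nat_lit 1) (nat_lit 164) (nat_lit 1) (nat_lit 178) (nat_lit 1) (nat_lit 212) (nat_lit 199) (nat_lit 189)) (XT.lf (nat_lit 1260) (nat_lit 724286585) (nat_lit 84) (nat_lit 1269941890) (nat_lit 0) (nat_lit 1269941890) (nat_lit 179) (nat_lit 1) (nat_lit 165) (nat_lit 1) (nat_lit 164) (nat_lit 1) (nat_lit 213) (nat_lit 199) (nat_lit 188))))))))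
noncomputable def ec3 : XT := (XT.nd (nat_lit 37694) (nat_lit 504) (nat_lit 0) (XT.nd (nat_lit 36378) (nat_lit 0) (nat_lit 3612) (XT.nd (nat_lit 564) (nat_lit 2268) (nat_lit 0) (XT.nd (nat_lit 282) (nat_lit 1848) (nat_lit 0) (XT.nd (nat_lit 94) (nat_lit 0) (nat_lit 0) (XT.lf (nat_lit 1260) (nat_lit 254136083) (nat_lit 0) (nat_lit 2704058541) (nat_lit 1176) (nat_lit 254136083) (nat_lit 180) (nat_lit 1) (nat_lit 165) (nat_lit 1) (nat_lit 179) (nat_lit 1) (nat_lit 214) (nat_lit 199) (nat_lit 187)) (XT.nd (nat_lit 94) (nat_lit 0) (nat_lit 84) (XT.lf (nat_lit 1260) (nat_lit 268734555) (nat_lit 84) (nat_lit 1446233517) (nat_lit 0) (nat_lit 1446233517) (nat_lit 180) (nat_lit 1) (nat_lit 166) (nat_lit 1) (nat_lit 165) (nat_lit 1) (nat_lit 215) (nat_lit 199) (nat_lit 186)) (XT.lf (nat_lit 84) (nat_lit 17099084) (nat_lit 0) (nat_lit 3077498505) (nat_lit 1176) (nat_lit 17099084) (nat_lit 167) (nat_lit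 1) (nat_lit 166) (nat_lit 1) (nat_lit 180) (nat_lit 1) (nat_lit 216) (nat_lit 199) (nat_lit 185)))) (XT.nd (nat_lit 94) (nat_lit 672) (nat_lit 0) (XT.lf (nat_lit 84) (nat_lit 1420128180) (nat_lit 0) (nat_lit 222334295) (nat_lit 1260) (nat_lit 1420128180) (nat_lit 152) (nat_lit 1) (nat_lit 151) (nat_lit 1) (nat_lit 166) (nat_lit 1) (nat_lit 217) (nat_lit 199) (nat_lit 184)) (XT.nd (nat_lit 94) (nat_lit 0) (nat_lit 0) (XT.lf (nat_lit 756) (nat_lit 2542769496) (nat_lit 0) (nat_lit 236132045) (nat_lit 672) (nat_lit 236132045) (nat_lit 152) (nat_lit 1) (nat_lit 143) (nat_lit 1) (nat_lit 151) (nat_lit 1) (nat_lit 218) (nat_lit 199) (nat_lit 183)) (XT.lf (nat_lit 84) (nat_lit 1113009519) (nat_lit 0) (nat_lit 742074073) (nat_lit 756) (nat_lit 1113009519) (nat_lit 144) (nat_lit 1) (nat_lit 143) (nat_lit 1) (nat_lit 152) (nat_lit 1) (nat_lit 219) (nat_lit 199) (nat_lit 182))))) (XT.nd (nat_lit 282)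 (nat_lit 1092) (nat_lit 0) (XT.nd (nat_lit 94) (nat_lit 588) (nat_lit 0) (XT.lf (nat_lit 672) (nat_lit 1911519822) (nat_lit 0) (nat_lit 505467041) (nat_lit 588) (nat_lit 505467041) (nat_lit 144) (nat_lit 1) (nat_lit 136) (nat_lit 1) (nat_lit 143) (nat_lit 1) (nat_lit 220) (nat_lit 199) (nat_lit 181)) (XT.nd (nat_lit 94) (nat_lit 588) (nat_lit 0) (XT.lf (nat_lit 84) (nat_lit 792805979) (nat_lit 0) (nat_lit 1292000650) (nat_lit 672) (nat_lit 792805979) (nat_lit 137) (nat_lit 1) (nat_lit 136) (nat_lit 1) (nat_lit 144) (nat_lit 1) (nat_lit 221) (nat_lit 199) (nat_lit 180)) (XT.lf (nat_lit 672) (nat_lit 1255995484) (nat_lit 0) (nat_lit 788897047) (nat_lit 588) (nat_lit 788897047) (nat_lit 137) (nat_lit 1) (nat_lit 129) (nat_lit 1) (nat_lit 136) (nat_lit 1) (nat_lit 222) (nat_lit 199) (nat_lit 179)))) (XT.nd (nat_lit 188) (nat_lit 588) (nat_lit 0) (XT.nd (nat_lit 94) (nat_lit 504) (nat_lit 0) (XT.lf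 (nat_lit 84) (nat_lit 461520581) (nat_lit 0) (nat_lit 1867917517) (nat_lit 672) (nat_lit 461520581) (nat_lit 130) (nat_lit 1) (nat_lit 129) (nat_lit 1) (nat_lit 137) (nat_lit 1) (nat_lit 223) (nat_lit 199) (nat_lit 178)) (XT.lf (nat_lit 588) (nat_lit 580050691) (nat_lit 0) (nat_lit 1084402670) (nat_lit 504) (nat_lit 1084402670) (nat_lit 130) (nat_lit 1) (nat_lit 123) (nat_lit 1) (nat_lit 129) (nat_lit 1) (nat_lit 224) (nat_lit 199) (nat_lit 177))) (XT.nd (nat_lit 94) (nat_lit 588) (nat_lit 0) (XT.lf (nat_lit 84) (nat_lit 120984856) (nat_lit 0) (nat_lit 2465981228) (nat_lit 588) (nat_lit 120984856) (nat_lit 124) (nat_lit 1) (nat_lit 123) (nat_lit 1) (nat_lit 130) (nat_lit 1) (nat_lit 225) (nat_lit 199) (nat_lit 176)) (XT.lf (nat_lit 84) (nat_lit 1278599769) (nat_lit 0) (nat_lit 110234881) (nat_lit 588) (nat_lit 1278599769) (nat_lit 117) (nat_lit 1) (nat_lit 116) (nat_lit 1) (nat_lit 123) (nat_lit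 1) (nat_lit 226) (nat_lit 199) (nat_lit 175)))))) (XT.nd (nat_lit 658) (nat_lit 0) (nat_lit 252) (XT.nd (nat_lit 282) (nat_lit 0) (nat_lit 84) (XT.nd (nat_lit 94) (nat_lit 0) (nat_lit 0) (XT.lf (nat_lit 1260) (nat_lit 576177561) (nat_lit 0) (nat_lit 876627846) (nat_lit 1260) (nat_lit 576177561) (nat_lit 174) (nat_lit 1) (nat_lit 159) (nat_lit 0) (nat_lit 174) (nat_lit 0) (nat_lit 200) (nat_lit 200) (nat_lit 200)) (XT.nd (nat_lit 94) (nat_lit 0) (nat_lit 84) (XT.lf (nat_lit 1260) (nat_lit 2255747586) (nat_lit 84) (nat_lit 866633718) (nat_lit 0) (nat_lit 866633718) (nat_lit 174) (nat_lit 1) (nat_lit 160) (nat_lit 1) (nat_lit 159) (nat_lit 0) (nat_lit 201) (nat_lit 200) (nat_lit 199)) (XT.lf (nat_lit 1260) (nat_lit 1091213552) (nat_lit 0) (nat_lit 1739088988) (nat_lit 1176) (nat_lit 1091213552) (nat_lit 175) (nat_lit 1) (nat_lit 160) (nat_lit 1) (nat_lit 174) (nat_lit 1) (nat_lit 202) (nat_lit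 200) (nat_lit 198)))) (XT.nd (nat_lit 188) (nat_lit 0) (nat_lit 84) (XT.nd (nat_lit 94) (nat_lit 0) (nat_lit 84) (XT.lf (nat_lit 1260) (nat_lit 2091759314) (nat_lit 84) (nat_lit 881934977) (nat_lit 0) (nat_lit 881934977) (nat_lit 175) (nat_lit 1) (nat_lit 161) (nat_lit 1) (nat_lit 160) (nat_lit 1) (nat_lit 203) (nat_lit 200) (nat_lit 197)) (XT.lf (nat_lit 1260) (nat_lit 990017576) (nat_lit 0) (nat_lit 1811119612) (nat_lit 1176) (nat_lit 990017576) (nat_lit 176) (nat_lit 1) (nat_lit 161) (nat_lit 1) (nat_lit 175) (nat_lit 1) (nat_lit 204) (nat_lit 200) (nat_lit 196))) (XT.nd (nat_lit 94) (nat_lit 0) (nat_lit 84) (XT.lf (nat_lit 1260) (nat_lit 1851441159) (nat_lit 84) (nat_lit 938360579) (nat_lit 0) (nat_lit 938360579) (nat_lit 176) (nat_lit 1) (nat_lit 162) (nat_lit 1) (nat_lit 161) (nat_lit 1) (nat_lit 205) (nat_lit 200) (nat_lit 195)) (XT.lf (nat_lit 1260) (nat_lit 852922352) (nat_lit 0)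 (nat_lit 1960733332) (nat_lit 1176) (nat_lit 852922352) (nat_lit 177) (nat_lit 1) (nat_lit 162) (nat_lit 1) (nat_lit 176) (nat_lit 1) (nat_lit 206) (nat_lit 200) (nat_lit 194))))) (XT.nd (nat_lit 282) (nat_lit 0) (nat_lit 168) (XT.nd (nat_lit 94) (nat_lit 0) (nat_lit 84) (XT.lf (nat_lit 1260) (nat_lit 1542818163) (nat_lit 84) (nat_lit 1031751115) (nat_lit 0) (nat_lit 1031751115) (nat_lit 177) (nat_lit 1) (nat_lit 163) (nat_lit 1) (nat_lit 162) (nat_lit 1) (nat_lit 207) (nat_lit 200) (nat_lit 193)) (XT.nd (nat_lit 94) (nat_lit 0) (nat_lit 0) (XT.lf (nat_lit 1260) (nat_lit 683756312) (nat_lit 0) (nat_lit 2179986163) (nat_lit 1176) (nat_lit 683756312) (nat_lit 178) (nat_lit 1) (nat_lit 163) (nat_lit 1) (nat_lit 177) (nat_lit 1) (nat_lit 208) (nat_lit 200) (nat_lit 192)) (XT.lf (nat_lit 1260) (nat_lit 1173282031) (nat_lit 84) (nat_lit 1158271920) (nat_lit 0) (nat_lit 1158271920) (nat_lit 178)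 (nat_lit 1) (nat_lit 164) (nat_lit 1) (nat_lit 163) (nat_lit 1) (nat_lit 209) (nat_lit 200) (nat_lit 191)))) (XT.nd (nat_lit 188) (nat_lit 0) (nat_lit 84) (XT.nd (nat_lit 94) (nat_lit 0) (nat_lit 0) (XT.lf (nat_lit 1260) (nat_lit 486044592) (nat_lit 0) (nat_lit 2461556509) (nat_lit 1176) (nat_lit 486044592) (nat_lit 179) (nat_lit 1) (nat_lit 164) (nat_lit 1) (nat_lit 178) (nat_lit 1) (nat_lit 210) (nat_lit 200) (nat_lit 190)) (XT.lf (nat_lit 1260) (nat_lit 749636615) (nat_lit 84) (nat_lit 1314389856) (nat_lit 0) (nat_lit 1314389856) (nat_lit 179) (nat_lit 1) (nat_lit 165) (nat_lit 1) (nat_lit 164) (nat_lit 1) (nat_lit 211) (nat_lit 200) (nat_lit 189))) (XT.nd (nat_lit 94) (nat_lit 0) (nat_lit 0) (XT.lf (nat_lit 1260) (nat_lit 263030846) (nat_lit 0) (nat_lit 2798700590) (nat_lit 1176) (nat_lit 263030846) (nat_lit 180) (nat_lit 1) (nat_lit 165) (nat_lit 1) (nat_lit 179) (nat_lit 1) (nat_lit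 212) (nat_lit 200) (nat_lit 188)) (XT.lf (nat_lit 1260) (nat_lit 278140264) (nat_lit 84) (nat_lit 1496851690) (nat_lit 0) (nat_lit 1496851690) (nat_lit 180) (nat_lit 1) (nat_lit 166) (nat_lit 1) (nat_lit 165) (nat_lit 1) (nat_lit 213) (nat_lit 200) (nat_lit 187))))))) (XT.nd (nat_lit 36284) (nat_lit 0) (nat_lit 4116) (XT.nd (nat_lit 658) (nat_lit 1596) (nat_lit 0) (XT.nd (nat_lit 282) (nat_lit 1176) (nat_lit 0) (XT.nd (nat_lit 94) (nat_lit 1932) (nat_lit 0) (XT.lf (nat_lit 84) (nat_lit 17697552) (nat_lit 0) (nat_lit 3185210953) (nat_lit 1176) (nat_lit 17697552) (nat_lit 167) (nat_lit 1) (nat_lit 166) (nat_lit 1) (nat_lit 180) (nat_lit 1) (nat_lit 214) (nat_lit 200) (nat_lit 186)) (XT.nd (nat_lit 94) (nat_lit 672) (nat_lit 0) (XT.lf (nat_lit 84) (nat_lit 1469832666) (nat_lit 0) (nat_lit 230115995) (nat_lit 1260) (nat_lit 1469832666) (nat_lit 152) (nat_lit 1) (nat_lit 151) (nat_lit 1) (nat_lit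 166) (nat_lit 1) (nat_lit 215) (nat_lit 200) (nat_lit 185)) (XT.lf (nat_lit 756) (nat_lit 2631766429) (nat_lit 0) (nat_lit 244396667) (nat_lit 672) (nat_lit 244396667) (nat_lit 152) (nat_lit 1) (nat_lit 143) (nat_lit 1) (nat_lit 151) (nat_lit 1) (nat_lit 216) (nat_lit 200) (nat_lit 184)))) (XT.nd (nat_lit 188) (nat_lit 588) (nat_lit 0) (XT.nd (nat_lit 94) (nat_lit 588) (nat_lit 0) (XT.lf (nat_lit 84) (nat_lit 1151964852) (nat_lit 0) (nat_lit 768046666) (nat_lit 756) (nat_lit 1151964852) (nat_lit 144) (nat_lit 1) (nat_lit 143) (nat_lit 1) (nat_lit 152) (nat_lit 1) (nat_lit 217) (nat_lit 200) (nat_lit 183)) (XT.lf (nat_lit 672) (nat_lit 1978423015) (nat_lit 0) (nat_lit 523158388) (nat_lit 588) (nat_lit 523158388) (nat_lit 144) (nat_lit 1) (nat_lit 136) (nat_lit 1) (nat_lit 143) (nat_lit 1) (nat_lit 218) (nat_lit 200) (nat_lit 182))) (XT.nd (nat_lit 94) (nat_lit 588) (nat_lit 0) (XT.lf (nat_lit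 84) (nat_lit 820554188) (nat_lit 0) (nat_lit 1337220672) (nat_lit 672) (nat_lit 820554188) (nat_lit 137) (nat_lit 1) (nat_lit 136) (nat_lit 1) (nat_lit 144) (nat_lit 1) (nat_lit 219) (nat_lit 200) (nat_lit 181)) (XT.lf (nat_lit 672) (nat_lit 1299955326) (nat_lit 0) (nat_lit 816508444) (nat_lit 588) (nat_lit 816508444) (nat_lit 137) (nat_lit 1) (nat_lit 129) (nat_lit 1) (nat_lit 136) (nat_lit 1) (nat_lit 220) (nat_lit 200) (nat_lit 180))))) (XT.nd (nat_lit 282) (nat_lit 1092) (nat_lit 0) (XT.nd (nat_lit 94) (nat_lit 504) (nat_lit 0) (XT.lf (nat_lit 84) (nat_lit 477673802) (nat_lit 0) (nat_lit 1933294630) (nat_lit 672) (nat_lit 477673802) (nat_lit 130) (nat_lit 1) (nat_lit 129) (nat_lit 1) (nat_lit 137) (nat_lit 1) (nat_lit 221) (nat_lit 200) (nat_lit 179)) (XT.nd (nat_lit 94) (nat_lit 0) (nat_lit 0) (XT.lf (nat_lit 588) (nat_lit 600352465) (nat_lit 0) (nat_lit 1122356764) (nat_lit 504) (nat_lit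 1122356764) (nat_lit 130) (nat_lit 1) (nat_lit 123) (nat_lit 1) (nat_lit 129) (nat_lit 1) (nat_lit 222) (nat_lit 200) (nat_lit 178)) (XT.lf (nat_lit 84) (nat_lit 125219326) (nat_lit 0) (nat_lit 2552290570) (nat_lit 588) (nat_lit 125219326) (nat_lit 124) (nat_lit 1) (nat_lit 123) (nat_lit 1) (nat_lit 130) (nat_lit 1) (nat_lit 223) (nat_lit 200) (nat_lit 177)))) (XT.nd (nat_lit 188) (nat_lit 0) (nat_lit 0) (XT.nd (nat_lit 94) (nat_lit 504) (nat_lit 0) (XT.lf (nat_lit 84) (nat_lit 1323350761) (nat_lit 0) (nat_lit 114093102) (nat_lit 588) (nat_lit 1323350761) (nat_lit 117) (nat_lit 1) (nat_lit 116) (nat_lit 1) (nat_lit 123) (nat_lit 1) (nat_lit 224) (nat_lit 200) (nat_lit 176)) (XT.lf (nat_lit 588) (nat_lit 2255248444) (nat_lit 0) (nat_lit 232397917) (nat_lit 504) (nat_lit 232397917) (nat_lit 117) (nat_lit 1) (nat_lit 110) (nat_lit 1) (nat_lit 116) (nat_lit 1) (nat_lit 225) (nat_lit 200) (nat_lit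 175))) (XT.nd (nat_lit 35062) (nat_lit 0) (nat_lit 4116) (XT.lf (nat_lit 84) (nat_lit 925512551) (nat_lit 0) (nat_lit 828767370) (nat_lit 588) (nat_lit 925512551) (nat_lit 111) (nat_lit 1) (nat_lit 110) (nat_lit 1) (nat_lit 117) (nat_lit 1) (nat_lit 226) (nat_lit 200) (nat_lit 174)) (XT.lf (nat_lit 1260) (nat_lit 596343776) (nat_lit 0) (nat_lit 907309821) (nat_lit 1260) (nat_lit 596343776) (nat_lit 174) (nat_lit 1) (nat_lit 159) (nat_lit 0) (nat_lit 174) (nat_lit 0) (nat_lit 198) (nat_lit 201) (nat_lit 201)))))) (XT.nd (nat_lit 658) (nat_lit 0) (nat_lit 336) (XT.nd (nat_lit 282) (nat_lit 0) (nat_lit 168) (XT.nd (nat_lit 94) (nat_lit 0) (nat_lit 84) (XT.lf (nat_lit 1260) (nat_lit 2334698752) (nat_lit 84) (nat_lit 896965898) (nat_lit 0) (nat_lit 896965898) (nat_lit 174) (nat_lit 1) (nat_lit 160) (nat_lit 1) (nat_lit 159) (nat_lit 0) (nat_lit 199) (nat_lit 201) (nat_lit 200)) (XT.nd (nat_lit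 94) (nat_lit 0) (nat_lit 0) (XT.lf (nat_lit 1260) (nat_lit 1129406027) (nat_lit 0) (nat_lit 1799957103) (nat_lit 1176) (nat_lit 1129406027) (nat_lit 175) (nat_lit 1) (nat_lit 160) (nat_lit 1) (nat_lit 174) (nat_lit 1) (nat_lit 200) (nat_lit 201) (nat_lit 199)) (XT.lf (nat_lit 1260) (nat_lit 2164970890) (nat_lit 84) (nat_lit 912802701) (nat_lit 0) (nat_lit 912802701) (nat_lit 175) (nat_lit 1) (nat_lit 161) (nat_lit 1) (nat_lit 160) (nat_lit 1) (nat_lit 201) (nat_lit 201) (nat_lit 198)))) (XT.nd (nat_lit 188) (nat_lit 0) (nat_lit 84) (XT.nd (nat_lit 94) (nat_lit 0) (nat_lit 0) (XT.lf (nat_lit 1260) (nat_lit 1024668191) (nat_lit 0) (nat_lit 1874508798) (nat_lit 1176) (nat_lit 1024668191) (nat_lit 176) (nat_lit 1) (nat_lit 161) (nat_lit 1) (nat_lit 175) (nat_lit 1) (nat_lit 202) (nat_lit 201) (nat_lit 197)) (XT.lf (nat_lit 1260) (nat_lit 1916241600) (nat_lit 84) (nat_lit 971203200) (nat_lit 0)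 (nat_lit 971203200) (nat_lit 176) (nat_lit 1) (nat_lit 162) (nat_lit 1) (nat_lit 161) (nat_lit 1) (nat_lit 203) (nat_lit 201) (nat_lit 196))) (XT.nd (nat_lit 94) (nat_lit 0) (nat_lit 0) (XT.lf (nat_lit 1260) (nat_lit 882774634) (nat_lit 0) (nat_lit 2029358998) (nat_lit 1176) (nat_lit 882774634) (nat_lit 177) (nat_lit 1) (nat_lit 162) (nat_lit 1) (nat_lit 176) (nat_lit 1) (nat_lit 204) (nat_lit 201) (nat_lit 195)) (XT.lf (nat_lit 1260) (nat_lit 1596816799) (nat_lit 84) (nat_lit 1067862404) (nat_lit 0) (nat_lit 1067862404) (nat_lit 177) (nat_lit 1) (nat_lit 163) (nat_lit 1) (nat_lit 162) (nat_lit 1) (nat_lit 205) (nat_lit 201) (nat_lit 194))))) (XT.nd (nat_lit 282) (nat_lit 0) (nat_lit 84) (XT.nd (nat_lit 94) (nat_lit 0) (nat_lit 0) (XT.lf (nat_lit 1260) (nat_lit 707687783) (nat_lit 0) (nat_lit 2256285679) (nat_lit 1176) (nat_lit 707687783) (nat_lit 178) (nat_lit 1) (nat_lit 163) (nat_lit 1)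 (nat_lit 177) (nat_lit 1) (nat_lit 206) (nat_lit 201) (nat_lit 193)) (XT.nd (nat_lit 94) (nat_lit 0) (nat_lit 84) (XT.lf (nat_lit 1260) (nat_lit 1214346902) (nat_lit 84) (nat_lit 1198811437) (nat_lit 0) (nat_lit 1198811437) (nat_lit 178) (nat_lit 1) (nat_lit 164) (nat_lit 1) (nat_lit 163) (nat_lit 1) (nat_lit 207) (nat_lit 201) (nat_lit 192)) (XT.lf (nat_lit 1260) (nat_lit 503056153) (nat_lit 0) (nat_lit 2547710987) (nat_lit 1176) (nat_lit 503056153) (nat_lit 179) (nat_lit 1) (nat_lit 164) (nat_lit 1) (nat_lit 178) (nat_lit 1) (nat_lit 208) (nat_lit 201) (nat_lit 191)))) (XT.nd (nat_lit 188) (nat_lit 0) (nat_lit 84) (XT.nd (nat_lit 94) (nat_lit 0) (nat_lit 84) (XT.lf (nat_lit 1260) (nat_lit 775873897) (nat_lit 84) (nat_lit 1360393501) (nat_lit 0) (nat_lit 1360393501) (nat_lit 179) (nat_lit 1) (nat_lit 165) (nat_lit 1) (nat_lit 164) (nat_lit 1) (nat_lit 209) (nat_lit 201) (nat_lit 190)) (XT.lf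 (nat_lit 1260) (nat_lit 272236926) (nat_lit 0) (nat_lit 2896655111) (nat_lit 1176) (nat_lit 272236926) (nat_lit 180) (nat_lit 1) (nat_lit 165) (nat_lit 1) (nat_lit 179) (nat_lit 1) (nat_lit 210) (nat_lit 201) (nat_lit 189))) (XT.nd (nat_lit 94) (nat_lit 0) (nat_lit 84) (XT.lf (nat_lit 1260) (nat_lit 287875174) (nat_lit 84) (nat_lit 1549241499) (nat_lit 0) (nat_lit 1549241499) (nat_lit 180) (nat_lit 1) (nat_lit 166) (nat_lit 1) (nat_lit 165) (nat_lit 1) (nat_lit 211) (nat_lit 201) (nat_lit 188)) (XT.lf (nat_lit 84) (nat_lit 18316966) (nat_lit 0) (nat_lit 3296693336) (nat_lit 1176) (nat_lit 18316966) (nat_lit 167) (nat_lit 1) (nat_lit 166) (nat_lit 1) (nat_lit 180) (nat_lit 1) (nat_lit 212) (nat_lit 201) (nat_lit 187))))))))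
noncomputable def ec4 : XT := (XT.nd (nat_lit 37318) (nat_lit 420) (nat_lit 0) (XT.nd (nat_lit 1222) (nat_lit 0) (nat_lit 0) (XT.nd (nat_lit 564) (nat_lit 2100) (nat_lit 0) (XT.nd (nat_lit 282) (nat_lit 1176) (nat_lit 0) (XT.nd (nat_lit 94) (nat_lit 672) (nat_lit 0) (XT.lf (nat_lit 84) (nat_lit 1521276809) (nat_lit 0) (nat_lit 238170055) (nat_lit 1260) (nat_lit 1521276809) (nat_lit 152) (nat_lit 1) (nat_lit 151) (nat_lit 1) (nat_lit 166) (nat_lit 1) (nat_lit 213) (nat_lit 201) (nat_lit 186)) (XT.nd (nat_lit 94) (nat_lit 0) (nat_lit 0) (XT.lf (nat_lit 756) (nat_lit 2723878254) (nat_lit 0) (nat_lit 252950550) (nat_lit 672) (nat_lit 252950550) (nat_lit 152) (nat_lit 1) (nat_lit 143) (nat_lit 1) (nat_lit 151) (nat_lit 1) (nat_lit 214) (nat_lit 201) (nat_lit 185)) (XT.lf (nat_lit 84) (nat_lit 1192283622) (nat_lit 0) (nat_lit 794928299) (nat_lit 756) (nat_lit 1192283622) (nat_lit 144) (nat_lit 1)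 (nat_lit 143) (nat_lit 1) (nat_lit 152) (nat_lit 1) (nat_lit 215) (nat_lit 201) (nat_lit 184)))) (XT.nd (nat_lit 94) (nat_lit 588) (nat_lit 0) (XT.lf (nat_lit 672) (nat_lit 2047667821) (nat_lit 0) (nat_lit 541468932) (nat_lit 588) (nat_lit 541468932) (nat_lit 144) (nat_lit 1) (nat_lit 136) (nat_lit 1) (nat_lit 143) (nat_lit 1) (nat_lit 216) (nat_lit 201) (nat_lit 183)) (XT.nd (nat_lit 94) (nat_lit 588) (nat_lit 0) (XT.lf (nat_lit 84) (nat_lit 849273585) (nat_lit 0) (nat_lit 1384023396) (nat_lit 672) (nat_lit 849273585) (nat_lit 137) (nat_lit 1) (nat_lit 136) (nat_lit 1) (nat_lit 144) (nat_lit 1) (nat_lit 217) (nat_lit 201) (nat_lit 182)) (XT.lf (nat_lit 672) (nat_lit 1345453762) (nat_lit 0) (nat_lit 845086239) (nat_lit 588) (nat_lit 845086239) (nat_lit 137) (nat_lit 1) (nat_lit 129) (nat_lit 1) (nat_lit 136) (nat_lit 1) (nat_lit 218) (nat_lit 201) (nat_lit 181))))) (XT.nd (nat_lit 282) (nat_lit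 1596) (nat_lit 0) (XT.nd (nat_lit 94) (nat_lit 504) (nat_lit 0) (XT.lf (nat_lit 84) (nat_lit 494392385) (nat_lit 0) (nat_lit 2000959942) (nat_lit 672) (nat_lit 494392385) (nat_lit 130) (nat_lit 1) (nat_lit 129) (nat_lit 1) (nat_lit 137) (nat_lit 1) (nat_lit 219) (nat_lit 201) (nat_lit 180)) (XT.nd (nat_lit 94) (nat_lit 0) (nat_lit 0) (XT.lf (nat_lit 588) (nat_lit 621364802) (nat_lit 0) (nat_lit 1161639251) (nat_lit 504) (nat_lit 1161639251) (nat_lit 130) (nat_lit 1) (nat_lit 123) (nat_lit 1) (nat_lit 129) (nat_lit 1) (nat_lit 220) (nat_lit 201) (nat_lit 179)) (XT.lf (nat_lit 84) (nat_lit 129602003) (nat_lit 0) (nat_lit 2641620740) (nat_lit 588) (nat_lit 129602003) (nat_lit 124) (nat_lit 1) (nat_lit 123) (nat_lit 1) (nat_lit 130) (nat_lit 1) (nat_lit 221) (nat_lit 201) (nat_lit 178)))) (XT.nd (nat_lit 188) (nat_lit 504) (nat_lit 0) (XT.nd (nat_lit 94) (nat_lit 504) (nat_lit 0) (XT.lf (nat_lit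 84) (nat_lit 1369668037) (nat_lit 0) (nat_lit 118086360) (nat_lit 588) (nat_lit 1369668037) (nat_lit 117) (nat_lit 1) (nat_lit 116) (nat_lit 1) (nat_lit 123) (nat_lit 1) (nat_lit 222) (nat_lit 201) (nat_lit 177)) (XT.lf (nat_lit 588) (nat_lit 2334182139) (nat_lit 0) (nat_lit 240531844) (nat_lit 504) (nat_lit 240531844) (nat_lit 117) (nat_lit 1) (nat_lit 110) (nat_lit 1) (nat_lit 116) (nat_lit 1) (nat_lit 223) (nat_lit 201) (nat_lit 176))) (XT.nd (nat_lit 94) (nat_lit 504) (nat_lit 0) (XT.lf (nat_lit 84) (nat_lit 957905490) (nat_lit 0) (nat_lit 857774228) (nat_lit 588) (nat_lit 957905490) (nat_lit 111) (nat_lit 1) (nat_lit 110) (nat_lit 1) (nat_lit 117) (nat_lit 1) (nat_lit 224) (nat_lit 201) (nat_lit 175)) (XT.lf (nat_lit 588) (nat_lit 1501808454) (nat_lit 0) (nat_lit 615597125) (nat_lit 504) (nat_lit 615597125) (nat_lit 111) (nat_lit 1) (nat_lit 104) (nat_lit 1) (nat_lit 110) (nat_lit 1)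 (nat_lit 225) (nat_lit 201) (nat_lit 174)))))) (XT.nd (nat_lit 35438) (nat_lit 0) (nat_lit 4872) (XT.nd (nat_lit 35062) (nat_lit 0) (nat_lit 4704) (XT.nd (nat_lit 34874) (nat_lit 0) (nat_lit 4620) (XT.lf (nat_lit 84) (nat_lit 542243484) (nat_lit 0) (nat_lit 1608719920) (nat_lit 588) (nat_lit 542243484) (nat_lit 105) (nat_lit 1) (nat_lit 104) (nat_lit 1) (nat_lit 111) (nat_lit 1) (nat_lit 226) (nat_lit 201) (nat_lit 173)) (XT.nd (nat_lit 94) (nat_lit 0) (nat_lit 0) (XT.lf (nat_lit 1260) (nat_lit 617215808) (nat_lit 0) (nat_lit 939065665) (nat_lit 1260) (nat_lit 617215808) (nat_lit 174) (nat_lit 1) (nat_lit 159) (nat_lit 0) (nat_lit 174) (nat_lit 0) (nat_lit 196) (nat_lit 202) (nat_lit 202)) (XT.lf (nat_lit 1260) (nat_lit 2416413208) (nat_lit 84) (nat_lit 928359704) (nat_lit 0) (nat_lit 928359704) (nat_lit 174) (nat_lit 1) (nat_lit 160) (nat_lit 1) (nat_lit 159) (nat_lit 0) (nat_lit 197) (nat_lit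 202) (nat_lit 201)))) (XT.nd (nat_lit 188) (nat_lit 0) (nat_lit 84) (XT.nd (nat_lit 94) (nat_lit 0) (nat_lit 0) (XT.lf (nat_lit 1260) (nat_lit 1168935238) (nat_lit 0) (nat_lit 1862955601) (nat_lit 1176) (nat_lit 1168935238) (nat_lit 175) (nat_lit 1) (nat_lit 160) (nat_lit 1) (nat_lit 174) (nat_lit 1) (nat_lit 198) (nat_lit 202) (nat_lit 200)) (XT.lf (nat_lit 1260) (nat_lit 2240744871) (nat_lit 84) (nat_lit 944750795) (nat_lit 0) (nat_lit 944750795) (nat_lit 175) (nat_lit 1) (nat_lit 161) (nat_lit 1) (nat_lit 160) (nat_lit 1) (nat_lit 199) (nat_lit 202) (nat_lit 199))) (XT.nd (nat_lit 94) (nat_lit 0) (nat_lit 0) (XT.lf (nat_lit 1260) (nat_lit 1060531578) (nat_lit 0) (nat_lit 1940116606) (nat_lit 1176) (nat_lit 1060531578) (nat_lit 176) (nat_lit 1) (nat_lit 161) (nat_lit 1) (nat_lit 175) (nat_lit 1) (nat_lit 200) (nat_lit 202) (nat_lit 198)) (XT.lf (nat_lit 1260) (nat_lit 1983310056) (nat_lit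 84) (nat_lit 1005195312) (nat_lit 0) (nat_lit 1005195312) (nat_lit 176) (nat_lit 1) (nat_lit 162) (nat_lit 1) (nat_lit 161) (nat_lit 1) (nat_lit 201) (nat_lit 202) (nat_lit 197))))) (XT.nd (nat_lit 282) (nat_lit 0) (nat_lit 84) (XT.nd (nat_lit 94) (nat_lit 0) (nat_lit 0) (XT.lf (nat_lit 1260) (nat_lit 913671746) (nat_lit 0) (nat_lit 2100386563) (nat_lit 1176) (nat_lit 913671746) (nat_lit 177) (nat_lit 1) (nat_lit 162) (nat_lit 1) (nat_lit 176) (nat_lit 1) (nat_lit 202) (nat_lit 202) (nat_lit 196)) (XT.nd (nat_lit 94) (nat_lit 0) (nat_lit 84) (XT.lf (nat_lit 1260) (nat_lit 1652705387) (nat_lit 84) (nat_lit 1105237588) (nat_lit 0) (nat_lit 1105237588) (nat_lit 177) (nat_lit 1) (nat_lit 163) (nat_lit 1) (nat_lit 162) (nat_lit 1) (nat_lit 203) (nat_lit 202) (nat_lit 195)) (XT.lf (nat_lit 1260) (nat_lit 732456856) (nat_lit 0) (nat_lit 2335255678) (nat_lit 1176) (nat_lit 732456856) (nat_lit 178)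 (nat_lit 1) (nat_lit 163) (nat_lit 1) (nat_lit 177) (nat_lit 1) (nat_lit 204) (nat_lit 202) (nat_lit 194)))) (XT.nd (nat_lit 188) (nat_lit 0) (nat_lit 84) (XT.nd (nat_lit 94) (nat_lit 0) (nat_lit 84) (XT.lf (nat_lit 1260) (nat_lit 1256849043) (nat_lit 84) (nat_lit 1240769837) (nat_lit 0) (nat_lit 1240769837) (nat_lit 178) (nat_lit 1) (nat_lit 164) (nat_lit 1) (nat_lit 163) (nat_lit 1) (nat_lit 205) (nat_lit 202) (nat_lit 193)) (XT.lf (nat_lit 1260) (nat_lit 520663119) (nat_lit 0) (nat_lit 2636880871) (nat_lit 1176) (nat_lit 520663119) (nat_lit 179) (nat_lit 1) (nat_lit 164) (nat_lit 1) (nat_lit 178) (nat_lit 1) (nat_lit 206) (nat_lit 202) (nat_lit 192))) (XT.nd (nat_lit 94) (nat_lit 0) (nat_lit 84) (XT.lf (nat_lit 1260) (nat_lit 803029483) (nat_lit 84) (nat_lit 1408007274) (nat_lit 0) (nat_lit 1408007274) (nat_lit 179) (nat_lit 1) (nat_lit 165) (nat_lit 1) (nat_lit 164) (nat_lit 1) (nat_lit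 207) (nat_lit 202) (nat_lit 191)) (XT.lf (nat_lit 1260) (nat_lit 281765218) (nat_lit 0) (nat_lit 2998038040) (nat_lit 1176) (nat_lit 281765218) (nat_lit 180) (nat_lit 1) (nat_lit 165) (nat_lit 1) (nat_lit 179) (nat_lit 1) (nat_lit 208) (nat_lit 202) (nat_lit 190))))))) (XT.nd (nat_lit 1222) (nat_lit 924) (nat_lit 0) (XT.nd (nat_lit 564) (nat_lit 2184) (nat_lit 0) (XT.nd (nat_lit 282) (nat_lit 1260) (nat_lit 0) (XT.nd (nat_lit 94) (nat_lit 1176) (nat_lit 0) (XT.lf (nat_lit 1260) (nat_lit 297950805) (nat_lit 84) (nat_lit 1603464951) (nat_lit 0) (nat_lit 1603464951) (nat_lit 180) (nat_lit 1) (nat_lit 166) (nat_lit 1) (nat_lit 165) (nat_lit 1) (nat_lit 209) (nat_lit 202) (nat_lit 189)) (XT.nd (nat_lit 94) (nat_lit 1260) (nat_lit 0) (XT.lf (nat_lit 84) (nat_lit 18958060) (nat_lit 0) (nat_lit 3412077603) (nat_lit 1176) (nat_lit 18958060) (nat_lit 167) (nat_lit 1) (nat_lit 166) (nat_lit 1) (nat_lit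 180) (nat_lit 1) (nat_lit 210) (nat_lit 202) (nat_lit 188)) (XT.lf (nat_lit 84) (nat_lit 1574521498) (nat_lit 0) (nat_lit 246506007) (nat_lit 1260) (nat_lit 1574521498) (nat_lit 152) (nat_lit 1) (nat_lit 151) (nat_lit 1) (nat_lit 166) (nat_lit 1) (nat_lit 211) (nat_lit 202) (nat_lit 187)))) (XT.nd (nat_lit 94) (nat_lit 588) (nat_lit 0) (XT.lf (nat_lit 756) (nat_lit 2819213993) (nat_lit 0) (nat_lit 261803819) (nat_lit 672) (nat_lit 261803819) (nat_lit 152) (nat_lit 1) (nat_lit 143) (nat_lit 1) (nat_lit 151) (nat_lit 1) (nat_lit 212) (nat_lit 202) (nat_lit 186)) (XT.nd (nat_lit 94) (nat_lit 588) (nat_lit 0) (XT.lf (nat_lit 84) (nat_lit 1234013549) (nat_lit 0) (nat_lit 822750790) (nat_lit 756) (nat_lit 1234013549) (nat_lit 144) (nat_lit 1) (nat_lit 143) (nat_lit 1) (nat_lit 152) (nat_lit 1) (nat_lit 213) (nat_lit 202) (nat_lit 185)) (XT.lf (nat_lit 672) (nat_lit 2119336195) (nat_lit 0) (nat_lit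 560420344) (nat_lit 588) (nat_lit 560420344) (nat_lit 144) (nat_lit 1) (nat_lit 136) (nat_lit 1) (nat_lit 143) (nat_lit 1) (nat_lit 214) (nat_lit 202) (nat_lit 184))))) (XT.nd (nat_lit 282) (nat_lit 1596) (nat_lit 0) (XT.nd (nat_lit 94) (nat_lit 588) (nat_lit 0) (XT.lf (nat_lit 84) (nat_lit 878998160) (nat_lit 0) (nat_lit 1432464215) (nat_lit 672) (nat_lit 878998160) (nat_lit 137) (nat_lit 1) (nat_lit 136) (nat_lit 1) (nat_lit 144) (nat_lit 1) (nat_lit 215) (nat_lit 202) (nat_lit 183)) (XT.nd (nat_lit 94) (nat_lit 0) (nat_lit 0) (XT.lf (nat_lit 672) (nat_lit 1392544644) (nat_lit 0) (nat_lit 874664258) (nat_lit 588) (nat_lit 874664258) (nat_lit 137) (nat_lit 1) (nat_lit 129) (nat_lit 1) (nat_lit 136) (nat_lit 1) (nat_lit 216) (nat_lit 202) (nat_lit 182)) (XT.lf (nat_lit 84) (nat_lit 511696118) (nat_lit 0) (nat_lit 2070993540) (nat_lit 672) (nat_lit 511696118) (nat_lit 130) (nat_lit 1) (nat_lit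 129) (nat_lit 1) (nat_lit 137) (nat_lit 1) (nat_lit 217) (nat_lit 202) (nat_lit 181)))) (XT.nd (nat_lit 188) (nat_lit 1092) (nat_lit 0) (XT.nd (nat_lit 94) (nat_lit 0) (nat_lit 0) (XT.lf (nat_lit 588) (nat_lit 643112570) (nat_lit 0) (nat_lit 1202296625) (nat_lit 504) (nat_lit 1202296625) (nat_lit 130) (nat_lit 1) (nat_lit 123) (nat_lit 1) (nat_lit 129) (nat_lit 1) (nat_lit 218) (nat_lit 202) (nat_lit 180)) (XT.lf (nat_lit 84) (nat_lit 134138073) (nat_lit 0) (nat_lit 2734077466) (nat_lit 588) (nat_lit 134138073) (nat_lit 124) (nat_lit 1) (nat_lit 123) (nat_lit 1) (nat_lit 130) (nat_lit 1) (nat_lit 219) (nat_lit 202) (nat_lit 179))) (XT.nd (nat_lit 94) (nat_lit 504) (nat_lit 0) (XT.lf (nat_lit 84) (nat_lit 1417606419) (nat_lit 0) (nat_lit 122219383) (nat_lit 588) (nat_lit 1417606419) (nat_lit 117) (nat_lit 1) (nat_lit 116) (nat_lit 1) (nat_lit 123) (nat_lit 1) (nat_lit 220) (nat_lit 202) (nat_lit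 178)) (XT.lf (nat_lit 588) (nat_lit 2415878514) (nat_lit 0) (nat_lit 248950458) (nat_lit 504) (nat_lit 248950458) (nat_lit 117) (nat_lit 1) (nat_lit 110) (nat_lit 1) (nat_lit 116) (nat_lit 1) (nat_lit 221) (nat_lit 202) (nat_lit 177)))))) (XT.nd (nat_lit 35250) (nat_lit 0) (nat_lit 5124) (XT.nd (nat_lit 282) (nat_lit 420) (nat_lit 0) (XT.nd (nat_lit 94) (nat_lit 504) (nat_lit 0) (XT.lf (nat_lit 84) (nat_lit 991432182) (nat_lit 0) (nat_lit 887796325) (nat_lit 588) (nat_lit 991432182) (nat_lit 111) (nat_lit 1) (nat_lit 110) (nat_lit 1) (nat_lit 117) (nat_lit 1) (nat_lit 222) (nat_lit 202) (nat_lit 176)) (XT.nd (nat_lit 94) (nat_lit 0) (nat_lit 0) (XT.lf (nat_lit 588) (nat_lit 1554371750) (nat_lit 0) (nat_lit 637143025) (nat_lit 504) (nat_lit 637143025) (nat_lit 111) (nat_lit 1) (nat_lit 104) (nat_lit 1) (nat_lit 110) (nat_lit 1) (nat_lit 223) (nat_lit 202) (nat_lit 175)) (XT.lf (nat_lit 84)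 (nat_lit 561222006) (nat_lit 0) (nat_lit 1665025117) (nat_lit 588) (nat_lit 561222006) (nat_lit 105) (nat_lit 1) (nat_lit 104) (nat_lit 1) (nat_lit 111) (nat_lit 1) (nat_lit 224) (nat_lit 202) (nat_lit 174)))) (XT.nd (nat_lit 34780) (nat_lit 0) (nat_lit 5040) (XT.nd (nat_lit 94) (nat_lit 0) (nat_lit 0) (XT.lf (nat_lit 504) (nat_lit 686140157) (nat_lit 0) (nat_lit 1030445620) (nat_lit 420) (nat_lit 1030445620) (nat_lit 105) (nat_lit 1) (nat_lit 99) (nat_lit 1) (nat_lit 104) (nat_lit 1) (nat_lit 225) (nat_lit 202) (nat_lit 173)) (XT.lf (nat_lit 84) (nat_lit 128338942) (nat_lit 0) (nat_lit 2451015664) (nat_lit 504) (nat_lit 128338942) (nat_lit 100) (nat_lit 1) (nat_lit 99) (nat_lit 1) (nat_lit 105) (nat_lit 1) (nat_lit 226) (nat_lit 202) (nat_lit 172))) (XT.nd (nat_lit 94) (nat_lit 0) (nat_lit 0) (XT.lf (nat_lit 1260) (nat_lit 638818361) (nat_lit 0) (nat_lit 971932963) (nat_lit 1260) (nat_lit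 638818361) (nat_lit 174) (nat_lit 1) (nat_lit 159) (nat_lit 0) (nat_lit 174) (nat_lit 0) (nat_lit 194) (nat_lit 203) (nat_lit 203)) (XT.lf (nat_lit 1260) (nat_lit 2500987670) (nat_lit 84) (nat_lit 960852294) (nat_lit 0) (nat_lit 960852294) (nat_lit 174) (nat_lit 1) (nat_lit 160) (nat_lit 1) (nat_lit 159) (nat_lit 0) (nat_lit 195) (nat_lit 203) (nat_lit 202))))) (XT.nd (nat_lit 282) (nat_lit 0) (nat_lit 84) (XT.nd (nat_lit 94) (nat_lit 0) (nat_lit 0) (XT.lf (nat_lit 1260) (nat_lit 1209847971) (nat_lit 0) (nat_lit 1928159047) (nat_lit 1176) (nat_lit 1209847971) (nat_lit 175) (nat_lit 1) (nat_lit 160) (nat_lit 1) (nat_lit 174) (nat_lit 1) (nat_lit 196) (nat_lit 203) (nat_lit 201)) (XT.nd (nat_lit 94) (nat_lit 0) (nat_lit 84) (XT.lf (nat_lit 1260) (nat_lit 2319170941) (nat_lit 84) (nat_lit 977817073) (nat_lit 0) (nat_lit 977817073) (nat_lit 175) (nat_lit 1) (nat_lit 161) (nat_lit 1) (nat_lit 160)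 (nat_lit 1) (nat_lit 197) (nat_lit 203) (nat_lit 200)) (XT.lf (nat_lit 1260) (nat_lit 1097650183) (nat_lit 0) (nat_lit 2008020687) (nat_lit 1176) (nat_lit 1097650183) (nat_lit 176) (nat_lit 1) (nat_lit 161) (nat_lit 1) (nat_lit 175) (nat_lit 1) (nat_lit 198) (nat_lit 203) (nat_lit 199)))) (XT.nd (nat_lit 188) (nat_lit 0) (nat_lit 84) (XT.nd (nat_lit 94) (nat_lit 0) (nat_lit 84) (XT.lf (nat_lit 1260) (nat_lit 2052725908) (nat_lit 84) (nat_lit 1040377148) (nat_lit 0) (nat_lit 1040377148) (nat_lit 176) (nat_lit 1) (nat_lit 162) (nat_lit 1) (nat_lit 161) (nat_lit 1) (nat_lit 199) (nat_lit 203) (nat_lit 198)) (XT.lf (nat_lit 1260) (nat_lit 945650257) (nat_lit 0) (nat_lit 2173900093) (nat_lit 1176) (nat_lit 945650257) (nat_lit 177) (nat_lit 1) (nat_lit 162) (nat_lit 1) (nat_lit 176) (nat_lit 1) (nat_lit 200) (nat_lit 203) (nat_lit 197))) (XT.nd (nat_lit 94) (nat_lit 0) (nat_lit 84) (XT.lf (nat_lit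 1260) (nat_lit 1710550075) (nat_lit 84) (nat_lit 1143920904) (nat_lit 0) (nat_lit 1143920904) (nat_lit 177) (nat_lit 1) (nat_lit 163) (nat_lit 1) (nat_lit 162) (nat_lit 1) (nat_lit 201) (nat_lit 203) (nat_lit 196)) (XT.lf (nat_lit 1260) (nat_lit 758092845) (nat_lit 0) (nat_lit 2416989627) (nat_lit 1176) (nat_lit 758092845) (nat_lit 178) (nat_lit 1) (nat_lit 163) (nat_lit 1) (nat_lit 177) (nat_lit 1) (nat_lit 202) (nat_lit 203) (nat_lit 195))))))))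
noncomputable def ec5 : XT := (XT.nd (nat_lit 36942) (nat_lit 0) (nat_lit 924) (XT.nd (nat_lit 1222) (nat_lit 3444) (nat_lit 0) (XT.nd (nat_lit 564) (nat_lit 2856) (nat_lit 0) (XT.nd (nat_lit 282) (nat_lit 0) (nat_lit 168) (XT.nd (nat_lit 94) (nat_lit 0) (nat_lit 84) (XT.lf (nat_lit 1260) (nat_lit 1300838760) (nat_lit 84) (nat_lit 1284196782) (nat_lit 0) (nat_lit 1284196782) (nat_lit 178) (nat_lit 1) (nat_lit 164) (nat_lit 1) (nat_lit 163) (nat_lit 1) (nat_lit 203) (nat_lit 203) (nat_lit 194)) (XT.nd (nat_lit 94) (nat_lit 0) (nat_lit 0) (XT.lf (nat_lit 1260) (nat_lit 538886328) (nat_lit 0) (nat_lit 2729171702) (nat_lit 1176) (nat_lit 538886328) (nat_lit 179) (nat_lit 1) (nat_lit 164) (nat_lit 1) (nat_lit 178) (nat_lit 1) (nat_lit 204) (nat_lit 203) (nat_lit 193)) (XT.lf (nat_lit 1260) (nat_lit 831135515) (nat_lit 84) (nat_lit 1457287529) (nat_lit 0) (nat_lit 1457287529) (nat_lit 179) (nat_lit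 1) (nat_lit 165) (nat_lit 1) (nat_lit 164) (nat_lit 1) (nat_lit 205) (nat_lit 203) (nat_lit 192)))) (XT.nd (nat_lit 94) (nat_lit 0) (nat_lit 0) (XT.lf (nat_lit 1260) (nat_lit 291627001) (nat_lit 0) (nat_lit 3102969371) (nat_lit 1176) (nat_lit 291627001) (nat_lit 180) (nat_lit 1) (nat_lit 165) (nat_lit 1) (nat_lit 179) (nat_lit 1) (nat_lit 206) (nat_lit 203) (nat_lit 191)) (XT.nd (nat_lit 94) (nat_lit 0) (nat_lit 84) (XT.lf (nat_lit 1260) (nat_lit 308379083) (nat_lit 84) (nat_lit 1659586225) (nat_lit 0) (nat_lit 1659586225) (nat_lit 180) (nat_lit 1) (nat_lit 166) (nat_lit 1) (nat_lit 165) (nat_lit 1) (nat_lit 207) (nat_lit 203) (nat_lit 190)) (XT.lf (nat_lit 84) (nat_lit 19621592) (nat_lit 0) (nat_lit 3531500319) (nat_lit 1176) (nat_lit 19621592) (nat_lit 167) (nat_lit 1) (nat_lit 166) (nat_lit 1) (nat_lit 180) (nat_lit 1) (nat_lit 208) (nat_lit 203) (nat_lit 189))))) (XT.nd (nat_lit 282) (nat_lit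 1176) (nat_lit 0) (XT.nd (nat_lit 94) (nat_lit 672) (nat_lit 0) (XT.lf (nat_lit 84) (nat_lit 1629629750) (nat_lit 0) (nat_lit 255133717) (nat_lit 1260) (nat_lit 1629629750) (nat_lit 152) (nat_lit 1) (nat_lit 151) (nat_lit 1) (nat_lit 166) (nat_lit 1) (nat_lit 209) (nat_lit 203) (nat_lit 188)) (XT.nd (nat_lit 94) (nat_lit 0) (nat_lit 0) (XT.lf (nat_lit 756) (nat_lit 2917886482) (nat_lit 0) (nat_lit 270966953) (nat_lit 672) (nat_lit 270966953) (nat_lit 152) (nat_lit 1) (nat_lit 143) (nat_lit 1) (nat_lit 151) (nat_lit 1) (nat_lit 210) (nat_lit 203) (nat_lit 187)) (XT.lf (nat_lit 84) (nat_lit 1277204023) (nat_lit 0) (nat_lit 851547067) (nat_lit 756) (nat_lit 1277204023) (nat_lit 144) (nat_lit 1) (nat_lit 143) (nat_lit 1) (nat_lit 152) (nat_lit 1) (nat_lit 211) (nat_lit 203) (nat_lit 186)))) (XT.nd (nat_lit 188) (nat_lit 588) (nat_lit 0) (XT.nd (nat_lit 94) (nat_lit 0) (nat_lit 0) (XT.lf (nat_lit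 672) (nat_lit 2193512962) (nat_lit 0) (nat_lit 580035056) (nat_lit 588) (nat_lit 580035056) (nat_lit 144) (nat_lit 1) (nat_lit 136) (nat_lit 1) (nat_lit 143) (nat_lit 1) (nat_lit 212) (nat_lit 203) (nat_lit 185)) (XT.lf (nat_lit 84) (nat_lit 909763096) (nat_lit 0) (nat_lit 1482600462) (nat_lit 672) (nat_lit 909763096) (nat_lit 137) (nat_lit 1) (nat_lit 136) (nat_lit 1) (nat_lit 144) (nat_lit 1) (nat_lit 213) (nat_lit 203) (nat_lit 184))) (XT.nd (nat_lit 94) (nat_lit 0) (nat_lit 0) (XT.lf (nat_lit 672) (nat_lit 1441283706) (nat_lit 0) (nat_lit 905277507) (nat_lit 588) (nat_lit 905277507) (nat_lit 137) (nat_lit 1) (nat_lit 129) (nat_lit 1) (nat_lit 136) (nat_lit 1) (nat_lit 214) (nat_lit 203) (nat_lit 183)) (XT.lf (nat_lit 84) (nat_lit 529605482) (nat_lit 0) (nat_lit 2143478314) (nat_lit 672) (nat_lit 529605482) (nat_lit 130) (nat_lit 1) (nat_lit 129) (nat_lit 1) (nat_lit 137) (nat_lit 1) (nat_lit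 215) (nat_lit 203) (nat_lit 182)))))) (XT.nd (nat_lit 658) (nat_lit 1344) (nat_lit 0) (XT.nd (nat_lit 282) (nat_lit 1008) (nat_lit 0) (XT.nd (nat_lit 94) (nat_lit 588) (nat_lit 0) (XT.lf (nat_lit 588) (nat_lit 665621510) (nat_lit 0) (nat_lit 1244377006) (nat_lit 504) (nat_lit 1244377006) (nat_lit 130) (nat_lit 1) (nat_lit 123) (nat_lit 1) (nat_lit 129) (nat_lit 1) (nat_lit 216) (nat_lit 203) (nat_lit 181)) (XT.nd (nat_lit 94) (nat_lit 588) (nat_lit 0) (XT.lf (nat_lit 84) (nat_lit 138832906) (nat_lit 0) (nat_lit 2829770178) (nat_lit 588) (nat_lit 138832906) (nat_lit 124) (nat_lit 1) (nat_lit 123) (nat_lit 1) (nat_lit 130) (nat_lit 1) (nat_lit 217) (nat_lit 203) (nat_lit 180)) (XT.lf (nat_lit 84) (nat_lit 1467222643) (nat_lit 0) (nat_lit 126497061) (nat_lit 588) (nat_lit 1467222643) (nat_lit 117) (nat_lit 1) (nat_lit 116) (nat_lit 1) (nat_lit 123) (nat_lit 1) (nat_lit 218) (nat_lit 203) (nat_lit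 179)))) (XT.nd (nat_lit 188) (nat_lit 504) (nat_lit 0) (XT.nd (nat_lit 94) (nat_lit 0) (nat_lit 0) (XT.lf (nat_lit 588) (nat_lit 2500434262) (nat_lit 0) (nat_lit 257663724) (nat_lit 504) (nat_lit 257663724) (nat_lit 117) (nat_lit 1) (nat_lit 110) (nat_lit 1) (nat_lit 116) (nat_lit 1) (nat_lit 219) (nat_lit 203) (nat_lit 178)) (XT.lf (nat_lit 84) (nat_lit 1026132309) (nat_lit 0) (nat_lit 918869197) (nat_lit 588) (nat_lit 1026132309) (nat_lit 111) (nat_lit 1) (nat_lit 110) (nat_lit 1) (nat_lit 117) (nat_lit 1) (nat_lit 220) (nat_lit 203) (nat_lit 177))) (XT.nd (nat_lit 94) (nat_lit 0) (nat_lit 0) (XT.lf (nat_lit 588) (nat_lit 1608774761) (nat_lit 0) (nat_lit 659443031) (nat_lit 504) (nat_lit 659443031) (nat_lit 111) (nat_lit 1) (nat_lit 104) (nat_lit 1) (nat_lit 110) (nat_lit 1) (nat_lit 221) (nat_lit 203) (nat_lit 176)) (XT.lf (nat_lit 84) (nat_lit 580864776) (nat_lit 0) (nat_lit 1723300996)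 (nat_lit 588) (nat_lit 580864776) (nat_lit 105) (nat_lit 1) (nat_lit 104) (nat_lit 1) (nat_lit 111) (nat_lit 1) (nat_lit 222) (nat_lit 203) (nat_lit 175))))) (XT.nd (nat_lit 282) (nat_lit 420) (nat_lit 0) (XT.nd (nat_lit 94) (nat_lit 504) (nat_lit 0) (XT.lf (nat_lit 504) (nat_lit 710155063) (nat_lit 0) (nat_lit 1066511217) (nat_lit 420) (nat_lit 1066511217) (nat_lit 105) (nat_lit 1) (nat_lit 99) (nat_lit 1) (nat_lit 104) (nat_lit 1) (nat_lit 223) (nat_lit 203) (nat_lit 174)) (XT.nd (nat_lit 94) (nat_lit 504) (nat_lit 0) (XT.lf (nat_lit 84) (nat_lit 132830805) (nat_lit 0) (nat_lit 2536801212) (nat_lit 504) (nat_lit 132830805) (nat_lit 100) (nat_lit 1) (nat_lit 99) (nat_lit 1) (nat_lit 105) (nat_lit 1) (nat_lit 224) (nat_lit 203) (nat_lit 173)) (XT.lf (nat_lit 84) (nat_lit 1286859892) (nat_lit 0) (nat_lit 188352020) (nat_lit 504) (nat_lit 1286859892) (nat_lit 94) (nat_lit 1) (nat_lit 93) (nat_lit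 1) (nat_lit 99) (nat_lit 1) (nat_lit 225) (nat_lit 203) (nat_lit 172)))) (XT.nd (nat_lit 34592) (nat_lit 0) (nat_lit 5964) (XT.nd (nat_lit 34498) (nat_lit 0) (nat_lit 5964) (XT.lf (nat_lit 504) (nat_lit 2096611714) (nat_lit 0) (nat_lit 313080479) (nat_lit 420) (nat_lit 313080479) (nat_lit 94) (nat_lit 1) (nat_lit 88) (nat_lit 1) (nat_lit 93) (nat_lit 1) (nat_lit 226) (nat_lit 203) (nat_lit 171)) (XT.lf (nat_lit 1260) (nat_lit 661177004) (nat_lit 0) (nat_lit 1005950617) (nat_lit 1260) (nat_lit 661177004) (nat_lit 174) (nat_lit 1) (nat_lit 159) (nat_lit 0) (nat_lit 174) (nat_lit 0) (nat_lit 192) (nat_lit 204) (nat_lit 204))) (XT.nd (nat_lit 94) (nat_lit 0) (nat_lit 84) (XT.lf (nat_lit 1260) (nat_lit 2588522239) (nat_lit 84) (nat_lit 994482124) (nat_lit 0) (nat_lit 994482124) (nat_lit 174) (nat_lit 1) (nat_lit 160) (nat_lit 1) (nat_lit 159) (nat_lit 0) (nat_lit 193) (nat_lit 204) (nat_lit 203))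 (XT.lf (nat_lit 1260) (nat_lit 1252192650) (nat_lit 0) (nat_lit 1995644614) (nat_lit 1176) (nat_lit 1252192650) (nat_lit 175) (nat_lit 1) (nat_lit 160) (nat_lit 1) (nat_lit 174) (nat_lit 1) (nat_lit 194) (nat_lit 204) (nat_lit 202))))))) (XT.nd (nat_lit 1316) (nat_lit 3696) (nat_lit 0) (XT.nd (nat_lit 658) (nat_lit 1428) (nat_lit 0) (XT.nd (nat_lit 282) (nat_lit 0) (nat_lit 168) (XT.nd (nat_lit 94) (nat_lit 0) (nat_lit 84) (XT.lf (nat_lit 1260) (nat_lit 2400341924) (nat_lit 84) (nat_lit 1012040671) (nat_lit 0) (nat_lit 1012040671) (nat_lit 175) (nat_lit 1) (nat_lit 161) (nat_lit 1) (nat_lit 160) (nat_lit 1) (nat_lit 195) (nat_lit 204) (nat_lit 201)) (XT.nd (nat_lit 94) (nat_lit 0) (nat_lit 0) (XT.lf (nat_lit 1260) (nat_lit 1136067940) (nat_lit 0) (nat_lit 2078301412) (nat_lit 1176) (nat_lit 1136067940) (nat_lit 176) (nat_lit 1) (nat_lit 161) (nat_lit 1) (nat_lit 175) (nat_lit 1) (nat_lit 196)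 (nat_lit 204) (nat_lit 200)) (XT.lf (nat_lit 1260) (nat_lit 2124571315) (nat_lit 84) (nat_lit 1076790348) (nat_lit 0) (nat_lit 1076790348) (nat_lit 176) (nat_lit 1) (nat_lit 162) (nat_lit 1) (nat_lit 161) (nat_lit 1) (nat_lit 197) (nat_lit 204) (nat_lit 199)))) (XT.nd (nat_lit 188) (nat_lit 0) (nat_lit 84) (XT.nd (nat_lit 94) (nat_lit 0) (nat_lit 0) (XT.lf (nat_lit 1260) (nat_lit 978748017) (nat_lit 0) (nat_lit 2249986596) (nat_lit 1176) (nat_lit 978748017) (nat_lit 177) (nat_lit 1) (nat_lit 162) (nat_lit 1) (nat_lit 176) (nat_lit 1) (nat_lit 198) (nat_lit 204) (nat_lit 198)) (XT.lf (nat_lit 1260) (nat_lit 1770419328) (nat_lit 84) (nat_lit 1183958135) (nat_lit 0) (nat_lit 1183958135) (nat_lit 177) (nat_lit 1) (nat_lit 163) (nat_lit 1) (nat_lit 162) (nat_lit 1) (nat_lit 199) (nat_lit 204) (nat_lit 197))) (XT.nd (nat_lit 94) (nat_lit 0) (nat_lit 0) (XT.lf (nat_lit 1260) (nat_lit 784626095) (nat_lit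 0) (nat_lit 2501584264) (nat_lit 1176) (nat_lit 784626095) (nat_lit 178) (nat_lit 1) (nat_lit 163) (nat_lit 1) (nat_lit 177) (nat_lit 1) (nat_lit 200) (nat_lit 204) (nat_lit 196)) (XT.lf (nat_lit 1260) (nat_lit 1346368116) (nat_lit 84) (nat_lit 1329143669) (nat_lit 0) (nat_lit 1329143669) (nat_lit 178) (nat_lit 1) (nat_lit 164) (nat_lit 1) (nat_lit 163) (nat_lit 1) (nat_lit 201) (nat_lit 204) (nat_lit 195))))) (XT.nd (nat_lit 282) (nat_lit 1764) (nat_lit 0) (XT.nd (nat_lit 94) (nat_lit 0) (nat_lit 0) (XT.lf (nat_lit 1260) (nat_lit 557747349) (nat_lit 0) (nat_lit 2824692712) (nat_lit 1176) (nat_lit 557747349) (nat_lit 179) (nat_lit 1) (nat_lit 164) (nat_lit 1) (nat_lit 178) (nat_lit 1) (nat_lit 202) (nat_lit 204) (nat_lit 194)) (XT.nd (nat_lit 94) (nat_lit 0) (nat_lit 84) (XT.lf (nat_lit 1260) (nat_lit 860225258) (nat_lit 84) (nat_lit 1508292592) (nat_lit 0) (nat_lit 1508292592) (nat_lit 179)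 (nat_lit 1) (nat_lit 165) (nat_lit 1) (nat_lit 164) (nat_lit 1) (nat_lit 203) (nat_lit 204) (nat_lit 193)) (XT.lf (nat_lit 1260) (nat_lit 301833946) (nat_lit 0) (nat_lit 3211573299) (nat_lit 1176) (nat_lit 301833946) (nat_lit 180) (nat_lit 1) (nat_lit 165) (nat_lit 1) (nat_lit 179) (nat_lit 1) (nat_lit 204) (nat_lit 204) (nat_lit 192)))) (XT.nd (nat_lit 188) (nat_lit 1848) (nat_lit 0) (XT.nd (nat_lit 94) (nat_lit 0) (nat_lit 84) (XT.lf (nat_lit 1260) (nat_lit 319172351) (nat_lit 84) (nat_lit 1717671742) (nat_lit 0) (nat_lit 1717671742) (nat_lit 180) (nat_lit 1) (nat_lit 166) (nat_lit 1) (nat_lit 165) (nat_lit 1) (nat_lit 205) (nat_lit 204) (nat_lit 191)) (XT.lf (nat_lit 84) (nat_lit 20308348) (nat_lit 0) (nat_lit 3655102830) (nat_lit 1176) (nat_lit 20308348) (nat_lit 167) (nat_lit 1) (nat_lit 166) (nat_lit 1) (nat_lit 180) (nat_lit 1) (nat_lit 206) (nat_lit 204) (nat_lit 190))) (XT.nd (nat_lit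 94) (nat_lit 672) (nat_lit 0) (XT.lf (nat_lit 84) (nat_lit 1686666791) (nat_lit 0) (nat_lit 264063398) (nat_lit 1260) (nat_lit 1686666791) (nat_lit 152) (nat_lit 1) (nat_lit 151) (nat_lit 1) (nat_lit 166) (nat_lit 1) (nat_lit 207) (nat_lit 204) (nat_lit 189)) (XT.lf (nat_lit 756) (nat_lit 3020012509) (nat_lit 0) (nat_lit 280450796) (nat_lit 672) (nat_lit 280450796) (nat_lit 152) (nat_lit 1) (nat_lit 143) (nat_lit 1) (nat_lit 151) (nat_lit 1) (nat_lit 208) (nat_lit 204) (nat_lit 188)))))) (XT.nd (nat_lit 658) (nat_lit 2016) (nat_lit 0) (XT.nd (nat_lit 282) (nat_lit 1092) (nat_lit 0) (XT.nd (nat_lit 94) (nat_lit 588) (nat_lit 0) (XT.lf (nat_lit 84) (nat_lit 1321906164) (nat_lit 0) (nat_lit 881351215) (nat_lit 756) (nat_lit 1321906164) (nat_lit 144) (nat_lit 1) (nat_lit 143) (nat_lit 1) (nat_lit 152) (nat_lit 1) (nat_lit 209) (nat_lit 204) (nat_lit 187)) (XT.nd (nat_lit 94) (nat_lit 0) (nat_lit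 0) (XT.lf (nat_lit 672) (nat_lit 2270285915) (nat_lit 0) (nat_lit 600336283) (nat_lit 588) (nat_lit 600336283) (nat_lit 144) (nat_lit 1) (nat_lit 136) (nat_lit 1) (nat_lit 143) (nat_lit 1) (nat_lit 210) (nat_lit 204) (nat_lit 186)) (XT.lf (nat_lit 84) (nat_lit 941604804) (nat_lit 0) (nat_lit 1534491479) (nat_lit 672) (nat_lit 941604804) (nat_lit 137) (nat_lit 1) (nat_lit 136) (nat_lit 1) (nat_lit 144) (nat_lit 1) (nat_lit 211) (nat_lit 204) (nat_lit 185)))) (XT.nd (nat_lit 188) (nat_lit 504) (nat_lit 0) (XT.nd (nat_lit 94) (nat_lit 0) (nat_lit 0) (XT.lf (nat_lit 672) (nat_lit 1491728636) (nat_lit 0) (nat_lit 936962219) (nat_lit 588) (nat_lit 936962219) (nat_lit 137) (nat_lit 1) (nat_lit 129) (nat_lit 1) (nat_lit 136) (nat_lit 1) (nat_lit 212) (nat_lit 204) (nat_lit 184)) (XT.lf (nat_lit 84) (nat_lit 548141674) (nat_lit 0) (nat_lit 2218500055) (nat_lit 672) (nat_lit 548141674) (nat_lit 130)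 (nat_lit 1) (nat_lit 129) (nat_lit 1) (nat_lit 137) (nat_lit 1) (nat_lit 213) (nat_lit 204) (nat_lit 183))) (XT.nd (nat_lit 94) (nat_lit 0) (nat_lit 0) (XT.lf (nat_lit 588) (nat_lit 688918262) (nat_lit 0) (nat_lit 1287930202) (nat_lit 504) (nat_lit 1287930202) (nat_lit 130) (nat_lit 1) (nat_lit 123) (nat_lit 1) (nat_lit 129) (nat_lit 1) (nat_lit 214) (nat_lit 204) (nat_lit 182)) (XT.lf (nat_lit 84) (nat_lit 143692057) (nat_lit 0) (nat_lit 2928812134) (nat_lit 588) (nat_lit 143692057) (nat_lit 124) (nat_lit 1) (nat_lit 123) (nat_lit 1) (nat_lit 130) (nat_lit 1) (nat_lit 215) (nat_lit 204) (nat_lit 181))))) (XT.nd (nat_lit 282) (nat_lit 924) (nat_lit 0) (XT.nd (nat_lit 94) (nat_lit 504) (nat_lit 0) (XT.lf (nat_lit 84) (nat_lit 1518575436) (nat_lit 0) (nat_lit 130924458) (nat_lit 588) (nat_lit 1518575436) (nat_lit 117) (nat_lit 1) (nat_lit 116) (nat_lit 1) (nat_lit 123) (nat_lit 1) (nat_lit 216)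 (nat_lit 204) (nat_lit 180)) (XT.nd (nat_lit 94) (nat_lit 0) (nat_lit 0) (XT.lf (nat_lit 588) (nat_lit 2587949461) (nat_lit 0) (nat_lit 266681955) (nat_lit 504) (nat_lit 266681955) (nat_lit 117) (nat_lit 1) (nat_lit 110) (nat_lit 1) (nat_lit 116) (nat_lit 1) (nat_lit 217) (nat_lit 204) (nat_lit 179)) (XT.lf (nat_lit 84) (nat_lit 1062046939) (nat_lit 0) (nat_lit 951029619) (nat_lit 588) (nat_lit 1062046939) (nat_lit 111) (nat_lit 1) (nat_lit 110) (nat_lit 1) (nat_lit 117) (nat_lit 1) (nat_lit 218) (nat_lit 204) (nat_lit 178)))) (XT.nd (nat_lit 188) (nat_lit 420) (nat_lit 0) (XT.nd (nat_lit 94) (nat_lit 0) (nat_lit 0) (XT.lf (nat_lit 588) (nat_lit 1665081877) (nat_lit 0) (nat_lit 682523537) (nat_lit 504) (nat_lit 682523537) (nat_lit 111) (nat_lit 1) (nat_lit 104) (nat_lit 1) (nat_lit 110) (nat_lit 1) (nat_lit 219) (nat_lit 204) (nat_lit 177)) (XT.lf (nat_lit 84) (nat_lit 601195044) (nat_lit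 0) (nat_lit 1783616531) (nat_lit 588) (nat_lit 601195044) (nat_lit 105) (nat_lit 1) (nat_lit 104) (nat_lit 1) (nat_lit 111) (nat_lit 1) (nat_lit 220) (nat_lit 204) (nat_lit 176))) (XT.nd (nat_lit 94) (nat_lit 0) (nat_lit 0) (XT.lf (nat_lit 504) (nat_lit 735010490) (nat_lit 0) (nat_lit 1103839109) (nat_lit 420) (nat_lit 1103839109) (nat_lit 105) (nat_lit 1) (nat_lit 99) (nat_lit 1) (nat_lit 104) (nat_lit 1) (nat_lit 221) (nat_lit 204) (nat_lit 175)) (XT.lf (nat_lit 84) (nat_lit 137479883) (nat_lit 0) (nat_lit 2625589254) (nat_lit 504) (nat_lit 137479883) (nat_lit 100) (nat_lit 1) (nat_lit 99) (nat_lit 1) (nat_lit 105) (nat_lit 1) (nat_lit 222) (nat_lit 204) (nat_lit 174))))))))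
noncomputable def ec6 : XT := (XT.nd (nat_lit 36754) (nat_lit 336) (nat_lit 0) (XT.nd (nat_lit 35438) (nat_lit 0) (nat_lit 3360) (XT.nd (nat_lit 34780) (nat_lit 0) (nat_lit 6468) (XT.nd (nat_lit 282) (nat_lit 420) (nat_lit 0) (XT.nd (nat_lit 94) (nat_lit 420) (nat_lit 0) (XT.lf (nat_lit 84) (nat_lit 1331899988) (nat_lit 0) (nat_lit 194944341) (nat_lit 504) (nat_lit 1331899988) (nat_lit 94) (nat_lit 1) (nat_lit 93) (nat_lit 1) (nat_lit 99) (nat_lit 1) (nat_lit 223) (nat_lit 204) (nat_lit 173)) (XT.nd (nat_lit 94) (nat_lit 0) (nat_lit 0) (XT.lf (nat_lit 504) (nat_lit 2169993124) (nat_lit 0) (nat_lit 324038296) (nat_lit 420) (nat_lit 324038296) (nat_lit 94) (nat_lit 1) (nat_lit 88) (nat_lit 1) (nat_lit 93) (nat_lit 1) (nat_lit 224) (nat_lit 204) (nat_lit 172)) (XT.lf (nat_lit 84) (nat_lit 833930211) (nat_lit 0) (nat_lit 1110063920) (nat_lit 504) (nat_lit 833930211) (nat_lit 89) (nat_lit 1) (nat_lit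 88) (nat_lit 1) (nat_lit 94) (nat_lit 1) (nat_lit 225) (nat_lit 204) (nat_lit 171)))) (XT.nd (nat_lit 34310) (nat_lit 0) (nat_lit 6384) (XT.lf (nat_lit 504) (nat_lit 1170052602) (nat_lit 0) (nat_lit 784327989) (nat_lit 420) (nat_lit 784327989) (nat_lit 89) (nat_lit 1) (nat_lit 83) (nat_lit 1) (nat_lit 88) (nat_lit 1) (nat_lit 226) (nat_lit 204) (nat_lit 170)) (XT.nd (nat_lit 94) (nat_lit 0) (nat_lit 0) (XT.lf (nat_lit 1260) (nat_lit 684318199) (nat_lit 0) (nat_lit 1041158888) (nat_lit 1260) (nat_lit 684318199) (nat_lit 174) (nat_lit 1) (nat_lit 159) (nat_lit 0) (nat_lit 174) (nat_lit 0) (nat_lit 190) (nat_lit 205) (nat_lit 205)) (XT.lf (nat_lit 1260) (nat_lit 2679120517) (nat_lit 84) (nat_lit 1029288999) (nat_lit 0) (nat_lit 1029288999) (nat_lit 174) (nat_lit 1) (nat_lit 160) (nat_lit 1) (nat_lit 159) (nat_lit 0) (nat_lit 191) (nat_lit 205) (nat_lit 204))))) (XT.nd (nat_lit 282) (nat_lit 0)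 (nat_lit 84) (XT.nd (nat_lit 94) (nat_lit 0) (nat_lit 0) (XT.lf (nat_lit 1260) (nat_lit 1296019393) (nat_lit 0) (nat_lit 2065492175) (nat_lit 1176) (nat_lit 1296019393) (nat_lit 175) (nat_lit 1) (nat_lit 160) (nat_lit 1) (nat_lit 174) (nat_lit 1) (nat_lit 192) (nat_lit 205) (nat_lit 203)) (XT.nd (nat_lit 94) (nat_lit 0) (nat_lit 84) (XT.lf (nat_lit 1260) (nat_lit 2484353892) (nat_lit 84) (nat_lit 1047462094) (nat_lit 0) (nat_lit 1047462094) (nat_lit 175) (nat_lit 1) (nat_lit 161) (nat_lit 1) (nat_lit 160) (nat_lit 1) (nat_lit 193) (nat_lit 205) (nat_lit 202)) (XT.lf (nat_lit 1260) (nat_lit 1175830317) (nat_lit 0) (nat_lit 2151041961) (nat_lit 1176) (nat_lit 1175830317) (nat_lit 176) (nat_lit 1) (nat_lit 161) (nat_lit 1) (nat_lit 175) (nat_lit 1) (nat_lit 194) (nat_lit 205) (nat_lit 201)))) (XT.nd (nat_lit 188) (nat_lit 0) (nat_lit 84) (XT.nd (nat_lit 94) (nat_lit 0) (nat_lit 84) (XT.lf (nat_lit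 1260) (nat_lit 2198931311) (nat_lit 84) (nat_lit 1114478010) (nat_lit 0) (nat_lit 1114478010) (nat_lit 176) (nat_lit 1) (nat_lit 162) (nat_lit 1) (nat_lit 161) (nat_lit 1) (nat_lit 195) (nat_lit 205) (nat_lit 200)) (XT.lf (nat_lit 1260) (nat_lit 1013004197) (nat_lit 0) (nat_lit 2328736127) (nat_lit 1176) (nat_lit 1013004197) (nat_lit 177) (nat_lit 1) (nat_lit 162) (nat_lit 1) (nat_lit 176) (nat_lit 1) (nat_lit 196) (nat_lit 205) (nat_lit 199))) (XT.nd (nat_lit 94) (nat_lit 0) (nat_lit 84) (XT.lf (nat_lit 1260) (nat_lit 1832384005) (nat_lit 84) (nat_lit 1225396670) (nat_lit 0) (nat_lit 1225396670) (nat_lit 177) (nat_lit 1) (nat_lit 163) (nat_lit 1) (nat_lit 162) (nat_lit 1) (nat_lit 197) (nat_lit 205) (nat_lit 198)) (XT.lf (nat_lit 1260) (nat_lit 812088008) (nat_lit 0) (nat_lit 2589139713) (nat_lit 1176) (nat_lit 812088008) (nat_lit 178) (nat_lit 1) (nat_lit 163) (nat_lit 1) (nat_lit 177) (nat_lit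 1) (nat_lit 198) (nat_lit 205) (nat_lit 197)))))) (XT.nd (nat_lit 658) (nat_lit 2352) (nat_lit 0) (XT.nd (nat_lit 282) (nat_lit 1008) (nat_lit 0) (XT.nd (nat_lit 94) (nat_lit 0) (nat_lit 84) (XT.lf (nat_lit 1260) (nat_lit 1393491000) (nat_lit 84) (nat_lit 1375663698) (nat_lit 0) (nat_lit 1375663698) (nat_lit 178) (nat_lit 1) (nat_lit 164) (nat_lit 1) (nat_lit 163) (nat_lit 1) (nat_lit 199) (nat_lit 205) (nat_lit 196)) (XT.nd (nat_lit 94) (nat_lit 0) (nat_lit 0) (XT.lf (nat_lit 1260) (nat_lit 577268507) (nat_lit 0) (nat_lit 2923556956) (nat_lit 1176) (nat_lit 577268507) (nat_lit 179) (nat_lit 1) (nat_lit 164) (nat_lit 1) (nat_lit 178) (nat_lit 1) (nat_lit 200) (nat_lit 205) (nat_lit 195)) (XT.lf (nat_lit 1260) (nat_lit 890333142) (nat_lit 84) (nat_lit 1561082833) (nat_lit 0) (nat_lit 1561082833) (nat_lit 179) (nat_lit 1) (nat_lit 165) (nat_lit 1) (nat_lit 164) (nat_lit 1) (nat_lit 201) (nat_lit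 205) (nat_lit 194)))) (XT.nd (nat_lit 188) (nat_lit 1176) (nat_lit 0) (XT.nd (nat_lit 94) (nat_lit 0) (nat_lit 0) (XT.lf (nat_lit 1260) (nat_lit 312398134) (nat_lit 0) (nat_lit 3323978365) (nat_lit 1176) (nat_lit 312398134) (nat_lit 180) (nat_lit 1) (nat_lit 165) (nat_lit 1) (nat_lit 179) (nat_lit 1) (nat_lit 202) (nat_lit 205) (nat_lit 193)) (XT.lf (nat_lit 1260) (nat_lit 330343383) (nat_lit 84) (nat_lit 1777790253) (nat_lit 0) (nat_lit 1777790253) (nat_lit 180) (nat_lit 1) (nat_lit 166) (nat_lit 1) (nat_lit 165) (nat_lit 1) (nat_lit 203) (nat_lit 205) (nat_lit 192))) (XT.nd (nat_lit 94) (nat_lit 1260) (nat_lit 0) (XT.lf (nat_lit 84) (nat_lit 21019140) (nat_lit 0) (nat_lit 3783031429) (nat_lit 1176) (nat_lit 21019140) (nat_lit 167) (nat_lit 1) (nat_lit 166) (nat_lit 1) (nat_lit 180) (nat_lit 1) (nat_lit 204) (nat_lit 205) (nat_lit 191)) (XT.lf (nat_lit 84) (nat_lit 1745700129) (nat_lit 0)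 (nat_lit 273305616) (nat_lit 1260) (nat_lit 1745700129) (nat_lit 152) (nat_lit 1) (nat_lit 151) (nat_lit 1) (nat_lit 166) (nat_lit 1) (nat_lit 205) (nat_lit 205) (nat_lit 190))))) (XT.nd (nat_lit 282) (nat_lit 1092) (nat_lit 0) (XT.nd (nat_lit 94) (nat_lit 588) (nat_lit 0) (XT.lf (nat_lit 756) (nat_lit 3125712947) (nat_lit 0) (nat_lit 290266574) (nat_lit 672) (nat_lit 290266574) (nat_lit 152) (nat_lit 1) (nat_lit 143) (nat_lit 1) (nat_lit 151) (nat_lit 1) (nat_lit 206) (nat_lit 205) (nat_lit 189)) (XT.nd (nat_lit 94) (nat_lit 588) (nat_lit 0) (XT.lf (nat_lit 84) (nat_lit 1368172880) (nat_lit 0) (nat_lit 912198507) (nat_lit 756) (nat_lit 1368172880) (nat_lit 144) (nat_lit 1) (nat_lit 143) (nat_lit 1) (nat_lit 152) (nat_lit 1) (nat_lit 207) (nat_lit 205) (nat_lit 188)) (XT.lf (nat_lit 672) (nat_lit 2349745922) (nat_lit 0) (nat_lit 621348053) (nat_lit 588) (nat_lit 621348053) (nat_lit 144) (nat_lit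 1) (nat_lit 136) (nat_lit 1) (nat_lit 143) (nat_lit 1) (nat_lit 208) (nat_lit 205) (nat_lit 187)))) (XT.nd (nat_lit 188) (nat_lit 504) (nat_lit 0) (XT.nd (nat_lit 94) (nat_lit 588) (nat_lit 0) (XT.lf (nat_lit 84) (nat_lit 974560972) (nat_lit 0) (nat_lit 1588198680) (nat_lit 672) (nat_lit 974560972) (nat_lit 137) (nat_lit 1) (nat_lit 136) (nat_lit 1) (nat_lit 144) (nat_lit 1) (nat_lit 209) (nat_lit 205) (nat_lit 186)) (XT.lf (nat_lit 672) (nat_lit 1543939138) (nat_lit 0) (nat_lit 969755897) (nat_lit 588) (nat_lit 969755897) (nat_lit 137) (nat_lit 1) (nat_lit 129) (nat_lit 1) (nat_lit 136) (nat_lit 1) (nat_lit 210) (nat_lit 205) (nat_lit 185))) (XT.nd (nat_lit 94) (nat_lit 504) (nat_lit 0) (XT.lf (nat_lit 84) (nat_lit 567326633) (nat_lit 0) (nat_lit 2296147557) (nat_lit 672) (nat_lit 567326633) (nat_lit 130) (nat_lit 1) (nat_lit 129) (nat_lit 1) (nat_lit 137) (nat_lit 1) (nat_lit 211) (nat_lit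 205) (nat_lit 184)) (XT.lf (nat_lit 588) (nat_lit 713030402) (nat_lit 0) (nat_lit 1333007759) (nat_lit 504) (nat_lit 1333007759) (nat_lit 130) (nat_lit 1) (nat_lit 123) (nat_lit 1) (nat_lit 129) (nat_lit 1) (nat_lit 212) (nat_lit 205) (nat_lit 183))))))) (XT.nd (nat_lit 1222) (nat_lit 336) (nat_lit 0) (XT.nd (nat_lit 564) (nat_lit 1764) (nat_lit 0) (XT.nd (nat_lit 282) (nat_lit 504) (nat_lit 0) (XT.nd (nat_lit 94) (nat_lit 1092) (nat_lit 0) (XT.lf (nat_lit 84) (nat_lit 148721279) (nat_lit 0) (nat_lit 3031320559) (nat_lit 588) (nat_lit 148721279) (nat_lit 124) (nat_lit 1) (nat_lit 123) (nat_lit 1) (nat_lit 130) (nat_lit 1) (nat_lit 213) (nat_lit 205) (nat_lit 182)) (XT.nd (nat_lit 94) (nat_lit 504) (nat_lit 0) (XT.lf (nat_lit 84) (nat_lit 1571725576) (nat_lit 0) (nat_lit 135506814) (nat_lit 588) (nat_lit 1571725576) (nat_lit 117) (nat_lit 1) (nat_lit 116) (nat_lit 1) (nat_lit 123) (nat_lit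 1) (nat_lit 214) (nat_lit 205) (nat_lit 181)) (XT.lf (nat_lit 588) (nat_lit 2678527693) (nat_lit 0) (nat_lit 276015823) (nat_lit 504) (nat_lit 276015823) (nat_lit 117) (nat_lit 1) (nat_lit 110) (nat_lit 1) (nat_lit 116) (nat_lit 1) (nat_lit 215) (nat_lit 205) (nat_lit 180)))) (XT.nd (nat_lit 94) (nat_lit 504) (nat_lit 0) (XT.lf (nat_lit 84) (nat_lit 1099218582) (nat_lit 0) (nat_lit 984315655) (nat_lit 588) (nat_lit 1099218582) (nat_lit 111) (nat_lit 1) (nat_lit 110) (nat_lit 1) (nat_lit 117) (nat_lit 1) (nat_lit 216) (nat_lit 205) (nat_lit 179)) (XT.nd (nat_lit 94) (nat_lit 0) (nat_lit 0) (XT.lf (nat_lit 588) (nat_lit 1723359743) (nat_lit 0) (nat_lit 706411861) (nat_lit 504) (nat_lit 706411861) (nat_lit 111) (nat_lit 1) (nat_lit 104) (nat_lit 1) (nat_lit 110) (nat_lit 1) (nat_lit 217) (nat_lit 205) (nat_lit 178)) (XT.lf (nat_lit 84) (nat_lit 622236870) (nat_lit 0) (nat_lit 1846043110) (nat_lit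 588) (nat_lit 622236870) (nat_lit 105) (nat_lit 1) (nat_lit 104) (nat_lit 1) (nat_lit 111) (nat_lit 1) (nat_lit 218) (nat_lit 205) (nat_lit 177))))) (XT.nd (nat_lit 282) (nat_lit 840) (nat_lit 0) (XT.nd (nat_lit 94) (nat_lit 504) (nat_lit 0) (XT.lf (nat_lit 504) (nat_lit 760735857) (nat_lit 0) (nat_lit 1142473478) (nat_lit 420) (nat_lit 1142473478) (nat_lit 105) (nat_lit 1) (nat_lit 99) (nat_lit 1) (nat_lit 104) (nat_lit 1) (nat_lit 219) (nat_lit 205) (nat_lit 176)) (XT.nd (nat_lit 94) (nat_lit 504) (nat_lit 0) (XT.lf (nat_lit 84) (nat_lit 142291679) (nat_lit 0) (nat_lit 2717484878) (nat_lit 504) (nat_lit 142291679) (nat_lit 100) (nat_lit 1) (nat_lit 99) (nat_lit 1) (nat_lit 105) (nat_lit 1) (nat_lit 220) (nat_lit 205) (nat_lit 175)) (XT.lf (nat_lit 84) (nat_lit 1378516487) (nat_lit 0) (nat_lit 201767393) (nat_lit 504) (nat_lit 1378516487) (nat_lit 94) (nat_lit 1) (nat_lit 93) (nat_lit 1)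 (nat_lit 99) (nat_lit 1) (nat_lit 221) (nat_lit 205) (nat_lit 174)))) (XT.nd (nat_lit 188) (nat_lit 420) (nat_lit 0) (XT.nd (nat_lit 94) (nat_lit 0) (nat_lit 0) (XT.lf (nat_lit 504) (nat_lit 2245942884) (nat_lit 0) (nat_lit 335379636) (nat_lit 420) (nat_lit 335379636) (nat_lit 94) (nat_lit 1) (nat_lit 88) (nat_lit 1) (nat_lit 93) (nat_lit 1) (nat_lit 222) (nat_lit 205) (nat_lit 173)) (XT.lf (nat_lit 84) (nat_lit 863117768) (nat_lit 0) (nat_lit 1148916157) (nat_lit 504) (nat_lit 863117768) (nat_lit 89) (nat_lit 1) (nat_lit 88) (nat_lit 1) (nat_lit 94) (nat_lit 1) (nat_lit 223) (nat_lit 205) (nat_lit 172))) (XT.nd (nat_lit 94) (nat_lit 0) (nat_lit 0) (XT.lf (nat_lit 504) (nat_lit 1211004443) (nat_lit 0) (nat_lit 811779468) (nat_lit 420) (nat_lit 811779468) (nat_lit 89) (nat_lit 1) (nat_lit 83) (nat_lit 1) (nat_lit 88) (nat_lit 1) (nat_lit 224) (nat_lit 205) (nat_lit 171)) (XT.lf (nat_lit 84)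 (nat_lit 349615583) (nat_lit 0) (nat_lit 2095644188) (nat_lit 504) (nat_lit 349615583) (nat_lit 84) (nat_lit 1) (nat_lit 83) (nat_lit 1) (nat_lit 89) (nat_lit 1) (nat_lit 225) (nat_lit 205) (nat_lit 170)))))) (XT.nd (nat_lit 34686) (nat_lit 0) (nat_lit 6972) (XT.nd (nat_lit 34310) (nat_lit 0) (nat_lit 6804) (XT.nd (nat_lit 34122) (nat_lit 0) (nat_lit 6720) (XT.lf (nat_lit 420) (nat_lit 180872525) (nat_lit 0) (nat_lit 1287424489) (nat_lit 336) (nat_lit 1287424489) (nat_lit 84) (nat_lit 1) (nat_lit 79) (nat_lit 1) (nat_lit 83) (nat_lit 1) (nat_lit 226) (nat_lit 205) (nat_lit 169)) (XT.nd (nat_lit 94) (nat_lit 0) (nat_lit 0) (XT.lf (nat_lit 1260) (nat_lit 708269336) (nat_lit 0) (nat_lit 1077599449) (nat_lit 1260) (nat_lit 708269336) (nat_lit 174) (nat_lit 1) (nat_lit 159) (nat_lit 0) (nat_lit 174) (nat_lit 0) (nat_lit 188) (nat_lit 206) (nat_lit 206)) (XT.lf (nat_lit 1260) (nat_lit 2772889735)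 (nat_lit 84) (nat_lit 1065314113) (nat_lit 0) (nat_lit 1065314113) (nat_lit 174) (nat_lit 1) (nat_lit 160) (nat_lit 1) (nat_lit 159) (nat_lit 0) (nat_lit 189) (nat_lit 206) (nat_lit 205)))) (XT.nd (nat_lit 188) (nat_lit 0) (nat_lit 84) (XT.nd (nat_lit 94) (nat_lit 0) (nat_lit 0) (XT.lf (nat_lit 1260) (nat_lit 1341380072) (nat_lit 0) (nat_lit 2137784402) (nat_lit 1176) (nat_lit 1341380072) (nat_lit 175) (nat_lit 1) (nat_lit 160) (nat_lit 1) (nat_lit 174) (nat_lit 1) (nat_lit 190) (nat_lit 206) (nat_lit 204)) (XT.lf (nat_lit 1260) (nat_lit 2571306278) (nat_lit 84) (nat_lit 1084123268) (nat_lit 0) (nat_lit 1084123268) (nat_lit 175) (nat_lit 1) (nat_lit 161) (nat_lit 1) (nat_lit 160) (nat_lit 1) (nat_lit 191) (nat_lit 206) (nat_lit 203))) (XT.nd (nat_lit 94) (nat_lit 0) (nat_lit 0) (XT.lf (nat_lit 1260) (nat_lit 1216984379) (nat_lit 0) (nat_lit 2226328430) (nat_lit 1176) (nat_lit 1216984379) (nat_lit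 176) (nat_lit 1) (nat_lit 161) (nat_lit 1) (nat_lit 175) (nat_lit 1) (nat_lit 192) (nat_lit 206) (nat_lit 202)) (XT.lf (nat_lit 1260) (nat_lit 2275893907) (nat_lit 84) (nat_lit 1153484740) (nat_lit 0) (nat_lit 1153484740) (nat_lit 176) (nat_lit 1) (nat_lit 162) (nat_lit 1) (nat_lit 161) (nat_lit 1) (nat_lit 193) (nat_lit 206) (nat_lit 201))))) (XT.nd (nat_lit 282) (nat_lit 0) (nat_lit 84) (XT.nd (nat_lit 94) (nat_lit 0) (nat_lit 0) (XT.lf (nat_lit 1260) (nat_lit 1048459344) (nat_lit 0) (nat_lit 2410241892) (nat_lit 1176) (nat_lit 1048459344) (nat_lit 177) (nat_lit 1) (nat_lit 162) (nat_lit 1) (nat_lit 176) (nat_lit 1) (nat_lit 194) (nat_lit 206) (nat_lit 200)) (XT.nd (nat_lit 94) (nat_lit 0) (nat_lit 84) (XT.lf (nat_lit 1260) (nat_lit 1896517445) (nat_lit 84) (nat_lit 1268285554) (nat_lit 0) (nat_lit 1268285554) (nat_lit 177) (nat_lit 1) (nat_lit 163) (nat_lit 1) (nat_lit 162) (nat_lit 1)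 (nat_lit 195) (nat_lit 206) (nat_lit 199)) (XT.lf (nat_lit 1260) (nat_lit 840511089) (nat_lit 0) (nat_lit 2679759603) (nat_lit 1176) (nat_lit 840511089) (nat_lit 178) (nat_lit 1) (nat_lit 163) (nat_lit 1) (nat_lit 177) (nat_lit 1) (nat_lit 196) (nat_lit 206) (nat_lit 198)))) (XT.nd (nat_lit 188) (nat_lit 0) (nat_lit 84) (XT.nd (nat_lit 94) (nat_lit 0) (nat_lit 84) (XT.lf (nat_lit 1260) (nat_lit 1442263186) (nat_lit 84) (nat_lit 1423811927) (nat_lit 0) (nat_lit 1423811927) (nat_lit 178) (nat_lit 1) (nat_lit 164) (nat_lit 1) (nat_lit 163) (nat_lit 1) (nat_lit 197) (nat_lit 206) (nat_lit 197)) (XT.lf (nat_lit 1260) (nat_lit 597472904) (nat_lit 0) (nat_lit 3025881450) (nat_lit 1176) (nat_lit 597472904) (nat_lit 179) (nat_lit 1) (nat_lit 164) (nat_lit 1) (nat_lit 178) (nat_lit 1) (nat_lit 198) (nat_lit 206) (nat_lit 196))) (XT.nd (nat_lit 94) (nat_lit 0) (nat_lit 84) (XT.lf (nat_lit 1260) (nat_lit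 921494802) (nat_lit 84) (nat_lit 1615720732) (nat_lit 0) (nat_lit 1615720732) (nat_lit 179) (nat_lit 1) (nat_lit 165) (nat_lit 1) (nat_lit 164) (nat_lit 1) (nat_lit 199) (nat_lit 206) (nat_lit 195)) (XT.lf (nat_lit 1260) (nat_lit 323332069) (nat_lit 0) (nat_lit 3440317608) (nat_lit 1176) (nat_lit 323332069) (nat_lit 180) (nat_lit 1) (nat_lit 165) (nat_lit 1) (nat_lit 179) (nat_lit 1) (nat_lit 200) (nat_lit 206) (nat_lit 194))))))))
noncomputable def ec7 : XT := (XT.nd (nat_lit 36378) (nat_lit 0) (nat_lit 2604) (XT.nd (nat_lit 1222) (nat_lit 3108) (nat_lit 0) (XT.nd (nat_lit 564) (nat_lit 2184) (nat_lit 0) (XT.nd (nat_lit 282) (nat_lit 1260) (nat_lit 0) (XT.nd (nat_lit 94) (nat_lit 1176) (nat_lit 0) (XT.lf (nat_lit 1260) (nat_lit 341905401) (nat_lit 84) (nat_lit 1840012912) (nat_lit 0) (nat_lit 1840012912) (nat_lit 180) (nat_lit 1) (nat_lit 166) (nat_lit 1) (nat_lit 165) (nat_lit 1) (nat_lit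 201) (nat_lit 206) (nat_lit 193)) (XT.nd (nat_lit 94) (nat_lit 1260) (nat_lit 0) (XT.lf (nat_lit 84) (nat_lit 21754810) (nat_lit 0) (nat_lit 3915437529) (nat_lit 1176) (nat_lit 21754810) (nat_lit 167) (nat_lit 1) (nat_lit 166) (nat_lit 1) (nat_lit 180) (nat_lit 1) (nat_lit 202) (nat_lit 206) (nat_lit 192)) (XT.lf (nat_lit 84) (nat_lit 1806799634) (nat_lit 0) (nat_lit 282871313) (nat_lit 1260) (nat_lit 1806799634) (nat_lit 152) (nat_lit 1) (nat_lit 151) (nat_lit 1) (nat_lit 166) (nat_lit 1) (nat_lit 203) (nat_lit 206) (nat_lit 191)))) (XT.nd (nat_lit 94) (nat_lit 588) (nat_lit 0) (XT.lf (nat_lit 756) (nat_lit 3235112900) (nat_lit 0) (nat_lit 300425904) (nat_lit 672) (nat_lit 300425904) (nat_lit 152) (nat_lit 1) (nat_lit 143) (nat_lit 1) (nat_lit 151) (nat_lit 1) (nat_lit 204) (nat_lit 206) (nat_lit 190)) (XT.nd (nat_lit 94) (nat_lit 588) (nat_lit 0) (XT.lf (nat_lit 84) (nat_lit 1416058931)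 (nat_lit 0) (nat_lit 944125455) (nat_lit 756) (nat_lit 1416058931) (nat_lit 144) (nat_lit 1) (nat_lit 143) (nat_lit 1) (nat_lit 152) (nat_lit 1) (nat_lit 205) (nat_lit 206) (nat_lit 189)) (XT.lf (nat_lit 672) (nat_lit 2431987030) (nat_lit 0) (nat_lit 643095235) (nat_lit 588) (nat_lit 643095235) (nat_lit 144) (nat_lit 1) (nat_lit 136) (nat_lit 1) (nat_lit 143) (nat_lit 1) (nat_lit 206) (nat_lit 206) (nat_lit 188))))) (XT.nd (nat_lit 282) (nat_lit 1596) (nat_lit 0) (XT.nd (nat_lit 94) (nat_lit 588) (nat_lit 0) (XT.lf (nat_lit 84) (nat_lit 1008670606) (nat_lit 0) (nat_lit 1643785634) (nat_lit 672) (nat_lit 1008670606) (nat_lit 137) (nat_lit 1) (nat_lit 136) (nat_lit 1) (nat_lit 144) (nat_lit 1) (nat_lit 207) (nat_lit 206) (nat_lit 187)) (XT.nd (nat_lit 94) (nat_lit 0) (nat_lit 0) (XT.lf (nat_lit 672) (nat_lit 1597977008) (nat_lit 0) (nat_lit 1003697353) (nat_lit 588) (nat_lit 1003697353) (nat_lit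 137) (nat_lit 1) (nat_lit 129) (nat_lit 1) (nat_lit 136) (nat_lit 1) (nat_lit 208) (nat_lit 206) (nat_lit 186)) (XT.lf (nat_lit 84) (nat_lit 587183065) (nat_lit 0) (nat_lit 2376512721) (nat_lit 672) (nat_lit 587183065) (nat_lit 130) (nat_lit 1) (nat_lit 129) (nat_lit 1) (nat_lit 137) (nat_lit 1) (nat_lit 209) (nat_lit 206) (nat_lit 185)))) (XT.nd (nat_lit 188) (nat_lit 1092) (nat_lit 0) (XT.nd (nat_lit 94) (nat_lit 0) (nat_lit 0) (XT.lf (nat_lit 588) (nat_lit 737986466) (nat_lit 0) (nat_lit 1379663030) (nat_lit 504) (nat_lit 1379663030) (nat_lit 130) (nat_lit 1) (nat_lit 123) (nat_lit 1) (nat_lit 129) (nat_lit 1) (nat_lit 210) (nat_lit 206) (nat_lit 184)) (XT.lf (nat_lit 84) (nat_lit 153926524) (nat_lit 0) (nat_lit 3137416778) (nat_lit 588) (nat_lit 153926524) (nat_lit 124) (nat_lit 1) (nat_lit 123) (nat_lit 1) (nat_lit 130) (nat_lit 1) (nat_lit 211) (nat_lit 206) (nat_lit 183))) (XT.nd (nat_lit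 94) (nat_lit 504) (nat_lit 0) (XT.lf (nat_lit 84) (nat_lit 1626735971) (nat_lit 0) (nat_lit 140249553) (nat_lit 588) (nat_lit 1626735971) (nat_lit 117) (nat_lit 1) (nat_lit 116) (nat_lit 1) (nat_lit 123) (nat_lit 1) (nat_lit 212) (nat_lit 206) (nat_lit 182)) (XT.lf (nat_lit 588) (nat_lit 2772276162) (nat_lit 0) (nat_lit 285676377) (nat_lit 504) (nat_lit 285676377) (nat_lit 117) (nat_lit 1) (nat_lit 110) (nat_lit 1) (nat_lit 116) (nat_lit 1) (nat_lit 213) (nat_lit 206) (nat_lit 181)))))) (XT.nd (nat_lit 658) (nat_lit 1260) (nat_lit 0) (XT.nd (nat_lit 282) (nat_lit 1344) (nat_lit 0) (XT.nd (nat_lit 94) (nat_lit 504) (nat_lit 0) (XT.lf (nat_lit 84) (nat_lit 1137691233) (nat_lit 0) (nat_lit 1018766703) (nat_lit 588) (nat_lit 1137691233) (nat_lit 111) (nat_lit 1) (nat_lit 110) (nat_lit 1) (nat_lit 117) (nat_lit 1) (nat_lit 214) (nat_lit 206) (nat_lit 180)) (XT.nd (nat_lit 94) (nat_lit 0) (nat_lit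 0) (XT.lf (nat_lit 588) (nat_lit 1783677334) (nat_lit 0) (nat_lit 731136276) (nat_lit 504) (nat_lit 731136276) (nat_lit 111) (nat_lit 1) (nat_lit 104) (nat_lit 1) (nat_lit 110) (nat_lit 1) (nat_lit 215) (nat_lit 206) (nat_lit 179)) (XT.lf (nat_lit 84) (nat_lit 644015161) (nat_lit 0) (nat_lit 1910654618) (nat_lit 588) (nat_lit 644015161) (nat_lit 105) (nat_lit 1) (nat_lit 104) (nat_lit 1) (nat_lit 111) (nat_lit 1) (nat_lit 216) (nat_lit 206) (nat_lit 178)))) (XT.nd (nat_lit 188) (nat_lit 924) (nat_lit 0) (XT.nd (nat_lit 94) (nat_lit 0) (nat_lit 0) (XT.lf (nat_lit 504) (nat_lit 787361612) (nat_lit 0) (nat_lit 1182460050) (nat_lit 420) (nat_lit 1182460050) (nat_lit 105) (nat_lit 1) (nat_lit 99) (nat_lit 1) (nat_lit 104) (nat_lit 1) (nat_lit 217) (nat_lit 206) (nat_lit 177)) (XT.lf (nat_lit 84) (nat_lit 147271888) (nat_lit 0) (nat_lit 2812596849) (nat_lit 504) (nat_lit 147271888) (nat_lit 100)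 (nat_lit 1) (nat_lit 99) (nat_lit 1) (nat_lit 105) (nat_lit 1) (nat_lit 218) (nat_lit 206) (nat_lit 176))) (XT.nd (nat_lit 94) (nat_lit 420) (nat_lit 0) (XT.lf (nat_lit 84) (nat_lit 1426764565) (nat_lit 0) (nat_lit 208829252) (nat_lit 504) (nat_lit 1426764565) (nat_lit 94) (nat_lit 1) (nat_lit 93) (nat_lit 1) (nat_lit 99) (nat_lit 1) (nat_lit 219) (nat_lit 206) (nat_lit 175)) (XT.lf (nat_lit 504) (nat_lit 2324550885) (nat_lit 0) (nat_lit 347117924) (nat_lit 420) (nat_lit 347117924) (nat_lit 94) (nat_lit 1) (nat_lit 88) (nat_lit 1) (nat_lit 93) (nat_lit 1) (nat_lit 220) (nat_lit 206) (nat_lit 174))))) (XT.nd (nat_lit 282) (nat_lit 840) (nat_lit 0) (XT.nd (nat_lit 94) (nat_lit 420) (nat_lit 0) (XT.lf (nat_lit 84) (nat_lit 893326890) (nat_lit 0) (nat_lit 1189128223) (nat_lit 504) (nat_lit 893326890) (nat_lit 89) (nat_lit 1) (nat_lit 88) (nat_lit 1) (nat_lit 94) (nat_lit 1) (nat_lit 221) (nat_lit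 206) (nat_lit 173)) (XT.nd (nat_lit 94) (nat_lit 0) (nat_lit 0) (XT.lf (nat_lit 504) (nat_lit 1253389598) (nat_lit 0) (nat_lit 840191750) (nat_lit 420) (nat_lit 840191750) (nat_lit 89) (nat_lit 1) (nat_lit 83) (nat_lit 1) (nat_lit 88) (nat_lit 1) (nat_lit 222) (nat_lit 206) (nat_lit 172)) (XT.lf (nat_lit 84) (nat_lit 361852129) (nat_lit 0) (nat_lit 2168991734) (nat_lit 504) (nat_lit 361852129) (nat_lit 84) (nat_lit 1) (nat_lit 83) (nat_lit 1) (nat_lit 89) (nat_lit 1) (nat_lit 223) (nat_lit 206) (nat_lit 171)))) (XT.nd (nat_lit 188) (nat_lit 0) (nat_lit 0) (XT.nd (nat_lit 94) (nat_lit 504) (nat_lit 0) (XT.lf (nat_lit 420) (nat_lit 187203064) (nat_lit 0) (nat_lit 1332484347) (nat_lit 336) (nat_lit 1332484347) (nat_lit 84) (nat_lit 1) (nat_lit 79) (nat_lit 1) (nat_lit 83) (nat_lit 1) (nat_lit 224) (nat_lit 206) (nat_lit 170)) (XT.lf (nat_lit 504) (nat_lit 2483168975) (nat_lit 0) (nat_lit 164757212)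 (nat_lit 420) (nat_lit 164757212) (nat_lit 79) (nat_lit 1) (nat_lit 73) (nat_lit 1) (nat_lit 78) (nat_lit 1) (nat_lit 225) (nat_lit 206) (nat_lit 169))) (XT.nd (nat_lit 33934) (nat_lit 0) (nat_lit 7224) (XT.lf (nat_lit 84) (nat_lit 960583212) (nat_lit 0) (nat_lit 852325064) (nat_lit 504) (nat_lit 960583212) (nat_lit 74) (nat_lit 1) (nat_lit 73) (nat_lit 1) (nat_lit 79) (nat_lit 1) (nat_lit 226) (nat_lit 206) (nat_lit 168)) (XT.lf (nat_lit 1260) (nat_lit 733058763) (nat_lit 0) (nat_lit 1115315430) (nat_lit 1260) (nat_lit 733058763) (nat_lit 174) (nat_lit 1) (nat_lit 159) (nat_lit 0) (nat_lit 174) (nat_lit 0) (nat_lit 186) (nat_lit 207) (nat_lit 207))))))) (XT.nd (nat_lit 1316) (nat_lit 4620) (nat_lit 0) (XT.nd (nat_lit 658) (nat_lit 0) (nat_lit 336) (XT.nd (nat_lit 282) (nat_lit 0) (nat_lit 168) (XT.nd (nat_lit 94) (nat_lit 0) (nat_lit 84) (XT.lf (nat_lit 1260) (nat_lit 2869940876) (nat_lit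 84) (nat_lit 1102600107) (nat_lit 0) (nat_lit 1102600107) (nat_lit 174) (nat_lit 1) (nat_lit 160) (nat_lit 1) (nat_lit 159) (nat_lit 0) (nat_lit 187) (nat_lit 207) (nat_lit 206)) (XT.nd (nat_lit 94) (nat_lit 0) (nat_lit 0) (XT.lf (nat_lit 1260) (nat_lit 1388328374) (nat_lit 0) (nat_lit 2212606856) (nat_lit 1176) (nat_lit 1388328374) (nat_lit 175) (nat_lit 1) (nat_lit 160) (nat_lit 1) (nat_lit 174) (nat_lit 1) (nat_lit 188) (nat_lit 207) (nat_lit 205)) (XT.lf (nat_lit 1260) (nat_lit 2661301998) (nat_lit 84) (nat_lit 1122067582) (nat_lit 0) (nat_lit 1122067582) (nat_lit 175) (nat_lit 1) (nat_lit 161) (nat_lit 1) (nat_lit 160) (nat_lit 1) (nat_lit 189) (nat_lit 207) (nat_lit 204)))) (XT.nd (nat_lit 188) (nat_lit 0) (nat_lit 84) (XT.nd (nat_lit 94) (nat_lit 0) (nat_lit 0) (XT.lf (nat_lit 1260) (nat_lit 1259578832) (nat_lit 0) (nat_lit 2304249925) (nat_lit 1176) (nat_lit 1259578832) (nat_lit 176)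 (nat_lit 1) (nat_lit 161) (nat_lit 1) (nat_lit 175) (nat_lit 1) (nat_lit 190) (nat_lit 207) (nat_lit 203)) (XT.lf (nat_lit 1260) (nat_lit 2355550193) (nat_lit 84) (nat_lit 1193856706) (nat_lit 0) (nat_lit 1193856706) (nat_lit 176) (nat_lit 1) (nat_lit 162) (nat_lit 1) (nat_lit 161) (nat_lit 1) (nat_lit 191) (nat_lit 207) (nat_lit 202))) (XT.nd (nat_lit 94) (nat_lit 0) (nat_lit 0) (XT.lf (nat_lit 1260) (nat_lit 1085155421) (nat_lit 0) (nat_lit 2494600358) (nat_lit 1176) (nat_lit 1085155421) (nat_lit 177) (nat_lit 1) (nat_lit 162) (nat_lit 1) (nat_lit 176) (nat_lit 1) (nat_lit 192) (nat_lit 207) (nat_lit 201)) (XT.lf (nat_lit 1260) (nat_lit 1962895555) (nat_lit 84) (nat_lit 1312675548) (nat_lit 0) (nat_lit 1312675548) (nat_lit 177) (nat_lit 1) (nat_lit 163) (nat_lit 1) (nat_lit 162) (nat_lit 1) (nat_lit 193) (nat_lit 207) (nat_lit 200))))) (XT.nd (nat_lit 282) (nat_lit 0) (nat_lit 84) (XT.nd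 (nat_lit 94) (nat_lit 0) (nat_lit 0) (XT.lf (nat_lit 1260) (nat_lit 869928977) (nat_lit 0) (nat_lit 2773551189) (nat_lit 1176) (nat_lit 869928977) (nat_lit 178) (nat_lit 1) (nat_lit 163) (nat_lit 1) (nat_lit 177) (nat_lit 1) (nat_lit 194) (nat_lit 207) (nat_lit 199)) (XT.nd (nat_lit 94) (nat_lit 0) (nat_lit 84) (XT.lf (nat_lit 1260) (nat_lit 1492742397) (nat_lit 84) (nat_lit 1473645344) (nat_lit 0) (nat_lit 1473645344) (nat_lit 178) (nat_lit 1) (nat_lit 164) (nat_lit 1) (nat_lit 163) (nat_lit 1) (nat_lit 195) (nat_lit 207) (nat_lit 198)) (XT.lf (nat_lit 1260) (nat_lit 618384456) (nat_lit 0) (nat_lit 3131787301) (nat_lit 1176) (nat_lit 618384456) (nat_lit 179) (nat_lit 1) (nat_lit 164) (nat_lit 1) (nat_lit 178) (nat_lit 1) (nat_lit 196) (nat_lit 207) (nat_lit 197)))) (XT.nd (nat_lit 188) (nat_lit 0) (nat_lit 84) (XT.nd (nat_lit 94) (nat_lit 0) (nat_lit 84) (XT.lf (nat_lit 1260) (nat_lit 953747120)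 (nat_lit 84) (nat_lit 1672270958) (nat_lit 0) (nat_lit 1672270958) (nat_lit 179) (nat_lit 1) (nat_lit 165) (nat_lit 1) (nat_lit 164) (nat_lit 1) (nat_lit 197) (nat_lit 207) (nat_lit 196)) (XT.lf (nat_lit 1260) (nat_lit 334648691) (nat_lit 0) (nat_lit 3560728724) (nat_lit 1176) (nat_lit 334648691) (nat_lit 180) (nat_lit 1) (nat_lit 165) (nat_lit 1) (nat_lit 179) (nat_lit 1) (nat_lit 198) (nat_lit 207) (nat_lit 195))) (XT.nd (nat_lit 94) (nat_lit 0) (nat_lit 84) (XT.lf (nat_lit 1260) (nat_lit 353872090) (nat_lit 84) (nat_lit 1904413364) (nat_lit 0) (nat_lit 1904413364) (nat_lit 180) (nat_lit 1) (nat_lit 166) (nat_lit 1) (nat_lit 165) (nat_lit 1) (nat_lit 199) (nat_lit 207) (nat_lit 194)) (XT.lf (nat_lit 84) (nat_lit 22516228) (nat_lit 0) (nat_lit 4052477843) (nat_lit 1176) (nat_lit 22516228) (nat_lit 167) (nat_lit 1) (nat_lit 166) (nat_lit 1) (nat_lit 180) (nat_lit 1) (nat_lit 200) (nat_lit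 207) (nat_lit 193)))))) (XT.nd (nat_lit 658) (nat_lit 2100) (nat_lit 0) (XT.nd (nat_lit 282) (nat_lit 1176) (nat_lit 0) (XT.nd (nat_lit 94) (nat_lit 672) (nat_lit 0) (XT.lf (nat_lit 84) (nat_lit 1870037621) (nat_lit 0) (nat_lit 292771809) (nat_lit 1260) (nat_lit 1870037621) (nat_lit 152) (nat_lit 1) (nat_lit 151) (nat_lit 1) (nat_lit 166) (nat_lit 1) (nat_lit 201) (nat_lit 207) (nat_lit 192)) (XT.nd (nat_lit 94) (nat_lit 0) (nat_lit 0) (XT.lf (nat_lit 756) (nat_lit 3348341852) (nat_lit 0) (nat_lit 310940811) (nat_lit 672) (nat_lit 310940811) (nat_lit 152) (nat_lit 1) (nat_lit 143) (nat_lit 1) (nat_lit 151) (nat_lit 1) (nat_lit 202) (nat_lit 207) (nat_lit 191)) (XT.lf (nat_lit 84) (nat_lit 1465620993) (nat_lit 0) (nat_lit 977169846) (nat_lit 756) (nat_lit 1465620993) (nat_lit 144) (nat_lit 1) (nat_lit 143) (nat_lit 1) (nat_lit 152) (nat_lit 1) (nat_lit 203) (nat_lit 207) (nat_lit 190)))) (XT.nd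 (nat_lit 188) (nat_lit 588) (nat_lit 0) (XT.nd (nat_lit 94) (nat_lit 0) (nat_lit 0) (XT.lf (nat_lit 672) (nat_lit 2517106576) (nat_lit 0) (nat_lit 665603568) (nat_lit 588) (nat_lit 665603568) (nat_lit 144) (nat_lit 1) (nat_lit 136) (nat_lit 1) (nat_lit 143) (nat_lit 1) (nat_lit 204) (nat_lit 207) (nat_lit 189)) (XT.lf (nat_lit 84) (nat_lit 1043974077) (nat_lit 0) (nat_lit 1701318131) (nat_lit 672) (nat_lit 1043974077) (nat_lit 137) (nat_lit 1) (nat_lit 136) (nat_lit 1) (nat_lit 144) (nat_lit 1) (nat_lit 205) (nat_lit 207) (nat_lit 188))) (XT.nd (nat_lit 94) (nat_lit 0) (nat_lit 0) (XT.lf (nat_lit 672) (nat_lit 1653906204) (nat_lit 0) (nat_lit 1038826761) (nat_lit 588) (nat_lit 1038826761) (nat_lit 137) (nat_lit 1) (nat_lit 129) (nat_lit 1) (nat_lit 136) (nat_lit 1) (nat_lit 206) (nat_lit 207) (nat_lit 187)) (XT.lf (nat_lit 84) (nat_lit 607734472) (nat_lit 0) (nat_lit 2459690666) (nat_lit 672)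 (nat_lit 607734472) (nat_lit 130) (nat_lit 1) (nat_lit 129) (nat_lit 1) (nat_lit 137) (nat_lit 1) (nat_lit 207) (nat_lit 207) (nat_lit 186))))) (XT.nd (nat_lit 282) (nat_lit 1008) (nat_lit 0) (XT.nd (nat_lit 94) (nat_lit 588) (nat_lit 0) (XT.lf (nat_lit 588) (nat_lit 763815992) (nat_lit 0) (nat_lit 1427951236) (nat_lit 504) (nat_lit 1427951236) (nat_lit 130) (nat_lit 1) (nat_lit 123) (nat_lit 1) (nat_lit 129) (nat_lit 1) (nat_lit 208) (nat_lit 207) (nat_lit 185)) (XT.nd (nat_lit 94) (nat_lit 588) (nat_lit 0) (XT.lf (nat_lit 84) (nat_lit 159313952) (nat_lit 0) (nat_lit 3247226366) (nat_lit 588) (nat_lit 159313952) (nat_lit 124) (nat_lit 1) (nat_lit 123) (nat_lit 1) (nat_lit 130) (nat_lit 1) (nat_lit 209) (nat_lit 207) (nat_lit 184)) (XT.lf (nat_lit 84) (nat_lit 1683671730) (nat_lit 0) (nat_lit 145158287) (nat_lit 588) (nat_lit 1683671730) (nat_lit 117) (nat_lit 1) (nat_lit 116) (nat_lit 1)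 (nat_lit 123) (nat_lit 1) (nat_lit 210) (nat_lit 207) (nat_lit 183)))) (XT.nd (nat_lit 188) (nat_lit 504) (nat_lit 0) (XT.nd (nat_lit 94) (nat_lit 0) (nat_lit 0) (XT.lf (nat_lit 588) (nat_lit 2869305828) (nat_lit 0) (nat_lit 295675050) (nat_lit 504) (nat_lit 295675050) (nat_lit 117) (nat_lit 1) (nat_lit 110) (nat_lit 1) (nat_lit 116) (nat_lit 1) (nat_lit 211) (nat_lit 207) (nat_lit 182)) (XT.lf (nat_lit 84) (nat_lit 1177510426) (nat_lit 0) (nat_lit 1054423538) (nat_lit 588) (nat_lit 1177510426) (nat_lit 111) (nat_lit 1) (nat_lit 110) (nat_lit 1) (nat_lit 117) (nat_lit 1) (nat_lit 212) (nat_lit 207) (nat_lit 181))) (XT.nd (nat_lit 94) (nat_lit 0) (nat_lit 0) (XT.lf (nat_lit 588) (nat_lit 1846106041) (nat_lit 0) (nat_lit 756726045) (nat_lit 504) (nat_lit 756726045) (nat_lit 111) (nat_lit 1) (nat_lit 104) (nat_lit 1) (nat_lit 110) (nat_lit 1) (nat_lit 213) (nat_lit 207) (nat_lit 180)) (XT.lf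 (nat_lit 84) (nat_lit 666555691) (nat_lit 0) (nat_lit 1977527530) (nat_lit 588) (nat_lit 666555691) (nat_lit 105) (nat_lit 1) (nat_lit 104) (nat_lit 1) (nat_lit 111) (nat_lit 1) (nat_lit 214) (nat_lit 207) (nat_lit 179))))))))
noncomputable def ec8 : XT := (XT.nd (nat_lit 36284) (nat_lit 336) (nat_lit 0) (XT.nd (nat_lit 34968) (nat_lit 0) (nat_lit 6888) (XT.nd (nat_lit 564) (nat_lit 1176) (nat_lit 0) (XT.nd (nat_lit 282) (nat_lit 840) (nat_lit 0) (XT.nd (nat_lit 94) (nat_lit 504) (nat_lit 0) (XT.lf (nat_lit 504) (nat_lit 814919269) (nat_lit 0) (nat_lit 1223846152) (nat_lit 420) (nat_lit 1223846152) (nat_lit 105) (nat_lit 1) (nat_lit 99) (nat_lit 1) (nat_lit 104) (nat_lit 1) (nat_lit 215) (nat_lit 207) (nat_lit 178)) (XT.nd (nat_lit 94) (nat_lit 504) (nat_lit 0) (XT.lf (nat_lit 84) (nat_lit 152426404) (nat_lit 0) (nat_lit 2911037739) (nat_lit 504) (nat_lit 152426404) (nat_lit 100) (nat_lit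 1) (nat_lit 99) (nat_lit 1) (nat_lit 105) (nat_lit 1) (nat_lit 216) (nat_lit 207) (nat_lit 177)) (XT.lf (nat_lit 84) (nat_lit 1476701324) (nat_lit 0) (nat_lit 216138275) (nat_lit 504) (nat_lit 1476701324) (nat_lit 94) (nat_lit 1) (nat_lit 93) (nat_lit 1) (nat_lit 99) (nat_lit 1) (nat_lit 217) (nat_lit 207) (nat_lit 176)))) (XT.nd (nat_lit 94) (nat_lit 420) (nat_lit 0) (XT.lf (nat_lit 504) (nat_lit 2405910166) (nat_lit 0) (nat_lit 359267051) (nat_lit 420) (nat_lit 359267051) (nat_lit 94) (nat_lit 1) (nat_lit 88) (nat_lit 1) (nat_lit 93) (nat_lit 1) (nat_lit 218) (nat_lit 207) (nat_lit 175)) (XT.nd (nat_lit 94) (nat_lit 420) (nat_lit 0) (XT.lf (nat_lit 84) (nat_lit 924593332) (nat_lit 0) (nat_lit 1230747711) (nat_lit 504) (nat_lit 924593332) (nat_lit 89) (nat_lit 1) (nat_lit 88) (nat_lit 1) (nat_lit 94) (nat_lit 1) (nat_lit 219) (nat_lit 207) (nat_lit 174)) (XT.lf (nat_lit 504) (nat_lit 1297258234)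 (nat_lit 0) (nat_lit 869598461) (nat_lit 420) (nat_lit 869598461) (nat_lit 89) (nat_lit 1) (nat_lit 83) (nat_lit 1) (nat_lit 88) (nat_lit 1) (nat_lit 220) (nat_lit 207) (nat_lit 173))))) (XT.nd (nat_lit 282) (nat_lit 336) (nat_lit 0) (XT.nd (nat_lit 94) (nat_lit 840) (nat_lit 0) (XT.lf (nat_lit 84) (nat_lit 374516953) (nat_lit 0) (nat_lit 2244906445) (nat_lit 504) (nat_lit 374516953) (nat_lit 84) (nat_lit 1) (nat_lit 83) (nat_lit 1) (nat_lit 89) (nat_lit 1) (nat_lit 221) (nat_lit 207) (nat_lit 172)) (XT.nd (nat_lit 94) (nat_lit 504) (nat_lit 0) (XT.lf (nat_lit 420) (nat_lit 193755171) (nat_lit 0) (nat_lit 1379121299) (nat_lit 336) (nat_lit 1379121299) (nat_lit 84) (nat_lit 1) (nat_lit 79) (nat_lit 1) (nat_lit 83) (nat_lit 1) (nat_lit 222) (nat_lit 207) (nat_lit 171)) (XT.lf (nat_lit 504) (nat_lit 2570079889) (nat_lit 0) (nat_lit 170523715) (nat_lit 420) (nat_lit 170523715) (nat_lit 79) (nat_lit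 1) (nat_lit 73) (nat_lit 1) (nat_lit 78) (nat_lit 1) (nat_lit 223) (nat_lit 207) (nat_lit 170)))) (XT.nd (nat_lit 33934) (nat_lit 0) (nat_lit 7560) (XT.nd (nat_lit 94) (nat_lit 336) (nat_lit 0) (XT.lf (nat_lit 84) (nat_lit 994203624) (nat_lit 0) (nat_lit 882156441) (nat_lit 504) (nat_lit 994203624) (nat_lit 74) (nat_lit 1) (nat_lit 73) (nat_lit 1) (nat_lit 79) (nat_lit 1) (nat_lit 224) (nat_lit 207) (nat_lit 169)) (XT.lf (nat_lit 420) (nat_lit 1416347539) (nat_lit 0) (nat_lit 707342070) (nat_lit 336) (nat_lit 707342070) (nat_lit 74) (nat_lit 1) (nat_lit 69) (nat_lit 1) (nat_lit 73) (nat_lit 1) (nat_lit 225) (nat_lit 207) (nat_lit 168))) (XT.nd (nat_lit 94) (nat_lit 0) (nat_lit 0) (XT.lf (nat_lit 1260) (nat_lit 758715819) (nat_lit 0) (nat_lit 1154351470) (nat_lit 1260) (nat_lit 758715819) (nat_lit 174) (nat_lit 1) (nat_lit 159) (nat_lit 0) (nat_lit 174) (nat_lit 0) (nat_lit 184) (nat_lit 208)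 (nat_lit 208)) (XT.lf (nat_lit 1260) (nat_lit 2970388807) (nat_lit 84) (nat_lit 1141191111) (nat_lit 0) (nat_lit 1141191111) (nat_lit 174) (nat_lit 1) (nat_lit 160) (nat_lit 1) (nat_lit 159) (nat_lit 0) (nat_lit 185) (nat_lit 208) (nat_lit 207)))))) (XT.nd (nat_lit 658) (nat_lit 756) (nat_lit 0) (XT.nd (nat_lit 282) (nat_lit 0) (nat_lit 84) (XT.nd (nat_lit 94) (nat_lit 0) (nat_lit 0) (XT.lf (nat_lit 1260) (nat_lit 1436919867) (nat_lit 0) (nat_lit 2290048096) (nat_lit 1176) (nat_lit 1436919867) (nat_lit 175) (nat_lit 1) (nat_lit 160) (nat_lit 1) (nat_lit 174) (nat_lit 1) (nat_lit 186) (nat_lit 208) (nat_lit 206)) (XT.nd (nat_lit 94) (nat_lit 0) (nat_lit 84) (XT.lf (nat_lit 1260) (nat_lit 2754447568) (nat_lit 84) (nat_lit 1161339947) (nat_lit 0) (nat_lit 1161339947) (nat_lit 175) (nat_lit 1) (nat_lit 161) (nat_lit 1) (nat_lit 160) (nat_lit 1) (nat_lit 187) (nat_lit 208) (nat_lit 205)) (XT.lf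 (nat_lit 1260) (nat_lit 1303664091) (nat_lit 0) (nat_lit 2384898672) (nat_lit 1176) (nat_lit 1303664091) (nat_lit 176) (nat_lit 1) (nat_lit 161) (nat_lit 1) (nat_lit 175) (nat_lit 1) (nat_lit 188) (nat_lit 208) (nat_lit 204)))) (XT.nd (nat_lit 188) (nat_lit 0) (nat_lit 84) (XT.nd (nat_lit 94) (nat_lit 0) (nat_lit 84) (XT.lf (nat_lit 1260) (nat_lit 2437994450) (nat_lit 84) (nat_lit 1235641691) (nat_lit 0) (nat_lit 1235641691) (nat_lit 176) (nat_lit 1) (nat_lit 162) (nat_lit 1) (nat_lit 161) (nat_lit 1) (nat_lit 189) (nat_lit 208) (nat_lit 203)) (XT.lf (nat_lit 1260) (nat_lit 1123135861) (nat_lit 0) (nat_lit 2581911371) (nat_lit 1176) (nat_lit 1123135861) (nat_lit 177) (nat_lit 1) (nat_lit 162) (nat_lit 1) (nat_lit 176) (nat_lit 1) (nat_lit 190) (nat_lit 208) (nat_lit 202))) (XT.nd (nat_lit 94) (nat_lit 0) (nat_lit 84) (XT.lf (nat_lit 1260) (nat_lit 2031596900) (nat_lit 84) (nat_lit 1358619192)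 (nat_lit 0) (nat_lit 1358619192) (nat_lit 177) (nat_lit 1) (nat_lit 163) (nat_lit 1) (nat_lit 162) (nat_lit 1) (nat_lit 191) (nat_lit 208) (nat_lit 201)) (XT.lf (nat_lit 1260) (nat_lit 900376491) (nat_lit 0) (nat_lit 2870625481) (nat_lit 1176) (nat_lit 900376491) (nat_lit 178) (nat_lit 1) (nat_lit 163) (nat_lit 1) (nat_lit 177) (nat_lit 1) (nat_lit 192) (nat_lit 208) (nat_lit 200))))) (XT.nd (nat_lit 282) (nat_lit 1008) (nat_lit 0) (XT.nd (nat_lit 94) (nat_lit 0) (nat_lit 84) (XT.lf (nat_lit 1260) (nat_lit 1544988381) (nat_lit 84) (nat_lit 1525222932) (nat_lit 0) (nat_lit 1525222932) (nat_lit 178) (nat_lit 1) (nat_lit 164) (nat_lit 1) (nat_lit 163) (nat_lit 1) (nat_lit 193) (nat_lit 208) (nat_lit 199)) (XT.nd (nat_lit 94) (nat_lit 0) (nat_lit 0) (XT.lf (nat_lit 1260) (nat_lit 640027912) (nat_lit 0) (nat_lit 3241399856) (nat_lit 1176) (nat_lit 640027912) (nat_lit 179) (nat_lit 1) (nat_lit 164)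 (nat_lit 1) (nat_lit 178) (nat_lit 1) (nat_lit 194) (nat_lit 208) (nat_lit 198)) (XT.lf (nat_lit 1260) (nat_lit 987128270) (nat_lit 84) (nat_lit 1730800441) (nat_lit 0) (nat_lit 1730800441) (nat_lit 179) (nat_lit 1) (nat_lit 165) (nat_lit 1) (nat_lit 164) (nat_lit 1) (nat_lit 195) (nat_lit 208) (nat_lit 197)))) (XT.nd (nat_lit 188) (nat_lit 1176) (nat_lit 0) (XT.nd (nat_lit 94) (nat_lit 0) (nat_lit 0) (XT.lf (nat_lit 1260) (nat_lit 346361395) (nat_lit 0) (nat_lit 3685354229) (nat_lit 1176) (nat_lit 346361395) (nat_lit 180) (nat_lit 1) (nat_lit 165) (nat_lit 1) (nat_lit 179) (nat_lit 1) (nat_lit 196) (nat_lit 208) (nat_lit 196)) (XT.lf (nat_lit 1260) (nat_lit 366257614) (nat_lit 84) (nat_lit 1971067832) (nat_lit 0) (nat_lit 1971067832) (nat_lit 180) (nat_lit 1) (nat_lit 166) (nat_lit 1) (nat_lit 165) (nat_lit 1) (nat_lit 197) (nat_lit 208) (nat_lit 195))) (XT.nd (nat_lit 94) (nat_lit 1260)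 (nat_lit 0) (XT.lf (nat_lit 84) (nat_lit 23304296) (nat_lit 0) (nat_lit 4194314567) (nat_lit 1176) (nat_lit 23304296) (nat_lit 167) (nat_lit 1) (nat_lit 166) (nat_lit 1) (nat_lit 180) (nat_lit 1) (nat_lit 198) (nat_lit 208) (nat_lit 194)) (XT.lf (nat_lit 84) (nat_lit 1935488937) (nat_lit 0) (nat_lit 303018822) (nat_lit 1260) (nat_lit 1935488937) (nat_lit 152) (nat_lit 1) (nat_lit 151) (nat_lit 1) (nat_lit 166) (nat_lit 1) (nat_lit 199) (nat_lit 208) (nat_lit 193))))))) (XT.nd (nat_lit 1222) (nat_lit 3276) (nat_lit 0) (XT.nd (nat_lit 564) (nat_lit 2100) (nat_lit 0) (XT.nd (nat_lit 282) (nat_lit 588) (nat_lit 0) (XT.nd (nat_lit 94) (nat_lit 588) (nat_lit 0) (XT.lf (nat_lit 756) (nat_lit 3465533817) (nat_lit 0) (nat_lit 321823740) (nat_lit 672) (nat_lit 321823740) (nat_lit 152) (nat_lit 1) (nat_lit 143) (nat_lit 1) (nat_lit 151) (nat_lit 1) (nat_lit 200) (nat_lit 208) (nat_lit 192)) (XT.nd (nat_lit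 94) (nat_lit 588) (nat_lit 0) (XT.lf (nat_lit 84) (nat_lit 1516917728) (nat_lit 0) (nat_lit 1011370791) (nat_lit 756) (nat_lit 1516917728) (nat_lit 144) (nat_lit 1) (nat_lit 143) (nat_lit 1) (nat_lit 152) (nat_lit 1) (nat_lit 201) (nat_lit 208) (nat_lit 191)) (XT.lf (nat_lit 672) (nat_lit 2605205306) (nat_lit 0) (nat_lit 688899693) (nat_lit 588) (nat_lit 688899693) (nat_lit 144) (nat_lit 1) (nat_lit 136) (nat_lit 1) (nat_lit 143) (nat_lit 1) (nat_lit 202) (nat_lit 208) (nat_lit 190)))) (XT.nd (nat_lit 94) (nat_lit 588) (nat_lit 0) (XT.lf (nat_lit 84) (nat_lit 1080513170) (nat_lit 0) (nat_lit 1760864266) (nat_lit 672) (nat_lit 1080513170) (nat_lit 137) (nat_lit 1) (nat_lit 136) (nat_lit 1) (nat_lit 144) (nat_lit 1) (nat_lit 203) (nat_lit 208) (nat_lit 189)) (XT.nd (nat_lit 94) (nat_lit 0) (nat_lit 0) (XT.lf (nat_lit 672) (nat_lit 1711792921) (nat_lit 0) (nat_lit 1075185697) (nat_lit 588) (nat_lit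 1075185697) (nat_lit 137) (nat_lit 1) (nat_lit 129) (nat_lit 1) (nat_lit 136) (nat_lit 1) (nat_lit 204) (nat_lit 208) (nat_lit 188)) (XT.lf (nat_lit 84) (nat_lit 629005179) (nat_lit 0) (nat_lit 2545779840) (nat_lit 672) (nat_lit 629005179) (nat_lit 130) (nat_lit 1) (nat_lit 129) (nat_lit 1) (nat_lit 137) (nat_lit 1) (nat_lit 205) (nat_lit 208) (nat_lit 187))))) (XT.nd (nat_lit 282) (nat_lit 1008) (nat_lit 0) (XT.nd (nat_lit 94) (nat_lit 588) (nat_lit 0) (XT.lf (nat_lit 588) (nat_lit 790549552) (nat_lit 0) (nat_lit 1477929530) (nat_lit 504) (nat_lit 1477929530) (nat_lit 130) (nat_lit 1) (nat_lit 123) (nat_lit 1) (nat_lit 129) (nat_lit 1) (nat_lit 206) (nat_lit 208) (nat_lit 186)) (XT.nd (nat_lit 94) (nat_lit 588) (nat_lit 0) (XT.lf (nat_lit 84) (nat_lit 164889941) (nat_lit 0) (nat_lit 3360879288) (nat_lit 588) (nat_lit 164889941) (nat_lit 124) (nat_lit 1) (nat_lit 123) (nat_lit 1) (nat_lit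 130) (nat_lit 1) (nat_lit 207) (nat_lit 208) (nat_lit 185)) (XT.lf (nat_lit 84) (nat_lit 1742600241) (nat_lit 0) (nat_lit 150238827) (nat_lit 588) (nat_lit 1742600241) (nat_lit 117) (nat_lit 1) (nat_lit 116) (nat_lit 1) (nat_lit 123) (nat_lit 1) (nat_lit 208) (nat_lit 208) (nat_lit 184)))) (XT.nd (nat_lit 188) (nat_lit 504) (nat_lit 0) (XT.nd (nat_lit 94) (nat_lit 0) (nat_lit 0) (XT.lf (nat_lit 588) (nat_lit 2969731532) (nat_lit 0) (nat_lit 306023677) (nat_lit 504) (nat_lit 306023677) (nat_lit 117) (nat_lit 1) (nat_lit 110) (nat_lit 1) (nat_lit 116) (nat_lit 1) (nat_lit 209) (nat_lit 208) (nat_lit 183)) (XT.lf (nat_lit 84) (nat_lit 1218723291) (nat_lit 0) (nat_lit 1091328362) (nat_lit 588) (nat_lit 1218723291) (nat_lit 111) (nat_lit 1) (nat_lit 110) (nat_lit 1) (nat_lit 117) (nat_lit 1) (nat_lit 210) (nat_lit 208) (nat_lit 182))) (XT.nd (nat_lit 94) (nat_lit 0) (nat_lit 0) (XT.lf (nat_lit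 588) (nat_lit 1910719752) (nat_lit 0) (nat_lit 783211457) (nat_lit 504) (nat_lit 783211457) (nat_lit 111) (nat_lit 1) (nat_lit 104) (nat_lit 1) (nat_lit 110) (nat_lit 1) (nat_lit 211) (nat_lit 208) (nat_lit 181)) (XT.lf (nat_lit 84) (nat_lit 689885141) (nat_lit 0) (nat_lit 2046740994) (nat_lit 588) (nat_lit 689885141) (nat_lit 105) (nat_lit 1) (nat_lit 104) (nat_lit 1) (nat_lit 111) (nat_lit 1) (nat_lit 212) (nat_lit 208) (nat_lit 180)))))) (XT.nd (nat_lit 658) (nat_lit 1512) (nat_lit 0) (XT.nd (nat_lit 282) (nat_lit 840) (nat_lit 0) (XT.nd (nat_lit 94) (nat_lit 504) (nat_lit 0) (XT.lf (nat_lit 504) (nat_lit 843441443) (nat_lit 0) (nat_lit 1266680767) (nat_lit 420) (nat_lit 1266680767) (nat_lit 105) (nat_lit 1) (nat_lit 99) (nat_lit 1) (nat_lit 104) (nat_lit 1) (nat_lit 213) (nat_lit 208) (nat_lit 179)) (XT.nd (nat_lit 94) (nat_lit 504) (nat_lit 0) (XT.lf (nat_lit 84) (nat_lit 157761328) (nat_lit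 0) (nat_lit 3012924059) (nat_lit 504) (nat_lit 157761328) (nat_lit 100) (nat_lit 1) (nat_lit 99) (nat_lit 1) (nat_lit 105) (nat_lit 1) (nat_lit 214) (nat_lit 208) (nat_lit 178)) (XT.lf (nat_lit 84) (nat_lit 1528385871) (nat_lit 0) (nat_lit 223703115) (nat_lit 504) (nat_lit 1528385871) (nat_lit 94) (nat_lit 1) (nat_lit 93) (nat_lit 1) (nat_lit 99) (nat_lit 1) (nat_lit 215) (nat_lit 208) (nat_lit 177)))) (XT.nd (nat_lit 188) (nat_lit 420) (nat_lit 0) (XT.nd (nat_lit 94) (nat_lit 0) (nat_lit 0) (XT.lf (nat_lit 504) (nat_lit 2490117022) (nat_lit 0) (nat_lit 371841398) (nat_lit 420) (nat_lit 371841398) (nat_lit 94) (nat_lit 1) (nat_lit 88) (nat_lit 1) (nat_lit 93) (nat_lit 1) (nat_lit 216) (nat_lit 208) (nat_lit 176)) (XT.lf (nat_lit 84) (nat_lit 956954098) (nat_lit 0) (nat_lit 1273823881) (nat_lit 504) (nat_lit 956954098) (nat_lit 89) (nat_lit 1) (nat_lit 88) (nat_lit 1) (nat_lit 94) (nat_lit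 1) (nat_lit 217) (nat_lit 208) (nat_lit 175))) (XT.nd (nat_lit 94) (nat_lit 0) (nat_lit 0) (XT.lf (nat_lit 504) (nat_lit 1342662273) (nat_lit 0) (nat_lit 900034407) (nat_lit 420) (nat_lit 900034407) (nat_lit 89) (nat_lit 1) (nat_lit 83) (nat_lit 1) (nat_lit 88) (nat_lit 1) (nat_lit 218) (nat_lit 208) (nat_lit 174)) (XT.lf (nat_lit 84) (nat_lit 387625047) (nat_lit 0) (nat_lit 2323478170) (nat_lit 504) (nat_lit 387625047) (nat_lit 84) (nat_lit 1) (nat_lit 83) (nat_lit 1) (nat_lit 89) (nat_lit 1) (nat_lit 219) (nat_lit 208) (nat_lit 173))))) (XT.nd (nat_lit 282) (nat_lit 672) (nat_lit 0) (XT.nd (nat_lit 94) (nat_lit 504) (nat_lit 0) (XT.lf (nat_lit 420) (nat_lit 200536602) (nat_lit 0) (nat_lit 1427390544) (nat_lit 336) (nat_lit 1427390544) (nat_lit 84) (nat_lit 1) (nat_lit 79) (nat_lit 1) (nat_lit 83) (nat_lit 1) (nat_lit 220) (nat_lit 208) (nat_lit 172)) (XT.nd (nat_lit 94) (nat_lit 0) (nat_lit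 0) (XT.lf (nat_lit 504) (nat_lit 2660032686) (nat_lit 0) (nat_lit 176492045) (nat_lit 420) (nat_lit 176492045) (nat_lit 79) (nat_lit 1) (nat_lit 73) (nat_lit 1) (nat_lit 78) (nat_lit 1) (nat_lit 221) (nat_lit 208) (nat_lit 171)) (XT.lf (nat_lit 84) (nat_lit 1029000751) (nat_lit 0) (nat_lit 913031916) (nat_lit 504) (nat_lit 1029000751) (nat_lit 74) (nat_lit 1) (nat_lit 73) (nat_lit 1) (nat_lit 79) (nat_lit 1) (nat_lit 222) (nat_lit 208) (nat_lit 170)))) (XT.nd (nat_lit 188) (nat_lit 336) (nat_lit 0) (XT.nd (nat_lit 94) (nat_lit 0) (nat_lit 0) (XT.lf (nat_lit 420) (nat_lit 1465919703) (nat_lit 0) (nat_lit 732099043) (nat_lit 336) (nat_lit 732099043) (nat_lit 74) (nat_lit 1) (nat_lit 69) (nat_lit 1) (nat_lit 73) (nat_lit 1) (nat_lit 223) (nat_lit 208) (nat_lit 169)) (XT.lf (nat_lit 84) (nat_lit 438477412) (nat_lit 0) (nat_lit 2013059283) (nat_lit 420) (nat_lit 438477412) (nat_lit 70) (nat_lit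 1) (nat_lit 69) (nat_lit 1) (nat_lit 74) (nat_lit 1) (nat_lit 224) (nat_lit 208) (nat_lit 168))) (XT.nd (nat_lit 33652) (nat_lit 0) (nat_lit 7896) (XT.lf (nat_lit 420) (nat_lit 284956445) (nat_lit 0) (nat_lit 1282767025) (nat_lit 336) (nat_lit 1282767025) (nat_lit 70) (nat_lit 1) (nat_lit 65) (nat_lit 1) (nat_lit 69) (nat_lit 1) (nat_lit 225) (nat_lit 208) (nat_lit 167)) (XT.lf (nat_lit 1260) (nat_lit 785270873) (nat_lit 0) (nat_lit 1194753772) (nat_lit 1260) (nat_lit 785270873) (nat_lit 174) (nat_lit 1) (nat_lit 159) (nat_lit 0) (nat_lit 174) (nat_lit 0) (nat_lit 182) (nat_lit 209) (nat_lit 209))))))))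
noncomputable def ec9 : XT := (XT.nd (nat_lit 2538) (nat_lit 3696) (nat_lit 0) (XT.nd (nat_lit 1222) (nat_lit 4620) (nat_lit 0) (XT.nd (nat_lit 564) (nat_lit 0) (nat_lit 252) (XT.nd (nat_lit 282) (nat_lit 0) (nat_lit 168) (XT.nd (nat_lit 94) (nat_lit 0) (nat_lit 84) (XT.lf (nat_lit 1260) (nat_lit 3074352415) (nat_lit 84) (nat_lit 1181132800) (nat_lit 0) (nat_lit 1181132800) (nat_lit 174) (nat_lit 1) (nat_lit 160) (nat_lit 1) (nat_lit 159) (nat_lit 0) (nat_lit 183) (nat_lit 209) (nat_lit 208)) (XT.nd (nat_lit 94) (nat_lit 0) (nat_lit 0) (XT.lf (nat_lit 1260) (nat_lit 1487212063) (nat_lit 0) (nat_lit 2370199779) (nat_lit 1176) (nat_lit 1487212063) (nat_lit 175) (nat_lit 1) (nat_lit 160) (nat_lit 1) (nat_lit 174) (nat_lit 1) (nat_lit 184) (nat_lit 209) (nat_lit 207)) (XT.lf (nat_lit 1260) (nat_lit 2850853233) (nat_lit 84) (nat_lit 1201986846) (nat_lit 0) (nat_lit 1201986846) (nat_lit 175) (nat_lit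 1) (nat_lit 161) (nat_lit 1) (nat_lit 160) (nat_lit 1) (nat_lit 185) (nat_lit 209) (nat_lit 206)))) (XT.nd (nat_lit 94) (nat_lit 0) (nat_lit 0) (XT.lf (nat_lit 1260) (nat_lit 1349292334) (nat_lit 0) (nat_lit 2468370126) (nat_lit 1176) (nat_lit 1349292334) (nat_lit 176) (nat_lit 1) (nat_lit 161) (nat_lit 1) (nat_lit 175) (nat_lit 1) (nat_lit 186) (nat_lit 209) (nat_lit 205)) (XT.nd (nat_lit 94) (nat_lit 0) (nat_lit 84) (XT.lf (nat_lit 1260) (nat_lit 2523324256) (nat_lit 84) (nat_lit 1278889150) (nat_lit 0) (nat_lit 1278889150) (nat_lit 176) (nat_lit 1) (nat_lit 162) (nat_lit 1) (nat_lit 161) (nat_lit 1) (nat_lit 187) (nat_lit 209) (nat_lit 204)) (XT.lf (nat_lit 1260) (nat_lit 1162445616) (nat_lit 0) (nat_lit 2672278269) (nat_lit 1176) (nat_lit 1162445616) (nat_lit 177) (nat_lit 1) (nat_lit 162) (nat_lit 1) (nat_lit 176) (nat_lit 1) (nat_lit 188) (nat_lit 209) (nat_lit 203))))) (XT.nd (nat_lit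 282) (nat_lit 0) (nat_lit 168) (XT.nd (nat_lit 94) (nat_lit 0) (nat_lit 84) (XT.lf (nat_lit 1260) (nat_lit 2102702791) (nat_lit 84) (nat_lit 1406170864) (nat_lit 0) (nat_lit 1406170864) (nat_lit 177) (nat_lit 1) (nat_lit 163) (nat_lit 1) (nat_lit 162) (nat_lit 1) (nat_lit 189) (nat_lit 209) (nat_lit 202)) (XT.nd (nat_lit 94) (nat_lit 0) (nat_lit 0) (XT.lf (nat_lit 1260) (nat_lit 931889668) (nat_lit 0) (nat_lit 2971097372) (nat_lit 1176) (nat_lit 931889668) (nat_lit 178) (nat_lit 1) (nat_lit 163) (nat_lit 1) (nat_lit 177) (nat_lit 1) (nat_lit 190) (nat_lit 209) (nat_lit 201)) (XT.lf (nat_lit 1260) (nat_lit 1599062974) (nat_lit 84) (nat_lit 1578605734) (nat_lit 0) (nat_lit 1578605734) (nat_lit 178) (nat_lit 1) (nat_lit 164) (nat_lit 1) (nat_lit 163) (nat_lit 1) (nat_lit 191) (nat_lit 209) (nat_lit 200)))) (XT.nd (nat_lit 188) (nat_lit 0) (nat_lit 84) (XT.nd (nat_lit 94) (nat_lit 0) (nat_lit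 0) (XT.lf (nat_lit 1260) (nat_lit 662428889) (nat_lit 0) (nat_lit 3354848851) (nat_lit 1176) (nat_lit 662428889) (nat_lit 179) (nat_lit 1) (nat_lit 164) (nat_lit 1) (nat_lit 178) (nat_lit 1) (nat_lit 192) (nat_lit 209) (nat_lit 199)) (XT.lf (nat_lit 1260) (nat_lit 1021677759) (nat_lit 84) (nat_lit 1791378457) (nat_lit 0) (nat_lit 1791378457) (nat_lit 179) (nat_lit 1) (nat_lit 165) (nat_lit 1) (nat_lit 164) (nat_lit 1) (nat_lit 193) (nat_lit 209) (nat_lit 198))) (XT.nd (nat_lit 94) (nat_lit 0) (nat_lit 0) (XT.lf (nat_lit 1260) (nat_lit 358484044) (nat_lit 0) (nat_lit 3814341627) (nat_lit 1176) (nat_lit 358484044) (nat_lit 180) (nat_lit 1) (nat_lit 165) (nat_lit 1) (nat_lit 179) (nat_lit 1) (nat_lit 194) (nat_lit 209) (nat_lit 197)) (XT.lf (nat_lit 1260) (nat_lit 379076630) (nat_lit 84) (nat_lit 2040055206) (nat_lit 0) (nat_lit 2040055206) (nat_lit 180) (nat_lit 1) (nat_lit 166) (nat_lit 1)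 (nat_lit 165) (nat_lit 1) (nat_lit 195) (nat_lit 209) (nat_lit 196)))))) (XT.nd (nat_lit 658) (nat_lit 2100) (nat_lit 0) (XT.nd (nat_lit 282) (nat_lit 1176) (nat_lit 0) (XT.nd (nat_lit 94) (nat_lit 1932) (nat_lit 0) (XT.lf (nat_lit 84) (nat_lit 24119947) (nat_lit 0) (nat_lit 4341115577) (nat_lit 1176) (nat_lit 24119947) (nat_lit 167) (nat_lit 1) (nat_lit 166) (nat_lit 1) (nat_lit 180) (nat_lit 1) (nat_lit 196) (nat_lit 209) (nat_lit 195)) (XT.nd (nat_lit 94) (nat_lit 672) (nat_lit 0) (XT.lf (nat_lit 84) (nat_lit 2003231050) (nat_lit 0) (nat_lit 313624481) (nat_lit 1260) (nat_lit 2003231050) (nat_lit 152) (nat_lit 1) (nat_lit 151) (nat_lit 1) (nat_lit 166) (nat_lit 1) (nat_lit 197) (nat_lit 209) (nat_lit 194)) (XT.lf (nat_lit 756) (nat_lit 3586827500) (nat_lit 0) (nat_lit 333087570) (nat_lit 672) (nat_lit 333087570) (nat_lit 152) (nat_lit 1) (nat_lit 143) (nat_lit 1) (nat_lit 151) (nat_lit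 1) (nat_lit 198) (nat_lit 209) (nat_lit 193)))) (XT.nd (nat_lit 188) (nat_lit 588) (nat_lit 0) (XT.nd (nat_lit 94) (nat_lit 588) (nat_lit 0) (XT.lf (nat_lit 84) (nat_lit 1570009849) (nat_lit 0) (nat_lit 1046768768) (nat_lit 756) (nat_lit 1570009849) (nat_lit 144) (nat_lit 1) (nat_lit 143) (nat_lit 1) (nat_lit 152) (nat_lit 1) (nat_lit 199) (nat_lit 209) (nat_lit 192)) (XT.lf (nat_lit 672) (nat_lit 2696387492) (nat_lit 0) (nat_lit 713011182) (nat_lit 588) (nat_lit 713011182) (nat_lit 144) (nat_lit 1) (nat_lit 136) (nat_lit 1) (nat_lit 143) (nat_lit 1) (nat_lit 200) (nat_lit 209) (nat_lit 191))) (XT.nd (nat_lit 94) (nat_lit 588) (nat_lit 0) (XT.lf (nat_lit 84) (nat_lit 1118331131) (nat_lit 0) (nat_lit 1822494515) (nat_lit 672) (nat_lit 1118331131) (nat_lit 137) (nat_lit 1) (nat_lit 136) (nat_lit 1) (nat_lit 144) (nat_lit 1) (nat_lit 201) (nat_lit 209) (nat_lit 190)) (XT.lf (nat_lit 672) (nat_lit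 1771705673) (nat_lit 0) (nat_lit 1112817197) (nat_lit 588) (nat_lit 1112817197) (nat_lit 137) (nat_lit 1) (nat_lit 129) (nat_lit 1) (nat_lit 136) (nat_lit 1) (nat_lit 202) (nat_lit 209) (nat_lit 189))))) (XT.nd (nat_lit 282) (nat_lit 1596) (nat_lit 0) (XT.nd (nat_lit 94) (nat_lit 504) (nat_lit 0) (XT.lf (nat_lit 84) (nat_lit 651020360) (nat_lit 0) (nat_lit 2634882134) (nat_lit 672) (nat_lit 651020360) (nat_lit 130) (nat_lit 1) (nat_lit 129) (nat_lit 1) (nat_lit 137) (nat_lit 1) (nat_lit 203) (nat_lit 209) (nat_lit 188)) (XT.nd (nat_lit 94) (nat_lit 0) (nat_lit 0) (XT.lf (nat_lit 588) (nat_lit 818218786) (nat_lit 0) (nat_lit 1529657063) (nat_lit 504) (nat_lit 1529657063) (nat_lit 130) (nat_lit 1) (nat_lit 123) (nat_lit 1) (nat_lit 129) (nat_lit 1) (nat_lit 204) (nat_lit 209) (nat_lit 187)) (XT.lf (nat_lit 84) (nat_lit 170661089) (nat_lit 0) (nat_lit 3478510063) (nat_lit 588) (nat_lit 170661089)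 (nat_lit 124) (nat_lit 1) (nat_lit 123) (nat_lit 1) (nat_lit 130) (nat_lit 1) (nat_lit 205) (nat_lit 209) (nat_lit 186)))) (XT.nd (nat_lit 188) (nat_lit 504) (nat_lit 0) (XT.nd (nat_lit 94) (nat_lit 504) (nat_lit 0) (XT.lf (nat_lit 84) (nat_lit 1803591249) (nat_lit 0) (nat_lit 155497186) (nat_lit 588) (nat_lit 1803591249) (nat_lit 117) (nat_lit 1) (nat_lit 116) (nat_lit 1) (nat_lit 123) (nat_lit 1) (nat_lit 206) (nat_lit 209) (nat_lit 185)) (XT.lf (nat_lit 588) (nat_lit 3073672135) (nat_lit 0) (nat_lit 316734506) (nat_lit 504) (nat_lit 316734506) (nat_lit 117) (nat_lit 1) (nat_lit 110) (nat_lit 1) (nat_lit 116) (nat_lit 1) (nat_lit 207) (nat_lit 209) (nat_lit 184))) (XT.nd (nat_lit 94) (nat_lit 504) (nat_lit 0) (XT.lf (nat_lit 84) (nat_lit 1261378606) (nat_lit 0) (nat_lit 1129524855) (nat_lit 588) (nat_lit 1261378606) (nat_lit 111) (nat_lit 1) (nat_lit 110) (nat_lit 1) (nat_lit 117) (nat_lit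 1) (nat_lit 208) (nat_lit 209) (nat_lit 183)) (XT.lf (nat_lit 588) (nat_lit 1977594944) (nat_lit 0) (nat_lit 810623858) (nat_lit 504) (nat_lit 810623858) (nat_lit 111) (nat_lit 1) (nat_lit 104) (nat_lit 1) (nat_lit 110) (nat_lit 1) (nat_lit 209) (nat_lit 209) (nat_lit 182))))))) (XT.nd (nat_lit 1222) (nat_lit 756) (nat_lit 0) (XT.nd (nat_lit 564) (nat_lit 1596) (nat_lit 0) (XT.nd (nat_lit 282) (nat_lit 924) (nat_lit 0) (XT.nd (nat_lit 94) (nat_lit 420) (nat_lit 0) (XT.lf (nat_lit 84) (nat_lit 714031121) (nat_lit 0) (nat_lit 2118376928) (nat_lit 588) (nat_lit 714031121) (nat_lit 105) (nat_lit 1) (nat_lit 104) (nat_lit 1) (nat_lit 111) (nat_lit 1) (nat_lit 210) (nat_lit 209) (nat_lit 181)) (XT.nd (nat_lit 94) (nat_lit 0) (nat_lit 0) (XT.lf (nat_lit 504) (nat_lit 872961894) (nat_lit 0) (nat_lit 1311014594) (nat_lit 420) (nat_lit 1311014594) (nat_lit 105) (nat_lit 1) (nat_lit 99) (nat_lit 1) (nat_lit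 104) (nat_lit 1) (nat_lit 211) (nat_lit 209) (nat_lit 180)) (XT.lf (nat_lit 84) (nat_lit 163282974) (nat_lit 0) (nat_lit 3118376402) (nat_lit 504) (nat_lit 163282974) (nat_lit 100) (nat_lit 1) (nat_lit 99) (nat_lit 1) (nat_lit 105) (nat_lit 1) (nat_lit 212) (nat_lit 209) (nat_lit 179)))) (XT.nd (nat_lit 94) (nat_lit 420) (nat_lit 0) (XT.lf (nat_lit 84) (nat_lit 1581879376) (nat_lit 0) (nat_lit 231532724) (nat_lit 504) (nat_lit 1581879376) (nat_lit 94) (nat_lit 1) (nat_lit 93) (nat_lit 1) (nat_lit 99) (nat_lit 1) (nat_lit 213) (nat_lit 209) (nat_lit 178)) (XT.nd (nat_lit 94) (nat_lit 0) (nat_lit 0) (XT.lf (nat_lit 504) (nat_lit 2577271117) (nat_lit 0) (nat_lit 384855847) (nat_lit 420) (nat_lit 384855847) (nat_lit 94) (nat_lit 1) (nat_lit 88) (nat_lit 1) (nat_lit 93) (nat_lit 1) (nat_lit 214) (nat_lit 209) (nat_lit 177)) (XT.lf (nat_lit 84) (nat_lit 990447492) (nat_lit 0) (nat_lit 1318407717)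 (nat_lit 504) (nat_lit 990447492) (nat_lit 89) (nat_lit 1) (nat_lit 88) (nat_lit 1) (nat_lit 94) (nat_lit 1) (nat_lit 215) (nat_lit 209) (nat_lit 176))))) (XT.nd (nat_lit 282) (nat_lit 840) (nat_lit 0) (XT.nd (nat_lit 94) (nat_lit 336) (nat_lit 0) (XT.lf (nat_lit 504) (nat_lit 1389655452) (nat_lit 0) (nat_lit 931535611) (nat_lit 420) (nat_lit 931535611) (nat_lit 89) (nat_lit 1) (nat_lit 83) (nat_lit 1) (nat_lit 88) (nat_lit 1) (nat_lit 216) (nat_lit 209) (nat_lit 175)) (XT.nd (nat_lit 94) (nat_lit 336) (nat_lit 0) (XT.lf (nat_lit 84) (nat_lit 401191923) (nat_lit 0) (nat_lit 2404799906) (nat_lit 504) (nat_lit 401191923) (nat_lit 84) (nat_lit 1) (nat_lit 83) (nat_lit 1) (nat_lit 89) (nat_lit 1) (nat_lit 217) (nat_lit 209) (nat_lit 174)) (XT.lf (nat_lit 420) (nat_lit 207555383) (nat_lit 0) (nat_lit 1477349213) (nat_lit 336) (nat_lit 1477349213) (nat_lit 84) (nat_lit 1) (nat_lit 79) (nat_lit 1)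 (nat_lit 83) (nat_lit 1) (nat_lit 218) (nat_lit 209) (nat_lit 173)))) (XT.nd (nat_lit 188) (nat_lit 336) (nat_lit 0) (XT.nd (nat_lit 94) (nat_lit 0) (nat_lit 0) (XT.lf (nat_lit 504) (nat_lit 2753133830) (nat_lit 0) (nat_lit 182669266) (nat_lit 420) (nat_lit 182669266) (nat_lit 79) (nat_lit 1) (nat_lit 73) (nat_lit 1) (nat_lit 78) (nat_lit 1) (nat_lit 219) (nat_lit 209) (nat_lit 172)) (XT.lf (nat_lit 84) (nat_lit 1065015777) (nat_lit 0) (nat_lit 944988034) (nat_lit 504) (nat_lit 1065015777) (nat_lit 74) (nat_lit 1) (nat_lit 73) (nat_lit 1) (nat_lit 79) (nat_lit 1) (nat_lit 220) (nat_lit 209) (nat_lit 171))) (XT.nd (nat_lit 94) (nat_lit 0) (nat_lit 0) (XT.lf (nat_lit 420) (nat_lit 1517226893) (nat_lit 0) (nat_lit 757722509) (nat_lit 336) (nat_lit 757722509) (nat_lit 74) (nat_lit 1) (nat_lit 69) (nat_lit 1) (nat_lit 73) (nat_lit 1) (nat_lit 221) (nat_lit 209) (nat_lit 170)) (XT.lf (nat_lit 84)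 (nat_lit 453824121) (nat_lit 0) (nat_lit 2083516358) (nat_lit 420) (nat_lit 453824121) (nat_lit 70) (nat_lit 1) (nat_lit 69) (nat_lit 1) (nat_lit 74) (nat_lit 1) (nat_lit 222) (nat_lit 209) (nat_lit 169)))))) (XT.nd (nat_lit 34028) (nat_lit 0) (nat_lit 8484) (XT.nd (nat_lit 33652) (nat_lit 0) (nat_lit 8316) (XT.nd (nat_lit 94) (nat_lit 420) (nat_lit 0) (XT.lf (nat_lit 420) (nat_lit 294929920) (nat_lit 0) (nat_lit 1327663871) (nat_lit 336) (nat_lit 1327663871) (nat_lit 70) (nat_lit 1) (nat_lit 65) (nat_lit 1) (nat_lit 69) (nat_lit 1) (nat_lit 223) (nat_lit 209) (nat_lit 168)) (XT.nd (nat_lit 94) (nat_lit 0) (nat_lit 0) (XT.lf (nat_lit 420) (nat_lit 2613339224) (nat_lit 0) (nat_lit 148522038) (nat_lit 336) (nat_lit 148522038) (nat_lit 65) (nat_lit 1) (nat_lit 60) (nat_lit 1) (nat_lit 64) (nat_lit 1) (nat_lit 224) (nat_lit 209) (nat_lit 167)) (XT.lf (nat_lit 84) (nat_lit 989535208) (nat_lit 0)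 (nat_lit 891656669) (nat_lit 420) (nat_lit 989535208) (nat_lit 61) (nat_lit 1) (nat_lit 60) (nat_lit 1) (nat_lit 65) (nat_lit 1) (nat_lit 225) (nat_lit 209) (nat_lit 166)))) (XT.nd (nat_lit 188) (nat_lit 0) (nat_lit 84) (XT.nd (nat_lit 94) (nat_lit 0) (nat_lit 0) (XT.lf (nat_lit 1260) (nat_lit 812755354) (nat_lit 0) (nat_lit 1236570154) (nat_lit 1260) (nat_lit 812755354) (nat_lit 174) (nat_lit 1) (nat_lit 159) (nat_lit 0) (nat_lit 174) (nat_lit 0) (nat_lit 180) (nat_lit 210) (nat_lit 210)) (XT.lf (nat_lit 1260) (nat_lit 3181954750) (nat_lit 84) (nat_lit 1222472448) (nat_lit 0) (nat_lit 1222472448) (nat_lit 174) (nat_lit 1) (nat_lit 160) (nat_lit 1) (nat_lit 159) (nat_lit 0) (nat_lit 181) (nat_lit 210) (nat_lit 209))) (XT.nd (nat_lit 94) (nat_lit 0) (nat_lit 0) (XT.lf (nat_lit 1260) (nat_lit 1539264485) (nat_lit 0) (nat_lit 2453156771) (nat_lit 1176) (nat_lit 1539264485) (nat_lit 175) (nat_lit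 1) (nat_lit 160) (nat_lit 1) (nat_lit 174) (nat_lit 1) (nat_lit 182) (nat_lit 210) (nat_lit 208)) (XT.lf (nat_lit 1260) (nat_lit 2950633096) (nat_lit 84) (nat_lit 1244056385) (nat_lit 0) (nat_lit 1244056385) (nat_lit 175) (nat_lit 1) (nat_lit 161) (nat_lit 1) (nat_lit 160) (nat_lit 1) (nat_lit 183) (nat_lit 210) (nat_lit 207))))) (XT.nd (nat_lit 282) (nat_lit 0) (nat_lit 84) (XT.nd (nat_lit 94) (nat_lit 0) (nat_lit 0) (XT.lf (nat_lit 1260) (nat_lit 1396517566) (nat_lit 0) (nat_lit 2554763080) (nat_lit 1176) (nat_lit 1396517566) (nat_lit 176) (nat_lit 1) (nat_lit 161) (nat_lit 1) (nat_lit 175) (nat_lit 1) (nat_lit 184) (nat_lit 210) (nat_lit 206)) (XT.nd (nat_lit 94) (nat_lit 0) (nat_lit 84) (XT.lf (nat_lit 1260) (nat_lit 2611640605) (nat_lit 84) (nat_lit 1323650270) (nat_lit 0) (nat_lit 1323650270) (nat_lit 176) (nat_lit 1) (nat_lit 162) (nat_lit 1) (nat_lit 161) (nat_lit 1) (nat_lit 185)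 (nat_lit 210) (nat_lit 205)) (XT.lf (nat_lit 1260) (nat_lit 1203131213) (nat_lit 0) (nat_lit 2765808008) (nat_lit 1176) (nat_lit 1203131213) (nat_lit 177) (nat_lit 1) (nat_lit 162) (nat_lit 1) (nat_lit 176) (nat_lit 1) (nat_lit 186) (nat_lit 210) (nat_lit 204)))) (XT.nd (nat_lit 188) (nat_lit 0) (nat_lit 84) (XT.nd (nat_lit 94) (nat_lit 0) (nat_lit 84) (XT.lf (nat_lit 1260) (nat_lit 2176297389) (nat_lit 84) (nat_lit 1455386844) (nat_lit 0) (nat_lit 1455386844) (nat_lit 177) (nat_lit 1) (nat_lit 163) (nat_lit 1) (nat_lit 162) (nat_lit 1) (nat_lit 187) (nat_lit 210) (nat_lit 203)) (XT.lf (nat_lit 1260) (nat_lit 964505807) (nat_lit 0) (nat_lit 3075085781) (nat_lit 1176) (nat_lit 964505807) (nat_lit 178) (nat_lit 1) (nat_lit 163) (nat_lit 1) (nat_lit 177) (nat_lit 1) (nat_lit 188) (nat_lit 210) (nat_lit 202))) (XT.nd (nat_lit 94) (nat_lit 0) (nat_lit 84) (XT.lf (nat_lit 1260) (nat_lit 1655030178)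 (nat_lit 84) (nat_lit 1633856935) (nat_lit 0) (nat_lit 1633856935) (nat_lit 178) (nat_lit 1) (nat_lit 164) (nat_lit 1) (nat_lit 163) (nat_lit 1) (nat_lit 189) (nat_lit 210) (nat_lit 201)) (XT.lf (nat_lit 1260) (nat_lit 685613900) (nat_lit 0) (nat_lit 3472268561) (nat_lit 1176) (nat_lit 685613900) (nat_lit 179) (nat_lit 1) (nat_lit 164) (nat_lit 1) (nat_lit 178) (nat_lit 1) (nat_lit 190) (nat_lit 210) (nat_lit 200))))))))
noncomputable def ec10 : XT := (XT.nd (nat_lit 2538) (nat_lit 1428) (nat_lit 0) (XT.nd (nat_lit 1222) (nat_lit 4200) (nat_lit 0) (XT.nd (nat_lit 564) (nat_lit 1680) (nat_lit 0) (XT.nd (nat_lit 282) (nat_lit 1764) (nat_lit 0) (XT.nd (nat_lit 94) (nat_lit 0) (nat_lit 84) (XT.lf (nat_lit 1260) (nat_lit 1057436481) (nat_lit 84) (nat_lit 1854076703) (nat_lit 0) (nat_lit 1854076703) (nat_lit 179) (nat_lit 1) (nat_lit 165) (nat_lit 1) (nat_lit 164) (nat_lit 1) (nat_lit 191) (nat_lit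 210) (nat_lit 199)) (XT.nd (nat_lit 94) (nat_lit 0) (nat_lit 0) (XT.lf (nat_lit 1260) (nat_lit 371030986) (nat_lit 0) (nat_lit 3947843584) (nat_lit 1176) (nat_lit 371030986) (nat_lit 180) (nat_lit 1) (nat_lit 165) (nat_lit 1) (nat_lit 179) (nat_lit 1) (nat_lit 192) (nat_lit 210) (nat_lit 198)) (XT.lf (nat_lit 1260) (nat_lit 392344312) (nat_lit 84) (nat_lit 2111457138) (nat_lit 0) (nat_lit 2111457138) (nat_lit 180) (nat_lit 1) (nat_lit 166) (nat_lit 1) (nat_lit 165) (nat_lit 1) (nat_lit 193) (nat_lit 210) (nat_lit 197)))) (XT.nd (nat_lit 94) (nat_lit 1932) (nat_lit 0) (XT.lf (nat_lit 84) (nat_lit 24964145) (nat_lit 0) (nat_lit 4493054622) (nat_lit 1176) (nat_lit 24964145) (nat_lit 167) (nat_lit 1) (nat_lit 166) (nat_lit 1) (nat_lit 180) (nat_lit 1) (nat_lit 194) (nat_lit 210) (nat_lit 196)) (XT.nd (nat_lit 94) (nat_lit 672) (nat_lit 0) (XT.lf (nat_lit 84) (nat_lit 2073344137) (nat_lit 0) (nat_lit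 324601338) (nat_lit 1260) (nat_lit 2073344137) (nat_lit 152) (nat_lit 1) (nat_lit 151) (nat_lit 1) (nat_lit 166) (nat_lit 1) (nat_lit 195) (nat_lit 210) (nat_lit 195)) (XT.lf (nat_lit 756) (nat_lit 3712366463) (nat_lit 0) (nat_lit 344745635) (nat_lit 672) (nat_lit 344745635) (nat_lit 152) (nat_lit 1) (nat_lit 143) (nat_lit 1) (nat_lit 151) (nat_lit 1) (nat_lit 196) (nat_lit 210) (nat_lit 194))))) (XT.nd (nat_lit 282) (nat_lit 1092) (nat_lit 0) (XT.nd (nat_lit 94) (nat_lit 588) (nat_lit 0) (XT.lf (nat_lit 84) (nat_lit 1624960193) (nat_lit 0) (nat_lit 1083405675) (nat_lit 756) (nat_lit 1624960193) (nat_lit 144) (nat_lit 1) (nat_lit 143) (nat_lit 1) (nat_lit 152) (nat_lit 1) (nat_lit 197) (nat_lit 210) (nat_lit 193)) (XT.nd (nat_lit 94) (nat_lit 0) (nat_lit 0) (XT.lf (nat_lit 672) (nat_lit 2790761054) (nat_lit 0) (nat_lit 737966574) (nat_lit 588) (nat_lit 737966574) (nat_lit 144) (nat_lit 1)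 (nat_lit 136) (nat_lit 1) (nat_lit 143) (nat_lit 1) (nat_lit 198) (nat_lit 210) (nat_lit 192)) (XT.lf (nat_lit 84) (nat_lit 1157472721) (nat_lit 0) (nat_lit 1886281823) (nat_lit 672) (nat_lit 1157472721) (nat_lit 137) (nat_lit 1) (nat_lit 136) (nat_lit 1) (nat_lit 144) (nat_lit 1) (nat_lit 199) (nat_lit 210) (nat_lit 191)))) (XT.nd (nat_lit 188) (nat_lit 504) (nat_lit 0) (XT.nd (nat_lit 94) (nat_lit 0) (nat_lit 0) (XT.lf (nat_lit 672) (nat_lit 1833715371) (nat_lit 0) (nat_lit 1151765799) (nat_lit 588) (nat_lit 1151765799) (nat_lit 137) (nat_lit 1) (nat_lit 129) (nat_lit 1) (nat_lit 136) (nat_lit 1) (nat_lit 200) (nat_lit 210) (nat_lit 190)) (XT.lf (nat_lit 84) (nat_lit 673806073) (nat_lit 0) (nat_lit 2727103009) (nat_lit 672) (nat_lit 673806073) (nat_lit 130) (nat_lit 1) (nat_lit 129) (nat_lit 1) (nat_lit 137) (nat_lit 1) (nat_lit 201) (nat_lit 210) (nat_lit 189))) (XT.nd (nat_lit 94) (nat_lit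 0) (nat_lit 0) (XT.lf (nat_lit 588) (nat_lit 846856444) (nat_lit 0) (nat_lit 1583195060) (nat_lit 504) (nat_lit 1583195060) (nat_lit 130) (nat_lit 1) (nat_lit 123) (nat_lit 1) (nat_lit 129) (nat_lit 1) (nat_lit 202) (nat_lit 210) (nat_lit 188)) (XT.lf (nat_lit 84) (nat_lit 176634227) (nat_lit 0) (nat_lit 3600257916) (nat_lit 588) (nat_lit 176634227) (nat_lit 124) (nat_lit 1) (nat_lit 123) (nat_lit 1) (nat_lit 130) (nat_lit 1) (nat_lit 203) (nat_lit 210) (nat_lit 187)))))) (XT.nd (nat_lit 658) (nat_lit 2184) (nat_lit 0) (XT.nd (nat_lit 282) (nat_lit 924) (nat_lit 0) (XT.nd (nat_lit 94) (nat_lit 504) (nat_lit 0) (XT.lf (nat_lit 84) (nat_lit 1866716943) (nat_lit 0) (nat_lit 160939588) (nat_lit 588) (nat_lit 1866716943) (nat_lit 117) (nat_lit 1) (nat_lit 116) (nat_lit 1) (nat_lit 123) (nat_lit 1) (nat_lit 204) (nat_lit 210) (nat_lit 186)) (XT.nd (nat_lit 94) (nat_lit 0) (nat_lit 0) (XT.lf (nat_lit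 588) (nat_lit 3181250660) (nat_lit 0) (nat_lit 327820213) (nat_lit 504) (nat_lit 327820213) (nat_lit 117) (nat_lit 1) (nat_lit 110) (nat_lit 1) (nat_lit 116) (nat_lit 1) (nat_lit 205) (nat_lit 210) (nat_lit 185)) (XT.lf (nat_lit 84) (nat_lit 1305526857) (nat_lit 0) (nat_lit 1169058225) (nat_lit 588) (nat_lit 1305526857) (nat_lit 111) (nat_lit 1) (nat_lit 110) (nat_lit 1) (nat_lit 117) (nat_lit 1) (nat_lit 206) (nat_lit 210) (nat_lit 184)))) (XT.nd (nat_lit 188) (nat_lit 420) (nat_lit 0) (XT.nd (nat_lit 94) (nat_lit 0) (nat_lit 0) (XT.lf (nat_lit 588) (nat_lit 2046810767) (nat_lit 0) (nat_lit 838995693) (nat_lit 504) (nat_lit 838995693) (nat_lit 111) (nat_lit 1) (nat_lit 104) (nat_lit 1) (nat_lit 110) (nat_lit 1) (nat_lit 207) (nat_lit 210) (nat_lit 183)) (XT.lf (nat_lit 84) (nat_lit 739022210) (nat_lit 0) (nat_lit 2192520121) (nat_lit 588) (nat_lit 739022210) (nat_lit 105) (nat_lit 1) (nat_lit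 104) (nat_lit 1) (nat_lit 111) (nat_lit 1) (nat_lit 208) (nat_lit 210) (nat_lit 182))) (XT.nd (nat_lit 94) (nat_lit 0) (nat_lit 0) (XT.lf (nat_lit 504) (nat_lit 903515560) (nat_lit 0) (nat_lit 1356900105) (nat_lit 420) (nat_lit 1356900105) (nat_lit 105) (nat_lit 1) (nat_lit 99) (nat_lit 1) (nat_lit 104) (nat_lit 1) (nat_lit 209) (nat_lit 210) (nat_lit 181)) (XT.lf (nat_lit 84) (nat_lit 168997879) (nat_lit 0) (nat_lit 3227519576) (nat_lit 504) (nat_lit 168997879) (nat_lit 100) (nat_lit 1) (nat_lit 99) (nat_lit 1) (nat_lit 105) (nat_lit 1) (nat_lit 210) (nat_lit 210) (nat_lit 180))))) (XT.nd (nat_lit 282) (nat_lit 1260) (nat_lit 0) (XT.nd (nat_lit 94) (nat_lit 420) (nat_lit 0) (XT.lf (nat_lit 84) (nat_lit 1637245154) (nat_lit 0) (nat_lit 239636369) (nat_lit 504) (nat_lit 1637245154) (nat_lit 94) (nat_lit 1) (nat_lit 93) (nat_lit 1) (nat_lit 99) (nat_lit 1) (nat_lit 211) (nat_lit 210) (nat_lit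 179)) (XT.nd (nat_lit 94) (nat_lit 0) (nat_lit 0) (XT.lf (nat_lit 504) (nat_lit 2667475606) (nat_lit 0) (nat_lit 398325801) (nat_lit 420) (nat_lit 398325801) (nat_lit 94) (nat_lit 1) (nat_lit 88) (nat_lit 1) (nat_lit 93) (nat_lit 1) (nat_lit 212) (nat_lit 210) (nat_lit 178)) (XT.lf (nat_lit 84) (nat_lit 1025113154) (nat_lit 0) (nat_lit 1364551987) (nat_lit 504) (nat_lit 1025113154) (nat_lit 89) (nat_lit 1) (nat_lit 88) (nat_lit 1) (nat_lit 94) (nat_lit 1) (nat_lit 213) (nat_lit 210) (nat_lit 177)))) (XT.nd (nat_lit 188) (nat_lit 840) (nat_lit 0) (XT.nd (nat_lit 94) (nat_lit 0) (nat_lit 0) (XT.lf (nat_lit 504) (nat_lit 1438293393) (nat_lit 0) (nat_lit 964139358) (nat_lit 420) (nat_lit 964139358) (nat_lit 89) (nat_lit 1) (nat_lit 83) (nat_lit 1) (nat_lit 88) (nat_lit 1) (nat_lit 214) (nat_lit 210) (nat_lit 176)) (XT.lf (nat_lit 84) (nat_lit 415233641) (nat_lit 0) (nat_lit 2488967903) (nat_lit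 504) (nat_lit 415233641) (nat_lit 84) (nat_lit 1) (nat_lit 83) (nat_lit 1) (nat_lit 89) (nat_lit 1) (nat_lit 215) (nat_lit 210) (nat_lit 175))) (XT.nd (nat_lit 94) (nat_lit 504) (nat_lit 0) (XT.lf (nat_lit 420) (nat_lit 214819821) (nat_lit 0) (nat_lit 1529056436) (nat_lit 336) (nat_lit 1529056436) (nat_lit 84) (nat_lit 1) (nat_lit 79) (nat_lit 1) (nat_lit 83) (nat_lit 1) (nat_lit 216) (nat_lit 210) (nat_lit 174)) (XT.lf (nat_lit 504) (nat_lit 2849493514) (nat_lit 0) (nat_lit 189062691) (nat_lit 420) (nat_lit 189062691) (nat_lit 79) (nat_lit 1) (nat_lit 73) (nat_lit 1) (nat_lit 78) (nat_lit 1) (nat_lit 217) (nat_lit 210) (nat_lit 173))))))) (XT.nd (nat_lit 34404) (nat_lit 0) (nat_lit 6720) (XT.nd (nat_lit 564) (nat_lit 336) (nat_lit 0) (XT.nd (nat_lit 282) (nat_lit 756) (nat_lit 0) (XT.nd (nat_lit 94) (nat_lit 336) (nat_lit 0) (XT.lf (nat_lit 84) (nat_lit 1102291330) (nat_lit 0) (nat_lit 978062615)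 (nat_lit 504) (nat_lit 1102291330) (nat_lit 74) (nat_lit 1) (nat_lit 73) (nat_lit 1) (nat_lit 79) (nat_lit 1) (nat_lit 218) (nat_lit 210) (nat_lit 172)) (XT.nd (nat_lit 94) (nat_lit 0) (nat_lit 0) (XT.lf (nat_lit 420) (nat_lit 1570329834) (nat_lit 0) (nat_lit 784242797) (nat_lit 336) (nat_lit 784242797) (nat_lit 74) (nat_lit 1) (nat_lit 69) (nat_lit 1) (nat_lit 73) (nat_lit 1) (nat_lit 219) (nat_lit 210) (nat_lit 171)) (XT.lf (nat_lit 84) (nat_lit 469707966) (nat_lit 0) (nat_lit 2156439430) (nat_lit 420) (nat_lit 469707966) (nat_lit 70) (nat_lit 1) (nat_lit 69) (nat_lit 1) (nat_lit 74) (nat_lit 1) (nat_lit 220) (nat_lit 210) (nat_lit 170)))) (XT.nd (nat_lit 94) (nat_lit 420) (nat_lit 0) (XT.lf (nat_lit 420) (nat_lit 305252468) (nat_lit 0) (nat_lit 1374132106) (nat_lit 336) (nat_lit 1374132106) (nat_lit 70) (nat_lit 1) (nat_lit 65) (nat_lit 1) (nat_lit 69) (nat_lit 1) (nat_lit 221) (nat_lit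 210) (nat_lit 169)) (XT.nd (nat_lit 94) (nat_lit 0) (nat_lit 0) (XT.lf (nat_lit 420) (nat_lit 2704806097) (nat_lit 0) (nat_lit 153720310) (nat_lit 336) (nat_lit 153720310) (nat_lit 65) (nat_lit 1) (nat_lit 60) (nat_lit 1) (nat_lit 64) (nat_lit 1) (nat_lit 222) (nat_lit 210) (nat_lit 168)) (XT.lf (nat_lit 84) (nat_lit 1024168940) (nat_lit 0) (nat_lit 922864652) (nat_lit 420) (nat_lit 1024168940) (nat_lit 61) (nat_lit 1) (nat_lit 60) (nat_lit 1) (nat_lit 65) (nat_lit 1) (nat_lit 223) (nat_lit 210) (nat_lit 167))))) (XT.nd (nat_lit 33464) (nat_lit 0) (nat_lit 8652) (XT.nd (nat_lit 94) (nat_lit 0) (nat_lit 0) (XT.lf (nat_lit 420) (nat_lit 1403547814) (nat_lit 0) (nat_lit 763821355) (nat_lit 336) (nat_lit 763821355) (nat_lit 61) (nat_lit 1) (nat_lit 56) (nat_lit 1) (nat_lit 60) (nat_lit 1) (nat_lit 224) (nat_lit 210) (nat_lit 166)) (XT.nd (nat_lit 33276) (nat_lit 0) (nat_lit 8652) (XT.lf (nat_lit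 84) (nat_lit 382188177) (nat_lit 0) (nat_lit 2127607876) (nat_lit 420) (nat_lit 382188177) (nat_lit 57) (nat_lit 1) (nat_lit 56) (nat_lit 1) (nat_lit 61) (nat_lit 1) (nat_lit 225) (nat_lit 210) (nat_lit 165)) (XT.lf (nat_lit 1260) (nat_lit 841201791) (nat_lit 0) (nat_lit 1279850109) (nat_lit 1260) (nat_lit 841201791) (nat_lit 174) (nat_lit 1) (nat_lit 159) (nat_lit 0) (nat_lit 174) (nat_lit 0) (nat_lit 178) (nat_lit 211) (nat_lit 211)))) (XT.nd (nat_lit 188) (nat_lit 0) (nat_lit 84) (XT.nd (nat_lit 94) (nat_lit 0) (nat_lit 84) (XT.lf (nat_lit 1260) (nat_lit 3293323166) (nat_lit 84) (nat_lit 1265258984) (nat_lit 0) (nat_lit 1265258984) (nat_lit 174) (nat_lit 1) (nat_lit 160) (nat_lit 1) (nat_lit 159) (nat_lit 0) (nat_lit 179) (nat_lit 211) (nat_lit 210)) (XT.lf (nat_lit 1260) (nat_lit 1593138742) (nat_lit 0) (nat_lit 2539017258) (nat_lit 1176) (nat_lit 1593138742) (nat_lit 175) (nat_lit 1)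 (nat_lit 160) (nat_lit 1) (nat_lit 174) (nat_lit 1) (nat_lit 180) (nat_lit 211) (nat_lit 209))) (XT.nd (nat_lit 94) (nat_lit 0) (nat_lit 84) (XT.lf (nat_lit 1260) (nat_lit 3053905254) (nat_lit 84) (nat_lit 1287598359) (nat_lit 0) (nat_lit 1287598359) (nat_lit 175) (nat_lit 1) (nat_lit 161) (nat_lit 1) (nat_lit 160) (nat_lit 1) (nat_lit 181) (nat_lit 211) (nat_lit 208)) (XT.lf (nat_lit 1260) (nat_lit 1445395681) (nat_lit 0) (nat_lit 2644179788) (nat_lit 1176) (nat_lit 1445395681) (nat_lit 176) (nat_lit 1) (nat_lit 161) (nat_lit 1) (nat_lit 175) (nat_lit 1) (nat_lit 182) (nat_lit 211) (nat_lit 207)))))) (XT.nd (nat_lit 658) (nat_lit 2100) (nat_lit 0) (XT.nd (nat_lit 282) (nat_lit 0) (nat_lit 168) (XT.nd (nat_lit 94) (nat_lit 0) (nat_lit 84) (XT.lf (nat_lit 1260) (nat_lit 2703048026) (nat_lit 84) (nat_lit 1369978030) (nat_lit 0) (nat_lit 1369978030) (nat_lit 176) (nat_lit 1) (nat_lit 162) (nat_lit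 1) (nat_lit 161) (nat_lit 1) (nat_lit 183) (nat_lit 211) (nat_lit 206)) (XT.nd (nat_lit 94) (nat_lit 0) (nat_lit 0) (XT.lf (nat_lit 1260) (nat_lit 1245240805) (nat_lit 0) (nat_lit 2862611288) (nat_lit 1176) (nat_lit 1245240805) (nat_lit 177) (nat_lit 1) (nat_lit 162) (nat_lit 1) (nat_lit 176) (nat_lit 1) (nat_lit 184) (nat_lit 211) (nat_lit 205)) (XT.lf (nat_lit 1260) (nat_lit 2252467798) (nat_lit 84) (nat_lit 1506325384) (nat_lit 0) (nat_lit 1506325384) (nat_lit 177) (nat_lit 1) (nat_lit 163) (nat_lit 1) (nat_lit 162) (nat_lit 1) (nat_lit 185) (nat_lit 211) (nat_lit 204)))) (XT.nd (nat_lit 188) (nat_lit 0) (nat_lit 84) (XT.nd (nat_lit 94) (nat_lit 0) (nat_lit 0) (XT.lf (nat_lit 1260) (nat_lit 998263510) (nat_lit 0) (nat_lit 3182713783) (nat_lit 1176) (nat_lit 998263510) (nat_lit 178) (nat_lit 1) (nat_lit 163) (nat_lit 1) (nat_lit 177) (nat_lit 1) (nat_lit 186) (nat_lit 211) (nat_lit 203))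 (XT.lf (nat_lit 1260) (nat_lit 1712956235) (nat_lit 84) (nat_lit 1691041928) (nat_lit 0) (nat_lit 1691041928) (nat_lit 178) (nat_lit 1) (nat_lit 164) (nat_lit 1) (nat_lit 163) (nat_lit 1) (nat_lit 187) (nat_lit 211) (nat_lit 202))) (XT.nd (nat_lit 94) (nat_lit 0) (nat_lit 0) (XT.lf (nat_lit 1260) (nat_lit 709610386) (nat_lit 0) (nat_lit 3593797961) (nat_lit 1176) (nat_lit 709610386) (nat_lit 179) (nat_lit 1) (nat_lit 164) (nat_lit 1) (nat_lit 178) (nat_lit 1) (nat_lit 188) (nat_lit 211) (nat_lit 201)) (XT.lf (nat_lit 1260) (nat_lit 1094446757) (nat_lit 84) (nat_lit 1918969387) (nat_lit 0) (nat_lit 1918969387) (nat_lit 179) (nat_lit 1) (nat_lit 165) (nat_lit 1) (nat_lit 164) (nat_lit 1) (nat_lit 189) (nat_lit 211) (nat_lit 200))))) (XT.nd (nat_lit 282) (nat_lit 2436) (nat_lit 0) (XT.nd (nat_lit 94) (nat_lit 0) (nat_lit 0) (XT.lf (nat_lit 1260) (nat_lit 384017070) (nat_lit 0) (nat_lit 4086018110)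 (nat_lit 1176) (nat_lit 384017070) (nat_lit 180) (nat_lit 1) (nat_lit 165) (nat_lit 1) (nat_lit 179) (nat_lit 1) (nat_lit 190) (nat_lit 211) (nat_lit 199)) (XT.nd (nat_lit 94) (nat_lit 0) (nat_lit 84) (XT.lf (nat_lit 1260) (nat_lit 406076363) (nat_lit 84) (nat_lit 2185358138) (nat_lit 0) (nat_lit 2185358138) (nat_lit 180) (nat_lit 1) (nat_lit 166) (nat_lit 1) (nat_lit 165) (nat_lit 1) (nat_lit 191) (nat_lit 211) (nat_lit 198)) (XT.lf (nat_lit 84) (nat_lit 25837890) (nat_lit 0) (nat_lit 4650311534) (nat_lit 1176) (nat_lit 25837890) (nat_lit 167) (nat_lit 1) (nat_lit 166) (nat_lit 1) (nat_lit 180) (nat_lit 1) (nat_lit 192) (nat_lit 211) (nat_lit 197)))) (XT.nd (nat_lit 188) (nat_lit 588) (nat_lit 0) (XT.nd (nat_lit 94) (nat_lit 672) (nat_lit 0) (XT.lf (nat_lit 84) (nat_lit 2145911182) (nat_lit 0) (nat_lit 335962385) (nat_lit 1260) (nat_lit 2145911182) (nat_lit 152) (nat_lit 1) (nat_lit 151)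 (nat_lit 1) (nat_lit 166) (nat_lit 1) (nat_lit 193) (nat_lit 211) (nat_lit 196)) (XT.lf (nat_lit 756) (nat_lit 3842299289) (nat_lit 0) (nat_lit 356811733) (nat_lit 672) (nat_lit 356811733) (nat_lit 152) (nat_lit 1) (nat_lit 143) (nat_lit 1) (nat_lit 151) (nat_lit 1) (nat_lit 194) (nat_lit 211) (nat_lit 195))) (XT.nd (nat_lit 94) (nat_lit 588) (nat_lit 0) (XT.lf (nat_lit 84) (nat_lit 1681833800) (nat_lit 0) (nat_lit 1121324874) (nat_lit 756) (nat_lit 1681833800) (nat_lit 144) (nat_lit 1) (nat_lit 143) (nat_lit 1) (nat_lit 152) (nat_lit 1) (nat_lit 195) (nat_lit 211) (nat_lit 194)) (XT.lf (nat_lit 672) (nat_lit 2888437691) (nat_lit 0) (nat_lit 763795404) (nat_lit 588) (nat_lit 763795404) (nat_lit 144) (nat_lit 1) (nat_lit 136) (nat_lit 1) (nat_lit 143) (nat_lit 1) (nat_lit 196) (nat_lit 211) (nat_lit 193))))))))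
noncomputable def ec11 : XT := (XT.nd (nat_lit 2538) (nat_lit 672) (nat_lit 0) (XT.nd (nat_lit 1222) (nat_lit 3108) (nat_lit 0) (XT.nd (nat_lit 564) (nat_lit 1932) (nat_lit 0) (XT.nd (nat_lit 282) (nat_lit 1092) (nat_lit 0) (XT.nd (nat_lit 94) (nat_lit 588) (nat_lit 0) (XT.lf (nat_lit 84) (nat_lit 1197984266) (nat_lit 0) (nat_lit 1952301687) (nat_lit 672) (nat_lit 1197984266) (nat_lit 137) (nat_lit 1) (nat_lit 136) (nat_lit 1) (nat_lit 144) (nat_lit 1) (nat_lit 197) (nat_lit 211) (nat_lit 192)) (XT.nd (nat_lit 94) (nat_lit 0) (nat_lit 0) (XT.lf (nat_lit 672) (nat_lit 1897895409) (nat_lit 0) (nat_lit 1192077602) (nat_lit 588) (nat_lit 1192077602) (nat_lit 137) (nat_lit 1) (nat_lit 129) (nat_lit 1) (nat_lit 136) (nat_lit 1) (nat_lit 198) (nat_lit 211) (nat_lit 191)) (XT.lf (nat_lit 84) (nat_lit 697389285) (nat_lit 0) (nat_lit 2822551614) (nat_lit 672) (nat_lit 697389285) (nat_lit 130) (nat_lit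 1) (nat_lit 129) (nat_lit 1) (nat_lit 137) (nat_lit 1) (nat_lit 199) (nat_lit 211) (nat_lit 190)))) (XT.nd (nat_lit 94) (nat_lit 588) (nat_lit 0) (XT.lf (nat_lit 588) (nat_lit 876496419) (nat_lit 0) (nat_lit 1638606888) (nat_lit 504) (nat_lit 1638606888) (nat_lit 130) (nat_lit 1) (nat_lit 123) (nat_lit 1) (nat_lit 129) (nat_lit 1) (nat_lit 200) (nat_lit 211) (nat_lit 189)) (XT.nd (nat_lit 94) (nat_lit 588) (nat_lit 0) (XT.lf (nat_lit 84) (nat_lit 182816425) (nat_lit 0) (nat_lit 3726266943) (nat_lit 588) (nat_lit 182816425) (nat_lit 124) (nat_lit 1) (nat_lit 123) (nat_lit 1) (nat_lit 130) (nat_lit 1) (nat_lit 201) (nat_lit 211) (nat_lit 188)) (XT.lf (nat_lit 84) (nat_lit 1932052036) (nat_lit 0) (nat_lit 166572474) (nat_lit 588) (nat_lit 1932052036) (nat_lit 117) (nat_lit 1) (nat_lit 116) (nat_lit 1) (nat_lit 123) (nat_lit 1) (nat_lit 202) (nat_lit 211) (nat_lit 187))))) (XT.nd (nat_lit 282)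 (nat_lit 924) (nat_lit 0) (XT.nd (nat_lit 94) (nat_lit 504) (nat_lit 0) (XT.lf (nat_lit 588) (nat_lit 3292594433) (nat_lit 0) (nat_lit 339293921) (nat_lit 504) (nat_lit 339293921) (nat_lit 117) (nat_lit 1) (nat_lit 110) (nat_lit 1) (nat_lit 116) (nat_lit 1) (nat_lit 203) (nat_lit 211) (nat_lit 186)) (XT.nd (nat_lit 94) (nat_lit 504) (nat_lit 0) (XT.lf (nat_lit 84) (nat_lit 1351220297) (nat_lit 0) (nat_lit 1209975262) (nat_lit 588) (nat_lit 1351220297) (nat_lit 111) (nat_lit 1) (nat_lit 110) (nat_lit 1) (nat_lit 117) (nat_lit 1) (nat_lit 204) (nat_lit 211) (nat_lit 185)) (XT.lf (nat_lit 588) (nat_lit 2118449144) (nat_lit 0) (nat_lit 868360542) (nat_lit 504) (nat_lit 868360542) (nat_lit 111) (nat_lit 1) (nat_lit 104) (nat_lit 1) (nat_lit 110) (nat_lit 1) (nat_lit 205) (nat_lit 211) (nat_lit 184)))) (XT.nd (nat_lit 188) (nat_lit 504) (nat_lit 0) (XT.nd (nat_lit 94) (nat_lit 420) (nat_lit 0) (XT.lf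 (nat_lit 84) (nat_lit 764887987) (nat_lit 0) (nat_lit 2269258325) (nat_lit 588) (nat_lit 764887987) (nat_lit 105) (nat_lit 1) (nat_lit 104) (nat_lit 1) (nat_lit 111) (nat_lit 1) (nat_lit 206) (nat_lit 211) (nat_lit 183)) (XT.lf (nat_lit 504) (nat_lit 935138605) (nat_lit 0) (nat_lit 1404391608) (nat_lit 420) (nat_lit 1404391608) (nat_lit 105) (nat_lit 1) (nat_lit 99) (nat_lit 1) (nat_lit 104) (nat_lit 1) (nat_lit 207) (nat_lit 211) (nat_lit 182))) (XT.nd (nat_lit 94) (nat_lit 504) (nat_lit 0) (XT.lf (nat_lit 84) (nat_lit 174912804) (nat_lit 0) (nat_lit 3340482761) (nat_lit 504) (nat_lit 174912804) (nat_lit 100) (nat_lit 1) (nat_lit 99) (nat_lit 1) (nat_lit 105) (nat_lit 1) (nat_lit 208) (nat_lit 211) (nat_lit 181)) (XT.lf (nat_lit 84) (nat_lit 1694548735) (nat_lit 0) (nat_lit 248023642) (nat_lit 504) (nat_lit 1694548735) (nat_lit 94) (nat_lit 1) (nat_lit 93) (nat_lit 1) (nat_lit 99) (nat_lit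 1) (nat_lit 209) (nat_lit 211) (nat_lit 180)))))) (XT.nd (nat_lit 658) (nat_lit 1428) (nat_lit 0) (XT.nd (nat_lit 282) (nat_lit 840) (nat_lit 0) (XT.nd (nat_lit 94) (nat_lit 420) (nat_lit 0) (XT.lf (nat_lit 504) (nat_lit 2760837253) (nat_lit 0) (nat_lit 412267205) (nat_lit 420) (nat_lit 412267205) (nat_lit 94) (nat_lit 1) (nat_lit 88) (nat_lit 1) (nat_lit 93) (nat_lit 1) (nat_lit 210) (nat_lit 211) (nat_lit 179)) (XT.nd (nat_lit 94) (nat_lit 420) (nat_lit 0) (XT.lf (nat_lit 84) (nat_lit 1060992114) (nat_lit 0) (nat_lit 1412311306) (nat_lit 504) (nat_lit 1060992114) (nat_lit 89) (nat_lit 1) (nat_lit 88) (nat_lit 1) (nat_lit 94) (nat_lit 1) (nat_lit 211) (nat_lit 211) (nat_lit 178)) (XT.lf (nat_lit 504) (nat_lit 1488633662) (nat_lit 0) (nat_lit 997884235) (nat_lit 420) (nat_lit 997884235) (nat_lit 89) (nat_lit 1) (nat_lit 83) (nat_lit 1) (nat_lit 88) (nat_lit 1) (nat_lit 212) (nat_lit 211) (nat_lit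 177)))) (XT.nd (nat_lit 188) (nat_lit 504) (nat_lit 0) (XT.nd (nat_lit 94) (nat_lit 336) (nat_lit 0) (XT.lf (nat_lit 84) (nat_lit 429766818) (nat_lit 0) (nat_lit 2576081780) (nat_lit 504) (nat_lit 429766818) (nat_lit 84) (nat_lit 1) (nat_lit 83) (nat_lit 1) (nat_lit 89) (nat_lit 1) (nat_lit 213) (nat_lit 211) (nat_lit 176)) (XT.lf (nat_lit 420) (nat_lit 222338515) (nat_lit 0) (nat_lit 1582573411) (nat_lit 336) (nat_lit 1582573411) (nat_lit 84) (nat_lit 1) (nat_lit 79) (nat_lit 1) (nat_lit 83) (nat_lit 1) (nat_lit 214) (nat_lit 211) (nat_lit 175))) (XT.nd (nat_lit 94) (nat_lit 0) (nat_lit 0) (XT.lf (nat_lit 504) (nat_lit 2949225787) (nat_lit 0) (nat_lit 195679885) (nat_lit 420) (nat_lit 195679885) (nat_lit 79) (nat_lit 1) (nat_lit 73) (nat_lit 1) (nat_lit 78) (nat_lit 1) (nat_lit 215) (nat_lit 211) (nat_lit 174)) (XT.lf (nat_lit 84) (nat_lit 1140871526) (nat_lit 0) (nat_lit 1012294806) (nat_lit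 504) (nat_lit 1140871526) (nat_lit 74) (nat_lit 1) (nat_lit 73) (nat_lit 1) (nat_lit 79) (nat_lit 1) (nat_lit 216) (nat_lit 211) (nat_lit 173))))) (XT.nd (nat_lit 282) (nat_lit 756) (nat_lit 0) (XT.nd (nat_lit 94) (nat_lit 336) (nat_lit 0) (XT.lf (nat_lit 420) (nat_lit 1625291378) (nat_lit 0) (nat_lit 811691295) (nat_lit 336) (nat_lit 811691295) (nat_lit 74) (nat_lit 1) (nat_lit 69) (nat_lit 1) (nat_lit 73) (nat_lit 1) (nat_lit 217) (nat_lit 211) (nat_lit 172)) (XT.nd (nat_lit 94) (nat_lit 336) (nat_lit 0) (XT.lf (nat_lit 84) (nat_lit 486147744) (nat_lit 0) (nat_lit 2231914811) (nat_lit 420) (nat_lit 486147744) (nat_lit 70) (nat_lit 1) (nat_lit 69) (nat_lit 1) (nat_lit 74) (nat_lit 1) (nat_lit 218) (nat_lit 211) (nat_lit 171)) (XT.lf (nat_lit 420) (nat_lit 315936304) (nat_lit 0) (nat_lit 1422226730) (nat_lit 336) (nat_lit 1422226730) (nat_lit 70) (nat_lit 1) (nat_lit 65) (nat_lit 1) (nat_lit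 69) (nat_lit 1) (nat_lit 219) (nat_lit 211) (nat_lit 170)))) (XT.nd (nat_lit 188) (nat_lit 336) (nat_lit 0) (XT.nd (nat_lit 94) (nat_lit 0) (nat_lit 0) (XT.lf (nat_lit 420) (nat_lit 2799474310) (nat_lit 0) (nat_lit 159100521) (nat_lit 336) (nat_lit 159100521) (nat_lit 65) (nat_lit 1) (nat_lit 60) (nat_lit 1) (nat_lit 64) (nat_lit 1) (nat_lit 220) (nat_lit 211) (nat_lit 169)) (XT.lf (nat_lit 84) (nat_lit 1060014853) (nat_lit 0) (nat_lit 955164915) (nat_lit 420) (nat_lit 1060014853) (nat_lit 61) (nat_lit 1) (nat_lit 60) (nat_lit 1) (nat_lit 65) (nat_lit 1) (nat_lit 221) (nat_lit 211) (nat_lit 168))) (XT.nd (nat_lit 94) (nat_lit 0) (nat_lit 0) (XT.lf (nat_lit 420) (nat_lit 1452671988) (nat_lit 0) (nat_lit 790555102) (nat_lit 336) (nat_lit 790555102) (nat_lit 61) (nat_lit 1) (nat_lit 56) (nat_lit 1) (nat_lit 60) (nat_lit 1) (nat_lit 222) (nat_lit 211) (nat_lit 167)) (XT.lf (nat_lit 84) (nat_lit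 395564763) (nat_lit 0) (nat_lit 2202074152) (nat_lit 420) (nat_lit 395564763) (nat_lit 57) (nat_lit 1) (nat_lit 56) (nat_lit 1) (nat_lit 61) (nat_lit 1) (nat_lit 223) (nat_lit 211) (nat_lit 166))))))) (XT.nd (nat_lit 34310) (nat_lit 0) (nat_lit 5208) (XT.nd (nat_lit 33652) (nat_lit 0) (nat_lit 9492) (XT.nd (nat_lit 33276) (nat_lit 0) (nat_lit 9324) (XT.nd (nat_lit 94) (nat_lit 420) (nat_lit 0) (XT.lf (nat_lit 336) (nat_lit 126852987) (nat_lit 0) (nat_lit 1413147717) (nat_lit 252) (nat_lit 1413147717) (nat_lit 57) (nat_lit 1) (nat_lit 53) (nat_lit 1) (nat_lit 56) (nat_lit 1) (nat_lit 224) (nat_lit 211) (nat_lit 165)) (XT.nd (nat_lit 33088) (nat_lit 0) (nat_lit 9324) (XT.lf (nat_lit 420) (nat_lit 2403457637) (nat_lit 0) (nat_lit 255267710) (nat_lit 336) (nat_lit 255267710) (nat_lit 53) (nat_lit 1) (nat_lit 48) (nat_lit 1) (nat_lit 52) (nat_lit 1) (nat_lit 225) (nat_lit 211) (nat_lit 164)) (XT.lf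 (nat_lit 1260) (nat_lit 870643854) (nat_lit 0) (nat_lit 1324644863) (nat_lit 1260) (nat_lit 870643854) (nat_lit 174) (nat_lit 1) (nat_lit 159) (nat_lit 0) (nat_lit 174) (nat_lit 0) (nat_lit 176) (nat_lit 212) (nat_lit 212)))) (XT.nd (nat_lit 188) (nat_lit 0) (nat_lit 84) (XT.nd (nat_lit 94) (nat_lit 0) (nat_lit 84) (XT.lf (nat_lit 1260) (nat_lit 3408589477) (nat_lit 84) (nat_lit 1309543048) (nat_lit 0) (nat_lit 1309543048) (nat_lit 174) (nat_lit 1) (nat_lit 160) (nat_lit 1) (nat_lit 159) (nat_lit 0) (nat_lit 177) (nat_lit 212) (nat_lit 211)) (XT.lf (nat_lit 1260) (nat_lit 1648898598) (nat_lit 0) (nat_lit 2627882862) (nat_lit 1176) (nat_lit 1648898598) (nat_lit 175) (nat_lit 1) (nat_lit 160) (nat_lit 1) (nat_lit 174) (nat_lit 1) (nat_lit 178) (nat_lit 212) (nat_lit 210))) (XT.nd (nat_lit 94) (nat_lit 0) (nat_lit 84) (XT.lf (nat_lit 1260) (nat_lit 3160791938) (nat_lit 84) (nat_lit 1332664301)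 (nat_lit 0) (nat_lit 1332664301) (nat_lit 175) (nat_lit 1) (nat_lit 161) (nat_lit 1) (nat_lit 160) (nat_lit 1) (nat_lit 179) (nat_lit 212) (nat_lit 209)) (XT.lf (nat_lit 1260) (nat_lit 1495984530) (nat_lit 0) (nat_lit 2736726080) (nat_lit 1176) (nat_lit 1495984530) (nat_lit 176) (nat_lit 1) (nat_lit 161) (nat_lit 1) (nat_lit 175) (nat_lit 1) (nat_lit 180) (nat_lit 212) (nat_lit 208))))) (XT.nd (nat_lit 282) (nat_lit 0) (nat_lit 168) (XT.nd (nat_lit 94) (nat_lit 0) (nat_lit 84) (XT.lf (nat_lit 1260) (nat_lit 2797654707) (nat_lit 84) (nat_lit 1417927261) (nat_lit 0) (nat_lit 1417927261) (nat_lit 176) (nat_lit 1) (nat_lit 162) (nat_lit 1) (nat_lit 161) (nat_lit 1) (nat_lit 181) (nat_lit 212) (nat_lit 207)) (XT.nd (nat_lit 94) (nat_lit 0) (nat_lit 0) (XT.lf (nat_lit 1260) (nat_lit 1288824233) (nat_lit 0) (nat_lit 2962802683) (nat_lit 1176) (nat_lit 1288824233) (nat_lit 177) (nat_lit 1) (nat_lit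 162) (nat_lit 1) (nat_lit 176) (nat_lit 1) (nat_lit 182) (nat_lit 212) (nat_lit 206)) (XT.lf (nat_lit 1260) (nat_lit 2331304171) (nat_lit 84) (nat_lit 1559046772) (nat_lit 0) (nat_lit 1559046772) (nat_lit 177) (nat_lit 1) (nat_lit 163) (nat_lit 1) (nat_lit 162) (nat_lit 1) (nat_lit 183) (nat_lit 212) (nat_lit 205)))) (XT.nd (nat_lit 188) (nat_lit 0) (nat_lit 84) (XT.nd (nat_lit 94) (nat_lit 0) (nat_lit 0) (XT.lf (nat_lit 1260) (nat_lit 1033202733) (nat_lit 0) (nat_lit 3294108765) (nat_lit 1176) (nat_lit 1033202733) (nat_lit 178) (nat_lit 1) (nat_lit 163) (nat_lit 1) (nat_lit 177) (nat_lit 1) (nat_lit 184) (nat_lit 212) (nat_lit 204)) (XT.lf (nat_lit 1260) (nat_lit 1772909703) (nat_lit 84) (nat_lit 1750228395) (nat_lit 0) (nat_lit 1750228395) (nat_lit 178) (nat_lit 1) (nat_lit 164) (nat_lit 1) (nat_lit 163) (nat_lit 1) (nat_lit 185) (nat_lit 212) (nat_lit 203))) (XT.nd (nat_lit 94) (nat_lit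 0) (nat_lit 0) (XT.lf (nat_lit 1260) (nat_lit 734446750) (nat_lit 0) (nat_lit 3719580889) (nat_lit 1176) (nat_lit 734446750) (nat_lit 179) (nat_lit 1) (nat_lit 164) (nat_lit 1) (nat_lit 178) (nat_lit 1) (nat_lit 186) (nat_lit 212) (nat_lit 202)) (XT.lf (nat_lit 1260) (nat_lit 1132752394) (nat_lit 84) (nat_lit 1986133316) (nat_lit 0) (nat_lit 1986133316) (nat_lit 179) (nat_lit 1) (nat_lit 165) (nat_lit 1) (nat_lit 164) (nat_lit 1) (nat_lit 187) (nat_lit 212) (nat_lit 201)))))) (XT.nd (nat_lit 658) (nat_lit 2184) (nat_lit 0) (XT.nd (nat_lit 282) (nat_lit 2436) (nat_lit 0) (XT.nd (nat_lit 94) (nat_lit 0) (nat_lit 0) (XT.lf (nat_lit 1260) (nat_lit 397457668) (nat_lit 0) (nat_lit 4229028744) (nat_lit 1176) (nat_lit 397457668) (nat_lit 180) (nat_lit 1) (nat_lit 165) (nat_lit 1) (nat_lit 179) (nat_lit 1) (nat_lit 188) (nat_lit 212) (nat_lit 200)) (XT.nd (nat_lit 94) (nat_lit 0) (nat_lit 84) (XT.lf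 (nat_lit 1260) (nat_lit 420289036) (nat_lit 84) (nat_lit 2261845673) (nat_lit 0) (nat_lit 2261845673) (nat_lit 180) (nat_lit 1) (nat_lit 166) (nat_lit 1) (nat_lit 165) (nat_lit 1) (nat_lit 189) (nat_lit 212) (nat_lit 199)) (XT.lf (nat_lit 84) (nat_lit 26742216) (nat_lit 0) (nat_lit 4813072438) (nat_lit 1176) (nat_lit 26742216) (nat_lit 167) (nat_lit 1) (nat_lit 166) (nat_lit 1) (nat_lit 180) (nat_lit 1) (nat_lit 190) (nat_lit 212) (nat_lit 198)))) (XT.nd (nat_lit 188) (nat_lit 588) (nat_lit 0) (XT.nd (nat_lit 94) (nat_lit 672) (nat_lit 0) (XT.lf (nat_lit 84) (nat_lit 2221018073) (nat_lit 0) (nat_lit 347721068) (nat_lit 1260) (nat_lit 2221018073) (nat_lit 152) (nat_lit 1) (nat_lit 151) (nat_lit 1) (nat_lit 166) (nat_lit 1) (nat_lit 191) (nat_lit 212) (nat_lit 197)) (XT.lf (nat_lit 756) (nat_lit 3976779764) (nat_lit 0) (nat_lit 369300143) (nat_lit 672) (nat_lit 369300143) (nat_lit 152) (nat_lit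 1) (nat_lit 143) (nat_lit 1) (nat_lit 151) (nat_lit 1) (nat_lit 192) (nat_lit 212) (nat_lit 196))) (XT.nd (nat_lit 94) (nat_lit 588) (nat_lit 0) (XT.lf (nat_lit 84) (nat_lit 1740697983) (nat_lit 0) (nat_lit 1160571245) (nat_lit 756) (nat_lit 1740697983) (nat_lit 144) (nat_lit 1) (nat_lit 143) (nat_lit 1) (nat_lit 152) (nat_lit 1) (nat_lit 193) (nat_lit 212) (nat_lit 195)) (XT.lf (nat_lit 672) (nat_lit 2989533010) (nat_lit 0) (nat_lit 790528243) (nat_lit 588) (nat_lit 790528243) (nat_lit 144) (nat_lit 1) (nat_lit 136) (nat_lit 1) (nat_lit 143) (nat_lit 1) (nat_lit 194) (nat_lit 212) (nat_lit 194))))) (XT.nd (nat_lit 282) (nat_lit 1596) (nat_lit 0) (XT.nd (nat_lit 94) (nat_lit 588) (nat_lit 0) (XT.lf (nat_lit 84) (nat_lit 1239913715) (nat_lit 0) (nat_lit 2020632246) (nat_lit 672) (nat_lit 1239913715) (nat_lit 137) (nat_lit 1) (nat_lit 136) (nat_lit 1) (nat_lit 144) (nat_lit 1) (nat_lit 195)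 (nat_lit 212) (nat_lit 193)) (XT.nd (nat_lit 94) (nat_lit 0) (nat_lit 0) (XT.lf (nat_lit 672) (nat_lit 1964321749) (nat_lit 0) (nat_lit 1233800318) (nat_lit 588) (nat_lit 1233800318) (nat_lit 137) (nat_lit 1) (nat_lit 129) (nat_lit 1) (nat_lit 136) (nat_lit 1) (nat_lit 196) (nat_lit 212) (nat_lit 192)) (XT.lf (nat_lit 84) (nat_lit 721797911) (nat_lit 0) (nat_lit 2921340921) (nat_lit 672) (nat_lit 721797911) (nat_lit 130) (nat_lit 1) (nat_lit 129) (nat_lit 1) (nat_lit 137) (nat_lit 1) (nat_lit 197) (nat_lit 212) (nat_lit 191)))) (XT.nd (nat_lit 188) (nat_lit 1092) (nat_lit 0) (XT.nd (nat_lit 94) (nat_lit 0) (nat_lit 0) (XT.lf (nat_lit 588) (nat_lit 907173794) (nat_lit 0) (nat_lit 1695958129) (nat_lit 504) (nat_lit 1695958129) (nat_lit 130) (nat_lit 1) (nat_lit 123) (nat_lit 1) (nat_lit 129) (nat_lit 1) (nat_lit 198) (nat_lit 212) (nat_lit 190)) (XT.lf (nat_lit 84) (nat_lit 189215000) (nat_lit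 0) (nat_lit 3856686286) (nat_lit 588) (nat_lit 189215000) (nat_lit 124) (nat_lit 1) (nat_lit 123) (nat_lit 1) (nat_lit 130) (nat_lit 1) (nat_lit 199) (nat_lit 212) (nat_lit 189))) (XT.nd (nat_lit 94) (nat_lit 504) (nat_lit 0) (XT.lf (nat_lit 84) (nat_lit 1999673857) (nat_lit 0) (nat_lit 172402510) (nat_lit 588) (nat_lit 1999673857) (nat_lit 117) (nat_lit 1) (nat_lit 116) (nat_lit 1) (nat_lit 123) (nat_lit 1) (nat_lit 200) (nat_lit 212) (nat_lit 188)) (XT.lf (nat_lit 588) (nat_lit 3407835238) (nat_lit 0) (nat_lit 351169208) (nat_lit 504) (nat_lit 351169208) (nat_lit 117) (nat_lit 1) (nat_lit 110) (nat_lit 1) (nat_lit 116) (nat_lit 1) (nat_lit 201) (nat_lit 212) (nat_lit 187))))))))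
noncomputable def ec12 : XT := (XT.nd (nat_lit 35438) (nat_lit 0) (nat_lit 4284) (XT.nd (nat_lit 1222) (nat_lit 2100) (nat_lit 0) (XT.nd (nat_lit 564) (nat_lit 1680) (nat_lit 0) (XT.nd (nat_lit 282) (nat_lit 924) (nat_lit 0) (XT.nd (nat_lit 94) (nat_lit 504) (nat_lit 0) (XT.lf (nat_lit 84) (nat_lit 1398513008) (nat_lit 0) (nat_lit 1252324397) (nat_lit 588) (nat_lit 1398513008) (nat_lit 111) (nat_lit 1) (nat_lit 110) (nat_lit 1) (nat_lit 117) (nat_lit 1) (nat_lit 202) (nat_lit 212) (nat_lit 186)) (XT.nd (nat_lit 94) (nat_lit 0) (nat_lit 0) (XT.lf (nat_lit 588) (nat_lit 2192594864) (nat_lit 0) (nat_lit 898753161) (nat_lit 504) (nat_lit 898753161) (nat_lit 111) (nat_lit 1) (nat_lit 104) (nat_lit 1) (nat_lit 110) (nat_lit 1) (nat_lit 203) (nat_lit 212) (nat_lit 185)) (XT.lf (nat_lit 84) (nat_lit 791659067) (nat_lit 0) (nat_lit 2348682367) (nat_lit 588) (nat_lit 791659067) (nat_lit 105) (nat_lit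 1) (nat_lit 104) (nat_lit 1) (nat_lit 111) (nat_lit 1) (nat_lit 204) (nat_lit 212) (nat_lit 184)))) (XT.nd (nat_lit 94) (nat_lit 504) (nat_lit 0) (XT.lf (nat_lit 504) (nat_lit 967868456) (nat_lit 0) (nat_lit 1453545315) (nat_lit 420) (nat_lit 1453545315) (nat_lit 105) (nat_lit 1) (nat_lit 99) (nat_lit 1) (nat_lit 104) (nat_lit 1) (nat_lit 205) (nat_lit 212) (nat_lit 183)) (XT.nd (nat_lit 94) (nat_lit 504) (nat_lit 0) (XT.lf (nat_lit 84) (nat_lit 181034753) (nat_lit 0) (nat_lit 3457399657) (nat_lit 504) (nat_lit 181034753) (nat_lit 100) (nat_lit 1) (nat_lit 99) (nat_lit 1) (nat_lit 105) (nat_lit 1) (nat_lit 206) (nat_lit 212) (nat_lit 182)) (XT.lf (nat_lit 84) (nat_lit 1753857941) (nat_lit 0) (nat_lit 256704470) (nat_lit 504) (nat_lit 1753857941) (nat_lit 94) (nat_lit 1) (nat_lit 93) (nat_lit 1) (nat_lit 99) (nat_lit 1) (nat_lit 207) (nat_lit 212) (nat_lit 181))))) (XT.nd (nat_lit 282) (nat_lit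 840) (nat_lit 0) (XT.nd (nat_lit 94) (nat_lit 420) (nat_lit 0) (XT.lf (nat_lit 504) (nat_lit 2857466557) (nat_lit 0) (nat_lit 426696557) (nat_lit 420) (nat_lit 426696557) (nat_lit 94) (nat_lit 1) (nat_lit 88) (nat_lit 1) (nat_lit 93) (nat_lit 1) (nat_lit 208) (nat_lit 212) (nat_lit 180)) (XT.nd (nat_lit 94) (nat_lit 420) (nat_lit 0) (XT.lf (nat_lit 84) (nat_lit 1098126838) (nat_lit 0) (nat_lit 1461742202) (nat_lit 504) (nat_lit 1098126838) (nat_lit 89) (nat_lit 1) (nat_lit 88) (nat_lit 1) (nat_lit 94) (nat_lit 1) (nat_lit 209) (nat_lit 212) (nat_lit 179)) (XT.lf (nat_lit 504) (nat_lit 1540735840) (nat_lit 0) (nat_lit 1032810183) (nat_lit 420) (nat_lit 1032810183) (nat_lit 89) (nat_lit 1) (nat_lit 83) (nat_lit 1) (nat_lit 88) (nat_lit 1) (nat_lit 210) (nat_lit 212) (nat_lit 178)))) (XT.nd (nat_lit 188) (nat_lit 504) (nat_lit 0) (XT.nd (nat_lit 94) (nat_lit 336) (nat_lit 0) (XT.lf (nat_lit 84)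 (nat_lit 444808657) (nat_lit 0) (nat_lit 2666244642) (nat_lit 504) (nat_lit 444808657) (nat_lit 84) (nat_lit 1) (nat_lit 83) (nat_lit 1) (nat_lit 89) (nat_lit 1) (nat_lit 211) (nat_lit 212) (nat_lit 177)) (XT.lf (nat_lit 420) (nat_lit 230120363) (nat_lit 0) (nat_lit 1637963480) (nat_lit 336) (nat_lit 1637963480) (nat_lit 84) (nat_lit 1) (nat_lit 79) (nat_lit 1) (nat_lit 83) (nat_lit 1) (nat_lit 212) (nat_lit 212) (nat_lit 176))) (XT.nd (nat_lit 94) (nat_lit 0) (nat_lit 0) (XT.lf (nat_lit 504) (nat_lit 3052448689) (nat_lit 0) (nat_lit 202528681) (nat_lit 420) (nat_lit 202528681) (nat_lit 79) (nat_lit 1) (nat_lit 73) (nat_lit 1) (nat_lit 78) (nat_lit 1) (nat_lit 213) (nat_lit 212) (nat_lit 175)) (XT.lf (nat_lit 84) (nat_lit 1180802030) (nat_lit 0) (nat_lit 1047725125) (nat_lit 504) (nat_lit 1180802030) (nat_lit 74) (nat_lit 1) (nat_lit 73) (nat_lit 1) (nat_lit 79) (nat_lit 1) (nat_lit 214) (nat_lit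 212) (nat_lit 174)))))) (XT.nd (nat_lit 658) (nat_lit 672) (nat_lit 0) (XT.nd (nat_lit 282) (nat_lit 756) (nat_lit 0) (XT.nd (nat_lit 94) (nat_lit 336) (nat_lit 0) (XT.lf (nat_lit 420) (nat_lit 1682176577) (nat_lit 0) (nat_lit 840100490) (nat_lit 336) (nat_lit 840100490) (nat_lit 74) (nat_lit 1) (nat_lit 69) (nat_lit 1) (nat_lit 73) (nat_lit 1) (nat_lit 215) (nat_lit 212) (nat_lit 173)) (XT.nd (nat_lit 94) (nat_lit 336) (nat_lit 0) (XT.lf (nat_lit 84) (nat_lit 503162915) (nat_lit 0) (nat_lit 2310031829) (nat_lit 420) (nat_lit 503162915) (nat_lit 70) (nat_lit 1) (nat_lit 69) (nat_lit 1) (nat_lit 74) (nat_lit 1) (nat_lit 216) (nat_lit 212) (nat_lit 172)) (XT.lf (nat_lit 420) (nat_lit 326994075) (nat_lit 0) (nat_lit 1472004666) (nat_lit 336) (nat_lit 1472004666) (nat_lit 70) (nat_lit 1) (nat_lit 65) (nat_lit 1) (nat_lit 69) (nat_lit 1) (nat_lit 217) (nat_lit 212) (nat_lit 171)))) (XT.nd (nat_lit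 188) (nat_lit 336) (nat_lit 0) (XT.nd (nat_lit 94) (nat_lit 0) (nat_lit 0) (XT.lf (nat_lit 420) (nat_lit 2897455911) (nat_lit 0) (nat_lit 164669039) (nat_lit 336) (nat_lit 164669039) (nat_lit 65) (nat_lit 1) (nat_lit 60) (nat_lit 1) (nat_lit 64) (nat_lit 1) (nat_lit 218) (nat_lit 212) (nat_lit 170)) (XT.lf (nat_lit 84) (nat_lit 1097115373) (nat_lit 0) (nat_lit 988595687) (nat_lit 420) (nat_lit 1097115373) (nat_lit 61) (nat_lit 1) (nat_lit 60) (nat_lit 1) (nat_lit 65) (nat_lit 1) (nat_lit 219) (nat_lit 212) (nat_lit 169))) (XT.nd (nat_lit 94) (nat_lit 0) (nat_lit 0) (XT.lf (nat_lit 420) (nat_lit 1503515508) (nat_lit 0) (nat_lit 818224531) (nat_lit 336) (nat_lit 818224531) (nat_lit 61) (nat_lit 1) (nat_lit 56) (nat_lit 1) (nat_lit 60) (nat_lit 1) (nat_lit 220) (nat_lit 212) (nat_lit 168)) (XT.lf (nat_lit 84) (nat_lit 409409530) (nat_lit 0) (nat_lit 2279146747) (nat_lit 420) (nat_lit 409409530)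 (nat_lit 57) (nat_lit 1) (nat_lit 56) (nat_lit 1) (nat_lit 61) (nat_lit 1) (nat_lit 221) (nat_lit 212) (nat_lit 167))))) (XT.nd (nat_lit 33182) (nat_lit 0) (nat_lit 9324) (XT.nd (nat_lit 94) (nat_lit 420) (nat_lit 0) (XT.lf (nat_lit 336) (nat_lit 131292841) (nat_lit 0) (nat_lit 1462607887) (nat_lit 252) (nat_lit 1462607887) (nat_lit 57) (nat_lit 1) (nat_lit 53) (nat_lit 1) (nat_lit 56) (nat_lit 1) (nat_lit 222) (nat_lit 212) (nat_lit 166)) (XT.nd (nat_lit 94) (nat_lit 0) (nat_lit 0) (XT.lf (nat_lit 420) (nat_lit 2487578655) (nat_lit 0) (nat_lit 264202080) (nat_lit 336) (nat_lit 264202080) (nat_lit 53) (nat_lit 1) (nat_lit 48) (nat_lit 1) (nat_lit 52) (nat_lit 1) (nat_lit 223) (nat_lit 212) (nat_lit 165)) (XT.lf (nat_lit 84) (nat_lit 892587322) (nat_lit 0) (nat_lit 1190633244) (nat_lit 420) (nat_lit 892587322) (nat_lit 49) (nat_lit 1) (nat_lit 48) (nat_lit 1) (nat_lit 53) (nat_lit 1) (nat_lit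 224) (nat_lit 212) (nat_lit 164)))) (XT.nd (nat_lit 188) (nat_lit 0) (nat_lit 84) (XT.nd (nat_lit 94) (nat_lit 0) (nat_lit 0) (XT.lf (nat_lit 1260) (nat_lit 901116389) (nat_lit 0) (nat_lit 1371007433) (nat_lit 1260) (nat_lit 901116389) (nat_lit 174) (nat_lit 1) (nat_lit 159) (nat_lit 0) (nat_lit 174) (nat_lit 0) (nat_lit 174) (nat_lit 213) (nat_lit 213)) (XT.lf (nat_lit 1260) (nat_lit 3527890108) (nat_lit 84) (nat_lit 1355377055) (nat_lit 0) (nat_lit 1355377055) (nat_lit 174) (nat_lit 1) (nat_lit 160) (nat_lit 1) (nat_lit 159) (nat_lit 0) (nat_lit 175) (nat_lit 213) (nat_lit 212))) (XT.nd (nat_lit 94) (nat_lit 0) (nat_lit 0) (XT.lf (nat_lit 1260) (nat_lit 1706610049) (nat_lit 0) (nat_lit 2719858762) (nat_lit 1176) (nat_lit 1706610049) (nat_lit 175) (nat_lit 1) (nat_lit 160) (nat_lit 1) (nat_lit 174) (nat_lit 1) (nat_lit 176) (nat_lit 213) (nat_lit 211)) (XT.lf (nat_lit 1260) (nat_lit 3271419656)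 (nat_lit 84) (nat_lit 1379307552) (nat_lit 0) (nat_lit 1379307552) (nat_lit 175) (nat_lit 1) (nat_lit 161) (nat_lit 1) (nat_lit 160) (nat_lit 1) (nat_lit 177) (nat_lit 213) (nat_lit 210))))))) (XT.nd (nat_lit 1222) (nat_lit 3696) (nat_lit 0) (XT.nd (nat_lit 564) (nat_lit 1512) (nat_lit 0) (XT.nd (nat_lit 282) (nat_lit 0) (nat_lit 84) (XT.nd (nat_lit 94) (nat_lit 0) (nat_lit 0) (XT.lf (nat_lit 1260) (nat_lit 1548343988) (nat_lit 0) (nat_lit 2832511493) (nat_lit 1176) (nat_lit 1548343988) (nat_lit 176) (nat_lit 1) (nat_lit 161) (nat_lit 1) (nat_lit 175) (nat_lit 1) (nat_lit 178) (nat_lit 213) (nat_lit 209)) (XT.nd (nat_lit 94) (nat_lit 0) (nat_lit 84) (XT.lf (nat_lit 1260) (nat_lit 2895572622) (nat_lit 84) (nat_lit 1467554715) (nat_lit 0) (nat_lit 1467554715) (nat_lit 176) (nat_lit 1) (nat_lit 162) (nat_lit 1) (nat_lit 161) (nat_lit 1) (nat_lit 179) (nat_lit 213) (nat_lit 208)) (XT.lf (nat_lit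 1260) (nat_lit 1333933081) (nat_lit 0) (nat_lit 3066500777) (nat_lit 1176) (nat_lit 1333933081) (nat_lit 177) (nat_lit 1) (nat_lit 162) (nat_lit 1) (nat_lit 176) (nat_lit 1) (nat_lit 180) (nat_lit 213) (nat_lit 207)))) (XT.nd (nat_lit 94) (nat_lit 0) (nat_lit 84) (XT.lf (nat_lit 1260) (nat_lit 2412899817) (nat_lit 84) (nat_lit 1613613409) (nat_lit 0) (nat_lit 1613613409) (nat_lit 177) (nat_lit 1) (nat_lit 163) (nat_lit 1) (nat_lit 162) (nat_lit 1) (nat_lit 181) (nat_lit 213) (nat_lit 206)) (XT.nd (nat_lit 94) (nat_lit 0) (nat_lit 0) (XT.lf (nat_lit 1260) (nat_lit 1069364828) (nat_lit 0) (nat_lit 3409402572) (nat_lit 1176) (nat_lit 1069364828) (nat_lit 178) (nat_lit 1) (nat_lit 163) (nat_lit 1) (nat_lit 177) (nat_lit 1) (nat_lit 182) (nat_lit 213) (nat_lit 205)) (XT.lf (nat_lit 1260) (nat_lit 1834961543) (nat_lit 84) (nat_lit 1811486389) (nat_lit 0) (nat_lit 1811486389) (nat_lit 178) (nat_lit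 1) (nat_lit 164) (nat_lit 1) (nat_lit 163) (nat_lit 1) (nat_lit 183) (nat_lit 213) (nat_lit 204))))) (XT.nd (nat_lit 282) (nat_lit 1764) (nat_lit 0) (XT.nd (nat_lit 94) (nat_lit 0) (nat_lit 0) (XT.lf (nat_lit 1260) (nat_lit 760152386) (nat_lit 0) (nat_lit 3849766220) (nat_lit 1176) (nat_lit 760152386) (nat_lit 179) (nat_lit 1) (nat_lit 164) (nat_lit 1) (nat_lit 178) (nat_lit 1) (nat_lit 184) (nat_lit 213) (nat_lit 203)) (XT.nd (nat_lit 94) (nat_lit 0) (nat_lit 84) (XT.lf (nat_lit 1260) (nat_lit 1172398728) (nat_lit 84) (nat_lit 2055647982) (nat_lit 0) (nat_lit 2055647982) (nat_lit 179) (nat_lit 1) (nat_lit 165) (nat_lit 1) (nat_lit 164) (nat_lit 1) (nat_lit 185) (nat_lit 213) (nat_lit 202)) (XT.lf (nat_lit 1260) (nat_lit 411368686) (nat_lit 0) (nat_lit 4377044750) (nat_lit 1176) (nat_lit 411368686) (nat_lit 180) (nat_lit 1) (nat_lit 165) (nat_lit 1) (nat_lit 179) (nat_lit 1) (nat_lit 186)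 (nat_lit 213) (nat_lit 201)))) (XT.nd (nat_lit 188) (nat_lit 1848) (nat_lit 0) (XT.nd (nat_lit 94) (nat_lit 0) (nat_lit 84) (XT.lf (nat_lit 1260) (nat_lit 434999152) (nat_lit 84) (nat_lit 2341010272) (nat_lit 0) (nat_lit 2341010272) (nat_lit 180) (nat_lit 1) (nat_lit 166) (nat_lit 1) (nat_lit 165) (nat_lit 1) (nat_lit 187) (nat_lit 213) (nat_lit 200)) (XT.lf (nat_lit 84) (nat_lit 27678194) (nat_lit 0) (nat_lit 4981529973) (nat_lit 1176) (nat_lit 27678194) (nat_lit 167) (nat_lit 1) (nat_lit 166) (nat_lit 1) (nat_lit 180) (nat_lit 1) (nat_lit 188) (nat_lit 213) (nat_lit 199))) (XT.nd (nat_lit 94) (nat_lit 672) (nat_lit 0) (XT.lf (nat_lit 84) (nat_lit 2298753706) (nat_lit 0) (nat_lit 359891306) (nat_lit 1260) (nat_lit 2298753706) (nat_lit 152) (nat_lit 1) (nat_lit 151) (nat_lit 1) (nat_lit 166) (nat_lit 1) (nat_lit 189) (nat_lit 213) (nat_lit 198)) (XT.lf (nat_lit 756) (nat_lit 4115967056) (nat_lit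 0) (nat_lit 382225648) (nat_lit 672) (nat_lit 382225648) (nat_lit 152) (nat_lit 1) (nat_lit 143) (nat_lit 1) (nat_lit 151) (nat_lit 1) (nat_lit 190) (nat_lit 213) (nat_lit 197)))))) (XT.nd (nat_lit 658) (nat_lit 2016) (nat_lit 0) (XT.nd (nat_lit 282) (nat_lit 1092) (nat_lit 0) (XT.nd (nat_lit 94) (nat_lit 588) (nat_lit 0) (XT.lf (nat_lit 84) (nat_lit 1801622412) (nat_lit 0) (nat_lit 1201191238) (nat_lit 756) (nat_lit 1801622412) (nat_lit 144) (nat_lit 1) (nat_lit 143) (nat_lit 1) (nat_lit 152) (nat_lit 1) (nat_lit 191) (nat_lit 213) (nat_lit 196)) (XT.nd (nat_lit 94) (nat_lit 0) (nat_lit 0) (XT.lf (nat_lit 672) (nat_lit 3094166665) (nat_lit 0) (nat_lit 818196732) (nat_lit 588) (nat_lit 818196732) (nat_lit 144) (nat_lit 1) (nat_lit 136) (nat_lit 1) (nat_lit 143) (nat_lit 1) (nat_lit 192) (nat_lit 213) (nat_lit 195)) (XT.lf (nat_lit 84) (nat_lit 1283310695) (nat_lit 0) (nat_lit 2091354375) (nat_lit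 672) (nat_lit 1283310695) (nat_lit 137) (nat_lit 1) (nat_lit 136) (nat_lit 1) (nat_lit 144) (nat_lit 1) (nat_lit 193) (nat_lit 213) (nat_lit 194)))) (XT.nd (nat_lit 188) (nat_lit 504) (nat_lit 0) (XT.nd (nat_lit 94) (nat_lit 0) (nat_lit 0) (XT.lf (nat_lit 672) (nat_lit 2033073010) (nat_lit 0) (nat_lit 1276983329) (nat_lit 588) (nat_lit 1276983329) (nat_lit 137) (nat_lit 1) (nat_lit 129) (nat_lit 1) (nat_lit 136) (nat_lit 1) (nat_lit 194) (nat_lit 213) (nat_lit 193)) (XT.lf (nat_lit 84) (nat_lit 747060837) (nat_lit 0) (nat_lit 3023587853) (nat_lit 672) (nat_lit 747060837) (nat_lit 130) (nat_lit 1) (nat_lit 129) (nat_lit 1) (nat_lit 137) (nat_lit 1) (nat_lit 195) (nat_lit 213) (nat_lit 192))) (XT.nd (nat_lit 94) (nat_lit 0) (nat_lit 0) (XT.lf (nat_lit 588) (nat_lit 938924877) (nat_lit 0) (nat_lit 1755316663) (nat_lit 504) (nat_lit 1755316663) (nat_lit 130) (nat_lit 1) (nat_lit 123) (nat_lit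 1) (nat_lit 129) (nat_lit 1) (nat_lit 196) (nat_lit 213) (nat_lit 191)) (XT.lf (nat_lit 84) (nat_lit 195837525) (nat_lit 0) (nat_lit 3991670306) (nat_lit 588) (nat_lit 195837525) (nat_lit 124) (nat_lit 1) (nat_lit 123) (nat_lit 1) (nat_lit 130) (nat_lit 1) (nat_lit 197) (nat_lit 213) (nat_lit 190))))) (XT.nd (nat_lit 282) (nat_lit 924) (nat_lit 0) (XT.nd (nat_lit 94) (nat_lit 504) (nat_lit 0) (XT.lf (nat_lit 84) (nat_lit 2069662443) (nat_lit 0) (nat_lit 178436598) (nat_lit 588) (nat_lit 2069662443) (nat_lit 117) (nat_lit 1) (nat_lit 116) (nat_lit 1) (nat_lit 123) (nat_lit 1) (nat_lit 198) (nat_lit 213) (nat_lit 189)) (XT.nd (nat_lit 94) (nat_lit 0) (nat_lit 0) (XT.lf (nat_lit 588) (nat_lit 3527109472) (nat_lit 0) (nat_lit 363460130) (nat_lit 504) (nat_lit 363460130) (nat_lit 117) (nat_lit 1) (nat_lit 110) (nat_lit 1) (nat_lit 116) (nat_lit 1) (nat_lit 199) (nat_lit 213) (nat_lit 188)) (XT.lf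 (nat_lit 84) (nat_lit 1447460963) (nat_lit 0) (nat_lit 1296155751) (nat_lit 588) (nat_lit 1447460963) (nat_lit 111) (nat_lit 1) (nat_lit 110) (nat_lit 1) (nat_lit 117) (nat_lit 1) (nat_lit 200) (nat_lit 213) (nat_lit 187)))) (XT.nd (nat_lit 188) (nat_lit 420) (nat_lit 0) (XT.nd (nat_lit 94) (nat_lit 0) (nat_lit 0) (XT.lf (nat_lit 588) (nat_lit 2269335684) (nat_lit 0) (nat_lit 930209522) (nat_lit 504) (nat_lit 930209522) (nat_lit 111) (nat_lit 1) (nat_lit 104) (nat_lit 1) (nat_lit 110) (nat_lit 1) (nat_lit 201) (nat_lit 213) (nat_lit 186)) (XT.lf (nat_lit 84) (nat_lit 819367134) (nat_lit 0) (nat_lit 2430886249) (nat_lit 588) (nat_lit 819367134) (nat_lit 105) (nat_lit 1) (nat_lit 104) (nat_lit 1) (nat_lit 111) (nat_lit 1) (nat_lit 202) (nat_lit 213) (nat_lit 185))) (XT.nd (nat_lit 94) (nat_lit 0) (nat_lit 0) (XT.lf (nat_lit 504) (nat_lit 1001743852) (nat_lit 0) (nat_lit 1504419401) (nat_lit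 420) (nat_lit 1504419401) (nat_lit 105) (nat_lit 1) (nat_lit 99) (nat_lit 1) (nat_lit 104) (nat_lit 1) (nat_lit 203) (nat_lit 213) (nat_lit 184)) (XT.lf (nat_lit 84) (nat_lit 187370969) (nat_lit 0) (nat_lit 3578408645) (nat_lit 504) (nat_lit 187370969) (nat_lit 100) (nat_lit 1) (nat_lit 99) (nat_lit 1) (nat_lit 105) (nat_lit 1) (nat_lit 204) (nat_lit 213) (nat_lit 183))))))))
noncomputable def ec13 : XT := (XT.nd (nat_lit 35250) (nat_lit 0) (nat_lit 3192) (XT.nd (nat_lit 1222) (nat_lit 1260) (nat_lit 0) (XT.nd (nat_lit 564) (nat_lit 1596) (nat_lit 0) (XT.nd (nat_lit 282) (nat_lit 756) (nat_lit 0) (XT.nd (nat_lit 94) (nat_lit 420) (nat_lit 0) (XT.lf (nat_lit 84) (nat_lit 1815242968) (nat_lit 0) (nat_lit 265689126) (nat_lit 504) (nat_lit 1815242968) (nat_lit 94) (nat_lit 1) (nat_lit 93) (nat_lit 1) (nat_lit 99) (nat_lit 1) (nat_lit 205) (nat_lit 213) (nat_lit 182)) (XT.nd (nat_lit 94) (nat_lit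 0) (nat_lit 0) (XT.lf (nat_lit 504) (nat_lit 2957477886) (nat_lit 0) (nat_lit 441630936) (nat_lit 420) (nat_lit 441630936) (nat_lit 94) (nat_lit 1) (nat_lit 88) (nat_lit 1) (nat_lit 93) (nat_lit 1) (nat_lit 206) (nat_lit 213) (nat_lit 181)) (XT.lf (nat_lit 84) (nat_lit 1136561278) (nat_lit 0) (nat_lit 1512903179) (nat_lit 504) (nat_lit 1136561278) (nat_lit 89) (nat_lit 1) (nat_lit 88) (nat_lit 1) (nat_lit 94) (nat_lit 1) (nat_lit 207) (nat_lit 213) (nat_lit 180)))) (XT.nd (nat_lit 94) (nat_lit 336) (nat_lit 0) (XT.lf (nat_lit 504) (nat_lit 1594661594) (nat_lit 0) (nat_lit 1068958540) (nat_lit 420) (nat_lit 1068958540) (nat_lit 89) (nat_lit 1) (nat_lit 83) (nat_lit 1) (nat_lit 88) (nat_lit 1) (nat_lit 208) (nat_lit 213) (nat_lit 179)) (XT.nd (nat_lit 94) (nat_lit 336) (nat_lit 0) (XT.lf (nat_lit 84) (nat_lit 460376960) (nat_lit 0) (nat_lit 2759563205) (nat_lit 504) (nat_lit 460376960) (nat_lit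 84) (nat_lit 1) (nat_lit 83) (nat_lit 1) (nat_lit 89) (nat_lit 1) (nat_lit 209) (nat_lit 213) (nat_lit 178)) (XT.lf (nat_lit 420) (nat_lit 238174576) (nat_lit 0) (nat_lit 1695292202) (nat_lit 336) (nat_lit 1695292202) (nat_lit 84) (nat_lit 1) (nat_lit 79) (nat_lit 1) (nat_lit 83) (nat_lit 1) (nat_lit 210) (nat_lit 213) (nat_lit 177))))) (XT.nd (nat_lit 282) (nat_lit 756) (nat_lit 0) (XT.nd (nat_lit 94) (nat_lit 336) (nat_lit 0) (XT.lf (nat_lit 504) (nat_lit 3159284393) (nat_lit 0) (nat_lit 209617185) (nat_lit 420) (nat_lit 209617185) (nat_lit 79) (nat_lit 1) (nat_lit 73) (nat_lit 1) (nat_lit 78) (nat_lit 1) (nat_lit 211) (nat_lit 213) (nat_lit 176)) (XT.nd (nat_lit 94) (nat_lit 336) (nat_lit 0) (XT.lf (nat_lit 84) (nat_lit 1222130101) (nat_lit 0) (nat_lit 1084395504) (nat_lit 504) (nat_lit 1222130101) (nat_lit 74) (nat_lit 1) (nat_lit 73) (nat_lit 1) (nat_lit 79) (nat_lit 1) (nat_lit 212)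 (nat_lit 213) (nat_lit 175)) (XT.lf (nat_lit 420) (nat_lit 1741052757) (nat_lit 0) (nat_lit 869504007) (nat_lit 336) (nat_lit 869504007) (nat_lit 74) (nat_lit 1) (nat_lit 69) (nat_lit 1) (nat_lit 73) (nat_lit 1) (nat_lit 213) (nat_lit 213) (nat_lit 174)))) (XT.nd (nat_lit 188) (nat_lit 420) (nat_lit 0) (XT.nd (nat_lit 94) (nat_lit 336) (nat_lit 0) (XT.lf (nat_lit 84) (nat_lit 520773618) (nat_lit 0) (nat_lit 2390882943) (nat_lit 420) (nat_lit 520773618) (nat_lit 70) (nat_lit 1) (nat_lit 69) (nat_lit 1) (nat_lit 74) (nat_lit 1) (nat_lit 214) (nat_lit 213) (nat_lit 173)) (XT.lf (nat_lit 420) (nat_lit 338438867) (nat_lit 0) (nat_lit 1523524829) (nat_lit 336) (nat_lit 1523524829) (nat_lit 70) (nat_lit 1) (nat_lit 65) (nat_lit 1) (nat_lit 69) (nat_lit 1) (nat_lit 215) (nat_lit 213) (nat_lit 172))) (XT.nd (nat_lit 94) (nat_lit 0) (nat_lit 0) (XT.lf (nat_lit 420) (nat_lit 2998866868) (nat_lit 0) (nat_lit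 170432455) (nat_lit 336) (nat_lit 170432455) (nat_lit 65) (nat_lit 1) (nat_lit 60) (nat_lit 1) (nat_lit 64) (nat_lit 1) (nat_lit 216) (nat_lit 213) (nat_lit 171)) (XT.lf (nat_lit 84) (nat_lit 1135514411) (nat_lit 0) (nat_lit 1023196536) (nat_lit 420) (nat_lit 1135514411) (nat_lit 61) (nat_lit 1) (nat_lit 60) (nat_lit 1) (nat_lit 65) (nat_lit 1) (nat_lit 217) (nat_lit 213) (nat_lit 170)))))) (XT.nd (nat_lit 33370) (nat_lit 0) (nat_lit 9576) (XT.nd (nat_lit 282) (nat_lit 672) (nat_lit 0) (XT.nd (nat_lit 94) (nat_lit 252) (nat_lit 0) (XT.lf (nat_lit 420) (nat_lit 1556138550) (nat_lit 0) (nat_lit 846862389) (nat_lit 336) (nat_lit 846862389) (nat_lit 61) (nat_lit 1) (nat_lit 56) (nat_lit 1) (nat_lit 60) (nat_lit 1) (nat_lit 218) (nat_lit 213) (nat_lit 169)) (XT.nd (nat_lit 94) (nat_lit 252) (nat_lit 0) (XT.lf (nat_lit 84) (nat_lit 423738863) (nat_lit 0) (nat_lit 2358916883) (nat_lit 420) (nat_lit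 423738863) (nat_lit 57) (nat_lit 1) (nat_lit 56) (nat_lit 1) (nat_lit 61) (nat_lit 1) (nat_lit 219) (nat_lit 213) (nat_lit 168)) (XT.lf (nat_lit 336) (nat_lit 135888091) (nat_lit 0) (nat_lit 1513799163) (nat_lit 252) (nat_lit 1513799163) (nat_lit 57) (nat_lit 1) (nat_lit 53) (nat_lit 1) (nat_lit 56) (nat_lit 1) (nat_lit 220) (nat_lit 213) (nat_lit 167)))) (XT.nd (nat_lit 188) (nat_lit 252) (nat_lit 0) (XT.nd (nat_lit 94) (nat_lit 0) (nat_lit 0) (XT.lf (nat_lit 420) (nat_lit 2574643908) (nat_lit 0) (nat_lit 273449153) (nat_lit 336) (nat_lit 273449153) (nat_lit 53) (nat_lit 1) (nat_lit 48) (nat_lit 1) (nat_lit 52) (nat_lit 1) (nat_lit 221) (nat_lit 213) (nat_lit 166)) (XT.lf (nat_lit 84) (nat_lit 923827879) (nat_lit 0) (nat_lit 1232305407) (nat_lit 420) (nat_lit 923827879) (nat_lit 49) (nat_lit 1) (nat_lit 48) (nat_lit 1) (nat_lit 53) (nat_lit 1) (nat_lit 222) (nat_lit 213) (nat_lit 165))) (XT.nd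 (nat_lit 94) (nat_lit 0) (nat_lit 0) (XT.lf (nat_lit 336) (nat_lit 1131202664) (nat_lit 0) (nat_lit 954054242) (nat_lit 252) (nat_lit 954054242) (nat_lit 49) (nat_lit 1) (nat_lit 45) (nat_lit 1) (nat_lit 48) (nat_lit 1) (nat_lit 223) (nat_lit 213) (nat_lit 164)) (XT.lf (nat_lit 84) (nat_lit 212966141) (nat_lit 0) (nat_lit 2573662349) (nat_lit 336) (nat_lit 212966141) (nat_lit 46) (nat_lit 1) (nat_lit 45) (nat_lit 1) (nat_lit 49) (nat_lit 1) (nat_lit 224) (nat_lit 213) (nat_lit 163))))) (XT.nd (nat_lit 282) (nat_lit 0) (nat_lit 84) (XT.nd (nat_lit 94) (nat_lit 0) (nat_lit 0) (XT.lf (nat_lit 1260) (nat_lit 932655462) (nat_lit 0) (nat_lit 1418992693) (nat_lit 1260) (nat_lit 932655462) (nat_lit 174) (nat_lit 1) (nat_lit 159) (nat_lit 0) (nat_lit 174) (nat_lit 0) (nat_lit 172) (nat_lit 214) (nat_lit 214)) (XT.nd (nat_lit 94) (nat_lit 0) (nat_lit 84) (XT.lf (nat_lit 1260) (nat_lit 3651366262) (nat_lit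 84) (nat_lit 1402815252) (nat_lit 0) (nat_lit 1402815252) (nat_lit 174) (nat_lit 1) (nat_lit 160) (nat_lit 1) (nat_lit 159) (nat_lit 0) (nat_lit 173) (nat_lit 214) (nat_lit 213)) (XT.lf (nat_lit 1260) (nat_lit 1766341401) (nat_lit 0) (nat_lit 2815053819) (nat_lit 1176) (nat_lit 1766341401) (nat_lit 175) (nat_lit 1) (nat_lit 160) (nat_lit 1) (nat_lit 174) (nat_lit 1) (nat_lit 174) (nat_lit 214) (nat_lit 212)))) (XT.nd (nat_lit 188) (nat_lit 0) (nat_lit 84) (XT.nd (nat_lit 94) (nat_lit 0) (nat_lit 84) (XT.lf (nat_lit 1260) (nat_lit 3385919344) (nat_lit 84) (nat_lit 1427583316) (nat_lit 0) (nat_lit 1427583316) (nat_lit 175) (nat_lit 1) (nat_lit 161) (nat_lit 1) (nat_lit 160) (nat_lit 1) (nat_lit 175) (nat_lit 214) (nat_lit 211)) (XT.lf (nat_lit 1260) (nat_lit 1602536028) (nat_lit 0) (nat_lit 2931649396) (nat_lit 1176) (nat_lit 1602536028) (nat_lit 176) (nat_lit 1) (nat_lit 161) (nat_lit 1) (nat_lit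 175) (nat_lit 1) (nat_lit 176) (nat_lit 214) (nat_lit 210))) (XT.nd (nat_lit 94) (nat_lit 0) (nat_lit 84) (XT.lf (nat_lit 1260) (nat_lit 2996917664) (nat_lit 84) (nat_lit 1518919130) (nat_lit 0) (nat_lit 1518919130) (nat_lit 176) (nat_lit 1) (nat_lit 162) (nat_lit 1) (nat_lit 161) (nat_lit 1) (nat_lit 177) (nat_lit 214) (nat_lit 209)) (XT.lf (nat_lit 1260) (nat_lit 1380620739) (nat_lit 0) (nat_lit 3173828305) (nat_lit 1176) (nat_lit 1380620739) (nat_lit 177) (nat_lit 1) (nat_lit 162) (nat_lit 1) (nat_lit 176) (nat_lit 1) (nat_lit 178) (nat_lit 214) (nat_lit 208))))))) (XT.nd (nat_lit 1316) (nat_lit 3864) (nat_lit 0) (XT.nd (nat_lit 658) (nat_lit 2772) (nat_lit 0) (XT.nd (nat_lit 282) (nat_lit 0) (nat_lit 168) (XT.nd (nat_lit 94) (nat_lit 0) (nat_lit 84) (XT.lf (nat_lit 1260) (nat_lit 2497351310) (nat_lit 84) (nat_lit 1670089879) (nat_lit 0) (nat_lit 1670089879) (nat_lit 177) (nat_lit 1) (nat_lit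 163) (nat_lit 1) (nat_lit 162) (nat_lit 1) (nat_lit 179) (nat_lit 214) (nat_lit 207)) (XT.nd (nat_lit 94) (nat_lit 0) (nat_lit 0) (XT.lf (nat_lit 1260) (nat_lit 1106792597) (nat_lit 0) (nat_lit 3528731662) (nat_lit 1176) (nat_lit 1106792597) (nat_lit 178) (nat_lit 1) (nat_lit 163) (nat_lit 1) (nat_lit 177) (nat_lit 1) (nat_lit 180) (nat_lit 214) (nat_lit 206)) (XT.lf (nat_lit 1260) (nat_lit 1899185197) (nat_lit 84) (nat_lit 1874888413) (nat_lit 0) (nat_lit 1874888413) (nat_lit 178) (nat_lit 1) (nat_lit 164) (nat_lit 1) (nat_lit 163) (nat_lit 1) (nat_lit 181) (nat_lit 214) (nat_lit 205)))) (XT.nd (nat_lit 188) (nat_lit 0) (nat_lit 84) (XT.nd (nat_lit 94) (nat_lit 0) (nat_lit 0) (XT.lf (nat_lit 1260) (nat_lit 786757720) (nat_lit 0) (nat_lit 3984508038) (nat_lit 1176) (nat_lit 786757720) (nat_lit 179) (nat_lit 1) (nat_lit 164) (nat_lit 1) (nat_lit 178) (nat_lit 1) (nat_lit 182) (nat_lit 214)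 (nat_lit 204)) (XT.lf (nat_lit 1260) (nat_lit 1213432683) (nat_lit 84) (nat_lit 2127595661) (nat_lit 0) (nat_lit 2127595661) (nat_lit 179) (nat_lit 1) (nat_lit 165) (nat_lit 1) (nat_lit 164) (nat_lit 1) (nat_lit 183) (nat_lit 214) (nat_lit 203))) (XT.nd (nat_lit 94) (nat_lit 0) (nat_lit 0) (XT.lf (nat_lit 1260) (nat_lit 425766590) (nat_lit 0) (nat_lit 4530241316) (nat_lit 1176) (nat_lit 425766590) (nat_lit 180) (nat_lit 1) (nat_lit 165) (nat_lit 1) (nat_lit 179) (nat_lit 1) (nat_lit 184) (nat_lit 214) (nat_lit 202)) (XT.lf (nat_lit 1260) (nat_lit 450224123) (nat_lit 84) (nat_lit 2422945631) (nat_lit 0) (nat_lit 2422945631) (nat_lit 180) (nat_lit 1) (nat_lit 166) (nat_lit 1) (nat_lit 165) (nat_lit 1) (nat_lit 185) (nat_lit 214) (nat_lit 201))))) (XT.nd (nat_lit 282) (nat_lit 1176) (nat_lit 0) (XT.nd (nat_lit 94) (nat_lit 1932) (nat_lit 0) (XT.lf (nat_lit 84) (nat_lit 28646930) (nat_lit 0) (nat_lit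 5155883522) (nat_lit 1176) (nat_lit 28646930) (nat_lit 167) (nat_lit 1) (nat_lit 166) (nat_lit 1) (nat_lit 180) (nat_lit 1) (nat_lit 186) (nat_lit 214) (nat_lit 200)) (XT.nd (nat_lit 94) (nat_lit 672) (nat_lit 0) (XT.lf (nat_lit 84) (nat_lit 2379210086) (nat_lit 0) (nat_lit 372487502) (nat_lit 1260) (nat_lit 2379210086) (nat_lit 152) (nat_lit 1) (nat_lit 151) (nat_lit 1) (nat_lit 166) (nat_lit 1) (nat_lit 187) (nat_lit 214) (nat_lit 199)) (XT.lf (nat_lit 756) (nat_lit 4260025903) (nat_lit 0) (nat_lit 395603546) (nat_lit 672) (nat_lit 395603546) (nat_lit 152) (nat_lit 1) (nat_lit 143) (nat_lit 1) (nat_lit 151) (nat_lit 1) (nat_lit 188) (nat_lit 214) (nat_lit 198)))) (XT.nd (nat_lit 188) (nat_lit 588) (nat_lit 0) (XT.nd (nat_lit 94) (nat_lit 588) (nat_lit 0) (XT.lf (nat_lit 84) (nat_lit 1864679197) (nat_lit 0) (nat_lit 1243232931) (nat_lit 756) (nat_lit 1864679197) (nat_lit 144) (nat_lit 1)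 (nat_lit 143) (nat_lit 1) (nat_lit 152) (nat_lit 1) (nat_lit 189) (nat_lit 214) (nat_lit 197)) (XT.lf (nat_lit 672) (nat_lit 3202462499) (nat_lit 0) (nat_lit 846833617) (nat_lit 588) (nat_lit 846833617) (nat_lit 144) (nat_lit 1) (nat_lit 136) (nat_lit 1) (nat_lit 143) (nat_lit 1) (nat_lit 190) (nat_lit 214) (nat_lit 196))) (XT.nd (nat_lit 94) (nat_lit 588) (nat_lit 0) (XT.lf (nat_lit 84) (nat_lit 1328226570) (nat_lit 0) (nat_lit 2164551778) (nat_lit 672) (nat_lit 1328226570) (nat_lit 137) (nat_lit 1) (nat_lit 136) (nat_lit 1) (nat_lit 144) (nat_lit 1) (nat_lit 191) (nat_lit 214) (nat_lit 195)) (XT.lf (nat_lit 672) (nat_lit 2104230565) (nat_lit 0) (nat_lit 1321677746) (nat_lit 588) (nat_lit 1321677746) (nat_lit 137) (nat_lit 1) (nat_lit 129) (nat_lit 1) (nat_lit 136) (nat_lit 1) (nat_lit 192) (nat_lit 214) (nat_lit 194)))))) (XT.nd (nat_lit 658) (nat_lit 1764) (nat_lit 0) (XT.nd (nat_lit 282)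 (nat_lit 1596) (nat_lit 0) (XT.nd (nat_lit 94) (nat_lit 504) (nat_lit 0) (XT.lf (nat_lit 84) (nat_lit 773207967) (nat_lit 0) (nat_lit 3129413428) (nat_lit 672) (nat_lit 773207967) (nat_lit 130) (nat_lit 1) (nat_lit 129) (nat_lit 1) (nat_lit 137) (nat_lit 1) (nat_lit 193) (nat_lit 214) (nat_lit 193)) (XT.nd (nat_lit 94) (nat_lit 0) (nat_lit 0) (XT.lf (nat_lit 588) (nat_lit 971787247) (nat_lit 0) (nat_lit 1816752746) (nat_lit 504) (nat_lit 1816752746) (nat_lit 130) (nat_lit 1) (nat_lit 123) (nat_lit 1) (nat_lit 129) (nat_lit 1) (nat_lit 194) (nat_lit 214) (nat_lit 192)) (XT.lf (nat_lit 84) (nat_lit 202691838) (nat_lit 0) (nat_lit 4131378767) (nat_lit 588) (nat_lit 202691838) (nat_lit 124) (nat_lit 1) (nat_lit 123) (nat_lit 1) (nat_lit 130) (nat_lit 1) (nat_lit 195) (nat_lit 214) (nat_lit 191)))) (XT.nd (nat_lit 188) (nat_lit 504) (nat_lit 0) (XT.nd (nat_lit 94) (nat_lit 504) (nat_lit 0) (XT.lf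 (nat_lit 84) (nat_lit 2142100628) (nat_lit 0) (nat_lit 184681879) (nat_lit 588) (nat_lit 2142100628) (nat_lit 117) (nat_lit 1) (nat_lit 116) (nat_lit 1) (nat_lit 123) (nat_lit 1) (nat_lit 196) (nat_lit 214) (nat_lit 190)) (XT.lf (nat_lit 588) (nat_lit 3650558303) (nat_lit 0) (nat_lit 376181235) (nat_lit 504) (nat_lit 376181235) (nat_lit 117) (nat_lit 1) (nat_lit 110) (nat_lit 1) (nat_lit 116) (nat_lit 1) (nat_lit 197) (nat_lit 214) (nat_lit 189))) (XT.nd (nat_lit 94) (nat_lit 504) (nat_lit 0) (XT.lf (nat_lit 84) (nat_lit 1498122097) (nat_lit 0) (nat_lit 1341521202) (nat_lit 588) (nat_lit 1498122097) (nat_lit 111) (nat_lit 1) (nat_lit 110) (nat_lit 1) (nat_lit 117) (nat_lit 1) (nat_lit 198) (nat_lit 214) (nat_lit 188)) (XT.lf (nat_lit 588) (nat_lit 2348762433) (nat_lit 0) (nat_lit 962766855) (nat_lit 504) (nat_lit 962766855) (nat_lit 111) (nat_lit 1) (nat_lit 104) (nat_lit 1) (nat_lit 110)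 (nat_lit 1) (nat_lit 199) (nat_lit 214) (nat_lit 187))))) (XT.nd (nat_lit 282) (nat_lit 1344) (nat_lit 0) (XT.nd (nat_lit 94) (nat_lit 420) (nat_lit 0) (XT.lf (nat_lit 84) (nat_lit 848044984) (nat_lit 0) (nat_lit 2515967268) (nat_lit 588) (nat_lit 848044984) (nat_lit 105) (nat_lit 1) (nat_lit 104) (nat_lit 1) (nat_lit 111) (nat_lit 1) (nat_lit 200) (nat_lit 214) (nat_lit 186)) (XT.nd (nat_lit 94) (nat_lit 0) (nat_lit 0) (XT.lf (nat_lit 504) (nat_lit 1036804887) (nat_lit 0) (nat_lit 1557074080) (nat_lit 420) (nat_lit 1557074080) (nat_lit 105) (nat_lit 1) (nat_lit 99) (nat_lit 1) (nat_lit 104) (nat_lit 1) (nat_lit 201) (nat_lit 214) (nat_lit 185)) (XT.lf (nat_lit 84) (nat_lit 193928953) (nat_lit 0) (nat_lit 3703652948) (nat_lit 504) (nat_lit 193928953) (nat_lit 100) (nat_lit 1) (nat_lit 99) (nat_lit 1) (nat_lit 105) (nat_lit 1) (nat_lit 202) (nat_lit 214) (nat_lit 184)))) (XT.nd (nat_lit 188)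 (nat_lit 420) (nat_lit 0) (XT.nd (nat_lit 94) (nat_lit 420) (nat_lit 0) (XT.lf (nat_lit 84) (nat_lit 1878776472) (nat_lit 0) (nat_lit 274988246) (nat_lit 504) (nat_lit 1878776472) (nat_lit 94) (nat_lit 1) (nat_lit 93) (nat_lit 1) (nat_lit 99) (nat_lit 1) (nat_lit 203) (nat_lit 214) (nat_lit 183)) (XT.lf (nat_lit 504) (nat_lit 3060989612) (nat_lit 0) (nat_lit 457088019) (nat_lit 420) (nat_lit 457088019) (nat_lit 94) (nat_lit 1) (nat_lit 88) (nat_lit 1) (nat_lit 93) (nat_lit 1) (nat_lit 204) (nat_lit 214) (nat_lit 182))) (XT.nd (nat_lit 94) (nat_lit 420) (nat_lit 0) (XT.lf (nat_lit 84) (nat_lit 1176340922) (nat_lit 0) (nat_lit 1565854790) (nat_lit 504) (nat_lit 1176340922) (nat_lit 89) (nat_lit 1) (nat_lit 88) (nat_lit 1) (nat_lit 94) (nat_lit 1) (nat_lit 205) (nat_lit 214) (nat_lit 181)) (XT.lf (nat_lit 504) (nat_lit 1650474750) (nat_lit 0) (nat_lit 1106372089) (nat_lit 420) (nat_lit 1106372089)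 (nat_lit 89) (nat_lit 1) (nat_lit 83) (nat_lit 1) (nat_lit 88) (nat_lit 1) (nat_lit 206) (nat_lit 214) (nat_lit 180))))))))
noncomputable def ec14 : XT := (XT.nd (nat_lit 35062) (nat_lit 0) (nat_lit 3780) (XT.nd (nat_lit 1222) (nat_lit 840) (nat_lit 0) (XT.nd (nat_lit 564) (nat_lit 1764) (nat_lit 0) (XT.nd (nat_lit 282) (nat_lit 336) (nat_lit 0) (XT.nd (nat_lit 94) (nat_lit 840) (nat_lit 0) (XT.lf (nat_lit 84) (nat_lit 476490153) (nat_lit 0) (nat_lit 2856147917) (nat_lit 504) (nat_lit 476490153) (nat_lit 84) (nat_lit 1) (nat_lit 83) (nat_lit 1) (nat_lit 89) (nat_lit 1) (nat_lit 207) (nat_lit 214) (nat_lit 179)) (XT.nd (nat_lit 94) (nat_lit 504) (nat_lit 0) (XT.lf (nat_lit 420) (nat_lit 246510686) (nat_lit 0) (nat_lit 1754627429) (nat_lit 336) (nat_lit 1754627429) (nat_lit 84) (nat_lit 1) (nat_lit 79) (nat_lit 1) (nat_lit 83) (nat_lit 1) (nat_lit 208) (nat_lit 214) (nat_lit 178)) (XT.lf (nat_lit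 504) (nat_lit 3269859347) (nat_lit 0) (nat_lit 216953786) (nat_lit 420) (nat_lit 216953786) (nat_lit 79) (nat_lit 1) (nat_lit 73) (nat_lit 1) (nat_lit 78) (nat_lit 1) (nat_lit 209) (nat_lit 214) (nat_lit 177)))) (XT.nd (nat_lit 94) (nat_lit 336) (nat_lit 0) (XT.lf (nat_lit 84) (nat_lit 1264904654) (nat_lit 0) (nat_lit 1122349347) (nat_lit 504) (nat_lit 1264904654) (nat_lit 74) (nat_lit 1) (nat_lit 73) (nat_lit 1) (nat_lit 79) (nat_lit 1) (nat_lit 210) (nat_lit 214) (nat_lit 176)) (XT.nd (nat_lit 94) (nat_lit 0) (nat_lit 0) (XT.lf (nat_lit 420) (nat_lit 1801989603) (nat_lit 0) (nat_lit 899936648) (nat_lit 336) (nat_lit 899936648) (nat_lit 74) (nat_lit 1) (nat_lit 69) (nat_lit 1) (nat_lit 73) (nat_lit 1) (nat_lit 211) (nat_lit 214) (nat_lit 175)) (XT.lf (nat_lit 84) (nat_lit 539000694) (nat_lit 0) (nat_lit 2474563846) (nat_lit 420) (nat_lit 539000694) (nat_lit 70) (nat_lit 1) (nat_lit 69) (nat_lit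 1) (nat_lit 74) (nat_lit 1) (nat_lit 212) (nat_lit 214) (nat_lit 174))))) (XT.nd (nat_lit 282) (nat_lit 1008) (nat_lit 0) (XT.nd (nat_lit 94) (nat_lit 420) (nat_lit 0) (XT.lf (nat_lit 420) (nat_lit 350284228) (nat_lit 0) (nat_lit 1576848198) (nat_lit 336) (nat_lit 1576848198) (nat_lit 70) (nat_lit 1) (nat_lit 65) (nat_lit 1) (nat_lit 69) (nat_lit 1) (nat_lit 213) (nat_lit 214) (nat_lit 173)) (XT.nd (nat_lit 94) (nat_lit 0) (nat_lit 0) (XT.lf (nat_lit 420) (nat_lit 3103827208) (nat_lit 0) (nat_lit 176397591) (nat_lit 336) (nat_lit 176397591) (nat_lit 65) (nat_lit 1) (nat_lit 60) (nat_lit 1) (nat_lit 64) (nat_lit 1) (nat_lit 214) (nat_lit 214) (nat_lit 172)) (XT.lf (nat_lit 84) (nat_lit 1175257415) (nat_lit 0) (nat_lit 1059008415) (nat_lit 420) (nat_lit 1175257415) (nat_lit 61) (nat_lit 1) (nat_lit 60) (nat_lit 1) (nat_lit 65) (nat_lit 1) (nat_lit 215) (nat_lit 214) (nat_lit 171)))) (XT.nd (nat_lit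 188) (nat_lit 672) (nat_lit 0) (XT.nd (nat_lit 94) (nat_lit 0) (nat_lit 0) (XT.lf (nat_lit 420) (nat_lit 1610603400) (nat_lit 0) (nat_lit 876502573) (nat_lit 336) (nat_lit 876502573) (nat_lit 61) (nat_lit 1) (nat_lit 56) (nat_lit 1) (nat_lit 60) (nat_lit 1) (nat_lit 216) (nat_lit 214) (nat_lit 170)) (XT.lf (nat_lit 84) (nat_lit 438569724) (nat_lit 0) (nat_lit 2441478974) (nat_lit 420) (nat_lit 438569724) (nat_lit 57) (nat_lit 1) (nat_lit 56) (nat_lit 1) (nat_lit 61) (nat_lit 1) (nat_lit 217) (nat_lit 214) (nat_lit 169))) (XT.nd (nat_lit 94) (nat_lit 420) (nat_lit 0) (XT.lf (nat_lit 336) (nat_lit 140644174) (nat_lit 0) (nat_lit 1566782134) (nat_lit 252) (nat_lit 1566782134) (nat_lit 57) (nat_lit 1) (nat_lit 53) (nat_lit 1) (nat_lit 56) (nat_lit 1) (nat_lit 218) (nat_lit 214) (nat_lit 168)) (XT.lf (nat_lit 420) (nat_lit 2664756444) (nat_lit 0) (nat_lit 283019873) (nat_lit 336) (nat_lit 283019873)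 (nat_lit 53) (nat_lit 1) (nat_lit 48) (nat_lit 1) (nat_lit 52) (nat_lit 1) (nat_lit 219) (nat_lit 214) (nat_lit 167)))))) (XT.nd (nat_lit 33182) (nat_lit 0) (nat_lit 10248) (XT.nd (nat_lit 282) (nat_lit 588) (nat_lit 0) (XT.nd (nat_lit 94) (nat_lit 252) (nat_lit 0) (XT.lf (nat_lit 84) (nat_lit 956161855) (nat_lit 0) (nat_lit 1275436097) (nat_lit 420) (nat_lit 956161855) (nat_lit 49) (nat_lit 1) (nat_lit 48) (nat_lit 1) (nat_lit 53) (nat_lit 1) (nat_lit 220) (nat_lit 214) (nat_lit 166)) (XT.nd (nat_lit 94) (nat_lit 0) (nat_lit 0) (XT.lf (nat_lit 336) (nat_lit 1170794757) (nat_lit 0) (nat_lit 987446141) (nat_lit 252) (nat_lit 987446141) (nat_lit 49) (nat_lit 1) (nat_lit 45) (nat_lit 1) (nat_lit 48) (nat_lit 1) (nat_lit 221) (nat_lit 214) (nat_lit 165)) (XT.lf (nat_lit 84) (nat_lit 220419956) (nat_lit 0) (nat_lit 2663740531) (nat_lit 336) (nat_lit 220419956) (nat_lit 46) (nat_lit 1) (nat_lit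 45) (nat_lit 1) (nat_lit 49) (nat_lit 1) (nat_lit 222) (nat_lit 214) (nat_lit 164)))) (XT.nd (nat_lit 32712) (nat_lit 0) (nat_lit 10164) (XT.nd (nat_lit 94) (nat_lit 252) (nat_lit 0) (XT.lf (nat_lit 84) (nat_lit 1387803756) (nat_lit 0) (nat_lit 288114497) (nat_lit 336) (nat_lit 1387803756) (nat_lit 42) (nat_lit 1) (nat_lit 41) (nat_lit 1) (nat_lit 45) (nat_lit 1) (nat_lit 223) (nat_lit 214) (nat_lit 163)) (XT.lf (nat_lit 336) (nat_lit 2033064035) (nat_lit 0) (nat_lit 495367992) (nat_lit 252) (nat_lit 495367992) (nat_lit 42) (nat_lit 1) (nat_lit 38) (nat_lit 1) (nat_lit 41) (nat_lit 1) (nat_lit 224) (nat_lit 214) (nat_lit 162))) (XT.nd (nat_lit 94) (nat_lit 0) (nat_lit 0) (XT.lf (nat_lit 1260) (nat_lit 965298403) (nat_lit 0) (nat_lit 1468657437) (nat_lit 1260) (nat_lit 965298403) (nat_lit 174) (nat_lit 1) (nat_lit 159) (nat_lit 0) (nat_lit 174) (nat_lit 0) (nat_lit 170) (nat_lit 215) (nat_lit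 215)) (XT.lf (nat_lit 1260) (nat_lit 3779164081) (nat_lit 84) (nat_lit 1451913786) (nat_lit 0) (nat_lit 1451913786) (nat_lit 174) (nat_lit 1) (nat_lit 160) (nat_lit 1) (nat_lit 159) (nat_lit 0) (nat_lit 171) (nat_lit 215) (nat_lit 214))))) (XT.nd (nat_lit 282) (nat_lit 0) (nat_lit 84) (XT.nd (nat_lit 94) (nat_lit 0) (nat_lit 0) (XT.lf (nat_lit 1260) (nat_lit 1828163350) (nat_lit 0) (nat_lit 2913580703) (nat_lit 1176) (nat_lit 1828163350) (nat_lit 175) (nat_lit 1) (nat_lit 160) (nat_lit 1) (nat_lit 174) (nat_lit 1) (nat_lit 172) (nat_lit 215) (nat_lit 213)) (XT.nd (nat_lit 94) (nat_lit 0) (nat_lit 84) (XT.lf (nat_lit 1260) (nat_lit 3504426521) (nat_lit 84) (nat_lit 1477548732) (nat_lit 0) (nat_lit 1477548732) (nat_lit 175) (nat_lit 1) (nat_lit 161) (nat_lit 1) (nat_lit 160) (nat_lit 1) (nat_lit 173) (nat_lit 215) (nat_lit 212)) (XT.lf (nat_lit 1260) (nat_lit 1658624789) (nat_lit 0) (nat_lit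 3034257124) (nat_lit 1176) (nat_lit 1658624789) (nat_lit 176) (nat_lit 1) (nat_lit 161) (nat_lit 1) (nat_lit 175) (nat_lit 1) (nat_lit 174) (nat_lit 215) (nat_lit 211)))) (XT.nd (nat_lit 188) (nat_lit 0) (nat_lit 84) (XT.nd (nat_lit 94) (nat_lit 0) (nat_lit 84) (XT.lf (nat_lit 1260) (nat_lit 3101809782) (nat_lit 84) (nat_lit 1572081300) (nat_lit 0) (nat_lit 1572081300) (nat_lit 176) (nat_lit 1) (nat_lit 162) (nat_lit 1) (nat_lit 161) (nat_lit 1) (nat_lit 175) (nat_lit 215) (nat_lit 210)) (XT.lf (nat_lit 1260) (nat_lit 1428942465) (nat_lit 0) (nat_lit 3284912295) (nat_lit 1176) (nat_lit 1428942465) (nat_lit 177) (nat_lit 1) (nat_lit 162) (nat_lit 1) (nat_lit 176) (nat_lit 1) (nat_lit 176) (nat_lit 215) (nat_lit 209))) (XT.nd (nat_lit 94) (nat_lit 0) (nat_lit 84) (XT.lf (nat_lit 1260) (nat_lit 2584758606) (nat_lit 84) (nat_lit 1728543024) (nat_lit 0) (nat_lit 1728543024) (nat_lit 177) (nat_lit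 1) (nat_lit 163) (nat_lit 1) (nat_lit 162) (nat_lit 1) (nat_lit 177) (nat_lit 215) (nat_lit 208)) (XT.lf (nat_lit 1260) (nat_lit 1145530338) (nat_lit 0) (nat_lit 3652237270) (nat_lit 1176) (nat_lit 1145530338) (nat_lit 178) (nat_lit 1) (nat_lit 163) (nat_lit 1) (nat_lit 177) (nat_lit 1) (nat_lit 178) (nat_lit 215) (nat_lit 207))))))) (XT.nd (nat_lit 1222) (nat_lit 3864) (nat_lit 0) (XT.nd (nat_lit 564) (nat_lit 2856) (nat_lit 0) (XT.nd (nat_lit 282) (nat_lit 0) (nat_lit 168) (XT.nd (nat_lit 94) (nat_lit 0) (nat_lit 84) (XT.lf (nat_lit 1260) (nat_lit 1965656678) (nat_lit 84) (nat_lit 1940509507) (nat_lit 0) (nat_lit 1940509507) (nat_lit 178) (nat_lit 1) (nat_lit 164) (nat_lit 1) (nat_lit 163) (nat_lit 1) (nat_lit 179) (nat_lit 215) (nat_lit 206)) (XT.nd (nat_lit 94) (nat_lit 0) (nat_lit 0) (XT.lf (nat_lit 1260) (nat_lit 814294240) (nat_lit 0) (nat_lit 4123965820) (nat_lit 1176) (nat_lit 814294240)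 (nat_lit 179) (nat_lit 1) (nat_lit 164) (nat_lit 1) (nat_lit 178) (nat_lit 1) (nat_lit 180) (nat_lit 215) (nat_lit 205)) (XT.lf (nat_lit 1260) (nat_lit 1255902827) (nat_lit 84) (nat_lit 2202061510) (nat_lit 0) (nat_lit 2202061510) (nat_lit 179) (nat_lit 1) (nat_lit 165) (nat_lit 1) (nat_lit 164) (nat_lit 1) (nat_lit 181) (nat_lit 215) (nat_lit 204)))) (XT.nd (nat_lit 94) (nat_lit 0) (nat_lit 0) (XT.lf (nat_lit 1260) (nat_lit 440668421) (nat_lit 0) (nat_lit 4688799762) (nat_lit 1176) (nat_lit 440668421) (nat_lit 180) (nat_lit 1) (nat_lit 165) (nat_lit 1) (nat_lit 179) (nat_lit 1) (nat_lit 182) (nat_lit 215) (nat_lit 203)) (XT.nd (nat_lit 94) (nat_lit 0) (nat_lit 84) (XT.lf (nat_lit 1260) (nat_lit 465981967) (nat_lit 84) (nat_lit 2507748728) (nat_lit 0) (nat_lit 2507748728) (nat_lit 180) (nat_lit 1) (nat_lit 166) (nat_lit 1) (nat_lit 165) (nat_lit 1) (nat_lit 183) (nat_lit 215) (nat_lit 202))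 (XT.lf (nat_lit 84) (nat_lit 29649573) (nat_lit 0) (nat_lit 5336339445) (nat_lit 1176) (nat_lit 29649573) (nat_lit 167) (nat_lit 1) (nat_lit 166) (nat_lit 1) (nat_lit 180) (nat_lit 1) (nat_lit 184) (nat_lit 215) (nat_lit 201))))) (XT.nd (nat_lit 282) (nat_lit 1176) (nat_lit 0) (XT.nd (nat_lit 94) (nat_lit 672) (nat_lit 0) (XT.lf (nat_lit 84) (nat_lit 2462482439) (nat_lit 0) (nat_lit 385524564) (nat_lit 1260) (nat_lit 2462482439) (nat_lit 152) (nat_lit 1) (nat_lit 151) (nat_lit 1) (nat_lit 166) (nat_lit 1) (nat_lit 185) (nat_lit 215) (nat_lit 200)) (XT.nd (nat_lit 94) (nat_lit 0) (nat_lit 0) (XT.lf (nat_lit 756) (nat_lit 4409126809) (nat_lit 0) (nat_lit 409449670) (nat_lit 672) (nat_lit 409449670) (nat_lit 152) (nat_lit 1) (nat_lit 143) (nat_lit 1) (nat_lit 151) (nat_lit 1) (nat_lit 186) (nat_lit 215) (nat_lit 199)) (XT.lf (nat_lit 84) (nat_lit 1929942969) (nat_lit 0) (nat_lit 1286746084) (nat_lit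 756) (nat_lit 1929942969) (nat_lit 144) (nat_lit 1) (nat_lit 143) (nat_lit 1) (nat_lit 152) (nat_lit 1) (nat_lit 187) (nat_lit 215) (nat_lit 198)))) (XT.nd (nat_lit 188) (nat_lit 588) (nat_lit 0) (XT.nd (nat_lit 94) (nat_lit 0) (nat_lit 0) (XT.lf (nat_lit 672) (nat_lit 3314548686) (nat_lit 0) (nat_lit 876472794) (nat_lit 588) (nat_lit 876472794) (nat_lit 144) (nat_lit 1) (nat_lit 136) (nat_lit 1) (nat_lit 143) (nat_lit 1) (nat_lit 188) (nat_lit 215) (nat_lit 197)) (XT.lf (nat_lit 84) (nat_lit 1374714500) (nat_lit 0) (nat_lit 2240311090) (nat_lit 672) (nat_lit 1374714500) (nat_lit 137) (nat_lit 1) (nat_lit 136) (nat_lit 1) (nat_lit 144) (nat_lit 1) (nat_lit 189) (nat_lit 215) (nat_lit 196))) (XT.nd (nat_lit 94) (nat_lit 0) (nat_lit 0) (XT.lf (nat_lit 672) (nat_lit 2177878635) (nat_lit 0) (nat_lit 1367936467) (nat_lit 588) (nat_lit 1367936467) (nat_lit 137) (nat_lit 1) (nat_lit 129) (nat_lit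 1) (nat_lit 136) (nat_lit 1) (nat_lit 190) (nat_lit 215) (nat_lit 195)) (XT.lf (nat_lit 84) (nat_lit 800270246) (nat_lit 0) (nat_lit 3238942898) (nat_lit 672) (nat_lit 800270246) (nat_lit 130) (nat_lit 1) (nat_lit 129) (nat_lit 1) (nat_lit 137) (nat_lit 1) (nat_lit 191) (nat_lit 215) (nat_lit 194)))))) (XT.nd (nat_lit 658) (nat_lit 1764) (nat_lit 0) (XT.nd (nat_lit 282) (nat_lit 1008) (nat_lit 0) (XT.nd (nat_lit 94) (nat_lit 588) (nat_lit 0) (XT.lf (nat_lit 588) (nat_lit 1005799801) (nat_lit 0) (nat_lit 1880339093) (nat_lit 504) (nat_lit 1880339093) (nat_lit 130) (nat_lit 1) (nat_lit 123) (nat_lit 1) (nat_lit 129) (nat_lit 1) (nat_lit 192) (nat_lit 215) (nat_lit 193)) (XT.nd (nat_lit 94) (nat_lit 588) (nat_lit 0) (XT.lf (nat_lit 84) (nat_lit 209786052) (nat_lit 0) (nat_lit 4275977023) (nat_lit 588) (nat_lit 209786052) (nat_lit 124) (nat_lit 1) (nat_lit 123) (nat_lit 1) (nat_lit 130) (nat_lit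 1) (nat_lit 193) (nat_lit 215) (nat_lit 192)) (XT.lf (nat_lit 84) (nat_lit 2217074150) (nat_lit 0) (nat_lit 191145745) (nat_lit 588) (nat_lit 2217074150) (nat_lit 117) (nat_lit 1) (nat_lit 116) (nat_lit 1) (nat_lit 123) (nat_lit 1) (nat_lit 194) (nat_lit 215) (nat_lit 191)))) (XT.nd (nat_lit 188) (nat_lit 504) (nat_lit 0) (XT.nd (nat_lit 94) (nat_lit 0) (nat_lit 0) (XT.lf (nat_lit 588) (nat_lit 3778327844) (nat_lit 0) (nat_lit 389347578) (nat_lit 504) (nat_lit 389347578) (nat_lit 117) (nat_lit 1) (nat_lit 110) (nat_lit 1) (nat_lit 116) (nat_lit 1) (nat_lit 195) (nat_lit 215) (nat_lit 190)) (XT.lf (nat_lit 84) (nat_lit 1550556370) (nat_lit 0) (nat_lit 1388474444) (nat_lit 588) (nat_lit 1550556370) (nat_lit 111) (nat_lit 1) (nat_lit 110) (nat_lit 1) (nat_lit 117) (nat_lit 1) (nat_lit 196) (nat_lit 215) (nat_lit 189))) (XT.nd (nat_lit 94) (nat_lit 0) (nat_lit 0) (XT.lf (nat_lit 588) (nat_lit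 2430969118) (nat_lit 0) (nat_lit 996463695) (nat_lit 504) (nat_lit 996463695) (nat_lit 111) (nat_lit 1) (nat_lit 104) (nat_lit 1) (nat_lit 110) (nat_lit 1) (nat_lit 197) (nat_lit 215) (nat_lit 188)) (XT.lf (nat_lit 84) (nat_lit 877726558) (nat_lit 0) (nat_lit 2604026123) (nat_lit 588) (nat_lit 877726558) (nat_lit 105) (nat_lit 1) (nat_lit 104) (nat_lit 1) (nat_lit 111) (nat_lit 1) (nat_lit 198) (nat_lit 215) (nat_lit 187))))) (XT.nd (nat_lit 282) (nat_lit 840) (nat_lit 0) (XT.nd (nat_lit 94) (nat_lit 504) (nat_lit 0) (XT.lf (nat_lit 504) (nat_lit 1073093058) (nat_lit 0) (nat_lit 1611571673) (nat_lit 420) (nat_lit 1611571673) (nat_lit 105) (nat_lit 1) (nat_lit 99) (nat_lit 1) (nat_lit 104) (nat_lit 1) (nat_lit 199) (nat_lit 215) (nat_lit 186)) (XT.nd (nat_lit 94) (nat_lit 504) (nat_lit 0) (XT.lf (nat_lit 84) (nat_lit 200716466) (nat_lit 0) (nat_lit 3833280801) (nat_lit 504) (nat_lit 200716466)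 (nat_lit 100) (nat_lit 1) (nat_lit 99) (nat_lit 1) (nat_lit 105) (nat_lit 1) (nat_lit 200) (nat_lit 215) (nat_lit 185)) (XT.lf (nat_lit 84) (nat_lit 1944533649) (nat_lit 0) (nat_lit 284612834) (nat_lit 504) (nat_lit 1944533649) (nat_lit 94) (nat_lit 1) (nat_lit 93) (nat_lit 1) (nat_lit 99) (nat_lit 1) (nat_lit 201) (nat_lit 215) (nat_lit 184)))) (XT.nd (nat_lit 188) (nat_lit 420) (nat_lit 0) (XT.nd (nat_lit 94) (nat_lit 0) (nat_lit 0) (XT.lf (nat_lit 504) (nat_lit 3168124249) (nat_lit 0) (nat_lit 473086100) (nat_lit 420) (nat_lit 473086100) (nat_lit 94) (nat_lit 1) (nat_lit 88) (nat_lit 1) (nat_lit 93) (nat_lit 1) (nat_lit 202) (nat_lit 215) (nat_lit 183)) (XT.lf (nat_lit 84) (nat_lit 1217512855) (nat_lit 0) (nat_lit 1620659708) (nat_lit 504) (nat_lit 1217512855) (nat_lit 89) (nat_lit 1) (nat_lit 88) (nat_lit 1) (nat_lit 94) (nat_lit 1) (nat_lit 203) (nat_lit 215) (nat_lit 182))) (XT.nd (nat_lit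 94) (nat_lit 0) (nat_lit 0) (XT.lf (nat_lit 504) (nat_lit 1708241366) (nat_lit 0) (nat_lit 1145095112) (nat_lit 420) (nat_lit 1145095112) (nat_lit 89) (nat_lit 1) (nat_lit 83) (nat_lit 1) (nat_lit 88) (nat_lit 1) (nat_lit 204) (nat_lit 215) (nat_lit 181)) (XT.lf (nat_lit 84) (nat_lit 493167309) (nat_lit 0) (nat_lit 2956113094) (nat_lit 504) (nat_lit 493167309) (nat_lit 84) (nat_lit 1) (nat_lit 83) (nat_lit 1) (nat_lit 89) (nat_lit 1) (nat_lit 205) (nat_lit 215) (nat_lit 180))))))))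
noncomputable def ec15 : XT := (XT.nd (nat_lit 34968) (nat_lit 0) (nat_lit 3444) (XT.nd (nat_lit 1222) (nat_lit 840) (nat_lit 0) (XT.nd (nat_lit 564) (nat_lit 1428) (nat_lit 0) (XT.nd (nat_lit 282) (nat_lit 672) (nat_lit 0) (XT.nd (nat_lit 94) (nat_lit 504) (nat_lit 0) (XT.lf (nat_lit 420) (nat_lit 255138560) (nat_lit 0) (nat_lit 1816039389) (nat_lit 336) (nat_lit 1816039389) (nat_lit 84) (nat_lit 1) (nat_lit 79) (nat_lit 1) (nat_lit 83) (nat_lit 1) (nat_lit 206) (nat_lit 215) (nat_lit 179)) (XT.nd (nat_lit 94) (nat_lit 0) (nat_lit 0) (XT.lf (nat_lit 504) (nat_lit 3384304424) (nat_lit 0) (nat_lit 224547169) (nat_lit 420) (nat_lit 224547169) (nat_lit 79) (nat_lit 1) (nat_lit 73) (nat_lit 1) (nat_lit 78) (nat_lit 1) (nat_lit 207) (nat_lit 215) (nat_lit 178)) (XT.lf (nat_lit 84) (nat_lit 1309176317) (nat_lit 0) (nat_lit 1161631574) (nat_lit 504) (nat_lit 1309176317) (nat_lit 74) (nat_lit 1) (nat_lit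 73) (nat_lit 1) (nat_lit 79) (nat_lit 1) (nat_lit 208) (nat_lit 215) (nat_lit 177)))) (XT.nd (nat_lit 94) (nat_lit 336) (nat_lit 0) (XT.lf (nat_lit 420) (nat_lit 1865059240) (nat_lit 0) (nat_lit 931434430) (nat_lit 336) (nat_lit 931434430) (nat_lit 74) (nat_lit 1) (nat_lit 69) (nat_lit 1) (nat_lit 73) (nat_lit 1) (nat_lit 209) (nat_lit 215) (nat_lit 176)) (XT.nd (nat_lit 94) (nat_lit 336) (nat_lit 0) (XT.lf (nat_lit 84) (nat_lit 557865718) (nat_lit 0) (nat_lit 2561173581) (nat_lit 420) (nat_lit 557865718) (nat_lit 70) (nat_lit 1) (nat_lit 69) (nat_lit 1) (nat_lit 74) (nat_lit 1) (nat_lit 210) (nat_lit 215) (nat_lit 175)) (XT.lf (nat_lit 420) (nat_lit 362544176) (nat_lit 0) (nat_lit 1632037885) (nat_lit 336) (nat_lit 1632037885) (nat_lit 70) (nat_lit 1) (nat_lit 65) (nat_lit 1) (nat_lit 69) (nat_lit 1) (nat_lit 211) (nat_lit 215) (nat_lit 174))))) (XT.nd (nat_lit 282) (nat_lit 672) (nat_lit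 0) (XT.nd (nat_lit 94) (nat_lit 336) (nat_lit 0) (XT.lf (nat_lit 420) (nat_lit 3212461160) (nat_lit 0) (nat_lit 182571507) (nat_lit 336) (nat_lit 182571507) (nat_lit 65) (nat_lit 1) (nat_lit 60) (nat_lit 1) (nat_lit 64) (nat_lit 1) (nat_lit 212) (nat_lit 215) (nat_lit 173)) (XT.nd (nat_lit 94) (nat_lit 336) (nat_lit 0) (XT.lf (nat_lit 84) (nat_lit 1216391425) (nat_lit 0) (nat_lit 1096073709) (nat_lit 420) (nat_lit 1216391425) (nat_lit 61) (nat_lit 1) (nat_lit 60) (nat_lit 1) (nat_lit 65) (nat_lit 1) (nat_lit 213) (nat_lit 215) (nat_lit 172)) (XT.lf (nat_lit 420) (nat_lit 1666974519) (nat_lit 0) (nat_lit 907180163) (nat_lit 336) (nat_lit 907180163) (nat_lit 61) (nat_lit 1) (nat_lit 56) (nat_lit 1) (nat_lit 60) (nat_lit 1) (nat_lit 214) (nat_lit 215) (nat_lit 171)))) (XT.nd (nat_lit 188) (nat_lit 420) (nat_lit 0) (XT.nd (nat_lit 94) (nat_lit 252) (nat_lit 0) (XT.lf (nat_lit 84) (nat_lit 453919664)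 (nat_lit 0) (nat_lit 2526930739) (nat_lit 420) (nat_lit 453919664) (nat_lit 57) (nat_lit 1) (nat_lit 56) (nat_lit 1) (nat_lit 61) (nat_lit 1) (nat_lit 215) (nat_lit 215) (nat_lit 170)) (XT.lf (nat_lit 336) (nat_lit 145566720) (nat_lit 0) (nat_lit 1621619508) (nat_lit 252) (nat_lit 1621619508) (nat_lit 57) (nat_lit 1) (nat_lit 53) (nat_lit 1) (nat_lit 56) (nat_lit 1) (nat_lit 216) (nat_lit 215) (nat_lit 169))) (XT.nd (nat_lit 94) (nat_lit 0) (nat_lit 0) (XT.lf (nat_lit 420) (nat_lit 2758022920) (nat_lit 0) (nat_lit 292925569) (nat_lit 336) (nat_lit 292925569) (nat_lit 53) (nat_lit 1) (nat_lit 48) (nat_lit 1) (nat_lit 52) (nat_lit 1) (nat_lit 217) (nat_lit 215) (nat_lit 168)) (XT.lf (nat_lit 84) (nat_lit 989627519) (nat_lit 0) (nat_lit 1320076360) (nat_lit 420) (nat_lit 989627519) (nat_lit 49) (nat_lit 1) (nat_lit 48) (nat_lit 1) (nat_lit 53) (nat_lit 1) (nat_lit 218) (nat_lit 215) (nat_lit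 167)))))) (XT.nd (nat_lit 33088) (nat_lit 0) (nat_lit 10248) (XT.nd (nat_lit 282) (nat_lit 252) (nat_lit 0) (XT.nd (nat_lit 94) (nat_lit 336) (nat_lit 0) (XT.lf (nat_lit 336) (nat_lit 1211772574) (nat_lit 0) (nat_lit 1022006756) (nat_lit 252) (nat_lit 1022006756) (nat_lit 49) (nat_lit 1) (nat_lit 45) (nat_lit 1) (nat_lit 48) (nat_lit 1) (nat_lit 219) (nat_lit 215) (nat_lit 166)) (XT.nd (nat_lit 94) (nat_lit 336) (nat_lit 0) (XT.lf (nat_lit 84) (nat_lit 228134654) (nat_lit 0) (nat_lit 2756971449) (nat_lit 336) (nat_lit 228134654) (nat_lit 46) (nat_lit 1) (nat_lit 45) (nat_lit 1) (nat_lit 49) (nat_lit 1) (nat_lit 220) (nat_lit 215) (nat_lit 165)) (XT.lf (nat_lit 84) (nat_lit 1436376888) (nat_lit 0) (nat_lit 298198504) (nat_lit 336) (nat_lit 1436376888) (nat_lit 42) (nat_lit 1) (nat_lit 41) (nat_lit 1) (nat_lit 45) (nat_lit 1) (nat_lit 221) (nat_lit 215) (nat_lit 164)))) (XT.nd (nat_lit 32618)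 (nat_lit 0) (nat_lit 10164) (XT.nd (nat_lit 94) (nat_lit 0) (nat_lit 0) (XT.lf (nat_lit 336) (nat_lit 2104221277) (nat_lit 0) (nat_lit 512705872) (nat_lit 252) (nat_lit 512705872) (nat_lit 42) (nat_lit 1) (nat_lit 38) (nat_lit 1) (nat_lit 41) (nat_lit 1) (nat_lit 222) (nat_lit 215) (nat_lit 163)) (XT.lf (nat_lit 84) (nat_lit 668705828) (nat_lit 0) (nat_lit 1751478781) (nat_lit 336) (nat_lit 668705828) (nat_lit 39) (nat_lit 1) (nat_lit 38) (nat_lit 1) (nat_lit 42) (nat_lit 1) (nat_lit 223) (nat_lit 215) (nat_lit 162))) (XT.nd (nat_lit 94) (nat_lit 0) (nat_lit 0) (XT.lf (nat_lit 1260) (nat_lit 999083848) (nat_lit 0) (nat_lit 1520060448) (nat_lit 1260) (nat_lit 999083848) (nat_lit 174) (nat_lit 1) (nat_lit 159) (nat_lit 0) (nat_lit 174) (nat_lit 0) (nat_lit 168) (nat_lit 216) (nat_lit 216)) (XT.lf (nat_lit 1260) (nat_lit 3911434824) (nat_lit 84) (nat_lit 1502730768) (nat_lit 0) (nat_lit 1502730768)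 (nat_lit 174) (nat_lit 1) (nat_lit 160) (nat_lit 1) (nat_lit 159) (nat_lit 0) (nat_lit 169) (nat_lit 216) (nat_lit 215))))) (XT.nd (nat_lit 282) (nat_lit 0) (nat_lit 84) (XT.nd (nat_lit 94) (nat_lit 0) (nat_lit 0) (XT.lf (nat_lit 1260) (nat_lit 1892149067) (nat_lit 0) (nat_lit 3015556027) (nat_lit 1176) (nat_lit 1892149067) (nat_lit 175) (nat_lit 1) (nat_lit 160) (nat_lit 1) (nat_lit 174) (nat_lit 1) (nat_lit 170) (nat_lit 216) (nat_lit 214)) (XT.nd (nat_lit 94) (nat_lit 0) (nat_lit 84) (XT.lf (nat_lit 1260) (nat_lit 3627081449) (nat_lit 84) (nat_lit 1529262938) (nat_lit 0) (nat_lit 1529262938) (nat_lit 175) (nat_lit 1) (nat_lit 161) (nat_lit 1) (nat_lit 160) (nat_lit 1) (nat_lit 171) (nat_lit 216) (nat_lit 213)) (XT.lf (nat_lit 1260) (nat_lit 1716676656) (nat_lit 0) (nat_lit 3140456124) (nat_lit 1176) (nat_lit 1716676656) (nat_lit 176) (nat_lit 1) (nat_lit 161) (nat_lit 1) (nat_lit 175) (nat_lit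 1) (nat_lit 172) (nat_lit 216) (nat_lit 212)))) (XT.nd (nat_lit 188) (nat_lit 0) (nat_lit 84) (XT.nd (nat_lit 94) (nat_lit 0) (nat_lit 84) (XT.lf (nat_lit 1260) (nat_lit 3210373124) (nat_lit 84) (nat_lit 1627104145) (nat_lit 0) (nat_lit 1627104145) (nat_lit 176) (nat_lit 1) (nat_lit 162) (nat_lit 1) (nat_lit 161) (nat_lit 1) (nat_lit 173) (nat_lit 216) (nat_lit 211)) (XT.lf (nat_lit 1260) (nat_lit 1478955451) (nat_lit 0) (nat_lit 3399884226) (nat_lit 1176) (nat_lit 1478955451) (nat_lit 177) (nat_lit 1) (nat_lit 162) (nat_lit 1) (nat_lit 176) (nat_lit 1) (nat_lit 174) (nat_lit 216) (nat_lit 210))) (XT.nd (nat_lit 94) (nat_lit 0) (nat_lit 84) (XT.lf (nat_lit 1260) (nat_lit 2675225157) (nat_lit 84) (nat_lit 1789042030) (nat_lit 0) (nat_lit 1789042030) (nat_lit 177) (nat_lit 1) (nat_lit 163) (nat_lit 1) (nat_lit 162) (nat_lit 1) (nat_lit 175) (nat_lit 216) (nat_lit 209)) (XT.lf (nat_lit 1260)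 (nat_lit 1185623900) (nat_lit 0) (nat_lit 3780065575) (nat_lit 1176) (nat_lit 1185623900) (nat_lit 178) (nat_lit 1) (nat_lit 163) (nat_lit 1) (nat_lit 177) (nat_lit 1) (nat_lit 176) (nat_lit 216) (nat_lit 208))))))) (XT.nd (nat_lit 1316) (nat_lit 3696) (nat_lit 0) (XT.nd (nat_lit 658) (nat_lit 2352) (nat_lit 0) (XT.nd (nat_lit 282) (nat_lit 1008) (nat_lit 0) (XT.nd (nat_lit 94) (nat_lit 0) (nat_lit 84) (XT.lf (nat_lit 1260) (nat_lit 2034454662) (nat_lit 84) (nat_lit 2008427340) (nat_lit 0) (nat_lit 2008427340) (nat_lit 178) (nat_lit 1) (nat_lit 164) (nat_lit 1) (nat_lit 163) (nat_lit 1) (nat_lit 177) (nat_lit 216) (nat_lit 207)) (XT.nd (nat_lit 94) (nat_lit 0) (nat_lit 0) (XT.lf (nat_lit 1260) (nat_lit 842794538) (nat_lit 0) (nat_lit 4268304623) (nat_lit 1176) (nat_lit 842794538) (nat_lit 179) (nat_lit 1) (nat_lit 164) (nat_lit 1) (nat_lit 178) (nat_lit 1) (nat_lit 178) (nat_lit 216) (nat_lit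 206)) (XT.lf (nat_lit 1260) (nat_lit 1299859426) (nat_lit 84) (nat_lit 2279133662) (nat_lit 0) (nat_lit 2279133662) (nat_lit 179) (nat_lit 1) (nat_lit 165) (nat_lit 1) (nat_lit 164) (nat_lit 1) (nat_lit 179) (nat_lit 216) (nat_lit 205)))) (XT.nd (nat_lit 188) (nat_lit 1176) (nat_lit 0) (XT.nd (nat_lit 94) (nat_lit 0) (nat_lit 0) (XT.lf (nat_lit 1260) (nat_lit 456091815) (nat_lit 0) (nat_lit 4852907754) (nat_lit 1176) (nat_lit 456091815) (nat_lit 180) (nat_lit 1) (nat_lit 165) (nat_lit 1) (nat_lit 179) (nat_lit 1) (nat_lit 180) (nat_lit 216) (nat_lit 204)) (XT.lf (nat_lit 1260) (nat_lit 482291336) (nat_lit 84) (nat_lit 2595519934) (nat_lit 0) (nat_lit 2595519934) (nat_lit 180) (nat_lit 1) (nat_lit 166) (nat_lit 1) (nat_lit 165) (nat_lit 1) (nat_lit 181) (nat_lit 216) (nat_lit 203))) (XT.nd (nat_lit 94) (nat_lit 1260) (nat_lit 0) (XT.lf (nat_lit 84) (nat_lit 30687308) (nat_lit 0) (nat_lit 5523111326)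 (nat_lit 1176) (nat_lit 30687308) (nat_lit 167) (nat_lit 1) (nat_lit 166) (nat_lit 1) (nat_lit 180) (nat_lit 1) (nat_lit 182) (nat_lit 216) (nat_lit 202)) (XT.lf (nat_lit 84) (nat_lit 2548669324) (nat_lit 0) (nat_lit 399017924) (nat_lit 1260) (nat_lit 2548669324) (nat_lit 152) (nat_lit 1) (nat_lit 151) (nat_lit 1) (nat_lit 166) (nat_lit 1) (nat_lit 183) (nat_lit 216) (nat_lit 201))))) (XT.nd (nat_lit 282) (nat_lit 1092) (nat_lit 0) (XT.nd (nat_lit 94) (nat_lit 588) (nat_lit 0) (XT.lf (nat_lit 756) (nat_lit 4563446248) (nat_lit 0) (nat_lit 423780409) (nat_lit 672) (nat_lit 423780409) (nat_lit 152) (nat_lit 1) (nat_lit 143) (nat_lit 1) (nat_lit 151) (nat_lit 1) (nat_lit 184) (nat_lit 216) (nat_lit 200)) (XT.nd (nat_lit 94) (nat_lit 588) (nat_lit 0) (XT.lf (nat_lit 84) (nat_lit 1997490973) (nat_lit 0) (nat_lit 1331782197) (nat_lit 756) (nat_lit 1997490973) (nat_lit 144) (nat_lit 1) (nat_lit 143)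 (nat_lit 1) (nat_lit 152) (nat_lit 1) (nat_lit 185) (nat_lit 216) (nat_lit 199)) (XT.lf (nat_lit 672) (nat_lit 3430557890) (nat_lit 0) (nat_lit 907149342) (nat_lit 588) (nat_lit 907149342) (nat_lit 144) (nat_lit 1) (nat_lit 136) (nat_lit 1) (nat_lit 143) (nat_lit 1) (nat_lit 186) (nat_lit 216) (nat_lit 198)))) (XT.nd (nat_lit 188) (nat_lit 504) (nat_lit 0) (XT.nd (nat_lit 94) (nat_lit 588) (nat_lit 0) (XT.lf (nat_lit 84) (nat_lit 1422829507) (nat_lit 0) (nat_lit 2318721979) (nat_lit 672) (nat_lit 1422829507) (nat_lit 137) (nat_lit 1) (nat_lit 136) (nat_lit 1) (nat_lit 144) (nat_lit 1) (nat_lit 187) (nat_lit 216) (nat_lit 197)) (XT.lf (nat_lit 672) (nat_lit 2254104387) (nat_lit 0) (nat_lit 1415814243) (nat_lit 588) (nat_lit 1415814243) (nat_lit 137) (nat_lit 1) (nat_lit 129) (nat_lit 1) (nat_lit 136) (nat_lit 1) (nat_lit 188) (nat_lit 216) (nat_lit 196))) (XT.nd (nat_lit 94) (nat_lit 504) (nat_lit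 0) (XT.lf (nat_lit 84) (nat_lit 828279704) (nat_lit 0) (nat_lit 3352305899) (nat_lit 672) (nat_lit 828279704) (nat_lit 130) (nat_lit 1) (nat_lit 129) (nat_lit 1) (nat_lit 137) (nat_lit 1) (nat_lit 189) (nat_lit 216) (nat_lit 195)) (XT.lf (nat_lit 588) (nat_lit 1041002794) (nat_lit 0) (nat_lit 1946150961) (nat_lit 504) (nat_lit 1946150961) (nat_lit 130) (nat_lit 1) (nat_lit 123) (nat_lit 1) (nat_lit 129) (nat_lit 1) (nat_lit 190) (nat_lit 216) (nat_lit 194)))))) (XT.nd (nat_lit 658) (nat_lit 1680) (nat_lit 0) (XT.nd (nat_lit 282) (nat_lit 924) (nat_lit 0) (XT.nd (nat_lit 94) (nat_lit 1092) (nat_lit 0) (XT.lf (nat_lit 84) (nat_lit 217128564) (nat_lit 0) (nat_lit 4425636219) (nat_lit 588) (nat_lit 217128564) (nat_lit 124) (nat_lit 1) (nat_lit 123) (nat_lit 1) (nat_lit 130) (nat_lit 1) (nat_lit 191) (nat_lit 216) (nat_lit 193)) (XT.nd (nat_lit 94) (nat_lit 504) (nat_lit 0) (XT.lf (nat_lit 84)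 (nat_lit 2294671745) (nat_lit 0) (nat_lit 197835846) (nat_lit 588) (nat_lit 2294671745) (nat_lit 117) (nat_lit 1) (nat_lit 116) (nat_lit 1) (nat_lit 123) (nat_lit 1) (nat_lit 192) (nat_lit 216) (nat_lit 192)) (XT.lf (nat_lit 588) (nat_lit 3910569318) (nat_lit 0) (nat_lit 402974743) (nat_lit 504) (nat_lit 402974743) (nat_lit 117) (nat_lit 1) (nat_lit 110) (nat_lit 1) (nat_lit 116) (nat_lit 1) (nat_lit 193) (nat_lit 216) (nat_lit 191)))) (XT.nd (nat_lit 188) (nat_lit 420) (nat_lit 0) (XT.nd (nat_lit 94) (nat_lit 504) (nat_lit 0) (XT.lf (nat_lit 84) (nat_lit 1604825843) (nat_lit 0) (nat_lit 1437071049) (nat_lit 588) (nat_lit 1604825843) (nat_lit 111) (nat_lit 1) (nat_lit 110) (nat_lit 1) (nat_lit 117) (nat_lit 1) (nat_lit 194) (nat_lit 216) (nat_lit 190)) (XT.lf (nat_lit 588) (nat_lit 2516053037) (nat_lit 0) (nat_lit 1031339925) (nat_lit 504) (nat_lit 1031339925) (nat_lit 111) (nat_lit 1) (nat_lit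 104) (nat_lit 1) (nat_lit 110) (nat_lit 1) (nat_lit 195) (nat_lit 216) (nat_lit 189))) (XT.nd (nat_lit 94) (nat_lit 420) (nat_lit 0) (XT.lf (nat_lit 84) (nat_lit 908446988) (nat_lit 0) (nat_lit 2695167037) (nat_lit 588) (nat_lit 908446988) (nat_lit 105) (nat_lit 1) (nat_lit 104) (nat_lit 1) (nat_lit 111) (nat_lit 1) (nat_lit 196) (nat_lit 216) (nat_lit 188)) (XT.lf (nat_lit 504) (nat_lit 1110651315) (nat_lit 0) (nat_lit 1667976681) (nat_lit 420) (nat_lit 1667976681) (nat_lit 105) (nat_lit 1) (nat_lit 99) (nat_lit 1) (nat_lit 104) (nat_lit 1) (nat_lit 197) (nat_lit 216) (nat_lit 187))))) (XT.nd (nat_lit 282) (nat_lit 756) (nat_lit 0) (XT.nd (nat_lit 94) (nat_lit 924) (nat_lit 0) (XT.lf (nat_lit 84) (nat_lit 207741543) (nat_lit 0) (nat_lit 3967445629) (nat_lit 504) (nat_lit 207741543) (nat_lit 100) (nat_lit 1) (nat_lit 99) (nat_lit 1) (nat_lit 105) (nat_lit 1) (nat_lit 198) (nat_lit 216) (nat_lit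 186)) (XT.nd (nat_lit 94) (nat_lit 420) (nat_lit 0) (XT.lf (nat_lit 84) (nat_lit 2012592327) (nat_lit 0) (nat_lit 294574284) (nat_lit 504) (nat_lit 2012592327) (nat_lit 94) (nat_lit 1) (nat_lit 93) (nat_lit 1) (nat_lit 99) (nat_lit 1) (nat_lit 199) (nat_lit 216) (nat_lit 185)) (XT.lf (nat_lit 504) (nat_lit 3279008597) (nat_lit 0) (nat_lit 489644113) (nat_lit 420) (nat_lit 489644113) (nat_lit 94) (nat_lit 1) (nat_lit 88) (nat_lit 1) (nat_lit 93) (nat_lit 1) (nat_lit 200) (nat_lit 216) (nat_lit 184)))) (XT.nd (nat_lit 188) (nat_lit 336) (nat_lit 0) (XT.nd (nat_lit 94) (nat_lit 420) (nat_lit 0) (XT.lf (nat_lit 84) (nat_lit 1260125805) (nat_lit 0) (nat_lit 1677382798) (nat_lit 504) (nat_lit 1260125805) (nat_lit 89) (nat_lit 1) (nat_lit 88) (nat_lit 1) (nat_lit 94) (nat_lit 1) (nat_lit 201) (nat_lit 216) (nat_lit 183)) (XT.lf (nat_lit 504) (nat_lit 1768029814) (nat_lit 0) (nat_lit 1185173441) (nat_lit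 420) (nat_lit 1185173441) (nat_lit 89) (nat_lit 1) (nat_lit 83) (nat_lit 1) (nat_lit 88) (nat_lit 1) (nat_lit 202) (nat_lit 216) (nat_lit 182))) (XT.nd (nat_lit 94) (nat_lit 336) (nat_lit 0) (XT.lf (nat_lit 84) (nat_lit 510428165) (nat_lit 0) (nat_lit 3059577052) (nat_lit 504) (nat_lit 510428165) (nat_lit 84) (nat_lit 1) (nat_lit 83) (nat_lit 1) (nat_lit 89) (nat_lit 1) (nat_lit 203) (nat_lit 216) (nat_lit 181)) (XT.lf (nat_lit 420) (nat_lit 264068410) (nat_lit 0) (nat_lit 1879600768) (nat_lit 336) (nat_lit 1879600768) (nat_lit 84) (nat_lit 1) (nat_lit 79) (nat_lit 1) (nat_lit 83) (nat_lit 1) (nat_lit 204) (nat_lit 216) (nat_lit 180))))))))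
noncomputable def ec16 : XT := (XT.nd (nat_lit 34780) (nat_lit 0) (nat_lit 4368) (XT.nd (nat_lit 1222) (nat_lit 1176) (nat_lit 0) (XT.nd (nat_lit 564) (nat_lit 1260) (nat_lit 0) (XT.nd (nat_lit 282) (nat_lit 756) (nat_lit 0) (XT.nd (nat_lit 94) (nat_lit 336) (nat_lit 0) (XT.lf (nat_lit 504) (nat_lit 3502755079) (nat_lit 0) (nat_lit 232406320) (nat_lit 420) (nat_lit 232406320) (nat_lit 79) (nat_lit 1) (nat_lit 73) (nat_lit 1) (nat_lit 78) (nat_lit 1) (nat_lit 205) (nat_lit 216) (nat_lit 179)) (XT.nd (nat_lit 94) (nat_lit 336) (nat_lit 0) (XT.lf (nat_lit 84) (nat_lit 1354997488) (nat_lit 0) (nat_lit 1202288679) (nat_lit 504) (nat_lit 1354997488) (nat_lit 74) (nat_lit 1) (nat_lit 73) (nat_lit 1) (nat_lit 79) (nat_lit 1) (nat_lit 206) (nat_lit 216) (nat_lit 178)) (XT.lf (nat_lit 420) (nat_lit 1930336313) (nat_lit 0) (nat_lit 964034636) (nat_lit 336) (nat_lit 964034636) (nat_lit 74) (nat_lit 1)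 (nat_lit 69) (nat_lit 1) (nat_lit 73) (nat_lit 1) (nat_lit 207) (nat_lit 216) (nat_lit 177)))) (XT.nd (nat_lit 94) (nat_lit 756) (nat_lit 0) (XT.lf (nat_lit 84) (nat_lit 577391019) (nat_lit 0) (nat_lit 2650814656) (nat_lit 420) (nat_lit 577391019) (nat_lit 70) (nat_lit 1) (nat_lit 69) (nat_lit 1) (nat_lit 74) (nat_lit 1) (nat_lit 208) (nat_lit 216) (nat_lit 176)) (XT.nd (nat_lit 94) (nat_lit 420) (nat_lit 0) (XT.lf (nat_lit 420) (nat_lit 375233222) (nat_lit 0) (nat_lit 1689159211) (nat_lit 336) (nat_lit 1689159211) (nat_lit 70) (nat_lit 1) (nat_lit 65) (nat_lit 1) (nat_lit 69) (nat_lit 1) (nat_lit 209) (nat_lit 216) (nat_lit 175)) (XT.lf (nat_lit 420) (nat_lit 3324897301) (nat_lit 0) (nat_lit 188961510) (nat_lit 336) (nat_lit 188961510) (nat_lit 65) (nat_lit 1) (nat_lit 60) (nat_lit 1) (nat_lit 64) (nat_lit 1) (nat_lit 210) (nat_lit 216) (nat_lit 174))))) (XT.nd (nat_lit 282) (nat_lit 924)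 (nat_lit 0) (XT.nd (nat_lit 94) (nat_lit 336) (nat_lit 0) (XT.lf (nat_lit 84) (nat_lit 1258965125) (nat_lit 0) (nat_lit 1134436289) (nat_lit 420) (nat_lit 1258965125) (nat_lit 61) (nat_lit 1) (nat_lit 60) (nat_lit 1) (nat_lit 65) (nat_lit 1) (nat_lit 211) (nat_lit 216) (nat_lit 173)) (XT.nd (nat_lit 94) (nat_lit 0) (nat_lit 0) (XT.lf (nat_lit 420) (nat_lit 1725318627) (nat_lit 0) (nat_lit 938931469) (nat_lit 336) (nat_lit 938931469) (nat_lit 61) (nat_lit 1) (nat_lit 56) (nat_lit 1) (nat_lit 60) (nat_lit 1) (nat_lit 212) (nat_lit 216) (nat_lit 172)) (XT.lf (nat_lit 84) (nat_lit 469806852) (nat_lit 0) (nat_lit 2615373314) (nat_lit 420) (nat_lit 469806852) (nat_lit 57) (nat_lit 1) (nat_lit 56) (nat_lit 1) (nat_lit 61) (nat_lit 1) (nat_lit 213) (nat_lit 216) (nat_lit 171)))) (XT.nd (nat_lit 188) (nat_lit 252) (nat_lit 0) (XT.nd (nat_lit 94) (nat_lit 420) (nat_lit 0) (XT.lf (nat_lit 336) (nat_lit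 150661555) (nat_lit 0) (nat_lit 1678376191) (nat_lit 252) (nat_lit 1678376191) (nat_lit 57) (nat_lit 1) (nat_lit 53) (nat_lit 1) (nat_lit 56) (nat_lit 1) (nat_lit 214) (nat_lit 216) (nat_lit 170)) (XT.lf (nat_lit 420) (nat_lit 2854553722) (nat_lit 0) (nat_lit 303177964) (nat_lit 336) (nat_lit 303177964) (nat_lit 53) (nat_lit 1) (nat_lit 48) (nat_lit 1) (nat_lit 52) (nat_lit 1) (nat_lit 215) (nat_lit 216) (nat_lit 169))) (XT.nd (nat_lit 94) (nat_lit 252) (nat_lit 0) (XT.lf (nat_lit 84) (nat_lit 1024264483) (nat_lit 0) (nat_lit 1366279033) (nat_lit 420) (nat_lit 1024264483) (nat_lit 49) (nat_lit 1) (nat_lit 48) (nat_lit 1) (nat_lit 53) (nat_lit 1) (nat_lit 216) (nat_lit 216) (nat_lit 168)) (XT.lf (nat_lit 336) (nat_lit 1254184614) (nat_lit 0) (nat_lit 1057776992) (nat_lit 252) (nat_lit 1057776992) (nat_lit 49) (nat_lit 1) (nat_lit 45) (nat_lit 1) (nat_lit 48) (nat_lit 1) (nat_lit 217) (nat_lit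 216) (nat_lit 167)))))) (XT.nd (nat_lit 32900) (nat_lit 0) (nat_lit 10752) (XT.nd (nat_lit 282) (nat_lit 588) (nat_lit 0) (XT.nd (nat_lit 94) (nat_lit 588) (nat_lit 0) (XT.lf (nat_lit 84) (nat_lit 236119367) (nat_lit 0) (nat_lit 2853465450) (nat_lit 336) (nat_lit 236119367) (nat_lit 46) (nat_lit 1) (nat_lit 45) (nat_lit 1) (nat_lit 49) (nat_lit 1) (nat_lit 218) (nat_lit 216) (nat_lit 166)) (XT.nd (nat_lit 94) (nat_lit 252) (nat_lit 0) (XT.lf (nat_lit 84) (nat_lit 1486650079) (nat_lit 0) (nat_lit 308635452) (nat_lit 336) (nat_lit 1486650079) (nat_lit 42) (nat_lit 1) (nat_lit 41) (nat_lit 1) (nat_lit 45) (nat_lit 1) (nat_lit 219) (nat_lit 216) (nat_lit 165)) (XT.lf (nat_lit 336) (nat_lit 2177869021) (nat_lit 0) (nat_lit 530650577) (nat_lit 252) (nat_lit 530650577) (nat_lit 42) (nat_lit 1) (nat_lit 38) (nat_lit 1) (nat_lit 41) (nat_lit 1) (nat_lit 220) (nat_lit 216) (nat_lit 164)))) (XT.nd (nat_lit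 188) (nat_lit 336) (nat_lit 0) (XT.nd (nat_lit 94) (nat_lit 252) (nat_lit 0) (XT.lf (nat_lit 84) (nat_lit 692110532) (nat_lit 0) (nat_lit 1812780539) (nat_lit 336) (nat_lit 692110532) (nat_lit 39) (nat_lit 1) (nat_lit 38) (nat_lit 1) (nat_lit 42) (nat_lit 1) (nat_lit 221) (nat_lit 216) (nat_lit 163)) (XT.lf (nat_lit 336) (nat_lit 596744564) (nat_lit 0) (nat_lit 1279407787) (nat_lit 252) (nat_lit 1279407787) (nat_lit 39) (nat_lit 1) (nat_lit 35) (nat_lit 1) (nat_lit 38) (nat_lit 1) (nat_lit 222) (nat_lit 216) (nat_lit 162))) (XT.nd (nat_lit 32336) (nat_lit 0) (nat_lit 10752) (XT.lf (nat_lit 336) (nat_lit 2946118517) (nat_lit 0) (nat_lit 84517349) (nat_lit 252) (nat_lit 84517349) (nat_lit 35) (nat_lit 1) (nat_lit 31) (nat_lit 1) (nat_lit 34) (nat_lit 1) (nat_lit 223) (nat_lit 216) (nat_lit 161)) (XT.lf (nat_lit 1260) (nat_lit 1034051782) (nat_lit 0) (nat_lit 1573262563) (nat_lit 1260) (nat_lit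 1034051782) (nat_lit 174) (nat_lit 1) (nat_lit 159) (nat_lit 0) (nat_lit 174) (nat_lit 0) (nat_lit 166) (nat_lit 217) (nat_lit 217))))) (XT.nd (nat_lit 282) (nat_lit 0) (nat_lit 168) (XT.nd (nat_lit 94) (nat_lit 0) (nat_lit 84) (XT.lf (nat_lit 1260) (nat_lit 4048335043) (nat_lit 84) (nat_lit 1555326345) (nat_lit 0) (nat_lit 1555326345) (nat_lit 174) (nat_lit 1) (nat_lit 160) (nat_lit 1) (nat_lit 159) (nat_lit 0) (nat_lit 167) (nat_lit 217) (nat_lit 216)) (XT.nd (nat_lit 94) (nat_lit 0) (nat_lit 0) (XT.lf (nat_lit 1260) (nat_lit 1958374284) (nat_lit 0) (nat_lit 3121100488) (nat_lit 1176) (nat_lit 1958374284) (nat_lit 175) (nat_lit 1) (nat_lit 160) (nat_lit 1) (nat_lit 174) (nat_lit 1) (nat_lit 168) (nat_lit 217) (nat_lit 215)) (XT.lf (nat_lit 1260) (nat_lit 3754029300) (nat_lit 84) (nat_lit 1582787141) (nat_lit 0) (nat_lit 1582787141) (nat_lit 175) (nat_lit 1) (nat_lit 161) (nat_lit 1) (nat_lit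 160) (nat_lit 1) (nat_lit 169) (nat_lit 217) (nat_lit 214)))) (XT.nd (nat_lit 188) (nat_lit 0) (nat_lit 84) (XT.nd (nat_lit 94) (nat_lit 0) (nat_lit 0) (XT.lf (nat_lit 1260) (nat_lit 1776760339) (nat_lit 0) (nat_lit 3250372088) (nat_lit 1176) (nat_lit 1776760339) (nat_lit 176) (nat_lit 1) (nat_lit 161) (nat_lit 1) (nat_lit 175) (nat_lit 1) (nat_lit 170) (nat_lit 217) (nat_lit 213)) (XT.lf (nat_lit 1260) (nat_lit 3322736184) (nat_lit 84) (nat_lit 1684052790) (nat_lit 0) (nat_lit 1684052790) (nat_lit 176) (nat_lit 1) (nat_lit 162) (nat_lit 1) (nat_lit 161) (nat_lit 1) (nat_lit 171) (nat_lit 217) (nat_lit 212))) (XT.nd (nat_lit 94) (nat_lit 0) (nat_lit 0) (XT.lf (nat_lit 1260) (nat_lit 1530718892) (nat_lit 0) (nat_lit 3518880174) (nat_lit 1176) (nat_lit 1530718892) (nat_lit 177) (nat_lit 1) (nat_lit 162) (nat_lit 1) (nat_lit 176) (nat_lit 1) (nat_lit 172) (nat_lit 217) (nat_lit 211)) (XT.lf (nat_lit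 1260) (nat_lit 2768858038) (nat_lit 84) (nat_lit 1851658501) (nat_lit 0) (nat_lit 1851658501) (nat_lit 177) (nat_lit 1) (nat_lit 163) (nat_lit 1) (nat_lit 162) (nat_lit 1) (nat_lit 173) (nat_lit 217) (nat_lit 210))))))) (XT.nd (nat_lit 1222) (nat_lit 3864) (nat_lit 0) (XT.nd (nat_lit 564) (nat_lit 2856) (nat_lit 0) (XT.nd (nat_lit 282) (nat_lit 0) (nat_lit 84) (XT.nd (nat_lit 94) (nat_lit 0) (nat_lit 0) (XT.lf (nat_lit 1260) (nat_lit 1227120737) (nat_lit 0) (nat_lit 3912367870) (nat_lit 1176) (nat_lit 1227120737) (nat_lit 178) (nat_lit 1) (nat_lit 163) (nat_lit 1) (nat_lit 177) (nat_lit 1) (nat_lit 174) (nat_lit 217) (nat_lit 209)) (XT.nd (nat_lit 94) (nat_lit 0) (nat_lit 84) (XT.lf (nat_lit 1260) (nat_lit 2105660575) (nat_lit 84) (nat_lit 2078722297) (nat_lit 0) (nat_lit 2078722297) (nat_lit 178) (nat_lit 1) (nat_lit 164) (nat_lit 1) (nat_lit 163) (nat_lit 1) (nat_lit 175) (nat_lit 217) (nat_lit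 208)) (XT.lf (nat_lit 1260) (nat_lit 872292347) (nat_lit 0) (nat_lit 4417695285) (nat_lit 1176) (nat_lit 872292347) (nat_lit 179) (nat_lit 1) (nat_lit 164) (nat_lit 1) (nat_lit 178) (nat_lit 1) (nat_lit 176) (nat_lit 217) (nat_lit 207)))) (XT.nd (nat_lit 94) (nat_lit 0) (nat_lit 84) (XT.lf (nat_lit 1260) (nat_lit 1345354506) (nat_lit 84) (nat_lit 2358903341) (nat_lit 0) (nat_lit 2358903341) (nat_lit 179) (nat_lit 1) (nat_lit 165) (nat_lit 1) (nat_lit 164) (nat_lit 1) (nat_lit 177) (nat_lit 217) (nat_lit 206)) (XT.nd (nat_lit 94) (nat_lit 0) (nat_lit 0) (XT.lf (nat_lit 1260) (nat_lit 472055029) (nat_lit 0) (nat_lit 5022759525) (nat_lit 1176) (nat_lit 472055029) (nat_lit 180) (nat_lit 1) (nat_lit 165) (nat_lit 1) (nat_lit 179) (nat_lit 1) (nat_lit 178) (nat_lit 217) (nat_lit 205)) (XT.lf (nat_lit 1260) (nat_lit 499171532) (nat_lit 84) (nat_lit 2686363132) (nat_lit 0) (nat_lit 2686363132) (nat_lit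 180) (nat_lit 1) (nat_lit 166) (nat_lit 1) (nat_lit 165) (nat_lit 1) (nat_lit 179) (nat_lit 217) (nat_lit 204))))) (XT.nd (nat_lit 282) (nat_lit 1176) (nat_lit 0) (XT.nd (nat_lit 94) (nat_lit 1932) (nat_lit 0) (XT.lf (nat_lit 84) (nat_lit 31761364) (nat_lit 0) (nat_lit 5716420222) (nat_lit 1176) (nat_lit 31761364) (nat_lit 167) (nat_lit 1) (nat_lit 166) (nat_lit 1) (nat_lit 180) (nat_lit 1) (nat_lit 180) (nat_lit 217) (nat_lit 203)) (XT.nd (nat_lit 94) (nat_lit 672) (nat_lit 0) (XT.lf (nat_lit 84) (nat_lit 2637872750) (nat_lit 0) (nat_lit 412983551) (nat_lit 1260) (nat_lit 2637872750) (nat_lit 152) (nat_lit 1) (nat_lit 151) (nat_lit 1) (nat_lit 166) (nat_lit 1) (nat_lit 181) (nat_lit 217) (nat_lit 202)) (XT.lf (nat_lit 756) (nat_lit 4723166866) (nat_lit 0) (nat_lit 438612723) (nat_lit 672) (nat_lit 438612723) (nat_lit 152) (nat_lit 1) (nat_lit 143) (nat_lit 1) (nat_lit 151) (nat_lit 1) (nat_lit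 182) (nat_lit 217) (nat_lit 201)))) (XT.nd (nat_lit 188) (nat_lit 588) (nat_lit 0) (XT.nd (nat_lit 94) (nat_lit 588) (nat_lit 0) (XT.lf (nat_lit 84) (nat_lit 2067403157) (nat_lit 0) (nat_lit 1378394574) (nat_lit 756) (nat_lit 2067403157) (nat_lit 144) (nat_lit 1) (nat_lit 143) (nat_lit 1) (nat_lit 152) (nat_lit 1) (nat_lit 183) (nat_lit 217) (nat_lit 200)) (XT.lf (nat_lit 672) (nat_lit 3550627416) (nat_lit 0) (nat_lit 938899569) (nat_lit 588) (nat_lit 938899569) (nat_lit 144) (nat_lit 1) (nat_lit 136) (nat_lit 1) (nat_lit 143) (nat_lit 1) (nat_lit 184) (nat_lit 217) (nat_lit 199))) (XT.nd (nat_lit 94) (nat_lit 588) (nat_lit 0) (XT.lf (nat_lit 84) (nat_lit 1472628540) (nat_lit 0) (nat_lit 2399877248) (nat_lit 672) (nat_lit 1472628540) (nat_lit 137) (nat_lit 1) (nat_lit 136) (nat_lit 1) (nat_lit 144) (nat_lit 1) (nat_lit 185) (nat_lit 217) (nat_lit 198)) (XT.lf (nat_lit 672) (nat_lit 2332998041)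 (nat_lit 0) (nat_lit 1465367742) (nat_lit 588) (nat_lit 1465367742) (nat_lit 137) (nat_lit 1) (nat_lit 129) (nat_lit 1) (nat_lit 136) (nat_lit 1) (nat_lit 186) (nat_lit 217) (nat_lit 197)))))) (XT.nd (nat_lit 658) (nat_lit 1764) (nat_lit 0) (XT.nd (nat_lit 282) (nat_lit 1596) (nat_lit 0) (XT.nd (nat_lit 94) (nat_lit 504) (nat_lit 0) (XT.lf (nat_lit 84) (nat_lit 857269494) (nat_lit 0) (nat_lit 3469636606) (nat_lit 672) (nat_lit 857269494) (nat_lit 130) (nat_lit 1) (nat_lit 129) (nat_lit 1) (nat_lit 137) (nat_lit 1) (nat_lit 187) (nat_lit 217) (nat_lit 196)) (XT.nd (nat_lit 94) (nat_lit 0) (nat_lit 0) (XT.lf (nat_lit 588) (nat_lit 1077437892) (nat_lit 0) (nat_lit 2014266244) (nat_lit 504) (nat_lit 2014266244) (nat_lit 130) (nat_lit 1) (nat_lit 123) (nat_lit 1) (nat_lit 129) (nat_lit 1) (nat_lit 188) (nat_lit 217) (nat_lit 195)) (XT.lf (nat_lit 84) (nat_lit 224728064) (nat_lit 0) (nat_lit 4580533487)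 (nat_lit 588) (nat_lit 224728064) (nat_lit 124) (nat_lit 1) (nat_lit 123) (nat_lit 1) (nat_lit 130) (nat_lit 1) (nat_lit 189) (nat_lit 217) (nat_lit 194)))) (XT.nd (nat_lit 188) (nat_lit 504) (nat_lit 0) (XT.nd (nat_lit 94) (nat_lit 504) (nat_lit 0) (XT.lf (nat_lit 84) (nat_lit 2374985256) (nat_lit 0) (nat_lit 204760100) (nat_lit 588) (nat_lit 2374985256) (nat_lit 117) (nat_lit 1) (nat_lit 116) (nat_lit 1) (nat_lit 123) (nat_lit 1) (nat_lit 190) (nat_lit 217) (nat_lit 193)) (XT.lf (nat_lit 588) (nat_lit 4047439244) (nat_lit 0) (nat_lit 417078860) (nat_lit 504) (nat_lit 417078860) (nat_lit 117) (nat_lit 1) (nat_lit 110) (nat_lit 1) (nat_lit 116) (nat_lit 1) (nat_lit 191) (nat_lit 217) (nat_lit 192))) (XT.nd (nat_lit 94) (nat_lit 504) (nat_lit 0) (XT.lf (nat_lit 84) (nat_lit 1660994748) (nat_lit 0) (nat_lit 1487368536) (nat_lit 588) (nat_lit 1660994748) (nat_lit 111) (nat_lit 1) (nat_lit 110)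 (nat_lit 1) (nat_lit 117) (nat_lit 1) (nat_lit 192) (nat_lit 217) (nat_lit 191)) (XT.lf (nat_lit 588) (nat_lit 2604114893) (nat_lit 0) (nat_lit 1067436822) (nat_lit 504) (nat_lit 1067436822) (nat_lit 111) (nat_lit 1) (nat_lit 104) (nat_lit 1) (nat_lit 110) (nat_lit 1) (nat_lit 193) (nat_lit 217) (nat_lit 190))))) (XT.nd (nat_lit 282) (nat_lit 1344) (nat_lit 0) (XT.nd (nat_lit 94) (nat_lit 420) (nat_lit 0) (XT.lf (nat_lit 84) (nat_lit 940242632) (nat_lit 0) (nat_lit 2789497883) (nat_lit 588) (nat_lit 940242632) (nat_lit 105) (nat_lit 1) (nat_lit 104) (nat_lit 1) (nat_lit 111) (nat_lit 1) (nat_lit 194) (nat_lit 217) (nat_lit 189)) (XT.nd (nat_lit 94) (nat_lit 0) (nat_lit 0) (XT.lf (nat_lit 504) (nat_lit 1149524111) (nat_lit 0) (nat_lit 1726355865) (nat_lit 420) (nat_lit 1726355865) (nat_lit 105) (nat_lit 1) (nat_lit 99) (nat_lit 1) (nat_lit 104) (nat_lit 1) (nat_lit 195) (nat_lit 217) (nat_lit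 188)) (XT.lf (nat_lit 84) (nat_lit 215012497) (nat_lit 0) (nat_lit 4106306226) (nat_lit 504) (nat_lit 215012497) (nat_lit 100) (nat_lit 1) (nat_lit 99) (nat_lit 1) (nat_lit 105) (nat_lit 1) (nat_lit 196) (nat_lit 217) (nat_lit 187)))) (XT.nd (nat_lit 188) (nat_lit 420) (nat_lit 0) (XT.nd (nat_lit 94) (nat_lit 420) (nat_lit 0) (XT.lf (nat_lit 84) (nat_lit 2083033058) (nat_lit 0) (nat_lit 304884384) (nat_lit 504) (nat_lit 2083033058) (nat_lit 94) (nat_lit 1) (nat_lit 93) (nat_lit 1) (nat_lit 99) (nat_lit 1) (nat_lit 197) (nat_lit 217) (nat_lit 186)) (XT.lf (nat_lit 504) (nat_lit 3393773898) (nat_lit 0) (nat_lit 506781657) (nat_lit 420) (nat_lit 506781657) (nat_lit 94) (nat_lit 1) (nat_lit 88) (nat_lit 1) (nat_lit 93) (nat_lit 1) (nat_lit 198) (nat_lit 217) (nat_lit 185))) (XT.nd (nat_lit 94) (nat_lit 420) (nat_lit 0) (XT.lf (nat_lit 84) (nat_lit 1304230208) (nat_lit 0) (nat_lit 1736091196) (nat_lit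 504) (nat_lit 1304230208) (nat_lit 89) (nat_lit 1) (nat_lit 88) (nat_lit 1) (nat_lit 94) (nat_lit 1) (nat_lit 199) (nat_lit 217) (nat_lit 184)) (XT.lf (nat_lit 504) (nat_lit 1829910858) (nat_lit 0) (nat_lit 1226654511) (nat_lit 420) (nat_lit 1226654511) (nat_lit 89) (nat_lit 1) (nat_lit 83) (nat_lit 1) (nat_lit 88) (nat_lit 1) (nat_lit 200) (nat_lit 217) (nat_lit 183))))))))
noncomputable def ec17 : XT := (XT.nd (nat_lit 34592) (nat_lit 0) (nat_lit 5964) (XT.nd (nat_lit 1222) (nat_lit 1680) (nat_lit 0) (XT.nd (nat_lit 564) (nat_lit 1764) (nat_lit 0) (XT.nd (nat_lit 282) (nat_lit 336) (nat_lit 0) (XT.nd (nat_lit 94) (nat_lit 840) (nat_lit 0) (XT.lf (nat_lit 84) (nat_lit 528293150) (nat_lit 0) (nat_lit 3166662249) (nat_lit 504) (nat_lit 528293150) (nat_lit 84) (nat_lit 1) (nat_lit 83) (nat_lit 1) (nat_lit 89) (nat_lit 1) (nat_lit 201) (nat_lit 217) (nat_lit 182)) (XT.nd (nat_lit 94) (nat_lit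 504) (nat_lit 0) (XT.lf (nat_lit 420) (nat_lit 273310804) (nat_lit 0) (nat_lit 1945386795) (nat_lit 336) (nat_lit 1945386795) (nat_lit 84) (nat_lit 1) (nat_lit 79) (nat_lit 1) (nat_lit 83) (nat_lit 1) (nat_lit 202) (nat_lit 217) (nat_lit 181)) (XT.lf (nat_lit 504) (nat_lit 3625351507) (nat_lit 0) (nat_lit 240540541) (nat_lit 420) (nat_lit 240540541) (nat_lit 79) (nat_lit 1) (nat_lit 73) (nat_lit 1) (nat_lit 78) (nat_lit 1) (nat_lit 203) (nat_lit 217) (nat_lit 180)))) (XT.nd (nat_lit 94) (nat_lit 336) (nat_lit 0) (XT.lf (nat_lit 84) (nat_lit 1402422400) (nat_lit 0) (nat_lit 1244368783) (nat_lit 504) (nat_lit 1402422400) (nat_lit 74) (nat_lit 1) (nat_lit 73) (nat_lit 1) (nat_lit 79) (nat_lit 1) (nat_lit 204) (nat_lit 217) (nat_lit 179)) (XT.nd (nat_lit 94) (nat_lit 0) (nat_lit 0) (XT.lf (nat_lit 420) (nat_lit 1997898084) (nat_lit 0) (nat_lit 997775848) (nat_lit 336) (nat_lit 997775848) (nat_lit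 74) (nat_lit 1) (nat_lit 69) (nat_lit 1) (nat_lit 73) (nat_lit 1) (nat_lit 205) (nat_lit 217) (nat_lit 178)) (XT.lf (nat_lit 84) (nat_lit 597599704) (nat_lit 0) (nat_lit 2743593169) (nat_lit 420) (nat_lit 597599704) (nat_lit 70) (nat_lit 1) (nat_lit 69) (nat_lit 1) (nat_lit 74) (nat_lit 1) (nat_lit 206) (nat_lit 217) (nat_lit 177))))) (XT.nd (nat_lit 282) (nat_lit 1008) (nat_lit 0) (XT.nd (nat_lit 94) (nat_lit 420) (nat_lit 0) (XT.lf (nat_lit 420) (nat_lit 388366385) (nat_lit 0) (nat_lit 1748279783) (nat_lit 336) (nat_lit 1748279783) (nat_lit 70) (nat_lit 1) (nat_lit 65) (nat_lit 1) (nat_lit 69) (nat_lit 1) (nat_lit 207) (nat_lit 217) (nat_lit 176)) (XT.nd (nat_lit 94) (nat_lit 0) (nat_lit 0) (XT.lf (nat_lit 420) (nat_lit 3441268707) (nat_lit 0) (nat_lit 195575163) (nat_lit 336) (nat_lit 195575163) (nat_lit 65) (nat_lit 1) (nat_lit 60) (nat_lit 1) (nat_lit 64) (nat_lit 1) (nat_lit 208) (nat_lit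 217) (nat_lit 175)) (XT.lf (nat_lit 84) (nat_lit 1303028904) (nat_lit 0) (nat_lit 1174141559) (nat_lit 420) (nat_lit 1303028904) (nat_lit 61) (nat_lit 1) (nat_lit 60) (nat_lit 1) (nat_lit 65) (nat_lit 1) (nat_lit 209) (nat_lit 217) (nat_lit 174)))) (XT.nd (nat_lit 188) (nat_lit 672) (nat_lit 0) (XT.nd (nat_lit 94) (nat_lit 0) (nat_lit 0) (XT.lf (nat_lit 420) (nat_lit 1785704779) (nat_lit 0) (nat_lit 971794070) (nat_lit 336) (nat_lit 971794070) (nat_lit 61) (nat_lit 1) (nat_lit 56) (nat_lit 1) (nat_lit 60) (nat_lit 1) (nat_lit 210) (nat_lit 217) (nat_lit 173)) (XT.lf (nat_lit 84) (nat_lit 486250092) (nat_lit 0) (nat_lit 2706911380) (nat_lit 420) (nat_lit 486250092) (nat_lit 57) (nat_lit 1) (nat_lit 56) (nat_lit 1) (nat_lit 61) (nat_lit 1) (nat_lit 211) (nat_lit 217) (nat_lit 172))) (XT.nd (nat_lit 94) (nat_lit 420) (nat_lit 0) (XT.lf (nat_lit 336) (nat_lit 155934710) (nat_lit 0) (nat_lit 1737119358)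 (nat_lit 252) (nat_lit 1737119358) (nat_lit 57) (nat_lit 1) (nat_lit 53) (nat_lit 1) (nat_lit 56) (nat_lit 1) (nat_lit 212) (nat_lit 217) (nat_lit 171)) (XT.lf (nat_lit 420) (nat_lit 2954463103) (nat_lit 0) (nat_lit 313789192) (nat_lit 336) (nat_lit 313789192) (nat_lit 53) (nat_lit 1) (nat_lit 48) (nat_lit 1) (nat_lit 52) (nat_lit 1) (nat_lit 213) (nat_lit 217) (nat_lit 170)))))) (XT.nd (nat_lit 658) (nat_lit 588) (nat_lit 0) (XT.nd (nat_lit 282) (nat_lit 840) (nat_lit 0) (XT.nd (nat_lit 94) (nat_lit 252) (nat_lit 0) (XT.lf (nat_lit 84) (nat_lit 1060113740) (nat_lit 0) (nat_lit 1414098799) (nat_lit 420) (nat_lit 1060113740) (nat_lit 49) (nat_lit 1) (nat_lit 48) (nat_lit 1) (nat_lit 53) (nat_lit 1) (nat_lit 214) (nat_lit 217) (nat_lit 169)) (XT.nd (nat_lit 94) (nat_lit 0) (nat_lit 0) (XT.lf (nat_lit 336) (nat_lit 1298081076) (nat_lit 0) (nat_lit 1094799187) (nat_lit 252) (nat_lit 1094799187)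 (nat_lit 49) (nat_lit 1) (nat_lit 45) (nat_lit 1) (nat_lit 48) (nat_lit 1) (nat_lit 215) (nat_lit 217) (nat_lit 168)) (XT.lf (nat_lit 84) (nat_lit 244383545) (nat_lit 0) (nat_lit 2953336741) (nat_lit 336) (nat_lit 244383545) (nat_lit 46) (nat_lit 1) (nat_lit 45) (nat_lit 1) (nat_lit 49) (nat_lit 1) (nat_lit 216) (nat_lit 217) (nat_lit 167)))) (XT.nd (nat_lit 188) (nat_lit 252) (nat_lit 0) (XT.nd (nat_lit 94) (nat_lit 252) (nat_lit 0) (XT.lf (nat_lit 84) (nat_lit 1538682832) (nat_lit 0) (nat_lit 319437693) (nat_lit 336) (nat_lit 1538682832) (nat_lit 42) (nat_lit 1) (nat_lit 41) (nat_lit 1) (nat_lit 45) (nat_lit 1) (nat_lit 217) (nat_lit 217) (nat_lit 166)) (XT.lf (nat_lit 336) (nat_lit 2254094437) (nat_lit 0) (nat_lit 549223348) (nat_lit 252) (nat_lit 549223348) (nat_lit 42) (nat_lit 1) (nat_lit 38) (nat_lit 1) (nat_lit 41) (nat_lit 1) (nat_lit 218) (nat_lit 217) (nat_lit 165))) (XT.nd (nat_lit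 94) (nat_lit 252) (nat_lit 0) (XT.lf (nat_lit 84) (nat_lit 716334400) (nat_lit 0) (nat_lit 1876227858) (nat_lit 336) (nat_lit 716334400) (nat_lit 39) (nat_lit 1) (nat_lit 38) (nat_lit 1) (nat_lit 42) (nat_lit 1) (nat_lit 219) (nat_lit 217) (nat_lit 164)) (XT.lf (nat_lit 336) (nat_lit 617630623) (nat_lit 0) (nat_lit 1324187060) (nat_lit 252) (nat_lit 1324187060) (nat_lit 39) (nat_lit 1) (nat_lit 35) (nat_lit 1) (nat_lit 38) (nat_lit 1) (nat_lit 220) (nat_lit 217) (nat_lit 163))))) (XT.nd (nat_lit 32336) (nat_lit 0) (nat_lit 11004) (XT.nd (nat_lit 94) (nat_lit 252) (nat_lit 0) (XT.lf (nat_lit 336) (nat_lit 3049232665) (nat_lit 0) (nat_lit 87475456) (nat_lit 252) (nat_lit 87475456) (nat_lit 35) (nat_lit 1) (nat_lit 31) (nat_lit 1) (nat_lit 34) (nat_lit 1) (nat_lit 221) (nat_lit 217) (nat_lit 162)) (XT.nd (nat_lit 94) (nat_lit 252) (nat_lit 0) (XT.lf (nat_lit 84) (nat_lit 1110590190) (nat_lit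 0) (nat_lit 961174434) (nat_lit 336) (nat_lit 1110590190) (nat_lit 32) (nat_lit 1) (nat_lit 31) (nat_lit 1) (nat_lit 35) (nat_lit 1) (nat_lit 222) (nat_lit 217) (nat_lit 161)) (XT.lf (nat_lit 336) (nat_lit 1410171849) (nat_lit 0) (nat_lit 865699070) (nat_lit 252) (nat_lit 865699070) (nat_lit 32) (nat_lit 1) (nat_lit 28) (nat_lit 1) (nat_lit 31) (nat_lit 1) (nat_lit 223) (nat_lit 217) (nat_lit 160)))) (XT.nd (nat_lit 188) (nat_lit 0) (nat_lit 84) (XT.nd (nat_lit 94) (nat_lit 0) (nat_lit 0) (XT.lf (nat_lit 1260) (nat_lit 1070243595) (nat_lit 0) (nat_lit 1628326753) (nat_lit 1260) (nat_lit 1070243595) (nat_lit 174) (nat_lit 1) (nat_lit 159) (nat_lit 0) (nat_lit 174) (nat_lit 0) (nat_lit 164) (nat_lit 218) (nat_lit 218)) (XT.lf (nat_lit 1260) (nat_lit 4190026770) (nat_lit 84) (nat_lit 1609762767) (nat_lit 0) (nat_lit 1609762767) (nat_lit 174) (nat_lit 1) (nat_lit 160) (nat_lit 1) (nat_lit 159)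 (nat_lit 0) (nat_lit 165) (nat_lit 218) (nat_lit 217))) (XT.nd (nat_lit 94) (nat_lit 0) (nat_lit 0) (XT.lf (nat_lit 1260) (nat_lit 2026917384) (nat_lit 0) (nat_lit 3230339006) (nat_lit 1176) (nat_lit 2026917384) (nat_lit 175) (nat_lit 1) (nat_lit 160) (nat_lit 1) (nat_lit 174) (nat_lit 1) (nat_lit 166) (nat_lit 218) (nat_lit 216)) (XT.lf (nat_lit 1260) (nat_lit 3885420325) (nat_lit 84) (nat_lit 1638184691) (nat_lit 0) (nat_lit 1638184691) (nat_lit 175) (nat_lit 1) (nat_lit 161) (nat_lit 1) (nat_lit 160) (nat_lit 1) (nat_lit 167) (nat_lit 218) (nat_lit 215))))))) (XT.nd (nat_lit 1222) (nat_lit 3696) (nat_lit 0) (XT.nd (nat_lit 564) (nat_lit 1512) (nat_lit 0) (XT.nd (nat_lit 282) (nat_lit 0) (nat_lit 84) (XT.nd (nat_lit 94) (nat_lit 0) (nat_lit 0) (XT.lf (nat_lit 1260) (nat_lit 1838946951) (nat_lit 0) (nat_lit 3364135111) (nat_lit 1176) (nat_lit 1838946951) (nat_lit 176) (nat_lit 1) (nat_lit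 161) (nat_lit 1) (nat_lit 175) (nat_lit 1) (nat_lit 168) (nat_lit 218) (nat_lit 214)) (XT.nd (nat_lit 94) (nat_lit 0) (nat_lit 84) (XT.lf (nat_lit 1260) (nat_lit 3439031950) (nat_lit 84) (nat_lit 1742994638) (nat_lit 0) (nat_lit 1742994638) (nat_lit 176) (nat_lit 1) (nat_lit 162) (nat_lit 1) (nat_lit 161) (nat_lit 1) (nat_lit 169) (nat_lit 218) (nat_lit 213)) (XT.lf (nat_lit 1260) (nat_lit 1584294054) (nat_lit 0) (nat_lit 3642040980) (nat_lit 1176) (nat_lit 1584294054) (nat_lit 177) (nat_lit 1) (nat_lit 162) (nat_lit 1) (nat_lit 176) (nat_lit 1) (nat_lit 170) (nat_lit 218) (nat_lit 212)))) (XT.nd (nat_lit 94) (nat_lit 0) (nat_lit 84) (XT.lf (nat_lit 1260) (nat_lit 2865768069) (nat_lit 84) (nat_lit 1916466549) (nat_lit 0) (nat_lit 1916466549) (nat_lit 177) (nat_lit 1) (nat_lit 163) (nat_lit 1) (nat_lit 162) (nat_lit 1) (nat_lit 171) (nat_lit 218) (nat_lit 211)) (XT.nd (nat_lit 94) (nat_lit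 0) (nat_lit 0) (XT.lf (nat_lit 1260) (nat_lit 1270069963) (nat_lit 0) (nat_lit 4049300745) (nat_lit 1176) (nat_lit 1270069963) (nat_lit 178) (nat_lit 1) (nat_lit 163) (nat_lit 1) (nat_lit 177) (nat_lit 1) (nat_lit 172) (nat_lit 218) (nat_lit 210)) (XT.lf (nat_lit 1260) (nat_lit 2179358696) (nat_lit 84) (nat_lit 2151477577) (nat_lit 0) (nat_lit 2151477577) (nat_lit 178) (nat_lit 1) (nat_lit 164) (nat_lit 1) (nat_lit 163) (nat_lit 1) (nat_lit 173) (nat_lit 218) (nat_lit 209))))) (XT.nd (nat_lit 282) (nat_lit 1764) (nat_lit 0) (XT.nd (nat_lit 94) (nat_lit 0) (nat_lit 0) (XT.lf (nat_lit 1260) (nat_lit 902822579) (nat_lit 0) (nat_lit 4572314620) (nat_lit 1176) (nat_lit 902822579) (nat_lit 179) (nat_lit 1) (nat_lit 164) (nat_lit 1) (nat_lit 178) (nat_lit 1) (nat_lit 174) (nat_lit 218) (nat_lit 208)) (XT.nd (nat_lit 94) (nat_lit 0) (nat_lit 84) (XT.lf (nat_lit 1260) (nat_lit 1392441914) (nat_lit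 84) (nat_lit 2441464957) (nat_lit 0) (nat_lit 2441464957) (nat_lit 179) (nat_lit 1) (nat_lit 165) (nat_lit 1) (nat_lit 164) (nat_lit 1) (nat_lit 175) (nat_lit 218) (nat_lit 207)) (XT.lf (nat_lit 1260) (nat_lit 488576955) (nat_lit 0) (nat_lit 5198556109) (nat_lit 1176) (nat_lit 488576955) (nat_lit 180) (nat_lit 1) (nat_lit 165) (nat_lit 1) (nat_lit 179) (nat_lit 1) (nat_lit 176) (nat_lit 218) (nat_lit 206)))) (XT.nd (nat_lit 188) (nat_lit 1848) (nat_lit 0) (XT.nd (nat_lit 94) (nat_lit 0) (nat_lit 84) (XT.lf (nat_lit 1260) (nat_lit 516642536) (nat_lit 84) (nat_lit 2780385841) (nat_lit 0) (nat_lit 2780385841) (nat_lit 180) (nat_lit 1) (nat_lit 166) (nat_lit 1) (nat_lit 165) (nat_lit 1) (nat_lit 177) (nat_lit 218) (nat_lit 205)) (XT.lf (nat_lit 84) (nat_lit 32873012) (nat_lit 0) (nat_lit 5916494930) (nat_lit 1176) (nat_lit 32873012) (nat_lit 167) (nat_lit 1) (nat_lit 166) (nat_lit 1) (nat_lit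 180) (nat_lit 1) (nat_lit 178) (nat_lit 218) (nat_lit 204))) (XT.nd (nat_lit 94) (nat_lit 672) (nat_lit 0) (XT.lf (nat_lit 84) (nat_lit 2730198297) (nat_lit 0) (nat_lit 427437976) (nat_lit 1260) (nat_lit 2730198297) (nat_lit 152) (nat_lit 1) (nat_lit 151) (nat_lit 1) (nat_lit 166) (nat_lit 1) (nat_lit 179) (nat_lit 218) (nat_lit 203)) (XT.lf (nat_lit 756) (nat_lit 4888477707) (nat_lit 0) (nat_lit 453964168) (nat_lit 672) (nat_lit 453964168) (nat_lit 152) (nat_lit 1) (nat_lit 143) (nat_lit 1) (nat_lit 151) (nat_lit 1) (nat_lit 180) (nat_lit 218) (nat_lit 202)))))) (XT.nd (nat_lit 658) (nat_lit 2016) (nat_lit 0) (XT.nd (nat_lit 282) (nat_lit 1092) (nat_lit 0) (XT.nd (nat_lit 94) (nat_lit 588) (nat_lit 0) (XT.lf (nat_lit 84) (nat_lit 2139762267) (nat_lit 0) (nat_lit 1426638384) (nat_lit 756) (nat_lit 2139762267) (nat_lit 144) (nat_lit 1) (nat_lit 143) (nat_lit 1) (nat_lit 152) (nat_lit 1) (nat_lit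 181) (nat_lit 218) (nat_lit 201)) (XT.nd (nat_lit 94) (nat_lit 0) (nat_lit 0) (XT.lf (nat_lit 672) (nat_lit 3674899376) (nat_lit 0) (nat_lit 971761054) (nat_lit 588) (nat_lit 971761054) (nat_lit 144) (nat_lit 1) (nat_lit 136) (nat_lit 1) (nat_lit 143) (nat_lit 1) (nat_lit 182) (nat_lit 218) (nat_lit 200)) (XT.lf (nat_lit 84) (nat_lit 1524170539) (nat_lit 0) (nat_lit 2483872951) (nat_lit 672) (nat_lit 1524170539) (nat_lit 137) (nat_lit 1) (nat_lit 136) (nat_lit 1) (nat_lit 144) (nat_lit 1) (nat_lit 183) (nat_lit 218) (nat_lit 199)))) (XT.nd (nat_lit 188) (nat_lit 504) (nat_lit 0) (XT.nd (nat_lit 94) (nat_lit 0) (nat_lit 0) (XT.lf (nat_lit 672) (nat_lit 2414652973) (nat_lit 0) (nat_lit 1516655613) (nat_lit 588) (nat_lit 1516655613) (nat_lit 137) (nat_lit 1) (nat_lit 129) (nat_lit 1) (nat_lit 136) (nat_lit 1) (nat_lit 184) (nat_lit 218) (nat_lit 198)) (XT.lf (nat_lit 84) (nat_lit 887273926) (nat_lit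 0) (nat_lit 3591073887) (nat_lit 672) (nat_lit 887273926) (nat_lit 130) (nat_lit 1) (nat_lit 129) (nat_lit 1) (nat_lit 137) (nat_lit 1) (nat_lit 185) (nat_lit 218) (nat_lit 197))) (XT.nd (nat_lit 94) (nat_lit 0) (nat_lit 0) (XT.lf (nat_lit 588) (nat_lit 1115148218) (nat_lit 0) (nat_lit 2084765563) (nat_lit 504) (nat_lit 2084765563) (nat_lit 130) (nat_lit 1) (nat_lit 123) (nat_lit 1) (nat_lit 129) (nat_lit 1) (nat_lit 186) (nat_lit 218) (nat_lit 196)) (XT.lf (nat_lit 84) (nat_lit 232593546) (nat_lit 0) (nat_lit 4740852159) (nat_lit 588) (nat_lit 232593546) (nat_lit 124) (nat_lit 1) (nat_lit 123) (nat_lit 1) (nat_lit 130) (nat_lit 1) (nat_lit 187) (nat_lit 218) (nat_lit 195))))) (XT.nd (nat_lit 282) (nat_lit 924) (nat_lit 0) (XT.nd (nat_lit 94) (nat_lit 504) (nat_lit 0) (XT.lf (nat_lit 84) (nat_lit 2458109740) (nat_lit 0) (nat_lit 211926704) (nat_lit 588) (nat_lit 2458109740) (nat_lit 117) (nat_lit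 1) (nat_lit 116) (nat_lit 1) (nat_lit 123) (nat_lit 1) (nat_lit 188) (nat_lit 218) (nat_lit 194)) (XT.nd (nat_lit 94) (nat_lit 0) (nat_lit 0) (XT.lf (nat_lit 588) (nat_lit 4189099618) (nat_lit 0) (nat_lit 431676620) (nat_lit 504) (nat_lit 431676620) (nat_lit 117) (nat_lit 1) (nat_lit 110) (nat_lit 1) (nat_lit 116) (nat_lit 1) (nat_lit 189) (nat_lit 218) (nat_lit 193)) (XT.lf (nat_lit 84) (nat_lit 1719129564) (nat_lit 0) (nat_lit 1539426435) (nat_lit 588) (nat_lit 1719129564) (nat_lit 111) (nat_lit 1) (nat_lit 110) (nat_lit 1) (nat_lit 117) (nat_lit 1) (nat_lit 190) (nat_lit 218) (nat_lit 192)))) (XT.nd (nat_lit 188) (nat_lit 420) (nat_lit 0) (XT.nd (nat_lit 94) (nat_lit 0) (nat_lit 0) (XT.lf (nat_lit 588) (nat_lit 2695258915) (nat_lit 0) (nat_lit 1104797111) (nat_lit 504) (nat_lit 1104797111) (nat_lit 111) (nat_lit 1) (nat_lit 104) (nat_lit 1) (nat_lit 110) (nat_lit 1) (nat_lit 191) (nat_lit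 218) (nat_lit 191)) (XT.lf (nat_lit 84) (nat_lit 973151124) (nat_lit 0) (nat_lit 2887130309) (nat_lit 588) (nat_lit 973151124) (nat_lit 105) (nat_lit 1) (nat_lit 104) (nat_lit 1) (nat_lit 111) (nat_lit 1) (nat_lit 192) (nat_lit 218) (nat_lit 190))) (XT.nd (nat_lit 94) (nat_lit 0) (nat_lit 0) (XT.lf (nat_lit 504) (nat_lit 1189757455) (nat_lit 0) (nat_lit 1786778320) (nat_lit 420) (nat_lit 1786778320) (nat_lit 105) (nat_lit 1) (nat_lit 99) (nat_lit 1) (nat_lit 104) (nat_lit 1) (nat_lit 193) (nat_lit 218) (nat_lit 189)) (XT.lf (nat_lit 84) (nat_lit 222537934) (nat_lit 0) (nat_lit 4250026944) (nat_lit 504) (nat_lit 222537934) (nat_lit 100) (nat_lit 1) (nat_lit 99) (nat_lit 1) (nat_lit 105) (nat_lit 1) (nat_lit 194) (nat_lit 218) (nat_lit 188))))))))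
noncomputable def ec18 : XT := (XT.nd (nat_lit 2538) (nat_lit 0) (nat_lit 0) (XT.nd (nat_lit 1222) (nat_lit 2688) (nat_lit 0) (XT.nd (nat_lit 564) (nat_lit 1596) (nat_lit 0) (XT.nd (nat_lit 282) (nat_lit 756) (nat_lit 0) (XT.nd (nat_lit 94) (nat_lit 420) (nat_lit 0) (XT.lf (nat_lit 84) (nat_lit 2155939215) (nat_lit 0) (nat_lit 315555337) (nat_lit 504) (nat_lit 2155939215) (nat_lit 94) (nat_lit 1) (nat_lit 93) (nat_lit 1) (nat_lit 99) (nat_lit 1) (nat_lit 195) (nat_lit 218) (nat_lit 187)) (XT.nd (nat_lit 94) (nat_lit 0) (nat_lit 0) (XT.lf (nat_lit 504) (nat_lit 3512555985) (nat_lit 0) (nat_lit 524519015) (nat_lit 420) (nat_lit 524519015) (nat_lit 94) (nat_lit 1) (nat_lit 88) (nat_lit 1) (nat_lit 93) (nat_lit 1) (nat_lit 196) (nat_lit 218) (nat_lit 186)) (XT.lf (nat_lit 84) (nat_lit 1349878265) (nat_lit 0) (nat_lit 1796854388) (nat_lit 504) (nat_lit 1349878265) (nat_lit 89) (nat_lit 1) (nat_lit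 88) (nat_lit 1) (nat_lit 94) (nat_lit 1) (nat_lit 197) (nat_lit 218) (nat_lit 185)))) (XT.nd (nat_lit 94) (nat_lit 336) (nat_lit 0) (XT.lf (nat_lit 504) (nat_lit 1893957738) (nat_lit 0) (nat_lit 1269587419) (nat_lit 420) (nat_lit 1269587419) (nat_lit 89) (nat_lit 1) (nat_lit 83) (nat_lit 1) (nat_lit 88) (nat_lit 1) (nat_lit 198) (nat_lit 218) (nat_lit 184)) (XT.nd (nat_lit 94) (nat_lit 336) (nat_lit 0) (XT.lf (nat_lit 84) (nat_lit 546783411) (nat_lit 0) (nat_lit 3277495428) (nat_lit 504) (nat_lit 546783411) (nat_lit 84) (nat_lit 1) (nat_lit 83) (nat_lit 1) (nat_lit 89) (nat_lit 1) (nat_lit 199) (nat_lit 218) (nat_lit 183)) (XT.lf (nat_lit 420) (nat_lit 282876682) (nat_lit 0) (nat_lit 2013475333) (nat_lit 336) (nat_lit 2013475333) (nat_lit 84) (nat_lit 1) (nat_lit 79) (nat_lit 1) (nat_lit 83) (nat_lit 1) (nat_lit 200) (nat_lit 218) (nat_lit 182))))) (XT.nd (nat_lit 282) (nat_lit 756) (nat_lit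 0) (XT.nd (nat_lit 94) (nat_lit 336) (nat_lit 0) (XT.lf (nat_lit 504) (nat_lit 3752238810) (nat_lit 0) (nat_lit 248959460) (nat_lit 420) (nat_lit 248959460) (nat_lit 79) (nat_lit 1) (nat_lit 73) (nat_lit 1) (nat_lit 78) (nat_lit 1) (nat_lit 201) (nat_lit 218) (nat_lit 181)) (XT.nd (nat_lit 94) (nat_lit 336) (nat_lit 0) (XT.lf (nat_lit 84) (nat_lit 1451507184) (nat_lit 0) (nat_lit 1287921690) (nat_lit 504) (nat_lit 1451507184) (nat_lit 74) (nat_lit 1) (nat_lit 73) (nat_lit 1) (nat_lit 79) (nat_lit 1) (nat_lit 202) (nat_lit 218) (nat_lit 180)) (XT.lf (nat_lit 420) (nat_lit 2067824517) (nat_lit 0) (nat_lit 1032698002) (nat_lit 336) (nat_lit 1032698002) (nat_lit 74) (nat_lit 1) (nat_lit 69) (nat_lit 1) (nat_lit 73) (nat_lit 1) (nat_lit 203) (nat_lit 218) (nat_lit 179)))) (XT.nd (nat_lit 188) (nat_lit 420) (nat_lit 0) (XT.nd (nat_lit 94) (nat_lit 336) (nat_lit 0) (XT.lf (nat_lit 84) (nat_lit 618515694)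 (nat_lit 0) (nat_lit 2839618930) (nat_lit 420) (nat_lit 618515694) (nat_lit 70) (nat_lit 1) (nat_lit 69) (nat_lit 1) (nat_lit 74) (nat_lit 1) (nat_lit 204) (nat_lit 218) (nat_lit 178)) (XT.lf (nat_lit 420) (nat_lit 401959208) (nat_lit 0) (nat_lit 1809469576) (nat_lit 336) (nat_lit 1809469576) (nat_lit 70) (nat_lit 1) (nat_lit 65) (nat_lit 1) (nat_lit 69) (nat_lit 1) (nat_lit 205) (nat_lit 218) (nat_lit 177))) (XT.nd (nat_lit 94) (nat_lit 0) (nat_lit 0) (XT.lf (nat_lit 420) (nat_lit 3561713111) (nat_lit 0) (nat_lit 202420293) (nat_lit 336) (nat_lit 202420293) (nat_lit 65) (nat_lit 1) (nat_lit 60) (nat_lit 1) (nat_lit 64) (nat_lit 1) (nat_lit 206) (nat_lit 218) (nat_lit 176)) (XT.lf (nat_lit 84) (nat_lit 1348634916) (nat_lit 0) (nat_lit 1215236514) (nat_lit 420) (nat_lit 1348634916) (nat_lit 61) (nat_lit 1) (nat_lit 60) (nat_lit 1) (nat_lit 65) (nat_lit 1) (nat_lit 207) (nat_lit 218) (nat_lit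 175)))))) (XT.nd (nat_lit 658) (nat_lit 1428) (nat_lit 0) (XT.nd (nat_lit 282) (nat_lit 672) (nat_lit 0) (XT.nd (nat_lit 94) (nat_lit 252) (nat_lit 0) (XT.lf (nat_lit 420) (nat_lit 1848204446) (nat_lit 0) (nat_lit 1005806863) (nat_lit 336) (nat_lit 1005806863) (nat_lit 61) (nat_lit 1) (nat_lit 56) (nat_lit 1) (nat_lit 60) (nat_lit 1) (nat_lit 208) (nat_lit 218) (nat_lit 174)) (XT.nd (nat_lit 94) (nat_lit 252) (nat_lit 0) (XT.lf (nat_lit 84) (nat_lit 503268845) (nat_lit 0) (nat_lit 2801653279) (nat_lit 420) (nat_lit 503268845) (nat_lit 57) (nat_lit 1) (nat_lit 56) (nat_lit 1) (nat_lit 61) (nat_lit 1) (nat_lit 209) (nat_lit 218) (nat_lit 173)) (XT.lf (nat_lit 336) (nat_lit 161392424) (nat_lit 0) (nat_lit 1797918535) (nat_lit 252) (nat_lit 1797918535) (nat_lit 57) (nat_lit 1) (nat_lit 53) (nat_lit 1) (nat_lit 56) (nat_lit 1) (nat_lit 210) (nat_lit 218) (nat_lit 172)))) (XT.nd (nat_lit 188) (nat_lit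 252) (nat_lit 0) (XT.nd (nat_lit 94) (nat_lit 0) (nat_lit 0) (XT.lf (nat_lit 420) (nat_lit 3057869311) (nat_lit 0) (nat_lit 324771814) (nat_lit 336) (nat_lit 324771814) (nat_lit 53) (nat_lit 1) (nat_lit 48) (nat_lit 1) (nat_lit 52) (nat_lit 1) (nat_lit 211) (nat_lit 218) (nat_lit 171)) (XT.lf (nat_lit 84) (nat_lit 1097217720) (nat_lit 0) (nat_lit 1463592257) (nat_lit 420) (nat_lit 1097217720) (nat_lit 49) (nat_lit 1) (nat_lit 48) (nat_lit 1) (nat_lit 53) (nat_lit 1) (nat_lit 212) (nat_lit 218) (nat_lit 170))) (XT.nd (nat_lit 94) (nat_lit 0) (nat_lit 0) (XT.lf (nat_lit 336) (nat_lit 1343513913) (nat_lit 0) (nat_lit 1133117159) (nat_lit 252) (nat_lit 1133117159) (nat_lit 49) (nat_lit 1) (nat_lit 45) (nat_lit 1) (nat_lit 48) (nat_lit 1) (nat_lit 213) (nat_lit 218) (nat_lit 169)) (XT.lf (nat_lit 84) (nat_lit 252936969) (nat_lit 0) (nat_lit 3056703527) (nat_lit 336) (nat_lit 252936969) (nat_lit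 46) (nat_lit 1) (nat_lit 45) (nat_lit 1) (nat_lit 49) (nat_lit 1) (nat_lit 214) (nat_lit 218) (nat_lit 168))))) (XT.nd (nat_lit 282) (nat_lit 840) (nat_lit 0) (XT.nd (nat_lit 94) (nat_lit 252) (nat_lit 0) (XT.lf (nat_lit 84) (nat_lit 1592536731) (nat_lit 0) (nat_lit 330618012) (nat_lit 336) (nat_lit 1592536731) (nat_lit 42) (nat_lit 1) (nat_lit 41) (nat_lit 1) (nat_lit 45) (nat_lit 1) (nat_lit 215) (nat_lit 218) (nat_lit 167)) (XT.nd (nat_lit 94) (nat_lit 0) (nat_lit 0) (XT.lf (nat_lit 336) (nat_lit 2332987742) (nat_lit 0) (nat_lit 568446165) (nat_lit 252) (nat_lit 568446165) (nat_lit 42) (nat_lit 1) (nat_lit 38) (nat_lit 1) (nat_lit 41) (nat_lit 1) (nat_lit 216) (nat_lit 218) (nat_lit 166)) (XT.lf (nat_lit 84) (nat_lit 741406104) (nat_lit 0) (nat_lit 1941895833) (nat_lit 336) (nat_lit 741406104) (nat_lit 39) (nat_lit 1) (nat_lit 38) (nat_lit 1) (nat_lit 42) (nat_lit 1) (nat_lit 217) (nat_lit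 218) (nat_lit 165)))) (XT.nd (nat_lit 188) (nat_lit 252) (nat_lit 0) (XT.nd (nat_lit 94) (nat_lit 336) (nat_lit 0) (XT.lf (nat_lit 336) (nat_lit 639247695) (nat_lit 0) (nat_lit 1370533607) (nat_lit 252) (nat_lit 1370533607) (nat_lit 39) (nat_lit 1) (nat_lit 35) (nat_lit 1) (nat_lit 38) (nat_lit 1) (nat_lit 218) (nat_lit 218) (nat_lit 164)) (XT.lf (nat_lit 336) (nat_lit 3155955808) (nat_lit 0) (nat_lit 90537097) (nat_lit 252) (nat_lit 90537097) (nat_lit 35) (nat_lit 1) (nat_lit 31) (nat_lit 1) (nat_lit 34) (nat_lit 1) (nat_lit 219) (nat_lit 218) (nat_lit 163))) (XT.nd (nat_lit 94) (nat_lit 252) (nat_lit 0) (XT.lf (nat_lit 84) (nat_lit 1149460847) (nat_lit 0) (nat_lit 994815539) (nat_lit 336) (nat_lit 1149460847) (nat_lit 32) (nat_lit 1) (nat_lit 31) (nat_lit 1) (nat_lit 35) (nat_lit 1) (nat_lit 220) (nat_lit 218) (nat_lit 162)) (XT.lf (nat_lit 336) (nat_lit 1459527864) (nat_lit 0) (nat_lit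 895998537) (nat_lit 252) (nat_lit 895998537) (nat_lit 32) (nat_lit 1) (nat_lit 28) (nat_lit 1) (nat_lit 31) (nat_lit 1) (nat_lit 221) (nat_lit 218) (nat_lit 161))))))) (XT.nd (nat_lit 33182) (nat_lit 0) (nat_lit 6888) (XT.nd (nat_lit 32524) (nat_lit 0) (nat_lit 11172) (XT.nd (nat_lit 32242) (nat_lit 0) (nat_lit 11088) (XT.nd (nat_lit 32054) (nat_lit 0) (nat_lit 11004) (XT.lf (nat_lit 84) (nat_lit 315843937) (nat_lit 0) (nat_lit 2578483059) (nat_lit 336) (nat_lit 315843937) (nat_lit 29) (nat_lit 1) (nat_lit 28) (nat_lit 1) (nat_lit 32) (nat_lit 1) (nat_lit 222) (nat_lit 218) (nat_lit 160)) (XT.nd (nat_lit 94) (nat_lit 0) (nat_lit 0) (XT.lf (nat_lit 1260) (nat_lit 1107702121) (nat_lit 0) (nat_lit 1685318190) (nat_lit 1260) (nat_lit 1107702121) (nat_lit 174) (nat_lit 1) (nat_lit 159) (nat_lit 0) (nat_lit 174) (nat_lit 0) (nat_lit 162) (nat_lit 219) (nat_lit 219)) (XT.lf (nat_lit 1260) (nat_lit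 4336677707) (nat_lit 84) (nat_lit 1666104464) (nat_lit 0) (nat_lit 1666104464) (nat_lit 174) (nat_lit 1) (nat_lit 160) (nat_lit 1) (nat_lit 159) (nat_lit 0) (nat_lit 163) (nat_lit 219) (nat_lit 218)))) (XT.nd (nat_lit 94) (nat_lit 0) (nat_lit 0) (XT.lf (nat_lit 1260) (nat_lit 2097859493) (nat_lit 0) (nat_lit 3343400871) (nat_lit 1176) (nat_lit 2097859493) (nat_lit 175) (nat_lit 1) (nat_lit 160) (nat_lit 1) (nat_lit 174) (nat_lit 1) (nat_lit 164) (nat_lit 219) (nat_lit 217)) (XT.nd (nat_lit 94) (nat_lit 0) (nat_lit 84) (XT.lf (nat_lit 1260) (nat_lit 4021410037) (nat_lit 84) (nat_lit 1695521155) (nat_lit 0) (nat_lit 1695521155) (nat_lit 175) (nat_lit 1) (nat_lit 161) (nat_lit 1) (nat_lit 160) (nat_lit 1) (nat_lit 165) (nat_lit 219) (nat_lit 216)) (XT.lf (nat_lit 1260) (nat_lit 1903310094) (nat_lit 0) (nat_lit 3481879840) (nat_lit 1176) (nat_lit 1903310094) (nat_lit 176) (nat_lit 1) (nat_lit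 161) (nat_lit 1) (nat_lit 175) (nat_lit 1) (nat_lit 166) (nat_lit 219) (nat_lit 215))))) (XT.nd (nat_lit 282) (nat_lit 0) (nat_lit 168) (XT.nd (nat_lit 94) (nat_lit 0) (nat_lit 84) (XT.lf (nat_lit 1260) (nat_lit 3559398068) (nat_lit 84) (nat_lit 1803999450) (nat_lit 0) (nat_lit 1803999450) (nat_lit 176) (nat_lit 1) (nat_lit 162) (nat_lit 1) (nat_lit 161) (nat_lit 1) (nat_lit 167) (nat_lit 219) (nat_lit 214)) (XT.nd (nat_lit 94) (nat_lit 0) (nat_lit 0) (XT.lf (nat_lit 1260) (nat_lit 1639744345) (nat_lit 0) (nat_lit 3769512414) (nat_lit 1176) (nat_lit 1639744345) (nat_lit 177) (nat_lit 1) (nat_lit 162) (nat_lit 1) (nat_lit 176) (nat_lit 1) (nat_lit 168) (nat_lit 219) (nat_lit 213)) (XT.lf (nat_lit 1260) (nat_lit 2966069952) (nat_lit 84) (nat_lit 1983542878) (nat_lit 0) (nat_lit 1983542878) (nat_lit 177) (nat_lit 1) (nat_lit 163) (nat_lit 1) (nat_lit 162) (nat_lit 1) (nat_lit 169) (nat_lit 219)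 (nat_lit 212)))) (XT.nd (nat_lit 188) (nat_lit 0) (nat_lit 84) (XT.nd (nat_lit 94) (nat_lit 0) (nat_lit 0) (XT.lf (nat_lit 1260) (nat_lit 1314522411) (nat_lit 0) (nat_lit 4191026271) (nat_lit 1176) (nat_lit 1314522411) (nat_lit 178) (nat_lit 1) (nat_lit 163) (nat_lit 1) (nat_lit 177) (nat_lit 1) (nat_lit 170) (nat_lit 219) (nat_lit 211)) (XT.lf (nat_lit 1260) (nat_lit 2255636250) (nat_lit 84) (nat_lit 2226779292) (nat_lit 0) (nat_lit 2226779292) (nat_lit 178) (nat_lit 1) (nat_lit 164) (nat_lit 1) (nat_lit 163) (nat_lit 1) (nat_lit 171) (nat_lit 219) (nat_lit 210))) (XT.nd (nat_lit 94) (nat_lit 0) (nat_lit 0) (XT.lf (nat_lit 1260) (nat_lit 934421370) (nat_lit 0) (nat_lit 4732345632) (nat_lit 1176) (nat_lit 934421370) (nat_lit 179) (nat_lit 1) (nat_lit 164) (nat_lit 1) (nat_lit 178) (nat_lit 1) (nat_lit 172) (nat_lit 219) (nat_lit 209)) (XT.lf (nat_lit 1260) (nat_lit 1441177381) (nat_lit 84)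 (nat_lit 2526916231) (nat_lit 0) (nat_lit 2526916231) (nat_lit 179) (nat_lit 1) (nat_lit 165) (nat_lit 1) (nat_lit 164) (nat_lit 1) (nat_lit 173) (nat_lit 219) (nat_lit 208)))))) (XT.nd (nat_lit 658) (nat_lit 2184) (nat_lit 0) (XT.nd (nat_lit 282) (nat_lit 2436) (nat_lit 0) (XT.nd (nat_lit 94) (nat_lit 0) (nat_lit 0) (XT.lf (nat_lit 1260) (nat_lit 505677148) (nat_lit 0) (nat_lit 5380505572) (nat_lit 1176) (nat_lit 505677148) (nat_lit 180) (nat_lit 1) (nat_lit 165) (nat_lit 1) (nat_lit 179) (nat_lit 1) (nat_lit 174) (nat_lit 219) (nat_lit 207)) (XT.nd (nat_lit 94) (nat_lit 0) (nat_lit 84) (XT.lf (nat_lit 1260) (nat_lit 534725025) (nat_lit 84) (nat_lit 2877699346) (nat_lit 0) (nat_lit 2877699346) (nat_lit 180) (nat_lit 1) (nat_lit 166) (nat_lit 1) (nat_lit 165) (nat_lit 1) (nat_lit 175) (nat_lit 219) (nat_lit 206)) (XT.lf (nat_lit 84) (nat_lit 34023567) (nat_lit 0) (nat_lit 6123572253) (nat_lit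 1176) (nat_lit 34023567) (nat_lit 167) (nat_lit 1) (nat_lit 166) (nat_lit 1) (nat_lit 180) (nat_lit 1) (nat_lit 176) (nat_lit 219) (nat_lit 205)))) (XT.nd (nat_lit 188) (nat_lit 588) (nat_lit 0) (XT.nd (nat_lit 94) (nat_lit 672) (nat_lit 0) (XT.lf (nat_lit 84) (nat_lit 2825755237) (nat_lit 0) (nat_lit 442398305) (nat_lit 1260) (nat_lit 2825755237) (nat_lit 152) (nat_lit 1) (nat_lit 151) (nat_lit 1) (nat_lit 166) (nat_lit 1) (nat_lit 177) (nat_lit 219) (nat_lit 204)) (XT.lf (nat_lit 756) (nat_lit 5059574426) (nat_lit 0) (nat_lit 469852914) (nat_lit 672) (nat_lit 469852914) (nat_lit 152) (nat_lit 1) (nat_lit 143) (nat_lit 1) (nat_lit 151) (nat_lit 1) (nat_lit 178) (nat_lit 219) (nat_lit 203))) (XT.nd (nat_lit 94) (nat_lit 588) (nat_lit 0) (XT.lf (nat_lit 84) (nat_lit 2214653947) (nat_lit 0) (nat_lit 1476570728) (nat_lit 756) (nat_lit 2214653947) (nat_lit 144) (nat_lit 1) (nat_lit 143) (nat_lit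 1) (nat_lit 152) (nat_lit 1) (nat_lit 179) (nat_lit 219) (nat_lit 202)) (XT.lf (nat_lit 672) (nat_lit 3803520854) (nat_lit 0) (nat_lit 1005772690) (nat_lit 588) (nat_lit 1005772690) (nat_lit 144) (nat_lit 1) (nat_lit 136) (nat_lit 1) (nat_lit 143) (nat_lit 1) (nat_lit 180) (nat_lit 219) (nat_lit 201))))) (XT.nd (nat_lit 282) (nat_lit 1596) (nat_lit 0) (XT.nd (nat_lit 94) (nat_lit 588) (nat_lit 0) (XT.lf (nat_lit 84) (nat_lit 1577516508) (nat_lit 0) (nat_lit 2570808505) (nat_lit 672) (nat_lit 1577516508) (nat_lit 137) (nat_lit 1) (nat_lit 136) (nat_lit 1) (nat_lit 144) (nat_lit 1) (nat_lit 181) (nat_lit 219) (nat_lit 200)) (XT.nd (nat_lit 94) (nat_lit 0) (nat_lit 0) (XT.lf (nat_lit 672) (nat_lit 2499165827) (nat_lit 0) (nat_lit 1569738559) (nat_lit 588) (nat_lit 1569738559) (nat_lit 137) (nat_lit 1) (nat_lit 129) (nat_lit 1) (nat_lit 136) (nat_lit 1) (nat_lit 182) (nat_lit 219) (nat_lit 199))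 (XT.lf (nat_lit 84) (nat_lit 918328514) (nat_lit 0) (nat_lit 3716761473) (nat_lit 672) (nat_lit 918328514) (nat_lit 130) (nat_lit 1) (nat_lit 129) (nat_lit 1) (nat_lit 137) (nat_lit 1) (nat_lit 183) (nat_lit 219) (nat_lit 198)))) (XT.nd (nat_lit 188) (nat_lit 1092) (nat_lit 0) (XT.nd (nat_lit 94) (nat_lit 0) (nat_lit 0) (XT.lf (nat_lit 588) (nat_lit 1154178406) (nat_lit 0) (nat_lit 2157732358) (nat_lit 504) (nat_lit 2157732358) (nat_lit 130) (nat_lit 1) (nat_lit 123) (nat_lit 1) (nat_lit 129) (nat_lit 1) (nat_lit 184) (nat_lit 219) (nat_lit 197)) (XT.lf (nat_lit 84) (nat_lit 240734320) (nat_lit 0) (nat_lit 4906781985) (nat_lit 588) (nat_lit 240734320) (nat_lit 124) (nat_lit 1) (nat_lit 123) (nat_lit 1) (nat_lit 130) (nat_lit 1) (nat_lit 185) (nat_lit 219) (nat_lit 196))) (XT.nd (nat_lit 94) (nat_lit 504) (nat_lit 0) (XT.lf (nat_lit 84) (nat_lit 2544143581) (nat_lit 0) (nat_lit 219344139) (nat_lit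 588) (nat_lit 2544143581) (nat_lit 117) (nat_lit 1) (nat_lit 116) (nat_lit 1) (nat_lit 123) (nat_lit 1) (nat_lit 186) (nat_lit 219) (nat_lit 195)) (XT.lf (nat_lit 588) (nat_lit 4335718105) (nat_lit 0) (nat_lit 446785301) (nat_lit 504) (nat_lit 446785301) (nat_lit 117) (nat_lit 1) (nat_lit 110) (nat_lit 1) (nat_lit 116) (nat_lit 1) (nat_lit 187) (nat_lit 219) (nat_lit 194))))))))
noncomputable def ec19 : XT := (XT.nd (nat_lit 2538) (nat_lit 1344) (nat_lit 0) (XT.nd (nat_lit 1222) (nat_lit 2940) (nat_lit 0) (XT.nd (nat_lit 564) (nat_lit 1680) (nat_lit 0) (XT.nd (nat_lit 282) (nat_lit 924) (nat_lit 0) (XT.nd (nat_lit 94) (nat_lit 504) (nat_lit 0) (XT.lf (nat_lit 84) (nat_lit 1779299098) (nat_lit 0) (nat_lit 1593306360) (nat_lit 588) (nat_lit 1779299098) (nat_lit 111) (nat_lit 1) (nat_lit 110) (nat_lit 1) (nat_lit 117) (nat_lit 1) (nat_lit 188) (nat_lit 219) (nat_lit 193)) (XT.nd (nat_lit 94)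 (nat_lit 0) (nat_lit 0) (XT.lf (nat_lit 588) (nat_lit 2789592977) (nat_lit 0) (nat_lit 1143465010) (nat_lit 504) (nat_lit 1143465010) (nat_lit 111) (nat_lit 1) (nat_lit 104) (nat_lit 1) (nat_lit 110) (nat_lit 1) (nat_lit 189) (nat_lit 219) (nat_lit 192)) (XT.lf (nat_lit 84) (nat_lit 1007211414) (nat_lit 0) (nat_lit 2988179870) (nat_lit 588) (nat_lit 1007211414) (nat_lit 105) (nat_lit 1) (nat_lit 104) (nat_lit 1) (nat_lit 111) (nat_lit 1) (nat_lit 190) (nat_lit 219) (nat_lit 191)))) (XT.nd (nat_lit 94) (nat_lit 504) (nat_lit 0) (XT.lf (nat_lit 504) (nat_lit 1231398966) (nat_lit 0) (nat_lit 1849315562) (nat_lit 420) (nat_lit 1849315562) (nat_lit 105) (nat_lit 1) (nat_lit 99) (nat_lit 1) (nat_lit 104) (nat_lit 1) (nat_lit 191) (nat_lit 219) (nat_lit 190)) (XT.nd (nat_lit 94) (nat_lit 504) (nat_lit 0) (XT.lf (nat_lit 84) (nat_lit 230326762) (nat_lit 0) (nat_lit 4398777887) (nat_lit 504) (nat_lit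 230326762) (nat_lit 100) (nat_lit 1) (nat_lit 99) (nat_lit 1) (nat_lit 105) (nat_lit 1) (nat_lit 192) (nat_lit 219) (nat_lit 189)) (XT.lf (nat_lit 84) (nat_lit 2231397088) (nat_lit 0) (nat_lit 326599774) (nat_lit 504) (nat_lit 2231397088) (nat_lit 94) (nat_lit 1) (nat_lit 93) (nat_lit 1) (nat_lit 99) (nat_lit 1) (nat_lit 193) (nat_lit 219) (nat_lit 188))))) (XT.nd (nat_lit 282) (nat_lit 840) (nat_lit 0) (XT.nd (nat_lit 94) (nat_lit 420) (nat_lit 0) (XT.lf (nat_lit 504) (nat_lit 3635495444) (nat_lit 0) (nat_lit 542877181) (nat_lit 420) (nat_lit 542877181) (nat_lit 94) (nat_lit 1) (nat_lit 88) (nat_lit 1) (nat_lit 93) (nat_lit 1) (nat_lit 194) (nat_lit 219) (nat_lit 187)) (XT.nd (nat_lit 94) (nat_lit 420) (nat_lit 0) (XT.lf (nat_lit 84) (nat_lit 1397124004) (nat_lit 0) (nat_lit 1859744291) (nat_lit 504) (nat_lit 1397124004) (nat_lit 89) (nat_lit 1) (nat_lit 88) (nat_lit 1) (nat_lit 94) (nat_lit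 1) (nat_lit 195) (nat_lit 219) (nat_lit 186)) (XT.lf (nat_lit 504) (nat_lit 1960246259) (nat_lit 0) (nat_lit 1314022979) (nat_lit 420) (nat_lit 1314022979) (nat_lit 89) (nat_lit 1) (nat_lit 83) (nat_lit 1) (nat_lit 88) (nat_lit 1) (nat_lit 196) (nat_lit 219) (nat_lit 185)))) (XT.nd (nat_lit 188) (nat_lit 504) (nat_lit 0) (XT.nd (nat_lit 94) (nat_lit 336) (nat_lit 0) (XT.lf (nat_lit 84) (nat_lit 565920830) (nat_lit 0) (nat_lit 3392207768) (nat_lit 504) (nat_lit 565920830) (nat_lit 84) (nat_lit 1) (nat_lit 83) (nat_lit 1) (nat_lit 89) (nat_lit 1) (nat_lit 197) (nat_lit 219) (nat_lit 184)) (XT.lf (nat_lit 420) (nat_lit 292777366) (nat_lit 0) (nat_lit 2083946969) (nat_lit 336) (nat_lit 2083946969) (nat_lit 84) (nat_lit 1) (nat_lit 79) (nat_lit 1) (nat_lit 83) (nat_lit 1) (nat_lit 198) (nat_lit 219) (nat_lit 183))) (XT.nd (nat_lit 94) (nat_lit 0) (nat_lit 0) (XT.lf (nat_lit 504) (nat_lit 3883567168)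 (nat_lit 0) (nat_lit 257673041) (nat_lit 420) (nat_lit 257673041) (nat_lit 79) (nat_lit 1) (nat_lit 73) (nat_lit 1) (nat_lit 78) (nat_lit 1) (nat_lit 199) (nat_lit 219) (nat_lit 182)) (XT.lf (nat_lit 84) (nat_lit 1502309936) (nat_lit 0) (nat_lit 1332998949) (nat_lit 504) (nat_lit 1502309936) (nat_lit 74) (nat_lit 1) (nat_lit 73) (nat_lit 1) (nat_lit 79) (nat_lit 1) (nat_lit 200) (nat_lit 219) (nat_lit 181)))))) (XT.nd (nat_lit 658) (nat_lit 1512) (nat_lit 0) (XT.nd (nat_lit 282) (nat_lit 756) (nat_lit 0) (XT.nd (nat_lit 94) (nat_lit 336) (nat_lit 0) (XT.lf (nat_lit 420) (nat_lit 2140198375) (nat_lit 0) (nat_lit 1068842433) (nat_lit 336) (nat_lit 1068842433) (nat_lit 74) (nat_lit 1) (nat_lit 69) (nat_lit 1) (nat_lit 73) (nat_lit 1) (nat_lit 201) (nat_lit 219) (nat_lit 180)) (XT.nd (nat_lit 94) (nat_lit 336) (nat_lit 0) (XT.lf (nat_lit 84) (nat_lit 640163743) (nat_lit 0) (nat_lit 2939005592)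 (nat_lit 420) (nat_lit 640163743) (nat_lit 70) (nat_lit 1) (nat_lit 69) (nat_lit 1) (nat_lit 74) (nat_lit 1) (nat_lit 202) (nat_lit 219) (nat_lit 179)) (XT.lf (nat_lit 420) (nat_lit 416027780) (nat_lit 0) (nat_lit 1872801011) (nat_lit 336) (nat_lit 1872801011) (nat_lit 70) (nat_lit 1) (nat_lit 65) (nat_lit 1) (nat_lit 69) (nat_lit 1) (nat_lit 203) (nat_lit 219) (nat_lit 178)))) (XT.nd (nat_lit 188) (nat_lit 336) (nat_lit 0) (XT.nd (nat_lit 94) (nat_lit 0) (nat_lit 0) (XT.lf (nat_lit 420) (nat_lit 3686373070) (nat_lit 0) (nat_lit 209505004) (nat_lit 336) (nat_lit 209505004) (nat_lit 65) (nat_lit 1) (nat_lit 60) (nat_lit 1) (nat_lit 64) (nat_lit 1) (nat_lit 204) (nat_lit 219) (nat_lit 177)) (XT.lf (nat_lit 84) (nat_lit 1395837138) (nat_lit 0) (nat_lit 1257769792) (nat_lit 420) (nat_lit 1395837138) (nat_lit 61) (nat_lit 1) (nat_lit 60) (nat_lit 1) (nat_lit 65) (nat_lit 1) (nat_lit 205) (nat_lit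 219) (nat_lit 176))) (XT.nd (nat_lit 94) (nat_lit 0) (nat_lit 0) (XT.lf (nat_lit 420) (nat_lit 1912891602) (nat_lit 0) (nat_lit 1041010103) (nat_lit 336) (nat_lit 1041010103) (nat_lit 61) (nat_lit 1) (nat_lit 56) (nat_lit 1) (nat_lit 60) (nat_lit 1) (nat_lit 206) (nat_lit 219) (nat_lit 175)) (XT.lf (nat_lit 84) (nat_lit 520883255) (nat_lit 0) (nat_lit 2899711144) (nat_lit 420) (nat_lit 520883255) (nat_lit 57) (nat_lit 1) (nat_lit 56) (nat_lit 1) (nat_lit 61) (nat_lit 1) (nat_lit 207) (nat_lit 219) (nat_lit 174))))) (XT.nd (nat_lit 282) (nat_lit 840) (nat_lit 0) (XT.nd (nat_lit 94) (nat_lit 420) (nat_lit 0) (XT.lf (nat_lit 336) (nat_lit 167041159) (nat_lit 0) (nat_lit 1860845684) (nat_lit 252) (nat_lit 1860845684) (nat_lit 57) (nat_lit 1) (nat_lit 53) (nat_lit 1) (nat_lit 56) (nat_lit 1) (nat_lit 208) (nat_lit 219) (nat_lit 173)) (XT.nd (nat_lit 94) (nat_lit 0) (nat_lit 0) (XT.lf (nat_lit 420)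 (nat_lit 3164894737) (nat_lit 0) (nat_lit 336138828) (nat_lit 336) (nat_lit 336138828) (nat_lit 53) (nat_lit 1) (nat_lit 48) (nat_lit 1) (nat_lit 52) (nat_lit 1) (nat_lit 209) (nat_lit 219) (nat_lit 172)) (XT.lf (nat_lit 84) (nat_lit 1135620341) (nat_lit 0) (nat_lit 1514817986) (nat_lit 420) (nat_lit 1135620341) (nat_lit 49) (nat_lit 1) (nat_lit 48) (nat_lit 1) (nat_lit 53) (nat_lit 1) (nat_lit 210) (nat_lit 219) (nat_lit 171)))) (XT.nd (nat_lit 188) (nat_lit 588) (nat_lit 0) (XT.nd (nat_lit 94) (nat_lit 0) (nat_lit 0) (XT.lf (nat_lit 336) (nat_lit 1390536900) (nat_lit 0) (nat_lit 1172776259) (nat_lit 252) (nat_lit 1172776259) (nat_lit 49) (nat_lit 1) (nat_lit 45) (nat_lit 1) (nat_lit 48) (nat_lit 1) (nat_lit 211) (nat_lit 219) (nat_lit 170)) (XT.lf (nat_lit 84) (nat_lit 261789763) (nat_lit 0) (nat_lit 3163688150) (nat_lit 336) (nat_lit 261789763) (nat_lit 46) (nat_lit 1) (nat_lit 45) (nat_lit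 1) (nat_lit 49) (nat_lit 1) (nat_lit 212) (nat_lit 219) (nat_lit 169))) (XT.nd (nat_lit 94) (nat_lit 252) (nat_lit 0) (XT.lf (nat_lit 84) (nat_lit 1648275516) (nat_lit 0) (nat_lit 342189642) (nat_lit 336) (nat_lit 1648275516) (nat_lit 42) (nat_lit 1) (nat_lit 41) (nat_lit 1) (nat_lit 45) (nat_lit 1) (nat_lit 213) (nat_lit 219) (nat_lit 168)) (XT.lf (nat_lit 336) (nat_lit 2414642313) (nat_lit 0) (nat_lit 588341781) (nat_lit 252) (nat_lit 588341781) (nat_lit 42) (nat_lit 1) (nat_lit 38) (nat_lit 1) (nat_lit 41) (nat_lit 1) (nat_lit 214) (nat_lit 219) (nat_lit 167))))))) (XT.nd (nat_lit 33088) (nat_lit 0) (nat_lit 9576) (XT.nd (nat_lit 658) (nat_lit 252) (nat_lit 0) (XT.nd (nat_lit 282) (nat_lit 504) (nat_lit 0) (XT.nd (nat_lit 94) (nat_lit 588) (nat_lit 0) (XT.lf (nat_lit 84) (nat_lit 767355318) (nat_lit 0) (nat_lit 2009862187) (nat_lit 336) (nat_lit 767355318) (nat_lit 39) (nat_lit 1) (nat_lit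 38) (nat_lit 1) (nat_lit 42) (nat_lit 1) (nat_lit 215) (nat_lit 219) (nat_lit 166)) (XT.nd (nat_lit 94) (nat_lit 336) (nat_lit 0) (XT.lf (nat_lit 336) (nat_lit 661621365) (nat_lit 0) (nat_lit 1418502283) (nat_lit 252) (nat_lit 1418502283) (nat_lit 39) (nat_lit 1) (nat_lit 35) (nat_lit 1) (nat_lit 38) (nat_lit 1) (nat_lit 216) (nat_lit 219) (nat_lit 165)) (XT.lf (nat_lit 336) (nat_lit 3266414261) (nat_lit 0) (nat_lit 93705896) (nat_lit 252) (nat_lit 93705896) (nat_lit 35) (nat_lit 1) (nat_lit 31) (nat_lit 1) (nat_lit 34) (nat_lit 1) (nat_lit 217) (nat_lit 219) (nat_lit 164)))) (XT.nd (nat_lit 188) (nat_lit 252) (nat_lit 0) (XT.nd (nat_lit 94) (nat_lit 252) (nat_lit 0) (XT.lf (nat_lit 84) (nat_lit 1189691976) (nat_lit 0) (nat_lit 1029634083) (nat_lit 336) (nat_lit 1189691976) (nat_lit 32) (nat_lit 1) (nat_lit 31) (nat_lit 1) (nat_lit 35) (nat_lit 1) (nat_lit 218) (nat_lit 219) (nat_lit 163))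 (XT.lf (nat_lit 336) (nat_lit 1510611339) (nat_lit 0) (nat_lit 927358486) (nat_lit 252) (nat_lit 927358486) (nat_lit 32) (nat_lit 1) (nat_lit 28) (nat_lit 1) (nat_lit 31) (nat_lit 1) (nat_lit 219) (nat_lit 219) (nat_lit 162))) (XT.nd (nat_lit 94) (nat_lit 252) (nat_lit 0) (XT.lf (nat_lit 84) (nat_lit 326898475) (nat_lit 0) (nat_lit 2668729966) (nat_lit 336) (nat_lit 326898475) (nat_lit 29) (nat_lit 1) (nat_lit 28) (nat_lit 1) (nat_lit 32) (nat_lit 1) (nat_lit 220) (nat_lit 219) (nat_lit 161)) (XT.lf (nat_lit 84) (nat_lit 1540116085) (nat_lit 0) (nat_lit 199832128) (nat_lit 252) (nat_lit 1540116085) (nat_lit 26) (nat_lit 1) (nat_lit 25) (nat_lit 1) (nat_lit 28) (nat_lit 1) (nat_lit 221) (nat_lit 219) (nat_lit 160))))) (XT.nd (nat_lit 32054) (nat_lit 0) (nat_lit 11592) (XT.nd (nat_lit 31866) (nat_lit 0) (nat_lit 11508) (XT.lf (nat_lit 336) (nat_lit 2218870938) (nat_lit 0) (nat_lit 509797022)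 (nat_lit 252) (nat_lit 509797022) (nat_lit 26) (nat_lit 1) (nat_lit 22) (nat_lit 1) (nat_lit 25) (nat_lit 1) (nat_lit 222) (nat_lit 219) (nat_lit 159)) (XT.nd (nat_lit 94) (nat_lit 0) (nat_lit 0) (XT.lf (nat_lit 1260) (nat_lit 1146471695) (nat_lit 0) (nat_lit 1744304326) (nat_lit 1260) (nat_lit 1146471695) (nat_lit 174) (nat_lit 1) (nat_lit 159) (nat_lit 0) (nat_lit 174) (nat_lit 0) (nat_lit 160) (nat_lit 220) (nat_lit 220)) (XT.lf (nat_lit 1260) (nat_lit 4488461426) (nat_lit 84) (nat_lit 1724418121) (nat_lit 0) (nat_lit 1724418121) (nat_lit 174) (nat_lit 1) (nat_lit 160) (nat_lit 1) (nat_lit 159) (nat_lit 0) (nat_lit 161) (nat_lit 220) (nat_lit 219)))) (XT.nd (nat_lit 188) (nat_lit 0) (nat_lit 84) (XT.nd (nat_lit 94) (nat_lit 0) (nat_lit 0) (XT.lf (nat_lit 1260) (nat_lit 2171284575) (nat_lit 0) (nat_lit 3460419901) (nat_lit 1176) (nat_lit 2171284575) (nat_lit 175) (nat_lit 1) (nat_lit 160)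 (nat_lit 1) (nat_lit 174) (nat_lit 1) (nat_lit 162) (nat_lit 220) (nat_lit 218)) (XT.lf (nat_lit 1260) (nat_lit 4162159388) (nat_lit 84) (nat_lit 1754864395) (nat_lit 0) (nat_lit 1754864395) (nat_lit 175) (nat_lit 1) (nat_lit 161) (nat_lit 1) (nat_lit 160) (nat_lit 1) (nat_lit 163) (nat_lit 220) (nat_lit 217))) (XT.nd (nat_lit 94) (nat_lit 0) (nat_lit 0) (XT.lf (nat_lit 1260) (nat_lit 1969925948) (nat_lit 0) (nat_lit 3603745635) (nat_lit 1176) (nat_lit 1969925948) (nat_lit 176) (nat_lit 1) (nat_lit 161) (nat_lit 1) (nat_lit 175) (nat_lit 1) (nat_lit 164) (nat_lit 220) (nat_lit 216)) (XT.lf (nat_lit 1260) (nat_lit 3683977001) (nat_lit 84) (nat_lit 1867139431) (nat_lit 0) (nat_lit 1867139431) (nat_lit 176) (nat_lit 1) (nat_lit 162) (nat_lit 1) (nat_lit 161) (nat_lit 1) (nat_lit 165) (nat_lit 220) (nat_lit 215)))))) (XT.nd (nat_lit 658) (nat_lit 2184) (nat_lit 0) (XT.nd (nat_lit 282) (nat_lit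 0) (nat_lit 84) (XT.nd (nat_lit 94) (nat_lit 0) (nat_lit 0) (XT.lf (nat_lit 1260) (nat_lit 1697135398) (nat_lit 0) (nat_lit 3901445348) (nat_lit 1176) (nat_lit 1697135398) (nat_lit 177) (nat_lit 1) (nat_lit 162) (nat_lit 1) (nat_lit 176) (nat_lit 1) (nat_lit 166) (nat_lit 220) (nat_lit 214)) (XT.nd (nat_lit 94) (nat_lit 0) (nat_lit 84) (XT.lf (nat_lit 1260) (nat_lit 3069882400) (nat_lit 84) (nat_lit 2052966879) (nat_lit 0) (nat_lit 2052966879) (nat_lit 177) (nat_lit 1) (nat_lit 163) (nat_lit 1) (nat_lit 162) (nat_lit 1) (nat_lit 167) (nat_lit 220) (nat_lit 213)) (XT.lf (nat_lit 1260) (nat_lit 1360530696) (nat_lit 0) (nat_lit 4337712191) (nat_lit 1176) (nat_lit 1360530696) (nat_lit 178) (nat_lit 1) (nat_lit 163) (nat_lit 1) (nat_lit 177) (nat_lit 1) (nat_lit 168) (nat_lit 220) (nat_lit 212)))) (XT.nd (nat_lit 188) (nat_lit 0) (nat_lit 84) (XT.nd (nat_lit 94) (nat_lit 0) (nat_lit 84) (XT.lf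 (nat_lit 1260) (nat_lit 2334583519) (nat_lit 84) (nat_lit 2304716568) (nat_lit 0) (nat_lit 2304716568) (nat_lit 178) (nat_lit 1) (nat_lit 164) (nat_lit 1) (nat_lit 163) (nat_lit 1) (nat_lit 169) (nat_lit 220) (nat_lit 211)) (XT.lf (nat_lit 1260) (nat_lit 967126118) (nat_lit 0) (nat_lit 4897977729) (nat_lit 1176) (nat_lit 967126118) (nat_lit 179) (nat_lit 1) (nat_lit 164) (nat_lit 1) (nat_lit 178) (nat_lit 1) (nat_lit 170) (nat_lit 220) (nat_lit 210))) (XT.nd (nat_lit 94) (nat_lit 0) (nat_lit 84) (XT.lf (nat_lit 1260) (nat_lit 1491618589) (nat_lit 84) (nat_lit 2615358299) (nat_lit 0) (nat_lit 2615358299) (nat_lit 179) (nat_lit 1) (nat_lit 165) (nat_lit 1) (nat_lit 164) (nat_lit 1) (nat_lit 171) (nat_lit 220) (nat_lit 209)) (XT.lf (nat_lit 1260) (nat_lit 523375849) (nat_lit 0) (nat_lit 5568823268) (nat_lit 1176) (nat_lit 523375849) (nat_lit 180) (nat_lit 1) (nat_lit 165) (nat_lit 1) (nat_lit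 179) (nat_lit 1) (nat_lit 172) (nat_lit 220) (nat_lit 208))))) (XT.nd (nat_lit 282) (nat_lit 1260) (nat_lit 0) (XT.nd (nat_lit 94) (nat_lit 1176) (nat_lit 0) (XT.lf (nat_lit 1260) (nat_lit 553440401) (nat_lit 84) (nat_lit 2978418823) (nat_lit 0) (nat_lit 2978418823) (nat_lit 180) (nat_lit 1) (nat_lit 166) (nat_lit 1) (nat_lit 165) (nat_lit 1) (nat_lit 173) (nat_lit 220) (nat_lit 207)) (XT.nd (nat_lit 94) (nat_lit 1260) (nat_lit 0) (XT.lf (nat_lit 84) (nat_lit 35214392) (nat_lit 0) (nat_lit 6337897282) (nat_lit 1176) (nat_lit 35214392) (nat_lit 167) (nat_lit 1) (nat_lit 166) (nat_lit 1) (nat_lit 180) (nat_lit 1) (nat_lit 174) (nat_lit 220) (nat_lit 206)) (XT.lf (nat_lit 84) (nat_lit 2924656670) (nat_lit 0) (nat_lit 457882245) (nat_lit 1260) (nat_lit 2924656670) (nat_lit 152) (nat_lit 1) (nat_lit 151) (nat_lit 1) (nat_lit 166) (nat_lit 1) (nat_lit 175) (nat_lit 220) (nat_lit 205)))) (XT.nd (nat_lit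 188) (nat_lit 588) (nat_lit 0) (XT.nd (nat_lit 94) (nat_lit 0) (nat_lit 0) (XT.lf (nat_lit 756) (nat_lit 5236659531) (nat_lit 0) (nat_lit 486297766) (nat_lit 672) (nat_lit 486297766) (nat_lit 152) (nat_lit 1) (nat_lit 143) (nat_lit 1) (nat_lit 151) (nat_lit 1) (nat_lit 176) (nat_lit 220) (nat_lit 204)) (XT.lf (nat_lit 84) (nat_lit 2292166835) (nat_lit 0) (nat_lit 1528250703) (nat_lit 756) (nat_lit 2292166835) (nat_lit 144) (nat_lit 1) (nat_lit 143) (nat_lit 1) (nat_lit 152) (nat_lit 1) (nat_lit 177) (nat_lit 220) (nat_lit 203))) (XT.nd (nat_lit 94) (nat_lit 0) (nat_lit 0) (XT.lf (nat_lit 672) (nat_lit 3936644084) (nat_lit 0) (nat_lit 1040974735) (nat_lit 588) (nat_lit 1040974735) (nat_lit 144) (nat_lit 1) (nat_lit 136) (nat_lit 1) (nat_lit 143) (nat_lit 1) (nat_lit 178) (nat_lit 220) (nat_lit 202)) (XT.lf (nat_lit 84) (nat_lit 1632729585) (nat_lit 0) (nat_lit 2660786802) (nat_lit 672) (nat_lit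 1632729585) (nat_lit 137) (nat_lit 1) (nat_lit 136) (nat_lit 1) (nat_lit 144) (nat_lit 1) (nat_lit 179) (nat_lit 220) (nat_lit 201))))))))
noncomputable def ec20 : XT := (XT.nd (nat_lit 2538) (nat_lit 2604) (nat_lit 0) (XT.nd (nat_lit 1222) (nat_lit 2940) (nat_lit 0) (XT.nd (nat_lit 564) (nat_lit 1848) (nat_lit 0) (XT.nd (nat_lit 282) (nat_lit 1092) (nat_lit 0) (XT.nd (nat_lit 94) (nat_lit 504) (nat_lit 0) (XT.lf (nat_lit 672) (nat_lit 2586636631) (nat_lit 0) (nat_lit 1624679409) (nat_lit 588) (nat_lit 1624679409) (nat_lit 137) (nat_lit 1) (nat_lit 129) (nat_lit 1) (nat_lit 136) (nat_lit 1) (nat_lit 180) (nat_lit 220) (nat_lit 200)) (XT.nd (nat_lit 94) (nat_lit 504) (nat_lit 0) (XT.lf (nat_lit 84) (nat_lit 950470012) (nat_lit 0) (nat_lit 3846848124) (nat_lit 672) (nat_lit 950470012) (nat_lit 130) (nat_lit 1) (nat_lit 129) (nat_lit 1) (nat_lit 137) (nat_lit 1) (nat_lit 181) (nat_lit 220) (nat_lit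 199)) (XT.lf (nat_lit 588) (nat_lit 1194574650) (nat_lit 0) (nat_lit 2233252990) (nat_lit 504) (nat_lit 2233252990) (nat_lit 130) (nat_lit 1) (nat_lit 123) (nat_lit 1) (nat_lit 129) (nat_lit 1) (nat_lit 182) (nat_lit 220) (nat_lit 198)))) (XT.nd (nat_lit 94) (nat_lit 1092) (nat_lit 0) (XT.lf (nat_lit 84) (nat_lit 249160022) (nat_lit 0) (nat_lit 5078519354) (nat_lit 588) (nat_lit 249160022) (nat_lit 124) (nat_lit 1) (nat_lit 123) (nat_lit 1) (nat_lit 130) (nat_lit 1) (nat_lit 183) (nat_lit 220) (nat_lit 197)) (XT.nd (nat_lit 94) (nat_lit 504) (nat_lit 0) (XT.lf (nat_lit 84) (nat_lit 2633188607) (nat_lit 0) (nat_lit 227021183) (nat_lit 588) (nat_lit 2633188607) (nat_lit 117) (nat_lit 1) (nat_lit 116) (nat_lit 1) (nat_lit 123) (nat_lit 1) (nat_lit 184) (nat_lit 220) (nat_lit 196)) (XT.lf (nat_lit 588) (nat_lit 4487468238) (nat_lit 0) (nat_lit 462422787) (nat_lit 504) (nat_lit 462422787) (nat_lit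 117) (nat_lit 1) (nat_lit 110) (nat_lit 1) (nat_lit 116) (nat_lit 1) (nat_lit 185) (nat_lit 220) (nat_lit 195))))) (XT.nd (nat_lit 282) (nat_lit 1344) (nat_lit 0) (XT.nd (nat_lit 94) (nat_lit 504) (nat_lit 0) (XT.lf (nat_lit 84) (nat_lit 1841574567) (nat_lit 0) (nat_lit 1649072083) (nat_lit 588) (nat_lit 1841574567) (nat_lit 111) (nat_lit 1) (nat_lit 110) (nat_lit 1) (nat_lit 117) (nat_lit 1) (nat_lit 186) (nat_lit 220) (nat_lit 194)) (XT.nd (nat_lit 94) (nat_lit 0) (nat_lit 0) (XT.lf (nat_lit 588) (nat_lit 2887228731) (nat_lit 0) (nat_lit 1183486285) (nat_lit 504) (nat_lit 1183486285) (nat_lit 111) (nat_lit 1) (nat_lit 104) (nat_lit 1) (nat_lit 110) (nat_lit 1) (nat_lit 187) (nat_lit 220) (nat_lit 193)) (XT.lf (nat_lit 84) (nat_lit 1042463813) (nat_lit 0) (nat_lit 3092766165) (nat_lit 588) (nat_lit 1042463813) (nat_lit 105) (nat_lit 1) (nat_lit 104) (nat_lit 1) (nat_lit 111) (nat_lit 1) (nat_lit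 188) (nat_lit 220) (nat_lit 192)))) (XT.nd (nat_lit 188) (nat_lit 924) (nat_lit 0) (XT.nd (nat_lit 94) (nat_lit 0) (nat_lit 0) (XT.lf (nat_lit 504) (nat_lit 1274497929) (nat_lit 0) (nat_lit 1914041606) (nat_lit 420) (nat_lit 1914041606) (nat_lit 105) (nat_lit 1) (nat_lit 99) (nat_lit 1) (nat_lit 104) (nat_lit 1) (nat_lit 189) (nat_lit 220) (nat_lit 191)) (XT.lf (nat_lit 84) (nat_lit 238388198) (nat_lit 0) (nat_lit 4552735114) (nat_lit 504) (nat_lit 238388198) (nat_lit 100) (nat_lit 1) (nat_lit 99) (nat_lit 1) (nat_lit 105) (nat_lit 1) (nat_lit 190) (nat_lit 220) (nat_lit 190))) (XT.nd (nat_lit 94) (nat_lit 420) (nat_lit 0) (XT.lf (nat_lit 84) (nat_lit 2309495986) (nat_lit 0) (nat_lit 338030766) (nat_lit 504) (nat_lit 2309495986) (nat_lit 94) (nat_lit 1) (nat_lit 93) (nat_lit 1) (nat_lit 99) (nat_lit 1) (nat_lit 191) (nat_lit 220) (nat_lit 189)) (XT.lf (nat_lit 504) (nat_lit 3762737785) (nat_lit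 0) (nat_lit 561877882) (nat_lit 420) (nat_lit 561877882) (nat_lit 94) (nat_lit 1) (nat_lit 88) (nat_lit 1) (nat_lit 93) (nat_lit 1) (nat_lit 192) (nat_lit 220) (nat_lit 188)))))) (XT.nd (nat_lit 658) (nat_lit 1344) (nat_lit 0) (XT.nd (nat_lit 282) (nat_lit 1176) (nat_lit 0) (XT.nd (nat_lit 94) (nat_lit 420) (nat_lit 0) (XT.lf (nat_lit 84) (nat_lit 1446023345) (nat_lit 0) (nat_lit 1924835341) (nat_lit 504) (nat_lit 1446023345) (nat_lit 89) (nat_lit 1) (nat_lit 88) (nat_lit 1) (nat_lit 94) (nat_lit 1) (nat_lit 193) (nat_lit 220) (nat_lit 187)) (XT.nd (nat_lit 94) (nat_lit 0) (nat_lit 0) (XT.lf (nat_lit 504) (nat_lit 2028854878) (nat_lit 0) (nat_lit 1360013783) (nat_lit 420) (nat_lit 1360013783) (nat_lit 89) (nat_lit 1) (nat_lit 83) (nat_lit 1) (nat_lit 88) (nat_lit 1) (nat_lit 194) (nat_lit 220) (nat_lit 186)) (XT.lf (nat_lit 84) (nat_lit 585728059) (nat_lit 0) (nat_lit 3510935040) (nat_lit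 504) (nat_lit 585728059) (nat_lit 84) (nat_lit 1) (nat_lit 83) (nat_lit 1) (nat_lit 89) (nat_lit 1) (nat_lit 195) (nat_lit 220) (nat_lit 185)))) (XT.nd (nat_lit 188) (nat_lit 336) (nat_lit 0) (XT.nd (nat_lit 94) (nat_lit 504) (nat_lit 0) (XT.lf (nat_lit 420) (nat_lit 303024574) (nat_lit 0) (nat_lit 2156885113) (nat_lit 336) (nat_lit 2156885113) (nat_lit 84) (nat_lit 1) (nat_lit 79) (nat_lit 1) (nat_lit 83) (nat_lit 1) (nat_lit 196) (nat_lit 220) (nat_lit 184)) (XT.lf (nat_lit 504) (nat_lit 4019492019) (nat_lit 0) (nat_lit 266691597) (nat_lit 420) (nat_lit 266691597) (nat_lit 79) (nat_lit 1) (nat_lit 73) (nat_lit 1) (nat_lit 78) (nat_lit 1) (nat_lit 197) (nat_lit 220) (nat_lit 183))) (XT.nd (nat_lit 94) (nat_lit 336) (nat_lit 0) (XT.lf (nat_lit 84) (nat_lit 1554890784) (nat_lit 0) (nat_lit 1379653912) (nat_lit 504) (nat_lit 1554890784) (nat_lit 74) (nat_lit 1) (nat_lit 73) (nat_lit 1) (nat_lit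 79) (nat_lit 1) (nat_lit 198) (nat_lit 220) (nat_lit 182)) (XT.lf (nat_lit 420) (nat_lit 2215105318) (nat_lit 0) (nat_lit 1106251918) (nat_lit 336) (nat_lit 1106251918) (nat_lit 74) (nat_lit 1) (nat_lit 69) (nat_lit 1) (nat_lit 73) (nat_lit 1) (nat_lit 199) (nat_lit 220) (nat_lit 181))))) (XT.nd (nat_lit 282) (nat_lit 588) (nat_lit 0) (XT.nd (nat_lit 94) (nat_lit 756) (nat_lit 0) (XT.lf (nat_lit 84) (nat_lit 662569474) (nat_lit 0) (nat_lit 3041870788) (nat_lit 420) (nat_lit 662569474) (nat_lit 70) (nat_lit 1) (nat_lit 69) (nat_lit 1) (nat_lit 74) (nat_lit 1) (nat_lit 200) (nat_lit 220) (nat_lit 180)) (XT.nd (nat_lit 94) (nat_lit 420) (nat_lit 0) (XT.lf (nat_lit 420) (nat_lit 430588753) (nat_lit 0) (nat_lit 1938349046) (nat_lit 336) (nat_lit 1938349046) (nat_lit 70) (nat_lit 1) (nat_lit 65) (nat_lit 1) (nat_lit 69) (nat_lit 1) (nat_lit 201) (nat_lit 220) (nat_lit 179)) (XT.lf (nat_lit 420)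 (nat_lit 3815396128) (nat_lit 0) (nat_lit 216837679) (nat_lit 336) (nat_lit 216837679) (nat_lit 65) (nat_lit 1) (nat_lit 60) (nat_lit 1) (nat_lit 64) (nat_lit 1) (nat_lit 202) (nat_lit 220) (nat_lit 178)))) (XT.nd (nat_lit 188) (nat_lit 252) (nat_lit 0) (XT.nd (nat_lit 94) (nat_lit 336) (nat_lit 0) (XT.lf (nat_lit 84) (nat_lit 1444691438) (nat_lit 0) (nat_lit 1301791734) (nat_lit 420) (nat_lit 1444691438) (nat_lit 61) (nat_lit 1) (nat_lit 60) (nat_lit 1) (nat_lit 65) (nat_lit 1) (nat_lit 203) (nat_lit 220) (nat_lit 177)) (XT.lf (nat_lit 420) (nat_lit 1979842808) (nat_lit 0) (nat_lit 1077445457) (nat_lit 336) (nat_lit 1077445457) (nat_lit 61) (nat_lit 1) (nat_lit 56) (nat_lit 1) (nat_lit 60) (nat_lit 1) (nat_lit 204) (nat_lit 220) (nat_lit 176))) (XT.nd (nat_lit 94) (nat_lit 252) (nat_lit 0) (XT.lf (nat_lit 84) (nat_lit 539114169) (nat_lit 0) (nat_lit 3001201034) (nat_lit 420) (nat_lit 539114169)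 (nat_lit 57) (nat_lit 1) (nat_lit 56) (nat_lit 1) (nat_lit 61) (nat_lit 1) (nat_lit 205) (nat_lit 220) (nat_lit 175)) (XT.lf (nat_lit 336) (nat_lit 172887600) (nat_lit 0) (nat_lit 1925975283) (nat_lit 252) (nat_lit 1925975283) (nat_lit 57) (nat_lit 1) (nat_lit 53) (nat_lit 1) (nat_lit 56) (nat_lit 1) (nat_lit 206) (nat_lit 220) (nat_lit 174))))))) (XT.nd (nat_lit 1222) (nat_lit 252) (nat_lit 0) (XT.nd (nat_lit 564) (nat_lit 1092) (nat_lit 0) (XT.nd (nat_lit 282) (nat_lit 588) (nat_lit 0) (XT.nd (nat_lit 94) (nat_lit 252) (nat_lit 0) (XT.lf (nat_lit 420) (nat_lit 3275666053) (nat_lit 0) (nat_lit 347903687) (nat_lit 336) (nat_lit 347903687) (nat_lit 53) (nat_lit 1) (nat_lit 48) (nat_lit 1) (nat_lit 52) (nat_lit 1) (nat_lit 207) (nat_lit 220) (nat_lit 173)) (XT.nd (nat_lit 94) (nat_lit 252) (nat_lit 0) (XT.lf (nat_lit 84) (nat_lit 1175367053) (nat_lit 0) (nat_lit 1567836615) (nat_lit 420) (nat_lit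 1175367053) (nat_lit 49) (nat_lit 1) (nat_lit 48) (nat_lit 1) (nat_lit 53) (nat_lit 1) (nat_lit 208) (nat_lit 220) (nat_lit 172)) (XT.lf (nat_lit 336) (nat_lit 1439205692) (nat_lit 0) (nat_lit 1213823428) (nat_lit 252) (nat_lit 1213823428) (nat_lit 49) (nat_lit 1) (nat_lit 45) (nat_lit 1) (nat_lit 48) (nat_lit 1) (nat_lit 209) (nat_lit 220) (nat_lit 171)))) (XT.nd (nat_lit 94) (nat_lit 588) (nat_lit 0) (XT.lf (nat_lit 84) (nat_lit 270952405) (nat_lit 0) (nat_lit 3274417236) (nat_lit 336) (nat_lit 270952405) (nat_lit 46) (nat_lit 1) (nat_lit 45) (nat_lit 1) (nat_lit 49) (nat_lit 1) (nat_lit 210) (nat_lit 220) (nat_lit 170)) (XT.nd (nat_lit 94) (nat_lit 252) (nat_lit 0) (XT.lf (nat_lit 84) (nat_lit 1705965159) (nat_lit 0) (nat_lit 354166280) (nat_lit 336) (nat_lit 1705965159) (nat_lit 42) (nat_lit 1) (nat_lit 41) (nat_lit 1) (nat_lit 45) (nat_lit 1) (nat_lit 211) (nat_lit 220) (nat_lit 169))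 (XT.lf (nat_lit 336) (nat_lit 2499154794) (nat_lit 0) (nat_lit 608933743) (nat_lit 252) (nat_lit 608933743) (nat_lit 42) (nat_lit 1) (nat_lit 38) (nat_lit 1) (nat_lit 41) (nat_lit 1) (nat_lit 212) (nat_lit 220) (nat_lit 168))))) (XT.nd (nat_lit 282) (nat_lit 504) (nat_lit 0) (XT.nd (nat_lit 94) (nat_lit 588) (nat_lit 0) (XT.lf (nat_lit 84) (nat_lit 794212754) (nat_lit 0) (nat_lit 2080207363) (nat_lit 336) (nat_lit 794212754) (nat_lit 39) (nat_lit 1) (nat_lit 38) (nat_lit 1) (nat_lit 42) (nat_lit 1) (nat_lit 213) (nat_lit 220) (nat_lit 167)) (XT.nd (nat_lit 94) (nat_lit 336) (nat_lit 0) (XT.lf (nat_lit 336) (nat_lit 684778112) (nat_lit 0) (nat_lit 1468149863) (nat_lit 252) (nat_lit 1468149863) (nat_lit 39) (nat_lit 1) (nat_lit 35) (nat_lit 1) (nat_lit 38) (nat_lit 1) (nat_lit 214) (nat_lit 220) (nat_lit 166)) (XT.lf (nat_lit 336) (nat_lit 3380738761) (nat_lit 0) (nat_lit 96985602) (nat_lit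 252) (nat_lit 96985602) (nat_lit 35) (nat_lit 1) (nat_lit 31) (nat_lit 1) (nat_lit 34) (nat_lit 1) (nat_lit 215) (nat_lit 220) (nat_lit 165)))) (XT.nd (nat_lit 188) (nat_lit 252) (nat_lit 0) (XT.nd (nat_lit 94) (nat_lit 252) (nat_lit 0) (XT.lf (nat_lit 84) (nat_lit 1231331195) (nat_lit 0) (nat_lit 1065671276) (nat_lit 336) (nat_lit 1231331195) (nat_lit 32) (nat_lit 1) (nat_lit 31) (nat_lit 1) (nat_lit 35) (nat_lit 1) (nat_lit 216) (nat_lit 220) (nat_lit 164)) (XT.lf (nat_lit 336) (nat_lit 1563482736) (nat_lit 0) (nat_lit 959816033) (nat_lit 252) (nat_lit 959816033) (nat_lit 32) (nat_lit 1) (nat_lit 28) (nat_lit 1) (nat_lit 31) (nat_lit 1) (nat_lit 217) (nat_lit 220) (nat_lit 163))) (XT.nd (nat_lit 94) (nat_lit 252) (nat_lit 0) (XT.lf (nat_lit 84) (nat_lit 338339921) (nat_lit 0) (nat_lit 2762135515) (nat_lit 336) (nat_lit 338339921) (nat_lit 29) (nat_lit 1) (nat_lit 28) (nat_lit 1) (nat_lit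 32) (nat_lit 1) (nat_lit 218) (nat_lit 220) (nat_lit 162)) (XT.lf (nat_lit 84) (nat_lit 1594020148) (nat_lit 0) (nat_lit 206826253) (nat_lit 252) (nat_lit 1594020148) (nat_lit 26) (nat_lit 1) (nat_lit 25) (nat_lit 1) (nat_lit 28) (nat_lit 1) (nat_lit 219) (nat_lit 220) (nat_lit 161)))))) (XT.nd (nat_lit 32430) (nat_lit 0) (nat_lit 11760) (XT.nd (nat_lit 32054) (nat_lit 0) (nat_lit 11592) (XT.nd (nat_lit 94) (nat_lit 0) (nat_lit 0) (XT.lf (nat_lit 336) (nat_lit 2296531421) (nat_lit 0) (nat_lit 527639918) (nat_lit 252) (nat_lit 527639918) (nat_lit 26) (nat_lit 1) (nat_lit 22) (nat_lit 1) (nat_lit 25) (nat_lit 1) (nat_lit 220) (nat_lit 220) (nat_lit 160)) (XT.nd (nat_lit 31866) (nat_lit 0) (nat_lit 11508) (XT.lf (nat_lit 84) (nat_lit 704343150) (nat_lit 0) (nat_lit 1900630052) (nat_lit 336) (nat_lit 704343150) (nat_lit 23) (nat_lit 1) (nat_lit 22) (nat_lit 1) (nat_lit 26) (nat_lit 1) (nat_lit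 221) (nat_lit 220) (nat_lit 159)) (XT.lf (nat_lit 1260) (nat_lit 4645557576) (nat_lit 84) (nat_lit 1784772755) (nat_lit 0) (nat_lit 1784772755) (nat_lit 174) (nat_lit 1) (nat_lit 160) (nat_lit 1) (nat_lit 159) (nat_lit 0) (nat_lit 159) (nat_lit 221) (nat_lit 220)))) (XT.nd (nat_lit 188) (nat_lit 0) (nat_lit 84) (XT.nd (nat_lit 94) (nat_lit 0) (nat_lit 0) (XT.lf (nat_lit 1260) (nat_lit 2247279535) (nat_lit 0) (nat_lit 3581534598) (nat_lit 1176) (nat_lit 2247279535) (nat_lit 175) (nat_lit 1) (nat_lit 160) (nat_lit 1) (nat_lit 174) (nat_lit 1) (nat_lit 160) (nat_lit 221) (nat_lit 219)) (XT.lf (nat_lit 1260) (nat_lit 4307834967) (nat_lit 84) (nat_lit 1816284649) (nat_lit 0) (nat_lit 1816284649) (nat_lit 175) (nat_lit 1) (nat_lit 161) (nat_lit 1) (nat_lit 160) (nat_lit 1) (nat_lit 161) (nat_lit 221) (nat_lit 218))) (XT.nd (nat_lit 94) (nat_lit 0) (nat_lit 0) (XT.lf (nat_lit 1260) (nat_lit 2038873356)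 (nat_lit 0) (nat_lit 3729876732) (nat_lit 1176) (nat_lit 2038873356) (nat_lit 176) (nat_lit 1) (nat_lit 161) (nat_lit 1) (nat_lit 175) (nat_lit 1) (nat_lit 162) (nat_lit 221) (nat_lit 217)) (XT.lf (nat_lit 1260) (nat_lit 3812916196) (nat_lit 84) (nat_lit 1932489311) (nat_lit 0) (nat_lit 1932489311) (nat_lit 176) (nat_lit 1) (nat_lit 162) (nat_lit 1) (nat_lit 161) (nat_lit 1) (nat_lit 163) (nat_lit 221) (nat_lit 216))))) (XT.nd (nat_lit 282) (nat_lit 0) (nat_lit 84) (XT.nd (nat_lit 94) (nat_lit 0) (nat_lit 0) (XT.lf (nat_lit 1260) (nat_lit 1756535136) (nat_lit 0) (nat_lit 4037995936) (nat_lit 1176) (nat_lit 1756535136) (nat_lit 177) (nat_lit 1) (nat_lit 162) (nat_lit 1) (nat_lit 176) (nat_lit 1) (nat_lit 164) (nat_lit 221) (nat_lit 215)) (XT.nd (nat_lit 94) (nat_lit 0) (nat_lit 84) (XT.lf (nat_lit 1260) (nat_lit 3177328284) (nat_lit 84) (nat_lit 2124820720) (nat_lit 0) (nat_lit 2124820720)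 (nat_lit 177) (nat_lit 1) (nat_lit 163) (nat_lit 1) (nat_lit 162) (nat_lit 1) (nat_lit 165) (nat_lit 221) (nat_lit 214)) (XT.lf (nat_lit 1260) (nat_lit 1408149270) (nat_lit 0) (nat_lit 4489532118) (nat_lit 1176) (nat_lit 1408149270) (nat_lit 178) (nat_lit 1) (nat_lit 163) (nat_lit 1) (nat_lit 177) (nat_lit 1) (nat_lit 166) (nat_lit 221) (nat_lit 213)))) (XT.nd (nat_lit 188) (nat_lit 0) (nat_lit 84) (XT.nd (nat_lit 94) (nat_lit 0) (nat_lit 84) (XT.lf (nat_lit 1260) (nat_lit 2416293942) (nat_lit 84) (nat_lit 2385381647) (nat_lit 0) (nat_lit 2385381647) (nat_lit 178) (nat_lit 1) (nat_lit 164) (nat_lit 1) (nat_lit 163) (nat_lit 1) (nat_lit 167) (nat_lit 221) (nat_lit 212)) (XT.lf (nat_lit 1260) (nat_lit 1000975532) (nat_lit 0) (nat_lit 5069406949) (nat_lit 1176) (nat_lit 1000975532) (nat_lit 179) (nat_lit 1) (nat_lit 164) (nat_lit 1) (nat_lit 178) (nat_lit 1) (nat_lit 168) (nat_lit 221) (nat_lit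 211))) (XT.nd (nat_lit 94) (nat_lit 0) (nat_lit 84) (XT.lf (nat_lit 1260) (nat_lit 1543825240) (nat_lit 84) (nat_lit 2706895840) (nat_lit 0) (nat_lit 2706895840) (nat_lit 179) (nat_lit 1) (nat_lit 165) (nat_lit 1) (nat_lit 164) (nat_lit 1) (nat_lit 169) (nat_lit 221) (nat_lit 210)) (XT.lf (nat_lit 1260) (nat_lit 541694003) (nat_lit 0) (nat_lit 5763732082) (nat_lit 1176) (nat_lit 541694003) (nat_lit 180) (nat_lit 1) (nat_lit 165) (nat_lit 1) (nat_lit 179) (nat_lit 1) (nat_lit 170) (nat_lit 221) (nat_lit 209))))))))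
noncomputable def ec21 : XT := (XT.nd (nat_lit 2538) (nat_lit 4116) (nat_lit 0) (XT.nd (nat_lit 1222) (nat_lit 3444) (nat_lit 0) (XT.nd (nat_lit 564) (nat_lit 2184) (nat_lit 0) (XT.nd (nat_lit 282) (nat_lit 1260) (nat_lit 0) (XT.nd (nat_lit 94) (nat_lit 1176) (nat_lit 0) (XT.lf (nat_lit 1260) (nat_lit 572810815) (nat_lit 84) (nat_lit 3082663482) (nat_lit 0) (nat_lit 3082663482) (nat_lit 180) (nat_lit 1) (nat_lit 166) (nat_lit 1) (nat_lit 165) (nat_lit 1) (nat_lit 171) (nat_lit 221) (nat_lit 208)) (XT.nd (nat_lit 94) (nat_lit 1260) (nat_lit 0) (XT.lf (nat_lit 84) (nat_lit 36446896) (nat_lit 0) (nat_lit 6559723686) (nat_lit 1176) (nat_lit 36446896) (nat_lit 167) (nat_lit 1) (nat_lit 166) (nat_lit 1) (nat_lit 180) (nat_lit 1) (nat_lit 172) (nat_lit 221) (nat_lit 207)) (XT.lf (nat_lit 84) (nat_lit 3027019654) (nat_lit 0) (nat_lit 473908124) (nat_lit 1260) (nat_lit 3027019654) (nat_lit 152) (nat_lit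 1) (nat_lit 151) (nat_lit 1) (nat_lit 166) (nat_lit 1) (nat_lit 173) (nat_lit 221) (nat_lit 206)))) (XT.nd (nat_lit 94) (nat_lit 588) (nat_lit 0) (XT.lf (nat_lit 756) (nat_lit 5419942615) (nat_lit 0) (nat_lit 503318188) (nat_lit 672) (nat_lit 503318188) (nat_lit 152) (nat_lit 1) (nat_lit 143) (nat_lit 1) (nat_lit 151) (nat_lit 1) (nat_lit 174) (nat_lit 221) (nat_lit 205)) (XT.nd (nat_lit 94) (nat_lit 588) (nat_lit 0) (XT.lf (nat_lit 84) (nat_lit 2372392674) (nat_lit 0) (nat_lit 1581739478) (nat_lit 756) (nat_lit 2372392674) (nat_lit 144) (nat_lit 1) (nat_lit 143) (nat_lit 1) (nat_lit 152) (nat_lit 1) (nat_lit 175) (nat_lit 221) (nat_lit 204)) (XT.lf (nat_lit 672) (nat_lit 4074426627) (nat_lit 0) (nat_lit 1077408850) (nat_lit 588) (nat_lit 1077408850) (nat_lit 144) (nat_lit 1) (nat_lit 136) (nat_lit 1) (nat_lit 143) (nat_lit 1) (nat_lit 176) (nat_lit 221) (nat_lit 203))))) (XT.nd (nat_lit 282)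 (nat_lit 1596) (nat_lit 0) (XT.nd (nat_lit 94) (nat_lit 588) (nat_lit 0) (XT.lf (nat_lit 84) (nat_lit 1689875121) (nat_lit 0) (nat_lit 2753914341) (nat_lit 672) (nat_lit 1689875121) (nat_lit 137) (nat_lit 1) (nat_lit 136) (nat_lit 1) (nat_lit 144) (nat_lit 1) (nat_lit 177) (nat_lit 221) (nat_lit 202)) (XT.nd (nat_lit 94) (nat_lit 0) (nat_lit 0) (XT.lf (nat_lit 672) (nat_lit 2677168913) (nat_lit 0) (nat_lit 1681543188) (nat_lit 588) (nat_lit 1681543188) (nat_lit 137) (nat_lit 1) (nat_lit 129) (nat_lit 1) (nat_lit 136) (nat_lit 1) (nat_lit 178) (nat_lit 221) (nat_lit 201)) (XT.lf (nat_lit 84) (nat_lit 983736462) (nat_lit 0) (nat_lit 3981487809) (nat_lit 672) (nat_lit 983736462) (nat_lit 130) (nat_lit 1) (nat_lit 129) (nat_lit 1) (nat_lit 137) (nat_lit 1) (nat_lit 179) (nat_lit 221) (nat_lit 200)))) (XT.nd (nat_lit 188) (nat_lit 1092) (nat_lit 0) (XT.nd (nat_lit 94) (nat_lit 0) (nat_lit 0) (XT.lf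 (nat_lit 588) (nat_lit 1236384763) (nat_lit 0) (nat_lit 2311416845) (nat_lit 504) (nat_lit 2311416845) (nat_lit 130) (nat_lit 1) (nat_lit 123) (nat_lit 1) (nat_lit 129) (nat_lit 1) (nat_lit 180) (nat_lit 221) (nat_lit 199)) (XT.lf (nat_lit 84) (nat_lit 257880622) (nat_lit 0) (nat_lit 5256267531) (nat_lit 588) (nat_lit 257880622) (nat_lit 124) (nat_lit 1) (nat_lit 123) (nat_lit 1) (nat_lit 130) (nat_lit 1) (nat_lit 181) (nat_lit 221) (nat_lit 198))) (XT.nd (nat_lit 94) (nat_lit 504) (nat_lit 0) (XT.lf (nat_lit 84) (nat_lit 2725350208) (nat_lit 0) (nat_lit 234966925) (nat_lit 588) (nat_lit 2725350208) (nat_lit 117) (nat_lit 1) (nat_lit 116) (nat_lit 1) (nat_lit 123) (nat_lit 1) (nat_lit 182) (nat_lit 221) (nat_lit 197)) (XT.lf (nat_lit 588) (nat_lit 4644529627) (nat_lit 0) (nat_lit 478607584) (nat_lit 504) (nat_lit 478607584) (nat_lit 117) (nat_lit 1) (nat_lit 110) (nat_lit 1) (nat_lit 116)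 (nat_lit 1) (nat_lit 183) (nat_lit 221) (nat_lit 196)))))) (XT.nd (nat_lit 658) (nat_lit 1596) (nat_lit 0) (XT.nd (nat_lit 282) (nat_lit 1344) (nat_lit 0) (XT.nd (nat_lit 94) (nat_lit 504) (nat_lit 0) (XT.lf (nat_lit 84) (nat_lit 1906029677) (nat_lit 0) (nat_lit 1706789606) (nat_lit 588) (nat_lit 1906029677) (nat_lit 111) (nat_lit 1) (nat_lit 110) (nat_lit 1) (nat_lit 117) (nat_lit 1) (nat_lit 184) (nat_lit 221) (nat_lit 195)) (XT.nd (nat_lit 94) (nat_lit 0) (nat_lit 0) (XT.lf (nat_lit 588) (nat_lit 2988281737) (nat_lit 0) (nat_lit 1224908305) (nat_lit 504) (nat_lit 1224908305) (nat_lit 111) (nat_lit 1) (nat_lit 104) (nat_lit 1) (nat_lit 110) (nat_lit 1) (nat_lit 185) (nat_lit 221) (nat_lit 194)) (XT.lf (nat_lit 84) (nat_lit 1078950047) (nat_lit 0) (nat_lit 3201012981) (nat_lit 588) (nat_lit 1078950047) (nat_lit 105) (nat_lit 1) (nat_lit 104) (nat_lit 1) (nat_lit 111) (nat_lit 1) (nat_lit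 186) (nat_lit 221) (nat_lit 193)))) (XT.nd (nat_lit 188) (nat_lit 924) (nat_lit 0) (XT.nd (nat_lit 94) (nat_lit 0) (nat_lit 0) (XT.lf (nat_lit 504) (nat_lit 1319105357) (nat_lit 0) (nat_lit 1981033062) (nat_lit 420) (nat_lit 1981033062) (nat_lit 105) (nat_lit 1) (nat_lit 99) (nat_lit 1) (nat_lit 104) (nat_lit 1) (nat_lit 187) (nat_lit 221) (nat_lit 192)) (XT.lf (nat_lit 84) (nat_lit 246731785) (nat_lit 0) (nat_lit 4712080843) (nat_lit 504) (nat_lit 246731785) (nat_lit 100) (nat_lit 1) (nat_lit 99) (nat_lit 1) (nat_lit 105) (nat_lit 1) (nat_lit 188) (nat_lit 221) (nat_lit 191))) (XT.nd (nat_lit 94) (nat_lit 420) (nat_lit 0) (XT.lf (nat_lit 84) (nat_lit 2390328345) (nat_lit 0) (nat_lit 349861843) (nat_lit 504) (nat_lit 2390328345) (nat_lit 94) (nat_lit 1) (nat_lit 93) (nat_lit 1) (nat_lit 99) (nat_lit 1) (nat_lit 189) (nat_lit 221) (nat_lit 190)) (XT.lf (nat_lit 504) (nat_lit 3894433607) (nat_lit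 0) (nat_lit 581543608) (nat_lit 420) (nat_lit 581543608) (nat_lit 94) (nat_lit 1) (nat_lit 88) (nat_lit 1) (nat_lit 93) (nat_lit 1) (nat_lit 190) (nat_lit 221) (nat_lit 189))))) (XT.nd (nat_lit 282) (nat_lit 1176) (nat_lit 0) (XT.nd (nat_lit 94) (nat_lit 420) (nat_lit 0) (XT.lf (nat_lit 84) (nat_lit 1496634162) (nat_lit 0) (nat_lit 1992204578) (nat_lit 504) (nat_lit 1496634162) (nat_lit 89) (nat_lit 1) (nat_lit 88) (nat_lit 1) (nat_lit 94) (nat_lit 1) (nat_lit 191) (nat_lit 221) (nat_lit 188)) (XT.nd (nat_lit 94) (nat_lit 0) (nat_lit 0) (XT.lf (nat_lit 504) (nat_lit 2099864799) (nat_lit 0) (nat_lit 1407614266) (nat_lit 420) (nat_lit 1407614266) (nat_lit 89) (nat_lit 1) (nat_lit 83) (nat_lit 1) (nat_lit 88) (nat_lit 1) (nat_lit 192) (nat_lit 221) (nat_lit 187)) (XT.lf (nat_lit 84) (nat_lit 606228541) (nat_lit 0) (nat_lit 3633817766) (nat_lit 504) (nat_lit 606228541) (nat_lit 84) (nat_lit 1)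 (nat_lit 83) (nat_lit 1) (nat_lit 89) (nat_lit 1) (nat_lit 193) (nat_lit 221) (nat_lit 186)))) (XT.nd (nat_lit 188) (nat_lit 336) (nat_lit 0) (XT.nd (nat_lit 94) (nat_lit 504) (nat_lit 0) (XT.lf (nat_lit 420) (nat_lit 313630434) (nat_lit 0) (nat_lit 2232376092) (nat_lit 336) (nat_lit 2232376092) (nat_lit 84) (nat_lit 1) (nat_lit 79) (nat_lit 1) (nat_lit 83) (nat_lit 1) (nat_lit 194) (nat_lit 221) (nat_lit 185)) (XT.lf (nat_lit 504) (nat_lit 4160174240) (nat_lit 0) (nat_lit 276025803) (nat_lit 420) (nat_lit 276025803) (nat_lit 79) (nat_lit 1) (nat_lit 73) (nat_lit 1) (nat_lit 78) (nat_lit 1) (nat_lit 195) (nat_lit 221) (nat_lit 184))) (XT.nd (nat_lit 94) (nat_lit 336) (nat_lit 0) (XT.lf (nat_lit 84) (nat_lit 1609311961) (nat_lit 0) (nat_lit 1427941799) (nat_lit 504) (nat_lit 1609311961) (nat_lit 74) (nat_lit 1) (nat_lit 73) (nat_lit 1) (nat_lit 79) (nat_lit 1) (nat_lit 196) (nat_lit 221) (nat_lit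 183)) (XT.lf (nat_lit 420) (nat_lit 2292634004) (nat_lit 0) (nat_lit 1144970735) (nat_lit 336) (nat_lit 1144970735) (nat_lit 74) (nat_lit 1) (nat_lit 69) (nat_lit 1) (nat_lit 73) (nat_lit 1) (nat_lit 197) (nat_lit 221) (nat_lit 182))))))) (XT.nd (nat_lit 1316) (nat_lit 1512) (nat_lit 0) (XT.nd (nat_lit 658) (nat_lit 1260) (nat_lit 0) (XT.nd (nat_lit 282) (nat_lit 588) (nat_lit 0) (XT.nd (nat_lit 94) (nat_lit 756) (nat_lit 0) (XT.lf (nat_lit 84) (nat_lit 685759406) (nat_lit 0) (nat_lit 3148336266) (nat_lit 420) (nat_lit 685759406) (nat_lit 70) (nat_lit 1) (nat_lit 69) (nat_lit 1) (nat_lit 74) (nat_lit 1) (nat_lit 198) (nat_lit 221) (nat_lit 181)) (XT.nd (nat_lit 94) (nat_lit 420) (nat_lit 0) (XT.lf (nat_lit 420) (nat_lit 445659359) (nat_lit 0) (nat_lit 2006191263) (nat_lit 336) (nat_lit 2006191263) (nat_lit 70) (nat_lit 1) (nat_lit 65) (nat_lit 1) (nat_lit 69) (nat_lit 1) (nat_lit 199) (nat_lit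 221) (nat_lit 180)) (XT.lf (nat_lit 420) (nat_lit 3948934992) (nat_lit 0) (nat_lit 224426998) (nat_lit 336) (nat_lit 224426998) (nat_lit 65) (nat_lit 1) (nat_lit 60) (nat_lit 1) (nat_lit 64) (nat_lit 1) (nat_lit 200) (nat_lit 221) (nat_lit 179)))) (XT.nd (nat_lit 188) (nat_lit 252) (nat_lit 0) (XT.nd (nat_lit 94) (nat_lit 336) (nat_lit 0) (XT.lf (nat_lit 84) (nat_lit 1495255638) (nat_lit 0) (nat_lit 1347354445) (nat_lit 420) (nat_lit 1495255638) (nat_lit 61) (nat_lit 1) (nat_lit 60) (nat_lit 1) (nat_lit 65) (nat_lit 1) (nat_lit 201) (nat_lit 221) (nat_lit 178)) (XT.lf (nat_lit 420) (nat_lit 2049137306) (nat_lit 0) (nat_lit 1115156048) (nat_lit 336) (nat_lit 1115156048) (nat_lit 61) (nat_lit 1) (nat_lit 56) (nat_lit 1) (nat_lit 60) (nat_lit 1) (nat_lit 202) (nat_lit 221) (nat_lit 177))) (XT.nd (nat_lit 94) (nat_lit 252) (nat_lit 0) (XT.lf (nat_lit 84) (nat_lit 557983165) (nat_lit 0) (nat_lit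 3106243070) (nat_lit 420) (nat_lit 557983165) (nat_lit 57) (nat_lit 1) (nat_lit 56) (nat_lit 1) (nat_lit 61) (nat_lit 1) (nat_lit 203) (nat_lit 221) (nat_lit 176)) (XT.lf (nat_lit 336) (nat_lit 178938666) (nat_lit 0) (nat_lit 1993384418) (nat_lit 252) (nat_lit 1993384418) (nat_lit 57) (nat_lit 1) (nat_lit 53) (nat_lit 1) (nat_lit 56) (nat_lit 1) (nat_lit 204) (nat_lit 221) (nat_lit 175))))) (XT.nd (nat_lit 282) (nat_lit 588) (nat_lit 0) (XT.nd (nat_lit 94) (nat_lit 252) (nat_lit 0) (XT.lf (nat_lit 420) (nat_lit 3390314365) (nat_lit 0) (nat_lit 360080316) (nat_lit 336) (nat_lit 360080316) (nat_lit 53) (nat_lit 1) (nat_lit 48) (nat_lit 1) (nat_lit 52) (nat_lit 1) (nat_lit 205) (nat_lit 221) (nat_lit 174)) (XT.nd (nat_lit 94) (nat_lit 252) (nat_lit 0) (XT.lf (nat_lit 84) (nat_lit 1216504899) (nat_lit 0) (nat_lit 1622710897) (nat_lit 420) (nat_lit 1216504899) (nat_lit 49) (nat_lit 1) (nat_lit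 48) (nat_lit 1) (nat_lit 53) (nat_lit 1) (nat_lit 206) (nat_lit 221) (nat_lit 173)) (XT.lf (nat_lit 336) (nat_lit 1489577891) (nat_lit 0) (nat_lit 1256307248) (nat_lit 252) (nat_lit 1256307248) (nat_lit 49) (nat_lit 1) (nat_lit 45) (nat_lit 1) (nat_lit 48) (nat_lit 1) (nat_lit 207) (nat_lit 221) (nat_lit 172)))) (XT.nd (nat_lit 188) (nat_lit 252) (nat_lit 0) (XT.nd (nat_lit 94) (nat_lit 336) (nat_lit 0) (XT.lf (nat_lit 84) (nat_lit 280435739) (nat_lit 0) (nat_lit 3389021839) (nat_lit 336) (nat_lit 280435739) (nat_lit 46) (nat_lit 1) (nat_lit 45) (nat_lit 1) (nat_lit 49) (nat_lit 1) (nat_lit 208) (nat_lit 221) (nat_lit 171)) (XT.lf (nat_lit 84) (nat_lit 1765673940) (nat_lit 0) (nat_lit 366562100) (nat_lit 336) (nat_lit 1765673940) (nat_lit 42) (nat_lit 1) (nat_lit 41) (nat_lit 1) (nat_lit 45) (nat_lit 1) (nat_lit 209) (nat_lit 221) (nat_lit 170))) (XT.nd (nat_lit 94) (nat_lit 0) (nat_lit 0)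 (XT.lf (nat_lit 336) (nat_lit 2586625212) (nat_lit 0) (nat_lit 630246424) (nat_lit 252) (nat_lit 630246424) (nat_lit 42) (nat_lit 1) (nat_lit 38) (nat_lit 1) (nat_lit 41) (nat_lit 1) (nat_lit 210) (nat_lit 221) (nat_lit 169)) (XT.lf (nat_lit 84) (nat_lit 822010200) (nat_lit 0) (nat_lit 2153014621) (nat_lit 336) (nat_lit 822010200) (nat_lit 39) (nat_lit 1) (nat_lit 38) (nat_lit 1) (nat_lit 42) (nat_lit 1) (nat_lit 211) (nat_lit 221) (nat_lit 168)))))) (XT.nd (nat_lit 658) (nat_lit 168) (nat_lit 0) (XT.nd (nat_lit 282) (nat_lit 756) (nat_lit 0) (XT.nd (nat_lit 94) (nat_lit 336) (nat_lit 0) (XT.lf (nat_lit 336) (nat_lit 708745346) (nat_lit 0) (nat_lit 1519535108) (nat_lit 252) (nat_lit 1519535108) (nat_lit 39) (nat_lit 1) (nat_lit 35) (nat_lit 1) (nat_lit 38) (nat_lit 1) (nat_lit 212) (nat_lit 221) (nat_lit 167)) (XT.nd (nat_lit 94) (nat_lit 0) (nat_lit 0) (XT.lf (nat_lit 336) (nat_lit 3499064617)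 (nat_lit 0) (nat_lit 100380098) (nat_lit 252) (nat_lit 100380098) (nat_lit 35) (nat_lit 1) (nat_lit 31) (nat_lit 1) (nat_lit 34) (nat_lit 1) (nat_lit 213) (nat_lit 221) (nat_lit 166)) (XT.lf (nat_lit 84) (nat_lit 1274427787) (nat_lit 0) (nat_lit 1102969771) (nat_lit 336) (nat_lit 1274427787) (nat_lit 32) (nat_lit 1) (nat_lit 31) (nat_lit 1) (nat_lit 35) (nat_lit 1) (nat_lit 214) (nat_lit 221) (nat_lit 165)))) (XT.nd (nat_lit 188) (nat_lit 504) (nat_lit 0) (XT.nd (nat_lit 94) (nat_lit 0) (nat_lit 0) (XT.lf (nat_lit 336) (nat_lit 1618204632) (nat_lit 0) (nat_lit 993409594) (nat_lit 252) (nat_lit 993409594) (nat_lit 32) (nat_lit 1) (nat_lit 28) (nat_lit 1) (nat_lit 31) (nat_lit 1) (nat_lit 215) (nat_lit 221) (nat_lit 164)) (XT.lf (nat_lit 84) (nat_lit 350181819) (nat_lit 0) (nat_lit 2858810258) (nat_lit 336) (nat_lit 350181819) (nat_lit 29) (nat_lit 1) (nat_lit 28) (nat_lit 1) (nat_lit 32) (nat_lit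 1) (nat_lit 216) (nat_lit 221) (nat_lit 163))) (XT.nd (nat_lit 94) (nat_lit 252) (nat_lit 0) (XT.lf (nat_lit 84) (nat_lit 1649810854) (nat_lit 0) (nat_lit 214065172) (nat_lit 252) (nat_lit 1649810854) (nat_lit 26) (nat_lit 1) (nat_lit 25) (nat_lit 1) (nat_lit 28) (nat_lit 1) (nat_lit 217) (nat_lit 221) (nat_lit 162)) (XT.lf (nat_lit 336) (nat_lit 2376910021) (nat_lit 0) (nat_lit 546107315) (nat_lit 252) (nat_lit 546107315) (nat_lit 26) (nat_lit 1) (nat_lit 22) (nat_lit 1) (nat_lit 25) (nat_lit 1) (nat_lit 218) (nat_lit 221) (nat_lit 161))))) (XT.nd (nat_lit 31960) (nat_lit 0) (nat_lit 11760) (XT.nd (nat_lit 94) (nat_lit 168) (nat_lit 0) (XT.lf (nat_lit 84) (nat_lit 728995160) (nat_lit 0) (nat_lit 1967152104) (nat_lit 336) (nat_lit 728995160) (nat_lit 23) (nat_lit 1) (nat_lit 22) (nat_lit 1) (nat_lit 26) (nat_lit 1) (nat_lit 219) (nat_lit 221) (nat_lit 160)) (XT.nd (nat_lit 31772) (nat_lit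 0) (nat_lit 11676) (XT.lf (nat_lit 252) (nat_lit 547718385) (nat_lit 0) (nat_lit 1417085369) (nat_lit 168) (nat_lit 1417085369) (nat_lit 23) (nat_lit 1) (nat_lit 20) (nat_lit 1) (nat_lit 22) (nat_lit 1) (nat_lit 220) (nat_lit 221) (nat_lit 159)) (XT.lf (nat_lit 1260) (nat_lit 4808152092) (nat_lit 84) (nat_lit 1847239801) (nat_lit 0) (nat_lit 1847239801) (nat_lit 174) (nat_lit 1) (nat_lit 160) (nat_lit 1) (nat_lit 159) (nat_lit 0) (nat_lit 157) (nat_lit 222) (nat_lit 221)))) (XT.nd (nat_lit 188) (nat_lit 0) (nat_lit 84) (XT.nd (nat_lit 94) (nat_lit 0) (nat_lit 0) (XT.lf (nat_lit 1260) (nat_lit 2325934319) (nat_lit 0) (nat_lit 3706888309) (nat_lit 1176) (nat_lit 2325934319) (nat_lit 175) (nat_lit 1) (nat_lit 160) (nat_lit 1) (nat_lit 174) (nat_lit 1) (nat_lit 158) (nat_lit 222) (nat_lit 220)) (XT.lf (nat_lit 1260) (nat_lit 4458609191) (nat_lit 84) (nat_lit 1879854612) (nat_lit 0) (nat_lit 1879854612)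 (nat_lit 175) (nat_lit 1) (nat_lit 161) (nat_lit 1) (nat_lit 160) (nat_lit 1) (nat_lit 159) (nat_lit 222) (nat_lit 219))) (XT.nd (nat_lit 94) (nat_lit 0) (nat_lit 0) (XT.lf (nat_lit 1260) (nat_lit 2110233923) (nat_lit 0) (nat_lit 3860422417) (nat_lit 1176) (nat_lit 2110233923) (nat_lit 176) (nat_lit 1) (nat_lit 161) (nat_lit 1) (nat_lit 175) (nat_lit 1) (nat_lit 160) (nat_lit 222) (nat_lit 218)) (XT.lf (nat_lit 1260) (nat_lit 3946368263) (nat_lit 84) (nat_lit 2000126437) (nat_lit 0) (nat_lit 2000126437) (nat_lit 176) (nat_lit 1) (nat_lit 162) (nat_lit 1) (nat_lit 161) (nat_lit 1) (nat_lit 161) (nat_lit 222) (nat_lit 217))))))))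
noncomputable def ec22 : XT := (XT.nd (nat_lit 2538) (nat_lit 5292) (nat_lit 0) (XT.nd (nat_lit 1222) (nat_lit 4032) (nat_lit 0) (XT.nd (nat_lit 564) (nat_lit 2184) (nat_lit 0) (XT.nd (nat_lit 282) (nat_lit 0) (nat_lit 84) (XT.nd (nat_lit 94) (nat_lit 0) (nat_lit 0) (XT.lf (nat_lit 1260) (nat_lit 1818013866) (nat_lit 0) (nat_lit 4179325793) (nat_lit 1176) (nat_lit 1818013866) (nat_lit 177) (nat_lit 1) (nat_lit 162) (nat_lit 1) (nat_lit 176) (nat_lit 1) (nat_lit 162) (nat_lit 222) (nat_lit 216)) (XT.nd (nat_lit 94) (nat_lit 0) (nat_lit 84) (XT.lf (nat_lit 1260) (nat_lit 3288534774) (nat_lit 84) (nat_lit 2199189445) (nat_lit 0) (nat_lit 2199189445) (nat_lit 177) (nat_lit 1) (nat_lit 163) (nat_lit 1) (nat_lit 162) (nat_lit 1) (nat_lit 163) (nat_lit 222) (nat_lit 215)) (XT.lf (nat_lit 1260) (nat_lit 1457434495) (nat_lit 0) (nat_lit 4646665742) (nat_lit 1176) (nat_lit 1457434495) (nat_lit 178)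 (nat_lit 1) (nat_lit 163) (nat_lit 1) (nat_lit 177) (nat_lit 1) (nat_lit 164) (nat_lit 222) (nat_lit 214)))) (XT.nd (nat_lit 94) (nat_lit 0) (nat_lit 84) (XT.lf (nat_lit 1260) (nat_lit 2500864230) (nat_lit 84) (nat_lit 2468870005) (nat_lit 0) (nat_lit 2468870005) (nat_lit 178) (nat_lit 1) (nat_lit 164) (nat_lit 1) (nat_lit 163) (nat_lit 1) (nat_lit 165) (nat_lit 222) (nat_lit 213)) (XT.nd (nat_lit 94) (nat_lit 0) (nat_lit 0) (XT.lf (nat_lit 1260) (nat_lit 1036009676) (nat_lit 0) (nat_lit 5246836193) (nat_lit 1176) (nat_lit 1036009676) (nat_lit 179) (nat_lit 1) (nat_lit 164) (nat_lit 1) (nat_lit 178) (nat_lit 1) (nat_lit 166) (nat_lit 222) (nat_lit 212)) (XT.lf (nat_lit 1260) (nat_lit 1597859123) (nat_lit 84) (nat_lit 2801637194) (nat_lit 0) (nat_lit 2801637194) (nat_lit 179) (nat_lit 1) (nat_lit 165) (nat_lit 1) (nat_lit 164) (nat_lit 1) (nat_lit 167) (nat_lit 222) (nat_lit 211))))) (XT.nd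 (nat_lit 282) (nat_lit 2436) (nat_lit 0) (XT.nd (nat_lit 94) (nat_lit 0) (nat_lit 0) (XT.lf (nat_lit 1260) (nat_lit 560653293) (nat_lit 0) (nat_lit 5965462705) (nat_lit 1176) (nat_lit 560653293) (nat_lit 180) (nat_lit 1) (nat_lit 165) (nat_lit 1) (nat_lit 179) (nat_lit 1) (nat_lit 168) (nat_lit 222) (nat_lit 210)) (XT.nd (nat_lit 94) (nat_lit 0) (nat_lit 84) (XT.lf (nat_lit 1260) (nat_lit 592859193) (nat_lit 84) (nat_lit 3190556704) (nat_lit 0) (nat_lit 3190556704) (nat_lit 180) (nat_lit 1) (nat_lit 166) (nat_lit 1) (nat_lit 165) (nat_lit 1) (nat_lit 169) (nat_lit 222) (nat_lit 209)) (XT.lf (nat_lit 84) (nat_lit 37722537) (nat_lit 0) (nat_lit 6789314016) (nat_lit 1176) (nat_lit 37722537) (nat_lit 167) (nat_lit 1) (nat_lit 166) (nat_lit 1) (nat_lit 180) (nat_lit 1) (nat_lit 170) (nat_lit 222) (nat_lit 208)))) (XT.nd (nat_lit 188) (nat_lit 588) (nat_lit 0) (XT.nd (nat_lit 94) (nat_lit 672) (nat_lit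 0) (XT.lf (nat_lit 84) (nat_lit 3132965342) (nat_lit 0) (nat_lit 490494908) (nat_lit 1260) (nat_lit 3132965342) (nat_lit 152) (nat_lit 1) (nat_lit 151) (nat_lit 1) (nat_lit 166) (nat_lit 1) (nat_lit 171) (nat_lit 222) (nat_lit 207)) (XT.lf (nat_lit 756) (nat_lit 5609640607) (nat_lit 0) (nat_lit 520934325) (nat_lit 672) (nat_lit 520934325) (nat_lit 152) (nat_lit 1) (nat_lit 143) (nat_lit 1) (nat_lit 151) (nat_lit 1) (nat_lit 172) (nat_lit 222) (nat_lit 206))) (XT.nd (nat_lit 94) (nat_lit 588) (nat_lit 0) (XT.lf (nat_lit 84) (nat_lit 2455426418) (nat_lit 0) (nat_lit 1637100359) (nat_lit 756) (nat_lit 2455426418) (nat_lit 144) (nat_lit 1) (nat_lit 143) (nat_lit 1) (nat_lit 152) (nat_lit 1) (nat_lit 173) (nat_lit 222) (nat_lit 205)) (XT.lf (nat_lit 672) (nat_lit 4217031559) (nat_lit 0) (nat_lit 1115118160) (nat_lit 588) (nat_lit 1115118160) (nat_lit 144) (nat_lit 1) (nat_lit 136) (nat_lit 1) (nat_lit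 143) (nat_lit 1) (nat_lit 174) (nat_lit 222) (nat_lit 204)))))) (XT.nd (nat_lit 658) (nat_lit 1848) (nat_lit 0) (XT.nd (nat_lit 282) (nat_lit 1596) (nat_lit 0) (XT.nd (nat_lit 94) (nat_lit 588) (nat_lit 0) (XT.lf (nat_lit 84) (nat_lit 1749020750) (nat_lit 0) (nat_lit 2850301343) (nat_lit 672) (nat_lit 1749020750) (nat_lit 137) (nat_lit 1) (nat_lit 136) (nat_lit 1) (nat_lit 144) (nat_lit 1) (nat_lit 175) (nat_lit 222) (nat_lit 203)) (XT.nd (nat_lit 94) (nat_lit 0) (nat_lit 0) (XT.lf (nat_lit 672) (nat_lit 2770869825) (nat_lit 0) (nat_lit 1740397199) (nat_lit 588) (nat_lit 1740397199) (nat_lit 137) (nat_lit 1) (nat_lit 129) (nat_lit 1) (nat_lit 136) (nat_lit 1) (nat_lit 176) (nat_lit 222) (nat_lit 202)) (XT.lf (nat_lit 84) (nat_lit 1018167238) (nat_lit 0) (nat_lit 4120839882) (nat_lit 672) (nat_lit 1018167238) (nat_lit 130) (nat_lit 1) (nat_lit 129) (nat_lit 1) (nat_lit 137) (nat_lit 1) (nat_lit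 177) (nat_lit 222) (nat_lit 201)))) (XT.nd (nat_lit 188) (nat_lit 1092) (nat_lit 0) (XT.nd (nat_lit 94) (nat_lit 0) (nat_lit 0) (XT.lf (nat_lit 588) (nat_lit 1279658230) (nat_lit 0) (nat_lit 2392316435) (nat_lit 504) (nat_lit 2392316435) (nat_lit 130) (nat_lit 1) (nat_lit 123) (nat_lit 1) (nat_lit 129) (nat_lit 1) (nat_lit 178) (nat_lit 222) (nat_lit 200)) (XT.lf (nat_lit 84) (nat_lit 266906444) (nat_lit 0) (nat_lit 5440236895) (nat_lit 588) (nat_lit 266906444) (nat_lit 124) (nat_lit 1) (nat_lit 123) (nat_lit 1) (nat_lit 130) (nat_lit 1) (nat_lit 179) (nat_lit 222) (nat_lit 199))) (XT.nd (nat_lit 94) (nat_lit 504) (nat_lit 0) (XT.lf (nat_lit 84) (nat_lit 2820737465) (nat_lit 0) (nat_lit 243190767) (nat_lit 588) (nat_lit 2820737465) (nat_lit 117) (nat_lit 1) (nat_lit 116) (nat_lit 1) (nat_lit 123) (nat_lit 1) (nat_lit 180) (nat_lit 222) (nat_lit 198)) (XT.lf (nat_lit 588) (nat_lit 4807088164)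 (nat_lit 0) (nat_lit 495358850) (nat_lit 504) (nat_lit 495358850) (nat_lit 117) (nat_lit 1) (nat_lit 110) (nat_lit 1) (nat_lit 116) (nat_lit 1) (nat_lit 181) (nat_lit 222) (nat_lit 197))))) (XT.nd (nat_lit 282) (nat_lit 1344) (nat_lit 0) (XT.nd (nat_lit 94) (nat_lit 504) (nat_lit 0) (XT.lf (nat_lit 84) (nat_lit 1972740715) (nat_lit 0) (nat_lit 1766527242) (nat_lit 588) (nat_lit 1972740715) (nat_lit 111) (nat_lit 1) (nat_lit 110) (nat_lit 1) (nat_lit 117) (nat_lit 1) (nat_lit 182) (nat_lit 222) (nat_lit 196)) (XT.nd (nat_lit 94) (nat_lit 0) (nat_lit 0) (XT.lf (nat_lit 588) (nat_lit 3092871597) (nat_lit 0) (nat_lit 1267780096) (nat_lit 504) (nat_lit 1267780096) (nat_lit 111) (nat_lit 1) (nat_lit 104) (nat_lit 1) (nat_lit 110) (nat_lit 1) (nat_lit 183) (nat_lit 222) (nat_lit 195)) (XT.lf (nat_lit 84) (nat_lit 1116713298) (nat_lit 0) (nat_lit 3313048436) (nat_lit 588) (nat_lit 1116713298) (nat_lit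 105) (nat_lit 1) (nat_lit 104) (nat_lit 1) (nat_lit 111) (nat_lit 1) (nat_lit 184) (nat_lit 222) (nat_lit 194)))) (XT.nd (nat_lit 188) (nat_lit 924) (nat_lit 0) (XT.nd (nat_lit 94) (nat_lit 0) (nat_lit 0) (XT.lf (nat_lit 504) (nat_lit 1365274045) (nat_lit 0) (nat_lit 2050369220) (nat_lit 420) (nat_lit 2050369220) (nat_lit 105) (nat_lit 1) (nat_lit 99) (nat_lit 1) (nat_lit 104) (nat_lit 1) (nat_lit 185) (nat_lit 222) (nat_lit 193)) (XT.lf (nat_lit 84) (nat_lit 255367398) (nat_lit 0) (nat_lit 4877003672) (nat_lit 504) (nat_lit 255367398) (nat_lit 100) (nat_lit 1) (nat_lit 99) (nat_lit 1) (nat_lit 105) (nat_lit 1) (nat_lit 186) (nat_lit 222) (nat_lit 192))) (XT.nd (nat_lit 94) (nat_lit 420) (nat_lit 0) (XT.lf (nat_lit 84) (nat_lit 2473989837) (nat_lit 0) (nat_lit 362107007) (nat_lit 504) (nat_lit 2473989837) (nat_lit 94) (nat_lit 1) (nat_lit 93) (nat_lit 1) (nat_lit 99) (nat_lit 1) (nat_lit 187)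 (nat_lit 222) (nat_lit 191)) (XT.lf (nat_lit 504) (nat_lit 4030738783) (nat_lit 0) (nat_lit 601897634) (nat_lit 420) (nat_lit 601897634) (nat_lit 94) (nat_lit 1) (nat_lit 88) (nat_lit 1) (nat_lit 93) (nat_lit 1) (nat_lit 188) (nat_lit 222) (nat_lit 190))))))) (XT.nd (nat_lit 1222) (nat_lit 2604) (nat_lit 0) (XT.nd (nat_lit 564) (nat_lit 1428) (nat_lit 0) (XT.nd (nat_lit 282) (nat_lit 840) (nat_lit 0) (XT.nd (nat_lit 94) (nat_lit 420) (nat_lit 0) (XT.lf (nat_lit 84) (nat_lit 1549016357) (nat_lit 0) (nat_lit 2061931739) (nat_lit 504) (nat_lit 1549016357) (nat_lit 89) (nat_lit 1) (nat_lit 88) (nat_lit 1) (nat_lit 94) (nat_lit 1) (nat_lit 189) (nat_lit 222) (nat_lit 189)) (XT.nd (nat_lit 94) (nat_lit 0) (nat_lit 0) (XT.lf (nat_lit 504) (nat_lit 2173360067) (nat_lit 0) (nat_lit 1456880765) (nat_lit 420) (nat_lit 1456880765) (nat_lit 89) (nat_lit 1) (nat_lit 83) (nat_lit 1) (nat_lit 88) (nat_lit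 1) (nat_lit 190) (nat_lit 222) (nat_lit 188)) (XT.lf (nat_lit 84) (nat_lit 627446540) (nat_lit 0) (nat_lit 3761001388) (nat_lit 504) (nat_lit 627446540) (nat_lit 84) (nat_lit 1) (nat_lit 83) (nat_lit 1) (nat_lit 89) (nat_lit 1) (nat_lit 191) (nat_lit 222) (nat_lit 187)))) (XT.nd (nat_lit 94) (nat_lit 504) (nat_lit 0) (XT.lf (nat_lit 420) (nat_lit 324607499) (nat_lit 0) (nat_lit 2310509256) (nat_lit 336) (nat_lit 2310509256) (nat_lit 84) (nat_lit 1) (nat_lit 79) (nat_lit 1) (nat_lit 83) (nat_lit 1) (nat_lit 192) (nat_lit 222) (nat_lit 186)) (XT.nd (nat_lit 94) (nat_lit 0) (nat_lit 0) (XT.lf (nat_lit 504) (nat_lit 4305780338) (nat_lit 0) (nat_lit 285686706) (nat_lit 420) (nat_lit 285686706) (nat_lit 79) (nat_lit 1) (nat_lit 73) (nat_lit 1) (nat_lit 78) (nat_lit 1) (nat_lit 193) (nat_lit 222) (nat_lit 185)) (XT.lf (nat_lit 84) (nat_lit 1665637880) (nat_lit 0) (nat_lit 1477919762) (nat_lit 504)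 (nat_lit 1665637880) (nat_lit 74) (nat_lit 1) (nat_lit 73) (nat_lit 1) (nat_lit 79) (nat_lit 1) (nat_lit 194) (nat_lit 222) (nat_lit 184))))) (XT.nd (nat_lit 282) (nat_lit 756) (nat_lit 0) (XT.nd (nat_lit 94) (nat_lit 336) (nat_lit 0) (XT.lf (nat_lit 420) (nat_lit 2372876194) (nat_lit 0) (nat_lit 1185044711) (nat_lit 336) (nat_lit 1185044711) (nat_lit 74) (nat_lit 1) (nat_lit 69) (nat_lit 1) (nat_lit 73) (nat_lit 1) (nat_lit 195) (nat_lit 222) (nat_lit 183)) (XT.nd (nat_lit 94) (nat_lit 336) (nat_lit 0) (XT.lf (nat_lit 84) (nat_lit 709760985) (nat_lit 0) (nat_lit 3258528035) (nat_lit 420) (nat_lit 709760985) (nat_lit 70) (nat_lit 1) (nat_lit 69) (nat_lit 1) (nat_lit 74) (nat_lit 1) (nat_lit 196) (nat_lit 222) (nat_lit 182)) (XT.lf (nat_lit 420) (nat_lit 461257437) (nat_lit 0) (nat_lit 2076407957) (nat_lit 336) (nat_lit 2076407957) (nat_lit 70) (nat_lit 1) (nat_lit 65) (nat_lit 1) (nat_lit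 69) (nat_lit 1) (nat_lit 197) (nat_lit 222) (nat_lit 181)))) (XT.nd (nat_lit 188) (nat_lit 336) (nat_lit 0) (XT.nd (nat_lit 94) (nat_lit 0) (nat_lit 0) (XT.lf (nat_lit 420) (nat_lit 4087147717) (nat_lit 0) (nat_lit 232281942) (nat_lit 336) (nat_lit 232281942) (nat_lit 65) (nat_lit 1) (nat_lit 60) (nat_lit 1) (nat_lit 64) (nat_lit 1) (nat_lit 198) (nat_lit 222) (nat_lit 180)) (XT.lf (nat_lit 84) (nat_lit 1547589585) (nat_lit 0) (nat_lit 1394511851) (nat_lit 420) (nat_lit 1547589585) (nat_lit 61) (nat_lit 1) (nat_lit 60) (nat_lit 1) (nat_lit 65) (nat_lit 1) (nat_lit 199) (nat_lit 222) (nat_lit 179))) (XT.nd (nat_lit 94) (nat_lit 0) (nat_lit 0) (XT.lf (nat_lit 420) (nat_lit 2120857112) (nat_lit 0) (nat_lit 1154186509) (nat_lit 336) (nat_lit 1154186509) (nat_lit 61) (nat_lit 1) (nat_lit 56) (nat_lit 1) (nat_lit 60) (nat_lit 1) (nat_lit 200) (nat_lit 222) (nat_lit 178)) (XT.lf (nat_lit 84) (nat_lit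 577512576) (nat_lit 0) (nat_lit 3214961577) (nat_lit 420) (nat_lit 577512576) (nat_lit 57) (nat_lit 1) (nat_lit 56) (nat_lit 1) (nat_lit 61) (nat_lit 1) (nat_lit 201) (nat_lit 222) (nat_lit 177)))))) (XT.nd (nat_lit 658) (nat_lit 1092) (nat_lit 0) (XT.nd (nat_lit 282) (nat_lit 840) (nat_lit 0) (XT.nd (nat_lit 94) (nat_lit 420) (nat_lit 0) (XT.lf (nat_lit 336) (nat_lit 185201519) (nat_lit 0) (nat_lit 2063152873) (nat_lit 252) (nat_lit 2063152873) (nat_lit 57) (nat_lit 1) (nat_lit 53) (nat_lit 1) (nat_lit 56) (nat_lit 1) (nat_lit 202) (nat_lit 222) (nat_lit 176)) (XT.nd (nat_lit 94) (nat_lit 0) (nat_lit 0) (XT.lf (nat_lit 420) (nat_lit 3508975368) (nat_lit 0) (nat_lit 372683127) (nat_lit 336) (nat_lit 372683127) (nat_lit 53) (nat_lit 1) (nat_lit 48) (nat_lit 1) (nat_lit 52) (nat_lit 1) (nat_lit 203) (nat_lit 222) (nat_lit 175)) (XT.lf (nat_lit 84) (nat_lit 1259082571) (nat_lit 0) (nat_lit 1679505778)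 (nat_lit 420) (nat_lit 1259082571) (nat_lit 49) (nat_lit 1) (nat_lit 48) (nat_lit 1) (nat_lit 53) (nat_lit 1) (nat_lit 204) (nat_lit 222) (nat_lit 174)))) (XT.nd (nat_lit 188) (nat_lit 588) (nat_lit 0) (XT.nd (nat_lit 94) (nat_lit 0) (nat_lit 0) (XT.lf (nat_lit 336) (nat_lit 1541713117) (nat_lit 0) (nat_lit 1300278002) (nat_lit 252) (nat_lit 1300278002) (nat_lit 49) (nat_lit 1) (nat_lit 45) (nat_lit 1) (nat_lit 48) (nat_lit 1) (nat_lit 205) (nat_lit 222) (nat_lit 173)) (XT.lf (nat_lit 84) (nat_lit 290250990) (nat_lit 0) (nat_lit 3507637603) (nat_lit 336) (nat_lit 290250990) (nat_lit 46) (nat_lit 1) (nat_lit 45) (nat_lit 1) (nat_lit 49) (nat_lit 1) (nat_lit 206) (nat_lit 222) (nat_lit 172))) (XT.nd (nat_lit 94) (nat_lit 252) (nat_lit 0) (XT.lf (nat_lit 84) (nat_lit 1827472528) (nat_lit 0) (nat_lit 379391773) (nat_lit 336) (nat_lit 1827472528) (nat_lit 42) (nat_lit 1) (nat_lit 41) (nat_lit 1)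 (nat_lit 45) (nat_lit 1) (nat_lit 207) (nat_lit 222) (nat_lit 171)) (XT.lf (nat_lit 336) (nat_lit 2677157095) (nat_lit 0) (nat_lit 652305049) (nat_lit 252) (nat_lit 652305049) (nat_lit 42) (nat_lit 1) (nat_lit 38) (nat_lit 1) (nat_lit 41) (nat_lit 1) (nat_lit 208) (nat_lit 222) (nat_lit 170))))) (XT.nd (nat_lit 282) (nat_lit 504) (nat_lit 0) (XT.nd (nat_lit 94) (nat_lit 588) (nat_lit 0) (XT.lf (nat_lit 84) (nat_lit 850780557) (nat_lit 0) (nat_lit 2228370133) (nat_lit 336) (nat_lit 850780557) (nat_lit 39) (nat_lit 1) (nat_lit 38) (nat_lit 1) (nat_lit 42) (nat_lit 1) (nat_lit 209) (nat_lit 222) (nat_lit 169)) (XT.nd (nat_lit 94) (nat_lit 336) (nat_lit 0) (XT.lf (nat_lit 336) (nat_lit 733551433) (nat_lit 0) (nat_lit 1572718837) (nat_lit 252) (nat_lit 1572718837) (nat_lit 39) (nat_lit 1) (nat_lit 35) (nat_lit 1) (nat_lit 38) (nat_lit 1) (nat_lit 210) (nat_lit 222) (nat_lit 168)) (XT.lf (nat_lit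 336) (nat_lit 3621531879) (nat_lit 0) (nat_lit 103893402) (nat_lit 252) (nat_lit 103893402) (nat_lit 35) (nat_lit 1) (nat_lit 31) (nat_lit 1) (nat_lit 34) (nat_lit 1) (nat_lit 211) (nat_lit 222) (nat_lit 167)))) (XT.nd (nat_lit 188) (nat_lit 252) (nat_lit 0) (XT.nd (nat_lit 94) (nat_lit 252) (nat_lit 0) (XT.lf (nat_lit 84) (nat_lit 1319032760) (nat_lit 0) (nat_lit 1141573713) (nat_lit 336) (nat_lit 1319032760) (nat_lit 32) (nat_lit 1) (nat_lit 31) (nat_lit 1) (nat_lit 35) (nat_lit 1) (nat_lit 212) (nat_lit 222) (nat_lit 166)) (XT.lf (nat_lit 336) (nat_lit 1674841794) (nat_lit 0) (nat_lit 1028178930) (nat_lit 252) (nat_lit 1028178930) (nat_lit 32) (nat_lit 1) (nat_lit 28) (nat_lit 1) (nat_lit 31) (nat_lit 1) (nat_lit 213) (nat_lit 222) (nat_lit 165))) (XT.nd (nat_lit 94) (nat_lit 252) (nat_lit 0) (XT.lf (nat_lit 84) (nat_lit 362438182) (nat_lit 0) (nat_lit 2958868617) (nat_lit 336) (nat_lit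 362438182) (nat_lit 29) (nat_lit 1) (nat_lit 28) (nat_lit 1) (nat_lit 32) (nat_lit 1) (nat_lit 214) (nat_lit 222) (nat_lit 164)) (XT.lf (nat_lit 84) (nat_lit 1707554233) (nat_lit 0) (nat_lit 221557453) (nat_lit 252) (nat_lit 1707554233) (nat_lit 26) (nat_lit 1) (nat_lit 25) (nat_lit 1) (nat_lit 28) (nat_lit 1) (nat_lit 215) (nat_lit 222) (nat_lit 163))))))))
noncomputable def ec23 : XT := (XT.nd (nat_lit 34122) (nat_lit 0) (nat_lit 2100) (XT.nd (nat_lit 32806) (nat_lit 0) (nat_lit 8988) (XT.nd (nat_lit 32148) (nat_lit 0) (nat_lit 12096) (XT.nd (nat_lit 282) (nat_lit 336) (nat_lit 0) (XT.nd (nat_lit 94) (nat_lit 168) (nat_lit 0) (XT.lf (nat_lit 336) (nat_lit 2460101872) (nat_lit 0) (nat_lit 565221072) (nat_lit 252) (nat_lit 565221072) (nat_lit 26) (nat_lit 1) (nat_lit 22) (nat_lit 1) (nat_lit 25) (nat_lit 1) (nat_lit 216) (nat_lit 222) (nat_lit 162)) (XT.nd (nat_lit 94) (nat_lit 168) (nat_lit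 0) (XT.lf (nat_lit 84) (nat_lit 754509991) (nat_lit 0) (nat_lit 2036002427) (nat_lit 336) (nat_lit 754509991) (nat_lit 23) (nat_lit 1) (nat_lit 22) (nat_lit 1) (nat_lit 26) (nat_lit 1) (nat_lit 217) (nat_lit 222) (nat_lit 161)) (XT.lf (nat_lit 252) (nat_lit 566888528) (nat_lit 0) (nat_lit 1466683357) (nat_lit 168) (nat_lit 1466683357) (nat_lit 23) (nat_lit 1) (nat_lit 20) (nat_lit 1) (nat_lit 22) (nat_lit 1) (nat_lit 218) (nat_lit 222) (nat_lit 160)))) (XT.nd (nat_lit 31678) (nat_lit 0) (nat_lit 12012) (XT.lf (nat_lit 336) (nat_lit 3110574827) (nat_lit 0) (nat_lit 172965755) (nat_lit 252) (nat_lit 172965755) (nat_lit 20) (nat_lit 1) (nat_lit 16) (nat_lit 1) (nat_lit 19) (nat_lit 1) (nat_lit 219) (nat_lit 222) (nat_lit 159)) (XT.nd (nat_lit 94) (nat_lit 0) (nat_lit 84) (XT.lf (nat_lit 1260) (nat_lit 4976437415) (nat_lit 84) (nat_lit 1911893194) (nat_lit 0) (nat_lit 1911893194) (nat_lit 174)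 (nat_lit 1) (nat_lit 160) (nat_lit 1) (nat_lit 159) (nat_lit 0) (nat_lit 155) (nat_lit 223) (nat_lit 222)) (XT.lf (nat_lit 1260) (nat_lit 2407342020) (nat_lit 0) (nat_lit 3836629400) (nat_lit 1176) (nat_lit 2407342020) (nat_lit 175) (nat_lit 1) (nat_lit 160) (nat_lit 1) (nat_lit 174) (nat_lit 1) (nat_lit 156) (nat_lit 223) (nat_lit 221))))) (XT.nd (nat_lit 282) (nat_lit 0) (nat_lit 168) (XT.nd (nat_lit 94) (nat_lit 0) (nat_lit 84) (XT.lf (nat_lit 1260) (nat_lit 4614660512) (nat_lit 84) (nat_lit 1945649523) (nat_lit 0) (nat_lit 1945649523) (nat_lit 175) (nat_lit 1) (nat_lit 161) (nat_lit 1) (nat_lit 160) (nat_lit 1) (nat_lit 157) (nat_lit 223) (nat_lit 220)) (XT.nd (nat_lit 94) (nat_lit 0) (nat_lit 0) (XT.lf (nat_lit 1260) (nat_lit 2184092111) (nat_lit 0) (nat_lit 3995537202) (nat_lit 1176) (nat_lit 2184092111) (nat_lit 176) (nat_lit 1) (nat_lit 161) (nat_lit 1) (nat_lit 175) (nat_lit 1) (nat_lit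 158) (nat_lit 223) (nat_lit 219)) (XT.lf (nat_lit 1260) (nat_lit 4084491152) (nat_lit 84) (nat_lit 2070130863) (nat_lit 0) (nat_lit 2070130863) (nat_lit 176) (nat_lit 1) (nat_lit 162) (nat_lit 1) (nat_lit 161) (nat_lit 1) (nat_lit 159) (nat_lit 223) (nat_lit 218)))) (XT.nd (nat_lit 188) (nat_lit 0) (nat_lit 84) (XT.nd (nat_lit 94) (nat_lit 0) (nat_lit 0) (XT.lf (nat_lit 1260) (nat_lit 1881644352) (nat_lit 0) (nat_lit 4325602196) (nat_lit 1176) (nat_lit 1881644352) (nat_lit 177) (nat_lit 1) (nat_lit 162) (nat_lit 1) (nat_lit 176) (nat_lit 1) (nat_lit 160) (nat_lit 223) (nat_lit 217)) (XT.lf (nat_lit 1260) (nat_lit 3403633491) (nat_lit 84) (nat_lit 2276161075) (nat_lit 0) (nat_lit 2276161075) (nat_lit 177) (nat_lit 1) (nat_lit 163) (nat_lit 1) (nat_lit 162) (nat_lit 1) (nat_lit 161) (nat_lit 223) (nat_lit 216))) (XT.nd (nat_lit 94) (nat_lit 0) (nat_lit 0) (XT.lf (nat_lit 1260) (nat_lit 1508444702)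 (nat_lit 0) (nat_lit 4809299043) (nat_lit 1176) (nat_lit 1508444702) (nat_lit 178) (nat_lit 1) (nat_lit 163) (nat_lit 1) (nat_lit 177) (nat_lit 1) (nat_lit 162) (nat_lit 223) (nat_lit 215)) (XT.lf (nat_lit 1260) (nat_lit 2588394478) (nat_lit 84) (nat_lit 2555280455) (nat_lit 0) (nat_lit 2555280455) (nat_lit 178) (nat_lit 1) (nat_lit 164) (nat_lit 1) (nat_lit 163) (nat_lit 1) (nat_lit 163) (nat_lit 223) (nat_lit 214)))))) (XT.nd (nat_lit 658) (nat_lit 1680) (nat_lit 0) (XT.nd (nat_lit 282) (nat_lit 1764) (nat_lit 0) (XT.nd (nat_lit 94) (nat_lit 0) (nat_lit 0) (XT.lf (nat_lit 1260) (nat_lit 1072270014) (nat_lit 0) (nat_lit 5430475459) (nat_lit 1176) (nat_lit 1072270014) (nat_lit 179) (nat_lit 1) (nat_lit 164) (nat_lit 1) (nat_lit 178) (nat_lit 1) (nat_lit 164) (nat_lit 223) (nat_lit 213)) (XT.nd (nat_lit 94) (nat_lit 0) (nat_lit 84) (XT.lf (nat_lit 1260) (nat_lit 1653784193) (nat_lit 84) (nat_lit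 2899694496) (nat_lit 0) (nat_lit 2899694496) (nat_lit 179) (nat_lit 1) (nat_lit 165) (nat_lit 1) (nat_lit 164) (nat_lit 1) (nat_lit 165) (nat_lit 223) (nat_lit 212)) (XT.lf (nat_lit 1260) (nat_lit 580276159) (nat_lit 0) (nat_lit 6174253899) (nat_lit 1176) (nat_lit 580276159) (nat_lit 180) (nat_lit 1) (nat_lit 165) (nat_lit 1) (nat_lit 179) (nat_lit 1) (nat_lit 166) (nat_lit 223) (nat_lit 211)))) (XT.nd (nat_lit 188) (nat_lit 1848) (nat_lit 0) (XT.nd (nat_lit 94) (nat_lit 0) (nat_lit 84) (XT.lf (nat_lit 1260) (nat_lit 613609265) (nat_lit 84) (nat_lit 3302226188) (nat_lit 0) (nat_lit 3302226188) (nat_lit 180) (nat_lit 1) (nat_lit 166) (nat_lit 1) (nat_lit 165) (nat_lit 1) (nat_lit 167) (nat_lit 223) (nat_lit 210)) (XT.lf (nat_lit 84) (nat_lit 39042826) (nat_lit 0) (nat_lit 7026940006) (nat_lit 1176) (nat_lit 39042826) (nat_lit 167) (nat_lit 1) (nat_lit 166) (nat_lit 1) (nat_lit 180) (nat_lit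 1) (nat_lit 168) (nat_lit 223) (nat_lit 209))) (XT.nd (nat_lit 94) (nat_lit 672) (nat_lit 0) (XT.lf (nat_lit 84) (nat_lit 3242619129) (nat_lit 0) (nat_lit 507662230) (nat_lit 1260) (nat_lit 3242619129) (nat_lit 152) (nat_lit 1) (nat_lit 151) (nat_lit 1) (nat_lit 166) (nat_lit 1) (nat_lit 169) (nat_lit 223) (nat_lit 208)) (XT.lf (nat_lit 756) (nat_lit 5805978028) (nat_lit 0) (nat_lit 539167026) (nat_lit 672) (nat_lit 539167026) (nat_lit 152) (nat_lit 1) (nat_lit 143) (nat_lit 1) (nat_lit 151) (nat_lit 1) (nat_lit 170) (nat_lit 223) (nat_lit 207))))) (XT.nd (nat_lit 282) (nat_lit 1092) (nat_lit 0) (XT.nd (nat_lit 94) (nat_lit 588) (nat_lit 0) (XT.lf (nat_lit 84) (nat_lit 2541366342) (nat_lit 0) (nat_lit 1694398872) (nat_lit 756) (nat_lit 2541366342) (nat_lit 144) (nat_lit 1) (nat_lit 143) (nat_lit 1) (nat_lit 152) (nat_lit 1) (nat_lit 171) (nat_lit 223) (nat_lit 206)) (XT.nd (nat_lit 94) (nat_lit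 0) (nat_lit 0) (XT.lf (nat_lit 672) (nat_lit 4364627663) (nat_lit 0) (nat_lit 1154147296) (nat_lit 588) (nat_lit 1154147296) (nat_lit 144) (nat_lit 1) (nat_lit 136) (nat_lit 1) (nat_lit 143) (nat_lit 1) (nat_lit 172) (nat_lit 223) (nat_lit 205)) (XT.lf (nat_lit 84) (nat_lit 1810236477) (nat_lit 0) (nat_lit 2950061890) (nat_lit 672) (nat_lit 1810236477) (nat_lit 137) (nat_lit 1) (nat_lit 136) (nat_lit 1) (nat_lit 144) (nat_lit 1) (nat_lit 173) (nat_lit 223) (nat_lit 204)))) (XT.nd (nat_lit 188) (nat_lit 504) (nat_lit 0) (XT.nd (nat_lit 94) (nat_lit 0) (nat_lit 0) (XT.lf (nat_lit 672) (nat_lit 2867850268) (nat_lit 0) (nat_lit 1801311101) (nat_lit 588) (nat_lit 1801311101) (nat_lit 137) (nat_lit 1) (nat_lit 129) (nat_lit 1) (nat_lit 136) (nat_lit 1) (nat_lit 174) (nat_lit 223) (nat_lit 203)) (XT.lf (nat_lit 84) (nat_lit 1053803092) (nat_lit 0) (nat_lit 4265069278) (nat_lit 672) (nat_lit 1053803092)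 (nat_lit 130) (nat_lit 1) (nat_lit 129) (nat_lit 1) (nat_lit 137) (nat_lit 1) (nat_lit 175) (nat_lit 223) (nat_lit 202))) (XT.nd (nat_lit 94) (nat_lit 0) (nat_lit 0) (XT.lf (nat_lit 588) (nat_lit 1324446268) (nat_lit 0) (nat_lit 2476047510) (nat_lit 504) (nat_lit 2476047510) (nat_lit 130) (nat_lit 1) (nat_lit 123) (nat_lit 1) (nat_lit 129) (nat_lit 1) (nat_lit 176) (nat_lit 223) (nat_lit 201)) (XT.lf (nat_lit 84) (nat_lit 276248170) (nat_lit 0) (nat_lit 5630645186) (nat_lit 588) (nat_lit 276248170) (nat_lit 124) (nat_lit 1) (nat_lit 123) (nat_lit 1) (nat_lit 130) (nat_lit 1) (nat_lit 177) (nat_lit 223) (nat_lit 200))))))) (XT.nd (nat_lit 1316) (nat_lit 2688) (nat_lit 0) (XT.nd (nat_lit 658) (nat_lit 2184) (nat_lit 0) (XT.nd (nat_lit 282) (nat_lit 924) (nat_lit 0) (XT.nd (nat_lit 94) (nat_lit 504) (nat_lit 0) (XT.lf (nat_lit 84) (nat_lit 2919463277) (nat_lit 0) (nat_lit 251702444) (nat_lit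 588) (nat_lit 2919463277) (nat_lit 117) (nat_lit 1) (nat_lit 116) (nat_lit 1) (nat_lit 123) (nat_lit 1) (nat_lit 178) (nat_lit 223) (nat_lit 199)) (XT.nd (nat_lit 94) (nat_lit 0) (nat_lit 0) (XT.lf (nat_lit 588) (nat_lit 4975336249) (nat_lit 0) (nat_lit 512696410) (nat_lit 504) (nat_lit 512696410) (nat_lit 117) (nat_lit 1) (nat_lit 110) (nat_lit 1) (nat_lit 116) (nat_lit 1) (nat_lit 179) (nat_lit 223) (nat_lit 198)) (XT.lf (nat_lit 84) (nat_lit 2041786641) (nat_lit 0) (nat_lit 1828355695) (nat_lit 588) (nat_lit 2041786641) (nat_lit 111) (nat_lit 1) (nat_lit 110) (nat_lit 1) (nat_lit 117) (nat_lit 1) (nat_lit 180) (nat_lit 223) (nat_lit 197)))) (XT.nd (nat_lit 188) (nat_lit 420) (nat_lit 0) (XT.nd (nat_lit 94) (nat_lit 0) (nat_lit 0) (XT.lf (nat_lit 588) (nat_lit 3201122103) (nat_lit 0) (nat_lit 1312152399) (nat_lit 504) (nat_lit 1312152399) (nat_lit 111) (nat_lit 1) (nat_lit 104) (nat_lit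 1) (nat_lit 110) (nat_lit 1) (nat_lit 181) (nat_lit 223) (nat_lit 196)) (XT.lf (nat_lit 84) (nat_lit 1155798264) (nat_lit 0) (nat_lit 3429005131) (nat_lit 588) (nat_lit 1155798264) (nat_lit 105) (nat_lit 1) (nat_lit 104) (nat_lit 1) (nat_lit 111) (nat_lit 1) (nat_lit 182) (nat_lit 223) (nat_lit 195))) (XT.nd (nat_lit 94) (nat_lit 0) (nat_lit 0) (XT.lf (nat_lit 504) (nat_lit 1413058636) (nat_lit 0) (nat_lit 2122132142) (nat_lit 420) (nat_lit 2122132142) (nat_lit 105) (nat_lit 1) (nat_lit 99) (nat_lit 1) (nat_lit 104) (nat_lit 1) (nat_lit 183) (nat_lit 223) (nat_lit 194)) (XT.lf (nat_lit 84) (nat_lit 264305257) (nat_lit 0) (nat_lit 5047698801) (nat_lit 504) (nat_lit 264305257) (nat_lit 100) (nat_lit 1) (nat_lit 99) (nat_lit 1) (nat_lit 105) (nat_lit 1) (nat_lit 184) (nat_lit 223) (nat_lit 193))))) (XT.nd (nat_lit 282) (nat_lit 1260) (nat_lit 0) (XT.nd (nat_lit 94) (nat_lit 420) (nat_lit 0) (XT.lf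 (nat_lit 84) (nat_lit 2560579482) (nat_lit 0) (nat_lit 374780753) (nat_lit 504) (nat_lit 2560579482) (nat_lit 94) (nat_lit 1) (nat_lit 93) (nat_lit 1) (nat_lit 99) (nat_lit 1) (nat_lit 185) (nat_lit 223) (nat_lit 192)) (XT.nd (nat_lit 94) (nat_lit 0) (nat_lit 0) (XT.lf (nat_lit 504) (nat_lit 4171814641) (nat_lit 0) (nat_lit 622964051) (nat_lit 420) (nat_lit 622964051) (nat_lit 94) (nat_lit 1) (nat_lit 88) (nat_lit 1) (nat_lit 93) (nat_lit 1) (nat_lit 186) (nat_lit 223) (nat_lit 191)) (XT.lf (nat_lit 84) (nat_lit 1603231930) (nat_lit 0) (nat_lit 2134099349) (nat_lit 504) (nat_lit 1603231930) (nat_lit 89) (nat_lit 1) (nat_lit 88) (nat_lit 1) (nat_lit 94) (nat_lit 1) (nat_lit 187) (nat_lit 223) (nat_lit 190)))) (XT.nd (nat_lit 188) (nat_lit 840) (nat_lit 0) (XT.nd (nat_lit 94) (nat_lit 0) (nat_lit 0) (XT.lf (nat_lit 504) (nat_lit 2249427669) (nat_lit 0) (nat_lit 1507871592) (nat_lit 420) (nat_lit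 1507871592) (nat_lit 89) (nat_lit 1) (nat_lit 83) (nat_lit 1) (nat_lit 88) (nat_lit 1) (nat_lit 188) (nat_lit 223) (nat_lit 189)) (XT.lf (nat_lit 84) (nat_lit 649407169) (nat_lit 0) (nat_lit 3892636436) (nat_lit 504) (nat_lit 649407169) (nat_lit 84) (nat_lit 1) (nat_lit 83) (nat_lit 1) (nat_lit 89) (nat_lit 1) (nat_lit 189) (nat_lit 223) (nat_lit 188))) (XT.nd (nat_lit 94) (nat_lit 504) (nat_lit 0) (XT.lf (nat_lit 420) (nat_lit 335968762) (nat_lit 0) (nat_lit 2391377080) (nat_lit 336) (nat_lit 2391377080) (nat_lit 84) (nat_lit 1) (nat_lit 79) (nat_lit 1) (nat_lit 83) (nat_lit 1) (nat_lit 190) (nat_lit 223) (nat_lit 187)) (XT.lf (nat_lit 504) (nat_lit 4456482650) (nat_lit 0) (nat_lit 295685741) (nat_lit 420) (nat_lit 295685741) (nat_lit 79) (nat_lit 1) (nat_lit 73) (nat_lit 1) (nat_lit 78) (nat_lit 1) (nat_lit 191) (nat_lit 223) (nat_lit 186)))))) (XT.nd (nat_lit 658) (nat_lit 1260) (nat_lit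 0) (XT.nd (nat_lit 282) (nat_lit 1092) (nat_lit 0) (XT.nd (nat_lit 94) (nat_lit 336) (nat_lit 0) (XT.lf (nat_lit 84) (nat_lit 1723935205) (nat_lit 0) (nat_lit 1529646954) (nat_lit 504) (nat_lit 1723935205) (nat_lit 74) (nat_lit 1) (nat_lit 73) (nat_lit 1) (nat_lit 79) (nat_lit 1) (nat_lit 192) (nat_lit 223) (nat_lit 185)) (XT.nd (nat_lit 94) (nat_lit 0) (nat_lit 0) (XT.lf (nat_lit 420) (nat_lit 2455926861) (nat_lit 0) (nat_lit 1226521276) (nat_lit 336) (nat_lit 1226521276) (nat_lit 74) (nat_lit 1) (nat_lit 69) (nat_lit 1) (nat_lit 73) (nat_lit 1) (nat_lit 193) (nat_lit 223) (nat_lit 184)) (XT.lf (nat_lit 84) (nat_lit 734602620) (nat_lit 0) (nat_lit 3372576516) (nat_lit 420) (nat_lit 734602620) (nat_lit 70) (nat_lit 1) (nat_lit 69) (nat_lit 1) (nat_lit 74) (nat_lit 1) (nat_lit 194) (nat_lit 223) (nat_lit 183)))) (XT.nd (nat_lit 188) (nat_lit 336) (nat_lit 0) (XT.nd (nat_lit 94) (nat_lit 420)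 (nat_lit 0) (XT.lf (nat_lit 420) (nat_lit 477401447) (nat_lit 0) (nat_lit 2149082236) (nat_lit 336) (nat_lit 2149082236) (nat_lit 70) (nat_lit 1) (nat_lit 65) (nat_lit 1) (nat_lit 69) (nat_lit 1) (nat_lit 195) (nat_lit 223) (nat_lit 182)) (XT.lf (nat_lit 420) (nat_lit 4230197887) (nat_lit 0) (nat_lit 240411810) (nat_lit 336) (nat_lit 240411810) (nat_lit 65) (nat_lit 1) (nat_lit 60) (nat_lit 1) (nat_lit 64) (nat_lit 1) (nat_lit 196) (nat_lit 223) (nat_lit 181))) (XT.nd (nat_lit 94) (nat_lit 336) (nat_lit 0) (XT.lf (nat_lit 84) (nat_lit 1601755221) (nat_lit 0) (nat_lit 1443319766) (nat_lit 420) (nat_lit 1601755221) (nat_lit 61) (nat_lit 1) (nat_lit 60) (nat_lit 1) (nat_lit 65) (nat_lit 1) (nat_lit 197) (nat_lit 223) (nat_lit 180)) (XT.lf (nat_lit 420) (nat_lit 2195087111) (nat_lit 0) (nat_lit 1194583037) (nat_lit 336) (nat_lit 1194583037) (nat_lit 61) (nat_lit 1) (nat_lit 56) (nat_lit 1) (nat_lit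 60) (nat_lit 1) (nat_lit 198) (nat_lit 223) (nat_lit 179))))) (XT.nd (nat_lit 282) (nat_lit 588) (nat_lit 0) (XT.nd (nat_lit 94) (nat_lit 672) (nat_lit 0) (XT.lf (nat_lit 84) (nat_lit 597725516) (nat_lit 0) (nat_lit 3327485232) (nat_lit 420) (nat_lit 597725516) (nat_lit 57) (nat_lit 1) (nat_lit 56) (nat_lit 1) (nat_lit 61) (nat_lit 1) (nat_lit 199) (nat_lit 223) (nat_lit 178)) (XT.nd (nat_lit 94) (nat_lit 420) (nat_lit 0) (XT.lf (nat_lit 336) (nat_lit 191683572) (nat_lit 0) (nat_lit 2135363223) (nat_lit 252) (nat_lit 2135363223) (nat_lit 57) (nat_lit 1) (nat_lit 53) (nat_lit 1) (nat_lit 56) (nat_lit 1) (nat_lit 200) (nat_lit 223) (nat_lit 177)) (XT.lf (nat_lit 420) (nat_lit 3631789505) (nat_lit 0) (nat_lit 385727036) (nat_lit 336) (nat_lit 385727036) (nat_lit 53) (nat_lit 1) (nat_lit 48) (nat_lit 1) (nat_lit 52) (nat_lit 1) (nat_lit 201) (nat_lit 223) (nat_lit 176)))) (XT.nd (nat_lit 188)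 (nat_lit 336) (nat_lit 0) (XT.nd (nat_lit 94) (nat_lit 252) (nat_lit 0) (XT.lf (nat_lit 84) (nat_lit 1303150461) (nat_lit 0) (nat_lit 1738288480) (nat_lit 420) (nat_lit 1303150461) (nat_lit 49) (nat_lit 1) (nat_lit 48) (nat_lit 1) (nat_lit 53) (nat_lit 1) (nat_lit 202) (nat_lit 223) (nat_lit 175)) (XT.lf (nat_lit 336) (nat_lit 1595673076) (nat_lit 0) (nat_lit 1345787732) (nat_lit 252) (nat_lit 1345787732) (nat_lit 49) (nat_lit 1) (nat_lit 45) (nat_lit 1) (nat_lit 48) (nat_lit 1) (nat_lit 203) (nat_lit 223) (nat_lit 174))) (XT.nd (nat_lit 94) (nat_lit 336) (nat_lit 0) (XT.lf (nat_lit 84) (nat_lit 300409774) (nat_lit 0) (nat_lit 3630404919) (nat_lit 336) (nat_lit 300409774) (nat_lit 46) (nat_lit 1) (nat_lit 45) (nat_lit 1) (nat_lit 49) (nat_lit 1) (nat_lit 204) (nat_lit 223) (nat_lit 173)) (XT.lf (nat_lit 84) (nat_lit 1891434066) (nat_lit 0) (nat_lit 392670485) (nat_lit 336) (nat_lit 1891434066)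 (nat_lit 42) (nat_lit 1) (nat_lit 41) (nat_lit 1) (nat_lit 45) (nat_lit 1) (nat_lit 205) (nat_lit 223) (nat_lit 172))))))))
noncomputable def ec24 : XT := (XT.nd (nat_lit 33934) (nat_lit 0) (nat_lit 4620) (XT.nd (nat_lit 1222) (nat_lit 168) (nat_lit 0) (XT.nd (nat_lit 564) (nat_lit 1008) (nat_lit 0) (XT.nd (nat_lit 282) (nat_lit 588) (nat_lit 0) (XT.nd (nat_lit 94) (nat_lit 252) (nat_lit 0) (XT.lf (nat_lit 336) (nat_lit 2770857593) (nat_lit 0) (nat_lit 675135726) (nat_lit 252) (nat_lit 675135726) (nat_lit 42) (nat_lit 1) (nat_lit 38) (nat_lit 1) (nat_lit 41) (nat_lit 1) (nat_lit 206) (nat_lit 223) (nat_lit 171)) (XT.nd (nat_lit 94) (nat_lit 252) (nat_lit 0) (XT.lf (nat_lit 84) (nat_lit 880557877) (nat_lit 0) (nat_lit 2306363088) (nat_lit 336) (nat_lit 880557877) (nat_lit 39) (nat_lit 1) (nat_lit 38) (nat_lit 1) (nat_lit 42) (nat_lit 1) (nat_lit 207) (nat_lit 223) (nat_lit 170)) (XT.lf (nat_lit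 336) (nat_lit 759225734) (nat_lit 0) (nat_lit 1627763996) (nat_lit 252) (nat_lit 1627763996) (nat_lit 39) (nat_lit 1) (nat_lit 35) (nat_lit 1) (nat_lit 38) (nat_lit 1) (nat_lit 208) (nat_lit 223) (nat_lit 169)))) (XT.nd (nat_lit 94) (nat_lit 252) (nat_lit 0) (XT.lf (nat_lit 336) (nat_lit 3748285495) (nat_lit 0) (nat_lit 107529671) (nat_lit 252) (nat_lit 107529671) (nat_lit 35) (nat_lit 1) (nat_lit 31) (nat_lit 1) (nat_lit 34) (nat_lit 1) (nat_lit 209) (nat_lit 223) (nat_lit 168)) (XT.nd (nat_lit 94) (nat_lit 252) (nat_lit 0) (XT.lf (nat_lit 84) (nat_lit 1365198906) (nat_lit 0) (nat_lit 1181528793) (nat_lit 336) (nat_lit 1365198906) (nat_lit 32) (nat_lit 1) (nat_lit 31) (nat_lit 1) (nat_lit 35) (nat_lit 1) (nat_lit 210) (nat_lit 223) (nat_lit 167)) (XT.lf (nat_lit 336) (nat_lit 1733461256) (nat_lit 0) (nat_lit 1064165193) (nat_lit 252) (nat_lit 1064165193) (nat_lit 32) (nat_lit 1) (nat_lit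 28) (nat_lit 1) (nat_lit 31) (nat_lit 1) (nat_lit 211) (nat_lit 223) (nat_lit 166))))) (XT.nd (nat_lit 282) (nat_lit 504) (nat_lit 0) (XT.nd (nat_lit 94) (nat_lit 504) (nat_lit 0) (XT.lf (nat_lit 84) (nat_lit 375123519) (nat_lit 0) (nat_lit 3062429018) (nat_lit 336) (nat_lit 375123519) (nat_lit 29) (nat_lit 1) (nat_lit 28) (nat_lit 1) (nat_lit 32) (nat_lit 1) (nat_lit 212) (nat_lit 223) (nat_lit 165)) (XT.nd (nat_lit 94) (nat_lit 252) (nat_lit 0) (XT.lf (nat_lit 84) (nat_lit 1767318632) (nat_lit 0) (nat_lit 229311963) (nat_lit 252) (nat_lit 1767318632) (nat_lit 26) (nat_lit 1) (nat_lit 25) (nat_lit 1) (nat_lit 28) (nat_lit 1) (nat_lit 213) (nat_lit 223) (nat_lit 164)) (XT.lf (nat_lit 336) (nat_lit 2546205437) (nat_lit 0) (nat_lit 585003809) (nat_lit 252) (nat_lit 585003809) (nat_lit 26) (nat_lit 1) (nat_lit 22) (nat_lit 1) (nat_lit 25) (nat_lit 1) (nat_lit 214) (nat_lit 223) (nat_lit 163))))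 (XT.nd (nat_lit 188) (nat_lit 336) (nat_lit 0) (XT.nd (nat_lit 94) (nat_lit 168) (nat_lit 0) (XT.lf (nat_lit 84) (nat_lit 780917841) (nat_lit 0) (nat_lit 2107262512) (nat_lit 336) (nat_lit 780917841) (nat_lit 23) (nat_lit 1) (nat_lit 22) (nat_lit 1) (nat_lit 26) (nat_lit 1) (nat_lit 215) (nat_lit 223) (nat_lit 162)) (XT.lf (nat_lit 252) (nat_lit 586729627) (nat_lit 0) (nat_lit 1518017275) (nat_lit 168) (nat_lit 1518017275) (nat_lit 23) (nat_lit 1) (nat_lit 20) (nat_lit 1) (nat_lit 22) (nat_lit 1) (nat_lit 216) (nat_lit 223) (nat_lit 161))) (XT.nd (nat_lit 94) (nat_lit 0) (nat_lit 0) (XT.lf (nat_lit 336) (nat_lit 3219444946) (nat_lit 0) (nat_lit 179019557) (nat_lit 252) (nat_lit 179019557) (nat_lit 20) (nat_lit 1) (nat_lit 16) (nat_lit 1) (nat_lit 19) (nat_lit 1) (nat_lit 217) (nat_lit 223) (nat_lit 160)) (XT.lf (nat_lit 84) (nat_lit 1119190836) (nat_lit 0) (nat_lit 1293876906) (nat_lit 336)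 (nat_lit 1119190836) (nat_lit 17) (nat_lit 1) (nat_lit 16) (nat_lit 1) (nat_lit 20) (nat_lit 1) (nat_lit 218) (nat_lit 223) (nat_lit 159)))))) (XT.nd (nat_lit 32054) (nat_lit 0) (nat_lit 12432) (XT.nd (nat_lit 31678) (nat_lit 0) (nat_lit 12264) (XT.nd (nat_lit 31490) (nat_lit 0) (nat_lit 12180) (XT.lf (nat_lit 252) (nat_lit 1275743414) (nat_lit 0) (nat_lit 1106160111) (nat_lit 168) (nat_lit 1106160111) (nat_lit 17) (nat_lit 1) (nat_lit 14) (nat_lit 1) (nat_lit 16) (nat_lit 1) (nat_lit 219) (nat_lit 223) (nat_lit 158)) (XT.nd (nat_lit 94) (nat_lit 0) (nat_lit 84) (XT.lf (nat_lit 1260) (nat_lit 5150612724) (nat_lit 84) (nat_lit 1978809456) (nat_lit 0) (nat_lit 1978809456) (nat_lit 174) (nat_lit 1) (nat_lit 160) (nat_lit 1) (nat_lit 159) (nat_lit 0) (nat_lit 153) (nat_lit 224) (nat_lit 223)) (XT.lf (nat_lit 1260) (nat_lit 2491598991) (nat_lit 0) (nat_lit 3970911429) (nat_lit 1176) (nat_lit 2491598991)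 (nat_lit 175) (nat_lit 1) (nat_lit 160) (nat_lit 1) (nat_lit 174) (nat_lit 1) (nat_lit 154) (nat_lit 224) (nat_lit 222)))) (XT.nd (nat_lit 188) (nat_lit 0) (nat_lit 84) (XT.nd (nat_lit 94) (nat_lit 0) (nat_lit 84) (XT.lf (nat_lit 1260) (nat_lit 4776173630) (nat_lit 84) (nat_lit 2013747257) (nat_lit 0) (nat_lit 2013747257) (nat_lit 175) (nat_lit 1) (nat_lit 161) (nat_lit 1) (nat_lit 160) (nat_lit 1) (nat_lit 155) (nat_lit 224) (nat_lit 221)) (XT.lf (nat_lit 1260) (nat_lit 2260535335) (nat_lit 0) (nat_lit 4135381004) (nat_lit 1176) (nat_lit 2260535335) (nat_lit 176) (nat_lit 1) (nat_lit 161) (nat_lit 1) (nat_lit 175) (nat_lit 1) (nat_lit 156) (nat_lit 224) (nat_lit 220))) (XT.nd (nat_lit 94) (nat_lit 0) (nat_lit 84) (XT.lf (nat_lit 1260) (nat_lit 4227448342) (nat_lit 84) (nat_lit 2142585443) (nat_lit 0) (nat_lit 2142585443) (nat_lit 176) (nat_lit 1) (nat_lit 162) (nat_lit 1) (nat_lit 161) (nat_lit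 1) (nat_lit 157) (nat_lit 224) (nat_lit 219)) (XT.lf (nat_lit 1260) (nat_lit 1947501904) (nat_lit 0) (nat_lit 4476998273) (nat_lit 1176) (nat_lit 1947501904) (nat_lit 177) (nat_lit 1) (nat_lit 162) (nat_lit 1) (nat_lit 176) (nat_lit 1) (nat_lit 158) (nat_lit 224) (nat_lit 218))))) (XT.nd (nat_lit 282) (nat_lit 0) (nat_lit 168) (XT.nd (nat_lit 94) (nat_lit 0) (nat_lit 84) (XT.lf (nat_lit 1260) (nat_lit 3522760663) (nat_lit 84) (nat_lit 2355826713) (nat_lit 0) (nat_lit 2355826713) (nat_lit 177) (nat_lit 1) (nat_lit 163) (nat_lit 1) (nat_lit 162) (nat_lit 1) (nat_lit 159) (nat_lit 224) (nat_lit 217)) (XT.nd (nat_lit 94) (nat_lit 0) (nat_lit 0) (XT.lf (nat_lit 1260) (nat_lit 1561240266) (nat_lit 0) (nat_lit 4977624509) (nat_lit 1176) (nat_lit 1561240266) (nat_lit 178) (nat_lit 1) (nat_lit 163) (nat_lit 1) (nat_lit 177) (nat_lit 1) (nat_lit 160) (nat_lit 224) (nat_lit 216)) (XT.lf (nat_lit 1260)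 (nat_lit 2678988285) (nat_lit 84) (nat_lit 2644715271) (nat_lit 0) (nat_lit 2644715271) (nat_lit 178) (nat_lit 1) (nat_lit 164) (nat_lit 1) (nat_lit 163) (nat_lit 1) (nat_lit 161) (nat_lit 224) (nat_lit 215)))) (XT.nd (nat_lit 188) (nat_lit 0) (nat_lit 84) (XT.nd (nat_lit 94) (nat_lit 0) (nat_lit 0) (XT.lf (nat_lit 1260) (nat_lit 1109799465) (nat_lit 0) (nat_lit 5620542101) (nat_lit 1176) (nat_lit 1109799465) (nat_lit 179) (nat_lit 1) (nat_lit 164) (nat_lit 1) (nat_lit 178) (nat_lit 1) (nat_lit 162) (nat_lit 224) (nat_lit 214)) (XT.lf (nat_lit 1260) (nat_lit 1711666639) (nat_lit 84) (nat_lit 3001183803) (nat_lit 0) (nat_lit 3001183803) (nat_lit 179) (nat_lit 1) (nat_lit 165) (nat_lit 1) (nat_lit 164) (nat_lit 1) (nat_lit 163) (nat_lit 224) (nat_lit 213))) (XT.nd (nat_lit 94) (nat_lit 0) (nat_lit 0) (XT.lf (nat_lit 1260) (nat_lit 600585824) (nat_lit 0) (nat_lit 6390352786) (nat_lit 1176) (nat_lit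 600585824) (nat_lit 180) (nat_lit 1) (nat_lit 165) (nat_lit 1) (nat_lit 179) (nat_lit 1) (nat_lit 164) (nat_lit 224) (nat_lit 212)) (XT.lf (nat_lit 1260) (nat_lit 635085589) (nat_lit 84) (nat_lit 3417804105) (nat_lit 0) (nat_lit 3417804105) (nat_lit 180) (nat_lit 1) (nat_lit 166) (nat_lit 1) (nat_lit 165) (nat_lit 1) (nat_lit 165) (nat_lit 224) (nat_lit 211))))))) (XT.nd (nat_lit 1222) (nat_lit 3444) (nat_lit 0) (XT.nd (nat_lit 564) (nat_lit 2184) (nat_lit 0) (XT.nd (nat_lit 282) (nat_lit 588) (nat_lit 0) (XT.nd (nat_lit 94) (nat_lit 1932) (nat_lit 0) (XT.lf (nat_lit 84) (nat_lit 40409325) (nat_lit 0) (nat_lit 7272882906) (nat_lit 1176) (nat_lit 40409325) (nat_lit 167) (nat_lit 1) (nat_lit 166) (nat_lit 1) (nat_lit 180) (nat_lit 1) (nat_lit 166) (nat_lit 224) (nat_lit 210)) (XT.nd (nat_lit 94) (nat_lit 672) (nat_lit 0) (XT.lf (nat_lit 84) (nat_lit 3356110798) (nat_lit 0) (nat_lit 525430408)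 (nat_lit 1260) (nat_lit 3356110798) (nat_lit 152) (nat_lit 1) (nat_lit 151) (nat_lit 1) (nat_lit 166) (nat_lit 1) (nat_lit 167) (nat_lit 224) (nat_lit 209)) (XT.lf (nat_lit 756) (nat_lit 6009187259) (nat_lit 0) (nat_lit 558037872) (nat_lit 672) (nat_lit 558037872) (nat_lit 152) (nat_lit 1) (nat_lit 143) (nat_lit 1) (nat_lit 151) (nat_lit 1) (nat_lit 168) (nat_lit 224) (nat_lit 208)))) (XT.nd (nat_lit 94) (nat_lit 588) (nat_lit 0) (XT.lf (nat_lit 84) (nat_lit 2630314164) (nat_lit 0) (nat_lit 1753702832) (nat_lit 756) (nat_lit 2630314164) (nat_lit 144) (nat_lit 1) (nat_lit 143) (nat_lit 1) (nat_lit 152) (nat_lit 1) (nat_lit 169) (nat_lit 224) (nat_lit 207)) (XT.nd (nat_lit 94) (nat_lit 0) (nat_lit 0) (XT.lf (nat_lit 672) (nat_lit 4517389632) (nat_lit 0) (nat_lit 1194542451) (nat_lit 588) (nat_lit 1194542451) (nat_lit 144) (nat_lit 1) (nat_lit 136) (nat_lit 1) (nat_lit 143) (nat_lit 1) (nat_lit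 170) (nat_lit 224) (nat_lit 206)) (XT.lf (nat_lit 84) (nat_lit 1873594753) (nat_lit 0) (nat_lit 3053314056) (nat_lit 672) (nat_lit 1873594753) (nat_lit 137) (nat_lit 1) (nat_lit 136) (nat_lit 1) (nat_lit 144) (nat_lit 1) (nat_lit 171) (nat_lit 224) (nat_lit 205))))) (XT.nd (nat_lit 282) (nat_lit 1092) (nat_lit 0) (XT.nd (nat_lit 94) (nat_lit 504) (nat_lit 0) (XT.lf (nat_lit 672) (nat_lit 2968225028) (nat_lit 0) (nat_lit 1864356990) (nat_lit 588) (nat_lit 1864356990) (nat_lit 137) (nat_lit 1) (nat_lit 129) (nat_lit 1) (nat_lit 136) (nat_lit 1) (nat_lit 172) (nat_lit 224) (nat_lit 204)) (XT.nd (nat_lit 94) (nat_lit 504) (nat_lit 0) (XT.lf (nat_lit 84) (nat_lit 1090686200) (nat_lit 0) (nat_lit 4414346703) (nat_lit 672) (nat_lit 1090686200) (nat_lit 130) (nat_lit 1) (nat_lit 129) (nat_lit 1) (nat_lit 137) (nat_lit 1) (nat_lit 173) (nat_lit 224) (nat_lit 203)) (XT.lf (nat_lit 588) (nat_lit 1370801887)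 (nat_lit 0) (nat_lit 2562709173) (nat_lit 504) (nat_lit 2562709173) (nat_lit 130) (nat_lit 1) (nat_lit 123) (nat_lit 1) (nat_lit 129) (nat_lit 1) (nat_lit 174) (nat_lit 224) (nat_lit 202)))) (XT.nd (nat_lit 188) (nat_lit 504) (nat_lit 0) (XT.nd (nat_lit 94) (nat_lit 588) (nat_lit 0) (XT.lf (nat_lit 84) (nat_lit 285916856) (nat_lit 0) (nat_lit 5827717768) (nat_lit 588) (nat_lit 285916856) (nat_lit 124) (nat_lit 1) (nat_lit 123) (nat_lit 1) (nat_lit 130) (nat_lit 1) (nat_lit 175) (nat_lit 224) (nat_lit 201)) (XT.lf (nat_lit 84) (nat_lit 3021644491) (nat_lit 0) (nat_lit 260512030) (nat_lit 588) (nat_lit 3021644491) (nat_lit 117) (nat_lit 1) (nat_lit 116) (nat_lit 1) (nat_lit 123) (nat_lit 1) (nat_lit 176) (nat_lit 224) (nat_lit 200))) (XT.nd (nat_lit 94) (nat_lit 0) (nat_lit 0) (XT.lf (nat_lit 588) (nat_lit 5149473018) (nat_lit 0) (nat_lit 530640784) (nat_lit 504) (nat_lit 530640784) (nat_lit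 117) (nat_lit 1) (nat_lit 110) (nat_lit 1) (nat_lit 116) (nat_lit 1) (nat_lit 177) (nat_lit 224) (nat_lit 199)) (XT.lf (nat_lit 84) (nat_lit 2113249173) (nat_lit 0) (nat_lit 1892348145) (nat_lit 588) (nat_lit 2113249173) (nat_lit 111) (nat_lit 1) (nat_lit 110) (nat_lit 1) (nat_lit 117) (nat_lit 1) (nat_lit 178) (nat_lit 224) (nat_lit 198)))))) (XT.nd (nat_lit 658) (nat_lit 1596) (nat_lit 0) (XT.nd (nat_lit 282) (nat_lit 924) (nat_lit 0) (XT.nd (nat_lit 94) (nat_lit 420) (nat_lit 0) (XT.lf (nat_lit 588) (nat_lit 3313161377) (nat_lit 0) (nat_lit 1358077733) (nat_lit 504) (nat_lit 1358077733) (nat_lit 111) (nat_lit 1) (nat_lit 104) (nat_lit 1) (nat_lit 110) (nat_lit 1) (nat_lit 179) (nat_lit 224) (nat_lit 197)) (XT.nd (nat_lit 94) (nat_lit 420) (nat_lit 0) (XT.lf (nat_lit 84) (nat_lit 1196251203) (nat_lit 0) (nat_lit 3549020310) (nat_lit 588) (nat_lit 1196251203) (nat_lit 105) (nat_lit 1) (nat_lit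 104) (nat_lit 1) (nat_lit 111) (nat_lit 1) (nat_lit 180) (nat_lit 224) (nat_lit 196)) (XT.lf (nat_lit 504) (nat_lit 1462515688) (nat_lit 0) (nat_lit 2196406767) (nat_lit 420) (nat_lit 2196406767) (nat_lit 105) (nat_lit 1) (nat_lit 99) (nat_lit 1) (nat_lit 104) (nat_lit 1) (nat_lit 181) (nat_lit 224) (nat_lit 195)))) (XT.nd (nat_lit 188) (nat_lit 420) (nat_lit 0) (XT.nd (nat_lit 94) (nat_lit 504) (nat_lit 0) (XT.lf (nat_lit 84) (nat_lit 273555941) (nat_lit 0) (nat_lit 5224368259) (nat_lit 504) (nat_lit 273555941) (nat_lit 100) (nat_lit 1) (nat_lit 99) (nat_lit 1) (nat_lit 105) (nat_lit 1) (nat_lit 182) (nat_lit 224) (nat_lit 194)) (XT.lf (nat_lit 84) (nat_lit 2650199764) (nat_lit 0) (nat_lit 387898079) (nat_lit 504) (nat_lit 2650199764) (nat_lit 94) (nat_lit 1) (nat_lit 93) (nat_lit 1) (nat_lit 99) (nat_lit 1) (nat_lit 183) (nat_lit 224) (nat_lit 193))) (XT.nd (nat_lit 94) (nat_lit 0) (nat_lit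 0) (XT.lf (nat_lit 504) (nat_lit 4317828153) (nat_lit 0) (nat_lit 644767793) (nat_lit 420) (nat_lit 644767793) (nat_lit 94) (nat_lit 1) (nat_lit 88) (nat_lit 1) (nat_lit 93) (nat_lit 1) (nat_lit 184) (nat_lit 224) (nat_lit 192)) (XT.lf (nat_lit 84) (nat_lit 1659345047) (nat_lit 0) (nat_lit 2208792827) (nat_lit 504) (nat_lit 1659345047) (nat_lit 89) (nat_lit 1) (nat_lit 88) (nat_lit 1) (nat_lit 94) (nat_lit 1) (nat_lit 185) (nat_lit 224) (nat_lit 191))))) (XT.nd (nat_lit 282) (nat_lit 840) (nat_lit 0) (XT.nd (nat_lit 94) (nat_lit 336) (nat_lit 0) (XT.lf (nat_lit 504) (nat_lit 2328157637) (nat_lit 0) (nat_lit 1560647098) (nat_lit 420) (nat_lit 1560647098) (nat_lit 89) (nat_lit 1) (nat_lit 83) (nat_lit 1) (nat_lit 88) (nat_lit 1) (nat_lit 186) (nat_lit 224) (nat_lit 190)) (XT.nd (nat_lit 94) (nat_lit 336) (nat_lit 0) (XT.lf (nat_lit 84) (nat_lit 672136420) (nat_lit 0) (nat_lit 4028878712) (nat_lit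 504) (nat_lit 672136420) (nat_lit 84) (nat_lit 1) (nat_lit 83) (nat_lit 1) (nat_lit 89) (nat_lit 1) (nat_lit 187) (nat_lit 224) (nat_lit 189)) (XT.lf (nat_lit 420) (nat_lit 347727669) (nat_lit 0) (nat_lit 2475075277) (nat_lit 336) (nat_lit 2475075277) (nat_lit 84) (nat_lit 1) (nat_lit 79) (nat_lit 1) (nat_lit 83) (nat_lit 1) (nat_lit 188) (nat_lit 224) (nat_lit 188)))) (XT.nd (nat_lit 188) (nat_lit 336) (nat_lit 0) (XT.nd (nat_lit 94) (nat_lit 0) (nat_lit 0) (XT.lf (nat_lit 504) (nat_lit 4612459543) (nat_lit 0) (nat_lit 306034742) (nat_lit 420) (nat_lit 306034742) (nat_lit 79) (nat_lit 1) (nat_lit 73) (nat_lit 1) (nat_lit 78) (nat_lit 1) (nat_lit 189) (nat_lit 224) (nat_lit 187)) (XT.lf (nat_lit 84) (nat_lit 1784272938) (nat_lit 0) (nat_lit 1583184597) (nat_lit 504) (nat_lit 1784272938) (nat_lit 74) (nat_lit 1) (nat_lit 73) (nat_lit 1) (nat_lit 79) (nat_lit 1) (nat_lit 190) (nat_lit 224) (nat_lit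 186))) (XT.nd (nat_lit 94) (nat_lit 0) (nat_lit 0) (XT.lf (nat_lit 420) (nat_lit 2541884301) (nat_lit 0) (nat_lit 1269449520) (nat_lit 336) (nat_lit 1269449520) (nat_lit 74) (nat_lit 1) (nat_lit 69) (nat_lit 1) (nat_lit 73) (nat_lit 1) (nat_lit 191) (nat_lit 224) (nat_lit 185)) (XT.lf (nat_lit 84) (nat_lit 760313711) (nat_lit 0) (nat_lit 3490616694) (nat_lit 420) (nat_lit 760313711) (nat_lit 70) (nat_lit 1) (nat_lit 69) (nat_lit 1) (nat_lit 74) (nat_lit 1) (nat_lit 192) (nat_lit 224) (nat_lit 184))))))))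
noncomputable def ec25 : XT := (XT.nd (nat_lit 34122) (nat_lit 0) (nat_lit 6216) (XT.nd (nat_lit 1222) (nat_lit 2016) (nat_lit 0) (XT.nd (nat_lit 564) (nat_lit 1260) (nat_lit 0) (XT.nd (nat_lit 282) (nat_lit 588) (nat_lit 0) (XT.nd (nat_lit 94) (nat_lit 420) (nat_lit 0) (XT.lf (nat_lit 420) (nat_lit 494110498) (nat_lit 0) (nat_lit 2224300114) (nat_lit 336) (nat_lit 2224300114) (nat_lit 70) (nat_lit 1) (nat_lit 65) (nat_lit 1) (nat_lit 69) (nat_lit 1) (nat_lit 193) (nat_lit 224) (nat_lit 183)) (XT.nd (nat_lit 94) (nat_lit 0) (nat_lit 0) (XT.lf (nat_lit 420) (nat_lit 4378254813) (nat_lit 0) (nat_lit 248826224) (nat_lit 336) (nat_lit 248826224) (nat_lit 65) (nat_lit 1) (nat_lit 60) (nat_lit 1) (nat_lit 64) (nat_lit 1) (nat_lit 194) (nat_lit 224) (nat_lit 182)) (XT.lf (nat_lit 84) (nat_lit 1657816654) (nat_lit 0) (nat_lit 1493835957) (nat_lit 420) (nat_lit 1657816654) (nat_lit 61) (nat_lit 1)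 (nat_lit 60) (nat_lit 1) (nat_lit 65) (nat_lit 1) (nat_lit 195) (nat_lit 224) (nat_lit 181)))) (XT.nd (nat_lit 94) (nat_lit 252) (nat_lit 0) (XT.lf (nat_lit 420) (nat_lit 2271915160) (nat_lit 0) (nat_lit 1236393443) (nat_lit 336) (nat_lit 1236393443) (nat_lit 61) (nat_lit 1) (nat_lit 56) (nat_lit 1) (nat_lit 60) (nat_lit 1) (nat_lit 196) (nat_lit 224) (nat_lit 180)) (XT.nd (nat_lit 94) (nat_lit 252) (nat_lit 0) (XT.lf (nat_lit 84) (nat_lit 618645909) (nat_lit 0) (nat_lit 3443947216) (nat_lit 420) (nat_lit 618645909) (nat_lit 57) (nat_lit 1) (nat_lit 56) (nat_lit 1) (nat_lit 61) (nat_lit 1) (nat_lit 197) (nat_lit 224) (nat_lit 179)) (XT.lf (nat_lit 336) (nat_lit 198392497) (nat_lit 0) (nat_lit 2210100936) (nat_lit 252) (nat_lit 2210100936) (nat_lit 57) (nat_lit 1) (nat_lit 53) (nat_lit 1) (nat_lit 56) (nat_lit 1) (nat_lit 198) (nat_lit 224) (nat_lit 178))))) (XT.nd (nat_lit 282) (nat_lit 588)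 (nat_lit 0) (XT.nd (nat_lit 94) (nat_lit 252) (nat_lit 0) (XT.lf (nat_lit 420) (nat_lit 3758902138) (nat_lit 0) (nat_lit 399227483) (nat_lit 336) (nat_lit 399227483) (nat_lit 53) (nat_lit 1) (nat_lit 48) (nat_lit 1) (nat_lit 52) (nat_lit 1) (nat_lit 199) (nat_lit 224) (nat_lit 177)) (XT.nd (nat_lit 94) (nat_lit 252) (nat_lit 0) (XT.lf (nat_lit 84) (nat_lit 1348760727) (nat_lit 0) (nat_lit 1799128577) (nat_lit 420) (nat_lit 1348760727) (nat_lit 49) (nat_lit 1) (nat_lit 48) (nat_lit 1) (nat_lit 53) (nat_lit 1) (nat_lit 200) (nat_lit 224) (nat_lit 176)) (XT.lf (nat_lit 336) (nat_lit 1651521634) (nat_lit 0) (nat_lit 1392890303) (nat_lit 252) (nat_lit 1392890303) (nat_lit 49) (nat_lit 1) (nat_lit 45) (nat_lit 1) (nat_lit 48) (nat_lit 1) (nat_lit 201) (nat_lit 224) (nat_lit 175)))) (XT.nd (nat_lit 188) (nat_lit 252) (nat_lit 0) (XT.nd (nat_lit 94) (nat_lit 336) (nat_lit 0) (XT.lf (nat_lit 84) (nat_lit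 310924116) (nat_lit 0) (nat_lit 3757469092) (nat_lit 336) (nat_lit 310924116) (nat_lit 46) (nat_lit 1) (nat_lit 45) (nat_lit 1) (nat_lit 49) (nat_lit 1) (nat_lit 202) (nat_lit 224) (nat_lit 174)) (XT.lf (nat_lit 84) (nat_lit 1957634259) (nat_lit 0) (nat_lit 406413952) (nat_lit 336) (nat_lit 1957634259) (nat_lit 42) (nat_lit 1) (nat_lit 41) (nat_lit 1) (nat_lit 45) (nat_lit 1) (nat_lit 203) (nat_lit 224) (nat_lit 173))) (XT.nd (nat_lit 94) (nat_lit 0) (nat_lit 0) (XT.lf (nat_lit 336) (nat_lit 2867837609) (nat_lit 0) (nat_lit 698765476) (nat_lit 252) (nat_lit 698765476) (nat_lit 42) (nat_lit 1) (nat_lit 38) (nat_lit 1) (nat_lit 41) (nat_lit 1) (nat_lit 204) (nat_lit 224) (nat_lit 172)) (XT.lf (nat_lit 84) (nat_lit 911377403) (nat_lit 0) (nat_lit 2387085796) (nat_lit 336) (nat_lit 911377403) (nat_lit 39) (nat_lit 1) (nat_lit 38) (nat_lit 1) (nat_lit 42) (nat_lit 1) (nat_lit 205) (nat_lit 224)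 (nat_lit 171)))))) (XT.nd (nat_lit 658) (nat_lit 672) (nat_lit 0) (XT.nd (nat_lit 282) (nat_lit 756) (nat_lit 0) (XT.nd (nat_lit 94) (nat_lit 336) (nat_lit 0) (XT.lf (nat_lit 336) (nat_lit 785798634) (nat_lit 0) (nat_lit 1684735736) (nat_lit 252) (nat_lit 1684735736) (nat_lit 39) (nat_lit 1) (nat_lit 35) (nat_lit 1) (nat_lit 38) (nat_lit 1) (nat_lit 206) (nat_lit 224) (nat_lit 170)) (XT.nd (nat_lit 94) (nat_lit 0) (nat_lit 0) (XT.lf (nat_lit 336) (nat_lit 3879475487) (nat_lit 0) (nat_lit 111293209) (nat_lit 252) (nat_lit 111293209) (nat_lit 35) (nat_lit 1) (nat_lit 31) (nat_lit 1) (nat_lit 34) (nat_lit 1) (nat_lit 207) (nat_lit 224) (nat_lit 169)) (XT.lf (nat_lit 84) (nat_lit 1412980868) (nat_lit 0) (nat_lit 1222882301) (nat_lit 336) (nat_lit 1412980868) (nat_lit 32) (nat_lit 1) (nat_lit 31) (nat_lit 1) (nat_lit 35) (nat_lit 1) (nat_lit 208) (nat_lit 224) (nat_lit 168)))) (XT.nd (nat_lit 188)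 (nat_lit 504) (nat_lit 0) (XT.nd (nat_lit 94) (nat_lit 0) (nat_lit 0) (XT.lf (nat_lit 336) (nat_lit 1794132400) (nat_lit 0) (nat_lit 1101410974) (nat_lit 252) (nat_lit 1101410974) (nat_lit 32) (nat_lit 1) (nat_lit 28) (nat_lit 1) (nat_lit 31) (nat_lit 1) (nat_lit 209) (nat_lit 224) (nat_lit 167)) (XT.lf (nat_lit 84) (nat_lit 388252842) (nat_lit 0) (nat_lit 3169614034) (nat_lit 336) (nat_lit 388252842) (nat_lit 29) (nat_lit 1) (nat_lit 28) (nat_lit 1) (nat_lit 32) (nat_lit 1) (nat_lit 210) (nat_lit 224) (nat_lit 166))) (XT.nd (nat_lit 94) (nat_lit 252) (nat_lit 0) (XT.lf (nat_lit 84) (nat_lit 1829174784) (nat_lit 0) (nat_lit 237337882) (nat_lit 252) (nat_lit 1829174784) (nat_lit 26) (nat_lit 1) (nat_lit 25) (nat_lit 1) (nat_lit 28) (nat_lit 1) (nat_lit 211) (nat_lit 224) (nat_lit 165)) (XT.lf (nat_lit 336) (nat_lit 2635322628) (nat_lit 0) (nat_lit 605478942) (nat_lit 252) (nat_lit 605478942)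 (nat_lit 26) (nat_lit 1) (nat_lit 22) (nat_lit 1) (nat_lit 25) (nat_lit 1) (nat_lit 212) (nat_lit 224) (nat_lit 164))))) (XT.nd (nat_lit 282) (nat_lit 168) (nat_lit 0) (XT.nd (nat_lit 94) (nat_lit 504) (nat_lit 0) (XT.lf (nat_lit 84) (nat_lit 808249965) (nat_lit 0) (nat_lit 2181016700) (nat_lit 336) (nat_lit 808249965) (nat_lit 23) (nat_lit 1) (nat_lit 22) (nat_lit 1) (nat_lit 26) (nat_lit 1) (nat_lit 213) (nat_lit 224) (nat_lit 163)) (XT.nd (nat_lit 94) (nat_lit 336) (nat_lit 0) (XT.lf (nat_lit 252) (nat_lit 607265163) (nat_lit 0) (nat_lit 1571147879) (nat_lit 168) (nat_lit 1571147879) (nat_lit 23) (nat_lit 1) (nat_lit 20) (nat_lit 1) (nat_lit 22) (nat_lit 1) (nat_lit 214) (nat_lit 224) (nat_lit 162)) (XT.lf (nat_lit 336) (nat_lit 3332125520) (nat_lit 0) (nat_lit 185285241) (nat_lit 252) (nat_lit 185285241) (nat_lit 20) (nat_lit 1) (nat_lit 16) (nat_lit 1) (nat_lit 19) (nat_lit 1) (nat_lit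 215) (nat_lit 224) (nat_lit 161)))) (XT.nd (nat_lit 31772) (nat_lit 0) (nat_lit 12264) (XT.nd (nat_lit 94) (nat_lit 168) (nat_lit 0) (XT.lf (nat_lit 84) (nat_lit 1158362516) (nat_lit 0) (nat_lit 1339162598) (nat_lit 336) (nat_lit 1158362516) (nat_lit 17) (nat_lit 1) (nat_lit 16) (nat_lit 1) (nat_lit 20) (nat_lit 1) (nat_lit 216) (nat_lit 224) (nat_lit 160)) (XT.lf (nat_lit 252) (nat_lit 1320394433) (nat_lit 0) (nat_lit 1144875715) (nat_lit 168) (nat_lit 1144875715) (nat_lit 17) (nat_lit 1) (nat_lit 14) (nat_lit 1) (nat_lit 16) (nat_lit 1) (nat_lit 217) (nat_lit 224) (nat_lit 159))) (XT.nd (nat_lit 94) (nat_lit 0) (nat_lit 84) (XT.lf (nat_lit 1260) (nat_lit 4943339707) (nat_lit 84) (nat_lit 2084228411) (nat_lit 0) (nat_lit 2084228411) (nat_lit 175) (nat_lit 1) (nat_lit 161) (nat_lit 1) (nat_lit 160) (nat_lit 1) (nat_lit 153) (nat_lit 225) (nat_lit 222)) (XT.lf (nat_lit 1260) (nat_lit 2339654071)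 (nat_lit 0) (nat_lit 4280119339) (nat_lit 1176) (nat_lit 2339654071) (nat_lit 176) (nat_lit 1) (nat_lit 161) (nat_lit 1) (nat_lit 175) (nat_lit 1) (nat_lit 154) (nat_lit 225) (nat_lit 221))))))) (XT.nd (nat_lit 1316) (nat_lit 4032) (nat_lit 0) (XT.nd (nat_lit 658) (nat_lit 2100) (nat_lit 0) (XT.nd (nat_lit 282) (nat_lit 0) (nat_lit 168) (XT.nd (nat_lit 94) (nat_lit 0) (nat_lit 84) (XT.lf (nat_lit 1260) (nat_lit 4375409034) (nat_lit 84) (nat_lit 2217575933) (nat_lit 0) (nat_lit 2217575933) (nat_lit 176) (nat_lit 1) (nat_lit 162) (nat_lit 1) (nat_lit 161) (nat_lit 1) (nat_lit 155) (nat_lit 225) (nat_lit 220)) (XT.nd (nat_lit 94) (nat_lit 0) (nat_lit 0) (XT.lf (nat_lit 1260) (nat_lit 2015664471) (nat_lit 0) (nat_lit 4633693213) (nat_lit 1176) (nat_lit 2015664471) (nat_lit 177) (nat_lit 1) (nat_lit 162) (nat_lit 1) (nat_lit 176) (nat_lit 1) (nat_lit 156) (nat_lit 225) (nat_lit 219)) (XT.lf (nat_lit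 1260) (nat_lit 3646057286) (nat_lit 84) (nat_lit 2438280648) (nat_lit 0) (nat_lit 2438280648) (nat_lit 177) (nat_lit 1) (nat_lit 163) (nat_lit 1) (nat_lit 162) (nat_lit 1) (nat_lit 157) (nat_lit 225) (nat_lit 218)))) (XT.nd (nat_lit 188) (nat_lit 0) (nat_lit 84) (XT.nd (nat_lit 94) (nat_lit 0) (nat_lit 0) (XT.lf (nat_lit 1260) (nat_lit 1615883676) (nat_lit 0) (nat_lit 5151841367) (nat_lit 1176) (nat_lit 1615883676) (nat_lit 178) (nat_lit 1) (nat_lit 163) (nat_lit 1) (nat_lit 177) (nat_lit 1) (nat_lit 158) (nat_lit 225) (nat_lit 217)) (XT.lf (nat_lit 1260) (nat_lit 2772752875) (nat_lit 84) (nat_lit 2737280306) (nat_lit 0) (nat_lit 2737280306) (nat_lit 178) (nat_lit 1) (nat_lit 164) (nat_lit 1) (nat_lit 163) (nat_lit 1) (nat_lit 159) (nat_lit 225) (nat_lit 216))) (XT.nd (nat_lit 94) (nat_lit 0) (nat_lit 0) (XT.lf (nat_lit 1260) (nat_lit 1148642446) (nat_lit 0) (nat_lit 5817261074) (nat_lit 1176)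 (nat_lit 1148642446) (nat_lit 179) (nat_lit 1) (nat_lit 164) (nat_lit 1) (nat_lit 178) (nat_lit 1) (nat_lit 160) (nat_lit 225) (nat_lit 215)) (XT.lf (nat_lit 1260) (nat_lit 1771574972) (nat_lit 84) (nat_lit 3106225236) (nat_lit 0) (nat_lit 3106225236) (nat_lit 179) (nat_lit 1) (nat_lit 165) (nat_lit 1) (nat_lit 164) (nat_lit 1) (nat_lit 161) (nat_lit 225) (nat_lit 214))))) (XT.nd (nat_lit 282) (nat_lit 2436) (nat_lit 0) (XT.nd (nat_lit 94) (nat_lit 0) (nat_lit 0) (XT.lf (nat_lit 1260) (nat_lit 621606328) (nat_lit 0) (nat_lit 6614015134) (nat_lit 1176) (nat_lit 621606328) (nat_lit 180) (nat_lit 1) (nat_lit 165) (nat_lit 1) (nat_lit 179) (nat_lit 1) (nat_lit 162) (nat_lit 225) (nat_lit 213)) (XT.nd (nat_lit 94) (nat_lit 0) (nat_lit 84) (XT.lf (nat_lit 1260) (nat_lit 657313585) (nat_lit 84) (nat_lit 3537427248) (nat_lit 0) (nat_lit 3537427248) (nat_lit 180) (nat_lit 1) (nat_lit 166) (nat_lit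 1) (nat_lit 165) (nat_lit 1) (nat_lit 163) (nat_lit 225) (nat_lit 212)) (XT.lf (nat_lit 84) (nat_lit 41823651) (nat_lit 0) (nat_lit 7527433808) (nat_lit 1176) (nat_lit 41823651) (nat_lit 167) (nat_lit 1) (nat_lit 166) (nat_lit 1) (nat_lit 180) (nat_lit 1) (nat_lit 164) (nat_lit 225) (nat_lit 211)))) (XT.nd (nat_lit 188) (nat_lit 588) (nat_lit 0) (XT.nd (nat_lit 94) (nat_lit 672) (nat_lit 0) (XT.lf (nat_lit 84) (nat_lit 3473574676) (nat_lit 0) (nat_lit 543820472) (nat_lit 1260) (nat_lit 3473574676) (nat_lit 152) (nat_lit 1) (nat_lit 151) (nat_lit 1) (nat_lit 166) (nat_lit 1) (nat_lit 165) (nat_lit 225) (nat_lit 210)) (XT.lf (nat_lit 756) (nat_lit 6219508813) (nat_lit 0) (nat_lit 577569198) (nat_lit 672) (nat_lit 577569198) (nat_lit 152) (nat_lit 1) (nat_lit 143) (nat_lit 1) (nat_lit 151) (nat_lit 1) (nat_lit 166) (nat_lit 225) (nat_lit 209))) (XT.nd (nat_lit 94) (nat_lit 588) (nat_lit 0) (XT.lf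 (nat_lit 84) (nat_lit 2722375160) (nat_lit 0) (nat_lit 1815082432) (nat_lit 756) (nat_lit 2722375160) (nat_lit 144) (nat_lit 1) (nat_lit 143) (nat_lit 1) (nat_lit 152) (nat_lit 1) (nat_lit 167) (nat_lit 225) (nat_lit 208)) (XT.lf (nat_lit 672) (nat_lit 4675498269) (nat_lit 0) (nat_lit 1236351437) (nat_lit 588) (nat_lit 1236351437) (nat_lit 144) (nat_lit 1) (nat_lit 136) (nat_lit 1) (nat_lit 143) (nat_lit 1) (nat_lit 168) (nat_lit 225) (nat_lit 207)))))) (XT.nd (nat_lit 658) (nat_lit 1848) (nat_lit 0) (XT.nd (nat_lit 282) (nat_lit 1596) (nat_lit 0) (XT.nd (nat_lit 94) (nat_lit 588) (nat_lit 0) (XT.lf (nat_lit 84) (nat_lit 1939170570) (nat_lit 0) (nat_lit 3160180048) (nat_lit 672) (nat_lit 1939170570) (nat_lit 137) (nat_lit 1) (nat_lit 136) (nat_lit 1) (nat_lit 144) (nat_lit 1) (nat_lit 169) (nat_lit 225) (nat_lit 206)) (XT.nd (nat_lit 94) (nat_lit 0) (nat_lit 0) (XT.lf (nat_lit 672) (nat_lit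 3072112904) (nat_lit 0) (nat_lit 1929609485) (nat_lit 588) (nat_lit 1929609485) (nat_lit 137) (nat_lit 1) (nat_lit 129) (nat_lit 1) (nat_lit 136) (nat_lit 1) (nat_lit 170) (nat_lit 225) (nat_lit 205)) (XT.lf (nat_lit 84) (nat_lit 1128860217) (nat_lit 0) (nat_lit 4568848837) (nat_lit 672) (nat_lit 1128860217) (nat_lit 130) (nat_lit 1) (nat_lit 129) (nat_lit 1) (nat_lit 137) (nat_lit 1) (nat_lit 171) (nat_lit 225) (nat_lit 204)))) (XT.nd (nat_lit 188) (nat_lit 1092) (nat_lit 0) (XT.nd (nat_lit 94) (nat_lit 0) (nat_lit 0) (XT.lf (nat_lit 588) (nat_lit 1418779953) (nat_lit 0) (nat_lit 2652403994) (nat_lit 504) (nat_lit 2652403994) (nat_lit 130) (nat_lit 1) (nat_lit 123) (nat_lit 1) (nat_lit 129) (nat_lit 1) (nat_lit 172) (nat_lit 225) (nat_lit 203)) (XT.lf (nat_lit 84) (nat_lit 295923946) (nat_lit 0) (nat_lit 6031687890) (nat_lit 588) (nat_lit 295923946) (nat_lit 124) (nat_lit 1) (nat_lit 123)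 (nat_lit 1) (nat_lit 130) (nat_lit 1) (nat_lit 173) (nat_lit 225) (nat_lit 202))) (XT.nd (nat_lit 94) (nat_lit 504) (nat_lit 0) (XT.lf (nat_lit 84) (nat_lit 3127402048) (nat_lit 0) (nat_lit 269629951) (nat_lit 588) (nat_lit 3127402048) (nat_lit 117) (nat_lit 1) (nat_lit 116) (nat_lit 1) (nat_lit 123) (nat_lit 1) (nat_lit 174) (nat_lit 225) (nat_lit 201)) (XT.lf (nat_lit 588) (nat_lit 5329704574) (nat_lit 0) (nat_lit 549213211) (nat_lit 504) (nat_lit 549213211) (nat_lit 117) (nat_lit 1) (nat_lit 110) (nat_lit 1) (nat_lit 116) (nat_lit 1) (nat_lit 175) (nat_lit 225) (nat_lit 200))))) (XT.nd (nat_lit 282) (nat_lit 1344) (nat_lit 0) (XT.nd (nat_lit 94) (nat_lit 504) (nat_lit 0) (XT.lf (nat_lit 84) (nat_lit 2187212894) (nat_lit 0) (nat_lit 1958580330) (nat_lit 588) (nat_lit 2187212894) (nat_lit 111) (nat_lit 1) (nat_lit 110) (nat_lit 1) (nat_lit 117) (nat_lit 1) (nat_lit 176) (nat_lit 225) (nat_lit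 199)) (XT.nd (nat_lit 94) (nat_lit 0) (nat_lit 0) (XT.lf (nat_lit 588) (nat_lit 3429122025) (nat_lit 0) (nat_lit 1405610454) (nat_lit 504) (nat_lit 1405610454) (nat_lit 111) (nat_lit 1) (nat_lit 104) (nat_lit 1) (nat_lit 110) (nat_lit 1) (nat_lit 177) (nat_lit 225) (nat_lit 198)) (XT.lf (nat_lit 84) (nat_lit 1238119995) (nat_lit 0) (nat_lit 3673236021) (nat_lit 588) (nat_lit 1238119995) (nat_lit 105) (nat_lit 1) (nat_lit 104) (nat_lit 1) (nat_lit 111) (nat_lit 1) (nat_lit 178) (nat_lit 225) (nat_lit 197)))) (XT.nd (nat_lit 188) (nat_lit 924) (nat_lit 0) (XT.nd (nat_lit 94) (nat_lit 0) (nat_lit 0) (XT.lf (nat_lit 504) (nat_lit 1513703737) (nat_lit 0) (nat_lit 2273281004) (nat_lit 420) (nat_lit 2273281004) (nat_lit 105) (nat_lit 1) (nat_lit 99) (nat_lit 1) (nat_lit 104) (nat_lit 1) (nat_lit 179) (nat_lit 225) (nat_lit 196)) (XT.lf (nat_lit 84) (nat_lit 283130399) (nat_lit 0) (nat_lit 5407221148)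 (nat_lit 504) (nat_lit 283130399) (nat_lit 100) (nat_lit 1) (nat_lit 99) (nat_lit 1) (nat_lit 105) (nat_lit 1) (nat_lit 180) (nat_lit 225) (nat_lit 195))) (XT.nd (nat_lit 94) (nat_lit 420) (nat_lit 0) (XT.lf (nat_lit 84) (nat_lit 2742956755) (nat_lit 0) (nat_lit 401474512) (nat_lit 504) (nat_lit 2742956755) (nat_lit 94) (nat_lit 1) (nat_lit 93) (nat_lit 1) (nat_lit 99) (nat_lit 1) (nat_lit 181) (nat_lit 225) (nat_lit 194)) (XT.lf (nat_lit 504) (nat_lit 4468952139) (nat_lit 0) (nat_lit 667334666) (nat_lit 420) (nat_lit 667334666) (nat_lit 94) (nat_lit 1) (nat_lit 88) (nat_lit 1) (nat_lit 93) (nat_lit 1) (nat_lit 182) (nat_lit 225) (nat_lit 193))))))))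
noncomputable def ec26 : XT := (XT.nd (nat_lit 2538) (nat_lit 924) (nat_lit 0) (XT.nd (nat_lit 1222) (nat_lit 2604) (nat_lit 0) (XT.nd (nat_lit 564) (nat_lit 1428) (nat_lit 0) (XT.nd (nat_lit 282) (nat_lit 840) (nat_lit 0) (XT.nd (nat_lit 94) (nat_lit 420) (nat_lit 0) (XT.lf (nat_lit 84) (nat_lit 1717422124) (nat_lit 0) (nat_lit 2286100576) (nat_lit 504) (nat_lit 1717422124) (nat_lit 89) (nat_lit 1) (nat_lit 88) (nat_lit 1) (nat_lit 94) (nat_lit 1) (nat_lit 183) (nat_lit 225) (nat_lit 192)) (XT.nd (nat_lit 94) (nat_lit 0) (nat_lit 0) (XT.lf (nat_lit 504) (nat_lit 2409643155) (nat_lit 0) (nat_lit 1615269746) (nat_lit 420) (nat_lit 1615269746) (nat_lit 89) (nat_lit 1) (nat_lit 83) (nat_lit 1) (nat_lit 88) (nat_lit 1) (nat_lit 184) (nat_lit 225) (nat_lit 191)) (XT.lf (nat_lit 84) (nat_lit 695661195) (nat_lit 0) (nat_lit 4169889467) (nat_lit 504) (nat_lit 695661195) (nat_lit 84) (nat_lit 1) (nat_lit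 83) (nat_lit 1) (nat_lit 89) (nat_lit 1) (nat_lit 185) (nat_lit 225) (nat_lit 190)))) (XT.nd (nat_lit 94) (nat_lit 504) (nat_lit 0) (XT.lf (nat_lit 420) (nat_lit 359898137) (nat_lit 0) (nat_lit 2561702912) (nat_lit 336) (nat_lit 2561702912) (nat_lit 84) (nat_lit 1) (nat_lit 79) (nat_lit 1) (nat_lit 83) (nat_lit 1) (nat_lit 186) (nat_lit 225) (nat_lit 189)) (XT.nd (nat_lit 94) (nat_lit 0) (nat_lit 0) (XT.lf (nat_lit 504) (nat_lit 4773895627) (nat_lit 0) (nat_lit 316745958) (nat_lit 420) (nat_lit 316745958) (nat_lit 79) (nat_lit 1) (nat_lit 73) (nat_lit 1) (nat_lit 78) (nat_lit 1) (nat_lit 187) (nat_lit 225) (nat_lit 188)) (XT.lf (nat_lit 84) (nat_lit 1846722490) (nat_lit 0) (nat_lit 1638596058) (nat_lit 504) (nat_lit 1846722490) (nat_lit 74) (nat_lit 1) (nat_lit 73) (nat_lit 1) (nat_lit 79) (nat_lit 1) (nat_lit 188) (nat_lit 225) (nat_lit 187))))) (XT.nd (nat_lit 282) (nat_lit 756) (nat_lit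 0) (XT.nd (nat_lit 94) (nat_lit 336) (nat_lit 0) (XT.lf (nat_lit 420) (nat_lit 2630850252) (nat_lit 0) (nat_lit 1313880253) (nat_lit 336) (nat_lit 1313880253) (nat_lit 74) (nat_lit 1) (nat_lit 69) (nat_lit 1) (nat_lit 73) (nat_lit 1) (nat_lit 189) (nat_lit 225) (nat_lit 186)) (XT.nd (nat_lit 94) (nat_lit 336) (nat_lit 0) (XT.lf (nat_lit 84) (nat_lit 786924691) (nat_lit 0) (nat_lit 3612788279) (nat_lit 420) (nat_lit 786924691) (nat_lit 70) (nat_lit 1) (nat_lit 69) (nat_lit 1) (nat_lit 74) (nat_lit 1) (nat_lit 190) (nat_lit 225) (nat_lit 185)) (XT.lf (nat_lit 420) (nat_lit 511404365) (nat_lit 0) (nat_lit 2302150618) (nat_lit 336) (nat_lit 2302150618) (nat_lit 70) (nat_lit 1) (nat_lit 65) (nat_lit 1) (nat_lit 69) (nat_lit 1) (nat_lit 191) (nat_lit 225) (nat_lit 184)))) (XT.nd (nat_lit 188) (nat_lit 336) (nat_lit 0) (XT.nd (nat_lit 94) (nat_lit 0) (nat_lit 0) (XT.lf (nat_lit 420) (nat_lit 4531493732)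 (nat_lit 0) (nat_lit 257535142) (nat_lit 336) (nat_lit 257535142) (nat_lit 65) (nat_lit 1) (nat_lit 60) (nat_lit 1) (nat_lit 64) (nat_lit 1) (nat_lit 192) (nat_lit 225) (nat_lit 183)) (XT.lf (nat_lit 84) (nat_lit 1715840236) (nat_lit 0) (nat_lit 1546120216) (nat_lit 420) (nat_lit 1715840236) (nat_lit 61) (nat_lit 1) (nat_lit 60) (nat_lit 1) (nat_lit 65) (nat_lit 1) (nat_lit 193) (nat_lit 225) (nat_lit 182))) (XT.nd (nat_lit 94) (nat_lit 0) (nat_lit 0) (XT.lf (nat_lit 420) (nat_lit 2351432190) (nat_lit 0) (nat_lit 1279667214) (nat_lit 336) (nat_lit 1279667214) (nat_lit 61) (nat_lit 1) (nat_lit 56) (nat_lit 1) (nat_lit 60) (nat_lit 1) (nat_lit 194) (nat_lit 225) (nat_lit 181)) (XT.lf (nat_lit 84) (nat_lit 640298516) (nat_lit 0) (nat_lit 3564485368) (nat_lit 420) (nat_lit 640298516) (nat_lit 57) (nat_lit 1) (nat_lit 56) (nat_lit 1) (nat_lit 61) (nat_lit 1) (nat_lit 195) (nat_lit 225) (nat_lit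 180)))))) (XT.nd (nat_lit 658) (nat_lit 1092) (nat_lit 0) (XT.nd (nat_lit 282) (nat_lit 840) (nat_lit 0) (XT.nd (nat_lit 94) (nat_lit 420) (nat_lit 0) (XT.lf (nat_lit 336) (nat_lit 205336235) (nat_lit 0) (nat_lit 2287454469) (nat_lit 252) (nat_lit 2287454469) (nat_lit 57) (nat_lit 1) (nat_lit 53) (nat_lit 1) (nat_lit 56) (nat_lit 1) (nat_lit 196) (nat_lit 225) (nat_lit 179)) (XT.nd (nat_lit 94) (nat_lit 0) (nat_lit 0) (XT.lf (nat_lit 420) (nat_lit 3890463713) (nat_lit 0) (nat_lit 413200444) (nat_lit 336) (nat_lit 413200444) (nat_lit 53) (nat_lit 1) (nat_lit 48) (nat_lit 1) (nat_lit 52) (nat_lit 1) (nat_lit 197) (nat_lit 225) (nat_lit 178)) (XT.lf (nat_lit 84) (nat_lit 1395967353) (nat_lit 0) (nat_lit 1862098077) (nat_lit 420) (nat_lit 1395967353) (nat_lit 49) (nat_lit 1) (nat_lit 48) (nat_lit 1) (nat_lit 53) (nat_lit 1) (nat_lit 198) (nat_lit 225) (nat_lit 177)))) (XT.nd (nat_lit 188) (nat_lit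 588) (nat_lit 0) (XT.nd (nat_lit 94) (nat_lit 0) (nat_lit 0) (XT.lf (nat_lit 336) (nat_lit 1709324891) (nat_lit 0) (nat_lit 1441641463) (nat_lit 252) (nat_lit 1441641463) (nat_lit 49) (nat_lit 1) (nat_lit 45) (nat_lit 1) (nat_lit 48) (nat_lit 1) (nat_lit 199) (nat_lit 225) (nat_lit 176)) (XT.lf (nat_lit 84) (nat_lit 321806461) (nat_lit 0) (nat_lit 3888980510) (nat_lit 336) (nat_lit 321806461) (nat_lit 46) (nat_lit 1) (nat_lit 45) (nat_lit 1) (nat_lit 49) (nat_lit 1) (nat_lit 200) (nat_lit 225) (nat_lit 175))) (XT.nd (nat_lit 94) (nat_lit 252) (nat_lit 0) (XT.lf (nat_lit 84) (nat_lit 2026151458) (nat_lit 0) (nat_lit 420638440) (nat_lit 336) (nat_lit 2026151458) (nat_lit 42) (nat_lit 1) (nat_lit 41) (nat_lit 1) (nat_lit 45) (nat_lit 1) (nat_lit 201) (nat_lit 225) (nat_lit 174)) (XT.lf (nat_lit 336) (nat_lit 2968211925) (nat_lit 0) (nat_lit 723222268) (nat_lit 252) (nat_lit 723222268) (nat_lit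 42) (nat_lit 1) (nat_lit 38) (nat_lit 1) (nat_lit 41) (nat_lit 1) (nat_lit 202) (nat_lit 225) (nat_lit 173))))) (XT.nd (nat_lit 282) (nat_lit 504) (nat_lit 0) (XT.nd (nat_lit 94) (nat_lit 588) (nat_lit 0) (XT.lf (nat_lit 84) (nat_lit 943275612) (nat_lit 0) (nat_lit 2470633798) (nat_lit 336) (nat_lit 943275612) (nat_lit 39) (nat_lit 1) (nat_lit 38) (nat_lit 1) (nat_lit 42) (nat_lit 1) (nat_lit 203) (nat_lit 225) (nat_lit 172)) (XT.nd (nat_lit 94) (nat_lit 336) (nat_lit 0) (XT.lf (nat_lit 336) (nat_lit 813301587) (nat_lit 0) (nat_lit 1743701487) (nat_lit 252) (nat_lit 1743701487) (nat_lit 39) (nat_lit 1) (nat_lit 35) (nat_lit 1) (nat_lit 38) (nat_lit 1) (nat_lit 204) (nat_lit 225) (nat_lit 171)) (XT.lf (nat_lit 336) (nat_lit 4015257129) (nat_lit 0) (nat_lit 115188472) (nat_lit 252) (nat_lit 115188472) (nat_lit 35) (nat_lit 1) (nat_lit 31) (nat_lit 1) (nat_lit 34) (nat_lit 1) (nat_lit 205) (nat_lit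 225) (nat_lit 170)))) (XT.nd (nat_lit 188) (nat_lit 252) (nat_lit 0) (XT.nd (nat_lit 94) (nat_lit 252) (nat_lit 0) (XT.lf (nat_lit 84) (nat_lit 1462435199) (nat_lit 0) (nat_lit 1265683181) (nat_lit 336) (nat_lit 1462435199) (nat_lit 32) (nat_lit 1) (nat_lit 31) (nat_lit 1) (nat_lit 35) (nat_lit 1) (nat_lit 206) (nat_lit 225) (nat_lit 169)) (XT.lf (nat_lit 336) (nat_lit 1856927034) (nat_lit 0) (nat_lit 1139960358) (nat_lit 252) (nat_lit 1139960358) (nat_lit 32) (nat_lit 1) (nat_lit 28) (nat_lit 1) (nat_lit 31) (nat_lit 1) (nat_lit 207) (nat_lit 225) (nat_lit 168))) (XT.nd (nat_lit 94) (nat_lit 252) (nat_lit 0) (XT.lf (nat_lit 84) (nat_lit 401841691) (nat_lit 0) (nat_lit 3280550525) (nat_lit 336) (nat_lit 401841691) (nat_lit 29) (nat_lit 1) (nat_lit 28) (nat_lit 1) (nat_lit 32) (nat_lit 1) (nat_lit 208) (nat_lit 225) (nat_lit 167)) (XT.lf (nat_lit 84) (nat_lit 1893195901) (nat_lit 0) (nat_lit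 245644708) (nat_lit 252) (nat_lit 1893195901) (nat_lit 26) (nat_lit 1) (nat_lit 25) (nat_lit 1) (nat_lit 28) (nat_lit 1) (nat_lit 209) (nat_lit 225) (nat_lit 166))))))) (XT.nd (nat_lit 32994) (nat_lit 0) (nat_lit 8064) (XT.nd (nat_lit 564) (nat_lit 0) (nat_lit 0) (XT.nd (nat_lit 282) (nat_lit 504) (nat_lit 0) (XT.nd (nat_lit 94) (nat_lit 168) (nat_lit 0) (XT.lf (nat_lit 336) (nat_lit 2727558920) (nat_lit 0) (nat_lit 626670705) (nat_lit 252) (nat_lit 626670705) (nat_lit 26) (nat_lit 1) (nat_lit 22) (nat_lit 1) (nat_lit 25) (nat_lit 1) (nat_lit 210) (nat_lit 225) (nat_lit 165)) (XT.nd (nat_lit 94) (nat_lit 168) (nat_lit 0) (XT.lf (nat_lit 84) (nat_lit 836538714) (nat_lit 0) (nat_lit 2257352285) (nat_lit 336) (nat_lit 836538714) (nat_lit 23) (nat_lit 1) (nat_lit 22) (nat_lit 1) (nat_lit 26) (nat_lit 1) (nat_lit 211) (nat_lit 225) (nat_lit 164)) (XT.lf (nat_lit 252) (nat_lit 628519444) (nat_lit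 0) (nat_lit 1626138055) (nat_lit 168) (nat_lit 1626138055) (nat_lit 23) (nat_lit 1) (nat_lit 20) (nat_lit 1) (nat_lit 22) (nat_lit 1) (nat_lit 212) (nat_lit 225) (nat_lit 163)))) (XT.nd (nat_lit 94) (nat_lit 168) (nat_lit 0) (XT.lf (nat_lit 336) (nat_lit 3448749913) (nat_lit 0) (nat_lit 191770225) (nat_lit 252) (nat_lit 191770225) (nat_lit 20) (nat_lit 1) (nat_lit 16) (nat_lit 1) (nat_lit 19) (nat_lit 1) (nat_lit 213) (nat_lit 225) (nat_lit 162)) (XT.nd (nat_lit 94) (nat_lit 168) (nat_lit 0) (XT.lf (nat_lit 84) (nat_lit 1198905204) (nat_lit 0) (nat_lit 1386033289) (nat_lit 336) (nat_lit 1198905204) (nat_lit 17) (nat_lit 1) (nat_lit 16) (nat_lit 1) (nat_lit 20) (nat_lit 1) (nat_lit 214) (nat_lit 225) (nat_lit 161)) (XT.lf (nat_lit 252) (nat_lit 1366608238) (nat_lit 0) (nat_lit 1184946365) (nat_lit 168) (nat_lit 1184946365) (nat_lit 17) (nat_lit 1) (nat_lit 14) (nat_lit 1) (nat_lit 16) (nat_lit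 1) (nat_lit 215) (nat_lit 225) (nat_lit 160))))) (XT.nd (nat_lit 32054) (nat_lit 0) (nat_lit 12516) (XT.nd (nat_lit 31866) (nat_lit 0) (nat_lit 12432) (XT.lf (nat_lit 84) (nat_lit 177258871) (nat_lit 0) (nat_lit 3335708516) (nat_lit 252) (nat_lit 177258871) (nat_lit 15) (nat_lit 1) (nat_lit 14) (nat_lit 1) (nat_lit 17) (nat_lit 1) (nat_lit 216) (nat_lit 225) (nat_lit 159)) (XT.nd (nat_lit 94) (nat_lit 0) (nat_lit 0) (XT.lf (nat_lit 1260) (nat_lit 2086212727) (nat_lit 0) (nat_lit 4795872475) (nat_lit 1176) (nat_lit 2086212727) (nat_lit 177) (nat_lit 1) (nat_lit 162) (nat_lit 1) (nat_lit 176) (nat_lit 1) (nat_lit 154) (nat_lit 226) (nat_lit 220)) (XT.lf (nat_lit 1260) (nat_lit 3773669291) (nat_lit 84) (nat_lit 2523620471) (nat_lit 0) (nat_lit 2523620471) (nat_lit 177) (nat_lit 1) (nat_lit 163) (nat_lit 1) (nat_lit 162) (nat_lit 1) (nat_lit 155) (nat_lit 226) (nat_lit 219)))) (XT.nd (nat_lit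 188) (nat_lit 0) (nat_lit 84) (XT.nd (nat_lit 94) (nat_lit 0) (nat_lit 0) (XT.lf (nat_lit 1260) (nat_lit 1672439604) (nat_lit 0) (nat_lit 5332155815) (nat_lit 1176) (nat_lit 1672439604) (nat_lit 178) (nat_lit 1) (nat_lit 163) (nat_lit 1) (nat_lit 177) (nat_lit 1) (nat_lit 156) (nat_lit 226) (nat_lit 218)) (XT.lf (nat_lit 1260) (nat_lit 2869799225) (nat_lit 84) (nat_lit 2833085117) (nat_lit 0) (nat_lit 2833085117) (nat_lit 178) (nat_lit 1) (nat_lit 164) (nat_lit 1) (nat_lit 163) (nat_lit 1) (nat_lit 157) (nat_lit 226) (nat_lit 217))) (XT.nd (nat_lit 94) (nat_lit 0) (nat_lit 0) (XT.lf (nat_lit 1260) (nat_lit 1188844932) (nat_lit 0) (nat_lit 6020865212) (nat_lit 1176) (nat_lit 1188844932) (nat_lit 179) (nat_lit 1) (nat_lit 164) (nat_lit 1) (nat_lit 178) (nat_lit 1) (nat_lit 158) (nat_lit 226) (nat_lit 216)) (XT.lf (nat_lit 1260) (nat_lit 1833580096) (nat_lit 84) (nat_lit 3214943120) (nat_lit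 0) (nat_lit 3214943120) (nat_lit 179) (nat_lit 1) (nat_lit 165) (nat_lit 1) (nat_lit 164) (nat_lit 1) (nat_lit 159) (nat_lit 226) (nat_lit 215)))))) (XT.nd (nat_lit 658) (nat_lit 2184) (nat_lit 0) (XT.nd (nat_lit 282) (nat_lit 2436) (nat_lit 0) (XT.nd (nat_lit 94) (nat_lit 0) (nat_lit 0) (XT.lf (nat_lit 1260) (nat_lit 643362550) (nat_lit 0) (nat_lit 6845505663) (nat_lit 1176) (nat_lit 643362550) (nat_lit 180) (nat_lit 1) (nat_lit 165) (nat_lit 1) (nat_lit 179) (nat_lit 1) (nat_lit 160) (nat_lit 226) (nat_lit 214)) (XT.nd (nat_lit 94) (nat_lit 0) (nat_lit 84) (XT.lf (nat_lit 1260) (nat_lit 680319561) (nat_lit 84) (nat_lit 3661237202) (nat_lit 0) (nat_lit 3661237202) (nat_lit 180) (nat_lit 1) (nat_lit 166) (nat_lit 1) (nat_lit 165) (nat_lit 1) (nat_lit 161) (nat_lit 226) (nat_lit 213)) (XT.lf (nat_lit 84) (nat_lit 43287479) (nat_lit 0) (nat_lit 7790893991) (nat_lit 1176) (nat_lit 43287479) (nat_lit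 167) (nat_lit 1) (nat_lit 166) (nat_lit 1) (nat_lit 180) (nat_lit 1) (nat_lit 162) (nat_lit 226) (nat_lit 212)))) (XT.nd (nat_lit 188) (nat_lit 588) (nat_lit 0) (XT.nd (nat_lit 94) (nat_lit 672) (nat_lit 0) (XT.lf (nat_lit 84) (nat_lit 3595149790) (nat_lit 0) (nat_lit 562854189) (nat_lit 1260) (nat_lit 3595149790) (nat_lit 152) (nat_lit 1) (nat_lit 151) (nat_lit 1) (nat_lit 166) (nat_lit 1) (nat_lit 163) (nat_lit 226) (nat_lit 211)) (XT.lf (nat_lit 756) (nat_lit 6437191621) (nat_lit 0) (nat_lit 597784119) (nat_lit 672) (nat_lit 597784119) (nat_lit 152) (nat_lit 1) (nat_lit 143) (nat_lit 1) (nat_lit 151) (nat_lit 1) (nat_lit 164) (nat_lit 226) (nat_lit 210))) (XT.nd (nat_lit 94) (nat_lit 588) (nat_lit 0) (XT.lf (nat_lit 84) (nat_lit 2817658291) (nat_lit 0) (nat_lit 1878610317) (nat_lit 756) (nat_lit 2817658291) (nat_lit 144) (nat_lit 1) (nat_lit 143) (nat_lit 1) (nat_lit 152) (nat_lit 1) (nat_lit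 165) (nat_lit 226) (nat_lit 209)) (XT.lf (nat_lit 672) (nat_lit 4839140708) (nat_lit 0) (nat_lit 1279623737) (nat_lit 588) (nat_lit 1279623737) (nat_lit 144) (nat_lit 1) (nat_lit 136) (nat_lit 1) (nat_lit 143) (nat_lit 1) (nat_lit 166) (nat_lit 226) (nat_lit 208))))) (XT.nd (nat_lit 282) (nat_lit 1596) (nat_lit 0) (XT.nd (nat_lit 94) (nat_lit 588) (nat_lit 0) (XT.lf (nat_lit 84) (nat_lit 2007041540) (nat_lit 0) (nat_lit 3270786349) (nat_lit 672) (nat_lit 2007041540) (nat_lit 137) (nat_lit 1) (nat_lit 136) (nat_lit 1) (nat_lit 144) (nat_lit 1) (nat_lit 167) (nat_lit 226) (nat_lit 207)) (XT.nd (nat_lit 94) (nat_lit 0) (nat_lit 0) (XT.lf (nat_lit 672) (nat_lit 3179636855) (nat_lit 0) (nat_lit 1997145817) (nat_lit 588) (nat_lit 1997145817) (nat_lit 137) (nat_lit 1) (nat_lit 129) (nat_lit 1) (nat_lit 136) (nat_lit 1) (nat_lit 168) (nat_lit 226) (nat_lit 206)) (XT.lf (nat_lit 84) (nat_lit 1168370324)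 (nat_lit 0) (nat_lit 4728758547) (nat_lit 672) (nat_lit 1168370324) (nat_lit 130) (nat_lit 1) (nat_lit 129) (nat_lit 1) (nat_lit 137) (nat_lit 1) (nat_lit 169) (nat_lit 226) (nat_lit 205)))) (XT.nd (nat_lit 188) (nat_lit 1092) (nat_lit 0) (XT.nd (nat_lit 94) (nat_lit 0) (nat_lit 0) (XT.lf (nat_lit 588) (nat_lit 1468437251) (nat_lit 0) (nat_lit 2745238133) (nat_lit 504) (nat_lit 2745238133) (nat_lit 130) (nat_lit 1) (nat_lit 123) (nat_lit 1) (nat_lit 129) (nat_lit 1) (nat_lit 170) (nat_lit 226) (nat_lit 204)) (XT.lf (nat_lit 84) (nat_lit 306281284) (nat_lit 0) (nat_lit 6242796966) (nat_lit 588) (nat_lit 306281284) (nat_lit 124) (nat_lit 1) (nat_lit 123) (nat_lit 1) (nat_lit 130) (nat_lit 1) (nat_lit 171) (nat_lit 226) (nat_lit 203))) (XT.nd (nat_lit 94) (nat_lit 504) (nat_lit 0) (XT.lf (nat_lit 84) (nat_lit 3236861120) (nat_lit 0) (nat_lit 279066999) (nat_lit 588) (nat_lit 3236861120) (nat_lit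 117) (nat_lit 1) (nat_lit 116) (nat_lit 1) (nat_lit 123) (nat_lit 1) (nat_lit 172) (nat_lit 226) (nat_lit 202)) (XT.lf (nat_lit 588) (nat_lit 5516244234) (nat_lit 0) (nat_lit 568435674) (nat_lit 504) (nat_lit 568435674) (nat_lit 117) (nat_lit 1) (nat_lit 110) (nat_lit 1) (nat_lit 116) (nat_lit 1) (nat_lit 173) (nat_lit 226) (nat_lit 201))))))))
noncomputable def ec27 : XT := (XT.nd (nat_lit 2538) (nat_lit 2268) (nat_lit 0) (XT.nd (nat_lit 1222) (nat_lit 2940) (nat_lit 0) (XT.nd (nat_lit 564) (nat_lit 1680) (nat_lit 0) (XT.nd (nat_lit 282) (nat_lit 924) (nat_lit 0) (XT.nd (nat_lit 94) (nat_lit 504) (nat_lit 0) (XT.lf (nat_lit 84) (nat_lit 2263765345) (nat_lit 0) (nat_lit 2027130641) (nat_lit 588) (nat_lit 2263765345) (nat_lit 111) (nat_lit 1) (nat_lit 110) (nat_lit 1) (nat_lit 117) (nat_lit 1) (nat_lit 174) (nat_lit 226) (nat_lit 200)) (XT.nd (nat_lit 94) (nat_lit 0) (nat_lit 0) (XT.lf (nat_lit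 588) (nat_lit 3549141296) (nat_lit 0) (nat_lit 1454806820) (nat_lit 504) (nat_lit 1454806820) (nat_lit 111) (nat_lit 1) (nat_lit 104) (nat_lit 1) (nat_lit 110) (nat_lit 1) (nat_lit 175) (nat_lit 226) (nat_lit 199)) (XT.lf (nat_lit 84) (nat_lit 1281454195) (nat_lit 0) (nat_lit 3801799282) (nat_lit 588) (nat_lit 1281454195) (nat_lit 105) (nat_lit 1) (nat_lit 104) (nat_lit 1) (nat_lit 111) (nat_lit 1) (nat_lit 176) (nat_lit 226) (nat_lit 198)))) (XT.nd (nat_lit 94) (nat_lit 504) (nat_lit 0) (XT.lf (nat_lit 504) (nat_lit 1566683368) (nat_lit 0) (nat_lit 2352845839) (nat_lit 420) (nat_lit 2352845839) (nat_lit 105) (nat_lit 1) (nat_lit 99) (nat_lit 1) (nat_lit 104) (nat_lit 1) (nat_lit 177) (nat_lit 226) (nat_lit 197)) (XT.nd (nat_lit 94) (nat_lit 504) (nat_lit 0) (XT.lf (nat_lit 84) (nat_lit 293039963) (nat_lit 0) (nat_lit 5596473888) (nat_lit 504) (nat_lit 293039963) (nat_lit 100) (nat_lit 1)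 (nat_lit 99) (nat_lit 1) (nat_lit 105) (nat_lit 1) (nat_lit 178) (nat_lit 226) (nat_lit 196)) (XT.lf (nat_lit 84) (nat_lit 2838960242) (nat_lit 0) (nat_lit 415526120) (nat_lit 504) (nat_lit 2838960242) (nat_lit 94) (nat_lit 1) (nat_lit 93) (nat_lit 1) (nat_lit 99) (nat_lit 1) (nat_lit 179) (nat_lit 226) (nat_lit 195))))) (XT.nd (nat_lit 282) (nat_lit 840) (nat_lit 0) (XT.nd (nat_lit 94) (nat_lit 420) (nat_lit 0) (XT.lf (nat_lit 504) (nat_lit 4625365464) (nat_lit 0) (nat_lit 690691379) (nat_lit 420) (nat_lit 690691379) (nat_lit 94) (nat_lit 1) (nat_lit 88) (nat_lit 1) (nat_lit 93) (nat_lit 1) (nat_lit 180) (nat_lit 226) (nat_lit 194)) (XT.nd (nat_lit 94) (nat_lit 420) (nat_lit 0) (XT.lf (nat_lit 84) (nat_lit 1777531898) (nat_lit 0) (nat_lit 2366114096) (nat_lit 504) (nat_lit 1777531898) (nat_lit 89) (nat_lit 1) (nat_lit 88) (nat_lit 1) (nat_lit 94) (nat_lit 1) (nat_lit 181) (nat_lit 226) (nat_lit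 193)) (XT.lf (nat_lit 504) (nat_lit 2493980665) (nat_lit 0) (nat_lit 1671804187) (nat_lit 420) (nat_lit 1671804187) (nat_lit 89) (nat_lit 1) (nat_lit 83) (nat_lit 1) (nat_lit 88) (nat_lit 1) (nat_lit 182) (nat_lit 226) (nat_lit 192)))) (XT.nd (nat_lit 188) (nat_lit 504) (nat_lit 0) (XT.nd (nat_lit 94) (nat_lit 336) (nat_lit 0) (XT.lf (nat_lit 84) (nat_lit 720009337) (nat_lit 0) (nat_lit 4315835598) (nat_lit 504) (nat_lit 720009337) (nat_lit 84) (nat_lit 1) (nat_lit 83) (nat_lit 1) (nat_lit 89) (nat_lit 1) (nat_lit 183) (nat_lit 226) (nat_lit 191)) (XT.lf (nat_lit 420) (nat_lit 372494572) (nat_lit 0) (nat_lit 2651362514) (nat_lit 336) (nat_lit 2651362514) (nat_lit 84) (nat_lit 1) (nat_lit 79) (nat_lit 1) (nat_lit 83) (nat_lit 1) (nat_lit 184) (nat_lit 226) (nat_lit 190))) (XT.nd (nat_lit 94) (nat_lit 0) (nat_lit 0) (XT.lf (nat_lit 504) (nat_lit 4940981974) (nat_lit 0) (nat_lit 327832066) (nat_lit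 420) (nat_lit 327832066) (nat_lit 79) (nat_lit 1) (nat_lit 73) (nat_lit 1) (nat_lit 78) (nat_lit 1) (nat_lit 185) (nat_lit 226) (nat_lit 189)) (XT.lf (nat_lit 84) (nat_lit 1911357778) (nat_lit 0) (nat_lit 1695946920) (nat_lit 504) (nat_lit 1911357778) (nat_lit 74) (nat_lit 1) (nat_lit 73) (nat_lit 1) (nat_lit 79) (nat_lit 1) (nat_lit 186) (nat_lit 226) (nat_lit 188)))))) (XT.nd (nat_lit 658) (nat_lit 1512) (nat_lit 0) (XT.nd (nat_lit 282) (nat_lit 756) (nat_lit 0) (XT.nd (nat_lit 94) (nat_lit 336) (nat_lit 0) (XT.lf (nat_lit 420) (nat_lit 2722930011) (nat_lit 0) (nat_lit 1359866062) (nat_lit 336) (nat_lit 1359866062) (nat_lit 74) (nat_lit 1) (nat_lit 69) (nat_lit 1) (nat_lit 73) (nat_lit 1) (nat_lit 187) (nat_lit 226) (nat_lit 187)) (XT.nd (nat_lit 94) (nat_lit 336) (nat_lit 0) (XT.lf (nat_lit 84) (nat_lit 814467056) (nat_lit 0) (nat_lit 3739235869) (nat_lit 420) (nat_lit 814467056) (nat_lit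 70) (nat_lit 1) (nat_lit 69) (nat_lit 1) (nat_lit 74) (nat_lit 1) (nat_lit 188) (nat_lit 226) (nat_lit 186)) (XT.lf (nat_lit 420) (nat_lit 529303518) (nat_lit 0) (nat_lit 2382725890) (nat_lit 336) (nat_lit 2382725890) (nat_lit 70) (nat_lit 1) (nat_lit 65) (nat_lit 1) (nat_lit 69) (nat_lit 1) (nat_lit 189) (nat_lit 226) (nat_lit 185)))) (XT.nd (nat_lit 188) (nat_lit 336) (nat_lit 0) (XT.nd (nat_lit 94) (nat_lit 0) (nat_lit 0) (XT.lf (nat_lit 420) (nat_lit 4690096012) (nat_lit 0) (nat_lit 266548872) (nat_lit 336) (nat_lit 266548872) (nat_lit 65) (nat_lit 1) (nat_lit 60) (nat_lit 1) (nat_lit 64) (nat_lit 1) (nat_lit 190) (nat_lit 226) (nat_lit 184)) (XT.lf (nat_lit 84) (nat_lit 1775894645) (nat_lit 0) (nat_lit 1600234424) (nat_lit 420) (nat_lit 1775894645) (nat_lit 61) (nat_lit 1) (nat_lit 60) (nat_lit 1) (nat_lit 65) (nat_lit 1) (nat_lit 191) (nat_lit 226) (nat_lit 183))) (XT.nd (nat_lit 94)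 (nat_lit 0) (nat_lit 0) (XT.lf (nat_lit 420) (nat_lit 2433732317) (nat_lit 0) (nat_lit 1324455566) (nat_lit 336) (nat_lit 1324455566) (nat_lit 61) (nat_lit 1) (nat_lit 56) (nat_lit 1) (nat_lit 60) (nat_lit 1) (nat_lit 192) (nat_lit 226) (nat_lit 182)) (XT.lf (nat_lit 84) (nat_lit 662708964) (nat_lit 0) (nat_lit 3689242356) (nat_lit 420) (nat_lit 662708964) (nat_lit 57) (nat_lit 1) (nat_lit 56) (nat_lit 1) (nat_lit 61) (nat_lit 1) (nat_lit 193) (nat_lit 226) (nat_lit 181))))) (XT.nd (nat_lit 282) (nat_lit 840) (nat_lit 0) (XT.nd (nat_lit 94) (nat_lit 420) (nat_lit 0) (XT.lf (nat_lit 336) (nat_lit 212523003) (nat_lit 0) (nat_lit 2367515375) (nat_lit 252) (nat_lit 2367515375) (nat_lit 57) (nat_lit 1) (nat_lit 53) (nat_lit 1) (nat_lit 56) (nat_lit 1) (nat_lit 194) (nat_lit 226) (nat_lit 180)) (XT.nd (nat_lit 94) (nat_lit 0) (nat_lit 0) (XT.lf (nat_lit 420) (nat_lit 4026629943) (nat_lit 0) (nat_lit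 427662460) (nat_lit 336) (nat_lit 427662460) (nat_lit 53) (nat_lit 1) (nat_lit 48) (nat_lit 1) (nat_lit 52) (nat_lit 1) (nat_lit 195) (nat_lit 226) (nat_lit 179)) (XT.lf (nat_lit 84) (nat_lit 1444826210) (nat_lit 0) (nat_lit 1927271510) (nat_lit 420) (nat_lit 1444826210) (nat_lit 49) (nat_lit 1) (nat_lit 48) (nat_lit 1) (nat_lit 53) (nat_lit 1) (nat_lit 196) (nat_lit 226) (nat_lit 178)))) (XT.nd (nat_lit 188) (nat_lit 588) (nat_lit 0) (XT.nd (nat_lit 94) (nat_lit 0) (nat_lit 0) (XT.lf (nat_lit 336) (nat_lit 1769151262) (nat_lit 0) (nat_lit 1492098914) (nat_lit 252) (nat_lit 1492098914) (nat_lit 49) (nat_lit 1) (nat_lit 45) (nat_lit 1) (nat_lit 48) (nat_lit 1) (nat_lit 197) (nat_lit 226) (nat_lit 177)) (XT.lf (nat_lit 84) (nat_lit 333069687) (nat_lit 0) (nat_lit 4025094828) (nat_lit 336) (nat_lit 333069687) (nat_lit 46) (nat_lit 1) (nat_lit 45) (nat_lit 1) (nat_lit 49) (nat_lit 1) (nat_lit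 198) (nat_lit 226) (nat_lit 176))) (XT.nd (nat_lit 94) (nat_lit 252) (nat_lit 0) (XT.lf (nat_lit 84) (nat_lit 2097066759) (nat_lit 0) (nat_lit 435360786) (nat_lit 336) (nat_lit 2097066759) (nat_lit 42) (nat_lit 1) (nat_lit 41) (nat_lit 1) (nat_lit 45) (nat_lit 1) (nat_lit 199) (nat_lit 226) (nat_lit 175)) (XT.lf (nat_lit 336) (nat_lit 3072099342) (nat_lit 0) (nat_lit 748535047) (nat_lit 252) (nat_lit 748535047) (nat_lit 42) (nat_lit 1) (nat_lit 38) (nat_lit 1) (nat_lit 41) (nat_lit 1) (nat_lit 200) (nat_lit 226) (nat_lit 174))))))) (XT.nd (nat_lit 1316) (nat_lit 252) (nat_lit 0) (XT.nd (nat_lit 658) (nat_lit 924) (nat_lit 0) (XT.nd (nat_lit 282) (nat_lit 504) (nat_lit 0) (XT.nd (nat_lit 94) (nat_lit 588) (nat_lit 0) (XT.lf (nat_lit 84) (nat_lit 976290258) (nat_lit 0) (nat_lit 2557105981) (nat_lit 336) (nat_lit 976290258) (nat_lit 39) (nat_lit 1) (nat_lit 38) (nat_lit 1) (nat_lit 42) (nat_lit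 1) (nat_lit 201) (nat_lit 226) (nat_lit 173)) (XT.nd (nat_lit 94) (nat_lit 336) (nat_lit 0) (XT.lf (nat_lit 336) (nat_lit 841767142) (nat_lit 0) (nat_lit 1804731039) (nat_lit 252) (nat_lit 1804731039) (nat_lit 39) (nat_lit 1) (nat_lit 35) (nat_lit 1) (nat_lit 38) (nat_lit 1) (nat_lit 202) (nat_lit 226) (nat_lit 172)) (XT.lf (nat_lit 336) (nat_lit 4155791129) (nat_lit 0) (nat_lit 119220068) (nat_lit 252) (nat_lit 119220068) (nat_lit 35) (nat_lit 1) (nat_lit 31) (nat_lit 1) (nat_lit 34) (nat_lit 1) (nat_lit 203) (nat_lit 226) (nat_lit 171)))) (XT.nd (nat_lit 188) (nat_lit 252) (nat_lit 0) (XT.nd (nat_lit 94) (nat_lit 252) (nat_lit 0) (XT.lf (nat_lit 84) (nat_lit 1513620430) (nat_lit 0) (nat_lit 1309982092) (nat_lit 336) (nat_lit 1513620430) (nat_lit 32) (nat_lit 1) (nat_lit 31) (nat_lit 1) (nat_lit 35) (nat_lit 1) (nat_lit 204) (nat_lit 226) (nat_lit 170)) (XT.lf (nat_lit 336) (nat_lit 1921919481)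 (nat_lit 0) (nat_lit 1179858971) (nat_lit 252) (nat_lit 1179858971) (nat_lit 32) (nat_lit 1) (nat_lit 28) (nat_lit 1) (nat_lit 31) (nat_lit 1) (nat_lit 205) (nat_lit 226) (nat_lit 169))) (XT.nd (nat_lit 94) (nat_lit 252) (nat_lit 0) (XT.lf (nat_lit 84) (nat_lit 415906151) (nat_lit 0) (nat_lit 3395369794) (nat_lit 336) (nat_lit 415906151) (nat_lit 29) (nat_lit 1) (nat_lit 28) (nat_lit 1) (nat_lit 32) (nat_lit 1) (nat_lit 206) (nat_lit 226) (nat_lit 168)) (XT.lf (nat_lit 84) (nat_lit 1959457758) (nat_lit 0) (nat_lit 254242273) (nat_lit 252) (nat_lit 1959457758) (nat_lit 26) (nat_lit 1) (nat_lit 25) (nat_lit 1) (nat_lit 28) (nat_lit 1) (nat_lit 207) (nat_lit 226) (nat_lit 167))))) (XT.nd (nat_lit 282) (nat_lit 504) (nat_lit 0) (XT.nd (nat_lit 94) (nat_lit 168) (nat_lit 0) (XT.lf (nat_lit 336) (nat_lit 2823023482) (nat_lit 0) (nat_lit 648604180) (nat_lit 252) (nat_lit 648604180) (nat_lit 26) (nat_lit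 1) (nat_lit 22) (nat_lit 1) (nat_lit 25) (nat_lit 1) (nat_lit 208) (nat_lit 226) (nat_lit 166)) (XT.nd (nat_lit 94) (nat_lit 168) (nat_lit 0) (XT.lf (nat_lit 84) (nat_lit 865817569) (nat_lit 0) (nat_lit 2336359615) (nat_lit 336) (nat_lit 865817569) (nat_lit 23) (nat_lit 1) (nat_lit 22) (nat_lit 1) (nat_lit 26) (nat_lit 1) (nat_lit 209) (nat_lit 226) (nat_lit 165)) (XT.lf (nat_lit 252) (nat_lit 650517625) (nat_lit 0) (nat_lit 1683052887) (nat_lit 168) (nat_lit 1683052887) (nat_lit 23) (nat_lit 1) (nat_lit 20) (nat_lit 1) (nat_lit 22) (nat_lit 1) (nat_lit 210) (nat_lit 226) (nat_lit 164)))) (XT.nd (nat_lit 188) (nat_lit 168) (nat_lit 0) (XT.nd (nat_lit 94) (nat_lit 0) (nat_lit 0) (XT.lf (nat_lit 336) (nat_lit 3569456160) (nat_lit 0) (nat_lit 198482183) (nat_lit 252) (nat_lit 198482183) (nat_lit 20) (nat_lit 1) (nat_lit 16) (nat_lit 1) (nat_lit 19) (nat_lit 1) (nat_lit 211) (nat_lit 226) (nat_lit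 163)) (XT.lf (nat_lit 84) (nat_lit 1240866886) (nat_lit 0) (nat_lit 1434544454) (nat_lit 336) (nat_lit 1240866886) (nat_lit 17) (nat_lit 1) (nat_lit 16) (nat_lit 1) (nat_lit 20) (nat_lit 1) (nat_lit 212) (nat_lit 226) (nat_lit 162))) (XT.nd (nat_lit 94) (nat_lit 0) (nat_lit 0) (XT.lf (nat_lit 252) (nat_lit 1414439527) (nat_lit 0) (nat_lit 1226419488) (nat_lit 168) (nat_lit 1226419488) (nat_lit 17) (nat_lit 1) (nat_lit 14) (nat_lit 1) (nat_lit 16) (nat_lit 1) (nat_lit 213) (nat_lit 226) (nat_lit 161)) (XT.lf (nat_lit 84) (nat_lit 183462931) (nat_lit 0) (nat_lit 3452458314) (nat_lit 252) (nat_lit 183462931) (nat_lit 15) (nat_lit 1) (nat_lit 14) (nat_lit 1) (nat_lit 17) (nat_lit 1) (nat_lit 214) (nat_lit 226) (nat_lit 160)))))) (XT.nd (nat_lit 32618) (nat_lit 0) (nat_lit 9912) (XT.nd (nat_lit 32242) (nat_lit 0) (nat_lit 12852) (XT.nd (nat_lit 32054) (nat_lit 0) (nat_lit 12768) (XT.lf (nat_lit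 84) (nat_lit 1551253847) (nat_lit 0) (nat_lit 669003800) (nat_lit 252) (nat_lit 1551253847) (nat_lit 12) (nat_lit 1) (nat_lit 11) (nat_lit 1) (nat_lit 14) (nat_lit 1) (nat_lit 215) (nat_lit 226) (nat_lit 159)) (XT.nd (nat_lit 94) (nat_lit 0) (nat_lit 84) (XT.lf (nat_lit 1260) (nat_lit 2970242198) (nat_lit 84) (nat_lit 2932243096) (nat_lit 0) (nat_lit 2932243096) (nat_lit 178) (nat_lit 1) (nat_lit 164) (nat_lit 1) (nat_lit 163) (nat_lit 1) (nat_lit 155) (nat_lit 227) (nat_lit 218)) (XT.lf (nat_lit 1260) (nat_lit 1230454504) (nat_lit 0) (nat_lit 6231595494) (nat_lit 1176) (nat_lit 1230454504) (nat_lit 179) (nat_lit 1) (nat_lit 164) (nat_lit 1) (nat_lit 178) (nat_lit 1) (nat_lit 156) (nat_lit 227) (nat_lit 217)))) (XT.nd (nat_lit 188) (nat_lit 0) (nat_lit 84) (XT.nd (nat_lit 94) (nat_lit 0) (nat_lit 84) (XT.lf (nat_lit 1260) (nat_lit 1897755399) (nat_lit 84) (nat_lit 3327466129) (nat_lit 0) (nat_lit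 3327466129) (nat_lit 179) (nat_lit 1) (nat_lit 165) (nat_lit 1) (nat_lit 164) (nat_lit 1) (nat_lit 157) (nat_lit 227) (nat_lit 216)) (XT.lf (nat_lit 1260) (nat_lit 665880239) (nat_lit 0) (nat_lit 7085098361) (nat_lit 1176) (nat_lit 665880239) (nat_lit 180) (nat_lit 1) (nat_lit 165) (nat_lit 1) (nat_lit 179) (nat_lit 1) (nat_lit 158) (nat_lit 227) (nat_lit 215))) (XT.nd (nat_lit 94) (nat_lit 0) (nat_lit 84) (XT.lf (nat_lit 1260) (nat_lit 704130745) (nat_lit 84) (nat_lit 3789380504) (nat_lit 0) (nat_lit 3789380504) (nat_lit 180) (nat_lit 1) (nat_lit 166) (nat_lit 1) (nat_lit 165) (nat_lit 1) (nat_lit 159) (nat_lit 227) (nat_lit 214)) (XT.lf (nat_lit 84) (nat_lit 44802541) (nat_lit 0) (nat_lit 8063575281) (nat_lit 1176) (nat_lit 44802541) (nat_lit 167) (nat_lit 1) (nat_lit 166) (nat_lit 1) (nat_lit 180) (nat_lit 1) (nat_lit 160) (nat_lit 227) (nat_lit 213))))) (XT.nd (nat_lit 282) (nat_lit 1176)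 (nat_lit 0) (XT.nd (nat_lit 94) (nat_lit 672) (nat_lit 0) (XT.lf (nat_lit 84) (nat_lit 3720980032) (nat_lit 0) (nat_lit 582554086) (nat_lit 1260) (nat_lit 3720980032) (nat_lit 152) (nat_lit 1) (nat_lit 151) (nat_lit 1) (nat_lit 166) (nat_lit 1) (nat_lit 161) (nat_lit 227) (nat_lit 212)) (XT.nd (nat_lit 94) (nat_lit 0) (nat_lit 0) (XT.lf (nat_lit 756) (nat_lit 6662493328) (nat_lit 0) (nat_lit 618706564) (nat_lit 672) (nat_lit 618706564) (nat_lit 152) (nat_lit 1) (nat_lit 143) (nat_lit 1) (nat_lit 151) (nat_lit 1) (nat_lit 162) (nat_lit 227) (nat_lit 211)) (XT.lf (nat_lit 84) (nat_lit 2916276331) (nat_lit 0) (nat_lit 1944361678) (nat_lit 756) (nat_lit 2916276331) (nat_lit 144) (nat_lit 1) (nat_lit 143) (nat_lit 1) (nat_lit 152) (nat_lit 1) (nat_lit 163) (nat_lit 227) (nat_lit 210)))) (XT.nd (nat_lit 188) (nat_lit 588) (nat_lit 0) (XT.nd (nat_lit 94) (nat_lit 0) (nat_lit 0) (XT.lf (nat_lit 672)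 (nat_lit 5008510633) (nat_lit 0) (nat_lit 1324410568) (nat_lit 588) (nat_lit 1324410568) (nat_lit 144) (nat_lit 1) (nat_lit 136) (nat_lit 1) (nat_lit 143) (nat_lit 1) (nat_lit 164) (nat_lit 227) (nat_lit 209)) (XT.lf (nat_lit 84) (nat_lit 2077287993) (nat_lit 0) (nat_lit 3385263872) (nat_lit 672) (nat_lit 2077287993) (nat_lit 137) (nat_lit 1) (nat_lit 136) (nat_lit 1) (nat_lit 144) (nat_lit 1) (nat_lit 165) (nat_lit 227) (nat_lit 208))) (XT.nd (nat_lit 94) (nat_lit 0) (nat_lit 0) (XT.lf (nat_lit 672) (nat_lit 3290924145) (nat_lit 0) (nat_lit 2067045920) (nat_lit 588) (nat_lit 2067045920) (nat_lit 137) (nat_lit 1) (nat_lit 129) (nat_lit 1) (nat_lit 136) (nat_lit 1) (nat_lit 166) (nat_lit 227) (nat_lit 207)) (XT.lf (nat_lit 84) (nat_lit 1209263286) (nat_lit 0) (nat_lit 4894265096) (nat_lit 672) (nat_lit 1209263286) (nat_lit 130) (nat_lit 1) (nat_lit 129) (nat_lit 1) (nat_lit 137) (nat_lit 1)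 (nat_lit 167) (nat_lit 227) (nat_lit 206))))))))
noncomputable def ec28 : XT := (XT.nd (nat_lit 2538) (nat_lit 3108) (nat_lit 0) (XT.nd (nat_lit 1222) (nat_lit 2940) (nat_lit 0) (XT.nd (nat_lit 564) (nat_lit 1764) (nat_lit 0) (XT.nd (nat_lit 282) (nat_lit 1008) (nat_lit 0) (XT.nd (nat_lit 94) (nat_lit 588) (nat_lit 0) (XT.lf (nat_lit 588) (nat_lit 1519832555) (nat_lit 0) (nat_lit 2841321468) (nat_lit 504) (nat_lit 2841321468) (nat_lit 130) (nat_lit 1) (nat_lit 123) (nat_lit 1) (nat_lit 129) (nat_lit 1) (nat_lit 168) (nat_lit 227) (nat_lit 205)) (XT.nd (nat_lit 94) (nat_lit 588) (nat_lit 0) (XT.lf (nat_lit 84) (nat_lit 317001129) (nat_lit 0) (nat_lit 6461294860) (nat_lit 588) (nat_lit 317001129) (nat_lit 124) (nat_lit 1) (nat_lit 123) (nat_lit 1) (nat_lit 130) (nat_lit 1) (nat_lit 169) (nat_lit 227) (nat_lit 204)) (XT.lf (nat_lit 84) (nat_lit 3350151259) (nat_lit 0) (nat_lit 288834344) (nat_lit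 588) (nat_lit 3350151259) (nat_lit 117) (nat_lit 1) (nat_lit 116) (nat_lit 1) (nat_lit 123) (nat_lit 1) (nat_lit 170) (nat_lit 227) (nat_lit 203)))) (XT.nd (nat_lit 94) (nat_lit 504) (nat_lit 0) (XT.lf (nat_lit 588) (nat_lit 5709312782) (nat_lit 0) (nat_lit 588330923) (nat_lit 504) (nat_lit 588330923) (nat_lit 117) (nat_lit 1) (nat_lit 110) (nat_lit 1) (nat_lit 116) (nat_lit 1) (nat_lit 171) (nat_lit 227) (nat_lit 202)) (XT.nd (nat_lit 94) (nat_lit 504) (nat_lit 0) (XT.lf (nat_lit 84) (nat_lit 2342997132) (nat_lit 0) (nat_lit 2098080214) (nat_lit 588) (nat_lit 2342997132) (nat_lit 111) (nat_lit 1) (nat_lit 110) (nat_lit 1) (nat_lit 117) (nat_lit 1) (nat_lit 172) (nat_lit 227) (nat_lit 201)) (XT.lf (nat_lit 588) (nat_lit 3673361241) (nat_lit 0) (nat_lit 1505725058) (nat_lit 504) (nat_lit 1505725058) (nat_lit 111) (nat_lit 1) (nat_lit 104) (nat_lit 1) (nat_lit 110) (nat_lit 1) (nat_lit 173)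 (nat_lit 227) (nat_lit 200))))) (XT.nd (nat_lit 282) (nat_lit 1344) (nat_lit 0) (XT.nd (nat_lit 94) (nat_lit 420) (nat_lit 0) (XT.lf (nat_lit 84) (nat_lit 1326305092) (nat_lit 0) (nat_lit 3934862257) (nat_lit 588) (nat_lit 1326305092) (nat_lit 105) (nat_lit 1) (nat_lit 104) (nat_lit 1) (nat_lit 111) (nat_lit 1) (nat_lit 174) (nat_lit 227) (nat_lit 199)) (XT.nd (nat_lit 94) (nat_lit 0) (nat_lit 0) (XT.lf (nat_lit 504) (nat_lit 1621517286) (nat_lit 0) (nat_lit 2435195444) (nat_lit 420) (nat_lit 2435195444) (nat_lit 105) (nat_lit 1) (nat_lit 99) (nat_lit 1) (nat_lit 104) (nat_lit 1) (nat_lit 175) (nat_lit 227) (nat_lit 198)) (XT.lf (nat_lit 84) (nat_lit 303296361) (nat_lit 0) (nat_lit 5792350474) (nat_lit 504) (nat_lit 303296361) (nat_lit 100) (nat_lit 1) (nat_lit 99) (nat_lit 1) (nat_lit 105) (nat_lit 1) (nat_lit 176) (nat_lit 227) (nat_lit 197)))) (XT.nd (nat_lit 188) (nat_lit 420) (nat_lit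 0) (XT.nd (nat_lit 94) (nat_lit 420) (nat_lit 0) (XT.lf (nat_lit 84) (nat_lit 2938323850) (nat_lit 0) (nat_lit 430069534) (nat_lit 504) (nat_lit 2938323850) (nat_lit 94) (nat_lit 1) (nat_lit 93) (nat_lit 1) (nat_lit 99) (nat_lit 1) (nat_lit 177) (nat_lit 227) (nat_lit 196)) (XT.lf (nat_lit 504) (nat_lit 4787253255) (nat_lit 0) (nat_lit 714865578) (nat_lit 420) (nat_lit 714865578) (nat_lit 94) (nat_lit 1) (nat_lit 88) (nat_lit 1) (nat_lit 93) (nat_lit 1) (nat_lit 178) (nat_lit 227) (nat_lit 195))) (XT.nd (nat_lit 94) (nat_lit 420) (nat_lit 0) (XT.lf (nat_lit 84) (nat_lit 1839745515) (nat_lit 0) (nat_lit 2448928089) (nat_lit 504) (nat_lit 1839745515) (nat_lit 89) (nat_lit 1) (nat_lit 88) (nat_lit 1) (nat_lit 94) (nat_lit 1) (nat_lit 179) (nat_lit 227) (nat_lit 194)) (XT.lf (nat_lit 504) (nat_lit 2581269988) (nat_lit 0) (nat_lit 1730317334) (nat_lit 420) (nat_lit 1730317334) (nat_lit 89) (nat_lit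 1) (nat_lit 83) (nat_lit 1) (nat_lit 88) (nat_lit 1) (nat_lit 180) (nat_lit 227) (nat_lit 193)))))) (XT.nd (nat_lit 658) (nat_lit 1428) (nat_lit 0) (XT.nd (nat_lit 282) (nat_lit 672) (nat_lit 0) (XT.nd (nat_lit 94) (nat_lit 840) (nat_lit 0) (XT.lf (nat_lit 84) (nat_lit 745209663) (nat_lit 0) (nat_lit 4466889844) (nat_lit 504) (nat_lit 745209663) (nat_lit 84) (nat_lit 1) (nat_lit 83) (nat_lit 1) (nat_lit 89) (nat_lit 1) (nat_lit 181) (nat_lit 227) (nat_lit 192)) (XT.nd (nat_lit 94) (nat_lit 504) (nat_lit 0) (XT.lf (nat_lit 420) (nat_lit 385531882) (nat_lit 0) (nat_lit 2744160202) (nat_lit 336) (nat_lit 2744160202) (nat_lit 84) (nat_lit 1) (nat_lit 79) (nat_lit 1) (nat_lit 83) (nat_lit 1) (nat_lit 182) (nat_lit 227) (nat_lit 191)) (XT.lf (nat_lit 504) (nat_lit 5113916343) (nat_lit 0) (nat_lit 339306189) (nat_lit 420) (nat_lit 339306189) (nat_lit 79) (nat_lit 1) (nat_lit 73) (nat_lit 1) (nat_lit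 78) (nat_lit 1) (nat_lit 183) (nat_lit 227) (nat_lit 190)))) (XT.nd (nat_lit 188) (nat_lit 336) (nat_lit 0) (XT.nd (nat_lit 94) (nat_lit 336) (nat_lit 0) (XT.lf (nat_lit 84) (nat_lit 1978255300) (nat_lit 0) (nat_lit 1755305063) (nat_lit 504) (nat_lit 1978255300) (nat_lit 74) (nat_lit 1) (nat_lit 73) (nat_lit 1) (nat_lit 79) (nat_lit 1) (nat_lit 184) (nat_lit 227) (nat_lit 189)) (XT.lf (nat_lit 420) (nat_lit 2818232561) (nat_lit 0) (nat_lit 1407461375) (nat_lit 336) (nat_lit 1407461375) (nat_lit 74) (nat_lit 1) (nat_lit 69) (nat_lit 1) (nat_lit 73) (nat_lit 1) (nat_lit 185) (nat_lit 227) (nat_lit 188))) (XT.nd (nat_lit 94) (nat_lit 336) (nat_lit 0) (XT.lf (nat_lit 84) (nat_lit 842973402) (nat_lit 0) (nat_lit 3870109124) (nat_lit 420) (nat_lit 842973402) (nat_lit 70) (nat_lit 1) (nat_lit 69) (nat_lit 1) (nat_lit 74) (nat_lit 1) (nat_lit 186) (nat_lit 227) (nat_lit 187)) (XT.lf (nat_lit 420)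 (nat_lit 547829141) (nat_lit 0) (nat_lit 2466121296) (nat_lit 336) (nat_lit 2466121296) (nat_lit 70) (nat_lit 1) (nat_lit 65) (nat_lit 1) (nat_lit 69) (nat_lit 1) (nat_lit 187) (nat_lit 227) (nat_lit 186))))) (XT.nd (nat_lit 282) (nat_lit 672) (nat_lit 0) (XT.nd (nat_lit 94) (nat_lit 336) (nat_lit 0) (XT.lf (nat_lit 420) (nat_lit 4854249373) (nat_lit 0) (nat_lit 275878082) (nat_lit 336) (nat_lit 275878082) (nat_lit 65) (nat_lit 1) (nat_lit 60) (nat_lit 1) (nat_lit 64) (nat_lit 1) (nat_lit 188) (nat_lit 227) (nat_lit 185)) (XT.nd (nat_lit 94) (nat_lit 336) (nat_lit 0) (XT.lf (nat_lit 84) (nat_lit 1838050957) (nat_lit 0) (nat_lit 1656242628) (nat_lit 420) (nat_lit 1838050957) (nat_lit 61) (nat_lit 1) (nat_lit 60) (nat_lit 1) (nat_lit 65) (nat_lit 1) (nat_lit 189) (nat_lit 227) (nat_lit 184)) (XT.lf (nat_lit 420) (nat_lit 2518912948) (nat_lit 0) (nat_lit 1370811511) (nat_lit 336) (nat_lit 1370811511)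 (nat_lit 61) (nat_lit 1) (nat_lit 56) (nat_lit 1) (nat_lit 60) (nat_lit 1) (nat_lit 190) (nat_lit 227) (nat_lit 183)))) (XT.nd (nat_lit 188) (nat_lit 420) (nat_lit 0) (XT.nd (nat_lit 94) (nat_lit 252) (nat_lit 0) (XT.lf (nat_lit 84) (nat_lit 685903777) (nat_lit 0) (nat_lit 3818365839) (nat_lit 420) (nat_lit 685903777) (nat_lit 57) (nat_lit 1) (nat_lit 56) (nat_lit 1) (nat_lit 61) (nat_lit 1) (nat_lit 191) (nat_lit 227) (nat_lit 182)) (XT.lf (nat_lit 336) (nat_lit 219961308) (nat_lit 0) (nat_lit 2450378414) (nat_lit 252) (nat_lit 2450378414) (nat_lit 57) (nat_lit 1) (nat_lit 53) (nat_lit 1) (nat_lit 56) (nat_lit 1) (nat_lit 192) (nat_lit 227) (nat_lit 181))) (XT.nd (nat_lit 94) (nat_lit 0) (nat_lit 0) (XT.lf (nat_lit 420) (nat_lit 4167561991) (nat_lit 0) (nat_lit 442630646) (nat_lit 336) (nat_lit 442630646) (nat_lit 53) (nat_lit 1) (nat_lit 48) (nat_lit 1) (nat_lit 52) (nat_lit 1) (nat_lit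 193) (nat_lit 227) (nat_lit 180)) (XT.lf (nat_lit 84) (nat_lit 1495395127) (nat_lit 0) (nat_lit 1994726013) (nat_lit 420) (nat_lit 1495395127) (nat_lit 49) (nat_lit 1) (nat_lit 48) (nat_lit 1) (nat_lit 53) (nat_lit 1) (nat_lit 194) (nat_lit 227) (nat_lit 179))))))) (XT.nd (nat_lit 1222) (nat_lit 924) (nat_lit 0) (XT.nd (nat_lit 564) (nat_lit 1092) (nat_lit 0) (XT.nd (nat_lit 282) (nat_lit 504) (nat_lit 0) (XT.nd (nat_lit 94) (nat_lit 336) (nat_lit 0) (XT.lf (nat_lit 336) (nat_lit 1831071557) (nat_lit 0) (nat_lit 1544322376) (nat_lit 252) (nat_lit 1544322376) (nat_lit 49) (nat_lit 1) (nat_lit 45) (nat_lit 1) (nat_lit 48) (nat_lit 1) (nat_lit 195) (nat_lit 227) (nat_lit 178)) (XT.nd (nat_lit 94) (nat_lit 336) (nat_lit 0) (XT.lf (nat_lit 84) (nat_lit 344727126) (nat_lit 0) (nat_lit 4165973147) (nat_lit 336) (nat_lit 344727126) (nat_lit 46) (nat_lit 1) (nat_lit 45) (nat_lit 1) (nat_lit 49) (nat_lit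 1) (nat_lit 196) (nat_lit 227) (nat_lit 177)) (XT.lf (nat_lit 84) (nat_lit 2170464095) (nat_lit 0) (nat_lit 450598413) (nat_lit 336) (nat_lit 2170464095) (nat_lit 42) (nat_lit 1) (nat_lit 41) (nat_lit 1) (nat_lit 45) (nat_lit 1) (nat_lit 197) (nat_lit 227) (nat_lit 176)))) (XT.nd (nat_lit 94) (nat_lit 252) (nat_lit 0) (XT.lf (nat_lit 336) (nat_lit 3179622819) (nat_lit 0) (nat_lit 774733774) (nat_lit 252) (nat_lit 774733774) (nat_lit 42) (nat_lit 1) (nat_lit 38) (nat_lit 1) (nat_lit 41) (nat_lit 1) (nat_lit 198) (nat_lit 227) (nat_lit 175)) (XT.nd (nat_lit 94) (nat_lit 252) (nat_lit 0) (XT.lf (nat_lit 84) (nat_lit 1010460417) (nat_lit 0) (nat_lit 2646604691) (nat_lit 336) (nat_lit 1010460417) (nat_lit 39) (nat_lit 1) (nat_lit 38) (nat_lit 1) (nat_lit 42) (nat_lit 1) (nat_lit 199) (nat_lit 227) (nat_lit 174)) (XT.lf (nat_lit 336) (nat_lit 871228992) (nat_lit 0) (nat_lit 1867896626) (nat_lit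 252) (nat_lit 1867896626) (nat_lit 39) (nat_lit 1) (nat_lit 35) (nat_lit 1) (nat_lit 38) (nat_lit 1) (nat_lit 200) (nat_lit 227) (nat_lit 173))))) (XT.nd (nat_lit 282) (nat_lit 504) (nat_lit 0) (XT.nd (nat_lit 94) (nat_lit 252) (nat_lit 0) (XT.lf (nat_lit 336) (nat_lit 4301243818) (nat_lit 0) (nat_lit 123392771) (nat_lit 252) (nat_lit 123392771) (nat_lit 35) (nat_lit 1) (nat_lit 31) (nat_lit 1) (nat_lit 34) (nat_lit 1) (nat_lit 201) (nat_lit 227) (nat_lit 172)) (XT.nd (nat_lit 94) (nat_lit 252) (nat_lit 0) (XT.lf (nat_lit 84) (nat_lit 1566597146) (nat_lit 0) (nat_lit 1355831466) (nat_lit 336) (nat_lit 1566597146) (nat_lit 32) (nat_lit 1) (nat_lit 31) (nat_lit 1) (nat_lit 35) (nat_lit 1) (nat_lit 202) (nat_lit 227) (nat_lit 171)) (XT.lf (nat_lit 336) (nat_lit 1989186663) (nat_lit 0) (nat_lit 1221154035) (nat_lit 252) (nat_lit 1221154035) (nat_lit 32) (nat_lit 1) (nat_lit 28) (nat_lit 1) (nat_lit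 31) (nat_lit 1) (nat_lit 203) (nat_lit 227) (nat_lit 170)))) (XT.nd (nat_lit 188) (nat_lit 252) (nat_lit 0) (XT.nd (nat_lit 94) (nat_lit 252) (nat_lit 0) (XT.lf (nat_lit 84) (nat_lit 430462866) (nat_lit 0) (nat_lit 3514207737) (nat_lit 336) (nat_lit 430462866) (nat_lit 29) (nat_lit 1) (nat_lit 28) (nat_lit 1) (nat_lit 32) (nat_lit 1) (nat_lit 204) (nat_lit 227) (nat_lit 169)) (XT.lf (nat_lit 84) (nat_lit 2028038779) (nat_lit 0) (nat_lit 263140752) (nat_lit 252) (nat_lit 2028038779) (nat_lit 26) (nat_lit 1) (nat_lit 25) (nat_lit 1) (nat_lit 28) (nat_lit 1) (nat_lit 205) (nat_lit 227) (nat_lit 168))) (XT.nd (nat_lit 94) (nat_lit 0) (nat_lit 0) (XT.lf (nat_lit 336) (nat_lit 2921829304) (nat_lit 0) (nat_lit 671305326) (nat_lit 252) (nat_lit 671305326) (nat_lit 26) (nat_lit 1) (nat_lit 22) (nat_lit 1) (nat_lit 25) (nat_lit 1) (nat_lit 206) (nat_lit 227) (nat_lit 167)) (XT.lf (nat_lit 84) (nat_lit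 896121184) (nat_lit 0) (nat_lit 2418132201) (nat_lit 336) (nat_lit 896121184) (nat_lit 23) (nat_lit 1) (nat_lit 22) (nat_lit 1) (nat_lit 26) (nat_lit 1) (nat_lit 207) (nat_lit 227) (nat_lit 166)))))) (XT.nd (nat_lit 32900) (nat_lit 0) (nat_lit 10500) (XT.nd (nat_lit 282) (nat_lit 420) (nat_lit 0) (XT.nd (nat_lit 94) (nat_lit 336) (nat_lit 0) (XT.lf (nat_lit 252) (nat_lit 673285742) (nat_lit 0) (nat_lit 1741959738) (nat_lit 168) (nat_lit 1741959738) (nat_lit 23) (nat_lit 1) (nat_lit 20) (nat_lit 1) (nat_lit 22) (nat_lit 1) (nat_lit 208) (nat_lit 227) (nat_lit 165)) (XT.nd (nat_lit 94) (nat_lit 0) (nat_lit 0) (XT.lf (nat_lit 336) (nat_lit 3694387125) (nat_lit 0) (nat_lit 205429059) (nat_lit 252) (nat_lit 205429059) (nat_lit 20) (nat_lit 1) (nat_lit 16) (nat_lit 1) (nat_lit 19) (nat_lit 1) (nat_lit 209) (nat_lit 227) (nat_lit 164)) (XT.lf (nat_lit 84) (nat_lit 1284297227) (nat_lit 0) (nat_lit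 1484753510) (nat_lit 336) (nat_lit 1284297227) (nat_lit 17) (nat_lit 1) (nat_lit 16) (nat_lit 1) (nat_lit 20) (nat_lit 1) (nat_lit 210) (nat_lit 227) (nat_lit 163)))) (XT.nd (nat_lit 188) (nat_lit 252) (nat_lit 0) (XT.nd (nat_lit 94) (nat_lit 0) (nat_lit 0) (XT.lf (nat_lit 252) (nat_lit 1463944910) (nat_lit 0) (nat_lit 1269344170) (nat_lit 168) (nat_lit 1269344170) (nat_lit 17) (nat_lit 1) (nat_lit 14) (nat_lit 1) (nat_lit 16) (nat_lit 1) (nat_lit 211) (nat_lit 227) (nat_lit 162)) (XT.lf (nat_lit 84) (nat_lit 189884134) (nat_lit 0) (nat_lit 3573294355) (nat_lit 252) (nat_lit 189884134) (nat_lit 15) (nat_lit 1) (nat_lit 14) (nat_lit 1) (nat_lit 17) (nat_lit 1) (nat_lit 212) (nat_lit 227) (nat_lit 161))) (XT.nd (nat_lit 32336) (nat_lit 0) (nat_lit 12936) (XT.lf (nat_lit 84) (nat_lit 1605547732) (nat_lit 0) (nat_lit 692418933) (nat_lit 252) (nat_lit 1605547732) (nat_lit 12) (nat_lit 1) (nat_lit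 11) (nat_lit 1) (nat_lit 14) (nat_lit 1) (nat_lit 213) (nat_lit 227) (nat_lit 160)) (XT.lf (nat_lit 1260) (nat_lit 689186047) (nat_lit 0) (nat_lit 7333076804) (nat_lit 1176) (nat_lit 689186047) (nat_lit 180) (nat_lit 1) (nat_lit 165) (nat_lit 1) (nat_lit 179) (nat_lit 1) (nat_lit 156) (nat_lit 228) (nat_lit 216))))) (XT.nd (nat_lit 282) (nat_lit 1260) (nat_lit 0) (XT.nd (nat_lit 94) (nat_lit 1176) (nat_lit 0) (XT.lf (nat_lit 1260) (nat_lit 728775321) (nat_lit 84) (nat_lit 3922008822) (nat_lit 0) (nat_lit 3922008822) (nat_lit 180) (nat_lit 1) (nat_lit 166) (nat_lit 1) (nat_lit 165) (nat_lit 1) (nat_lit 157) (nat_lit 228) (nat_lit 215)) (XT.nd (nat_lit 94) (nat_lit 1260) (nat_lit 0) (XT.lf (nat_lit 84) (nat_lit 46370630) (nat_lit 0) (nat_lit 8345800416) (nat_lit 1176) (nat_lit 46370630) (nat_lit 167) (nat_lit 1) (nat_lit 166) (nat_lit 1) (nat_lit 180) (nat_lit 1) (nat_lit 158) (nat_lit 228)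 (nat_lit 214)) (XT.lf (nat_lit 84) (nat_lit 3851214334) (nat_lit 0) (nat_lit 602943479) (nat_lit 1260) (nat_lit 3851214334) (nat_lit 152) (nat_lit 1) (nat_lit 151) (nat_lit 1) (nat_lit 166) (nat_lit 1) (nat_lit 159) (nat_lit 228) (nat_lit 213)))) (XT.nd (nat_lit 188) (nat_lit 588) (nat_lit 0) (XT.nd (nat_lit 94) (nat_lit 0) (nat_lit 0) (XT.lf (nat_lit 756) (nat_lit 6895680595) (nat_lit 0) (nat_lit 640361293) (nat_lit 672) (nat_lit 640361293) (nat_lit 152) (nat_lit 1) (nat_lit 143) (nat_lit 1) (nat_lit 151) (nat_lit 1) (nat_lit 160) (nat_lit 228) (nat_lit 212)) (XT.lf (nat_lit 84) (nat_lit 3018346002) (nat_lit 0) (nat_lit 2012414337) (nat_lit 756) (nat_lit 3018346002) (nat_lit 144) (nat_lit 1) (nat_lit 143) (nat_lit 1) (nat_lit 152) (nat_lit 1) (nat_lit 161) (nat_lit 228) (nat_lit 211))) (XT.nd (nat_lit 94) (nat_lit 0) (nat_lit 0) (XT.lf (nat_lit 672) (nat_lit 5183808505) (nat_lit 0) (nat_lit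 1370764938) (nat_lit 588) (nat_lit 1370764938) (nat_lit 144) (nat_lit 1) (nat_lit 136) (nat_lit 1) (nat_lit 143) (nat_lit 1) (nat_lit 162) (nat_lit 228) (nat_lit 210)) (XT.lf (nat_lit 84) (nat_lit 2149993073) (nat_lit 0) (nat_lit 3503748107) (nat_lit 672) (nat_lit 2149993073) (nat_lit 137) (nat_lit 1) (nat_lit 136) (nat_lit 1) (nat_lit 144) (nat_lit 1) (nat_lit 163) (nat_lit 228) (nat_lit 209))))))))
noncomputable def ec29 : XT := (XT.nd (nat_lit 2538) (nat_lit 3276) (nat_lit 0) (XT.nd (nat_lit 1222) (nat_lit 2940) (nat_lit 0) (XT.nd (nat_lit 564) (nat_lit 1848) (nat_lit 0) (XT.nd (nat_lit 282) (nat_lit 1092) (nat_lit 0) (XT.nd (nat_lit 94) (nat_lit 504) (nat_lit 0) (XT.lf (nat_lit 672) (nat_lit 3406106491) (nat_lit 0) (nat_lit 2139392527) (nat_lit 588) (nat_lit 2139392527) (nat_lit 137) (nat_lit 1) (nat_lit 129) (nat_lit 1) (nat_lit 136) (nat_lit 1) (nat_lit 164) (nat_lit 228) (nat_lit 208))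 (XT.nd (nat_lit 94) (nat_lit 504) (nat_lit 0) (XT.lf (nat_lit 84) (nat_lit 1251587501) (nat_lit 0) (nat_lit 5065564374) (nat_lit 672) (nat_lit 1251587501) (nat_lit 130) (nat_lit 1) (nat_lit 129) (nat_lit 1) (nat_lit 137) (nat_lit 1) (nat_lit 165) (nat_lit 228) (nat_lit 207)) (XT.lf (nat_lit 588) (nat_lit 1573026695) (nat_lit 0) (nat_lit 2940767720) (nat_lit 504) (nat_lit 2940767720) (nat_lit 130) (nat_lit 1) (nat_lit 123) (nat_lit 1) (nat_lit 129) (nat_lit 1) (nat_lit 166) (nat_lit 228) (nat_lit 206)))) (XT.nd (nat_lit 94) (nat_lit 1092) (nat_lit 0) (XT.lf (nat_lit 84) (nat_lit 328096168) (nat_lit 0) (nat_lit 6687440180) (nat_lit 588) (nat_lit 328096168) (nat_lit 124) (nat_lit 1) (nat_lit 123) (nat_lit 1) (nat_lit 130) (nat_lit 1) (nat_lit 167) (nat_lit 228) (nat_lit 205)) (XT.nd (nat_lit 94) (nat_lit 504) (nat_lit 0) (XT.lf (nat_lit 84) (nat_lit 3467406553) (nat_lit 0) (nat_lit 298943546)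 (nat_lit 588) (nat_lit 3467406553) (nat_lit 117) (nat_lit 1) (nat_lit 116) (nat_lit 1) (nat_lit 123) (nat_lit 1) (nat_lit 168) (nat_lit 228) (nat_lit 204)) (XT.lf (nat_lit 588) (nat_lit 5909138730) (nat_lit 0) (nat_lit 608922505) (nat_lit 504) (nat_lit 608922505) (nat_lit 117) (nat_lit 1) (nat_lit 110) (nat_lit 1) (nat_lit 116) (nat_lit 1) (nat_lit 169) (nat_lit 228) (nat_lit 203))))) (XT.nd (nat_lit 282) (nat_lit 1344) (nat_lit 0) (XT.nd (nat_lit 94) (nat_lit 504) (nat_lit 0) (XT.lf (nat_lit 84) (nat_lit 2425002032) (nat_lit 0) (nat_lit 2171513021) (nat_lit 588) (nat_lit 2425002032) (nat_lit 111) (nat_lit 1) (nat_lit 110) (nat_lit 1) (nat_lit 117) (nat_lit 1) (nat_lit 170) (nat_lit 228) (nat_lit 202)) (XT.nd (nat_lit 94) (nat_lit 0) (nat_lit 0) (XT.lf (nat_lit 588) (nat_lit 3801928885) (nat_lit 0) (nat_lit 1558425435) (nat_lit 504) (nat_lit 1558425435) (nat_lit 111) (nat_lit 1) (nat_lit 104)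 (nat_lit 1) (nat_lit 110) (nat_lit 1) (nat_lit 171) (nat_lit 228) (nat_lit 201)) (XT.lf (nat_lit 84) (nat_lit 1372725770) (nat_lit 0) (nat_lit 4072582436) (nat_lit 588) (nat_lit 1372725770) (nat_lit 105) (nat_lit 1) (nat_lit 104) (nat_lit 1) (nat_lit 111) (nat_lit 1) (nat_lit 172) (nat_lit 228) (nat_lit 200)))) (XT.nd (nat_lit 188) (nat_lit 924) (nat_lit 0) (XT.nd (nat_lit 94) (nat_lit 0) (nat_lit 0) (XT.lf (nat_lit 504) (nat_lit 1678270391) (nat_lit 0) (nat_lit 2520427284) (nat_lit 420) (nat_lit 2520427284) (nat_lit 105) (nat_lit 1) (nat_lit 99) (nat_lit 1) (nat_lit 104) (nat_lit 1) (nat_lit 173) (nat_lit 228) (nat_lit 199)) (XT.lf (nat_lit 84) (nat_lit 313911734) (nat_lit 0) (nat_lit 5995082741) (nat_lit 504) (nat_lit 313911734) (nat_lit 100) (nat_lit 1) (nat_lit 99) (nat_lit 1) (nat_lit 105) (nat_lit 1) (nat_lit 174) (nat_lit 228) (nat_lit 198))) (XT.nd (nat_lit 94) (nat_lit 420) (nat_lit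 0) (XT.lf (nat_lit 84) (nat_lit 3041165185) (nat_lit 0) (nat_lit 445121968) (nat_lit 504) (nat_lit 3041165185) (nat_lit 94) (nat_lit 1) (nat_lit 93) (nat_lit 1) (nat_lit 99) (nat_lit 1) (nat_lit 175) (nat_lit 228) (nat_lit 197)) (XT.lf (nat_lit 504) (nat_lit 4954807119) (nat_lit 0) (nat_lit 739885873) (nat_lit 420) (nat_lit 739885873) (nat_lit 94) (nat_lit 1) (nat_lit 88) (nat_lit 1) (nat_lit 93) (nat_lit 1) (nat_lit 176) (nat_lit 228) (nat_lit 196)))))) (XT.nd (nat_lit 658) (nat_lit 1344) (nat_lit 0) (XT.nd (nat_lit 282) (nat_lit 1176) (nat_lit 0) (XT.nd (nat_lit 94) (nat_lit 420) (nat_lit 0) (XT.lf (nat_lit 84) (nat_lit 1904136608) (nat_lit 0) (nat_lit 2534640572) (nat_lit 504) (nat_lit 1904136608) (nat_lit 89) (nat_lit 1) (nat_lit 88) (nat_lit 1) (nat_lit 94) (nat_lit 1) (nat_lit 177) (nat_lit 228) (nat_lit 195)) (XT.nd (nat_lit 94) (nat_lit 0) (nat_lit 0) (XT.lf (nat_lit 504) (nat_lit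 2671614438) (nat_lit 0) (nat_lit 1790878440) (nat_lit 420) (nat_lit 1790878440) (nat_lit 89) (nat_lit 1) (nat_lit 83) (nat_lit 1) (nat_lit 88) (nat_lit 1) (nat_lit 178) (nat_lit 228) (nat_lit 194)) (XT.lf (nat_lit 84) (nat_lit 771292002) (nat_lit 0) (nat_lit 4623230988) (nat_lit 504) (nat_lit 771292002) (nat_lit 84) (nat_lit 1) (nat_lit 83) (nat_lit 1) (nat_lit 89) (nat_lit 1) (nat_lit 179) (nat_lit 228) (nat_lit 193)))) (XT.nd (nat_lit 188) (nat_lit 336) (nat_lit 0) (XT.nd (nat_lit 94) (nat_lit 504) (nat_lit 0) (XT.lf (nat_lit 420) (nat_lit 399025498) (nat_lit 0) (nat_lit 2840205809) (nat_lit 336) (nat_lit 2840205809) (nat_lit 84) (nat_lit 1) (nat_lit 79) (nat_lit 1) (nat_lit 83) (nat_lit 1) (nat_lit 180) (nat_lit 228) (nat_lit 192)) (XT.lf (nat_lit 504) (nat_lit 5292903415) (nat_lit 0) (nat_lit 351181905) (nat_lit 420) (nat_lit 351181905) (nat_lit 79) (nat_lit 1) (nat_lit 73) (nat_lit 1)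 (nat_lit 78) (nat_lit 1) (nat_lit 181) (nat_lit 228) (nat_lit 191))) (XT.nd (nat_lit 94) (nat_lit 336) (nat_lit 0) (XT.lf (nat_lit 84) (nat_lit 2047494235) (nat_lit 0) (nat_lit 1816740740) (nat_lit 504) (nat_lit 2047494235) (nat_lit 74) (nat_lit 1) (nat_lit 73) (nat_lit 1) (nat_lit 79) (nat_lit 1) (nat_lit 182) (nat_lit 228) (nat_lit 190)) (XT.lf (nat_lit 420) (nat_lit 2916870701) (nat_lit 0) (nat_lit 1456722523) (nat_lit 336) (nat_lit 1456722523) (nat_lit 74) (nat_lit 1) (nat_lit 69) (nat_lit 1) (nat_lit 73) (nat_lit 1) (nat_lit 183) (nat_lit 228) (nat_lit 189))))) (XT.nd (nat_lit 282) (nat_lit 588) (nat_lit 0) (XT.nd (nat_lit 94) (nat_lit 756) (nat_lit 0) (XT.lf (nat_lit 84) (nat_lit 872477472) (nat_lit 0) (nat_lit 4005562943) (nat_lit 420) (nat_lit 872477472) (nat_lit 70) (nat_lit 1) (nat_lit 69) (nat_lit 1) (nat_lit 74) (nat_lit 1) (nat_lit 184) (nat_lit 228) (nat_lit 188)) (XT.nd (nat_lit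 94) (nat_lit 420) (nat_lit 0) (XT.lf (nat_lit 420) (nat_lit 567003161) (nat_lit 0) (nat_lit 2552435541) (nat_lit 336) (nat_lit 2552435541) (nat_lit 70) (nat_lit 1) (nat_lit 65) (nat_lit 1) (nat_lit 69) (nat_lit 1) (nat_lit 185) (nat_lit 228) (nat_lit 187)) (XT.lf (nat_lit 420) (nat_lit 5024148101) (nat_lit 0) (nat_lit 285533815) (nat_lit 336) (nat_lit 285533815) (nat_lit 65) (nat_lit 1) (nat_lit 60) (nat_lit 1) (nat_lit 64) (nat_lit 1) (nat_lit 186) (nat_lit 228) (nat_lit 186)))) (XT.nd (nat_lit 188) (nat_lit 252) (nat_lit 0) (XT.nd (nat_lit 94) (nat_lit 336) (nat_lit 0) (XT.lf (nat_lit 84) (nat_lit 1902382741) (nat_lit 0) (nat_lit 1714211120) (nat_lit 420) (nat_lit 1902382741) (nat_lit 61) (nat_lit 1) (nat_lit 60) (nat_lit 1) (nat_lit 65) (nat_lit 1) (nat_lit 187) (nat_lit 228) (nat_lit 185)) (XT.lf (nat_lit 420) (nat_lit 2607074901) (nat_lit 0) (nat_lit 1418789914) (nat_lit 336) (nat_lit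 1418789914) (nat_lit 61) (nat_lit 1) (nat_lit 56) (nat_lit 1) (nat_lit 60) (nat_lit 1) (nat_lit 188) (nat_lit 228) (nat_lit 184))) (XT.nd (nat_lit 94) (nat_lit 252) (nat_lit 0) (XT.lf (nat_lit 84) (nat_lit 709910410) (nat_lit 0) (nat_lit 3952008643) (nat_lit 420) (nat_lit 709910410) (nat_lit 57) (nat_lit 1) (nat_lit 56) (nat_lit 1) (nat_lit 61) (nat_lit 1) (nat_lit 189) (nat_lit 228) (nat_lit 183)) (XT.lf (nat_lit 336) (nat_lit 227659954) (nat_lit 0) (nat_lit 2536141658) (nat_lit 252) (nat_lit 2536141658) (nat_lit 57) (nat_lit 1) (nat_lit 53) (nat_lit 1) (nat_lit 56) (nat_lit 1) (nat_lit 190) (nat_lit 228) (nat_lit 182))))))) (XT.nd (nat_lit 1316) (nat_lit 672) (nat_lit 0) (XT.nd (nat_lit 658) (nat_lit 1344) (nat_lit 0) (XT.nd (nat_lit 282) (nat_lit 588) (nat_lit 0) (XT.nd (nat_lit 94) (nat_lit 252) (nat_lit 0) (XT.lf (nat_lit 420) (nat_lit 4313426661) (nat_lit 0) (nat_lit 458122719) (nat_lit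 336) (nat_lit 458122719) (nat_lit 53) (nat_lit 1) (nat_lit 48) (nat_lit 1) (nat_lit 52) (nat_lit 1) (nat_lit 191) (nat_lit 228) (nat_lit 181)) (XT.nd (nat_lit 94) (nat_lit 252) (nat_lit 0) (XT.lf (nat_lit 84) (nat_lit 1547733957) (nat_lit 0) (nat_lit 2064541424) (nat_lit 420) (nat_lit 1547733957) (nat_lit 49) (nat_lit 1) (nat_lit 48) (nat_lit 1) (nat_lit 53) (nat_lit 1) (nat_lit 192) (nat_lit 228) (nat_lit 180)) (XT.lf (nat_lit 336) (nat_lit 1895159061) (nat_lit 0) (nat_lit 1598373660) (nat_lit 252) (nat_lit 1598373660) (nat_lit 49) (nat_lit 1) (nat_lit 45) (nat_lit 1) (nat_lit 48) (nat_lit 1) (nat_lit 193) (nat_lit 228) (nat_lit 179)))) (XT.nd (nat_lit 188) (nat_lit 252) (nat_lit 0) (XT.nd (nat_lit 94) (nat_lit 336) (nat_lit 0) (XT.lf (nat_lit 84) (nat_lit 356792575) (nat_lit 0) (nat_lit 4311782207) (nat_lit 336) (nat_lit 356792575) (nat_lit 46) (nat_lit 1) (nat_lit 45) (nat_lit 1) (nat_lit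 49) (nat_lit 1) (nat_lit 194) (nat_lit 228) (nat_lit 178)) (XT.lf (nat_lit 84) (nat_lit 2246430339) (nat_lit 0) (nat_lit 466369358) (nat_lit 336) (nat_lit 2246430339) (nat_lit 42) (nat_lit 1) (nat_lit 41) (nat_lit 1) (nat_lit 45) (nat_lit 1) (nat_lit 195) (nat_lit 228) (nat_lit 177))) (XT.nd (nat_lit 94) (nat_lit 0) (nat_lit 0) (XT.lf (nat_lit 336) (nat_lit 3290909618) (nat_lit 0) (nat_lit 801849456) (nat_lit 252) (nat_lit 801849456) (nat_lit 42) (nat_lit 1) (nat_lit 38) (nat_lit 1) (nat_lit 41) (nat_lit 1) (nat_lit 196) (nat_lit 228) (nat_lit 176)) (XT.lf (nat_lit 84) (nat_lit 1045826532) (nat_lit 0) (nat_lit 2739235855) (nat_lit 336) (nat_lit 1045826532) (nat_lit 39) (nat_lit 1) (nat_lit 38) (nat_lit 1) (nat_lit 42) (nat_lit 1) (nat_lit 197) (nat_lit 228) (nat_lit 175))))) (XT.nd (nat_lit 282) (nat_lit 756) (nat_lit 0) (XT.nd (nat_lit 94) (nat_lit 336) (nat_lit 0) (XT.lf (nat_lit 336) (nat_lit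 901722007) (nat_lit 0) (nat_lit 1933273008) (nat_lit 252) (nat_lit 1933273008) (nat_lit 39) (nat_lit 1) (nat_lit 35) (nat_lit 1) (nat_lit 38) (nat_lit 1) (nat_lit 198) (nat_lit 228) (nat_lit 174)) (XT.nd (nat_lit 94) (nat_lit 0) (nat_lit 0) (XT.lf (nat_lit 336) (nat_lit 4451787352) (nat_lit 0) (nat_lit 127711518) (nat_lit 252) (nat_lit 127711518) (nat_lit 35) (nat_lit 1) (nat_lit 31) (nat_lit 1) (nat_lit 34) (nat_lit 1) (nat_lit 199) (nat_lit 228) (nat_lit 173)) (XT.lf (nat_lit 84) (nat_lit 1621428046) (nat_lit 0) (nat_lit 1403285567) (nat_lit 336) (nat_lit 1621428046) (nat_lit 32) (nat_lit 1) (nat_lit 31) (nat_lit 1) (nat_lit 35) (nat_lit 1) (nat_lit 200) (nat_lit 228) (nat_lit 172)))) (XT.nd (nat_lit 188) (nat_lit 504) (nat_lit 0) (XT.nd (nat_lit 94) (nat_lit 0) (nat_lit 0) (XT.lf (nat_lit 336) (nat_lit 2058808196) (nat_lit 0) (nat_lit 1263894426) (nat_lit 252) (nat_lit 1263894426) (nat_lit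 32) (nat_lit 1) (nat_lit 28) (nat_lit 1) (nat_lit 31) (nat_lit 1) (nat_lit 201) (nat_lit 228) (nat_lit 171)) (XT.lf (nat_lit 84) (nat_lit 445529066) (nat_lit 0) (nat_lit 3637205007) (nat_lit 336) (nat_lit 445529066) (nat_lit 29) (nat_lit 1) (nat_lit 28) (nat_lit 1) (nat_lit 32) (nat_lit 1) (nat_lit 202) (nat_lit 228) (nat_lit 170))) (XT.nd (nat_lit 94) (nat_lit 252) (nat_lit 0) (XT.lf (nat_lit 84) (nat_lit 2099020137) (nat_lit 0) (nat_lit 272350679) (nat_lit 252) (nat_lit 2099020137) (nat_lit 26) (nat_lit 1) (nat_lit 25) (nat_lit 1) (nat_lit 28) (nat_lit 1) (nat_lit 203) (nat_lit 228) (nat_lit 169)) (XT.lf (nat_lit 336) (nat_lit 3024093329) (nat_lit 0) (nat_lit 694801013) (nat_lit 252) (nat_lit 694801013) (nat_lit 26) (nat_lit 1) (nat_lit 22) (nat_lit 1) (nat_lit 25) (nat_lit 1) (nat_lit 204) (nat_lit 228) (nat_lit 168)))))) (XT.nd (nat_lit 33370) (nat_lit 0) (nat_lit 9156) (XT.nd (nat_lit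 282) (nat_lit 168) (nat_lit 0) (XT.nd (nat_lit 94) (nat_lit 504) (nat_lit 0) (XT.lf (nat_lit 84) (nat_lit 927485425) (nat_lit 0) (nat_lit 2502766828) (nat_lit 336) (nat_lit 927485425) (nat_lit 23) (nat_lit 1) (nat_lit 22) (nat_lit 1) (nat_lit 26) (nat_lit 1) (nat_lit 205) (nat_lit 228) (nat_lit 167)) (XT.nd (nat_lit 94) (nat_lit 336) (nat_lit 0) (XT.lf (nat_lit 252) (nat_lit 696850743) (nat_lit 0) (nat_lit 1802928329) (nat_lit 168) (nat_lit 1802928329) (nat_lit 23) (nat_lit 1) (nat_lit 20) (nat_lit 1) (nat_lit 22) (nat_lit 1) (nat_lit 206) (nat_lit 228) (nat_lit 166)) (XT.lf (nat_lit 336) (nat_lit 3823690675) (nat_lit 0) (nat_lit 212619076) (nat_lit 252) (nat_lit 212619076) (nat_lit 20) (nat_lit 1) (nat_lit 16) (nat_lit 1) (nat_lit 19) (nat_lit 1) (nat_lit 207) (nat_lit 228) (nat_lit 165)))) (XT.nd (nat_lit 188) (nat_lit 0) (nat_lit 0) (XT.nd (nat_lit 94) (nat_lit 168) (nat_lit 0) (XT.lf (nat_lit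 84) (nat_lit 1329247630) (nat_lit 0) (nat_lit 1536719883) (nat_lit 336) (nat_lit 1329247630) (nat_lit 17) (nat_lit 1) (nat_lit 16) (nat_lit 1) (nat_lit 20) (nat_lit 1) (nat_lit 208) (nat_lit 228) (nat_lit 164)) (XT.lf (nat_lit 252) (nat_lit 1515182982) (nat_lit 0) (nat_lit 1313771216) (nat_lit 168) (nat_lit 1313771216) (nat_lit 17) (nat_lit 1) (nat_lit 14) (nat_lit 1) (nat_lit 16) (nat_lit 1) (nat_lit 209) (nat_lit 228) (nat_lit 163))) (XT.nd (nat_lit 32806) (nat_lit 0) (nat_lit 10836) (XT.lf (nat_lit 84) (nat_lit 196530079) (nat_lit 0) (nat_lit 3698359657) (nat_lit 252) (nat_lit 196530079) (nat_lit 15) (nat_lit 1) (nat_lit 14) (nat_lit 1) (nat_lit 17) (nat_lit 1) (nat_lit 210) (nat_lit 228) (nat_lit 162)) (XT.lf (nat_lit 756) (nat_lit 7137029415) (nat_lit 0) (nat_lit 662773939) (nat_lit 672) (nat_lit 662773939) (nat_lit 152) (nat_lit 1) (nat_lit 143) (nat_lit 1) (nat_lit 151) (nat_lit 1)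 (nat_lit 158) (nat_lit 229) (nat_lit 213))))) (XT.nd (nat_lit 282) (nat_lit 1092) (nat_lit 0) (XT.nd (nat_lit 94) (nat_lit 588) (nat_lit 0) (XT.lf (nat_lit 84) (nat_lit 3123988113) (nat_lit 0) (nat_lit 2082848838) (nat_lit 756) (nat_lit 3123988113) (nat_lit 144) (nat_lit 1) (nat_lit 143) (nat_lit 1) (nat_lit 152) (nat_lit 1) (nat_lit 159) (nat_lit 229) (nat_lit 212)) (XT.nd (nat_lit 94) (nat_lit 0) (nat_lit 0) (XT.lf (nat_lit 672) (nat_lit 5365241803) (nat_lit 0) (nat_lit 1418741711) (nat_lit 588) (nat_lit 1418741711) (nat_lit 144) (nat_lit 1) (nat_lit 136) (nat_lit 1) (nat_lit 143) (nat_lit 1) (nat_lit 160) (nat_lit 229) (nat_lit 211)) (XT.lf (nat_lit 84) (nat_lit 2225242831) (nat_lit 0) (nat_lit 3626379291) (nat_lit 672) (nat_lit 2225242831) (nat_lit 137) (nat_lit 1) (nat_lit 136) (nat_lit 1) (nat_lit 144) (nat_lit 1) (nat_lit 161) (nat_lit 229) (nat_lit 210)))) (XT.nd (nat_lit 188) (nat_lit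 504) (nat_lit 0) (XT.nd (nat_lit 94) (nat_lit 0) (nat_lit 0) (XT.lf (nat_lit 672) (nat_lit 3525320218) (nat_lit 0) (nat_lit 2214271266) (nat_lit 588) (nat_lit 2214271266) (nat_lit 137) (nat_lit 1) (nat_lit 129) (nat_lit 1) (nat_lit 136) (nat_lit 1) (nat_lit 162) (nat_lit 229) (nat_lit 209)) (XT.lf (nat_lit 84) (nat_lit 1295393063) (nat_lit 0) (nat_lit 5242859127) (nat_lit 672) (nat_lit 1295393063) (nat_lit 130) (nat_lit 1) (nat_lit 129) (nat_lit 1) (nat_lit 137) (nat_lit 1) (nat_lit 163) (nat_lit 229) (nat_lit 208))) (XT.nd (nat_lit 94) (nat_lit 0) (nat_lit 0) (XT.lf (nat_lit 588) (nat_lit 1628082629) (nat_lit 0) (nat_lit 3043694590) (nat_lit 504) (nat_lit 3043694590) (nat_lit 130) (nat_lit 1) (nat_lit 123) (nat_lit 1) (nat_lit 129) (nat_lit 1) (nat_lit 164) (nat_lit 229) (nat_lit 207)) (XT.lf (nat_lit 84) (nat_lit 339579534) (nat_lit 0) (nat_lit 6921500586) (nat_lit 588) (nat_lit 339579534)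 (nat_lit 124) (nat_lit 1) (nat_lit 123) (nat_lit 1) (nat_lit 130) (nat_lit 1) (nat_lit 165) (nat_lit 229) (nat_lit 206))))))))
noncomputable def ec30 : XT := (XT.nd (nat_lit 2538) (nat_lit 2604) (nat_lit 0) (XT.nd (nat_lit 1222) (nat_lit 2856) (nat_lit 0) (XT.nd (nat_lit 564) (nat_lit 1680) (nat_lit 0) (XT.nd (nat_lit 282) (nat_lit 924) (nat_lit 0) (XT.nd (nat_lit 94) (nat_lit 504) (nat_lit 0) (XT.lf (nat_lit 84) (nat_lit 3588765783) (nat_lit 0) (nat_lit 309406570) (nat_lit 588) (nat_lit 3588765783) (nat_lit 117) (nat_lit 1) (nat_lit 116) (nat_lit 1) (nat_lit 123) (nat_lit 1) (nat_lit 166) (nat_lit 229) (nat_lit 205)) (XT.nd (nat_lit 94) (nat_lit 0) (nat_lit 0) (XT.lf (nat_lit 588) (nat_lit 6115958585) (nat_lit 0) (nat_lit 630234793) (nat_lit 504) (nat_lit 630234793) (nat_lit 117) (nat_lit 1) (nat_lit 110) (nat_lit 1) (nat_lit 116) (nat_lit 1) (nat_lit 167) (nat_lit 229) (nat_lit 204)) (XT.lf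 (nat_lit 84) (nat_lit 2509877103) (nat_lit 0) (nat_lit 2247515977) (nat_lit 588) (nat_lit 2509877103) (nat_lit 111) (nat_lit 1) (nat_lit 110) (nat_lit 1) (nat_lit 117) (nat_lit 1) (nat_lit 168) (nat_lit 229) (nat_lit 203)))) (XT.nd (nat_lit 94) (nat_lit 420) (nat_lit 0) (XT.lf (nat_lit 588) (nat_lit 3934996396) (nat_lit 0) (nat_lit 1612970326) (nat_lit 504) (nat_lit 1612970326) (nat_lit 111) (nat_lit 1) (nat_lit 104) (nat_lit 1) (nat_lit 110) (nat_lit 1) (nat_lit 169) (nat_lit 229) (nat_lit 202)) (XT.nd (nat_lit 94) (nat_lit 420) (nat_lit 0) (XT.lf (nat_lit 84) (nat_lit 1420771172) (nat_lit 0) (nat_lit 4215122821) (nat_lit 588) (nat_lit 1420771172) (nat_lit 105) (nat_lit 1) (nat_lit 104) (nat_lit 1) (nat_lit 111) (nat_lit 1) (nat_lit 170) (nat_lit 229) (nat_lit 201)) (XT.lf (nat_lit 504) (nat_lit 1737009855) (nat_lit 0) (nat_lit 2608642239) (nat_lit 420) (nat_lit 2608642239) (nat_lit 105)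 (nat_lit 1) (nat_lit 99) (nat_lit 1) (nat_lit 104) (nat_lit 1) (nat_lit 171) (nat_lit 229) (nat_lit 200))))) (XT.nd (nat_lit 282) (nat_lit 756) (nat_lit 0) (XT.nd (nat_lit 94) (nat_lit 924) (nat_lit 0) (XT.lf (nat_lit 84) (nat_lit 324898645) (nat_lit 0) (nat_lit 6204910636) (nat_lit 504) (nat_lit 324898645) (nat_lit 100) (nat_lit 1) (nat_lit 99) (nat_lit 1) (nat_lit 105) (nat_lit 1) (nat_lit 172) (nat_lit 229) (nat_lit 199)) (XT.nd (nat_lit 94) (nat_lit 420) (nat_lit 0) (XT.lf (nat_lit 84) (nat_lit 3147605967) (nat_lit 0) (nat_lit 460701236) (nat_lit 504) (nat_lit 3147605967) (nat_lit 94) (nat_lit 1) (nat_lit 93) (nat_lit 1) (nat_lit 99) (nat_lit 1) (nat_lit 173) (nat_lit 229) (nat_lit 198)) (XT.lf (nat_lit 504) (nat_lit 5128225368) (nat_lit 0) (nat_lit 765781878) (nat_lit 420) (nat_lit 765781878) (nat_lit 94) (nat_lit 1) (nat_lit 88) (nat_lit 1) (nat_lit 93) (nat_lit 1) (nat_lit 174) (nat_lit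 229) (nat_lit 197)))) (XT.nd (nat_lit 188) (nat_lit 336) (nat_lit 0) (XT.nd (nat_lit 94) (nat_lit 420) (nat_lit 0) (XT.lf (nat_lit 84) (nat_lit 1970781389) (nat_lit 0) (nat_lit 2623352992) (nat_lit 504) (nat_lit 1970781389) (nat_lit 89) (nat_lit 1) (nat_lit 88) (nat_lit 1) (nat_lit 94) (nat_lit 1) (nat_lit 175) (nat_lit 229) (nat_lit 196)) (XT.lf (nat_lit 504) (nat_lit 2765120943) (nat_lit 0) (nat_lit 1853559186) (nat_lit 420) (nat_lit 1853559186) (nat_lit 89) (nat_lit 1) (nat_lit 83) (nat_lit 1) (nat_lit 88) (nat_lit 1) (nat_lit 176) (nat_lit 229) (nat_lit 195))) (XT.nd (nat_lit 94) (nat_lit 336) (nat_lit 0) (XT.lf (nat_lit 84) (nat_lit 798287222) (nat_lit 0) (nat_lit 4785044073) (nat_lit 504) (nat_lit 798287222) (nat_lit 84) (nat_lit 1) (nat_lit 83) (nat_lit 1) (nat_lit 89) (nat_lit 1) (nat_lit 177) (nat_lit 229) (nat_lit 194)) (XT.lf (nat_lit 420) (nat_lit 412991390) (nat_lit 0) (nat_lit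 2939613013) (nat_lit 336) (nat_lit 2939613013) (nat_lit 84) (nat_lit 1) (nat_lit 79) (nat_lit 1) (nat_lit 83) (nat_lit 1) (nat_lit 178) (nat_lit 229) (nat_lit 193)))))) (XT.nd (nat_lit 658) (nat_lit 1260) (nat_lit 0) (XT.nd (nat_lit 282) (nat_lit 756) (nat_lit 0) (XT.nd (nat_lit 94) (nat_lit 336) (nat_lit 0) (XT.lf (nat_lit 504) (nat_lit 5478155034) (nat_lit 0) (nat_lit 363473272) (nat_lit 420) (nat_lit 363473272) (nat_lit 79) (nat_lit 1) (nat_lit 73) (nat_lit 1) (nat_lit 78) (nat_lit 1) (nat_lit 179) (nat_lit 229) (nat_lit 192)) (XT.nd (nat_lit 94) (nat_lit 336) (nat_lit 0) (XT.lf (nat_lit 84) (nat_lit 2119156534) (nat_lit 0) (nat_lit 1880326666) (nat_lit 504) (nat_lit 2119156534) (nat_lit 74) (nat_lit 1) (nat_lit 73) (nat_lit 1) (nat_lit 79) (nat_lit 1) (nat_lit 180) (nat_lit 229) (nat_lit 191)) (XT.lf (nat_lit 420) (nat_lit 3018961175) (nat_lit 0) (nat_lit 1507707811) (nat_lit 336) (nat_lit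 1507707811) (nat_lit 74) (nat_lit 1) (nat_lit 69) (nat_lit 1) (nat_lit 73) (nat_lit 1) (nat_lit 181) (nat_lit 229) (nat_lit 190)))) (XT.nd (nat_lit 188) (nat_lit 420) (nat_lit 0) (XT.nd (nat_lit 94) (nat_lit 336) (nat_lit 0) (XT.lf (nat_lit 84) (nat_lit 903014183) (nat_lit 0) (nat_lit 4145757646) (nat_lit 420) (nat_lit 903014183) (nat_lit 70) (nat_lit 1) (nat_lit 69) (nat_lit 1) (nat_lit 74) (nat_lit 1) (nat_lit 182) (nat_lit 229) (nat_lit 189)) (XT.lf (nat_lit 420) (nat_lit 586848272) (nat_lit 0) (nat_lit 2641770785) (nat_lit 336) (nat_lit 2641770785) (nat_lit 70) (nat_lit 1) (nat_lit 65) (nat_lit 1) (nat_lit 69) (nat_lit 1) (nat_lit 183) (nat_lit 229) (nat_lit 188))) (XT.nd (nat_lit 94) (nat_lit 0) (nat_lit 0) (XT.lf (nat_lit 420) (nat_lit 5199993284) (nat_lit 0) (nat_lit 295527499) (nat_lit 336) (nat_lit 295527499) (nat_lit 65) (nat_lit 1) (nat_lit 60) (nat_lit 1) (nat_lit 64) (nat_lit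 1) (nat_lit 184) (nat_lit 229) (nat_lit 187)) (XT.lf (nat_lit 84) (nat_lit 1968966137) (nat_lit 0) (nat_lit 1774208510) (nat_lit 420) (nat_lit 1968966137) (nat_lit 61) (nat_lit 1) (nat_lit 60) (nat_lit 1) (nat_lit 65) (nat_lit 1) (nat_lit 185) (nat_lit 229) (nat_lit 186))))) (XT.nd (nat_lit 282) (nat_lit 672) (nat_lit 0) (XT.nd (nat_lit 94) (nat_lit 252) (nat_lit 0) (XT.lf (nat_lit 420) (nat_lit 2698322523) (nat_lit 0) (nat_lit 1468447561) (nat_lit 336) (nat_lit 1468447561) (nat_lit 61) (nat_lit 1) (nat_lit 56) (nat_lit 1) (nat_lit 60) (nat_lit 1) (nat_lit 186) (nat_lit 229) (nat_lit 185)) (XT.nd (nat_lit 94) (nat_lit 252) (nat_lit 0) (XT.lf (nat_lit 84) (nat_lit 734757274) (nat_lit 0) (nat_lit 4090328945) (nat_lit 420) (nat_lit 734757274) (nat_lit 57) (nat_lit 1) (nat_lit 56) (nat_lit 1) (nat_lit 61) (nat_lit 1) (nat_lit 187) (nat_lit 229) (nat_lit 184)) (XT.lf (nat_lit 336) (nat_lit 235628052)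 (nat_lit 0) (nat_lit 2624906616) (nat_lit 252) (nat_lit 2624906616) (nat_lit 57) (nat_lit 1) (nat_lit 53) (nat_lit 1) (nat_lit 56) (nat_lit 1) (nat_lit 188) (nat_lit 229) (nat_lit 183)))) (XT.nd (nat_lit 188) (nat_lit 252) (nat_lit 0) (XT.nd (nat_lit 94) (nat_lit 0) (nat_lit 0) (XT.lf (nat_lit 420) (nat_lit 4464396594) (nat_lit 0) (nat_lit 474157014) (nat_lit 336) (nat_lit 474157014) (nat_lit 53) (nat_lit 1) (nat_lit 48) (nat_lit 1) (nat_lit 52) (nat_lit 1) (nat_lit 189) (nat_lit 229) (nat_lit 182)) (XT.lf (nat_lit 84) (nat_lit 1601904645) (nat_lit 0) (nat_lit 2136800373) (nat_lit 420) (nat_lit 1601904645) (nat_lit 49) (nat_lit 1) (nat_lit 48) (nat_lit 1) (nat_lit 53) (nat_lit 1) (nat_lit 190) (nat_lit 229) (nat_lit 181))) (XT.nd (nat_lit 94) (nat_lit 0) (nat_lit 0) (XT.lf (nat_lit 336) (nat_lit 1961489628) (nat_lit 0) (nat_lit 1654316738) (nat_lit 252) (nat_lit 1654316738) (nat_lit 49) (nat_lit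 1) (nat_lit 45) (nat_lit 1) (nat_lit 48) (nat_lit 1) (nat_lit 191) (nat_lit 229) (nat_lit 180)) (XT.lf (nat_lit 84) (nat_lit 369280315) (nat_lit 0) (nat_lit 4462694584) (nat_lit 336) (nat_lit 369280315) (nat_lit 46) (nat_lit 1) (nat_lit 45) (nat_lit 1) (nat_lit 49) (nat_lit 1) (nat_lit 192) (nat_lit 229) (nat_lit 179))))))) (XT.nd (nat_lit 1222) (nat_lit 168) (nat_lit 0) (XT.nd (nat_lit 564) (nat_lit 1260) (nat_lit 0) (XT.nd (nat_lit 282) (nat_lit 588) (nat_lit 0) (XT.nd (nat_lit 94) (nat_lit 252) (nat_lit 0) (XT.lf (nat_lit 84) (nat_lit 2325055401) (nat_lit 0) (nat_lit 482692285) (nat_lit 336) (nat_lit 2325055401) (nat_lit 42) (nat_lit 1) (nat_lit 41) (nat_lit 1) (nat_lit 45) (nat_lit 1) (nat_lit 193) (nat_lit 229) (nat_lit 178)) (XT.nd (nat_lit 94) (nat_lit 0) (nat_lit 0) (XT.lf (nat_lit 336) (nat_lit 3406091455) (nat_lit 0) (nat_lit 829914187) (nat_lit 252) (nat_lit 829914187) (nat_lit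 42) (nat_lit 1) (nat_lit 38) (nat_lit 1) (nat_lit 41) (nat_lit 1) (nat_lit 194) (nat_lit 229) (nat_lit 177)) (XT.lf (nat_lit 84) (nat_lit 1082430461) (nat_lit 0) (nat_lit 2835109110) (nat_lit 336) (nat_lit 1082430461) (nat_lit 39) (nat_lit 1) (nat_lit 38) (nat_lit 1) (nat_lit 42) (nat_lit 1) (nat_lit 195) (nat_lit 229) (nat_lit 176)))) (XT.nd (nat_lit 94) (nat_lit 336) (nat_lit 0) (XT.lf (nat_lit 336) (nat_lit 933282277) (nat_lit 0) (nat_lit 2000937563) (nat_lit 252) (nat_lit 2000937563) (nat_lit 39) (nat_lit 1) (nat_lit 35) (nat_lit 1) (nat_lit 38) (nat_lit 1) (nat_lit 196) (nat_lit 229) (nat_lit 175)) (XT.nd (nat_lit 94) (nat_lit 0) (nat_lit 0) (XT.lf (nat_lit 336) (nat_lit 4607599909) (nat_lit 0) (nat_lit 132181421) (nat_lit 252) (nat_lit 132181421) (nat_lit 35) (nat_lit 1) (nat_lit 31) (nat_lit 1) (nat_lit 34) (nat_lit 1) (nat_lit 197) (nat_lit 229) (nat_lit 174)) (XT.lf (nat_lit 84) (nat_lit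 1678178027) (nat_lit 0) (nat_lit 1452400562) (nat_lit 336) (nat_lit 1678178027) (nat_lit 32) (nat_lit 1) (nat_lit 31) (nat_lit 1) (nat_lit 35) (nat_lit 1) (nat_lit 198) (nat_lit 229) (nat_lit 173))))) (XT.nd (nat_lit 282) (nat_lit 756) (nat_lit 0) (XT.nd (nat_lit 94) (nat_lit 252) (nat_lit 0) (XT.lf (nat_lit 336) (nat_lit 2130866483) (nat_lit 0) (nat_lit 1308130731) (nat_lit 252) (nat_lit 1308130731) (nat_lit 32) (nat_lit 1) (nat_lit 28) (nat_lit 1) (nat_lit 31) (nat_lit 1) (nat_lit 199) (nat_lit 229) (nat_lit 172)) (XT.nd (nat_lit 94) (nat_lit 252) (nat_lit 0) (XT.lf (nat_lit 84) (nat_lit 461122583) (nat_lit 0) (nat_lit 3764507183) (nat_lit 336) (nat_lit 461122583) (nat_lit 29) (nat_lit 1) (nat_lit 28) (nat_lit 1) (nat_lit 32) (nat_lit 1) (nat_lit 200) (nat_lit 229) (nat_lit 171)) (XT.lf (nat_lit 84) (nat_lit 2172485841) (nat_lit 0) (nat_lit 281882953) (nat_lit 252) (nat_lit 2172485841) (nat_lit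 26) (nat_lit 1) (nat_lit 25) (nat_lit 1) (nat_lit 28) (nat_lit 1) (nat_lit 201) (nat_lit 229) (nat_lit 170)))) (XT.nd (nat_lit 188) (nat_lit 504) (nat_lit 0) (XT.nd (nat_lit 94) (nat_lit 0) (nat_lit 0) (XT.lf (nat_lit 336) (nat_lit 3129936596) (nat_lit 0) (nat_lit 719119048) (nat_lit 252) (nat_lit 719119048) (nat_lit 26) (nat_lit 1) (nat_lit 22) (nat_lit 1) (nat_lit 25) (nat_lit 1) (nat_lit 202) (nat_lit 229) (nat_lit 169)) (XT.lf (nat_lit 84) (nat_lit 959947415) (nat_lit 0) (nat_lit 2590363667) (nat_lit 336) (nat_lit 959947415) (nat_lit 23) (nat_lit 1) (nat_lit 22) (nat_lit 1) (nat_lit 26) (nat_lit 1) (nat_lit 203) (nat_lit 229) (nat_lit 168))) (XT.nd (nat_lit 94) (nat_lit 336) (nat_lit 0) (XT.lf (nat_lit 252) (nat_lit 721240519) (nat_lit 0) (nat_lit 1866030821) (nat_lit 168) (nat_lit 1866030821) (nat_lit 23) (nat_lit 1) (nat_lit 20) (nat_lit 1) (nat_lit 22) (nat_lit 1) (nat_lit 204) (nat_lit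 229) (nat_lit 167)) (XT.lf (nat_lit 336) (nat_lit 3957519848) (nat_lit 0) (nat_lit 220060744) (nat_lit 252) (nat_lit 220060744) (nat_lit 20) (nat_lit 1) (nat_lit 16) (nat_lit 1) (nat_lit 19) (nat_lit 1) (nat_lit 205) (nat_lit 229) (nat_lit 166)))))) (XT.nd (nat_lit 34028) (nat_lit 0) (nat_lit 6216) (XT.nd (nat_lit 33652) (nat_lit 0) (nat_lit 8064) (XT.nd (nat_lit 94) (nat_lit 168) (nat_lit 0) (XT.lf (nat_lit 84) (nat_lit 1375771297) (nat_lit 0) (nat_lit 1590505079) (nat_lit 336) (nat_lit 1375771297) (nat_lit 17) (nat_lit 1) (nat_lit 16) (nat_lit 1) (nat_lit 20) (nat_lit 1) (nat_lit 206) (nat_lit 229) (nat_lit 165)) (XT.nd (nat_lit 33464) (nat_lit 0) (nat_lit 9156) (XT.lf (nat_lit 252) (nat_lit 1568214386) (nat_lit 0) (nat_lit 1359753208) (nat_lit 168) (nat_lit 1359753208) (nat_lit 17) (nat_lit 1) (nat_lit 14) (nat_lit 1) (nat_lit 16) (nat_lit 1) (nat_lit 207) (nat_lit 229) (nat_lit 164)) (XT.lf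 (nat_lit 588) (nat_lit 1685065521) (nat_lit 0) (nat_lit 3150223900) (nat_lit 504) (nat_lit 3150223900) (nat_lit 130) (nat_lit 1) (nat_lit 123) (nat_lit 1) (nat_lit 129) (nat_lit 1) (nat_lit 162) (nat_lit 230) (nat_lit 208)))) (XT.nd (nat_lit 188) (nat_lit 504) (nat_lit 0) (XT.nd (nat_lit 94) (nat_lit 588) (nat_lit 0) (XT.lf (nat_lit 84) (nat_lit 351464818) (nat_lit 0) (nat_lit 7163753107) (nat_lit 588) (nat_lit 351464818) (nat_lit 124) (nat_lit 1) (nat_lit 123) (nat_lit 1) (nat_lit 130) (nat_lit 1) (nat_lit 163) (nat_lit 230) (nat_lit 207)) (XT.lf (nat_lit 84) (nat_lit 3714372585) (nat_lit 0) (nat_lit 320235800) (nat_lit 588) (nat_lit 3714372585) (nat_lit 117) (nat_lit 1) (nat_lit 116) (nat_lit 1) (nat_lit 123) (nat_lit 1) (nat_lit 164) (nat_lit 230) (nat_lit 206))) (XT.nd (nat_lit 94) (nat_lit 0) (nat_lit 0) (XT.lf (nat_lit 588) (nat_lit 6330017136) (nat_lit 0) (nat_lit 652293010) (nat_lit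 504) (nat_lit 652293010) (nat_lit 117) (nat_lit 1) (nat_lit 110) (nat_lit 1) (nat_lit 116) (nat_lit 1) (nat_lit 165) (nat_lit 230) (nat_lit 205)) (XT.lf (nat_lit 84) (nat_lit 2597722802) (nat_lit 0) (nat_lit 2326179036) (nat_lit 588) (nat_lit 2597722802) (nat_lit 111) (nat_lit 1) (nat_lit 110) (nat_lit 1) (nat_lit 117) (nat_lit 1) (nat_lit 166) (nat_lit 230) (nat_lit 204))))) (XT.nd (nat_lit 282) (nat_lit 924) (nat_lit 0) (XT.nd (nat_lit 94) (nat_lit 420) (nat_lit 0) (XT.lf (nat_lit 588) (nat_lit 4072721270) (nat_lit 0) (nat_lit 1669424287) (nat_lit 504) (nat_lit 1669424287) (nat_lit 111) (nat_lit 1) (nat_lit 104) (nat_lit 1) (nat_lit 110) (nat_lit 1) (nat_lit 167) (nat_lit 230) (nat_lit 203)) (XT.nd (nat_lit 94) (nat_lit 420) (nat_lit 0) (XT.lf (nat_lit 84) (nat_lit 1470498163) (nat_lit 0) (nat_lit 4362652120) (nat_lit 588) (nat_lit 1470498163) (nat_lit 105) (nat_lit 1) (nat_lit 104) (nat_lit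 1) (nat_lit 111) (nat_lit 1) (nat_lit 168) (nat_lit 230) (nat_lit 202)) (XT.lf (nat_lit 504) (nat_lit 1797805200) (nat_lit 0) (nat_lit 2699944718) (nat_lit 420) (nat_lit 2699944718) (nat_lit 105) (nat_lit 1) (nat_lit 99) (nat_lit 1) (nat_lit 104) (nat_lit 1) (nat_lit 169) (nat_lit 230) (nat_lit 201)))) (XT.nd (nat_lit 188) (nat_lit 420) (nat_lit 0) (XT.nd (nat_lit 94) (nat_lit 504) (nat_lit 0) (XT.lf (nat_lit 84) (nat_lit 336270097) (nat_lit 0) (nat_lit 6422082509) (nat_lit 504) (nat_lit 336270097) (nat_lit 100) (nat_lit 1) (nat_lit 99) (nat_lit 1) (nat_lit 105) (nat_lit 1) (nat_lit 170) (nat_lit 230) (nat_lit 200)) (XT.lf (nat_lit 84) (nat_lit 3257772175) (nat_lit 0) (nat_lit 476825780) (nat_lit 504) (nat_lit 3257772175) (nat_lit 94) (nat_lit 1) (nat_lit 93) (nat_lit 1) (nat_lit 99) (nat_lit 1) (nat_lit 171) (nat_lit 230) (nat_lit 199))) (XT.nd (nat_lit 94) (nat_lit 0) (nat_lit 0) (XT.lf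 (nat_lit 504) (nat_lit 5307713256) (nat_lit 0) (nat_lit 792584244) (nat_lit 420) (nat_lit 792584244) (nat_lit 94) (nat_lit 1) (nat_lit 88) (nat_lit 1) (nat_lit 93) (nat_lit 1) (nat_lit 172) (nat_lit 230) (nat_lit 198)) (XT.lf (nat_lit 84) (nat_lit 2039758738) (nat_lit 0) (nat_lit 2715170347) (nat_lit 504) (nat_lit 2039758738) (nat_lit 89) (nat_lit 1) (nat_lit 88) (nat_lit 1) (nat_lit 94) (nat_lit 1) (nat_lit 173) (nat_lit 230) (nat_lit 197))))))))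
noncomputable def ec31 : XT := (XT.nd (nat_lit 2538) (nat_lit 168) (nat_lit 0) (XT.nd (nat_lit 1222) (nat_lit 2604) (nat_lit 0) (XT.nd (nat_lit 564) (nat_lit 1344) (nat_lit 0) (XT.nd (nat_lit 282) (nat_lit 840) (nat_lit 0) (XT.nd (nat_lit 94) (nat_lit 336) (nat_lit 0) (XT.lf (nat_lit 504) (nat_lit 2861900176) (nat_lit 0) (nat_lit 1918433757) (nat_lit 420) (nat_lit 1918433757) (nat_lit 89) (nat_lit 1) (nat_lit 83) (nat_lit 1) (nat_lit 88) (nat_lit 1) (nat_lit 174) (nat_lit 230) (nat_lit 196)) (XT.nd (nat_lit 94) (nat_lit 336) (nat_lit 0) (XT.lf (nat_lit 84) (nat_lit 826227275) (nat_lit 0) (nat_lit 4952520616) (nat_lit 504) (nat_lit 826227275) (nat_lit 84) (nat_lit 1) (nat_lit 83) (nat_lit 1) (nat_lit 89) (nat_lit 1) (nat_lit 175) (nat_lit 230) (nat_lit 195)) (XT.lf (nat_lit 420) (nat_lit 427446089) (nat_lit 0) (nat_lit 3042499468) (nat_lit 336) (nat_lit 3042499468) (nat_lit 84) (nat_lit 1)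 (nat_lit 79) (nat_lit 1) (nat_lit 83) (nat_lit 1) (nat_lit 176) (nat_lit 230) (nat_lit 194)))) (XT.nd (nat_lit 94) (nat_lit 336) (nat_lit 0) (XT.lf (nat_lit 504) (nat_lit 5669890460) (nat_lit 0) (nat_lit 376194837) (nat_lit 420) (nat_lit 376194837) (nat_lit 79) (nat_lit 1) (nat_lit 73) (nat_lit 1) (nat_lit 78) (nat_lit 1) (nat_lit 177) (nat_lit 230) (nat_lit 193)) (XT.nd (nat_lit 94) (nat_lit 336) (nat_lit 0) (XT.lf (nat_lit 84) (nat_lit 2193327012) (nat_lit 0) (nat_lit 1946138099) (nat_lit 504) (nat_lit 2193327012) (nat_lit 74) (nat_lit 1) (nat_lit 73) (nat_lit 1) (nat_lit 79) (nat_lit 1) (nat_lit 178) (nat_lit 230) (nat_lit 192)) (XT.lf (nat_lit 420) (nat_lit 3124624817) (nat_lit 0) (nat_lit 1560477584) (nat_lit 336) (nat_lit 1560477584) (nat_lit 74) (nat_lit 1) (nat_lit 69) (nat_lit 1) (nat_lit 73) (nat_lit 1) (nat_lit 179) (nat_lit 230) (nat_lit 191))))) (XT.nd (nat_lit 282) (nat_lit 588)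 (nat_lit 0) (XT.nd (nat_lit 94) (nat_lit 756) (nat_lit 0) (XT.lf (nat_lit 84) (nat_lit 934619680) (nat_lit 0) (nat_lit 4290859164) (nat_lit 420) (nat_lit 934619680) (nat_lit 70) (nat_lit 1) (nat_lit 69) (nat_lit 1) (nat_lit 74) (nat_lit 1) (nat_lit 180) (nat_lit 230) (nat_lit 190)) (XT.nd (nat_lit 94) (nat_lit 420) (nat_lit 0) (XT.lf (nat_lit 420) (nat_lit 607387961) (nat_lit 0) (nat_lit 2734232763) (nat_lit 336) (nat_lit 2734232763) (nat_lit 70) (nat_lit 1) (nat_lit 65) (nat_lit 1) (nat_lit 69) (nat_lit 1) (nat_lit 181) (nat_lit 230) (nat_lit 189)) (XT.lf (nat_lit 420) (nat_lit 5381993049) (nat_lit 0) (nat_lit 305870961) (nat_lit 336) (nat_lit 305870961) (nat_lit 65) (nat_lit 1) (nat_lit 60) (nat_lit 1) (nat_lit 64) (nat_lit 1) (nat_lit 182) (nat_lit 230) (nat_lit 188)))) (XT.nd (nat_lit 188) (nat_lit 252) (nat_lit 0) (XT.nd (nat_lit 94) (nat_lit 336) (nat_lit 0) (XT.lf (nat_lit 84) (nat_lit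 2037879952) (nat_lit 0) (nat_lit 1836305807) (nat_lit 420) (nat_lit 2037879952) (nat_lit 61) (nat_lit 1) (nat_lit 60) (nat_lit 1) (nat_lit 65) (nat_lit 1) (nat_lit 183) (nat_lit 230) (nat_lit 187)) (XT.lf (nat_lit 420) (nat_lit 2792763811) (nat_lit 0) (nat_lit 1519843226) (nat_lit 336) (nat_lit 1519843226) (nat_lit 61) (nat_lit 1) (nat_lit 56) (nat_lit 1) (nat_lit 60) (nat_lit 1) (nat_lit 184) (nat_lit 230) (nat_lit 186))) (XT.nd (nat_lit 94) (nat_lit 252) (nat_lit 0) (XT.lf (nat_lit 84) (nat_lit 760473779) (nat_lit 0) (nat_lit 4233490459) (nat_lit 420) (nat_lit 760473779) (nat_lit 57) (nat_lit 1) (nat_lit 56) (nat_lit 1) (nat_lit 61) (nat_lit 1) (nat_lit 185) (nat_lit 230) (nat_lit 185)) (XT.lf (nat_lit 336) (nat_lit 243875034) (nat_lit 0) (nat_lit 2716778348) (nat_lit 252) (nat_lit 2716778348) (nat_lit 57) (nat_lit 1) (nat_lit 53) (nat_lit 1) (nat_lit 56) (nat_lit 1) (nat_lit 186) (nat_lit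 230) (nat_lit 184)))))) (XT.nd (nat_lit 658) (nat_lit 1344) (nat_lit 0) (XT.nd (nat_lit 282) (nat_lit 588) (nat_lit 0) (XT.nd (nat_lit 94) (nat_lit 252) (nat_lit 0) (XT.lf (nat_lit 420) (nat_lit 4620650475) (nat_lit 0) (nat_lit 490752509) (nat_lit 336) (nat_lit 490752509) (nat_lit 53) (nat_lit 1) (nat_lit 48) (nat_lit 1) (nat_lit 52) (nat_lit 1) (nat_lit 187) (nat_lit 230) (nat_lit 183)) (XT.nd (nat_lit 94) (nat_lit 252) (nat_lit 0) (XT.lf (nat_lit 84) (nat_lit 1657971308) (nat_lit 0) (nat_lit 2211588386) (nat_lit 420) (nat_lit 1657971308) (nat_lit 49) (nat_lit 1) (nat_lit 48) (nat_lit 1) (nat_lit 53) (nat_lit 1) (nat_lit 188) (nat_lit 230) (nat_lit 182)) (XT.lf (nat_lit 336) (nat_lit 2030141765) (nat_lit 0) (nat_lit 1712217824) (nat_lit 252) (nat_lit 1712217824) (nat_lit 49) (nat_lit 1) (nat_lit 45) (nat_lit 1) (nat_lit 48) (nat_lit 1) (nat_lit 189) (nat_lit 230) (nat_lit 181)))) (XT.nd (nat_lit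 188) (nat_lit 252) (nat_lit 0) (XT.nd (nat_lit 94) (nat_lit 336) (nat_lit 0) (XT.lf (nat_lit 84) (nat_lit 382205126) (nat_lit 0) (nat_lit 4618888894) (nat_lit 336) (nat_lit 382205126) (nat_lit 46) (nat_lit 1) (nat_lit 45) (nat_lit 1) (nat_lit 49) (nat_lit 1) (nat_lit 190) (nat_lit 230) (nat_lit 180)) (XT.lf (nat_lit 84) (nat_lit 2406432340) (nat_lit 0) (nat_lit 499586515) (nat_lit 336) (nat_lit 2406432340) (nat_lit 42) (nat_lit 1) (nat_lit 41) (nat_lit 1) (nat_lit 45) (nat_lit 1) (nat_lit 191) (nat_lit 230) (nat_lit 179))) (XT.nd (nat_lit 94) (nat_lit 0) (nat_lit 0) (XT.lf (nat_lit 336) (nat_lit 3525304656) (nat_lit 0) (nat_lit 858961183) (nat_lit 252) (nat_lit 858961183) (nat_lit 42) (nat_lit 1) (nat_lit 38) (nat_lit 1) (nat_lit 41) (nat_lit 1) (nat_lit 192) (nat_lit 230) (nat_lit 178)) (XT.lf (nat_lit 84) (nat_lit 1120315527) (nat_lit 0) (nat_lit 2934337929) (nat_lit 336) (nat_lit 1120315527)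 (nat_lit 39) (nat_lit 1) (nat_lit 38) (nat_lit 1) (nat_lit 42) (nat_lit 1) (nat_lit 193) (nat_lit 230) (nat_lit 177))))) (XT.nd (nat_lit 282) (nat_lit 756) (nat_lit 0) (XT.nd (nat_lit 94) (nat_lit 336) (nat_lit 0) (XT.lf (nat_lit 336) (nat_lit 965947157) (nat_lit 0) (nat_lit 2070970378) (nat_lit 252) (nat_lit 2070970378) (nat_lit 39) (nat_lit 1) (nat_lit 35) (nat_lit 1) (nat_lit 38) (nat_lit 1) (nat_lit 194) (nat_lit 230) (nat_lit 176)) (XT.nd (nat_lit 94) (nat_lit 0) (nat_lit 0) (XT.lf (nat_lit 336) (nat_lit 4768865906) (nat_lit 0) (nat_lit 136807771) (nat_lit 252) (nat_lit 136807771) (nat_lit 35) (nat_lit 1) (nat_lit 31) (nat_lit 1) (nat_lit 34) (nat_lit 1) (nat_lit 195) (nat_lit 230) (nat_lit 175)) (XT.lf (nat_lit 84) (nat_lit 1736914258) (nat_lit 0) (nat_lit 1503234582) (nat_lit 336) (nat_lit 1736914258) (nat_lit 32) (nat_lit 1) (nat_lit 31) (nat_lit 1) (nat_lit 35) (nat_lit 1) (nat_lit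 196) (nat_lit 230) (nat_lit 174)))) (XT.nd (nat_lit 188) (nat_lit 504) (nat_lit 0) (XT.nd (nat_lit 94) (nat_lit 0) (nat_lit 0) (XT.lf (nat_lit 336) (nat_lit 2205446809) (nat_lit 0) (nat_lit 1353915307) (nat_lit 252) (nat_lit 1353915307) (nat_lit 32) (nat_lit 1) (nat_lit 28) (nat_lit 1) (nat_lit 31) (nat_lit 1) (nat_lit 197) (nat_lit 230) (nat_lit 173)) (XT.lf (nat_lit 84) (nat_lit 477261874) (nat_lit 0) (nat_lit 3896264934) (nat_lit 336) (nat_lit 477261874) (nat_lit 29) (nat_lit 1) (nat_lit 28) (nat_lit 1) (nat_lit 32) (nat_lit 1) (nat_lit 198) (nat_lit 230) (nat_lit 172))) (XT.nd (nat_lit 94) (nat_lit 252) (nat_lit 0) (XT.lf (nat_lit 84) (nat_lit 2248522846) (nat_lit 0) (nat_lit 291748856) (nat_lit 252) (nat_lit 2248522846) (nat_lit 26) (nat_lit 1) (nat_lit 25) (nat_lit 1) (nat_lit 28) (nat_lit 1) (nat_lit 199) (nat_lit 230) (nat_lit 171)) (XT.lf (nat_lit 336) (nat_lit 3239484377) (nat_lit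 0) (nat_lit 744288215) (nat_lit 252) (nat_lit 744288215) (nat_lit 26) (nat_lit 1) (nat_lit 22) (nat_lit 1) (nat_lit 25) (nat_lit 1) (nat_lit 200) (nat_lit 230) (nat_lit 170))))))) (XT.nd (nat_lit 35720) (nat_lit 0) (nat_lit 924) (XT.nd (nat_lit 35062) (nat_lit 0) (nat_lit 3780) (XT.nd (nat_lit 34686) (nat_lit 0) (nat_lit 5292) (XT.nd (nat_lit 94) (nat_lit 168) (nat_lit 0) (XT.lf (nat_lit 84) (nat_lit 993545575) (nat_lit 0) (nat_lit 2681026396) (nat_lit 336) (nat_lit 993545575) (nat_lit 23) (nat_lit 1) (nat_lit 22) (nat_lit 1) (nat_lit 26) (nat_lit 1) (nat_lit 201) (nat_lit 230) (nat_lit 169)) (XT.nd (nat_lit 34498) (nat_lit 0) (nat_lit 6636) (XT.lf (nat_lit 252) (nat_lit 746483937) (nat_lit 0) (nat_lit 1931341899) (nat_lit 168) (nat_lit 1931341899) (nat_lit 23) (nat_lit 1) (nat_lit 20) (nat_lit 1) (nat_lit 22) (nat_lit 1) (nat_lit 202) (nat_lit 230) (nat_lit 168)) (XT.lf (nat_lit 84) (nat_lit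 348039551) (nat_lit 0) (nat_lit 6646855397) (nat_lit 504) (nat_lit 348039551) (nat_lit 100) (nat_lit 1) (nat_lit 99) (nat_lit 1) (nat_lit 105) (nat_lit 1) (nat_lit 168) (nat_lit 231) (nat_lit 201)))) (XT.nd (nat_lit 188) (nat_lit 420) (nat_lit 0) (XT.nd (nat_lit 94) (nat_lit 420) (nat_lit 0) (XT.lf (nat_lit 84) (nat_lit 3371794202) (nat_lit 0) (nat_lit 493514682) (nat_lit 504) (nat_lit 3371794202) (nat_lit 94) (nat_lit 1) (nat_lit 93) (nat_lit 1) (nat_lit 99) (nat_lit 1) (nat_lit 169) (nat_lit 231) (nat_lit 200)) (XT.lf (nat_lit 504) (nat_lit 5493483220) (nat_lit 0) (nat_lit 820324693) (nat_lit 420) (nat_lit 820324693) (nat_lit 94) (nat_lit 1) (nat_lit 88) (nat_lit 1) (nat_lit 93) (nat_lit 1) (nat_lit 170) (nat_lit 231) (nat_lit 199))) (XT.nd (nat_lit 94) (nat_lit 420) (nat_lit 0) (XT.lf (nat_lit 84) (nat_lit 2111150294) (nat_lit 0) (nat_lit 2810201309) (nat_lit 504) (nat_lit 2111150294) (nat_lit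 89) (nat_lit 1) (nat_lit 88) (nat_lit 1) (nat_lit 94) (nat_lit 1) (nat_lit 171) (nat_lit 231) (nat_lit 198)) (XT.lf (nat_lit 504) (nat_lit 2962066682) (nat_lit 0) (nat_lit 1985578939) (nat_lit 420) (nat_lit 1985578939) (nat_lit 89) (nat_lit 1) (nat_lit 83) (nat_lit 1) (nat_lit 88) (nat_lit 1) (nat_lit 172) (nat_lit 231) (nat_lit 197))))) (XT.nd (nat_lit 282) (nat_lit 672) (nat_lit 0) (XT.nd (nat_lit 94) (nat_lit 840) (nat_lit 0) (XT.lf (nat_lit 84) (nat_lit 855145229) (nat_lit 0) (nat_lit 5125858837) (nat_lit 504) (nat_lit 855145229) (nat_lit 84) (nat_lit 1) (nat_lit 83) (nat_lit 1) (nat_lit 89) (nat_lit 1) (nat_lit 173) (nat_lit 231) (nat_lit 196)) (XT.nd (nat_lit 94) (nat_lit 504) (nat_lit 0) (XT.lf (nat_lit 420) (nat_lit 442406702) (nat_lit 0) (nat_lit 3148986949) (nat_lit 336) (nat_lit 3148986949) (nat_lit 84) (nat_lit 1) (nat_lit 79) (nat_lit 1) (nat_lit 83) (nat_lit 1) (nat_lit 174)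 (nat_lit 231) (nat_lit 195)) (XT.lf (nat_lit 504) (nat_lit 5868336627) (nat_lit 0) (nat_lit 389361656) (nat_lit 420) (nat_lit 389361656) (nat_lit 79) (nat_lit 1) (nat_lit 73) (nat_lit 1) (nat_lit 78) (nat_lit 1) (nat_lit 175) (nat_lit 231) (nat_lit 194)))) (XT.nd (nat_lit 188) (nat_lit 336) (nat_lit 0) (XT.nd (nat_lit 94) (nat_lit 336) (nat_lit 0) (XT.lf (nat_lit 84) (nat_lit 2270093458) (nat_lit 0) (nat_lit 2014252933) (nat_lit 504) (nat_lit 2270093458) (nat_lit 74) (nat_lit 1) (nat_lit 73) (nat_lit 1) (nat_lit 79) (nat_lit 1) (nat_lit 176) (nat_lit 231) (nat_lit 193)) (XT.lf (nat_lit 420) (nat_lit 3233986685) (nat_lit 0) (nat_lit 1615094300) (nat_lit 336) (nat_lit 1615094300) (nat_lit 74) (nat_lit 1) (nat_lit 69) (nat_lit 1) (nat_lit 73) (nat_lit 1) (nat_lit 177) (nat_lit 231) (nat_lit 192))) (XT.nd (nat_lit 94) (nat_lit 336) (nat_lit 0) (XT.lf (nat_lit 84) (nat_lit 967331368) (nat_lit 0)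 (nat_lit 4441039235) (nat_lit 420) (nat_lit 967331368) (nat_lit 70) (nat_lit 1) (nat_lit 69) (nat_lit 1) (nat_lit 74) (nat_lit 1) (nat_lit 178) (nat_lit 231) (nat_lit 191)) (XT.lf (nat_lit 420) (nat_lit 628646540) (nat_lit 0) (nat_lit 2829930909) (nat_lit 336) (nat_lit 2829930909) (nat_lit 70) (nat_lit 1) (nat_lit 65) (nat_lit 1) (nat_lit 69) (nat_lit 1) (nat_lit 179) (nat_lit 231) (nat_lit 190)))))) (XT.nd (nat_lit 658) (nat_lit 1428) (nat_lit 0) (XT.nd (nat_lit 282) (nat_lit 672) (nat_lit 0) (XT.nd (nat_lit 94) (nat_lit 336) (nat_lit 0) (XT.lf (nat_lit 420) (nat_lit 5570362806) (nat_lit 0) (nat_lit 316576445) (nat_lit 336) (nat_lit 316576445) (nat_lit 65) (nat_lit 1) (nat_lit 60) (nat_lit 1) (nat_lit 64) (nat_lit 1) (nat_lit 180) (nat_lit 231) (nat_lit 189)) (XT.nd (nat_lit 94) (nat_lit 336) (nat_lit 0) (XT.lf (nat_lit 84) (nat_lit 2109205750) (nat_lit 0) (nat_lit 1900576511) (nat_lit 420)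 (nat_lit 2109205750) (nat_lit 61) (nat_lit 1) (nat_lit 60) (nat_lit 1) (nat_lit 65) (nat_lit 1) (nat_lit 181) (nat_lit 231) (nat_lit 188)) (XT.lf (nat_lit 420) (nat_lit 2890510544) (nat_lit 0) (nat_lit 1573037739) (nat_lit 336) (nat_lit 1573037739) (nat_lit 61) (nat_lit 1) (nat_lit 56) (nat_lit 1) (nat_lit 60) (nat_lit 1) (nat_lit 182) (nat_lit 231) (nat_lit 187)))) (XT.nd (nat_lit 188) (nat_lit 420) (nat_lit 0) (XT.nd (nat_lit 94) (nat_lit 252) (nat_lit 0) (XT.lf (nat_lit 84) (nat_lit 787090361) (nat_lit 0) (nat_lit 4381662625) (nat_lit 420) (nat_lit 787090361) (nat_lit 57) (nat_lit 1) (nat_lit 56) (nat_lit 1) (nat_lit 61) (nat_lit 1) (nat_lit 183) (nat_lit 231) (nat_lit 186)) (XT.lf (nat_lit 336) (nat_lit 252410661) (nat_lit 0) (nat_lit 2811865590) (nat_lit 252) (nat_lit 2811865590) (nat_lit 57) (nat_lit 1) (nat_lit 53) (nat_lit 1) (nat_lit 56) (nat_lit 1) (nat_lit 184) (nat_lit 231) (nat_lit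 185))) (XT.nd (nat_lit 94) (nat_lit 0) (nat_lit 0) (XT.lf (nat_lit 420) (nat_lit 4782373241) (nat_lit 0) (nat_lit 507928847) (nat_lit 336) (nat_lit 507928847) (nat_lit 53) (nat_lit 1) (nat_lit 48) (nat_lit 1) (nat_lit 52) (nat_lit 1) (nat_lit 185) (nat_lit 231) (nat_lit 184)) (XT.lf (nat_lit 84) (nat_lit 1716000304) (nat_lit 0) (nat_lit 2288993980) (nat_lit 420) (nat_lit 1716000304) (nat_lit 49) (nat_lit 1) (nat_lit 48) (nat_lit 1) (nat_lit 53) (nat_lit 1) (nat_lit 186) (nat_lit 231) (nat_lit 183))))) (XT.nd (nat_lit 282) (nat_lit 840) (nat_lit 0) (XT.nd (nat_lit 94) (nat_lit 336) (nat_lit 0) (XT.lf (nat_lit 336) (nat_lit 2101196727) (nat_lit 0) (nat_lit 1772145447) (nat_lit 252) (nat_lit 1772145447) (nat_lit 49) (nat_lit 1) (nat_lit 45) (nat_lit 1) (nat_lit 48) (nat_lit 1) (nat_lit 187) (nat_lit 231) (nat_lit 182)) (XT.nd (nat_lit 94) (nat_lit 336) (nat_lit 0) (XT.lf (nat_lit 84) (nat_lit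 395582306) (nat_lit 0) (nat_lit 4780550006) (nat_lit 336) (nat_lit 395582306) (nat_lit 46) (nat_lit 1) (nat_lit 45) (nat_lit 1) (nat_lit 49) (nat_lit 1) (nat_lit 188) (nat_lit 231) (nat_lit 181)) (XT.lf (nat_lit 84) (nat_lit 2490657472) (nat_lit 0) (nat_lit 517072043) (nat_lit 336) (nat_lit 2490657472) (nat_lit 42) (nat_lit 1) (nat_lit 41) (nat_lit 1) (nat_lit 45) (nat_lit 1) (nat_lit 189) (nat_lit 231) (nat_lit 180)))) (XT.nd (nat_lit 188) (nat_lit 588) (nat_lit 0) (XT.nd (nat_lit 94) (nat_lit 0) (nat_lit 0) (XT.lf (nat_lit 336) (nat_lit 3648690319) (nat_lit 0) (nat_lit 889024825) (nat_lit 252) (nat_lit 889024825) (nat_lit 42) (nat_lit 1) (nat_lit 38) (nat_lit 1) (nat_lit 41) (nat_lit 1) (nat_lit 190) (nat_lit 231) (nat_lit 179)) (XT.lf (nat_lit 84) (nat_lit 1159526570) (nat_lit 0) (nat_lit 3037039756) (nat_lit 336) (nat_lit 1159526570) (nat_lit 39) (nat_lit 1) (nat_lit 38) (nat_lit 1) (nat_lit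 42) (nat_lit 1) (nat_lit 191) (nat_lit 231) (nat_lit 178))) (XT.nd (nat_lit 94) (nat_lit 336) (nat_lit 0) (XT.lf (nat_lit 336) (nat_lit 999755307) (nat_lit 0) (nat_lit 2143454341) (nat_lit 252) (nat_lit 2143454341) (nat_lit 39) (nat_lit 1) (nat_lit 35) (nat_lit 1) (nat_lit 38) (nat_lit 1) (nat_lit 192) (nat_lit 231) (nat_lit 177)) (XT.lf (nat_lit 336) (nat_lit 4935776213) (nat_lit 0) (nat_lit 141596043) (nat_lit 252) (nat_lit 141596043) (nat_lit 35) (nat_lit 1) (nat_lit 31) (nat_lit 1) (nat_lit 34) (nat_lit 1) (nat_lit 193) (nat_lit 231) (nat_lit 176))))))))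

set_option maxRecDepth 10000000 in
noncomputable def Tp : PT := (PT.nd (nat_lit 2041398) (PT.nd (nat_lit 1513682) (PT.nd (nat_lit 1023848) (PT.nd (nat_lit 646908) (PT.nd (nat_lit 346014) pc0 pc1) (PT.nd (nat_lit 225600) pc2 pc3)) (PT.nd (nat_lit 300424) (PT.nd (nat_lit 150588) pc4 pc5) (PT.nd (nat_lit 112988) pc6 pc7))) (PT.nd (nat_lit 336802) (PT.nd (nat_lit 187060) (PT.nd (nat_lit 111578) pc8 pc9) (PT.nd (nat_lit 75012) pc10 pc11)) (PT.nd (nat_lit 113082) (PT.nd (nat_lit 39292) pc12 pc13) (PT.nd (nat_lit 39010) pc14 pc15)))) (PT.nd (nat_lit 336896) (PT.nd (nat_lit 186966) (PT.nd (nat_lit 110920) (PT.nd (nat_lit 72568) pc16 pc17) (PT.nd (nat_lit 38070) pc18 pc19)) (PT.nd (nat_lit 75294) (PT.nd (nat_lit 37694) pc20 pc21) (PT.nd (nat_lit 37412) pc22 pc23))) (PT.nd (nat_lit 153032) (PT.nd (nat_lit 73790) (PT.nd (nat_lit 36942) pc24 pc25) (PT.nd (nat_lit 37882) pc26 pc27)) (PT.nd (nat_lit 145512)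 (PT.nd (nat_lit 70782) pc28 pc29) (PT.nd (nat_lit 75388) pc30 pc31)))))

set_option maxRecDepth 10000000 in
noncomputable def Tx : XT := (XT.nd (nat_lit 6394914) (nat_lit 0) (nat_lit 0) XT.nil (XT.nd (nat_lit 3354672) (nat_lit 0) (nat_lit 0) (XT.nd (nat_lit 1467528) (nat_lit 0) (nat_lit 3192) (XT.nd (nat_lit 980138) (nat_lit 0) (nat_lit 1428) (XT.nd (nat_lit 678116) (nat_lit 0) (nat_lit 756) (XT.nd (nat_lit 488048) (nat_lit 0) (nat_lit 420) (XT.nd (nat_lit 337836) (nat_lit 0) (nat_lit 168) (XT.nd (nat_lit 225412) (nat_lit 0) (nat_lit 168) xc0 xc1) (XT.nd (nat_lit 75482) (nat_lit 0) (nat_lit 252) xc2 xc3)) (XT.nd (nat_lit 112800) (nat_lit 0) (nat_lit 168) (XT.nd (nat_lit 39198) (nat_lit 0) (nat_lit 0) xc4 xc5) (XT.nd (nat_lit 38728) (nat_lit 0) (nat_lit 0) xc6 xc7))) (XT.nd (nat_lit 185744) (nat_lit 0) (nat_lit 420) (XT.nd (nat_lit 110168) (nat_lit 0) (nat_lit 420) (XT.nd (nat_lit 72098) (nat_lit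 0) (nat_lit 252) xc8 xc9) (XT.nd (nat_lit 37882) (nat_lit 0) (nat_lit 0) xc10 xc11)) (XT.nd (nat_lit 74730) (nat_lit 0) (nat_lit 252) (XT.nd (nat_lit 37412) (nat_lit 0) (nat_lit 252) xc12 xc13) (XT.nd (nat_lit 37130) (nat_lit 0) (nat_lit 252) xc14 xc15)))) (XT.nd (nat_lit 259064) (nat_lit 0) (nat_lit 756) (XT.nd (nat_lit 146170) (nat_lit 0) (nat_lit 420) (XT.nd (nat_lit 73414) (nat_lit 0) (nat_lit 252) (XT.nd (nat_lit 36754) (nat_lit 0) (nat_lit 0) xc16 xc17) (XT.nd (nat_lit 36472) (nat_lit 0) (nat_lit 0) xc18 xc19)) (XT.nd (nat_lit 40420) (nat_lit 0) (nat_lit 84) (XT.nd (nat_lit 4324) (nat_lit 840) (nat_lit 0) xc20 xc21) (XT.nd (nat_lit 36190) (nat_lit 0) (nat_lit 252) xc22 xc23))) (XT.nd (nat_lit 113740) (nat_lit 0) (nat_lit 504) (XT.nd (nat_lit 40702) (nat_lit 0) (nat_lit 168) (XT.nd (nat_lit 4324) (nat_lit 1344) (nat_lit 0) xc24 xc25) (XT.nd (nat_lit 36472) (nat_lit 0) (nat_lit 0) xc26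 xc27)) (XT.nd (nat_lit 40984) (nat_lit 0) (nat_lit 252) (XT.nd (nat_lit 36566) (nat_lit 0) (nat_lit 2100) xc28 xc29) (XT.nd (nat_lit 36754) (nat_lit 0) (nat_lit 0) xc30 xc31))))) (XT.nd (nat_lit 603198) (nat_lit 0) (nat_lit 2940) (XT.nd (nat_lit 265174) (nat_lit 0) (nat_lit 1260) (XT.nd (nat_lit 115432) (nat_lit 0) (nat_lit 588) (XT.nd (nat_lit 73884) (nat_lit 0) (nat_lit 336) (XT.nd (nat_lit 36848) (nat_lit 0) (nat_lit 0) xc32 xc33) (XT.nd (nat_lit 37130) (nat_lit 0) (nat_lit 924) xc34 xc35)) (XT.nd (nat_lit 74636) (nat_lit 0) (nat_lit 252) (XT.nd (nat_lit 37224) (nat_lit 0) (nat_lit 0) xc36 xc37) (XT.nd (nat_lit 37506) (nat_lit 0) (nat_lit 420) xc38 xc39))) (XT.nd (nat_lit 151246) (nat_lit 0) (nat_lit 672) (XT.nd (nat_lit 75388) (nat_lit 0) (nat_lit 252) (XT.nd (nat_lit 37600) (nat_lit 0) (nat_lit 252) xc40 xc41) (XT.nd (nat_lit 37882) (nat_lit 0) (nat_lit 336) xc42 xc43)) (XT.nd (nat_lit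 76140) (nat_lit 0) (nat_lit 672) (XT.nd (nat_lit 37976) (nat_lit 0) (nat_lit 336) xc44 xc45) (XT.nd (nat_lit 72192) (nat_lit 0) (nat_lit 336) xc46 xc47)))) (XT.nd (nat_lit 415950) (nat_lit 0) (nat_lit 3108) (XT.nd (nat_lit 189128) (nat_lit 0) (nat_lit 1260) (XT.nd (nat_lit 77080) (nat_lit 0) (nat_lit 504) (XT.nd (nat_lit 38446) (nat_lit 0) (nat_lit 504) xc48 xc49) (XT.nd (nat_lit 73132) (nat_lit 0) (nat_lit 336) xc50 xc51)) (XT.nd (nat_lit 112800) (nat_lit 0) (nat_lit 924) (XT.nd (nat_lit 38916) (nat_lit 0) (nat_lit 420) xc52 xc53) (XT.nd (nat_lit 39386) (nat_lit 0) (nat_lit 420) xc54 xc55))) (XT.nd (nat_lit 301552) (nat_lit 0) (nat_lit 2184) (XT.nd (nat_lit 150024) (nat_lit 0) (nat_lit 1092) (XT.nd (nat_lit 74824) (nat_lit 0) (nat_lit 504) xc56 xc57) (XT.nd (nat_lit 75576) (nat_lit 0) (nat_lit 504) xc58 xc59)) (XT.nd (nat_lit 189316) (nat_lit 0) (nat_lit 1932) (XT.nd (nat_lit 76328) (nat_lit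 0) (nat_lit 588) xc60 xc61) (XT.nd (nat_lit 150494) (nat_lit 0) (nat_lit 0) xc62 xc63)))))) XT.nil))

set_option maxRecDepth 10000000 in
noncomputable def Te : XT := (XT.nd (nat_lit 7070116) (nat_lit 0) (nat_lit 924) XT.nil (XT.nd (nat_lit 1655434) (nat_lit 0) (nat_lit 0) (XT.nd (nat_lit 1091058) (nat_lit 2268) (nat_lit 0) (XT.nd (nat_lit 752752) (nat_lit 2940) (nat_lit 0) (XT.nd (nat_lit 526400) (nat_lit 3108) (nat_lit 0) (XT.nd (nat_lit 375154) (nat_lit 2184) (nat_lit 0) (XT.nd (nat_lit 262448) (nat_lit 1932) (nat_lit 0) ec0 ec1) (XT.nd (nat_lit 75952) (nat_lit 1092) (nat_lit 0) ec2 ec3)) (XT.nd (nat_lit 114022) (nat_lit 1260) (nat_lit 0) (XT.nd (nat_lit 74448) (nat_lit 924) (nat_lit 0) ec4 ec5) (XT.nd (nat_lit 73320) (nat_lit 504) (nat_lit 0) ec6 ec7))) (XT.nd (nat_lit 187248) (nat_lit 840) (nat_lit 0) (XT.nd (nat_lit 110826) (nat_lit 1008) (nat_lit 0) (XT.nd (nat_lit 72380) (nat_lit 420)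 (nat_lit 0) ec8 ec9) (XT.nd (nat_lit 38258) (nat_lit 672) (nat_lit 0) ec10 ec11)) (XT.nd (nat_lit 75858) (nat_lit 588) (nat_lit 0) (XT.nd (nat_lit 37976) (nat_lit 252) (nat_lit 0) ec12 ec13) (XT.nd (nat_lit 37600) (nat_lit 0) (nat_lit 0) ec14 ec15)))) (XT.nd (nat_lit 263952) (nat_lit 420) (nat_lit 0) (XT.nd (nat_lit 148426) (nat_lit 504) (nat_lit 0) (XT.nd (nat_lit 74448) (nat_lit 504) (nat_lit 0) (XT.nd (nat_lit 37318) (nat_lit 252) (nat_lit 0) ec16 ec17) (XT.nd (nat_lit 37036) (nat_lit 504) (nat_lit 0) ec18 ec19)) (XT.nd (nat_lit 73696) (nat_lit 336) (nat_lit 0) (XT.nd (nat_lit 36848) (nat_lit 168) (nat_lit 0) ec20 ec21) (XT.nd (nat_lit 5076) (nat_lit 756) (nat_lit 0) ec22 ec23))) (XT.nd (nat_lit 147204) (nat_lit 0) (nat_lit 0) (XT.nd (nat_lit 73226) (nat_lit 252) (nat_lit 0) (XT.nd (nat_lit 36472) (nat_lit 0) (nat_lit 0) ec24 ec25) (XT.nd (nat_lit 36848) (nat_lit 252) (nat_lit 0) ec26 ec27))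 (XT.nd (nat_lit 75200) (nat_lit 0) (nat_lit 252) (XT.nd (nat_lit 37318) (nat_lit 0) (nat_lit 252) ec28 ec29) (XT.nd (nat_lit 38446) (nat_lit 0) (nat_lit 504) ec30 ec31))))) XT.nil))

set_option maxRecDepth 10000000 in
noncomputable def Tz : ZL := (ZL.cons (nat_lit 84) (nat_lit 6) (nat_lit 181395503088829087762) (ZL.cons (nat_lit 168) (nat_lit 6) (nat_lit 181085799125708950990) (ZL.cons (nat_lit 252) (nat_lit 3) (nat_lit 90491302591960650746) (ZL.cons (nat_lit 336) (nat_lit 6) (nat_lit 178468311704783210706) (ZL.cons (nat_lit 420) (nat_lit 6) (nat_lit 178265413471413291164) (ZL.cons (nat_lit 504) (nat_lit 6) (nat_lit 175955249164579098056) (ZL.cons (nat_lit 588) (nat_lit 6) (nat_lit 175656018282337420016) (ZL.cons (nat_lit 672) (nat_lit 3) (nat_lit 87778156995377574986) (ZL.cons (nat_lit 756) (nat_lit 6) (nat_lit 173151331202097921920) (ZL.cons (nat_lit 840) (nat_lit 6) (nat_lit 172955294261643893378)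 (ZL.cons (nat_lit 924) (nat_lit 6) (nat_lit 170748387745986300854) (ZL.cons (nat_lit 1008) (nat_lit 6) (nat_lit 170459275782467771348) (ZL.cons (nat_lit 1092) (nat_lit 3) (nat_lit 85181471566798006425) (ZL.cons (nat_lit 1176) (nat_lit 6) (nat_lit 168065304328456744508) (ZL.cons (nat_lit 1260) (nat_lit 6) (nat_lit 167875896656520485046) (ZL.cons (nat_lit 1344) (nat_lit 6) (nat_lit 165770546455136258748) (ZL.cons (nat_lit 1428) (nat_lit 6) (nat_lit 165491211224683573232) (ZL.cons (nat_lit 1512) (nat_lit 3) (nat_lit 82699068100809536134) (ZL.cons (nat_lit 1596) (nat_lit 6) (nat_lit 163572286144733543440) (ZL.cons (nat_lit 1680) (nat_lit 6) (nat_lit 163206064384313296522) (ZL.cons (nat_lit 1764) (nat_lit 6) (nat_lit 163023061802732369504) (ZL.cons (nat_lit 1848) (nat_lit 6) (nat_lit 161017751493014047580) (ZL.cons (nat_lit 1932) (nat_lit 6) (nat_lit 160747862381465559160) (ZL.cons (nat_lit 2016)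 (nat_lit 3) (nat_lit 80328967411474566553) (ZL.cons (nat_lit 2100) (nat_lit 6) (nat_lit 158923682518619795898) (ZL.cons (nat_lit 2184) (nat_lit 6) (nat_lit 158569845068938397910) (ZL.cons (nat_lit 2268) (nat_lit 6) (nat_lit 158393030980454410454) (ZL.cons (nat_lit 2352) (nat_lit 6) (nat_lit 156486432018573256988) (ZL.cons (nat_lit 2436) (nat_lit 6) (nat_lit 156225669591956359964) (ZL.cons (nat_lit 2520) (nat_lit 3) (nat_lit 78069391530994399281) (ZL.cons (nat_lit 2604) (nat_lit 6) (nat_lit 154495157355020670408) (ZL.cons (nat_lit 2688) (nat_lit 6) (nat_lit 154153285422961348678) (ZL.cons (nat_lit 2772) (nat_lit 6) (nat_lit 153982450554860877708) (ZL.cons (nat_lit 2856) (nat_lit 6) (nat_lit 152593664255611216020) (ZL.cons (nat_lit 2940) (nat_lit 6) (nat_lit 152173425651626846270) (ZL.cons (nat_lit 3024) (nat_lit 6) (nat_lit 151921481278083950594) (ZL.cons (nat_lit 3108) (nat_lit 3) (nat_lit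 75918766469975520513) (ZL.cons (nat_lit 3192) (nat_lit 6) (nat_lit 150283746965663109002) (ZL.cons (nat_lit 3276) (nat_lit 6) (nat_lit 149953435920195165306) (ZL.cons (nat_lit 3360) (nat_lit 6) (nat_lit 149788378076619831032) (ZL.cons (nat_lit 3444) (nat_lit 6) (nat_lit 148482012788847619412) (ZL.cons (nat_lit 3528) (nat_lit 6) (nat_lit 148075985152147745258) (ZL.cons (nat_lit 3612) (nat_lit 6) (nat_lit 147832560636647362964) (ZL.cons (nat_lit 3696) (nat_lit 3) (nat_lit 73875725565602469129) (ZL.cons (nat_lit 3780) (nat_lit 6) (nat_lit 146286906870375643988) (ZL.cons (nat_lit 3864) (nat_lit 6) (nat_lit 145967765763643331236) (ZL.cons (nat_lit 3948) (nat_lit 6) (nat_lit 145808289586275858510) (ZL.cons (nat_lit 4032) (nat_lit 6) (nat_lit 144584083566767585340) (ZL.cons (nat_lit 4116) (nat_lit 6) (nat_lit 144191786333241136880) (ZL.cons (nat_lit 4200) (nat_lit 6) (nat_lit 143956593564641733696)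 (ZL.cons (nat_lit 4284) (nat_lit 3) (nat_lit 71939113446358342838) (ZL.cons (nat_lit 4368) (nat_lit 6) (nat_lit 142965499822437656390) (ZL.cons (nat_lit 4452) (nat_lit 6) (nat_lit 142502520340800931884) (ZL.cons (nat_lit 4536) (nat_lit 6) (nat_lit 142194171445407392992) (ZL.cons (nat_lit 4620) (nat_lit 6) (nat_lit 142040088182250414514) (ZL.cons (nat_lit 4704) (nat_lit 6) (nat_lit 140897968413529731468) (ZL.cons (nat_lit 4788) (nat_lit 6) (nat_lit 140518937270025916530) (ZL.cons (nat_lit 4872) (nat_lit 6) (nat_lit 140291697880074802344) (ZL.cons (nat_lit 4956) (nat_lit 3) (nat_lit 70107990644421435943) (ZL.cons (nat_lit 5040) (nat_lit 6) (nat_lit 139376231444074002084) (ZL.cons (nat_lit 5124) (nat_lit 6) (nat_lit 138928908273410500146) (ZL.cons (nat_lit 5208) (nat_lit 6) (nat_lit 138630986635349109914) (ZL.cons (nat_lit 5292) (nat_lit 6) (nat_lit 138482113917323043748) (ZL.cons (nat_lit 5376)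 (nat_lit 6) (nat_lit 137935508342783904822) (ZL.cons (nat_lit 5460) (nat_lit 6) (nat_lit 137422202537183507232) (ZL.cons (nat_lit 5544) (nat_lit 6) (nat_lit 137055988871962430000) (ZL.cons (nat_lit 5628) (nat_lit 6) (nat_lit 136836433905826087788) (ZL.cons (nat_lit 5712) (nat_lit 3) (nat_lit 68381638889515976040) (ZL.cons (nat_lit 5796) (nat_lit 6) (nat_lit 135997036762285152220) (ZL.cons (nat_lit 5880) (nat_lit 6) (nat_lit 135564840462127179336) (ZL.cons (nat_lit 5964) (nat_lit 6) (nat_lit 135276993468831150124) (ZL.cons (nat_lit 6048) (nat_lit 6) (nat_lit 135133155093926738370) (ZL.cons (nat_lit 6132) (nat_lit 6) (nat_lit 134651724158305531260) (ZL.cons (nat_lit 6216) (nat_lit 6) (nat_lit 134155776520044277552) (ZL.cons (nat_lit 6300) (nat_lit 6) (nat_lit 133801946891811352688) (ZL.cons (nat_lit 6384) (nat_lit 6) (nat_lit 133589816489747253934) (ZL.cons (nat_lit 6468) (nat_lit 3) (nat_lit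 66759567120818488944) (ZL.cons (nat_lit 6552) (nat_lit 6) (nat_lit 133384672447041866538) (ZL.cons (nat_lit 6636) (nat_lit 6) (nat_lit 132827129313028650680) (ZL.cons (nat_lit 6720) (nat_lit 6) (nat_lit 132409548346692444992) (ZL.cons (nat_lit 6804) (nat_lit 6) (nat_lit 132131435309691450586) (ZL.cons (nat_lit 6888) (nat_lit 6) (nat_lit 131992461034421487540) (ZL.cons (nat_lit 6972) (nat_lit 6) (nat_lit 131577326287622719844) (ZL.cons (nat_lit 7056) (nat_lit 6) (nat_lit 131098149825534552006) (ZL.cons (nat_lit 7140) (nat_lit 6) (nat_lit 130756285450430276776) (ZL.cons (nat_lit 7224) (nat_lit 6) (nat_lit 130551328540223418078) (ZL.cons (nat_lit 7308) (nat_lit 3) (nat_lit 65241518256531865539) (ZL.cons (nat_lit 7392) (nat_lit 6) (nat_lit 130404888208361632608) (ZL.cons (nat_lit 7476) (nat_lit 6) (nat_lit 129866199189991375738) (ZL.cons (nat_lit 7560) (nat_lit 6) (nat_lit 129462739319135138358)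 (ZL.cons (nat_lit 7644) (nat_lit 6) (nat_lit 129194031070824998836) (ZL.cons (nat_lit 7728) (nat_lit 6) (nat_lit 129059756408728416184) (ZL.cons (nat_lit 7812) (nat_lit 6) (nat_lit 129308427406987326336) (ZL.cons (nat_lit 7896) (nat_lit 6) (nat_lit 128712238334238239482) (ZL.cons (nat_lit 7980) (nat_lit 6) (nat_lit 128249265907099913070) (ZL.cons (nat_lit 8064) (nat_lit 6) (nat_lit 127918962163037811398) (ZL.cons (nat_lit 8148) (nat_lit 6) (nat_lit 127720936162837947922) (ZL.cons (nat_lit 8232) (nat_lit 3) (nat_lit 63827476763950526135) (ZL.cons (nat_lit 8316) (nat_lit 6) (nat_lit 127634901459194662472) (ZL.cons (nat_lit 8400) (nat_lit 6) (nat_lit 127114428977677506076) (ZL.cons (nat_lit 8484) (nat_lit 6) (nat_lit 126724612677333315372) (ZL.cons (nat_lit 8568) (nat_lit 6) (nat_lit 126464991181381489746) (ZL.cons (nat_lit 8652) (nat_lit 6) (nat_lit 126335257208341313270) (ZL.cons (nat_lit 8736)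 (nat_lit 6) (nat_lit 126632913455998878156) (ZL.cons (nat_lit 8820) (nat_lit 6) (nat_lit 126056885366386233856) (ZL.cons (nat_lit 8904) (nat_lit 6) (nat_lit 125609569011663213168) (ZL.cons (nat_lit 8988) (nat_lit 6) (nat_lit 125290434959429298510) (ZL.cons (nat_lit 9072) (nat_lit 6) (nat_lit 125099105490637159884) (ZL.cons (nat_lit 9156) (nat_lit 3) (nat_lit 62517677076266939530) (ZL.cons (nat_lit 9240) (nat_lit 6) (nat_lit 125705088396821017128) (ZL.cons (nat_lit 9324) (nat_lit 6) (nat_lit 125075383391174084994) (ZL.cons (nat_lit 9408) (nat_lit 6) (nat_lit 124572511428355576402) (ZL.cons (nat_lit 9492) (nat_lit 6) (nat_lit 124195877321742831760) (ZL.cons (nat_lit 9576) (nat_lit 6) (nat_lit 123945035296668604102) (ZL.cons (nat_lit 9660) (nat_lit 6) (nat_lit 123819688462813361128) (ZL.cons (nat_lit 9744) (nat_lit 6) (nat_lit 124850328131228719118) (ZL.cons (nat_lit 9828) (nat_lit 6) (nat_lit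 124168761370959286662) (ZL.cons (nat_lit 9912) (nat_lit 6) (nat_lit 123612212492106490236) (ZL.cons (nat_lit 9996) (nat_lit 6) (nat_lit 123180022777398257690) (ZL.cons (nat_lit 10080) (nat_lit 6) (nat_lit 122871680697945200048) (ZL.cons (nat_lit 10164) (nat_lit 6) (nat_lit 122686821307807868042) (ZL.cons (nat_lit 10248) (nat_lit 3) (nat_lit 61312612906027952946) (ZL.cons (nat_lit 10332) (nat_lit 6) (nat_lit 123335946250693758544) (ZL.cons (nat_lit 10416) (nat_lit 6) (nat_lit 122727535617218461796) (ZL.cons (nat_lit 10500) (nat_lit 6) (nat_lit 122241668986475941416) (ZL.cons (nat_lit 10584) (nat_lit 6) (nat_lit 121877771298927395870) (ZL.cons (nat_lit 10668) (nat_lit 6) (nat_lit 121635411854411233880) (ZL.cons (nat_lit 10752) (nat_lit 6) (nat_lit 121514303802377182698) (ZL.cons (nat_lit 10836) (nat_lit 6) (nat_lit 122575952331322113898) (ZL.cons (nat_lit 10920) (nat_lit 6) (nat_lit 121917433722366140514)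 (ZL.cons (nat_lit 11004) (nat_lit 6) (nat_lit 121379705337001119812) (ZL.cons (nat_lit 11088) (nat_lit 6) (nat_lit 120962130733418286432) (ZL.cons (nat_lit 11172) (nat_lit 6) (nat_lit 120664215680806636538) (ZL.cons (nat_lit 11256) (nat_lit 6) (nat_lit 120485607574393755372) (ZL.cons (nat_lit 11340) (nat_lit 3) (nat_lit 60213047509055833170) (ZL.cons (nat_lit 11424) (nat_lit 6) (nat_lit 121887880103133019140) (ZL.cons (nat_lit 11508) (nat_lit 6) (nat_lit 121180947991297164944) (ZL.cons (nat_lit 11592) (nat_lit 6) (nat_lit 120593111630451467606) (ZL.cons (nat_lit 11676) (nat_lit 6) (nat_lit 120123675272246133904) (ZL.cons (nat_lit 11760) (nat_lit 6) (nat_lit 119772083303600196176) (ZL.cons (nat_lit 11844) (nat_lit 6) (nat_lit 119537919589091827106) (ZL.cons (nat_lit 11928) (nat_lit 6) (nat_lit 119420906978430908090) (ZL.cons (nat_lit 12012) (nat_lit 6) (nat_lit 121270915181122095872) (ZL.cons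 (nat_lit 12096) (nat_lit 6) (nat_lit 120517206738001332680) (ZL.cons (nat_lit 12180) (nat_lit 6) (nat_lit 119880956874275754530) (ZL.cons (nat_lit 12264) (nat_lit 6) (nat_lit 119361412540589744192) (ZL.cons (nat_lit 12348) (nat_lit 6) (nat_lit 118957958817321306142) (ZL.cons (nat_lit 12432) (nat_lit 6) (nat_lit 118670118186778649238) (ZL.cons (nat_lit 12516) (nat_lit 6) (nat_lit 118497549968022242318) (ZL.cons (nat_lit 12600) (nat_lit 3) (nat_lit 59220024956821706167) (ZL.cons (nat_lit 12684) (nat_lit 6) (nat_lit 120724327341106287688) (ZL.cons (nat_lit 12768) (nat_lit 6) (nat_lit 119925424375004936094) (ZL.cons (nat_lit 12852) (nat_lit 6) (nat_lit 119242398179994448948) (ZL.cons (nat_lit 12936) (nat_lit 6) (nat_lit 118674440343428557798) (ZL.cons (nat_lit 13020) (nat_lit 6) (nat_lit 118220878644679443112) (ZL.cons (nat_lit 13104) (nat_lit 6) (nat_lit 117881176259514285886) (ZL.cons (nat_lit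 13188) (nat_lit 6) (nat_lit 117654931124723591132) (ZL.cons (nat_lit 13272) (nat_lit 6) (nat_lit 117541875462249273244) (ZL.cons (nat_lit 13356) (nat_lit 3) (nat_lit 58857591781410169795) (ZL.cons (nat_lit 13440) (nat_lit 6) (nat_lit 117749504805849479306) (ZL.cons (nat_lit 13524) (nat_lit 6) (nat_lit 117852509156697971584) (ZL.cons (nat_lit 13608) (nat_lit 6) (nat_lit 118024318528727931794) (ZL.cons (nat_lit 13692) (nat_lit 6) (nat_lit 118265136271196110370) (ZL.cons (nat_lit 13776) (nat_lit 6) (nat_lit 118575247409932964820) (ZL.cons (nat_lit 13860) (nat_lit 6) (nat_lit 118955018984692072578) (ZL.cons (nat_lit 13944) (nat_lit 6) (nat_lit 119404900483569163024) (ZL.cons (nat_lit 14028) (nat_lit 6) (nat_lit 118676679765578087476) (ZL.cons (nat_lit 14112) (nat_lit 6) (nat_lit 118061945597727287330) (ZL.cons (nat_lit 14196) (nat_lit 6) (nat_lit 117559970396098291832) (ZL.cons (nat_lit 14280)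 (nat_lit 6) (nat_lit 117170160035452457970) (ZL.cons (nat_lit 14364) (nat_lit 6) (nat_lit 116892053146039262894) (ZL.cons (nat_lit 14448) (nat_lit 6) (nat_lit 116725320567530657172) (ZL.cons (nat_lit 14532) (nat_lit 3) (nat_lit 58334882479717584634) (ZL.cons (nat_lit 14616) (nat_lit 6) (nat_lit 116710618946388441270) (ZL.cons (nat_lit 14700) (nat_lit 6) (nat_lit 116780462675952740590) (ZL.cons (nat_lit 14784) (nat_lit 6) (nat_lit 116920232800365123058) (ZL.cons (nat_lit 14868) (nat_lit 6) (nat_lit 117130094748033709616) (ZL.cons (nat_lit 14952) (nat_lit 6) (nat_lit 117410296906287866462) (ZL.cons (nat_lit 15036) (nat_lit 6) (nat_lit 117761170915363208420) (ZL.cons (nat_lit 15120) (nat_lit 6) (nat_lit 118183132060922650750) (ZL.cons (nat_lit 15204) (nat_lit 6) (nat_lit 117523203370091262202) (ZL.cons (nat_lit 15288) (nat_lit 6) (nat_lit 116974451837177357708) (ZL.cons (nat_lit 15372) (nat_lit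 6) (nat_lit 116536227973651643034) (ZL.cons (nat_lit 15456) (nat_lit 6) (nat_lit 116208013108757771322) (ZL.cons (nat_lit 15540) (nat_lit 6) (nat_lit 115989418775626665278) (ZL.cons (nat_lit 15624) (nat_lit 6) (nat_lit 115880186251496889540) (ZL.cons (nat_lit 15708) (nat_lit 3) (nat_lit 57887173178558114975) (ZL.cons (nat_lit 15792) (nat_lit 6) (nat_lit 115809868843651389554) (ZL.cons (nat_lit 15876) (nat_lit 6) (nat_lit 115916478346779579064) (ZL.cons (nat_lit 15960) (nat_lit 6) (nat_lit 116094301046830587880) (ZL.cons (nat_lit 16044) (nat_lit 6) (nat_lit 116343547410285152708) (ZL.cons (nat_lit 16128) (nat_lit 6) (nat_lit 116664512438877797062) (ZL.cons (nat_lit 16212) (nat_lit 6) (nat_lit 117057576018753473592) (ZL.cons (nat_lit 16296) (nat_lit 6) (nat_lit 116463629962858980696) (ZL.cons (nat_lit 16380) (nat_lit 6) (nat_lit 115978629768048357026) (ZL.cons (nat_lit 16464) (nat_lit 6) (nat_lit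 115602001400274604502) (ZL.cons (nat_lit 16548) (nat_lit 6) (nat_lit 115333299091662821822) (ZL.cons (nat_lit 16632) (nat_lit 6) (nat_lit 115172204812910545762) (ZL.cons (nat_lit 16716) (nat_lit 3) (nat_lit 57559263948438128964) (ZL.cons (nat_lit 16800) (nat_lit 6) (nat_lit 114939578889316073886) (ZL.cons (nat_lit 16884) (nat_lit 6) (nat_lit 115011867149415123680) (ZL.cons (nat_lit 16968) (nat_lit 6) (nat_lit 115156529228181939538) (ZL.cons (nat_lit 17052) (nat_lit 6) (nat_lit 115373736344018926624) (ZL.cons (nat_lit 17136) (nat_lit 6) (nat_lit 115663745577811978960) (ZL.cons (nat_lit 17220) (nat_lit 6) (nat_lit 116026900177204957886) (ZL.cons (nat_lit 17304) (nat_lit 6) (nat_lit 115496705459413745814) (ZL.cons (nat_lit 17388) (nat_lit 6) (nat_lit 115073300760355084294) (ZL.cons (nat_lit 17472) (nat_lit 6) (nat_lit 114756184948863420802) (ZL.cons (nat_lit 17556) (nat_lit 6) (nat_lit 114544982694630468106)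 (ZL.cons (nat_lit 17640) (nat_lit 6) (nat_lit 114439444023973679950) (ZL.cons (nat_lit 17724) (nat_lit 3) (nat_lit 57084281379809599323) (ZL.cons (nat_lit 17808) (nat_lit 6) (nat_lit 114205328533183088836) (ZL.cons (nat_lit 17892) (nat_lit 6) (nat_lit 114315669368920764978) (ZL.cons (nat_lit 17976) (nat_lit 6) (nat_lit 114499715863473559106) (ZL.cons (nat_lit 18060) (nat_lit 6) (nat_lit 114757685849649033700) (ZL.cons (nat_lit 18144) (nat_lit 6) (nat_lit 115089884654242420608) (ZL.cons (nat_lit 18228) (nat_lit 6) (nat_lit 114621285432203170686) (ZL.cons (nat_lit 18312) (nat_lit 6) (nat_lit 114257393289426598198) (ZL.cons (nat_lit 18396) (nat_lit 6) (nat_lit 113997777532313764690) (ZL.cons (nat_lit 18480) (nat_lit 6) (nat_lit 113842130886176299898) (ZL.cons (nat_lit 18564) (nat_lit 3) (nat_lit 56895134565776899788) (ZL.cons (nat_lit 18648) (nat_lit 6) (nat_lit 113495907899238175746) (ZL.cons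 (nat_lit 18732) (nat_lit 6) (nat_lit 113570726248440692284) (ZL.cons (nat_lit 18816) (nat_lit 6) (nat_lit 113720451499964346696) (ZL.cons (nat_lit 18900) (nat_lit 6) (nat_lit 113945260864855628332) (ZL.cons (nat_lit 18984) (nat_lit 6) (nat_lit 114245420421831437498) (ZL.cons (nat_lit 19068) (nat_lit 6) (nat_lit 113836333756074276608) (ZL.cons (nat_lit 19152) (nat_lit 6) (nat_lit 113529941667676534104) (ZL.cons (nat_lit 19236) (nat_lit 6) (nat_lit 113325881518659188500) (ZL.cons (nat_lit 19320) (nat_lit 6) (nat_lit 113223911788556011542) (ZL.cons (nat_lit 19404) (nat_lit 3) (nat_lit 56441382797569620939) (ZL.cons (nat_lit 19488) (nat_lit 6) (nat_lit 112920818170777868226) (ZL.cons (nat_lit 19572) (nat_lit 6) (nat_lit 113035020935766363034) (ZL.cons (nat_lit 19656) (nat_lit 6) (nat_lit 113225509057628504954) (ZL.cons (nat_lit 19740) (nat_lit 6) (nat_lit 113492507993320121162) (ZL.cons (nat_lit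 19824) (nat_lit 6) (nat_lit 113140921381941790256) (ZL.cons (nat_lit 19908) (nat_lit 6) (nat_lit 112890084901639535656) (ZL.cons (nat_lit 19992) (nat_lit 6) (nat_lit 112739701668656477886) (ZL.cons (nat_lit 20076) (nat_lit 3) (nat_lit 56344796846587900625) (ZL.cons (nat_lit 20160) (nat_lit 6) (nat_lit 112365175921057764342) (ZL.cons (nat_lit 20244) (nat_lit 6) (nat_lit 112442612912482368960) (ZL.cons (nat_lit 20328) (nat_lit 6) (nat_lit 112597578547809351276) (ZL.cons (nat_lit 20412) (nat_lit 6) (nat_lit 112830256240471827768) (ZL.cons (nat_lit 20496) (nat_lit 6) (nat_lit 112534225237188984766) (ZL.cons (nat_lit 20580) (nat_lit 6) (nat_lit 112337065672921018000) (ZL.cons (nat_lit 20664) (nat_lit 6) (nat_lit 112238544194560460552) (ZL.cons (nat_lit 20748) (nat_lit 3) (nat_lit 55951570927535887355) (ZL.cons (nat_lit 20832) (nat_lit 6) (nat_lit 111942526270857752980) (ZL.cons (nat_lit 20916)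 (nat_lit 6) (nat_lit 112060726132620845106) (ZL.cons (nat_lit 21000) (nat_lit 6) (nat_lit 112257881338748161994) (ZL.cons (nat_lit 21084) (nat_lit 6) (nat_lit 112015527251499606826) (ZL.cons (nat_lit 21168) (nat_lit 6) (nat_lit 111870229441854140382) (ZL.cons (nat_lit 21252) (nat_lit 3) (nat_lit 55910907969487129785) (ZL.cons (nat_lit 21336) (nat_lit 6) (nat_lit 111534169120906051182) (ZL.cons (nat_lit 21420) (nat_lit 6) (nat_lit 111614316407030516960) (ZL.cons (nat_lit 21504) (nat_lit 6) (nat_lit 111774705839593943658) (ZL.cons (nat_lit 21588) (nat_lit 6) (nat_lit 111584213506967888812) (ZL.cons (nat_lit 21672) (nat_lit 6) (nat_lit 111489023672803099004) (ZL.cons (nat_lit 21756) (nat_lit 3) (nat_lit 55608529070681413988) (ZL.cons (nat_lit 21840) (nat_lit 6) (nat_lit 111257821011701315484) (ZL.cons (nat_lit 21924) (nat_lit 6) (nat_lit 111380157868626115834) (ZL.cons (nat_lit 22008) (nat_lit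 6) (nat_lit 111239773511480737624) (ZL.cons (nat_lit 22092) (nat_lit 3) (nat_lit 55596498590097914314) (ZL.cons (nat_lit 22176) (nat_lit 6) (nat_lit 110990818007638768914) (ZL.cons (nat_lit 22260) (nat_lit 6) (nat_lit 111073770448777590994) (ZL.cons (nat_lit 22344) (nat_lit 6) (nat_lit 110981799594512093596) (ZL.cons (nat_lit 22428) (nat_lit 3) (nat_lit 55406495688397295332) (ZL.cons (nat_lit 22512) (nat_lit 6) (nat_lit 110855180947594925236) (ZL.cons (nat_lit 22596) (nat_lit 3) (nat_lit 55404993212307168417) (ZL.cons (nat_lit 22680) (nat_lit 6) (nat_lit 110724130648035655982) (ZL.cons (nat_lit 22764) (nat_lit 1) (nat_lit 18446744073709551617) ZL.nil)))))))))))))))))))))))))))))))))))))))))))))))))))))))))))))))))))))))))))))))))))))))))))))))))))))))))))))))))))))))))))))))))))))))))))))))))))))))))))))))))))))))))))))))))))))))))))))))))))))))))))))))))))))))))))))))))))))))))))))))))))))))))))))))))))))))))))))))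

noncomputable def vl : XL := ⟨(nat_lit 0), (nat_lit 0), (nat_lit 536870912), (nat_lit 0), (nat_lit 0), (nat_lit 0), (nat_lit 0), (nat_lit 0), (nat_lit 0), (nat_lit 1), (nat_lit 0), (nat_lit 1), (nat_lit 0), (nat_lit 0), (nat_lit 0), (nat_lit 0)⟩

noncomputable def cp0 : Nat := (nat_lit 8412065136921651605059173528791422692811128890921383487947495904307670345036459024403772614873298741920132909825684042947834002257749151177327925180167056013427701257993267255345471688241145814079644621755845136012067952839481109782669383632753620878494145167603793461991257922619472227422661711619708161873752215614596409950159952869289977157525483071414165290929666488957310332786120310933471340686701722200738900597758670641363260201179438282114389529370272921124621732704915012714948302329488687859353546981813264001033803056139298496381247381094968972595610339730998838808773472702299062787549820973540671119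38284491967460184358305815146209647349202775733203482156456233008482040031468286300169253517859379897102939452895927948925800051815839845098758142187440053076379622552240400599724266115365527813515581227866546060651381010722764605246203442820594434476589004892700331999015284437103251182179972780529505978666250266348735855242278690807711482721400182201088027138736314931618311027536175011882152505915939848044432605434545757033800833164041443009625171327780185776261559838056736712897728237941977324766691980993232505095736688405190111268607164799289104463968950534477149800059688335087196917744526108160846597101516286194887263468499408341301257049585526415390573897095566708515319527283495057944891464043530289070420195248530908734580436098302759812351904490410199533871136142102753770698593441531012849176863080075698016646582273716096137310698823452525250693655235393891232746678534625056032624755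74881103373520863740118469176737356778950026453175833168616792827049560181820075514584386021372000961754124421573432908137882660209401122255660561152679173757525887851659431654180243924834217657426109692437891595726779729646048563404797283233895282423636043987662846613840161181709263956448176369976362550885093622361010306882370313349888051206790901994967472393092305932564530960713557035651487364754771466164626275170449421750837828689764705073674724795000521520666712961331531213787433025290529876403472753887054916750299534923031884018957896196583318424186688945420814406748986345648641591773114398789117317420065927955160812243688675792395415450554771989242152410238064275582240346443444635304408573001657755032573668806433492129588462955131599615755539040638708044916492486095030752284284124174528942764804737893509211790667459787635114393723059063428837402526484888792522860330085908948483022558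79729266053532511556436343723893283390057371410667914635324304848019998825293265629533793846152256087573068809023632574130410192329400175594366049125208275144009959915000187655827333631482617299941850483564250795722457210888656092326944770720453573921346541485847956747643926538209269866178014489096212935118707016853781754340587388244235862122693010239158641630441658434721918446504827811783313701697939752097075802305450363272461727629421235782974815446048403763156306840999925762086110045599295718987597885334586734558823310243089100844974750503661364359965255064504890626314384186541543311825652413797155033619511306182120204654148452974430849483620350675141739448194165255403686722242145221399987563490192416036134304552181291042098743126825605599475776407961761619303663294418141561132382154495333893670450390090398412747092468510501648812194324213005564598958075416073260748867739474944706213795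88020132244665338795402050522069521780710123183221035706711185391140382429941639838774746653314774630856274172811691537574580586699291689953356187370974317984396398056564753119253204271764124205802847655398419748758264205753048049629714558511423611300729848533036428040634403548571967582268811677152791848098369129864337302125243515046039014369338261794508276646992587278015514539800016656761557701593989668350108899264030866877688479588987655818780495683700806213822896688912618026435472856786846435902997918168270189159007363609350557372003090713645715745996335334834678421195281154061210918838743528351106592403748381465563461202050946269217388100514820058708893876018560699372428532548936377097360800781458965123245259989598790398959197728451956977893178919082114393303589378713720950237216484114587486183730123222068767014261793959546042704510551354268020563589848424518363101575044028675459364410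39417460878141451412054337270148511035660797168822680218765850791422446833722138824406446579895124933245842970354165356810027284099346388623783317309425386080261420234073932422416478735342245287577283937472223588941623255529732752914763401103227175529631315965922632151753629782271280586259372783388437470878005173951288525553601348566975339028171470807864745509065752575742873884658331733136055313755477797517902959258644950163854274620737421716776195124239037929277827304060258723447266128562118774551217626028060447757739722845252057702671409963649473459789843675330463570045470260225895363706415351244451997515044682418459496892582691441835852616050781516176429201201851574007188473034841591765925731972003358042598164369147672018791873501276515435604348988234812299096215674577217132676059545453738380286199020235439740080807241913261118196595871981685543988008715379263038637082626427745381884204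03109542052710269324170196938072238335877492245459825464433476886253689666180602422659365006444088658957447150370496241790843866902198190533911533584832915850310113830824556349007662585245855795548946742540442583822712282437590493353242511132998991883049818194464506802497181774133157421978501189667280396078286746146947248285600036541201703188573644723151084732851385877533561973027976745453198395276761467457799513392600614499595425023911757945608020304190251482676491509263462253236870040846480274284890707242778035181489297560849477063108581005149974384636224345788391600081237183148531692139459647363055747291782404538754251683407965016011265379143092835588877212525801585393869016956160173515774737884923736985394896202773042113422027217613384787542074873140000862586566280281424492107690807008112057783295289257760676265733957073051007103057598337478505857020718468501344418451484640069215193999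67394614951070967599311679115256331493606761653297413319202926368134218044932287674752155130457156174785874656008860471452453509829302353409619630990506188599089806757530337116082321073375651934183779643732085821675321528149758859251913436318137104458081068334527381745326923023656445122540574506047885057989090959424730496197992059933039613360462617742143088679493183478533434174980122244196416953428704887040924722022390949711756554464628541448290852702115923762791766008442702016288894483011781085133420060694257462231336626687672277318228079026821237002760054499027911424026306857424995308056252213862968999496563824101665303668400287700088950439853362710443643109517446169626326928529117475533056896242900808261434377173749848782994378128971380813378231093344584122808458562925917286770024028671707984559999401900701336843812110528348675620228)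

noncomputable def cp1 : Nat := (nat_lit 15562420535332757974608069732290168826981026388128593650579667635162248538158184988450835274913797276808374810505520514508174131159563740491551001411332094200947121671869755057644195170699052221922797529820242093822470007868793013120730760814241773492555249437420864424230062763858947270916826898574852160639102288037116959843064616680837329565689543509463167114497476974056148413412605453038904843932665879753647330538499910842274465625566573450132225124700474206401584438577111404558282398694788539951607212967879466572849071492378334570409300192405788503715187399981012421368994866981673141411060731616640233320241028539978554925532270877253431885360631836043727970586588106348255239783840324959977705337930091248725096727026385180226881350873384997970805927733894735901563448106475345786354904021376723195808671003957015372649551833648545502563496252295865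76301535749416806138147584468970118212542770701657163190050903321752446093228055445243048488985142290558965937139181265272479826278947998803752207644043548428110625666259516543028317808940059157503609259627493300634642013951422315341529476703467964063252467735693226065374568962268411808428359098585262318234547919609092797780588403834991830234715648645849137858092880553563009747165597116408865988966585899019793225920144384021179477211192505116112019042437085159776187613272257273525702002201352351476441843416261202527584399891118289019423294213195615132637769645527846855012395656242163482237231070945121831636847570239059870354143098807562138761474295956306420437035308616417746352706618731275079934291156127714507568975534569326841233352639333573041390461407744763817668943652218668107536692408343080013899418190901543297640983725955506068089460804789741640750575370912309298497474411430994054770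72172491747083916247335292396560754310647879385274459596355150042694667207588510315415263282071126105189216111421629018131249622951722533997458567353541054897883527992379624388441225528477815895844658278332587215430081289296777269742096842029033363963910766790679121236299416940399888743622111985776452738768360583342395045392973066742936139003054664173535703425823664172173488452768220251029462661158090770829997764002467671113315175315124570161090374011371710944276540806731611282299708099302335685503268441718625732374395620917321109579977725943914144371933265653413841749127224622402735939841040044567095759259867650675346347466866987946737925936668032466311449604745910607604510406104155964146407239307074853993630795085224342804939321275217477940403512376801746230315684006084172848040163992256148448498525878452323814462523184824854081104919133310309709984570410990439718553751739833745933185727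89036216177973190318879472266661518761195905949948518867574046029702179800445066463179789949160579065297518948854637909909243593362934307679189852989418663857896552790209854811672768239311437605902864850540419324364443246621450188128890943417523646523699163516128605490322972201888122141176294295876929696595483621869431046608001330303009626159201653560919283509006793060154171324064668458148436108003383161865458441271222405440923881062329371950089281835803180315285843134182944334134033642591323640237975912196665527228183436825437665993073290584157708066002655367447115956355466790673465153266059169556451805443565475826501525972170226902591680118663929152554627452712807854936045872665003125409594971545359354696039190518181591319809586854116315752166005519749743334706878417117587364115991477601252529879072561762344438673687939956526008587878243688887410129878950883048414518748514039359309479622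84147670153257323426912881109772268722267453566075180775361323644521142665215218936751041811752694118725359542075323734804320471698070348126019068525350123453437032094683628951034683177929219069101864855289238980349570056467445283736250540812465561761316948405527510988944290274064504412217652804100000117704105981838162744646227989424551337149784381587601660429000768195688986084271093989562010793766774895823083996788300948281222477931880168849078159109510372681624050564335060170863518488266584395389807513874171647132782970743358330887974064055344089128163869411805810061578036947876827476860181800472586393020343653809394516838204248685413414194449323302723713547036094196239442628682604009234843332093862882831295477925200537701013648082287049337010011249550036020672353569440882296424663229161318824451345284418097353016377254004760313576388476322687717519313588949564349507509779136378298591577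70666538299903827887041428522491883545339648850532532620736246054639209438680383294424822099081361155477439816279081754417135151460075179470286695955873760586481431800009751168710151249805537644530240329861835919856873432738303832597611411328636496701723259065158916254109519630768583827883218715599450423453829115098034354795154305326065834961334636901544201153345767585556729363032106106337953052631569789201172726287403241730822654487811335420165899769758994364160816213040400378552144004295758678827188371079751151761214155343637184531619652411412571028557158996129106509188660162644238938928462106920799059144261281007243980028267581738076849142707232391151055977051787318087867746392547120971096630876413257533633263203117682028755238560781212699392268539717784065171447677523242450696245985685100764827583797335701713275677186398014379143042423359261129583452066760613764973860648534003729824048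58945361823237593720603713622984944299185984632044971221920048326731739125535332174520679728068687579940050685082156902209703697565733730141852443814546918721557152570047624986032257767904075938360127189047724939712154589031714744676319164583376043367269548147027711251917412082915243557392338326088445780158148124204635405859795974349412313363078650701677159059103375363031922657656459789540605925734513706928840429800530824463350887932841584004538203015373635385308360971237928564640643331664104223695781620860553487115312451499609540106153268795233928496607090068609844193092918784759415091321034127864547053708200000694563782750141146335016057271987123591612664038014575523174696933824368135725387264866428300043962916578293145142451191751393384345449035572807395453199306275923596583317089378932376282383658664034672128670383009751072622403379077373193613156667440601155651453448794199866354638932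25502839902165132933580808526411453060876014909514852406822926872453550921222320047167115391954553613736717476917913727700843718624112739018869410325002680462437026840954928610831520428030266903902002776001046265007411482696907569224684316796693473052772677822057725941173918808131207205383142480585817182305628579626977468730442184052065545139150124465389748822061867149020059407093316407613393574821255739909656887903191750619978054615473247336175554877275924082564692837748549320067809177688896805549655106148821247324838163083446614326456881461413813641082108628216156869064213655481214232348852224)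

noncomputable def rc0 : Nat := (nat_lit 15258378021616678786188994077555116550542237205689412173670528026023043110668422287693829080632685347358612663978559388706592014135700947786235383236464855714503753031020687104937173979884491907449682666302685141536690116456136607815106933472137793775172035012684635422850404224595416218456020399459252413292954200438073915768898295554521448173983843551087881097862646306019095990828677991014504098511364193692647698930198645024846232577061694468987457555204347019905300964681453015153134073675984924186374508278196149924976975327241280378804033191181906368426574497006871019554913791244038780405113108674602573007917198200988632525385182377194677238777071022558895646795037435001014545669995877651011189166692241487000691141311048641937190964936824377918937570415825286917266354765735977320864582730977639441547959497134453799259552505886888985270542432889169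66845284395572468267904260193500175551257744676641197239837398280382345458631880344833513127740660715571314830671369301094343738780976758821496754765521471660102391685992443071252816672529685379054266569160617041310727905863893815321171900362902344859016361726606599848959761894161369637455864234095035202417942642655965865806857583989510102501576514708121009662043607556800699975393581929904947495022906517194776138087020056091476873867258111346553638564612614962439569661825652726990449196207620612177903061533217892458392885005908374779203290738490708772725971296212889768788679006380654041346742022786807162850294800743521529728245618722639765996047764135913757776983652728875267853200296697667701811619926711070618868712600780545491185307150739251838158037481437952954616495548666075318387792084938547436325002391074366110642131112741141496435973254804960744576097765234486347832489732345752715260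17509708786581532022734335074963188007235270710619116065637768199554078202969138100394941226859923430208282855852732736395255745070690470969215407692236891183588917303959566804754047971357220337974423335203713399155219271246568557007777091249080064011663632044362666709586359839605858396993394854979925664023772751790751800802220984609780323094628869153845621099884283688179573017655757683640142487007316072790105389611071877179795039877716127015293530998899919368642626999344720091216506709203898096603471376092327638337714871695216334713796103365323179234552780037044059697579273209259202881514768981481549618230038080198179130250650694779945765852631400005430144144017347847716313014500402846099305757949685640174524430103456659594873825361403314888686611276403344432733516606220167096588703403479444990739407087034511627295370360240863695165632270461408004046040047028243190923194921575958801736902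86060183960535517771418571211483563484011836671002518856854415344204298301273227089962979808066748772264508170554061993004543880901000614089518058917510971668490420246050194912878191342197574586206939106769477621757276407430275965043513873319121161954401967736560048286754704956552193167542539659694530190385399741946829774191293970896097387666064849073090241296958057680216653082852517527662269022508961752780399960743551006663507591217695747698565023844075464396378772304912637177897821298786469765269189867534113615328202453977637259655696935024316440560664999546818297235960928616145120847487883841777370645679591412242292911169667198822012453582398978473508314913589692818512714227305768693720088069144807546335567871929259123740755247752195463117665869138495474391998864565395142613717833186464507946522809890955504855394078584732862490379514896710947658254568437151447505894679212625883465888092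72690088569670080471974539717037034009418750490111692389709390057402361471401420316081801928053761630658581010491584271919664252486335516083343581368461645854652035403047799896662123100922428892611614652783002715239990515772772773457070071370370031859559397361918494671900534485027873764635079725017000435455278070753035758599557076037163124927254791162277157345148891826634917277634437227855375641888371195175976706079352776865943085428689536384452719036469056246104531739081052389918510502870326841174080049293238892937435402217560361268627004937745928988862350937050323343743956237650344016677507183560608550459054931018604892455477889670298983139781881431642485101980685152543901978057941924720677843326867376906849405749565854665805307530119588700329162522291877324241428136487715731780159319621315122415078827721203333708484272456718346643983405278325122254005043622522400942466058010877192078801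58766561159849289340056348831686327415237546507752295214910115079383326490236868931570416187285786835406724837729322539965379291246905525989197966250568780138691970832251266291518041243771773368729375597933612294716039350650382207261986175154124213271773380956459269151521146951785459906486933857006253036156910968715316947041145943089965673990954435160031623361306010839690796020341135112756058533141984448622964901568771071145620862044157889269185650857082134015305387628448133441296246060972310951473999877321503216980526600468313211153637733600686719054107984230503814988854427035226392771919776057855521972523234478721238544615946229633324706905519023906233216674164111452109381202875452077469162977673806336077264602155156822977476123148780899180388144781580273506928413059765042956891124730736592543149590916140444634313411338068786979823717984585886836870267893265661711967724875519748963110817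49997695959114097223354925815603270333879490601258780080650038738702992542231724180393746569280116960492195259551855092860425564534015575035171632999501522427069548187102401042693704166376142843013715730886160867374774512768776446699352402122868926028822802951859830852198855176479026533222626102055363344595513254936266148400359968650944799066664901219511327744185855808696878350016575378799542739561527129561932811891912637613866900440057552337515426131825620741234586659604420224241996373817021929883139960657892709060047138557153853284175045205405268716190256608181132875237980248719869398840989101960918236006098390579230313534878906811922758529702828946943713548933451217916796645476363013969033526044532903593648060315122573872168267963818182136181419811734063972913783942520559543373903187382878000904341562661705294524276281315735333473960495159290844253512898952154525659015810705524929232031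26840864985451362813638825158895907602165117642266526665433685996539026746027450882567773539870576195254878579385905744576110410561409549659020531459656959004655949381067204862646138637253115247357325624197547838559659679378320582959704557417587718041919572622808985280895542839885377601924277166724895542155472269760055346375417324386231807843265106779193031580039712805249515899770174736954297115759028841400095869010668763110628119245016385786842514565574958916764227739642883829998371779221780199814496762871065306846809288891443259632456751933453806802350243158244750181776759878183982259033341952)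

noncomputable def rc1 : Nat := (nat_lit 15562420535332757974608069732290168826981026388128593650579667635162248538158184988450835274913797276808374810505520514508174131159563740491551001411332094200947121671869755057644195170699052221922797529820242093822470007868793013120730760814241773492555249437420864424230062763858947270916826898574852160639102288037116959843064616680837329565689543509463167114497476974056148413412605453038904843932665879753647330538499910842274465625566573450132225124700474206401584438577111404558282398694788539951607212967879466572849071492378334570409300192405788503715187399981012421368994866981673141411060731616640233320241028539978554925532270877253431885360631836043727970586588106348255239783840324959977705337930091248725096727026385180226881350873384997970805927733894735901563448106475345786354904021376723195808671003957015372649551833648545502563496252295865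76301535749416806138147584468970118212542770701657163190050903321752446093228055445243048488985142290558965937139181265272479826278947998803752207644043548428110625666259516543028317808940059157503609259627493300634642013951422315341529476703467964063252467735693226065374568962268411808428359098585262318234547919609092797780588403834991830234715648645849137858092880553563009747165597116408865988966585899019793225920144384021179477211192505116112019042437085159776187613272257273525702002201352351476441843416261202527584399891118289019423294213195615132637769645527846855012395656242163482237231070945121831636847570239059870354143098807562138761474295956306420437035308616417746352706618731275079934291156127714507568975534569326841233352639333573041390461407744763817668943652218668107536692408343080013899418190901543297640983725955506068089460804789741640750575370912309298497474411430994054770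72172491747083916247335292396560754310647879385274459596355150042694667207588510315415263282071126105189216111421629018131249622951722533997458567353541054897883527992379624388441225528477815895844658278332587215430081289296777269742096842029033363963910766790679121236299416940399888743622111985776452738768360583342395045392973066742936139003054664173535703425823664172173488452768220251029462661158090770829997764002467671113315175315124570161090374011371710944276540806731611282299708099302335685503268441718625732374395620917321109579977725943914144371933265653413841749127224622402735939841040044567095759259867650675346347466866987946737925936668032466311449604745910607604510406104155964146407239307074853993630795085224342804939321275217477940403512376801746230315684006084172848040163992256148448498525878452323814462523184824854081104919133310309709984570410990439718553751739833745933185727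89036216177973190318879472266661518761195905949948518867574046029702179800445066463179789949160579065297518948854637909909243593362934307679189852989418663857896552790209854811672768239311437605902864850540419324364443246621450188128890943417523646523699163516128605490322972201888122141176294295876929696595483621869431046608001330303009626159201653560919283509006793060154171324064668458148436108003383161865458441271222405440923881062329371950089281835803180315285843134182944334134033642591323640237975912196665527228183436825437665993073290584157708066002655367447115956355466790673465153266059169556451805443565475826501525972170226902591680118663929152554627452712807854936045872665003125409594971545359354696039190518181591319809586854116315752166005519749743334706878417117587364115991477601252529879072561762344438673687939956526008587878243688887410129878950883048414518748514039359309479622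84147670153257323426912881109772268722267453566075180775361323644521142665215218936751041811752694118725359542075323734804320471698070348126019068525350123453437032094683628951034683177929219069101864855289238980349570056467445283736250540812465561761316948405527510988944290274064504412217652804100000117704105981838162744646227989424551337149784381587601660429000768195688986084271093989562010793766774895823083996788300948281222477931880168849078159109510372681624050564335060170863518488266584395389807513874171647132782970743358330887974064055344089128163869411805810061578036947876827476860181800472586393020343653809394516838204248685413414194449323302723713547036094196239442628682604009234843332093862882831295477925200537701013648082287049337010011249550036020672353569440882296424663229161318824451345284418097353016377254004760313576388476322687717519313588949564349507509779136378298591577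70666538299903827887041428522491883545339648850532532620736246054639209438680383294424822099081361155477439816279081754417135151460075179470286695955873760586481431800009751168710151249805537644530240329861835919856873432738303832597611411328636496701723259065158916254109519630768583827883218715599450423453829115098034354795154305326065834961334636901544201153345767585556729363032106106337953052631569789201172726287403241730822654487811335420165899769758994364160816213040400378552144004295758678827188371079751151761214155343637184531619652411412571028557158996129106509188660162644238938928462106920799059144261281007243980028267581738076849142707232391151055977051787318087867746392547120971096630876413257533633263203117682028755238560781212699392268539717784065171447677523242450696245985685100764827583797335701713275677186398014379143042423359261129583452066760613764973860648534003729824048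58945361823237593720603713622984944299185984632044971221920048326731739125535332174520679728068687579940050685082156902209703697565733730141852443814546918721557152570047624986032257767904075938360127189047724939712154589031714744676319164583376043367269548147027711251917412082915243557392338326088445780158148124204635405859795974349412313363078650701677159059103375363031922657656459789540605925734513706928840429800530824463350887932841584004538203015373635385308360971237928564640643331664104223695781620860553487115312451499609540106153268795233928496607090068609844193092918784759415091321034127864547053708200000694563782750141146335016057271987123591612664038014575523174696933824368135725387264866428300043962916578293145142451191751393384345449035572807395453199306275923596583317089378932376282383658664034672128670383009751072622403379077373193613156667440601155651453448794199866354638932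25502839902165132933580808526411453060876014909514852406822926872453550921222320047167115391954553613736717476917913727700843718624112739018869410325002680462437026840954928610831520428030266903902002776001046265007411482696907569224684316796693473052772677822057725941173918808131207205383142480585817182305628579626977468730442184052065545139150124465389748822061867149020059407093316407613393574821255739909656887903191750619978054615473247336175554877275924082564692837748549320067809177688896805549655106148821247324838163083446614326456881461413813641082108628216156869064213655481214232348852224)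

end Vale.Agent.Lib.P154.Chain.D4.S5
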